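import Mathlib

/-!
# Combinatorial contradiction (S0069 blueprint, definitions)
-/

set_option autoImplicit false

namespace BK
open Finset

/-- the combinatorial facts -/
structure Facts (Q K : Finset (Fin 10) → Prop) : Prop where
  q4 : ∀ s, Q s → s.card = 4
  a2 : ∀ A : Finset (Fin 10), A.card = 3 → ∃ U : Finset (Fin 10),
    (∀ l, l ∈ U ↔ l ∉ A ∧ Q (insert l A)) ∧ Even U.card
  mono : ∀ S S', S ⊆ S' → K S' → K S
  qk : ∀ s, Q s → K s
  sing : ∀ i, K {i}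
  a4 : ∀ s B, Q s → Disjoint s B → B.card = 3 → (K B ↔ ¬ K (univ \ (s ∪ B)))
  a5 : ∀ s P, Q s → Disjoint s P → P.card = 2 → ∃ U : Finset (Fin 10),
    (∀ l, l ∈ U ↔ l ∉ s ∧ l ∉ P ∧ K (insert l P)) ∧ Even U.card
  a6 : ∀ b : Fin 10 → ℕ, (∀ j, K (univ.filter (fun i => b i = j))) →
    ∃ s, Q s ∧ Set.InjOn b s

end BK
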