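import Crest.Agent.BK_B0

set_option autoImplicit false

namespace BK
open Finset

variable {Q K : Finset (Fin 10) → Prop}

/-- enumeration of the complement of `s` -/
private structure V6 (s : Finset (Fin 10)) (v : Fin 6 → Fin 10) : Prop where
  inj : Function.Injective v
  mem : ∀ t, t ∉ s ↔ ∃ i, v i = t

private lemma V6.comp {s : Finset (Fin 10)} {v : Fin 6 → Fin 10} (h : V6 s v) (f : Fin 6 → Fin 6)
    (hf : Function.Injective f) : V6 s (v ∘ f) := by
  have hs : Function.Surjective f := Finite.injective_iff_surjective.mp hf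
  refine ⟨h.inj.comp hf, fun t => ?_⟩
  rw [h.mem]
  constructor
  · rintro ⟨i, rfl⟩
    obtain ⟨j, rfl⟩ := hs i
    exact ⟨j, rfl⟩
  · rintro ⟨i, rfl⟩
    exact ⟨f i, rfl⟩

private lemma V6.not_mem {s : Finset (Fin 10)} {v : Fin 6 → Fin 10} (h : V6 s v) (i : Fin 6) :
    v i ∉ s := (h.mem _).2 ⟨i, rfl⟩

private lemma V6.ne {s : Finset (Fin 10)} {v : Fin 6 → Fin 10} (h : V6 s v) {i j : Fin 6}
    (hij : i ≠ j) : v i ≠ v j := fun e => hij (h.inj e)

private lemma V6.exists {s : Finset (Fin 10)} (hs : s.card = 4) (x y : Fin 10) (hx : x ∉ s)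
    (hy : y ∉ s) (hxy : x ≠ y) : ∃ v, V6 s v ∧ v 0 = x ∧ v 1 = y := by
  have hc : sᶜ.card = 6 := by rw [Finset.card_compl, hs]; rfl
  let e := sᶜ.equivFinOfCardEq hc
  let v : Fin 6 → Fin 10 := fun i => (e.symm i : Fin 10)
  have hv : V6 s v := by
    refine ⟨fun i j hij => ?_, fun t => ?_⟩
    · exact e.symm.injective (Subtype.ext hij)
    · constructor
      · intro ht
        exact ⟨e ⟨t, by simpa using ht⟩, by simp [v]⟩
      · rintro ⟨i, rfl⟩
        have := (e.symm i).2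
        rw [Finset.mem_compl] at this
        exact this
  obtain ⟨i, hi⟩ := (hv.mem x).1 hx
  have h1 := hv.comp (Equiv.swap 0 i) (Equiv.injective _)
  have h10 : (v ∘ Equiv.swap 0 i) 0 = x := by simp [hi]
  obtain ⟨j, hj⟩ := (h1.mem y).1 hy
  have hj0 : j ≠ 0 := by
    rintro rfl
    exact hxy (h10.symm.trans hj)
  refine ⟨_, h1.comp (Equiv.swap 1 j) (Equiv.injective _), ?_, ?_⟩
  · have : (Equiv.swap 1 j) 0 = 0 := Equiv.swap_apply_of_ne_of_ne (by decide) (Ne.symm hj0)
    rw [Function.comp_apply, this, h10]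
  · rw [Function.comp_apply, Equiv.swap_apply_left, hj]

private lemma a4base (h : Facts Q K) {s : Finset (Fin 10)} (hs : Q s) {v : Fin 6 → Fin 10}
    (hv : V6 s v) : K {v 0, v 1, v 2} ↔ ¬ K {v 3, v 4, v 5} := by
  have e : univ \ (s ∪ {v 0, v 1, v 2}) = {v 3, v 4, v 5} := by
    ext t
    have hm := hv.mem t
    simp only [mem_sdiff, mem_univ, true_and, mem_union, mem_insert, mem_singleton, not_or]
    rw [hm]
    constructor
    · rintro ⟨⟨i, rfl⟩, h0, h1, h2⟩
      fin_cases i <;> simp_all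
    · rintro (rfl | rfl | rfl)
      · exact ⟨⟨_, rfl⟩, hv.ne (by decide), hv.ne (by decide), hv.ne (by decide)⟩
      · exact ⟨⟨_, rfl⟩, hv.ne (by decide), hv.ne (by decide), hv.ne (by decide)⟩
      · exact ⟨⟨_, rfl⟩, hv.ne (by decide), hv.ne (by decide), hv.ne (by decide)⟩
  rw [h.a4 s {v 0, v 1, v 2} hs ?_ ?_, e]
  · rw [Finset.disjoint_left]
    intro t ht h'
    simp only [mem_insert, mem_singleton] at h'
    rcases h' with rfl | rfl | rfl
    · exact hv.not_mem _ ht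
    · exact hv.not_mem _ ht
    · exact hv.not_mem _ ht
  · rw [Finset.card_insert_of_notMem, Finset.card_insert_of_notMem, Finset.card_singleton]
    · simpa using hv.ne (by decide)
    · simpa using ⟨hv.ne (by decide), hv.ne (by decide)⟩

private lemma a5base (h : Facts Q K) {s : Finset (Fin 10)} (hs : Q s) {v : Fin 6 → Fin 10}
    (hv : V6 s v) : (K {v 0, v 1, v 2} ↔ K {v 0, v 1, v 3}) ↔
      (K {v 0, v 1, v 4} ↔ K {v 0, v 1, v 5}) := by
  classical
  obtain ⟨U, hU, hE⟩ := h.a5 s {v 0, v 1} hs (by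
    rw [Finset.disjoint_left]
    intro t ht h'
    simp only [mem_insert, mem_singleton] at h'
    rcases h' with rfl | rfl
    · exact hv.not_mem _ ht
    · exact hv.not_mem _ ht) (by
    rw [Finset.card_pair (hv.ne (by decide))])
  have hUe : U = ({v 2, v 3, v 4, v 5} : Finset (Fin 10)).filter
      (fun l => K {v 0, v 1, l}) := by
    ext t
    have e1 : insert t ({v 0, v 1} : Finset (Fin 10)) = {v 0, v 1, t} := by
      ext; simp; tauto
    rw [hU, e1, Finset.mem_filter]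
    have hm := hv.mem t
    rw [hm]
    simp only [mem_insert, mem_singleton, not_or]
    constructor
    · rintro ⟨⟨i, rfl⟩, ⟨h0, h1⟩, h2⟩
      refine ⟨?_, h2⟩
      fin_cases i <;> simp_all
    · rintro ⟨rfl | rfl | rfl | rfl, h2⟩
      · exact ⟨⟨_, rfl⟩, ⟨hv.ne (by decide), hv.ne (by decide)⟩, h2⟩
      · exact ⟨⟨_, rfl⟩, ⟨hv.ne (by decide), hv.ne (by decide)⟩, h2⟩
      · exact ⟨⟨_, rfl⟩, ⟨hv.ne (by decide), hv.ne (by decide)⟩, h2⟩
      · exact ⟨⟨_, rfl⟩, ⟨hv.ne (by decide), hv.ne (by decide)⟩, h2⟩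
  have hc : U.card = (if K {v 0, v 1, v 2} then 1 else 0) + ((if K {v 0, v 1, v 3} then 1 else 0) +
      ((if K {v 0, v 1, v 4} then 1 else 0) + (if K {v 0, v 1, v 5} then 1 else 0))) := by
    rw [hUe, Finset.card_filter, Finset.sum_insert, Finset.sum_insert, Finset.sum_insert,
      Finset.sum_singleton]
    · simpa using hv.ne (by decide)
    · simpa using ⟨hv.ne (by decide), hv.ne (by decide)⟩
    · simpa using ⟨hv.ne (by decide), hv.ne (by decide), hv.ne (by decide)⟩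
  rw [hc] at hE
  by_cases h2 : K {v 0, v 1, v 2} <;> by_cases h3 : K {v 0, v 1, v 3} <;>
    by_cases h4 : K {v 0, v 1, v 4} <;> by_cases h5 : K {v 0, v 1, v 5} <;>
    simp only [h2, h3, h4, h5, if_true, if_false] at hE ⊢ <;> revert hE <;> decide

private lemma a4' (h : Facts Q K) {s : Finset (Fin 10)} (hs : Q s) {v : Fin 6 → Fin 10}
    (hv : V6 s v) (i j k l m n : Fin 6) (hd : Function.Injective ![i, j, k, l, m, n]) :
    K {v i, v j, v k} ↔ ¬ K {v l, v m, v n} :=
  a4base h hs (hv.comp _ hd)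

private lemma a5' (h : Facts Q K) {s : Finset (Fin 10)} (hs : Q s) {v : Fin 6 → Fin 10}
    (hv : V6 s v) (i j k l m n : Fin 6) (hd : Function.Injective ![i, j, k, l, m, n]) :
    (K {v i, v j, v k} ↔ K {v i, v j, v l}) ↔ (K {v i, v j, v m} ↔ K {v i, v j, v n}) :=
  a5base h hs (hv.comp _ hd)

private lemma rot {α : Type} [DecidableEq α] (a b c : α) : ({a, b, c} : Finset α) = {b, c, a} := by
  ext; simp; tauto

private lemma swp {α : Type} [DecidableEq α] (a b c : α) : ({a, b, c} : Finset α) = {a, c, b} := by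
  ext; simp; tauto

private lemma swp' {α : Type} [DecidableEq α] (a b c : α) : ({a, b, c} : Finset α) = {b, a, c} := by
  ext; simp; tauto

/-- a `Q`-set which is in different blocks -/
private lemma star_false (h : Facts Q K) {s : Finset (Fin 10)} (hs : Q s) {v : Fin 6 → Fin 10}
    (hv : V6 s v) (h012 : K {v 0, v 1, v 2}) (h0 : ∀ i : Fin 6, i < 3 → ¬ K {v i, v 3, v 4} ∧
      ¬ K {v i, v 3, v 5} ∧ ¬ K {v i, v 4, v 5}) (h3 : ¬ K {v 3, v 4, v 5}) : False := by
  classical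
  let b : Fin 10 → ℕ := fun t => if t ∈ s then 0 else if t = v 3 then 2 else if t = v 4 then 3
    else if t = v 5 then 4 else 1
  have hb1 : ∀ t, b t = 1 → ∃ i : Fin 6, i < 3 ∧ v i = t := by
    intro t ht
    by_cases h1 : t ∈ s
    · simp [b, h1] at ht
    obtain ⟨i, rfl⟩ := (hv.mem t).1 h1
    refine ⟨i, ?_, rfl⟩
    by_contra hi
    have h2 : v i = v 3 ∨ v i = v 4 ∨ v i = v 5 := by
      fin_cases i <;> first | (exfalso; exact hi (by decide)) | simp
    by_cases e3 : v i = v 3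
    · simp only [b, if_neg h1, if_pos e3] at ht
      omega
    by_cases e4 : v i = v 4
    · simp only [b, if_neg h1, if_neg e3, if_pos e4] at ht
      omega
    by_cases e5 : v i = v 5
    · simp only [b, if_neg h1, if_neg e3, if_neg e4, if_pos e5] at ht
      omega
    tauto
  have hb2 : ∀ t, b t = 2 → t = v 3 := by
    intro t ht
    simp only [b] at ht
    split_ifs at ht with h1 h2 <;> first | exact h2 | omega
  have hb3 : ∀ t, b t = 3 → t = v 4 := by
    intro t ht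
    simp only [b] at ht
    split_ifs at ht with h1 h2 h3 <;> first | exact h3 | omega
  have hb4 : ∀ t, b t = 4 → t = v 5 := by
    intro t ht
    simp only [b] at ht
    split_ifs at ht with h1 h2 h3 h4 <;> first | exact h4 | omega
  have hb0 : ∀ t, b t = 0 → t ∈ s := by
    intro t ht
    simp only [b] at ht
    split_ifs at ht with h1
    exact h1
  have hb5 : ∀ t, b t < 5 := by
    intro t
    simp only [b]
    split_ifs <;> omega
  obtain ⟨τ, hτ, hinj⟩ := h.a6 b (by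
    intro j
    have hj : j = 0 ∨ j = 1 ∨ j = 2 ∨ j = 3 ∨ j = 4 ∨ 5 ≤ j := by omega
    rcases hj with rfl | rfl | rfl | rfl | rfl | hj
    · exact h.mono _ _ (fun t ht => hb0 t (by simpa using ht)) (h.qk s hs)
    · refine h.mono _ _ (fun t ht => ?_) h012
      obtain ⟨i, hi, rfl⟩ := hb1 t (by simpa using ht)
      fin_cases i <;> first | (exfalso; revert hi; decide) | simp
    · exact h.mono _ _ (fun t ht => by
        simpa using hb2 t (by simpa using ht)) (h.sing (v 3))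
    · exact h.mono _ _ (fun t ht => by
        simpa using hb3 t (by simpa using ht)) (h.sing (v 4))
    · exact h.mono _ _ (fun t ht => by
        simpa using hb4 t (by simpa using ht)) (h.sing (v 5))
    · refine h.mono _ _ (fun t ht => ?_) (h.sing (v 5))
      have h1 := hb5 t
      have h2 : b t = j := by simpa using ht
      omega)
  have hτ4 := h.q4 τ hτ
  have hKτ := h.qk τ hτ
  have hI : (τ.image b).card = 4 := by rw [Finset.card_image_of_injOn hinj, hτ4]
  have hIs : τ.image b ⊆ Finset.range 5 := by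
    intro j hj
    obtain ⟨t, -, rfl⟩ := Finset.mem_image.1 hj
    exact Finset.mem_range.2 (hb5 t)
  have hpq : ∀ p q : ℕ, p < 5 → q < 5 → p ≠ q → p ∈ τ.image b ∨ q ∈ τ.image b := by
    intro p q hp hq hne
    by_contra hcon
    push Not at hcon
    have h1 : τ.image b ⊆ ((Finset.range 5).erase p).erase q := by
      intro j hj
      refine Finset.mem_erase.2 ⟨?_, Finset.mem_erase.2 ⟨?_, hIs hj⟩⟩
      · rintro rfl; exact hcon.2 hj
      · rintro rfl; exact hcon.1 hj
    have h2 := Finset.card_le_card h1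
    rw [hI, Finset.card_erase_of_mem, Finset.card_erase_of_mem, Finset.card_range] at h2
    · omega
    · exact Finset.mem_range.2 hp
    · exact Finset.mem_erase.2 ⟨hne.symm, Finset.mem_range.2 hq⟩
  have m1 : 1 ∈ τ.image b → ∃ i : Fin 6, i < 3 ∧ v i ∈ τ := by
    intro hm
    obtain ⟨t, ht, he⟩ := Finset.mem_image.1 hm
    obtain ⟨i, hi, rfl⟩ := hb1 t he
    exact ⟨i, hi, ht⟩
  have m2 : 2 ∈ τ.image b → v 3 ∈ τ := by
    intro hm
    obtain ⟨t, ht, he⟩ := Finset.mem_image.1 hm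
    rw [← hb2 t he]; exact ht
  have m3 : 3 ∈ τ.image b → v 4 ∈ τ := by
    intro hm
    obtain ⟨t, ht, he⟩ := Finset.mem_image.1 hm
    rw [← hb3 t he]; exact ht
  have m4 : 4 ∈ τ.image b → v 5 ∈ τ := by
    intro hm
    obtain ⟨t, ht, he⟩ := Finset.mem_image.1 hm
    rw [← hb4 t he]; exact ht
  have hK3 : ∀ p q r, p ∈ τ → q ∈ τ → r ∈ τ → K {p, q, r} := by
    intro p q r hp hq hr
    refine h.mono _ _ (fun t ht => ?_) hKτ
    simp only [mem_insert, mem_singleton] at ht
    rcases ht with rfl | rfl | rfl <;> assumption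
  by_cases c2 : 2 ∈ τ.image b
  · by_cases c3 : 3 ∈ τ.image b
    · by_cases c4 : 4 ∈ τ.image b
      · exact h3 (hK3 _ _ _ (m2 c2) (m3 c3) (m4 c4))
      · obtain ⟨i, hi, hiτ⟩ := m1 ((hpq 4 1 (by omega) (by omega) (by omega)).resolve_left c4)
        exact (h0 i hi).1 (hK3 _ _ _ hiτ (m2 c2) (m3 c3))
    · obtain ⟨i, hi, hiτ⟩ := m1 ((hpq 3 1 (by omega) (by omega) (by omega)).resolve_left c3)
      exact (h0 i hi).2.1 (hK3 _ _ _ hiτ (m2 c2)
        (m4 ((hpq 3 4 (by omega) (by omega) (by omega)).resolve_left c3)))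
  · obtain ⟨i, hi, hiτ⟩ := m1 ((hpq 2 1 (by omega) (by omega) (by omega)).resolve_left c2)
    exact (h0 i hi).2.2 (hK3 _ _ _ hiτ
      (m3 ((hpq 2 3 (by omega) (by omega) (by omega)).resolve_left c2))
      (m4 ((hpq 2 4 (by omega) (by omega) (by omega)).resolve_left c2)))

/-- no pair has degree four -/
private lemma no_four (h : Facts Q K) {s : Finset (Fin 10)} (hs : Q s) {v : Fin 6 → Fin 10}
    (hv : V6 s v) (k2 : K {v 0, v 1, v 2}) (k3 : K {v 0, v 1, v 3}) (k4 : K {v 0, v 1, v 4})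
    (k5 : K {v 0, v 1, v 5}) : False := by
  -- triples inside X are not faces
  have n345 : ¬ K {v 3, v 4, v 5} := (a4' h hs hv 0 1 2 3 4 5 (by decide)).1 k2
  have n245 : ¬ K {v 2, v 4, v 5} := (a4' h hs hv 0 1 3 2 4 5 (by decide)).1 k3
  have n235 : ¬ K {v 2, v 3, v 5} := (a4' h hs hv 0 1 4 2 3 5 (by decide)).1 k4
  have n234 : ¬ K {v 2, v 3, v 4} := (a4' h hs hv 0 1 5 2 3 4 (by decide)).1 k5
  -- normal forms
  have r1 : ∀ i j k : Fin 6, ({v i, v j, v k} : Finset (Fin 10)) = {v j, v k, v i} :=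
    fun i j k => rot _ _ _
  have r2 : ∀ i j k : Fin 6, ({v i, v j, v k} : Finset (Fin 10)) = {v j, v i, v k} :=
    fun i j k => swp' _ _ _
  have r3 : ∀ i j k : Fin 6, ({v i, v j, v k} : Finset (Fin 10)) = {v i, v k, v j} :=
    fun i j k => swp _ _ _
  -- g(ab) = K{a,b,0} = K{a,b,1}
  have g23 : K {v 2, v 3, v 0} ↔ K {v 2, v 3, v 1} := by
    have := a5' h hs hv 2 3 0 1 4 5 (by decide)
    exact this.2 ⟨fun hh => absurd hh n234, fun hh => absurd hh n235⟩
  have g24 : K {v 2, v 4, v 0} ↔ K {v 2, v 4, v 1} := by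
    have := a5' h hs hv 2 4 0 1 3 5 (by decide)
    rw [r3 2 4 3] at this
    exact this.2 ⟨fun hh => absurd hh n234, fun hh => absurd hh n245⟩
  have g25 : K {v 2, v 5, v 0} ↔ K {v 2, v 5, v 1} := by
    have := a5' h hs hv 2 5 0 1 3 4 (by decide)
    rw [r3 2 5 3, r3 2 5 4] at this
    exact this.2 ⟨fun hh => absurd hh n235, fun hh => absurd hh n245⟩
  have g34 : K {v 3, v 4, v 0} ↔ K {v 3, v 4, v 1} := by
    have := a5' h hs hv 3 4 0 1 2 5 (by decide)
    rw [← r1 2 3 4] at this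
    exact this.2 ⟨fun hh => absurd hh n234, fun hh => absurd hh n345⟩
  have g35 : K {v 3, v 5, v 0} ↔ K {v 3, v 5, v 1} := by
    have := a5' h hs hv 3 5 0 1 2 4 (by decide)
    rw [← r1 2 3 5, r3 3 5 4] at this
    exact this.2 ⟨fun hh => absurd hh n235, fun hh => absurd hh n345⟩
  have g45 : K {v 4, v 5, v 0} ↔ K {v 4, v 5, v 1} := by
    have := a5' h hs hv 4 5 0 1 2 3 (by decide)
    rw [← r1 2 4 5, ← r1 3 4 5] at this
    exact this.2 ⟨fun hh => absurd hh n245, fun hh => absurd hh n345⟩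
  -- complements
  have c1 : K {v 2, v 3, v 0} ↔ ¬ K {v 4, v 5, v 1} := a4' h hs hv 2 3 0 4 5 1 (by decide)
  have c2 : K {v 2, v 4, v 0} ↔ ¬ K {v 3, v 5, v 1} := a4' h hs hv 2 4 0 3 5 1 (by decide)
  have c3 : K {v 3, v 4, v 0} ↔ ¬ K {v 2, v 5, v 1} := a4' h hs hv 3 4 0 2 5 1 (by decide)
  -- parity
  have p2 := a5' h hs hv 2 0 1 3 4 5 (by decide)
  have p3 := a5' h hs hv 3 0 1 2 4 5 (by decide)
  rw [r1 2 0 1, r3 2 0 3, r3 2 0 4, r3 2 0 5] at p2
  rw [r1 3 0 1, r3 3 0 2, r3 3 0 4, r3 3 0 5, r2 3 2 0] at p3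
  have e1 : K {v 2, v 3, v 0} ↔ ¬ K {v 4, v 5, v 0} := by rw [g45]; exact c1
  have e2 : K {v 2, v 4, v 0} ↔ ¬ K {v 3, v 5, v 0} := by rw [g35]; exact c2
  have e3 : K {v 3, v 4, v 0} ↔ ¬ K {v 2, v 5, v 0} := by rw [g25]; exact c3
  have e4 : K {v 2, v 3, v 0} ↔ (K {v 2, v 4, v 0} ↔ K {v 2, v 5, v 0}) := by
    rw [← p2]; simp [k2]
  -- contradiction from a star with centre `v a`
  have star : ∀ a b c d : Fin 6, Function.Injective ![0, 1, a, b, c, d] → K {v 0, v 1, v a} →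
      (K {v b, v c, v 0} ↔ K {v b, v c, v 1}) → (K {v b, v d, v 0} ↔ K {v b, v d, v 1}) →
      (K {v c, v d, v 0} ↔ K {v c, v d, v 1}) → ¬ K {v b, v c, v 0} → ¬ K {v b, v d, v 0} →
      ¬ K {v c, v d, v 0} → ¬ K {v a, v b, v c} → ¬ K {v a, v b, v d} → ¬ K {v a, v c, v d} →
      ¬ K {v b, v c, v d} → False := by
    intro a b c d hinj h1 q1 q2 q3 n1 n2 n3 m1 m2 m3 m4
    refine star_false h hs (hv.comp _ hinj) h1 ?_ m4
    intro i hi
    have hi' : i = 0 ∨ i = 1 ∨ i = 2 := by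
      fin_cases i <;> first | (exfalso; revert hi; decide) | simp
    rcases hi' with rfl | rfl | rfl
    · change ¬ K {v 0, v b, v c} ∧ ¬ K {v 0, v b, v d} ∧ ¬ K {v 0, v c, v d}
      rw [r1 0 b c, r1 0 b d, r1 0 c d]
      exact ⟨n1, n2, n3⟩
    · change ¬ K {v 1, v b, v c} ∧ ¬ K {v 1, v b, v d} ∧ ¬ K {v 1, v c, v d}
      rw [r1 1 b c, r1 1 b d, r1 1 c d, ← q1, ← q2, ← q3]
      exact ⟨n1, n2, n3⟩
    · exact ⟨m1, m2, m3⟩
  by_cases A : K {v 2, v 3, v 0}
  · have A' : ¬ K {v 4, v 5, v 0} := e1.1 A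
    have e5 := e4.1 A
    by_cases B : K {v 2, v 4, v 0}
    · have B' : ¬ K {v 3, v 5, v 0} := e2.1 B
      have C : K {v 2, v 5, v 0} := e5.1 B
      have C' : ¬ K {v 3, v 4, v 0} := fun hh => e3.1 hh C
      exact star 2 3 4 5 (by decide) k2 g34 g35 g45 C' B' A' n234 n235 n245 n345
    · have C : ¬ K {v 2, v 5, v 0} := fun hh => B (e5.2 hh)
      refine star 3 2 4 5 (by decide) k3 g24 g25 g45 B C A' ?_ ?_ n345 n245
      · rw [r2 3 2 4]; exact n234
      · rw [r2 3 2 5]; exact n235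
  · by_cases B : K {v 2, v 4, v 0}
    · have C : ¬ K {v 2, v 5, v 0} := fun hh => A (e4.2 ⟨fun _ => hh, fun _ => B⟩)
      have B' : ¬ K {v 3, v 5, v 0} := e2.1 B
      refine star 4 2 3 5 (by decide) k4 g23 g25 g35 A C B' ?_ ?_ ?_ n235
      · rw [r1 4 2 3]; exact n234
      · rw [r2 4 2 5]; exact n245
      · rw [r2 4 3 5]; exact n345
    · have C : K {v 2, v 5, v 0} := by
        by_contra hC
        exact A (e4.2 ⟨fun hh => absurd hh B, fun hh => absurd hh hC⟩)
      have C' : ¬ K {v 3, v 4, v 0} := fun hh => e3.1 hh C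
      refine star 5 2 3 4 (by decide) k5 g23 g24 g34 A B C' ?_ ?_ ?_ n234
      · rw [r1 5 2 3]; exact n235
      · rw [r1 5 2 4]; exact n245
      · rw [r1 5 3 4]; exact n345

/-- Task BK-B1. `T = sᶜ` (6 colours); a triple `B ⊆ T` is a face if `K B`; exactly one of `B`,
`T \ B` is a face (`a4`), the number of `l ∈ T` with `K {u,v,l}` is `0, 2` or `4` (`a5`).
No pair has degree 4: if all `{u,v,l}` are faces, let `g(ab) = K{a,b,u} = K{a,b,v}` for
`a,b ∈ X = T \ {u,v}` (all triples inside `X` are non-faces); `g(cd) = ¬ g(ab)`, and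
`g(ab)+g(ac)+g(ad)` is odd, so `g` is a star with centre `w`, and every face contains two of
`u,v,w`. Then `a6` for the blocks `s | {u,v,w} | x | y | z` (`T = {u,v,w,x,y,z}`) gives a `τ` with
`Q τ`, `K τ` and three elements of `T` in different blocks, whose triple is a face: contradiction.
No pair has degree 0: then all triples inside `X = T \ {u,v}` are faces, so `{a,b,u}` is not a face
for `a,b ∈ X` and its complement `{c,d,v}` is not a face either, contradiction. -/
theorem deg_two (h : Facts Q K) (s : Finset (Fin 10)) (hs : Q s) (x y : Fin 10) (hx : x ∉ s)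
    (hy : y ∉ s) (hxy : x ≠ y) :
    ∃ l m, l ∉ s ∧ l ≠ x ∧ l ≠ y ∧ m ∉ s ∧ m ≠ x ∧ m ≠ y ∧ l ≠ m ∧ K {x, y, l} ∧ K {x, y, m} ∧
      ∀ t, t ∉ s → t ≠ x → t ≠ y → K {x, y, t} → t = l ∨ t = m := by
  obtain ⟨v, hv, rfl, rfl⟩ := V6.exists (h.q4 s hs) x y hx hy hxy
  have par := a5base h hs hv
  -- the conclusion for given l m
  have fin : ∀ l m p q : Fin 6, Function.Injective ![0, 1, l, m, p, q] → K {v 0, v 1, v l} →
      K {v 0, v 1, v m} → ¬ K {v 0, v 1, v p} → ¬ K {v 0, v 1, v q} →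
      ∃ l m, l ∉ s ∧ l ≠ v 0 ∧ l ≠ v 1 ∧ m ∉ s ∧ m ≠ v 0 ∧ m ≠ v 1 ∧ l ≠ m ∧ K {v 0, v 1, l} ∧
        K {v 0, v 1, m} ∧ ∀ t, t ∉ s → t ≠ v 0 → t ≠ v 1 → K {v 0, v 1, t} → t = l ∨ t = m := by
    intro l m p q hinj hl hm hp hq
    have hne : ∀ i j : Fin 6, i ≠ j → ![0, 1, l, m, p, q] i ≠ ![0, 1, l, m, p, q] j :=
      fun i j hij e => hij (hinj e)
    have hsur : Function.Surjective ![0, 1, l, m, p, q] := Finite.injective_iff_surjective.mp hinj
    refine ⟨v l, v m, hv.not_mem _, hv.ne (hne 2 0 (by decide)), hv.ne (hne 2 1 (by decide)),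
      hv.not_mem _, hv.ne (hne 3 0 (by decide)), hv.ne (hne 3 1 (by decide)),
      hv.ne (hne 2 3 (by decide)), hl, hm, ?_⟩
    intro t ht h0 h1 hK
    obtain ⟨i, rfl⟩ := (hv.mem t).1 ht
    obtain ⟨j, rfl⟩ := hsur i
    fin_cases j
    · exact absurd rfl h0
    · exact absurd rfl h1
    · exact Or.inl rfl
    · exact Or.inr rfl
    · exact absurd hK hp
    · exact absurd hK hq
  by_cases k2 : K {v 0, v 1, v 2}
  · by_cases k3 : K {v 0, v 1, v 3}
    · have par' := par.1 ⟨fun _ => k3, fun _ => k2⟩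
      by_cases k4 : K {v 0, v 1, v 4}
      · exact (no_four h hs hv k2 k3 k4 (par'.1 k4)).elim
      · exact fin 2 3 4 5 (by decide) k2 k3 k4 (fun hh => k4 (par'.2 hh))
    · by_cases k4 : K {v 0, v 1, v 4}
      · have k5 : ¬ K {v 0, v 1, v 5} := fun hh => k3 ((par.2 ⟨fun _ => hh, fun _ => k4⟩).1 k2)
        exact fin 2 4 3 5 (by decide) k2 k4 k3 k5
      · have k5 : K {v 0, v 1, v 5} := by
          by_contra hh
          exact k3 ((par.2 ⟨fun h' => absurd h' k4, fun h' => absurd h' hh⟩).1 k2)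
        exact fin 2 5 3 4 (by decide) k2 k5 k3 k4
  · by_cases k3 : K {v 0, v 1, v 3}
    · by_cases k4 : K {v 0, v 1, v 4}
      · have k5 : ¬ K {v 0, v 1, v 5} := fun hh => k2 ((par.2 ⟨fun _ => hh, fun _ => k4⟩).2 k3)
        exact fin 3 4 2 5 (by decide) k3 k4 k2 k5
      · have k5 : K {v 0, v 1, v 5} := by
          by_contra hh
          exact k2 ((par.2 ⟨fun h' => absurd h' k4, fun h' => absurd h' hh⟩).2 k3)
        exact fin 3 5 2 4 (by decide) k3 k5 k2 k4
    · have par' := par.1 ⟨fun h' => absurd h' k2, fun h' => absurd h' k3⟩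
      by_cases k4 : K {v 0, v 1, v 4}
      · exact fin 4 5 2 3 (by decide) k4 (par'.1 k4) k2 k3
      · exfalso
        have k5 : ¬ K {v 0, v 1, v 5} := fun hh => k4 (par'.2 hh)
        have r1 : ∀ i j k : Fin 6, ({v i, v j, v k} : Finset (Fin 10)) = {v j, v k, v i} :=
          fun i j k => rot _ _ _
        have r3 : ∀ i j k : Fin 6, ({v i, v j, v k} : Finset (Fin 10)) = {v i, v k, v j} :=
          fun i j k => swp _ _ _
        have t345 : K {v 3, v 4, v 5} := by
          by_contra hh; exact k2 ((a4' h hs hv 0 1 2 3 4 5 (by decide)).2 hh)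
        have t245 : K {v 2, v 4, v 5} := by
          by_contra hh; exact k3 ((a4' h hs hv 0 1 3 2 4 5 (by decide)).2 hh)
        have t235 : K {v 2, v 3, v 5} := by
          by_contra hh; exact k4 ((a4' h hs hv 0 1 4 2 3 5 (by decide)).2 hh)
        have t234 : K {v 2, v 3, v 4} := by
          by_contra hh; exact k5 ((a4' h hs hv 0 1 5 2 3 4 (by decide)).2 hh)
        have n230 : ¬ K {v 2, v 3, v 0} := by
          intro hh
          have p := a5' h hs hv 2 3 0 4 1 5 (by decide)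
          have h1 : K {v 2, v 3, v 1} := (p.1 ⟨fun _ => t234, fun _ => hh⟩).2 t235
          exact no_four h hs (hv.comp ![2, 3, 0, 1, 4, 5] (by decide)) hh h1 t234 t235
        have n451 : ¬ K {v 4, v 5, v 1} := by
          intro hh
          have p := a5' h hs hv 4 5 1 2 0 3 (by decide)
          have h2 : K {v 4, v 5, v 2} := by rw [← r1 2 4 5]; exact t245
          have h3 : K {v 4, v 5, v 3} := by rw [← r1 3 4 5]; exact t345
          have h1 : K {v 4, v 5, v 0} := (p.1 ⟨fun _ => h2, fun _ => hh⟩).2 h3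
          exact no_four h hs (hv.comp ![4, 5, 0, 1, 2, 3] (by decide)) h1 hh h2 h3
        exact n230 ((a4' h hs hv 2 3 0 4 5 1 (by decide)).2 n451)

end BK
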