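import Crest.Agent.BK_B1

set_option autoImplicit false

namespace BK
open Finset

variable {Q K : Finset (Fin 10) → Prop}

/-- the six-vertex projective plane on `T = sᶜ = {x,y,z,x',y',z'}` with face `{x,y,z}` -/
structure RP (K : Finset (Fin 10) → Prop) (s : Finset (Fin 10)) (x y z x' y' z' : Fin 10) :
    Prop where
  univ : ∀ t, t ∉ s ↔ t = x ∨ t = y ∨ t = z ∨ t = x' ∨ t = y' ∨ t = z'
  nodup : [x, y, z, x', y', z'].Nodup
  f0 : K {x, y, z}
  f1 : K {y, z, x'}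
  f2 : K {x, z, y'}
  f3 : K {x, y, z'}
  f4 : K {x, x', y'}
  f5 : K {x, x', z'}
  f6 : K {y, y', x'}
  f7 : K {y, y', z'}
  f8 : K {z, z', x'}
  f9 : K {z, z', y'}
  g0 : ¬ K {x', y', z'}
  g1 : ¬ K {x, y', z'}
  g2 : ¬ K {y, x', z'}
  g3 : ¬ K {z, x', y'}
  g4 : ¬ K {y, z, z'}
  g5 : ¬ K {y, z, y'}
  g6 : ¬ K {x, z, z'}
  g7 : ¬ K {x, z, x'}
  g8 : ¬ K {x, y, y'}
  g9 : ¬ K {x, y, x'}

private theorem B2_uniq (h : Facts Q K) (s : Finset (Fin 10)) (hs : Q s) {a b c d e : Fin 10}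
    (ha : a ∉ s) (hb : b ∉ s) (hab : a ≠ b) (hc : c ∉ s) (hd : d ∉ s) (he : e ∉ s)
    (hca : c ≠ a) (hcb : c ≠ b) (hda : d ≠ a) (hdb : d ≠ b) (hea : e ≠ a) (heb : e ≠ b)
    (hcd : c ≠ d) (hce : c ≠ e) (hde : d ≠ e) (h1 : K {a, b, c}) (h2 : K {a, b, d}) :
    ¬ K {a, b, e} := by
  intro h3
  obtain ⟨l, m, _, _, _, _, _, _, _, _, _, H⟩ := deg_two h s hs a b ha hb hab
  rcases H c hc hca hcb h1 with rfl | rfl <;> rcases H d hd hda hdb h2 with rfl | rfl <;>
    rcases H e he hea heb h3 with rfl | rfl <;> simp_all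

private theorem B2_compl (h : Facts Q K) (s : Finset (Fin 10)) (hs : Q s) {a b c d e f : Fin 10}
    (hu : ∀ t, t ∉ s ↔ t = a ∨ t = b ∨ t = c ∨ t = d ∨ t = e ∨ t = f)
    (hn : [a, b, c, d, e, f].Nodup) : K {a, b, c} ↔ ¬ K {d, e, f} := by
  have hn' := hn
  simp only [List.nodup_cons, List.mem_cons, List.not_mem_nil, or_false, not_or,
    List.nodup_nil, and_true, not_false_eq_true] at hn'
  obtain ⟨⟨hab, hac, had, hae, haf⟩, ⟨hbc, hbd, hbe, hbf⟩, ⟨hcd, hce, hcf⟩, ⟨hde, hdf⟩, hef⟩ := hn'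
  have hcard : ({a, b, c} : Finset (Fin 10)).card = 3 := by
    rw [card_eq_three]
    exact ⟨a, b, c, hab, hac, hbc, rfl⟩
  have hdis : Disjoint s ({a, b, c} : Finset (Fin 10)) := by
    rw [Finset.disjoint_right]
    intro t ht
    rw [hu]
    simp only [Finset.mem_insert, Finset.mem_singleton] at ht
    tauto
  have heq : (Finset.univ \ (s ∪ {a, b, c}) : Finset (Fin 10)) = {d, e, f} := by
    ext t
    simp only [Finset.mem_sdiff, Finset.mem_univ, true_and, Finset.mem_union, not_or, hu,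
      Finset.mem_insert, Finset.mem_singleton]
    constructor
    · tauto
    · rintro (rfl | rfl | rfl)
      · exact ⟨by tauto, fun h => hac (h ▸ (by simp_all)), fun h => by simp_all, fun h => by simp_all⟩
      · exact ⟨by tauto, fun h => by simp_all, fun h => by simp_all, fun h => by simp_all⟩
      · exact ⟨by tauto, fun h => by simp_all, fun h => by simp_all, fun h => by simp_all⟩
  rw [h.a4 s _ hs hdis hcard, heq]

private theorem B2_compl' (h : Facts Q K) (s : Finset (Fin 10)) (hs : Q s)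
    (v : Fin 6 → Fin 10) (hv : Function.Injective v) (hr : ∀ t, t ∉ s ↔ ∃ i, v i = t)
    (a b c d e f : Fin 6) (hd : [a, b, c, d, e, f].Nodup)
    (ha : ∀ i : Fin 6, i = a ∨ i = b ∨ i = c ∨ i = d ∨ i = e ∨ i = f) :
    K {v a, v b, v c} ↔ ¬ K {v d, v e, v f} := by
  refine B2_compl h s hs ?_ (hd.map hv)
  intro t
  rw [hr]
  constructor
  · rintro ⟨i, rfl⟩
    rcases ha i with rfl | rfl | rfl | rfl | rfl | rfl <;> simp
  · rintro (rfl | rfl | rfl | rfl | rfl | rfl)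
    exacts [⟨_, rfl⟩, ⟨_, rfl⟩, ⟨_, rfl⟩, ⟨_, rfl⟩, ⟨_, rfl⟩, ⟨_, rfl⟩]

private theorem B2_uniq' (h : Facts Q K) (s : Finset (Fin 10)) (hs : Q s)
    (v : Fin 6 → Fin 10) (hv : Function.Injective v) (hr : ∀ t, t ∉ s ↔ ∃ i, v i = t)
    (a b c d e : Fin 6) (hd : [a, b, c, d, e].Nodup)
    (h1 : K {v a, v b, v c}) (h2 : K {v a, v b, v d}) : ¬ K {v a, v b, v e} := by
  have hn := hd
  simp only [List.nodup_cons, List.mem_cons, List.not_mem_nil, or_false, not_or,
    List.nodup_nil, and_true, not_false_eq_true] at hn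
  obtain ⟨⟨hab, hac, had, hae⟩, ⟨hbc, hbd, hbe⟩, ⟨hcd, hce⟩, hde⟩ := hn
  have H : ∀ i, v i ∉ s := fun i => (hr _).2 ⟨i, rfl⟩
  exact B2_uniq h s hs (H a) (H b) (hv.ne hab) (H c) (H d) (H e) (hv.ne (Ne.symm hac))
    (hv.ne (Ne.symm hbc)) (hv.ne (Ne.symm had)) (hv.ne (Ne.symm hbd)) (hv.ne (Ne.symm hae))
    (hv.ne (Ne.symm hbe)) (hv.ne hcd) (hv.ne hce) (hv.ne hde) h1 h2

private theorem B2_mk (h : Facts Q K) (s : Finset (Fin 10)) (hs : Q s)
    (v : Fin 6 → Fin 10) (hv : Function.Injective v) (hr : ∀ t, t ∉ s ↔ ∃ i, v i = t)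
    (f0 : K {v 0, v 1, v 2}) (f1 : K {v 1, v 2, v 3})
    (f2 : K {v 0, v 2, v 4}) (f3 : K {v 0, v 1, v 5}) :
    RP K s (v 0) (v 1) (v 2) (v 3) (v 4) (v 5) := by
  have p1 : ∀ a b c : Fin 10, ({b, c, a} : Finset (Fin 10)) = {a, b, c} := by
    intro a b c
    ext t; simp only [Finset.mem_insert, Finset.mem_singleton]; tauto
  have p2 : ∀ a b c : Fin 10, ({a, c, b} : Finset (Fin 10)) = {a, b, c} := by
    intro a b c
    ext t; simp only [Finset.mem_insert, Finset.mem_singleton]; tauto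
  have f01 : K {v 1, v 2, v 0} := by rw [p1]; exact f0
  have f02 : K {v 0, v 2, v 1} := by rw [p2]; exact f0
  have U := B2_uniq' h s hs v hv hr
  have C := B2_compl' h s hs v hv hr
  have g4 := U 1 2 0 3 5 (by decide) f01 f1
  have g5 := U 1 2 0 3 4 (by decide) f01 f1
  have g6 := U 0 2 1 4 5 (by decide) f02 f2
  have g7 := U 0 2 1 4 3 (by decide) f02 f2
  have g8 := U 0 1 2 5 4 (by decide) f0 f3
  have g9 := U 0 1 2 5 3 (by decide) f0 f3
  refine ⟨?_, ?_, f0, f1, f2, f3, ?_, ?_, ?_, ?_, ?_, ?_, ?_, ?_, ?_, ?_, g4, g5, g6, g7, g8, g9⟩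
  · intro t
    rw [hr]
    constructor
    · rintro ⟨i, rfl⟩
      fin_cases i <;> simp
    · rintro (rfl | rfl | rfl | rfl | rfl | rfl)
      exacts [⟨_, rfl⟩, ⟨_, rfl⟩, ⟨_, rfl⟩, ⟨_, rfl⟩, ⟨_, rfl⟩, ⟨_, rfl⟩]
  · exact (show ([0, 1, 2, 3, 4, 5] : List (Fin 6)).Nodup by decide).map hv
  · exact (C 0 3 4 1 2 5 (by decide) (by decide)).2 g4
  · exact (C 0 3 5 1 2 4 (by decide) (by decide)).2 g5
  · exact (C 1 4 3 0 2 5 (by decide) (by decide)).2 g6
  · exact (C 1 4 5 0 2 3 (by decide) (by decide)).2 g7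
  · exact (C 2 5 3 0 1 4 (by decide) (by decide)).2 g8
  · exact (C 2 5 4 0 1 3 (by decide) (by decide)).2 g9
  · rw [C 3 4 5 0 1 2 (by decide) (by decide)]; exact not_not.2 f0
  · rw [C 0 4 5 1 2 3 (by decide) (by decide)]; exact not_not.2 f1
  · rw [C 1 3 5 0 2 4 (by decide) (by decide)]; exact not_not.2 f2
  · rw [C 2 3 4 0 1 5 (by decide) (by decide)]; exact not_not.2 f3

/-- Task BK-B2. Given a face `{x,y,z}`: `x'` = the other `l` with `K {y,z,l}` (`deg_two`), `y'`, `z'`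
similarly. They are different: for `l ∈ C = T \ {x,y,z}` consider the pair `{l,l'} ⊆ C`:
`C` is not a face so exactly two `d ∈ {x,y,z}` with `K {d,l,l'}`; by `a4` `K {d,l,l'}` iff not
`K ({x,y,z}\d ∪ {l''})`, so every `l''` is in exactly one of the three. -/
theorem exists_RP (h : Facts Q K) (s : Finset (Fin 10)) (hs : Q s) (x y z : Fin 10) (hx : x ∉ s)
    (hy : y ∉ s) (hz : z ∉ s) (hxy : x ≠ y) (hxz : x ≠ z) (hyz : y ≠ z) (hK : K {x, y, z}) :
    ∃ x' y' z', RP K s x y z x' y' z' := by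
  -- the other three points
  have hcard : (Finset.univ \ (s ∪ {x, y, z}) : Finset (Fin 10)).card = 3 := by
    have h1 : (s ∪ {x, y, z} : Finset (Fin 10)).card = 7 := by
      rw [Finset.card_union_of_disjoint, h.q4 s hs, Finset.card_eq_three.2 ⟨x, y, z, hxy, hxz, hyz, rfl⟩]
      rw [Finset.disjoint_right]
      intro t ht
      simp only [Finset.mem_insert, Finset.mem_singleton] at ht
      rcases ht with rfl | rfl | rfl <;> assumption
    rw [Finset.card_sdiff_of_subset (Finset.subset_univ _), h1]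
    simp
  obtain ⟨p, q, r, hpq, hpr, hqr, hpqr⟩ := Finset.card_eq_three.1 hcard
  set w : Fin 6 → Fin 10 := ![x, y, z, p, q, r] with hw
  have hmem : ∀ t, t ∈ ({p, q, r} : Finset (Fin 10)) ↔ t ∉ s ∧ t ≠ x ∧ t ≠ y ∧ t ≠ z := by
    intro t
    rw [← hpqr]
    simp only [Finset.mem_sdiff, Finset.mem_univ, true_and, Finset.mem_union, not_or,
      Finset.mem_insert, Finset.mem_singleton, ne_eq]
  obtain ⟨hps, hpx, hpy, hpz⟩ := (hmem p).1 (by simp)
  obtain ⟨hqs, hqx, hqy, hqz⟩ := (hmem q).1 (by simp)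
  obtain ⟨hrs, hrx, hry, hrz⟩ := (hmem r).1 (by simp)
  have hwr : ∀ t, t ∉ s ↔ ∃ i, w i = t := by
    intro t
    constructor
    · intro ht
      by_cases h1 : t = x
      · exact ⟨0, h1.symm⟩
      by_cases h2 : t = y
      · exact ⟨1, h2.symm⟩
      by_cases h3 : t = z
      · exact ⟨2, h3.symm⟩
      have := (hmem t).2 ⟨ht, h1, h2, h3⟩
      simp only [Finset.mem_insert, Finset.mem_singleton] at this
      rcases this with rfl | rfl | rfl
      · exact ⟨3, rfl⟩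
      · exact ⟨4, rfl⟩
      · exact ⟨5, rfl⟩
    · rintro ⟨i, rfl⟩
      fin_cases i
      exacts [hx, hy, hz, hps, hqs, hrs]
  have hwi : Function.Injective w := by
    have : (List.ofFn w).Nodup := by
      simp [hw, List.ofFn_succ, hxy, hxz, hyz, hpx.symm, hpy.symm, hpz.symm, hqx.symm, hqy.symm,
        hqz.symm, hrx.symm, hry.symm, hrz.symm, hpq, hpr, hqr]
    exact List.nodup_ofFn.1 this
  -- the selected third points
  have hsel : ∀ a b c : Fin 6, a ≠ b → a ≠ c → b ≠ c → K {w a, w b, w c} →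
      ∃ d : Fin 6, d ≠ a ∧ d ≠ b ∧ d ≠ c ∧ K {w a, w b, w d} := by
    intro a b c hab hac hbc hk
    have H : ∀ i, w i ∉ s := fun i => (hwr _).2 ⟨i, rfl⟩
    obtain ⟨l, m, hl, hla, hlb, hm, hma, hmb, hlm, hkl, hkm, -⟩ :=
      deg_two h s hs (w a) (w b) (H a) (H b) (hwi.ne hab)
    obtain ⟨i, rfl⟩ := (hwr l).1 hl
    obtain ⟨j, rfl⟩ := (hwr m).1 hm
    by_cases hic : i = c
    · refine ⟨j, fun e => hma (by rw [e]), fun e => hmb (by rw [e]), ?_, hkm⟩
      rintro rfl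
      exact hlm (by rw [hic])
    · exact ⟨i, fun e => hla (by rw [e]), fun e => hlb (by rw [e]), hic, hkl⟩
  -- two pairs of `x, y, z` cannot have the same third point
  have hkey : ∀ a b c d e f : Fin 6, [a, b, c, d, e, f].Nodup →
      (∀ i : Fin 6, i = a ∨ i = b ∨ i = c ∨ i = d ∨ i = e ∨ i = f) →
      K {w a, w b, w c} → K {w b, w c, w d} → ¬ K {w a, w c, w d} := by
    intro a b c d e f hn hall h1 h2 h3
    have hn' := hn
    simp only [List.nodup_cons, List.mem_cons, List.not_mem_nil, or_false, not_or,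
      List.nodup_nil, and_true, not_false_eq_true] at hn'
    obtain ⟨⟨hab, hac, had, hae, haf⟩, ⟨hbc, hbd, hbe, hbf⟩, ⟨hcd, hce, hcf⟩, ⟨hde, hdf⟩, hef⟩ :=
      hn'
    have H : ∀ i, w i ∉ s := fun i => (hwr _).2 ⟨i, rfl⟩
    have C := B2_compl' h s hs w hwi hwr
    have nd : ¬ K {w e, w f, w d} := by
      rw [C e f d a b c (by simp [*, Ne.symm])
        (fun i => by rcases hall i with h | h | h | h | h | h <;> simp [h])]
      exact not_not.2 h1
    have na : ¬ K {w e, w f, w a} := by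
      rw [C e f a b c d (by simp [*, Ne.symm])
        (fun i => by rcases hall i with h | h | h | h | h | h <;> simp [h])]
      exact not_not.2 h2
    have nb : ¬ K {w e, w f, w b} := by
      rw [C e f b a c d (by simp [*, Ne.symm])
        (fun i => by rcases hall i with h | h | h | h | h | h <;> simp [h])]
      exact not_not.2 h3
    obtain ⟨l, m, hl, hle, hlf, hm, hme, hmf, hlm, hkl, hkm, -⟩ :=
      deg_two h s hs (w e) (w f) (H e) (H f) (hwi.ne hef)
    have hone : ∀ l, l ∉ s → l ≠ w e → l ≠ w f → K {w e, w f, l} → l = w c := by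
      intro l hl hle hlf hk
      obtain ⟨i, rfl⟩ := (hwr l).1 hl
      rcases hall i with rfl | rfl | rfl | rfl | rfl | rfl
      · exact absurd hk na
      · exact absurd hk nb
      · rfl
      · exact absurd hk nd
      · exact absurd rfl hle
      · exact absurd rfl hlf
    exact hlm ((hone l hl hle hlf hkl).trans (hone m hm hme hmf hkm).symm)
  have q1 : ∀ a b c : Fin 10, ({b, a, c} : Finset (Fin 10)) = {a, b, c} := by
    intro a b c
    ext t; simp only [Finset.mem_insert, Finset.mem_singleton]; tauto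
  have q2 : ∀ a b c : Fin 10, ({a, c, b} : Finset (Fin 10)) = {a, b, c} := by
    intro a b c
    ext t; simp only [Finset.mem_insert, Finset.mem_singleton]; tauto
  have k0 : K {w 0, w 1, w 2} := hK
  obtain ⟨i, hi1, hi2, hi0, hki⟩ := hsel 1 2 0 (by decide) (by decide) (by decide)
    (by rw [q2, q1]; exact k0)
  obtain ⟨j, hj0, hj2, hj1, hkj⟩ := hsel 0 2 1 (by decide) (by decide) (by decide)
    (by rw [q2]; exact k0)
  obtain ⟨k, hk0, hk1, hk2, hkk⟩ := hsel 0 1 2 (by decide) (by decide) (by decide) k0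
  have hex : ∀ d : Fin 6, d ≠ 0 → d ≠ 1 → d ≠ 2 → ∃ e f : Fin 6, [0, 1, 2, d, e, f].Nodup ∧
      (∀ i : Fin 6, i = 0 ∨ i = 1 ∨ i = 2 ∨ i = d ∨ i = e ∨ i = f) := by decide
  have hij : i ≠ j := by
    rintro rfl
    obtain ⟨e, f, hn, hall⟩ := hex i hi0 hi1 hi2
    exact hkey 0 1 2 i e f hn hall k0 hki hkj
  have hik : i ≠ k := by
    rintro rfl
    obtain ⟨e, f, hn, hall⟩ := hex i hi0 hi1 hi2
    refine hkey 0 2 1 i e f ?_ ?_ (by rw [q2]; exact k0) (by rw [q1]; exact hki) hkk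
    · simp only [List.nodup_cons, List.mem_cons, List.not_mem_nil, or_false, not_or,
        List.nodup_nil, and_true, not_false_eq_true] at hn ⊢
      obtain ⟨⟨_, _, a1, a2, a3⟩, ⟨_, b1, b2, b3⟩, ⟨c1, c2, c3⟩, ⟨d1, d2⟩, e1⟩ := hn
      exact ⟨⟨by decide, by decide, a1, a2, a3⟩, ⟨by decide, c1, c2, c3⟩, ⟨b1, b2, b3⟩,
        ⟨d1, d2⟩, e1⟩
    · intro t
      rcases hall t with h | h | h | h | h | h <;> simp [h]
  have hjk : j ≠ k := by
    rintro rfl
    obtain ⟨e, f, hn, hall⟩ := hex j hj0 hj1 hj2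
    refine hkey 1 2 0 j e f ?_ ?_ (by rw [q2, q1]; exact k0) (by rw [q1]; exact hkj)
      (by rw [q1]; exact hkk)
    · simp only [List.nodup_cons, List.mem_cons, List.not_mem_nil, or_false, not_or,
        List.nodup_nil, and_true, not_false_eq_true] at hn ⊢
      obtain ⟨⟨_, _, a1, a2, a3⟩, ⟨_, b1, b2, b3⟩, ⟨c1, c2, c3⟩, ⟨d1, d2⟩, e1⟩ := hn
      exact ⟨⟨by decide, by decide, b1, b2, b3⟩, ⟨by decide, c1, c2, c3⟩, ⟨a1, a2, a3⟩,
        ⟨d1, d2⟩, e1⟩
    · intro t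
      rcases hall t with h | h | h | h | h | h <;> simp [h]
  have hperm : ([0, 1, 2, i, j, k] : List (Fin 6)).Nodup := by
    simp only [List.nodup_cons, List.mem_cons, List.not_mem_nil, or_false, not_or,
      List.nodup_nil, and_true, not_false_eq_true]
    exact ⟨⟨by decide, by decide, hi0.symm, hj0.symm, hk0.symm⟩, ⟨by decide, hi1.symm, hj1.symm,
      hk1.symm⟩, ⟨hi2.symm, hj2.symm, hk2.symm⟩, ⟨hij, hik⟩, hjk⟩
  have hpi : Function.Injective (![0, 1, 2, i, j, k] : Fin 6 → Fin 6) := by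
    have : (List.ofFn (![0, 1, 2, i, j, k] : Fin 6 → Fin 6)).Nodup := by
      simpa [List.ofFn_succ] using hperm
    exact List.nodup_ofFn.1 this
  have hps' : Function.Surjective (![0, 1, 2, i, j, k] : Fin 6 → Fin 6) :=
    Finite.injective_iff_surjective.1 hpi
  exact ⟨w i, w j, w k, B2_mk h s hs (fun t => w ((![0, 1, 2, i, j, k] : Fin 6 → Fin 6) t))
    (hwi.comp hpi) (fun t => (hwr t).trans ⟨fun ⟨a, ha⟩ => by
      obtain ⟨b, hb⟩ := hps' a
      exact ⟨b, by simp only [hb, ha]⟩, fun ⟨a, ha⟩ => ⟨_, ha⟩⟩) k0 hki hkj hkk⟩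

end BK
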