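import Crest.Agent.BK_B2

set_option autoImplicit false

namespace BK
open Finset

variable {Q K : Finset (Fin 10) → Prop}

/-- `s - a + e` is a member of `Q` -/
def EV (Q : Finset (Fin 10) → Prop) (s : Finset (Fin 10)) (a e : Fin 10) : Prop :=
  a ∈ s ∧ e ∉ s ∧ Q (insert e (s.erase a))

private theorem B3a_rot (a t t' : Fin 10) : ({a, t, t'} : Finset (Fin 10)) = {t, t', a} := by
  ext x
  simp only [Finset.mem_insert, Finset.mem_singleton]
  tauto

private theorem B3a_fwd (h : Facts Q K) (s : Finset (Fin 10)) (hs : Q s) (a e : Fin 10)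
    (hE : EV Q s a e) (t t' : Fin 10) (ht : t ∉ s) (ht' : t' ∉ s) (hte : t ≠ e) (ht'e : t' ≠ e)
    (htt : t ≠ t') (hK : K {a, t, t'}) : K {e, t, t'} := by
  obtain ⟨has, hes, hQ⟩ := hE
  have hae : a ≠ e := fun h => hes (h ▸ has)
  have hmem : ∀ x, x ∈ insert e (s.erase a) ↔ x = e ∨ (x ≠ a ∧ x ∈ s) := by
    intro x
    rw [Finset.mem_insert, Finset.mem_erase]
  have hta : t ≠ a := fun h => ht (h ▸ has)
  have ht'a : t' ≠ a := fun h => ht' (h ▸ has)
  have h1 : t ∉ insert e (s.erase a) := by rw [hmem]; tauto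
  have h2 : t' ∉ insert e (s.erase a) := by rw [hmem]; tauto
  have h3 : a ∉ insert e (s.erase a) := by rw [hmem]; tauto
  obtain ⟨l', m', hl's, hl't, hl't', hm's, hm't, hm't', hlm', hKl', hKm', huniq'⟩ :=
    deg_two h _ hQ t t' h1 h2 htt
  obtain ⟨l, m, hls, hlt, hlt', hms, hmt, hmt', hlm, hKl, hKm, huniq⟩ := deg_two h s hs t t' ht ht' htt
  rw [B3a_rot] at hK ⊢
  have ha := huniq' a h3 hta.symm ht'a.symm hK
  by_contra hcon
  have hle : l ≠ e := by rintro rfl; exact hcon hKl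
  have hme : m ≠ e := by rintro rfl; exact hcon hKm
  have hla : l ≠ a := fun h => hls (h ▸ has)
  have hma : m ≠ a := fun h => hms (h ▸ has)
  have hl4 : l ∉ insert e (s.erase a) := by rw [hmem]; tauto
  have hm4 : m ∉ insert e (s.erase a) := by rw [hmem]; tauto
  have hl5 := huniq' l hl4 hlt hlt' hKl
  have hm5 := huniq' m hm4 hmt hmt' hKm
  rcases ha with ha | ha
  · have e1 : l = m' := hl5.resolve_left (fun h => hla (h.trans ha.symm))
    have e2 : m = m' := hm5.resolve_left (fun h => hma (h.trans ha.symm))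
    exact hlm (e1.trans e2.symm)
  · have e1 : l = l' := hl5.resolve_right (fun h => hla (h.trans ha.symm))
    have e2 : m = l' := hm5.resolve_right (fun h => hma (h.trans ha.symm))
    exact hlm (e1.trans e2.symm)

/-- Task BK-B3 (twins): count the degree of the pair `{t,t'}` (`deg_two`) in `T` and in
`T - e + a`. -/
theorem twin (h : Facts Q K) (s : Finset (Fin 10)) (hs : Q s) (a e : Fin 10) (hE : EV Q s a e)
    (t t' : Fin 10) (ht : t ∉ s) (ht' : t' ∉ s) (hte : t ≠ e) (ht'e : t' ≠ e) (htt : t ≠ t') :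
    K {a, t, t'} ↔ K {e, t, t'} := by
  refine ⟨B3a_fwd h s hs a e hE t t' ht ht' hte ht'e htt, ?_⟩
  obtain ⟨has, hes, hQ⟩ := hE
  have hae : a ≠ e := fun h => hes (h ▸ has)
  have hta : t ≠ a := fun h => ht (h ▸ has)
  have ht'a : t' ≠ a := fun h => ht' (h ▸ has)
  have hmem : ∀ x, x ∈ insert e (s.erase a) ↔ x = e ∨ (x ≠ a ∧ x ∈ s) := by
    intro x
    rw [Finset.mem_insert, Finset.mem_erase]
  have hback : insert a ((insert e (s.erase a)).erase e) = s := by
    rw [Finset.erase_insert (by rw [Finset.mem_erase]; tauto), Finset.insert_erase has]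
  refine B3a_fwd h _ hQ e a ⟨Finset.mem_insert_self _ _, ?_, ?_⟩ t t' ?_ ?_ hta ht'a htt
  · rw [hmem]; tauto
  · rw [hback]; exact hs
  · rw [hmem]; tauto
  · rw [hmem]; tauto

/-- Task BK-B3: from `a2` (the triple `s - a` is in an even number of members of `Q`). -/
theorem ev_exists (h : Facts Q K) (s : Finset (Fin 10)) (hs : Q s) (a : Fin 10) (ha : a ∈ s) :
    ∃ e, EV Q s a e := by
  have hc : (s.erase a).card = 3 := by
    rw [Finset.card_erase_of_mem ha, h.q4 s hs]
  obtain ⟨U, hU, hev⟩ := h.a2 (s.erase a) hc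
  have haU : a ∈ U := by
    rw [hU]
    refine ⟨Finset.notMem_erase a s, ?_⟩
    rw [Finset.insert_erase ha]
    exact hs
  have h1 : 1 < U.card := by
    have h2 : 0 < U.card := Finset.card_pos.2 ⟨a, haU⟩
    obtain ⟨r, hr⟩ := hev
    omega
  obtain ⟨e, heU, hea⟩ := Finset.exists_mem_ne h1 a
  rw [hU] at heU
  refine ⟨e, ha, ?_, heU.2⟩
  intro hes
  exact heU.1 (Finset.mem_erase.2 ⟨hea, hes⟩)

end BK
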