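import Crest.Agent.BK_B2
import Crest.Agent.BK_B3a

set_option autoImplicit false

namespace BK
open Finset

variable {Q K : Finset (Fin 10) → Prop}

private theorem B3b_not_all (h : Facts Q K) (s : Finset (Fin 10)) (hs : Q s) (e x p q r : Fin 10)
    (he : e ∉ s) (hx : x ∉ s) (hp : p ∉ s) (hq : q ∉ s) (hr : r ∉ s) (hex : e ≠ x)
    (hep : e ≠ p) (heq : e ≠ q) (her : e ≠ r) (hxp : x ≠ p) (hxq : x ≠ q) (hxr : x ≠ r)
    (hpq : p ≠ q) (hpr : p ≠ r) (hqr : q ≠ r) :
    ¬ (K {e, x, p} ∧ K {e, x, q} ∧ K {e, x, r}) := by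
  rintro ⟨k1, k2, k3⟩
  obtain ⟨l, m, _, _, _, _, _, _, hlm, _, _, hall⟩ := deg_two h s hs e x he hx hex
  have e1 := hall p hp hep.symm hxp.symm k1
  have e2 := hall q hq heq.symm hxq.symm k2
  have e3 := hall r hr her.symm hxr.symm k3
  rcases e1 with e1 | e1 <;> rcases e2 with e2 | e2 <;> rcases e3 with e3 | e3
  · exact hpq (e1.trans e2.symm)
  · exact hpq (e1.trans e2.symm)
  · exact hpr (e1.trans e3.symm)
  · exact hqr (e2.trans e3.symm)
  · exact hqr (e2.trans e3.symm)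
  · exact hpr (e1.trans e3.symm)
  · exact hpq (e1.trans e2.symm)
  · exact hpq (e1.trans e2.symm)

private theorem B3b_not_none (h : Facts Q K) (s : Finset (Fin 10)) (hs : Q s)
    (e x p q r e' : Fin 10)
    (hcov : ∀ t, t ∉ s → t = e ∨ t = e' ∨ t = x ∨ t = p ∨ t = q ∨ t = r)
    (he : e ∉ s) (hx : x ∉ s) (hex : e ≠ x) :
    K {e, x, p} ∨ K {e, x, q} ∨ K {e, x, r} := by
  by_contra hcon
  push Not at hcon
  obtain ⟨k1, k2, k3⟩ := hcon
  obtain ⟨l, m, hl, hle, hlx, hm, hme, hmx, hlm, kl, km, _⟩ := deg_two h s hs e x he hx hex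
  have hl' : l = e' := by
    rcases hcov l hl with h | h | h | h | h | h
    · exact absurd h hle
    · exact h
    · exact absurd h hlx
    · subst h; exact absurd kl k1
    · subst h; exact absurd kl k2
    · subst h; exact absurd kl k3
  have hm' : m = e' := by
    rcases hcov m hm with h | h | h | h | h | h
    · exact absurd h hme
    · exact h
    · exact absurd h hmx
    · subst h; exact absurd km k1
    · subst h; exact absurd km k2
    · subst h; exact absurd km k3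
  exact hlm (hl'.trans hm'.symm)

private theorem B3b_logic (A B C D E F : Prop) (c1 : A ↔ ¬ D) (c2 : B ↔ ¬ E) (c3 : C ↔ ¬ F)
    (dp1 : ¬ (A ∧ B ∧ C)) (dp2 : A ∨ B ∨ C) (dq1 : ¬ (A ∧ F ∧ E)) (dq2 : A ∨ F ∨ E)
    (dr1 : ¬ (B ∧ F ∧ D)) (dr2 : B ∨ F ∨ D) (dw1 : ¬ (C ∧ E ∧ D)) (dw2 : C ∨ E ∨ D) : False := by
  by_cases hA : A <;> by_cases hB : B <;> by_cases hC : C <;>
    simp_all

private theorem B3b_co (h : Facts Q K) (s : Finset (Fin 10)) (hs : Q s) (e e' : Fin 10)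
    (he : e ∉ s) (he' : e' ∉ s) (hne : e ≠ e')
    (htw : ∀ x y, x ∉ s → y ∉ s → x ≠ e → x ≠ e' → y ≠ e → y ≠ e' → x ≠ y →
      (K {e, x, y} ↔ K {e', x, y}))
    (x y z v : Fin 10) (hx : x ∉ s) (hy : y ∉ s) (h1 : x ≠ e) (h2 : x ≠ e') (h3 : y ≠ e)
    (h4 : y ≠ e') (h5 : x ≠ y)
    (hc : ∀ t, t ∉ s → t = e ∨ t = e' ∨ t = x ∨ t = y ∨ t = z ∨ t = v)
    (hz : z ∉ s) (hv : v ∉ s) (h6 : z ≠ e) (h7 : z ≠ e') (h8 : v ≠ e) (h9 : v ≠ e')
    (h10 : z ≠ v) (h11 : z ≠ x) (h12 : z ≠ y) (h13 : v ≠ x) (h14 : v ≠ y) :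
    (K {e, x, y} ↔ ¬ K {e, z, v}) := by
  have hd : Disjoint s {e, x, y} := by
    rw [Finset.disjoint_right]
    intro u hu
    simp only [Finset.mem_insert, Finset.mem_singleton] at hu
    rcases hu with rfl | rfl | rfl <;> assumption
  have hc3 : ({e, x, y} : Finset (Fin 10)).card = 3 := by
    rw [Finset.card_eq_three]
    exact ⟨e, x, y, h1.symm, h3.symm, h5, rfl⟩
  have hcompl : (univ \ (s ∪ {e, x, y}) : Finset (Fin 10)) = {e', z, v} := by
    ext u
    rw [Finset.mem_sdiff, Finset.mem_union, not_or]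
    simp only [Finset.mem_univ, true_and, Finset.mem_insert,
      Finset.mem_singleton, not_or]
    constructor
    · rintro ⟨k1, k2, k3, k4⟩
      rcases hc u k1 with k | k | k | k | k | k
      · exact absurd k k2
      · exact Or.inl k
      · exact absurd k k3
      · exact absurd k k4
      · exact Or.inr (Or.inl k)
      · exact Or.inr (Or.inr k)
    · rintro (k | k | k)
      · rw [k]; exact ⟨he', Ne.symm hne, h2.symm, h4.symm⟩
      · rw [k]; exact ⟨hz, h6, h11, h12⟩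
      · rw [k]; exact ⟨hv, h8, h13, h14⟩
  have h0 := h.a4 s {e, x, y} hs hd hc3
  rw [hcompl] at h0
  rw [h0, htw z v hz hv h6 h7 h8 h9 h10]

private theorem B3b_perm (P : Fin 10 → Prop) (e e' p q r w : Fin 10)
    (hcov : ∀ x, P x → x = e ∨ x = e' ∨ x = p ∨ x = q ∨ x = r ∨ x = w) :
    (∀ x, P x → x = e ∨ x = e' ∨ x = p ∨ x = r ∨ x = q ∨ x = w) ∧
    (∀ x, P x → x = e ∨ x = e' ∨ x = p ∨ x = w ∨ x = q ∨ x = r) ∧
    (∀ x, P x → x = e ∨ x = e' ∨ x = q ∨ x = p ∨ x = r ∨ x = w) ∧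
    (∀ x, P x → x = e ∨ x = e' ∨ x = r ∨ x = p ∨ x = q ∨ x = w) ∧
    (∀ x, P x → x = e ∨ x = e' ∨ x = w ∨ x = p ∨ x = q ∨ x = r) := by
  refine ⟨?_, ?_, ?_, ?_, ?_⟩ <;>
  · intro x hx
    rcases hcov x hx with h | h | h | h | h | h <;> rw [h] <;> simp

private theorem B3b_sy (e x y : Fin 10) : ({e, x, y} : Finset (Fin 10)) = {e, y, x} := by
  rw [Finset.pair_comm]

/-- Task BK-B3: if `e ≠ e'` then `K {e,t,t'} ↔ K {a,t,t'} ↔ K {e',t,t'}` for
`t,t' ∈ X = T \ {e,e'}`; so by `a4` exactly one edge of every matching of `X` is in the link of `e`;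
so the link of `e` on `X` is a star (a vertex of degree 3, contradiction to `deg_two`) or a
triangle (the fourth vertex of `X` has degree at most 1 in the link, contradiction). -/
theorem ev_unique (h : Facts Q K) (s : Finset (Fin 10)) (hs : Q s) (a e e' : Fin 10)
    (hE : EV Q s a e) (hE' : EV Q s a e') : e = e' := by
  by_contra hne
  have h4 : s.card = 4 := h.q4 s hs
  have he : e ∉ s := hE.2.1
  have he' : e' ∉ s := hE'.2.1
  have hcard : ((s ∪ {e, e'})ᶜ).card = 3 + 1 := by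
    rw [Finset.card_compl, Finset.card_union_of_disjoint, h4, Finset.card_pair hne]
    · simp
    · rw [Finset.disjoint_right]
      intro x hx
      simp only [Finset.mem_insert, Finset.mem_singleton] at hx
      rcases hx with rfl | rfl <;> assumption
  obtain ⟨p, t, hpt, hst, ht⟩ := Finset.card_eq_succ.1 hcard
  obtain ⟨q, r, w, hqr, hqw, hrw, htt⟩ := Finset.card_eq_three.1 ht
  have hXeq : ((s ∪ {e, e'})ᶜ : Finset (Fin 10)) = {p, q, r, w} := by rw [← hst, htt]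
  have hpq : p ≠ q := by rintro rfl; apply hpt; rw [htt]; simp
  have hpr : p ≠ r := by rintro rfl; apply hpt; rw [htt]; simp
  have hpw : p ≠ w := by rintro rfl; apply hpt; rw [htt]; simp
  have hX : ∀ x, (x = p ∨ x = q ∨ x = r ∨ x = w) ↔ (x ∉ s ∧ x ≠ e ∧ x ≠ e') := by
    intro x
    have h1 : x ∈ ((s ∪ {e, e'})ᶜ : Finset (Fin 10)) ↔ (x = p ∨ x = q ∨ x = r ∨ x = w) := by
      rw [hXeq]; simp
    rw [← h1]
    simp only [Finset.mem_compl, Finset.mem_union, Finset.mem_insert, Finset.mem_singleton, not_or]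
  have hcov : ∀ x, x ∉ s → x = e ∨ x = e' ∨ x = p ∨ x = q ∨ x = r ∨ x = w := by
    intro x hx
    by_cases h1 : x = e
    · exact Or.inl h1
    by_cases h2 : x = e'
    · exact Or.inr (Or.inl h2)
    exact Or.inr (Or.inr ((hX x).2 ⟨hx, h1, h2⟩))
  obtain ⟨hps, hpe, hpe'⟩ := (hX p).1 (Or.inl rfl)
  obtain ⟨hqs, hqe, hqe'⟩ := (hX q).1 (Or.inr (Or.inl rfl))
  obtain ⟨hrs, hre, hre'⟩ := (hX r).1 (Or.inr (Or.inr (Or.inl rfl)))
  obtain ⟨hws, hwe, hwe'⟩ := (hX w).1 (Or.inr (Or.inr (Or.inr rfl)))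
  -- twins
  have htw : ∀ x y, x ∉ s → y ∉ s → x ≠ e → x ≠ e' → y ≠ e → y ≠ e' → x ≠ y →
      (K {e, x, y} ↔ K {e', x, y}) := by
    intro x y hx hy h1 h2 h3 h4 h5
    exact (twin h s hs a e hE x y hx hy h1 h3 h5).symm.trans
      (twin h s hs a e' hE' x y hx hy h2 h4 h5)
  -- complements
  have hco := B3b_co h s hs e e' he he' hne htw
  obtain ⟨cv1, cv2, cv3, cv4, cv5⟩ := B3b_perm (fun x => x ∉ s) e e' p q r w hcov
  have c1 : K {e, p, q} ↔ ¬ K {e, r, w} :=
    hco p q r w hps hqs hpe hpe' hqe hqe' hpq hcov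
      hrs hws hre hre' hwe hwe' hrw hpr.symm hqr.symm hpw.symm hqw.symm
  have c2 : K {e, p, r} ↔ ¬ K {e, q, w} :=
    hco p r q w hps hrs hpe hpe' hre hre' hpr cv1
      hqs hws hqe hqe' hwe hwe' hqw hpq.symm hqr hpw.symm hrw.symm
  have c3 : K {e, p, w} ↔ ¬ K {e, q, r} :=
    hco p w q r hps hws hpe hpe' hwe hwe' hpw cv2
      hqs hrs hqe hqe' hre hre' hqr hpq.symm hqw hpr.symm hrw
  -- symmetric forms
  have sy := fun x y : Fin 10 => B3b_sy e x y
  have dp1 := B3b_not_all h s hs e p q r w he hps hqs hrs hws hpe.symm hqe.symm hre.symm hwe.symm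
    hpq hpr hpw hqr hqw hrw
  have dp2 := B3b_not_none h s hs e p q r w e' hcov
    he hps hpe.symm
  have dq1 := B3b_not_all h s hs e q p r w he hqs hps hrs hws hqe.symm hpe.symm hre.symm hwe.symm
    hpq.symm hqr hqw hpr hpw hrw
  have dq2 := B3b_not_none h s hs e q p r w e' cv3
    he hqs hqe.symm
  have dr1 := B3b_not_all h s hs e r p q w he hrs hps hqs hws hre.symm hpe.symm hqe.symm hwe.symm
    hpr.symm hqr.symm hrw hpq hpw hqw
  have dr2 := B3b_not_none h s hs e r p q w e' cv4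
    he hrs hre.symm
  have dw1 := B3b_not_all h s hs e w p q r he hws hps hqs hrs hwe.symm hpe.symm hqe.symm hre.symm
    hpw.symm hqw.symm hrw.symm hpq hpr hqr
  have dw2 := B3b_not_none h s hs e w p q r e' cv5
    he hws hwe.symm
  rw [sy q p] at dq1 dq2
  rw [sy r p, sy r q] at dr1 dr2
  rw [sy w p, sy w q, sy w r] at dw1 dw2
  exact B3b_logic (K {e, p, q}) (K {e, p, r}) (K {e, p, w}) (K {e, r, w}) (K {e, q, w})
    (K {e, q, r}) c1 c2 c3 dp1 dp2 dq1 dq2 dr1 dr2 dw1 dw2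

/-- Task BK-B3: no three members of `Q` contain a common triple. -/
theorem triple_two (h : Facts Q K) (A : Finset (Fin 10)) (hA : A.card = 3) (x y z : Fin 10)
    (hx : x ∉ A) (hy : y ∉ A) (hz : z ∉ A) (hxy : x ≠ y) (hxz : x ≠ z) (hyz : y ≠ z)
    (h1 : Q (insert x A)) (h2 : Q (insert y A)) (h3 : Q (insert z A)) : False := by
  have herase : (insert x A).erase x = A := Finset.erase_insert hx
  have hEy : EV Q (insert x A) x y := by
    refine ⟨Finset.mem_insert_self _ _, ?_, ?_⟩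
    · simp only [Finset.mem_insert, not_or]
      exact ⟨hxy.symm, hy⟩
    · rw [herase]; exact h2
  have hEz : EV Q (insert x A) x z := by
    refine ⟨Finset.mem_insert_self _ _, ?_, ?_⟩
    · simp only [Finset.mem_insert, not_or]
      exact ⟨hxz.symm, hz⟩
    · rw [herase]; exact h3
  exact hyz (ev_unique h _ h1 x y z hEy hEz)

end BK
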