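import Crest.Agent.BK_B3

set_option autoImplicit false

namespace BK
open Finset

variable {Q K : Finset (Fin 10) → Prop}

private theorem B4a_sub {s' : Finset (Fin 10)} {a b c : Fin 10} (ha : a ∈ s') (hb : b ∈ s')
    (hc : c ∈ s') : ({a, b, c} : Finset (Fin 10)) ⊆ s' := by
  intro x hx
  simp only [Finset.mem_insert, Finset.mem_singleton] at hx
  rcases hx with h | h | h <;> rw [h] <;> assumption

private theorem B4a_three (l m c d u : Fin 10) (hcd : c ≠ d) (hcu : c ≠ u) (hdu : d ≠ u)
    (e1 : c = l ∨ c = m) (e2 : d = l ∨ d = m) (e3 : u = l ∨ u = m) : False := by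
  rcases e1 with e1 | e1 <;> rcases e2 with e2 | e2
  · exact hcd (e1.trans e2.symm)
  · rcases e3 with e3 | e3
    · exact hcu (e1.trans e3.symm)
    · exact hdu (e2.trans e3.symm)
  · rcases e3 with e3 | e3
    · exact hdu (e2.trans e3.symm)
    · exact hcu (e1.trans e3.symm)
  · exact hcd (e1.trans e2.symm)

/-- Task BK-B4: if `s' ⊆ T = sᶜ`, all four triples of `s'` are faces; `T \ s' = {u,v}`; `{a,b} ⊆ s'` has
degree two inside `s'`, so `{a,b,u}` is not a face, its complement `{c,d,v}` is a face, so `{c,d}`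
has degree three: contradiction to `deg_two`. -/
theorem not_disj (h : Facts Q K) (s s' : Finset (Fin 10)) (hs : Q s) (hs' : Q s') :
    ¬ Disjoint s s' := by
  intro hd
  have h4 : s.card = 4 := h.q4 s hs
  have h4' : s'.card = 3 + 1 := h.q4 s' hs'
  have hK' : K s' := h.qk s' hs'
  obtain ⟨a, t, hat, hst, ht⟩ := Finset.card_eq_succ.1 h4'
  obtain ⟨b, c, d, hbc, hbd, hcd, htt⟩ := Finset.card_eq_three.1 ht
  have hs'eq : s' = {a, b, c, d} := by rw [← hst, htt]
  have hab : a ≠ b := by rintro rfl; apply hat; rw [htt]; simp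
  have hac : a ≠ c := by rintro rfl; apply hat; rw [htt]; simp
  have had : a ≠ d := by rintro rfl; apply hat; rw [htt]; simp
  have hcard : (s ∪ s')ᶜ.card = 2 := by
    rw [Finset.card_compl, Finset.card_union_of_disjoint hd, h4, h4']
    simp
  obtain ⟨u, v, huv, huveq⟩ := Finset.card_eq_two.1 hcard
  have hcov : ∀ x, x ∉ s ↔ x = a ∨ x = b ∨ x = c ∨ x = d ∨ x = u ∨ x = v := by
    intro x
    have h1 : x ∈ (s ∪ s')ᶜ ↔ x = u ∨ x = v := by
      rw [huveq, Finset.mem_insert, Finset.mem_singleton]
    have h2 : x ∈ s' ↔ x = a ∨ x = b ∨ x = c ∨ x = d := by rw [hs'eq]; simp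
    have h3 : x ∈ s' → x ∉ s := fun hx hxs => (Finset.disjoint_left.1 hd) hxs hx
    rw [Finset.mem_compl, Finset.mem_union] at h1
    constructor
    · intro hx
      by_cases hx' : x ∈ s'
      · rcases h2.1 hx' with h | h | h | h <;> rw [h] <;> simp
      · have hnn : ¬ (x ∈ s ∨ x ∈ s') := not_or.2 ⟨hx, hx'⟩
        rcases h1.1 hnn with h | h <;> rw [h] <;> simp
    · intro hx
      by_cases hx' : x ∈ s'
      · exact h3 hx'
      · have : x = u ∨ x = v := by
          rcases hx with h | h | h | h | h | h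
          · exact absurd (h2.2 (Or.inl h)) hx'
          · exact absurd (h2.2 (Or.inr (Or.inl h))) hx'
          · exact absurd (h2.2 (Or.inr (Or.inr (Or.inl h)))) hx'
          · exact absurd (h2.2 (Or.inr (Or.inr (Or.inr h)))) hx'
          · exact Or.inl h
          · exact Or.inr h
        have h5 := h1.2 this
        exact (not_or.1 h5).1
  have hu' : u ∉ s' := by
    have : u ∈ (s ∪ s')ᶜ := by rw [huveq]; simp
    rw [Finset.mem_compl, Finset.mem_union] at this; exact (not_or.1 this).2
  have hv' : v ∉ s' := by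
    have : v ∈ (s ∪ s')ᶜ := by rw [huveq]; simp
    rw [Finset.mem_compl, Finset.mem_union] at this; exact (not_or.1 this).2
  have hau : a ≠ u := by rintro rfl; apply hu'; rw [hs'eq]; simp
  have hbu : b ≠ u := by rintro rfl; apply hu'; rw [hs'eq]; simp
  have hcu : c ≠ u := by rintro rfl; apply hu'; rw [hs'eq]; simp
  have hdu : d ≠ u := by rintro rfl; apply hu'; rw [hs'eq]; simp
  have hav : a ≠ v := by rintro rfl; apply hv'; rw [hs'eq]; simp
  have hbv : b ≠ v := by rintro rfl; apply hv'; rw [hs'eq]; simp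
  have hcv : c ≠ v := by rintro rfl; apply hv'; rw [hs'eq]; simp
  have hdv : d ≠ v := by rintro rfl; apply hv'; rw [hs'eq]; simp
  have has : a ∉ s := (hcov a).2 (by simp)
  have hbs : b ∉ s := (hcov b).2 (by simp)
  have hcs : c ∉ s := (hcov c).2 (by simp)
  have hds : d ∉ s := (hcov d).2 (by simp)
  have hus : u ∉ s := (hcov u).2 (by simp)
  have hvs : v ∉ s := (hcov v).2 (by simp)
  have ma : a ∈ s' := by rw [hs'eq]; simp
  have mb : b ∈ s' := by rw [hs'eq]; simp
  have mc : c ∈ s' := by rw [hs'eq]; simp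
  have md : d ∈ s' := by rw [hs'eq]; simp
  have kabc : K {a, b, c} := h.mono _ _ (B4a_sub ma mb mc) hK'
  have kabd : K {a, b, d} := h.mono _ _ (B4a_sub ma mb md) hK'
  have kcda : K {c, d, a} := h.mono _ _ (B4a_sub mc md ma) hK'
  have kcdb : K {c, d, b} := h.mono _ _ (B4a_sub mc md mb) hK'
  -- `{a,b,u}` is not a face
  have nabu : ¬ K {a, b, u} := by
    intro hk
    obtain ⟨l, m, _, _, _, _, _, _, hlm, _, _, hall⟩ := deg_two h s hs a b has hbs hab
    have e1 := hall c hcs hac.symm hbc.symm kabc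
    have e2 := hall d hds had.symm hbd.symm kabd
    have e3 := hall u hus hau.symm hbu.symm hk
    exact B4a_three l m c d u hcd hcu hdu e1 e2 e3
  have hB : ({a, b, u} : Finset (Fin 10)).card = 3 := by
    rw [Finset.card_eq_three]
    exact ⟨a, b, u, hab, hau, hbu, rfl⟩
  have hdisjB : Disjoint s {a, b, u} := by
    rw [Finset.disjoint_right]
    intro x hx
    simp only [Finset.mem_insert, Finset.mem_singleton] at hx
    rcases hx with rfl | rfl | rfl <;> assumption
  have hcompl : (univ \ (s ∪ {a, b, u}) : Finset (Fin 10)) = {c, d, v} := by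
    ext x
    rw [Finset.mem_sdiff, Finset.mem_union, not_or]
    simp only [Finset.mem_univ, true_and, Finset.mem_insert,
      Finset.mem_singleton, not_or]
    constructor
    · rintro ⟨h1, h2, h3, h4⟩
      rcases (hcov x).1 h1 with h | h | h | h | h | h
      · exact absurd h h2
      · exact absurd h h3
      · exact Or.inl h
      · exact Or.inr (Or.inl h)
      · exact absurd h h4
      · exact Or.inr (Or.inr h)
    · rintro (h | h | h)
      · rw [h]; exact ⟨hcs, hac.symm, hbc.symm, hcu⟩
      · rw [h]; exact ⟨hds, had.symm, hbd.symm, hdu⟩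
      · rw [h]; exact ⟨hvs, hav.symm, hbv.symm, huv.symm⟩
  have kcdv : K {c, d, v} := by
    have h0 := h.a4 s {a, b, u} hs hdisjB hB
    rw [hcompl] at h0
    by_contra hcon
    exact nabu (h0.2 hcon)
  obtain ⟨l, m, _, _, _, _, _, _, hlm, _, _, hall⟩ := deg_two h s hs c d hcs hds hcd
  have e1 := hall a has hac had kcda
  have e2 := hall b hbs hbc hbd kcdb
  have e3 := hall v hvs hcv.symm hdv.symm kcdv
  exact B4a_three l m a b v hab hav hbv e1 e2 e3

end BK
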