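import Crest.Agent.BK_B3
import Crest.Agent.BK_B4a

set_option autoImplicit false

namespace BK
open Finset

variable {Q K : Finset (Fin 10) → Prop}

/-- Task BK-B4: `D` (three colours outside `s`) is active via `a`. Suppose `e ∉ D`. For `d,d' ∈ D`:
`K {a,d,d'}` (`Q → K`), so `K {e,d,d'}` by `twin`, for all three pairs of the face `D`:
contradiction to `exists_RP`. -/
theorem ev_mem (h : Facts Q K) (s D : Finset (Fin 10)) (hs : Q s) (hD : D.card = 3)
    (hsD : Disjoint s D) (a e : Fin 10) (hE : EV Q s a e) (hQ : Q (insert a D)) : e ∈ D := by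
  by_contra he
  obtain ⟨x, y, z, hxy, hxz, hyz, rfl⟩ := Finset.card_eq_three.1 hD
  have hKQ := h.qk _ hQ
  have hx : x ∉ s := fun hx => (Finset.disjoint_left.1 hsD hx) (by simp)
  have hy : y ∉ s := fun hx => (Finset.disjoint_left.1 hsD hx) (by simp)
  have hz : z ∉ s := fun hx => (Finset.disjoint_left.1 hsD hx) (by simp)
  simp only [mem_insert, mem_singleton, not_or] at he
  obtain ⟨hex, hey, hez⟩ := he
  have hK : K {x, y, z} := h.mono _ _ (Finset.subset_insert _ _) hKQ
  have k1 : K {e, y, z} := (twin h s hs a e hE y z hy hz (Ne.symm hey) (Ne.symm hez) hyz).1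
    (h.mono _ _ (by intro t; simp only [mem_insert, mem_singleton]; tauto) hKQ)
  have k2 : K {e, x, z} := (twin h s hs a e hE x z hx hz (Ne.symm hex) (Ne.symm hez) hxz).1
    (h.mono _ _ (by intro t; simp only [mem_insert, mem_singleton]; tauto) hKQ)
  obtain ⟨x', y', z', R⟩ := exists_RP h s hs x y z hx hy hz hxy hxz hyz hK
  rcases (R.univ e).1 hE.2.1 with h1 | h1 | h1 | h1 | h1 | h1
  · exact hex h1
  · exact hey h1
  · exact hez h1
  · subst h1
    apply R.g7
    have : ({x, z, e} : Finset (Fin 10)) = {e, x, z} := by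
      ext t; simp only [mem_insert, mem_singleton]; tauto
    rw [this]; exact k2
  · subst h1
    apply R.g5
    have : ({y, z, e} : Finset (Fin 10)) = {e, y, z} := by
      ext t; simp only [mem_insert, mem_singleton]; tauto
    rw [this]; exact k1
  · subst h1
    apply R.g4
    have : ({y, z, e} : Finset (Fin 10)) = {e, y, z} := by
      ext t; simp only [mem_insert, mem_singleton]; tauto
    rw [this]; exact k1

/-- Task BK-B4: `D` is in a second member of `Q` (`a2`), not inside `T` (`not_disj`). -/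
theorem active_two (h : Facts Q K) (s D : Finset (Fin 10)) (hs : Q s) (hD : D.card = 3)
    (hsD : Disjoint s D) (a : Fin 10) (ha : a ∈ s) (hQ : Q (insert a D)) :
    ∃ a' ∈ s, a' ≠ a ∧ Q (insert a' D) := by
  obtain ⟨U, hU, hE⟩ := h.a2 D hD
  have haU : a ∈ U := (hU a).2 ⟨Finset.disjoint_left.1 hsD ha, hQ⟩
  have hc : 1 < U.card := by
    have : 0 < U.card := Finset.card_pos.2 ⟨a, haU⟩
    obtain ⟨k, hk⟩ := hE
    omega
  obtain ⟨a', ha', hne⟩ := Finset.exists_mem_ne hc a
  obtain ⟨h1, h2⟩ := (hU a').1 ha'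
  refine ⟨a', ?_, hne, h2⟩
  by_contra hs'
  refine not_disj h s (insert a' D) hs h2 ?_
  rw [Finset.disjoint_insert_right]
  exact ⟨hs', hsD⟩

end BK
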