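import Crest.Agent.BK_B3
import Crest.Agent.BK_B4a
import Crest.Agent.BK_B4b

set_option autoImplicit false

namespace BK
open Finset

variable {Q K : Finset (Fin 10) → Prop}

/-- Task BK-B4: Let `C = T \ D`. For pairs `l,l'` of `C`: `K{a,l,l'} ↔ K{a',l,l'}` (`twin` for the
member `insert a D` and `a ↦ a'`), `K{a,l,l'} ↔ K{e,l,l'}`, `K{a',l,l'} ↔ K{e',l,l'}`.
By `exists_RP` for `D` two different elements of `D` have different links on `C`. -/
theorem active_ev (h : Facts Q K) (s D : Finset (Fin 10)) (hs : Q s) (hD : D.card = 3)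
    (hsD : Disjoint s D) (a a' e e' : Fin 10) (haa : a ≠ a') (hE : EV Q s a e)
    (hE' : EV Q s a' e') (hQ : Q (insert a D)) (hQ' : Q (insert a' D)) : e = e' := by
  by_contra hne
  have he : e ∈ D := ev_mem h s D hs hD hsD a e hE hQ
  have he' : e' ∈ D := ev_mem h s D hs hD hsD a' e' hE' hQ'
  have has : a ∈ s := hE.1
  have has' : a' ∈ s := hE'.1
  have haD : a ∉ D := fun hh => Finset.disjoint_left.mp hsD has hh
  have haD' : a' ∉ D := fun hh => Finset.disjoint_left.mp hsD has' hh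
  have hDs : ∀ t ∈ D, t ∉ s := fun t ht hts => Finset.disjoint_left.mp hsD hts ht
  -- the third element of D
  obtain ⟨f, hf⟩ : ∃ f, (D.erase e).erase e' = {f} := by
    rw [← Finset.card_eq_one, Finset.card_erase_of_mem, Finset.card_erase_of_mem he, hD]
    exact Finset.mem_erase.mpr ⟨fun hh => hne hh.symm, he'⟩
  have hf1 : f ∈ (D.erase e).erase e' := by rw [hf]; exact Finset.mem_singleton_self f
  rw [Finset.mem_erase, Finset.mem_erase] at hf1
  obtain ⟨hfe', hfe, hfD⟩ := hf1
  have hDeq : D = {e, e', f} := by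
    have h1 : D = insert e (insert e' ((D.erase e).erase e')) := by
      rw [Finset.insert_erase (Finset.mem_erase.mpr ⟨fun hh => hne hh.symm, he'⟩),
        Finset.insert_erase he]
    rw [hf] at h1
    exact h1
  have hKD : K {e, e', f} := by
    rw [← hDeq]
    exact h.mono D (insert a D) (Finset.subset_insert _ _) (h.qk _ hQ)
  obtain ⟨x', y', z', hRP⟩ := exists_RP h s hs e e' f (hDs e he) (hDs e' he') (hDs f hfD) hne
    hfe.symm hfe'.symm hKD
  have hy's : y' ∉ s := (hRP.univ y').mpr (by tauto)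
  have hz's : z' ∉ s := (hRP.univ z').mpr (by tauto)
  have hnd := hRP.nodup
  simp only [List.nodup_cons, List.mem_cons, List.not_mem_nil, or_false, not_or,
    List.nodup_nil, and_true, not_false_eq_true] at hnd
  obtain ⟨⟨n1, n2, n3, n4, n5⟩, ⟨m1, m2, m3, m4⟩, ⟨l1, l2, l3⟩, ⟨k1, k2⟩, j1⟩ := hnd
  have hy'D : y' ∉ D := by
    rw [hDeq]
    simp only [Finset.mem_insert, Finset.mem_singleton, not_or]
    exact ⟨fun hh => n4 hh.symm, fun hh => m3 hh.symm, fun hh => l2 hh.symm⟩
  have hz'D : z' ∉ D := by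
    rw [hDeq]
    simp only [Finset.mem_insert, Finset.mem_singleton, not_or]
    exact ⟨fun hh => n5 hh.symm, fun hh => m4 hh.symm, fun hh => l3 hh.symm⟩
  have hEV : EV Q (insert a D) a a' := by
    refine ⟨Finset.mem_insert_self _ _, ?_, ?_⟩
    · rw [Finset.mem_insert, not_or]; exact ⟨haa.symm, haD'⟩
    · rw [Finset.erase_insert haD]; exact hQ'
  have t1 : K {a, y', z'} ↔ K {a', y', z'} := by
    refine twin h (insert a D) hQ a a' hEV y' z' ?_ ?_ ?_ ?_ j1
    · rw [Finset.mem_insert, not_or]; exact ⟨fun hh => hy's (hh ▸ has), hy'D⟩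
    · rw [Finset.mem_insert, not_or]; exact ⟨fun hh => hz's (hh ▸ has), hz'D⟩
    · exact fun hh => hy's (hh ▸ has')
    · exact fun hh => hz's (hh ▸ has')
  have t2 : K {a, y', z'} ↔ K {e, y', z'} :=
    twin h s hs a e hE y' z' hy's hz's (fun hh => n4 hh.symm) (fun hh => n5 hh.symm) j1
  have t3 : K {a', y', z'} ↔ K {e', y', z'} :=
    twin h s hs a' e' hE' y' z' hy's hz's (fun hh => m3 hh.symm) (fun hh => m4 hh.symm) j1
  exact hRP.g1 (t2.mp (t1.mpr (t3.mpr hRP.f7)))

end BK
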