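import Crest.Agent.BK_B3

set_option autoImplicit false

namespace BK
open Finset

variable {Q K : Finset (Fin 10) → Prop}

/-- common set-up: `exists_RP` for the member `insert a D` and the face `s - a = {b, b', c}`. -/
private theorem B4d_setup (h : Facts Q K) (s D : Finset (Fin 10)) (hs : Q s)
    (hsD : Disjoint s D) (a b b' : Fin 10) (ha : a ∈ s) (hb : b ∈ s) (hb' : b' ∈ s)
    (hab : b ≠ a) (hab' : b' ≠ a) (hbb : b ≠ b') (hQ : Q (insert a D)) :
    ∃ c x' y' z', RP K (insert a D) b b' c x' y' z' ∧ x' ∉ s ∧ y' ∉ s ∧ z' ∉ s ∧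
      (∀ t, t ∈ s → t = a ∨ t = b ∨ t = b' ∨ t = c) := by
  have hcard := h.q4 s hs
  have hc1 : (((s.erase a).erase b).erase b').card = 1 := by
    rw [card_erase_of_mem (by simp [hb', hab', hbb.symm]), card_erase_of_mem (by simp [hb, hab]),
      card_erase_of_mem ha, hcard]
  obtain ⟨c, hc⟩ := card_eq_one.mp hc1
  have hcm : c ∈ ((s.erase a).erase b).erase b' := by rw [hc]; simp
  simp only [mem_erase] at hcm
  obtain ⟨hcb', hcb, hca, hcs⟩ := hcm
  have hseq : ∀ t, t ∈ s → t = a ∨ t = b ∨ t = b' ∨ t = c := by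
    intro t ht
    by_cases h1 : t = a
    · exact Or.inl h1
    by_cases h2 : t = b
    · exact Or.inr (Or.inl h2)
    by_cases h3 : t = b'
    · exact Or.inr (Or.inr (Or.inl h3))
    have : t ∈ ((s.erase a).erase b).erase b' := by simp [h1, h2, h3, ht]
    rw [hc, mem_singleton] at this
    exact Or.inr (Or.inr (Or.inr this))
  have hbD : b ∉ insert a D := by
    simp only [mem_insert, not_or]
    exact ⟨hab, disjoint_left.mp hsD hb⟩
  have hb'D : b' ∉ insert a D := by
    simp only [mem_insert, not_or]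
    exact ⟨hab', disjoint_left.mp hsD hb'⟩
  have hcD : c ∉ insert a D := by
    simp only [mem_insert, not_or]
    exact ⟨hca, disjoint_left.mp hsD hcs⟩
  have hK : K {b, b', c} := by
    refine h.mono _ s ?_ (h.qk s hs)
    intro t ht
    simp only [mem_insert, mem_singleton] at ht
    rcases ht with rfl | rfl | rfl <;> assumption
  obtain ⟨x', y', z', hRP⟩ := exists_RP h (insert a D) hQ b b' c hbD hb'D hcD hbb hcb.symm
    hcb'.symm hK
  have hnd := hRP.nodup
  simp only [List.nodup_cons, List.mem_cons, List.not_mem_nil, or_false, not_or] at hnd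
  obtain ⟨⟨-, -, h1, h2, h3⟩, ⟨-, h4, h5, h6⟩, ⟨h7, h8, h9⟩, -⟩ := hnd
  have hx' : x' ∉ insert a D := by rw [hRP.univ]; simp
  have hy' : y' ∉ insert a D := by rw [hRP.univ]; simp
  have hz' : z' ∉ insert a D := by rw [hRP.univ]; simp
  simp only [mem_insert, not_or] at hx' hy' hz'
  refine ⟨c, x', y', z', hRP, ?_, ?_, ?_, hseq⟩
  · intro hm
    rcases hseq _ hm with e | e | e | e
    · exact hx'.1 e
    · exact h1 e.symm
    · exact h4 e.symm
    · exact h7 e.symm
  · intro hm
    rcases hseq _ hm with e | e | e | e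
    · exact hy'.1 e
    · exact h2 e.symm
    · exact h5 e.symm
    · exact h8 e.symm
  · intro hm
    rcases hseq _ hm with e | e | e | e
    · exact hz'.1 e
    · exact h3 e.symm
    · exact h6 e.symm
    · exact h9 e.symm

private theorem B4d_core (h : Facts Q K) (s D : Finset (Fin 10)) (hs : Q s)
    (hsD : Disjoint s D) (a b b' d : Fin 10) (ha : a ∈ s)
    (hab : b ≠ a) (hab' : b' ≠ a) (hbb : b ≠ b') (hF : EV Q s b d) (hF' : EV Q s b' d)
    (hd : d ∈ D) (hQ : Q (insert a D)) : False := by
  obtain ⟨c, x', y', z', hRP, hx', hy', hz', -⟩ :=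
    B4d_setup h s D hs hsD a b b' ha hF.1 hF'.1 hab hab' hbb hQ
  have hy'D : y' ∉ insert a D := by rw [hRP.univ]; simp
  have hz'D : z' ∉ insert a D := by rw [hRP.univ]; simp
  have hy'd : y' ≠ d := fun e => hy'D (e ▸ mem_insert_of_mem hd)
  have hz'd : z' ≠ d := fun e => hz'D (e ▸ mem_insert_of_mem hd)
  have hnd := hRP.nodup
  simp only [List.nodup_cons, List.mem_cons, List.not_mem_nil, or_false, not_or] at hnd
  have hyz : y' ≠ z' := hnd.2.2.2.2.1
  have t1 := twin h s hs b d hF y' z' hy' hz' hy'd hz'd hyz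
  have t2 := twin h s hs b' d hF' y' z' hy' hz' hy'd hz'd hyz
  exact hRP.g1 (t1.mpr (t2.mp hRP.f7))

/-- Task BK-B4: for another `b ∈ s` the value `e_b` is different. The complement of the member
`ρ = insert a D` is `(s - a) ∪ C`; `s - a` is a face there (`Q s`), so by `exists_RP` for `ρ` the three
elements of `s - a` have different links on `C`; but `e_b = e_{a'} = d` gives (`twin`, `C ⊆ T - d`)
that `b` and `a'` have the same link on `C` as `d`. -/
theorem active_ne (h : Facts Q K) (s D : Finset (Fin 10)) (hs : Q s) (hD : D.card = 3)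
    (hsD : Disjoint s D) (a a' b e f : Fin 10) (ha : a ∈ s) (haa : a ≠ a') (hab : b ≠ a)
    (ha'b : b ≠ a') (hE : EV Q s a' e) (hF : EV Q s b f) (he : e ∈ D)
    (hQ : Q (insert a D)) : e ≠ f := by
  intro hef
  subst hef
  exact B4d_core h s D hs hsD a b a' e ha hab haa.symm ha'b hF hE he hQ

/-- Task BK-B4: the other two values are different. Suppose `e_b = e_{b'} = f`. If `f ∈ D` then `b`,
`b'` have the same link on `C`: contradiction as in `active_ne`. If `f ∈ C`, then
`K {b, C - f} ↔ K {f, C - f} = K C = false`, same for `b'`; but exactly one element of `s - a` has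
`K {·, C - f}` false (`exists_RP` for `insert a D`). -/
theorem active_ne' (h : Facts Q K) (s D : Finset (Fin 10)) (hs : Q s) (hD : D.card = 3)
    (hsD : Disjoint s D) (a b b' f f' : Fin 10) (ha : a ∈ s) (hab : b ≠ a) (hab' : b' ≠ a)
    (hbb : b ≠ b') (hF : EV Q s b f) (hF' : EV Q s b' f') (hQ : Q (insert a D)) : f ≠ f' := by
  intro hff
  subst hff
  by_cases hfD : f ∈ D
  · exact B4d_core h s D hs hsD a b b' f ha hab hab' hbb hF hF' hfD hQ
  obtain ⟨c, x', y', z', hRP, hx', hy', hz', hseq⟩ :=
    B4d_setup h s D hs hsD a b b' ha hF.1 hF'.1 hab hab' hbb hQ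
  have hfs : f ∉ s := hF.2.1
  have hfρ : f ∉ insert a D := by
    simp only [mem_insert, not_or]
    exact ⟨fun e => hfs (e ▸ ha), hfD⟩
  have hnd := hRP.nodup
  simp only [List.nodup_cons, List.mem_cons, List.not_mem_nil, or_false, not_or] at hnd
  have hxy : x' ≠ y' := hnd.2.2.2.1.1
  have hxz : x' ≠ z' := hnd.2.2.2.1.2
  have hyz : y' ≠ z' := hnd.2.2.2.2.1
  have hcs : f ≠ c := by
    intro e
    -- c ∈ s : the complement of insert a D is s - a plus C
    have hcard := h.q4 s hs
    by_contra _
    have hcc : c ∈ s := by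
      by_contra hcs
      have hsub : s ⊆ {a, b, b'} := by
        intro t ht
        rcases hseq t ht with h1 | h1 | h1 | h1
        · simp [h1]
        · simp [h1]
        · simp [h1]
        · exact absurd (h1 ▸ ht) hcs
      have := card_le_card hsub
      have h3 : ({a, b, b'} : Finset (Fin 10)).card ≤ 3 := card_le_three
      omega
    exact hfs (e ▸ hcc)
  have hfb : f ≠ b := fun e => hfs (e ▸ hF.1)
  have hfb' : f ≠ b' := fun e => hfs (e ▸ hF'.1)
  rcases (hRP.univ f).mp hfρ with e | e | e | e | e | e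
  · exact hfb e
  · exact hfb' e
  · exact hcs e
  · subst e
    have t2 := twin h s hs b' f hF' y' z' hy' hz' hxy.symm hxz.symm hyz
    exact hRP.g0 (t2.mp hRP.f7)
  · subst e
    have t1 := twin h s hs b f hF x' z' hx' hz' hxy hyz.symm hxz
    have := t1.mp hRP.f5
    apply hRP.g0
    have e2 : ({x', f, z'} : Finset (Fin 10)) = {f, x', z'} := by
      ext t; simp only [mem_insert, mem_singleton]; tauto
    rw [e2]; exact this
  · subst e
    have t1 := twin h s hs b f hF x' y' hx' hy' hxz hyz hxy
    have := t1.mp hRP.f4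
    apply hRP.g0
    have e2 : ({x', y', f} : Finset (Fin 10)) = {f, x', y'} := by
      ext t; simp only [mem_insert, mem_singleton]; tauto
    rw [e2]; exact this

end BK
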