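import Crest.Agent.BK_B4

set_option autoImplicit false

namespace BK
open Finset

variable {Q K : Finset (Fin 10) → Prop}

/-- Task BK-B5: every face `{d,x,y}` of `T` is active. By `exists_RP` for `{d,x,y}`
(`T = {d,x,y,d',x',y'}`): `a6` for the blocks `s | {d,d'} | {x, y'} | {y, x'}` (pairs are in `K`)
gives a member `{c} ∪ D` with `c ∈ s` and `D` a transversal of the last three blocks; `D` is active
so contains `d`; the transversals `{d,x,x'}`, `{d,y',y}`, `{d,y',x'}` are not faces. -/
theorem faces_active (h : Facts Q K) (s : Finset (Fin 10)) (hs : Q s) (d : Fin 10) (hd : d ∉ s)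
    (hall : ∀ D : Finset (Fin 10), D.card = 3 → Disjoint s D → (∃ c ∈ s, Q (insert c D)) → d ∈ D)
    (x y : Fin 10) (hx : x ∉ s) (hy : y ∉ s) (hxy : x ≠ y) (hxd : x ≠ d) (hyd : y ≠ d)
    (hK : K {d, x, y}) : ∃ c ∈ s, Q {c, d, x, y} := by
  classical
  obtain ⟨d', x', y', R⟩ := exists_RP h s hs d x y hd hx hy hxd.symm hyd.symm hxy hK
  have hnd := R.nodup
  simp only [List.nodup_cons, List.mem_cons, List.not_mem_nil, or_false, not_or,
    not_false_eq_true, and_true, List.nodup_nil] at hnd
  obtain ⟨⟨n1, n2, n3, n4, n5⟩, ⟨n6, n7, n8, n9⟩, ⟨n10, n11, n12⟩, ⟨n13, n14⟩, n15⟩ := hnd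
  set b : Fin 10 → ℕ := fun i => if i ∈ s then 0 else if i = d ∨ i = d' then 1 else
    if i = x ∨ i = y' then 2 else 3 with hb
  have hT := R.univ
  have b0 : ∀ i, b i = 0 ↔ i ∈ s := by
    intro i
    simp only [hb]
    split_ifs <;> simp_all
  have b1 : ∀ i, b i = 1 → (i = d ∨ i = d') := by
    intro i hi
    by_contra h2
    by_cases h1 : i ∈ s
    · simp only [hb, if_pos h1] at hi
      exact absurd hi (by norm_num)
    · by_cases h3 : i = x ∨ i = y'
      · simp only [hb, if_neg h1, if_neg h2, if_pos h3] at hi
        exact absurd hi (by norm_num)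
      · simp only [hb, if_neg h1, if_neg h2, if_neg h3] at hi
        exact absurd hi (by norm_num)
  have b2 : ∀ i, b i = 2 → (i = x ∨ i = y') := by
    intro i hi
    by_contra h3
    by_cases h1 : i ∈ s
    · simp only [hb, if_pos h1] at hi
      exact absurd hi (by norm_num)
    · by_cases h2 : i = d ∨ i = d'
      · simp only [hb, if_neg h1, if_pos h2] at hi
        exact absurd hi (by norm_num)
      · simp only [hb, if_neg h1, if_neg h2, if_neg h3] at hi
        exact absurd hi (by norm_num)
  have b3 : ∀ i, b i = 3 → (i = y ∨ i = x') := by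
    intro i hi
    by_cases h1 : i ∈ s
    · simp only [hb, if_pos h1] at hi
      exact absurd hi (by norm_num)
    · by_cases h2 : i = d ∨ i = d'
      · simp only [hb, if_neg h1, if_pos h2] at hi
        exact absurd hi (by norm_num)
      · by_cases h3 : i = x ∨ i = y'
        · simp only [hb, if_neg h1, if_neg h2, if_pos h3] at hi
          exact absurd hi (by norm_num)
        · rcases (hT i).1 h1 with h | h | h | h | h | h
          · exact absurd (Or.inl h) h2
          · exact absurd (Or.inl h) h3
          · exact Or.inl h
          · exact absurd (Or.inr h) h2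
          · exact Or.inr h
          · exact absurd (Or.inr h) h3
  have blt : ∀ i, b i < 4 := by
    intro i
    simp only [hb]
    split_ifs <;> norm_num
  have hbd : b d = 1 := by
    simp only [hb, if_neg hd]
    simp
  have hfib : ∀ j, K (univ.filter (fun i => b i = j)) := by
    intro j
    rcases Nat.lt_or_ge j 4 with hj | hj
    · interval_cases j
      · apply h.mono _ s _ (h.qk s hs)
        intro i hi
        simp only [mem_filter, mem_univ, true_and] at hi
        exact (b0 i).1 hi
      · apply h.mono _ _ _ R.f4
        intro i hi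
        simp only [mem_filter, mem_univ, true_and] at hi
        rcases b1 i hi with rfl | rfl <;> simp
      · apply h.mono _ _ _ R.f7
        intro i hi
        simp only [mem_filter, mem_univ, true_and] at hi
        rcases b2 i hi with rfl | rfl <;> simp
      · apply h.mono _ _ _ R.f9
        intro i hi
        simp only [mem_filter, mem_univ, true_and] at hi
        rcases b3 i hi with rfl | rfl <;> simp
    · apply h.mono _ _ _ (h.sing 0)
      intro i hi
      simp only [mem_filter, mem_univ, true_and] at hi
      have := blt i
      omega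
  obtain ⟨S, hQS, hinj⟩ := h.a6 b hfib
  have hS4 := h.q4 S hQS
  have himg : S.image b = Finset.range 4 := by
    apply Finset.eq_of_subset_of_card_le
    · intro j hj
      rw [Finset.mem_image] at hj
      obtain ⟨i, _, rfl⟩ := hj
      exact Finset.mem_range.2 (blt i)
    · rw [Finset.card_image_of_injOn hinj, hS4, Finset.card_range]
  have hex : ∀ j, j < 4 → ∃ i ∈ S, b i = j := by
    intro j hj
    have : j ∈ S.image b := by
      rw [himg]
      exact Finset.mem_range.2 hj
    rw [Finset.mem_image] at this
    exact this
  obtain ⟨c, hcS, hc⟩ := hex 0 (by norm_num)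
  obtain ⟨u1, hu1S, hu1⟩ := hex 1 (by norm_num)
  obtain ⟨u2, hu2S, hu2⟩ := hex 2 (by norm_num)
  obtain ⟨u3, hu3S, hu3⟩ := hex 3 (by norm_num)
  have hcs : c ∈ s := (b0 c).1 hc
  have hDd : d ∈ S.erase c := by
    apply hall
    · rw [Finset.card_erase_of_mem hcS, hS4]
    · rw [Finset.disjoint_left]
      intro i his hiD
      rw [Finset.mem_erase] at hiD
      apply hiD.1
      apply hinj hiD.2 hcS
      rw [hc, (b0 i).2 his]
    · exact ⟨c, hcs, by rw [Finset.insert_erase hcS]; exact hQS⟩
  have hdS : d ∈ S := (Finset.mem_erase.1 hDd).2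
  have hKS : K S := h.qk S hQS
  have hSsub : ({c, d, u2, u3} : Finset (Fin 10)) = S := by
    apply Finset.eq_of_subset_of_card_le
    · intro i hi
      simp only [mem_insert, mem_singleton] at hi
      rcases hi with rfl | rfl | rfl | rfl <;> assumption
    · have hcd : c ≠ d := by
        rintro rfl
        rw [hc] at hbd
        norm_num at hbd
      have hc2 : c ≠ u2 := by
        rintro rfl
        rw [hc] at hu2
        norm_num at hu2
      have hc3 : c ≠ u3 := by
        rintro rfl
        rw [hc] at hu3
        norm_num at hu3
      have hd2 : d ≠ u2 := by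
        rintro rfl
        rw [hbd] at hu2
        norm_num at hu2
      have hd3 : d ≠ u3 := by
        rintro rfl
        rw [hbd] at hu3
        norm_num at hu3
      have h23 : u2 ≠ u3 := by
        rintro rfl
        rw [hu2] at hu3
        norm_num at hu3
      rw [hS4, Finset.card_insert_of_notMem (by simp [hcd, hc2, hc3]),
        Finset.card_insert_of_notMem (by simp [hd2, hd3]),
        Finset.card_insert_of_notMem (by simp [h23]), Finset.card_singleton]
  rcases b2 u2 hu2 with rfl | rfl
  · rcases b3 u3 hu3 with rfl | rfl
    · exact ⟨c, hcs, by rw [hSsub]; exact hQS⟩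
    · exfalso
      apply R.g8
      apply h.mono _ S _ hKS
      intro i hi
      simp only [mem_insert, mem_singleton] at hi
      rcases hi with rfl | rfl | rfl <;> assumption
  · rcases b3 u3 hu3 with rfl | rfl
    · exfalso
      apply R.g6
      apply h.mono _ S _ hKS
      intro i hi
      simp only [mem_insert, mem_singleton] at hi
      rcases hi with rfl | rfl | rfl <;> assumption
    · exfalso
      apply R.g1
      apply h.mono _ S _ hKS
      intro i hi
      simp only [mem_insert, mem_singleton] at hi
      rcases hi with rfl | rfl | rfl <;> assumption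

end BK
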