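import Crest.Agent.BK_B4
import Crest.Agent.BK_B5a

set_option autoImplicit false

namespace BK
open Finset

variable {Q K : Finset (Fin 10) → Prop}

/-- Task BK-B5: all active sets contain the same `d` and have the same pair `{a,a'}`.
An active set exists: otherwise `faces_active` applies to
any `d ∉ s` and any face through it (`deg_two`). For an active `D` via `a` take `a'` from
`active_two`; `d = e_a = e_{a'} ∈ D` (`active_ev`, `ev_mem`), and the other two values are different
from `d` and from each other (`active_ne`, `active_ne'`); so another active set has the same pair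
`{a,a'}` (the only pair with equal values) and the same `d`. -/
theorem active_all (h : Facts Q K) (s : Finset (Fin 10)) (hs : Q s) : ∃ a a' d : Fin 10,
    a ∈ s ∧ a' ∈ s ∧ a ≠ a' ∧ EV Q s a d ∧ EV Q s a' d ∧
    (∀ b f, b ≠ a → b ≠ a' → EV Q s b f → f ≠ d) ∧
    ∀ D : Finset (Fin 10), D.card = 3 → Disjoint s D → (∃ c ∈ s, Q (insert c D)) →
      d ∈ D ∧ Q (insert a D) ∧ Q (insert a' D) := by
  classical
  -- an active set exists
  have hex : ∃ D : Finset (Fin 10), D.card = 3 ∧ Disjoint s D ∧ ∃ c ∈ s, Q (insert c D) := by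
    by_contra hno
    have hno' : ∀ D : Finset (Fin 10), D.card = 3 → Disjoint s D →
        ¬ ∃ c ∈ s, Q (insert c D) := by
      intro D hD hsD hc
      exact hno ⟨D, hD, hsD, hc⟩
    have h4 := h.q4 s hs
    have hcard : (univ \ s).card = 6 := by
      rw [card_sdiff_of_subset (subset_univ s), h4]; simp
    obtain ⟨d, hd, t, ht, hdt⟩ := Finset.one_lt_card.mp (by omega : 1 < (univ \ s).card)
    have hd' : d ∉ s := by simpa using hd
    have ht' : t ∉ s := by simpa using ht
    obtain ⟨l, m, hl, hld, hlt, -, -, -, -, hK, -, -⟩ := deg_two h s hs d t hd' ht' hdt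
    obtain ⟨c, hc, hQ⟩ := faces_active h s hs d hd'
      (fun D hD hsD hc => absurd hc (hno' D hD hsD)) t l ht' hl (Ne.symm hlt) (Ne.symm hdt) hld hK
    refine hno' {d, t, l} ?_ ?_ ⟨c, hc, hQ⟩
    · rw [card_insert_of_notMem, card_pair (Ne.symm hlt)]
      simp only [mem_insert, mem_singleton, not_or]
      exact ⟨hdt, Ne.symm hld⟩
    · rw [disjoint_right]
      intro z hz
      simp only [mem_insert, mem_singleton] at hz
      rcases hz with rfl | rfl | rfl <;> assumption
  obtain ⟨D, hD, hsD, a, ha, hQ⟩ := hex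
  obtain ⟨a', ha', haa, hQ'⟩ := active_two h s D hs hD hsD a ha hQ
  obtain ⟨d, hE⟩ := ev_exists h s hs a ha
  obtain ⟨e', hE'⟩ := ev_exists h s hs a' ha'
  have hde : d = e' := active_ev h s D hs hD hsD a a' d e' haa.symm hE hE' hQ hQ'
  subst hde
  have hdD : d ∈ D := ev_mem h s D hs hD hsD a d hE hQ
  refine ⟨a, a', d, ha, ha', haa.symm, hE, hE', ?_, ?_⟩
  · intro b f hba hba' hF
    exact (active_ne h s D hs hD hsD a a' b d f ha haa.symm hba hba' hE' hF hdD hQ).symm
  · intro D1 hD1 hsD1 ⟨c, hc, hQc⟩
    obtain ⟨c', hc', hcc, hQc'⟩ := active_two h s D1 hs hD1 hsD1 c hc hQc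
    obtain ⟨g, hG⟩ := ev_exists h s hs c hc
    obtain ⟨g', hG'⟩ := ev_exists h s hs c' hc'
    have hgg : g = g' := active_ev h s D1 hs hD1 hsD1 c c' g g' hcc.symm hG hG' hQc hQc'
    subst hgg
    have hgD : g ∈ D1 := ev_mem h s D1 hs hD1 hsD1 c g hG hQc
    have h1 : c = a ∨ c' = a := by
      by_contra hcon
      push Not at hcon
      exact active_ne' h s D hs hD hsD a c c' g g ha hcon.1 hcon.2 hcc.symm hG hG' hQ rfl
    have h2 : c = a' ∨ c' = a' := by
      by_contra hcon
      push Not at hcon
      exact active_ne' h s D hs hD hsD a' c c' g g ha' hcon.1 hcon.2 hcc.symm hG hG' hQ' rfl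
    rcases h1 with h1 | h1
    · have h2' : c' = a' := by
        rcases h2 with h2 | h2
        · exact absurd (h1.symm.trans h2) haa.symm
        · exact h2
      subst h1; subst h2'
      have : g = d := ev_unique h s hs c g d hG hE
      subst this
      exact ⟨hgD, hQc, hQc'⟩
    · have h2' : c = a' := by
        rcases h2 with h2 | h2
        · exact h2
        · exact absurd (h1.symm.trans h2) haa.symm
      subst h1; subst h2'
      have : g = d := ev_unique h s hs c' g d hG' hE
      subst this
      exact ⟨hgD, hQc', hQc⟩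

end BK
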