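import Crest.Agent.BK_B4
import Crest.Agent.BK_B5a
import Crest.Agent.BK_B5b

set_option autoImplicit false

namespace BK
open Finset

variable {Q K : Finset (Fin 10) → Prop}

private theorem B5c_exists_mem (h : Facts Q K) : ∃ s, Q s := by
  obtain ⟨s, hs, _⟩ := h.a6 (fun i => i.val) (by
    intro j
    by_cases hj : j < 10
    · refine h.mono _ {⟨j, hj⟩} ?_ (h.sing _)
      intro i hi
      simp only [mem_filter, mem_univ, true_and] at hi
      simp only [mem_singleton]
      exact Fin.ext hi
    · refine h.mono _ {0} ?_ (h.sing _)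
      intro i hi
      simp only [mem_filter, mem_univ, true_and] at hi
      have := i.isLt
      omega)
  exact ⟨s, hs⟩

/-- Task BK-B5: the final contradiction. `a6` with an injective `b` gives a member `s`; take
`a, a', d` from `active_all`, `s = {a,a',b,b'}`. `{a,b,b',d} ∈ Q` (`EV Q s a' d`). By `a2` the triple
`{a,b,d}` is in another member `{a,b,d,v}`, `v ≠ b'`. `v = a'` would give `EV Q s b' d`. So `v ∉ s`;
`deg_two` for `{d,v}` gives faces `{d,v,l}`, `{d,v,m}`, which are active (`faces_active`), so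
`{a,d,v,l}, {a,d,v,m}, {a,d,v,b} ∈ Q`: contradiction to `triple_two`. -/
theorem facts_false (h : Facts Q K) : False := by
  obtain ⟨s, hs⟩ := B5c_exists_mem h
  obtain ⟨a, a', d, ha, ha', haa, hE, hE', hne, hall⟩ := active_all h s hs
  have hcard := h.q4 s hs
  have hc2 : ((s.erase a).erase a').card = 2 := by
    rw [card_erase_of_mem (by simp [haa.symm, ha']), card_erase_of_mem ha, hcard]
  obtain ⟨b, b', hbb, hbeq⟩ := card_eq_two.mp hc2
  have hb : b ∈ (s.erase a).erase a' := by rw [hbeq]; simp
  have hb' : b' ∈ (s.erase a).erase a' := by rw [hbeq]; simp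
  simp only [mem_erase] at hb hb'
  obtain ⟨hba', hba, hbs⟩ := hb
  obtain ⟨hb'a', hb'a, hb's⟩ := hb'
  have hds : d ∉ s := hE.2.1
  have hseq : ∀ x, x ∈ s ↔ x = a ∨ x = a' ∨ x = b ∨ x = b' := by
    intro x
    constructor
    · intro hx
      by_cases h1 : x = a
      · exact Or.inl h1
      by_cases h2 : x = a'
      · exact Or.inr (Or.inl h2)
      have : x ∈ (s.erase a).erase a' := by simp [h1, h2, hx]
      rw [hbeq] at this
      simp only [mem_insert, mem_singleton] at this
      exact Or.inr (Or.inr this)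
    · rintro (rfl | rfl | rfl | rfl) <;> assumption
  have hda : d ≠ a := fun e => hds (e ▸ ha)
  have hda' : d ≠ a' := fun e => hds (e ▸ ha')
  have hdb : d ≠ b := fun e => hds (e ▸ hbs)
  have hdb' : d ≠ b' := fun e => hds (e ▸ hb's)
  -- the triple A = {a,b,d}
  have hA : ({a, b, d} : Finset (Fin 10)).card = 3 := by
    rw [card_eq_three]
    exact ⟨a, b, d, hba.symm, hda.symm, hdb.symm, rfl⟩
  obtain ⟨U, hU, hUe⟩ := h.a2 {a, b, d} hA
  have hb'U : b' ∈ U := by
    rw [hU]
    refine ⟨by simp [hb'a, hbb.symm, hdb'.symm], ?_⟩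
    have := hE'.2.2
    have e : insert d (s.erase a') = insert b' {a, b, d} := by
      ext x
      simp only [mem_insert, mem_erase, mem_singleton, hseq x]
      constructor
      · rintro (h1 | ⟨h1, h2 | h2 | h2 | h2⟩) <;> simp_all
      · rintro (h1 | h1 | h1 | h1)
        · subst h1; exact Or.inr ⟨hb'a', by simp⟩
        · subst h1; exact Or.inr ⟨haa, by simp⟩
        · subst h1; exact Or.inr ⟨hba', by simp⟩
        · exact Or.inl h1
    rwa [e] at this
  obtain ⟨v, hvU, hvb'⟩ : ∃ v ∈ U, v ≠ b' := by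
    by_contra hcon
    push Not at hcon
    have : U = {b'} := by
      ext x
      simp only [mem_singleton]
      exact ⟨fun hx => hcon x hx, fun hx => hx ▸ hb'U⟩
    rw [this] at hUe
    simp at hUe
  rw [hU] at hvU
  obtain ⟨hvA, hvQ⟩ := hvU
  simp only [mem_insert, mem_singleton, not_or] at hvA
  obtain ⟨hva, hvb, hvd⟩ := hvA
  have hva' : v ≠ a' := by
    intro e
    subst e
    refine hne b' d hb'a hb'a' ⟨hb's, hds, ?_⟩ rfl
    have e2 : insert d (s.erase b') = insert v {a, b, d} := by
      ext x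
      simp only [mem_insert, mem_erase, mem_singleton, hseq x]
      constructor
      · rintro (h1 | ⟨h1, h2 | h2 | h2 | h2⟩) <;> simp_all
      · rintro (h1 | h1 | h1 | h1)
        · subst h1; exact Or.inr ⟨hb'a'.symm, by simp⟩
        · subst h1; exact Or.inr ⟨hb'a.symm, by simp⟩
        · subst h1; exact Or.inr ⟨hbb, by simp⟩
        · exact Or.inl h1
    rw [e2]; exact hvQ
  have hvs : v ∉ s := by
    rw [hseq]
    rintro (h1 | h1 | h1 | h1)
    · exact hva h1
    · exact hva' h1
    · exact hvb h1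
    · exact hvb' h1
  obtain ⟨l, m, hls, hld, hlv, hms, hmd, hmv, hlm, hKl, hKm, -⟩ :=
    deg_two h s hs d v hds hvs (Ne.symm hvd)
  have hall' : ∀ D : Finset (Fin 10), D.card = 3 → Disjoint s D →
      (∃ c ∈ s, Q (insert c D)) → d ∈ D := fun D h1 h2 h3 => (hall D h1 h2 h3).1
  have key : ∀ t, t ∉ s → t ≠ d → t ≠ v → K {d, v, t} → Q {a, d, v, t} := by
    intro t hts htd htv hK
    obtain ⟨c, hc, hQc⟩ := faces_active h s hs d hds hall' v t hvs hts (Ne.symm htv) hvd htd hK
    refine (hall {d, v, t} ?_ ?_ ⟨c, hc, hQc⟩).2.1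
    · rw [card_eq_three]
      exact ⟨d, v, t, Ne.symm hvd, Ne.symm htd, Ne.symm htv, rfl⟩
    · rw [disjoint_right]
      intro x hx
      simp only [mem_insert, mem_singleton] at hx
      rcases hx with rfl | rfl | rfl <;> assumption
  have h1 := key l hls hld hlv hKl
  have h2 := key m hms hmd hmv hKm
  have hla : l ≠ a := fun e => hls (e ▸ ha)
  have hma : m ≠ a := fun e => hms (e ▸ ha)
  have hlb : l ≠ b := fun e => hls (e ▸ hbs)
  have hmb : m ≠ b := fun e => hms (e ▸ hbs)
  refine triple_two h {a, d, v} ?_ l m b ?_ ?_ ?_ hlm hlb hmb ?_ ?_ ?_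
  · rw [card_eq_three]
    exact ⟨a, d, v, hda.symm, Ne.symm hva, Ne.symm hvd, rfl⟩
  · simp [hla, hld, hlv]
  · simp [hma, hmd, hmv]
  · simp [hba, hdb.symm, Ne.symm hvb]
  · have e : insert l ({a, d, v} : Finset (Fin 10)) = {a, d, v, l} := by
      ext x; simp only [mem_insert, mem_singleton]; tauto
    rw [e]; exact h1
  · have e : insert m ({a, d, v} : Finset (Fin 10)) = {a, d, v, m} := by
      ext x; simp only [mem_insert, mem_singleton]; tauto
    rw [e]; exact h2
  · have e : insert b ({a, d, v} : Finset (Fin 10)) = insert v {a, b, d} := by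
      ext x; simp only [mem_insert, mem_singleton]; tauto
    rw [e]; exact hvQ

end BK
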