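import Crest.Agent.BK_P0

/-!
# Colour structures (S0069 blueprint, definitions)
-/

set_option autoImplicit false

namespace BK
open Finset

/-- A "colour structure" on `ℝⁿ ∖ 0`: homogeneous degree 0, even continuous functions `phi i ≥ 0`,
`∑ phi i = 1`, supported in closed cones `A i` which contain no two orthogonal vectors. -/
structure CS (n : ℕ) (C : Type) [Fintype C] where
  phi : (Fin n → ℝ) → C → ℝ
  A : C → Set (Fin n → ℝ)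
  nonneg : ∀ x i, 0 ≤ phi x i
  le_one : ∀ x i, phi x i ≤ 1
  sum_one : ∀ x, x ≠ 0 → ∑ i, phi x i = 1
  homog : ∀ x, x ≠ 0 → ∀ t : ℝ, t ≠ 0 → ∀ i, phi (t • x) i = phi x i
  cont : ∀ i, ContinuousOn (fun x => phi x i) {x | x ≠ 0}
  supp : ∀ x i, x ≠ 0 → phi x i ≠ 0 → x ∈ A i
  A_ne : ∀ i, ∀ x ∈ A i, x ≠ 0
  A_homog : ∀ i, ∀ x ∈ A i, ∀ t : ℝ, t ≠ 0 → t • x ∈ A i
  A_closed : ∀ i, IsClosed (A i ∩ {x | x ⬝ᵥ x = 1})
  orth : ∀ i, ∀ x ∈ A i, ∀ y ∈ A i, x ⬝ᵥ y ≠ 0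

/-- `phi` is `ξ_σ` at `x`: uniform on `σ` -/
def IsXi {n : ℕ} {C : Type} [Fintype C] [DecidableEq C] (S : CS n C) (σ : Finset C)
    (x : Fin n → ℝ) : Prop := ∀ i, S.phi x i = if i ∈ σ then 1 / (n : ℝ) else 0

/-- local projective-linearity of `phi` near `p` -/
def LocLin {n : ℕ} {C : Type} [Fintype C] (S : CS n C) (σ : Finset C) (p : Fin n → ℝ) : Prop :=
  ∃ ρ > 0, ∃ A : C → ((Fin n → ℝ) →ₗ[ℝ] ℝ),
    (∀ x, (∀ i ∈ σ, A i x = 0) → x = 0) ∧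
    ∀ x, ‖x - p‖ < ρ → (∀ i ∈ σ, 0 < A i x) ∧
      (∀ i ∈ σ, S.phi x i * ∑ k ∈ σ, A k x = A i x) ∧ (∀ i, i ∉ σ → S.phi x i = 0)

/-- an even homogeneous colouring of `ℝⁿ ∖ 0` such that vectors of the same colour satisfy
`⟨x,y⟩² ≥ ε |x|²|y|²` -/
structure Kol {n : ℕ} {C : Type} (κ : (Fin n → ℝ) → C) (ε : ℝ) : Prop where
  pos : 0 < ε
  homog : ∀ x, x ≠ 0 → ∀ t : ℝ, t ≠ 0 → κ (t • x) = κ x
  ang : ∀ x y, x ≠ 0 → y ≠ 0 → κ x = κ y → ε * ((x ⬝ᵥ x) * (y ⬝ᵥ y)) ≤ (x ⬝ᵥ y) ^ 2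

/-- `z` is a witness for the colours satisfying `p` -/
def Wit {n : ℕ} {C : Type} (κ : (Fin n → ℝ) → C) (ε : ℝ) (p : C → Prop) (z : Fin n → ℝ) : Prop :=
  z ≠ 0 ∧ ∀ x, x ≠ 0 → p (κ x) → ε * ((z ⬝ᵥ z) * (x ⬝ᵥ x)) ≤ (z ⬝ᵥ x) ^ 2

/-- vertex colouring induced by `κ` -/
def gc {n : ℕ} {C : Type} (κ : (Fin n → ℝ) → C) (v : Fin n → ℤ) : C := κ (fun i => (v i : ℝ))

/-- total barycentric weight of the colour `i` -/
noncomputable def phi0 {n : ℕ} {C : Type} [DecidableEq C] (c : (Fin n → ℤ) → C) (N : ℕ)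
    (x : Fin n → ℝ) (i : C) : ℝ :=
  ∑ v ∈ (bdry n N).filter (fun v => c v = i), al v (xbar N x)

/-- threshold -/
noncomputable def dl (C : Type) [Fintype C] : ℝ := 1 / (2 * (Fintype.card C : ℝ))

/-- thresholded and normalised weights -/
noncomputable def gphi {n : ℕ} {C : Type} [Fintype C] [DecidableEq C] (c : (Fin n → ℤ) → C)
    (N : ℕ) (x : Fin n → ℝ) (i : C) : ℝ :=
  max (phi0 c N x i - dl C) 0 / ∑ k, max (phi0 c N x k - dl C) 0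

/-- the cones -/
def gA {n : ℕ} {C : Type} [Fintype C] [DecidableEq C] (c : (Fin n → ℤ) → C)
    (N : ℕ) (i : C) : Set (Fin n → ℝ) := {x | x ≠ 0 ∧ dl C ≤ phi0 c N x i}

end BK
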