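import Crest.Agent.BK_C0

set_option autoImplicit false

namespace BK
open Finset

private theorem C1a_cs {m : ℕ} (x y : Fin m → ℝ) : (x ⬝ᵥ y) ^ 2 ≤ (x ⬝ᵥ x) * (y ⬝ᵥ y) := by
  unfold dotProduct
  have := Finset.sum_mul_sq_le_sq_mul_sq Finset.univ x y
  simpa only [sq] using this

private theorem C1a_nn {m : ℕ} (x : Fin m → ℝ) : 0 ≤ x ⬝ᵥ x := by
  unfold dotProduct
  exact Finset.sum_nonneg (fun i _ => mul_self_nonneg _)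

/-- Task BK-C1: perturbation of the first vector. Proof: `|z·y| ≥ |v·y| - 2|y| ≥ √ε|v||y| - 2|y|` and
`|z| ≤ |v|+2`, `|v| ≥ 2N` large. -/
theorem perturb (ε : ℝ) (hε : 0 < ε) : ∃ N0 : ℕ, ∀ N : ℕ, N0 ≤ N → ∀ (m : ℕ) (v z y : Fin m → ℝ),
    4 * (N : ℝ) ^ 2 ≤ v ⬝ᵥ v → (v - z) ⬝ᵥ (v - z) ≤ 4 →
    ε * ((v ⬝ᵥ v) * (y ⬝ᵥ y)) ≤ (v ⬝ᵥ y) ^ 2 →
    ε / 2 * ((z ⬝ᵥ z) * (y ⬝ᵥ y)) ≤ (z ⬝ᵥ y) ^ 2 := by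
  obtain ⟨N0, hN0⟩ := exists_nat_ge (24 / ε + 20)
  refine ⟨N0, fun N hN m v z y hv hd h => ?_⟩
  have hN' : 24 / ε + 20 ≤ (N : ℝ) := le_trans hN0 (by exact_mod_cast hN)
  have hpos : 0 < 24 / ε := by positivity
  have hN1 : (20 : ℝ) ≤ N := by linarith
  set d := v - z with hdd
  have hz : z = v - d := by rw [hdd]; abel
  have hzz : z ⬝ᵥ z ≤ 5 / 4 * (v ⬝ᵥ v) + 5 * (d ⬝ᵥ d) := by
    have h1 := C1a_nn ((1 / 2 : ℝ) • v + (2 : ℝ) • d)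
    rw [hz]
    simp only [dotProduct_add, add_dotProduct, dotProduct_sub, sub_dotProduct, smul_dotProduct,
      dotProduct_smul, smul_eq_mul, dotProduct_comm d v] at h1 ⊢
    linarith
  have hzy : (z ⬝ᵥ y) ^ 2 ≥ 3 / 4 * (v ⬝ᵥ y) ^ 2 - 3 * (d ⬝ᵥ y) ^ 2 := by
    rw [hz, sub_dotProduct]
    nlinarith [sq_nonneg ((v ⬝ᵥ y) / 2 - 2 * (d ⬝ᵥ y))]
  have hB : 0 ≤ y ⬝ᵥ y := C1a_nn y
  have hdy : (d ⬝ᵥ y) ^ 2 ≤ 4 * (y ⬝ᵥ y) :=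
    (C1a_cs d y).trans (mul_le_mul_of_nonneg_right hd hB)
  have hA : 96 + 80 * ε ≤ ε * (v ⬝ᵥ v) := by
    have h2 : 96 / ε + 80 ≤ v ⬝ᵥ v := by
      have : 4 * (N : ℝ) ≤ 4 * (N : ℝ) ^ 2 := by nlinarith
      have h3 : 96 / ε = 4 * (24 / ε) := by ring
      linarith
    have h3 := mul_le_mul_of_nonneg_left h2 hε.le
    have h4 : ε * (96 / ε + 80) = 96 + 80 * ε := by field_simp
    linarith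
  have hfin : ε / 2 * (z ⬝ᵥ z) ≤ 3 / 4 * ε * (v ⬝ᵥ v) - 12 := by
    have h5 : ε / 2 * (z ⬝ᵥ z) ≤ ε / 2 * (5 / 4 * (v ⬝ᵥ v) + 5 * (d ⬝ᵥ d)) :=
      mul_le_mul_of_nonneg_left hzz (by positivity)
    have h6 : ε / 2 * (5 * (d ⬝ᵥ d)) ≤ ε / 2 * 20 :=
      mul_le_mul_of_nonneg_left (by linarith) (by positivity)
    nlinarith
  have h7 := mul_le_mul_of_nonneg_right hfin hB
  calc ε / 2 * ((z ⬝ᵥ z) * (y ⬝ᵥ y)) = ε / 2 * (z ⬝ᵥ z) * (y ⬝ᵥ y) := by ring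
    _ ≤ (3 / 4 * ε * (v ⬝ᵥ v) - 12) * (y ⬝ᵥ y) := h7
    _ = 3 / 4 * (ε * ((v ⬝ᵥ v) * (y ⬝ᵥ y))) - 3 * (4 * (y ⬝ᵥ y)) := by ring
    _ ≤ 3 / 4 * (v ⬝ᵥ y) ^ 2 - 3 * (d ⬝ᵥ y) ^ 2 := by linarith
    _ ≤ (z ⬝ᵥ y) ^ 2 := hzy

end BK
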