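import Crest.Agent.BK_C0
import Crest.Agent.BK_C1a

set_option autoImplicit false

namespace BK
open Finset

/-- Task BK-C1: `F 0` is a witness for the colours of the flag `F` (also after an isometric
embedding `ι`). Proof: `perturb` with `v = ι (F k)`, `z = ι (F 0)`; `|F k - F 0|_∞ ≤ 1`, `n ≤ 4`. -/
theorem flag_wit (ε : ℝ) (hε : 0 < ε) : ∃ N0 : ℕ, ∀ N : ℕ, N0 ≤ N → ∀ (n m : ℕ) (hn0 : 0 < n),
    n ≤ 4 → ∀ (D : Type) (ι : (Fin n → ℝ) →ₗ[ℝ] (Fin m → ℝ)), (∀ x y, ι x ⬝ᵥ ι y = x ⬝ᵥ y) →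
    ∀ κ : (Fin m → ℝ) → D, Kol κ ε → ∀ F : Fin n → Fin n → ℤ, IsFlag N F →
    Wit κ (ε / 2) (fun i => ∃ k, κ (ι (fun j => (F k j : ℝ))) = i)
      (ι (fun j => (F ⟨0, hn0⟩ j : ℝ))) := by
  obtain ⟨N0, hN0⟩ := perturb ε hε
  refine ⟨max N0 1, ?_⟩
  intro N hN n m hn0 hn4 D ι hι κ hκ F hF
  have hNN0 : N0 ≤ N := le_trans (le_max_left _ _) hN
  have hN1 : 1 ≤ N := le_trans (le_max_right _ _) hN
  -- norm of flag vertices
  have hsq : ∀ k : Fin n, 4 * (N : ℝ) ^ 2 ≤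
      (fun j => (F k j : ℝ)) ⬝ᵥ (fun j => (F k j : ℝ)) := by
    intro k
    have hb := hF.1 k
    rw [bdry, mem_filter] at hb
    obtain ⟨i, hi⟩ := hb.2
    have h1 : ((F k i : ℤ) : ℝ) * (F k i : ℝ) = 4 * (N : ℝ) ^ 2 := by
      have h2 : (|F k i| : ℤ) * |F k i| = (2 * (N : ℤ)) * (2 * N) := by rw [hi]
      rw [abs_mul_abs_self] at h2
      have h3 : ((F k i : ℤ) : ℝ) * (F k i : ℝ) = (2 * (N : ℝ)) * (2 * N) := by exact_mod_cast h2
      rw [h3]; ring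
    rw [← h1]
    unfold dotProduct
    exact Finset.single_le_sum (f := fun j => ((F k j : ℤ) : ℝ) * (F k j : ℝ))
      (fun j _ => mul_self_nonneg _) (Finset.mem_univ i)
  have hpos : ∀ k : Fin n, 0 < (fun j => (F k j : ℝ)) ⬝ᵥ (fun j => (F k j : ℝ)) := by
    intro k
    refine lt_of_lt_of_le ?_ (hsq k)
    have : (1 : ℝ) ≤ N := by exact_mod_cast hN1
    positivity
  have hne : ∀ k : Fin n, ι (fun j => (F k j : ℝ)) ≠ 0 := by
    intro k h0
    have h1 := hι (fun j => (F k j : ℝ)) (fun j => (F k j : ℝ))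
    rw [h0] at h1
    have h2 := hpos k
    rw [← h1] at h2
    simp at h2
  refine ⟨hne _, ?_⟩
  intro x hx hk
  obtain ⟨k, hk⟩ := hk
  have hang := hκ.ang (ι (fun j => (F k j : ℝ))) x (hne k) hx hk
  refine hN0 N hNN0 m (ι (fun j => (F k j : ℝ))) (ι (fun j => (F ⟨0, hn0⟩ j : ℝ))) x ?_ ?_ hang
  · rw [hι]; exact hsq k
  · rw [← map_sub, hι]
    have hb : ∀ j, ((fun j => (F k j : ℝ)) - (fun j => (F ⟨0, hn0⟩ j : ℝ))) j *
        ((fun j => (F k j : ℝ)) - (fun j => (F ⟨0, hn0⟩ j : ℝ))) j ≤ 1 := by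
      intro j
      simp only [Pi.sub_apply]
      by_cases hk0 : (⟨0, hn0⟩ : Fin n) = k
      · rw [← hk0]; simp
      · have hlt : (⟨0, hn0⟩ : Fin n) < k := by
          rw [Fin.lt_def]
          rcases Nat.eq_zero_or_pos (k : ℕ) with h | h
          · exact absurd (Fin.ext h.symm) hk0
          · exact h
        have hc := hF.2.2 _ _ hlt j
        rcases hc with h | ⟨_, h⟩
        · rw [h]; simp
        · have h2 : (|F ⟨0, hn0⟩ j - F k j| : ℤ) * |F ⟨0, hn0⟩ j - F k j| = 1 := by rw [h]; rfl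
          rw [abs_mul_abs_self] at h2
          have h3 : ((F ⟨0, hn0⟩ j : ℝ) - (F k j : ℝ)) * ((F ⟨0, hn0⟩ j : ℝ) - (F k j : ℝ)) = 1 := by
            exact_mod_cast h2
          nlinarith
    unfold dotProduct
    calc _ ≤ ∑ _j : Fin n, (1 : ℝ) := Finset.sum_le_sum (fun j _ => hb j)
      _ = (n : ℝ) := by simp
      _ ≤ 4 := by exact_mod_cast hn4

end BK
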