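import Crest.Agent.BK_C1a
import Crest.Agent.BK_C1b

/-! S0069 blueprint: aggregator (only imports) -/
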