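import Crest.Agent.BK_P1

set_option autoImplicit false

namespace BK
open Finset MeasureTheory

open Classical in
private noncomputable def P2b_A {n : ℕ} (v : Fin n → ℤ) (x : Fin n → ℝ) : NNReal :=
  univ.sup (fun i => if Even (v i) then ‖x i - v i‖₊ else 0)

open Classical in
private noncomputable def P2b_B {n : ℕ} (v : Fin n → ℤ) (x : Fin n → ℝ) : NNReal :=
  univ.sup (fun i => if Odd (v i) then ‖x i - v i‖₊ else 0)

private theorem P2b_A_cont {n : ℕ} (v : Fin n → ℤ) : Continuous (P2b_A v) := by
  unfold P2b_A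
  apply Continuous.finset_sup_apply
  intro i _
  by_cases h : Even (v i)
  · simp only [h, if_true]
    fun_prop
  · simp only [h, if_false]
    exact continuous_const

private theorem P2b_B_cont {n : ℕ} (v : Fin n → ℤ) : Continuous (P2b_B v) := by
  unfold P2b_B
  apply Continuous.finset_sup_apply
  intro i _
  by_cases h : Odd (v i)
  · simp only [h, if_true]
    fun_prop
  · simp only [h, if_false]
    exact continuous_const

private theorem P2b_A_le {n : ℕ} (v : Fin n → ℤ) (x : Fin n → ℝ) (s : NNReal) :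
    P2b_A v x ≤ s ↔ ∀ i, Even (v i) → |x i - v i| ≤ s := by
  unfold P2b_A
  rw [Finset.sup_le_iff]
  constructor
  · intro h i hi
    have := h i (mem_univ i)
    rw [if_pos hi] at this
    have h2 : ((‖x i - v i‖₊ : NNReal) : ℝ) ≤ s := by exact_mod_cast this
    simpa using h2
  · intro h i _
    by_cases hi : Even (v i)
    · rw [if_pos hi]
      have := h i hi
      have h2 : ((‖x i - v i‖₊ : NNReal) : ℝ) ≤ s := by simpa using this
      exact_mod_cast h2
    · rw [if_neg hi]; exact zero_le

private theorem P2b_B_lt {n : ℕ} (v : Fin n → ℤ) (x : Fin n → ℝ) (s : NNReal) (hs : 0 < s) :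
    P2b_B v x < s ↔ ∀ i, Odd (v i) → |x i - v i| < s := by
  unfold P2b_B
  rw [Finset.sup_lt_iff (by simpa using hs)]
  constructor
  · intro h i hi
    have := h i (mem_univ i)
    rw [if_pos hi] at this
    have h2 : ((‖x i - v i‖₊ : NNReal) : ℝ) < s := by exact_mod_cast this
    simpa using h2
  · intro h i _
    by_cases hi : Odd (v i)
    · rw [if_pos hi]
      have := h i hi
      have h2 : ((‖x i - v i‖₊ : NNReal) : ℝ) < s := by simpa using this
      exact_mod_cast h2
    · rw [if_neg hi]; exact hs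

private theorem P2b_formula {n : ℕ} (v : Fin n → ℤ) (x : Fin n → ℝ) :
    al v x = max (1 - (P2b_B v x : ℝ) - P2b_A v x) 0 := by
  unfold al
  have hvol : volume {s : ℝ | s ∈ Set.Ioo (0 : ℝ) 1 ∧ ∀ i, near s (x i) (v i)}
      = ENNReal.ofReal (1 - (P2b_B v x : ℝ) - P2b_A v x) := by
    have hset : ∀ s : ℝ, s ∈ Set.Ioo (0 : ℝ) 1 →
        ((∀ i, near s (x i) (v i)) ↔ ((P2b_A v x : ℝ) ≤ s ∧ (P2b_B v x : ℝ) < 1 - s)) := by
      intro s hs
      obtain ⟨hs0, hs1⟩ := hs
      have e1 : ((P2b_A v x : ℝ) ≤ s) ↔ ∀ i, Even (v i) → |x i - v i| ≤ s := by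
        have := P2b_A_le v x ⟨s, hs0.le⟩
        constructor
        · intro h
          exact this.1 (by exact_mod_cast (show ((P2b_A v x : NNReal) : ℝ) ≤ ((⟨s, hs0.le⟩ : NNReal) : ℝ) from h))
        · intro h
          have h2 := this.2 h
          exact_mod_cast (show ((P2b_A v x : NNReal) : ℝ) ≤ ((⟨s, hs0.le⟩ : NNReal) : ℝ) from by exact_mod_cast h2)
      have hs2 : (0 : ℝ) ≤ 1 - s := by linarith
      have e2 : ((P2b_B v x : ℝ) < 1 - s) ↔ ∀ i, Odd (v i) → |x i - v i| < 1 - s := by
        have hs3 : (0 : NNReal) < ⟨1 - s, hs2⟩ := by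
          rw [← NNReal.coe_lt_coe]
          change (0 : ℝ) < 1 - s
          linarith
        have := P2b_B_lt v x ⟨1 - s, hs2⟩ hs3
        constructor
        · intro h
          exact this.1 (by
            rw [← NNReal.coe_lt_coe]; exact h)
        · intro h
          have h2 := this.2 h
          rw [← NNReal.coe_lt_coe] at h2
          exact h2
      rw [e1, e2]
      constructor
      · intro h
        refine ⟨fun i hi => ?_, fun i hi => ?_⟩
        · rcases h i with ⟨_, h'⟩ | ⟨ho, _⟩
          · exact h'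
          · exact absurd hi (Int.not_even_iff_odd.2 ho)
        · rcases h i with ⟨he, _⟩ | ⟨_, h'⟩
          · exact absurd he (Int.not_even_iff_odd.2 hi)
          · exact h'
      · rintro ⟨h1, h2⟩ i
        rcases Int.even_or_odd (v i) with he | ho
        · exact Or.inl ⟨he, h1 i he⟩
        · exact Or.inr ⟨ho, h2 i ho⟩
    apply le_antisymm
    · calc volume {s : ℝ | s ∈ Set.Ioo (0 : ℝ) 1 ∧ ∀ i, near s (x i) (v i)}
          ≤ volume (Set.Icc (P2b_A v x : ℝ) (1 - P2b_B v x)) := by
            apply measure_mono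
            rintro s ⟨hs, h⟩
            obtain ⟨h1, h2⟩ := (hset s hs).1 h
            exact ⟨h1, by linarith⟩
        _ = ENNReal.ofReal (1 - (P2b_B v x : ℝ) - P2b_A v x) := Real.volume_Icc
    · calc ENNReal.ofReal (1 - (P2b_B v x : ℝ) - P2b_A v x)
          = volume (Set.Ioo (P2b_A v x : ℝ) (1 - P2b_B v x)) := Real.volume_Ioo.symm
        _ ≤ _ := by
            apply measure_mono
            rintro s ⟨h1, h2⟩
            have hA : (0 : ℝ) ≤ P2b_A v x := NNReal.coe_nonneg _
            have hB : (0 : ℝ) ≤ P2b_B v x := NNReal.coe_nonneg _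
            have hs : s ∈ Set.Ioo (0 : ℝ) 1 := ⟨by linarith, by linarith⟩
            exact ⟨hs, (hset s hs).2 ⟨h1.le, by linarith⟩⟩
  rw [hvol, ENNReal.toReal_ofReal']

/-- Task BK-P2: explicit formula `al v x = max 0 (min_odd (1-|x i - v i|) - max_even |x i - v i|)`
gives continuity. -/
theorem al_continuous {n : ℕ} (v : Fin n → ℤ) : Continuous (fun x : Fin n → ℝ => al v x) := by
  simp only [P2b_formula]
  have h1 := P2b_A_cont v
  have h2 := P2b_B_cont v
  fun_prop

end BK
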