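import Crest.Agent.BK_P1

set_option autoImplicit false

namespace BK
open Finset MeasureTheory

private theorem P3b_meas {n : ℕ} (v : Fin n → ℤ) (x : Fin n → ℝ) :
    MeasurableSet {s : ℝ | s ∈ Set.Ioo (0 : ℝ) 1 ∧ ∀ i, near s (x i) (v i)} := by
  have h1 : {s : ℝ | s ∈ Set.Ioo (0 : ℝ) 1 ∧ ∀ i, near s (x i) (v i)} =
      Set.Ioo (0 : ℝ) 1 ∩ ⋂ i, {s : ℝ | near s (x i) (v i)} := by
    ext s; simp
  rw [h1]
  refine measurableSet_Ioo.inter (MeasurableSet.iInter fun i => ?_)
  have h2 : {s : ℝ | near s (x i) (v i)} =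
      ({_s : ℝ | Even (v i)} ∩ {s : ℝ | |x i - v i| ≤ s}) ∪
      ({_s : ℝ | Odd (v i)} ∩ {s : ℝ | |x i - v i| < 1 - s}) := by
    ext s; simp [near]
  rw [h2]
  refine MeasurableSet.union ?_ ?_
  · exact (MeasurableSet.const _).inter (measurableSet_le measurable_const measurable_id)
  · exact (MeasurableSet.const _).inter
      (measurableSet_lt measurable_const (measurable_const.sub measurable_id))

private theorem P3b_round (t : ℝ) : ∃ e o : ℤ, ∃ d : ℝ, 0 ≤ d ∧ d ≤ 1 ∧
    (e : ℝ) * (1 - d) + o * d = t ∧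
    ∀ s ∈ Set.Ioo (0 : ℝ) 1, near s t (if d ≤ s then e else o) := by
  have hr := abs_sub_round (t / 2)
  set r : ℤ := round (t / 2) with hrdef
  have hr2 : |t - ((2 * r : ℤ) : ℝ)| ≤ 1 := by
    push_cast
    rw [abs_le] at hr ⊢
    constructor <;> linarith [hr.1, hr.2]
  by_cases hle : ((2 * r : ℤ) : ℝ) ≤ t
  · refine ⟨2 * r, 2 * r + 1, |t - ((2 * r : ℤ) : ℝ)|, abs_nonneg _, hr2, ?_, ?_⟩
    · rw [abs_of_nonneg (by linarith)]
      push_cast; ring
    · intro s hs
      split_ifs with h
      · left
        exact ⟨⟨r, by ring⟩, h⟩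
      · right
        refine ⟨⟨r, by ring⟩, ?_⟩
        rw [abs_of_nonneg (by linarith)] at h hr2
        push_cast at h hr2 ⊢
        rw [abs_lt]
        constructor <;> linarith
  · push Not at hle
    refine ⟨2 * r, 2 * r - 1, |t - ((2 * r : ℤ) : ℝ)|, abs_nonneg _, hr2, ?_, ?_⟩
    · rw [abs_of_neg (by linarith)]
      push_cast; ring
    · intro s hs
      split_ifs with h
      · left
        exact ⟨⟨r, by ring⟩, h⟩
      · right
        refine ⟨⟨r - 1, by ring⟩, ?_⟩
        rw [abs_of_neg (by linarith)] at h hr2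
        push_cast at h hr2 ⊢
        rw [abs_lt]
        constructor <;> linarith

private theorem P3b_int (e o : ℝ) (d : ℝ) (h0 : 0 ≤ d) (h1 : d ≤ 1) :
    ∫ s in Set.Ioo (0 : ℝ) 1, (if d ≤ s then e else o) = e * (1 - d) + o * d := by
  have hsplit : Set.Ioo (0 : ℝ) 1 =ᵐ[volume] Set.Ioc (0 : ℝ) 1 := Ioo_ae_eq_Ioc
  rw [setIntegral_congr_set hsplit, ← intervalIntegral.integral_of_le zero_le_one]
  have hi : ∀ a b : ℝ, IntervalIntegrable (fun s : ℝ => if d ≤ s then e else o) volume a b := by
    intro a b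
    have hm : Measurable (fun s : ℝ => if d ≤ s then e else o) :=
      Measurable.ite (measurableSet_le measurable_const measurable_id) measurable_const
        measurable_const
    have hb : ∀ s : ℝ, ‖(if d ≤ s then e else o)‖ ≤ |e| + |o| := by
      intro s
      split_ifs
      · rw [Real.norm_eq_abs]; linarith [abs_nonneg o]
      · rw [Real.norm_eq_abs]; linarith [abs_nonneg e]
    rw [intervalIntegrable_iff]
    exact Measure.integrableOn_of_bounded (M := |e| + |o|) (by simp) hm.aestronglyMeasurable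
      (Filter.Eventually.of_forall hb)
  rw [← intervalIntegral.integral_add_adjacent_intervals (hi 0 d) (hi d 1)]
  have ha : ∫ s in (0 : ℝ)..d, (if d ≤ s then e else o) = ∫ s in (0 : ℝ)..d, o := by
    apply intervalIntegral.integral_congr_ae
    have : ∀ᵐ s : ℝ, s ≠ d := by
      rw [ae_iff]; simp
    filter_upwards [this] with s hs hmem
    rw [Set.uIoc_of_le h0] at hmem
    have : ¬ d ≤ s := fun h => hs (le_antisymm hmem.2 h)
    simp [this]
  have hb : ∫ s in d..1, (if d ≤ s then e else o) = ∫ s in d..1, e := by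
    apply intervalIntegral.integral_congr
    intro s hmem
    rw [Set.uIcc_of_le h1] at hmem
    simp [hmem.1]
  rw [ha, hb]
  simp
  ring

/-- Task BK-P3: barycentric coordinates. -/
theorem al_bary {n : ℕ} (N : ℕ) (x : Fin n → ℝ) (hx : ∀ i, |x i| ≤ 2 * N)
    (hx' : ∃ i, |x i| = 2 * (N : ℝ)) (i : Fin n) :
    ∑ v ∈ bdry n N, al v x * (v i : ℝ) = x i := by
  classical
  obtain ⟨e, o, d, hd0, hd1, hval, hnear⟩ := P3b_round (x i)
  set E : (Fin n → ℤ) → Set ℝ := fun v => {s : ℝ | s ∈ Set.Ioo (0 : ℝ) 1 ∧ ∀ i, near s (x i) (v i)}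
    with hE
  have hEm : ∀ v, MeasurableSet (E v) := fun v => P3b_meas v x
  have hEfin : ∀ v, volume (E v) ≠ ⊤ := by
    intro v
    have : volume (E v) ≤ volume (Set.Ioo (0 : ℝ) 1) := measure_mono (fun s hs => hs.1)
    refine ne_top_of_le_ne_top ?_ this
    simp
  have hterm : ∀ v, al v x * (v i : ℝ) =
      ∫ s in Set.Ioo (0 : ℝ) 1, (E v).indicator (fun _ => (v i : ℝ)) s := by
    intro v
    rw [integral_indicator (hEm v), integral_const, smul_eq_mul]
    congr 1
    rw [measureReal_def, Measure.restrict_apply MeasurableSet.univ, Set.univ_inter,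
      Measure.restrict_apply (hEm v)]
    have : E v ∩ Set.Ioo (0 : ℝ) 1 = E v := Set.inter_eq_left.2 (fun s hs => hs.1)
    rw [this]
    rfl
  have hint : ∀ v ∈ bdry n N, Integrable ((E v).indicator (fun _ => (v i : ℝ)))
      (volume.restrict (Set.Ioo (0 : ℝ) 1)) := by
    intro v _
    refine Integrable.indicator ?_ (hEm v)
    exact integrable_const _
  rw [Finset.sum_congr rfl (fun v _ => hterm v), ← integral_finset_sum _ hint]
  rw [← hval, ← P3b_int (e : ℝ) (o : ℝ) d hd0 hd1]
  apply setIntegral_congr_fun measurableSet_Ioo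
  intro s hs
  -- the rounding
  choose w hw using fun j => near_exists hs (x j)
  have hwb : w ∈ bdry n N := by
    simp only [bdry, Finset.mem_filter, Fintype.mem_piFinset, Finset.mem_Icc]
    constructor
    · intro j
      have := near_bound hs (hw j) N (hx j)
      rw [abs_le] at this
      exact this
    · obtain ⟨j, hj⟩ := hx'
      refine ⟨j, ?_⟩
      rcases (abs_eq (by positivity : (0 : ℝ) ≤ 2 * (N : ℝ))).1 hj with h | h
      · have h2 : near s (x j) (2 * (N : ℤ)) := by
          rw [h]
          have := near_even hs (2 * (N : ℤ)) ⟨N, by ring⟩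
          push_cast at this
          exact this
        have h3 := near_unique hs (hw j) h2
        rw [h3]
        exact abs_of_nonneg (by positivity)
      · have h2 : near s (x j) (-(2 * (N : ℤ))) := by
          rw [h]
          have := near_even hs (-(2 * (N : ℤ))) ⟨-N, by ring⟩
          push_cast at this
          exact this
        have h3 := near_unique hs (hw j) h2
        rw [h3, abs_neg]
        exact abs_of_nonneg (by positivity)
  have huniq : ∀ v, s ∈ E v ↔ v = w := by
    intro v
    constructor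
    · intro hv
      funext j
      exact near_unique hs (hv.2 j) (hw j)
    · rintro rfl
      exact ⟨hs, hw⟩
  show ∑ v ∈ bdry n N, (E v).indicator (fun _ => (v i : ℝ)) s = if d ≤ s then (e : ℝ) else (o : ℝ)
  rw [Finset.sum_eq_single w]
  · rw [Set.indicator_of_mem ((huniq w).2 rfl)]
    have h := near_unique hs (hw i) (hnear s hs)
    rw [h]
    split_ifs <;> rfl
  · intro v _ hne
    rw [Set.indicator_of_notMem]
    intro h
    exact hne ((huniq v).1 h)
  · intro h
    exact absurd hwb h

end BK
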