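import Crest.Agent.BK_P0

set_option autoImplicit false

namespace BK
open Finset

private theorem P5a_even_of_abs {N : ℕ} {a : ℤ} (h : |a| = 2 * (N : ℤ)) : ¬ Odd a := by
  intro ho
  have h2 : Odd |a| := by rwa [odd_abs]
  rw [h] at h2
  exact (Int.not_odd_iff_even.2 (even_two_mul _)) h2

private theorem P5a_parity {a b : ℤ} (hb : Odd b) (h : |a - b| = 1) : ¬ Odd a := by
  intro ha
  have h1 : Even (a - b) := ha.sub_odd hb
  have h2 : Even |a - b| := by rwa [even_abs]
  rw [h] at h2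
  exact absurd h2 (by decide)

/-- Task BK-P5: basic facts on the order -/
theorem rnk_lt_of_bdry {n N : ℕ} (v : Fin n → ℤ) (hv : v ∈ bdry n N) : rnk v < n := by
  classical
  unfold bdry at hv
  rw [Finset.mem_filter] at hv
  obtain ⟨_, i, hi⟩ := hv
  have h1 : (univ.filter (fun i => Odd (v i))) ⊂ (univ : Finset (Fin n)) := by
    rw [Finset.filter_ssubset]
    exact ⟨i, Finset.mem_univ i, P5a_even_of_abs hi⟩
  have h2 := Finset.card_lt_card h1
  rw [Finset.card_univ, Fintype.card_fin] at h2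
  exact h2

theorem rnk_lt_of_cle {n : ℕ} (v w : Fin n → ℤ) (h : cle v w) (hne : v ≠ w) : rnk v < rnk w := by
  classical
  obtain ⟨i, hi⟩ := Function.ne_iff.1 hne
  unfold rnk
  refine Finset.card_lt_card ?_
  rw [Finset.ssubset_iff_of_subset]
  · refine ⟨i, ?_, ?_⟩
    · rw [Finset.mem_filter]
      rcases h i with h1 | h1
      · exact absurd h1 hi
      · exact ⟨Finset.mem_univ _, h1.1⟩
    · rw [Finset.mem_filter]
      rintro ⟨_, h2⟩
      rcases h i with h1 | h1
      · exact absurd h1 hi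
      · exact P5a_parity h1.1 h1.2 h2
  · intro j hj
    rw [Finset.mem_filter] at hj ⊢
    refine ⟨hj.1, ?_⟩
    rcases h j with h1 | h1
    · rw [← h1]; exact hj.2
    · exact h1.1

theorem bdry_neg {n N : ℕ} (v : Fin n → ℤ) : -v ∈ bdry n N ↔ v ∈ bdry n N := by
  have key : ∀ v : Fin n → ℤ, v ∈ bdry n N → -v ∈ bdry n N := by
    intro v hv
    unfold bdry at hv ⊢
    rw [Finset.mem_filter, Fintype.mem_piFinset] at hv ⊢
    refine ⟨fun i => ?_, ?_⟩
    · have := hv.1 i
      rw [Finset.mem_Icc] at this ⊢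
      simp only [Pi.neg_apply]
      constructor <;> linarith [this.1, this.2]
    · obtain ⟨i, hi⟩ := hv.2
      exact ⟨i, by simpa using hi⟩
  exact ⟨fun h => by simpa using key _ h, key v⟩

private theorem P5a_rnk_neg {n : ℕ} (v : Fin n → ℤ) : rnk (-v) = rnk v := by
  unfold rnk
  simp only [Pi.neg_apply, odd_neg]

private theorem P5a_cle_neg {n : ℕ} {v w : Fin n → ℤ} (h : cle v w) : cle (-v) (-w) := by
  intro i
  rcases h i with h1 | h1
  · left; simp [h1]
  · right
    simp only [Pi.neg_apply, odd_neg]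
    refine ⟨h1.1, ?_⟩
    rw [← h1.2, ← abs_neg (v i - w i)]
    congr 1
    ring

theorem isFlag_neg {n N : ℕ} (F : Fin n → Fin n → ℤ) : IsFlag N (-F) ↔ IsFlag N F := by
  have key : ∀ F : Fin n → Fin n → ℤ, IsFlag N F → IsFlag N (-F) := by
    rintro F ⟨h1, h2, h3⟩
    refine ⟨fun k => ?_, fun k => ?_, fun k l hkl => ?_⟩
    · rw [Pi.neg_apply]; exact (bdry_neg _).2 (h1 k)
    · rw [Pi.neg_apply, P5a_rnk_neg]; exact h2 k
    · rw [Pi.neg_apply, Pi.neg_apply]; exact P5a_cle_neg (h3 k l hkl)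
  exact ⟨fun h => by simpa using key _ h, key F⟩

/-- a flag is determined by its vertex set -/
theorem flag_ext {n N : ℕ} (F G : Fin n → Fin n → ℤ) (hF : IsFlag N F) (hG : IsFlag N G)
    (h : ∀ k, ∃ l, F k = G l) : F = G := by
  funext k
  obtain ⟨l, hl⟩ := h k
  have h1 := hF.2.1 k
  rw [hl, hG.2.1 l] at h1
  have : l = k := Fin.ext h1
  rw [hl, this]

end BK
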