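import Crest.Agent.BK_P0
import Crest.Agent.BK_P5a

set_option autoImplicit false

namespace BK
open Finset

/-- `n` pairwise comparable boundary vertices form a flag -/
theorem flag_of_card {n N : ℕ} (S : Finset (Fin n → ℤ)) (hS : S ⊆ bdry n N) (hcard : S.card = n)
    (hch : ∀ v ∈ S, ∀ w ∈ S, cle v w ∨ cle w v) :
    ∃ F : Fin n → Fin n → ℤ, IsFlag N F ∧ univ.image F = S := by
  classical
  let f : {v // v ∈ S} → Fin n := fun v => ⟨rnk v.1, rnk_lt_of_bdry v.1 (hS v.2)⟩
  have hinj : Function.Injective f := by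
    intro v w h
    have h1 : rnk v.1 = rnk w.1 := congrArg Fin.val h
    by_contra hne
    have hne' : v.1 ≠ w.1 := fun h => hne (Subtype.ext h)
    rcases hch v.1 v.2 w.1 w.2 with h2 | h2
    · exact absurd h1 (rnk_lt_of_cle _ _ h2 hne').ne
    · exact absurd h1.symm (rnk_lt_of_cle _ _ h2 hne'.symm).ne
  have hbij : Function.Bijective f := by
    rw [Fintype.bijective_iff_injective_and_card]
    refine ⟨hinj, ?_⟩
    rw [Fintype.card_coe, hcard, Fintype.card_fin]
  choose g hg using hbij.2
  have hrk : ∀ k, rnk (g k).1 = (k : ℕ) := fun k => congrArg Fin.val (hg k)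
  have hFinj : Function.Injective (fun k => (g k).1) := by
    intro k l h
    have h1 : rnk (g k).1 = rnk (g l).1 := congrArg rnk h
    rw [hrk, hrk] at h1
    exact Fin.ext h1
  refine ⟨fun k => (g k).1, ⟨fun k => hS (g k).2, hrk, fun k l hkl => ?_⟩, ?_⟩
  · rcases hch (g k).1 (g k).2 (g l).1 (g l).2 with h2 | h2
    · exact h2
    · exfalso
      have hne : (g l).1 ≠ (g k).1 := fun h => hkl.ne' (hFinj h)
      have := rnk_lt_of_cle _ _ h2 hne
      rw [hrk, hrk] at this
      exact absurd this (by have : (k : ℕ) < l := hkl; omega)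
  · refine Finset.eq_of_subset_of_card_le ?_ ?_
    · intro v hv
      rw [Finset.mem_image] at hv
      obtain ⟨k, _, rfl⟩ := hv
      exact (g k).2
    · rw [Finset.card_image_of_injective _ hFinj, Finset.card_univ, Fintype.card_fin, hcard]

end BK
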