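import Crest.Agent.BK_P0
import Crest.Agent.BK_P5a

set_option autoImplicit false

namespace BK
open Finset

private theorem P5c_parity {a b : ℤ} (ha : Odd a) (hb : Odd b) : |a - b| ≠ 1 := by
  intro h
  have h1 : Even (a - b) := ha.sub_odd hb
  have h2 : Even |a - b| := by rwa [even_abs]
  rw [h] at h2
  exact absurd h2 (by decide)

/-- the coordinate which becomes odd at step `k` -/
private theorem P5c_coord {m N : ℕ} (F : Fin (m + 1) → Fin (m + 1) → ℤ) (hF : IsFlag N F)
    (k k' : Fin (m + 1)) (hk : (k' : ℕ) + 1 = k) :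
    ∃ i, ∃ c d : ℤ, d ≠ 0 ∧ (∀ j : Fin (m + 1), (j : ℕ) < k → F j i = c) ∧
      (∀ j : Fin (m + 1), (k : ℕ) ≤ j → F j i = c + d) := by
  classical
  obtain ⟨_, hr, hc⟩ := hF
  have hlt : k' < k := by show (k' : ℕ) < k; omega
  obtain ⟨i, hi1, hi2⟩ : ∃ i, Odd (F k i) ∧ ¬ Odd (F k' i) := by
    by_contra hcon
    push Not at hcon
    have : rnk (F k) ≤ rnk (F k') := by
      unfold rnk
      refine Finset.card_le_card fun i hi => ?_
      rw [Finset.mem_filter] at hi ⊢
      exact ⟨hi.1, hcon i hi.2⟩
    rw [hr, hr] at this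
    omega
  refine ⟨i, F k' i, F k i - F k' i, ?_, fun j hj => ?_, fun j hj => ?_⟩
  · intro h
    have : F k i = F k' i := by linarith
    rw [this] at hi1
    exact hi2 hi1
  · rcases (Nat.lt_or_ge (j : ℕ) k') with h | h
    · rcases hc j k' h i with h1 | h1
      · exact h1
      · exact absurd h1.1 hi2
    · have : j = k' := Fin.ext (by omega)
      rw [this]
  · have e : F k' i + (F k i - F k' i) = F k i := by ring
    rw [e]
    rcases (Nat.lt_or_ge (k : ℕ) j) with h | h
    · rcases hc k j h i with h1 | h1
      · exact h1.symm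
      · exact absurd h1.2 (P5c_parity hi1 h1.1)
    · have : j = k := Fin.ext (by omega)
      rw [this]

/-- the vertices of a flag are linearly independent -/
theorem flag_linInd {n N : ℕ} (hN : 0 < N) (F : Fin n → Fin n → ℤ) (hF : IsFlag N F) :
    LinearIndependent ℝ (fun k : Fin n => (fun i => (F k i : ℝ) : Fin n → ℝ)) := by
  classical
  rcases n with _ | m
  · exact linearIndependent_empty_type
  rw [Fintype.linearIndependent_iff]
  intro g hg
  have hcoord : ∀ i, ∑ k, g k * (F k i : ℝ) = 0 := by
    intro i
    have := congrFun hg i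
    simpa [Finset.sum_apply] using this
  have htot : ∑ k, g k = 0 := by
    obtain ⟨hb, _, hc⟩ := hF
    have hlast := hb (Fin.last m)
    unfold bdry at hlast
    rw [Finset.mem_filter] at hlast
    obtain ⟨_, i, hi⟩ := hlast
    have hev : ¬ Odd (F (Fin.last m) i) := by
      intro ho
      have h2 : Odd |F (Fin.last m) i| := by rwa [odd_abs]
      rw [hi] at h2
      exact (Int.not_odd_iff_even.2 (even_two_mul _)) h2
    have hall : ∀ j, F j i = F (Fin.last m) i := by
      intro j
      rcases (Fin.le_last j).eq_or_lt with h | h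
      · rw [h]
      · rcases hc j (Fin.last m) h i with h1 | h1
        · exact h1
        · exact absurd h1.1 hev
    have h3 := hcoord i
    have h4 : ∑ k, g k * (F k i : ℝ) = (∑ k, g k) * (F (Fin.last m) i : ℝ) := by
      rw [Finset.sum_mul]
      exact Finset.sum_congr rfl fun k _ => by rw [hall k]
    rw [h4] at h3
    rcases mul_eq_zero.1 h3 with h5 | h5
    · exact h5
    · exfalso
      have h6 : F (Fin.last m) i = 0 := by exact_mod_cast h5
      rw [h6, abs_zero] at hi
      omega
  have htail : ∀ q : ℕ, q ≤ m + 1 → ∑ k : Fin (m + 1), (if q ≤ (k : ℕ) then g k else 0) = 0 := by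
    intro q hq
    rcases Nat.eq_zero_or_pos q with h0 | h0
    · subst h0
      simpa using htot
    · rcases hq.eq_or_lt with h1 | h1
      · refine Finset.sum_eq_zero fun k _ => ?_
        rw [if_neg]
        have := k.2
        omega
      · obtain ⟨i, c, d, hd, hlo, hhi⟩ := P5c_coord F hF ⟨q, h1⟩ ⟨q - 1, by omega⟩
          (by show q - 1 + 1 = q; omega)
        have h3 := hcoord i
        have h4 : ∑ k, g k * (F k i : ℝ) =
            (c : ℝ) * ∑ k, g k + (d : ℝ) * ∑ k : Fin (m + 1), (if q ≤ (k : ℕ) then g k else 0) := by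
          rw [Finset.mul_sum, Finset.mul_sum, ← Finset.sum_add_distrib]
          refine Finset.sum_congr rfl fun k _ => ?_
          split_ifs with h
          · rw [hhi k h]; push_cast; ring
          · rw [hlo k (by show (k : ℕ) < q; omega)]; ring
        rw [h4, htot, mul_zero, zero_add] at h3
        rcases mul_eq_zero.1 h3 with h5 | h5
        · exact absurd (by exact_mod_cast h5 : d = 0) hd
        · exact h5
  intro k
  have h1 := htail k (by have := k.2; omega)
  have h2 := htail (k + 1) (by have := k.2; omega)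
  have h3 : ∑ j : Fin (m + 1), (if (k : ℕ) ≤ (j : ℕ) then g j else 0) -
      ∑ j : Fin (m + 1), (if (k : ℕ) + 1 ≤ (j : ℕ) then g j else 0) =
      ∑ j : Fin (m + 1), (if j = k then g j else 0) := by
    rw [← Finset.sum_sub_distrib]
    refine Finset.sum_congr rfl fun j _ => ?_
    by_cases hjk : j = k
    · subst hjk
      simp
    · have : (j : ℕ) ≠ k := fun h => hjk (Fin.ext h)
      by_cases h : (k : ℕ) ≤ j
      · rw [if_pos h, if_pos (by omega), if_neg hjk, sub_self]
      · rw [if_neg h, if_neg (by omega), if_neg hjk, sub_self]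
  rw [h1, h2, Finset.sum_ite_eq' Finset.univ k, if_pos (Finset.mem_univ k)] at h3
  linarith

end BK
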