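import Crest.Agent.BK_C0
import Crest.Agent.BK_P2
import Crest.Agent.BK_P3
import Crest.Agent.BK_P5

set_option autoImplicit false

namespace BK
open Finset

variable {n : ℕ} {C : Type} [Fintype C] [DecidableEq C]

/-- Task BK-C2 -/
theorem xbar_spec (N : ℕ) (hn : 0 < n) (x : Fin n → ℝ) (hx : x ≠ 0) :
    (∀ i, |xbar N x i| ≤ 2 * N) ∧ (∃ i, |xbar N x i| = 2 * (N : ℝ)) := by
  have hpos : 0 < ‖x‖ := norm_pos_iff.2 hx
  have hN : (0 : ℝ) ≤ 2 * (N : ℝ) := by positivity
  have hval : ∀ i, |xbar N x i| = 2 * (N : ℝ) / ‖x‖ * |x i| := by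
    intro i
    simp only [xbar, Pi.smul_apply, smul_eq_mul]
    rw [abs_mul, abs_of_nonneg (div_nonneg hN hpos.le)]
  constructor
  · intro i
    rw [hval, div_mul_eq_mul_div, div_le_iff₀ hpos]
    have : |x i| ≤ ‖x‖ := by rw [← Real.norm_eq_abs]; exact norm_le_pi_norm x i
    exact mul_le_mul_of_nonneg_left this hN
  · have : Nonempty (Fin n) := ⟨⟨0, hn⟩⟩
    obtain ⟨i, hi⟩ := Finite.exists_max (fun i => |x i|)
    refine ⟨i, ?_⟩
    have h1 : ‖x‖ ≤ |x i| := by
      rw [pi_norm_le_iff_of_nonneg (abs_nonneg _)]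
      intro j; rw [Real.norm_eq_abs]; exact hi j
    have h2 : |x i| ≤ ‖x‖ := by rw [← Real.norm_eq_abs]; exact norm_le_pi_norm x i
    have h3 : |x i| = ‖x‖ := le_antisymm h2 h1
    rw [hval, h3, div_mul_cancel₀ _ hpos.ne']

/-- Task BK-C2: `2N x/|x|` has the sup norm `2N`, hence `4N² ≤ xbar·xbar` -/
theorem xbar_sq (N : ℕ) (hn : 0 < n) (x : Fin n → ℝ) (hx : x ≠ 0) :
    4 * (N : ℝ) ^ 2 ≤ xbar N x ⬝ᵥ xbar N x := by
  obtain ⟨i, hi⟩ := (xbar_spec N hn x hx).2
  have h1 : xbar N x i * xbar N x i = 4 * (N : ℝ) ^ 2 := by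
    rw [← abs_mul_abs_self, hi]; ring
  rw [← h1]
  unfold dotProduct
  exact Finset.single_le_sum (f := fun j => xbar N x j * xbar N x j)
    (fun j _ => mul_self_nonneg _) (Finset.mem_univ i)

theorem phi0_nonneg (c : (Fin n → ℤ) → C) (N : ℕ) (x : Fin n → ℝ) (i : C) :
    0 ≤ phi0 c N x i :=
  Finset.sum_nonneg fun v _ => al_nonneg v _

theorem phi0_sum (c : (Fin n → ℤ) → C) (N : ℕ) (hn : 0 < n) (x : Fin n → ℝ) (hx : x ≠ 0) :
    ∑ i, phi0 c N x i = 1 := by
  obtain ⟨h1, h2⟩ := xbar_spec N hn x hx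
  rw [← al_sum N (xbar N x) h1 h2]
  unfold phi0
  exact Finset.sum_fiberwise _ _ _

theorem phi0_homog (c : (Fin n → ℤ) → C) (N : ℕ) (hc : ∀ v ∈ bdry n N, c (-v) = c v)
    (x : Fin n → ℝ) (hx : x ≠ 0) (t : ℝ) (ht : t ≠ 0) (i : C) :
    phi0 c N (t • x) i = phi0 c N x i := by
  have hpos : 0 < ‖x‖ := norm_pos_iff.2 hx
  rcases lt_or_gt_of_ne ht with h | h
  · have hx' : xbar N (t • x) = - xbar N x := by
      funext j
      simp only [xbar, Pi.smul_apply, smul_eq_mul, Pi.neg_apply]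
      rw [norm_smul, Real.norm_eq_abs, abs_of_neg h]
      field_simp
    unfold phi0
    rw [hx']
    refine Finset.sum_bij' (fun v _ => -v) (fun v _ => -v) ?_ ?_ ?_ ?_ ?_
    · intro v hv
      rw [mem_filter] at hv ⊢
      exact ⟨(bdry_neg v).2 hv.1, by rw [hc v hv.1]; exact hv.2⟩
    · intro v hv
      rw [mem_filter] at hv ⊢
      exact ⟨(bdry_neg v).2 hv.1, by rw [hc v hv.1]; exact hv.2⟩
    · intro v _; simp
    · intro v _; simp
    · intro v _
      have := al_neg (-v) (xbar N x)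
      rw [neg_neg] at this
      exact this
  · have hx' : xbar N (t • x) = xbar N x := by
      funext j
      simp only [xbar, Pi.smul_apply, smul_eq_mul]
      rw [norm_smul, Real.norm_eq_abs, abs_of_pos h]
      field_simp
    unfold phi0
    rw [hx']

theorem phi0_cont (c : (Fin n → ℤ) → C) (N : ℕ) (i : C) :
    ContinuousOn (fun x => phi0 c N x i) {x | x ≠ 0} := by
  unfold phi0
  have hxb : ContinuousOn (fun x : Fin n → ℝ => xbar N x) {x | x ≠ 0} := by
    have h1 : ContinuousOn (fun x : Fin n → ℝ => 2 * (N : ℝ) / ‖x‖) {x | x ≠ 0} := by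
      refine ContinuousOn.div continuousOn_const continuous_norm.continuousOn ?_
      intro x hx; exact norm_ne_zero_iff.2 hx
    have h2 : ContinuousOn (fun x : Fin n → ℝ => x) {x | x ≠ 0} := continuousOn_id
    exact h1.smul h2
  exact continuousOn_finsetSum _ fun v _ => (al_continuous v).comp_continuousOn hxb

/-- a colour with positive weight at `x` is the colour of a vertex near `xbar N x` -/
theorem phi0_vertex (c : (Fin n → ℤ) → C) (N : ℕ) (x : Fin n → ℝ) (i : C)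
    (h : phi0 c N x i ≠ 0) : ∃ v ∈ bdry n N, c v = i ∧ al v (xbar N x) ≠ 0 := by
  obtain ⟨v, hv, hne⟩ := Finset.exists_ne_zero_of_sum_ne_zero h
  rw [mem_filter] at hv
  exact ⟨v, hv.1, hv.2, hne⟩

end BK
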