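import Crest.Agent.BK_C1
import Crest.Agent.BK_C2

set_option autoImplicit false

namespace BK
open Finset

variable {n : ℕ} {C : Type} [Fintype C] [DecidableEq C]

/-- Task BK-C3: if `z` is a witness (parameter `ε/2`) for a set of colours, then `z ⬝ x ≠ 0` for
all `x` which have positive `phi0`-weight in one of these colours. -/
theorem wit_grid (ε : ℝ) (hε : 0 < ε) : ∃ N0 : ℕ, ∀ N : ℕ, N0 ≤ N → 0 < N → ∀ (n : ℕ),
    0 < n → n ≤ 4 → ∀ (C : Type) [DecidableEq C] (κ : (Fin n → ℝ) → C) (p : C → Prop)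
      (z : Fin n → ℝ), Wit κ (ε / 2) p z → ∀ x, x ≠ 0 → ∀ i, p i → phi0 (gc κ) N x i ≠ 0 →
      z ⬝ᵥ x ≠ 0 := by
  obtain ⟨N0, hN0⟩ := perturb (ε / 2) (by positivity)
  refine ⟨N0, ?_⟩
  intro N hN hNpos n hn0 hn4 C _ κ p z hW x hx i hpi hphi
  unfold phi0 at hphi
  obtain ⟨v, hv, hal⟩ := Finset.exists_ne_zero_of_sum_ne_zero hphi
  rw [Finset.mem_filter] at hv
  obtain ⟨hvb, hvc⟩ := hv
  have hnear := al_near v (xbar N x) hal
  have hN1 : (1 : ℝ) ≤ N := by exact_mod_cast hNpos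
  -- norm of the vertex
  have hsq : 4 * (N : ℝ) ^ 2 ≤ (fun j => (v j : ℝ)) ⬝ᵥ (fun j => (v j : ℝ)) := by
    rw [bdry, mem_filter] at hvb
    obtain ⟨i, hi⟩ := hvb.2
    have h1 : ((v i : ℤ) : ℝ) * (v i : ℝ) = 4 * (N : ℝ) ^ 2 := by
      have h2 : (|v i| : ℤ) * |v i| = (2 * (N : ℤ)) * (2 * N) := by rw [hi]
      rw [abs_mul_abs_self] at h2
      have h3 : ((v i : ℤ) : ℝ) * (v i : ℝ) = (2 * (N : ℝ)) * (2 * N) := by exact_mod_cast h2
      rw [h3]; ring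
    rw [← h1]
    unfold dotProduct
    exact Finset.single_le_sum (f := fun j => ((v j : ℤ) : ℝ) * (v j : ℝ))
      (fun j _ => mul_self_nonneg _) (Finset.mem_univ i)
  have hvne : (fun j => (v j : ℝ)) ≠ 0 := by
    intro h0
    rw [h0] at hsq
    simp only [dotProduct_zero] at hsq
    nlinarith
  have hw := hW.2 (fun j => (v j : ℝ)) hvne (by
    have : κ (fun j => (v j : ℝ)) = i := hvc
    rw [this]; exact hpi)
  have hpt := hN0 N hN n (fun j => (v j : ℝ)) (xbar N x) z hsq (by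
    have hb : ∀ j, ((fun j => (v j : ℝ)) - xbar N x) j * ((fun j => (v j : ℝ)) - xbar N x) j ≤ 1 := by
      intro j
      have h1 := hnear j
      rw [abs_le] at h1
      simp only [Pi.sub_apply]
      nlinarith [h1.1, h1.2]
    unfold dotProduct
    calc _ ≤ ∑ _j : Fin n, (1 : ℝ) := Finset.sum_le_sum (fun j _ => hb j)
      _ = (n : ℝ) := by simp
      _ ≤ 4 := by exact_mod_cast hn4) (by
    rw [dotProduct_comm (fun j => (v j : ℝ)) z]
    calc _ = ε / 2 * ((z ⬝ᵥ z) * ((fun j => (v j : ℝ)) ⬝ᵥ (fun j => (v j : ℝ)))) := by ring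
      _ ≤ _ := hw)
  have hxx := xbar_sq N hn0 x hx
  have hzz : 0 < z ⬝ᵥ z := by
    have h1 : z ⬝ᵥ z ≠ 0 := by
      rw [Ne, dotProduct_self_eq_zero]
      exact hW.1
    have h2 : 0 ≤ z ⬝ᵥ z := by
      unfold dotProduct
      exact Finset.sum_nonneg (fun j _ => mul_self_nonneg _)
    exact lt_of_le_of_ne h2 (Ne.symm h1)
  have hxpos : 0 < xbar N x ⬝ᵥ xbar N x := lt_of_lt_of_le (by positivity) hxx
  intro h0
  have h1 : xbar N x ⬝ᵥ z = 0 := by
    unfold xbar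
    rw [smul_dotProduct, dotProduct_comm, h0, smul_zero]
  rw [h1] at hpt
  have : 0 < ε / 2 / 2 * ((xbar N x ⬝ᵥ xbar N x) * (z ⬝ᵥ z)) := by positivity
  linarith [hpt, this]

end BK
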