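import Crest.Agent.BK_C1
import Crest.Agent.BK_C2

set_option autoImplicit false

namespace BK
open Finset

variable {n : ℕ} {C : Type} [Fintype C] [DecidableEq C]

theorem C3a_dl_pos (i : C) : 0 < dl C := by
  have : 0 < Fintype.card C := Fintype.card_pos_iff.2 ⟨i⟩
  have : (0 : ℝ) < Fintype.card C := by exact_mod_cast this
  unfold dl; positivity

/-- the denominator of `gphi` is positive -/
theorem C3a_den_pos (c : (Fin n → ℤ) → C) (N : ℕ) (hn : 0 < n) (x : Fin n → ℝ) (hx : x ≠ 0) :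
    0 < ∑ k, max (phi0 c N x k - dl C) 0 := by
  have hsum := phi0_sum c N hn x hx
  have hex : ∃ i, dl C < phi0 c N x i := by
    by_contra h
    push Not at h
    have h1 : ∑ i, phi0 c N x i ≤ ∑ _i : C, dl C := Finset.sum_le_sum fun i _ => h i
    rw [hsum, Finset.sum_const, nsmul_eq_mul, Finset.card_univ] at h1
    have hne : Nonempty C := by
      by_contra hne
      rw [not_nonempty_iff] at hne
      simp at hsum
    have hc : (0 : ℝ) < Fintype.card C := by exact_mod_cast Fintype.card_pos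
    have : (Fintype.card C : ℝ) * dl C = 1 / 2 := by
      unfold dl; field_simp
    linarith
  obtain ⟨i, hi⟩ := hex
  refine Finset.sum_pos' (fun k _ => le_max_right _ _) ⟨i, Finset.mem_univ i, ?_⟩
  exact lt_max_of_lt_left (by linarith)

theorem C3a_gphi_nonneg (c : (Fin n → ℤ) → C) (N : ℕ) (x : Fin n → ℝ) (i : C) :
    0 ≤ gphi c N x i :=
  div_nonneg (le_max_right _ _) (Finset.sum_nonneg fun k _ => le_max_right _ _)

theorem C3a_gphi_le_one (c : (Fin n → ℤ) → C) (N : ℕ) (x : Fin n → ℝ) (i : C) :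
    gphi c N x i ≤ 1 := by
  refine div_le_one_of_le₀ ?_ (Finset.sum_nonneg fun k _ => le_max_right _ _)
  exact Finset.single_le_sum (f := fun k => max (phi0 c N x k - dl C) 0)
    (fun k _ => le_max_right _ _) (Finset.mem_univ i)

theorem C3a_gphi_sum (c : (Fin n → ℤ) → C) (N : ℕ) (hn : 0 < n) (x : Fin n → ℝ) (hx : x ≠ 0) :
    ∑ i, gphi c N x i = 1 := by
  unfold gphi
  rw [← Finset.sum_div]
  exact div_self (C3a_den_pos c N hn x hx).ne'

theorem C3a_gphi_supp (c : (Fin n → ℤ) → C) (N : ℕ) (x : Fin n → ℝ) (i : C)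
    (h : gphi c N x i ≠ 0) : dl C ≤ phi0 c N x i := by
  by_contra hlt
  push Not at hlt
  apply h
  unfold gphi
  rw [max_eq_right (by linarith), zero_div]

theorem C3a_xbar_ne {N : ℕ} (x y : Fin n → ℝ) (h : xbar N x ⬝ᵥ xbar N y ≠ 0) : x ⬝ᵥ y ≠ 0 := by
  intro h0
  apply h
  unfold xbar
  rw [smul_dotProduct, dotProduct_smul, h0]
  simp

theorem C3a_close {N : ℕ} (hn4 : n ≤ 4) (v : Fin n → ℤ) (z : Fin n → ℝ) (h : al v z ≠ 0) :
    ((fun i => (v i : ℝ)) - z) ⬝ᵥ ((fun i => (v i : ℝ)) - z) ≤ 4 := by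
  have _ := N
  have h1 : ∀ i, |z i - v i| ≤ 1 := fun i => al_near v z h i
  have : ((fun i => (v i : ℝ)) - z) ⬝ᵥ ((fun i => (v i : ℝ)) - z) ≤ ∑ _i : Fin n, (1 : ℝ) := by
    unfold dotProduct
    refine Finset.sum_le_sum fun i _ => ?_
    simp only [Pi.sub_apply]
    have h2 := h1 i
    rw [abs_le] at h2
    nlinarith
  refine this.trans ?_
  simp only [Finset.sum_const, Finset.card_univ, Fintype.card_fin, nsmul_eq_mul, mul_one]
  exact_mod_cast hn4

theorem C3a_bdry_sq {N : ℕ} (v : Fin n → ℤ) (hv : v ∈ bdry n N) :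
    4 * (N : ℝ) ^ 2 ≤ (fun i => (v i : ℝ)) ⬝ᵥ (fun i => (v i : ℝ)) := by
  obtain ⟨_, i, hi⟩ := Finset.mem_filter.1 hv
  have h1 : ((v i : ℤ) : ℝ) ^ 2 = 4 * (N : ℝ) ^ 2 := by
    have : |(v i : ℝ)| = 2 * (N : ℝ) := by exact_mod_cast congrArg (fun t : ℤ => (t : ℝ)) hi
    rw [← sq_abs, this]; ring
  have h2 : ((v i : ℤ) : ℝ) * (v i : ℝ) ≤ (fun i => (v i : ℝ)) ⬝ᵥ (fun i => (v i : ℝ)) := by
    unfold dotProduct
    exact Finset.single_le_sum (f := fun i => (v i : ℝ) * (v i : ℝ))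
      (fun k _ => mul_self_nonneg _) (Finset.mem_univ i)
  nlinarith

/-- Task BK-C3: a colouring with the angle condition and a fine grid give a colour structure.
`orth`: `x, y ∈ A i` have vertices `v, w` of colour `i` at sup distance `≤ 1` from `xbar x`,
`xbar y`; use `perturb` twice. -/
theorem exists_grid (hn0 : 0 < n) (hn : n ≤ 4) (κ : (Fin n → ℝ) → C) (ε : ℝ) (hκ : Kol κ ε) :
    ∃ N0 : ℕ, ∀ N : ℕ, N0 ≤ N → ∃ S : CS n C, S.phi = gphi (gc κ) N ∧ S.A = gA (gc κ) N := by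
  obtain ⟨N1, hN1⟩ := perturb ε hκ.pos
  obtain ⟨N2, hN2⟩ := perturb (ε / 2) (by have := hκ.pos; linarith)
  refine ⟨max (max N1 N2) 1, fun N hN => ?_⟩
  have hNN1 : N1 ≤ N := le_trans (le_trans (le_max_left _ _) (le_max_left _ _)) hN
  have hNN2 : N2 ≤ N := le_trans (le_trans (le_max_right _ _) (le_max_left _ _)) hN
  have hN0 : 1 ≤ N := le_trans (le_max_right _ _) hN
  have hNr : (1 : ℝ) ≤ N := by exact_mod_cast hN0
  have hvne : ∀ v ∈ bdry n N, (fun i => (v i : ℝ)) ≠ 0 := by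
    intro v hv h0
    have := C3a_bdry_sq v hv
    rw [h0] at this
    simp at this
    nlinarith
  have hc : ∀ v ∈ bdry n N, gc κ (-v) = gc κ v := by
    intro v hv
    unfold gc
    have h1 := hκ.homog (fun i => (v i : ℝ)) (hvne v hv) (-1) (by norm_num)
    rw [← h1]
    congr 1
    funext i
    simp
  have hhom : ∀ x : Fin n → ℝ, x ≠ 0 → ∀ t : ℝ, t ≠ 0 → ∀ i,
      phi0 (gc κ) N (t • x) i = phi0 (gc κ) N x i :=
    fun x hx t ht i => phi0_homog (gc κ) N hc x hx t ht i
  refine ⟨{ phi := gphi (gc κ) N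
            A := gA (gc κ) N
            nonneg := fun x i => C3a_gphi_nonneg _ _ _ _
            le_one := fun x i => C3a_gphi_le_one _ _ _ _
            sum_one := fun x hx => C3a_gphi_sum _ _ hn0 x hx
            homog := ?_
            cont := ?_
            supp := ?_
            A_ne := ?_
            A_homog := ?_
            A_closed := ?_
            orth := ?_ }, rfl, rfl⟩
  · intro x hx t ht i
    unfold gphi
    simp only [hhom x hx t ht]
  · intro i
    unfold gphi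
    have hcont : ∀ k, ContinuousOn (fun x => max (phi0 (gc κ) N x k - dl C) 0)
        {x : Fin n → ℝ | x ≠ 0} := fun k =>
      ((phi0_cont (gc κ) N k).sub continuousOn_const).sup continuousOn_const
    refine ContinuousOn.div (hcont i) (continuousOn_finset_sum _ fun k _ => hcont k) ?_
    intro x hx
    exact (C3a_den_pos _ N hn0 x hx).ne'
  · intro x i hx h
    exact ⟨hx, C3a_gphi_supp _ _ _ _ h⟩
  · intro i x hx
    exact hx.1
  · intro i x hx t ht
    refine ⟨smul_ne_zero ht hx.1, ?_⟩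
    rw [hhom x hx.1 t ht i]
    exact hx.2
  · intro i
    have hs : IsClosed {x : Fin n → ℝ | x ⬝ᵥ x = 1} := by
      refine isClosed_eq ?_ continuous_const
      unfold dotProduct
      exact continuous_finset_sum _ fun k _ => (continuous_apply k).mul (continuous_apply k)
    have hsub : {x : Fin n → ℝ | x ⬝ᵥ x = 1} ⊆ {x | x ≠ 0} := by
      intro x hx h0
      rw [Set.mem_setOf_eq, h0] at hx
      simp at hx
    have h1 := ((phi0_cont (gc κ) N i).mono hsub).preimage_isClosed_of_isClosed hs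
      (isClosed_Ici (a := dl C))
    convert h1 using 1
    ext x
    constructor
    · rintro ⟨h2, h3⟩
      exact ⟨h3, h2.2⟩
    · rintro ⟨h2, h3⟩
      exact ⟨⟨hsub h2, h3⟩, h2⟩
  · rintro i x ⟨hx, hxi⟩ y ⟨hy, hyi⟩
    have hdl := C3a_dl_pos i
    obtain ⟨v, hv, hvi, hva⟩ := phi0_vertex (gc κ) N x i (by linarith [hdl] : _ ≠ _).symm.symm
    obtain ⟨w, hw, hwi, hwa⟩ := phi0_vertex (gc κ) N y i (by linarith [hdl] : _ ≠ _).symm.symm
    apply C3a_xbar_ne (N := N)
    have hx2 := xbar_sq N hn0 x hx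
    have hy2 := xbar_sq N hn0 y hy
    have e1 : ε * (((fun i => (v i : ℝ)) ⬝ᵥ (fun i => (v i : ℝ))) *
        ((fun i => (w i : ℝ)) ⬝ᵥ (fun i => (w i : ℝ)))) ≤
        ((fun i => (v i : ℝ)) ⬝ᵥ (fun i => (w i : ℝ))) ^ 2 :=
      hκ.ang _ _ (hvne v hv) (hvne w hw) (by
        unfold gc at hvi hwi
        rw [hvi, hwi])
    have e2 := hN1 N hNN1 n (fun i => (v i : ℝ)) (xbar N x) (fun i => (w i : ℝ))
      (C3a_bdry_sq v hv) (C3a_close (N := N) hn v _ hva) e1
    have e3 := hN2 N hNN2 n (fun i => (w i : ℝ)) (xbar N y) (xbar N x)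
      (C3a_bdry_sq w hw) (C3a_close (N := N) hn w _ hwa) (by
        rw [dotProduct_comm (fun i => (w i : ℝ)) (xbar N x),
          mul_comm ((fun i => (w i : ℝ)) ⬝ᵥ (fun i => (w i : ℝ)))]
        exact e2)
    intro h0
    rw [dotProduct_comm (xbar N y) (xbar N x), h0] at e3
    have hε := hκ.pos
    have h4 : 0 < xbar N x ⬝ᵥ xbar N x := by nlinarith
    have h5 : 0 < xbar N y ⬝ᵥ xbar N y := by nlinarith
    have h6 : 0 < ε / 2 / 2 * (xbar N y ⬝ᵥ xbar N y * xbar N x ⬝ᵥ xbar N x) := by positivity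
    simp only [ne_eq, OfNat.ofNat_ne_zero, not_false_eq_true, zero_pow] at e3
    linarith

end BK
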