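import Crest.Agent.BK_P1

set_option autoImplicit false

namespace BK
open Finset MeasureTheory

private theorem p4_coord {n N : ℕ} {F : Fin n → Fin n → ℤ} (hF : IsFlag N F) (k l : Fin n)
    (hkl : k < l) (i : Fin n) : F k i = F l i ∨ (Odd (F l i) ∧ |F k i - F l i| = 1) :=
  hF.2.2 k l hkl i

private theorem p4_inj {n N : ℕ} {F : Fin n → Fin n → ℤ} (hF : IsFlag N F) :
    Function.Injective F := by
  intro a b hab
  have h1 := hF.2.1 a
  have h2 := hF.2.1 b
  rw [hab, h2] at h1
  exact Fin.ext h1.symm

/-- Task BK-P4: on a flag simplex the functions `al` are the barycentric coordinates. -/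
theorem al_flag {n N : ℕ} (hn : 0 < n) (F : Fin n → Fin n → ℤ) (hF : IsFlag N F) (w : Fin n → ℝ)
    (hw : ∀ k, 0 ≤ w k) (hw1 : ∑ k, w k = 1) (v : Fin n → ℤ) :
    al v (fun i => ∑ k, w k * (F k i : ℝ)) = ∑ k, if F k = v then w k else 0 := by
  classical
  obtain ⟨x, hx⟩ : ∃ x : Fin n → ℝ, x = fun i => ∑ k, w k * (F k i : ℝ) := ⟨_, rfl⟩
  rw [← hx]
  obtain ⟨t, ht⟩ : ∃ t : ℕ → ℝ, t = fun k => ∑ j : Fin n, if k ≤ (j : ℕ) then w j else 0 := ⟨_, rfl⟩
  have ht0 : t 0 = 1 := by rw [ht, ← hw1]; simp
  have htn : t n = 0 := by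
    rw [ht]
    refine Finset.sum_eq_zero fun j _ => ?_
    rw [if_neg (by have := j.2; omega)]
  have hstep : ∀ k : Fin n, t k = w k + t ((k : ℕ) + 1) := by
    intro k
    have h1 : w k = ∑ j : Fin n, if j = k then w j else 0 := by simp
    rw [ht]
    simp only
    rw [h1, ← Finset.sum_add_distrib]
    refine Finset.sum_congr rfl fun j _ => ?_
    by_cases hj : j = k
    · subst hj
      simp
    · have hne : (j : ℕ) ≠ k := fun h => hj (Fin.ext h)
      rw [if_neg hj, zero_add]
      by_cases h2 : (k : ℕ) ≤ j
      · rw [if_pos h2, if_pos (by omega)]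
      · rw [if_neg h2, if_neg (by omega)]
  have htnn : ∀ k, 0 ≤ t k := by
    intro k
    rw [ht]
    refine Finset.sum_nonneg fun j _ => ?_
    split_ifs
    · exact hw j
    · exact le_rfl
  have htle : ∀ k, t k ≤ 1 := by
    intro k
    rw [ht, ← hw1]
    refine Finset.sum_le_sum fun j _ => ?_
    split_ifs
    · exact le_rfl
    · exact hw j
  -- difference formula
  have hdiff : ∀ (k i : Fin n), x i - (F k i : ℝ) = ∑ j, w j * ((F j i : ℝ) - F k i) := by
    intro k i
    rw [hx]
    simp only [mul_sub, Finset.sum_sub_distrib]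
    rw [← Finset.sum_mul, hw1, one_mul]
  have habs1 : ∀ (j k i : Fin n), |(F j i : ℝ) - F k i| ≤ 1 := by
    intro j k i
    rcases lt_trichotomy j k with h | h | h
    · rcases p4_coord hF j k h i with h1 | h1
      · rw [h1]; simp
      · have := h1.2
        have h3 : |((F j i - F k i : ℤ) : ℝ)| = ((1 : ℤ) : ℝ) := by rw [← this]; push_cast; rfl
        push_cast at h3
        exact h3.le
    · rw [h]; simp
    · rcases p4_coord hF k j h i with h1 | h1
      · rw [h1]; simp
      · have := h1.2
        have h3 : |((F k i - F j i : ℤ) : ℝ)| = ((1 : ℤ) : ℝ) := by rw [← this]; push_cast; rfl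
        push_cast at h3
        rw [abs_sub_comm]
        exact h3.le
  have hnear : ∀ (k : Fin n) (s : ℝ), t ((k : ℕ) + 1) ≤ s → s < t k → ∀ i, near s (x i) (F k i) := by
    intro k s hs1 hs2 i
    rcases Int.even_or_odd (F k i) with he | ho
    · left
      refine ⟨he, le_trans ?_ hs1⟩
      rw [hdiff, ht]
      refine (Finset.abs_sum_le_sum_abs _ _).trans (Finset.sum_le_sum fun j _ => ?_)
      rw [abs_mul, abs_of_nonneg (hw j)]
      by_cases hj : (k : ℕ) + 1 ≤ j
      · rw [if_pos hj]
        exact mul_le_of_le_one_right (hw j) (habs1 j k i)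
      · rw [if_neg hj]
        have : F j i = F k i := by
          rcases eq_or_ne j k with h | h
          · rw [h]
          · have hlt : j < k := by
              have hne : (j : ℕ) ≠ k := fun h' => h (Fin.ext h')
              rw [Fin.lt_def]; omega
            rcases p4_coord hF j k hlt i with h1 | h1
            · exact h1
            · exact absurd he (Int.not_even_iff_odd.2 h1.1)
        rw [this, sub_self, abs_zero, mul_zero]
    · right
      refine ⟨ho, ?_⟩
      have hb : |x i - (F k i : ℝ)| ≤ 1 - t k := by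
        rw [hdiff, ht, ← hw1, ← Finset.sum_sub_distrib]
        refine (Finset.abs_sum_le_sum_abs _ _).trans (Finset.sum_le_sum fun j _ => ?_)
        rw [abs_mul, abs_of_nonneg (hw j)]
        by_cases hj : (k : ℕ) ≤ j
        · rw [if_pos hj, sub_self]
          have : F j i = F k i := by
            rcases eq_or_ne j k with h | h
            · rw [h]
            · have hlt : k < j := by
                have hne : (j : ℕ) ≠ k := fun h' => h (Fin.ext h')
                rw [Fin.lt_def]; omega
              rcases p4_coord hF k j hlt i with h1 | h1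
              · exact h1.symm
              · exfalso
                have h2 : Even (F k i - F j i) := ho.sub_odd h1.1
                have h3 := h1.2
                rcases h2 with ⟨c, hc⟩
                rw [hc] at h3
                rcases abs_eq (by norm_num : (0 : ℤ) ≤ 1) |>.1 h3 with h4 | h4 <;> omega
          rw [this, sub_self, abs_zero, mul_zero]
        · rw [if_neg hj, sub_zero]
          exact mul_le_of_le_one_right (hw j) (habs1 j k i)
      linarith
  have hex : ∀ s ∈ Set.Ioo (0 : ℝ) 1, ∃ k : Fin n, t ((k : ℕ) + 1) ≤ s ∧ s < t k := by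
    intro s hs
    by_contra hcon
    push Not at hcon
    have hall : ∀ m : ℕ, m ≤ n → s < t m := by
      intro m
      induction m with
      | zero => intro _; rw [ht0]; exact hs.2
      | succ m ih =>
        intro hm
        by_contra h
        push Not at h
        have := hcon ⟨m, by omega⟩ h
        exact absurd (ih (by omega)) (not_lt.2 this)
    have := hall n le_rfl
    rw [htn] at this
    exact absurd this (not_lt.2 hs.1.le)
  have hinj := p4_inj hF
  unfold al
  by_cases hv : ∃ k, F k = v
  · obtain ⟨k, rfl⟩ := hv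
    have hrhs : (∑ j, if F j = F k then w j else 0) = w k := by
      simp [hinj.eq_iff]
    rw [hrhs]
    have hset : {s : ℝ | s ∈ Set.Ioo (0 : ℝ) 1 ∧ ∀ i, near s (x i) (F k i)} =
        Set.Ioo (0 : ℝ) 1 ∩ Set.Ico (t ((k : ℕ) + 1)) (t k) := by
      ext s
      constructor
      · rintro ⟨hs, h⟩
        refine ⟨hs, ?_⟩
        obtain ⟨k', h1, h2⟩ := hex s hs
        have h3 := hnear k' s h1 h2
        have : F k' = F k := by
          funext i
          exact near_unique hs (h3 i) (h i)
        have hk := hinj this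
        subst hk
        exact ⟨h1, h2⟩
      · rintro ⟨hs, h⟩
        exact ⟨hs, hnear k s h.1 h.2⟩
    rw [hset]
    have hwk : w k = t k - t ((k : ℕ) + 1) := by rw [hstep k]; ring
    have hvol : volume (Set.Ioo (0 : ℝ) 1 ∩ Set.Ico (t ((k : ℕ) + 1)) (t k)) =
        ENNReal.ofReal (w k) := by
      rw [hwk]
      apply le_antisymm
      · refine (measure_mono Set.inter_subset_right).trans ?_
        rw [Real.volume_Ico]
      · have hsub : Set.Ioo (t ((k : ℕ) + 1)) (t k) ⊆
            Set.Ioo (0 : ℝ) 1 ∩ Set.Ico (t ((k : ℕ) + 1)) (t k) := by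
          intro s hs
          refine ⟨⟨lt_of_le_of_lt (htnn _) hs.1, lt_of_lt_of_le hs.2 (htle _)⟩, hs.1.le, hs.2⟩
        refine le_trans ?_ (measure_mono hsub)
        rw [Real.volume_Ioo]
    rw [hvol, ENNReal.toReal_ofReal (hw k)]
  · have hrhs : (∑ j, if F j = v then w j else 0) = 0 := by
      refine Finset.sum_eq_zero fun j _ => ?_
      rw [if_neg fun h => hv ⟨j, h⟩]
    rw [hrhs]
    have hset : {s : ℝ | s ∈ Set.Ioo (0 : ℝ) 1 ∧ ∀ i, near s (x i) (v i)} = ∅ := by
      ext s
      simp only [Set.mem_setOf_eq, Set.mem_empty_iff_false, iff_false]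
      rintro ⟨hs, h⟩
      obtain ⟨k', h1, h2⟩ := hex s hs
      exact hv ⟨k', by funext i; exact near_unique hs (hnear k' s h1 h2 i) (h i)⟩
    rw [hset]
    simp

end BK
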