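import Crest.Agent.BK_C2
import Crest.Agent.BK_P4

set_option autoImplicit false

namespace BK
open Finset

variable {n : ℕ} {C : Type} [Fintype C] [DecidableEq C]

/-- sum of the vertices of a flag (`n` times the barycentre) -/
noncomputable def bF {n : ℕ} (F : Fin n → Fin n → ℤ) : Fin n → ℝ := fun i => ∑ k, (F k i : ℝ)

private theorem c4a_bound {N : ℕ} {v : Fin n → ℤ} (hv : v ∈ bdry n N) (i : Fin n) :
    |v i| ≤ 2 * (N : ℤ) := by
  simp only [bdry, mem_filter, Fintype.mem_piFinset, mem_Icc] at hv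
  exact abs_le.2 (hv.1 i)

private theorem c4a_common {N : ℕ} (hn : 0 < n) (F : Fin n → Fin n → ℤ) (hF : IsFlag N F) :
    ∃ i0, ∃ s : ℤ, |s| = 2 * (N : ℤ) ∧ ∀ k, F k i0 = s := by
  have hl : n - 1 < n := by omega
  have h1 := hF.1 ⟨n - 1, hl⟩
  have h2 : ∃ i, |F ⟨n - 1, hl⟩ i| = 2 * (N : ℤ) := by
    simp only [bdry, mem_filter] at h1
    exact h1.2
  obtain ⟨i0, hi0⟩ := h2
  refine ⟨i0, F ⟨n - 1, hl⟩ i0, hi0, fun k => ?_⟩
  by_cases hk : k = ⟨n - 1, hl⟩
  · rw [hk]
  · have hlt : k < ⟨n - 1, hl⟩ := by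
      refine lt_of_le_of_ne ?_ hk
      show (k : ℕ) ≤ n - 1
      have := k.2
      omega
    rcases hF.2.2 k _ hlt i0 with h | ⟨h, _⟩
    · exact h
    · exfalso
      rcases abs_choice (F ⟨n - 1, hl⟩ i0) with h' | h' <;> rw [h'] at hi0
      · rw [hi0] at h
        exact (Int.not_odd_iff_even.2 (even_two_mul _)) h
      · have : F ⟨n - 1, hl⟩ i0 = 2 * (-(N : ℤ)) := by linarith
        rw [this] at h
        exact (Int.not_odd_iff_even.2 (even_two_mul _)) h

/-- Task BK-C4 -/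
theorem bF_ne_zero {N : ℕ} (hn : 0 < n) (hN : 0 < N) (F : Fin n → Fin n → ℤ) (hF : IsFlag N F) :
    bF F ≠ 0 := by
  obtain ⟨i0, s, hs, hk⟩ := c4a_common hn F hF
  intro h
  have h1 := congrFun h i0
  simp only [bF, hk, sum_const, card_univ, Fintype.card_fin, nsmul_eq_mul, Pi.zero_apply,
    mul_eq_zero, Nat.cast_eq_zero, Int.cast_eq_zero] at h1
  rcases h1 with h1 | h1
  · omega
  · rw [h1] at hs
    simp at hs
    omega

theorem bF_neg (F : Fin n → Fin n → ℤ) : bF (-F) = -bF F := by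
  ext i
  simp [bF]

/-- `xbar` on the cone of a flag: `x = ∑ a_k F_k`, `a_k ≥ 0`, `∑ a_k > 0` -/
theorem xbar_flag {N : ℕ} (hn : 0 < n) (hN : 0 < N) (F : Fin n → Fin n → ℤ) (hF : IsFlag N F)
    (a : Fin n → ℝ) (ha : ∀ k, 0 ≤ a k) (ha' : 0 < ∑ k, a k) :
    xbar N (fun i => ∑ k, a k * (F k i : ℝ)) =
      fun i => ∑ k, (a k / ∑ l, a l) * (F k i : ℝ) := by
  obtain ⟨i0, s, hs, hk⟩ := c4a_common hn F hF
  have hNr : (0 : ℝ) < 2 * N := by positivity
  have hnorm : ‖(fun i => ∑ k, a k * (F k i : ℝ))‖ = 2 * N * ∑ k, a k := by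
    apply le_antisymm
    · rw [pi_norm_le_iff_of_nonneg (by positivity)]
      intro i
      rw [Real.norm_eq_abs]
      calc |∑ k, a k * (F k i : ℝ)| ≤ ∑ k, |a k * (F k i : ℝ)| := abs_sum_le_sum_abs _ _
        _ ≤ ∑ k, 2 * N * a k := by
          apply sum_le_sum
          intro k _
          rw [abs_mul, abs_of_nonneg (ha k), mul_comm]
          apply mul_le_mul_of_nonneg_right _ (ha k)
          have := c4a_bound (hF.1 k) i
          exact_mod_cast this
        _ = 2 * N * ∑ k, a k := by rw [mul_sum]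
    · have h1 := norm_le_pi_norm (fun i => ∑ k, a k * (F k i : ℝ)) i0
      refine le_trans (le_of_eq ?_) h1
      simp only [hk]
      rw [← sum_mul, Real.norm_eq_abs, abs_mul, abs_of_pos ha', mul_comm]
      congr 1
      have : |(s : ℝ)| = 2 * N := by exact_mod_cast hs
      exact this.symm
  ext i
  simp only [xbar, hnorm, Pi.smul_apply, smul_eq_mul]
  rw [mul_sum]
  apply sum_congr rfl
  intro k _
  field_simp

end BK
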