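import Crest.Agent.BK_C2
import Crest.Agent.BK_P4
import Crest.Agent.BK_C4a

set_option autoImplicit false

namespace BK
open Finset

variable {n : ℕ} {C : Type} [Fintype C] [DecidableEq C]

private theorem c4b_smul (N : ℕ) (x : Fin n → ℝ) (t : ℝ) (ht : 0 < t) :
    xbar N (t • x) = xbar N x := by
  unfold xbar
  rw [norm_smul, Real.norm_eq_abs, abs_of_pos ht, smul_smul]
  congr 1
  by_cases hx : ‖x‖ = 0
  · simp [hx]
  · field_simp

private theorem c4b_bF {N : ℕ} (hn : 0 < n) (hN : 0 < N) (F : Fin n → Fin n → ℤ)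
    (hF : IsFlag N F) :
    xbar N (bF F) = fun i => ∑ k, (1 / (n : ℝ)) * (F k i : ℝ) := by
  have hnr : (0 : ℝ) < n := by exact_mod_cast hn
  have h := xbar_flag hn hN F hF (fun _ => 1) (fun _ => zero_le_one) (by simpa using hnr)
  simp only [one_mul, sum_const, card_univ, Fintype.card_fin, nsmul_eq_mul, mul_one] at h
  exact h

/-- positive multiples of barycentres determine the flag (vertices with `al ≠ 0`) -/
theorem bF_inj {N : ℕ} (hn : 0 < n) (hN : 0 < N) (F G : Fin n → Fin n → ℤ) (hF : IsFlag N F)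
    (hG : IsFlag N G) (t : ℝ) (ht : 0 < t) (h : bF F = t • bF G) : F = G := by
  have hnr : (0 : ℝ) < n := by exact_mod_cast hn
  have h1 : (fun i => ∑ k, (1 / (n : ℝ)) * (F k i : ℝ)) =
      fun i => ∑ k, (1 / (n : ℝ)) * (G k i : ℝ) := by
    rw [← c4b_bF hn hN F hF, ← c4b_bF hn hN G hG, h, c4b_smul N _ t ht]
  have hw0 : ∀ k : Fin n, (0 : ℝ) ≤ (fun _ : Fin n => 1 / (n : ℝ)) k := fun k => by
    show (0 : ℝ) ≤ 1 / n
    positivity
  have hw1 : ∑ k : Fin n, (fun _ : Fin n => 1 / (n : ℝ)) k = 1 := by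
    simp only [sum_const, card_univ, Fintype.card_fin, nsmul_eq_mul]
    field_simp
  refine flag_ext F G hF hG fun k => ?_
  have h2 := al_flag hn F hF (fun _ => 1 / (n : ℝ)) hw0 hw1 (F k)
  have h3 := al_flag hn G hG (fun _ => 1 / (n : ℝ)) hw0 hw1 (F k)
  rw [h1, h3] at h2
  by_contra hne
  push Not at hne
  have h4 : ∑ k_1, (if G k_1 = F k then 1 / (n : ℝ) else 0) = 0 := by
    apply sum_eq_zero
    intro l _
    rw [if_neg (fun h => hne l h.symm)]
  rw [h4] at h2
  have h5 : (1 / (n : ℝ)) ≤ ∑ k_1, (if F k_1 = F k then 1 / (n : ℝ) else 0) := by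
    have := single_le_sum (f := fun k_1 => if F k_1 = F k then 1 / (n : ℝ) else 0)
      (s := univ) (fun l _ => by split_ifs <;> positivity) (mem_univ k)
    simpa using this
  rw [← h2] at h5
  have : (0 : ℝ) < 1 / n := by positivity
  linarith

end BK
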