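import Crest.Agent.BK_C2
import Crest.Agent.BK_P4
import Crest.Agent.BK_C4a

set_option autoImplicit false

namespace BK
open Finset

variable {n : ℕ} {C : Type} [Fintype C] [DecidableEq C]

private theorem c4c_bdry {N : ℕ} (x : Fin n → ℝ) (hx : ∀ i, |x i| ≤ 2 * N)
    (hx' : ∃ i, |x i| = 2 * (N : ℝ)) (v : Fin n → ℤ) (h : al v x ≠ 0) : v ∈ bdry n N := by
  have h1 : {s : ℝ | s ∈ Set.Ioo (0 : ℝ) 1 ∧ ∀ i, near s (x i) (v i)}.Nonempty := by
    by_contra hne
    rw [Set.not_nonempty_iff_eq_empty] at hne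
    apply h
    simp only [al, hne]
    simp
  obtain ⟨s, hs, hv⟩ := h1
  simp only [bdry, mem_filter, Fintype.mem_piFinset, mem_Icc]
  refine ⟨fun i => abs_le.1 (near_bound hs (hv i) N (hx i)), ?_⟩
  obtain ⟨i, hi⟩ := hx'
  refine ⟨i, ?_⟩
  have hvi := hv i
  rcases abs_choice (x i) with h' | h' <;> rw [h'] at hi
  · have h2 : near s (x i) (2 * (N : ℤ)) := by
      rw [hi]
      have := near_even hs (2 * (N : ℤ)) (even_two_mul _)
      push_cast at this
      exact this
    rw [near_unique hs hvi h2]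
    rw [abs_of_nonneg]
    positivity
  · have h2 : near s (x i) (-(2 * (N : ℤ))) := by
      have h3 : x i = -(2 * N) := by linarith
      rw [h3]
      have := near_even hs (-(2 * (N : ℤ))) (even_two_mul _).neg
      push_cast at this
      exact this
    rw [near_unique hs hvi h2]
    rw [abs_neg, abs_of_nonneg]
    positivity

/-- Task BK-C4: if `n` different colours are present at `x` we have a flag -/
theorem flag_of_colours {N : ℕ} (hN : 0 < N) (c : (Fin n → ℤ) → C) (x : Fin n → ℝ) (hx : x ≠ 0)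
    (B : Finset C) (hB : B.card = n) (h : ∀ i ∈ B, phi0 c N x i ≠ 0) :
    ∃ F : Fin n → Fin n → ℤ, IsFlag N F ∧ univ.image (fun k => c (F k)) = B ∧
      (∀ v, al v (xbar N x) ≠ 0 → ∃ k, v = F k) ∧
      ∀ i, xbar N x i = ∑ k, al (F k) (xbar N x) * (F k i : ℝ) := by
  have hn : 0 < n := by
    rcases Nat.eq_zero_or_pos n with h0 | h0
    · subst h0
      exact absurd (Subsingleton.elim x 0) hx
    · exact h0
  obtain ⟨hb1, hb2⟩ := xbar_spec N hn x hx
  have hv : ∀ i : B, ∃ v ∈ bdry n N, c v = i ∧ al v (xbar N x) ≠ 0 :=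
    fun i => phi0_vertex c N x i (h i i.2)
  choose v hvb hvc hva using hv
  have hvinj : Function.Injective v := by
    intro i j hij
    apply Subtype.ext
    rw [← hvc i, ← hvc j, hij]
  obtain ⟨F, hF, hFS⟩ := flag_of_card (N := N) (univ.image v)
    (by
      intro w hw
      rw [mem_image] at hw
      obtain ⟨i, _, rfl⟩ := hw
      exact hvb i)
    (by rw [card_image_of_injective _ hvinj, card_univ, Fintype.card_coe, hB])
    (by
      intro w hw w' hw'
      rw [mem_image] at hw hw'
      obtain ⟨i, _, rfl⟩ := hw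
      obtain ⟨j, _, rfl⟩ := hw'
      exact al_chain _ _ _ (hva i) (hva j))
  have hFal : ∀ k, al (F k) (xbar N x) ≠ 0 := by
    intro k
    have : F k ∈ univ.image v := by rw [← hFS]; exact mem_image_of_mem _ (mem_univ k)
    rw [mem_image] at this
    obtain ⟨i, _, hi⟩ := this
    rw [← hi]
    exact hva i
  have hFinj : Function.Injective F := by
    intro k l hkl
    have := hF.2.1 k
    rw [hkl, hF.2.1 l] at this
    exact (Fin.ext this).symm
  have hall : ∀ w, al w (xbar N x) ≠ 0 → ∃ k, w = F k := by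
    intro w hw
    have hwb := c4c_bdry (xbar N x) hb1 hb2 w hw
    have hwr := rnk_lt_of_bdry w hwb
    refine ⟨⟨rnk w, hwr⟩, ?_⟩
    by_contra hne
    have hr := hF.2.1 ⟨rnk w, hwr⟩
    simp only at hr
    rcases al_chain _ _ _ hw (hFal ⟨rnk w, hwr⟩) with h1 | h1
    · have := rnk_lt_of_cle _ _ h1 hne
      omega
    · have := rnk_lt_of_cle _ _ h1 (Ne.symm hne)
      omega
  refine ⟨F, hF, ?_, hall, fun i => ?_⟩
  · have h1 : univ.image (fun k => c (F k)) = (univ.image F).image c := by
      rw [image_image]; rfl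
    rw [h1, hFS, image_image]
    ext j
    simp only [mem_image, mem_univ, true_and, Function.comp]
    constructor
    · rintro ⟨i, rfl⟩
      rw [hvc i]
      exact i.2
    · intro hj
      exact ⟨⟨j, hj⟩, hvc ⟨j, hj⟩⟩
  · rw [← al_bary N (xbar N x) hb1 hb2 i]
    rw [← sum_image (s := univ) (g := F) (f := fun w => al w (xbar N x) * (w i : ℝ))
      (fun a _ b _ hab => hFinj hab)]
    symm
    apply sum_subset
    · intro w hw
      rw [mem_image] at hw
      obtain ⟨k, _, rfl⟩ := hw
      exact hF.1 k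
    · intro w _ hw
      by_cases h0 : al w (xbar N x) = 0
      · rw [h0, zero_mul]
      · exfalso
        obtain ⟨k, hk⟩ := hall w h0
        exact hw (hk ▸ mem_image_of_mem _ (mem_univ k))

end BK
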