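import Crest.Agent.BK_C4

set_option autoImplicit false

namespace BK
open Finset

variable {n : ℕ} {C : Type} [Fintype C] [DecidableEq C]

/-- Task BK-C5: value of `phi0` on the cone of a flag with different colours -/
theorem phi0_flag {N : ℕ} (hn : 0 < n) (hN : 0 < N) (c : (Fin n → ℤ) → C) (σ : Finset C)
    (hσ : σ.card = n) (F : Fin n → Fin n → ℤ) (hF : IsFlag N F)
    (hFσ : univ.image (fun k => c (F k)) = σ) (a : Fin n → ℝ) (ha : ∀ k, 0 ≤ a k)
    (ha' : 0 < ∑ k, a k) (i : C) :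
    phi0 c N (fun j => ∑ k, a k * (F k j : ℝ)) i =
      ∑ k, if c (F k) = i then a k / ∑ l, a l else 0 := by
  have hw : ∀ k, 0 ≤ a k / ∑ l, a l := fun k => div_nonneg (ha k) ha'.le
  have hw1 : ∑ k, a k / ∑ l, a l = 1 := by
    rw [← Finset.sum_div, div_self ha'.ne']
  unfold phi0
  rw [xbar_flag hn hN F hF a ha ha']
  have h1 : ∀ v, al v (fun j => ∑ k, (a k / ∑ l, a l) * (F k j : ℝ)) =
      ∑ k, if F k = v then a k / ∑ l, a l else 0 := fun v => al_flag hn F hF _ hw hw1 v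
  simp only [h1]
  rw [Finset.sum_comm]
  refine Finset.sum_congr rfl fun k _ => ?_
  rw [Finset.sum_ite_eq]
  have h2 : F k ∈ (bdry n N).filter (fun v => c v = i) ↔ c (F k) = i := by
    rw [Finset.mem_filter]
    exact ⟨fun h => h.2, fun h => ⟨hF.1 k, h⟩⟩
  simp only [h2]

end BK
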