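import Crest.Agent.BK_C4
import Crest.Agent.BK_C5a

set_option autoImplicit false

namespace BK
open Finset

variable {n : ℕ} {C : Type} [Fintype C] [DecidableEq C]

/-- Task BK-C5 -/
theorem xi_of_flag {N : ℕ} (hn : 0 < n) (hN : 0 < N) (hC : n ≤ Fintype.card C)
    (c : (Fin n → ℤ) → C) (σ : Finset C)
    (hσ : σ.card = n) (F : Fin n → Fin n → ℤ) (hF : IsFlag N F)
    (hFσ : univ.image (fun k => c (F k)) = σ) (t : ℝ) (ht : 0 < t) (i : C) :
    gphi c N (t • bF F) i = if i ∈ σ then 1 / (n : ℝ) else 0 := by
  have hnr : (0 : ℝ) < n := by exact_mod_cast hn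
  have hCr : (n : ℝ) ≤ Fintype.card C := by exact_mod_cast hC
  have hinj : Function.Injective (fun k => c (F k)) := by
    have h1 : (univ.image (fun k => c (F k))).card = (univ : Finset (Fin n)).card := by
      rw [hFσ, hσ, card_univ, Fintype.card_fin]
    have h2 := card_image_iff.1 h1
    intro a b hab
    exact h2 (by simp) (by simp) hab
  have hsum : ∑ _l : Fin n, t = n * t := by simp
  have hphi : ∀ i, phi0 c N (t • bF F) i = if i ∈ σ then 1 / (n : ℝ) else 0 := by
    intro i
    have e : t • bF F = fun j => ∑ k, (fun _ : Fin n => t) k * (F k j : ℝ) := by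
      funext j
      simp only [bF, Pi.smul_apply, smul_eq_mul, mul_sum]
    rw [e, phi0_flag hn hN c σ hσ F hF hFσ (fun _ => t) (fun _ => ht.le)
      (by rw [hsum]; positivity) i]
    have e1 : t / ∑ _l : Fin n, t = 1 / (n : ℝ) := by
      rw [hsum]; field_simp
    simp only [e1]
    by_cases hi : i ∈ σ
    · rw [if_pos hi]
      rw [← hFσ, mem_image] at hi
      obtain ⟨k, -, hk⟩ := hi
      rw [sum_eq_single k]
      · rw [if_pos hk]
      · intro b _ hb
        rw [if_neg]
        intro h
        exact hb (hinj (h.trans hk.symm))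
      · intro h
        exact absurd (mem_univ k) h
    · rw [if_neg hi]
      apply sum_eq_zero
      intro k _
      rw [if_neg]
      intro h
      apply hi
      rw [← hFσ, mem_image]
      exact ⟨k, mem_univ k, h⟩
  have hdpos : 0 < dl C := by
    unfold dl
    have : (0 : ℝ) < Fintype.card C := lt_of_lt_of_le hnr hCr
    positivity
  have hdlt : dl C < 1 / (n : ℝ) := by
    unfold dl
    apply one_div_lt_one_div_of_lt hnr
    linarith
  have hm : ∀ i, max (phi0 c N (t • bF F) i - dl C) 0 =
      if i ∈ σ then 1 / (n : ℝ) - dl C else 0 := by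
    intro i
    rw [hphi]
    split_ifs
    · rw [max_eq_left]; linarith
    · rw [max_eq_right]; linarith
  unfold gphi
  simp only [hm]
  rw [sum_ite_mem, univ_inter, sum_const, hσ, nsmul_eq_mul]
  have h1 : (1 / (n : ℝ) - dl C) ≠ 0 := by linarith
  split_ifs
  · rw [div_mul_cancel_right₀ h1, one_div]
  · simp

end BK
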