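import Crest.Agent.BK_C4
import Crest.Agent.BK_C5a

set_option autoImplicit false

namespace BK
open Finset

variable {n : ℕ} {C : Type} [Fintype C] [DecidableEq C]

/-- Task BK-C5 -/
theorem flag_of_xi {N : ℕ} (hn : 0 < n) (hN : 0 < N) (hC : n ≤ Fintype.card C)
    (c : (Fin n → ℤ) → C) (σ : Finset C) (hσ : σ.card = n) (x : Fin n → ℝ) (hx : x ≠ 0)
    (h : ∀ i, gphi c N x i = if i ∈ σ then 1 / (n : ℝ) else 0) :
    ∃ F : Fin n → Fin n → ℤ, IsFlag N F ∧ univ.image (fun k => c (F k)) = σ ∧
      ∃ t : ℝ, 0 < t ∧ x = t • bF F := by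
  have hnr : (0 : ℝ) < n := by exact_mod_cast hn
  have hCr : (0 : ℝ) < Fintype.card C := by exact_mod_cast lt_of_lt_of_le hn hC
  have hdl : 0 < dl C := by unfold dl; positivity
  set D : ℝ := ∑ k, max (phi0 c N x k - dl C) 0 with hD
  have hval : ∀ i ∈ σ, dl C < phi0 c N x i ∧ phi0 c N x i - dl C = D / n := by
    intro i hi
    have h1 := h i
    rw [if_pos hi] at h1
    unfold gphi at h1
    rw [← hD] at h1
    have hD0 : D ≠ 0 := by
      intro h0
      rw [h0, div_zero] at h1
      have : (0 : ℝ) < 1 / n := by positivity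
      linarith
    have h2 : max (phi0 c N x i - dl C) 0 = D / n := by
      rw [div_eq_iff hD0] at h1
      rw [h1]; ring
    have hDpos : 0 < D := lt_of_le_of_ne
      (Finset.sum_nonneg fun k _ => le_max_right _ _) (Ne.symm hD0)
    have h3 : 0 < D / n := by positivity
    rw [← h2] at h3
    have h4 : 0 < phi0 c N x i - dl C := by
      by_contra hcon
      push Not at hcon
      rw [max_eq_right hcon] at h3
      exact lt_irrefl _ h3
    exact ⟨by linarith, by rw [← h2, max_eq_left h4.le]⟩
  obtain ⟨F, hF, hFσ, hal, hxb⟩ := flag_of_colours hN c x hx σ hσ (fun i hi => by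
    have := (hval i hi).1
    exact (hdl.trans this).ne')
  have hinj : Function.Injective (fun k => c (F k)) := by
    have : (univ.image (fun k => c (F k))).card = (univ : Finset (Fin n)).card := by
      rw [hFσ, hσ]; simp
    intro a b hab
    exact Finset.card_image_iff.1 this (Finset.mem_coe.2 (Finset.mem_univ a))
      (Finset.mem_coe.2 (Finset.mem_univ b)) hab
  have hmem : ∀ k, c (F k) ∈ σ := fun k => by
    rw [← hFσ]; exact Finset.mem_image_of_mem _ (Finset.mem_univ k)
  have hphi : ∀ k, phi0 c N x (c (F k)) = al (F k) (xbar N x) := by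
    intro k
    unfold phi0
    refine Finset.sum_eq_single_of_mem (F k)
      (Finset.mem_filter.2 ⟨hF.1 k, rfl⟩) ?_
    intro v hv hne
    by_contra h0
    obtain ⟨l, hl⟩ := hal v h0
    have h1 := (Finset.mem_filter.1 hv).2
    rw [hl] at h1
    exact hne (by rw [hl, hinj h1])
  set q : ℝ := dl C + D / n with hq
  have halq : ∀ k, al (F k) (xbar N x) = q := by
    intro k
    rw [← hphi k]
    have := (hval _ (hmem k)).2
    rw [hq]; linarith
  have hqpos : 0 < q := by
    have h1 := (hval _ (hmem ⟨0, hn⟩)).1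
    have h2 := (hval _ (hmem ⟨0, hn⟩)).2
    rw [hq]; linarith
  have hxn : 0 < ‖x‖ := norm_pos_iff.2 hx
  have hNr : (0 : ℝ) < N := by exact_mod_cast hN
  refine ⟨F, hF, hFσ, ‖x‖ / (2 * N) * q, by positivity, ?_⟩
  funext i
  have h1 := hxb i
  have h2 : ∑ k, al (F k) (xbar N x) * (F k i : ℝ) = q * bF F i := by
    unfold bF
    rw [Finset.mul_sum]
    exact Finset.sum_congr rfl fun k _ => by rw [halq k]
  rw [h2] at h1
  unfold xbar at h1
  simp only [Pi.smul_apply, smul_eq_mul] at h1 ⊢
  have h3 : x i = ‖x‖ / (2 * N) * (2 * N / ‖x‖ * x i) := by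
    field_simp
  rw [h3, h1]; ring

end BK
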