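import Crest.Agent.BK_C5

set_option autoImplicit false

namespace BK
open Finset

variable {n : ℕ} {C : Type} [Fintype C] [DecidableEq C]

/-- Task BK-C6: local linearity at barycentres. `F_k` is a basis, `x = ∑ λ_k(x) F_k`, near `t • bF F`
all `λ_k(x) > 0`, `phi0 (c F_k) = λ_k/Λ`, `Λ = ∑ λ_l`, so `gphi ∝ A_k := λ_k - δ Λ` (`δ = dl C`,
`n δ < 1`, hence `A_k > 0` near `t • bF F` and `A` injective). -/
theorem locLin_of_flag {N : ℕ} (hn : 0 < n) (hN : 0 < N) (hC : n ≤ Fintype.card C)
    (c : (Fin n → ℤ) → C) (S : CS n C) (hS : S.phi = gphi c N) (σ : Finset C)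
    (hσ : σ.card = n) (F : Fin n → Fin n → ℤ) (hF : IsFlag N F)
    (hFσ : univ.image (fun k => c (F k)) = σ) (t : ℝ) (ht : 0 < t) :
    LocLin S σ (t • bF F) := by
  classical
  haveI : Nonempty (Fin n) := ⟨⟨0, hn⟩⟩
  set v : Fin n → (Fin n → ℝ) := fun k => (fun i => (F k i : ℝ)) with hv
  have hli : LinearIndependent ℝ v := flag_linInd hN F hF
  set b : Module.Basis (Fin n) ℝ (Fin n → ℝ) :=
    basisOfLinearIndependentOfCardEqFinrank hli (by simp) with hb
  have hbv : ∀ k, b k = v k := fun k => by
    rw [hb, coe_basisOfLinearIndependentOfCardEqFinrank]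
  have hinj : Function.Injective (fun k => c (F k)) := by
    have h1 : (univ.image (fun k => c (F k))).card = (univ : Finset (Fin n)).card := by
      rw [hFσ, hσ]; simp
    have h2 := Finset.card_image_iff.1 h1
    intro a a' h
    exact h2 (by simp) (by simp) h
  have hmem : ∀ k, c (F k) ∈ σ := fun k => by
    rw [← hFσ]; exact Finset.mem_image_of_mem _ (Finset.mem_univ k)
  have hsurj : ∀ i ∈ σ, ∃ k, c (F k) = i := fun i hi => by
    rw [← hFσ] at hi
    obtain ⟨k, _, hk⟩ := Finset.mem_image.1 hi
    exact ⟨k, hk⟩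
  have hcard : (0 : ℝ) < Fintype.card C := by
    have : 0 < Fintype.card C := lt_of_lt_of_le hn hC
    exact_mod_cast this
  have hdlpos : 0 < dl C := by unfold dl; positivity
  have hnd : (n : ℝ) * dl C < 1 := by
    unfold dl
    have h1 : (n : ℝ) ≤ Fintype.card C := by exact_mod_cast hC
    rw [mul_one_div, div_lt_one (by positivity)]
    linarith
  -- the linear functionals
  set lam : Fin n → ((Fin n → ℝ) →ₗ[ℝ] ℝ) := fun k => b.coord k with hlam
  set Lam : (Fin n → ℝ) →ₗ[ℝ] ℝ := ∑ k, lam k with hLam
  have hLamx : ∀ x, Lam x = ∑ k, lam k x := fun x => by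
    rw [hLam, LinearMap.sum_apply]
  set B : Fin n → ((Fin n → ℝ) →ₗ[ℝ] ℝ) := fun k => lam k - (dl C) • Lam with hB
  have hBx : ∀ k x, B k x = lam k x - dl C * Lam x := fun k x => by
    simp [hB]
  set A : C → ((Fin n → ℝ) →ₗ[ℝ] ℝ) := fun i => ∑ k, if c (F k) = i then B k else 0 with hA
  have hAk : ∀ k, A (c (F k)) = B k := fun k => by
    rw [hA]
    simp only
    rw [Finset.sum_eq_single k]
    · simp
    · intro k' _ hne
      rw [if_neg]
      intro h
      exact hne (hinj h)
    · intro h; exact absurd (Finset.mem_univ _) h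
  have hx_eq : ∀ x : Fin n → ℝ, x = fun j => ∑ k, lam k x * (F k j : ℝ) := by
    intro x
    have h := b.sum_repr x
    funext j
    conv_lhs => rw [← h]
    rw [Finset.sum_apply]
    refine Finset.sum_congr rfl fun k _ => ?_
    rw [Pi.smul_apply, smul_eq_mul, hbv]
    rfl
  -- coordinates of the barycentre
  have hlamp : ∀ k, lam k (t • bF F) = t := by
    intro k
    have hp : t • bF F = ∑ l, t • b l := by
      funext j
      rw [Finset.sum_apply]
      simp only [Pi.smul_apply, smul_eq_mul, bF, Finset.mul_sum, hbv]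
      rfl
    rw [hp, hlam]
    simp only [map_sum, map_smul, Module.Basis.coord_apply, Module.Basis.repr_self, smul_eq_mul]
    rw [Finset.sum_eq_single k]
    · simp
    · intro l _ hl
      simp [hl]
    · intro h; exact absurd (Finset.mem_univ _) h
  have hLamp : Lam (t • bF F) = n * t := by
    rw [hLamx]; simp [hlamp]
  have hBp : ∀ k, 0 < B k (t • bF F) := by
    intro k
    rw [hBx, hlamp, hLamp]
    have : t - dl C * (n * t) = t * (1 - n * dl C) := by ring
    rw [this]
    exact mul_pos ht (by linarith)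
  have hopen : IsOpen {x : Fin n → ℝ | ∀ k, 0 < lam k x ∧ 0 < B k x} := by
    have : {x : Fin n → ℝ | ∀ k, 0 < lam k x ∧ 0 < B k x} =
        ⋂ k, ({x | 0 < lam k x} ∩ {x | 0 < B k x}) := by
      ext x; simp
    rw [this]
    refine isOpen_iInter_of_finite fun k => ?_
    exact (isOpen_lt continuous_const (LinearMap.continuous_of_finiteDimensional _)).inter
      (isOpen_lt continuous_const (LinearMap.continuous_of_finiteDimensional _))
  have hpmem : t • bF F ∈ {x : Fin n → ℝ | ∀ k, 0 < lam k x ∧ 0 < B k x} := by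
    intro k
    exact ⟨by rw [hlamp]; exact ht, hBp k⟩
  obtain ⟨ρ, hρ, hball⟩ := Metric.isOpen_iff.1 hopen _ hpmem
  refine ⟨ρ, hρ, A, ?_, ?_⟩
  · -- injectivity
    intro x hx
    have h1 : ∀ k, lam k x = dl C * Lam x := by
      intro k
      have := hx (c (F k)) (hmem k)
      rw [hAk, hBx] at this
      linarith
    have h2 : Lam x = n * (dl C * Lam x) := by
      conv_lhs => rw [hLamx]
      rw [Finset.sum_congr rfl (fun k _ => h1 k)]
      simp
    have h3 : Lam x * (1 - n * dl C) = 0 := by linarith
    have h4 : Lam x = 0 := by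
      rcases mul_eq_zero.1 h3 with h | h
      · exact h
      · exfalso; linarith
    rw [hx_eq x]
    funext j
    simp [h1, h4]
  · intro x hxρ
    have hxm : x ∈ {x : Fin n → ℝ | ∀ k, 0 < lam k x ∧ 0 < B k x} :=
      hball (by rw [Metric.mem_ball, dist_eq_norm]; exact hxρ)
    have hlpos : ∀ k, 0 < lam k x := fun k => (hxm k).1
    have hBpos : ∀ k, 0 < B k x := fun k => (hxm k).2
    have hLpos : 0 < Lam x := by
      rw [hLamx]
      exact Finset.sum_pos (fun k _ => hlpos k) Finset.univ_nonempty
    have hApos : ∀ i ∈ σ, 0 < A i x := by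
      intro i hi
      obtain ⟨k, rfl⟩ := hsurj i hi
      rw [hAk]; exact hBpos k
    have hsumpos : 0 < ∑ k ∈ σ, A k x := by
      apply Finset.sum_pos hApos
      exact ⟨_, hmem ⟨0, hn⟩⟩
    -- the values of phi0
    have hphi : ∀ i, phi0 c N x i = ∑ k, if c (F k) = i then lam k x / Lam x else 0 := by
      intro i
      have h := phi0_flag hn hN c σ hσ F hF hFσ (fun k => lam k x) (fun k => (hlpos k).le)
        (by rw [← hLamx]; exact hLpos) i
      rw [← hLamx, ← hx_eq x] at h
      exact h
    have hphik : ∀ k, phi0 c N x (c (F k)) = lam k x / Lam x := by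
      intro k
      rw [hphi, Finset.sum_eq_single k]
      · simp
      · intro k' _ hne
        rw [if_neg]
        intro h
        exact hne (hinj h)
      · intro h; exact absurd (Finset.mem_univ _) h
    have hphi0 : ∀ i, i ∉ σ → phi0 c N x i = 0 := by
      intro i hi
      rw [hphi]
      apply Finset.sum_eq_zero
      intro k _
      rw [if_neg]
      rintro rfl
      exact hi (hmem k)
    have hmax : ∀ i ∈ σ, max (phi0 c N x i - dl C) 0 = A i x / Lam x := by
      intro i hi
      obtain ⟨k, rfl⟩ := hsurj i hi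
      rw [hphik, hAk, hBx]
      have h1 : lam k x / Lam x - dl C = (lam k x - dl C * Lam x) / Lam x := by
        field_simp
      rw [h1, max_eq_left]
      rw [← hBx]
      exact (div_pos (hBpos k) hLpos).le
    have hmax0 : ∀ i, i ∉ σ → max (phi0 c N x i - dl C) 0 = 0 := by
      intro i hi
      rw [hphi0 i hi, max_eq_right]
      linarith
    have hden : ∑ k, max (phi0 c N x k - dl C) 0 = (∑ k ∈ σ, A k x) / Lam x := by
      rw [← Finset.sum_subset (Finset.subset_univ σ) (fun i _ hi => hmax0 i hi),
        Finset.sum_congr rfl hmax, Finset.sum_div]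
    refine ⟨hApos, ?_, ?_⟩
    · intro i hi
      rw [hS]
      unfold gphi
      rw [hden, hmax i hi]
      field_simp
    · intro i hi
      rw [hS]
      unfold gphi
      rw [hmax0 i hi, zero_div]

end BK
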