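import Mathlib

/-!
# Discrete mod 2 degree on the cubical complex of `ℤ^m`  (S0069 blueprint, file BK_D0)

Cells of the cubical complex of `ℝ^m` (grid `2ℤ^m`) are the integer points: odd coordinates are open
intervals, even coordinates are points.
-/

set_option autoImplicit false

namespace BK
open Finset

/-- mod 2 chains -/
abbrev Ch (m : ℕ) := (Fin m → ℤ) →₀ ZMod 2

/-- the boundary operator -/
noncomputable def bd {m : ℕ} : Ch m →ₗ[ZMod 2] Ch m :=
  Finsupp.linearCombination (ZMod 2) (fun y : Fin m → ℤ =>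
    ∑ i, if Odd (y i) then
      (Finsupp.single (y + Pi.single i 1) (1 : ZMod 2) + Finsupp.single (y - Pi.single i 1) 1)
      else 0)

/-- multiplication by a 0-cochain (function on all cells) -/
noncomputable def mulS {m : ℕ} (s : (Fin m → ℤ) → ZMod 2) : Ch m →ₗ[ZMod 2] Ch m :=
  Finsupp.linearCombination (ZMod 2) (fun y => Finsupp.single y (s y))

/-- number (mod 2) of vertices -/
noncomputable def eps {m : ℕ} : Ch m →ₗ[ZMod 2] ZMod 2 :=
  Finsupp.linearCombination (ZMod 2) (fun y => if ∀ i, Even (y i) then (1 : ZMod 2) else 0)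

/-- the commutator `[bd, s]` (cap product with `δ s`) -/
noncomputable def cm {m : ℕ} (s : (Fin m → ℤ) → ZMod 2) : Ch m →ₗ[ZMod 2] Ch m :=
  bd ∘ₗ mulS s + mulS s ∘ₗ bd

/-- composition `[bd,s₁] ∘ [bd,s₂] ∘ ...` -/
noncomputable def run {m : ℕ} : List ((Fin m → ℤ) → ZMod 2) → (Ch m →ₗ[ZMod 2] Ch m)
  | [] => LinearMap.id
  | s :: l => cm s ∘ₗ run l

/-- the mod 2 degree of the sign data `s` on the chain `χ` -/
noncomputable def DD {m : ℕ} (s : Fin m → (Fin m → ℤ) → ZMod 2) (χ : Ch m) : ZMod 2 :=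
  eps (run (List.ofFn s) χ)

/-- `x` is a face of the closed cell `y` -/
def IsFace {m : ℕ} (x y : Fin m → ℤ) : Prop := ∀ i, x i = y i ∨ (Odd (y i) ∧ |x i - y i| = 1)

/-- `s` is constant on the closed cell `y` -/
def ConstOn {m : ℕ} (s : (Fin m → ℤ) → ZMod 2) (y : Fin m → ℤ) : Prop :=
  ∀ x, IsFace x y → s x = s y

/-! ### boxes -/

/-- the top cells of the box with centre `c` and half side `2N` -/
noncomputable def boxF {m : ℕ} (c : Fin m → ℤ) (N : ℕ) : Finset (Fin m → ℤ) :=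
  Fintype.piFinset (fun i => (Finset.Ioo (c i - 2 * (N : ℤ)) (c i + 2 * N)).filter (fun t => Odd t))

noncomputable def boxC {m : ℕ} (c : Fin m → ℤ) (N : ℕ) : Ch m :=
  ∑ y ∈ boxF c N, Finsupp.single y 1


/-- sign data of a map on the grid `q + h ℤ^m` -/
noncomputable def sg {m : ℕ} (g : (Fin m → ℝ) → (Fin m → ℝ)) (q : Fin m → ℝ) (h : ℝ)
    (i : Fin m) (x : Fin m → ℤ) : ZMod 2 :=
  if g (q + h • (fun j => (x j : ℝ))) i < 0 then 1 else 0


end BK
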