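import Crest.Agent.BK_M7
import Crest.Agent.BK_C3
import Crest.Agent.BK_C4

set_option autoImplicit false

namespace BK
open Finset Matrix

private theorem nfl_of_gA {C : Type} [Fintype C] [DecidableEq C] (hC : 0 < Fintype.card C)
    (c : (Fin 3 → ℤ) → C) (N : ℕ) (hN : 0 < N) (B : Finset C) (hB : B.card = 3)
    (x : Fin 3 → ℝ) (hx : x ≠ 0) (h : ∀ i ∈ B, dl C ≤ phi0 c N x i) : nfl c N B ≠ 0 := by
  have hdl : 0 < dl C := by
    unfold dl
    have : (0 : ℝ) < (Fintype.card C : ℝ) := by exact_mod_cast hC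
    positivity
  obtain ⟨F, hF, hF2, -, -⟩ := flag_of_colours hN c x hx B hB
    (fun i hi => (lt_of_lt_of_le hdl (h i hi)).ne')
  unfold nfl
  rw [Finset.card_ne_zero]
  exact ⟨F, Finset.mem_filter.2 ⟨(mem_flags F).2 hF, hF2⟩⟩

/-- Task BK-G2: from `ET`; a point in `A i` for all `i ∈ B` gives a flag with colours `B`
(`flag_of_colours`, `dl C > 0`). -/
theorem grid_ET {C : Type} [Fintype C] [DecidableEq C] (hC : Fintype.card C = 6)
    (κ : (Fin 3 → ℝ) → C) (ε : ℝ) (hκ : Kol κ ε) :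
    ∃ N0 : ℕ, ∀ N : ℕ, N0 ≤ N → 0 < N → ∀ B : Finset C, B.card = 3 →
      nfl (gc κ) N B ≠ 0 ∨ nfl (gc κ) N (univ \ B) ≠ 0 := by
  obtain ⟨N0, h0⟩ := exists_grid (n := 3) (by norm_num) (by norm_num) κ ε hκ
  refine ⟨N0, fun N hN hpos B hB => ?_⟩
  obtain ⟨S, -, hA⟩ := h0 N hN
  have hcard : 0 < Fintype.card C := by rw [hC]; norm_num
  rcases ET S hC B hB with ⟨x, hx, h⟩ | ⟨x, hx, h⟩
  · left
    refine nfl_of_gA hcard _ N hpos B hB x hx (fun i hi => ?_)
    have := h i hi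
    rw [hA] at this
    exact this.2
  · right
    refine nfl_of_gA hcard _ N hpos _ ?_ x hx (fun i hi => ?_)
    · rw [Finset.card_sdiff_of_subset (Finset.subset_univ B), Finset.card_univ, hC, hB]
    · have := h i (by simpa using hi)
      rw [hA] at this
      exact this.2

end BK
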