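import Crest.Agent.BK_C0

set_option autoImplicit false

namespace BK
open Finset Matrix

/-- the predicate `K` -/
def KK {m : ℕ} {C : Type} (κ : (Fin m → ℝ) → C) (ε : ℝ) (S : Finset C) : Prop :=
  ∃ z, Wit κ (ε / 2) (fun i => i ∈ S) z

/-- Task BK-G4: isometric parametrisation of `z^⊥` in `ℝ⁴` -/
theorem exists_isom (z : Fin 4 → ℝ) (hz : z ≠ 0) : ∃ ι : (Fin 3 → ℝ) →ₗ[ℝ] (Fin 4 → ℝ),
    (∀ x y, ι x ⬝ᵥ ι y = x ⬝ᵥ y) ∧ ∀ x, z ⬝ᵥ ι x = 0 := by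
  have hdot : ∀ {n : ℕ} (x y : EuclideanSpace ℝ (Fin n)),
      inner ℝ x y = (WithLp.ofLp x) ⬝ᵥ (WithLp.ofLp y) := by
    intro n x y
    rw [EuclideanSpace.inner_eq_star_dotProduct, star_trivial, dotProduct_comm]
  let z' : EuclideanSpace ℝ (Fin 4) := WithLp.toLp 2 z
  have hz' : z' ≠ 0 := by
    intro h
    apply hz
    have : WithLp.ofLp z' = WithLp.ofLp (0 : EuclideanSpace ℝ (Fin 4)) := by rw [h]
    exact this
  haveI : Fact (Module.finrank ℝ (EuclideanSpace ℝ (Fin 4)) = 3 + 1) := ⟨by simp⟩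
  have hfr : Module.finrank ℝ (ℝ ∙ z')ᗮ = 3 :=
    Submodule.finrank_orthogonal_span_singleton hz'
  let b := (stdOrthonormalBasis ℝ (ℝ ∙ z')ᗮ).reindex (finCongr hfr)
  let e := b.repr
  let ι : (Fin 3 → ℝ) →ₗ[ℝ] (Fin 4 → ℝ) :=
    (WithLp.linearEquiv 2 ℝ (Fin 4 → ℝ)).toLinearMap ∘ₗ (ℝ ∙ z')ᗮ.subtype ∘ₗ
      e.symm.toLinearEquiv.toLinearMap ∘ₗ (WithLp.linearEquiv 2 ℝ (Fin 3 → ℝ)).symm.toLinearMap
  have hι : ∀ x, ι x = WithLp.ofLp ((e.symm (WithLp.toLp 2 x) : (ℝ ∙ z')ᗮ) :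
      EuclideanSpace ℝ (Fin 4)) := fun x => rfl
  refine ⟨ι, fun x y => ?_, fun x => ?_⟩
  · rw [hι, hι, ← hdot, ← Submodule.coe_inner, e.symm.inner_map_map, hdot]
  · rw [hι]
    have h1 := Submodule.mem_orthogonal_singleton_iff_inner_right.mp
      (e.symm (WithLp.toLp 2 x)).2
    rw [hdot] at h1
    exact h1

/-- Task BK-G4: three vectors in `ℝ⁴` have a common orthogonal vector, so three witnesses cannot cover
all colours -/
theorem not_three_wit {C : Type} (κ : (Fin 4 → ℝ) → C) (ε : ℝ) (hε : 0 < ε) (p1 p2 p3 : C → Prop)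
    (z1 z2 z3 : Fin 4 → ℝ) (h1 : Wit κ (ε / 2) p1 z1) (h2 : Wit κ (ε / 2) p2 z2)
    (h3 : Wit κ (ε / 2) p3 z3) (hall : ∀ i, p1 i ∨ p2 i ∨ p3 i) : False := by
  have hpos : ∀ v : Fin 4 → ℝ, v ≠ 0 → 0 < v ⬝ᵥ v := by
    intro v hv
    rcases (Finset.sum_nonneg (fun i _ => mul_self_nonneg (v i)) :
      0 ≤ ∑ i, v i * v i).lt_or_eq with h | h
    · exact h
    · exfalso
      apply hv
      exact dotProduct_self_eq_zero.mp h.symm
  let L : (Fin 4 → ℝ) →ₗ[ℝ] (Fin 3 → ℝ) := Matrix.mulVecLin (Matrix.of ![z1, z2, z3])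
  have hker : LinearMap.ker L ≠ ⊥ := LinearMap.ker_ne_bot_of_finrank_lt (by simp)
  obtain ⟨x, hx, hx0⟩ := (Submodule.ne_bot_iff _).mp hker
  have hx' : ∀ i, (L x) i = 0 := fun i => by
    rw [LinearMap.mem_ker.mp hx]; rfl
  have e1 : z1 ⬝ᵥ x = 0 := hx' 0
  have e2 : z2 ⬝ᵥ x = 0 := hx' 1
  have e3 : z3 ⬝ᵥ x = 0 := hx' 2
  have hxx := hpos x hx0
  rcases hall (κ x) with h | h | h
  · have := h1.2 x hx0 h
    rw [e1] at this
    have h' := mul_pos (by linarith : 0 < ε / 2) (mul_pos (hpos z1 h1.1) hxx)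
    nlinarith
  · have := h2.2 x hx0 h
    rw [e2] at this
    have h' := mul_pos (by linarith : 0 < ε / 2) (mul_pos (hpos z2 h2.1) hxx)
    nlinarith
  · have := h3.2 x hx0 h
    rw [e3] at this
    have h' := mul_pos (by linarith : 0 < ε / 2) (mul_pos (hpos z3 h3.1) hxx)
    nlinarith

end BK
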