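import Crest.Agent.BK_G1
import Crest.Agent.BK_G2
import Crest.Agent.BK_C1
import Crest.Agent.BK_G4a

set_option autoImplicit false

namespace BK
open Finset Matrix

private theorem g4b_dot_pos {n : ℕ} (x : Fin n → ℝ) (hx : x ≠ 0) : 0 < x ⬝ᵥ x := by
  have h0 : 0 ≤ x ⬝ᵥ x := by
    simp only [dotProduct]
    exact Finset.sum_nonneg fun i _ => mul_self_nonneg _
  rcases lt_or_eq_of_le h0 with h | h
  · exact h
  · exact absurd (dotProduct_self_eq_zero.1 h.symm) hx

private theorem g4b_bdry_ne {n N : ℕ} (hN : 0 < N) (v : Fin n → ℤ) (hv : v ∈ bdry n N) :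
    (fun i => (v i : ℝ)) ≠ 0 := by
  intro h
  simp only [bdry, mem_filter] at hv
  obtain ⟨i, hi⟩ := hv.2
  have := congrFun h i
  simp only [Pi.zero_apply, Int.cast_eq_zero] at this
  rw [this] at hi
  simp at hi
  omega

/-- Task BK-G4: transfer to `z^⊥`. `σ` (4 colours) has the witness `z`; the colouring `κ ∘ ι` of `ℝ³`
takes its values in the complement of `σ` (6 colours, as a subtype). `nf B` = number of flags of
a fine grid of `ℝ³` with colour set `B`. Use `grid_MT`, `grid_ET`, `grid_parity` for `n = 3` and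
`flag_wit` for `ι`. -/
theorem link_data (κ : (Fin 4 → ℝ) → Fin 10) (ε : ℝ) (hκ : Kol κ ε) (σ : Finset (Fin 10))
    (hσ : σ.card = 4) (hK : KK κ ε σ) :
    ∃ nf : Finset (Fin 10) → ℕ,
      (∀ B, B ⊆ univ \ σ → B.card = 3 → nf B ≠ 0 → nf B % 4 = 2) ∧
      (∀ B, B ⊆ univ \ σ → B.card = 3 → nf B ≠ 0 → KK κ ε B) ∧
      (∀ B, B ⊆ univ \ σ → B.card = 3 → nf B ≠ 0 ∨ nf ((univ \ σ) \ B) ≠ 0) ∧
      (∀ P, P ⊆ univ \ σ → P.card = 2 → 4 ∣ ∑ l ∈ (univ \ σ) \ P, nf (insert l P)) := by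
  classical
  obtain ⟨z, hz, hw⟩ := hK
  obtain ⟨ι, hι, hzι⟩ := exists_isom z hz
  have hε := hκ.pos
  have hιne : ∀ x : Fin 3 → ℝ, x ≠ 0 → ι x ≠ 0 := by
    intro x hx h
    have h1 := hι x x
    rw [h, zero_dotProduct] at h1
    exact hx (dotProduct_self_eq_zero.1 h1.symm)
  have hns : ∀ x : Fin 3 → ℝ, x ≠ 0 → κ (ι x) ∈ (univ \ σ : Finset (Fin 10)) := by
    intro x hx
    simp only [mem_sdiff, mem_univ, true_and]
    intro hmem
    have h1 := hw (ι x) (hιne x hx) hmem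
    rw [hzι x] at h1
    have h2 := g4b_dot_pos z hz
    have h3 := g4b_dot_pos (ι x) (hιne x hx)
    have h4 : 0 < ε / 2 * (z ⬝ᵥ z * (ι x ⬝ᵥ ι x)) := by positivity
    nlinarith
  have hcard : (univ \ σ : Finset (Fin 10)).card = 6 := by
    rw [Finset.card_sdiff_of_subset (subset_univ _), hσ]; rfl
  obtain ⟨c0, hc0⟩ : (univ \ σ : Finset (Fin 10)).Nonempty := by
    rw [← Finset.card_pos]; omega
  set τ : Finset (Fin 10) := univ \ σ with hτ
  let C' := {i : Fin 10 // i ∈ τ}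
  let κ' : (Fin 3 → ℝ) → C' := fun x =>
    if h : x ≠ 0 then ⟨κ (ι x), hns x h⟩ else ⟨c0, hc0⟩
  have hκ'v : ∀ x : Fin 3 → ℝ, x ≠ 0 → ((κ' x : C') : Fin 10) = κ (ι x) := by
    intro x hx
    simp only [κ', dif_pos hx]
  have hKol : Kol κ' ε := by
    refine ⟨hε, ?_, ?_⟩
    · intro x hx t ht
      apply Subtype.ext
      rw [hκ'v x hx, hκ'v (t • x) (smul_ne_zero ht hx), map_smul]
      exact hκ.homog _ (hιne x hx) t ht
    · intro x y hx hy hxy
      have h1 : κ (ι x) = κ (ι y) := by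
        rw [← hκ'v x hx, ← hκ'v y hy, hxy]
      have h2 := hκ.ang _ _ (hιne x hx) (hιne y hy) h1
      rwa [hι, hι, hι] at h2
  have hC6 : Fintype.card C' = 6 := by
    rw [Fintype.card_coe, hcard]
  obtain ⟨N1, h1⟩ := grid_MT (n := 3) (by norm_num) (by norm_num) (by rw [hC6]) κ' ε hKol
  obtain ⟨N2, h2⟩ := grid_ET hC6 κ' ε hKol
  obtain ⟨N3, h3⟩ := flag_wit ε hε
  set N := max (max N1 N2) (max N3 1) with hN
  have hN1 : N1 ≤ N := le_trans (le_max_left _ _) (le_max_left _ _)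
  have hN2 : N2 ≤ N := le_trans (le_max_right _ _) (le_max_left _ _)
  have hN3 : N3 ≤ N := le_trans (le_max_left _ _) (le_max_right _ _)
  have hN0 : 0 < N := lt_of_lt_of_le Nat.one_pos (le_trans (le_max_right _ _) (le_max_right _ _))
  have hms : ∀ (B : Finset (Fin 10)) (i : C'), i ∈ (B.subtype (· ∈ τ) : Finset C') ↔ (i : Fin 10) ∈ B :=
    fun B i => Finset.mem_subtype
  have hsubcard : ∀ B : Finset (Fin 10), B ⊆ τ → (B.subtype (· ∈ τ)).card = B.card := by
    intro B hB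
    rw [Finset.card_subtype]
    congr 1
    exact Finset.filter_true_of_mem (fun x hx => hB hx)
  refine ⟨fun B => nfl (gc κ') N (B.subtype (· ∈ τ)), ?_, ?_, ?_, ?_⟩
  · intro B hB hB3 hne
    exact h1 N hN1 hN0 _ (by rw [hsubcard B hB, hB3]) hne
  · intro B hB hB3 hne
    simp only [nfl, ne_eq, Finset.card_eq_zero] at hne
    obtain ⟨F, hF⟩ := Finset.nonempty_iff_ne_empty.2 hne
    rw [mem_filter, mem_flags] at hF
    obtain ⟨hF1, hF2⟩ := hF
    have h4 := h3 N hN3 3 4 (by norm_num) (by norm_num) (Fin 10) ι hι κ hκ F hF1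
    refine ⟨_, h4.1, ?_⟩
    intro x hx hxB
    apply h4.2 x hx
    have hxτ : κ x ∈ τ := hB hxB
    have h5 : (⟨κ x, hxτ⟩ : C') ∈ B.subtype (· ∈ τ) := by
      rw [Finset.mem_subtype]; exact hxB
    rw [← hF2, mem_image] at h5
    obtain ⟨k, -, hk⟩ := h5
    refine ⟨k, ?_⟩
    have h6 := congrArg (fun c : C' => (c : Fin 10)) hk
    simp only [gc] at h6
    rw [hκ'v _ (g4b_bdry_ne hN0 _ (hF1.1 k))] at h6
    exact h6
  · intro B hB hB3
    have h4 := h2 N hN2 hN0 (B.subtype (· ∈ τ)) (by rw [hsubcard B hB, hB3])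
    have h5 : (univ \ (B.subtype (· ∈ τ)) : Finset C') = ((τ \ B).subtype (· ∈ τ)) := by
      ext i
      have hi : (i : Fin 10) ∈ τ := i.2
      rw [mem_sdiff, hms, hms, mem_sdiff]
      simp [hi]
    rw [h5] at h4
    exact h4
  · intro P hP hP2
    have h4 := grid_parity (n := 3) (by norm_num) κ' ε hKol N hN0 (P.subtype (· ∈ τ))
      (by rw [hsubcard P hP, hP2])
    have h5 : ∑ l ∈ τ \ P, nfl (gc κ') N ((insert l P).subtype (· ∈ τ)) =
        ∑ l ∈ univ \ (P.subtype (· ∈ τ)), nfl (gc κ') N (insert l (P.subtype (· ∈ τ))) := by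
      symm
      refine Finset.sum_bij (fun (l : C') _ => (l : Fin 10)) ?_ ?_ ?_ ?_
      · intro l hl
        rw [mem_sdiff, hms] at hl
        rw [mem_sdiff]
        exact ⟨l.2, hl.2⟩
      · intro a _ b _ hab
        exact Subtype.ext hab
      · intro b hb
        rw [mem_sdiff] at hb
        refine ⟨⟨b, hb.1⟩, ?_, rfl⟩
        rw [mem_sdiff, hms]
        exact ⟨mem_univ _, hb.2⟩
      · intro l _
        congr 1
        ext i
        rw [hms, Finset.mem_insert, Finset.mem_insert, hms]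
        exact or_congr Subtype.ext_iff Iff.rfl
    rw [h5]
    exact h4

end BK
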