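import Crest.Agent.BK_G3
import Crest.Agent.BK_G4
import Crest.Agent.BK_B5

set_option autoImplicit false

namespace BK
open Finset Matrix

private theorem F1_wit_mono {C : Type} {κ : (Fin 4 → ℝ) → C} {ε : ℝ} {p q : C → Prop}
    {z : Fin 4 → ℝ} (h : Wit κ ε p z) (hpq : ∀ i, q i → p i) : Wit κ ε q z :=
  ⟨h.1, fun x hx hq => h.2 x hx (hpq _ hq)⟩

private theorem F1_even {T : Finset (Fin 10)} (f : Fin 10 → ℕ) (p : Fin 10 → Prop)
    [DecidablePred p] (h0 : ∀ l ∈ T, ¬ p l → f l = 0) (h2 : ∀ l ∈ T, p l → f l % 4 = 2)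
    (h4 : 4 ∣ ∑ l ∈ T, f l) : Even (T.filter p).card := by
  have e1 : ∑ l ∈ T, f l = ∑ l ∈ T.filter p, f l := by
    rw [Finset.sum_filter]
    refine Finset.sum_congr rfl fun l hl => ?_
    by_cases hp : p l
    · rw [if_pos hp]
    · rw [if_neg hp, h0 l hl hp]
  have e2 : (∑ l ∈ T.filter p, f l) % 4 = (2 * (T.filter p).card) % 4 := by
    rw [Finset.sum_nat_mod, Finset.sum_congr rfl (g := fun _ => 2)
      (fun l hl => h2 l (Finset.mem_filter.mp hl).1 (Finset.mem_filter.mp hl).2)]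
    simp [mul_comm]
  rw [e1] at h4
  obtain ⟨c, hc⟩ := h4
  rw [hc] at e2
  rw [Nat.even_iff]
  omega

/-- Task BK-F1: the combinatorial facts hold for `Q σ := σ.card = 4 ∧ nfl (gc κ) N σ ≠ 0` (`N` large)
and `K := KK κ ε`. `a2`: `grid_parity` + `grid_MT`; `qk`: `flag_wit` with `ι = id`; `a4`, `a5`:
`link_data`, `not_three_wit`; `a6`: `grid_LS`. -/
theorem facts_of_Kol (κ : (Fin 4 → ℝ) → Fin 10) (ε : ℝ) (hκ : Kol κ ε) :
    ∃ Q K : Finset (Fin 10) → Prop, Facts Q K := by
  obtain ⟨N1, hN1⟩ := grid_MT (n := 4) (C := Fin 10) (by norm_num) le_rfl (by simp) κ ε hκ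
  obtain ⟨N2, hN2⟩ := flag_wit ε hκ.pos
  obtain ⟨N3, hN3⟩ := grid_LS κ ε hκ
  obtain ⟨N, h1, h2, h3, h0⟩ : ∃ N, N1 ≤ N ∧ N2 ≤ N ∧ N3 ≤ N ∧ 0 < N :=
    ⟨N1 + N2 + N3 + 1, by omega, by omega, by omega, by omega⟩
  have hqk : ∀ s : Finset (Fin 10), (s.card = 4 ∧ nfl (gc κ) N s ≠ 0) → KK κ ε s := by
    intro s hs
    have hne : ((flags 4 N).filter (fun F => univ.image (fun k => gc κ (F k)) = s)).Nonempty := by
      rw [← Finset.card_pos]
      exact Nat.pos_of_ne_zero hs.2
    obtain ⟨F, hF⟩ := hne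
    rw [Finset.mem_filter] at hF
    have hflag : IsFlag N F := (mem_flags F).mp hF.1
    have hw := hN2 N h2 4 4 (by norm_num) le_rfl (Fin 10) LinearMap.id (fun x y => rfl) κ hκ F
      hflag
    refine ⟨_, F1_wit_mono hw ?_⟩
    intro i hi
    rw [← hF.2, Finset.mem_image] at hi
    obtain ⟨k, _, hk⟩ := hi
    exact ⟨k, hk⟩
  have hthree : ∀ s B : Finset (Fin 10), KK κ ε s → KK κ ε B → KK κ ε (univ \ (s ∪ B)) → False := by
    rintro s B ⟨z1, w1⟩ ⟨z2, w2⟩ ⟨z3, w3⟩
    refine not_three_wit κ ε hκ.pos _ _ _ z1 z2 z3 w1 w2 w3 fun i => ?_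
    by_cases a : i ∈ s
    · exact Or.inl a
    · by_cases b : i ∈ B
      · exact Or.inr (Or.inl b)
      · refine Or.inr (Or.inr ?_)
        simp [a, b]
  have hmono : ∀ S S' : Finset (Fin 10), S ⊆ S' → KK κ ε S' → KK κ ε S := by
    rintro S S' hSS ⟨z, hz⟩
    exact ⟨z, F1_wit_mono hz fun i hi => hSS hi⟩
  have hlink : ∀ s : Finset (Fin 10), (s.card = 4 ∧ nfl (gc κ) N s ≠ 0) →
      ∃ nf : Finset (Fin 10) → ℕ,
      (∀ B, B ⊆ univ \ s → B.card = 3 → nf B ≠ 0 → nf B % 4 = 2) ∧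
      (∀ B, B ⊆ univ \ s → B.card = 3 → (nf B ≠ 0 ↔ KK κ ε B)) ∧
      (∀ B, B ⊆ univ \ s → B.card = 3 → nf B ≠ 0 ∨ nf ((univ \ s) \ B) ≠ 0) ∧
      (∀ P, P ⊆ univ \ s → P.card = 2 → 4 ∣ ∑ l ∈ (univ \ s) \ P, nf (insert l P)) := by
    intro s hs
    obtain ⟨nf, a, b, c, d⟩ := link_data κ ε hκ s hs.1 (hqk s hs)
    refine ⟨nf, a, fun B hB hBc => ⟨b B hB hBc, fun hK => ?_⟩, c, d⟩
    intro hnf
    rcases c B hB hBc with h | h
    · exact h hnf
    · have hsub : (univ \ s) \ B ⊆ univ \ s := Finset.sdiff_subset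
      have hcard : ((univ \ s) \ B).card = 3 := by
        rw [Finset.card_sdiff_of_subset hB, Finset.card_sdiff_of_subset (Finset.subset_univ _),
          hBc, hs.1]
        rfl
      have hK' := b _ hsub hcard h
      have hK'' : KK κ ε (univ \ (s ∪ B)) := by
        have e : univ \ (s ∪ B) = (univ \ s) \ B := by
          ext i; simp
        rw [e]; exact hK'
      exact hthree s B (hqk s hs) hK hK''
  have hsubP : ∀ s P : Finset (Fin 10), Disjoint s P → P ⊆ univ \ s := by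
    intro s P hd i hi
    simp only [Finset.mem_sdiff, Finset.mem_univ, true_and]
    exact fun h => (Finset.disjoint_left.mp hd h) hi
  refine ⟨fun σ => σ.card = 4 ∧ nfl (gc κ) N σ ≠ 0, KK κ ε, ?_⟩
  refine ⟨fun s hs => hs.1, ?_, hmono, hqk, ?_, ?_, ?_, ?_⟩
  · -- a2
    intro A hA
    classical
    refine ⟨(univ \ A).filter (fun l => (insert l A).card = 4 ∧ nfl (gc κ) N (insert l A) ≠ 0),
      fun l => by simp, ?_⟩
    refine F1_even (fun l => nfl (gc κ) N (insert l A)) _ ?_ ?_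
      (grid_parity (by norm_num) κ ε hκ N h0 A (by omega))
    · intro l hl hp
      have hl' : l ∉ A := by simpa using hl
      have hc : (insert l A).card = 4 := by rw [Finset.card_insert_of_notMem hl', hA]
      by_contra hne
      exact hp ⟨hc, hne⟩
    · intro l hl hp
      exact hN1 N h1 h0 (insert l A) hp.1 hp.2
  · -- sing
    intro i
    by_cases hx : ∃ x, x ≠ 0 ∧ κ x = i
    · obtain ⟨x, hx0, hxi⟩ := hx
      refine ⟨x, hx0, fun y hy hyi => ?_⟩
      have hyi' : κ y = i := by simpa using hyi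
      have := hκ.ang x y hx0 hy (by rw [hxi, hyi'])
      have hnn : 0 ≤ (x ⬝ᵥ x) * (y ⬝ᵥ y) :=
        mul_nonneg (Finset.sum_nonneg fun i _ => mul_self_nonneg (x i))
          (Finset.sum_nonneg fun i _ => mul_self_nonneg (y i))
      have hε := hκ.pos
      nlinarith
    · refine ⟨fun _ => 1, ?_, fun y hy hyi => ?_⟩
      · intro h
        have := congrFun h 0
        norm_num at this
      · exact absurd ⟨y, hy, by simpa using hyi⟩ hx
  · -- a4
    intro s B hs hd hB
    obtain ⟨nf, a, b, c, d⟩ := hlink s hs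
    constructor
    · intro hK hK'
      exact hthree s B (hqk s hs) hK hK'
    · intro hn
      have hBs := hsubP s B hd
      rcases c B hBs hB with h | h
      · exact (b B hBs hB).mp h
      · exfalso
        apply hn
        have hsub : (univ \ s) \ B ⊆ univ \ s := Finset.sdiff_subset
        have hcard : ((univ \ s) \ B).card = 3 := by
          rw [Finset.card_sdiff_of_subset hBs, Finset.card_sdiff_of_subset (Finset.subset_univ _),
            hB, hs.1]
          rfl
        have hK' := (b _ hsub hcard).mp h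
        have e : univ \ (s ∪ B) = (univ \ s) \ B := by
          ext i; simp
        rw [e]; exact hK'
  · -- a5
    intro s P hs hd hP
    classical
    obtain ⟨nf, a, b, c, d⟩ := hlink s hs
    have hPs := hsubP s P hd
    have hins : ∀ l, l ∈ (univ \ s) \ P → insert l P ⊆ univ \ s ∧ (insert l P).card = 3 := by
      intro l hl
      simp only [Finset.mem_sdiff, Finset.mem_univ, true_and] at hl
      refine ⟨?_, by rw [Finset.card_insert_of_notMem hl.2, hP]⟩
      intro i hi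
      rcases Finset.mem_insert.mp hi with h | h
      · rw [h]; simpa using hl.1
      · exact hPs h
    refine ⟨((univ \ s) \ P).filter (fun l => KK κ ε (insert l P)), fun l => ?_, ?_⟩
    · simp [and_assoc]
    · refine F1_even (fun l => nf (insert l P)) _ ?_ ?_ (d P hPs hP)
      · intro l hl hp
        by_contra hne
        exact hp ((b _ (hins l hl).1 (hins l hl).2).mp hne)
      · intro l hl hp
        exact a _ (hins l hl).1 (hins l hl).2 ((b _ (hins l hl).1 (hins l hl).2).mpr hp)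
  · -- a6
    intro b hb
    obtain ⟨s, hs, hn, hinj⟩ := hN3 N h3 h0 b (fun j => by
      obtain ⟨z, hz⟩ := hb j
      exact ⟨z, F1_wit_mono hz fun i hi => by simpa using hi⟩)
    exact ⟨s, ⟨hs, hn⟩, hinj⟩

theorem no_Kol (κ : (Fin 4 → ℝ) → Fin 10) (ε : ℝ) (hκ : Kol κ ε) : False := by
  obtain ⟨Q, K, h⟩ := facts_of_Kol κ ε hκ
  exact facts_false h

end BK
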