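import Crest.Agent.BK_P5

set_option autoImplicit false

namespace BK
open Finset

private theorem p6_trans {n : ℕ} {u v w : Fin n → ℤ} (h1 : cle u v) (h2 : cle v w) : cle u w := by
  intro i
  rcases h1 i with a | ⟨a, b⟩
  · rw [a]; exact h2 i
  · rcases h2 i with c | ⟨c, d⟩
    · rw [← c]; exact Or.inr ⟨a, b⟩
    · exfalso
      rw [abs_eq (by norm_num)] at d
      rcases a with ⟨x, hx⟩
      rcases c with ⟨y, hy⟩
      omega

private theorem p6_refl {n : ℕ} {u v : Fin n → ℤ} (h : cle u v) : cle (v + v - u) v := by
  intro i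
  rcases h i with a | ⟨a, b⟩
  · left; simp [a]
  · right
    refine ⟨a, ?_⟩
    rw [← b, ← abs_neg (u i - v i)]
    congr 1
    simp only [Pi.sub_apply, Pi.add_apply]
    ring

private theorem p6_rnk {n : ℕ} (u v : Fin n → ℤ) : rnk (v + v - u) = rnk u := by
  classical
  unfold rnk
  congr 1
  refine Finset.filter_congr (fun i _ => ?_)
  simp only [Pi.sub_apply, Pi.add_apply]
  constructor
  · rintro ⟨x, hx⟩; exact ⟨v i - x - 1, by omega⟩
  · rintro ⟨x, hx⟩; exact ⟨v i - x - 1, by omega⟩

private theorem p6_bdry {n N : ℕ} {u v : Fin n → ℤ} (h : cle u v) (hv : v ∈ bdry n N) :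
    v + v - u ∈ bdry n N := by
  simp only [bdry, Finset.mem_filter, Fintype.mem_piFinset, Finset.mem_Icc] at hv ⊢
  refine ⟨fun i => ?_, ?_⟩
  · have h1 := hv.1 i
    simp only [Pi.sub_apply, Pi.add_apply]
    rcases h i with a | ⟨⟨x, hx⟩, b⟩
    · omega
    · rw [abs_eq (by norm_num)] at b
      omega
  · obtain ⟨i, hi⟩ := hv.2
    refine ⟨i, ?_⟩
    have hev : ¬ Odd (v i) := by
      rintro ⟨x, hx⟩
      rcases abs_cases (v i) with ⟨h, _⟩ | ⟨h, _⟩ <;> omega
    have huv : u i = v i := by
      rcases h i with h | ⟨h, _⟩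
      · exact h
      · exact absurd h hev
    have : (v + v - u) i = v i := by simp [huv]
    rw [this]; exact hi

/-- Task BK-P6: bottom flip `F₀ ↦ 2F₁ - F₀`. -/
theorem flip_bot {n N : ℕ} (hn : 2 ≤ n) (hN : 0 < N) : HasFlip n N ⟨0, by omega⟩ := by
  classical
  set k : Fin n := ⟨0, by omega⟩ with hk
  set b : Fin n := ⟨1, by omega⟩ with hb
  have hkb : k < b := by rw [Fin.lt_def]; simp only [hk, hb]; omega
  refine ⟨fun F => Function.update F k (F b + F b - F k), ?_⟩
  intro F hF
  obtain ⟨hF1, hF2, hF3⟩ := hF
  have c1 := hF3 k b hkb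
  refine ⟨⟨fun j => ?_, fun j => ?_, fun i j hij => ?_⟩, ?_, ?_, ?_, ?_⟩
  · rcases eq_or_ne j k with rfl | hj
    · simp only [Function.update_self]
      exact p6_bdry c1 (hF1 _)
    · simp only [Function.update_of_ne hj]; exact hF1 j
  · rcases eq_or_ne j k with rfl | hj
    · simp only [Function.update_self]; rw [p6_rnk]; exact hF2 _
    · simp only [Function.update_of_ne hj]; exact hF2 j
  · have hj : j ≠ k := by
      rintro rfl
      have h1 : (i : ℕ) < ((k : Fin n) : ℕ) := hij
      simp only [hk] at h1
      omega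
    rcases eq_or_ne i k with rfl | hi
    · simp only [Function.update_self, Function.update_of_ne hj]
      rcases eq_or_ne j b with rfl | hjb
      · exact p6_refl c1
      · have : b < j := by
          rw [Fin.lt_def]
          have h1 : ((k : Fin n) : ℕ) < j := hij
          have h2 : (j : ℕ) ≠ (b : ℕ) := fun h => hjb (Fin.ext h)
          simp only [hb, hk] at h1 h2 ⊢
          omega
        exact p6_trans (p6_refl c1) (hF3 b j this)
    · simp only [Function.update_of_ne hi, Function.update_of_ne hj]
      exact hF3 i j hij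
  · intro h
    have h1 : F b + F b - F k = F k := by
      have := congrFun h k
      simpa using this
    have h2 : F b = F k := by
      funext i
      have h3 := congrFun h1 i
      simp only [Pi.sub_apply, Pi.add_apply] at h3
      omega
    have h4 := hF2 b
    have e1 : ((b : Fin n) : ℕ) = 1 := rfl
    have e2 : ((k : Fin n) : ℕ) = 0 := rfl
    rw [h2, hF2 k] at h4
    omega
  · intro j hj
    simp only [Function.update_of_ne hj]
  · simp only [Function.update_of_ne hkb.ne', Function.update_self]
    rw [Function.update_idem]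
    have : F b + F b - (F b + F b - F k) = F k := by abel
    rw [this, Function.update_eq_self]
  · funext j
    rcases eq_or_ne j k with rfl | hj
    · simp only [Function.update_self, Pi.neg_apply]; abel
    · simp only [Function.update_of_ne hj, Pi.neg_apply]

end BK
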