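import Crest.Agent.BK_P5

set_option autoImplicit false

namespace BK
open Finset

private theorem p7_trans {n : ℕ} {u v w : Fin n → ℤ} (h1 : cle u v) (h2 : cle v w) : cle u w := by
  intro i
  rcases h1 i with a | ⟨a, b⟩
  · rw [a]; exact h2 i
  · rcases h2 i with c | ⟨c, d⟩
    · rw [← c]; exact Or.inr ⟨a, b⟩
    · exfalso
      rw [abs_eq (by norm_num)] at d
      rcases a with ⟨x, hx⟩
      rcases c with ⟨y, hy⟩
      omega

private theorem p7_dich {n : ℕ} {u v w : Fin n → ℤ} (h1 : cle u v) (h2 : cle v w) (i : Fin n) :
    u i = v i ∨ v i = w i := by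
  rcases h1 i with a | ⟨a, b⟩
  · exact Or.inl a
  · rcases h2 i with c | ⟨c, d⟩
    · exact Or.inr c
    · exfalso
      rw [abs_eq (by norm_num)] at d
      rcases a with ⟨x, hx⟩
      rcases c with ⟨y, hy⟩
      omega

private theorem p7_rnk {n : ℕ} {u v w : Fin n → ℤ} (h1 : cle u v) (h2 : cle v w) :
    rnk (u + w - v) + rnk v = rnk u + rnk w := by
  classical
  simp only [rnk, Finset.card_filter]
  rw [← Finset.sum_add_distrib, ← Finset.sum_add_distrib]
  refine Finset.sum_congr rfl (fun i _ => ?_)
  rcases p7_dich h1 h2 i with h | h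
  · have : (u + w - v) i = w i := by simp [h]
    rw [this, h, add_comm]
  · have : (u + w - v) i = u i := by simp [h]
    rw [this, h]

private theorem p7_new {n N : ℕ} {u v w : Fin n → ℤ} (h1 : cle u v) (h2 : cle v w)
    (hu : u ∈ bdry n N) (hw : w ∈ bdry n N) : u + w - v ∈ bdry n N := by
  simp only [bdry, Finset.mem_filter, Fintype.mem_piFinset, Finset.mem_Icc] at hu hw ⊢
  refine ⟨fun i => ?_, ?_⟩
  · rcases p7_dich h1 h2 i with h | h
    · have : (u + w - v) i = w i := by simp [h]
      rw [this]; exact hw.1 i
    · have : (u + w - v) i = u i := by simp [h]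
      rw [this]; exact hu.1 i
  · obtain ⟨i, hi⟩ := hw.2
    refine ⟨i, ?_⟩
    have hev : ¬ Odd (w i) := by
      rintro ⟨x, hx⟩
      rcases abs_cases (w i) with ⟨h, _⟩ | ⟨h, _⟩ <;> omega
    have hvw : v i = w i := by
      rcases h2 i with h | ⟨h, _⟩
      · exact h
      · exact absurd h hev
    have huv : u i = v i := by
      rcases h1 i with h | ⟨h, _⟩
      · exact h
      · rw [hvw] at h; exact absurd h hev
    have : (u + w - v) i = w i := by simp [huv]
    rw [this]; exact hi

/-- Task BK-P7: middle flip `F_k ↦ F_{k-1} + F_{k+1} - F_k`. -/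
theorem flip_mid {n N : ℕ} (hn : 2 ≤ n) (hN : 0 < N) (k : Fin n) (hk0 : 0 < (k : ℕ))
    (hk1 : (k : ℕ) + 1 < n) : HasFlip n N k := by
  classical
  have hkn := k.2
  set a : Fin n := ⟨(k : ℕ) - 1, by omega⟩ with ha
  set b : Fin n := ⟨(k : ℕ) + 1, hk1⟩ with hb
  have hak : a < k := by rw [Fin.lt_def]; simp only [ha]; omega
  have hkb : k < b := by rw [Fin.lt_def]; simp only [hb]; omega
  have hab : a < b := hak.trans hkb
  refine ⟨fun F => Function.update F k (F a + F b - F k), ?_⟩
  intro F hF
  obtain ⟨hF1, hF2, hF3⟩ := hF
  have c1 := hF3 a k hak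
  have c2 := hF3 k b hkb
  have c3 := hF3 a b hab
  have hrk : rnk (F a + F b - F k) = (k : ℕ) := by
    have h := p7_rnk c1 c2
    rw [hF2, hF2, hF2] at h
    have e1 : ((a : Fin n) : ℕ) = (k : ℕ) - 1 := rfl
    have e2 : ((b : Fin n) : ℕ) = (k : ℕ) + 1 := rfl
    omega
  have hle1 : cle (F a) (F a + F b - F k) := by
    intro i
    rcases p7_dich c1 c2 i with h | h
    · have : (F a + F b - F k) i = F b i := by simp [h]
      rw [this]; exact c3 i
    · have : (F a + F b - F k) i = F a i := by simp [h]
      rw [this]; exact Or.inl rfl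
  have hle2 : cle (F a + F b - F k) (F b) := by
    intro i
    rcases p7_dich c1 c2 i with h | h
    · have : (F a + F b - F k) i = F b i := by simp [h]
      rw [this]; exact Or.inl rfl
    · have : (F a + F b - F k) i = F a i := by simp [h]
      rw [this]; exact c3 i
  refine ⟨⟨fun j => ?_, fun j => ?_, fun i j hij => ?_⟩, ?_, ?_, ?_, ?_⟩
  · rcases eq_or_ne j k with rfl | hj
    · simp only [Function.update_self]
      exact p7_new c1 c2 (hF1 _) (hF1 _)
    · simp only [Function.update_of_ne hj]; exact hF1 j
  · rcases eq_or_ne j k with rfl | hj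
    · simp only [Function.update_self]; exact hrk
    · simp only [Function.update_of_ne hj]; exact hF2 j
  · rcases eq_or_ne i k with rfl | hi
    · have hj : j ≠ i := hij.ne'
      simp only [Function.update_self, Function.update_of_ne hj]
      rcases eq_or_ne j b with rfl | hjb
      · exact hle2
      · have : b < j := by
          rw [Fin.lt_def]
          have h1 : (i : ℕ) < j := hij
          have h2 : (j : ℕ) ≠ (b : ℕ) := fun h => hjb (Fin.ext h)
          simp only [hb] at h2 ⊢
          omega
        exact p7_trans hle2 (hF3 b j this)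
    · rcases eq_or_ne j k with rfl | hj
      · simp only [Function.update_self, Function.update_of_ne hi]
        rcases eq_or_ne i a with rfl | hia
        · exact hle1
        · have : i < a := by
            rw [Fin.lt_def]
            have h1 : (i : ℕ) < j := hij
            have h2 : (i : ℕ) ≠ (a : ℕ) := fun h => hia (Fin.ext h)
            simp only [ha] at h2 ⊢
            omega
          exact p7_trans (hF3 i a this) hle1
      · simp only [Function.update_of_ne hi, Function.update_of_ne hj]
        exact hF3 i j hij
  · intro h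
    have h1 : F a + F b - F k = F k := by
      have := congrFun h k
      simpa using this
    have h2 : F a = F k := by
      funext i
      have h3 := congrFun h1 i
      simp only [Pi.sub_apply, Pi.add_apply] at h3
      rcases p7_dich c1 c2 i with h | h
      · exact h
      · rw [h] at h3 ⊢; omega
    have h4 := hF2 a
    rw [h2, hF2 k] at h4
    simp only [ha] at h4
    omega
  · intro j hj
    simp only [Function.update_of_ne hj]
  · simp only [Function.update_of_ne hak.ne, Function.update_of_ne hkb.ne', Function.update_self]
    rw [Function.update_idem]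
    have : F a + F b - (F a + F b - F k) = F k := by abel
    rw [this, Function.update_eq_self]
  · funext j
    rcases eq_or_ne j k with rfl | hj
    · simp only [Function.update_self, Pi.neg_apply]; abel
    · simp only [Function.update_of_ne hj, Pi.neg_apply]

end BK
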