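import Crest.Agent.BK_P5

set_option autoImplicit false

namespace BK
open Finset

private theorem p8_trans {n : ℕ} {u v w : Fin n → ℤ} (h1 : cle u v) (h2 : cle v w) : cle u w := by
  intro i
  rcases h1 i with a | ⟨a, b⟩
  · rw [a]; exact h2 i
  · rcases h2 i with c | ⟨c, d⟩
    · rw [← c]; exact Or.inr ⟨a, b⟩
    · exfalso
      rw [abs_eq (by norm_num)] at d
      rcases a with ⟨x, hx⟩
      rcases c with ⟨y, hy⟩
      omega

open Classical in
/-- the new top cell -/
private noncomputable def p8_top {n : ℕ} (N : ℕ) (u w : Fin n → ℤ) : Fin n → ℤ :=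
  if ∀ i, Odd (w i) → ¬ Odd (u i) → |u i| < 2 * (N : ℤ) then u + u - w
  else fun i => if Odd (w i) then u i else u i - (u i).sign

private theorem p8_neg {n : ℕ} (N : ℕ) (u w : Fin n → ℤ) :
    p8_top N (-u) (-w) = - p8_top N u w := by
  classical
  have hodd : ∀ x : ℤ, Odd (-x) ↔ Odd x := fun x => by
    constructor
    · rintro ⟨y, hy⟩; exact ⟨-y - 1, by omega⟩
    · rintro ⟨y, hy⟩; exact ⟨-y - 1, by omega⟩
  unfold p8_top
  simp only [Pi.neg_apply, hodd, abs_neg]
  by_cases h : ∀ i, Odd (w i) → ¬ Odd (u i) → |u i| < 2 * (N : ℤ)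
  · rw [if_pos h, if_pos h]; abel
  · rw [if_neg h, if_neg h]
    funext i
    simp only [Pi.neg_apply]
    by_cases hw : Odd (w i)
    · rw [if_pos hw, if_pos hw]
    · rw [if_neg hw, if_neg hw, Int.sign_neg]; ring

/-- uniqueness of the even coordinate of a cell of rank `n-1` -/
private theorem p8_uniq {n : ℕ} {w : Fin n → ℤ} (hr : rnk w + 1 = n) {i j : Fin n}
    (hi : ¬ Odd (w i)) (hj : ¬ Odd (w j)) : i = j := by
  classical
  have h1 : (univ.filter (fun i => ¬ Odd (w i))).card = 1 := by
    have h := Finset.card_filter_add_card_filter_not (s := (univ : Finset (Fin n)))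
      (fun i => Odd (w i))
    rw [Finset.card_univ, Fintype.card_fin] at h
    unfold rnk at hr
    omega
  obtain ⟨a, ha⟩ := Finset.card_eq_one.mp h1
  have e1 : i ∈ ({a} : Finset (Fin n)) := by
    rw [← ha]; exact Finset.mem_filter.mpr ⟨Finset.mem_univ _, hi⟩
  have e2 : j ∈ ({a} : Finset (Fin n)) := by
    rw [← ha]; exact Finset.mem_filter.mpr ⟨Finset.mem_univ _, hj⟩
  rw [Finset.mem_singleton] at e1 e2
  rw [e1, e2]

private theorem p8_uniq2 {n : ℕ} {u w : Fin n → ℤ} (h : cle u w) (hr : rnk u + 1 = rnk w)
    {i j : Fin n} (hi : Odd (w i)) (hi' : ¬ Odd (u i)) (hj : Odd (w j)) (hj' : ¬ Odd (u j)) :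
    i = j := by
  classical
  have hsub : univ.filter (fun i => Odd (u i)) ⊆ univ.filter (fun i => Odd (w i)) := by
    intro x hx
    rw [Finset.mem_filter] at hx ⊢
    refine ⟨hx.1, ?_⟩
    rcases h x with e | ⟨e, _⟩
    · rw [← e]; exact hx.2
    · exact e
  have h1 : (univ.filter (fun i => Odd (w i)) \ univ.filter (fun i => Odd (u i))).card = 1 := by
    rw [Finset.card_sdiff_of_subset hsub]
    unfold rnk at hr
    omega
  obtain ⟨a, ha⟩ := Finset.card_eq_one.mp h1
  have e1 : i ∈ ({a} : Finset (Fin n)) := by rw [← ha]; simp [hi, hi']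
  have e2 : j ∈ ({a} : Finset (Fin n)) := by rw [← ha]; simp [hj, hj']
  rw [Finset.mem_singleton] at e1 e2
  rw [e1, e2]

/-- all properties of the new top cell -/
private theorem p8_main {n N : ℕ} (hN : 0 < N) {u w : Fin n → ℤ} (hu : u ∈ bdry n N)
    (hw : w ∈ bdry n N) (h : cle u w) (hru : rnk u + 2 = n) (hrw : rnk w + 1 = n) :
    p8_top N u w ∈ bdry n N ∧ rnk (p8_top N u w) + 1 = n ∧ cle u (p8_top N u w) ∧
      p8_top N u w ≠ w ∧ p8_top N u (p8_top N u w) = w := by
  classical
  have hr : rnk u + 1 = rnk w := by omega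
  have hub : ∀ i, -(2 * (N : ℤ)) ≤ u i ∧ u i ≤ 2 * N := by
    simp only [bdry, Finset.mem_filter, Fintype.mem_piFinset, Finset.mem_Icc] at hu
    exact hu.1
  have hwb : ∀ i, -(2 * (N : ℤ)) ≤ w i ∧ w i ≤ 2 * N := by
    simp only [bdry, Finset.mem_filter, Fintype.mem_piFinset, Finset.mem_Icc] at hw
    exact hw.1
  -- the coordinate b
  obtain ⟨b, hb⟩ : ∃ b, |w b| = 2 * (N : ℤ) := by
    simp only [bdry, Finset.mem_filter, Fintype.mem_piFinset, Finset.mem_Icc] at hw
    exact hw.2
  have hbw : ¬ Odd (w b) := by
    rintro ⟨x, hx⟩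
    rcases abs_cases (w b) with ⟨h, _⟩ | ⟨h, _⟩ <;> omega
  have hub' : u b = w b := by
    rcases h b with e | ⟨e, _⟩
    · exact e
    · exact absurd e hbw
  have hb' : ∀ i, ¬ Odd (w i) → i = b := fun i hi => p8_uniq hrw hi hbw
  -- the coordinate a
  obtain ⟨a, haw, hau⟩ : ∃ a, Odd (w a) ∧ ¬ Odd (u a) := by
    by_contra hcon
    push Not at hcon
    have : univ.filter (fun i => Odd (w i)) ⊆ univ.filter (fun i => Odd (u i)) := by
      intro x hx
      rw [Finset.mem_filter] at hx ⊢
      exact ⟨hx.1, hcon x hx.2⟩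
    have := Finset.card_le_card this
    unfold rnk at hr
    omega
  have ha' : ∀ i, Odd (w i) → ¬ Odd (u i) → i = a := fun i hi hi' => p8_uniq2 h hr hi hi' haw hau
  have haabs : |u a - w a| = 1 := by
    rcases h a with e | ⟨_, e⟩
    · rw [e] at hau; exact absurd haw hau
    · exact e
  have hab : a ≠ b := by rintro rfl; exact hbw haw
  have hrest : ∀ i, i ≠ a → u i = w i := by
    intro i hi
    rcases h i with e | ⟨e, e2⟩
    · exact e
    · exfalso
      apply hi
      apply ha' i e
      rintro ⟨x, hx⟩
      obtain ⟨y, hy⟩ := e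
      rw [abs_eq (by norm_num)] at e2
      omega
  rw [abs_eq (by norm_num)] at haabs
  have hcond : (∀ i, Odd (w i) → ¬ Odd (u i) → |u i| < 2 * (N : ℤ)) ↔ |u a| < 2 * (N : ℤ) :=
    ⟨fun h => h a haw hau, fun h i h1 h2 => by rw [ha' i h1 h2]; exact h⟩
  by_cases hc : |u a| < 2 * (N : ℤ)
  · -- reflection
    have htop : p8_top N u w = u + u - w := by
      unfold p8_top; rw [if_pos (hcond.mpr hc)]
    rw [htop]
    have hpar : ∀ i, Odd ((u + u - w) i) ↔ Odd (w i) := by
      intro i
      simp only [Pi.sub_apply, Pi.add_apply]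
      constructor
      · rintro ⟨x, hx⟩; exact ⟨u i - x - 1, by omega⟩
      · rintro ⟨x, hx⟩; exact ⟨u i - x - 1, by omega⟩
    have hval : ∀ i, i ≠ a → (u + u - w) i = w i := by
      intro i hi
      simp only [Pi.sub_apply, Pi.add_apply]
      have := hrest i hi
      omega
    refine ⟨?_, ?_, ?_, ?_, ?_⟩
    · simp only [bdry, Finset.mem_filter, Fintype.mem_piFinset, Finset.mem_Icc]
      refine ⟨fun i => ?_, b, ?_⟩
      · rcases eq_or_ne i a with rfl | hi
        · simp only [Pi.sub_apply, Pi.add_apply]
          rw [abs_lt] at hc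
          omega
        · rw [hval i hi]; exact hwb i
      · rw [hval b hab.symm]; exact hb
    · have : rnk (u + u - w) = rnk w := by
        unfold rnk
        congr 1
        exact Finset.filter_congr (fun i _ => hpar i)
      omega
    · intro i
      rcases eq_or_ne i a with rfl | hi
      · right
        refine ⟨(hpar _).mpr haw, ?_⟩
        simp only [Pi.sub_apply, Pi.add_apply]
        rcases haabs with e | e
        · rw [show u i - (u i + u i - w i) = -1 by omega]; rfl
        · rw [show u i - (u i + u i - w i) = 1 by omega]; rfl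
      · left; rw [hval i hi]; exact hrest i hi
    · intro hcon
      have := congrFun hcon a
      simp only [Pi.sub_apply, Pi.add_apply] at this
      omega
    · unfold p8_top
      rw [if_pos]
      · abel
      · intro i h1 h2
        rw [hpar] at h1
        rw [ha' i h1 h2]; exact hc
  · -- turning around the corner
    have hua : |u a| = 2 * (N : ℤ) := by
      have := hub a
      have : |u a| ≤ 2 * (N : ℤ) := abs_le.mpr this
      omega
    have htop : p8_top N u w = fun i => if Odd (w i) then u i else u i - (u i).sign := by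
      unfold p8_top; rw [if_neg]; rw [hcond]; exact hc
    set w' : Fin n → ℤ := fun i => if Odd (w i) then u i else u i - (u i).sign with hw'
    have hvb : w' b = u b - (u b).sign := by simp only [hw', if_neg hbw]
    have hv : ∀ i, i ≠ b → w' i = u i := by
      intro i hi
      have : Odd (w i) := by
        by_contra hcon
        exact hi (hb' i hcon)
      simp only [hw', if_pos this]
    have hub2 : |u b| = 2 * (N : ℤ) := by rw [hub']; exact hb
    have sgn : ∀ x : ℤ, |x| = 2 * (N : ℤ) → (x = 2 * N ∧ x.sign = 1) ∨ (x = -(2 * N) ∧ x.sign = -1) := by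
      intro x hx
      rcases abs_cases x with ⟨h1, h2⟩ | ⟨h1, h2⟩
      · left; refine ⟨by omega, Int.sign_eq_one_of_pos (by omega)⟩
      · right; refine ⟨by omega, Int.sign_eq_neg_one_of_neg (by omega)⟩
    have sb := sgn _ hub2
    have sa := sgn _ hua
    have hobd : Odd (w' b) := by
      rw [hvb]
      rcases sb with ⟨e1, e2⟩ | ⟨e1, e2⟩
      · exact ⟨(N : ℤ) - 1, by omega⟩
      · exact ⟨-(N : ℤ), by omega⟩
    have hwa' : w' a = u a := hv a hab
    have hodd' : ∀ i, Odd (w' i) ↔ i ≠ a := by
      intro i
      constructor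
      · rintro h1 rfl
        rw [hwa'] at h1; exact hau h1
      · intro hi
        rcases eq_or_ne i b with rfl | hib
        · exact hobd
        · rw [hv i hib, hrest i hi]
          by_contra hcon
          exact hib (hb' i hcon)
    rw [htop]
    refine ⟨?_, ?_, ?_, ?_, ?_⟩
    · simp only [bdry, Finset.mem_filter, Fintype.mem_piFinset, Finset.mem_Icc]
      refine ⟨fun i => ?_, a, ?_⟩
      · rcases eq_or_ne i b with rfl | hi
        · rw [hvb]
          rcases sb with ⟨e1, e2⟩ | ⟨e1, e2⟩ <;> omega
        · rw [hv i hi]; exact hub i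
      · rw [hwa']; exact hua
    · have h1 : univ.filter (fun i => Odd (w' i)) = univ.erase a := by
        ext i
        simp only [Finset.mem_filter, Finset.mem_univ, true_and, Finset.mem_erase, and_true]
        exact hodd' i
      unfold rnk
      rw [h1, Finset.card_erase_of_mem (Finset.mem_univ a), Finset.card_univ, Fintype.card_fin]
      have := a.2
      omega
    · intro i
      rcases eq_or_ne i b with rfl | hi
      · right
        refine ⟨hobd, ?_⟩
        rw [hvb]
        rcases sb with ⟨e1, e2⟩ | ⟨e1, e2⟩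
        · rw [e2]; norm_num
        · rw [e2]; norm_num
      · left; rw [hv i hi]
    · intro hcon
      rw [hcon] at hobd
      exact hbw hobd
    · unfold p8_top
      rw [if_neg]
      · funext i
        by_cases hi : Odd (w' i)
        · rw [if_pos hi]
          exact hrest i ((hodd' i).mp hi)
        · rw [if_neg hi]
          have hia : i = a := by
            by_contra hcon
            exact hi ((hodd' i).mpr hcon)
          subst hia
          have := hwb i
          rcases sa with ⟨e1, e2⟩ | ⟨e1, e2⟩ <;> omega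
      · intro hcon
        have h2 : ¬ Odd (u b) := by rw [hub']; exact hbw
        have := hcon b hobd h2
        omega

/-- Task BK-P8: top flip. `F_{n-2}` has exactly two even coordinates; let `a` be the one where
`F_{n-1}` differs from `F_{n-2}` and `b` the other one (so `|F_{n-2} b| = 2N`). If
`|F_{n-2} a| < 2N` reflect: `F_{n-1} ↦ 2F_{n-2} - F_{n-1}`; if `|F_{n-2} a| = 2N` the new top cell
is `F_{n-2}` with the coordinate `b` moved inward by one. -/
theorem flip_top {n N : ℕ} (hn : 2 ≤ n) (hN : 0 < N) : HasFlip n N ⟨n - 1, by omega⟩ := by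
  classical
  set k : Fin n := ⟨n - 1, by omega⟩ with hk
  set a : Fin n := ⟨n - 2, by omega⟩ with ha
  have ek : ((k : Fin n) : ℕ) = n - 1 := rfl
  have ea : ((a : Fin n) : ℕ) = n - 2 := rfl
  have hak : a < k := by rw [Fin.lt_def]; omega
  refine ⟨fun F => Function.update F k (p8_top N (F a) (F k)), ?_⟩
  intro F hF
  obtain ⟨hF1, hF2, hF3⟩ := hF
  have r1 := hF2 a
  have r2 := hF2 k
  obtain ⟨m1, m2, m3, m4, m5⟩ := p8_main hN (hF1 a) (hF1 k) (hF3 a k hak) (by omega) (by omega)
  refine ⟨⟨fun j => ?_, fun j => ?_, fun i j hij => ?_⟩, ?_, ?_, ?_, ?_⟩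
  · rcases eq_or_ne j k with rfl | hj
    · simp only [Function.update_self]
      exact m1
    · simp only [Function.update_of_ne hj]; exact hF1 j
  · rcases eq_or_ne j k with rfl | hj
    · simp only [Function.update_self]; omega
    · simp only [Function.update_of_ne hj]; exact hF2 j
  · have hi : i ≠ k := by
      rintro rfl
      have h1 : ((k : Fin n) : ℕ) < (j : ℕ) := hij
      have := j.2
      omega
    rcases eq_or_ne j k with rfl | hj
    · simp only [Function.update_self, Function.update_of_ne hi]
      rcases eq_or_ne i a with rfl | hia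
      · exact m3
      · have : i < a := by
          rw [Fin.lt_def]
          have h1 : (i : ℕ) < ((k : Fin n) : ℕ) := hij
          have h2 : (i : ℕ) ≠ (a : ℕ) := fun h => hia (Fin.ext h)
          omega
        exact p8_trans (hF3 i a this) m3
    · simp only [Function.update_of_ne hi, Function.update_of_ne hj]
      exact hF3 i j hij
  · intro h
    apply m4
    have := congrFun h k
    simpa using this
  · intro j hj
    simp only [Function.update_of_ne hj]
  · simp only [Function.update_of_ne hak.ne, Function.update_self]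
    rw [Function.update_idem, m5, Function.update_eq_self]
  · funext j
    rcases eq_or_ne j k with rfl | hj
    · simp only [Function.update_self, Pi.neg_apply]; rw [p8_neg]
    · simp only [Function.update_of_ne hj, Pi.neg_apply]

end BK
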