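import Crest.Agent.BK_P5
import Crest.Agent.BK_P6
import Crest.Agent.BK_P7
import Crest.Agent.BK_P8

set_option autoImplicit false

namespace BK
open Finset

theorem hasFlip {n N : ℕ} (hn : 2 ≤ n) (hN : 0 < N) (k : Fin n) : HasFlip n N k := by
  obtain ⟨k, hk⟩ := k
  rcases Nat.eq_zero_or_pos k with rfl | h0
  · exact flip_bot hn hN
  · rcases Nat.lt_or_ge (k + 1) n with h1 | h1
    · exact flip_mid hn hN ⟨k, hk⟩ h0 h1
    · obtain rfl : k = n - 1 := by omega
      exact flip_top hn hN

private theorem P9_four {α : Type*} [DecidableEq α] (s : Finset α) (f g : α → α)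
    (hf : ∀ x ∈ s, f x ∈ s) (hg : ∀ x ∈ s, g x ∈ s)
    (hff : ∀ x ∈ s, f (f x) = x) (hgg : ∀ x ∈ s, g (g x) = x)
    (hfg : ∀ x ∈ s, f (g x) = g (f x))
    (h1 : ∀ x ∈ s, f x ≠ x) (h2 : ∀ x ∈ s, g x ≠ x) (h3 : ∀ x ∈ s, f (g x) ≠ x) :
    4 ∣ s.card := by
  classical
  let o : α → Finset α := fun x => {x, f x, g x, f (g x)}
  have ho : ∀ x, o x = {x, f x, g x, f (g x)} := fun x => rfl
  have hof : ∀ x ∈ s, o (f x) = o x := by
    intro x hx
    rw [ho, ho, hff x hx, ← hfg x hx, hff _ (hg x hx)]
    ext y
    simp only [mem_insert, mem_singleton]
    tauto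
  have hog : ∀ x ∈ s, o (g x) = o x := by
    intro x hx
    rw [ho, ho, hgg x hx]
    ext y
    simp only [mem_insert, mem_singleton]
    tauto
  have hcard : ∀ x ∈ s, (o x).card = 4 := by
    intro x hx
    rw [ho]
    have a1 := h1 x hx
    have a2 := h2 x hx
    have a3 := h3 x hx
    have b1 : f x ≠ g x := by
      intro h
      apply a3
      rw [← h, hff x hx]
    have b2 : f x ≠ f (g x) := by
      intro h
      apply a2
      have := congrArg f h
      rw [hff x hx, hff _ (hg x hx)] at this
      exact this.symm
    have b3 : g x ≠ f (g x) := fun h => h1 _ (hg x hx) h.symm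
    rw [card_insert_of_notMem, card_insert_of_notMem, card_insert_of_notMem, card_singleton]
    · simpa using b3
    · simp only [mem_insert, mem_singleton, not_or]
      exact ⟨b1, b2⟩
    · simp only [mem_insert, mem_singleton, not_or]
      exact ⟨a1.symm, a2.symm, a3.symm⟩
  have hfib : ∀ t ∈ s.image o, (s.filter (fun x => o x = t)).card = 4 := by
    intro t ht
    obtain ⟨x, hx, rfl⟩ := mem_image.1 ht
    rw [← hcard x hx]
    congr 1
    ext y
    simp only [mem_filter]
    constructor
    · rintro ⟨hy, h⟩
      rw [← h, ho]
      simp
    · intro hy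
      rw [ho] at hy
      simp only [mem_insert, mem_singleton] at hy
      rcases hy with rfl | rfl | rfl | rfl
      · exact ⟨hx, rfl⟩
      · exact ⟨hf x hx, hof x hx⟩
      · exact ⟨hg x hx, hog x hx⟩
      · exact ⟨hf _ (hg x hx), by rw [hof _ (hg x hx), hog x hx]⟩
  rw [card_eq_sum_card_image o s, sum_congr rfl hfib, sum_const, smul_eq_mul]
  exact Dvd.intro_left _ rfl

private theorem P9_two {α : Type*} [DecidableEq α] (s : Finset α) (f : α → α)
    (hf : ∀ x ∈ s, f x ∈ s) (hff : ∀ x ∈ s, f (f x) = x) (h1 : ∀ x ∈ s, f x ≠ x) :
    2 ∣ s.card := by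
  classical
  let o : α → Finset α := fun x => {x, f x}
  have ho : ∀ x, o x = {x, f x} := fun x => rfl
  have hof : ∀ x ∈ s, o (f x) = o x := by
    intro x hx
    rw [ho, ho, hff x hx]
    ext y
    simp only [mem_insert, mem_singleton]
    tauto
  have hcard : ∀ x ∈ s, (o x).card = 2 := by
    intro x hx
    rw [ho, card_pair]
    exact (h1 x hx).symm
  have hfib : ∀ t ∈ s.image o, (s.filter (fun x => o x = t)).card = 2 := by
    intro t ht
    obtain ⟨x, hx, rfl⟩ := mem_image.1 ht
    rw [← hcard x hx]
    congr 1
    ext y
    simp only [mem_filter]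
    constructor
    · rintro ⟨hy, h⟩
      rw [← h, ho]
      simp
    · intro hy
      rw [ho] at hy
      simp only [mem_insert, mem_singleton] at hy
      rcases hy with rfl | rfl
      · exact ⟨hx, rfl⟩
      · exact ⟨hf x hx, hof x hx⟩
  rw [card_eq_sum_card_image o s, sum_congr rfl hfib, sum_const, smul_eq_mul]
  exact Dvd.intro_left _ rfl

/-- combinatorics for one flag -/
private theorem P9_comb {n : ℕ} {C : Type} [Fintype C] [DecidableEq C] (u : Fin n → C)
    (A : Finset C) (hA : A.card + 1 = n) :
    (∑ k : Fin n, if (univ.erase k).image u = A then 1 else 0) =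
      (∑ l ∈ univ \ A, if univ.image u = insert l A then 1 else 0) +
        2 * (if univ.image u = A then 1 else 0) := by
  classical
  have himg : ∀ k : Fin n, univ.image u = insert (u k) ((univ.erase k).image u) := by
    intro k
    rw [← image_insert, insert_erase (mem_univ k)]
  by_cases hcA : univ.image u = A
  · -- exactly one colour twice
    have hR : (∑ l ∈ univ \ A, if univ.image u = insert l A then 1 else 0) = 0 := by
      apply sum_eq_zero
      intro l hl
      rw [if_neg]
      intro h
      rw [hcA] at h
      have : l ∈ A := by
        rw [h]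
        exact mem_insert_self l A
      simp only [mem_sdiff, mem_univ, true_and] at hl
      exact hl this
    rw [hR, if_pos hcA, zero_add, mul_one]
    have hni : ¬ Function.Injective u := by
      intro hi
      have := card_image_of_injective (univ : Finset (Fin n)) hi
      rw [hcA, card_univ, Fintype.card_fin] at this
      omega
    simp only [Function.Injective, not_forall] at hni
    obtain ⟨a, b, hab, hne⟩ := hni
    rw [← card_filter]
    have hset : (univ.filter fun k : Fin n => (univ.erase k).image u = A) = {a, b} := by
      ext k
      simp only [mem_filter, mem_univ, true_and, mem_insert, mem_singleton]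
      constructor
      · intro hk
        by_contra hcon
        push Not at hcon
        have h2 : ((univ.erase k).erase b).image u = A := by
          rw [← hk]
          apply Finset.Subset.antisymm
          · exact image_subset_image (erase_subset _ _)
          · intro z hz
            obtain ⟨j, hj, rfl⟩ := mem_image.1 hz
            by_cases hjb : j = b
            · subst hjb
              rw [mem_image]
              refine ⟨a, ?_, hab⟩
              simp only [mem_erase, mem_univ, and_true]
              exact ⟨hne, fun h => hcon.1 h.symm⟩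
            · rw [mem_image]
              refine ⟨j, ?_, rfl⟩
              rw [mem_erase]
              exact ⟨hjb, hj⟩
        have h3 : (((univ.erase k).erase b).image u).card ≤ ((univ.erase k).erase b).card :=
          card_image_le
        rw [h2, card_erase_of_mem, card_erase_of_mem (mem_univ k), card_univ,
          Fintype.card_fin] at h3
        · have : 0 < n := by omega
          have h4 : 2 ≤ n := by
            rcases a with ⟨a, ha⟩
            rcases b with ⟨b, hb⟩
            have : a ≠ b := fun h => hne (by simp [h])
            omega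
          omega
        · simp only [mem_erase, mem_univ, and_true]
          exact fun h => hcon.2 h.symm
      · have key : ∀ a b : Fin n, u a = u b → a ≠ b → (univ.erase a).image u = A := by
          intro a b hab hne
          rw [← hcA, himg a, eq_comm]
          apply insert_eq_of_mem
          rw [mem_image]
          exact ⟨b, by simp [hne.symm], hab.symm⟩
        rintro (rfl | rfl)
        · exact key _ _ hab hne
        · exact key _ _ hab.symm (Ne.symm hne)
    rw [hset, card_pair hne]
  · rw [if_neg hcA, mul_zero, add_zero]
    by_cases hl : ∃ l ∈ univ \ A, univ.image u = insert l A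
    · obtain ⟨l, hlA, hl⟩ := hl
      have hlA' : l ∉ A := by
        simp only [mem_sdiff, mem_univ, true_and] at hlA
        exact hlA
      have hinj : Function.Injective u := by
        have hc : (univ.image u).card = (univ : Finset (Fin n)).card := by
          rw [hl, card_insert_of_notMem hlA', card_univ, Fintype.card_fin, hA]
        have := card_image_iff.1 hc
        intro x y hxy
        exact this (by simp) (by simp) hxy
      have hR : (∑ l ∈ univ \ A, if univ.image u = insert l A then 1 else 0) = 1 := by
        rw [sum_eq_single_of_mem l hlA]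
        · rw [if_pos hl]
        · intro l' hl' hne
          rw [if_neg]
          intro h
          have h5 : l' ∈ insert l A := by
            rw [← hl, h]
            exact mem_insert_self _ _
          rw [mem_insert] at h5
          simp only [mem_sdiff, mem_univ, true_and] at hl'
          rcases h5 with h5 | h5
          · exact hne h5
          · exact hl' h5
      rw [hR]
      have h6 : l ∈ univ.image u := by
        rw [hl]
        exact mem_insert_self _ _
      obtain ⟨k, -, hk⟩ := mem_image.1 h6
      rw [sum_eq_single_of_mem k (mem_univ k)]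
      · rw [if_pos]
        have h7 := himg k
        rw [hl, hk] at h7
        have h8 : l ∉ (univ.erase k).image u := by
          rw [mem_image]
          rintro ⟨j, hj, hj2⟩
          rw [← hk] at hj2
          exact (ne_of_mem_erase hj) (hinj hj2)
        have h9 := congrArg (fun s => s.erase l) h7
        simp only [erase_insert hlA', erase_insert h8] at h9
        exact h9.symm
      · intro k' _ hne
        rw [if_neg]
        intro h
        have : l ∈ (univ.erase k').image u := by
          rw [mem_image]
          exact ⟨k, by simp [hne.symm], hk⟩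
        rw [h] at this
        exact hlA' this
    · rw [sum_eq_zero, sum_eq_zero]
      · intro l hl'
        rw [if_neg]
        intro h
        exact hl ⟨l, hl', h⟩
      · intro k _
        rw [if_neg]
        intro h
        have h7 := himg k
        rw [h] at h7
        by_cases hk : u k ∈ A
        · rw [insert_eq_of_mem hk] at h7
          exact hcA h7
        · exact hl ⟨u k, by simp [hk], h7⟩

/-- Task BK-P9: flag parity. For a set `A` of `n-1` colours the number of flags with `n` different
colours containing `A` is divisible by 4. -/
theorem flag_parity {n N : ℕ} {C : Type} [Fintype C] [DecidableEq C] (hn : 2 ≤ n) (hN : 0 < N)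
    (c : (Fin n → ℤ) → C) (hc : ∀ v ∈ bdry n N, c (-v) = c v) (A : Finset C)
    (hA : A.card + 1 = n) : 4 ∣ ∑ l ∈ univ \ A, nfl c N (insert l A) := by
  classical
  -- nonzero vertices
  have hne0 : ∀ v ∈ bdry n N, -v ≠ v := by
    intro v hv h
    rw [bdry, mem_filter] at hv
    obtain ⟨i, hi⟩ := hv.2
    have h1 := congrFun h i
    simp only [Pi.neg_apply] at h1
    have h2 : v i = 0 := by omega
    rw [h2] at hi
    simp only [abs_zero] at hi
    have : (0 : ℤ) < N := by exact_mod_cast hN
    omega
  have hnegF : ∀ F : Fin n → Fin n → ℤ, IsFlag N F → -F ≠ F := by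
    intro F hF h
    have hn0 : 0 < n := by omega
    exact hne0 (F ⟨0, hn0⟩) (hF.1 _) (congrFun h ⟨0, hn0⟩)
  -- the sets X k
  have hX : ∀ k : Fin n,
      4 ∣ ((flags n N).filter (fun F => (univ.erase k).image (fun j => c (F j)) = A)).card := by
    intro k
    obtain ⟨g, hg⟩ := hasFlip hn hN k
    apply P9_four _ (fun F => -F) g
    · intro F hF
      rw [mem_filter, mem_flags] at hF ⊢
      refine ⟨(isFlag_neg F).2 hF.1, ?_⟩
      rw [← hF.2]
      apply image_congr
      intro j _
      show c ((-F) j) = c (F j)
      rw [Pi.neg_apply]
      exact hc _ (hF.1.1 j)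
    · intro F hF
      rw [mem_filter, mem_flags] at hF ⊢
      obtain ⟨h1, h2, h3, h4, h5⟩ := hg F hF.1
      refine ⟨h1, ?_⟩
      rw [← hF.2]
      apply image_congr
      intro j hj
      show c ((g F) j) = c (F j)
      rw [h3 j (ne_of_mem_erase hj)]
    · intro F _
      exact neg_neg F
    · intro F hF
      rw [mem_filter, mem_flags] at hF
      exact (hg F hF.1).2.2.2.1
    · intro F hF
      rw [mem_filter, mem_flags] at hF
      exact (hg F hF.1).2.2.2.2.symm
    · intro F hF
      rw [mem_filter, mem_flags] at hF
      exact hnegF F hF.1
    · intro F hF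
      rw [mem_filter, mem_flags] at hF
      exact (hg F hF.1).2.1
    · intro F hF h
      rw [mem_filter, mem_flags] at hF
      obtain ⟨j, hj⟩ : ∃ j : Fin n, j ≠ k := by
        by_cases hk0 : k = ⟨0, by omega⟩
        · refine ⟨⟨1, by omega⟩, ?_⟩
          rw [hk0]
          intro h
          simp at h
        · exact ⟨⟨0, by omega⟩, fun h => hk0 h.symm⟩
      have h3 := (hg F hF.1).2.2.1 j hj
      have h4 := congrFun h j
      rw [Pi.neg_apply, h3] at h4
      exact hne0 _ (hF.1.1 j) h4
  have hZ : 2 ∣ ((flags n N).filter (fun F => univ.image (fun j => c (F j)) = A)).card := by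
    apply P9_two _ (fun F => -F)
    · intro F hF
      rw [mem_filter, mem_flags] at hF ⊢
      refine ⟨(isFlag_neg F).2 hF.1, ?_⟩
      rw [← hF.2]
      apply image_congr
      intro j _
      show c ((-F) j) = c (F j)
      rw [Pi.neg_apply]
      exact hc _ (hF.1.1 j)
    · intro F _
      exact neg_neg F
    · intro F hF
      rw [mem_filter, mem_flags] at hF
      exact hnegF F hF.1
  have hsum : ∑ k : Fin n,
      ((flags n N).filter (fun F => (univ.erase k).image (fun j => c (F j)) = A)).card =
      (∑ l ∈ univ \ A, nfl c N (insert l A)) +
        2 * ((flags n N).filter (fun F => univ.image (fun j => c (F j)) = A)).card := by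
    simp only [nfl, card_filter]
    rw [sum_comm, sum_comm (s := univ \ A), mul_sum, ← sum_add_distrib]
    apply sum_congr rfl
    intro F _
    exact P9_comb (fun j => c (F j)) A hA
  have h4 : 4 ∣ 2 * ((flags n N).filter (fun F => univ.image (fun j => c (F j)) = A)).card := by
    obtain ⟨m, hm⟩ := hZ
    rw [hm]
    exact ⟨m, by ring⟩
  have h5 : 4 ∣ ∑ k : Fin n,
      ((flags n N).filter (fun F => (univ.erase k).image (fun j => c (F j)) = A)).card :=
    dvd_sum fun k _ => hX k
  rw [hsum] at h5
  exact (Nat.dvd_add_left h4).1 h5

end BK
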