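import Crest.Agent.BK_M6
import Crest.Agent.BK_C3
import Crest.Agent.BK_C6
import Crest.Agent.BK_P9

set_option autoImplicit false

namespace BK
open Finset Matrix

variable {n : ℕ} {C : Type} [Fintype C] [DecidableEq C]

/-- Task BK-G1: `flag_parity` for `gc κ`. -/
theorem grid_parity (hn : 2 ≤ n) (κ : (Fin n → ℝ) → C) (ε : ℝ) (hκ : Kol κ ε) (N : ℕ)
    (hN : 0 < N) (A : Finset C) (hA : A.card + 1 = n) :
    4 ∣ ∑ l ∈ univ \ A, nfl (gc κ) N (insert l A) := by
  refine flag_parity hn hN (gc κ) ?_ A hA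
  intro v hv
  obtain ⟨i, hi⟩ := (Finset.mem_filter.1 hv).2
  have hne : (fun i => (v i : ℝ)) ≠ 0 := by
    intro h
    have h1 : (v i : ℝ) = 0 := congrFun h i
    have h2 : v i = 0 := by exact_mod_cast h1
    rw [h2] at hi
    simp at hi
    omega
  have h := hκ.homog (fun i => (v i : ℝ)) hne (-1) (by norm_num)
  have h3 : ((-1 : ℝ) • fun i => (v i : ℝ)) = fun i => (((-v) i : ℤ) : ℝ) := by
    funext j
    simp
  rw [h3] at h
  exact h

end BK
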