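import Crest.Agent.BK_M6
import Crest.Agent.BK_C3
import Crest.Agent.BK_C6

set_option autoImplicit false

namespace BK
open Finset Matrix

variable {n : ℕ} {C : Type} [Fintype C] [DecidableEq C]

private theorem G1a_nrm_unit (v : Fin n → ℝ) (hv : v ≠ 0) : nrm v ⬝ᵥ nrm v = 1 := by
  have hpos : 0 < v ⬝ᵥ v := by
    rcases lt_or_eq_of_le (Finset.sum_nonneg (fun i _ => mul_self_nonneg (v i)) : 0 ≤ v ⬝ᵥ v) with
      h | h
    · exact h
    · exact absurd (dotProduct_self_eq_zero.1 h.symm) hv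
  unfold nrm
  rw [smul_dotProduct, dotProduct_smul, smul_eq_mul, smul_eq_mul, ← mul_assoc]
  have hs : Real.sqrt (v ⬝ᵥ v) * Real.sqrt (v ⬝ᵥ v) = v ⬝ᵥ v := Real.mul_self_sqrt hpos.le
  have hne : Real.sqrt (v ⬝ᵥ v) ≠ 0 := (Real.sqrt_pos.2 hpos).ne'
  field_simp
  nlinarith [hs]

private theorem G1a_nrm_eq (v : Fin n → ℝ) (hv : v ≠ 0) :
    ∃ t : ℝ, 0 < t ∧ nrm v = t • v := by
  have hpos : 0 < v ⬝ᵥ v := by
    rcases lt_or_eq_of_le (Finset.sum_nonneg (fun i _ => mul_self_nonneg (v i)) : 0 ≤ v ⬝ᵥ v) with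
      h | h
    · exact h
    · exact absurd (dotProduct_self_eq_zero.1 h.symm) hv
  exact ⟨1 / Real.sqrt (v ⬝ᵥ v), by positivity, rfl⟩

private theorem G1a_nrm_neg (v : Fin n → ℝ) : nrm (-v) = -nrm v := by
  unfold nrm
  rw [neg_dotProduct_neg, smul_neg]

private theorem G1a_gc_neg (κ : (Fin n → ℝ) → C) (ε : ℝ) (hκ : Kol κ ε) (N : ℕ) (hN : 0 < N)
    (v : Fin n → ℤ) (hv : v ∈ bdry n N) : gc κ (-v) = gc κ v := by
  unfold gc
  have h1 : (fun i => ((-v) i : ℝ)) = (-1 : ℝ) • (fun i => (v i : ℝ)) := by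
    funext i
    simp
  have h2 : (fun i => (v i : ℝ)) ≠ 0 := by
    intro h
    unfold bdry at hv
    rw [Finset.mem_filter] at hv
    obtain ⟨i, hi⟩ := hv.2
    have h3 := congrFun h i
    simp only [Pi.zero_apply, Int.cast_eq_zero] at h3
    rw [h3, abs_zero] at hi
    omega
  rw [show (fun i => (((-v) i : ℤ) : ℝ)) = (-1 : ℝ) • (fun i => (v i : ℝ)) from h1]
  exact hκ.homog _ h2 (-1) (by norm_num)

/-- Task BK-G1: number of rainbow flags with colour set `σ` is `0` or `≡ 2 (mod 4)`: apply `MT` to the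
structure of `exists_grid` and `P` = image of the flags with colour set `σ` under
`F ↦ nrm (bF F)` (injective by `bF_inj`). -/
theorem grid_MT (hn : 2 ≤ n) (hn4 : n ≤ 4) (hC : 2 * Fintype.card C = n * (n + 1))
    (κ : (Fin n → ℝ) → C) (ε : ℝ) (hκ : Kol κ ε) :
    ∃ N0 : ℕ, ∀ N : ℕ, N0 ≤ N → 0 < N → ∀ σ : Finset C, σ.card = n → nfl (gc κ) N σ ≠ 0 →
      nfl (gc κ) N σ % 4 = 2 := by
  classical
  have hn0 : 0 < n := by omega
  have hCn : n ≤ Fintype.card C := by nlinarith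
  obtain ⟨N0, h0⟩ := exists_grid hn0 hn4 κ ε hκ
  refine ⟨N0, fun N hN hNpos σ hσ hne => ?_⟩
  obtain ⟨S, hSphi, hSA⟩ := h0 N hN
  set T := (flags n N).filter (fun F => univ.image (fun k => gc κ (F k)) = σ) with hT
  have hTmem : ∀ F, F ∈ T ↔ IsFlag N F ∧ univ.image (fun k => gc κ (F k)) = σ := by
    intro F
    rw [hT, Finset.mem_filter, mem_flags]
  have hinj : Set.InjOn (fun F : Fin n → Fin n → ℤ => nrm (bF F)) T := by
    intro F hF G hG hFG
    have hF' := (hTmem F).1 hF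
    have hG' := (hTmem G).1 hG
    obtain ⟨t, ht, hFt⟩ := G1a_nrm_eq (bF F) (bF_ne_zero hn0 hNpos F hF'.1)
    obtain ⟨u, hu, hGu⟩ := G1a_nrm_eq (bF G) (bF_ne_zero hn0 hNpos G hG'.1)
    simp only at hFG
    rw [hFt, hGu] at hFG
    refine bF_inj hn0 hNpos F G hF'.1 hG'.1 (t⁻¹ * u) (by positivity) ?_
    rw [mul_smul, ← hFG, smul_smul, inv_mul_cancel₀ ht.ne', one_smul]
  have hcard : (T.image (fun F : Fin n → Fin n → ℤ => nrm (bF F))).card = nfl (gc κ) N σ := by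
    rw [Finset.card_image_of_injOn hinj]
    rfl
  rw [← hcard]
  have hTne : T.Nonempty := by
    rw [← Finset.card_pos]
    exact Nat.pos_of_ne_zero hne
  refine MT hn hC S σ hσ _ (hTne.image _) ?_ ?_ ?_ ?_ ?_
  · intro p hp
    obtain ⟨F, hF, rfl⟩ := Finset.mem_image.1 hp
    exact G1a_nrm_unit _ (bF_ne_zero hn0 hNpos F ((hTmem F).1 hF).1)
  · intro p hp
    obtain ⟨F, hF, rfl⟩ := Finset.mem_image.1 hp
    have hF' := (hTmem F).1 hF
    refine Finset.mem_image.2 ⟨-F, (hTmem _).2 ⟨(isFlag_neg F).2 hF'.1, ?_⟩, ?_⟩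
    · rw [← hF'.2]
      congr 1
      funext k
      exact G1a_gc_neg κ ε hκ N hNpos (F k) (hF'.1.1 k)
    · rw [bF_neg, G1a_nrm_neg]
  · intro x hx hxi
    have hx0 : x ≠ 0 := by
      rintro rfl
      simp at hx
    obtain ⟨F, hF, hFσ, t, ht, hxt⟩ := flag_of_xi hn0 hNpos hCn (gc κ) σ hσ x hx0
      (by intro i; rw [← hSphi]; exact hxi i)
    refine Finset.mem_image.2 ⟨F, (hTmem _).2 ⟨hF, hFσ⟩, ?_⟩
    obtain ⟨u, hu, hFu⟩ := G1a_nrm_eq (bF F) (bF_ne_zero hn0 hNpos F hF)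
    have hunit := G1a_nrm_unit _ (bF_ne_zero hn0 hNpos F hF)
    rw [hFu] at hunit ⊢
    rw [hxt] at hx ⊢
    rw [smul_dotProduct, dotProduct_smul, smul_eq_mul, smul_eq_mul] at hunit hx
    have hq : t * t = u * u := by
      have hb : bF F ⬝ᵥ bF F ≠ 0 := by
        intro h
        rw [h] at hx
        simp at hx
      have : t * t * (bF F ⬝ᵥ bF F) = u * u * (bF F ⬝ᵥ bF F) := by linarith
      exact mul_right_cancel₀ hb this
    have : t = u := by nlinarith [mul_self_eq_mul_self_iff.1 hq]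
    rw [this]
  · intro p hp i
    obtain ⟨F, hF, rfl⟩ := Finset.mem_image.1 hp
    have hF' := (hTmem F).1 hF
    obtain ⟨u, hu, hFu⟩ := G1a_nrm_eq (bF F) (bF_ne_zero hn0 hNpos F hF'.1)
    rw [hSphi, hFu]
    exact xi_of_flag hn0 hNpos hCn (gc κ) σ hσ F hF'.1 hF'.2 u hu i
  · intro p hp
    obtain ⟨F, hF, rfl⟩ := Finset.mem_image.1 hp
    have hF' := (hTmem F).1 hF
    obtain ⟨u, hu, hFu⟩ := G1a_nrm_eq (bF F) (bF_ne_zero hn0 hNpos F hF'.1)
    rw [hFu]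
    exact locLin_of_flag hn0 hNpos hCn (gc κ) S hSphi σ hσ F hF'.1 hF'.2 u hu

end BK
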