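import Crest.Agent.BK_M8
import Crest.Agent.BK_C3
import Crest.Agent.BK_C4

set_option autoImplicit false

namespace BK
open Finset Matrix

/-- Task BK-G3: from `LS4` (witnesses `z j` for the blocks, `wit_grid`); choose 4 colours with
different blocks and apply `flag_of_colours`. -/
theorem grid_LS {C : Type} [Fintype C] [DecidableEq C]
    (κ : (Fin 4 → ℝ) → C) (ε : ℝ) (hκ : Kol κ ε) :
    ∃ N0 : ℕ, ∀ N : ℕ, N0 ≤ N → 0 < N → ∀ b : C → ℕ,
      (∀ j, ∃ z, Wit κ (ε / 2) (fun i => b i = j) z) →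
      ∃ σ : Finset C, σ.card = 4 ∧ nfl (gc κ) N σ ≠ 0 ∧ Set.InjOn b σ := by
  obtain ⟨N1, hN1⟩ := exists_grid (n := 4) (by norm_num) le_rfl κ ε hκ
  obtain ⟨N2, hN2⟩ := wit_grid ε hκ.pos
  refine ⟨max N1 N2, fun N hN hN0 b hw => ?_⟩
  obtain ⟨S, hS, -⟩ := hN1 N (le_trans (le_max_left _ _) hN)
  have hW := hN2 N (le_trans (le_max_right _ _) hN) hN0
  choose z hz using hw
  have hsupp : ∀ x i, S.phi x i ≠ 0 → phi0 (gc κ) N x i ≠ 0 := by
    intro x i h
    rw [hS] at h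
    have h1 := C3a_gphi_supp _ _ _ _ h
    have h2 := C3a_dl_pos i
    intro h0
    rw [h0] at h1
    linarith
  obtain ⟨x, hx, h4⟩ := LS4 S b z (fun x hx i hi =>
    hW 4 (by norm_num) le_rfl C κ (fun k => b k = b i) (z (b i)) (hz (b i)) x hx i rfl
      (hsupp x i hi))
  -- choose 4 colours with different blocks
  obtain ⟨T, hT, hTc⟩ := exists_subset_card_eq h4
  have hch : ∀ j ∈ T, ∃ i, S.phi x i ≠ 0 ∧ b i = j := by
    intro j hj
    obtain ⟨i, hi, rfl⟩ := mem_image.1 (hT hj)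
    exact ⟨i, (mem_filter.1 hi).2, rfl⟩
  haveI : Nonempty C := ⟨κ 0⟩
  choose! f hf1 hf2 using hch
  have hfinj : Set.InjOn f (T : Set ℕ) := by
    intro a ha a' ha' h
    rw [← hf2 a ha, ← hf2 a' ha', h]
  have hBc : (T.image f).card = 4 := by
    rw [card_image_of_injOn hfinj, hTc]
  obtain ⟨F, hF, hFB, -, -⟩ := flag_of_colours hN0 (gc κ) x hx (T.image f) hBc (by
    intro i hi
    obtain ⟨j, hj, rfl⟩ := mem_image.1 hi
    exact hsupp x _ (hf1 j hj))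
  refine ⟨T.image f, hBc, ?_, ?_⟩
  · unfold nfl
    apply ne_of_gt
    apply card_pos.2
    exact ⟨F, mem_filter.2 ⟨(mem_flags F).2 hF, hFB⟩⟩
  · intro a ha a' ha' h
    rw [mem_coe, mem_image] at ha ha'
    obtain ⟨j, hj, rfl⟩ := ha
    obtain ⟨j', hj', rfl⟩ := ha'
    rw [hf2 j hj, hf2 j' hj'] at h
    rw [h]

end BK
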