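import Crest.Agent.BK_W1

set_option autoImplicit false

namespace BK
open Finset Matrix Filter Topology

/-! Task BK-W2: Rayleigh quotients of symmetric matrices (use `Matrix.IsHermitian` spectral theorem
or elementary variation arguments). -/

private theorem W2a_dot_nonneg {n : ℕ} (x : Fin n → ℝ) : 0 ≤ x ⬝ᵥ x := by
  simp only [dotProduct]
  exact Finset.sum_nonneg (fun i _ => mul_self_nonneg _)

private theorem W2a_dot_zero {n : ℕ} (x : Fin n → ℝ) (h : x ⬝ᵥ x = 0) : x = 0 := by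
  simp only [dotProduct] at h
  rw [Finset.sum_eq_zero_iff_of_nonneg (fun i _ => mul_self_nonneg _)] at h
  funext i
  have := h i (Finset.mem_univ i)
  simpa using this

theorem RM_exists {n : ℕ} (hn : 0 < n) (M : Matrix (Fin n) (Fin n) ℝ) : ∃ x, RM M x := by
  have hcl : IsClosed {x : Fin n → ℝ | x ⬝ᵥ x = 1} := by
    apply isClosed_eq
    · exact Continuous.dotProduct continuous_id continuous_id
    · exact continuous_const
  have hbd : Bornology.IsBounded {x : Fin n → ℝ | x ⬝ᵥ x = 1} := by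
    rw [isBounded_iff_forall_norm_le]
    refine ⟨1, fun x hx => ?_⟩
    rw [pi_norm_le_iff_of_nonneg zero_le_one]
    intro i
    have h1 : x i * x i ≤ x ⬝ᵥ x := by
      simp only [dotProduct]
      exact Finset.single_le_sum (f := fun i => x i * x i) (fun j _ => mul_self_nonneg _)
        (Finset.mem_univ i)
    rw [Real.norm_eq_abs]
    have h2 : x ⬝ᵥ x = 1 := hx
    rw [h2] at h1
    rw [← Real.sqrt_mul_self_eq_abs] 
    exact Real.sqrt_le_one.mpr h1
  have hcomp : IsCompact {x : Fin n → ℝ | x ⬝ᵥ x = 1} := Metric.isCompact_of_isClosed_isBounded hcl hbd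
  have hne : ({x : Fin n → ℝ | x ⬝ᵥ x = 1}).Nonempty := by
    refine ⟨Pi.single ⟨0, hn⟩ 1, ?_⟩
    simp
  have hcont : ContinuousOn (fun z : Fin n → ℝ => z ⬝ᵥ (M *ᵥ z)) {x : Fin n → ℝ | x ⬝ᵥ x = 1} := by
    apply Continuous.continuousOn
    exact Continuous.dotProduct continuous_id (Continuous.matrix_mulVec continuous_const continuous_id)
  obtain ⟨x, hx, hmax⟩ := hcomp.exists_isMaxOn hne hcont
  exact ⟨x, hx, fun z hz => hmax hz⟩

/-- homogeneous form of the maximality -/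
private theorem W2a_hom {n : ℕ} (M : Matrix (Fin n) (Fin n) ℝ) (x : Fin n → ℝ)
    (hx : RM M x) (z : Fin n → ℝ) : z ⬝ᵥ (M *ᵥ z) ≤ (x ⬝ᵥ (M *ᵥ x)) * (z ⬝ᵥ z) := by
  by_cases hz : z ⬝ᵥ z = 0
  · have := W2a_dot_zero z hz
    subst this
    simp
  · have hpos : 0 < z ⬝ᵥ z := lt_of_le_of_ne (W2a_dot_nonneg z) (Ne.symm hz)
    set s := Real.sqrt (z ⬝ᵥ z) with hs
    have hs0 : 0 < s := Real.sqrt_pos.mpr hpos
    have hss : s * s = z ⬝ᵥ z := Real.mul_self_sqrt hpos.le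
    have h1 : (s⁻¹ • z) ⬝ᵥ (s⁻¹ • z) = 1 := by
      rw [smul_dotProduct, dotProduct_smul, ← hss, smul_eq_mul, smul_eq_mul]
      field_simp
    have h2 := hx.2 _ h1
    rw [mulVec_smul, smul_dotProduct, dotProduct_smul, smul_eq_mul, smul_eq_mul] at h2
    have h3 : z ⬝ᵥ (M *ᵥ z) = (s * s) * (s⁻¹ * (s⁻¹ * (z ⬝ᵥ (M *ᵥ z)))) := by
      field_simp
    rw [h3, ← hss, mul_comm (x ⬝ᵥ (M *ᵥ x))]
    exact mul_le_mul_of_nonneg_left h2 (mul_self_nonneg s)

private theorem W2a_symm {n : ℕ} (M : Matrix (Fin n) (Fin n) ℝ) (hM : M.IsSymm)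
    (x y : Fin n → ℝ) : x ⬝ᵥ (M *ᵥ y) = y ⬝ᵥ (M *ᵥ x) := by
  rw [dotProduct_mulVec, ← mulVec_transpose, hM.eq, dotProduct_comm]

theorem RM_eig {n : ℕ} (M : Matrix (Fin n) (Fin n) ℝ) (hM : M.IsSymm) (x : Fin n → ℝ)
    (hx : RM M x) : M *ᵥ x = (x ⬝ᵥ (M *ᵥ x)) • x := by
  set lam := x ⬝ᵥ (M *ᵥ x) with hlam
  set v := M *ᵥ x - lam • x with hv
  have key : ∀ t : ℝ, 2 * t * (v ⬝ᵥ v) ≤ t ^ 2 * (lam * (v ⬝ᵥ v) - v ⬝ᵥ (M *ᵥ v)) := by
    intro t
    have h := W2a_hom M x hx (x + t • v)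
    rw [← hlam] at h
    have e1 : (x + t • v) ⬝ᵥ (M *ᵥ (x + t • v)) =
        lam + 2 * t * (v ⬝ᵥ (M *ᵥ x)) + t ^ 2 * (v ⬝ᵥ (M *ᵥ v)) := by
      rw [mulVec_add, mulVec_smul]
      simp only [add_dotProduct, dotProduct_add, smul_dotProduct, dotProduct_smul, smul_eq_mul]
      rw [W2a_symm M hM x v, ← hlam]
      ring
    have e2 : (x + t • v) ⬝ᵥ (x + t • v) = 1 + 2 * t * (v ⬝ᵥ x) + t ^ 2 * (v ⬝ᵥ v) := by
      simp only [add_dotProduct, dotProduct_add, smul_dotProduct, dotProduct_smul, smul_eq_mul]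
      rw [hx.1, dotProduct_comm x v]
      ring
    have e3 : v ⬝ᵥ v = v ⬝ᵥ (M *ᵥ x) - lam * (v ⬝ᵥ x) := by
      conv_lhs => rhs; rw [hv]
      rw [dotProduct_sub, dotProduct_smul, smul_eq_mul]
    rw [e1, e2] at h
    have e5 : 2 * t * (v ⬝ᵥ v) = 2 * t * (v ⬝ᵥ (M *ᵥ x) - lam * (v ⬝ᵥ x)) :=
      congrArg (fun r => 2 * t * r) e3
    nlinarith [h, e5]
  have h0 : v ⬝ᵥ v = 0 := by
    by_contra hne
    have hpos : 0 < v ⬝ᵥ v := lt_of_le_of_ne (W2a_dot_nonneg v) (Ne.symm hne)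
    set a := v ⬝ᵥ v
    set b := lam * a - v ⬝ᵥ (M *ᵥ v)
    have k := key (a / (|b| + 1))
    have hb : 0 < |b| + 1 := by positivity
    have h1 : 2 * (a / (|b| + 1)) * a ≤ (a / (|b| + 1)) ^ 2 * (|b| + 1) := by
      refine k.trans ?_
      apply mul_le_mul_of_nonneg_left _ (by positivity)
      linarith [le_abs_self b]
    have h2 : (a / (|b| + 1)) ^ 2 * (|b| + 1) = (a / (|b| + 1)) * a := by
      field_simp
    rw [h2] at h1
    have h3 : 0 < (a / (|b| + 1)) * a := by positivity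
    nlinarith
  have h1 := W2a_dot_zero v h0
  rw [hv] at h1
  exact sub_eq_zero.mp h1

/-- a symmetric matrix with vanishing quadratic form vanishes -/
private theorem W2a_zero {n : ℕ} (M : Matrix (Fin n) (Fin n) ℝ) (hM : M.IsSymm)
    (h : ∀ z : Fin n → ℝ, z ⬝ᵥ (M *ᵥ z) = 0) : M = 0 := by
  have key : ∀ x y : Fin n → ℝ, x ⬝ᵥ (M *ᵥ y) = 0 := by
    intro x y
    have h1 := h (x + y)
    rw [mulVec_add] at h1
    simp only [add_dotProduct, dotProduct_add] at h1
    rw [h x, h y, W2a_symm M hM y x] at h1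
    linarith
  ext i j
  have := key (Pi.single i 1) (Pi.single j 1)
  simpa using this

/-- maximisers and minimisers of a traceless nonzero symmetric matrix are orthogonal -/
theorem RM_orth {n : ℕ} (M : Matrix (Fin n) (Fin n) ℝ) (hM : TS M) (hM0 : M ≠ 0)
    (x y : Fin n → ℝ) (hx : RM M x) (hy : RM (-M) y) : x ⬝ᵥ y = 0 := by
  have hx1 := RM_eig M hM.1 x hx
  have hsn : (-M).IsSymm := by
    rw [Matrix.IsSymm, Matrix.transpose_neg, hM.1.eq]
  have hy1 := RM_eig (-M) hsn y hy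
  set a := x ⬝ᵥ (M *ᵥ x) with ha
  set b := y ⬝ᵥ ((-M) *ᵥ y) with hb
  have hy2 : M *ᵥ y = (-b) • y := by
    rw [neg_mulVec] at hy1
    rw [neg_smul, ← hy1, neg_neg]
  have h1 : x ⬝ᵥ (M *ᵥ y) = y ⬝ᵥ (M *ᵥ x) := W2a_symm M hM.1 x y
  rw [hy2, hx1, dotProduct_smul, dotProduct_smul, smul_eq_mul, smul_eq_mul, dotProduct_comm y x] at h1
  have h2 : (a + b) * (x ⬝ᵥ y) = 0 := by linarith
  rcases mul_eq_zero.mp h2 with h3 | h3
  · exfalso
    apply hM0
    -- quadratic form is constant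
    have hq : ∀ z : Fin n → ℝ, z ⬝ᵥ (M *ᵥ z) = a * (z ⬝ᵥ z) := by
      intro z
      have u1 := W2a_hom M x hx z
      have u2 := W2a_hom (-M) y hy z
      rw [← ha] at u1
      rw [← hb, neg_mulVec, dotProduct_neg] at u2
      have : b = -a := by linarith
      rw [this] at u2
      linarith
    have hz : M - a • (1 : Matrix (Fin n) (Fin n) ℝ) = 0 := by
      apply W2a_zero
      · rw [Matrix.IsSymm, Matrix.transpose_sub, hM.1.eq, Matrix.transpose_smul, Matrix.transpose_one]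
      · intro z
        rw [sub_mulVec, smul_mulVec, one_mulVec, dotProduct_sub, dotProduct_smul, hq z, smul_eq_mul,
          sub_self]
    have hMa : M = a • (1 : Matrix (Fin n) (Fin n) ℝ) := sub_eq_zero.mp hz
    have ht := hM.2
    rw [hMa, Matrix.trace_smul, Matrix.trace_one, smul_eq_mul, Fintype.card_fin] at ht
    have hn : (n : ℝ) ≠ 0 := by
      intro hn0
      have : n = 0 := by exact_mod_cast hn0
      subst this
      have := hx.1
      simp at this
    have ha0 : a = 0 := by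
      rcases mul_eq_zero.mp ht with h | h
      · exact h
      · exact absurd h hn
    rw [hMa, ha0, zero_smul]
  · exact h3

/-- the maximum is positive for a traceless nonzero matrix -/
theorem RM_pos {n : ℕ} (M : Matrix (Fin n) (Fin n) ℝ) (hM : TS M) (hM0 : M ≠ 0)
    (x : Fin n → ℝ) (hx : RM M x) : 0 < x ⬝ᵥ (M *ᵥ x) := by
  by_contra hcon
  push Not at hcon
  have hnp : ∀ z : Fin n → ℝ, z ⬝ᵥ (M *ᵥ z) ≤ 0 := by
    intro z
    have := W2a_hom M x hx z
    nlinarith [W2a_dot_nonneg z]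
  apply hM0
  have hd : ∀ i, M i i = 0 := by
    have h1 : ∀ i ∈ (Finset.univ : Finset (Fin n)), M i i ≤ 0 := by
      intro i _
      have := hnp (Pi.single i 1)
      simpa using this
    have h2 : ∑ i, M i i = 0 := hM.2
    have h3 := (Finset.sum_eq_zero_iff_of_nonpos h1).mp h2
    exact fun i => h3 i (Finset.mem_univ i)
  have hentry : ∀ i j (t : ℝ), 2 * t * M i j ≤ 0 := by
    intro i j t
    have h1 := hnp (Pi.single i 1 + t • Pi.single j 1)
    rw [mulVec_add, mulVec_smul] at h1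
    simp only [add_dotProduct, dotProduct_add, smul_dotProduct, dotProduct_smul, smul_eq_mul] at h1
    have e1 : ∀ a b : Fin n, (Pi.single a (1:ℝ)) ⬝ᵥ (M *ᵥ (Pi.single b (1:ℝ))) = M a b := by
      intro a b
      simp
    rw [e1, e1, e1, e1, hd, hd] at h1
    have e2 : M j i = M i j := hM.1.apply i j
    rw [e2] at h1
    linarith
  ext i j
  have h1 := hentry i j 1
  have h2 := hentry i j (-1)
  simp only [Matrix.zero_apply]
  linarith

end BK
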