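import Crest.Agent.BK_W1
import Crest.Agent.BK_W2a

set_option autoImplicit false

namespace BK
open Finset Matrix Filter Topology

/-! Task BK-W2: Rayleigh quotients of symmetric matrices (use `Matrix.IsHermitian` spectral theorem
or elementary variation arguments). -/

private theorem W2b_dot_nonneg {n : ℕ} (x : Fin n → ℝ) : 0 ≤ x ⬝ᵥ x := by
  simp only [dotProduct]
  exact Finset.sum_nonneg (fun i _ => mul_self_nonneg _)

private theorem W2b_dot_zero {n : ℕ} (x : Fin n → ℝ) (h : x ⬝ᵥ x = 0) : x = 0 := by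
  simp only [dotProduct] at h
  rw [Finset.sum_eq_zero_iff_of_nonneg (fun i _ => mul_self_nonneg _)] at h
  funext i
  have := h i (Finset.mem_univ i)
  simpa using this

/-- if the maximiser is not unique up to sign, there is a maximiser orthogonal to any given
vector -/
theorem RM_perp {n : ℕ} (M : Matrix (Fin n) (Fin n) ℝ) (hM : M.IsSymm) (x y p : Fin n → ℝ)
    (hx : RM M x) (hy : RM M y) (h1 : y ≠ x) (h2 : y ≠ -x) : ∃ v, RM M v ∧ v ⬝ᵥ p = 0 := by
  by_cases hxp : x ⬝ᵥ p = 0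
  · exact ⟨x, hx, hxp⟩
  set lam := x ⬝ᵥ (M *ᵥ x) with hlam
  have hlam2 : y ⬝ᵥ (M *ᵥ y) = lam := le_antisymm (hx.2 y hy.1) (hy.2 x hx.1)
  have ex := RM_eig M hM x hx
  have ey := RM_eig M hM y hy
  rw [← hlam] at ex
  rw [hlam2] at ey
  set a := y ⬝ᵥ p with ha
  set b := -(x ⬝ᵥ p) with hb
  set v := a • x + b • y with hv
  have hvp : v ⬝ᵥ p = 0 := by
    rw [hv, add_dotProduct, smul_dotProduct, smul_dotProduct, smul_eq_mul, smul_eq_mul, hb, ← ha]
    ring
  have hMv : M *ᵥ v = lam • v := by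
    rw [hv, mulVec_add, mulVec_smul, mulVec_smul, ex, ey, smul_add, smul_smul, smul_smul,
      smul_smul, smul_smul, mul_comm a, mul_comm b]
  have hvne : v ⬝ᵥ v ≠ 0 := by
    intro h0
    set c := x ⬝ᵥ y with hc
    have e1 : v ⬝ᵥ v = a ^ 2 + b ^ 2 + 2 * a * b * c := by
      rw [hv]
      simp only [add_dotProduct, dotProduct_add, smul_dotProduct, dotProduct_smul, smul_eq_mul]
      rw [hx.1, hy.1, dotProduct_comm y x, ← hc]
      ring
    have e2 : (x - y) ⬝ᵥ (x - y) = 2 - 2 * c := by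
      simp only [sub_dotProduct, dotProduct_sub]
      rw [hx.1, hy.1, dotProduct_comm y x, ← hc]
      ring
    have e3 : (x + y) ⬝ᵥ (x + y) = 2 + 2 * c := by
      simp only [add_dotProduct, dotProduct_add]
      rw [hx.1, hy.1, dotProduct_comm y x, ← hc]
      ring
    have c1 : c < 1 := by
      have n1 := W2b_dot_nonneg (x - y)
      rw [e2] at n1
      rcases lt_or_eq_of_le (show c ≤ 1 by linarith) with h | h
      · exact h
      · exfalso
        have : (x - y) ⬝ᵥ (x - y) = 0 := by rw [e2, h]; ring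
        have := W2b_dot_zero _ this
        exact h1 (sub_eq_zero.mp this).symm
    have c2 : -1 < c := by
      have n1 := W2b_dot_nonneg (x + y)
      rw [e3] at n1
      rcases lt_or_eq_of_le (show -1 ≤ c by linarith) with h | h
      · exact h
      · exfalso
        have : (x + y) ⬝ᵥ (x + y) = 0 := by rw [e3, ← h]; ring
        have := W2b_dot_zero _ this
        exact h2 (eq_neg_of_add_eq_zero_right this)
    have hb0 : b ≠ 0 := by
      rw [hb]; exact neg_ne_zero.mpr hxp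
    rw [e1] at h0
    have hbpos : 0 < b ^ 2 := by positivity
    have : (a + b * c) ^ 2 + b ^ 2 * (1 - c ^ 2) = 0 := by nlinarith
    have h3 : 0 < 1 - c ^ 2 := by nlinarith
    have h4 : 0 < b ^ 2 * (1 - c ^ 2) := mul_pos hbpos h3
    nlinarith [sq_nonneg (a + b * c)]
  have hpos : 0 < v ⬝ᵥ v := lt_of_le_of_ne (W2b_dot_nonneg v) (Ne.symm hvne)
  set s := Real.sqrt (v ⬝ᵥ v) with hs
  have hs0 : 0 < s := Real.sqrt_pos.mpr hpos
  have hss : s * s = v ⬝ᵥ v := Real.mul_self_sqrt hpos.le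
  have hunit : (s⁻¹ • v) ⬝ᵥ (s⁻¹ • v) = 1 := by
    rw [smul_dotProduct, dotProduct_smul, ← hss, smul_eq_mul, smul_eq_mul]
    field_simp
  refine ⟨s⁻¹ • v, ⟨hunit, ?_⟩, ?_⟩
  · intro z hz
    have h5 : (s⁻¹ • v) ⬝ᵥ (M *ᵥ (s⁻¹ • v)) = lam := by
      rw [mulVec_smul, hMv, smul_comm, dotProduct_smul, hunit, smul_eq_mul, mul_one]
    rw [h5]
    exact hx.2 z hz
  · rw [smul_dotProduct, hvp, smul_zero]

/-- in dimension 3 the maximiser or the minimiser is unique up to sign -/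
theorem RM_three (M : Matrix (Fin 3) (Fin 3) ℝ) (hM : TS M) (hM0 : M ≠ 0) :
    (∃ x, RM M x ∧ ∀ z, RM M z → z = x ∨ z = -x) ∨
      (∃ x, RM (-M) x ∧ ∀ z, RM (-M) z → z = x ∨ z = -x) := by
  obtain ⟨x, hx⟩ := RM_exists (by norm_num : 0 < 3) M
  obtain ⟨w, hw⟩ := RM_exists (by norm_num : 0 < 3) (-M)
  by_contra hcon
  push Not at hcon
  obtain ⟨c1, c2⟩ := hcon
  obtain ⟨z, hz, hz1, hz2⟩ := c1 x hx
  obtain ⟨u, hu, hu1, hu2⟩ := c2 w hw
  have hsn : (-M).IsSymm := by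
    rw [Matrix.IsSymm, Matrix.transpose_neg, hM.1.eq]
  obtain ⟨v, hv, hvx⟩ := RM_perp M hM.1 x z x hx hz hz1 hz2
  obtain ⟨t, ht, htw⟩ := RM_perp (-M) hsn w u w hw hu hu1 hu2
  have o1 := RM_orth M hM hM0 x w hx hw
  have o2 := RM_orth M hM hM0 x t hx ht
  have o3 := RM_orth M hM hM0 v w hv hw
  have o4 := RM_orth M hM hM0 v t hv ht
  have d1 := hx.1
  have d2 := hv.1
  have d3 := hw.1
  have d4 := ht.1
  have o1' : w ⬝ᵥ x = 0 := by rw [dotProduct_comm]; exact o1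
  have o2' : t ⬝ᵥ x = 0 := by rw [dotProduct_comm]; exact o2
  have o3' : w ⬝ᵥ v = 0 := by rw [dotProduct_comm]; exact o3
  have o4' : t ⬝ᵥ v = 0 := by rw [dotProduct_comm]; exact o4
  have hxv : x ⬝ᵥ v = 0 := by rw [dotProduct_comm]; exact hvx
  have hwt : w ⬝ᵥ t = 0 := by rw [dotProduct_comm]; exact htw
  let A : Matrix (Fin 4) (Fin 3) ℝ := Matrix.of ![x, v, w, t]
  have hA : A * Aᵀ = 1 := by
    ext i j
    have e : (A * Aᵀ) i j = A i ⬝ᵥ A j := by
      rw [Matrix.mul_apply]; rfl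
    rw [e]
    fin_cases i <;> fin_cases j <;> first
      | (show x ⬝ᵥ x = _; rw [d1]; simp)
      | (show x ⬝ᵥ v = _; rw [hxv]; simp)
      | (show x ⬝ᵥ w = _; rw [o1]; simp)
      | (show x ⬝ᵥ t = _; rw [o2]; simp)
      | (show v ⬝ᵥ x = _; rw [hvx]; simp)
      | (show v ⬝ᵥ v = _; rw [d2]; simp)
      | (show v ⬝ᵥ w = _; rw [o3]; simp)
      | (show v ⬝ᵥ t = _; rw [o4]; simp)
      | (show w ⬝ᵥ x = _; rw [o1']; simp)
      | (show w ⬝ᵥ v = _; rw [o3']; simp)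
      | (show w ⬝ᵥ w = _; rw [d3]; simp)
      | (show w ⬝ᵥ t = _; rw [hwt]; simp)
      | (show t ⬝ᵥ x = _; rw [o2']; simp)
      | (show t ⬝ᵥ v = _; rw [o4']; simp)
      | (show t ⬝ᵥ w = _; rw [htw]; simp)
      | (show t ⬝ᵥ t = _; rw [d4]; simp)
  have hr : (A * Aᵀ).rank ≤ 3 := by
    refine (Matrix.rank_mul_le_left A Aᵀ).trans ?_
    have := Matrix.rank_le_width A
    simpa using this
  rw [hA, Matrix.rank_one] at hr
  simp at hr

end BK
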