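import Crest.Agent.BK_W1
import Crest.Agent.BK_W2a

set_option autoImplicit false

namespace BK
open Finset Matrix Filter Topology

/-! Task BK-W2: Rayleigh quotients of symmetric matrices (use `Matrix.IsHermitian` spectral theorem
or elementary variation arguments). -/

private theorem w2c_quad {n : ℕ} (x z : Fin n → ℝ) :
    z ⬝ᵥ (Vh x *ᵥ z) = cn n * ((x ⬝ᵥ z) ^ 2 - (1 / (n : ℝ)) * (z ⬝ᵥ z)) := by
  rw [Vh_mulVec]
  simp only [dotProduct_smul, dotProduct_sub, smul_eq_mul]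
  rw [dotProduct_comm z x]
  ring

private theorem w2c_nonneg {n : ℕ} (x : Fin n → ℝ) : 0 ≤ x ⬝ᵥ x := by
  simp only [dotProduct]
  exact Finset.sum_nonneg (fun i _ => mul_self_nonneg _)

private theorem w2c_zero {n : ℕ} (x : Fin n → ℝ) (h : x ⬝ᵥ x = 0) : x = 0 := by
  simp only [dotProduct] at h
  rw [Finset.sum_eq_zero_iff_of_nonneg (fun i _ => mul_self_nonneg _)] at h
  funext i
  have := h i (Finset.mem_univ i)
  simpa using this

private theorem w2c_sub {n : ℕ} (x z : Fin n → ℝ) (hx : x ⬝ᵥ x = 1) :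
    (z - (x ⬝ᵥ z) • x) ⬝ᵥ (z - (x ⬝ᵥ z) • x) = z ⬝ᵥ z - (x ⬝ᵥ z) ^ 2 := by
  simp only [sub_dotProduct, dotProduct_sub, smul_dotProduct, dotProduct_smul, smul_eq_mul]
  rw [hx, dotProduct_comm z x]
  ring

private theorem w2c_cs {n : ℕ} (x z : Fin n → ℝ) (hx : x ⬝ᵥ x = 1) (hz : z ⬝ᵥ z = 1) :
    (x ⬝ᵥ z) ^ 2 ≤ 1 := by
  have h := w2c_sub x z hx
  have h2 := w2c_nonneg (z - (x ⬝ᵥ z) • x)
  rw [h, hz] at h2
  linarith

private theorem w2c_eq {n : ℕ} (x z : Fin n → ℝ) (hx : x ⬝ᵥ x = 1) (hz : z ⬝ᵥ z = 1)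
    (h1 : 1 ≤ (x ⬝ᵥ z) ^ 2) : z = x ∨ z = -x := by
  have h := w2c_sub x z hx
  have h2 := w2c_nonneg (z - (x ⬝ᵥ z) • x)
  have h3 : (x ⬝ᵥ z) ^ 2 = 1 := le_antisymm (w2c_cs x z hx hz) h1
  rw [hz, h3, sub_self] at h
  have h4 := sub_eq_zero.1 (w2c_zero _ h)
  rcases (show x ⬝ᵥ z = 1 ∨ x ⬝ᵥ z = -1 from by
    have h6 : (x ⬝ᵥ z - 1) * (x ⬝ᵥ z + 1) = 0 := by linarith [h3, sq (x ⬝ᵥ z), show (x ⬝ᵥ z - 1) * (x ⬝ᵥ z + 1) = (x ⬝ᵥ z) ^ 2 - 1 from by ring]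
    rcases mul_eq_zero.1 h6 with h | h
    · left; linarith
    · right; linarith) with h5 | h5
  · left; rw [h5, one_smul] at h4; exact h4
  · right; rw [h5, neg_one_smul] at h4; exact h4

/-- maximisers of `c Vh x`, `c > 0` -/
theorem RM_Vh {n : ℕ} (hn : 2 ≤ n) (x : Fin n → ℝ) (hx : x ⬝ᵥ x = 1) (c : ℝ) (hc : 0 < c)
    (z : Fin n → ℝ) : RM (c • Vh x) z ↔ z = x ∨ z = -x := by
  have hcn := cn_pos hn
  have key : ∀ w : Fin n → ℝ, w ⬝ᵥ w = 1 →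
      w ⬝ᵥ ((c • Vh x) *ᵥ w) = (c * cn n) * ((x ⬝ᵥ w) ^ 2 - 1 / (n : ℝ)) := by
    intro w hw
    rw [smul_mulVec, dotProduct_smul, smul_eq_mul, w2c_quad, hw]
    ring
  have hp : 0 < c * cn n := mul_pos hc hcn
  constructor
  · rintro ⟨hz, h⟩
    have h1 := h x hx
    rw [key x hx, key z hz, hx] at h1
    have h2 := le_of_mul_le_mul_left h1 hp
    exact w2c_eq x z hx hz (by linarith)
  · intro h
    have hz : z ⬝ᵥ z = 1 := by
      rcases h with rfl | rfl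
      · exact hx
      · simpa using hx
    have h3 : (x ⬝ᵥ z) ^ 2 = 1 := by
      rcases h with rfl | rfl
      · rw [hx]; norm_num
      · rw [dotProduct_neg, hx]; norm_num
    refine ⟨hz, fun w hw => ?_⟩
    rw [key w hw, key z hz, h3]
    refine mul_le_mul_of_nonneg_left ?_ hp.le
    have := w2c_cs x w hx hw
    linarith

private theorem w2c_orth {n : ℕ} (hn : 2 ≤ n) (x : Fin n → ℝ) :
    ∃ w : Fin n → ℝ, w ⬝ᵥ w = 1 ∧ x ⬝ᵥ w = 0 := by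
  set i : Fin n := ⟨0, by omega⟩
  set j : Fin n := ⟨1, by omega⟩
  have hij : i ≠ j := by simp [i, j]
  by_cases h : x i = 0
  · refine ⟨Pi.single i 1, by simp, ?_⟩
    simp [h]
  · set v : Fin n → ℝ := Pi.single i (x j) - Pi.single j (x i) with hv
    have hvv : v ⬝ᵥ v = x j ^ 2 + x i ^ 2 := by
      rw [hv]
      simp only [sub_dotProduct, dotProduct_sub, single_dotProduct, Pi.sub_apply,
        Pi.single_eq_same, Pi.single_eq_of_ne hij, Pi.single_eq_of_ne hij.symm]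
      ring
    have hxv : x ⬝ᵥ v = 0 := by
      rw [hv]
      simp only [dotProduct_sub, dotProduct_single]
      ring
    have hpos : 0 < v ⬝ᵥ v := by
      rw [hvv]
      have : 0 < x i ^ 2 := by positivity
      positivity
    have hs : Real.sqrt (v ⬝ᵥ v) * Real.sqrt (v ⬝ᵥ v) = v ⬝ᵥ v := Real.mul_self_sqrt hpos.le
    have hs0 : Real.sqrt (v ⬝ᵥ v) ≠ 0 := (Real.sqrt_pos.2 hpos).ne'
    refine ⟨(Real.sqrt (v ⬝ᵥ v))⁻¹ • v, ?_, ?_⟩
    · rw [smul_dotProduct, dotProduct_smul, smul_eq_mul, smul_eq_mul]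
      nth_rewrite 3 [← hs]
      field_simp
    · rw [dotProduct_smul, hxv, smul_zero]

theorem RM_neg_Vh {n : ℕ} (hn : 2 ≤ n) (x : Fin n → ℝ) (hx : x ⬝ᵥ x = 1) (c : ℝ) (hc : 0 < c)
    (z : Fin n → ℝ) : RM (-(c • Vh x)) z ↔ z ⬝ᵥ z = 1 ∧ z ⬝ᵥ x = 0 := by
  have hcn := cn_pos hn
  have key : ∀ w : Fin n → ℝ, w ⬝ᵥ w = 1 →
      w ⬝ᵥ ((-(c • Vh x)) *ᵥ w) = (c * cn n) * (1 / (n : ℝ) - (x ⬝ᵥ w) ^ 2) := by
    intro w hw
    rw [neg_mulVec, dotProduct_neg, smul_mulVec, dotProduct_smul, smul_eq_mul, w2c_quad, hw]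
    ring
  have hp : 0 < c * cn n := mul_pos hc hcn
  constructor
  · rintro ⟨hz, h⟩
    refine ⟨hz, ?_⟩
    obtain ⟨w, hw, hxw⟩ := w2c_orth hn x
    have h1 := h w hw
    rw [key w hw, key z hz, hxw] at h1
    have h2 := le_of_mul_le_mul_left h1 hp
    have h3 : (x ⬝ᵥ z) ^ 2 ≤ 0 := by linarith
    rw [dotProduct_comm]
    exact pow_eq_zero_iff (two_ne_zero) |>.1 (le_antisymm h3 (sq_nonneg _))
  · rintro ⟨hz, hzx⟩
    refine ⟨hz, fun w hw => ?_⟩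
    rw [dotProduct_comm] at hzx
    rw [key w hw, key z hz, hzx]
    refine mul_le_mul_of_nonneg_left ?_ hp.le
    have := sq_nonneg (x ⬝ᵥ w)
    linarith

end BK
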