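import Crest.Agent.BK_W1
import Crest.Agent.BK_W2a

set_option autoImplicit false

namespace BK
open Finset Matrix Filter Topology

/-! Task BK-W2: Rayleigh quotients of symmetric matrices (use `Matrix.IsHermitian` spectral theorem
or elementary variation arguments). -/

/-- orthonormal eigenbasis, elementary form -/
private theorem W2d_basis {n : ℕ} (M : Matrix (Fin n) (Fin n) ℝ) (hM : M.IsSymm) :
    ∃ (e : Fin n → Fin n → ℝ) (l : Fin n → ℝ), (∀ j, M *ᵥ e j = l j • e j) ∧
      (∀ j, e j ⬝ᵥ e j = 1) ∧ (∀ j k, j ≠ k → e j ⬝ᵥ e k = 0) ∧ M.trace = ∑ j, l j ∧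
      ∀ N : Matrix (Fin n) (Fin n) ℝ, (∀ j, M *ᵥ e j = N *ᵥ e j) → M = N := by
  have hH : M.IsHermitian := by
    rw [Matrix.IsHermitian, Matrix.conjTranspose_eq_transpose_of_trivial]; exact hM
  have hin : ∀ j k, (hH.eigenvectorBasis j : Fin n → ℝ) ⬝ᵥ (hH.eigenvectorBasis k : Fin n → ℝ) =
      if j = k then 1 else 0 := by
    intro j k
    have h1 := (orthonormal_iff_ite.1 hH.eigenvectorBasis.orthonormal) k j
    rw [EuclideanSpace.inner_eq_star_dotProduct] at h1
    simp only [star_trivial] at h1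
    rw [h1]
    simp [eq_comm]
  refine ⟨fun j => (hH.eigenvectorBasis j : Fin n → ℝ), hH.eigenvalues,
    fun j => hH.mulVec_eigenvectorBasis j, fun j => ?_, fun j k hjk => ?_, ?_, ?_⟩
  · rw [hin, if_pos rfl]
  · rw [hin, if_neg hjk]
  · simpa using hH.trace_eq_sum_eigenvalues
  · intro N hN
    have h1 : M.mulVecLin ∘ₗ (WithLp.linearEquiv 2 ℝ (Fin n → ℝ)).toLinearMap =
        N.mulVecLin ∘ₗ (WithLp.linearEquiv 2 ℝ (Fin n → ℝ)).toLinearMap := by
      apply hH.eigenvectorBasis.toBasis.ext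
      intro j
      simpa using hN j
    apply Matrix.mulVec_injective
    funext z
    have h2 := congrArg (fun f => f (WithLp.toLp 2 z)) h1
    simpa using h2

private theorem W2d_symm {n : ℕ} (M : Matrix (Fin n) (Fin n) ℝ) (hM : M.IsSymm)
    (x y : Fin n → ℝ) : x ⬝ᵥ (M *ᵥ y) = (M *ᵥ x) ⬝ᵥ y := by
  rw [dotProduct_mulVec, ← mulVec_transpose, hM.eq]

/-- If a traceless symmetric matrix `M ≠ 0` is not of the form `c • Vh x`, then for every `p` there
is a unit vector orthogonal to `p` and to all minimisers of `M`. (Take two orthonormal eigenvectors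
whose eigenvalues are larger than the smallest one, and a combination of them orthogonal to `p`.) -/
theorem RM_dich {n : ℕ} (hn : 2 ≤ n) (M : Matrix (Fin n) (Fin n) ℝ) (hM : TS M) (hM0 : M ≠ 0)
    (p : Fin n → ℝ) : (∃ x, x ⬝ᵥ x = 1 ∧ M = fn M • Vh x) ∨
      (∃ v, v ⬝ᵥ v = 1 ∧ v ⬝ᵥ p = 0 ∧ ∀ y, RM (-M) y → v ⬝ᵥ y = 0) := by
  obtain ⟨e, l, he, h1, h0, htr, hext⟩ := W2d_basis M hM.1
  have hn0 : (0 : ℝ) < n := by
    have : 0 < n := by omega
    exact_mod_cast this
  have : Nonempty (Fin n) := ⟨⟨0, by omega⟩⟩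
  obtain ⟨i0, hi0⟩ := Finite.exists_min l
  -- orthogonality to minimisers
  have horth : ∀ j, l i0 < l j → ∀ y, RM (-M) y → e j ⬝ᵥ y = 0 := by
    intro j hj y hy
    have hy1 := RM_eig (-M) hM.1.neg y hy
    have hy2 := hy.2 (e i0) (h1 i0)
    set a := y ⬝ᵥ (M *ᵥ y) with ha
    have hMy : M *ᵥ y = a • y := by
      rw [neg_mulVec, dotProduct_neg, neg_smul] at hy1
      exact neg_injective hy1
    have hle : a ≤ l i0 := by
      rw [neg_mulVec, neg_mulVec, dotProduct_neg, dotProduct_neg, he, dotProduct_smul, h1,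
        smul_eq_mul, mul_one] at hy2
      linarith
    have h3 := W2d_symm M hM.1 (e j) y
    rw [hMy, he, dotProduct_smul, smul_dotProduct, smul_eq_mul, smul_eq_mul] at h3
    have h4 : (l j - a) * (e j ⬝ᵥ y) = 0 := by linarith
    rcases mul_eq_zero.1 h4 with h5 | h5
    · linarith
    · exact h5
  by_cases hI : ∃ j k, j ≠ k ∧ l i0 < l j ∧ l i0 < l k
  · right
    obtain ⟨j, k, hjk, hj, hk⟩ := hI
    have hkj := h0 k j (Ne.symm hjk)
    have hjk' := h0 j k hjk
    by_cases hp : e j ⬝ᵥ p = 0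
    · exact ⟨e j, h1 j, hp, horth j hj⟩
    · set a := e j ⬝ᵥ p with ha
      set b := e k ⬝ᵥ p with hb
      set w : Fin n → ℝ := b • e j - a • e k with hw
      have hww : w ⬝ᵥ w = a ^ 2 + b ^ 2 := by
        rw [hw]
        simp only [sub_dotProduct, dotProduct_sub, smul_dotProduct, dotProduct_smul, h1, hkj, hjk',
          smul_eq_mul]
        ring
      have hpos : 0 < w ⬝ᵥ w := by rw [hww]; positivity
      have hwp : w ⬝ᵥ p = 0 := by
        rw [hw, sub_dotProduct, smul_dotProduct, smul_dotProduct, ← ha, ← hb, smul_eq_mul,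
          smul_eq_mul]
        ring
      set s := Real.sqrt (w ⬝ᵥ w) with hs
      have hs0 : 0 < s := Real.sqrt_pos.2 hpos
      have hss : s * s = w ⬝ᵥ w := Real.mul_self_sqrt hpos.le
      refine ⟨s⁻¹ • w, ?_, ?_, ?_⟩
      · rw [smul_dotProduct, dotProduct_smul, ← hss, smul_eq_mul, smul_eq_mul]
        field_simp
      · rw [smul_dotProduct, hwp, smul_zero]
      · intro y hy
        rw [smul_dotProduct, hw, sub_dotProduct, smul_dotProduct, smul_dotProduct,
          horth j hj y hy, horth k hk y hy]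
        simp
  · left
    obtain ⟨j0, hj0⟩ : ∃ j0, ∀ j, j ≠ j0 → l j = l i0 := by
      by_cases hex : ∃ j0, l i0 < l j0
      · obtain ⟨j0, hj0⟩ := hex
        refine ⟨j0, fun j hj => ?_⟩
        by_contra hne
        exact hI ⟨j, j0, hj, lt_of_le_of_ne (hi0 j) (Ne.symm hne), hj0⟩
      · push Not at hex
        exact ⟨i0, fun j _ => le_antisymm (hex j) (hi0 j)⟩
    set c := l j0 - l i0 with hc
    have hc0 : 0 ≤ c := sub_nonneg.2 (hi0 j0)
    have hsum : (n : ℝ) * l i0 + c = 0 := by
      have h2 : ∑ j, l j = ∑ j, (l i0 + if j = j0 then c else 0) := by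
        refine Finset.sum_congr rfl fun j _ => ?_
        by_cases hj : j = j0
        · subst hj; simp [hc]
        · rw [if_neg hj, hj0 j hj]; ring
      rw [hM.2] at htr
      rw [← htr, Finset.sum_add_distrib, Finset.sum_ite_eq' Finset.univ j0] at h2
      simp at h2
      linarith
    have hcn := cn_pos hn
    have hMV : M = (c / cn n) • Vh (e j0) := by
      apply hext
      intro j
      rw [smul_mulVec, Vh_mulVec, he, smul_smul, div_mul_cancel₀ _ hcn.ne']
      have hli : l i0 = -(c * (1 / (n : ℝ))) := by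
        field_simp
        linarith
      by_cases hj : j = j0
      · subst hj
        rw [h1, one_smul, smul_sub, smul_smul, ← sub_smul]
        congr 1
        linarith
      · rw [h0 j0 j (Ne.symm hj), zero_smul, zero_sub, smul_neg, smul_smul, ← neg_smul, hj0 j hj,
          hli]
    refine ⟨e j0, h1 j0, ?_⟩
    have hfn : fn M = c / cn n := by
      rw [hMV, fn_smul, fn_Vh hn _ (h1 j0), mul_one, abs_of_nonneg (by positivity)]
    rw [hfn]
    exact hMV

end BK
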