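import Crest.Agent.BK_W1
import Crest.Agent.BK_W2

set_option autoImplicit false

namespace BK
open Finset Matrix Filter Topology

variable {n : ℕ} {C : Type} [Fintype C] [DecidableEq C]

/-- Task BK-M1 (Z0). By `RM_dich`: otherwise a unit `v` is orthogonal to `p` and to all minimisers;
its colour `i` (`phi v i ≠ 0`) is neither in `σ` (`p ∈ A i`) nor outside of `σ`. -/
theorem Z0 (hn : 2 ≤ n) (S : CS n C) (σ : Finset C) (M : Matrix (Fin n) (Fin n) ℝ) (hM : TS M)
    (hM0 : M ≠ 0) (p : Fin n → ℝ) (hp : ∀ i ∈ σ, p ∈ S.A i)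
    (h : ∀ i, i ∉ σ → ∃ y, RM (-M) y ∧ y ∈ S.A i) : ∃ x, x ⬝ᵥ x = 1 ∧ M = fn M • Vh x := by
  rcases RM_dich hn M hM hM0 p with h1 | ⟨v, hv1, hvp, hvy⟩
  · exact h1
  · exfalso
    have hv0 : v ≠ 0 := by
      intro h0
      rw [h0] at hv1
      simp at hv1
    have hs := S.sum_one v hv0
    obtain ⟨i, -, hi⟩ : ∃ i ∈ (Finset.univ : Finset C), S.phi v i ≠ 0 := by
      apply Finset.exists_ne_zero_of_sum_ne_zero
      rw [hs]; exact one_ne_zero
    have hvA : v ∈ S.A i := S.supp v i hv0 hi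
    by_cases hiσ : i ∈ σ
    · exact S.orth i v hvA p (hp i hiσ) hvp
    · obtain ⟨y, hy, hyA⟩ := h i hiσ
      exact S.orth i v hvA y hyA (hvy y hy)

/-- convex combinations of admissible weights are admissible -/
theorem adm_comb (S : CS n C) (M : Matrix (Fin n) (Fin n) ℝ) (u v : C → ℝ) (hu : Adm S M u)
    (hv : Adm S M v) (a b : ℝ) (ha : 0 ≤ a) (hb : 0 ≤ b) (hab : a + b = 1) :
    Adm S M (fun i => a * u i + b * v i) := by
  intro hM0
  obtain ⟨hu1, hu2, hu3, hu4⟩ := hu hM0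
  obtain ⟨hv1, hv2, hv3, hv4⟩ := hv hM0
  refine ⟨?_, ?_, ?_, ?_⟩
  · intro i
    exact add_nonneg (mul_nonneg ha (hu1 i)) (mul_nonneg hb (hv1 i))
  · simp only
    rw [Finset.sum_add_distrib, ← Finset.mul_sum, ← Finset.mul_sum, hu2, hv2, mul_one, mul_one,
      hab]
  · intro i hi
    by_cases h1 : u i = 0
    · by_cases h2 : v i = 0
      · exfalso; apply hi; simp [h1, h2]
      · exact hv3 i h2
    · exact hu3 i h1
  · intro x hx hx' i
    simp only
    rw [hu4 x hx hx' i, hv4 x hx hx' i, ← add_mul, hab, one_mul]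

end BK
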