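import Crest.Agent.BK_W1
import Crest.Agent.BK_W2
import Crest.Agent.BK_M1a

set_option autoImplicit false

namespace BK
open Finset Matrix Filter Topology

variable {n : ℕ} {C : Type} [Fintype C] [DecidableEq C]

/-- Task BK-M1 (Z1). For `i ∉ σ`: `v i > 0`, so `Z0` applies; `u = phi x`; for `i ∈ σ`, `u i > 0` so
`x ∈ A i` and `v i = 0` (else a minimiser `y ⊥ x` in `A i`); for `i ∉ σ`, `u i = 0`. Sum over
`σ`. -/
theorem Z1 (hn : 2 ≤ n) (S : CS n C) (σ : Finset C) (hσ : σ.card = n) (hσ' : n < Fintype.card C)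
    (M : Matrix (Fin n) (Fin n) ℝ) (hM : TS M) (hM0 : M ≠ 0) (p : Fin n → ℝ)
    (hp : ∀ i ∈ σ, p ∈ S.A i) (u v : C → ℝ) (hu : Adm S M u) (hv : Adm S (-M) v) (ρ lam : ℝ)
    (hρ : 0 < ρ) (hlam : 0 < lam) (h : ∀ i, ρ * (u i - v i) = lam * zt n σ i) :
    ∃ x, x ⬝ᵥ x = 1 ∧ M = fn M • Vh x ∧ IsXi S σ x ∧ ρ = lam := by
  have hnpos : (0 : ℝ) < n := by
    have : 0 < n := by omega
    exact_mod_cast this
  have hcard : (0 : ℝ) < (Fintype.card C : ℝ) - n := by
    have : (n : ℝ) < (Fintype.card C : ℝ) := by exact_mod_cast hσ'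
    linarith
  obtain ⟨hu1, hu2, hu3, hu4⟩ := hu hM0
  obtain ⟨hv1, hv2, hv3, hv4⟩ := hv (neg_ne_zero.mpr hM0)
  have h1 : ∀ i, i ∉ σ → ∃ y, RM (-M) y ∧ y ∈ S.A i := by
    intro i hi
    apply hv3 i
    intro h0
    have he := h i
    rw [h0] at he
    simp only [zt, if_neg hi] at he
    have hp1 : 0 < lam * (1 / ((Fintype.card C : ℝ) - n)) := by positivity
    have hp2 : 0 ≤ ρ * u i := mul_nonneg hρ.le (hu1 i)
    linarith
  obtain ⟨x, hx1, hxM⟩ := Z0 hn S σ M hM hM0 p hp h1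
  have hfn : 0 < fn M := by
    rcases (fn_nonneg M).lt_or_eq with h0 | h0
    · exact h0
    · exact absurd ((fn_eq_zero M).1 h0.symm) hM0
  have hx0 : x ≠ 0 := by
    intro h0
    rw [h0] at hx1
    simp at hx1
  have hRx : RM M x := by
    have := (RM_Vh hn x hx1 (fn M) hfn x).2 (Or.inl rfl)
    rwa [← hxM] at this
  have huniq : ∀ z, RM M z → z = x ∨ z = -x := by
    intro z hz
    rw [hxM] at hz
    exact (RM_Vh hn x hx1 (fn M) hfn z).1 hz
  have hux : ∀ i, u i = S.phi x i := hu4 x hRx huniq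
  have hu_in : ∀ i ∈ σ, u i = lam / (ρ * n) := by
    intro i hi
    have he := h i
    simp only [zt, if_pos hi] at he
    have hvi : v i = 0 := by
      by_contra hne
      obtain ⟨y, hy, hyA⟩ := hv3 i hne
      have hupos : 0 < u i := by
        have hp1 : 0 < lam * (1 / (n : ℝ)) := by positivity
        have hp2 : 0 ≤ ρ * v i := mul_nonneg hρ.le (hv1 i)
        have hp3 : 0 < ρ * u i := by linarith
        exact (mul_pos_iff_of_pos_left hρ).1 hp3
      have hxA : x ∈ S.A i := S.supp x i hx0 (by rw [← hux i]; exact ne_of_gt hupos)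
      exact S.orth i x hxA y hyA (RM_orth M hM hM0 x y hRx hy)
    rw [hvi] at he
    rw [eq_div_iff (by positivity)]
    have : ρ * (u i - 0) * n = lam * (1 / n) * n := by rw [he]
    rw [mul_assoc, one_div, mul_assoc, inv_mul_cancel₀ (ne_of_gt hnpos), mul_one] at this
    linarith
  have hu_out : ∀ i, i ∉ σ → u i = 0 := by
    intro i hi
    by_contra hne
    obtain ⟨y, hy, hyA⟩ := h1 i hi
    have hxA : x ∈ S.A i := S.supp x i hx0 (by rw [← hux i]; exact hne)
    exact S.orth i x hxA y hyA (RM_orth M hM hM0 x y hRx hy)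
  have hsum : ∑ i ∈ σ, u i = 1 := by
    rw [← hu2]
    exact Finset.sum_subset (Finset.subset_univ σ) (fun i _ hi => hu_out i hi)
  rw [Finset.sum_congr rfl hu_in, Finset.sum_const, hσ, nsmul_eq_mul] at hsum
  have hρl : ρ = lam := by
    have : (n : ℝ) * (lam / (ρ * n)) = lam / ρ := by field_simp
    rw [this, div_eq_one_iff_eq (ne_of_gt hρ)] at hsum
    exact hsum.symm
  refine ⟨x, hx1, hxM, ?_, hρl⟩
  intro i
  rw [← hux i]
  by_cases hi : i ∈ σ
  · rw [if_pos hi, hu_in i hi, hρl]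
    field_simp
  · rw [if_neg hi, hu_out i hi]

end BK
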