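import Crest.Agent.BK_M1

set_option autoImplicit false

namespace BK
open Finset Matrix Filter Topology

variable {n : ℕ} {C : Type} [Fintype C] [DecidableEq C]

private theorem Z2b_sum_zt (hn : 2 ≤ n) (σ : Finset C) (hσ : σ.card = n)
    (hσ' : n < Fintype.card C) : ∑ i, zt n σ i = 0 := by
  have hn0 : (n : ℝ) ≠ 0 := by positivity
  have hC : ((Fintype.card C : ℝ) - n) ≠ 0 := by
    have : (n : ℝ) < Fintype.card C := by exact_mod_cast hσ'
    linarith
  unfold zt
  rw [Finset.sum_ite]
  have e1 : (univ.filter (fun i => i ∈ σ)) = σ := by ext; simp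
  have e2 : (univ.filter (fun i => i ∉ σ)) = σᶜ := by ext; simp
  rw [e1, e2, Finset.sum_const, Finset.sum_const, Finset.card_compl, hσ, nsmul_eq_mul,
    nsmul_eq_mul, Nat.cast_sub hσ'.le]
  field_simp
  ring

/-- Task BK-M2 (outer boundary). With `M = M0 y`, `ρ = fn M`: if `M = 0` then `θ = 1`, `tr y = 0`,
`y = 0`. If `M ≠ 0`: sum over `i` gives `tr y = 0`; `ρ((w1+θ w4) - (w2+θ w3)) = (1-θ) zt`. `θ = 1` is
impossible (a colour with `w1 i > 0` is met by the maximisers and the minimisers), for `θ < 1` use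
`Z1` with `u = (w1+θ w4)/(1+θ)`, `v = (w2+θ w3)/(1+θ)`: `ρ(1+θ) = 1-θ`, so `‖y‖ ≤ ρ ≤ 1`. -/
theorem Z2b (hn : 2 ≤ n) (S : CS n C) (σ : Finset C) (hσ : σ.card = n)
    (hσ' : n < Fintype.card C) (p : Fin n → ℝ) (hp : ∀ i ∈ σ, p ∈ S.A i)
    (y : Sym2 (Fin n) → ℝ) (θ : ℝ) (hθ : θ ∈ Set.Icc (0 : ℝ) 1) (h : ZEq S (zt n σ) 0 y θ) :
    ‖y‖ ≤ 1 := by
  obtain ⟨w1, w2, w3, w4, h1, h2, h3, h4, heq⟩ := h
  obtain ⟨hθ0, hθ1⟩ := hθ
  rw [zero_add] at h1 h2
  rw [zero_sub, M0_neg] at h3 h4
  rw [neg_neg] at h4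
  have heq' : ∀ i, fn (M0 y) * (w1 i - w2 i) - zt n σ i + tr y =
      θ * (fn (M0 y) * (w3 i - w4 i) - zt n σ i - tr y) := by
    intro i
    have := heq i
    rw [zero_add, zero_sub, M0_neg, fn_neg, tr_neg] at this
    rw [this]; ring
  have hnR : (0 : ℝ) < n := by positivity
  have hCn : (0 : ℝ) < (Fintype.card C : ℝ) - n := by
    have : (n : ℝ) < Fintype.card C := by exact_mod_cast hσ'
    linarith
  have hCpos : (0 : ℝ) < (Fintype.card C : ℝ) := by linarith
  by_cases hM : M0 y = 0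
  · -- M = 0
    have hfn : fn (M0 y) = 0 := (fn_eq_zero _).2 hM
    obtain ⟨i, hi⟩ : ∃ i, i ∈ σ := by
      have : 0 < σ.card := by omega
      exact Finset.card_pos.1 this
    obtain ⟨j, hj⟩ : ∃ j, j ∉ σ := by
      by_contra hcon
      push Not at hcon
      have : σ = univ := Finset.eq_univ_of_forall hcon
      rw [this, Finset.card_univ] at hσ
      omega
    have hi' := heq' i
    have hj' := heq' j
    rw [hfn] at hi' hj'
    simp only [zt, hi, hj, if_true, if_false] at hi' hj'
    have a1 : 0 < 1 / (n : ℝ) := by positivity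
    have a2 : 0 < 1 / ((Fintype.card C : ℝ) - n) := by positivity
    have b1 : (1 + θ) * tr y = (1 - θ) * (1 / (n : ℝ)) := by linarith
    have b2 : (1 + θ) * tr y = -((1 - θ) * (1 / ((Fintype.card C : ℝ) - n))) := by linarith
    have b3 : (1 + θ) * tr y = 0 := by
      have c1 : 0 ≤ (1 - θ) * (1 / (n : ℝ)) := by
        apply mul_nonneg (by linarith) a1.le
      have c2 : 0 ≤ (1 - θ) * (1 / ((Fintype.card C : ℝ) - n)) := by
        apply mul_nonneg (by linarith) a2.le
      linarith
    have b4 : tr y = 0 := by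
      rcases mul_eq_zero.1 b3 with h | h
      · linarith
      · exact h
    have : y = 0 := by
      apply eq_of_M0_tr
      · rw [hM, M0_zero]
      · rw [b4]; simp [tr]
    rw [this]; simp
  · have hfn : 0 < fn (M0 y) := by
      rcases (fn_nonneg (M0 y)).lt_or_eq with h | h
      · exact h
      · exact absurd ((fn_eq_zero _).1 h.symm) hM
    have hMn : -(M0 y) ≠ 0 := by
      simpa using hM
    have ⟨p1, s1, q1, _⟩ := h1 hM
    have ⟨p2, s2, q2, _⟩ := h2 hMn
    have ⟨p3, s3, q3, _⟩ := h3 hMn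
    have ⟨p4, s4, q4, _⟩ := h4 hM
    have hsum : ∑ i, (fn (M0 y) * (w1 i - w2 i) - zt n σ i + tr y) =
        ∑ i, θ * (fn (M0 y) * (w3 i - w4 i) - zt n σ i - tr y) :=
      Finset.sum_congr rfl (fun i _ => heq' i)
    have ht : tr y = 0 := by
      rw [← Finset.mul_sum] at hsum
      simp only [Finset.sum_add_distrib, Finset.sum_sub_distrib, ← Finset.mul_sum, s1, s2, s3, s4,
        Z2b_sum_zt hn σ hσ hσ', Finset.sum_const, Finset.card_univ, nsmul_eq_mul] at hsum
      have : (1 + θ) * ((Fintype.card C : ℝ) * tr y) = 0 := by linarith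
      rcases mul_eq_zero.1 this with h | h
      · linarith
      · rcases mul_eq_zero.1 h with h | h
        · linarith
        · exact h
    have heq2 : ∀ i, fn (M0 y) * ((w1 i + θ * w4 i) - (w2 i + θ * w3 i)) =
        (1 - θ) * zt n σ i := by
      intro i
      have := heq' i
      rw [ht] at this
      linarith
    rcases hθ1.lt_or_eq with hlt | heq1
    · -- θ < 1
      have h1θ : (0 : ℝ) < 1 + θ := by linarith
      have hab : 1 / (1 + θ) + θ / (1 + θ) = 1 := by field_simp
      have u1 := adm_comb S (M0 y) w1 w4 h1 h4 (1 / (1 + θ)) (θ / (1 + θ))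
        (by positivity) (by positivity) hab
      have u2 := adm_comb S (-(M0 y)) w2 w3 h2 h3 (1 / (1 + θ)) (θ / (1 + θ))
        (by positivity) (by positivity) hab
      have hρ : 0 < fn (M0 y) * (1 + θ) := by positivity
      obtain ⟨x, _, _, _, hx⟩ := Z1 hn S σ hσ hσ' (M0 y) (M0_TS (by omega) y) hM p hp _ _ u1 u2
        (fn (M0 y) * (1 + θ)) (1 - θ) hρ (by linarith) (by
          intro i
          rw [← heq2 i]
          field_simp)
      have h5 : ‖y‖ ≤ fn (M0 y) := norm_le_fn y ht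
      nlinarith
    · -- θ = 1
      exfalso
      obtain ⟨i, hi⟩ : ∃ i, w1 i ≠ 0 := by
        by_contra hcon
        push Not at hcon
        rw [Finset.sum_eq_zero (fun i _ => hcon i)] at s1
        norm_num at s1
      have hpos : 0 < w1 i := lt_of_le_of_ne (p1 i) (Ne.symm hi)
      have h6 := heq2 i
      rw [heq1] at h6
      have h7 : (w1 i + 1 * w4 i) - (w2 i + 1 * w3 i) = 0 := by
        have : fn (M0 y) * ((w1 i + 1 * w4 i) - (w2 i + 1 * w3 i)) = 0 := by
          rw [h6]; ring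
        rcases mul_eq_zero.1 this with h | h
        · linarith
        · exact h
      have hw : w2 i ≠ 0 ∨ w3 i ≠ 0 := by
        by_contra hcon
        push Not at hcon
        have := p4 i
        rw [hcon.1, hcon.2] at h7
        linarith
      obtain ⟨x, hx, hxA⟩ := q1 i hi
      have : ∃ z, RM (-(M0 y)) z ∧ z ∈ S.A i := by
        rcases hw with h | h
        · exact q2 i h
        · exact q3 i h
      obtain ⟨z, hz, hzA⟩ := this
      exact S.orth i x hxA z hzA (RM_orth (M0 y) (M0_TS (by omega) y) hM x z hx hz)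

end BK
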