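import Crest.Agent.BK_M1

set_option autoImplicit false

namespace BK
open Finset Matrix Filter Topology

variable {n : ℕ} {C : Type} [Fintype C] [DecidableEq C]

private theorem zt_sum_aux (hn : 0 < n) (σ : Finset C) (hσ : σ.card = n)
    (hσ' : n < Fintype.card C) : ∑ i, zt n σ i = 0 := by
  classical
  have hcn : (0 : ℝ) < (Fintype.card C : ℝ) - n := by
    have : (n : ℝ) < (Fintype.card C : ℝ) := by exact_mod_cast hσ'
    linarith
  have hn' : (0 : ℝ) < n := by exact_mod_cast hn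
  unfold zt
  rw [Finset.sum_ite]
  have h1 : (Finset.univ.filter (fun i : C => i ∈ σ)) = σ := by ext; simp
  have h2 : (Finset.univ.filter (fun i : C => i ∉ σ)).card = Fintype.card C - n := by
    have : (Finset.univ.filter (fun i : C => i ∉ σ)) = σᶜ := by ext; simp
    rw [this, Finset.card_compl, hσ]
  rw [h1, Finset.sum_const, Finset.sum_const, h2, hσ]
  simp only [nsmul_eq_mul]
  rw [Nat.cast_sub hσ'.le]
  field_simp
  ring

/-- Task BK-M2 (limit zeros). `M0 y ≠ 0` because `zt` is not constant; summing over `i` gives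
`tr y = 0`; apply `Z1` with `ρ = fn (M0 y)`, `λ = 1`. -/
theorem Z2a (hn : 2 ≤ n) (S : CS n C) (σ : Finset C) (hσ : σ.card = n)
    (hσ' : n < Fintype.card C) (p : Fin n → ℝ) (hp : ∀ i ∈ σ, p ∈ S.A i)
    (y : Sym2 (Fin n) → ℝ) (h : ZEq S (zt n σ) 0 y 0) :
    ∃ x, x ⬝ᵥ x = 1 ∧ IsXi S σ x ∧ y = toE (Vh x) := by
  classical
  have hcn : (0 : ℝ) < (Fintype.card C : ℝ) - n := by
    have : (n : ℝ) < (Fintype.card C : ℝ) := by exact_mod_cast hσ'
    linarith
  have hn0 : 0 < n := by omega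
  have hn' : (0 : ℝ) < n := by exact_mod_cast hn0
  obtain ⟨w1, w2, w3, w4, h1, h2, -, -, heq⟩ := h
  have z : (0 : Sym2 (Fin n) → ℝ) + y = y := zero_add y
  rw [z] at h1 h2
  simp only [z, zero_mul] at heq
  have hM0 : M0 y ≠ 0 := by
    intro h0
    have hf : fn (M0 y) = 0 := (fn_eq_zero _).2 h0
    obtain ⟨i, hi⟩ : σ.Nonempty := by
      rw [← Finset.card_pos, hσ]; exact hn0
    obtain ⟨j, hj⟩ : ∃ j, j ∉ σ := by
      by_contra hcon
      push Not at hcon
      have : σ = Finset.univ := by ext; simp [hcon]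
      rw [this, Finset.card_univ] at hσ
      omega
    have e1 := heq i
    have e2 := heq j
    rw [hf] at e1 e2
    unfold zt at e1 e2
    rw [if_pos hi] at e1
    rw [if_neg hj] at e2
    have p1 : (0 : ℝ) < 1 / (n : ℝ) := by positivity
    have p2 : (0 : ℝ) < 1 / ((Fintype.card C : ℝ) - n) := by positivity
    linarith
  have hM0' : -(M0 y) ≠ 0 := neg_ne_zero.2 hM0
  have s1 := (h1 hM0).2.1
  have s2 := (h2 hM0').2.1
  have hsum : ∑ i, (fn (M0 y) * (w1 i - w2 i) - zt n σ i + tr y) = 0 :=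
    Finset.sum_eq_zero (fun i _ => heq i)
  rw [Finset.sum_add_distrib, Finset.sum_sub_distrib, ← Finset.mul_sum, Finset.sum_sub_distrib,
    s1, s2, zt_sum_aux hn0 σ hσ hσ'] at hsum
  simp only [sub_self, mul_zero, zero_add, Finset.sum_const, Finset.card_univ, nsmul_eq_mul] at hsum
  have hcard : (Fintype.card C : ℝ) ≠ 0 := by
    have : (0 : ℝ) < (Fintype.card C : ℝ) := by linarith
    exact this.ne'
  have htr : tr y = 0 := by
    rcases mul_eq_zero.1 hsum with h | h
    · exact absurd h hcard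
    · exact h
  have hfpos : 0 < fn (M0 y) := lt_of_le_of_ne (fn_nonneg _) (fun h => hM0 ((fn_eq_zero _).1 h.symm))
  obtain ⟨x, hx1, hx2, hx3, hx4⟩ := Z1 hn S σ hσ hσ' (M0 y) (M0_TS hn0 y) hM0 p hp w1 w2 h1 h2
    (fn (M0 y)) 1 hfpos one_pos (fun i => by have := heq i; rw [htr] at this; linarith)
  refine ⟨x, hx1, hx3, ?_⟩
  refine eq_of_M0_tr _ _ ?_ ?_
  · rw [M0_toE_Vh hn x hx1, hx2, hx4, one_smul]
  · rw [tr_toE_Vh hn x hx1, htr]

end BK
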