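import Crest.Agent.BK_W1
import Crest.Agent.BK_W2

set_option autoImplicit false

namespace BK
open Finset Matrix Filter Topology

/-- `(u·v)² ≤ (u·u)(v·v)` -/
private theorem m3b_cs {n : ℕ} (u v : Fin n → ℝ) : (u ⬝ᵥ v) ^ 2 ≤ (u ⬝ᵥ u) * (v ⬝ᵥ v) := by
  have h := Finset.sum_mul_sq_le_sq_mul_sq Finset.univ u v
  simp only [dotProduct]
  calc (∑ i, u i * v i) ^ 2 ≤ (∑ i, u i ^ 2) * ∑ i, v i ^ 2 := h
    _ = (∑ i, u i * u i) * ∑ i, v i * v i := by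
      simp only [sq]

/-- Task BK-M3: the top eigenvector of `2 Vh p - ρ Vh x` lies on the other side of `p` in the plane
of `p, x`. Proof: `y` is an eigenvector: `(2 (p·y) p - ρ (x·y) x) = κ y`, `κ = 2(p·y)² - ρ(x·y)² > 0`,
and `p·y > 0`, `x·y > 0` (`|x-y|² ≤ 2(|x-p|²+|y-p|²) < 0.4`). -/
theorem opposite_side {n : ℕ} (hn : 2 ≤ n) (p x y : Fin n → ℝ) (hp : p ⬝ᵥ p = 1)
    (hx : x ⬝ᵥ x = 1) (hpx : 19 / 20 < p ⬝ᵥ x) (hpy : 19 / 20 < p ⬝ᵥ y)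
    (ρ : ℝ) (hρ : 0 < ρ) (hρ' : ρ < 3 / 2) (hy : RM ((2 : ℝ) • Vh p - ρ • Vh x) y) :
    ∃ a b : ℝ, 0 < a ∧ 0 < b ∧ y = a • p - b • x := by
  have hyy : y ⬝ᵥ y = 1 := hy.1
  have hsymm : ((2 : ℝ) • Vh p - ρ • Vh x).IsSymm := by
    have h1 := (Vh_TS hn p hp).1
    have h2 := (Vh_TS hn x hx).1
    exact (h1.smul 2).sub (h2.smul ρ)
  have he := RM_eig _ hsymm y hy
  have hc := cn_pos (n := n) hn
  have hmv : ((2 : ℝ) • Vh p - ρ • Vh x) *ᵥ y =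
      (2 : ℝ) • (cn n • ((p ⬝ᵥ y) • p - (1 / (n : ℝ)) • y)) -
        ρ • (cn n • ((x ⬝ᵥ y) • x - (1 / (n : ℝ)) • y)) := by
    rw [Matrix.sub_mulVec, Matrix.smul_mulVec, Matrix.smul_mulVec, Vh_mulVec, Vh_mulVec]
  set q := y ⬝ᵥ (((2 : ℝ) • Vh p - ρ • Vh x) *ᵥ y) with hq
  set α := p ⬝ᵥ y with hα
  set β := x ⬝ᵥ y with hβ
  have hq' : q = cn n * (2 * α ^ 2 - ρ * β ^ 2 - (2 - ρ) * (1 / n)) := by
    rw [hq, hmv]
    simp only [dotProduct_sub, dotProduct_smul, smul_eq_mul, hyy]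
    rw [dotProduct_comm y p, dotProduct_comm y x, ← hα, ← hβ]
    ring
  -- positivity of β
  have hcs : β ^ 2 ≤ 1 := by
    have := m3b_cs x y
    rw [hx, hyy] at this
    simpa using this
  have hβpos : 0 < β := by
    -- |x - y|^2 ≤ 2(|x-p|^2+|y-p|^2)
    have h0 : 0 ≤ (x + y - (2 : ℝ) • p) ⬝ᵥ (x + y - (2 : ℝ) • p) := by
      simp only [dotProduct]
      exact Finset.sum_nonneg (fun i _ => mul_self_nonneg _)
    have h1 : (x + y - (2 : ℝ) • p) ⬝ᵥ (x + y - (2 : ℝ) • p) =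
        x ⬝ᵥ x + y ⬝ᵥ y + 4 * (p ⬝ᵥ p) + 2 * (x ⬝ᵥ y) - 4 * (p ⬝ᵥ x) - 4 * (p ⬝ᵥ y) := by
      simp only [dotProduct_sub, sub_dotProduct, add_dotProduct, dotProduct_add, smul_dotProduct,
        dotProduct_smul, smul_eq_mul]
      rw [dotProduct_comm y x, dotProduct_comm x p, dotProduct_comm y p]
      ring
    rw [h1, hx, hyy, hp] at h0
    -- 0 ≤ 6 + 2β - 4 px - 4 py, so 2β ≥ 4(px+py) - 6 > 4*1.9-6 = 1.6
    have : 0 ≤ 1 + 1 + 4 * 1 + 2 * β - 4 * (p ⬝ᵥ x) - 4 * α := h0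
    nlinarith
  have hαpos : 0 < α := by linarith
  have hκ : 0 < 2 * α ^ 2 - ρ * β ^ 2 := by nlinarith
  set κ := 2 * α ^ 2 - ρ * β ^ 2 with hκd
  have hvec : ∀ i, 2 * α * p i - ρ * β * x i = κ * y i := by
    intro i
    have h1 := congrFun (hmv.symm.trans he) i
    simp only [Pi.sub_apply, Pi.smul_apply, smul_eq_mul] at h1
    rw [hq'] at h1
    have h2 : cn n * (2 * α * p i - ρ * β * x i - κ * y i) = 0 := by
      rw [hκd]; linear_combination h1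
    have h3 := (mul_eq_zero.mp h2).resolve_left (ne_of_gt hc)
    linarith
  refine ⟨2 * α / κ, ρ * β / κ, by positivity, by positivity, ?_⟩
  funext i
  simp only [Pi.sub_apply, Pi.smul_apply, smul_eq_mul]
  have := hvec i
  field_simp
  linarith

end BK
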