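import Crest.Agent.BK_W1
import Crest.Agent.BK_W2

set_option autoImplicit false

namespace BK
open Finset Matrix Filter Topology

private lemma M3a_quad {n : ℕ} (p x : Fin n → ℝ) (hx : x ⬝ᵥ x = 1) :
    x ⬝ᵥ (Vh p *ᵥ x) = cn n * ((x ⬝ᵥ p) ^ 2 - 1 / (n : ℝ)) := by
  rw [Vh_mulVec, dotProduct_smul, dotProduct_sub, dotProduct_smul, dotProduct_smul, hx,
    dotProduct_comm p x]
  simp only [smul_eq_mul]
  ring

private lemma M3a_fn {n : ℕ} (E : Matrix (Fin n) (Fin n) ℝ) (r : ℝ) (hr : 0 ≤ r)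
    (h : ∀ i j, |E i j| ≤ r) : fn E ≤ n * r := by
  unfold fn
  rw [Real.sqrt_le_iff]
  refine ⟨by positivity, ?_⟩
  calc ∑ i, ∑ j, E i j ^ 2 ≤ ∑ _i : Fin n, ∑ _j : Fin n, r ^ 2 := by
        refine Finset.sum_le_sum fun i _ => Finset.sum_le_sum fun j _ => ?_
        rw [← sq_abs]
        exact pow_le_pow_left₀ (abs_nonneg _) (h i j) 2
    _ = (n * r) ^ 2 := by
        simp only [Finset.sum_const, Finset.card_univ, Fintype.card_fin, nsmul_eq_mul]
        ring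

private lemma M3a_cn {n : ℕ} (hn : 2 ≤ n) : 1 ≤ cn n := by
  unfold cn
  have hn' : (2 : ℝ) ≤ n := by exact_mod_cast hn
  have h1 : 0 < 1 / (n : ℝ) := by positivity
  have h2 : 1 / (n : ℝ) ≤ 1 / 2 := by
    apply one_div_le_one_div_of_le <;> linarith
  have h3 : 0 < Real.sqrt (1 - 1 / (n : ℝ)) := Real.sqrt_pos.2 (by linarith)
  have h4 : Real.sqrt (1 - 1 / (n : ℝ)) ≤ 1 := by
    rw [Real.sqrt_le_iff]
    constructor <;> linarith
  rw [le_div_iff₀ h3]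
  linarith

private lemma M3a_fn_sq {n : ℕ} (M : Matrix (Fin n) (Fin n) ℝ) :
    fn M ^ 2 = ∑ i, ∑ j, M i j ^ 2 := by
  unfold fn
  rw [Real.sq_sqrt]
  exact Finset.sum_nonneg fun _ _ => Finset.sum_nonneg fun _ _ => sq_nonneg _

/-- Task BK-M3: stability of the simple top eigenvector of `Vh p`. Proof: for a maximiser `x` of `M`:
`c_n (x·p)² - c_n/n + O(r0) ≥ x·Mx ≥ p·Mp ≥ c_n(1-1/n) - O(r0)`, so `(x·p)² ≥ 1 - O(r0)`, choose the
sign of `x` such that `x·p > 0`; uniqueness from `RM_perp` (a maximiser orthogonal to `p` is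
impossible). -/
theorem top_stable {n : ℕ} (hn : 2 ≤ n) (p : Fin n → ℝ) (hp : p ⬝ᵥ p = 1) (ρ : ℝ) (hρ : 0 < ρ) :
    ∃ r0 > 0, ∀ M : Matrix (Fin n) (Fin n) ℝ, TS M → (∀ i j, |M i j - Vh p i j| ≤ r0) →
      1 / 2 < fn M ∧ fn M < 3 / 2 ∧ ∃ x, RM M x ∧ ‖x - p‖ < ρ ∧ 19 / 20 < p ⬝ᵥ x ∧
        ∀ z, RM M z → z = x ∨ z = -x := by
  have hn' : (2 : ℝ) ≤ n := by exact_mod_cast hn
  have hn0 : (0 : ℝ) < n := by linarith
  obtain ⟨r0, hr0, hr1, hr2⟩ : ∃ r0 : ℝ, 0 < r0 ∧ r0 * (100 * (n : ℝ) ^ 2) ≤ 1 ∧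
      8 * n * r0 ≤ ρ ^ 2 := by
    refine ⟨min (1 / (100 * (n : ℝ) ^ 2)) (ρ ^ 2 / (8 * n)), ?_, ?_, ?_⟩
    · exact lt_min (by positivity) (by positivity)
    · rw [← le_div_iff₀ (by positivity)]
      exact min_le_left _ _
    · rw [mul_comm, ← le_div_iff₀ (by positivity)]
      exact min_le_right _ _
  refine ⟨r0, hr0, ?_⟩
  intro M hM hE
  have hnr : n * r0 ≤ 1 / 200 := by
    have : (100 * (n : ℝ) ^ 2) = 50 * n * (2 * n) := by ring
    nlinarith [mul_pos hn0 hr0]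
  have hr0' : r0 ≤ 1 := by
    have := mul_le_mul_of_nonneg_right hn' hr0.le
    linarith
  -- the norm
  have hV1 := fn_Vh hn p hp
  have hV2 : ∑ i, ∑ j, Vh p i j ^ 2 = 1 := by
    rw [← M3a_fn_sq, hV1, one_pow]
  have hVij : ∀ i j, |Vh p i j| ≤ 1 := by
    intro i j
    rw [← sq_le_one_iff_abs_le_one, ← hV2]
    calc Vh p i j ^ 2 ≤ ∑ j, Vh p i j ^ 2 :=
          Finset.single_le_sum (f := fun j => Vh p i j ^ 2) (fun _ _ => sq_nonneg _)
            (Finset.mem_univ j)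
      _ ≤ ∑ i, ∑ j, Vh p i j ^ 2 :=
          Finset.single_le_sum (f := fun i => ∑ j, Vh p i j ^ 2)
            (fun _ _ => Finset.sum_nonneg fun _ _ => sq_nonneg _) (Finset.mem_univ i)
  have hdiff : |fn M ^ 2 - 1| ≤ n ^ 2 * (3 * r0) := by
    rw [M3a_fn_sq, ← hV2, ← Finset.sum_sub_distrib]
    refine (Finset.abs_sum_le_sum_abs _ _).trans ?_
    calc ∑ i, |∑ j, M i j ^ 2 - ∑ j, Vh p i j ^ 2|
        ≤ ∑ _i : Fin n, ∑ _j : Fin n, 3 * r0 := by
          refine Finset.sum_le_sum fun i _ => ?_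
          rw [← Finset.sum_sub_distrib]
          refine (Finset.abs_sum_le_sum_abs _ _).trans (Finset.sum_le_sum fun j _ => ?_)
          have h1 := hE i j
          have h2 := hVij i j
          have h3 : M i j ^ 2 - Vh p i j ^ 2 =
              (M i j - Vh p i j) * ((M i j - Vh p i j) + 2 * Vh p i j) := by ring
          rw [h3, abs_mul]
          have h4 : |(M i j - Vh p i j) + 2 * Vh p i j| ≤ 3 := by
            refine (abs_add_le _ _).trans ?_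
            rw [abs_mul, abs_two]
            linarith
          calc |M i j - Vh p i j| * |(M i j - Vh p i j) + 2 * Vh p i j|
              ≤ r0 * 3 := mul_le_mul h1 h4 (abs_nonneg _) hr0.le
            _ = 3 * r0 := mul_comm _ _
      _ = n ^ 2 * (3 * r0) := by
          simp only [Finset.sum_const, Finset.card_univ, Fintype.card_fin, nsmul_eq_mul]
          ring
  have hfM0 := fn_nonneg M
  have hd := abs_le.1 hdiff
  have hsmall : (n : ℝ) ^ 2 * (3 * r0) ≤ 3 / 100 := by linarith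
  have hf1 : 1 / 2 < fn M := by nlinarith
  have hf2 : fn M < 3 / 2 := by nlinarith
  refine ⟨hf1, hf2, ?_⟩
  -- quadratic forms
  have hEq : ∀ x : Fin n → ℝ, x ⬝ᵥ x = 1 →
      |x ⬝ᵥ (M *ᵥ x) - cn n * ((x ⬝ᵥ p) ^ 2 - 1 / (n : ℝ))| ≤ n * r0 := by
    intro x hx
    rw [← M3a_quad p x hx, ← dotProduct_sub, ← Matrix.sub_mulVec]
    have h1 := quad_le_fn (M - Vh p) x
    have h2 := M3a_fn (M - Vh p) r0 hr0.le fun i j => by
      rw [Matrix.sub_apply]; exact hE i j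
    rw [hx, mul_one] at h1
    exact h1.trans h2
  have hcn := M3a_cn hn
  have hmax : ∀ x, RM M x → 1 - 2 * (n * r0) ≤ (x ⬝ᵥ p) ^ 2 := by
    intro x hx
    have h1 := abs_le.1 (hEq x hx.1)
    have h2 := abs_le.1 (hEq p hp)
    have h3 := hx.2 p hp
    rw [hp] at h2
    have h4 : cn n * (1 - (x ⬝ᵥ p) ^ 2) ≤ 2 * (n * r0) := by
      have e1 : cn n * (1 - (x ⬝ᵥ p) ^ 2) =
        cn n * ((1 : ℝ) ^ 2 - 1 / (n : ℝ)) - cn n * ((x ⬝ᵥ p) ^ 2 - 1 / (n : ℝ)) := by ring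
      rw [e1]
      linarith [h1.2, h2.1]
    have hpos : 0 ≤ n * r0 := by positivity
    by_contra hcon
    push Not at hcon
    have h5 : 2 * (n * r0) < 1 - (x ⬝ᵥ p) ^ 2 := by linarith
    have h6 : 0 < 1 - (x ⬝ᵥ p) ^ 2 := by linarith
    nlinarith
  have hneg : ∀ x, RM M x → RM M (-x) := by
    intro x hx
    refine ⟨by rw [neg_dotProduct_neg]; exact hx.1, fun z hz => ?_⟩
    rw [Matrix.mulVec_neg, neg_dotProduct_neg]
    exact hx.2 z hz
  have hCS : ∀ x : Fin n → ℝ, x ⬝ᵥ x = 1 → |x ⬝ᵥ p| ≤ 1 := by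
    intro x hx
    have h1 : 0 ≤ (x - (x ⬝ᵥ p) • p) ⬝ᵥ (x - (x ⬝ᵥ p) • p) := by
      unfold dotProduct
      exact Finset.sum_nonneg fun i _ => mul_self_nonneg _
    have h2 : (x - (x ⬝ᵥ p) • p) ⬝ᵥ (x - (x ⬝ᵥ p) • p) = 1 - (x ⬝ᵥ p) ^ 2 := by
      rw [dotProduct_sub, sub_dotProduct, sub_dotProduct, dotProduct_smul, smul_dotProduct,
        smul_dotProduct, dotProduct_smul, hx, hp, dotProduct_comm p x]
      simp only [smul_eq_mul]
      ring
    rw [h2] at h1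
    rw [← sq_le_one_iff_abs_le_one]
    linarith
  obtain ⟨x0, hx0⟩ := RM_exists (by omega) M
  obtain ⟨x, hx, hxp⟩ : ∃ x, RM M x ∧ 0 ≤ x ⬝ᵥ p := by
    rcases le_total 0 (x0 ⬝ᵥ p) with h | h
    · exact ⟨x0, hx0, h⟩
    · exact ⟨-x0, hneg x0 hx0, by rw [neg_dotProduct]; linarith⟩
  have h1 := hmax x hx
  have h2 := hCS x hx.1
  rw [abs_of_nonneg hxp] at h2
  have h3 : 1 - 2 * (n * r0) ≤ x ⬝ᵥ p := by nlinarith
  refine ⟨x, hx, ?_, ?_, ?_⟩
  · rw [pi_norm_lt_iff hρ]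
    intro i
    rw [Real.norm_eq_abs, Pi.sub_apply]
    apply abs_lt_of_sq_lt_sq _ hρ.le
    have h4 : (x - p) ⬝ᵥ (x - p) = 2 - 2 * (x ⬝ᵥ p) := by
      rw [dotProduct_sub, sub_dotProduct, sub_dotProduct, hx.1, hp, dotProduct_comm p x]
      ring
    have h5 : (x i - p i) ^ 2 ≤ (x - p) ⬝ᵥ (x - p) := by
      unfold dotProduct
      have := Finset.single_le_sum (f := fun j => (x - p) j * (x - p) j)
        (fun j _ => mul_self_nonneg _) (Finset.mem_univ i)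
      simp only [Pi.sub_apply] at this ⊢
      rw [sq]
      exact this
    have hρ2 : 0 < ρ ^ 2 := by positivity
    nlinarith
  · rw [dotProduct_comm]
    linarith
  · intro z hz
    by_contra hcon
    push Not at hcon
    obtain ⟨v, hv, hvp⟩ := RM_perp M hM.1 x z p hx hz hcon.1 hcon.2
    have := hmax v hv
    rw [hvp] at this
    linarith

end BK
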