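import Crest.Agent.BK_M1
import Crest.Agent.BK_M3

set_option autoImplicit false

namespace BK
open Finset Matrix Filter Topology

variable {n : ℕ} {C : Type} [Fintype C] [DecidableEq C]

/-- data of a solution of the limit equation near the centre `Vh p` (`Mp = Vh p + Y`,
`Mm = Vh p - Y`) -/
structure LD (S : CS n C) (σ : Finset C) (p : Fin n → ℝ) (A : C → ((Fin n → ℝ) →ₗ[ℝ] ℝ))
    (Mp Mm : Matrix (Fin n) (Fin n) ℝ) (xp xm : Fin n → ℝ) (w1 w2 w3 w4 : C → ℝ)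
    (t θ : ℝ) : Prop where
  card : σ.card = n
  hp : p ⬝ᵥ p = 1
  xi : IsXi S σ p
  Ainj : ∀ x, (∀ i ∈ σ, A i x = 0) → x = 0
  A_p : (∀ i ∈ σ, 0 < A i p) ∧ (∀ i ∈ σ, S.phi p i * ∑ k ∈ σ, A k p = A i p) ∧
    (∀ i, i ∉ σ → S.phi p i = 0)
  A_xp : (∀ i ∈ σ, 0 < A i xp) ∧ (∀ i ∈ σ, S.phi xp i * ∑ k ∈ σ, A k xp = A i xp) ∧
    (∀ i, i ∉ σ → S.phi xp i = 0)
  A_xm : (∀ i ∈ σ, 0 < A i xm) ∧ (∀ i ∈ σ, S.phi xm i * ∑ k ∈ σ, A k xm = A i xm) ∧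
    (∀ i, i ∉ σ → S.phi xm i = 0)
  TSp : TS Mp
  TSm : TS Mm
  sum : Mp + Mm = (2 : ℝ) • Vh p
  fp : 1 / 2 < fn Mp ∧ fn Mp < 3 / 2
  fm : 1 / 2 < fn Mm ∧ fn Mm < 3 / 2
  Rp : RM Mp xp
  Rm : RM Mm xm
  up : ∀ z, RM Mp z → z = xp ∨ z = -xp
  um : ∀ z, RM Mm z → z = xm ∨ z = -xm
  pxp : 19 / 20 < p ⬝ᵥ xp
  pxm : 19 / 20 < p ⬝ᵥ xm
  a1 : Adm S Mp w1
  a2 : Adm S (-Mp) w2
  a3 : Adm S Mm w3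
  a4 : Adm S (-Mm) w4
  hθ : θ ∈ Set.Icc (0 : ℝ) 1
  eq : ∀ i, fn Mp * (w1 i - w2 i) - zt n σ i + t = θ * (fn Mm * (w3 i - w4 i) - zt n σ i - t)

end BK
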