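import Crest.Agent.BK_M1
import Crest.Agent.BK_M3
import Crest.Agent.BK_M40

set_option autoImplicit false

namespace BK
open Finset Matrix Filter Topology

variable {n : ℕ} {C : Type} [Fintype C] [DecidableEq C]
variable {S : CS n C} {σ : Finset C} {p : Fin n → ℝ} {A : C → ((Fin n → ℝ) →ₗ[ℝ] ℝ)}
  {Mp Mm : Matrix (Fin n) (Fin n) ℝ} {xp xm : Fin n → ℝ} {w1 w2 w3 w4 : C → ℝ} {t θ : ℝ}

private theorem m4a_zt_sum_in (σ : Finset C) (hσ : σ.card = n) (hn : 0 < n) :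
    ∑ i ∈ σ, zt n σ i = 1 := by
  have h : ∀ i ∈ σ, zt n σ i = 1 / (n : ℝ) := fun i hi => by unfold zt; rw [if_pos hi]
  rw [Finset.sum_congr rfl h, Finset.sum_const, hσ, nsmul_eq_mul]
  have : (n : ℝ) ≠ 0 := by exact_mod_cast hn.ne'
  field_simp

private theorem m4a_zt_sum (σ : Finset C) (hσ : σ.card = n) (hn : 0 < n)
    (hσ' : n < Fintype.card C) : ∑ i, zt n σ i = 0 := by
  rw [← Finset.sum_add_sum_compl σ, m4a_zt_sum_in σ hσ hn]
  have h : ∀ i ∈ σᶜ, zt n σ i = -(1 / ((Fintype.card C : ℝ) - n)) := fun i hi => by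
    unfold zt; rw [if_neg (Finset.mem_compl.1 hi)]
  rw [Finset.sum_congr rfl h, Finset.sum_const, Finset.card_compl, hσ, nsmul_eq_mul,
    Nat.cast_sub hσ'.le]
  have : (Fintype.card C : ℝ) - n ≠ 0 := by
    have : (n : ℝ) < Fintype.card C := by exact_mod_cast hσ'
    linarith
  field_simp
  ring

/-- one side -/
private theorem m4a_side (hn : 2 ≤ n) {M : Matrix (Fin n) (Fin n) ℝ} {x : Fin n → ℝ}
    {u v : C → ℝ} (hTS : TS M) (hf : 1 / 2 < fn M) (hR : RM M x)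
    (hu : ∀ z, RM M z → z = x ∨ z = -x)
    (hA : (∀ i ∈ σ, 0 < A i x) ∧ (∀ i ∈ σ, S.phi x i * ∑ k ∈ σ, A k x = A i x) ∧
      (∀ i, i ∉ σ → S.phi x i = 0)) (h1 : Adm S M u) (h2 : Adm S (-M) v) :
    (∀ i, u i = S.phi x i) ∧ (∀ i, i ∉ σ → u i = 0) ∧ (∀ i ∈ σ, v i = 0) ∧ ∑ i, u i = 1 ∧
      ∑ i, v i = 1 := by
  have hM0 : M ≠ 0 := by
    rintro rfl
    rw [(fn_eq_zero (0 : Matrix (Fin n) (Fin n) ℝ)).2 rfl] at hf
    norm_num at hf
  have hx0 : x ≠ 0 := by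
    rintro rfl
    have := hR.1
    simp at this
  obtain ⟨a1, a2, a3, a4⟩ := h1 hM0
  obtain ⟨b1, b2, b3, b4⟩ := h2 (neg_ne_zero.2 hM0)
  have e1 : ∀ i, u i = S.phi x i := a4 x hR hu
  refine ⟨e1, fun i hi => by rw [e1, hA.2.2 i hi], fun i hi => ?_, a2, b2⟩
  by_contra hv
  obtain ⟨y, hy, hyA⟩ := b3 i hv
  have hphi : S.phi x i ≠ 0 := by
    intro h0
    have := hA.2.1 i hi
    rw [h0, zero_mul] at this
    have h3 := hA.1 i hi
    linarith
  exact S.orth i x (S.supp x i hx0 hphi) y hyA (RM_orth M hTS hM0 x y hR hy)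

/-- Task BK-M4: first consequences. `t = 0` by summing; `w1 = phi xp`, `w3 = phi xm` vanish outside
`σ`; `w2 = w4 = 0` on `σ` (a minimiser is orthogonal to the maximiser `xp ∈ A i`);
`fn Mp - θ fn Mm = 1 - θ` by summing over `σ`. -/
theorem LD_basic (hn : 2 ≤ n) (hσ' : n < Fintype.card C)
    (h : LD S σ p A Mp Mm xp xm w1 w2 w3 w4 t θ) :
    t = 0 ∧ (∀ i, w1 i = S.phi xp i) ∧ (∀ i, w3 i = S.phi xm i) ∧ (∀ i, i ∉ σ → w1 i = 0) ∧
      (∀ i, i ∉ σ → w3 i = 0) ∧ (∀ i ∈ σ, w2 i = 0) ∧ (∀ i ∈ σ, w4 i = 0) ∧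
      fn Mp - θ * fn Mm = 1 - θ := by
  have hn0 : 0 < n := by omega
  obtain ⟨p1, p2, p3, p4, p5⟩ := m4a_side hn h.TSp h.fp.1 h.Rp h.up h.A_xp h.a1 h.a2
  obtain ⟨q1, q2, q3, q4, q5⟩ := m4a_side hn h.TSm h.fm.1 h.Rm h.um h.A_xm h.a3 h.a4
  have hcard : (0 : ℝ) < Fintype.card C := by
    have : 0 < Fintype.card C := by omega
    exact_mod_cast this
  have ht : t = 0 := by
    have hs : ∑ i, (fn Mp * (w1 i - w2 i) - zt n σ i + t) =
        ∑ i, θ * (fn Mm * (w3 i - w4 i) - zt n σ i - t) :=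
      Finset.sum_congr rfl fun i _ => h.eq i
    rw [← Finset.mul_sum] at hs
    simp only [Finset.sum_add_distrib, Finset.sum_sub_distrib, ← Finset.mul_sum, Finset.sum_const,
      Finset.card_univ, nsmul_eq_mul, m4a_zt_sum σ h.card hn0 hσ', p4, p5, q4, q5] at hs
    have h1 : (Fintype.card C : ℝ) * (1 + θ) * t = 0 := by linarith
    have hθ := h.hθ.1
    rcases mul_eq_zero.1 h1 with h2 | h2
    · exfalso
      have : 0 < (Fintype.card C : ℝ) * (1 + θ) := by positivity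
      linarith
    · exact h2
  refine ⟨ht, p1, q1, p2, q2, p3, q3, ?_⟩
  have hs : ∑ i ∈ σ, (fn Mp * (w1 i - w2 i) - zt n σ i + t) =
      ∑ i ∈ σ, θ * (fn Mm * (w3 i - w4 i) - zt n σ i - t) :=
    Finset.sum_congr rfl fun i _ => h.eq i
  have hw1 : ∑ i ∈ σ, w1 i = 1 := by
    rw [← p4]
    exact Finset.sum_subset (Finset.subset_univ _) fun i _ hi => p2 i hi
  have hw3 : ∑ i ∈ σ, w3 i = 1 := by
    rw [← q4]
    exact Finset.sum_subset (Finset.subset_univ _) fun i _ hi => q2 i hi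
  have hw2 : ∑ i ∈ σ, w2 i = 0 := Finset.sum_eq_zero p3
  have hw4 : ∑ i ∈ σ, w4 i = 0 := Finset.sum_eq_zero q3
  rw [← Finset.mul_sum] at hs
  simp only [Finset.sum_add_distrib, Finset.sum_sub_distrib, ← Finset.mul_sum,
    m4a_zt_sum_in σ h.card hn0, hw1, hw2, hw3, hw4, ht, Finset.sum_const_zero] at hs
  linarith

end BK
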