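import Crest.Agent.BK_M1
import Crest.Agent.BK_M3
import Crest.Agent.BK_M40
import Crest.Agent.BK_M4a

set_option autoImplicit false

namespace BK
open Finset Matrix Filter Topology

variable {n : ℕ} {C : Type} [Fintype C] [DecidableEq C]
variable {S : CS n C} {σ : Finset C} {p : Fin n → ℝ} {A : C → ((Fin n → ℝ) →ₗ[ℝ] ℝ)}
  {Mp Mm : Matrix (Fin n) (Fin n) ℝ} {xp xm : Fin n → ℝ} {w1 w2 w3 w4 : C → ℝ} {t θ : ℝ}

/-- Task BK-M4, case `θ < 1`: for `i ∉ σ`, `w2 i > 0`, so `Mp = fn Mp • Vh x` by `Z0`, `x = ± xp`;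
`opposite_side`: `xm = a p - b xp`; with `s(x) = ∑ A_k x`, `ψ_i(x) = phi x i - 1/n`:
`s(xm) ψ_i(xm) = - b s(xp) ψ_i(xp)` and `fn Mp ψ_i(xp) = θ fn Mm ψ_i(xm)`, hence `ψ_i(xp) = 0`,
`A_i(xp) = s(xp)/n`, `A_i(p) = s(p)/n`, so `xp` is a multiple of `p`, `xp = p`, `Mp = ρ Vh p`,
`Mm = (2-ρ) Vh p`, and `ρ - θ(2-ρ) = 1-θ` gives `ρ = 1`. -/
theorem LD_lt (hn : 2 ≤ n) (hσ' : n < Fintype.card C)
    (h : LD S σ p A Mp Mm xp xm w1 w2 w3 w4 t θ) (hθ1 : θ < 1) : Mp = Vh p := by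
  obtain ⟨ht, hw1, hw3, hw1', hw3', hw2, hw4, hsum⟩ := LD_basic hn hσ' h
  have hθ0 : 0 ≤ θ := h.hθ.1
  have hnpos : (0 : ℝ) < n := by
    have : 0 < n := by omega
    exact_mod_cast this
  have hcard : (0 : ℝ) < (Fintype.card C : ℝ) - n := by
    have : (n : ℝ) < (Fintype.card C : ℝ) := by exact_mod_cast hσ'
    linarith
  have hMp0 : Mp ≠ 0 := by
    intro h0
    have := h.fp.1
    rw [(fn_eq_zero Mp).2 h0] at this
    linarith
  have hMm0 : Mm ≠ 0 := by
    intro h0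
    have := h.fm.1
    rw [(fn_eq_zero Mm).2 h0] at this
    linarith
  have hfp : 0 < fn Mp := by linarith [h.fp.1]
  have hfm : 0 < fn Mm := by linarith [h.fm.1]
  have hxp1 : xp ⬝ᵥ xp = 1 := h.Rp.1
  have hxp0 : xp ≠ 0 := by
    intro h0
    rw [h0] at hxp1
    simp at hxp1
  have hσne : σ.Nonempty := by
    rw [← Finset.card_pos, h.card]; omega
  -- step 1
  have h1 : ∀ i, i ∉ σ → ∃ y, RM (-Mp) y ∧ y ∈ S.A i := by
    intro i hi
    have ha2 := h.a2 (neg_ne_zero.mpr hMp0)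
    have ha4 := h.a4 (neg_ne_zero.mpr hMm0)
    apply ha2.2.2.1 i
    have he := h.eq i
    rw [hw1' i hi, hw3' i hi, ht] at he
    simp only [zt, if_neg hi] at he
    have h4 := ha4.1 i
    have hp1 : 0 < 1 / ((Fintype.card C : ℝ) - n) := by positivity
    have hp2 : 0 ≤ θ * (fn Mm * w4 i) := by positivity
    intro hw0
    rw [hw0] at he
    nlinarith
  have h2 : ∀ i ∈ σ, xp ∈ S.A i := by
    intro i hi
    apply S.supp xp i hxp0
    intro h0
    have ha := h.A_xp.2.1 i hi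
    rw [h0, zero_mul] at ha
    have := h.A_xp.1 i hi
    linarith
  obtain ⟨x, hx1, hxM⟩ := Z0 hn S σ Mp h.TSp hMp0 xp h2 h1
  have hVx : Vh x = Vh xp := by
    have hR := h.Rp
    rw [hxM] at hR
    rcases (RM_Vh hn x hx1 (fn Mp) hfp xp).1 hR with h0 | h0
    · rw [h0]
    · rw [h0, Vh_neg]
  rw [hVx] at hxM
  have hMm : Mm = (2 : ℝ) • Vh p - fn Mp • Vh xp := by
    rw [← hxM, ← h.sum]; abel
  have hRm := h.Rm
  rw [hMm] at hRm
  obtain ⟨a, b, ha, hb, hxm⟩ := opposite_side hn p xp xm h.hp hxp1 h.pxp h.pxm (fn Mp) hfp h.fp.2 hRm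
  set sp := ∑ k ∈ σ, A k p with hsp
  set sxp := ∑ k ∈ σ, A k xp with hsxp
  set sxm := ∑ k ∈ σ, A k xm with hsxm
  have hsp0 : 0 < sp := Finset.sum_pos h.A_p.1 hσne
  have hsxp0 : 0 < sxp := Finset.sum_pos h.A_xp.1 hσne
  have hsxm0 : 0 < sxm := Finset.sum_pos h.A_xm.1 hσne
  have hAxm : ∀ i, A i xm = a * A i p - b * A i xp := by
    intro i
    rw [hxm, map_sub, map_smul, map_smul, smul_eq_mul, smul_eq_mul]
  have hs3 : sxm = a * sp - b * sxp := by
    rw [hsxm, hsp, hsxp, Finset.mul_sum, Finset.mul_sum, ← Finset.sum_sub_distrib]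
    exact Finset.sum_congr rfl (fun i _ => hAxm i)
  have hAp : ∀ i ∈ σ, A i p = sp / n := by
    intro i hi
    have h3 := h.A_p.2.1 i hi
    have h4 := h.xi i
    rw [if_pos hi] at h4
    rw [h4, ← hsp] at h3
    rw [← h3]; ring
  have hphi : ∀ i ∈ σ, S.phi xp i = 1 / n := by
    intro i hi
    have he := h.eq i
    rw [hw1 i, hw3 i, hw2 i hi, hw4 i hi, ht] at he
    simp only [zt, if_pos hi] at he
    have e1 : fn Mp * (S.phi xp i - 1 / n) = θ * fn Mm * (S.phi xm i - 1 / n) := by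
      have : fn Mp = 1 - θ + θ * fn Mm := by linarith
      linear_combination he - (1 / n : ℝ) * hsum
    have e2 : S.phi xm i * sxm = A i xm := h.A_xm.2.1 i hi
    have e3 : S.phi xp i * sxp = A i xp := h.A_xp.2.1 i hi
    have e4 : sxm * (S.phi xm i - 1 / n) = -b * sxp * (S.phi xp i - 1 / n) := by
      have : sxm * (S.phi xm i - 1 / n) = A i xm - sxm / n := by rw [← e2]; ring
      rw [this, hAxm i, hAp i hi, ← e3, hs3]
      ring
    have e5 : (S.phi xp i - 1 / n) * (fn Mp * sxm + θ * fn Mm * b * sxp) = 0 := by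
      linear_combination sxm * e1 + θ * fn Mm * e4
    have e6 : 0 < fn Mp * sxm + θ * fn Mm * b * sxp := by positivity
    have := (mul_eq_zero.mp e5).resolve_right (ne_of_gt e6)
    linarith
  have hAxp : ∀ i ∈ σ, A i xp = sxp / n := by
    intro i hi
    have h3 := h.A_xp.2.1 i hi
    rw [hphi i hi, ← hsxp] at h3
    rw [← h3]; ring
  have hz : sp • xp - sxp • p = 0 := by
    apply h.Ainj
    intro i hi
    rw [map_sub, map_smul, map_smul, smul_eq_mul, smul_eq_mul, hAxp i hi, hAp i hi]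
    ring
  have hxpp : xp = (sxp / sp) • p := by
    have h3 : sp • xp = sxp • p := sub_eq_zero.mp hz
    rw [div_eq_inv_mul, mul_smul, ← h3, smul_smul, inv_mul_cancel₀ (ne_of_gt hsp0), one_smul]
  have hc1 : sxp / sp = 1 := by
    have h3 := hxp1
    rw [hxpp, smul_dotProduct, dotProduct_smul, h.hp, smul_eq_mul, smul_eq_mul, mul_one] at h3
    have h4 : 0 < sxp / sp := by positivity
    nlinarith
  have hxpp' : xp = p := by rw [hxpp, hc1, one_smul]
  rw [hxpp'] at hxM hMm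
  have hfmv : fn Mm = 2 - fn Mp := by
    have h3 : Mm = (2 - fn Mp) • Vh p := by rw [hMm, sub_smul]
    rw [h3, fn_smul, fn_Vh hn p h.hp, mul_one, abs_of_pos]
    linarith [h.fp.2]
  have hfp1 : fn Mp = 1 := by
    rw [hfmv] at hsum
    have h3 : (1 + θ) * (fn Mp - 1) = 0 := by linear_combination hsum
    have h4 := (mul_eq_zero.mp h3).resolve_left (by linarith)
    linarith
  rw [hxM, hfp1, one_smul]

end BK
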