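import Crest.Agent.BK_M1
import Crest.Agent.BK_M3
import Crest.Agent.BK_M40
import Crest.Agent.BK_M4a

set_option autoImplicit false

namespace BK
open Finset Matrix Filter Topology

variable {n : ℕ} {C : Type} [Fintype C] [DecidableEq C]
variable {S : CS n C} {σ : Finset C} {p : Fin n → ℝ} {A : C → ((Fin n → ℝ) →ₗ[ℝ] ℝ)}
  {Mp Mm : Matrix (Fin n) (Fin n) ℝ} {xp xm : Fin n → ℝ} {w1 w2 w3 w4 : C → ℝ} {t θ : ℝ}

private theorem M4c_inner (p : Fin n → ℝ) (Y : Matrix (Fin n) (Fin n) ℝ) :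
    ∑ i, ∑ j, Vh p i j * Y i j = cn n * (p ⬝ᵥ (Y *ᵥ p) - (1 / (n : ℝ)) * Y.trace) := by
  have h1 : ∀ i j, Vh p i j * Y i j =
      cn n * (p i * (Y i j * p j)) - cn n * (1 / (n : ℝ)) * (if i = j then Y i j else 0) := by
    intro i j
    simp only [Vh, Matrix.smul_apply, Matrix.sub_apply, Matrix.of_apply, Matrix.one_apply,
      smul_eq_mul]
    split_ifs <;> ring
  simp only [h1, sum_sub_distrib, ← mul_sum, sum_ite_eq, mem_univ, if_true]
  simp only [dotProduct, Matrix.mulVec, Matrix.trace, Matrix.diag]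
  ring

/-- Task BK-M4, case `θ = 1`: `fn Mp = fn Mm`, `phi xp = phi xm` so `A xp`, `A xm` are proportional,
`xp = xm =: x` is an eigenvector of `2 Vh p`, so `x = p` and `p` is an eigenvector of
`Y = Mp - Vh p`; `fn Mp = fn Mm` gives `p·Yp = 0` so `Y p = 0`. Suppose `Y ≠ 0`. There is `i ∉ σ`
with `w2 i = w4 i ≠ 0`, so minimisers `y` of `Mp` and `y'` of `Mm` in `A i`. They are orthogonal
to `p`, and `y` minimises, `y'` maximises `z ↦ z·Yz` on unit vectors orthogonal to `p`, hence on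
all unit vectors (`Y p = 0`, `Y` traceless nonzero), so `y ⊥ y'` by `RM_orth`, contradiction. -/
theorem LD_eq (hn : 2 ≤ n) (hσ' : n < Fintype.card C)
    (h : LD S σ p A Mp Mm xp xm w1 w2 w3 w4 t θ) (hθ1 : θ = 1) : Mp = Vh p := by
  obtain ⟨ht0, hw1, hw3, hw1', hw3', hw2, hw4, hfn⟩ := LD_basic hn hσ' h
  subst hθ1
  have hff : fn Mp = fn Mm := by linarith
  have hρ : 0 < fn Mp := by linarith [h.fp.1]
  have hn0 : 0 < n := by omega
  -- the equation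
  have heq : ∀ i, w1 i - w2 i = w3 i - w4 i := by
    intro i
    have h1 := h.eq i
    rw [ht0, ← hff] at h1
    have h2 : fn Mp * (w1 i - w2 i) = fn Mp * (w3 i - w4 i) := by linarith
    exact mul_left_cancel₀ hρ.ne' h2
  have hphi : ∀ i ∈ σ, S.phi xp i = S.phi xm i := by
    intro i hi
    have h1 := heq i
    rw [hw2 i hi, hw4 i hi, hw1 i, hw3 i] at h1
    linarith
  have hw24 : ∀ i, i ∉ σ → w2 i = w4 i := by
    intro i hi
    have h1 := heq i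
    rw [hw1' i hi, hw3' i hi] at h1
    linarith
  -- `xp = xm`
  have hσne : σ.Nonempty := by
    rw [← card_pos, h.card]
    exact hn0
  have hspos : 0 < ∑ k ∈ σ, A k xp := sum_pos (fun k hk => h.A_xp.1 k hk) hσne
  have hsmpos : 0 < ∑ k ∈ σ, A k xm := sum_pos (fun k hk => h.A_xm.1 k hk) hσne
  have hprop : (∑ k ∈ σ, A k xm) • xp - (∑ k ∈ σ, A k xp) • xm = 0 := by
    apply h.Ainj
    intro i hi
    rw [map_sub, map_smul, map_smul, smul_eq_mul, smul_eq_mul, ← h.A_xp.2.1 i hi,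
      ← h.A_xm.2.1 i hi, hphi i hi]
    ring
  have hxpxm : xp = xm := by
    have h1 : (∑ k ∈ σ, A k xm) • xp = (∑ k ∈ σ, A k xp) • xm := sub_eq_zero.1 hprop
    have h2 : ((∑ k ∈ σ, A k xm) • xp) ⬝ᵥ ((∑ k ∈ σ, A k xm) • xp) =
        ((∑ k ∈ σ, A k xp) • xm) ⬝ᵥ ((∑ k ∈ σ, A k xp) • xm) := by rw [h1]
    simp only [smul_dotProduct, dotProduct_smul, h.Rp.1, h.Rm.1, smul_eq_mul, mul_one] at h2
    have h3 : (∑ k ∈ σ, A k xm) = ∑ k ∈ σ, A k xp := by nlinarith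
    rw [h3] at h1
    have h4 := congrArg (fun v => (∑ k ∈ σ, A k xp)⁻¹ • v) h1
    simp only [smul_smul, inv_mul_cancel₀ hspos.ne', one_smul] at h4
    exact h4
  subst hxpxm
  -- `xp = p`
  have hcn := cn_pos hn
  have hMm : Mm = (2 : ℝ) • Vh p - Mp := by rw [← h.sum]; abel
  have heigp := RM_eig Mp h.TSp.1 xp h.Rp
  have heigm := RM_eig Mm h.TSm.1 xp h.Rm
  have hpx : 0 < p ⬝ᵥ xp := by linarith [h.pxp]
  have hxp : xp = p := by
    obtain ⟨a, ha⟩ : ∃ a : ℝ, Mp *ᵥ xp = a • xp := ⟨_, heigp⟩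
    obtain ⟨b, hb⟩ : ∃ b : ℝ, Mm *ᵥ xp = b • xp := ⟨_, heigm⟩
    have h1 : (Mp + Mm) *ᵥ xp = (a + b) • xp := by
      rw [Matrix.add_mulVec, ha, hb, add_smul]
    rw [h.sum, Matrix.smul_mulVec, Vh_mulVec] at h1
    -- `2 cn (p·x) p = κ x`
    have h2 : (2 * cn n * (p ⬝ᵥ xp)) • p = (a + b + 2 * cn n * (1 / (n : ℝ))) • xp := by
      rw [add_smul, ← h1]
      ext i
      simp only [Pi.smul_apply, Pi.add_apply, Pi.sub_apply, smul_eq_mul]
      ring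
    set κ := a + b + 2 * cn n * (1 / (n : ℝ)) with hκ
    have h3 := congrArg (fun v => p ⬝ᵥ v) h2
    simp only [dotProduct_smul, h.hp, smul_eq_mul, mul_one] at h3
    have h4 : κ = 2 * cn n := by
      have : (2 * cn n) * (p ⬝ᵥ xp) = κ * (p ⬝ᵥ xp) := h3
      exact (mul_right_cancel₀ hpx.ne' this).symm
    have h5 := congrArg (fun v => xp ⬝ᵥ v) h2
    simp only [dotProduct_smul, h.Rp.1, smul_eq_mul, mul_one] at h5
    rw [h4, dotProduct_comm xp p] at h5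
    have h6 : (p ⬝ᵥ xp) * (p ⬝ᵥ xp) = 1 := by
      have : (2 * cn n) * ((p ⬝ᵥ xp) * (p ⬝ᵥ xp)) = (2 * cn n) * 1 := by linarith
      exact mul_left_cancel₀ (by positivity) this
    have h7 : p ⬝ᵥ xp = 1 := by nlinarith
    rw [h4, h7, mul_one] at h2
    have h8 := congrArg (fun v => (2 * cn n)⁻¹ • v) h2
    simp only [smul_smul, inv_mul_cancel₀ (show (2 * cn n) ≠ 0 by positivity), one_smul] at h8
    exact h8.symm
  subst hxp
  -- the perturbation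
  by_contra hne
  set Y := Mp - Vh xp with hY
  have hMpY : Mp = Vh xp + Y := by rw [hY]; abel
  have hMmY : Mm = Vh xp - Y := by
    rw [hMm, hY, two_smul]
    abel
  have hY0 : Y ≠ 0 := fun h0 => hne (sub_eq_zero.1 h0)
  have hVTS := Vh_TS hn xp h.hp
  have hYTS : TS Y := by
    refine ⟨?_, ?_⟩
    · exact h.TSp.1.sub hVTS.1
    · rw [hY, Matrix.trace_sub, h.TSp.2, hVTS.2, sub_zero]
  have hVY : ∑ i, ∑ j, Vh xp i j * Y i j = 0 := by
    have h1 : (∑ i, ∑ j, Mp i j ^ 2) = ∑ i, ∑ j, Mm i j ^ 2 := by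
      have h2 : ∀ M : Matrix (Fin n) (Fin n) ℝ, 0 ≤ ∑ i, ∑ j, M i j ^ 2 := fun M =>
        sum_nonneg fun i _ => sum_nonneg fun j _ => sq_nonneg _
      have h3 := hff
      unfold fn at h3
      exact (Real.sqrt_inj (h2 Mp) (h2 Mm)).1 h3
    rw [hMpY, hMmY] at h1
    simp only [Matrix.add_apply, Matrix.sub_apply] at h1
    have h4 : ∑ i, ∑ j, ((Vh xp i j + Y i j) ^ 2 - (Vh xp i j - Y i j) ^ 2) = 0 := by
      simp only [sum_sub_distrib]
      rw [h1, sub_self]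
    have h5 : ∑ i, ∑ j, ((Vh xp i j + Y i j) ^ 2 - (Vh xp i j - Y i j) ^ 2) =
        4 * ∑ i, ∑ j, Vh xp i j * Y i j := by
      simp only [mul_sum]
      refine sum_congr rfl fun i _ => sum_congr rfl fun j _ => ?_
      ring
    linarith
  have hpYp : xp ⬝ᵥ (Y *ᵥ xp) = 0 := by
    rw [M4c_inner, hYTS.2, mul_zero, sub_zero] at hVY
    rcases mul_eq_zero.1 hVY with h0 | h0
    · exact absurd h0 hcn.ne'
    · exact h0
  have hYp : Y *ᵥ xp = 0 := by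
    obtain ⟨a, ha⟩ : ∃ a : ℝ, Mp *ᵥ xp = a • xp := ⟨_, heigp⟩
    have h1 : Y *ᵥ xp = (a - cn n * (1 - 1 / (n : ℝ))) • xp := by
      rw [hY, Matrix.sub_mulVec, ha, Vh_mulVec, h.hp]
      ext i
      simp only [Pi.smul_apply, Pi.sub_apply, smul_eq_mul]
      ring
    have h2 := hpYp
    rw [h1, dotProduct_smul, h.hp, smul_eq_mul, mul_one] at h2
    rw [h1, h2, zero_smul]
  -- quadratic forms on the orthogonal complement
  have hqV : ∀ z : Fin n → ℝ, z ⬝ᵥ z = 1 → xp ⬝ᵥ z = 0 →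
      z ⬝ᵥ (Vh xp *ᵥ z) = -(cn n * (1 / (n : ℝ))) := by
    intro z hz hpz
    rw [Vh_mulVec, hpz, zero_smul, zero_sub, dotProduct_smul, dotProduct_neg, dotProduct_smul,
      hz]
    simp only [smul_eq_mul]
    ring
  have hker : ∀ (M : Matrix (Fin n) (Fin n) ℝ), TS M → M ≠ 0 → M *ᵥ xp = 0 →
      ∀ z, RM M z → xp ⬝ᵥ z = 0 := by
    intro M hM hM0 hMp z hz
    have h1 := RM_pos M hM hM0 z hz
    have h2 := RM_eig M hM.1 z hz
    have h3 : xp ⬝ᵥ (M *ᵥ z) = 0 := by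
      rw [Matrix.dotProduct_mulVec, ← Matrix.mulVec_transpose, hM.1.eq, hMp, zero_dotProduct]
    rw [h2, dotProduct_smul, smul_eq_mul] at h3
    rcases mul_eq_zero.1 h3 with h0 | h0
    · exact absurd h0 h1.ne'
    · exact h0
  have hnegTS : TS (-Y) := by
    refine ⟨?_, ?_⟩
    · exact hYTS.1.neg
    · rw [Matrix.trace_neg, hYTS.2, neg_zero]
  have hMp0 : Mp ≠ 0 := by
    intro h0
    rw [h0, (fn_eq_zero _).2 rfl] at hρ
    exact lt_irrefl _ hρ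
  have hMm0 : Mm ≠ 0 := by
    intro h0
    rw [hff, h0, (fn_eq_zero _).2 rfl] at hρ
    exact lt_irrefl _ hρ
  -- the colour
  obtain ⟨b1, b2, b3, b4⟩ := h.a2 (neg_ne_zero.2 hMp0)
  obtain ⟨c1, c2, c3, c4⟩ := h.a4 (neg_ne_zero.2 hMm0)
  obtain ⟨i, hi⟩ : ∃ i, w2 i ≠ 0 := by
    by_contra hcon
    push Not at hcon
    rw [sum_eq_zero (fun i _ => hcon i)] at b2
    exact zero_ne_one b2
  have hiσ : i ∉ σ := fun hiσ => hi (hw2 i hiσ)
  have hi4 : w4 i ≠ 0 := by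
    rw [← hw24 i hiσ]
    exact hi
  obtain ⟨y, hyR, hyA⟩ := b3 i hi
  obtain ⟨y', hyR', hyA'⟩ := c3 i hi4
  have hpy : xp ⬝ᵥ y = 0 := RM_orth Mp h.TSp hMp0 xp y h.Rp hyR
  have hpy' : xp ⬝ᵥ y' = 0 := RM_orth Mm h.TSm hMm0 xp y' h.Rm hyR'
  -- `y` minimises `Y`
  have hyY : RM (-Y) y := by
    refine ⟨hyR.1, ?_⟩
    intro z hz
    obtain ⟨z0, hz0⟩ := RM_exists hn0 (-Y)
    have hz0p : xp ⬝ᵥ z0 = 0 := by
      apply hker (-Y) hnegTS (neg_ne_zero.2 hY0) _ z0 hz0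
      rw [Matrix.neg_mulVec, hYp, neg_zero]
    have h1 := hz0.2 z hz
    have h2 := hyR.2 z0 hz0.1
    rw [hMpY, neg_add, Matrix.add_mulVec, Matrix.add_mulVec, dotProduct_add, dotProduct_add,
      Matrix.neg_mulVec (A := Vh xp), Matrix.neg_mulVec (A := Vh xp), dotProduct_neg,
      dotProduct_neg, hqV z0 hz0.1 hz0p, hqV y hyR.1 hpy] at h2
    linarith
  have hyY' : RM Y y' := by
    refine ⟨hyR'.1, ?_⟩
    intro z hz
    obtain ⟨z0, hz0⟩ := RM_exists hn0 Y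
    have hz0p : xp ⬝ᵥ z0 = 0 := hker Y hYTS hY0 hYp z0 hz0
    have h1 := hz0.2 z hz
    have h2 := hyR'.2 z0 hz0.1
    rw [hMmY, neg_sub, sub_eq_add_neg, Matrix.add_mulVec, Matrix.add_mulVec, dotProduct_add,
      dotProduct_add, Matrix.neg_mulVec, Matrix.neg_mulVec, dotProduct_neg,
      dotProduct_neg, hqV z0 hz0.1 hz0p, hqV y' hyR'.1 hpy'] at h2
    linarith
  exact S.orth i y' hyA' y hyA (RM_orth Y hYTS hY0 y' y hyY' hyY)

end BK
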