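import Crest.Agent.BK_M2
import Crest.Agent.BK_M4

set_option autoImplicit false

namespace BK
open Finset Matrix Filter Topology

variable {n : ℕ} {C : Type} [Fintype C] [DecidableEq C]

/-- Task BK-M5 (Z3). Choose `r0` from `top_stable` with `ρ` = radius in `LocLin`;
`M0 (toE (Vh p) ± Y) = Vh p ± M0 Y`; build `LD`, conclude `M0 Y = 0` and `tr Y = 0`. -/
theorem Z3 (hn : 2 ≤ n) (S : CS n C) (σ : Finset C) (hσ : σ.card = n)
    (hσ' : n < Fintype.card C) (p : Fin n → ℝ) (hp : p ⬝ᵥ p = 1) (hxi : IsXi S σ p)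
    (hloc : LocLin S σ p) : ∃ r0 > 0, ∀ Y : Sym2 (Fin n) → ℝ, Y ≠ 0 → ‖Y‖ ≤ r0 →
      ∀ θ ∈ Set.Icc (0 : ℝ) 1, ¬ ZEq S (zt n σ) (toE (Vh p)) Y θ := by
  obtain ⟨ρ, hρ, A, hA0, hA⟩ := hloc
  obtain ⟨r1, hr1, htop⟩ := top_stable hn p hp ρ hρ
  refine ⟨r1 / 2, by positivity, ?_⟩
  rintro Y hY hYr θ hθ ⟨w1, w2, w3, w4, ha1, ha2, ha3, ha4, heq⟩
  have hMp : M0 (toE (Vh p) + Y) = Vh p + M0 Y := by rw [M0_add, M0_toE_Vh hn p hp]
  have hMm : M0 (toE (Vh p) - Y) = Vh p - M0 Y := by rw [M0_sub, M0_toE_Vh hn p hp]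
  have htp : tr (toE (Vh p) + Y) = tr Y := by rw [tr_add, tr_toE_Vh hn p hp, zero_add]
  have htm : tr (toE (Vh p) - Y) = - tr Y := by
    rw [sub_eq_add_neg, tr_add, tr_neg, tr_toE_Vh hn p hp, zero_add]
  rw [hMp] at ha1 ha2
  rw [hMm] at ha3 ha4
  simp only [hMp, hMm, htp, htm] at heq
  have hn0 : 0 < n := by omega
  have hTSp : TS (Vh p + M0 Y) := hMp ▸ M0_TS hn0 _
  have hTSm : TS (Vh p - M0 Y) := hMm ▸ M0_TS hn0 _
  have hent : ∀ i j, |M0 Y i j| ≤ r1 := fun i j => (entry_M0_le Y i j).trans (by linarith)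
  obtain ⟨hfp1, hfp2, xp, hRp, hxp, hpxp, hup⟩ := htop (Vh p + M0 Y) hTSp (fun i j => by
    rw [Matrix.add_apply, add_sub_cancel_left]; exact hent i j)
  obtain ⟨hfm1, hfm2, xm, hRm, hxm, hpxm, hum⟩ := htop (Vh p - M0 Y) hTSm (fun i j => by
    rw [Matrix.sub_apply, sub_sub_cancel_left, abs_neg]; exact hent i j)
  have hLD : LD S σ p A (Vh p + M0 Y) (Vh p - M0 Y) xp xm w1 w2 w3 w4 (tr Y) θ :=
    { card := hσ
      hp := hp
      xi := hxi
      Ainj := hA0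
      A_p := hA p (by rw [sub_self, norm_zero]; exact hρ)
      A_xp := hA xp hxp
      A_xm := hA xm hxm
      TSp := hTSp
      TSm := hTSm
      sum := by rw [two_smul]; abel
      fp := ⟨hfp1, hfp2⟩
      fm := ⟨hfm1, hfm2⟩
      Rp := hRp
      Rm := hRm
      up := hup
      um := hum
      pxp := hpxp
      pxm := hpxm
      a1 := ha1
      a2 := ha2
      a3 := ha3
      a4 := ha4
      hθ := hθ
      eq := fun i => by rw [heq i]; ring }
  have hM : Vh p + M0 Y = Vh p := by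
    rcases lt_or_eq_of_le hθ.2 with h | h
    · exact LD_lt hn hσ' hLD h
    · exact LD_eq hn hσ' hLD h
  have hM0 : M0 Y = 0 := by simpa using hM
  have ht := (LD_basic hn hσ' hLD).1
  apply hY
  apply eq_of_M0_tr
  · rw [hM0, M0_zero]
  · rw [ht]
    simp [tr]

end BK
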