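import Crest.Agent.BK_T8

set_option autoImplicit false

namespace BK
open Finset

private lemma t9_norm {ι κ : Type} [Fintype ι] [Fintype κ] (e : ι ≃ κ) (x : κ → ℝ) :
    ‖fun i => x (e i)‖ = ‖x‖ := by
  apply le_antisymm
  · rw [pi_norm_le_iff_of_nonneg (norm_nonneg _)]
    intro i; exact norm_le_pi_norm x (e i)
  · rw [pi_norm_le_iff_of_nonneg (norm_nonneg _)]
    intro j
    have := norm_le_pi_norm (fun i => x (e i)) (e.symm j)
    simpa using this

/-- Task BK-T9: Theorem K for arbitrary index types. -/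
theorem thmK' {ι κ : Type} [Fintype ι] [Fintype κ] (hcard : Fintype.card ι = Fintype.card κ)
    (f : (ι → ℝ) → (κ → ℝ)) (hf : Continuous f) (R r : ℝ)
    (hR : 0 < R) (hr : 0 < r) (J : Finset (ι → ℝ))
    (hin : ∀ p ∈ J, ‖p‖ + r < R)
    (hdisj : ∀ p ∈ J, ∀ q ∈ J, p ≠ q → 2 * r < ‖p - q‖)
    (h1 : ∀ x, ‖x‖ ≤ R → (∀ p ∈ J, r ≤ ‖x - p‖) → f x ≠ 0)
    (h2 : ∀ x, ‖x‖ = R → ∀ θ ∈ Set.Icc (0 : ℝ) 1, f x ≠ θ • f (-x))
    (h3 : ∀ p ∈ J, ∀ y, ‖y‖ = r → ∀ θ ∈ Set.Icc (0 : ℝ) 1, f (p + y) ≠ θ • f (p - y)) :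
    Odd J.card := by
  classical
  let e : ι ≃ Fin (Fintype.card ι) := Fintype.equivFin ι
  let e' : κ ≃ Fin (Fintype.card ι) := Fintype.equivFinOfCardEq hcard.symm
  let L : (Fin (Fintype.card ι) → ℝ) → (ι → ℝ) := fun x i => x (e i)
  let L' : (ι → ℝ) → (Fin (Fintype.card ι) → ℝ) := fun x j => x (e.symm j)
  let M : (κ → ℝ) → (Fin (Fintype.card ι) → ℝ) := fun x j => x (e'.symm j)
  have hLL' : ∀ x, L (L' x) = x := fun x => by funext i; simp [L, L']
  have hL'L : ∀ x, L' (L x) = x := fun x => by funext i; simp [L, L']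
  have hL'inj : Function.Injective L' := fun x y h => by rw [← hLL' x, h, hLL']
  have hLn : ∀ x, ‖L x‖ = ‖x‖ := fun x => t9_norm e x
  have hL'n : ∀ x, ‖L' x‖ = ‖x‖ := fun x => t9_norm e.symm x
  have hMinj : Function.Injective M := fun x y h => by
    funext k
    have := congrFun h (e' k)
    simpa [M] using this
  have hMsmul : ∀ (θ : ℝ) x, M (θ • x) = θ • M x := fun θ x => rfl
  have hLneg : ∀ x, L (-x) = - L x := fun x => rfl
  have hLadd : ∀ x y, L (x + y) = L x + L y := fun x y => rfl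
  have hLsub : ∀ x y, L (x - y) = L x - L y := fun x y => rfl
  have hL'sub : ∀ x y, L' (x - y) = L' x - L' y := fun x y => rfl
  have hM0 : M 0 = 0 := rfl
  have hLc : Continuous L := by
    apply continuous_pi; intro i; exact continuous_apply _
  have hMc : Continuous M := by
    apply continuous_pi; intro i; exact continuous_apply _
  have key := thmK (fun x => M (f (L x))) (hMc.comp (hf.comp hLc)) R r hR hr (J.image L')
    (by
      intro p hp
      obtain ⟨q, hq, rfl⟩ := Finset.mem_image.1 hp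
      rw [hL'n]; exact hin q hq)
    (by
      intro p hp q hq hne
      obtain ⟨p, hp', rfl⟩ := Finset.mem_image.1 hp
      obtain ⟨q, hq', rfl⟩ := Finset.mem_image.1 hq
      rw [← hL'sub, hL'n]
      exact hdisj p hp' q hq' (fun h => hne (by rw [h])))
    (by
      intro x hx hfar h
      have h' : M (f (L x)) = M 0 := h
      have h0 := hMinj h'
      refine h1 (L x) (by rw [hLn]; exact hx) ?_ h0
      intro p hp
      have := hfar (L' p) (Finset.mem_image_of_mem _ hp)
      rw [← hLn, hLsub, hLL'] at this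
      exact this)
    (by
      intro x hx θ hθ h
      have h' : M (f (L x)) = M (θ • f (L (-x))) := h
      have h0 := hMinj h'
      exact h2 (L x) (by rw [hLn]; exact hx) θ hθ h0)
    (by
      intro p hp y hy θ hθ h
      obtain ⟨p, hp', rfl⟩ := Finset.mem_image.1 hp
      have h' : M (f (L (L' p + y))) = M (θ • f (L (L' p - y))) := h
      have h0 := hMinj h'
      rw [hLadd, hLsub, hLL'] at h0
      exact h3 p hp' (L y) (by rw [hLn]; exact hy) θ hθ h0)
  rwa [Finset.card_image_of_injective _ hL'inj] at key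

end BK
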