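import Crest.Agent.BK_W6
import Crest.Agent.BK_T9

set_option autoImplicit false

namespace BK
open Finset Matrix Filter Topology

variable {n : ℕ} {C : Type} [Fintype C]

/-- Task BK-W7 (compactness): if the equation has solutions in `K × Θ` for arbitrarily large `L`,
the limit equation has a solution. -/
theorem LIM (hn : 0 < n) (S : CS n C) (ζ : C → ℝ) (p : Sym2 (Fin n) → ℝ)
    (K : Set (Sym2 (Fin n) → ℝ)) (hK : IsCompact K) (Θ : Set ℝ) (hΘ : IsCompact Θ)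
    (h : ∀ L0 : ℕ, ∃ L, L0 ≤ L ∧ ∃ y ∈ K, ∃ θ ∈ Θ, ∀ i, fL S ζ L (p + y) i = θ * fL S ζ L (p - y) i) :
    ∃ y ∈ K, ∃ θ ∈ Θ, ZEq S ζ p y θ := by
  choose L hL y hy θ hθ heq using h
  -- the compact box of weights
  have hB : IsCompact (Set.univ.pi fun _ : C => Set.Icc (0 : ℝ) 1) :=
    isCompact_univ_pi fun _ => isCompact_Icc
  have hcomp := (hK.prod hΘ).prod ((hB.prod hB).prod (hB.prod hB))
  have hmem : ∀ (M : Matrix (Fin n) (Fin n) ℝ) (l : ℕ),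
      W S M l ∈ Set.univ.pi fun _ : C => Set.Icc (0 : ℝ) 1 := by
    intro M l i _
    exact ⟨W_nonneg S M l i, W_le_one S M l i⟩
  have hseq : ∀ k, ((y k, θ k), ((W S (M0 (p + y k)) (L k), W S (-(M0 (p + y k))) (L k)),
      (W S (M0 (p - y k)) (L k), W S (-(M0 (p - y k))) (L k)))) ∈
      (K ×ˢ Θ) ×ˢ (((Set.univ.pi fun _ : C => Set.Icc (0 : ℝ) 1) ×ˢ
        (Set.univ.pi fun _ : C => Set.Icc (0 : ℝ) 1)) ×ˢ
        ((Set.univ.pi fun _ : C => Set.Icc (0 : ℝ) 1) ×ˢ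
        (Set.univ.pi fun _ : C => Set.Icc (0 : ℝ) 1))) := by
    intro k
    exact ⟨⟨hy k, hθ k⟩, ⟨hmem _ _, hmem _ _⟩, ⟨hmem _ _, hmem _ _⟩⟩
  obtain ⟨⟨⟨y0, θ0⟩, ⟨⟨w1, w2⟩, ⟨w3, w4⟩⟩⟩, hlim, φ, hφ, ht⟩ := hcomp.tendsto_subseq hseq
  obtain ⟨⟨hy0, hθ0⟩, -⟩ := hlim
  rw [nhds_prod_eq, nhds_prod_eq, nhds_prod_eq, nhds_prod_eq, nhds_prod_eq] at ht
  have t1 := ht.fst
  have t2 := ht.snd
  have ty : Tendsto (fun k => y (φ k)) atTop (𝓝 y0) := t1.fst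
  have tθ : Tendsto (fun k => θ (φ k)) atTop (𝓝 θ0) := t1.snd
  have tw1 : Tendsto (fun k => W S (M0 (p + y (φ k))) (L (φ k))) atTop (𝓝 w1) := t2.fst.fst
  have tw2 : Tendsto (fun k => W S (-(M0 (p + y (φ k)))) (L (φ k))) atTop (𝓝 w2) := t2.fst.snd
  have tw3 : Tendsto (fun k => W S (M0 (p - y (φ k))) (L (φ k))) atTop (𝓝 w3) := t2.snd.fst
  have tw4 : Tendsto (fun k => W S (-(M0 (p - y (φ k)))) (L (φ k))) atTop (𝓝 w4) := t2.snd.snd
  have tL : Tendsto (fun k => L (φ k)) atTop atTop := by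
    refine tendsto_atTop_mono (fun k => ?_) tendsto_id
    exact (hφ.id_le k).trans (hL (φ k))
  have tp : Tendsto (fun k => p + y (φ k)) atTop (𝓝 (p + y0)) := ty.const_add p
  have tm : Tendsto (fun k => p - y (φ k)) atTop (𝓝 (p - y0)) := ty.const_sub p
  have tMp : Tendsto (fun k => M0 (p + y (φ k))) atTop (𝓝 (M0 (p + y0))) :=
    (M0_cont.tendsto _).comp tp
  have tMm : Tendsto (fun k => M0 (p - y (φ k))) atTop (𝓝 (M0 (p - y0))) :=
    (M0_cont.tendsto _).comp tm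
  have hTSneg : ∀ z : Sym2 (Fin n) → ℝ, TS (-(M0 z)) := by
    intro z
    rw [← M0_neg]
    exact M0_TS hn _
  refine ⟨y0, hy0, θ0, hθ0, w1, w2, w3, w4, ?_, ?_, ?_, ?_, ?_⟩
  · exact adm_of_limW hn S _ _ ⟨fun k => M0 (p + y (φ k)), fun k => L (φ k),
      fun k => M0_TS hn _, tMp, tL, fun i => (tendsto_pi_nhds.1 tw1) i⟩
  · exact adm_of_limW hn S _ _ ⟨fun k => -(M0 (p + y (φ k))), fun k => L (φ k),
      fun k => hTSneg _, tMp.neg, tL, fun i => (tendsto_pi_nhds.1 tw2) i⟩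
  · exact adm_of_limW hn S _ _ ⟨fun k => M0 (p - y (φ k)), fun k => L (φ k),
      fun k => M0_TS hn _, tMm, tL, fun i => (tendsto_pi_nhds.1 tw3) i⟩
  · exact adm_of_limW hn S _ _ ⟨fun k => -(M0 (p - y (φ k))), fun k => L (φ k),
      fun k => hTSneg _, tMm.neg, tL, fun i => (tendsto_pi_nhds.1 tw4) i⟩
  · intro i
    have e1 : Tendsto (fun k => fL S ζ (L (φ k)) (p + y (φ k)) i) atTop
        (𝓝 (fn (M0 (p + y0)) * (w1 i - w2 i) - ζ i + tr (p + y0))) := by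
      unfold fL
      refine ((Tendsto.mul ?_ (((tendsto_pi_nhds.1 tw1) i).sub ((tendsto_pi_nhds.1 tw2) i))).sub_const
        (ζ i)).add ((tr_cont.tendsto _).comp tp)
      exact (fn_cont.tendsto _).comp tMp
    have e2 : Tendsto (fun k => fL S ζ (L (φ k)) (p - y (φ k)) i) atTop
        (𝓝 (fn (M0 (p - y0)) * (w3 i - w4 i) - ζ i + tr (p - y0))) := by
      unfold fL
      refine ((Tendsto.mul ?_ (((tendsto_pi_nhds.1 tw3) i).sub ((tendsto_pi_nhds.1 tw4) i))).sub_const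
        (ζ i)).add ((tr_cont.tendsto _).comp tm)
      exact (fn_cont.tendsto _).comp tMm
    have e3 : Tendsto (fun k => θ (φ k) * fL S ζ (L (φ k)) (p - y (φ k)) i) atTop
        (𝓝 (θ0 * (fn (M0 (p - y0)) * (w3 i - w4 i) - ζ i + tr (p - y0)))) := tθ.mul e2
    have e4 : (fun k => fL S ζ (L (φ k)) (p + y (φ k)) i) =
        fun k => θ (φ k) * fL S ζ (L (φ k)) (p - y (φ k)) i := by
      funext k
      exact heq (φ k) i
    rw [e4] at e1
    exact tendsto_nhds_unique e1 e3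

end BK
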