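import Crest.Agent.BK_W6
import Crest.Agent.BK_T9
import Crest.Agent.BK_W7a

set_option autoImplicit false

namespace BK
open Finset Matrix Filter Topology

variable {n : ℕ} {C : Type} [Fintype C]

/-- no solutions for large `L` if the limit equation has none (contrapositive of `LIM`) -/
theorem no_sol_of_large (hn : 0 < n) (S : CS n C) (ζ : C → ℝ) (p : Sym2 (Fin n) → ℝ)
    (K : Set (Sym2 (Fin n) → ℝ)) (hK : IsCompact K) (Θ : Set ℝ) (hΘ : IsCompact Θ)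
    (h : ∀ y ∈ K, ∀ θ ∈ Θ, ¬ ZEq S ζ p y θ) :
    ∃ L0 : ℕ, ∀ L, L0 ≤ L → ∀ y ∈ K, ∀ θ ∈ Θ,
      fL S ζ L (p + y) ≠ θ • fL S ζ L (p - y) := by
  by_contra hcon
  push Not at hcon
  obtain ⟨y, hy, θ, hθ, hZ⟩ := LIM hn S ζ p K hK Θ hΘ (by
    intro L0
    obtain ⟨L, hL, y, hy, θ, hθ, he⟩ := hcon L0
    refine ⟨L, hL, y, hy, θ, hθ, fun i => ?_⟩
    have := congrFun he i
    simpa [Pi.smul_apply, smul_eq_mul] using this)
  exact h y hy θ hθ hZ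

/-- Task BK-W7: the topological engine. For large `L` the map `fL S ζ L` satisfies the hypotheses of
Theorem K. -/
theorem engine (hn : 2 ≤ n) (hC : 2 * Fintype.card C = n * (n + 1)) (S : CS n C) (ζ : C → ℝ)
    (R r : ℝ) (hR : 0 < R) (hr : 0 < r) (J : Finset (Sym2 (Fin n) → ℝ))
    (hin : ∀ p ∈ J, ‖p‖ + r < R)
    (hdisj : ∀ p ∈ J, ∀ q ∈ J, p ≠ q → 2 * r < ‖p - q‖)
    (h1 : ∀ y, ‖y‖ ≤ R → (∀ p ∈ J, r ≤ ‖y - p‖) → ¬ ZEq S ζ 0 y 0)
    (h2 : ∀ y, ‖y‖ = R → ∀ θ ∈ Set.Icc (0 : ℝ) 1, ¬ ZEq S ζ 0 y θ)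
    (h3 : ∀ p ∈ J, ∀ y, ‖y‖ = r → ∀ θ ∈ Set.Icc (0 : ℝ) 1, ¬ ZEq S ζ p y θ) :
    Odd J.card := by
  classical
  have hn0 : 0 < n := by omega
  have hcard : Fintype.card (Sym2 (Fin n)) = Fintype.card C := by
    rw [Sym2.card, Fintype.card_fin]
    have := Nat.choose_two_right (n + 1)
    rw [this]
    simp only [Nat.add_sub_cancel]
    have h2 : (n + 1) * n = 2 * Fintype.card C := by rw [hC]; ring
    rw [h2]
    omega
  -- the three compact sets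
  have hK1 : IsCompact {y : Sym2 (Fin n) → ℝ | ‖y‖ ≤ R ∧ ∀ p ∈ J, r ≤ ‖y - p‖} := by
    have hc : IsCompact (Metric.closedBall (0 : Sym2 (Fin n) → ℝ) R) := isCompact_closedBall 0 R
    refine hc.of_isClosed_subset ?_ ?_
    · have : {y : Sym2 (Fin n) → ℝ | ‖y‖ ≤ R ∧ ∀ p ∈ J, r ≤ ‖y - p‖} =
          {y | ‖y‖ ≤ R} ∩ ⋂ p ∈ J, {y | r ≤ ‖y - p‖} := by
        ext y; simp
      rw [this]
      refine IsClosed.inter (isClosed_le continuous_norm continuous_const) ?_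
      refine isClosed_biInter fun p _ => ?_
      exact isClosed_le continuous_const (continuous_norm.comp (continuous_id.sub continuous_const))
    · intro y hy
      simpa using hy.1
  have hK2 : ∀ ρ : ℝ, IsCompact {y : Sym2 (Fin n) → ℝ | ‖y‖ = ρ} := by
    intro ρ
    have : {y : Sym2 (Fin n) → ℝ | ‖y‖ = ρ} = Metric.sphere 0 ρ := by
      ext y; simp
    rw [this]
    exact isCompact_sphere 0 ρ
  obtain ⟨L1, hL1⟩ := no_sol_of_large hn0 S ζ 0 _ hK1 {0} isCompact_singleton (by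
    rintro y ⟨hy1, hy2⟩ θ hθ
    rw [Set.mem_singleton_iff] at hθ
    subst hθ
    exact h1 y hy1 hy2)
  obtain ⟨L2, hL2⟩ := no_sol_of_large hn0 S ζ 0 _ (hK2 R) (Set.Icc 0 1) isCompact_Icc (by
    intro y hy θ hθ
    exact h2 y hy θ hθ)
  have hex : ∀ p : Sym2 (Fin n) → ℝ, ∃ L3 : ℕ, p ∈ J → ∀ L, L3 ≤ L → ∀ y, ‖y‖ = r →
      ∀ θ ∈ Set.Icc (0 : ℝ) 1, fL S ζ L (p + y) ≠ θ • fL S ζ L (p - y) := by
    intro p
    by_cases hp : p ∈ J
    · obtain ⟨L3, hL3⟩ := no_sol_of_large hn0 S ζ p _ (hK2 r) (Set.Icc 0 1) isCompact_Icc (by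
        intro y hy θ hθ
        exact h3 p hp y hy θ hθ)
      exact ⟨L3, fun _ L hL y hy θ hθ => hL3 L hL y hy θ hθ⟩
    · exact ⟨0, fun h => absurd h hp⟩
  choose L3 hL3 using hex
  set L : ℕ := max (max L1 L2) (∑ p ∈ J, L3 p) with hLdef
  have hLL1 : L1 ≤ L := le_trans (le_max_left _ _) (le_max_left _ _)
  have hLL2 : L2 ≤ L := le_trans (le_max_right _ _) (le_max_left _ _)
  have hLL3 : ∀ p ∈ J, L3 p ≤ L := fun p hp =>
    le_trans (Finset.single_le_sum (f := L3) (fun _ _ => Nat.zero_le _) hp) (le_max_right _ _)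
  refine thmK' hcard (fun y => fL S ζ L y) (fL_cont hn0 S ζ L) R r hR hr J hin hdisj ?_ ?_ ?_
  · intro x hx1 hx2 h0
    refine hL1 L hLL1 x ⟨hx1, hx2⟩ 0 (Set.mem_singleton _) ?_
    rw [zero_add, zero_smul]
    exact h0
  · intro x hx θ hθ h0
    refine hL2 L hLL2 x hx θ hθ ?_
    rw [zero_add, zero_sub]
    exact h0
  · intro p hp y hy θ hθ h0
    exact hL3 p hp L (hLL3 p hp) y hy θ hθ h0

end BK
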