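import Crest.Agent.BK_M5
import Crest.Agent.BK_W7

set_option autoImplicit false

namespace BK
open Finset Matrix Filter Topology

variable {n : ℕ} {C : Type} [Fintype C] [DecidableEq C]

private theorem M6_fib (hn : 2 ≤ n) (P : Finset (Fin n → ℝ))
    (h1 : ∀ p ∈ P, p ⬝ᵥ p = 1) (hneg : ∀ p ∈ P, -p ∈ P) :
    P.card = 2 * (P.image (fun p => toE (Vh p))).card := by
  classical
  rw [Finset.card_eq_sum_card_image (fun p => toE (Vh p)) P]
  have : ∀ b ∈ P.image (fun p => toE (Vh p)),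
      (P.filter (fun a => toE (Vh a) = b)).card = 2 := by
    intro b hb
    rw [Finset.mem_image] at hb
    obtain ⟨p, hp, rfl⟩ := hb
    have hpne : p ≠ -p := by
      intro h
      have h0 : p = 0 := by
        have := h
        funext i
        have h2 := congrFun h i
        simp only [Pi.neg_apply] at h2
        simp only [Pi.zero_apply]
        linarith
      have h3 := h1 p hp
      rw [h0] at h3
      simp at h3
    have hfilter : P.filter (fun a => toE (Vh a) = toE (Vh p)) = {p, -p} := by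
      ext a
      simp only [Finset.mem_filter, Finset.mem_insert, Finset.mem_singleton]
      constructor
      · rintro ⟨ha, hE⟩
        have hM : Vh p = Vh a := by
          rw [← M0_toE_Vh hn p (h1 p hp), ← M0_toE_Vh hn a (h1 a ha), hE]
        exact Vh_inj hn p a (h1 p hp) (h1 a ha) hM
      · rintro (rfl | rfl)
        · exact ⟨hp, rfl⟩
        · exact ⟨hneg p hp, by rw [Vh_neg]⟩
    rw [hfilter, Finset.card_pair hpne]
  rw [Finset.sum_congr rfl this, Finset.sum_const, smul_eq_mul, mul_comm]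

/-- Task BK-M6: MAIN THEOREM MT(n). Apply `engine` to `J = P.image (fun p => toE (Vh p))`, `R = 3`
and `r` small; `P.card = 2 * J.card` as the fibres are `{p,-p}`. -/
theorem MT (hn : 2 ≤ n) (hC : 2 * Fintype.card C = n * (n + 1)) (S : CS n C) (σ : Finset C)
    (hσ : σ.card = n) (P : Finset (Fin n → ℝ)) (hne : P.Nonempty)
    (h1 : ∀ p ∈ P, p ⬝ᵥ p = 1) (hneg : ∀ p ∈ P, -p ∈ P)
    (h2 : ∀ x, x ⬝ᵥ x = 1 → IsXi S σ x → x ∈ P) (h3 : ∀ p ∈ P, IsXi S σ p)
    (h4 : ∀ p ∈ P, LocLin S σ p) : P.card % 4 = 2 := by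
  classical
  have hn0 : 0 < n := by omega
  have hσ' : n < Fintype.card C := by
    nlinarith
  -- Z3 radii
  have hZ : ∀ p ∈ P, ∃ r0 > 0, ∀ Y : Sym2 (Fin n) → ℝ, Y ≠ 0 → ‖Y‖ ≤ r0 →
      ∀ θ ∈ Set.Icc (0 : ℝ) 1, ¬ ZEq S (zt n σ) (toE (Vh p)) Y θ := fun p hp =>
    Z3 hn S σ hσ hσ' p (h1 p hp) (h3 p hp) (h4 p hp)
  set J : Finset (Sym2 (Fin n) → ℝ) := P.image (fun p => toE (Vh p)) with hJ
  have hZJ : ∀ q ∈ J, ∀ᶠ r in 𝓝[>] (0 : ℝ), ∀ Y : Sym2 (Fin n) → ℝ, ‖Y‖ = r →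
      ∀ θ ∈ Set.Icc (0 : ℝ) 1, ¬ ZEq S (zt n σ) q Y θ := by
    intro q hq
    rw [hJ, Finset.mem_image] at hq
    obtain ⟨p, hp, rfl⟩ := hq
    obtain ⟨r0, hr0, hr⟩ := hZ p hp
    have hlt : ∀ᶠ r in 𝓝[>] (0 : ℝ), r < r0 :=
      (nhdsWithin_le_nhds (Iio_mem_nhds hr0))
    filter_upwards [hlt, self_mem_nhdsWithin] with r hrr0 hrpos Y hY θ hθ
    have hrpos' : (0 : ℝ) < r := hrpos
    apply hr Y _ (by rw [hY]; exact hrr0.le) θ hθ
    intro h0
    rw [h0, norm_zero] at hY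
    linarith
  have hDJ : ∀ p ∈ J, ∀ᶠ r in 𝓝[>] (0 : ℝ), ∀ q ∈ J, p ≠ q → 2 * r < ‖p - q‖ := by
    intro p _
    rw [Finset.eventually_all]
    intro q _
    by_cases hpq : p = q
    · exact Filter.Eventually.of_forall (fun r h => absurd hpq h)
    · have hpos : 0 < ‖p - q‖ / 2 := by
        have : 0 < ‖p - q‖ := norm_pos_iff.2 (sub_ne_zero.2 hpq)
        linarith
      have hlt : ∀ᶠ r in 𝓝[>] (0 : ℝ), r < ‖p - q‖ / 2 :=
        (nhdsWithin_le_nhds (Iio_mem_nhds hpos))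
      filter_upwards [hlt] with r hr _
      linarith
  have hlt1 : ∀ᶠ r in 𝓝[>] (0 : ℝ), r < 1 :=
    (nhdsWithin_le_nhds (Iio_mem_nhds one_pos))
  have hall := (((Finset.eventually_all J).2 hZJ).and ((Finset.eventually_all J).2 hDJ)).and
    (hlt1.and self_mem_nhdsWithin)
  obtain ⟨r, ⟨hrZ, hrD⟩, hr1, hrpos⟩ := hall.exists
  have hrpos' : (0 : ℝ) < r := hrpos
  obtain ⟨p0, hp0⟩ := hne
  have hp0A : ∀ i ∈ σ, p0 ∈ S.A i := by
    intro i hi
    have hne0 : p0 ≠ 0 := by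
      intro h0
      have := h1 p0 hp0
      rw [h0] at this
      simp at this
    apply S.supp p0 i hne0
    rw [h3 p0 hp0 i, if_pos hi]
    have : (0 : ℝ) < n := by exact_mod_cast hn0
    positivity
  have hodd : Odd J.card := by
    apply engine hn hC S (zt n σ) 3 r (by norm_num) hrpos' J
    · intro q hq
      rw [hJ, Finset.mem_image] at hq
      obtain ⟨p, hp, rfl⟩ := hq
      have hle := norm_le_fn (toE (Vh p)) (tr_toE_Vh hn p (h1 p hp))
      rw [M0_toE_Vh hn p (h1 p hp), fn_Vh hn p (h1 p hp)] at hle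
      linarith
    · intro p hp q hq hpq
      exact hrD p hp q hq hpq
    · intro y _ hyJ hz
      obtain ⟨x, hx1, hxi, rfl⟩ := Z2a hn S σ hσ hσ' p0 hp0A y hz
      have hxP := h2 x hx1 hxi
      have hmem : toE (Vh x) ∈ J := by
        rw [hJ]
        exact Finset.mem_image_of_mem _ hxP
      have := hyJ _ hmem
      rw [sub_self, norm_zero] at this
      linarith
    · intro y hy θ hθ hz
      have := Z2b hn S σ hσ hσ' p0 hp0A y θ hθ hz
      rw [hy] at this
      norm_num at this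
    · intro p hp y hy θ hθ
      exact hrZ p hp y hy θ hθ
  have hcard := M6_fib hn P h1 hneg
  rw [← hJ] at hcard
  obtain ⟨k, hk⟩ := hodd
  omega

end BK
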