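import Crest.Agent.BK_M1
import Crest.Agent.BK_W7

set_option autoImplicit false

namespace BK
open Finset Matrix Filter Topology

variable {C : Type} [Fintype C] [DecidableEq C]

private theorem m7a_zt_sum (hC : Fintype.card C = 6) (B : Finset C) (hB : B.card = 3) :
    ∑ i, zt 3 B i = 0 := by
  rw [← Finset.sum_add_sum_compl B]
  have h1 : ∀ i ∈ B, zt 3 B i = 1 / 3 := fun i hi => by
    unfold zt; rw [if_pos hi]; norm_num
  have h2 : ∀ i ∈ Bᶜ, zt 3 B i = -(1 / 3) := fun i hi => by
    unfold zt; rw [if_neg (Finset.mem_compl.1 hi), hC]; norm_num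
  rw [Finset.sum_congr rfl h1, Finset.sum_congr rfl h2, Finset.sum_const, Finset.sum_const,
    Finset.card_compl, hB, hC]
  norm_num

/-- Task BK-M7: limit equation for ET. `M = M0 y`. If `M = 0` then (`zt` not constant) `θ = 1`,
`tr y = 0`, `y = 0`. If `M ≠ 0`: sum gives `tr y = 0`,
`fn M ((w1+θ w4) - (w2+θ w3)) = (1-θ) zt`. `θ = 1`: a colour is met by maximisers and minimisers,
which are orthogonal. `θ < 1`: maximisers meet all `A i`, `i ∈ B`, minimisers all `A i`, `i ∉ B`;
one of them is unique up to sign (`RM_three`). -/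
theorem ET_noZ (S : CS 3 C) (hC : Fintype.card C = 6) (B : Finset C) (hB : B.card = 3)
    (h1 : ¬ ∃ x, x ≠ 0 ∧ ∀ i ∈ B, x ∈ S.A i) (h2 : ¬ ∃ x, x ≠ 0 ∧ ∀ i, i ∉ B → x ∈ S.A i)
    (y : Sym2 (Fin 3) → ℝ) (θ : ℝ) (hθ : θ ∈ Set.Icc (0 : ℝ) 1) (hy : y ≠ 0 ∨ θ < 1) :
    ¬ ZEq S (zt 3 B) 0 y θ := by
  rintro ⟨w1, w2, w3, w4, a1, a2, a3, a4, heq⟩
  rw [zero_add] at a1 a2
  rw [zero_sub, M0_neg] at a3 a4
  rw [neg_neg] at a4
  simp only [zero_add, zero_sub, M0_neg, fn_neg, tr_neg] at heq
  have hzB : ∀ i ∈ B, zt 3 B i = 1 / 3 := fun i hi => by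
    unfold zt; rw [if_pos hi]; norm_num
  have hzC : ∀ i, i ∉ B → zt 3 B i = -(1 / 3) := fun i hi => by
    unfold zt; rw [if_neg hi, hC]; norm_num
  obtain ⟨i0, hi0⟩ : B.Nonempty := by rw [← Finset.card_pos, hB]; norm_num
  obtain ⟨i1, hi1⟩ : ∃ i, i ∉ B := by
    by_contra hcon
    push Not at hcon
    have : B = Finset.univ := Finset.eq_univ_iff_forall.2 hcon
    rw [this, Finset.card_univ, hC] at hB
    norm_num at hB
  by_cases hM0 : M0 y = 0
  · have hf0 : fn (M0 y) = 0 := (fn_eq_zero _).2 hM0
    have e0 := heq i0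
    have e1 := heq i1
    rw [hf0, hzB i0 hi0] at e0
    rw [hf0, hzC i1 hi1] at e1
    have hθ1 : θ = 1 := by linarith
    rw [hθ1] at e0
    have ht : tr y = 0 := by linarith
    have hy0 : y = 0 := by
      apply eq_of_M0_tr y 0
      · rw [hM0, M0_zero]
      · rw [ht]; simp [tr]
    rcases hy with h | h
    · exact h hy0
    · linarith
  · have hf : 0 < fn (M0 y) := by
      rcases (fn_nonneg (M0 y)).lt_or_eq with h | h
      · exact h
      · exact absurd ((fn_eq_zero _).1 h.symm) hM0
    obtain ⟨b1, b2, b3, -⟩ := a1 hM0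
    obtain ⟨c1, c2, c3, -⟩ := a2 (neg_ne_zero.2 hM0)
    obtain ⟨d1, d2, d3, -⟩ := a3 (neg_ne_zero.2 hM0)
    obtain ⟨f1, f2, f3, -⟩ := a4 hM0
    have hTS : TS (M0 y) := M0_TS (by norm_num) y
    have ht : tr y = 0 := by
      have hs : ∑ i, (fn (M0 y) * (w1 i - w2 i) - zt 3 B i + tr y) =
          ∑ i, θ * (fn (M0 y) * (w3 i - w4 i) - zt 3 B i + -tr y) :=
        Finset.sum_congr rfl fun i _ => heq i
      rw [← Finset.mul_sum] at hs
      simp only [Finset.sum_add_distrib, Finset.sum_sub_distrib, ← Finset.mul_sum,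
        Finset.sum_const, Finset.card_univ, hC, nsmul_eq_mul, m7a_zt_sum hC B hB, b2, c2, d2,
        f2] at hs
      push_cast at hs
      have h3 : (6 * (1 + θ)) * tr y = 0 := by linarith
      have := hθ.1
      rcases mul_eq_zero.1 h3 with h4 | h4
      · exfalso; linarith
      · exact h4
    have heq' : ∀ i, fn (M0 y) * ((w1 i + θ * w4 i) - (w2 i + θ * w3 i)) = (1 - θ) * zt 3 B i := by
      intro i
      have := heq i
      rw [ht] at this
      linarith
    rcases hθ.2.lt_or_eq with hlt | heq1
    · -- θ < 1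
      have hmax : ∀ i ∈ B, ∃ x, RM (M0 y) x ∧ x ∈ S.A i := by
        intro i hi
        have e := heq' i
        rw [hzB i hi] at e
        have e2 : 0 < (w1 i + θ * w4 i) - (w2 i + θ * w3 i) := by
          by_contra hneg
          push Not at hneg
          have : fn (M0 y) * ((w1 i + θ * w4 i) - (w2 i + θ * w3 i)) ≤ 0 :=
            mul_nonpos_of_nonneg_of_nonpos hf.le hneg
          linarith
        have e3 : 0 ≤ w2 i + θ * w3 i := add_nonneg (c1 i) (mul_nonneg hθ.1 (d1 i))
        by_cases hw1 : w1 i = 0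
        · have hw4 : w4 i ≠ 0 := by
            intro h0
            rw [hw1, h0] at e2
            linarith
          exact f3 i hw4
        · exact b3 i hw1
      have hmin : ∀ i, i ∉ B → ∃ x, RM (-(M0 y)) x ∧ x ∈ S.A i := by
        intro i hi
        have e := heq' i
        rw [hzC i hi] at e
        have e2 : (w1 i + θ * w4 i) - (w2 i + θ * w3 i) < 0 := by
          by_contra hneg
          push Not at hneg
          have : 0 ≤ fn (M0 y) * ((w1 i + θ * w4 i) - (w2 i + θ * w3 i)) :=
            mul_nonneg hf.le hneg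
          linarith
        have e3 : 0 ≤ w1 i + θ * w4 i := add_nonneg (b1 i) (mul_nonneg hθ.1 (f1 i))
        by_cases hw2 : w2 i = 0
        · have hw3 : w3 i ≠ 0 := by
            intro h0
            rw [hw2, h0] at e2
            linarith
          exact d3 i hw3
        · exact c3 i hw2
      rcases RM_three (M0 y) hTS hM0 with ⟨x, hx, hu⟩ | ⟨x, hx, hu⟩
      · refine h1 ⟨x, ?_, fun i hi => ?_⟩
        · rintro rfl
          have := hx.1
          simp at this
        · obtain ⟨z, hz, hzA⟩ := hmax i hi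
          rcases hu z hz with h | h
          · rwa [h] at hzA
          · have := S.A_homog i z hzA (-1) (by norm_num)
            rw [h, neg_one_smul, neg_neg] at this
            exact this
      · refine h2 ⟨x, ?_, fun i hi => ?_⟩
        · rintro rfl
          have := hx.1
          simp at this
        · obtain ⟨z, hz, hzA⟩ := hmin i hi
          rcases hu z hz with h | h
          · rwa [h] at hzA
          · have := S.A_homog i z hzA (-1) (by norm_num)
            rw [h, neg_one_smul, neg_neg] at this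
            exact this
    · -- θ = 1
      obtain ⟨i, hi⟩ : ∃ i, w1 i ≠ 0 := by
        by_contra hcon
        push Not at hcon
        have : ∑ i, w1 i = 0 := Finset.sum_eq_zero fun i _ => hcon i
        rw [b2] at this
        norm_num at this
      have e := heq' i
      rw [heq1, sub_self, zero_mul] at e
      have e2 : (w1 i + 1 * w4 i) - (w2 i + 1 * w3 i) = 0 := by
        rcases mul_eq_zero.1 e with h | h
        · exact absurd h hf.ne'
        · exact h
      have hw1 : 0 < w1 i := lt_of_le_of_ne (b1 i) (Ne.symm hi)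
      obtain ⟨x, hx, hxA⟩ := b3 i hi
      have hex : ∃ z, RM (-(M0 y)) z ∧ z ∈ S.A i := by
        by_cases hw2 : w2 i = 0
        · have hw3 : w3 i ≠ 0 := by
            intro h0
            rw [hw2, h0] at e2
            have := f1 i
            linarith
          exact d3 i hw3
        · exact c3 i hw2
      obtain ⟨z, hz, hzA⟩ := hex
      exact S.orth i x hxA z hzA (RM_orth (M0 y) hTS hM0 x z hx hz)

end BK
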