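import Crest.Agent.BK_M1
import Crest.Agent.BK_W7
import Crest.Agent.BK_M7a

set_option autoImplicit false

namespace BK
open Finset Matrix Filter Topology

variable {C : Type} [Fintype C] [DecidableEq C]

/-- Task BK-M7: ET(3), by `engine` with `J = ∅`. -/
theorem ET (S : CS 3 C) (hC : Fintype.card C = 6) (B : Finset C) (hB : B.card = 3) :
    (∃ x, x ≠ 0 ∧ ∀ i ∈ B, x ∈ S.A i) ∨ (∃ x, x ≠ 0 ∧ ∀ i, i ∉ B → x ∈ S.A i) := by
  by_contra hcon
  rw [not_or] at hcon
  obtain ⟨h1, h2⟩ := hcon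
  have key := engine (n := 3) (by norm_num) (by rw [hC]) S (zt 3 B) 1 1 one_pos one_pos
    (∅ : Finset (Sym2 (Fin 3) → ℝ)) (by simp) (by simp)
    (fun y _ _ => ET_noZ S hC B hB h1 h2 y 0 (by simp) (Or.inr one_pos))
    (fun y hy θ hθ => ET_noZ S hC B hB h1 h2 y θ hθ (Or.inl (by
      rintro rfl
      simp at hy)))
    (by simp)
  simp at key

end BK
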