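import Crest.Agent.BK_T1

set_option autoImplicit false

namespace BK
open Finset

/-- translation of chains -/
private noncomputable def T4b_T {m : ℕ} (c : Fin m → ℤ) : Ch m →ₗ[ZMod 2] Ch m :=
  Finsupp.lmapDomain (ZMod 2) (ZMod 2) (fun x => x + c)

private theorem T4b_T_single {m : ℕ} (c : Fin m → ℤ) (y : Fin m → ℤ) (a : ZMod 2) :
    T4b_T c (Finsupp.single y a) = Finsupp.single (y + c) a := by
  unfold T4b_T
  rw [Finsupp.lmapDomain_apply, Finsupp.mapDomain_single]

private theorem T4b_eps {m : ℕ} (c : Fin m → ℤ) (hc : ∀ i, Even (c i)) (f : Ch m) :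
    eps (T4b_T c f) = eps f := by
  have : (eps ∘ₗ T4b_T c : Ch m →ₗ[ZMod 2] ZMod 2) = eps := by
    apply Finsupp.lhom_ext
    intro y a
    rw [LinearMap.comp_apply, T4b_T_single]
    unfold eps
    rw [Finsupp.linearCombination_single, Finsupp.linearCombination_single]
    have : (∀ i, Even ((y + c) i)) ↔ (∀ i, Even (y i)) := by
      apply forall_congr'
      intro i
      rw [Pi.add_apply, Int.even_add]
      simp [hc i]
    simp only [this]
  exact LinearMap.congr_fun this f

private theorem T4b_bd {m : ℕ} (c : Fin m → ℤ) (hc : ∀ i, Even (c i)) (f : Ch m) :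
    bd (T4b_T c f) = T4b_T c (bd f) := by
  have : (bd ∘ₗ T4b_T c : Ch m →ₗ[ZMod 2] Ch m) = T4b_T c ∘ₗ bd := by
    apply Finsupp.lhom_ext
    intro y a
    rw [LinearMap.comp_apply, T4b_T_single, LinearMap.comp_apply]
    unfold bd
    rw [Finsupp.linearCombination_single, Finsupp.linearCombination_single, map_smul, map_sum]
    congr 1
    apply Finset.sum_congr rfl
    intro i _
    have : Odd ((y + c) i) ↔ Odd (y i) := by
      rw [Pi.add_apply, Int.odd_add]
      simp [hc i]
    by_cases h : Odd (y i)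
    · rw [if_pos h, if_pos (this.2 h), map_add, T4b_T_single, T4b_T_single]
      congr 2 <;> abel
    · rw [if_neg h, if_neg (fun h' => h (this.1 h')), map_zero]
  exact LinearMap.congr_fun this f

private theorem T4b_mulS {m : ℕ} (c : Fin m → ℤ) (s : (Fin m → ℤ) → ZMod 2) (f : Ch m) :
    mulS s (T4b_T c f) = T4b_T c (mulS (fun x => s (x + c)) f) := by
  have : (mulS s ∘ₗ T4b_T c : Ch m →ₗ[ZMod 2] Ch m) =
      T4b_T c ∘ₗ mulS (fun x => s (x + c)) := by
    apply Finsupp.lhom_ext
    intro y a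
    rw [LinearMap.comp_apply, T4b_T_single, LinearMap.comp_apply]
    unfold mulS
    rw [Finsupp.linearCombination_single, Finsupp.linearCombination_single, map_smul,
      T4b_T_single]
  exact LinearMap.congr_fun this f

private theorem T4b_cm {m : ℕ} (c : Fin m → ℤ) (hc : ∀ i, Even (c i))
    (s : (Fin m → ℤ) → ZMod 2) (f : Ch m) :
    cm s (T4b_T c f) = T4b_T c (cm (fun x => s (x + c)) f) := by
  unfold cm
  simp only [LinearMap.add_apply, LinearMap.comp_apply]
  rw [T4b_bd c hc, T4b_mulS, T4b_mulS, T4b_bd c hc, map_add]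

private theorem T4b_run {m : ℕ} (c : Fin m → ℤ) (hc : ∀ i, Even (c i))
    (l : List ((Fin m → ℤ) → ZMod 2)) (f : Ch m) :
    run l (T4b_T c f) = T4b_T c (run (l.map (fun s x => s (x + c))) f) := by
  induction l with
  | nil => rfl
  | cons s l ih =>
    rw [List.map_cons, run, run, LinearMap.comp_apply, LinearMap.comp_apply, ih, T4b_cm c hc]

private theorem T4b_box {m : ℕ} (c : Fin m → ℤ) (hc : ∀ i, Even (c i)) (N : ℕ) :
    boxC c N = T4b_T c (boxC 0 N) := by
  unfold boxC
  rw [map_sum]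
  simp only [T4b_T_single]
  symm
  have hp : ∀ (x : Fin m → ℤ) (i : Fin m), Odd ((x + c) i) ↔ Odd (x i) := by
    intro x i
    rw [Pi.add_apply, Int.odd_add]
    simp [hc i]
  refine Finset.sum_bij (fun x _ => x + c) ?_ ?_ ?_ ?_
  · intro x hx
    unfold boxF at hx ⊢
    rw [Fintype.mem_piFinset] at hx ⊢
    intro i
    have h := hx i
    rw [Finset.mem_filter, Finset.mem_Ioo] at h ⊢
    refine ⟨?_, (hp x i).2 h.2⟩
    have h1 := h.1
    simp only [Pi.zero_apply, Pi.add_apply] at h1 ⊢
    constructor <;> omega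
  · intro x _ y _ h
    exact add_right_cancel h
  · intro y hy
    refine ⟨y - c, ?_, sub_add_cancel _ _⟩
    unfold boxF at hy ⊢
    rw [Fintype.mem_piFinset] at hy ⊢
    intro i
    have h := hy i
    rw [Finset.mem_filter, Finset.mem_Ioo] at h ⊢
    refine ⟨?_, ?_⟩
    · have h1 := h.1
      simp only [Pi.zero_apply, Pi.sub_apply] at h1 ⊢
      constructor <;> omega
    · rw [← hp, sub_add_cancel]
      exact h.2
  · intro x _
    rfl

/-- Task BK-T4 -/
theorem DD_translate {m : ℕ} (s : Fin m → (Fin m → ℤ) → ZMod 2) (c : Fin m → ℤ)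
    (hc : ∀ i, Even (c i)) (N : ℕ) :
    DD s (boxC c N) = DD (fun i x => s i (x + c)) (boxC 0 N) := by
  unfold DD
  rw [T4b_box c hc, T4b_run c hc, T4b_eps c hc, List.map_ofFn]
  rfl

end BK
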