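import Crest.Agent.BK_T1

set_option autoImplicit false

namespace BK
open Finset

/-! ### Task BK-T2: locality -/

/-- chains supported on the faces of the closed cell `y` -/
private def T2Sub {m : ℕ} (y : Fin m → ℤ) (f : Ch m) : Prop := ∀ x, f x ≠ 0 → IsFace x y

private theorem T2_add_self {m : ℕ} (f : Ch m) : f + f = 0 := by
  ext x
  simp only [Finsupp.add_apply, Finsupp.coe_zero, Pi.zero_apply]
  exact CharTwo.add_self_eq_zero _

private theorem T2_single {m : ℕ} (y : Fin m → ℤ) (c : ZMod 2) :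
    T2Sub y (Finsupp.single y c) := by
  classical
  intro x hx
  have hxy : y = x := by
    by_contra hne
    exact hx (by rw [Finsupp.single_apply, if_neg hne])
  subst hxy
  exact fun i => Or.inl rfl

private theorem T2_mulS {m : ℕ} (s : (Fin m → ℤ) → ZMod 2) (y : Fin m → ℤ) (f : Ch m)
    (hf : T2Sub y f) : T2Sub y (mulS s f) := by
  intro x hx
  rw [mulS_apply] at hx
  exact hf x (right_ne_zero_of_mul hx)

private theorem T2_add {m : ℕ} (y : Fin m → ℤ) (f g : Ch m)
    (hf : T2Sub y f) (hg : T2Sub y g) : T2Sub y (f + g) := by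
  intro x hx
  by_cases h : f x = 0
  · apply hg x
    intro h'
    exact hx (by rw [Finsupp.add_apply, h, h', add_zero])
  · exact hf x h

private theorem T2_face {m : ℕ} (x y : Fin m → ℤ) (i : Fin m) (hx : Even (x i)) (e : ℤ)
    (he : e = 1 ∨ e = -1) (h : IsFace (x + Pi.single i e) y) : IsFace x y := by
  intro j
  have hj := h j
  by_cases hji : j = i
  · subst hji
    rw [Pi.add_apply, Pi.single_eq_same] at hj
    right
    rcases hj with hj | ⟨h1, h2⟩
    · refine ⟨?_, ?_⟩
      · rw [← hj]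
        rcases he with rfl | rfl
        · exact hx.add_one
        · exact hx.add_odd (by decide)
      · rw [← hj]
        rcases he with rfl | rfl
        · have : x j - (x j + 1) = -1 := by ring
          rw [this]; rfl
        · have : x j - (x j + -1) = 1 := by ring
          rw [this]; rfl
    · exfalso
      obtain ⟨a, ha⟩ := hx
      obtain ⟨b, hb⟩ := h1
      rcases he with rfl | rfl
      · rcases abs_eq (by norm_num : (0:ℤ) ≤ 1) |>.1 h2 with h3 | h3 <;> omega
      · rcases abs_eq (by norm_num : (0:ℤ) ≤ 1) |>.1 h2 with h3 | h3 <;> omega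
  · rw [Pi.add_apply, Pi.single_eq_of_ne hji, add_zero] at hj
    exact hj

private theorem T2_bd {m : ℕ} (y : Fin m → ℤ) (f : Ch m)
    (hf : T2Sub y f) : T2Sub y (bd f) := by
  intro x hx
  rw [bd_apply] at hx
  obtain ⟨i, -, hi⟩ := Finset.exists_ne_zero_of_sum_ne_zero hx
  by_cases hev : Even (x i)
  · rw [if_pos hev] at hi
    by_cases h1 : f (x + Pi.single i 1) = 0
    · have h2 : f (x - Pi.single i 1) ≠ 0 := by
        intro h2
        exact hi (by rw [h1, h2, add_zero])
      have h3 := hf _ h2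
      refine T2_face x y i hev (-1) (Or.inr rfl) ?_
      have : x + Pi.single i (-1) = x - Pi.single i 1 := by
        rw [Pi.single_neg, sub_eq_add_neg]
      rw [this]
      exact h3
    · exact T2_face x y i hev 1 (Or.inl rfl) (hf _ h1)
  · rw [if_neg hev] at hi
    exact absurd rfl hi

private theorem T2_cm {m : ℕ} (s : (Fin m → ℤ) → ZMod 2) (y : Fin m → ℤ) (f : Ch m)
    (hf : T2Sub y f) : T2Sub y (cm s f) := by
  unfold cm
  rw [LinearMap.add_apply, LinearMap.comp_apply, LinearMap.comp_apply]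
  exact T2_add y _ _ (T2_bd y _ (T2_mulS s y f hf)) (T2_mulS s y _ (T2_bd y f hf))

private theorem T2_run {m : ℕ} (l : List ((Fin m → ℤ) → ZMod 2)) (y : Fin m → ℤ) (f : Ch m)
    (hf : T2Sub y f) : T2Sub y (run l f) := by
  induction l with
  | nil => exact hf
  | cons s l ih =>
    show T2Sub y (cm s (run l f))
    exact T2_cm s y _ ih

private theorem T2_mulS_const {m : ℕ} (s : (Fin m → ℤ) → ZMod 2) (y : Fin m → ℤ) (c : ZMod 2)
    (hs : ∀ x, IsFace x y → s x = c) (f : Ch m) (hf : T2Sub y f) : mulS s f = c • f := by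
  ext x
  rw [mulS_apply, Finsupp.smul_apply, smul_eq_mul]
  by_cases h : f x = 0
  · rw [h, mul_zero, mul_zero]
  · rw [hs x (hf x h)]

private theorem T2_cm_const {m : ℕ} (s : (Fin m → ℤ) → ZMod 2) (y : Fin m → ℤ)
    (hs : ConstOn s y) (f : Ch m) (hf : T2Sub y f) : cm s f = 0 := by
  unfold cm
  rw [LinearMap.add_apply, LinearMap.comp_apply, LinearMap.comp_apply,
    T2_mulS_const s y (s y) hs f hf, T2_mulS_const s y (s y) hs _ (T2_bd y f hf), map_smul]
  exact T2_add_self _

private theorem T2_run_zero {m : ℕ} (l : List ((Fin m → ℤ) → ZMod 2)) (y : Fin m → ℤ)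
    (h : ∃ s ∈ l, ConstOn s y) (f : Ch m) (hf : T2Sub y f) : run l f = 0 := by
  induction l with
  | nil =>
    obtain ⟨s, hs, -⟩ := h
    exact absurd hs (by simp)
  | cons t l ih =>
    show cm t (run l f) = 0
    obtain ⟨s, hs, hc⟩ := h
    rcases List.mem_cons.1 hs with rfl | hs'
    · exact T2_cm_const s y hc _ (T2_run l y f hf)
    · rw [ih ⟨s, hs', hc⟩, map_zero]

/-- if one of the functions is constant on the closed cell `y`, the whole composition kills `y` -/
theorem run_single_eq_zero {m : ℕ} (l : List ((Fin m → ℤ) → ZMod 2)) (y : Fin m → ℤ) (c : ZMod 2)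
    (h : ∃ s ∈ l, ConstOn s y) : run l (Finsupp.single y c) = 0 :=
  T2_run_zero l y h _ (T2_single y c)

/-- a mixed composition, with a multiplication by `e` in the middle, kills `y` if a function before
or after is constant on the closed cell `y` or if `e = 0` on it -/
theorem run_mul_run_single_eq_zero {m : ℕ} (l₁ l₂ : List ((Fin m → ℤ) → ZMod 2))
    (e : (Fin m → ℤ) → ZMod 2) (y : Fin m → ℤ) (c : ZMod 2)
    (h : (∃ s ∈ l₁, ConstOn s y) ∨ (∃ s ∈ l₂, ConstOn s y) ∨ (∀ x, IsFace x y → e x = 0)) :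
    run l₁ (mulS e (run l₂ (Finsupp.single y c))) = 0 := by
  rcases h with h | h | h
  · exact T2_run_zero l₁ y h _ (T2_mulS e y _ (T2_run l₂ y _ (T2_single y c)))
  · rw [run_single_eq_zero l₂ y c h, map_zero, map_zero]
  · rw [T2_mulS_const e y 0 h _ (T2_run l₂ y _ (T2_single y c)), zero_smul, map_zero]

theorem DD_eq_zero {m : ℕ} (s : Fin m → (Fin m → ℤ) → ZMod 2) (χ : Ch m)
    (h : ∀ y ∈ χ.support, ∃ i, ConstOn (s i) y) : DD s χ = 0 := by
  classical
  unfold DD
  have h1 : run (List.ofFn s) χ = 0 := by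
    have h2 : χ = ∑ y ∈ χ.support, Finsupp.single y (χ y) := (Finsupp.sum_single χ).symm
    rw [h2, map_sum]
    refine Finset.sum_eq_zero fun y hy => ?_
    obtain ⟨i, hi⟩ := h y hy
    exact run_single_eq_zero _ y _ ⟨s i, by simp [List.mem_ofFn], hi⟩
  rw [h1, map_zero]


end BK
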