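import Crest.Agent.BK_T1
import Crest.Agent.BK_T2

set_option autoImplicit false

namespace BK
open Finset

namespace T5

variable {m : ℕ}

/-- product chains -/
noncomputable def pC (A : Fin m → Finset ℤ) : Ch m :=
  ∑ y ∈ Fintype.piFinset A, Finsupp.single y 1

theorem pC_apply (A : Fin m → Finset ℤ) (z : Fin m → ℤ) :
    pC A z = if ∀ j, z j ∈ A j then 1 else 0 := by
  classical
  unfold pC
  rw [Finsupp.finsetSum_apply]
  simp only [Finsupp.single_apply]
  rw [Finset.sum_ite_eq']
  simp only [Fintype.mem_piFinset]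

/-- antipode -/
noncomputable def an : Ch m →ₗ[ZMod 2] Ch m :=
  (Finsupp.domLCongr (Equiv.neg (Fin m → ℤ)) : Ch m ≃ₗ[ZMod 2] Ch m).toLinearMap

theorem an_apply (f : Ch m) (z : Fin m → ℤ) : an f z = f (-z) := by
  unfold an
  simp [Finsupp.domLCongr_apply, Finsupp.domCongr_apply]

theorem an_single (y : Fin m → ℤ) (c : ZMod 2) :
    an (Finsupp.single y c) = Finsupp.single (-y) c := by
  unfold an
  simp

theorem eps_an (f : Ch m) : eps (an f) = eps f := by
  have : eps ∘ₗ (an : Ch m →ₗ[ZMod 2] Ch m) = eps := by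
    ext y
    simp [an_single, eps]
  exact LinearMap.congr_fun this f

theorem bd_an (f : Ch m) : bd (an f) = an (bd f) := by
  have : bd ∘ₗ (an : Ch m →ₗ[ZMod 2] Ch m) = an ∘ₗ bd := by
    apply Finsupp.lhom_ext'
    intro y
    ext
    simp only [LinearMap.coe_comp, Function.comp_apply, Finsupp.lsingle_apply, an_single, bd,
      Finsupp.linearCombination_single, one_smul, map_sum]
    congr 1
    apply Finset.sum_congr rfl
    intro i _
    by_cases h : Odd (y i)
    · have h' : Odd ((-y) i) := by simpa using h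
      rw [if_pos h, if_pos h', map_add, an_single, an_single, add_comm]
      congr 2
      · abel
      · abel
    · have h' : ¬ Odd ((-y) i) := by simpa using h
      rw [if_neg h, if_neg h', map_zero]
  exact LinearMap.congr_fun this f

theorem map_supp (L : Ch m →ₗ[ZMod 2] Ch m) (B : Set (Fin m → ℤ))
    (h : ∀ y ∈ B, L (Finsupp.single y 1) ∈ Finsupp.supported (ZMod 2) (ZMod 2) B) (f : Ch m)
    (hf : f ∈ Finsupp.supported (ZMod 2) (ZMod 2) B) :
    L f ∈ Finsupp.supported (ZMod 2) (ZMod 2) B := by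
  rw [Finsupp.supported_eq_span_single] at hf
  refine Submodule.span_induction ?_ ?_ ?_ ?_ hf
  · rintro _ ⟨y, hy, rfl⟩
    exact h y hy
  · simp
  · intro x y _ _ hx hy
    rw [map_add]
    exact Submodule.add_mem _ hx hy
  · intro a x _ hx
    rw [map_smul]
    exact Submodule.smul_mem _ _ hx

theorem eq_supp {M : Type*} [AddCommGroup M] [Module (ZMod 2) M] (L L' : Ch m →ₗ[ZMod 2] M)
    (B : Set (Fin m → ℤ))
    (h : ∀ y ∈ B, L (Finsupp.single y 1) = L' (Finsupp.single y 1)) (f : Ch m)
    (hf : f ∈ Finsupp.supported (ZMod 2) (ZMod 2) B) : L f = L' f := by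
  rw [Finsupp.supported_eq_span_single] at hf
  refine Submodule.span_induction ?_ ?_ ?_ ?_ hf
  · rintro _ ⟨y, hy, rfl⟩
    exact h y hy
  · simp
  · intro x y _ _ hx hy
    rw [map_add, map_add, hx, hy]
  · intro a x _ hx
    rw [map_smul, map_smul, hx]

/-- boundary cells -/
def BB (m N : ℕ) : Set (Fin m → ℤ) :=
  {y | (∀ j, |y j| ≤ 2 * (N : ℤ)) ∧ ∃ j, |y j| = 2 * (N : ℤ)}

theorem bd_supp (N : ℕ) (f : Ch m) (hf : f ∈ Finsupp.supported (ZMod 2) (ZMod 2) (BB m N)) :
    bd f ∈ Finsupp.supported (ZMod 2) (ZMod 2) (BB m N) := by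
  refine map_supp bd _ ?_ f hf
  intro y hy
  simp only [bd, Finsupp.linearCombination_single, one_smul]
  apply Submodule.sum_mem
  intro i _
  by_cases h : Odd (y i)
  · rw [if_pos h]
    have key : ∀ t : ℤ, (t = 1 ∨ t = -1) → y + Pi.single i t ∈ BB m N := by
      intro t ht
      obtain ⟨h1, j, h2⟩ := hy
      have hle : |y i| ≤ 2 * (N : ℤ) - 1 := by
        have := h1 i
        rcases lt_or_eq_of_le this with h3 | h3
        · omega
        · exfalso
          rcases abs_eq (by positivity : (0 : ℤ) ≤ 2 * (N : ℤ)) |>.1 h3 with h4 | h4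
          · rw [h4] at h; exact (Int.not_odd_iff_even.2 (even_two_mul _)) h
          · rw [h4] at h; exact (Int.not_odd_iff_even.2 (even_two_mul _).neg) h
      refine ⟨fun l => ?_, j, ?_⟩
      · by_cases hl : l = i
        · subst hl
          rw [Pi.add_apply, Pi.single_eq_same]
          rcases ht with rfl | rfl
          · rw [abs_le] at *; omega
          · rw [abs_le] at *; omega
        · rw [Pi.add_apply, Pi.single_eq_of_ne hl, add_zero]
          exact h1 l
      · have hj : j ≠ i := by
          rintro rfl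
          omega
        rw [Pi.add_apply, Pi.single_eq_of_ne hj, add_zero]
        exact h2
    apply Submodule.add_mem
    · exact Finsupp.single_mem_supported _ _ (key 1 (Or.inl rfl))
    · have := key (-1) (Or.inr rfl)
      rw [Pi.single_neg, ← sub_eq_add_neg] at this
      exact Finsupp.single_mem_supported _ _ this
  · rw [if_neg h]
    exact Submodule.zero_mem _

theorem mulS_supp (N : ℕ) (s : (Fin m → ℤ) → ZMod 2) (f : Ch m)
    (hf : f ∈ Finsupp.supported (ZMod 2) (ZMod 2) (BB m N)) :
    mulS s f ∈ Finsupp.supported (ZMod 2) (ZMod 2) (BB m N) := by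
  refine map_supp _ _ ?_ f hf
  intro y hy
  simp only [mulS, Finsupp.linearCombination_single, one_smul]
  exact Finsupp.single_mem_supported _ _ hy

theorem cm_supp (N : ℕ) (s : (Fin m → ℤ) → ZMod 2) (f : Ch m)
    (hf : f ∈ Finsupp.supported (ZMod 2) (ZMod 2) (BB m N)) :
    cm s f ∈ Finsupp.supported (ZMod 2) (ZMod 2) (BB m N) :=
  Submodule.add_mem _ (bd_supp N _ (mulS_supp N s f hf)) (mulS_supp N s _ (bd_supp N f hf))

theorem run_supp (N : ℕ) (l : List ((Fin m → ℤ) → ZMod 2)) (f : Ch m)
    (hf : f ∈ Finsupp.supported (ZMod 2) (ZMod 2) (BB m N)) :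
    run l f ∈ Finsupp.supported (ZMod 2) (ZMod 2) (BB m N) := by
  induction l with
  | nil => exact hf
  | cons s l ih => exact cm_supp N s _ ih

/-- odd on the boundary -/
def OddOn (N : ℕ) (s : (Fin m → ℤ) → ZMod 2) : Prop := ∀ y ∈ BB m N, s (-y) = s y + 1

theorem mulS_one_add (s : (Fin m → ℤ) → ZMod 2) (f : Ch m) :
    mulS (fun x => s x + 1) f = mulS s f + f := by
  ext x
  rw [mulS_apply, Finsupp.add_apply, mulS_apply]
  ring

theorem mulS_an (N : ℕ) (s : (Fin m → ℤ) → ZMod 2) (hs : OddOn N s) (f : Ch m)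
    (hf : f ∈ Finsupp.supported (ZMod 2) (ZMod 2) (BB m N)) :
    mulS s (an f) = an (mulS s f) + an f := by
  have := eq_supp (mulS s ∘ₗ an) (an ∘ₗ mulS s + an) (BB m N) ?_ f hf
  · exact this
  · intro y hy
    simp only [LinearMap.coe_comp, Function.comp_apply, LinearMap.add_apply, an_single, mulS,
      Finsupp.linearCombination_single, one_smul, hs y hy]
    rw [Finsupp.single_add]

theorem cm_an (N : ℕ) (s : (Fin m → ℤ) → ZMod 2) (hs : OddOn N s) (f : Ch m)
    (hf : f ∈ Finsupp.supported (ZMod 2) (ZMod 2) (BB m N)) :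
    cm s (an f) = an (cm s f) := by
  have h1 : cm s (an f) = bd (mulS s (an f)) + mulS s (bd (an f)) := rfl
  have h2 : cm s f = bd (mulS s f) + mulS s (bd f) := rfl
  rw [h1, h2, bd_an, mulS_an N s hs f hf, mulS_an N s hs _ (bd_supp N f hf), map_add, map_add,
    bd_an, bd_an]
  have : an (bd f) + an (bd f) = 0 := by
    rw [← map_add]
    have : bd f + bd f = 0 := by
      ext x
      rw [Finsupp.add_apply, Finsupp.zero_apply]
      exact CharTwo.add_self_eq_zero _
    rw [this, map_zero]
  calc an (bd (mulS s f)) + an (bd f) + (an (mulS s (bd f)) + an (bd f))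
      = an (bd (mulS s f)) + an (mulS s (bd f)) + (an (bd f) + an (bd f)) := by abel
    _ = _ := by rw [this, add_zero]

theorem run_an (N : ℕ) (l : List ((Fin m → ℤ) → ZMod 2)) (hl : ∀ s ∈ l, OddOn N s) (f : Ch m)
    (hf : f ∈ Finsupp.supported (ZMod 2) (ZMod 2) (BB m N)) :
    run l (an f) = an (run l f) := by
  induction l with
  | nil => rfl
  | cons s l ih =>
    have h1 : run (s :: l) (an f) = cm s (run l (an f)) := rfl
    have h2 : run (s :: l) f = cm s (run l f) := rfl
    rw [h1, h2, ih (fun s hs => hl s (List.mem_cons_of_mem _ hs)),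
      cm_an N s (hl s List.mem_cons_self) _ (run_supp N l f hf)]

/-- eps of `s · run l (f + an f)` -/
theorem eps_sym (N : ℕ) (s : (Fin m → ℤ) → ZMod 2) (hs : OddOn N s)
    (l : List ((Fin m → ℤ) → ZMod 2)) (hl : ∀ s ∈ l, OddOn N s) (f : Ch m)
    (hf : f ∈ Finsupp.supported (ZMod 2) (ZMod 2) (BB m N)) :
    eps (mulS s (run l (f + an f))) = eps (run l f) := by
  rw [map_add, map_add, map_add, run_an N l hl f hf, mulS_an N s hs _ (run_supp N l f hf), map_add,
    eps_an, eps_an, ← add_assoc, CharTwo.add_self_eq_zero, zero_add]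

/-- odd integers in `(-2N,2N)` -/
noncomputable def OO (N : ℕ) : Finset ℤ := (Finset.Ioo (-(2 * (N : ℤ))) (2 * N)).filter (fun t => Odd t)

noncomputable def OP (N : ℕ) : Finset ℤ := (Finset.Ioo 0 (2 * (N : ℤ))).filter (fun t => Odd t)

noncomputable def XX (m N k : ℕ) : Ch m := pC (fun j => if (j : ℕ) < k then OO N else {0})

noncomputable def UU (m N k : ℕ) : Ch m :=
  pC (fun j => if (j : ℕ) < k then OO N else if (j : ℕ) = k then OP N else {0})

noncomputable def HH (m N k : ℕ) : Ch m := bd (UU m N k) + XX m N k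

theorem mem_OO (N : ℕ) (t : ℤ) : t ∈ OO N ↔ |t| < 2 * (N : ℤ) ∧ Odd t := by
  unfold OO
  rw [Finset.mem_filter, Finset.mem_Ioo, abs_lt]

theorem mem_OP (N : ℕ) (t : ℤ) : t ∈ OP N ↔ 0 < t ∧ t < 2 * (N : ℤ) ∧ Odd t := by
  unfold OP
  rw [Finset.mem_filter, Finset.mem_Ioo, and_assoc]

theorem an_XX (N k : ℕ) : an (XX m N k) = XX m N k := by
  ext z
  rw [an_apply, XX, pC_apply, pC_apply]
  congr 1
  apply propext
  apply forall_congr'
  intro j
  by_cases hj : (j : ℕ) < k
  · simp only [hj, if_true, mem_OO, Pi.neg_apply, abs_neg, odd_neg]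
  · simp only [hj, if_false, mem_singleton, Pi.neg_apply, neg_eq_zero]

theorem XX_succ (N k : ℕ) (hk : k < m) : XX m N (k + 1) = UU m N k + an (UU m N k) := by
  ext z
  rw [Finsupp.add_apply, an_apply, XX, UU, pC_apply, pC_apply, pC_apply]
  have e1 : (∀ j : Fin m, z j ∈ (if (j : ℕ) < k + 1 then OO N else {0})) ↔
      z ⟨k, hk⟩ ∈ OO N ∧ ∀ j : Fin m, (j : ℕ) ≠ k → z j ∈ (if (j : ℕ) < k then OO N else {0}) := by
    constructor
    · intro h
      refine ⟨by simpa using h ⟨k, hk⟩, fun j hj => ?_⟩
      have := h j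
      by_cases h1 : (j : ℕ) < k
      · rw [if_pos h1]; rw [if_pos (by omega)] at this; exact this
      · rw [if_neg h1]; rw [if_neg (by omega)] at this; exact this
    · rintro ⟨h1, h2⟩ j
      by_cases h3 : (j : ℕ) = k
      · rw [if_pos (by omega)]
        have : j = ⟨k, hk⟩ := Fin.ext h3
        rw [this]; exact h1
      · have := h2 j h3
        by_cases h4 : (j : ℕ) < k
        · rw [if_pos h4] at this; rw [if_pos (by omega)]; exact this
        · rw [if_neg h4] at this; rw [if_neg (by omega)]; exact this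
  have e2 : ∀ w : Fin m → ℤ, (∀ j : Fin m, w j ∈ (if (j : ℕ) < k then OO N else
      if (j : ℕ) = k then OP N else {0})) ↔
      w ⟨k, hk⟩ ∈ OP N ∧ ∀ j : Fin m, (j : ℕ) ≠ k → w j ∈ (if (j : ℕ) < k then OO N else {0}) := by
    intro w
    constructor
    · intro h
      refine ⟨by simpa using h ⟨k, hk⟩, fun j hj => ?_⟩
      have := h j
      rw [if_neg hj] at this
      exact this
    · rintro ⟨h1, h2⟩ j
      by_cases h3 : (j : ℕ) = k
      · have : j = ⟨k, hk⟩ := Fin.ext h3
        rw [if_neg (by omega), if_pos h3, this]; exact h1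
      · rw [if_neg h3]; exact h2 j h3
  have e3 : (∀ j : Fin m, (j : ℕ) ≠ k → (-z) j ∈ (if (j : ℕ) < k then OO N else {0})) ↔
      (∀ j : Fin m, (j : ℕ) ≠ k → z j ∈ (if (j : ℕ) < k then OO N else {0})) := by
    apply forall_congr'
    intro j
    apply imp_congr_right
    intro _
    by_cases hj : (j : ℕ) < k
    · simp only [hj, if_true, mem_OO, Pi.neg_apply, abs_neg, odd_neg]
    · simp only [hj, if_false, mem_singleton, Pi.neg_apply, neg_eq_zero]
  simp only [e1, e2, e3]
  by_cases hR : ∀ j : Fin m, (j : ℕ) ≠ k → z j ∈ (if (j : ℕ) < k then OO N else {0})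
  · have hR' : (∀ j : Fin m, (j : ℕ) ≠ k → z j ∈ (if (j : ℕ) < k then OO N else {0})) = True :=
      eq_true hR
    simp only [hR', and_true, mem_OO, mem_OP, Pi.neg_apply, odd_neg]
    by_cases ho : Odd (z ⟨k, hk⟩)
    · simp only [ho, and_true]
      have hne : z ⟨k, hk⟩ ≠ 0 := by
        intro h0
        rw [h0] at ho
        exact absurd ho (by decide)
      rcases lt_or_gt_of_ne hne with h | h
      · have a1 : ¬ (0 < z ⟨k, hk⟩ ∧ z ⟨k, hk⟩ < 2 * (N : ℤ)) := by omega
        by_cases h2 : |z ⟨k, hk⟩| < 2 * (N : ℤ)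
        · have a2 : (0 < -z ⟨k, hk⟩ ∧ -z ⟨k, hk⟩ < 2 * (N : ℤ)) := by
            rw [abs_lt] at h2; omega
          rw [if_pos h2, if_neg a1, if_pos a2, zero_add]
        · have a2 : ¬ (0 < -z ⟨k, hk⟩ ∧ -z ⟨k, hk⟩ < 2 * (N : ℤ)) := by
            rw [abs_lt] at h2; omega
          rw [if_neg h2, if_neg a1, if_neg a2, zero_add]
      · have a1 : ¬ (0 < -z ⟨k, hk⟩ ∧ -z ⟨k, hk⟩ < 2 * (N : ℤ)) := by omega
        by_cases h2 : |z ⟨k, hk⟩| < 2 * (N : ℤ)
        · have a2 : (0 < z ⟨k, hk⟩ ∧ z ⟨k, hk⟩ < 2 * (N : ℤ)) := by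
            rw [abs_lt] at h2; omega
          rw [if_pos h2, if_neg a1, if_pos a2, add_zero]
        · have a2 : ¬ (0 < z ⟨k, hk⟩ ∧ z ⟨k, hk⟩ < 2 * (N : ℤ)) := by
            rw [abs_lt] at h2; omega
          rw [if_neg h2, if_neg a1, if_neg a2, add_zero]
    · simp only [ho, and_false, if_false, add_zero]
  · simp only [hR, and_false, if_false, add_zero]

theorem add_self_Ch (f : Ch m) : f + f = 0 := by
  ext x
  rw [Finsupp.add_apply, Finsupp.zero_apply]
  exact CharTwo.add_self_eq_zero _

theorem bd_HH (N k : ℕ) : bd (HH m N k) = bd (XX m N k) := by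
  rw [HH, map_add, bd_bd, zero_add]

theorem HH_add_an (N k : ℕ) (hk : k < m) : HH m N k + an (HH m N k) = bd (XX m N (k + 1)) := by
  rw [XX_succ N k hk, map_add, HH, map_add, an_XX, bd_an]
  calc bd (UU m N k) + XX m N k + (an (bd (UU m N k)) + XX m N k)
      = bd (UU m N k) + an (bd (UU m N k)) + (XX m N k + XX m N k) := by abel
    _ = _ := by rw [add_self_Ch, add_zero]

theorem mem_shift (A : Fin m → Finset ℤ) (x : Fin m → ℤ) (i : Fin m) (t : ℤ) :
    (∀ j, (x + (Pi.single i t : Fin m → ℤ)) j ∈ A j) ↔ (x i + t ∈ A i ∧ ∀ j, j ≠ i → x j ∈ A j) := by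
  constructor
  · intro h
    refine ⟨by simpa using h i, fun j hj => ?_⟩
    have := h j
    rwa [Pi.add_apply, Pi.single_eq_of_ne hj, add_zero] at this
  · rintro ⟨h1, h2⟩ j
    by_cases hj : j = i
    · subst hj
      rwa [Pi.add_apply, Pi.single_eq_same]
    · rw [Pi.add_apply, Pi.single_eq_of_ne hj, add_zero]
      exact h2 j hj

theorem HH_supp (N k : ℕ) (hN : 0 < N) (hk : k < m) :
    HH m N k ∈ Finsupp.supported (ZMod 2) (ZMod 2) (BB m N) := by
  rw [Finsupp.mem_supported]
  intro y hy
  rw [Finset.mem_coe, Finsupp.mem_support_iff] at hy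
  by_contra hB
  apply hy
  clear hy
  rw [HH, Finsupp.add_apply, bd_apply]
  -- every term with i ≠ k vanishes
  have hsub : ∀ i : Fin m, y - Pi.single i 1 = y + Pi.single i (-1) := by
    intro i
    rw [Pi.single_neg, sub_eq_add_neg]
  by_cases hbig : ∃ j, 2 * (N : ℤ) < |y j|
  · obtain ⟨j, hj⟩ := hbig
    have hA : ∀ k', ∀ t : ℤ, 2 * (N : ℤ) ≤ |t| →
        t ∉ (if (j : ℕ) < k' then OO N else if (j : ℕ) = k' then OP N else {0}) := by
      intro k' t ht
      have h0 : (0 : ℤ) < 2 * N := by positivity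
      split_ifs
      · rw [mem_OO]; omega
      · rw [mem_OP]
        rintro ⟨h1, h2, _⟩
        rw [abs_of_pos h1] at ht
        omega
      · rw [mem_singleton]
        rintro rfl
        simp at ht
        omega
    have hA' : ∀ t : ℤ, 2 * (N : ℤ) ≤ |t| →
        t ∉ (if (j : ℕ) < k then OO N else ({0} : Finset ℤ)) := by
      intro t ht
      have h0 : (0 : ℤ) < 2 * N := by positivity
      split_ifs
      · rw [mem_OO]; omega
      · rw [mem_singleton]
        rintro rfl
        simp at ht
        omega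
    have hX : XX m N k y = 0 := by
      rw [XX, pC_apply, if_neg]
      intro h
      exact hA' _ hj.le (h j)
    rw [hX, add_zero]
    apply Finset.sum_eq_zero
    intro i _
    have hU : ∀ t : ℤ, (t = 1 ∨ t = -1) → UU m N k (y + Pi.single i t) = 0 := by
      intro t ht
      rw [UU, pC_apply, if_neg]
      intro h
      refine hA k _ ?_ (h j)
      rw [Pi.add_apply]
      by_cases hij : j = i
      · subst hij
        rw [Pi.single_eq_same]
        have := abs_sub_abs_le_abs_sub (y j) (-t)
        rw [sub_neg_eq_add, abs_neg] at this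
        have ht' : |t| = 1 := by rcases ht with rfl | rfl <;> simp
        omega
      · rw [Pi.single_eq_of_ne hij, add_zero]
        exact hj.le
    rw [hsub, hU 1 (Or.inl rfl), hU (-1) (Or.inr rfl)]
    simp
  · push Not at hbig
    have hlt : ∀ j, |y j| < 2 * (N : ℤ) := by
      intro j
      refine lt_of_le_of_ne (hbig j) ?_
      intro h
      exact hB ⟨hbig, j, h⟩
    have hne : ∀ i : Fin m, i ≠ ⟨k, hk⟩ →
        (if Even (y i) then UU m N k (y + Pi.single i 1) + UU m N k (y - Pi.single i 1) else 0) =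
          0 := by
      intro i hi
      by_cases he : Even (y i)
      · rw [if_pos he, hsub, UU, pC_apply, pC_apply]
        simp only [mem_shift]
        have hik : (i : ℕ) ≠ k := fun h => hi (Fin.ext h)
        by_cases h1 : (i : ℕ) < k
        · simp only [h1, if_true, mem_OO]
          have habs := hlt i
          have b1 : |y i + 1| < 2 * (N : ℤ) ∧ Odd (y i + 1) := by
            refine ⟨?_, he.add_one⟩
            obtain ⟨c, hc⟩ := he
            rw [abs_lt] at *
            omega
          have b2 : |y i + -1| < 2 * (N : ℤ) ∧ Odd (y i + -1) := by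
            refine ⟨?_, he.add_odd (by decide)⟩
            obtain ⟨c, hc⟩ := he
            rw [abs_lt] at *
            omega
          simp only [b1, b2, and_self, true_and]
          exact CharTwo.add_self_eq_zero _
        · have c1 : ∀ t : ℤ, (t = 1 ∨ t = -1) →
              y i + t ∉ (if (i : ℕ) < k then OO N else if (i : ℕ) = k then OP N else {0}) := by
            intro t ht
            rw [if_neg h1, if_neg hik, mem_singleton]
            obtain ⟨c, hc⟩ := he
            omega
          rw [if_neg (fun h => c1 1 (Or.inl rfl) h.1), if_neg (fun h => c1 (-1) (Or.inr rfl) h.1),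
            add_zero]
      · rw [if_neg he]
    rw [Finset.sum_eq_single (⟨k, hk⟩ : Fin m) (fun i _ hi => hne i hi)
      (fun h => absurd (Finset.mem_univ _) h)]
    have e1 : XX m N k y = if (y ⟨k, hk⟩ = 0 ∧ ∀ j : Fin m, j ≠ ⟨k, hk⟩ →
        y j ∈ (if (j : ℕ) < k then OO N else {0})) then 1 else 0 := by
      rw [XX, pC_apply]
      congr 1
      apply propext
      constructor
      · intro h
        refine ⟨by simpa using h ⟨k, hk⟩, fun j _ => h j⟩
      · rintro ⟨h1, h2⟩ j
        by_cases hj : j = ⟨k, hk⟩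
        · subst hj
          simpa using h1
        · exact h2 j hj
    have e2 : ∀ t : ℤ, UU m N k (y + Pi.single ⟨k, hk⟩ t) = if (y ⟨k, hk⟩ + t ∈ OP N ∧
        ∀ j : Fin m, j ≠ ⟨k, hk⟩ → y j ∈ (if (j : ℕ) < k then OO N else {0})) then 1 else 0 := by
      intro t
      rw [UU, pC_apply]
      congr 1
      apply propext
      rw [mem_shift]
      constructor
      · rintro ⟨h1, h2⟩
        refine ⟨by simpa using h1, fun j hj => ?_⟩
        have := h2 j hj
        have hjk : (j : ℕ) ≠ k := fun h => hj (Fin.ext h)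
        rwa [if_neg hjk] at this
      · rintro ⟨h1, h2⟩
        refine ⟨by simpa using h1, fun j hj => ?_⟩
        have hjk : (j : ℕ) ≠ k := fun h => hj (Fin.ext h)
        rw [if_neg hjk]
        exact h2 j hj
    rw [hsub, e1, e2, e2]
    by_cases hR : ∀ j : Fin m, j ≠ ⟨k, hk⟩ → y j ∈ (if (j : ℕ) < k then OO N else {0})
    · have hR' : (∀ j : Fin m, j ≠ ⟨k, hk⟩ → y j ∈ (if (j : ℕ) < k then OO N else {0})) = True :=
        eq_true hR
      simp only [hR', and_true]
      by_cases he : Even (y ⟨k, hk⟩)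
      · rw [if_pos he]
        have hl := hlt ⟨k, hk⟩
        rw [abs_lt] at hl
        obtain ⟨c, hc⟩ := id he
        rcases lt_trichotomy (y ⟨k, hk⟩) 0 with h | h | h
        · rw [if_neg, if_neg, if_neg]
          · simp
          · omega
          · rw [mem_OP]; omega
          · rw [mem_OP]; omega
        · rw [if_pos, if_neg, if_pos h]
          · rw [add_zero]; exact CharTwo.add_self_eq_zero _
          · rw [mem_OP]; omega
          · rw [mem_OP, h]
            refine ⟨by norm_num, by omega, by decide⟩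
        · rw [if_pos, if_pos, if_neg (by omega)]
          · rw [add_zero]; exact CharTwo.add_self_eq_zero _
          · rw [mem_OP]
            exact ⟨by omega, by omega, he.add_odd (by decide)⟩
          · rw [mem_OP]
            exact ⟨by omega, by omega, he.add_one⟩
      · rw [if_neg he, if_neg, add_zero]
        intro h0
        rw [h0] at he
        exact he (by decide)
    · simp [hR]

theorem ladder (N : ℕ) (hN : 0 < N) : ∀ (k : ℕ) (_ : k < m) (s : (Fin m → ℤ) → ZMod 2)
    (_ : OddOn N s) (l : List ((Fin m → ℤ) → ZMod 2)) (_ : l.length = k)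
    (_ : ∀ s ∈ l, OddOn N s), eps (mulS s (run l (bd (XX m N (k + 1))))) = 1 := by
  intro k
  induction k with
  | zero =>
    intro hk s hs l hl hlo
    rw [← HH_add_an N 0 hk, eps_sym N s hs l hlo _ (HH_supp N 0 hN hk)]
    have : l = [] := List.length_eq_zero_iff.1 hl
    subst this
    show eps (HH m N 0) = 1
    rw [HH, map_add, eps_bd, zero_add]
    have : XX m N 0 = Finsupp.single 0 1 := by
      ext z
      rw [XX, pC_apply, Finsupp.single_apply]
      congr 1
      apply propext
      simp only [Nat.not_lt_zero, if_false, mem_singleton]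
      rw [eq_comm, funext_iff]
      rfl
    rw [this, eps, Finsupp.linearCombination_single]
    simp
  | succ k ih =>
    intro hk s hs l hl hlo
    rw [← HH_add_an N (k + 1) hk, eps_sym N s hs l hlo _ (HH_supp N (k + 1) hN hk)]
    obtain ⟨s', l', rfl⟩ : ∃ s' l', l = s' :: l' := by
      cases l with
      | nil => simp at hl
      | cons a b => exact ⟨a, b, rfl⟩
    have h1 : run (s' :: l') (HH m N (k + 1)) = bd (mulS s' (run l' (HH m N (k + 1)))) +
      mulS s' (bd (run l' (HH m N (k + 1)))) := rfl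
    rw [h1, map_add, eps_bd, zero_add, bd_run, bd_HH]
    exact ih (by omega) s' (hlo _ List.mem_cons_self) l' (by simpa using hl)
      (fun s hs => hlo s (List.mem_cons_of_mem _ hs))

end T5

/-- Task BK-T5: odd sign data on the boundary of a centred box have degree one. -/
theorem DD_box_odd {m : ℕ} (s : Fin m → (Fin m → ℤ) → ZMod 2) (N : ℕ) (hN : 0 < N)
    (hs : ∀ i x, (∀ j, |x j| ≤ 2 * (N : ℤ)) → (∃ j, |x j| = 2 * (N : ℤ)) →
      s i (-x) = s i x + 1) : DD s (boxC 0 N) = 1 := by
  have hX : boxC (0 : Fin m → ℤ) N = T5.XX m N m := by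
    unfold boxC boxF T5.XX T5.pC
    congr 2
    funext i
    simp [T5.OO]
  rw [hX, DD]
  cases m with
  | zero =>
    have : T5.XX 0 N 0 = Finsupp.single 0 1 := by
      ext z
      rw [T5.XX, T5.pC_apply, Finsupp.single_apply, if_pos (fun j => j.elim0),
        if_pos (Subsingleton.elim _ _)]
    rw [this]
    show eps (Finsupp.single 0 1) = 1
    rw [eps, Finsupp.linearCombination_single]
    simp
  | succ m =>
    rw [List.ofFn_succ]
    have h1 : run (s 0 :: List.ofFn (fun i : Fin m => s i.succ)) (T5.XX (m + 1) N (m + 1)) =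
      bd (mulS (s 0) (run (List.ofFn (fun i : Fin m => s i.succ)) (T5.XX (m + 1) N (m + 1)))) +
      mulS (s 0) (bd (run (List.ofFn (fun i : Fin m => s i.succ)) (T5.XX (m + 1) N (m + 1)))) :=
      rfl
    rw [h1, map_add, eps_bd, zero_add, bd_run]
    have ho : ∀ i, T5.OddOn N (s i) := fun i y hy => hs i y hy.1 hy.2
    refine T5.ladder N hN m (Nat.lt_succ_self m) (s 0) (ho 0) _ (List.length_ofFn) ?_
    intro t ht
    obtain ⟨i, rfl⟩ := List.mem_ofFn.1 ht
    exact ho _

end BK
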