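import Crest.Agent.BK_T3
import Crest.Agent.BK_T4
import Crest.Agent.BK_T5

set_option autoImplicit false

namespace BK
open Finset

/-- the homotopy `g y - t g(-y)` -/
private noncomputable def t7H {m : ℕ} (g : (Fin m → ℝ) → (Fin m → ℝ)) (t : ℝ) (y : Fin m → ℝ) :
    Fin m → ℝ := g y - t • g (-y)

private theorem t7_min {m : ℕ} (g : (Fin m → ℝ) → (Fin m → ℝ)) (hg : Continuous g) (r : ℝ)
    (hodd : ∀ y, ‖y‖ = r → ∀ θ ∈ Set.Icc (0 : ℝ) 1, g y ≠ θ • g (-y)) :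
    ∃ m0 > 0, ∀ y, ‖y‖ = r → ∀ t ∈ Set.Icc (0 : ℝ) 1, m0 ≤ ‖t7H g t y‖ := by
  have hc : IsCompact ((Metric.sphere (0 : Fin m → ℝ) r) ×ˢ (Set.Icc (0 : ℝ) 1)) :=
    (isCompact_sphere 0 r).prod isCompact_Icc
  have hcont : Continuous (fun p : (Fin m → ℝ) × ℝ => ‖t7H g p.2 p.1‖) := by
    unfold t7H
    exact ((hg.comp continuous_fst).sub
      (continuous_snd.smul (hg.comp continuous_fst.neg))).norm
  by_cases hne : ((Metric.sphere (0 : Fin m → ℝ) r) ×ˢ (Set.Icc (0 : ℝ) 1)).Nonempty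
  · obtain ⟨p, hp, hmin⟩ := hc.exists_isMinOn hne hcont.continuousOn
    refine ⟨‖t7H g p.2 p.1‖, ?_, fun y hy t ht => ?_⟩
    · have h1 : ‖p.1‖ = r := by simpa using hp.1
      have h2 := hodd p.1 h1 p.2 hp.2
      exact norm_pos_iff.mpr (sub_ne_zero.mpr h2)
    · have : (y, t) ∈ (Metric.sphere (0 : Fin m → ℝ) r) ×ˢ (Set.Icc (0 : ℝ) 1) :=
        ⟨by simpa using hy, ht⟩
      exact hmin this
  · refine ⟨1, one_pos, fun y hy t ht => ?_⟩
    exact absurd ⟨(y, t), ⟨by simpa using hy, ht⟩⟩ hne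

private theorem t7_unif {m : ℕ} (g : (Fin m → ℝ) → (Fin m → ℝ)) (hg : Continuous g) (R : ℝ)
    {ε : ℝ} (hε : 0 < ε) :
    ∃ δ > 0, ∀ a b : Fin m → ℝ, ‖a‖ ≤ R → ‖b‖ ≤ R → ‖a - b‖ < δ → ‖g a - g b‖ < ε := by
  have hu := (isCompact_closedBall (0 : Fin m → ℝ) R).uniformContinuousOn_of_continuous
    hg.continuousOn
  rw [Metric.uniformContinuousOn_iff] at hu
  obtain ⟨δ, hδ, h⟩ := hu ε hε
  refine ⟨δ, hδ, fun a b ha hb hab => ?_⟩
  have := h a (by simpa using ha) b (by simpa using hb) (by rwa [dist_eq_norm])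
  rwa [dist_eq_norm] at this

private theorem t7_bound {m : ℕ} (g : (Fin m → ℝ) → (Fin m → ℝ)) (hg : Continuous g) (R : ℝ) :
    ∃ B > 0, ∀ a : Fin m → ℝ, ‖a‖ ≤ R → ‖g a‖ ≤ B := by
  obtain ⟨B, hB⟩ := (isCompact_closedBall (0 : Fin m → ℝ) R).exists_bound_of_continuousOn
    (f := g) hg.continuousOn
  refine ⟨max B 1, lt_of_lt_of_le one_pos (le_max_right _ _), fun a ha => ?_⟩
  exact (hB a (by simpa using ha)).trans (le_max_left _ _)

/-- sign of one coordinate near a point of the sphere -/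
private theorem t7_sign {m : ℕ} (g : (Fin m → ℝ) → (Fin m → ℝ)) (r m0 δ B : ℝ)
    (hm0 : 0 < m0) (hmin : ∀ y, ‖y‖ = r → ∀ t ∈ Set.Icc (0 : ℝ) 1, m0 ≤ ‖t7H g t y‖)
    (hδ : ∀ a b : Fin m → ℝ, ‖a‖ ≤ r + 1 → ‖b‖ ≤ r + 1 → ‖a - b‖ < δ → ‖g a - g b‖ < m0 / 8)
    (hB : ∀ a : Fin m → ℝ, ‖a‖ ≤ r + 1 → ‖g a‖ ≤ B)
    (P : Fin m → ℝ) (hP : ‖P‖ = r) (t : ℝ) (ht : t ∈ Set.Icc (0 : ℝ) 1) :
    ∃ i, (∀ Z : Fin m → ℝ, ‖Z‖ ≤ r + 1 → ‖Z - P‖ < δ → ∀ t' : ℝ, |t' - t| * B ≤ m0 / 4 →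
        t7H g t' Z i < 0) ∨
      (∀ Z : Fin m → ℝ, ‖Z‖ ≤ r + 1 → ‖Z - P‖ < δ → ∀ t' : ℝ, |t' - t| * B ≤ m0 / 4 →
        0 < t7H g t' Z i) := by
  have h0 := hmin P hP t ht
  have h1 : ∃ i, m0 ≤ |t7H g t P i| := by
    by_contra hcon
    push_neg at hcon
    have : ‖t7H g t P‖ < m0 := (pi_norm_lt_iff hm0).mpr fun i => by
      rw [Real.norm_eq_abs]; exact hcon i
    linarith
  obtain ⟨i, hi⟩ := h1
  have key : ∀ Z : Fin m → ℝ, ‖Z‖ ≤ r + 1 → ‖Z - P‖ < δ → ∀ t' : ℝ, |t' - t| * B ≤ m0 / 4 →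
      |t7H g t' Z i - t7H g t P i| ≤ m0 / 2 := by
    intro Z hZ hZP t' ht'
    have hPr : ‖P‖ ≤ r + 1 := by rw [hP]; linarith
    have e1 : ‖g Z - g P‖ < m0 / 8 := hδ Z P hZ hPr hZP
    have e2 : ‖g (-Z) - g (-P)‖ < m0 / 8 := by
      refine hδ (-Z) (-P) (by rwa [norm_neg]) (by rwa [norm_neg]) ?_
      rw [← norm_neg]
      simpa [sub_eq_add_neg, add_comm] using hZP
    have e3 : ‖g (-Z)‖ ≤ B := hB (-Z) (by rwa [norm_neg])
    have hdecomp : t7H g t' Z - t7H g t P =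
        (g Z - g P) - t • (g (-Z) - g (-P)) - (t' - t) • g (-Z) := by
      unfold t7H
      rw [smul_sub, sub_smul]
      abel
    have hn : ‖t7H g t' Z - t7H g t P‖ ≤ m0 / 2 := by
      rw [hdecomp]
      have n1 : ‖(g Z - g P) - t • (g (-Z) - g (-P)) - (t' - t) • g (-Z)‖ ≤
          ‖g Z - g P‖ + ‖t • (g (-Z) - g (-P))‖ + ‖(t' - t) • g (-Z)‖ :=
        (norm_sub_le _ _).trans (add_le_add_left (norm_sub_le _ _) _)
      have n2 : ‖t • (g (-Z) - g (-P))‖ ≤ m0 / 8 := by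
        rw [norm_smul, Real.norm_eq_abs, abs_of_nonneg ht.1]
        nlinarith [ht.1, ht.2, norm_nonneg (g (-Z) - g (-P))]
      have n3 : ‖(t' - t) • g (-Z)‖ ≤ m0 / 4 := by
        rw [norm_smul, Real.norm_eq_abs]
        exact (mul_le_mul_of_nonneg_left e3 (abs_nonneg _)).trans ht'
      linarith
    have := (norm_le_pi_norm (t7H g t' Z - t7H g t P) i).trans hn
    rwa [Pi.sub_apply, Real.norm_eq_abs] at this
  refine ⟨i, ?_⟩
  rcases le_abs'.mp hi with hneg | hpos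
  · left
    intro Z hZ hZP t' ht'
    have := (abs_le.mp (key Z hZ hZP t' ht')).2
    linarith
  · right
    intro Z hZ hZP t' ht'
    have := (abs_le.mp (key Z hZ hZP t' ht')).1
    linarith

private theorem t7_face_self {m : ℕ} (y : Fin m → ℤ) : IsFace y y := fun _ => Or.inl rfl

private theorem t7_face_abs {m : ℕ} {x y : Fin m → ℤ} (h : IsFace x y) (i : Fin m) :
    |x i - y i| ≤ 1 := by
  rcases h i with h | h
  · rw [h]; simp
  · exact h.2.le

/-- general comparison of sign data on the boundary of the box -/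
private theorem t7_congr {m : ℕ} (s s' : Fin m → (Fin m → ℤ) → ZMod 2) (N : ℕ) (hN : 0 < N)
    (h : ∀ y : Fin m → ℤ, (∃ i, |y i| = 2 * (N : ℤ)) → (∀ i, |y i| ≤ 2 * (N : ℤ)) →
      ∃ i b, ∀ x, IsFace x y → s i x = b ∧ s' i x = b) :
    DD s (boxC 0 N) = DD s' (boxC 0 N) := by
  refine DD_congr_bd s s' _ fun y hy => ?_
  obtain ⟨h1, h2⟩ := bd_boxC_support 0 (fun i => by simp) N hN y hy
  simp only [Pi.zero_apply, sub_zero] at h1 h2
  obtain ⟨i, b, hb⟩ := h y h1 h2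
  have hy0 := hb y (t7_face_self y)
  refine ⟨i, fun x hx => ?_, fun x hx => ?_, ?_⟩
  · rw [(hb x hx).1, hy0.1]
  · rw [(hb x hx).2, hy0.2]
  · rw [hy0.1, hy0.2]

private theorem t7_norm_cell {m : ℕ} (y : Fin m → ℤ) (N : ℕ) {h : ℝ} (hh : 0 < h)
    (h1 : ∃ i, |y i| = 2 * (N : ℤ)) (h2 : ∀ i, |y i| ≤ 2 * (N : ℤ)) :
    ‖h • (fun j => (y j : ℝ))‖ = 2 * (N : ℝ) * h := by
  apply le_antisymm
  · rw [pi_norm_le_iff_of_nonneg (by positivity)]
    intro i
    have : |(y i : ℝ)| ≤ 2 * (N : ℝ) := by exact_mod_cast h2 i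
    rw [Pi.smul_apply, smul_eq_mul, Real.norm_eq_abs, abs_mul, abs_of_pos hh]
    nlinarith
  · obtain ⟨i, hi⟩ := h1
    have hi' : |(y i : ℝ)| = 2 * (N : ℝ) := by exact_mod_cast hi
    have := norm_le_pi_norm (h • (fun j => (y j : ℝ))) i
    rw [Pi.smul_apply, smul_eq_mul, Real.norm_eq_abs, abs_mul, abs_of_pos hh, hi'] at this
    linarith

private theorem t7_norm_face {m : ℕ} {x y : Fin m → ℤ} (hx : IsFace x y) {h : ℝ} (hh : 0 < h) :
    ‖h • (fun j => (x j : ℝ)) - h • (fun j => (y j : ℝ))‖ ≤ h := by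
  rw [pi_norm_le_iff_of_nonneg hh.le]
  intro i
  have h1 := t7_face_abs hx i
  have h2 : |(x i : ℝ) - (y i : ℝ)| ≤ 1 := by exact_mod_cast h1
  rw [Pi.sub_apply, Pi.smul_apply, Pi.smul_apply, smul_eq_mul, smul_eq_mul, ← mul_sub,
    Real.norm_eq_abs, abs_mul, abs_of_pos hh]
  nlinarith

/-- nearest point of the sphere and the distance to the vertices of the cell -/
private theorem t7_near {m : ℕ} (r δ η : ℝ) (hr : 0 < r) (hη1 : η ≤ δ / 3) (hη2 : η ≤ 1 / 3)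
    (hη3 : η ≤ r / 2) {h : ℝ} (hh : 0 < h) (hhη : h < η) (N : ℕ)
    (hNh : |2 * (N : ℝ) * h - r| < η) (y : Fin m → ℤ) (h1 : ∃ i, |y i| = 2 * (N : ℤ))
    (h2 : ∀ i, |y i| ≤ 2 * (N : ℤ)) :
    ∃ P : Fin m → ℝ, ‖P‖ = r ∧ ∀ x, IsFace x y → ∀ q : Fin m → ℝ, ‖q‖ < η →
      ‖q + h • (fun j => (x j : ℝ))‖ ≤ r + 1 ∧ ‖q + h • (fun j => (x j : ℝ)) - P‖ < δ := by
  set Y : Fin m → ℝ := h • (fun j => (y j : ℝ)) with hY
  have hYn : ‖Y‖ = 2 * (N : ℝ) * h := t7_norm_cell y N hh h1 h2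
  have hYr : |‖Y‖ - r| < η := by rw [hYn]; exact hNh
  have hYpos : 0 < ‖Y‖ := by
    have := (abs_lt.mp hYr).1
    linarith
  refine ⟨(r / ‖Y‖) • Y, ?_, fun x hx q hq => ?_⟩
  · rw [norm_smul, Real.norm_eq_abs, abs_of_pos (div_pos hr hYpos), div_mul_cancel₀ _ hYpos.ne']
  · have hP : ‖Y - (r / ‖Y‖) • Y‖ < η := by
      have : Y - (r / ‖Y‖) • Y = (1 - r / ‖Y‖) • Y := by rw [sub_smul, one_smul]
      rw [this, norm_smul, Real.norm_eq_abs]
      have e : |1 - r / ‖Y‖| * ‖Y‖ = |‖Y‖ - r| := by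
        have : |1 - r / ‖Y‖| * ‖Y‖ = |1 - r / ‖Y‖| * |‖Y‖| := by rw [abs_of_pos hYpos]
        rw [this, ← abs_mul, sub_mul, one_mul, div_mul_cancel₀ _ hYpos.ne']
      rw [e]; exact hYr
    have hX : ‖h • (fun j => (x j : ℝ)) - Y‖ ≤ h := t7_norm_face hx hh
    constructor
    · have e1 : ‖q + h • (fun j => (x j : ℝ))‖ ≤ ‖q‖ + (‖h • (fun j => (x j : ℝ)) - Y‖ + ‖Y‖) := by
        refine (norm_add_le _ _).trans (add_le_add_right ?_ _)
        have := norm_add_le (h • (fun j => (x j : ℝ)) - Y) Y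
        rwa [sub_add_cancel] at this
      have e2 := (abs_lt.mp hYr).2
      linarith
    · have e1 : q + h • (fun j => (x j : ℝ)) - (r / ‖Y‖) • Y =
          q + (h • (fun j => (x j : ℝ)) - Y) + (Y - (r / ‖Y‖) • Y) := by abel
      rw [e1]
      have e2 := norm_add_le (q + (h • (fun j => (x j : ℝ)) - Y)) (Y - (r / ‖Y‖) • Y)
      have e3 := norm_add_le q (h • (fun j => (x j : ℝ)) - Y)
      linarith

/-- Task BK-T7: if `g y` and `g (-y)` never point in the same direction on the sphere `‖y‖ = r`,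
the discrete degree on boxes close to the ball of radius `r` is one. -/
theorem deg_one {m : ℕ} (g : (Fin m → ℝ) → (Fin m → ℝ)) (hg : Continuous g) (r : ℝ) (hr : 0 < r)
    (hodd : ∀ y, ‖y‖ = r → ∀ θ ∈ Set.Icc (0 : ℝ) 1, g y ≠ θ • g (-y)) :
    ∃ η > 0, ∀ h : ℝ, 0 < h → h < η → ∀ q : Fin m → ℝ, ‖q‖ < η → ∀ N : ℕ, 0 < N →
      |2 * (N : ℝ) * h - r| < η → DD (sg g q h) (boxC 0 N) = 1 := by
  obtain ⟨m0, hm0, hmin⟩ := t7_min g hg r hodd
  obtain ⟨δ, hδ, hunif⟩ := t7_unif g hg (r + 1) (show 0 < m0 / 8 by positivity)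
  obtain ⟨B, hB, hbd⟩ := t7_bound g hg (r + 1)
  set η : ℝ := min (min (δ / 3) (1 / 3)) (r / 2) with hηdef
  have hη : 0 < η := by
    rw [hηdef]
    exact lt_min (lt_min (by positivity) (by norm_num)) (by positivity)
  have hη1 : η ≤ δ / 3 := (min_le_left _ _).trans (min_le_left _ _)
  have hη2 : η ≤ 1 / 3 := (min_le_left _ _).trans (min_le_right _ _)
  have hη3 : η ≤ r / 2 := min_le_right _ _
  refine ⟨η, hη, fun h hh hhη q hq N hN hNh => ?_⟩
  -- one step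
  have step : ∀ t ∈ Set.Icc (0 : ℝ) 1, ∀ t' : ℝ, |t' - t| * B ≤ m0 / 4 →
      ∀ q q' : Fin m → ℝ, ‖q‖ < η → ‖q'‖ < η →
      DD (sg (t7H g t) q h) (boxC 0 N) = DD (sg (t7H g t') q' h) (boxC 0 N) := by
    intro t ht t' ht' q q' hq hq'
    refine t7_congr _ _ N hN fun y h1 h2 => ?_
    obtain ⟨P, hP, hnear⟩ := t7_near r δ η hr hη1 hη2 hη3 hh hhη N hNh y h1 h2
    have htt : |t - t| * B ≤ m0 / 4 := by
      rw [sub_self, abs_zero, zero_mul]; positivity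
    obtain ⟨i, hi | hi⟩ := t7_sign g r m0 δ B hm0 hmin hunif hbd P hP t ht
    · refine ⟨i, 1, fun x hx => ⟨?_, ?_⟩⟩
      · unfold sg
        rw [if_pos (hi _ (hnear x hx q hq).1 (hnear x hx q hq).2 t htt)]
      · unfold sg
        rw [if_pos (hi _ (hnear x hx q' hq').1 (hnear x hx q' hq').2 t' ht')]
    · refine ⟨i, 0, fun x hx => ⟨?_, ?_⟩⟩
      · unfold sg
        rw [if_neg (not_lt.mpr (hi _ (hnear x hx q hq).1 (hnear x hx q hq).2 t htt).le)]
      · unfold sg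
        rw [if_neg (not_lt.mpr (hi _ (hnear x hx q' hq').1 (hnear x hx q' hq').2 t' ht').le)]
  -- start
  have hH0 : t7H g 0 = g := by
    funext y
    simp [t7H]
  have h00 : ‖(0 : Fin m → ℝ)‖ < η := by simpa using hη
  have s0 : DD (sg g q h) (boxC 0 N) = DD (sg (t7H g 0) 0 h) (boxC 0 N) := by
    have := step 0 ⟨le_rfl, zero_le_one⟩ 0 (by rw [sub_self, abs_zero, zero_mul]; positivity)
      q 0 hq h00
    rwa [hH0] at this ⊢
  -- the chain
  obtain ⟨K, hK⟩ := exists_nat_gt (B / (m0 / 4))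
  have hKpos : (0 : ℝ) < K := lt_of_le_of_lt (by positivity) hK
  have hstepK : (1 / (K : ℝ)) * B ≤ m0 / 4 := by
    rw [div_lt_iff₀ (by positivity)] at hK
    rw [one_div, inv_mul_le_iff₀ hKpos]
    linarith
  have chain : ∀ k : ℕ, k ≤ K →
      DD (sg (t7H g 0) 0 h) (boxC 0 N) = DD (sg (t7H g ((k : ℝ) / K)) 0 h) (boxC 0 N) := by
    intro k
    induction k with
    | zero => intro _; simp
    | succ k ih =>
      intro hk
      rw [ih (by omega)]
      refine step _ ⟨by positivity, ?_⟩ _ ?_ 0 0 h00 h00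
      · rw [div_le_one hKpos]
        exact_mod_cast (by omega : k ≤ K)
      · have : ((k + 1 : ℕ) : ℝ) / K - (k : ℝ) / K = 1 / K := by
          push_cast; ring
        rw [this, abs_of_pos (by positivity)]
        exact hstepK
  have s1 : DD (sg (t7H g 0) 0 h) (boxC 0 N) = DD (sg (t7H g 1) 0 h) (boxC 0 N) := by
    have := chain K le_rfl
    rwa [div_self hKpos.ne'] at this
  -- the tie-broken sign data
  classical
  set s' : Fin m → (Fin m → ℤ) → ZMod 2 := fun i x =>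
    if t7H g 1 (h • (fun j => (x j : ℝ))) i < 0 then 1
    else if 0 < t7H g 1 (h • (fun j => (x j : ℝ))) i then 0
    else if toLex x < toLex (-x) then 1 else 0 with hs'
  have s2 : DD (sg (t7H g 1) 0 h) (boxC 0 N) = DD s' (boxC 0 N) := by
    refine t7_congr _ _ N hN fun y h1 h2 => ?_
    obtain ⟨P, hP, hnear⟩ := t7_near r δ η hr hη1 hη2 hη3 hh hhη N hNh y h1 h2
    have htt : |(1 : ℝ) - 1| * B ≤ m0 / 4 := by
      rw [sub_self, abs_zero, zero_mul]; positivity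
    obtain ⟨i, hi | hi⟩ :=
      t7_sign g r m0 δ B hm0 hmin hunif hbd P hP 1 ⟨zero_le_one, le_rfl⟩
    · refine ⟨i, 1, fun x hx => ?_⟩
      have h3 := hi _ (hnear x hx 0 h00).1 (hnear x hx 0 h00).2 1 htt
      refine ⟨?_, ?_⟩
      · unfold sg
        rw [if_pos h3]
      · rw [zero_add] at h3
        rw [hs']
        simp only
        rw [if_pos h3]
    · refine ⟨i, 0, fun x hx => ?_⟩
      have h3 := hi _ (hnear x hx 0 h00).1 (hnear x hx 0 h00).2 1 htt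
      refine ⟨?_, ?_⟩
      · unfold sg
        rw [if_neg (not_lt.mpr h3.le)]
      · rw [zero_add] at h3
        rw [hs']
        simp only
        rw [if_neg (not_lt.mpr h3.le), if_pos h3]
  -- the odd data
  have s3 : DD s' (boxC 0 N) = 1 := by
    refine DD_box_odd s' N hN fun i x _ hx => ?_
    have hx0 : x ≠ -x := by
      intro hcon
      obtain ⟨j, hj⟩ := hx
      have h3 := congrFun hcon j
      rw [Pi.neg_apply] at h3
      have h4 : x j = 0 := by omega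
      rw [h4, abs_zero] at hj
      omega
    have hneg : t7H g 1 (h • (fun j => (((-x) j : ℤ) : ℝ))) i =
        - t7H g 1 (h • (fun j => (x j : ℝ))) i := by
      have e : h • (fun j => (((-x) j : ℤ) : ℝ)) = -(h • (fun j => (x j : ℝ))) := by
        funext j
        simp
      rw [e]
      unfold t7H
      simp only [neg_neg, one_smul, Pi.sub_apply]
      ring
    rw [hs']
    simp only
    rw [hneg]
    rcases lt_trichotomy (t7H g 1 (h • (fun j => (x j : ℝ))) i) 0 with h3 | h3 | h3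
    · rw [if_neg (by linarith), if_pos (by linarith), if_pos h3]
      decide
    · rw [h3]
      simp only [neg_zero, lt_irrefl, if_false]
      rw [neg_neg]
      have key : ∀ (p q : Prop) [Decidable p] [Decidable q], ((p ∧ ¬ q) ∨ (q ∧ ¬ p)) →
          (if p then (1 : ZMod 2) else 0) = (if q then 1 else 0) + 1 := by
        intro p q _ _ hpq
        rcases hpq with ⟨h5, h6⟩ | ⟨h5, h6⟩
        · rw [if_pos h5, if_neg h6]
          decide
        · rw [if_neg h6, if_pos h5]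
          decide
      apply key
      rcases lt_trichotomy (toLex x) (toLex (-x)) with h4 | h4 | h4
      · exact Or.inr ⟨h4, not_lt.mpr h4.le⟩
      · exact absurd (toLex.injective h4) hx0
      · exact Or.inl ⟨h4, not_lt.mpr h4.le⟩
    · rw [if_pos (by linarith), if_neg (by linarith), if_pos h3]
      decide
  rw [s0, s1, s2, s3]

end BK
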