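import Crest.Agent.BK_T6
import Crest.Agent.BK_T7

set_option autoImplicit false

namespace BK
open Finset

private theorem T8_low {m : ℕ} (f : (Fin m → ℝ) → (Fin m → ℝ)) (hf : Continuous f) (R r : ℝ)
    (hR : 0 < R) (J : Finset (Fin m → ℝ))
    (h1 : ∀ x, ‖x‖ ≤ R → (∀ p ∈ J, r ≤ ‖x - p‖) → f x ≠ 0) :
    ∃ μ > 0, ∃ δ > 0, ∀ x, ‖x‖ ≤ R → (∀ p ∈ J, r - δ ≤ ‖x - p‖) → μ ≤ ‖f x‖ := by
  classical
  let F : (Fin m → ℝ) → ℝ := fun x => ‖f x‖ + ∑ p ∈ J, max (r - ‖x - p‖) 0
  have hFdef : ∀ x, F x = ‖f x‖ + ∑ p ∈ J, max (r - ‖x - p‖) 0 := fun x => rfl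
  have hF : Continuous F := by
    apply Continuous.add hf.norm
    apply continuous_finset_sum
    intro p _
    exact (continuous_const.sub (continuous_id.sub continuous_const).norm).max continuous_const
  have hcomp : IsCompact (Metric.closedBall (0 : Fin m → ℝ) R) := isCompact_closedBall 0 R
  obtain ⟨x0, hx0, hmin⟩ := hcomp.exists_isMinOn ⟨0, by simp [hR.le]⟩ hF.continuousOn
  have hx0' : ‖x0‖ ≤ R := mem_closedBall_zero_iff.1 hx0
  have hnn : ∀ x, 0 ≤ ∑ p ∈ J, max (r - ‖x - p‖) 0 := fun x =>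
    sum_nonneg fun p _ => le_max_right _ _
  have hpos : 0 < F x0 := by
    by_cases hall : ∀ p ∈ J, r ≤ ‖x0 - p‖
    · have h2 := h1 x0 hx0' hall
      have h3 : 0 < ‖f x0‖ := norm_pos_iff.2 h2
      rw [hFdef]
      linarith [hnn x0]
    · push Not at hall
      obtain ⟨p, hp, hlt⟩ := hall
      have h3 : max (r - ‖x0 - p‖) 0 ≤ ∑ p ∈ J, max (r - ‖x0 - p‖) 0 :=
        single_le_sum (f := fun p => max (r - ‖x0 - p‖) 0) (fun p _ => le_max_right _ _) hp
      have h4 : 0 < max (r - ‖x0 - p‖) 0 := lt_max_of_lt_left (by linarith)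
      rw [hFdef]
      linarith [norm_nonneg (f x0)]
  have hcard : (0 : ℝ) < 2 * ((J.card : ℝ) + 1) := by positivity
  refine ⟨F x0 / 2, half_pos hpos, F x0 / (2 * ((J.card : ℝ) + 1)), div_pos hpos hcard, ?_⟩
  intro x hx hp
  have h2 : F x0 ≤ F x := hmin (mem_closedBall_zero_iff.2 hx)
  have h3 : ∑ p ∈ J, max (r - ‖x - p‖) 0 ≤ J.card • (F x0 / (2 * ((J.card : ℝ) + 1))) := by
    apply sum_le_card_nsmul
    intro p hpJ
    apply max_le
    · linarith [hp p hpJ]
    · exact (div_pos hpos hcard).le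
  have h4 : (J.card : ℝ) * (F x0 / (2 * ((J.card : ℝ) + 1))) ≤ F x0 / 2 := by
    rw [mul_div_assoc', div_le_div_iff₀ hcard (by norm_num : (0 : ℝ) < 2)]
    nlinarith [hpos.le, Nat.cast_nonneg (α := ℝ) J.card]
  rw [nsmul_eq_mul] at h3
  rw [hFdef x] at h2
  linarith

/-- Task BK-T8: Theorem K. -/
theorem thmK {m : ℕ} (f : (Fin m → ℝ) → (Fin m → ℝ)) (hf : Continuous f) (R r : ℝ)
    (hR : 0 < R) (hr : 0 < r) (J : Finset (Fin m → ℝ))
    (hin : ∀ p ∈ J, ‖p‖ + r < R)
    (hdisj : ∀ p ∈ J, ∀ q ∈ J, p ≠ q → 2 * r < ‖p - q‖)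
    (h1 : ∀ x, ‖x‖ ≤ R → (∀ p ∈ J, r ≤ ‖x - p‖) → f x ≠ 0)
    (h2 : ∀ x, ‖x‖ = R → ∀ θ ∈ Set.Icc (0 : ℝ) 1, f x ≠ θ • f (-x))
    (h3 : ∀ p ∈ J, ∀ y, ‖y‖ = r → ∀ θ ∈ Set.Icc (0 : ℝ) 1, f (p + y) ≠ θ • f (p - y)) :
    Odd J.card := by
  classical
  obtain ⟨μ, hμ, δ, hδ, hlow⟩ := T8_low f hf R r hR J h1
  -- uniform continuity on the closed ball
  have huc : UniformContinuousOn f (Metric.closedBall (0 : Fin m → ℝ) R) :=
    (isCompact_closedBall 0 R).uniformContinuousOn_of_continuous hf.continuousOn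
  rw [Metric.uniformContinuousOn_iff] at huc
  obtain ⟨η1, hη1, huc⟩ := huc μ hμ
  -- degrees
  obtain ⟨η0, hη0, hdeg0⟩ := deg_one f hf R hR h2
  have hdegJ : ∀ p, ∃ η > 0, p ∈ J → ∀ h : ℝ, 0 < h → h < η → ∀ q : Fin m → ℝ, ‖q‖ < η →
      ∀ N : ℕ, 0 < N → |2 * (N : ℝ) * h - r| < η →
        DD (sg (fun y => f (p + y)) q h) (boxC 0 N) = 1 := by
    intro p
    by_cases hp : p ∈ J
    · obtain ⟨η, hη, h⟩ := deg_one (fun y => f (p + y)) (hf.comp (continuous_const.add
        continuous_id)) r hr (by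
          intro y hy θ hθ
          have := h3 p hp y hy θ hθ
          rwa [sub_eq_add_neg] at this)
      exact ⟨η, hη, fun _ => h⟩
    · exact ⟨1, one_pos, fun h => absurd h hp⟩
  choose η hη hdegJ using hdegJ
  -- choice of `h`
  have E : ∀ ε : ℝ, 0 < ε → ∀ᶠ h in nhdsWithin (0 : ℝ) (Set.Ioi 0), 0 < h ∧ h < ε :=
    fun ε hε => Ioo_mem_nhdsGT hε
  have hT : Filter.Tendsto (fun N : ℕ => R / (2 * ((N : ℝ) + 1))) Filter.atTop
      (nhdsWithin (0 : ℝ) (Set.Ioi 0)) := by
    rw [tendsto_nhdsWithin_iff]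
    constructor
    · have h5 : Filter.Tendsto (fun N : ℕ => 2 * ((N : ℝ) + 1)) Filter.atTop Filter.atTop := by
        apply Filter.Tendsto.const_mul_atTop (by norm_num)
        exact Filter.tendsto_atTop_add_const_right _ _ tendsto_natCast_atTop_atTop
      exact h5.const_div_atTop R
    · filter_upwards with N
      exact div_pos hR (by positivity)
  have hev : ∀ᶠ h in nhdsWithin (0 : ℝ) (Set.Ioi 0), (0 < h ∧ h < η0) ∧ (0 < h ∧ h < η1) ∧
      (0 < h ∧ h < δ / 3) ∧ (0 < h ∧ h < r / 2) ∧ (∀ p ∈ J, 0 < h ∧ h < η p / 2) ∧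
      (∀ p ∈ J, 0 < h ∧ h < R - ‖p‖ - r) ∧
      (∀ p ∈ J, ∀ q ∈ J, p ≠ q → 0 < h ∧ h < (‖p - q‖ - 2 * r) / 2) := by
    refine (E _ hη0).and ((E _ hη1).and ((E _ (by positivity)).and ((E _ (by positivity)).and
      (Filter.Eventually.and ?_ (Filter.Eventually.and ?_ ?_)))))
    · rw [Filter.eventually_all_finset]
      intro p _
      exact E _ (by linarith [hη p])
    · rw [Filter.eventually_all_finset]
      intro p hp
      exact E _ (by linarith [hin p hp])
    · rw [Filter.eventually_all_finset]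
      intro p hp
      rw [Filter.eventually_all_finset]
      intro q hq
      by_cases hpq : p = q
      · filter_upwards with h hne
        exact absurd hpq hne
      · filter_upwards [E ((‖p - q‖ - 2 * r) / 2) (by linarith [hdisj p hp q hq hpq])] with h hh _
        exact hh
  obtain ⟨N₀, hN₀⟩ := (hT.eventually hev).exists
  set N : ℕ := N₀ + 1 with hNdef
  have hNpos : 0 < N := by omega
  set h : ℝ := R / (2 * ((N₀ : ℝ) + 1)) with hhdef
  obtain ⟨⟨hh, hhη0⟩, ⟨-, hhη1⟩, ⟨-, hhδ⟩, ⟨-, hhr⟩, hhη, hhR, hhd⟩ := hN₀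
  have hNh : 2 * (N : ℝ) * h = R := by
    rw [hhdef, hNdef]
    push_cast
    field_simp
  -- sub-boxes
  set N' : ℕ := ⌊r / (2 * h)⌋₊ with hN'def
  have hN'1 : 2 * (N' : ℝ) * h ≤ r := by
    have h5 : (N' : ℝ) ≤ r / (2 * h) := Nat.floor_le (by positivity)
    rw [le_div_iff₀ (by positivity)] at h5
    linarith
  have hN'2 : r < 2 * (N' : ℝ) * h + 2 * h := by
    have h5 : r / (2 * h) < (N' : ℝ) + 1 := Nat.lt_floor_add_one _
    rw [div_lt_iff₀ (by positivity)] at h5
    linarith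
  have hN'pos : 0 < N' := by
    rw [hN'def, Nat.floor_pos, le_div_iff₀ (by positivity)]
    linarith
  let c : (Fin m → ℝ) → Fin m → ℤ := fun p i => 2 * round (p i / (2 * h))
  have hcdef : ∀ p i, c p i = 2 * round (p i / (2 * h)) := fun p i => rfl
  have hceven : ∀ p i, Even (c p i) := fun p i => ⟨round (p i / (2 * h)), by rw [hcdef]; ring⟩
  have hc : ∀ p i, |h * (c p i : ℝ) - p i| ≤ h := by
    intro p i
    have h5 := abs_sub_round (p i / (2 * h))
    have h6 : h * (c p i : ℝ) - p i = -(2 * h) * (p i / (2 * h) - (round (p i / (2 * h)) : ℝ)) := by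
      rw [hcdef]
      push_cast
      field_simp
      ring
    rw [h6, abs_mul, abs_neg, abs_of_pos (by positivity : 0 < 2 * h)]
    calc 2 * h * |p i / (2 * h) - (round (p i / (2 * h)) : ℝ)| ≤ 2 * h * (1 / 2) := by
          apply mul_le_mul_of_nonneg_left h5 (by positivity)
      _ = h := by ring
  have hmemF : ∀ (c : Fin m → ℤ) (N : ℕ) (y : Fin m → ℤ), y ∈ boxF c N ↔
      ∀ i, (c i - 2 * (N : ℤ) < y i ∧ y i < c i + 2 * N) ∧ Odd (y i) := by
    intro c N y
    simp only [boxF, Fintype.mem_piFinset, mem_filter, Finset.mem_Ioo]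
  -- apply the discrete theorem
  apply disc_count (fun i => sg f 0 h i) N J c N'
  · intro p hp y hy
    rw [hmemF] at hy ⊢
    intro i
    obtain ⟨⟨ha, hb⟩, ho⟩ := hy i
    have h5 := hc p i
    rw [abs_le] at h5
    have h6 : |p i| ≤ ‖p‖ := by
      have := norm_le_pi_norm p i
      rwa [Real.norm_eq_abs] at this
    rw [abs_le] at h6
    have h7 := (hhR p hp).2
    have ha' : (c p i : ℝ) - 2 * (N' : ℝ) < (y i : ℝ) := by exact_mod_cast ha
    have hb' : (y i : ℝ) < (c p i : ℝ) + 2 * (N' : ℝ) := by exact_mod_cast hb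
    refine ⟨⟨?_, ?_⟩, ho⟩
    · have : -(2 * (N : ℝ)) < (y i : ℝ) := by
        by_contra hcon
        push Not at hcon
        have h8 : h * (y i : ℝ) ≤ h * (-(2 * (N : ℝ))) := mul_le_mul_of_nonneg_left hcon hh.le
        have h9 : h * ((c p i : ℝ) - 2 * (N' : ℝ)) < h * (y i : ℝ) := by
          exact mul_lt_mul_of_pos_left ha' hh
        nlinarith
      have h10 : -(2 * (N : ℤ)) < y i := by exact_mod_cast this
      simpa using h10
    · have : (y i : ℝ) < 2 * (N : ℝ) := by
        by_contra hcon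
        push Not at hcon
        have h8 : h * (2 * (N : ℝ)) ≤ h * (y i : ℝ) := mul_le_mul_of_nonneg_left hcon hh.le
        have h9 : h * (y i : ℝ) < h * ((c p i : ℝ) + 2 * (N' : ℝ)) := by
          exact mul_lt_mul_of_pos_left hb' hh
        nlinarith
      have h10 : y i < 2 * (N : ℤ) := by exact_mod_cast this
      simpa using h10
  · intro p hp q hq hpq
    rw [Finset.disjoint_left]
    intro y hy hy'
    rw [hmemF] at hy hy'
    obtain ⟨i, hi⟩ : ∃ i, 2 * r + 2 * h < |p i - q i| := by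
      by_contra hcon
      push Not at hcon
      have h5 : ‖p - q‖ ≤ 2 * r + 2 * h := by
        rw [pi_norm_le_iff_of_nonneg (by positivity)]
        intro i
        rw [Real.norm_eq_abs, Pi.sub_apply]
        exact hcon i
      have h6 := (hhd p hp q hq hpq).2
      linarith
    obtain ⟨⟨ha, hb⟩, -⟩ := hy i
    obtain ⟨⟨ha', hb'⟩, -⟩ := hy' i
    have ha1 : (c p i : ℝ) - 2 * (N' : ℝ) < (y i : ℝ) := by exact_mod_cast ha
    have hb1 : (y i : ℝ) < (c p i : ℝ) + 2 * (N' : ℝ) := by exact_mod_cast hb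
    have ha2 : (c q i : ℝ) - 2 * (N' : ℝ) < (y i : ℝ) := by exact_mod_cast ha'
    have hb2 : (y i : ℝ) < (c q i : ℝ) + 2 * (N' : ℝ) := by exact_mod_cast hb'
    have h5 := abs_le.1 (hc p i)
    have h6 := abs_le.1 (hc q i)
    have k1 := mul_lt_mul_of_pos_left ha1 hh
    have k2 := mul_lt_mul_of_pos_left hb1 hh
    have k3 := mul_lt_mul_of_pos_left ha2 hh
    have k4 := mul_lt_mul_of_pos_left hb2 hh
    rcases lt_abs.1 hi with hi | hi
    · nlinarith
    · nlinarith
  · intro y hy hout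
    have hyb : ∀ x : Fin m → ℤ, IsFace x y → ‖h • (fun j => (x j : ℝ))‖ ≤ R := by
      intro x hx
      rw [pi_norm_le_iff_of_nonneg hR.le]
      intro i
      rw [hmemF] at hy
      obtain ⟨⟨ha, hb⟩, ho⟩ := hy i
      simp only [Pi.zero_apply, zero_sub, zero_add] at ha hb
      have h5 : |x i| ≤ 2 * (N : ℤ) := by
        rcases hx i with h6 | ⟨-, h6⟩
        · rw [h6, abs_le]
          omega
        · rcases (abs_eq (by norm_num)).1 h6 with h7 | h7
          · rw [abs_le]
            omega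
          · rw [abs_le]
            omega
      have h6 : |(x i : ℝ)| ≤ 2 * (N : ℝ) := by exact_mod_cast h5
      rw [Real.norm_eq_abs, Pi.smul_apply, smul_eq_mul, abs_mul, abs_of_pos hh]
      calc h * |(x i : ℝ)| ≤ h * (2 * (N : ℝ)) := mul_le_mul_of_nonneg_left h6 hh.le
        _ = R := by rw [← hNh]; ring
    have hself : IsFace y y := fun i => Or.inl rfl
    have hlowy : μ ≤ ‖f (h • (fun j => (y j : ℝ)))‖ := by
      apply hlow _ (hyb y hself)
      intro p hp
      have h5 := hout p hp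
      rw [hmemF] at h5
      push Not at h5
      obtain ⟨i, hi⟩ := h5
      have ho : Odd (y i) := ((hmemF _ _ _).1 hy i).2
      have h6 : ¬ (c p i - 2 * (N' : ℤ) < y i ∧ y i < c p i + 2 * N') := by
        intro h7
        exact hi h7 ho
      have h7 := abs_le.1 (hc p i)
      have h8 : r - δ ≤ |h * (y i : ℝ) - p i| := by
        rw [not_and_or] at h6
        rcases h6 with h6 | h6
        · have h9 : (y i : ℝ) ≤ (c p i : ℝ) - 2 * (N' : ℝ) := by
            exact_mod_cast not_lt.1 h6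
          have k1 := mul_le_mul_of_nonneg_left h9 hh.le
          rw [le_abs]
          right
          nlinarith
        · have h9 : (c p i : ℝ) + 2 * (N' : ℝ) ≤ (y i : ℝ) := by
            exact_mod_cast not_lt.1 h6
          have k1 := mul_le_mul_of_nonneg_left h9 hh.le
          rw [le_abs]
          left
          nlinarith
      have h9 := norm_le_pi_norm (h • (fun j => (y j : ℝ)) - p) i
      simp only [Pi.sub_apply, Pi.smul_apply, smul_eq_mul, Real.norm_eq_abs] at h9
      exact h8.trans h9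
    obtain ⟨i, hi⟩ : ∃ i, μ ≤ |f (h • (fun j => (y j : ℝ))) i| := by
      by_contra hcon
      push Not at hcon
      have h5 : ‖f (h • (fun j => (y j : ℝ)))‖ < μ := by
        rw [pi_norm_lt_iff hμ]
        intro i
        rw [Real.norm_eq_abs]
        exact hcon i
      linarith
    refine ⟨i, ?_⟩
    intro x hx
    have h5 : dist (h • (fun j => (x j : ℝ))) (h • (fun j => (y j : ℝ))) < η1 := by
      rw [dist_eq_norm]
      apply lt_of_le_of_lt _ hhη1
      rw [pi_norm_le_iff_of_nonneg hh.le]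
      intro j
      simp only [Pi.sub_apply, Pi.smul_apply, smul_eq_mul, Real.norm_eq_abs]
      rw [← mul_sub, abs_mul, abs_of_pos hh]
      have h6 : |(x j : ℝ) - (y j : ℝ)| ≤ 1 := by
        have h7 : |x j - y j| ≤ 1 := by
          rcases hx j with h7 | ⟨-, h7⟩
          · rw [h7]
            simp
          · exact h7.le
        exact_mod_cast h7
      calc h * |(x j : ℝ) - (y j : ℝ)| ≤ h * 1 := mul_le_mul_of_nonneg_left h6 hh.le
        _ = h := mul_one h
    have h6 := huc _ (mem_closedBall_zero_iff.2 (hyb x hx)) _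
      (mem_closedBall_zero_iff.2 (hyb y hself)) h5
    rw [dist_eq_norm] at h6
    have h7 := lt_of_le_of_lt (norm_le_pi_norm _ i) h6
    rw [Real.norm_eq_abs, Pi.sub_apply, abs_lt] at h7
    simp only [sg, zero_add]
    rcases le_abs.1 hi with h8 | h8
    · rw [if_neg (by linarith), if_neg (by linarith)]
    · rw [if_pos (by linarith), if_pos (by linarith)]
  · have h5 := hdeg0 h hh hhη0 0 (by simpa using hη0) N hNpos (by
      rw [hNh, sub_self, abs_zero]
      exact hη0)
    exact h5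
  · intro p hp
    rw [DD_translate _ _ (hceven p)]
    have h5 := hdegJ p hp h hh (by linarith [hη p, (hhη p hp).2])
      (h • (fun j => (c p j : ℝ)) - p) (by
        have h6 : ‖h • (fun j => (c p j : ℝ)) - p‖ ≤ h := by
          rw [pi_norm_le_iff_of_nonneg hh.le]
          intro i
          rw [Real.norm_eq_abs, Pi.sub_apply, Pi.smul_apply, smul_eq_mul]
          exact hc p i
        linarith [hη p, (hhη p hp).2]) N' hN'pos (by
        rw [abs_lt]
        constructor
        · linarith [(hhη p hp).2]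
        · linarith [hη p])
    rw [← h5]
    congr 1
    funext i x
    simp only [sg]
    have h6 : (0 : Fin m → ℝ) + h • (fun j => (((x + c p) j : ℤ) : ℝ)) =
        p + (h • (fun j => (c p j : ℝ)) - p + h • (fun j => (x j : ℝ))) := by
      ext j
      simp only [Pi.add_apply, Pi.zero_apply, Pi.smul_apply, Pi.sub_apply, smul_eq_mul]
      push_cast
      ring
    rw [h6]

end BK
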