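import Crest.Agent.BK_C0
import Crest.Agent.BK_T8

set_option autoImplicit false

namespace BK
open Finset Matrix Filter Topology

private lemma M8_cont {C : Type} [Fintype C] (S : CS 4 C) (i : C) (v : Fin 4 → ℝ) :
    Continuous (fun x : Fin 4 → ℝ => S.phi x i * (v ⬝ᵥ x)) := by
  have hlin : Continuous (fun x : Fin 4 → ℝ => v ⬝ᵥ x) := by
    unfold dotProduct
    fun_prop
  rw [continuous_iff_continuousAt]
  intro x
  by_cases hx : x = 0
  · subst hx
    unfold ContinuousAt
    simp only [dotProduct_zero, mul_zero]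
    have h0 : Tendsto (fun x : Fin 4 → ℝ => |v ⬝ᵥ x|) (𝓝 0) (𝓝 0) := by
      have h := (hlin.abs).tendsto 0
      rw [dotProduct_zero, abs_zero] at h
      exact h
    refine squeeze_zero_norm (fun y => ?_) h0
    rw [Real.norm_eq_abs, abs_mul, abs_of_nonneg (S.nonneg y i)]
    calc S.phi y i * |v ⬝ᵥ y| ≤ 1 * |v ⬝ᵥ y| :=
          mul_le_mul_of_nonneg_right (S.le_one y i) (abs_nonneg _)
      _ = _ := one_mul _
  · have hopen : {x : Fin 4 → ℝ | x ≠ 0} ∈ 𝓝 x := isOpen_ne.mem_nhds hx
    exact ((S.cont i).continuousAt hopen).mul hlin.continuousAt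

/-- Task BK-M8: LS(4). Suppose every `x ≠ 0` has at most three blocks. Theorem K (`m = 4`, `J = ∅`,
`R = 2`) for `f x = (g x, 1 - |x|²)`, `g x = ∑ i, phi x i * (z (b i) · x) * (1, b i, (b i)²) ∈ ℝ³`
(`g` is odd). `g x = 0` with `x ≠ 0` is impossible: Vandermonde for at most three values
of `b`. -/
theorem LS4 {C : Type} [Fintype C] [DecidableEq C] (S : CS 4 C) (b : C → ℕ)
    (z : ℕ → Fin 4 → ℝ) (hz : ∀ x, x ≠ 0 → ∀ i, S.phi x i ≠ 0 → z (b i) ⬝ᵥ x ≠ 0) :
    ∃ x, x ≠ 0 ∧ 4 ≤ ((univ.filter (fun i => S.phi x i ≠ 0)).image b).card := by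
  by_contra hcon
  push Not at hcon
  have key : ∀ x : Fin 4 → ℝ, x ≠ 0 →
      (∀ k : ℕ, k < 3 → ∑ i, S.phi x i * (z (b i) ⬝ᵥ x) * (b i : ℝ) ^ k = 0) → False := by
    intro x hx h0
    obtain ⟨i0, hi0⟩ : ∃ i, S.phi x i ≠ 0 := by
      by_contra hall
      push Not at hall
      have := S.sum_one x hx
      rw [Finset.sum_eq_zero fun i _ => hall i] at this
      exact zero_ne_one this
    set B := (univ.filter (fun i => S.phi x i ≠ 0)).image b with hB
    have hmem : b i0 ∈ B := by
      rw [hB, Finset.mem_image]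
      exact ⟨i0, by simp [hi0], rfl⟩
    let P : Polynomial ℝ := ∏ β ∈ B.erase (b i0), (Polynomial.X - Polynomial.C (β : ℝ))
    have hdeg : P.natDegree < 3 := by
      have h1 : P.natDegree = (B.erase (b i0)).card :=
        Polynomial.natDegree_finsetProd_X_sub_C_eq_card (B.erase (b i0)) (fun β => (β : ℝ))
      have h2 := hcon x hx
      rw [← hB] at h2
      have h3 := Finset.card_erase_lt_of_mem hmem
      rw [h1]
      omega
    have hsum : ∑ i, S.phi x i * (z (b i) ⬝ᵥ x) * P.eval (b i : ℝ) = 0 := by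
      have : ∀ i, S.phi x i * (z (b i) ⬝ᵥ x) * P.eval (b i : ℝ) =
          ∑ k ∈ range 3, P.coeff k * (S.phi x i * (z (b i) ⬝ᵥ x) * (b i : ℝ) ^ k) := by
        intro i
        rw [Polynomial.eval_eq_sum_range' hdeg, Finset.mul_sum]
        exact Finset.sum_congr rfl fun k _ => by ring
      rw [Finset.sum_congr rfl fun i _ => this i, Finset.sum_comm]
      refine Finset.sum_eq_zero fun k hk => ?_
      rw [← Finset.mul_sum, h0 k (Finset.mem_range.1 hk), mul_zero]
    have hP0 : P.eval (b i0 : ℝ) ≠ 0 := by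
      rw [Polynomial.eval_prod, Finset.prod_ne_zero_iff]
      intro β hβ
      rw [Polynomial.eval_sub, Polynomial.eval_X, Polynomial.eval_C, sub_ne_zero]
      have := Finset.ne_of_mem_erase hβ
      exact_mod_cast this.symm
    have hterm : ∀ i, S.phi x i * (z (b i) ⬝ᵥ x) * P.eval (b i : ℝ) =
        (if b i = b i0 then S.phi x i else 0) * ((z (b i0) ⬝ᵥ x) * P.eval (b i0 : ℝ)) := by
      intro i
      by_cases hb : b i = b i0
      · rw [if_pos hb, hb]; ring
      · rw [if_neg hb, zero_mul]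
        by_cases hphi : S.phi x i = 0
        · rw [hphi]; ring
        · have hm : b i ∈ B.erase (b i0) := by
            rw [Finset.mem_erase]
            refine ⟨hb, ?_⟩
            rw [hB, Finset.mem_image]
            exact ⟨i, by simp [hphi], rfl⟩
          have : P.eval (b i : ℝ) = 0 := by
            rw [Polynomial.eval_prod]
            refine Finset.prod_eq_zero hm ?_
            simp
          rw [this, mul_zero]
    rw [Finset.sum_congr rfl fun i _ => hterm i, ← Finset.sum_mul] at hsum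
    have hpos : 0 < ∑ i, (if b i = b i0 then S.phi x i else 0) := by
      refine Finset.sum_pos' (fun i _ => ?_) ⟨i0, Finset.mem_univ _, ?_⟩
      · split_ifs
        · exact S.nonneg x i
        · exact le_rfl
      · rw [if_pos rfl]
        exact lt_of_le_of_ne (S.nonneg x i0) (Ne.symm hi0)
    rcases mul_eq_zero.1 hsum with h | h
    · exact hpos.ne' h
    · rcases mul_eq_zero.1 h with h | h
      · exact hz x hx i0 hi0 h
      · exact hP0 h
  let f : (Fin 4 → ℝ) → (Fin 4 → ℝ) := fun x k =>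
    if (k : ℕ) < 3 then ∑ i, S.phi x i * (z (b i) ⬝ᵥ x) * (b i : ℝ) ^ (k : ℕ) else 1 - x ⬝ᵥ x
  have hf : Continuous f := by
    refine continuous_pi fun k => ?_
    by_cases hk : (k : ℕ) < 3
    · simp only [f, if_pos hk]
      exact continuous_finsetSum _ fun i _ => (M8_cont S i (z (b i))).mul continuous_const
    · simp only [f, if_neg hk]
      unfold dotProduct
      fun_prop
  have hk3 : ∀ k : ℕ, k < 3 → k < 4 := fun k hk => by omega
  have heven : ∀ x : Fin 4 → ℝ, x ≠ 0 → ∀ i, S.phi (-x) i = S.phi x i := by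
    intro x hx i
    have := S.homog x hx (-1) (by norm_num) i
    rwa [neg_one_smul] at this
  have h1 : ∀ x : Fin 4 → ℝ, ‖x‖ ≤ 2 → (∀ p ∈ (∅ : Finset (Fin 4 → ℝ)), (1 : ℝ) ≤ ‖x - p‖) →
      f x ≠ 0 := by
    intro x _ _ hfx
    by_cases hx : x = 0
    · subst hx
      have := congrFun hfx 3
      simp [f] at this
    · refine key x hx fun k hk => ?_
      have := congrFun hfx ⟨k, hk3 k hk⟩
      simp only [f, if_pos hk, Pi.zero_apply] at this
      exact this
  have h2 : ∀ x : Fin 4 → ℝ, ‖x‖ = 2 → ∀ θ ∈ Set.Icc (0 : ℝ) 1, f x ≠ θ • f (-x) := by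
    intro x hx θ hθ hfx
    have hx0 : x ≠ 0 := by
      rintro rfl
      rw [norm_zero] at hx
      norm_num at hx
    refine key x hx0 fun k hk => ?_
    have := congrFun hfx ⟨k, hk3 k hk⟩
    simp only [f, if_pos hk, Pi.smul_apply, smul_eq_mul, heven x hx0, dotProduct_neg] at this
    have h3 : ∑ i, S.phi x i * -(z (b i) ⬝ᵥ x) * (b i : ℝ) ^ k =
        - ∑ i, S.phi x i * (z (b i) ⬝ᵥ x) * (b i : ℝ) ^ k := by
      rw [← Finset.sum_neg_distrib]
      exact Finset.sum_congr rfl fun i _ => by ring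
    rw [h3] at this
    have h4 : (1 + θ) * ∑ i, S.phi x i * (z (b i) ⬝ᵥ x) * (b i : ℝ) ^ k = 0 := by linarith
    rcases mul_eq_zero.1 h4 with h | h
    · linarith [hθ.1]
    · exact h
  have := thmK f hf 2 1 two_pos one_pos ∅ (by simp) (by simp) h1 h2 (by simp)
  simp at this

end BK
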