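import Mathlib

/-!
# Grid vertices, flags, barycentric coordinates (S0069 blueprint, definitions)

Vertices = integer points of the boundary of the cube `[-2N,2N]^n` (the barycentric subdivision of
the cubical complex): coordinates which are odd = midpoints of edges of the grid `2ℤ^n`.
-/

set_option autoImplicit false

namespace BK
open Finset MeasureTheory

/-- the vertices: integer points with sup norm exactly `2N` -/
noncomputable def bdry (n N : ℕ) : Finset (Fin n → ℤ) :=
  (Fintype.piFinset fun _ : Fin n => Finset.Icc (-(2 * (N : ℤ))) (2 * N)).filter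
    (fun v => ∃ i, |v i| = 2 * (N : ℤ))

/-- `v` is a face of `w` -/
def cle {n : ℕ} (v w : Fin n → ℤ) : Prop := ∀ i, v i = w i ∨ (Odd (w i) ∧ |v i - w i| = 1)

/-- the dimension of the cell `v` = number of odd coordinates -/
noncomputable def rnk {n : ℕ} (v : Fin n → ℤ) : ℕ := (univ.filter (fun i => Odd (v i))).card

/-- flags: maximal simplices -/
def IsFlag {n : ℕ} (N : ℕ) (F : Fin n → Fin n → ℤ) : Prop :=
  (∀ k, F k ∈ bdry n N) ∧ (∀ k, rnk (F k) = (k : ℕ)) ∧ ∀ k l, k < l → cle (F k) (F l)

open Classical in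
noncomputable def flags (n N : ℕ) : Finset (Fin n → Fin n → ℤ) :=
  (Fintype.piFinset fun _ : Fin n => bdry n N).filter (fun F => IsFlag N F)

theorem mem_flags {n N : ℕ} (F : Fin n → Fin n → ℤ) : F ∈ flags n N ↔ IsFlag N F := by
  classical
  simp only [flags, mem_filter, Fintype.mem_piFinset]
  exact ⟨fun h => h.2, fun h => ⟨fun k => h.1 k, h⟩⟩

/-- number of flags with colour set `σ` -/
noncomputable def nfl {n : ℕ} {C : Type} [DecidableEq C] (c : (Fin n → ℤ) → C) (N : ℕ)
    (σ : Finset C) : ℕ :=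
  ((flags n N).filter (fun F => univ.image (fun k => c (F k)) = σ)).card

/-- `near s t a`: `a` is the rounding of `t` with parameter `s` -/
def near (s t : ℝ) (a : ℤ) : Prop := (Even a ∧ |t - a| ≤ s) ∨ (Odd a ∧ |t - a| < 1 - s)

/-- barycentric coordinate of `x` at the vertex `v` -/
noncomputable def al {n : ℕ} (v : Fin n → ℤ) (x : Fin n → ℝ) : ℝ :=
  (volume {s : ℝ | s ∈ Set.Ioo (0 : ℝ) 1 ∧ ∀ i, near s (x i) (v i)}).toReal

/-- radial projection to the boundary of the cube -/
noncomputable def xbar {n : ℕ} (N : ℕ) (x : Fin n → ℝ) : Fin n → ℝ := (2 * (N : ℝ) / ‖x‖) • x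

/-- there is a free involution on flags changing only the `k`-th vertex and commuting with `-` -/
def HasFlip (n N : ℕ) (k : Fin n) : Prop :=
  ∃ g : (Fin n → Fin n → ℤ) → (Fin n → Fin n → ℤ), ∀ F, IsFlag N F →
    IsFlag N (g F) ∧ g F ≠ F ∧ (∀ j, j ≠ k → g F j = F j) ∧ g (g F) = F ∧ g (-F) = -(g F)

end BK
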