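import Crest.Agent.BK_P0

set_option autoImplicit false

namespace BK
open Finset MeasureTheory

private theorem P1_tri {t : ℝ} {a b : ℤ} {r : ℝ} (h : |t - a| + |t - b| < r) :
    ((|a - b| : ℤ) : ℝ) < r := by
  have h1 : |(a : ℝ) - b| ≤ |t - a| + |t - b| := by
    have := abs_sub_le (a : ℝ) t b
    rw [abs_sub_comm (a : ℝ) t] at this
    exact this
  push_cast
  linarith

private theorem P1_eq {a b : ℤ} (h : ((|a - b| : ℤ) : ℝ) < 1) : a = b := by
  have h' : |a - b| < 1 := by exact_mod_cast h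
  rw [Int.abs_lt_one_iff] at h'
  omega

/-- Task BK-P1: rounding is well defined. -/
theorem near_unique {s t : ℝ} (hs : s ∈ Set.Ioo (0 : ℝ) 1) {a b : ℤ} (ha : near s t a)
    (hb : near s t b) : a = b := by
  obtain ⟨hs0, hs1⟩ := hs
  rcases ha with ⟨ea, ha⟩ | ⟨oa, ha⟩ <;> rcases hb with ⟨eb, hb⟩ | ⟨ob, hb⟩
  · have h : ((|a - b| : ℤ) : ℝ) < (2 : ℝ) := P1_tri (t := t) (by linarith)
    have h' : |a - b| < 2 := by exact_mod_cast h
    rw [abs_lt] at h'
    obtain ⟨x, hx⟩ := ea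
    obtain ⟨y, hy⟩ := eb
    omega
  · exact P1_eq (P1_tri (t := t) (by linarith))
  · exact P1_eq (P1_tri (t := t) (by linarith))
  · have h : ((|a - b| : ℤ) : ℝ) < (2 : ℝ) := P1_tri (t := t) (by linarith)
    have h' : |a - b| < 2 := by exact_mod_cast h
    rw [abs_lt] at h'
    obtain ⟨x, hx⟩ := oa
    obtain ⟨y, hy⟩ := ob
    omega

theorem near_exists {s : ℝ} (hs : s ∈ Set.Ioo (0 : ℝ) 1) (t : ℝ) : ∃ a, near s t a := by
  obtain ⟨hs0, hs1⟩ := hs
  have h1 := abs_sub_round (t / 2)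
  set e : ℤ := 2 * round (t / 2) with he
  have h2 : |t - e| ≤ 1 := by
    have : t - (e : ℝ) = 2 * (t / 2 - round (t / 2)) := by
      rw [he]; push_cast; ring
    rw [this, abs_mul, abs_two]
    linarith
  have hev : Even e := even_two_mul _
  by_cases h3 : |t - e| ≤ s
  · exact ⟨e, Or.inl ⟨hev, h3⟩⟩
  · push Not at h3
    rcases le_total 0 (t - e) with h4 | h4
    · refine ⟨e + 1, Or.inr ⟨hev.add_one, ?_⟩⟩
      rw [abs_of_nonneg h4] at h2 h3
      push_cast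
      rw [abs_lt]
      constructor <;> linarith
    · refine ⟨e - 1, Or.inr ⟨hev.sub_odd odd_one, ?_⟩⟩
      rw [abs_of_nonpos h4] at h2 h3
      push_cast
      rw [abs_lt]
      constructor <;> linarith

private theorem P1_lt {s t : ℝ} (hs : s ∈ Set.Ioo (0 : ℝ) 1) {a : ℤ} (ha : near s t a) :
    |t - a| < 1 := by
  obtain ⟨hs0, hs1⟩ := hs
  rcases ha with ⟨-, h⟩ | ⟨-, h⟩ <;> linarith

theorem near_abs_le {s t : ℝ} (hs : s ∈ Set.Ioo (0 : ℝ) 1) {a : ℤ} (ha : near s t a) :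
    |t - a| ≤ 1 := (P1_lt hs ha).le

/-- `psi s t` stays in `[-2N,2N]` -/
theorem near_bound {s t : ℝ} (hs : s ∈ Set.Ioo (0 : ℝ) 1) {a : ℤ} (ha : near s t a) (N : ℕ)
    (ht : |t| ≤ 2 * N) : |a| ≤ 2 * (N : ℤ) := by
  have h := P1_lt hs ha
  have h1 : |(a : ℝ)| ≤ |t| + |t - a| := by
    have := abs_sub t (t - a)
    rwa [sub_sub_cancel] at this
  have h2 : |(a : ℝ)| < 2 * N + 1 := by linarith
  have h3 : |a| < 2 * (N : ℤ) + 1 := by
    have : ((|a| : ℤ) : ℝ) < ((2 * (N : ℤ) + 1 : ℤ) : ℝ) := by push_cast; exact h2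
    exact_mod_cast this
  omega

theorem near_neg {s t : ℝ} (a : ℤ) : near s (-t) (-a) ↔ near s t a := by
  unfold near
  have h : |(-t) - ((-a : ℤ) : ℝ)| = |t - a| := by
    rw [← abs_neg]; congr 1; push_cast; ring
  rw [h, even_neg, odd_neg]

/-- the rounding is the vertex coordinate at even integers -/
theorem near_even {s : ℝ} (hs : s ∈ Set.Ioo (0 : ℝ) 1) (e : ℤ) (he : Even e) : near s e e := by
  left
  refine ⟨he, ?_⟩
  rw [sub_self, abs_zero]
  exact hs.1.le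

/-- monotonicity in `s` -/
theorem near_mono {s s' t : ℝ} (hs : s ∈ Set.Ioo (0 : ℝ) 1) (hs' : s' ∈ Set.Ioo (0 : ℝ) 1)
    (hss : s ≤ s') {a b : ℤ} (ha : near s t a) (hb : near s' t b) :
    b = a ∨ (Odd a ∧ |b - a| = 1) := by
  obtain ⟨hs0, hs1⟩ := hs
  obtain ⟨hs0', hs1'⟩ := hs'
  rcases ha with ⟨ea, ha⟩ | ⟨oa, ha⟩ <;> rcases hb with ⟨eb, hb⟩ | ⟨ob, hb⟩
  · left
    have h : ((|b - a| : ℤ) : ℝ) < (2 : ℝ) := P1_tri (t := t) (by linarith)
    have h' : |b - a| < 2 := by exact_mod_cast h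
    rw [abs_lt] at h'
    obtain ⟨x, hx⟩ := ea
    obtain ⟨y, hy⟩ := eb
    omega
  · left; exact P1_eq (P1_tri (t := t) (by linarith))
  · right
    refine ⟨oa, ?_⟩
    have h : ((|b - a| : ℤ) : ℝ) < (2 : ℝ) := P1_tri (t := t) (by linarith)
    have h' : |b - a| < 2 := by exact_mod_cast h
    have h0 : 0 ≤ |b - a| := abs_nonneg _
    have hne : |b - a| ≠ 0 := by
      intro h0
      rw [abs_eq_zero] at h0
      obtain ⟨x, hx⟩ := oa
      obtain ⟨y, hy⟩ := eb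
      omega
    omega
  · left
    have h : ((|b - a| : ℤ) : ℝ) < (2 : ℝ) := P1_tri (t := t) (by linarith)
    have h' : |b - a| < 2 := by exact_mod_cast h
    rw [abs_lt] at h'
    obtain ⟨x, hx⟩ := oa
    obtain ⟨y, hy⟩ := ob
    omega

end BK
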