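import Crest.Agent.BK_P1

set_option autoImplicit false

namespace BK
open Finset MeasureTheory

/-- Task BK-P2 -/
theorem al_nonneg {n : ℕ} (v : Fin n → ℤ) (x : Fin n → ℝ) : 0 ≤ al v x := ENNReal.toReal_nonneg

theorem al_neg {n : ℕ} (v : Fin n → ℤ) (x : Fin n → ℝ) : al (-v) (-x) = al v x := by
  unfold al
  have : ∀ s, (∀ i, near s ((-x) i) ((-v) i)) ↔ (∀ i, near s (x i) (v i)) := by
    intro s
    apply forall_congr'
    intro i
    rw [Pi.neg_apply, Pi.neg_apply, near_neg]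
  simp only [this]

private theorem P2a_wit {n : ℕ} (v : Fin n → ℤ) (x : Fin n → ℝ) (h : al v x ≠ 0) :
    ∃ s ∈ Set.Ioo (0 : ℝ) 1, ∀ i, near s (x i) (v i) := by
  by_contra hcon
  apply h
  unfold al
  have : {s : ℝ | s ∈ Set.Ioo (0 : ℝ) 1 ∧ ∀ i, near s (x i) (v i)} = ∅ := by
    ext s
    simp only [Set.mem_setOf_eq, Set.mem_empty_iff_false, iff_false]
    intro hs
    exact hcon ⟨s, hs.1, hs.2⟩
  rw [this, measure_empty, ENNReal.toReal_zero]

theorem al_near {n : ℕ} (v : Fin n → ℤ) (x : Fin n → ℝ) (h : al v x ≠ 0) (i : Fin n) :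
    |x i - v i| ≤ 1 := by
  obtain ⟨s, hs, hn⟩ := P2a_wit v x h
  exact near_abs_le hs (hn i)

theorem al_chain {n : ℕ} (v w : Fin n → ℤ) (x : Fin n → ℝ) (hv : al v x ≠ 0) (hw : al w x ≠ 0) :
    cle v w ∨ cle w v := by
  obtain ⟨s, hs, hn⟩ := P2a_wit v x hv
  obtain ⟨s', hs', hn'⟩ := P2a_wit w x hw
  rcases le_total s s' with hss | hss
  · right
    intro i
    exact near_mono hs hs' hss (hn i) (hn' i)
  · left
    intro i
    exact near_mono hs' hs hss (hn' i) (hn i)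

end BK
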