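import Crest.Agent.BK_P1

set_option autoImplicit false

namespace BK
open Finset MeasureTheory

private lemma p3a_meas_near (t : ℝ) (a : ℤ) : MeasurableSet {s : ℝ | near s t a} := by
  have : {s : ℝ | near s t a} = {s : ℝ | Even a ∧ |t - a| ≤ s} ∪ {s : ℝ | Odd a ∧ |t - a| < 1 - s} := by
    ext s; simp [near]
  rw [this]
  apply MeasurableSet.union
  · by_cases h : Even a
    · simp only [h, true_and]
      exact measurableSet_Ici
    · simp [h]
  · by_cases h : Odd a
    · simp only [h, true_and]
      have : {s : ℝ | |t - a| < 1 - s} = Set.Iio (1 - |t - a|) := by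
        ext s; constructor <;> intro h
        · exact Set.mem_Iio.2 (by have := (show |t - (a : ℝ)| < 1 - s from h); linarith)
        · exact (show |t - (a : ℝ)| < 1 - s by have := Set.mem_Iio.1 h; linarith)
      rw [this]; exact measurableSet_Iio
    · simp [h]

private lemma p3a_meas {n : ℕ} (v : Fin n → ℤ) (x : Fin n → ℝ) :
    MeasurableSet {s : ℝ | s ∈ Set.Ioo (0 : ℝ) 1 ∧ ∀ i, near s (x i) (v i)} := by
  have : {s : ℝ | s ∈ Set.Ioo (0 : ℝ) 1 ∧ ∀ i, near s (x i) (v i)} =
      Set.Ioo (0 : ℝ) 1 ∩ ⋂ i, {s : ℝ | near s (x i) (v i)} := by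
    ext s; simp
  rw [this]
  exact measurableSet_Ioo.inter (MeasurableSet.iInter fun i => p3a_meas_near _ _)

/-- Task BK-P3: partition of unity. -/
theorem al_sum {n : ℕ} (N : ℕ) (x : Fin n → ℝ) (hx : ∀ i, |x i| ≤ 2 * N)
    (hx' : ∃ i, |x i| = 2 * (N : ℝ)) : ∑ v ∈ bdry n N, al v x = 1 := by
  unfold al
  rw [← ENNReal.toReal_sum]
  swap
  · intro v _
    refine ne_of_lt (lt_of_le_of_lt
      (measure_mono (t := Set.Ioo (0 : ℝ) 1) (fun s hs => hs.1)) ?_)
    simp
  rw [← measure_biUnion_finset]
  · have hU : (⋃ v ∈ bdry n N, {s : ℝ | s ∈ Set.Ioo (0 : ℝ) 1 ∧ ∀ i, near s (x i) (v i)}) =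
        Set.Ioo (0 : ℝ) 1 := by
      ext s
      simp only [Set.mem_iUnion, exists_prop]
      constructor
      · rintro ⟨v, _, hs, _⟩; exact hs
      · intro hs
        choose a ha using fun i => near_exists hs (x i)
        refine ⟨a, ?_, hs, ha⟩
        rw [bdry, mem_filter, Fintype.mem_piFinset]
        refine ⟨fun i => ?_, ?_⟩
        · have := near_bound hs (ha i) N (hx i)
          rw [Finset.mem_Icc]
          exact abs_le.1 this
        · obtain ⟨i, hi⟩ := hx'
          refine ⟨i, ?_⟩
          have hN : (0 : ℝ) ≤ 2 * (N : ℝ) := by positivity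
          rcases (abs_eq hN).1 hi with h | h
          · have he : near s ((2 * (N : ℤ) : ℤ) : ℝ) (2 * (N : ℤ)) :=
              near_even hs _ (even_two_mul _)
            have hxi : x i = ((2 * (N : ℤ) : ℤ) : ℝ) := by push_cast; exact h
            rw [← hxi] at he
            rw [near_unique hs (ha i) he]
            exact abs_of_nonneg (by positivity)
          · have he : near s ((-(2 * (N : ℤ)) : ℤ) : ℝ) (-(2 * (N : ℤ))) :=
              near_even hs _ (even_two_mul _).neg
            have hxi : x i = ((-(2 * (N : ℤ)) : ℤ) : ℝ) := by push_cast; exact h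
            rw [← hxi] at he
            rw [near_unique hs (ha i) he, abs_neg]
            exact abs_of_nonneg (by positivity)
    rw [hU]; simp
  · intro v _ w _ hvw
    refine Set.disjoint_left.2 ?_
    intro s hs hs'
    apply hvw
    funext i
    exact near_unique hs.1 (hs.2 i) (hs'.2 i)
  · intro v _
    exact p3a_meas v x

end BK
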