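import Crest.Agent.BK_D0

set_option autoImplicit false

namespace BK
open Finset

/-! ### Task BK-T1: algebra -/

private theorem T1b_term {m : ℕ} (y x : Fin m → ℤ) (a : ZMod 2) (i : Fin m) :
    a * ((if Odd (y i) then
      (Finsupp.single (y + Pi.single i 1) (1 : ZMod 2) + Finsupp.single (y - Pi.single i 1) 1)
      else 0 : Ch m) x) =
    if Even (x i) then (Finsupp.single y a : Ch m) (x + Pi.single i 1) +
      (Finsupp.single y a : Ch m) (x - Pi.single i 1) else 0 := by
  classical
  have h1 : (y + Pi.single i 1 = x) ↔ (y = x - Pi.single i 1) := eq_sub_iff_add_eq.symm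
  have h2 : (y - Pi.single i 1 = x) ↔ (y = x + Pi.single i 1) := sub_eq_iff_eq_add
  have p1 : y = x - Pi.single i 1 → (Odd (y i) ↔ Even (x i)) := by
    rintro rfl
    simp only [Pi.sub_apply, Pi.single_eq_same]
    constructor
    · intro h
      have := h.add_one
      simpa using this
    · intro h
      exact h.sub_odd odd_one
  have p2 : y = x + Pi.single i 1 → (Odd (y i) ↔ Even (x i)) := by
    rintro rfl
    simp only [Pi.add_apply, Pi.single_eq_same]
    constructor
    · intro h
      have := h.sub_odd odd_one
      simpa using this
    · intro h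
      exact h.add_one
  by_cases ho : Odd (y i)
  · rw [if_pos ho]
    simp only [Finsupp.add_apply, Finsupp.single_apply, h1, h2]
    by_cases hx : Even (x i)
    · rw [if_pos hx]
      rw [mul_add, mul_ite, mul_ite, mul_one, mul_zero, add_comm]
    · rw [if_neg hx, if_neg (fun h => hx ((p1 h).1 ho)), if_neg (fun h => hx ((p2 h).1 ho))]
      simp
  · rw [if_neg ho]
    simp only [Finsupp.coe_zero, Pi.zero_apply, mul_zero, Finsupp.single_apply]
    by_cases hx : Even (x i)
    · rw [if_pos hx, if_neg (fun h => ho ((p1 h).2 hx)), if_neg (fun h => ho ((p2 h).2 hx)), add_zero]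
    · rw [if_neg hx]

/-- pointwise formula for the boundary -/
theorem bd_apply {m : ℕ} (f : Ch m) (x : Fin m → ℤ) :
    bd f x = ∑ i, if Even (x i) then f (x + Pi.single i 1) + f (x - Pi.single i 1) else 0 := by
  classical
  induction f using Finsupp.induction_linear with
  | zero => simp
  | add f g hf hg =>
    rw [map_add, Finsupp.add_apply, hf, hg, ← Finset.sum_add_distrib]
    refine Finset.sum_congr rfl fun i _ => ?_
    split_ifs
    · simp only [Finsupp.add_apply]
      ring
    · simp
  | single y a =>
    unfold bd
    rw [Finsupp.linearCombination_single, Finsupp.smul_apply, Finsupp.finsetSum_apply, smul_eq_mul,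
      Finset.mul_sum]
    exact Finset.sum_congr rfl fun i _ => T1b_term y x a i

theorem mulS_apply {m : ℕ} (s : (Fin m → ℤ) → ZMod 2) (f : Ch m) (x : Fin m → ℤ) :
    mulS s f x = s x * f x := by
  classical
  induction f using Finsupp.induction_linear with
  | zero => simp
  | add f g hf hg =>
    rw [map_add, Finsupp.add_apply, hf, hg, Finsupp.add_apply]
    ring
  | single y a =>
    unfold mulS
    rw [Finsupp.linearCombination_single, Finsupp.smul_apply, smul_eq_mul, Finsupp.single_apply,
      Finsupp.single_apply]
    split_ifs with h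
    · subst h; ring
    · simp

end BK
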