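import Crest.Agent.BK_D0

set_option autoImplicit false

namespace BK
open Finset

/-! ### Task BK-T1: algebra -/

private lemma bd_single {m : ℕ} (y : Fin m → ℤ) :
    bd (Finsupp.single y (1 : ZMod 2)) = ∑ i, if Odd (y i) then
      (Finsupp.single (y + Pi.single i 1) (1 : ZMod 2) + Finsupp.single (y - Pi.single i 1) 1)
      else 0 := by
  unfold bd
  rw [Finsupp.linearCombination_single, one_smul]

private lemma add_self_zmod2 {M : Type*} [AddCommGroup M] [Module (ZMod 2) M] (x : M) : x + x = 0 := by
  have h : (2 : ZMod 2) • x = x + x := two_smul _ _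
  rw [← h]
  have h2 : (2 : ZMod 2) = 0 := by decide
  rw [h2, zero_smul]

private lemma bd_bd_single {m : ℕ} (y : Fin m → ℤ) :
    bd (bd (Finsupp.single y (1 : ZMod 2))) = 0 := by
  classical
  have h1 : bd (bd (Finsupp.single y (1 : ZMod 2)))
      = ∑ i, ∑ j, (if i ≠ j ∧ Odd (y i) ∧ Odd (y j) then
        ((Finsupp.single (y + Pi.single i 1 + Pi.single j 1) (1 : ZMod 2)
          + Finsupp.single (y + Pi.single i 1 - Pi.single j 1) 1)
        + (Finsupp.single (y - Pi.single i 1 + Pi.single j 1) (1 : ZMod 2)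
          + Finsupp.single (y - Pi.single i 1 - Pi.single j 1) 1)) else 0 : Ch m) := by
    rw [bd_single, map_sum]
    refine Finset.sum_congr rfl fun i _ => ?_
    by_cases hi : Odd (y i)
    · rw [if_pos hi, map_add, bd_single, bd_single, ← Finset.sum_add_distrib]
      refine Finset.sum_congr rfl fun j _ => ?_
      by_cases hij : i = j
      · subst hij
        have e1 : ¬ Odd ((y + Pi.single i (1:ℤ) : Fin m → ℤ) i) := by
          simp only [Pi.add_apply, Pi.single_eq_same]
          rw [Int.not_odd_iff_even]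
          exact hi.add_one
        have e2 : ¬ Odd ((y - Pi.single i (1:ℤ) : Fin m → ℤ) i) := by
          simp only [Pi.sub_apply, Pi.single_eq_same]
          rw [Int.not_odd_iff_even]
          exact Odd.sub_odd hi odd_one
        rw [if_neg e1, if_neg e2, if_neg (fun h => h.1 rfl), add_zero]
      · have e1 : (y + Pi.single i (1:ℤ) : Fin m → ℤ) j = y j := by
          simp [Pi.single_eq_of_ne (Ne.symm hij)]
        have e2 : (y - Pi.single i (1:ℤ) : Fin m → ℤ) j = y j := by
          simp [Pi.single_eq_of_ne (Ne.symm hij)]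
        rw [e1, e2]
        by_cases hj : Odd (y j)
        · rw [if_pos hj, if_pos hj, if_pos ⟨hij, hi, hj⟩]
        · rw [if_neg hj, if_neg hj, if_neg (fun h => hj h.2.2), add_zero]
    · rw [if_neg hi, map_zero]
      symm
      refine Finset.sum_eq_zero fun j _ => ?_
      rw [if_neg (fun h => hi h.2.1)]
  rw [h1, ← Finset.sum_product']
  refine Finset.sum_involution (fun p _ => p.swap) ?_ ?_ ?_ ?_
  · rintro ⟨i, j⟩ _
    simp only [Prod.fst_swap, Prod.snd_swap]
    by_cases h : i ≠ j ∧ Odd (y i) ∧ Odd (y j)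
    · rw [if_pos h, if_pos ⟨h.1.symm, h.2.2, h.2.1⟩]
      have a1 : y + Pi.single j 1 + Pi.single i 1 = y + Pi.single i 1 + Pi.single j 1 := by abel
      have a2 : y + Pi.single j 1 - Pi.single i 1 = y - Pi.single i 1 + Pi.single j 1 := by abel
      have a3 : y - Pi.single j 1 + Pi.single i 1 = y + Pi.single i 1 - Pi.single j 1 := by abel
      have a4 : y - Pi.single j 1 - Pi.single i 1 = y - Pi.single i 1 - Pi.single j 1 := by abel
      rw [a1, a2, a3, a4]
      set p := Finsupp.single (y + Pi.single i 1 + Pi.single j 1) (1 : ZMod 2)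
      set q := Finsupp.single (y + Pi.single i 1 - Pi.single j 1) (1 : ZMod 2)
      set r := Finsupp.single (y - Pi.single i 1 + Pi.single j 1) (1 : ZMod 2)
      set t := Finsupp.single (y - Pi.single i 1 - Pi.single j 1) (1 : ZMod 2)
      have : p + q + (r + t) + (p + r + (q + t)) = (p + q + r + t) + (p + q + r + t) := by abel
      rw [this]
      exact add_self_zmod2 _
    · rw [if_neg h, if_neg (fun h' => h ⟨h'.1.symm, h'.2.2, h'.2.1⟩), add_zero]
  · rintro ⟨i, j⟩ _ hne
    intro heq
    have hij : i = j := (congrArg Prod.snd heq)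
    apply hne
    simp only
    rw [if_neg (fun h => h.1 hij)]
  · intro p _
    simp
  · intro p _
    simp

theorem bd_bd {m : ℕ} (f : Ch m) : bd (bd f) = 0 := by
  have h : (bd ∘ₗ bd : Ch m →ₗ[ZMod 2] Ch m) = 0 := by
    refine Finsupp.lhom_ext' fun y => ?_
    refine LinearMap.ext_ring ?_
    simpa using bd_bd_single y
  exact DFunLike.congr_fun h f

private lemma eps_single {m : ℕ} (y : Fin m → ℤ) :
    eps (Finsupp.single y (1 : ZMod 2)) = if ∀ i, Even (y i) then (1 : ZMod 2) else 0 := by
  unfold eps
  rw [Finsupp.linearCombination_single, one_smul]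

theorem eps_bd {m : ℕ} (f : Ch m) : eps (bd f) = 0 := by
  have h : (eps ∘ₗ bd : Ch m →ₗ[ZMod 2] ZMod 2) = 0 := by
    refine Finsupp.lhom_ext' fun y => ?_
    refine LinearMap.ext_ring ?_
    simp only [LinearMap.comp_apply, Finsupp.lsingle_apply, LinearMap.zero_apply]
    rw [bd_single, map_sum]
    refine Finset.sum_eq_zero fun i _ => ?_
    by_cases hi : Odd (y i)
    · rw [if_pos hi, map_add, eps_single, eps_single]
      have : (∀ k, Even ((y + Pi.single i (1:ℤ) : Fin m → ℤ) k)) ↔ (∀ k, Even ((y - Pi.single i (1:ℤ) : Fin m → ℤ) k)) := by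
        refine forall_congr' fun k => ?_
        have e : (y + Pi.single i (1:ℤ) : Fin m → ℤ) k = (y - Pi.single i (1:ℤ) : Fin m → ℤ) k + 2 * (Pi.single i (1:ℤ) : Fin m → ℤ) k := by
          simp only [Pi.add_apply, Pi.sub_apply]; ring
        rw [e, Int.even_add]
        have : Even (2 * (Pi.single i (1:ℤ) : Fin m → ℤ) k) := even_two_mul _
        tauto
      simp only [this]
      exact add_self_zmod2 _
    · rw [if_neg hi, map_zero]
  exact DFunLike.congr_fun h f

theorem bd_cm {m : ℕ} (s : (Fin m → ℤ) → ZMod 2) (f : Ch m) : bd (cm s f) = cm s (bd f) := by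
  unfold cm
  simp only [LinearMap.add_apply, LinearMap.comp_apply, map_add, bd_bd, zero_add, add_zero, map_zero]

theorem bd_run {m : ℕ} (l : List ((Fin m → ℤ) → ZMod 2)) (f : Ch m) :
    bd (run l f) = run l (bd f) := by
  induction l with
  | nil => rfl
  | cons s l ih =>
    show bd (cm s (run l f)) = cm s (run l (bd f))
    rw [bd_cm, ih]

private lemma mulS_add {m : ℕ} (s t : (Fin m → ℤ) → ZMod 2) :
    mulS (fun x => s x + t x) = mulS s + mulS t := by
  refine Finsupp.lhom_ext' fun y => ?_
  refine LinearMap.ext_ring ?_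
  simp only [LinearMap.comp_apply, Finsupp.lsingle_apply, LinearMap.add_apply]
  unfold mulS
  simp only [Finsupp.linearCombination_single, one_smul, Finsupp.single_add]

theorem cm_add {m : ℕ} (s t : (Fin m → ℤ) → ZMod 2) (f : Ch m) :
    cm (fun x => s x + t x) f = cm s f + cm t f := by
  unfold cm
  rw [mulS_add]
  simp only [LinearMap.add_apply, LinearMap.comp_apply, map_add]
  abel

end BK
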