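import Crest.Agent.BK_T1
import Crest.Agent.BK_T2

set_option autoImplicit false

namespace BK
open Finset

/-! ### Task BK-T3: dependence on the boundary only (homotopy invariance) -/

private theorem T3_run_append {m : ℕ} (l₁ l₂ : List ((Fin m → ℤ) → ZMod 2)) (f : Ch m) :
    run (l₁ ++ l₂) f = run l₁ (run l₂ f) := by
  induction l₁ with
  | nil => rfl
  | cons s l ih =>
    show cm s (run (l ++ l₂) f) = cm s (run l (run l₂ f))
    rw [ih]

private theorem T3_run_cons {m : ℕ} (s : (Fin m → ℤ) → ZMod 2)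
    (l : List ((Fin m → ℤ) → ZMod 2)) (f : Ch m) : run (s :: l) f = cm s (run l f) := rfl

private theorem T3_step {m : ℕ} (χ : Ch m) (P Q : List ((Fin m → ℤ) → ZMod 2))
    (a b : (Fin m → ℤ) → ZMod 2)
    (h : ∀ y ∈ (bd χ).support, (∃ s ∈ P, ConstOn s y) ∨ (∃ s ∈ Q, ConstOn s y) ∨
      (∀ x, IsFace x y → a x + b x = 0)) :
    eps (run (P ++ a :: Q) χ) = eps (run (P ++ b :: Q) χ) := by
  have key : eps (run P (cm (fun x => a x + b x) (run Q χ))) = 0 := by
    have e1 : cm (fun x => a x + b x) (run Q χ) =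
        bd (mulS (fun x => a x + b x) (run Q χ)) + mulS (fun x => a x + b x) (bd (run Q χ)) := rfl
    rw [e1, map_add, map_add, ← bd_run, eps_bd, zero_add, bd_run]
    have e2 : run P (mulS (fun x => a x + b x) (run Q (bd χ))) = 0 := by
      have e3 : bd χ = ∑ y ∈ (bd χ).support, Finsupp.single y (bd χ y) :=
        (Finsupp.sum_single (bd χ)).symm
      rw [e3, map_sum, map_sum, map_sum]
      refine Finset.sum_eq_zero fun y hy => ?_
      exact run_mul_run_single_eq_zero P Q _ y _ (h y hy)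
    rw [e2, map_zero]
  rw [cm_add, map_add, map_add] at key
  rw [T3_run_append, T3_run_append, T3_run_cons, T3_run_cons]
  have h2 : ∀ u v : ZMod 2, u + v = 0 → u = v := by decide
  exact h2 _ _ key

private theorem T3_list {m : ℕ} (χ : Ch m)
    (L : List (((Fin m → ℤ) → ZMod 2) × ((Fin m → ℤ) → ZMod 2)))
    (P : List ((Fin m → ℤ) → ZMod 2))
    (h : ∀ y ∈ (bd χ).support, (∃ s ∈ P, ConstOn s y) ∨
      (∃ p ∈ L, ConstOn p.1 y ∧ ConstOn p.2 y ∧ p.1 y = p.2 y)) :
    eps (run (P ++ L.map Prod.fst) χ) = eps (run (P ++ L.map Prod.snd) χ) := by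
  induction L generalizing P with
  | nil => rfl
  | cons p L ih =>
    rw [List.map_cons, List.map_cons]
    rw [T3_step χ P (L.map Prod.fst) p.1 p.2]
    · have h3 := ih (P ++ [p.2]) (by
        intro y hy
        rcases h y hy with ⟨s, hs, hc⟩ | ⟨q, hq, hc⟩
        · exact Or.inl ⟨s, List.mem_append_left _ hs, hc⟩
        · rcases List.mem_cons.1 hq with rfl | hq
          · exact Or.inl ⟨q.2, List.mem_append_right _ (List.mem_singleton.2 rfl), hc.2.1⟩
          · exact Or.inr ⟨q, hq, hc⟩)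
      rw [List.append_assoc, List.append_assoc, List.singleton_append, List.singleton_append] at h3
      exact h3
    · intro y hy
      rcases h y hy with ⟨s, hs, hc⟩ | ⟨q, hq, hc⟩
      · exact Or.inl ⟨s, hs, hc⟩
      · rcases List.mem_cons.1 hq with rfl | hq
        · refine Or.inr (Or.inr fun x hx => ?_)
          rw [hc.1 x hx, hc.2.1 x hx, hc.2.2]
          have h2 : ∀ u : ZMod 2, u + u = 0 := by decide
          exact h2 _
        · exact Or.inr (Or.inl ⟨q.1, List.mem_map_of_mem hq, hc.1⟩)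

theorem DD_congr_bd {m : ℕ} (s s' : Fin m → (Fin m → ℤ) → ZMod 2) (χ : Ch m)
    (h : ∀ y ∈ (bd χ).support, ∃ i, ConstOn (s i) y ∧ ConstOn (s' i) y ∧ s i y = s' i y) :
    DD s χ = DD s' χ := by
  have h1 := T3_list χ (List.ofFn fun i => (s i, s' i)) [] (by
    intro y hy
    obtain ⟨i, hi⟩ := h y hy
    exact Or.inr ⟨(s i, s' i), (List.mem_ofFn' _ _).2 ⟨i, rfl⟩, hi⟩)
  rw [List.nil_append, List.nil_append, List.map_ofFn, List.map_ofFn] at h1
  exact h1


end BK
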