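import Crest.Agent.BK_T1

set_option autoImplicit false

namespace BK
open Finset

private theorem T4a_boxC_apply {m : ℕ} (c : Fin m → ℤ) (N : ℕ) (z : Fin m → ℤ) :
    boxC c N z = if z ∈ boxF c N then 1 else 0 := by
  classical
  unfold boxC
  rw [Finsupp.finset_sum_apply]
  simp only [Finsupp.single_apply]
  rw [Finset.sum_ite_eq' (boxF c N) z (fun _ => (1 : ZMod 2))]

private theorem T4a_mem {m : ℕ} (c : Fin m → ℤ) (N : ℕ) (z : Fin m → ℤ) :
    z ∈ boxF c N ↔ ∀ i, (c i - 2 * (N : ℤ) < z i ∧ z i < c i + 2 * N) ∧ Odd (z i) := by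
  unfold boxF
  rw [Fintype.mem_piFinset]
  simp only [Finset.mem_filter, Finset.mem_Ioo]

private theorem T4a_key {m : ℕ} (c : Fin m → ℤ) (hc : ∀ i, Even (c i)) (N : ℕ)
    (y : Fin m → ℤ) (i : Fin m) (hi : Even (y i)) (t : ℤ) (ht : t = 1 ∨ t = -1)
    (h1 : y + Pi.single i t ∈ boxF c N) (h2 : y - Pi.single i t ∉ boxF c N) :
    (∃ i, |y i - c i| = 2 * (N : ℤ)) ∧ ∀ i, |y i - c i| ≤ 2 * (N : ℤ) := by
  classical
  rw [T4a_mem] at h1 h2
  push Not at h2
  obtain ⟨k, hk⟩ := h2
  have hki : k = i := by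
    by_contra hne
    have := h1 k
    simp only [Pi.add_apply, Pi.sub_apply, Pi.single_apply, if_neg hne, add_zero, sub_zero]
      at this hk
    exact hk this.1 this.2
  subst hki
  have h1k := h1 k
  simp only [Pi.add_apply, Pi.sub_apply, Pi.single_eq_same] at h1k hk
  have hodd : Odd (y k - t) := by
    rcases ht with rfl | rfl
    · exact hi.sub_odd odd_one
    · exact hi.sub_odd (by decide)
  have hnot : ¬ (c k - 2 * (N : ℤ) < y k - t ∧ y k - t < c k + 2 * N) := fun h => hk h hodd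
  obtain ⟨a, ha⟩ := hc k
  obtain ⟨b, hb⟩ := hi
  have habs : |y k - c k| = 2 * (N : ℤ) := by
    rcases ht with rfl | rfl
    · have : y k - c k = - (2 * (N : ℤ)) := by omega
      rw [this, abs_neg, abs_of_nonneg (by positivity)]
    · have : y k - c k = (2 * (N : ℤ)) := by omega
      rw [this, abs_of_nonneg (by positivity)]
  refine ⟨⟨k, habs⟩, fun j => ?_⟩
  by_cases hj : j = k
  · subst hj; exact habs.le
  · have := h1 j
    simp only [Pi.add_apply, Pi.single_apply, if_neg hj, add_zero] at this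
    rw [abs_le]
    constructor <;> omega

/-- Task BK-T4 -/
theorem bd_boxC_support {m : ℕ} (c : Fin m → ℤ) (hc : ∀ i, Even (c i)) (N : ℕ) (hN : 0 < N)
    (y : Fin m → ℤ) (hy : y ∈ (bd (boxC c N)).support) :
    (∃ i, |y i - c i| = 2 * (N : ℤ)) ∧ ∀ i, |y i - c i| ≤ 2 * (N : ℤ) := by
  classical
  rw [Finsupp.mem_support_iff, bd_apply] at hy
  obtain ⟨i, -, hi⟩ := Finset.exists_ne_zero_of_sum_ne_zero hy
  have hev : Even (y i) := by
    by_contra h
    rw [if_neg h] at hi
    exact hi rfl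
  rw [if_pos hev, T4a_boxC_apply, T4a_boxC_apply] at hi
  by_cases h1 : y + Pi.single i 1 ∈ boxF c N
  · by_cases h2 : y - Pi.single i 1 ∈ boxF c N
    · rw [if_pos h1, if_pos h2] at hi
      exact absurd (by decide) hi
    · exact T4a_key c hc N y i hev 1 (Or.inl rfl) h1 h2
  · by_cases h2 : y - Pi.single i 1 ∈ boxF c N
    · refine T4a_key c hc N y i hev (-1) (Or.inr rfl) ?_ ?_
      · rwa [Pi.single_neg, ← sub_eq_add_neg]
      · rwa [Pi.single_neg, sub_neg_eq_add]
    · rw [if_neg h1, if_neg h2] at hi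
      exact absurd (by decide) hi

end BK
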