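import Crest.Agent.BK_T1
import Crest.Agent.BK_T2
import Crest.Agent.BK_T3
import Crest.Agent.BK_T4

set_option autoImplicit false

namespace BK
open Finset

private theorem T6_DD_sum {m : ℕ} (s : Fin m → (Fin m → ℤ) → ZMod 2) (A : Finset (Fin m → ℤ)) :
    DD s (∑ y ∈ A, Finsupp.single y 1) = ∑ y ∈ A, DD s (Finsupp.single y 1) := by
  unfold DD
  rw [map_sum, map_sum]

private theorem T6_DD_single {m : ℕ} (s : Fin m → (Fin m → ℤ) → ZMod 2) (y : Fin m → ℤ)
    (h : ∃ i, ConstOn (s i) y) : DD s (Finsupp.single y 1) = 0 := by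
  apply DD_eq_zero
  intro z hz
  have hz' : z = y := by
    have := Finsupp.support_single_subset hz
    simpa using this
  rw [hz']; exact h

/-- Task BK-T6: the discrete counting theorem. -/
theorem disc_count {m : ℕ} {ι : Type*} [DecidableEq ι] (s : Fin m → (Fin m → ℤ) → ZMod 2)
    (N : ℕ) (J : Finset ι) (c : ι → Fin m → ℤ) (N' : ℕ)
    (hsub : ∀ j ∈ J, boxF (c j) N' ⊆ boxF 0 N)
    (hdisj : ∀ j ∈ J, ∀ k ∈ J, j ≠ k → Disjoint (boxF (c j) N') (boxF (c k) N'))
    (h1 : ∀ y ∈ boxF (0 : Fin m → ℤ) N, (∀ j ∈ J, y ∉ boxF (c j) N') → ∃ i, ConstOn (s i) y)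
    (h2 : DD s (boxC 0 N) = 1)
    (h3 : ∀ j ∈ J, DD s (boxC (c j) N') = 1) : Odd J.card := by
  classical
  have hU : J.biUnion (fun j => boxF (c j) N') ⊆ boxF 0 N := by
    intro y hy
    rw [Finset.mem_biUnion] at hy
    obtain ⟨j, hj, hy⟩ := hy
    exact hsub j hj hy
  have e1 : DD s (boxC 0 N) = ∑ y ∈ boxF 0 N, DD s (Finsupp.single y 1) := by
    rw [boxC, T6_DD_sum]
  rw [← Finset.sum_sdiff hU, Finset.sum_biUnion] at e1
  · have e2 : ∑ y ∈ boxF 0 N \ J.biUnion (fun j => boxF (c j) N'),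
        DD s (Finsupp.single y 1) = 0 := by
      apply Finset.sum_eq_zero
      intro y hy
      rw [Finset.mem_sdiff, Finset.mem_biUnion] at hy
      apply T6_DD_single
      apply h1 y hy.1
      intro j hj hyj
      exact hy.2 ⟨j, hj, hyj⟩
    have e3 : ∑ j ∈ J, ∑ y ∈ boxF (c j) N', DD s (Finsupp.single y 1) = (J.card : ZMod 2) := by
      rw [Finset.sum_congr rfl (g := fun _ => (1 : ZMod 2))]
      · simp
      · intro j hj
        rw [← T6_DD_sum]
        exact h3 j hj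
    rw [e2, e3, h2, zero_add] at e1
    rw [← ZMod.natCast_eq_one_iff_odd]
    exact e1.symm
  · intro j hj k hk hjk
    exact hdisj j hj k hk hjk

end BK
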