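import Crest.Agent.BK_C0

set_option autoImplicit false

namespace BK
open Finset Matrix

/-- the Veronese map `ℝ⁴ → ℝ⁹` -/
noncomputable def ver (x : Fin 4 → ℝ) : EuclideanSpace ℝ (Fin 9) :=
  WithLp.toLp 2 ![Real.sqrt 2 * (x 0 * x 1), Real.sqrt 2 * (x 0 * x 2), Real.sqrt 2 * (x 0 * x 3),
    Real.sqrt 2 * (x 1 * x 2), Real.sqrt 2 * (x 1 * x 3), Real.sqrt 2 * (x 2 * x 3),
    (x 0 ^ 2 + x 1 ^ 2 - x 2 ^ 2 - x 3 ^ 2) / 2, (x 0 ^ 2 - x 1 ^ 2 + x 2 ^ 2 - x 3 ^ 2) / 2,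
    (x 0 ^ 2 - x 1 ^ 2 - x 2 ^ 2 + x 3 ^ 2) / 2]

private theorem v1a_dist_sq (x y : Fin 4 → ℝ) :
    dist (ver x) (ver y) ^ 2 = 3 / 4 * (x ⬝ᵥ x) ^ 2 + 3 / 4 * (y ⬝ᵥ y) ^ 2 - 2 * (x ⬝ᵥ y) ^ 2 +
      1 / 2 * ((x ⬝ᵥ x) * (y ⬝ᵥ y)) := by
  have h2 : Real.sqrt 2 ^ 2 = 2 := Real.sq_sqrt (by norm_num)
  rw [EuclideanSpace.dist_eq, Real.sq_sqrt (Finset.sum_nonneg fun i _ => sq_nonneg _)]
  have e : ∀ a b : ℝ, dist a b ^ 2 = (a - b) ^ 2 := by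
    intro a b
    rw [Real.dist_eq, sq_abs]
  simp only [e, ver, dotProduct, Fin.sum_univ_succ, Fin.sum_univ_zero]
  simp
  ring_nf
  simp only [h2]
  ring

/-- Task BK-V1: for unit vectors `|ver x - ver y|² = 2 - 2 (x·y)²`. -/
theorem ver_dist (x y : Fin 4 → ℝ) (hx : x ⬝ᵥ x = 1) (hy : y ⬝ᵥ y = 1) :
    dist (ver x) (ver y) ^ 2 = 2 - 2 * (x ⬝ᵥ y) ^ 2 := by
  rw [v1a_dist_sq, hx, hy]
  ring

theorem ver_smul (x : Fin 4 → ℝ) (t : ℝ) (ht : t ^ 2 = 1) : ver (t • x) = ver x := by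
  unfold ver
  congr 1
  have e : ∀ a b : ℝ, (t * a) * (t * b) = a * b := by
    intro a b
    calc (t * a) * (t * b) = t ^ 2 * (a * b) := by ring
      _ = a * b := by rw [ht, one_mul]
  have e2 : ∀ a : ℝ, (t * a) ^ 2 = a ^ 2 := by
    intro a
    rw [mul_pow, ht, one_mul]
  simp only [Pi.smul_apply, smul_eq_mul, e, e2]

private theorem v1a_le (x y : Fin 4 → ℝ) (hx : x ⬝ᵥ x = 1) (hy : y ⬝ᵥ y = 1) :
    dist (ver x) (ver y) ≤ Real.sqrt 2 := by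
  apply Real.le_sqrt_of_sq_le
  rw [ver_dist x y hx hy]
  nlinarith [sq_nonneg (x ⬝ᵥ y)]

/-- Task BK-V1: the set `S = {ver x | x·x = 1}` is bounded, has diameter `√2`. -/
theorem ver_set : Bornology.IsBounded {v : EuclideanSpace ℝ (Fin 9) | ∃ x, x ⬝ᵥ x = 1 ∧ v = ver x} ∧
    ({v : EuclideanSpace ℝ (Fin 9) | ∃ x, x ⬝ᵥ x = 1 ∧ v = ver x}).Nontrivial ∧
    Metric.diam {v : EuclideanSpace ℝ (Fin 9) | ∃ x, x ⬝ᵥ x = 1 ∧ v = ver x} = Real.sqrt 2 := by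
  have hb : Bornology.IsBounded
      {v : EuclideanSpace ℝ (Fin 9) | ∃ x, x ⬝ᵥ x = 1 ∧ v = ver x} := by
    rw [Metric.isBounded_iff]
    refine ⟨Real.sqrt 2, ?_⟩
    rintro _ ⟨x, hx, rfl⟩ _ ⟨y, hy, rfl⟩
    exact v1a_le x y hx hy
  have h0 : (Pi.single 0 1 : Fin 4 → ℝ) ⬝ᵥ Pi.single 0 1 = 1 := by simp
  have h1 : (Pi.single 1 1 : Fin 4 → ℝ) ⬝ᵥ Pi.single 1 1 = 1 := by simp
  have h01 : (Pi.single 0 1 : Fin 4 → ℝ) ⬝ᵥ Pi.single 1 1 = 0 := by simp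
  have hd : dist (ver (Pi.single 0 1)) (ver (Pi.single 1 1)) = Real.sqrt 2 := by
    have := ver_dist _ _ h0 h1
    rw [h01] at this
    rw [eq_comm, Real.sqrt_eq_iff_mul_self_eq_of_pos] <;> try positivity
    · rw [← sq, this]; norm_num
    · rcases (dist_nonneg (x := ver (Pi.single 0 1)) (y := ver (Pi.single 1 1))).lt_or_eq with h | h
      · exact h
      · rw [← h] at this
        norm_num at this
  refine ⟨hb, ⟨_, ⟨_, h0, rfl⟩, _, ⟨_, h1, rfl⟩, ?_⟩, ?_⟩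
  · intro h
    rw [h, dist_self] at hd
    have : (0 : ℝ) < Real.sqrt 2 := by positivity
    linarith
  · apply le_antisymm
    · apply Metric.diam_le_of_forall_dist_le (by positivity)
      rintro _ ⟨x, hx, rfl⟩ _ ⟨y, hy, rfl⟩
      exact v1a_le x y hx hy
    · rw [← hd]
      exact Metric.dist_le_diam_of_mem hb ⟨_, h0, rfl⟩ ⟨_, h1, rfl⟩

end BK
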