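import Crest.Agent.BK_C0
import Crest.Agent.BK_V1a

set_option autoImplicit false

namespace BK
open Finset Matrix

private noncomputable def v1bN (x : Fin 4 → ℝ) : Fin 4 → ℝ := (Real.sqrt (x ⬝ᵥ x))⁻¹ • x

private theorem v1b_pos (x : Fin 4 → ℝ) (hx : x ≠ 0) : 0 < x ⬝ᵥ x := by
  have h : 0 ≤ x ⬝ᵥ x := by
    simp only [dotProduct]
    exact Finset.sum_nonneg fun i _ => mul_self_nonneg _
  rcases h.lt_or_eq with h | h
  · exact h
  · exact absurd (dotProduct_self_eq_zero.1 h.symm) hx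

private theorem v1b_unit (x : Fin 4 → ℝ) (hx : x ≠ 0) : v1bN x ⬝ᵥ v1bN x = 1 := by
  have h := v1b_pos x hx
  have h2 : Real.sqrt (x ⬝ᵥ x) ^ 2 = x ⬝ᵥ x := Real.sq_sqrt h.le
  have h3 : 0 < Real.sqrt (x ⬝ᵥ x) := Real.sqrt_pos.2 h
  unfold v1bN
  rw [smul_dotProduct, dotProduct_smul, smul_eq_mul, smul_eq_mul]
  have : (Real.sqrt (x ⬝ᵥ x))⁻¹ * ((Real.sqrt (x ⬝ᵥ x))⁻¹ * (x ⬝ᵥ x)) =
      (x ⬝ᵥ x) / Real.sqrt (x ⬝ᵥ x) ^ 2 := by
    field_simp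
  rw [this, h2, div_self h.ne']

private theorem v1b_smul (x : Fin 4 → ℝ) (t : ℝ) (ht : t ≠ 0) :
    v1bN (t • x) = (t / |t|) • v1bN x := by
  unfold v1bN
  have h1 : (t • x) ⬝ᵥ (t • x) = t ^ 2 * (x ⬝ᵥ x) := by
    rw [smul_dotProduct, dotProduct_smul, smul_eq_mul, smul_eq_mul]
    ring
  rw [h1, Real.sqrt_mul (sq_nonneg t), Real.sqrt_sq_eq_abs, smul_smul, smul_smul]
  congr 1
  rw [mul_inv]
  have : |t| ≠ 0 := abs_ne_zero.2 ht
  field_simp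

private theorem v1b_dot (x y : Fin 4 → ℝ) (hx : x ≠ 0) (hy : y ≠ 0) :
    (x ⬝ᵥ y) ^ 2 = (v1bN x ⬝ᵥ v1bN y) ^ 2 * ((x ⬝ᵥ x) * (y ⬝ᵥ y)) := by
  have h1 := v1b_pos x hx
  have h2 := v1b_pos y hy
  have h3 : Real.sqrt (x ⬝ᵥ x) ^ 2 = x ⬝ᵥ x := Real.sq_sqrt h1.le
  have h4 : Real.sqrt (y ⬝ᵥ y) ^ 2 = y ⬝ᵥ y := Real.sq_sqrt h2.le
  unfold v1bN
  rw [smul_dotProduct, dotProduct_smul, smul_eq_mul, smul_eq_mul, mul_pow, mul_pow, inv_pow, inv_pow,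
    h3, h4]
  field_simp

/-- Task BK-V1: a partition of `S` in ten parts of smaller diameter gives a colouring
`κ x = c (ver (x/|x|))` with the angle property, `ε = 1 - max_i diam_i² / 2`. -/
theorem kol_of_borsuk (c : EuclideanSpace ℝ (Fin 9) → Fin 10)
    (h : ∀ i : Fin 10, Metric.diam ({v : EuclideanSpace ℝ (Fin 9) | ∃ x, x ⬝ᵥ x = 1 ∧ v = ver x} ∩
      c ⁻¹' {i}) < Real.sqrt 2) :
    ∃ (κ : (Fin 4 → ℝ) → Fin 10) (ε : ℝ), Kol κ ε := by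
  classical
  set D : Fin 10 → ℝ := fun i => Metric.diam
    ({v : EuclideanSpace ℝ (Fin 9) | ∃ x, x ⬝ᵥ x = 1 ∧ v = ver x} ∩ c ⁻¹' {i}) with hD
  obtain ⟨i0, -, hi0⟩ := Finset.exists_max_image (Finset.univ : Finset (Fin 10)) D
    ⟨0, Finset.mem_univ _⟩
  have hb := ver_set.1
  have hD0 : 0 ≤ D i0 := Metric.diam_nonneg
  have hD2 : D i0 ^ 2 < 2 := by
    have h1 : D i0 < Real.sqrt 2 := h i0
    have h2 : Real.sqrt 2 ^ 2 = 2 := Real.sq_sqrt (by norm_num)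
    nlinarith [Real.sqrt_nonneg 2]
  refine ⟨fun x => c (ver (v1bN x)), 1 - D i0 ^ 2 / 2, ?_, ?_, ?_⟩
  · linarith
  · intro x hx t ht
    have : ver (v1bN (t • x)) = ver (v1bN x) := by
      rw [v1b_smul x t ht]
      apply ver_smul
      rw [div_pow, sq_abs]
      exact div_self (pow_ne_zero 2 ht)
    simp only [this]
  · intro x y hx hy hxy
    have h1 : dist (ver (v1bN x)) (ver (v1bN y)) ≤ D (c (ver (v1bN x))) := by
      apply Metric.dist_le_diam_of_mem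
      · exact hb.subset Set.inter_subset_left
      · exact ⟨⟨_, v1b_unit x hx, rfl⟩, rfl⟩
      · exact ⟨⟨_, v1b_unit y hy, rfl⟩, hxy.symm⟩
    have h2 : dist (ver (v1bN x)) (ver (v1bN y)) ≤ D i0 := h1.trans (hi0 _ (Finset.mem_univ _))
    have h3 := ver_dist _ _ (v1b_unit x hx) (v1b_unit y hy)
    have h4 : dist (ver (v1bN x)) (ver (v1bN y)) ^ 2 ≤ D i0 ^ 2 :=
      pow_le_pow_left₀ dist_nonneg h2 2
    rw [v1b_dot x y hx hy]
    apply mul_le_mul_of_nonneg_right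
    · linarith
    · exact mul_nonneg (v1b_pos x hx).le (v1b_pos y hy).le

end BK
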