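import Crest.Agent.BK_C0

/-!
# The functions `W` (S0069 blueprint, definitions)
-/

set_option autoImplicit false

namespace BK
open Finset Matrix Filter Topology

/-- Frobenius norm -/
noncomputable def fn {n : ℕ} (M : Matrix (Fin n) (Fin n) ℝ) : ℝ := Real.sqrt (∑ i, ∑ j, M i j ^ 2)

/-- the `j`-th column of `P^L`, `P = |M| + M` -/
noncomputable def col {n : ℕ} (M : Matrix (Fin n) (Fin n) ℝ) (L : ℕ) (j : Fin n) : Fin n → ℝ :=
  ((fn M • (1 : Matrix (Fin n) (Fin n) ℝ) + M) ^ L) *ᵥ (Pi.single j 1)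

/-- weighted average of `phi` over the directions `P^L e_j` -/
noncomputable def W {n : ℕ} {C : Type} [Fintype C] (S : CS n C) (M : Matrix (Fin n) (Fin n) ℝ)
    (L : ℕ) (i : C) : ℝ :=
  (∑ j, S.phi (col M L j) i * (col M L j ⬝ᵥ col M L j)) / ∑ j, (col M L j ⬝ᵥ col M L j)

/-- unit vector maximising the Rayleigh quotient of `M` -/
def RM {n : ℕ} (M : Matrix (Fin n) (Fin n) ℝ) (x : Fin n → ℝ) : Prop :=
  x ⬝ᵥ x = 1 ∧ ∀ z : Fin n → ℝ, z ⬝ᵥ z = 1 → z ⬝ᵥ (M *ᵥ z) ≤ x ⬝ᵥ (M *ᵥ x)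

/-- traceless symmetric -/
def TS {n : ℕ} (M : Matrix (Fin n) (Fin n) ℝ) : Prop := M.IsSymm ∧ M.trace = 0

/-- `w` is a limit value of `W` at `M` -/
def LimW {n : ℕ} {C : Type} [Fintype C] (S : CS n C) (M : Matrix (Fin n) (Fin n) ℝ)
    (w : C → ℝ) : Prop :=
  ∃ (Mk : ℕ → Matrix (Fin n) (Fin n) ℝ) (Lk : ℕ → ℕ), (∀ k, TS (Mk k)) ∧
    Tendsto Mk atTop (𝓝 M) ∧ Tendsto Lk atTop atTop ∧
    ∀ i, Tendsto (fun k => W S (Mk k) (Lk k) i) atTop (𝓝 (w i))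

/-- admissible weights at `M`: probability vector supported on colours met by the top eigenspace of
`M`, equal to `phi x` if the top eigenspace is the line of `x` (no condition if `M = 0`) -/
def Adm {n : ℕ} {C : Type} [Fintype C] (S : CS n C) (M : Matrix (Fin n) (Fin n) ℝ)
    (u : C → ℝ) : Prop :=
  M ≠ 0 → ((∀ i, 0 ≤ u i) ∧ ∑ i, u i = 1 ∧ (∀ i, u i ≠ 0 → ∃ x, RM M x ∧ x ∈ S.A i) ∧
    ∀ x, RM M x → (∀ z, RM M z → z = x ∨ z = -x) → ∀ i, u i = S.phi x i)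

/-- symmetric matrix from its entries -/
def toM {n : ℕ} (y : Sym2 (Fin n) → ℝ) : Matrix (Fin n) (Fin n) ℝ := fun i j => y s(i, j)

/-- trace of `toM y` -/
noncomputable def tr {n : ℕ} (y : Sym2 (Fin n) → ℝ) : ℝ := ∑ i, y s(i, i)

/-- traceless part -/
noncomputable def M0 {n : ℕ} (y : Sym2 (Fin n) → ℝ) : Matrix (Fin n) (Fin n) ℝ :=
  toM y - (tr y / n) • (1 : Matrix (Fin n) (Fin n) ℝ)

/-- the map to which Theorem K is applied -/
noncomputable def fL {n : ℕ} {C : Type} [Fintype C] (S : CS n C) (ζ : C → ℝ) (L : ℕ)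
    (y : Sym2 (Fin n) → ℝ) (i : C) : ℝ :=
  fn (M0 y) * (W S (M0 y) L i - W S (-(M0 y)) L i) - ζ i + tr y

/-- the limit (`L → ∞`) of the equation `f (p + y) = θ f (p - y)` -/
def ZEq {n : ℕ} {C : Type} [Fintype C] (S : CS n C) (ζ : C → ℝ)
    (p y : Sym2 (Fin n) → ℝ) (θ : ℝ) : Prop :=
  ∃ w1 w2 w3 w4 : C → ℝ, Adm S (M0 (p + y)) w1 ∧ Adm S (-(M0 (p + y))) w2 ∧
    Adm S (M0 (p - y)) w3 ∧ Adm S (-(M0 (p - y))) w4 ∧
    ∀ i, fn (M0 (p + y)) * (w1 i - w2 i) - ζ i + tr (p + y) =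
      θ * (fn (M0 (p - y)) * (w3 i - w4 i) - ζ i + tr (p - y))

/-- normalising constant -/
noncomputable def cn (n : ℕ) : ℝ := 1 / Real.sqrt (1 - 1 / (n : ℝ))

/-- `c_n (x xᵀ - I/n)` -/
noncomputable def Vh {n : ℕ} (x : Fin n → ℝ) : Matrix (Fin n) (Fin n) ℝ :=
  cn n • (Matrix.of (fun i j => x i * x j) - (1 / (n : ℝ)) • (1 : Matrix (Fin n) (Fin n) ℝ))

/-- normalised vector -/
noncomputable def nrm {n : ℕ} (v : Fin n → ℝ) : Fin n → ℝ := (1 / Real.sqrt (v ⬝ᵥ v)) • v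

/-- the target vector `ξ_σ - ξ_{σᶜ}` -/
noncomputable def zt {C : Type} [Fintype C] [DecidableEq C] (n : ℕ) (σ : Finset C) (i : C) : ℝ :=
  if i ∈ σ then 1 / (n : ℝ) else -(1 / ((Fintype.card C : ℝ) - n))

/-- entries of a matrix (the upper triangle is used: `(i,j)` with `i ≤ j`) -/
noncomputable def toE {n : ℕ} (M : Matrix (Fin n) (Fin n) ℝ) : Sym2 (Fin n) → ℝ :=
  fun s => (∑ p : Fin n × Fin n, if s(p.1, p.2) = s then M p.1 p.2 else 0) /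
    (∑ p : Fin n × Fin n, if s(p.1, p.2) = s then 1 else 0)

end BK
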