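import Crest.Agent.BK_W0

set_option autoImplicit false

namespace BK
open Finset Matrix Filter Topology

/-! Task BK-W1: elementary facts on `fn`, `toM`, `toE`, `M0`, `tr`, `Vh`. -/

theorem fn_nonneg {n : ℕ} (M : Matrix (Fin n) (Fin n) ℝ) : 0 ≤ fn M := Real.sqrt_nonneg _

private theorem w1a_sum_nonneg {n : ℕ} (M : Matrix (Fin n) (Fin n) ℝ) :
    0 ≤ ∑ i, ∑ j, M i j ^ 2 :=
  Finset.sum_nonneg fun _ _ => Finset.sum_nonneg fun _ _ => sq_nonneg _

theorem fn_eq_zero {n : ℕ} (M : Matrix (Fin n) (Fin n) ℝ) : fn M = 0 ↔ M = 0 := by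
  unfold fn
  rw [Real.sqrt_eq_zero (w1a_sum_nonneg M)]
  constructor
  · intro h
    ext i j
    have h1 := (Finset.sum_eq_zero_iff_of_nonneg
      (fun i _ => Finset.sum_nonneg fun j _ => sq_nonneg (M i j))).1 h i (Finset.mem_univ _)
    have h2 := (Finset.sum_eq_zero_iff_of_nonneg
      (fun j _ => sq_nonneg (M i j))).1 h1 j (Finset.mem_univ _)
    simpa using h2
  · rintro rfl
    simp

theorem fn_neg {n : ℕ} (M : Matrix (Fin n) (Fin n) ℝ) : fn (-M) = fn M := by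
  simp [fn]

theorem fn_smul {n : ℕ} (t : ℝ) (M : Matrix (Fin n) (Fin n) ℝ) : fn (t • M) = |t| * fn M := by
  unfold fn
  have : ∑ i, ∑ j, (t • M) i j ^ 2 = t ^ 2 * ∑ i, ∑ j, M i j ^ 2 := by
    simp only [Matrix.smul_apply, smul_eq_mul, mul_pow, Finset.mul_sum]
  rw [this, Real.sqrt_mul (sq_nonneg t), Real.sqrt_sq_eq_abs]

theorem fn_cont {n : ℕ} : Continuous (fun M : Matrix (Fin n) (Fin n) ℝ => fn M) := by
  unfold fn
  refine Real.continuous_sqrt.comp ?_
  refine continuous_finset_sum _ fun i _ => continuous_finset_sum _ fun j _ => ?_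
  exact (continuous_id.matrix_elem i j).pow 2

/-- `|x·Mx| ≤ fn M · |x|²` -/
theorem quad_le_fn {n : ℕ} (M : Matrix (Fin n) (Fin n) ℝ) (x : Fin n → ℝ) :
    |x ⬝ᵥ (M *ᵥ x)| ≤ fn M * (x ⬝ᵥ x) := by
  have h1 : x ⬝ᵥ (M *ᵥ x) = ∑ p : Fin n × Fin n, M p.1 p.2 * (x p.1 * x p.2) := by
    rw [Fintype.sum_prod_type]
    simp only [dotProduct, Matrix.mulVec, Finset.mul_sum]
    refine Finset.sum_congr rfl fun i _ => Finset.sum_congr rfl fun j _ => by ring
  have h2 := Finset.sum_mul_sq_le_sq_mul_sq (Finset.univ : Finset (Fin n × Fin n))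
    (fun p => M p.1 p.2) (fun p => x p.1 * x p.2)
  have h3 : ∑ p : Fin n × Fin n, (x p.1 * x p.2) ^ 2 = (x ⬝ᵥ x) ^ 2 := by
    rw [Fintype.sum_prod_type]
    simp only [dotProduct, sq, Finset.sum_mul_sum]
    refine Finset.sum_congr rfl fun i _ => Finset.sum_congr rfl fun j _ => by ring
  have h4 : ∑ p : Fin n × Fin n, M p.1 p.2 ^ 2 = fn M ^ 2 := by
    unfold fn
    rw [Real.sq_sqrt (w1a_sum_nonneg M), Fintype.sum_prod_type]
  rw [← h1, h3, h4, ← mul_pow] at h2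
  have h5 : 0 ≤ fn M * (x ⬝ᵥ x) := by
    refine mul_nonneg (fn_nonneg M) ?_
    simp only [dotProduct]
    exact Finset.sum_nonneg fun i _ => mul_self_nonneg _
  exact abs_le_of_sq_le_sq h2 h5

theorem toM_symm {n : ℕ} (y : Sym2 (Fin n) → ℝ) : (toM y).IsSymm := by
  ext i j
  simp [toM, Matrix.transpose_apply, Sym2.eq_swap]

private theorem w1a_toE_eq {n : ℕ} (M : Matrix (Fin n) (Fin n) ℝ) (s : Sym2 (Fin n)) (v : ℝ)
    (h : ∀ i j, s(i, j) = s → M i j = v) : toE M s = v := by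
  unfold toE
  have h1 : (∑ p : Fin n × Fin n, if s(p.1, p.2) = s then M p.1 p.2 else 0) =
      v * ∑ p : Fin n × Fin n, if s(p.1, p.2) = s then (1 : ℝ) else 0 := by
    rw [Finset.mul_sum]
    refine Finset.sum_congr rfl fun p _ => ?_
    split_ifs with hp
    · rw [h _ _ hp, mul_one]
    · simp
  have h2 : 0 < ∑ p : Fin n × Fin n, if s(p.1, p.2) = s then (1 : ℝ) else 0 := by
    induction s using Sym2.ind with
    | _ i j =>
      have : (1 : ℝ) ≤ ∑ p : Fin n × Fin n, if s(p.1, p.2) = s(i, j) then (1 : ℝ) else 0 := by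
        refine le_trans ?_ (Finset.single_le_sum (f := fun p : Fin n × Fin n =>
          if s(p.1, p.2) = s(i, j) then (1 : ℝ) else 0) (fun p _ => by split_ifs <;> simp)
          (Finset.mem_univ (i, j)))
        simp
      linarith
  rw [h1]
  exact mul_div_cancel_right₀ v h2.ne'

theorem toM_toE {n : ℕ} (M : Matrix (Fin n) (Fin n) ℝ) (hM : M.IsSymm) : toM (toE M) = M := by
  ext i j
  unfold toM
  apply w1a_toE_eq
  intro a b hab
  rw [Sym2.eq_iff] at hab
  rcases hab with ⟨rfl, rfl⟩ | ⟨rfl, rfl⟩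
  · rfl
  · exact hM.apply _ _

theorem toE_toM {n : ℕ} (y : Sym2 (Fin n) → ℝ) : toE (toM y) = y := by
  funext s
  apply w1a_toE_eq
  intro i j hs
  simp [toM, hs]

private theorem w1a_trace {n : ℕ} (y : Sym2 (Fin n) → ℝ) : (toM y).trace = tr y := rfl

theorem M0_TS {n : ℕ} (hn : 0 < n) (y : Sym2 (Fin n) → ℝ) : TS (M0 y) := by
  refine ⟨?_, ?_⟩
  · unfold M0
    have h1 := toM_symm y
    unfold Matrix.IsSymm at h1 ⊢
    rw [Matrix.transpose_sub, h1, Matrix.transpose_smul, Matrix.transpose_one]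
  · unfold M0
    rw [Matrix.trace_sub, Matrix.trace_smul, w1a_trace, Matrix.trace_one]
    have : (n : ℝ) ≠ 0 := by exact_mod_cast hn.ne'
    simp only [Fintype.card_fin, smul_eq_mul]
    field_simp
    ring

theorem tr_add {n : ℕ} (y z : Sym2 (Fin n) → ℝ) : tr (y + z) = tr y + tr z := by
  simp [tr, Finset.sum_add_distrib]

theorem tr_neg {n : ℕ} (y : Sym2 (Fin n) → ℝ) : tr (-y) = -tr y := by
  simp [tr]

theorem M0_add {n : ℕ} (y z : Sym2 (Fin n) → ℝ) : M0 (y + z) = M0 y + M0 z := by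
  ext i j
  simp only [M0, tr_add, Matrix.sub_apply, Matrix.add_apply, Matrix.smul_apply, toM, Pi.add_apply,
    smul_eq_mul]
  ring

theorem M0_neg {n : ℕ} (y : Sym2 (Fin n) → ℝ) : M0 (-y) = -M0 y := by
  ext i j
  simp only [M0, tr_neg, Matrix.sub_apply, Matrix.neg_apply, Matrix.smul_apply, toM, Pi.neg_apply,
    smul_eq_mul]
  ring

theorem M0_sub {n : ℕ} (y z : Sym2 (Fin n) → ℝ) : M0 (y - z) = M0 y - M0 z := by
  rw [sub_eq_add_neg, M0_add, M0_neg, ← sub_eq_add_neg]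

theorem M0_zero {n : ℕ} : M0 (0 : Sym2 (Fin n) → ℝ) = 0 := by
  ext i j
  simp [M0, tr, toM]

theorem tr_cont {n : ℕ} : Continuous (fun y : Sym2 (Fin n) → ℝ => tr y) := by
  unfold tr
  exact continuous_finset_sum _ fun i _ => continuous_apply _

theorem M0_cont {n : ℕ} : Continuous (fun y : Sym2 (Fin n) → ℝ => M0 y) := by
  refine continuous_matrix fun i j => ?_
  simp only [M0, Matrix.sub_apply, Matrix.smul_apply, toM, smul_eq_mul]
  refine (continuous_apply _).sub ((tr_cont.div_const _).mul continuous_const)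

private theorem w1a_tr_le {n : ℕ} (y : Sym2 (Fin n) → ℝ) : |tr y| ≤ n * ‖y‖ := by
  unfold tr
  refine (Finset.abs_sum_le_sum_abs _ _).trans ?_
  refine (Finset.sum_le_sum fun i _ => norm_le_pi_norm y s(i, i)).trans ?_
  simp

theorem entry_M0_le {n : ℕ} (y : Sym2 (Fin n) → ℝ) (i j : Fin n) : |M0 y i j| ≤ 2 * ‖y‖ := by
  have hn : (0 : ℝ) < n := by
    have : 0 < n := i.pos
    exact_mod_cast this
  have h1 : |y s(i, j)| ≤ ‖y‖ := norm_le_pi_norm y s(i, j)
  have h2 : |tr y / n| ≤ ‖y‖ := by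
    rw [abs_div, abs_of_pos hn, div_le_iff₀ hn]
    have := w1a_tr_le y
    linarith
  have h3 : |(1 : Matrix (Fin n) (Fin n) ℝ) i j| ≤ 1 := by
    rw [Matrix.one_apply]
    split_ifs <;> simp
  have h4 : |tr y / n * (1 : Matrix (Fin n) (Fin n) ℝ) i j| ≤ ‖y‖ := by
    rw [abs_mul]
    calc |tr y / n| * |(1 : Matrix (Fin n) (Fin n) ℝ) i j| ≤ ‖y‖ * 1 :=
          mul_le_mul h2 h3 (abs_nonneg _) (norm_nonneg _)
      _ = ‖y‖ := mul_one _
  have h5 : M0 y i j = y s(i, j) - tr y / n * (1 : Matrix (Fin n) (Fin n) ℝ) i j := by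
    simp [M0, toM]
  rw [h5]
  rw [abs_le] at *
  constructor <;> linarith [h1.1, h1.2, h4.1, h4.2]

theorem eq_of_M0_tr {n : ℕ} (y z : Sym2 (Fin n) → ℝ) (h : M0 y = M0 z) (h' : tr y = tr z) :
    y = z := by
  have h1 : toM y = toM z := by
    unfold M0 at h
    rw [h'] at h
    exact sub_left_injective h
  rw [← toE_toM y, ← toE_toM z, h1]

/-- sup norm of the entries is at most the Frobenius norm -/
theorem norm_le_fn {n : ℕ} (y : Sym2 (Fin n) → ℝ) (h : tr y = 0) : ‖y‖ ≤ fn (M0 y) := by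
  have h1 : M0 y = toM y := by
    unfold M0
    rw [h]
    simp
  rw [h1]
  rw [pi_norm_le_iff_of_nonneg (fn_nonneg _)]
  intro s
  induction s using Sym2.ind with
  | _ i j =>
    rw [Real.norm_eq_abs]
    unfold fn
    apply Real.abs_le_sqrt
    have h2 : toM y i j ^ 2 ≤ ∑ j, toM y i j ^ 2 :=
      Finset.single_le_sum (f := fun j => toM y i j ^ 2) (fun _ _ => sq_nonneg _) (Finset.mem_univ j)
    have h3 : ∑ j, toM y i j ^ 2 ≤ ∑ i, ∑ j, toM y i j ^ 2 :=
      Finset.single_le_sum (f := fun i => ∑ j, toM y i j ^ 2)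
        (fun _ _ => Finset.sum_nonneg fun _ _ => sq_nonneg _) (Finset.mem_univ i)
    exact h2.trans h3

end BK
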