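import Crest.Agent.BK_W0
import Crest.Agent.BK_W1a

set_option autoImplicit false

namespace BK
open Finset Matrix Filter Topology

/-! Task BK-W1: elementary facts on `fn`, `toM`, `toE`, `M0`, `tr`, `Vh`. -/

private theorem w1b_apply {n : ℕ} (x : Fin n → ℝ) (i j : Fin n) :
    Vh x i j = cn n * (x i * x j - 1 / (n : ℝ) * (1 : Matrix (Fin n) (Fin n) ℝ) i j) := by
  simp [Vh]

private theorem w1b_one_sub {n : ℕ} (hn : 2 ≤ n) : 0 < 1 - 1 / (n : ℝ) := by
  have h2 : (2 : ℝ) ≤ n := by exact_mod_cast hn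
  have : 1 / (n : ℝ) < 1 := by
    rw [div_lt_one (by linarith)]
    linarith
  linarith

theorem cn_pos {n : ℕ} (hn : 2 ≤ n) : 0 < cn n := by
  unfold cn
  have := Real.sqrt_pos.2 (w1b_one_sub hn)
  positivity

private theorem w1b_symm {n : ℕ} (x : Fin n → ℝ) : (Vh x).IsSymm := by
  ext i j
  rw [Matrix.transpose_apply, w1b_apply, w1b_apply, Matrix.one_apply, Matrix.one_apply]
  simp only [eq_comm (a := j) (b := i)]
  ring

private theorem w1b_trace {n : ℕ} (hn : 2 ≤ n) (x : Fin n → ℝ) (hx : x ⬝ᵥ x = 1) :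
    (Vh x).trace = 0 := by
  have hn0 : (n : ℝ) ≠ 0 := by
    have : n ≠ 0 := by omega
    exact_mod_cast this
  unfold Matrix.trace
  simp only [Matrix.diag_apply, w1b_apply, Matrix.one_apply_eq, mul_one]
  rw [← Finset.mul_sum, Finset.sum_sub_distrib]
  have : ∑ i, x i * x i = 1 := hx
  rw [this]
  simp
  right
  field_simp
  ring

theorem Vh_TS {n : ℕ} (hn : 2 ≤ n) (x : Fin n → ℝ) (hx : x ⬝ᵥ x = 1) : TS (Vh x) :=
  ⟨w1b_symm x, w1b_trace hn x hx⟩

theorem fn_Vh {n : ℕ} (hn : 2 ≤ n) (x : Fin n → ℝ) (hx : x ⬝ᵥ x = 1) : fn (Vh x) = 1 := by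
  have hn0 : (n : ℝ) ≠ 0 := by
    have : n ≠ 0 := by omega
    exact_mod_cast this
  have h1 : Vh x = cn n • (Matrix.of (fun i j => x i * x j) -
    (1 / (n : ℝ)) • (1 : Matrix (Fin n) (Fin n) ℝ)) := rfl
  rw [h1, fn_smul, abs_of_pos (cn_pos hn)]
  have hx' : ∑ i, x i ^ 2 = 1 := by
    rw [← hx]
    simp [dotProduct, sq]
  have h2 : ∑ i, ∑ j, (Matrix.of (fun i j => x i * x j) -
      (1 / (n : ℝ)) • (1 : Matrix (Fin n) (Fin n) ℝ)) i j ^ 2 = 1 - 1 / (n : ℝ) := by
    have e1 : ∀ i j : Fin n, (Matrix.of (fun i j => x i * x j) -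
        (1 / (n : ℝ)) • (1 : Matrix (Fin n) (Fin n) ℝ)) i j ^ 2 =
        x i ^ 2 * x j ^ 2 + (if i = j then (1 / (n : ℝ)) ^ 2 - 2 / n * (x i * x j) else 0) := by
      intro i j
      simp only [Matrix.sub_apply, Matrix.of_apply, Matrix.smul_apply, smul_eq_mul, Matrix.one_apply]
      split_ifs <;> ring
    simp only [e1, Finset.sum_add_distrib, ← Finset.mul_sum, Finset.sum_ite_eq, Finset.mem_univ,
      if_true, hx', mul_one, Finset.sum_sub_distrib, Finset.sum_const, Finset.card_univ,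
      Fintype.card_fin, nsmul_eq_mul]
    have : ∑ i, x i * x i = 1 := hx
    rw [this]
    field_simp
    ring
  unfold fn
  rw [h2]
  unfold cn
  have := Real.sqrt_pos.2 (w1b_one_sub hn)
  exact one_div_mul_cancel this.ne'

theorem M0_toE_Vh {n : ℕ} (hn : 2 ≤ n) (x : Fin n → ℝ) (hx : x ⬝ᵥ x = 1) :
    M0 (toE (Vh x)) = Vh x := by
  have h1 : toM (toE (Vh x)) = Vh x := toM_toE _ (w1b_symm x)
  have h2 : tr (toE (Vh x)) = 0 := by
    have : tr (toE (Vh x)) = (toM (toE (Vh x))).trace := rfl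
    rw [this, h1, w1b_trace hn x hx]
  unfold M0
  rw [h1, h2]
  simp

theorem tr_toE_Vh {n : ℕ} (hn : 2 ≤ n) (x : Fin n → ℝ) (hx : x ⬝ᵥ x = 1) :
    tr (toE (Vh x)) = 0 := by
  have h1 : toM (toE (Vh x)) = Vh x := toM_toE _ (w1b_symm x)
  have : tr (toE (Vh x)) = (toM (toE (Vh x))).trace := rfl
  rw [this, h1, w1b_trace hn x hx]

theorem Vh_mulVec {n : ℕ} (x z : Fin n → ℝ) :
    Vh x *ᵥ z = cn n • ((x ⬝ᵥ z) • x - (1 / (n : ℝ)) • z) := by
  unfold Vh
  rw [Matrix.smul_mulVec, Matrix.sub_mulVec, Matrix.smul_mulVec, Matrix.one_mulVec]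
  congr 2
  funext i
  simp only [Matrix.mulVec, dotProduct, Matrix.of_apply, Pi.smul_apply, smul_eq_mul, Finset.sum_mul]
  refine Finset.sum_congr rfl fun j _ => by ring

/-- `Vh x = Vh z` only for `z = ± x` -/
theorem Vh_inj {n : ℕ} (hn : 2 ≤ n) (x z : Fin n → ℝ) (hx : x ⬝ᵥ x = 1) (hz : z ⬝ᵥ z = 1)
    (h : Vh x = Vh z) : z = x ∨ z = -x := by
  have hc := (cn_pos hn).ne'
  have h1 : ∀ i j, x i * x j = z i * z j := by
    intro i j
    have h2 : Vh x i j = Vh z i j := by rw [h]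
    rw [w1b_apply, w1b_apply] at h2
    have h3 := mul_left_cancel₀ hc h2
    linarith
  have h0 : ∃ i, x i ≠ 0 := by
    by_contra hcon
    push Not at hcon
    have : x ⬝ᵥ x = 0 := by simp [dotProduct, hcon]
    rw [hx] at this
    norm_num at this
  obtain ⟨i, hi⟩ := h0
  have h2 : z i = x i ∨ z i = - x i := by
    have := h1 i i
    exact mul_self_eq_mul_self_iff.1 this.symm
  rcases h2 with h2 | h2
  · left
    funext j
    have := h1 i j
    rw [h2] at this
    exact (mul_left_cancel₀ hi this).symm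
  · right
    funext j
    have := h1 i j
    rw [h2] at this
    have h3 : x i * x j = x i * (- z j) := by rw [this]; ring
    have h4 := mul_left_cancel₀ hi h3
    simp only [Pi.neg_apply]
    linarith

theorem Vh_neg {n : ℕ} (x : Fin n → ℝ) : Vh (-x) = Vh x := by
  ext i j
  rw [w1b_apply, w1b_apply]
  simp

end BK
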