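import Crest.Agent.BK_W1

set_option autoImplicit false

namespace BK
open Finset Matrix Filter Topology

/-! Task BK-W3: basic properties and continuity of `W`. -/

theorem col_cont {n : ℕ} (L : ℕ) (j : Fin n) :
    Continuous (fun M : Matrix (Fin n) (Fin n) ℝ => col M L j) := by
  unfold col
  refine Continuous.matrix_mulVec ?_ continuous_const
  refine Continuous.pow ?_ L
  exact (fn_cont.smul continuous_const).add continuous_id

/-- a symmetric real matrix with a vanishing power vanishes -/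
private theorem w3_pow_zero {n : ℕ} (P : Matrix (Fin n) (Fin n) ℝ) (hP : Pᵀ = P) :
    ∀ k : ℕ, P ^ (2 ^ k) = 0 → P = 0 := by
  intro k
  induction k with
  | zero => intro h; simpa using h
  | succ k ih =>
    intro h
    apply ih
    have e : P ^ (2 ^ (k + 1)) = (P ^ (2 ^ k))ᵀ * P ^ (2 ^ k) := by
      rw [transpose_pow, hP, ← pow_add, pow_succ, mul_two]
    rw [e] at h
    have h2 : (P ^ (2 ^ k))ᴴ * P ^ (2 ^ k) = 0 := by
      rw [Matrix.conjTranspose_eq_transpose_of_trivial]
      exact h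
    exact Matrix.conjTranspose_mul_self_eq_zero.mp h2

/-- the total weight is positive for `M` traceless symmetric nonzero -/
theorem col_sum_pos {n : ℕ} (hn : 0 < n) (M : Matrix (Fin n) (Fin n) ℝ) (hM : TS M)
    (hM0 : M ≠ 0) (L : ℕ) : 0 < ∑ j, (col M L j ⬝ᵥ col M L j) := by
  set P : Matrix (Fin n) (Fin n) ℝ := fn M • (1 : Matrix (Fin n) (Fin n) ℝ) + M with hP
  have hPt : Pᵀ = P := by
    rw [hP, transpose_add, transpose_smul, transpose_one, hM.1.eq]
  have hfn : 0 < fn M := lt_of_le_of_ne (fn_nonneg M) (fun h => hM0 ((fn_eq_zero M).mp h.symm))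
  have hP0 : P ≠ 0 := by
    intro h
    have htr : P.trace = n * fn M := by
      rw [hP, trace_add, trace_smul, trace_one, hM.2, Fintype.card_fin, smul_eq_mul, add_zero,
        mul_comm]
    rw [h, trace_zero] at htr
    have : (0 : ℝ) < n * fn M := mul_pos (by exact_mod_cast hn) hfn
    linarith
  have hPL : P ^ L ≠ 0 := by
    intro h
    apply hP0
    apply w3_pow_zero P hPt L
    have e : 2 ^ L = L + (2 ^ L - L) := by
      have : L < 2 ^ L := Nat.lt_two_pow_self
      omega
    rw [e, pow_add, h, zero_mul]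
  have hcol : ∀ j i, col M L j i = (P ^ L) i j := by
    intro j i
    unfold col
    rw [mulVec_single_one]
    rfl
  obtain ⟨i, j, hij⟩ : ∃ i j, (P ^ L) i j ≠ 0 := by
    by_contra hcon
    push Not at hcon
    exact hPL (Matrix.ext hcon)
  have hnn : ∀ k, 0 ≤ col M L k ⬝ᵥ col M L k := fun k =>
    Finset.sum_nonneg fun i _ => mul_self_nonneg _
  refine lt_of_lt_of_le ?_ (Finset.single_le_sum (fun k _ => hnn k) (Finset.mem_univ j))
  refine lt_of_lt_of_le ?_ (Finset.single_le_sum (f := fun i => col M L j i * col M L j i)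
    (fun k _ => mul_self_nonneg _) (Finset.mem_univ i))
  show 0 < col M L j i * col M L j i
  rw [hcol]
  exact mul_self_pos.mpr hij

variable {n : ℕ} {C : Type} [Fintype C]

theorem W_nonneg (S : CS n C) (M : Matrix (Fin n) (Fin n) ℝ) (L : ℕ) (i : C) :
    0 ≤ W S M L i := by
  unfold W
  have hnn : ∀ k, 0 ≤ col M L k ⬝ᵥ col M L k := fun k =>
    Finset.sum_nonneg fun i _ => mul_self_nonneg _
  exact div_nonneg (Finset.sum_nonneg fun j _ => mul_nonneg (S.nonneg _ _) (hnn j))
    (Finset.sum_nonneg fun j _ => hnn j)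

theorem W_le_one (S : CS n C) (M : Matrix (Fin n) (Fin n) ℝ) (L : ℕ) (i : C) :
    W S M L i ≤ 1 := by
  unfold W
  have hnn : ∀ k, 0 ≤ col M L k ⬝ᵥ col M L k := fun k =>
    Finset.sum_nonneg fun i _ => mul_self_nonneg _
  refine div_le_one_of_le₀ ?_ (Finset.sum_nonneg fun j _ => hnn j)
  refine Finset.sum_le_sum fun j _ => ?_
  exact mul_le_of_le_one_left (hnn j) (S.le_one _ _)

theorem W_sum (hn : 0 < n) (S : CS n C) (M : Matrix (Fin n) (Fin n) ℝ) (hM : TS M)
    (hM0 : M ≠ 0) (L : ℕ) : ∑ i, W S M L i = 1 := by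
  have hpos := col_sum_pos hn M hM hM0 L
  unfold W
  rw [← Finset.sum_div, div_eq_one_iff_eq hpos.ne', Finset.sum_comm]
  refine Finset.sum_congr rfl fun j _ => ?_
  rw [← Finset.sum_mul]
  by_cases h : col M L j = 0
  · rw [h]; simp
  · rw [S.sum_one _ h, one_mul]

end BK
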