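import Crest.Agent.BK_W1
import Crest.Agent.BK_W3a

set_option autoImplicit false

namespace BK
open Finset Matrix Filter Topology

variable {n : ℕ} {C : Type} [Fintype C]

/-! Task BK-W3: basic properties and continuity of `W`. -/

private theorem W3b_g (S : CS n C) (i : C) :
    Continuous (fun v : Fin n → ℝ => S.phi v i * (v ⬝ᵥ v)) := by
  rw [continuous_iff_continuousAt]
  intro v0
  by_cases hv : v0 = 0
  · subst hv
    unfold ContinuousAt
    have hdot : Tendsto (fun v : Fin n → ℝ => v ⬝ᵥ v) (𝓝 0) (𝓝 0) := by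
      have h : Continuous (fun v : Fin n → ℝ => v ⬝ᵥ v) :=
        Continuous.dotProduct continuous_id continuous_id
      have := h.tendsto 0
      simpa using this
    have h0 : S.phi (0 : Fin n → ℝ) i * ((0 : Fin n → ℝ) ⬝ᵥ 0) = 0 := by simp
    change Tendsto (fun v : Fin n → ℝ => S.phi v i * (v ⬝ᵥ v)) (𝓝 0)
      (𝓝 (S.phi (0 : Fin n → ℝ) i * ((0 : Fin n → ℝ) ⬝ᵥ 0)))
    rw [h0]
    refine squeeze_zero (fun v => ?_) (fun v => ?_) hdot
    · exact mul_nonneg (S.nonneg v i)
        (by simp only [dotProduct]; exact Finset.sum_nonneg (fun k _ => mul_self_nonneg _))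
    · have h1 : 0 ≤ v ⬝ᵥ v := by
        simp only [dotProduct]; exact Finset.sum_nonneg (fun k _ => mul_self_nonneg _)
      calc S.phi v i * (v ⬝ᵥ v) ≤ 1 * (v ⬝ᵥ v) := mul_le_mul_of_nonneg_right (S.le_one v i) h1
        _ = v ⬝ᵥ v := one_mul _
  · have hopen : IsOpen {x : Fin n → ℝ | x ≠ 0} := isOpen_ne
    have h1 : ContinuousAt (fun x => S.phi x i) v0 := (S.cont i).continuousAt (hopen.mem_nhds hv)
    exact h1.mul (Continuous.dotProduct continuous_id continuous_id).continuousAt

private theorem W3b_main {Y : Type*} [TopologicalSpace Y] (hn : 0 < n) (S : CS n C) (L : ℕ) (i : C)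
    (m : Y → Matrix (Fin n) (Fin n) ℝ) (hm : Continuous m) (hTS : ∀ y, TS (m y)) :
    Continuous (fun y => fn (m y) * W S (m y) L i) := by
  rw [continuous_iff_continuousAt]
  intro y0
  by_cases h0 : m y0 = 0
  · unfold ContinuousAt
    have hfn : Tendsto (fun y => fn (m y)) (𝓝 y0) (𝓝 0) := by
      have h := (fn_cont.comp hm).tendsto y0
      simp only [Function.comp] at h
      rw [h0, (fn_eq_zero (0 : Matrix (Fin n) (Fin n) ℝ)).mpr rfl] at h
      exact h
    have h1 : fn (m y0) * W S (m y0) L i = 0 := by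
      rw [h0, (fn_eq_zero (0 : Matrix (Fin n) (Fin n) ℝ)).mpr rfl, zero_mul]
    change Tendsto (fun y => fn (m y) * W S (m y) L i) (𝓝 y0) (𝓝 (fn (m y0) * W S (m y0) L i))
    rw [h1]
    refine squeeze_zero (fun y => ?_) (fun y => ?_) hfn
    · exact mul_nonneg (fn_nonneg _) (W_nonneg S _ L i)
    · calc fn (m y) * W S (m y) L i ≤ fn (m y) * 1 :=
          mul_le_mul_of_nonneg_left (W_le_one S _ L i) (fn_nonneg _)
        _ = fn (m y) := mul_one _
  · have hD : Continuous (fun y => ∑ j, (col (m y) L j ⬝ᵥ col (m y) L j)) := by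
      refine continuous_finsetSum _ (fun j _ => ?_)
      have hc : Continuous (fun y => col (m y) L j) := (col_cont L j).comp hm
      exact Continuous.dotProduct hc hc
    have hN : Continuous (fun y => ∑ j, S.phi (col (m y) L j) i * (col (m y) L j ⬝ᵥ col (m y) L j)) := by
      refine continuous_finsetSum _ (fun j _ => ?_)
      have hc : Continuous (fun y => col (m y) L j) := (col_cont L j).comp hm
      exact (W3b_g S i).comp hc
    have hpos := col_sum_pos hn (m y0) (hTS y0) h0 L
    have hW : ContinuousAt (fun y => W S (m y) L i) y0 :=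
      hN.continuousAt.div hD.continuousAt (ne_of_gt hpos)
    exact (fn_cont.comp hm).continuousAt.mul hW

private theorem W3b_neg (M : Matrix (Fin n) (Fin n) ℝ) (h : TS M) : TS (-M) := by
  refine ⟨?_, ?_⟩
  · rw [Matrix.IsSymm, Matrix.transpose_neg, h.1.eq]
  · rw [Matrix.trace_neg, h.2, neg_zero]

/-- `phi i x |x|²` is continuous everywhere; so `M ↦ W S M L i` is continuous at traceless nonzero
`M`, and `fn M * W` tends to `0` at `M = 0`. -/
theorem fnW_cont (hn : 0 < n) (S : CS n C) (L : ℕ) (i : C) :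
    Continuous (fun y : Sym2 (Fin n) → ℝ => fn (M0 y) * W S (M0 y) L i) :=
  W3b_main hn S L i (fun y => M0 y) M0_cont (fun y => M0_TS hn y)

theorem fnW_neg_cont (hn : 0 < n) (S : CS n C) (L : ℕ) (i : C) :
    Continuous (fun y : Sym2 (Fin n) → ℝ => fn (M0 y) * W S (-(M0 y)) L i) := by
  have h := W3b_main hn S L i (fun y : Sym2 (Fin n) → ℝ => -(M0 y)) M0_cont.neg
    (fun y => W3b_neg _ (M0_TS hn y))
  have e : (fun y : Sym2 (Fin n) → ℝ => fn (M0 y) * W S (-(M0 y)) L i) =
      (fun y : Sym2 (Fin n) → ℝ => fn (-(M0 y)) * W S (-(M0 y)) L i) := by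
    funext y
    rw [fn_neg]
  rw [e]
  exact h

theorem fL_cont (hn : 0 < n) (S : CS n C) (ζ : C → ℝ) (L : ℕ) :
    Continuous (fun y : Sym2 (Fin n) → ℝ => fL S ζ L y) := by
  refine continuous_pi (fun i => ?_)
  have e : (fun y : Sym2 (Fin n) → ℝ => fL S ζ L y i) = (fun y : Sym2 (Fin n) → ℝ =>
      fn (M0 y) * W S (M0 y) L i - fn (M0 y) * W S (-(M0 y)) L i - ζ i + tr y) := by
    funext y
    unfold fL
    ring
  rw [e]
  exact (((fnW_cont hn S L i).sub (fnW_neg_cont hn S L i)).sub continuous_const).add tr_cont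

end BK
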