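import Crest.Agent.BK_W1
import Crest.Agent.BK_W2
import Crest.Agent.BK_W3

set_option autoImplicit false

namespace BK
open Finset Matrix Filter Topology

/-- orthogonal diagonalisation of the powers of a symmetric matrix, as quadratic forms -/
private theorem w4_diag {n : ℕ} (P : Matrix (Fin n) (Fin n) ℝ) (hP : P.IsHermitian) :
    ∃ (V : Matrix (Fin n) (Fin n) ℝ) (μ : Fin n → ℝ), V * Vᵀ = 1 ∧ Vᵀ * V = 1 ∧
      ∀ (k : ℕ) (x : Fin n → ℝ), x ⬝ᵥ ((P ^ k) *ᵥ x) = ∑ a, μ a ^ k * ((V *ᵥ x) a) ^ 2 := by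
  set U : Matrix (Fin n) (Fin n) ℝ := (hP.eigenvectorUnitary : Matrix (Fin n) (Fin n) ℝ) with hU
  have h1 : star U * U = 1 := Unitary.coe_star_mul_self hP.eigenvectorUnitary
  have h2 : U * star U = 1 := Unitary.coe_mul_star_self hP.eigenvectorUnitary
  have hst : star U = Uᵀ := by
    rw [Matrix.star_eq_conjTranspose, Matrix.conjTranspose_eq_transpose_of_trivial]
  rw [hst] at h1 h2
  have h3 : P = U * diagonal hP.eigenvalues * Uᵀ := by
    have := hP.spectral_theorem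
    rw [Unitary.conjStarAlgAut_apply] at this
    rw [← hst]
    exact this
  have h4 : ∀ k : ℕ, P ^ k = U * diagonal (fun a => hP.eigenvalues a ^ k) * Uᵀ := by
    intro k
    induction k with
    | zero => simp [h2]
    | succ k ih =>
      have e : P ^ (k + 1) = P ^ k * P := pow_succ P k
      have e2 : P ^ k * P = (U * diagonal (fun a => hP.eigenvalues a ^ k) * Uᵀ) *
          (U * diagonal hP.eigenvalues * Uᵀ) := by
        rw [← ih, ← h3]
      rw [e, e2]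
      calc (U * diagonal (fun a => hP.eigenvalues a ^ k) * Uᵀ) *
          (U * diagonal hP.eigenvalues * Uᵀ)
          = U * (diagonal (fun a => hP.eigenvalues a ^ k) * (Uᵀ * U) *
              diagonal hP.eigenvalues) * Uᵀ := by
            simp only [Matrix.mul_assoc]
        _ = _ := by
            rw [h1, Matrix.mul_one, diagonal_mul_diagonal]
            simp only [pow_succ]
  refine ⟨Uᵀ, hP.eigenvalues, by rw [transpose_transpose]; exact h1,
    by rw [transpose_transpose]; exact h2, ?_⟩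
  intro k x
  rw [h4 k, ← mulVec_mulVec, ← mulVec_mulVec, dotProduct_mulVec, ← mulVec_transpose]
  simp only [dotProduct, mulVec_diagonal]
  refine Finset.sum_congr rfl fun a _ => ?_
  ring

/-- `(2L+1)(Λ-μ)μ^{2L} ≤ Λ^{2L+1}` -/
private theorem w4_scalar (Λ μ : ℝ) (h0 : 0 ≤ μ) (h1 : μ ≤ Λ) (L : ℕ) :
    (Λ - μ) * μ ^ (2 * L) ≤ Λ ^ (2 * L + 1) / (2 * L + 1) := by
  have hL : (0 : ℝ) < 2 * L + 1 := by positivity
  rw [le_div_iff₀ hL]
  have hΛ : 0 ≤ Λ := h0.trans h1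
  have key : (Λ - μ) * (∑ i ∈ Finset.range (2 * L + 1), Λ ^ i * μ ^ (2 * L + 1 - 1 - i)) =
      Λ ^ (2 * L + 1) - μ ^ (2 * L + 1) := by
    have := (Commute.all Λ μ).mul_geom_sum₂ (2 * L + 1)
    exact this
  have hs : ((2 * L + 1 : ℕ) : ℝ) * μ ^ (2 * L) ≤
      ∑ i ∈ Finset.range (2 * L + 1), Λ ^ i * μ ^ (2 * L + 1 - 1 - i) := by
    rw [← nsmul_eq_mul]
    have hc : (Finset.range (2 * L + 1)).card = 2 * L + 1 := Finset.card_range _
    have hcs := Finset.card_nsmul_le_sum (Finset.range (2 * L + 1))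
      (fun i => Λ ^ i * μ ^ (2 * L + 1 - 1 - i)) (μ ^ (2 * L)) ?_
    · rwa [hc] at hcs
    intro i hi
    have hi' : i ≤ 2 * L := by
      have := Finset.mem_range.mp hi
      omega
    have e : μ ^ (2 * L) = μ ^ i * μ ^ (2 * L + 1 - 1 - i) := by
      rw [← pow_add]
      congr 1
      omega
    rw [e]
    exact mul_le_mul_of_nonneg_right (pow_le_pow_left₀ h0 h1 i) (pow_nonneg h0 _)
  have h2 : (Λ - μ) * (((2 * L + 1 : ℕ) : ℝ) * μ ^ (2 * L)) ≤
      Λ ^ (2 * L + 1) - μ ^ (2 * L + 1) := by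
    rw [← key]
    exact mul_le_mul_of_nonneg_left hs (by linarith)
  have h3 : 0 ≤ μ ^ (2 * L + 1) := pow_nonneg h0 _
  push_cast at h2
  nlinarith [h2, h3]

/-- Task BK-W4 (power iteration): the Rayleigh deficiency of `x = P^L e_j` for `P = fn M + M`.
Proof: spectral decomposition of `P` with eigenvalues `0 ≤ μ_a ≤ Λ`, eigenbasis `u_a`:
LHS `= ∑_a (Λ-μ_a) μ_a^{2L} ⟨u_a,e_j⟩² ≤ n Λ^{2L+1}/(2L+1)` because
`(2L+1)(Λ-μ)μ^{2L} ≤ Λ^{2L+1} - μ^{2L+1}`, and `∑_k |P^L e_k|² = tr P^{2L} ≥ Λ^{2L}`. -/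
theorem deficiency {n : ℕ} (M : Matrix (Fin n) (Fin n) ℝ) (hM : M.IsSymm) (z : Fin n → ℝ)
    (hz : RM M z) (L : ℕ) (j : Fin n) :
    (fn M + z ⬝ᵥ (M *ᵥ z)) * (col M L j ⬝ᵥ col M L j) -
        col M L j ⬝ᵥ ((fn M • (1 : Matrix (Fin n) (Fin n) ℝ) + M) *ᵥ col M L j) ≤
      (n : ℝ) * (fn M + z ⬝ᵥ (M *ᵥ z)) / (2 * L + 1) * ∑ k, (col M L k ⬝ᵥ col M L k) := by
  set P : Matrix (Fin n) (Fin n) ℝ := fn M • (1 : Matrix (Fin n) (Fin n) ℝ) + M with hPdef
  set Λ : ℝ := fn M + z ⬝ᵥ (M *ᵥ z) with hΛ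
  have hPt : Pᵀ = P := by
    rw [hPdef, transpose_add, transpose_smul, transpose_one, hM.eq]
  have hPs : P.IsHermitian := by
    rw [Matrix.IsHermitian, Matrix.conjTranspose_eq_transpose_of_trivial]
    exact hPt
  obtain ⟨V, μ, hV1, hV2, hq⟩ := w4_diag P hPs
  -- quadratic form of P
  have hPq : ∀ x : Fin n → ℝ, x ⬝ᵥ (P *ᵥ x) = fn M * (x ⬝ᵥ x) + x ⬝ᵥ (M *ᵥ x) := by
    intro x
    rw [hPdef, add_mulVec, smul_mulVec, one_mulVec, dotProduct_add, dotProduct_smul, smul_eq_mul]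
  -- norm preservation
  have hnorm : ∀ x : Fin n → ℝ, x ⬝ᵥ x = ∑ a, ((V *ᵥ x) a) ^ 2 := by
    intro x
    have := hq 0 x
    simpa using this
  -- eigenvalue bounds
  have hμ : ∀ a, 0 ≤ μ a ∧ μ a ≤ Λ := by
    intro a
    set b : Fin n → ℝ := Vᵀ *ᵥ (Pi.single a 1) with hb
    have hVb : V *ᵥ b = Pi.single a 1 := by
      rw [hb, mulVec_mulVec, hV1, one_mulVec]
    have hbb : b ⬝ᵥ b = 1 := by
      rw [hnorm b, hVb]
      simp [Pi.single_apply, Finset.sum_ite_eq']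
    have hbP : b ⬝ᵥ (P *ᵥ b) = μ a := by
      have := hq 1 b
      rw [pow_one, hVb] at this
      rw [this]
      simp [Pi.single_apply, Finset.sum_ite_eq']
    rw [hPq, hbb, mul_one] at hbP
    constructor
    · have h := quad_le_fn M b
      rw [hbb, mul_one] at h
      have := (abs_le.mp h).1
      linarith
    · have h := hz.2 b hbb
      rw [hΛ]
      linarith
  -- powers and columns
  have hpt : ∀ k : ℕ, (P ^ k)ᵀ = P ^ k := by
    intro k
    rw [transpose_pow, hPt]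
  have hmv : ∀ (k l : ℕ) (x y : Fin n → ℝ), (P ^ k *ᵥ x) ⬝ᵥ (P ^ l *ᵥ y) =
      x ⬝ᵥ (P ^ (k + l) *ᵥ y) := by
    intro k l x y
    rw [pow_add, ← mulVec_mulVec, dotProduct_mulVec x, ← mulVec_transpose, hpt k]
  have hcol : ∀ k, col M L k = P ^ L *ᵥ (Pi.single k 1) := fun k => rfl
  have hcc : ∀ k, col M L k ⬝ᵥ col M L k = ∑ a, μ a ^ (2 * L) * (V a k) ^ 2 := by
    intro k
    rw [hcol k, hmv, ← two_mul, hq (2 * L)]
    simp only [mulVec_single_one, Matrix.col_apply]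
  have hcP : col M L j ⬝ᵥ (P *ᵥ col M L j) = ∑ a, μ a ^ (2 * L + 1) * (V a j) ^ 2 := by
    have e : P *ᵥ col M L j = P ^ (L + 1) *ᵥ (Pi.single j 1) := by
      rw [hcol j, mulVec_mulVec, ← pow_succ']
    rw [e, hcol j, hmv, show L + (L + 1) = 2 * L + 1 by ring, hq (2 * L + 1)]
    simp only [mulVec_single_one, Matrix.col_apply]
  -- rows/columns of V are unit
  have hcolV : ∀ k, ∑ a, (V a k) ^ 2 = 1 := by
    intro k
    have := hnorm (Pi.single k 1)
    simp only [mulVec_single_one, Matrix.col_apply] at this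
    rw [← this]
    simp
  have hrowV : ∀ a, ∑ k, (V a k) ^ 2 = 1 := by
    intro a
    have := congrFun (congrFun hV1 a) a
    simp only [Matrix.mul_apply, transpose_apply, Matrix.one_apply_eq] at this
    simpa [sq] using this
  -- the sum over columns
  have hsum : ∑ k, (col M L k ⬝ᵥ col M L k) = ∑ a, μ a ^ (2 * L) := by
    simp_rw [hcc]
    rw [Finset.sum_comm]
    refine Finset.sum_congr rfl fun a _ => ?_
    rw [← Finset.mul_sum, hrowV a, mul_one]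
  -- Λ^{2L} ≤ sum
  have hPz : P *ᵥ z = Λ • z := by
    rw [hPdef, add_mulVec, smul_mulVec, one_mulVec, hΛ, add_smul, ← RM_eig M hM z hz]
  have hPkz : ∀ k : ℕ, P ^ k *ᵥ z = Λ ^ k • z := by
    intro k
    induction k with
    | zero => simp
    | succ k ih => rw [pow_succ, ← mulVec_mulVec, hPz, mulVec_smul, ih, smul_smul, pow_succ,
        mul_comm]
  have htop : Λ ^ (2 * L) ≤ ∑ a, μ a ^ (2 * L) := by
    have e1 : z ⬝ᵥ (P ^ (2 * L) *ᵥ z) = Λ ^ (2 * L) := by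
      rw [hPkz, dotProduct_smul, hz.1, smul_eq_mul, mul_one]
    rw [← e1, hq (2 * L) z]
    refine Finset.sum_le_sum fun a _ => ?_
    have h1 : ((V *ᵥ z) a) ^ 2 ≤ 1 := by
      have hzz := hnorm z
      rw [hz.1] at hzz
      rw [hzz]
      exact Finset.single_le_sum (f := fun a => ((V *ᵥ z) a) ^ 2)
        (fun i _ => sq_nonneg _) (Finset.mem_univ a)
    have h2 : 0 ≤ μ a ^ (2 * L) := pow_nonneg (hμ a).1 _
    nlinarith
  have hΛ0 : 0 ≤ Λ := (hμ j).1.trans (hμ j).2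
  have hn1 : (1 : ℝ) ≤ n := by
    have : 0 < n := Fin.pos j
    exact_mod_cast this
  have hL : (0 : ℝ) < 2 * L + 1 := by positivity
  have hlhs : Λ * (col M L j ⬝ᵥ col M L j) - col M L j ⬝ᵥ (P *ᵥ col M L j) ≤
      Λ ^ (2 * L + 1) / (2 * L + 1) := by
    rw [hcc j, hcP, Finset.mul_sum, ← Finset.sum_sub_distrib]
    calc ∑ a, (Λ * (μ a ^ (2 * L) * V a j ^ 2) - μ a ^ (2 * L + 1) * V a j ^ 2)
        = ∑ a, ((Λ - μ a) * μ a ^ (2 * L)) * V a j ^ 2 := by
          refine Finset.sum_congr rfl fun a _ => ?_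
          ring
      _ ≤ ∑ a, (Λ ^ (2 * L + 1) / (2 * L + 1)) * V a j ^ 2 := by
          refine Finset.sum_le_sum fun a _ => ?_
          exact mul_le_mul_of_nonneg_right (w4_scalar Λ (μ a) (hμ a).1 (hμ a).2 L) (sq_nonneg _)
      _ = Λ ^ (2 * L + 1) / (2 * L + 1) := by
          rw [← Finset.mul_sum, hcolV j, mul_one]
  refine hlhs.trans ?_
  rw [hsum]
  have h5 : Λ ^ (2 * L + 1) / (2 * L + 1) = Λ / (2 * L + 1) * Λ ^ (2 * L) := by
    rw [pow_succ]; ring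
  have h6 : (n : ℝ) * Λ / (2 * L + 1) * ∑ a, μ a ^ (2 * L) =
      (n : ℝ) * (Λ / (2 * L + 1) * ∑ a, μ a ^ (2 * L)) := by ring
  rw [h5, h6]
  have h7 : Λ / (2 * L + 1) * Λ ^ (2 * L) ≤ Λ / (2 * L + 1) * ∑ a, μ a ^ (2 * L) :=
    mul_le_mul_of_nonneg_left htop (div_nonneg hΛ0 hL.le)
  have h8 : 0 ≤ Λ / (2 * L + 1) * ∑ a, μ a ^ (2 * L) :=
    mul_nonneg (div_nonneg hΛ0 hL.le) (Finset.sum_nonneg fun a _ => pow_nonneg (hμ a).1 _)
  nlinarith [h7, h8, hn1]

end BK
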