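import Crest.Agent.BK_W4

set_option autoImplicit false

namespace BK
open Finset Matrix Filter Topology

private theorem w5_self_nonneg {n : ℕ} (v : Fin n → ℝ) : 0 ≤ v ⬝ᵥ v :=
  Finset.sum_nonneg fun i _ => mul_self_nonneg (v i)

private theorem w5_self_pos {n : ℕ} {v : Fin n → ℝ} (hv : v ≠ 0) : 0 < v ⬝ᵥ v := by
  rcases (w5_self_nonneg v).lt_or_eq with h | h
  · exact h
  · exact absurd (dotProduct_self_eq_zero.1 h.symm) hv

private theorem w5_nrm_self {n : ℕ} {v : Fin n → ℝ} (hv : v ≠ 0) : nrm v ⬝ᵥ nrm v = 1 := by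
  have h := w5_self_pos hv
  have hs := Real.mul_self_sqrt h.le
  have hs0 := Real.sqrt_pos.2 h
  unfold nrm
  rw [smul_dotProduct, dotProduct_smul, smul_eq_mul, smul_eq_mul]
  field_simp
  rw [pow_two, hs]

private theorem w5_nrm_quad {n : ℕ} {v : Fin n → ℝ} (hv : v ≠ 0) (M : Matrix (Fin n) (Fin n) ℝ) :
    nrm v ⬝ᵥ (M *ᵥ nrm v) = (v ⬝ᵥ (M *ᵥ v)) / (v ⬝ᵥ v) := by
  have h := w5_self_pos hv
  have hs := Real.mul_self_sqrt h.le
  have hs0 := Real.sqrt_pos.2 h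
  unfold nrm
  rw [mulVec_smul, smul_dotProduct, dotProduct_smul, smul_eq_mul, smul_eq_mul, ← mul_assoc,
    div_mul_div_comm, hs]
  ring

private theorem w5_compact (n : ℕ) : IsCompact {x : Fin n → ℝ | x ⬝ᵥ x = 1} := by
  refine Metric.isCompact_of_isClosed_isBounded ?_ ?_
  · exact isClosed_eq (Continuous.dotProduct continuous_id continuous_id) continuous_const
  · refine (Metric.isBounded_iff_subset_closedBall 0).2 ⟨1, fun x hx => ?_⟩
    rw [mem_closedBall_zero_iff, pi_norm_le_iff_of_nonneg zero_le_one]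
    intro i
    have h1 : x i * x i ≤ x ⬝ᵥ x :=
      Finset.single_le_sum (f := fun i => x i * x i) (fun i _ => mul_self_nonneg _)
        (Finset.mem_univ i)
    change x ⬝ᵥ x = 1 at hx
    rw [hx] at h1
    rw [Real.norm_eq_abs]
    exact abs_le_one_iff_mul_self_le_one.2 h1

private theorem w5_real {F lam cc cM Sg η L n : ℝ} (hcc : 0 < cc) (hSg : 0 ≤ Sg) (hη : 0 < η)
    (hL : 0 < L) (hn : 0 ≤ n) (hF : 0 ≤ F) (_h1 : -F ≤ lam) (h2 : lam ≤ F) (hS : η * Sg ≤ cc)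
    (hd : (F + lam) * cc - (F * cc + cM) ≤ n * (F + lam) / L * Sg) :
    lam ≤ cM / cc + n * (2 * F) / η * (1 / L) := by
  have f1 : n * (F + lam) / L * Sg ≤ n * (2 * F) / L * (cc / η) := by
    apply mul_le_mul
    · apply div_le_div_of_nonneg_right _ hL.le
      apply mul_le_mul_of_nonneg_left _ hn
      linarith
    · rw [le_div_iff₀ hη]
      linarith
    · exact hSg
    · positivity
  have e4 : n * (2 * F) / L * (cc / η) = n * (2 * F) / η * (1 / L) * cc := by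
    field_simp
  rw [e4] at f1
  rw [div_add' _ _ _ hcc.ne', le_div_iff₀ hcc]
  linarith

private theorem w5_step {n : ℕ} (hn : 0 < n) (M : Matrix (Fin n) (Fin n) ℝ) (hM : M.IsSymm)
    (L : ℕ) (j : Fin n) {η : ℝ} (hη : 0 < η) (hc0 : col M L j ≠ 0)
    (hcη : η * ∑ l, (col M L l ⬝ᵥ col M L l) ≤ col M L j ⬝ᵥ col M L j) (z : Fin n → ℝ)
    (hz : z ⬝ᵥ z = 1) :
    z ⬝ᵥ (M *ᵥ z) ≤ nrm (col M L j) ⬝ᵥ (M *ᵥ nrm (col M L j)) +
        (n : ℝ) * (2 * fn M) / η * (1 / (2 * (L : ℝ) + 1)) := by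
  obtain ⟨z', hz'⟩ := RM_exists hn M
  have hd := deficiency M hM z' hz' L j
  rw [w5_nrm_quad hc0]
  have hq := quad_le_fn M z'
  rw [hz'.1, mul_one] at hq
  have e1 : col M L j ⬝ᵥ ((fn M • (1 : Matrix (Fin n) (Fin n) ℝ) + M) *ᵥ col M L j) =
      fn M * (col M L j ⬝ᵥ col M L j) + col M L j ⬝ᵥ (M *ᵥ col M L j) := by
    rw [add_mulVec, dotProduct_add, smul_mulVec, one_mulVec, dotProduct_smul, smul_eq_mul]
  rw [e1] at hd
  refine (hz'.2 z hz).trans ?_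
  exact w5_real (w5_self_pos hc0) (Finset.sum_nonneg fun l _ => w5_self_nonneg _) hη
    (by positivity) (Nat.cast_nonneg n) (fn_nonneg M) (abs_le.1 hq).1 (abs_le.1 hq).2 hcη hd

/-- Task BK-W5: limits of the directions `P^L e_j` of non-negligible weight are Rayleigh
maximisers. (Compactness of the unit sphere + `deficiency`; the maximisers `z_k` of `Mk k` have
bounded values; for a unit vector `z`: `z·Mk z ≤ x_k·Mk x_k + n·2 fn(Mk)/(η(2L_k+1))`.) -/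
theorem dir_limit {n : ℕ} (hn : 0 < n) (M : Matrix (Fin n) (Fin n) ℝ)
    (Mk : ℕ → Matrix (Fin n) (Fin n) ℝ) (Lk : ℕ → ℕ) (jk : ℕ → Fin n)
    (hTS : ∀ k, TS (Mk k)) (hM : Tendsto Mk atTop (𝓝 M)) (hL : Tendsto Lk atTop atTop)
    (η : ℝ) (hη : 0 < η)
    (h : ∀ k, col (Mk k) (Lk k) (jk k) ≠ 0 ∧
      η * ∑ l, (col (Mk k) (Lk k) l ⬝ᵥ col (Mk k) (Lk k) l) ≤
        col (Mk k) (Lk k) (jk k) ⬝ᵥ col (Mk k) (Lk k) (jk k)) :
    ∃ φ : ℕ → ℕ, StrictMono φ ∧ ∃ x, RM M x ∧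
      Tendsto (fun k => nrm (col (Mk (φ k)) (Lk (φ k)) (jk (φ k)))) atTop (𝓝 x) := by
  obtain ⟨x, hx, φ, hφ, hlim⟩ := (w5_compact n).tendsto_subseq
    (x := fun k => nrm (col (Mk k) (Lk k) (jk k))) (fun k => w5_nrm_self (h k).1)
  refine ⟨φ, hφ, x, ⟨hx, fun z hz => ?_⟩, hlim⟩
  -- the one-step inequality
  have hstep : ∀ k, z ⬝ᵥ (Mk k *ᵥ z) ≤
      nrm (col (Mk k) (Lk k) (jk k)) ⬝ᵥ (Mk k *ᵥ nrm (col (Mk k) (Lk k) (jk k))) +
        (n : ℝ) * (2 * fn (Mk k)) / η * (1 / (2 * (Lk k : ℝ) + 1)) := fun k =>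
    w5_step hn (Mk k) (hTS k).1 (Lk k) (jk k) hη (h k).1 (h k).2 z hz
  -- limits
  have hMφ : Tendsto (fun k => Mk (φ k)) atTop (𝓝 M) := hM.comp hφ.tendsto_atTop
  have hLφ : Tendsto (fun k => Lk (φ k)) atTop atTop := hL.comp hφ.tendsto_atTop
  have hquad : Continuous (fun q : Matrix (Fin n) (Fin n) ℝ × (Fin n → ℝ) =>
      q.2 ⬝ᵥ (q.1 *ᵥ q.2)) :=
    Continuous.dotProduct continuous_snd (Continuous.matrix_mulVec continuous_fst continuous_snd)
  have t1 := (hquad.tendsto (M, z)).comp (hMφ.prodMk_nhds (tendsto_const_nhds (x := z)))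
  have hlim' : Tendsto (fun k => nrm (col (Mk (φ k)) (Lk (φ k)) (jk (φ k)))) atTop (𝓝 x) := hlim
  have t2 := (hquad.tendsto (M, x)).comp (hMφ.prodMk_nhds hlim')
  have t3 : Tendsto (fun k => (n : ℝ) * (2 * fn (Mk (φ k))) / η) atTop
      (𝓝 ((n : ℝ) * (2 * fn M) / η)) :=
    (((fn_cont.tendsto M).comp hMφ).const_mul 2 |>.const_mul (n : ℝ)).div_const η
  have t4 : Tendsto (fun k => 1 / (2 * (Lk (φ k) : ℝ) + 1)) atTop (𝓝 0) := by
    have hR : Tendsto (fun k => ((Lk (φ k) : ℕ) : ℝ)) atTop atTop :=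
      tendsto_natCast_atTop_atTop.comp hLφ
    have hR2 : Tendsto (fun k => 2 * ((Lk (φ k) : ℕ) : ℝ) + 1) atTop atTop :=
      tendsto_atTop_add_const_right _ _ (hR.const_mul_atTop (by norm_num))
    refine (tendsto_inv_atTop_zero.comp hR2).congr fun k => ?_
    exact (one_div _).symm
  have t5 := t2.add (t3.mul t4)
  rw [mul_zero, add_zero] at t5
  exact le_of_tendsto_of_tendsto' t1 t5 fun k => hstep (φ k)

end BK
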