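import Crest.Agent.BK_W5

set_option autoImplicit false

namespace BK
open Finset Matrix Filter Topology

variable {n : ℕ} {C : Type} [Fintype C]

private theorem w6b_self_nonneg (v : Fin n → ℝ) : 0 ≤ v ⬝ᵥ v :=
  Finset.sum_nonneg fun i _ => mul_self_nonneg (v i)

private theorem w6b_key (hn : 0 < n) (S : CS n C) (M : Matrix (Fin n) (Fin n) ℝ)
    (Mk : ℕ → Matrix (Fin n) (Fin n) ℝ) (Lk : ℕ → ℕ) (hTS : ∀ k, TS (Mk k))
    (hM : Tendsto Mk atTop (𝓝 M)) (hL : Tendsto Lk atTop atTop) (hM0 : M ≠ 0)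
    (x : Fin n → ℝ) (hx : RM M x) (hu : ∀ z, RM M z → z = x ∨ z = -x) (i : C) (j : Fin n) :
    Tendsto (fun k => (S.phi (col (Mk k) (Lk k) j) i - S.phi x i) *
      ((col (Mk k) (Lk k) j ⬝ᵥ col (Mk k) (Lk k) j) /
        ∑ l, (col (Mk k) (Lk k) l ⬝ᵥ col (Mk k) (Lk k) l))) atTop (𝓝 0) := by
  have hpos : ∀ᶠ k in atTop, 0 < ∑ l, (col (Mk k) (Lk k) l ⬝ᵥ col (Mk k) (Lk k) l) := by
    filter_upwards [hM.eventually_ne hM0] with k hk
    exact col_sum_pos hn (Mk k) (hTS k) hk (Lk k)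
  by_contra hcon
  rw [Metric.tendsto_atTop] at hcon
  push Not at hcon
  obtain ⟨ε, hε, hf⟩ := hcon
  have hfreq : ∃ᶠ k in atTop, ε ≤ dist ((S.phi (col (Mk k) (Lk k) j) i - S.phi x i) *
      ((col (Mk k) (Lk k) j ⬝ᵥ col (Mk k) (Lk k) j) /
        ∑ l, (col (Mk k) (Lk k) l ⬝ᵥ col (Mk k) (Lk k) l))) 0 := by
    rw [frequently_atTop]
    intro N
    obtain ⟨k, hk, h⟩ := hf N
    exact ⟨k, hk, h⟩
  obtain ⟨ψ, hψ, hψ'⟩ := extraction_of_frequently_atTop (hfreq.and_eventually hpos)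
  have hfacts : ∀ k, (col (Mk (ψ k)) (Lk (ψ k)) j ≠ 0 ∧
      ε * ∑ l, (col (Mk (ψ k)) (Lk (ψ k)) l ⬝ᵥ col (Mk (ψ k)) (Lk (ψ k)) l) ≤
        col (Mk (ψ k)) (Lk (ψ k)) j ⬝ᵥ col (Mk (ψ k)) (Lk (ψ k)) j) ∧
      ε ≤ |S.phi (col (Mk (ψ k)) (Lk (ψ k)) j) i - S.phi x i| := by
    intro k
    obtain ⟨h1, h2⟩ := hψ' k
    set v := col (Mk (ψ k)) (Lk (ψ k)) j with hv
    set t := ∑ l, (col (Mk (ψ k)) (Lk (ψ k)) l ⬝ᵥ col (Mk (ψ k)) (Lk (ψ k)) l) with ht
    have hc0 : 0 ≤ v ⬝ᵥ v := w6b_self_nonneg v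
    have hct : v ⬝ᵥ v ≤ t := by
      rw [ht]
      exact Finset.single_le_sum (f := fun l => col (Mk (ψ k)) (Lk (ψ k)) l ⬝ᵥ
        col (Mk (ψ k)) (Lk (ψ k)) l) (fun l _ => w6b_self_nonneg _) (Finset.mem_univ j)
    rw [Real.dist_eq, sub_zero, abs_mul, abs_of_nonneg (div_nonneg hc0 h2.le)] at h1
    have hd1 : |S.phi v i - S.phi x i| ≤ 1 := by
      have a1 := S.nonneg v i
      have a2 := S.le_one v i
      have a3 := S.nonneg x i
      have a4 := S.le_one x i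
      rw [abs_le]
      constructor <;> linarith
    have hq1 : (v ⬝ᵥ v) / t ≤ 1 := (div_le_one h2).2 hct
    have hq0 : 0 ≤ (v ⬝ᵥ v) / t := div_nonneg hc0 h2.le
    have e1 : ε ≤ (v ⬝ᵥ v) / t := h1.trans (by
      calc |S.phi v i - S.phi x i| * ((v ⬝ᵥ v) / t) ≤ 1 * ((v ⬝ᵥ v) / t) :=
            mul_le_mul_of_nonneg_right hd1 hq0
        _ = _ := one_mul _)
    have e2 : ε ≤ |S.phi v i - S.phi x i| := h1.trans (by
      calc |S.phi v i - S.phi x i| * ((v ⬝ᵥ v) / t) ≤ |S.phi v i - S.phi x i| * 1 :=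
            mul_le_mul_of_nonneg_left hq1 (abs_nonneg _)
        _ = _ := mul_one _)
    have e3 : ε * t ≤ v ⬝ᵥ v := (le_div_iff₀ h2).1 e1
    refine ⟨⟨?_, e3⟩, e2⟩
    intro h0
    rw [h0] at e3
    simp only [dotProduct_zero] at e3
    have := mul_pos hε h2
    linarith
  obtain ⟨φ, hφ, x', hx', hlim⟩ := dir_limit hn M (fun k => Mk (ψ k)) (fun k => Lk (ψ k))
    (fun _ => j) (fun k => hTS _) (hM.comp hψ.tendsto_atTop) (hL.comp hψ.tendsto_atTop) ε hε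
    (fun k => (hfacts k).1)
  have hx'0 : x' ≠ 0 := by
    rintro rfl
    have := hx'.1
    simp at this
  have hx0 : x ≠ 0 := by
    rintro rfl
    have := hx.1
    simp at this
  have hphi : S.phi x' i = S.phi x i := by
    rcases hu x' hx' with h | h
    · rw [h]
    · have := S.homog x hx0 (-1) (by norm_num) i
      rw [neg_one_smul] at this
      rw [h, this]
  have hcont : Tendsto (fun k => S.phi (nrm (col (Mk (ψ (φ k))) (Lk (ψ (φ k))) j)) i) atTop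
      (𝓝 (S.phi x' i)) :=
    ((S.cont i).continuousAt (isOpen_ne.mem_nhds hx'0)).tendsto.comp hlim
  have hcont' : Tendsto (fun k => S.phi (col (Mk (ψ (φ k))) (Lk (ψ (φ k))) j) i) atTop
      (𝓝 (S.phi x i)) := by
    rw [hphi] at hcont
    refine hcont.congr fun k => ?_
    obtain ⟨⟨hne, -⟩, -⟩ := hfacts (φ k)
    have hpos' : 0 < col (Mk (ψ (φ k))) (Lk (ψ (φ k))) j ⬝ᵥ col (Mk (ψ (φ k))) (Lk (ψ (φ k))) j := by
      rcases (w6b_self_nonneg (col (Mk (ψ (φ k))) (Lk (ψ (φ k))) j)).lt_or_eq with h | h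
      · exact h
      · exact absurd (dotProduct_self_eq_zero.1 h.symm) hne
    have hs : (1 / Real.sqrt (col (Mk (ψ (φ k))) (Lk (ψ (φ k))) j ⬝ᵥ
        col (Mk (ψ (φ k))) (Lk (ψ (φ k))) j)) ≠ 0 := by
      have := Real.sqrt_pos.2 hpos'
      positivity
    exact S.homog _ hne _ hs i
  have hz : Tendsto (fun k => |S.phi (col (Mk (ψ (φ k))) (Lk (ψ (φ k))) j) i - S.phi x i|) atTop
      (𝓝 0) := by
    have := (hcont'.sub_const (S.phi x i)).abs
    simpa using this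
  have := ge_of_tendsto' hz fun k => (hfacts (φ k)).2
  linarith

/-- Task BK-W6 (Wb): if the maximiser is unique up to sign the limit is `phi x`. Proof:
`W - phi x i = ∑_j (phi (col j) i - phi x i) ω_j`, every term tends to zero (else a subsequence has
`ω_j ≥ η` and `|phi (col j) i - phi x i| ≥ η`; apply `dir_limit`). -/
theorem limW_unique (hn : 0 < n) (S : CS n C) (M : Matrix (Fin n) (Fin n) ℝ) (hM0 : M ≠ 0)
    (w : C → ℝ) (h : LimW S M w) (x : Fin n → ℝ) (hx : RM M x)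
    (hu : ∀ z, RM M z → z = x ∨ z = -x) (i : C) : w i = S.phi x i := by
  obtain ⟨Mk, Lk, hTS, hM, hL, hW⟩ := h
  have hkey := fun j => w6b_key hn S M Mk Lk hTS hM hL hM0 x hx hu i j
  have hpos : ∀ᶠ k in atTop, 0 < ∑ l, (col (Mk k) (Lk k) l ⬝ᵥ col (Mk k) (Lk k) l) := by
    filter_upwards [hM.eventually_ne hM0] with k hk
    exact col_sum_pos hn (Mk k) (hTS k) hk (Lk k)
  have h1 : Tendsto (fun k => ∑ j, (S.phi (col (Mk k) (Lk k) j) i - S.phi x i) *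
      ((col (Mk k) (Lk k) j ⬝ᵥ col (Mk k) (Lk k) j) /
        ∑ l, (col (Mk k) (Lk k) l ⬝ᵥ col (Mk k) (Lk k) l))) atTop (𝓝 0) := by
    have := tendsto_finsetSum Finset.univ fun j _ => hkey j
    simpa using this
  have h2 : Tendsto (fun k => W S (Mk k) (Lk k) i - S.phi x i) atTop (𝓝 0) := by
    refine h1.congr' ?_
    filter_upwards [hpos] with k hk
    unfold W
    set t := ∑ l, (col (Mk k) (Lk k) l ⬝ᵥ col (Mk k) (Lk k) l) with ht
    have e1 : ∀ j, (S.phi (col (Mk k) (Lk k) j) i - S.phi x i) *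
        ((col (Mk k) (Lk k) j ⬝ᵥ col (Mk k) (Lk k) j) / t) =
        (S.phi (col (Mk k) (Lk k) j) i * (col (Mk k) (Lk k) j ⬝ᵥ col (Mk k) (Lk k) j)) / t -
          S.phi x i * ((col (Mk k) (Lk k) j ⬝ᵥ col (Mk k) (Lk k) j) / t) := fun j => by ring
    simp only [e1]
    rw [Finset.sum_sub_distrib, ← Finset.sum_div, ← Finset.mul_sum, ← Finset.sum_div, ← ht,
      div_self hk.ne', mul_one]
  have h3 : Tendsto (fun k => W S (Mk k) (Lk k) i - S.phi x i) atTop (𝓝 (w i - S.phi x i)) :=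
    (hW i).sub_const _
  have := tendsto_nhds_unique h2 h3
  linarith

end BK
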