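import Crest.Agent.BK_W5

set_option autoImplicit false

namespace BK
open Finset Matrix Filter Topology

variable {n : ℕ} {C : Type} [Fintype C]

private theorem w6a_self_nonneg (v : Fin n → ℝ) : 0 ≤ v ⬝ᵥ v :=
  Finset.sum_nonneg fun i _ => mul_self_nonneg (v i)

/-- Task BK-W6 (Wa): a colour with positive limit weight is met by the top eigenspace. -/
theorem limW_max (hn : 0 < n) (S : CS n C) (M : Matrix (Fin n) (Fin n) ℝ) (hM0 : M ≠ 0)
    (w : C → ℝ) (h : LimW S M w) (i : C) (hi : w i ≠ 0) : ∃ x, RM M x ∧ x ∈ S.A i := by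
  obtain ⟨Mk, Lk, hTS, hM, hL, hW⟩ := h
  have hn' : (0 : ℝ) < n := by exact_mod_cast hn
  have hw : 0 < w i := lt_of_le_of_ne (ge_of_tendsto' (hW i) fun k => W_nonneg S _ _ i) hi.symm
  have hev : ∀ᶠ k in atTop, Mk k ≠ 0 ∧ w i / 2 < W S (Mk k) (Lk k) i :=
    (hM.eventually_ne hM0).and ((hW i).eventually (lt_mem_nhds (by linarith)))
  obtain ⟨K, hK⟩ := eventually_atTop.1 hev
  -- a good column for every large `k`
  have hj : ∀ k, ∃ j : Fin n, col (Mk (k + K)) (Lk (k + K)) j ≠ 0 ∧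
      w i / (2 * n) * ∑ l, (col (Mk (k + K)) (Lk (k + K)) l ⬝ᵥ col (Mk (k + K)) (Lk (k + K)) l) ≤
        col (Mk (k + K)) (Lk (k + K)) j ⬝ᵥ col (Mk (k + K)) (Lk (k + K)) j ∧
      S.phi (col (Mk (k + K)) (Lk (k + K)) j) i ≠ 0 := by
    intro k
    obtain ⟨h0, h1⟩ := hK (k + K) (Nat.le_add_left _ _)
    have hpos := col_sum_pos hn (Mk (k + K)) (hTS _) h0 (Lk (k + K))
    set c := col (Mk (k + K)) (Lk (k + K)) with hc
    unfold W at h1
    rw [← hc] at h1
    rw [lt_div_iff₀ hpos] at h1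
    have h2 : ∃ j ∈ (Finset.univ : Finset (Fin n)), w i / (2 * n) * ∑ l, (c l ⬝ᵥ c l) <
        S.phi (c j) i * (c j ⬝ᵥ c j) := by
      apply Finset.exists_lt_of_sum_lt
      rw [Finset.sum_const, Finset.card_univ, Fintype.card_fin, nsmul_eq_mul]
      refine lt_of_le_of_lt (le_of_eq ?_) h1
      field_simp
    obtain ⟨j, -, h2⟩ := h2
    have hη : 0 < w i / (2 * n) * ∑ l, (c l ⬝ᵥ c l) := by positivity
    have h3 : 0 < S.phi (c j) i * (c j ⬝ᵥ c j) := hη.trans h2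
    refine ⟨j, ?_, ?_, ?_⟩
    · intro hz
      rw [hz] at h3
      simp at h3
    · refine h2.le.trans ?_
      calc S.phi (c j) i * (c j ⬝ᵥ c j) ≤ 1 * (c j ⬝ᵥ c j) :=
            mul_le_mul_of_nonneg_right (S.le_one _ i) (w6a_self_nonneg _)
        _ = c j ⬝ᵥ c j := one_mul _
    · intro hz
      rw [hz, zero_mul] at h3
      exact lt_irrefl _ h3
  choose jk hjk using hj
  have hsh : Tendsto (fun k => k + K) atTop atTop := tendsto_add_atTop_nat K
  obtain ⟨φ, hφ, x, hx, hlim⟩ := dir_limit hn M (fun k => Mk (k + K)) (fun k => Lk (k + K)) jk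
    (fun k => hTS _) (hM.comp hsh) (hL.comp hsh) (w i / (2 * n)) (by positivity)
    (fun k => ⟨(hjk k).1, (hjk k).2.1⟩)
  refine ⟨x, hx, ?_⟩
  have hmem : ∀ k, nrm (col (Mk (φ k + K)) (Lk (φ k + K)) (jk (φ k))) ∈
      S.A i ∩ {x | x ⬝ᵥ x = 1} := by
    intro k
    obtain ⟨h1, -, h3⟩ := hjk (φ k)
    set v := col (Mk (φ k + K)) (Lk (φ k + K)) (jk (φ k)) with hv
    have hpos' : 0 < v ⬝ᵥ v := by
      rcases (w6a_self_nonneg v).lt_or_eq with h | h
      · exact h
      · exact absurd (dotProduct_self_eq_zero.1 h.symm) h1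
    have hs := Real.sqrt_pos.2 hpos'
    constructor
    · exact S.A_homog i v (S.supp v i h1 h3) _ (by positivity)
    · show (nrm v) ⬝ᵥ (nrm v) = 1
      unfold nrm
      rw [smul_dotProduct, dotProduct_smul, smul_eq_mul, smul_eq_mul, ← mul_assoc, ← sq,
        div_pow, Real.sq_sqrt hpos'.le, one_pow]
      exact one_div_mul_cancel hpos'.ne'
  have := (S.A_closed i).mem_of_tendsto hlim (Eventually.of_forall hmem)
  exact this.1

end BK
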