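import Crest.Agent.BK_W5
import Crest.Agent.BK_W6a
import Crest.Agent.BK_W6b

set_option autoImplicit false

namespace BK
open Finset Matrix Filter Topology

variable {n : ℕ} {C : Type} [Fintype C]

/-- Task BK-W6 -/
theorem adm_of_limW (hn : 0 < n) (S : CS n C) (M : Matrix (Fin n) (Fin n) ℝ)
    (w : C → ℝ) (h : LimW S M w) : Adm S M w := by
  intro hM0
  have h' := h
  obtain ⟨Mk, Lk, hTS, hM, hL, hW⟩ := h'
  have hne : ∀ᶠ k in atTop, Mk k ≠ 0 := hM.eventually_ne hM0
  refine ⟨fun i => ?_, ?_, fun i hi => limW_max hn S M hM0 w h i hi,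
    fun x hx hu i => limW_unique hn S M hM0 w h x hx hu i⟩
  · exact ge_of_tendsto' (hW i) fun k => W_nonneg S _ _ i
  · have h1 : Tendsto (fun k => ∑ i, W S (Mk k) (Lk k) i) atTop (𝓝 (∑ i, w i)) :=
      tendsto_finsetSum _ fun i _ => hW i
    have h2 : Tendsto (fun k => ∑ i, W S (Mk k) (Lk k) i) atTop (𝓝 1) := by
      refine tendsto_const_nhds.congr' ?_
      filter_upwards [hne] with k hk
      exact (W_sum hn S (Mk k) (hTS k) hk (Lk k)).symm
    exact tendsto_nhds_unique h1 h2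

end BK
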