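import Crest.Agent.BW_Mean

/-! # BW_Blk : statistics of the block (S0085)

All by induction on the number `n` of letters, for general position `w0 : ℤ` and offset.
HINTS (helper18): write `C` for the letter.  From `symm`: for every `f : Om → ℝ` with
`f (!l, -φ, c) = f (l, φ, c)` and `u : Bool → ℝ`: `C (u k.1 * f k) = (u true + u false)/2 * C f`.
So `C (1_{label=true}) = 1/2`, `C (cost 1_{label}) = c/2`, `C (exp(lam cost) 1_{label}) = M/2`,
`C (φ 1_{label = true}) = w/2`, `C (φ 1_{label = false}) = -w/2`, `C (φ² 1_{label}) = V/2`.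
`blk C A n w0` is a `Mean`; symmetry `blk C A n (-w0) h = blk C A n w0 (h ∘ (φ ↦ -φ))`, label good kept.
`VG`: put `G n w0 x := blk C A n w0 (if good then (x + φ)² else 0)`; claim
`G n w0 x = (x - w * w0)² * gd n w0 + 2 w (x - w * w0) * (E[W_n; good]) + w² * w2 A n w0 + n (V - w²) gd n w0`
(`W_n` = final macro position), i.e. `x + φ = (x - w w0) + w W_n + Σ (φ_i - w sgn_i)`.
`V_eq`: `blk (( x + φ)²) = x² + V * nb`, `c_eq`: `blk cost = c * nb`. -/

set_option autoImplicit false

open Finset

namespace Crest.Agent.BW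

/-- statistics of the block except `has` (which is `blk_has` in `BW_Has`) -/
theorem block_of_letter {C : (Om → ℝ) → ℝ} {r s δ V c w lam M : ℝ}
    (h : Letter C r s δ V c w lam M) (hC : Mean C) {N : ℕ} (hN : 1 ≤ N) {A : ℤ} (hA : 2 ≤ A)
    (hhas : Has (blk C A N 0)) :
    Block (blk C A N 0) (V * nb A N 0) (c * nb A N 0) (gd A N 0)
      (w ^ 2 * w2 A N 0 + N * (V - w ^ 2) * gd A N 0) (N * c * gd A N 0)
      (N * Real.sqrt (2 * V)) lam (bd A M N 0) (gd A N 0 * M ^ N) := by
  sorry

end Crest.Agent.BW
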