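import Mathlib

/-!
# BW_Defs : definitions for row S0085 (schemes and rounds; plan of the lead, file by helper18)

* `sg b = ±1`, `ex h` = average of `h` over the cube `ι → Bool`, `SS x = ∑ i, sg (x i)`.
* `DegLE d h` : `h` is a linear combination of functions each depending on at most `d` coordinates.
* `IsCond π φ` : `φ ∘ π` is the conditional expectation of `SS` given the partition `π`.
* `HasScheme D I` : some partition of a cube whose classes all have degree `≤ D` and whose
  "information" `E φ(π)²` is at least `I`.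
* `HasRound Cmax cbar J` : the same with a cost (degree) of each class, mean cost `≤ cbar`.
* `Good C` : the conclusion of S0085 for the constant `C`.
-/

set_option autoImplicit false

open Finset

namespace Crest.Agent.BW

/-- the sign of a Boolean: `true ↦ 1`, `false ↦ -1` -/
def sg (b : Bool) : ℝ := if b then 1 else -1

section

variable {ι : Type} [Fintype ι]

/-- the average over the cube `ι → Bool` -/
noncomputable def ex [DecidableEq ι] (h : (ι → Bool) → ℝ) : ℝ :=
  (∑ x : ι → Bool, h x) / 2 ^ Fintype.card ι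

/-- the sum of all signs -/
noncomputable def SS (x : ι → Bool) : ℝ := ∑ i, sg (x i)

/-- `h` has real degree at most `d` -/
def DegLE (d : ℕ) (h : (ι → Bool) → ℝ) : Prop :=
  h ∈ Submodule.span ℝ {g : (ι → Bool) → ℝ | ∃ T : Finset ι, T.card ≤ d ∧ DependsOn g (T : Set ι)}

/-- indicator of a class of a partition -/
noncomputable def ind {K : Type} [DecidableEq K] (π : (ι → Bool) → K) (k : K) (x : ι → Bool) : ℝ :=
  if π x = k then 1 else 0

/-- `φ ∘ π` is the conditional expectation of `SS` given `π` -/
def IsCond [DecidableEq ι] {K : Type} (π : (ι → Bool) → K) (φ : K → ℝ) : Prop :=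
  ∀ g : K → ℝ, ex (fun x => g (π x) * SS x) = ex (fun x => g (π x) * φ (π x))

end

/-- a partition of some cube, all classes of degree `≤ D`, information at least `I` -/
def HasScheme (D : ℕ) (I : ℝ) : Prop :=
  ∃ (ι K : Type) (_ : Fintype ι) (_ : DecidableEq ι) (_ : Fintype K) (_ : DecidableEq K)
    (π : (ι → Bool) → K) (φ : K → ℝ),
    (∀ k, DegLE D (ind π k)) ∧ IsCond π φ ∧ I ≤ ex (fun x => φ (π x) ^ 2)

/-- a round: a partition with class costs between `1` and `Cmax`, mean cost at most `cbar`,
information at least `J` -/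
def HasRound (Cmax : ℕ) (cbar J : ℝ) : Prop :=
  ∃ (ι K : Type) (_ : Fintype ι) (_ : DecidableEq ι) (_ : Fintype K) (_ : DecidableEq K)
    (π : (ι → Bool) → K) (φ : K → ℝ) (cost : K → ℕ),
    (∀ k, 1 ≤ cost k ∧ cost k ≤ Cmax) ∧ (∀ k, DegLE (cost k) (ind π k)) ∧ IsCond π φ ∧
    ex (fun x => (cost (π x) : ℝ)) ≤ cbar ∧ J ≤ ex (fun x => φ (π x) ^ 2)

/-- the conclusion of S0085 for the constant `C` -/
def Good (C : ℝ) : Prop :=
  ∃ n : ℕ, ∃ f : (Fin n → Bool) → Bool, ∃ d : ℕ,
      (∃ x y, f x ≠ f y) ∧
      (∀ S : Finset (Fin n), d < S.card →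
        ∑ x : Fin n → Bool, ((if f x then (1 : ℝ) else -1) * ∏ i ∈ S, (if x i then (1 : ℝ) else -1)) = 0) ∧
      C * Real.sqrt d <
        ∑ i : Fin n, (∑ x : Fin n → Bool, ((if f x then (1 : ℝ) else -1) * (if x i then (1 : ℝ) else -1))) / 2 ^ n

end Crest.Agent.BW
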