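import Crest.Agent.BW_Ex

/-! # BW_Deg : functions of bounded degree on the cube (S0085, helper18) -/

set_option autoImplicit false

open Finset

namespace Crest.Agent.BW

variable {ι κ : Type}

theorem DegLE.mono {d d' : ℕ} {h : (ι → Bool) → ℝ} (hd : DegLE d h) (hdd : d ≤ d') :
    DegLE d' h := by
  refine Submodule.span_mono ?_ hd
  rintro g ⟨T, hT, hg⟩
  exact ⟨T, hT.trans hdd, hg⟩

theorem DegLE.of_dep {d : ℕ} {h : (ι → Bool) → ℝ} (T : Finset ι) (hT : T.card ≤ d)
    (hg : DependsOn h (T : Set ι)) : DegLE d h :=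
  Submodule.subset_span ⟨T, hT, hg⟩

theorem DegLE.cast {d : ℕ} {f g : (ι → Bool) → ℝ} (hf : DegLE d f) (h : ∀ x, f x = g x) :
    DegLE d g := by
  have : f = g := funext h
  rwa [← this]

theorem DegLE.const (c : ℝ) (d : ℕ) : DegLE d (fun _ : ι → Bool => c) :=
  DegLE.of_dep ∅ (by simp) (fun _ _ _ => rfl)

theorem DegLE.add {d : ℕ} {f g : (ι → Bool) → ℝ} (hf : DegLE d f) (hg : DegLE d g) :
    DegLE d (fun x => f x + g x) := Submodule.add_mem _ hf hg

theorem DegLE.smul {d : ℕ} {f : (ι → Bool) → ℝ} (hf : DegLE d f) (c : ℝ) :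
    DegLE d (fun x => c * f x) := Submodule.smul_mem _ c hf

theorem DegLE.sub {d : ℕ} {f g : (ι → Bool) → ℝ} (hf : DegLE d f) (hg : DegLE d g) :
    DegLE d (fun x => f x - g x) := Submodule.sub_mem _ hf hg

theorem DegLE.sum {d : ℕ} {A : Type*} (s : Finset A) {f : A → (ι → Bool) → ℝ}
    (hf : ∀ a ∈ s, DegLE d (f a)) : DegLE d (fun x => ∑ a ∈ s, f a x) := by
  have h : ∑ a ∈ s, f a ∈ Submodule.span ℝ {g : (ι → Bool) → ℝ | ∃ T : Finset ι, T.card ≤ d ∧
      DependsOn g (T : Set ι)} := Submodule.sum_mem _ hf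
  have h2 : (fun x => ∑ a ∈ s, f a x) = ∑ a ∈ s, f a := by
    funext x; simp
  unfold DegLE
  rw [h2]
  exact h

/-- induction principle -/
theorem DegLE.ind {d : ℕ} {p : ((ι → Bool) → ℝ) → Prop}
    (hdep : ∀ (g : (ι → Bool) → ℝ) (T : Finset ι), T.card ≤ d → DependsOn g (T : Set ι) → p g)
    (hadd : ∀ f g : (ι → Bool) → ℝ, p f → p g → p (fun x => f x + g x))
    (hsmul : ∀ (c : ℝ) (f : (ι → Bool) → ℝ), p f → p (fun x => c * f x))
    {f : (ι → Bool) → ℝ} (hf : DegLE d f) : p f := by
  refine Submodule.span_induction (p := fun f _ => p f) ?_ ?_ ?_ ?_ hf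
  · rintro g ⟨T, hT, hg⟩
    exact hdep g T hT hg
  · exact hdep _ ∅ (by simp) (fun _ _ _ => rfl)
  · intro f g _ _ h1 h2
    exact hadd f g h1 h2
  · intro c f _ h1
    exact hsmul c f h1

theorem DegLE.mul {d e : ℕ} {f g : (ι → Bool) → ℝ} (hf : DegLE d f) (hg : DegLE e g) :
    DegLE (d + e) (fun x => f x * g x) := by
  classical
  refine DegLE.ind (p := fun f => DegLE (d + e) (fun x => f x * g x)) ?_ ?_ ?_ hf
  · intro f T hT hfT
    refine DegLE.ind (p := fun g => DegLE (d + e) (fun x => f x * g x)) ?_ ?_ ?_ hg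
    · intro g U hU hgU
      refine DegLE.of_dep (T ∪ U) ((card_union_le _ _).trans (add_le_add hT hU)) ?_
      intro x y hxy
      have h1 : f x = f y := hfT fun i hi => hxy i (by
        simp only [coe_union, Set.mem_union]; exact Or.inl hi)
      have h2 : g x = g y := hgU fun i hi => hxy i (by
        simp only [coe_union, Set.mem_union]; exact Or.inr hi)
      simp only [h1, h2]
    · intro g1 g2 h1 h2
      exact (h1.add h2).cast fun x => by ring
    · intro c g1 h1
      exact (h1.smul c).cast fun x => by ring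
  · intro f1 f2 h1 h2
    exact (h1.add h2).cast fun x => by ring
  · intro c f1 h1
    exact (h1.smul c).cast fun x => by ring

/-- a function of one coordinate -/
theorem DegLE.coord (i : ι) (f : Bool → ℝ) : DegLE 1 (fun x : ι → Bool => f (x i)) := by
  refine DegLE.of_dep {i} (by simp) ?_
  intro x y hxy
  have := hxy i (by simp)
  simp only [this]

/-- pull-back along any map of coordinates -/
theorem DegLE.comap {d : ℕ} {f : (ι → Bool) → ℝ} (hf : DegLE d f) (e : ι → κ) :
    DegLE d (fun x : κ → Bool => f (x ∘ e)) := by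
  classical
  refine DegLE.ind (p := fun f => DegLE d (fun x : κ → Bool => f (x ∘ e))) ?_ ?_ ?_ hf
  · intro f T hT hfT
    refine DegLE.of_dep (T.image e) (card_image_le.trans hT) ?_
    intro x y hxy
    refine hfT fun i hi => ?_
    exact hxy (e i) (by simp only [coe_image]; exact ⟨i, hi, rfl⟩)
  · intro g1 g2 h1 h2
    exact h1.add h2
  · intro c g1 h1
    exact h1.smul c

/-- flipping all inputs -/
theorem DegLE.flip {d : ℕ} {f : (ι → Bool) → ℝ} (hf : DegLE d f) :
    DegLE d (fun x : ι → Bool => f (fun i => !x i)) := by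
  refine DegLE.ind (p := fun f => DegLE d (fun x : ι → Bool => f (fun i => !x i))) ?_ ?_ ?_ hf
  · intro f T hT hfT
    refine DegLE.of_dep T hT ?_
    intro x y hxy
    exact hfT fun i hi => by simp only [hxy i hi]
  · intro g1 g2 h1 h2
    exact h1.add h2
  · intro c g1 h1
    exact h1.smul c

/-- products over finite families -/
theorem DegLE.prod_fam {A : Type*} (s : Finset A) {d : A → ℕ} {f : A → (ι → Bool) → ℝ}
    (hf : ∀ a ∈ s, DegLE (d a) (f a)) : DegLE (∑ a ∈ s, d a) (fun x => ∏ a ∈ s, f a x) := by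
  classical
  induction s using Finset.induction_on with
  | empty => simpa using DegLE.const (ι := ι) 1 0
  | insert a s ha ih =>
    rw [sum_insert ha]
    refine (((hf a (mem_insert_self _ _)).mul (ih fun b hb => hf b (mem_insert_of_mem hb)))).cast ?_
    intro x
    rw [prod_insert ha]

/-- every function has degree at most the number of coordinates -/
theorem DegLE.card [Fintype ι] (f : (ι → Bool) → ℝ) : DegLE (Fintype.card ι) f := by
  refine DegLE.of_dep univ (by simp) ?_
  intro x y hxy
  have : x = y := funext fun i => hxy i (by simp)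
  rw [this]

/-- orthogonality to high characters -/
theorem DegLE.orth [Fintype ι] [DecidableEq ι] {d : ℕ} {f : (ι → Bool) → ℝ} (hf : DegLE d f)
    (T : Finset ι) (hT : d < T.card) : ∑ x : ι → Bool, f x * ∏ i ∈ T, sg (x i) = 0 := by
  refine DegLE.ind (p := fun f => ∑ x : ι → Bool, f x * ∏ i ∈ T, sg (x i) = 0) ?_ ?_ ?_ hf
  · intro f U hU hfU
    obtain ⟨i, hiT, hiU⟩ : ∃ i ∈ T, i ∉ U := by
      by_contra hcon
      push Not at hcon
      exact absurd (card_le_card hcon) (by omega)
    have h2 : ∑ x : ι → Bool, f x * ∏ i ∈ T, sg (x i) =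
        ∑ x : ι → Bool, -(f x * ∏ i ∈ T, sg (x i)) := by
      refine Fintype.sum_bijective (fun x => Function.update x i (!x i)) ?_ _ _ ?_
      · refine Function.Involutive.bijective ?_
        intro x
        ext j
        by_cases hj : j = i
        · subst hj; simp
        · simp [hj]
      · intro x
        have h1 : f (Function.update x i (!x i)) = f x := hfU fun j hj => by
          rw [Function.update_of_ne]
          rintro rfl
          exact hiU hj
        rw [h1, ← mul_prod_erase T (fun j => sg (x j)) hiT,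
          ← mul_prod_erase T (fun j => sg (Function.update x i (!x i) j)) hiT]
        have h3 : ∏ j ∈ T.erase i, sg (Function.update x i (!x i) j) =
            ∏ j ∈ T.erase i, sg (x j) := by
          refine prod_congr rfl fun j hj => ?_
          rw [Function.update_of_ne (ne_of_mem_erase hj)]
        rw [h3, Function.update_self]
        cases x i <;> simp [sg]
    rw [sum_neg_distrib] at h2
    linarith
  · intro g1 g2 h1 h2
    simp only [add_mul, sum_add_distrib, h1, h2, add_zero]
  · intro c g1 h1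
    simp only [mul_assoc, ← mul_sum, h1, mul_zero]

end Crest.Agent.BW
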