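import Mathlib

/-! # BW_E_Law : the law of a normalised sum of `L` i.i.d. finite-valued variables, and the CLT

`K` finite, `w : K → ℝ` probability weights, `φ : K → ℝ` with mean `0` and second moment `v > 0`.
`Zn φ v L k = (∑ l, φ (k l)) / √(L v)` for `k : Fin L → K`, `PW w L k = ∏ l, w (k l)`. -/

set_option autoImplicit false

open MeasureTheory ProbabilityTheory Filter Topology
open scoped ENNReal

namespace Crest.Agent.BW

/-- normalised sum -/
noncomputable def Zn {K : Type*} (φ : K → ℝ) (v : ℝ) (L : ℕ) (k : Fin L → K) : ℝ :=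
  (∑ l, φ (k l)) / Real.sqrt (L * v)

/-- product weight -/
noncomputable def PW {K : Type*} (w : K → ℝ) (L : ℕ) (k : Fin L → K) : ℝ := ∏ l, w (k l)

variable {K : Type*} [Fintype K] {w φ : K → ℝ} {v : ℝ}

omit [Fintype K] in
theorem PW_nonneg (hw : ∀ k, 0 ≤ w k) (L : ℕ) (k : Fin L → K) : 0 ≤ PW w L k :=
  Finset.prod_nonneg fun _ _ => hw _

theorem sum_PW (h1 : ∑ k, w k = 1) (L : ℕ) : ∑ k : Fin L → K, PW w L k = 1 := by
  have := Fintype.sum_pow w L
  rw [h1, one_pow] at this
  exact this.symm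

/-- the law of `Zn` -/
noncomputable def lawZ (w φ : K → ℝ) (v : ℝ) (L : ℕ) : Measure ℝ :=
  ∑ k : Fin L → K, ENNReal.ofReal (PW w L k) • Measure.dirac (Zn φ v L k)

theorem lawZ_prob (hw : ∀ k, 0 ≤ w k) (h1 : ∑ k, w k = 1) (φ : K → ℝ) (v : ℝ) (L : ℕ) :
    IsProbabilityMeasure (lawZ w φ v L) := by
  constructor
  simp only [lawZ, Measure.finsetSum_apply, Measure.smul_apply, measure_univ, smul_eq_mul, mul_one]
  rw [← ENNReal.ofReal_sum_of_nonneg fun k _ => PW_nonneg hw L k, sum_PW h1, ENNReal.ofReal_one]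

theorem integrable_lawZ {E : Type*} [NormedAddCommGroup E] (f : ℝ → E) (L : ℕ) :
    Integrable f (lawZ w φ v L) := by
  refine integrable_finsetSum_measure.2 fun k _ => ?_
  refine Integrable.smul_measure ?_ ENNReal.ofReal_ne_top
  exact integrable_dirac (by simp)

theorem integral_lawZ {E : Type*} [NormedAddCommGroup E] [NormedSpace ℝ E] [CompleteSpace E]
    (hw : ∀ k, 0 ≤ w k) (f : ℝ → E) (L : ℕ) :
    ∫ x, f x ∂(lawZ w φ v L) = ∑ k : Fin L → K, PW w L k • f (Zn φ v L k) := by
  rw [lawZ, integral_finsetSum_measure]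
  · refine Finset.sum_congr rfl fun k _ => ?_
    rw [integral_smul_measure, integral_dirac, ENNReal.toReal_ofReal (PW_nonneg hw L k)]
  · intro k _
    refine Integrable.smul_measure ?_ ENNReal.ofReal_ne_top
    exact integrable_dirac (by simp)

/-- characteristic function of `lawZ` -/
theorem charFun_lawZ (hw : ∀ k, 0 ≤ w k) (L : ℕ) (t : ℝ) :
    charFun (lawZ w φ v L) t =
      (∑ k, (w k : ℂ) * Complex.exp (((t / Real.sqrt (L * v) * φ k : ℝ) : ℂ) * Complex.I)) ^ L := by
  rw [charFun_apply_real, integral_lawZ hw, Fintype.sum_pow]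
  refine Finset.sum_congr rfl fun k _ => ?_
  rw [Finset.prod_mul_distrib, ← Complex.exp_sum, ← Finset.sum_mul, PW, Complex.real_smul]
  push_cast
  congr 2
  rw [Zn]
  push_cast
  rw [Finset.sum_div, Finset.mul_sum]
  congr 1
  refine Finset.sum_congr rfl fun l _ => ?_
  ring

/-- the central limit theorem for `lawZ` -/
theorem charFun_lawZ_tendsto (hw : ∀ k, 0 ≤ w k) (h1 : ∑ k, w k = 1) (h0 : ∑ k, w k * φ k = 0)
    (hv : ∑ k, w k * φ k ^ 2 = v) (hv0 : 0 < v) (t : ℝ) :
    Tendsto (fun L => charFun (lawZ w φ v L) t) atTop (𝓝 (charFun (gaussianReal 0 1) t)) := by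
  let _ : MeasurableSpace K := ⊤
  let P : Measure K := ∑ k, ENNReal.ofReal (w k) • Measure.dirac k
  have hP : ∀ {E : Type} [NormedAddCommGroup E] [NormedSpace ℝ E] [CompleteSpace E] (f : K → E),
      ∫ k, f k ∂P = ∑ k, w k • f k := by
    intro E _ _ _ f
    have hint : ∀ k ∈ Finset.univ, Integrable f (ENNReal.ofReal (w k) • Measure.dirac k) := by
      intro k _
      refine Integrable.smul_measure ?_ ENNReal.ofReal_ne_top
      exact integrable_dirac (by simp)
    rw [integral_finsetSum_measure hint]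
    refine Finset.sum_congr rfl fun k _ => ?_
    rw [integral_smul_measure, integral_dirac, ENNReal.toReal_ofReal (hw k)]
  have : IsProbabilityMeasure P := by
    constructor
    simp only [P, Measure.finsetSum_apply, Measure.smul_apply, measure_univ, smul_eq_mul, mul_one]
    rw [← ENNReal.ofReal_sum_of_nonneg fun k _ => hw k, h1, ENNReal.ofReal_one]
  let X : K → ℝ := fun k => φ k / Real.sqrt v
  have hX : Measurable X := measurable_from_top
  have hX0 : P[X] = 0 := by
    rw [hP]
    simp only [X, smul_eq_mul]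
    simp_rw [← mul_div_assoc]
    rw [← Finset.sum_div, h0, zero_div]
  have hX1 : P[X ^ 2] = 1 := by
    rw [hP]
    simp only [X, smul_eq_mul, Pi.pow_apply, div_pow, Real.sq_sqrt hv0.le]
    simp_rw [← mul_div_assoc]
    rw [← Finset.sum_div, hv, div_self hv0.ne']
  have h2 := tendsto_charFun_inv_sqrt_mul_pow hX.aemeasurable hX0 hX1 t
  have h3 : charFun (gaussianReal 0 1) t = Complex.exp (- (t : ℂ) ^ 2 / 2) := by
    rw [charFun_gaussianReal]
    simp
    ring_nf
  rw [h3]
  refine h2.congr fun L => ?_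
  rw [charFun_lawZ hw]
  congr 1
  rw [charFun_apply_real, integral_map hX.aemeasurable (by fun_prop), hP]
  refine Finset.sum_congr rfl fun k _ => ?_
  rw [Complex.real_smul]
  congr 2
  simp only [X]
  rw [Real.sqrt_mul (Nat.cast_nonneg L)]
  push_cast
  ring

end Crest.Agent.BW
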