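import Crest.Agent.BW_E_Weak
import Crest.Agent.BW_E_Law

/-! # BW_E_Cell : convergence of the cell moments (part (E) of the S0085 plan) -/

set_option autoImplicit false

open MeasureTheory ProbabilityTheory Filter Topology
open scoped ENNReal

namespace Crest.Agent.BW

variable {K : Type*} [Fintype K] {w φ : K → ℝ} {v : ℝ}

theorem sum_succ (L : ℕ) (F : (Fin (L + 1) → K) → ℝ) :
    ∑ k : Fin (L + 1) → K, PW w (L + 1) k * F k =
      ∑ k0 : K, ∑ k' : Fin L → K, w k0 * PW w L k' * F (Fin.cons k0 k') := by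
  rw [← (Fin.consEquiv (fun _ : Fin (L + 1) => K)).sum_comp, Fintype.sum_prod_type]
  refine Finset.sum_congr rfl fun k0 _ => Finset.sum_congr rfl fun k' _ => ?_
  simp [PW, Fin.consEquiv, Fin.prod_univ_succ]

theorem sum_PW_mul_sum (h1 : ∑ k, w k = 1) (h0 : ∑ k, w k * φ k = 0) (L : ℕ) :
    ∑ k : Fin L → K, PW w L k * ∑ l, φ (k l) = 0 := by
  induction L with
  | zero => simp
  | succ L ih =>
    rw [sum_succ]
    simp only [Fin.sum_univ_succ, Fin.cons_zero, Fin.cons_succ]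
    have : ∀ k0 : K, ∑ k' : Fin L → K, w k0 * PW w L k' * (φ k0 + ∑ i, φ (k' i)) =
        w k0 * φ k0 := by
      intro k0
      have e : ∀ k' : Fin L → K, w k0 * PW w L k' * (φ k0 + ∑ i, φ (k' i)) =
          (w k0 * φ k0) * PW w L k' + w k0 * (PW w L k' * ∑ i, φ (k' i)) := fun k' => by ring
      rw [Finset.sum_congr rfl fun k' _ => e k', Finset.sum_add_distrib, ← Finset.mul_sum,
        ← Finset.mul_sum, sum_PW h1, ih]
      ring
    rw [Finset.sum_congr rfl fun k0 _ => this k0, h0]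

theorem sum_PW_mul_sum_sq (h1 : ∑ k, w k = 1) (h0 : ∑ k, w k * φ k = 0)
    (hv : ∑ k, w k * φ k ^ 2 = v) (L : ℕ) :
    ∑ k : Fin L → K, PW w L k * (∑ l, φ (k l)) ^ 2 = L * v := by
  induction L with
  | zero => simp
  | succ L ih =>
    rw [sum_succ]
    simp only [Fin.sum_univ_succ, Fin.cons_zero, Fin.cons_succ]
    have : ∀ k0 : K, ∑ k' : Fin L → K, w k0 * PW w L k' * (φ k0 + ∑ i, φ (k' i)) ^ 2 =
        w k0 * φ k0 ^ 2 + w k0 * (L * v) := by
      intro k0
      have e : ∀ k' : Fin L → K, w k0 * PW w L k' * (φ k0 + ∑ i, φ (k' i)) ^ 2 =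
          (w k0 * φ k0 ^ 2) * PW w L k' + (2 * w k0 * φ k0) * (PW w L k' * ∑ i, φ (k' i)) +
            w k0 * (PW w L k' * (∑ i, φ (k' i)) ^ 2) := fun k' => by ring
      rw [Finset.sum_congr rfl fun k' _ => e k', Finset.sum_add_distrib, Finset.sum_add_distrib,
        ← Finset.mul_sum, ← Finset.mul_sum, ← Finset.mul_sum, sum_PW h1, sum_PW_mul_sum h1 h0, ih]
      ring
    rw [Finset.sum_congr rfl fun k0 _ => this k0, Finset.sum_add_distrib, hv, ← Finset.sum_mul, h1]
    push_cast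
    ring

/-- `E Z = 0` -/
theorem lawZ_mean (hw : ∀ k, 0 ≤ w k) (h1 : ∑ k, w k = 1) (h0 : ∑ k, w k * φ k = 0) (L : ℕ) :
    ∫ x, x ∂(lawZ w φ v L) = 0 := by
  rw [integral_lawZ hw]
  have e : ∀ k : Fin L → K, PW w L k • Zn φ v L k =
      (PW w L k * ∑ l, φ (k l)) / Real.sqrt (L * v) := fun k => by
    rw [Zn, smul_eq_mul, mul_div_assoc]
  rw [Finset.sum_congr rfl fun k _ => e k, ← Finset.sum_div, sum_PW_mul_sum h1 h0, zero_div]

/-- `E Z² = 1` -/
theorem lawZ_sq (hw : ∀ k, 0 ≤ w k) (h1 : ∑ k, w k = 1) (h0 : ∑ k, w k * φ k = 0)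
    (hv : ∑ k, w k * φ k ^ 2 = v) (hv0 : 0 < v) {L : ℕ} (hL : 0 < L) :
    ∫ x, x ^ 2 ∂(lawZ w φ v L) = 1 := by
  have hLv : (0 : ℝ) < L * v := by positivity
  rw [integral_lawZ hw]
  have e : ∀ k : Fin L → K, PW w L k • Zn φ v L k ^ 2 =
      (PW w L k * (∑ l, φ (k l)) ^ 2) / (L * v) := fun k => by
    rw [Zn, smul_eq_mul, div_pow, Real.sq_sqrt hLv.le, mul_div_assoc]
  rw [Finset.sum_congr rfl fun k _ => e k, ← Finset.sum_div, sum_PW_mul_sum_sq h1 h0 hv,
    div_self hLv.ne']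

theorem integrable_gauss_sq : Integrable (fun x : ℝ => x ^ 2) (gaussianReal 0 1) :=
  (memLp_id_gaussianReal 2).integrable_sq

theorem integrable_gauss_id : Integrable (fun x : ℝ => x) (gaussianReal 0 1) :=
  (memLp_id_gaussianReal 1).integrable (by norm_num)

theorem integral_gauss_sq : ∫ x : ℝ, x ^ 2 ∂(gaussianReal 0 1) = 1 := by
  have h := variance_eq_integral (μ := gaussianReal 0 1) (X := id) (by fun_prop)
  rw [variance_id_gaussianReal] at h
  simp only [id_eq] at h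
  rw [integral_id_gaussianReal] at h
  simpa using h.symm

theorem integral_gauss_id : ∫ x : ℝ, x ∂(gaussianReal 0 1) = 0 := integral_id_gaussianReal

theorem integral_quad (μ : Measure ℝ) [IsProbabilityMeasure μ] (h1 : Integrable (fun x : ℝ => x) μ)
    (h2 : Integrable (fun x : ℝ => x ^ 2) μ) (a b c : ℝ) :
    ∫ x, (a + b * x + c * x ^ 2) ∂μ = a + b * ∫ x, x ∂μ + c * ∫ x, x ^ 2 ∂μ := by
  have e1 : ∫ x, (a + b * x + c * x ^ 2) ∂μ = ∫ x, (a + b * x) ∂μ + ∫ x, c * x ^ 2 ∂μ :=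
    integral_add ((integrable_const a).add (h1.const_mul b)) (h2.const_mul c)
  have e2 : ∫ x, (a + b * x) ∂μ = ∫ _, a ∂μ + ∫ x, b * x ∂μ :=
    integral_add (integrable_const a) (h1.const_mul b)
  rw [e1, e2, integral_const_mul, integral_const_mul]
  simp

/-- the laws as probability measures, converging to the standard Gaussian -/
theorem lawZ_tendsto (hw : ∀ k, 0 ≤ w k) (h1 : ∑ k, w k = 1) (h0 : ∑ k, w k * φ k = 0)
    (hv : ∑ k, w k * φ k ^ 2 = v) (hv0 : 0 < v) :
    Tendsto (β := ProbabilityMeasure ℝ) (fun L => ⟨lawZ w φ v L, lawZ_prob hw h1 φ v L⟩) atTop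
      (𝓝 ⟨gaussianReal 0 1, inferInstance⟩) :=
  ProbabilityMeasure.tendsto_iff_tendsto_charFun.2 (charFun_lawZ_tendsto hw h1 h0 hv hv0)

theorem cell_tendsto_of_nonneg (hw : ∀ k, 0 ≤ w k) (h1 : ∑ k, w k = 1)
    (h0 : ∑ k, w k * φ k = 0) (hv : ∑ k, w k * φ k ^ 2 = v) (hv0 : 0 < v) {S : Set ℝ}
    (hS : MeasurableSet S) (hfr : gaussianReal 0 1 (frontier S) = 0) (a b c : ℝ)
    (hnn : ∀ x : ℝ, 0 ≤ a + b * x + c * x ^ 2) :
    Tendsto (fun L => ∫ x in S, (a + b * x + c * x ^ 2) ∂(lawZ w φ v L)) atTop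
      (𝓝 (∫ x in S, (a + b * x + c * x ^ 2) ∂(gaussianReal 0 1))) := by
  refine setIntegral_tendsto (lawZ_tendsto hw h1 h0 hv hv0) (by fun_prop) hnn ?_ ?_ ?_ hS hfr
  · exact ((integrable_const a).add (integrable_gauss_id.const_mul b)).add
      (integrable_gauss_sq.const_mul c)
  · exact fun L => integrable_lawZ _ L
  · refine tendsto_const_nhds.congr' ?_
    filter_upwards [eventually_gt_atTop 0] with L hL
    have := lawZ_prob hw h1 φ v L
    change ∫ x, (a + b * x + c * x ^ 2) ∂(gaussianReal 0 1) =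
      ∫ x, (a + b * x + c * x ^ 2) ∂(lawZ w φ v L)
    rw [integral_quad _ integrable_gauss_id integrable_gauss_sq,
      integral_quad _ (integrable_lawZ _ L) (integrable_lawZ _ L), lawZ_mean hw h1 h0,
      lawZ_sq hw h1 h0 hv hv0 hL, integral_gauss_sq, integral_gauss_id]

/-- **(E)** convergence of all cell moments -/
theorem cell_tendsto (hw : ∀ k, 0 ≤ w k) (h1 : ∑ k, w k = 1) (h0 : ∑ k, w k * φ k = 0)
    (hv : ∑ k, w k * φ k ^ 2 = v) (hv0 : 0 < v) {S : Set ℝ} (hS : MeasurableSet S)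
    (hfr : gaussianReal 0 1 (frontier S) = 0) (a b c : ℝ) :
    Tendsto (fun L => ∫ x in S, (a + b * x + c * x ^ 2) ∂(lawZ w φ v L)) atTop
      (𝓝 (∫ x in S, (a + b * x + c * x ^ 2) ∂(gaussianReal 0 1))) := by
  have t1 := cell_tendsto_of_nonneg hw h1 h0 hv hv0 hS hfr (|a| + |b| + a) b (|b| + |c| + c)
    (fun x => by
      have := neg_abs_le a
      have := neg_abs_le c
      have h3 : |b * x| ≤ |b| * (1 + x ^ 2) := by
        rw [abs_mul]
        refine mul_le_mul_of_nonneg_left ?_ (abs_nonneg b)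
        nlinarith [abs_nonneg x, sq_abs x, sq_nonneg (|x| - 1)]
      have h4 := neg_abs_le (b * x)
      nlinarith [sq_nonneg x, mul_nonneg (by linarith : (0 : ℝ) ≤ |c| + c) (sq_nonneg x)])
  have t2 := cell_tendsto_of_nonneg hw h1 h0 hv hv0 hS hfr (|a| + |b|) 0 (|b| + |c|)
    (fun x => by
      have := abs_nonneg a
      have := abs_nonneg b
      have := abs_nonneg c
      have := mul_nonneg (by linarith : (0 : ℝ) ≤ |b| + |c|) (sq_nonneg x)
      linarith)
  have t3 := t1.sub t2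
  have e : ∀ μ : Measure ℝ, IsFiniteMeasure μ → Integrable (fun x : ℝ => x) μ →
      Integrable (fun x : ℝ => x ^ 2) μ →
      ∫ x in S, ((|a| + |b| + a) + b * x + (|b| + |c| + c) * x ^ 2) ∂μ -
        ∫ x in S, ((|a| + |b|) + 0 * x + (|b| + |c|) * x ^ 2) ∂μ =
      ∫ x in S, (a + b * x + c * x ^ 2) ∂μ := by
    intro μ _ hi1 hi2
    rw [← integral_sub]
    · refine integral_congr_ae (ae_of_all _ fun x => ?_)
      simp only
      ring
    · exact (((integrable_const _).add (hi1.const_mul _)).add (hi2.const_mul _)).integrableOn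
    · exact (((integrable_const _).add (hi1.const_mul _)).add (hi2.const_mul _)).integrableOn
  rw [e _ inferInstance integrable_gauss_id integrable_gauss_sq] at t3
  refine t3.congr fun L => ?_
  have := lawZ_prob hw h1 φ v L
  exact e _ inferInstance (integrable_lawZ _ L) (integrable_lawZ _ L)

end Crest.Agent.BW
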