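import Mathlib

/-! # BW_E_Weak : weak convergence with quadratic weights on sets with null frontier

General (no schemes): `μs n → μ` weakly, `w ≥ 0` continuous, `∫ w dμs → ∫ w dμ`; then
`∫_S w dμs → ∫_S w dμ` for every measurable `S` with `μ (frontier S) = 0`. -/

set_option autoImplicit false

open MeasureTheory ProbabilityTheory Filter Topology
open scoped ENNReal

namespace Crest.Agent.BW

/-- lower semicontinuity on open sets, with a nonnegative continuous weight -/
theorem lintegral_open_le_liminf {μ : ProbabilityMeasure ℝ} {μs : ℕ → ProbabilityMeasure ℝ}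
    (h : Tendsto μs atTop (𝓝 μ)) {w : ℝ → ℝ} (hw : Continuous w) (hw0 : ∀ x, 0 ≤ w x)
    {U : Set ℝ} (hU : IsOpen U) :
    ∫⁻ x in U, ENNReal.ofReal (w x) ∂(μ : Measure ℝ) ≤
      atTop.liminf fun n => ∫⁻ x in U, ENNReal.ofReal (w x) ∂(μs n : Measure ℝ) := by
  refine lintegral_le_liminf_lintegral_of_forall_isOpen_measure_le_liminf_measure hw hw0
    fun G hG => ?_
  have h1 := ProbabilityMeasure.le_liminf_measure_open_of_tendsto h (hG.inter hU)
  simpa only [Measure.restrict_apply hG.measurableSet] using h1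

theorem eventually_lt_setIntegral {μ : ProbabilityMeasure ℝ} {μs : ℕ → ProbabilityMeasure ℝ}
    (h : Tendsto μs atTop (𝓝 μ)) {w : ℝ → ℝ} (hw : Continuous w) (hw0 : ∀ x, 0 ≤ w x)
    (hi : Integrable w (μ : Measure ℝ)) (his : ∀ n, Integrable w (μs n : Measure ℝ))
    {U : Set ℝ} (hU : IsOpen U) {a : ℝ} (ha : a < ∫ x in U, w x ∂(μ : Measure ℝ)) :
    ∀ᶠ n in atTop, a < ∫ x in U, w x ∂(μs n : Measure ℝ) := by
  rcases lt_or_ge a 0 with h0 | h0
  · exact Eventually.of_forall fun n => h0.trans_le (integral_nonneg hw0)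
  have h1 := lintegral_open_le_liminf h hw hw0 hU
  have h2 : ENNReal.ofReal a < ∫⁻ x in U, ENNReal.ofReal (w x) ∂(μ : Measure ℝ) := by
    rw [← ofReal_integral_eq_lintegral_ofReal hi.integrableOn (ae_of_all _ hw0)]
    exact (ENNReal.ofReal_lt_ofReal_iff_of_nonneg h0).2 ha
  have h3 := eventually_lt_of_lt_liminf (h2.trans_le h1)
  filter_upwards [h3] with n hn
  rw [← ofReal_integral_eq_lintegral_ofReal (his n).integrableOn (ae_of_all _ hw0)] at hn
  exact (ENNReal.ofReal_lt_ofReal_iff_of_nonneg h0).1 hn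

theorem setIntegral_tendsto {μ : ProbabilityMeasure ℝ} {μs : ℕ → ProbabilityMeasure ℝ}
    (h : Tendsto μs atTop (𝓝 μ)) {w : ℝ → ℝ} (hw : Continuous w) (hw0 : ∀ x, 0 ≤ w x)
    (hi : Integrable w (μ : Measure ℝ)) (his : ∀ n, Integrable w (μs n : Measure ℝ))
    (htot : Tendsto (fun n => ∫ x, w x ∂(μs n : Measure ℝ)) atTop (𝓝 (∫ x, w x ∂(μ : Measure ℝ))))
    {S : Set ℝ} (hS : MeasurableSet S) (hfr : (μ : Measure ℝ) (frontier S) = 0) :
    Tendsto (fun n => ∫ x in S, w x ∂(μs n : Measure ℝ)) atTop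
      (𝓝 (∫ x in S, w x ∂(μ : Measure ℝ))) := by
  have hint : ∫ x in interior S, w x ∂(μ : Measure ℝ) = ∫ x in S, w x ∂(μ : Measure ℝ) :=
    setIntegral_congr_set (interior_ae_eq_of_null_frontier hfr)
  have hfr' : (μ : Measure ℝ) (frontier Sᶜ) = 0 := by rwa [frontier_compl]
  have hint' : ∫ x in interior Sᶜ, w x ∂(μ : Measure ℝ) = ∫ x in Sᶜ, w x ∂(μ : Measure ℝ) :=
    setIntegral_congr_set (interior_ae_eq_of_null_frontier hfr')
  have hadd : ∫ x in S, w x ∂(μ : Measure ℝ) + ∫ x in Sᶜ, w x ∂(μ : Measure ℝ) =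
      ∫ x, w x ∂(μ : Measure ℝ) := integral_add_compl hS hi
  have hadds : ∀ n, ∫ x in S, w x ∂(μs n : Measure ℝ) + ∫ x in Sᶜ, w x ∂(μs n : Measure ℝ) =
      ∫ x, w x ∂(μs n : Measure ℝ) := fun n => integral_add_compl hS (his n)
  refine tendsto_order.2 ⟨fun a ha => ?_, fun a ha => ?_⟩
  · filter_upwards [eventually_lt_setIntegral h hw hw0 hi his isOpen_interior
      (hint.symm ▸ ha)] with n hn
    refine hn.trans_le (setIntegral_mono_set (his n).integrableOn (ae_of_all _ hw0) ?_)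
    exact LE.le.eventuallyLE interior_subset
  · obtain ⟨b, hb, hba⟩ : ∃ b, ∫ x in S, w x ∂(μ : Measure ℝ) < b ∧ b < a := exists_between ha
    have h1 : ∫ x, w x ∂(μ : Measure ℝ) - b < ∫ x in interior Sᶜ, w x ∂(μ : Measure ℝ) := by
      rw [hint', ← hadd]; linarith
    have h2 : ∫ x, w x ∂(μ : Measure ℝ) < ∫ x, w x ∂(μ : Measure ℝ) + (a - b) := by linarith
    filter_upwards [eventually_lt_setIntegral h hw hw0 hi his isOpen_interior h1,
      (tendsto_order.1 htot).2 _ h2] with n hn hn2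
    have h3 : ∫ x in interior Sᶜ, w x ∂(μs n : Measure ℝ) ≤ ∫ x in Sᶜ, w x ∂(μs n : Measure ℝ) :=
      setIntegral_mono_set (his n).integrableOn (ae_of_all _ hw0)
        (LE.le.eventuallyLE interior_subset)
    have h4 := hadds n
    linarith

end Crest.Agent.BW
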