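import Crest.Agent.BW_Defs

/-! # BW_Ex : expectation lemmas on cubes (S0085, helper18) -/

set_option autoImplicit false

open Finset

namespace Crest.Agent.BW

variable {ι κ J : Type} [Fintype ι] [DecidableEq ι] [Fintype κ] [DecidableEq κ] [Fintype J]
  [DecidableEq J]

theorem ex_add (f g : (ι → Bool) → ℝ) : ex (fun x => f x + g x) = ex f + ex g := by
  unfold ex; rw [sum_add_distrib, add_div]

theorem ex_sub (f g : (ι → Bool) → ℝ) : ex (fun x => f x - g x) = ex f - ex g := by
  unfold ex; rw [sum_sub_distrib, sub_div]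

theorem ex_mul_left (c : ℝ) (f : (ι → Bool) → ℝ) : ex (fun x => c * f x) = c * ex f := by
  unfold ex; rw [← mul_sum, mul_div_assoc]

theorem ex_mul_right (c : ℝ) (f : (ι → Bool) → ℝ) : ex (fun x => f x * c) = ex f * c := by
  unfold ex; rw [← sum_mul]; ring

theorem ex_sum {A : Type*} (s : Finset A) (f : A → (ι → Bool) → ℝ) :
    ex (fun x => ∑ a ∈ s, f a x) = ∑ a ∈ s, ex (f a) := by
  unfold ex; rw [sum_comm, sum_div]

@[simp] theorem ex_const (c : ℝ) : ex (fun _ : ι → Bool => c) = c := by
  unfold ex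
  have : (2 : ℝ) ^ Fintype.card ι ≠ 0 := by positivity
  rw [sum_const, card_univ, Fintype.card_fun, Fintype.card_bool, nsmul_eq_mul]
  push_cast
  field_simp

theorem ex_nonneg {f : (ι → Bool) → ℝ} (hf : ∀ x, 0 ≤ f x) : 0 ≤ ex f :=
  div_nonneg (sum_nonneg fun x _ => hf x) (by positivity)

theorem ex_mono {f g : (ι → Bool) → ℝ} (hf : ∀ x, f x ≤ g x) : ex f ≤ ex g :=
  div_le_div_of_nonneg_right (sum_le_sum fun x _ => hf x) (by positivity)

/-- reindexing -/
theorem ex_equiv (e : ι ≃ κ) (h : (κ → Bool) → ℝ) :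
    ex (fun x : ι → Bool => h (x ∘ e.symm)) = ex h := by
  unfold ex
  rw [Fintype.card_congr e]
  congr 1
  exact Fintype.sum_equiv (Equiv.arrowCongr e (Equiv.refl Bool)) _ _ (fun x => rfl)

/-- Fubini for sum types -/
theorem ex_sum_type (h : (ι ⊕ κ → Bool) → ℝ) :
    ex h = ex (fun x : ι → Bool => ex (fun y : κ → Bool => h (Sum.elim x y))) := by
  unfold ex
  rw [Fintype.card_sum, pow_add]
  have h1 : ∑ x : ι ⊕ κ → Bool, h x = ∑ x : ι → Bool, ∑ y : κ → Bool, h (Sum.elim x y) := by
    rw [← Fintype.sum_prod_type']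
    exact Fintype.sum_equiv (Equiv.sumArrowEquivProdArrow ι κ Bool) _ _ (fun x => by
      congr 1
      ext s
      rcases s with s | s <;> rfl)
  rw [h1, ← sum_div, div_div, mul_comm (2 ^ Fintype.card κ : ℝ)]

@[simp] theorem ex_sg (i : ι) : ex (fun x : ι → Bool => sg (x i)) = 0 := by
  unfold ex
  have h : ∑ x : ι → Bool, sg (x i) = 0 := by
    have h2 : ∑ x : ι → Bool, sg (x i) = ∑ x : ι → Bool, -sg (x i) := by
      refine Fintype.sum_bijective (fun x => Function.update x i (!x i)) ?_ _ _ ?_
      · refine Function.Involutive.bijective ?_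
        intro x
        ext j
        by_cases hj : j = i
        · subst hj; simp
        · simp [hj]
      · intro x
        simp only [Function.update_self]
        cases x i <;> simp [sg]
    rw [sum_neg_distrib] at h2
    linarith
  rw [h, zero_div]

theorem ex_SS : ex (fun x : ι → Bool => SS x) = 0 := by
  unfold SS
  rw [ex_sum]
  simp

/-- `E φ(π) = 0` for a conditional expectation -/
theorem IsCond.ex_phi {K : Type} {π : (ι → Bool) → K} {φ : K → ℝ} (h : IsCond π φ) :
    ex (fun x => φ (π x)) = 0 := by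
  have h1 := h (fun _ => 1)
  simp only [one_mul] at h1
  rw [← h1, ex_SS]

/-- a function of a sub-family of the coordinates -/
theorem ex_emb (e : ι ↪ κ) (h : (ι → Bool) → ℝ) :
    ex (fun x : κ → Bool => h (x ∘ e)) = ex h := by
  classical
  let E : ι ⊕ {j : κ // j ∉ Set.range e} ≃ κ :=
    (Equiv.sumCongr (Equiv.ofInjective e e.injective) (Equiv.refl _)).trans
      (Equiv.Set.sumCompl (Set.range e))
  rw [← ex_equiv E]
  rw [ex_sum_type]
  have : ∀ (x : ι → Bool) (y : {j : κ // j ∉ Set.range e} → Bool),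
      (Sum.elim x y ∘ E.symm) ∘ e = x := by
    intro x y
    ext i
    simp only [Function.comp_apply]
    have : E.symm (e i) = Sum.inl i := by
      rw [Equiv.symm_apply_eq]
      rfl
    rw [this]; rfl
  simp only [this, ex_const]

/-- a function of a sub-family of the coordinates, times the sum of all signs -/
theorem ex_emb_SS (e : ι ↪ κ) (h : (ι → Bool) → ℝ) :
    ex (fun x : κ → Bool => h (x ∘ e) * SS x) = ex (fun x => h x * SS x) := by
  classical
  let E : ι ⊕ {j : κ // j ∉ Set.range e} ≃ κ :=
    (Equiv.sumCongr (Equiv.ofInjective e e.injective) (Equiv.refl _)).trans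
      (Equiv.Set.sumCompl (Set.range e))
  rw [← ex_equiv E]
  rw [ex_sum_type]
  have h1 : ∀ (x : ι → Bool) (y : {j : κ // j ∉ Set.range e} → Bool),
      (Sum.elim x y ∘ E.symm) ∘ e = x := by
    intro x y
    ext i
    simp only [Function.comp_apply]
    have : E.symm (e i) = Sum.inl i := by
      rw [Equiv.symm_apply_eq]
      rfl
    rw [this]; rfl
  have h2 : ∀ (x : ι → Bool) (y : {j : κ // j ∉ Set.range e} → Bool),
      SS (Sum.elim x y ∘ E.symm) = SS x + SS y := by
    intro x y
    unfold SS
    rw [← Fintype.sum_equiv E (fun s => sg (Sum.elim x y s)) _ (fun s => by simp),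
      Fintype.sum_sum_type]
    rfl
  simp only [h1, h2]
  congr 1
  ext x
  rw [ex_mul_left, ex_add, ex_const, ex_SS, add_zero]

/-- product of functions of independent copies -/
theorem ex_prod_copies (h : J → (ι → Bool) → ℝ) :
    ex (fun x : J × ι → Bool => ∏ j, h j (fun i => x (j, i))) = ∏ j, ex (h j) := by
  unfold ex
  rw [prod_div_distrib, prod_const, card_univ, ← pow_mul, Fintype.card_prod,
    mul_comm (Fintype.card J)]
  congr 1
  rw [Finset.prod_univ_sum, Fintype.piFinset_univ]
  exact Fintype.sum_equiv (Equiv.curry J ι Bool) _ _ (fun x => rfl)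

/-- the weight (probability) of a class -/
noncomputable def wt {K : Type} [DecidableEq K] (π : (ι → Bool) → K) (k : K) : ℝ := ex (ind π k)

variable {K : Type} [Fintype K] [DecidableEq K]

theorem wt_nonneg (π : (ι → Bool) → K) (k : K) : 0 ≤ wt π k :=
  ex_nonneg fun x => by unfold ind; split_ifs <;> norm_num

theorem ex_comp (π : (ι → Bool) → K) (g : K → ℝ) :
    ex (fun x => g (π x)) = ∑ k, wt π k * g k := by
  have h : ∀ x, g (π x) = ∑ k, ind π k x * g k := by
    intro x
    unfold ind
    simp
  simp only [h]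
  rw [ex_sum]
  exact sum_congr rfl fun k _ => ex_mul_right _ _

theorem sum_wt (π : (ι → Bool) → K) : ∑ k, wt π k = 1 := by
  have := ex_comp π (fun _ => 1)
  simpa using this.symm

theorem IsCond.wt {π : (ι → Bool) → K} {φ : K → ℝ} (h : IsCond π φ) (k : K) :
    ex (fun x => ind π k x * SS x) = wt π k * φ k := by
  have h1 := h (fun k' => if k' = k then 1 else 0)
  have h2 : ∀ x, (if π x = k then (1 : ℝ) else 0) * φ (π x) = ind π k x * φ k := by
    intro x
    unfold ind
    split_ifs with hk
    · rw [hk]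
    · simp
  simp only [h2] at h1
  rw [ex_mul_right] at h1
  exact h1

theorem IsCond.sum_wt_phi {π : (ι → Bool) → K} {φ : K → ℝ} (h : IsCond π φ) :
    ∑ k, BW.wt π k * φ k = 0 := by
  rw [← ex_comp, h.ex_phi]

/-- independent copies: law of the class pattern -/
theorem ex_copies (π : (ι → Bool) → K) (G : (J → K) → ℝ) :
    ex (fun x : J × ι → Bool => G (fun j => π (fun i => x (j, i)))) =
      ∑ k : J → K, (∏ j, wt π (k j)) * G k := by
  have h : ∀ x : J × ι → Bool, G (fun j => π (fun i => x (j, i))) =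
      ∑ k : J → K, (∏ j, ind π (k j) (fun i => x (j, i))) * G k := by
    intro x
    rw [Finset.sum_eq_single (fun j => π (fun i => x (j, i)))]
    · simp [ind]
    · intro k _ hk
      obtain ⟨j, hj⟩ := Function.ne_iff.1 hk
      rw [Finset.prod_eq_zero (mem_univ j), zero_mul]
      unfold ind
      rw [if_neg (Ne.symm hj)]
    · intro h; exact absurd (mem_univ _) h
  simp only [h]
  rw [ex_sum]
  refine sum_congr rfl fun k _ => ?_
  rw [ex_mul_right, ex_prod_copies (fun j => ind π (k j))]
  rfl

theorem SS_copies (x : J × ι → Bool) : SS x = ∑ j, SS (fun i => x (j, i)) := by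
  unfold SS
  rw [Fintype.sum_prod_type]

end Crest.Agent.BW
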