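import Crest.Agent.BW_Has

/-! # BW_Final : from a good scheme to the Boolean function (S0085)
HINT: `E_L` = law of `L` independent copies: `E_0 = pure`, `E_{L+1} h = E (k ↦ E_L (k' ↦ h (comb k k')))`
(`has_bind`).  `E_L φ² = L v`, `E_L φ⁴ = 3 L (L-1) v² + L E φ⁴`, cost `L D`.  With
`a = 2 √(L v)`: `|t| ≥ (3 t²/a - t⁴/a³)/2`, so `E_L |φ| ≥ ½ √(L v)` once `E φ⁴ ≤ L v²`.
`f x = decide (0 ≤ φ (π x))`, `W(f) = ex (sg (f x) * SS x) = ex |φ (π x)|`, degree `≤ L D`, transport to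
`Fin n` with `Fintype.equivFin` (`ex_equiv`), orthogonality from `DegLE`. -/

set_option autoImplicit false

open Finset

namespace Crest.Agent.BW

theorem final {E : (Om → ℝ) → ℝ} {D : ℕ} {v R : ℝ} (hE : Sch E D v R) (hD : 1 ≤ D) {C : ℝ}
    (hC : 0 < C) (hv : 4 * C ^ 2 * D < v) : Good C := by
  sorry

end Crest.Agent.BW
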