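import Crest.Agent.BW_Defs

/-!
# BW_Fn : law functionals (S0085, helper18)

An *outcome* is a triple (label, value, cost).  The *law* of an experiment is the functional
`E : (Om → ℝ) → ℝ`, `E h = ` expectation of `h` at the outcome.  `Has E` says that `E` is the law of
an experiment that can be performed on some cube: the value is the conditional expectation of the sum
of all signs and the indicator of every outcome has degree at most its cost.
-/

set_option autoImplicit false

open Finset

namespace Crest.Agent.BW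

/-- outcomes: label, value, cost -/
abbrev Om := Bool × ℝ × ℕ

/-- first `k`, then `k'` -/
def comb (k k' : Om) : Om := (k'.1, k.2.1 + k'.2.1, k.2.2 + k'.2.2)

@[simp] theorem comb_fst (k k' : Om) : (comb k k').1 = k'.1 := rfl
@[simp] theorem comb_phi (k k' : Om) : (comb k k').2.1 = k.2.1 + k'.2.1 := rfl
@[simp] theorem comb_cost (k k' : Om) : (comb k k').2.2 = k.2.2 + k'.2.2 := rfl

/-- a map from a cube to outcomes is realizable -/
structure Rz {ι : Type} [Fintype ι] [DecidableEq ι] (π : (ι → Bool) → Om) : Prop where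
  deg : ∀ k, DegLE k.2.2 (ind π k)
  cond : ∀ g : Om → ℝ, ex (fun x => g (π x) * SS x) = ex (fun x => g (π x) * (π x).2.1)

/-- `E` is the law of an experiment on some cube -/
def Has (E : (Om → ℝ) → ℝ) : Prop :=
  ∃ (ι : Type) (_ : Fintype ι) (_ : DecidableEq ι) (π : (ι → Bool) → Om),
    Rz π ∧ ∀ h, E h = ex (fun x => h (π x))

/-- positive normalised linear functionals -/
structure Mean {Ω : Type} (E : (Ω → ℝ) → ℝ) : Prop where
  add : ∀ f g : Ω → ℝ, E (fun k => f k + g k) = E f + E g
  smul : ∀ (c : ℝ) (f : Ω → ℝ), E (fun k => c * f k) = c * E f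
  mono : ∀ f g : Ω → ℝ, (∀ k, f k ≤ g k) → E f ≤ E g
  one : E (fun _ => 1) = 1

/-- `E` is supported on outcomes with property `P` -/
def Sup {Ω : Type} (E : (Ω → ℝ) → ℝ) (P : Ω → Prop) : Prop :=
  ∀ f g : Ω → ℝ, (∀ k, P k → f k = g k) → E f = E g

/-- `E` is the law of a scheme of cost exactly `D` and information `v` (values bounded by `R`) -/
structure Sch (E : (Om → ℝ) → ℝ) (D : ℕ) (v R : ℝ) : Prop where
  has : Has E
  cost : Sup E (fun k => k.2.2 = D)
  bdd : Sup E (fun k => |k.2.1| ≤ R)
  var : E (fun k => k.2.1 ^ 2) = v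

/-! ### the letter -/

open Classical in
/-- walk started at `x`: read copies of `E` until `|x| ≥ a` or `n` copies are read;
label = sign of the final position, value = sum of the values of the copies -/
noncomputable def wk (E : (Om → ℝ) → ℝ) (a : ℝ) : ℕ → ℝ → (Om → ℝ) → ℝ
  | 0, x, h => h (decide (0 ≤ x), 0, 0)
  | n + 1, x, h => if a ≤ |x| then h (decide (0 ≤ x), 0, 0)
      else E (fun k => wk E a n (x + k.2.1) (fun k' => h (comb k k')))

/-- one free bit, then the walk started at `1`, everything mirrored if the bit is `-1` -/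
noncomputable def letter (E : (Om → ℝ) → ℝ) (a : ℝ) (n : ℕ) (h : Om → ℝ) : ℝ :=
  (wk E a n 1 (fun k => h (k.1, 1 + k.2.1, 1 + k.2.2)) +
    wk E a n 1 (fun k => h (!k.1, -(1 + k.2.1), 1 + k.2.2))) / 2

/-- what we need to know about a letter.  `r` is the ratio of the scheme, `s` the target of
`lam * c`, `δ` the error. -/
structure Letter (C : (Om → ℝ) → ℝ) (r s δ V c w lam M : ℝ) : Prop where
  has : Has C
  symm : ∀ h : Om → ℝ, C (fun k => h (!k.1, -k.2.1, k.2.2)) = C h
  V_eq : C (fun k => k.2.1 ^ 2) = V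
  c_eq : C (fun k => (k.2.2 : ℝ)) = c
  w_eq : C (fun k => k.2.1 * sg k.1) = w
  M_eq : C (fun k => Real.exp (lam * k.2.2)) = M
  V_pos : 0 < V
  lam_pos : 0 < lam
  bdd : Sup C (fun k => k.2.1 ^ 2 ≤ 2 * V)
  cost : Sup C (fun k => 1 ≤ k.2.2)
  ratio : r * (1 - δ) * c ≤ V
  w_le : w ^ 2 ≤ V
  le_w : (1 - δ) * V ≤ w ^ 2
  M_le : M ≤ 1 / (1 - s)
  le_lam : s * (1 - δ) ≤ lam * c

/-! ### the block -/

/-- integer sign -/
def sgz (b : Bool) : ℤ := if b then 1 else -1

/-- `n` letters, macro position `w`, barrier `±A`; label `true` = good (the barrier is not hit) -/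
noncomputable def blk (C : (Om → ℝ) → ℝ) (A : ℤ) : ℕ → ℤ → (Om → ℝ) → ℝ
  | 0, _, h => h (true, 0, 0)
  | n + 1, w, h => C (fun k => if |w + sgz k.1| = A then h (false, k.2.1, k.2.2)
      else blk C A n (w + sgz k.1) (fun k' => h (comb k k')))

/-- probability that the fair walk from `w` does not hit `±A` in `n` steps -/
noncomputable def gd (A : ℤ) : ℕ → ℤ → ℝ
  | 0, _ => 1
  | n + 1, w => ((if |w + 1| = A then 0 else gd A n (w + 1)) +
      (if |w - 1| = A then 0 else gd A n (w - 1))) / 2

/-- `E[(final position)^2; not hit]` for the fair walk from `w` -/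
noncomputable def w2 (A : ℤ) : ℕ → ℤ → ℝ
  | 0, w => (w : ℝ) ^ 2
  | n + 1, w => ((if |w + 1| = A then 0 else w2 A n (w + 1)) +
      (if |w - 1| = A then 0 else w2 A n (w - 1))) / 2

/-- `E[M^τ; hit at time τ ≤ n]` for the fair walk from `w` -/
noncomputable def bd (A : ℤ) (M : ℝ) : ℕ → ℤ → ℝ
  | 0, _ => 0
  | n + 1, w => M * ((if |w + 1| = A then 1 else bd A M n (w + 1)) +
      (if |w - 1| = A then 1 else bd A M n (w - 1))) / 2

/-- mean number of steps of the stopped fair walk -/
noncomputable def nb (A : ℤ) : ℕ → ℤ → ℝ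
  | 0, _ => 0
  | n + 1, w => 1 + ((if |w + 1| = A then 0 else nb A n (w + 1)) +
      (if |w - 1| = A then 0 else nb A n (w - 1))) / 2

/-- what we need to know about a block; label `true` = good -/
structure Block (B : (Om → ℝ) → ℝ) (V c P VG CG R lam b g : ℝ) : Prop where
  has : Has B
  V_eq : B (fun k => k.2.1 ^ 2) = V
  c_eq : B (fun k => (k.2.2 : ℝ)) = c
  P_eq : B (fun k => if k.1 then 1 else 0) = P
  e_eq : B (fun k => if k.1 then k.2.1 else 0) = 0
  VG_eq : B (fun k => if k.1 then k.2.1 ^ 2 else 0) = VG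
  CG_eq : B (fun k => if k.1 then (k.2.2 : ℝ) else 0) = CG
  bdd : Sup B (fun k => |k.2.1| ≤ R)
  cost : Sup B (fun k => 1 ≤ k.2.2)
  g_eq : B (fun k => if k.1 then Real.exp (lam * k.2.2) else 0) = g
  b_eq : B (fun k => if k.1 then 0 else Real.exp (lam * k.2.2)) = b

/-! ### the cyclic gate -/

/-- law of `m` independent blocks -/
noncomputable def EM (B : (Om → ℝ) → ℝ) : ℕ → (List Om → ℝ) → ℝ
  | 0, H => H []
  | m + 1, H => B (fun k => EM B m (fun L => H (k :: L)))

/-- automaton: state `false` reads the block (bad: stay, good: go to `true`),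
state `true` skips the block and goes to `false` -/
def nx (s : Bool) (k : Om) : Bool := if s then false else k.1

/-- final state -/
def endS : Bool → List Om → Bool
  | s, [] => s
  | s, k :: L => endS (nx s k) L

/-- total cost of the blocks that are read -/
def costS : Bool → List Om → ℕ
  | _, [] => 0
  | s, k :: L => (if s then 0 else k.2.2) + costS (nx s k) L

/-- the event `F`: there is no closed orbit of cost at most `Dm` -/
def FF (Dm : ℕ) (L : List Om) : Prop := ∀ s : Bool, endS s L = s → Dm < costS s L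

instance (Dm : ℕ) (L : List Om) : Decidable (FF Dm L) := by unfold FF; infer_instance

/-- sum of the values -/
noncomputable def sPhi (L : List Om) : ℝ := (L.map (fun k => k.2.1)).sum

/-- sum of the costs -/
def sCost (L : List Om) : ℕ := (L.map (fun k => k.2.2)).sum

end Crest.Agent.BW
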