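import Mathlib

set_option autoImplicit false

/-! S0085, gate module: closed orbits of the adaptive cyclic gate (helper37, after helper89's proof).
Blocks sit at the points of `ZMod m`.  Every block has a leaf `l i : Λ`, which is good or bad
(`good : Λ → Bool`).  A label is `none` (the block is skipped) or `some v` (the block is read and
its leaf is `v`). -/

namespace Crest.Agent.BW

variable {Λ : Type*} {m : ℕ}

/-- A cyclic word of labels is a (valid) orbit: a block is skipped iff the previous one was
read and found good. -/
def Valid (good : Λ → Bool) (o : ZMod m → Option Λ) : Prop :=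
  ∀ i, (o (i + 1) = none ↔ ∃ v, o i = some v ∧ good v = true)

/-- The orbit `o` is an orbit of the configuration of leaves `l`. -/
def Match (o : ZMod m → Option Λ) (l : ZMod m → Λ) : Prop :=
  ∀ i v, o i = some v → l i = v

/-- Cost of a label. -/
def labCost (cost : Λ → ℕ) : Option Λ → ℕ
  | none => 0
  | some v => cost v

/-- Total cost of an orbit. -/
def orbCost [NeZero m] (cost : Λ → ℕ) (o : ZMod m → Option Λ) : ℕ := ∑ i, labCost cost (o i)

/-- The gate: every orbit of the configuration is expensive. -/
def Gate [NeZero m] (good : Λ → Bool) (cost : Λ → ℕ) (D : ℕ) (l : ZMod m → Λ) : Prop :=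
  ∀ o : ZMod m → Option Λ, Valid good o → Match o l → D < orbCost cost o

theorem cyc_induction [NeZero m] {p : ZMod m → Prop} (i₀ : ZMod m) (h0 : p i₀)
    (hs : ∀ i, p i → p (i + 1)) (j : ZMod m) : p j := by
  have key : ∀ k : ℕ, p (i₀ + (k : ZMod m)) := by
    intro k
    induction k with
    | zero => simpa using h0
    | succ k ih =>
      have := hs _ ih
      rw [Nat.cast_succ, ← add_assoc]
      exact this
  have := key (j - i₀).val
  rwa [ZMod.natCast_zmod_val, add_sub_cancel] at this

theorem Match.eq_of_ne_none {o : ZMod m → Option Λ} {l : ZMod m → Λ}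
    (h : Match o l) {i : ZMod m} (hi : o i ≠ none) : o i = some (l i) := by
  rcases Option.ne_none_iff_exists'.1 hi with ⟨v, hv⟩
  rw [hv, h i v hv]

/-- no orbit if all blocks are good and `m` is odd -/
theorem no_orbit_of_good [NeZero m] (hm : Odd m) {good : Λ → Bool} {l : ZMod m → Λ}
    (hl : ∀ i, good (l i) = true) {o : ZMod m → Option Λ} (hv : Valid good o)
    (hM : Match o l) : False := by
  have h2 : ∀ i, (o (i + 1) = none ↔ ¬ (o i = none)) := by
    intro i
    rw [hv i]
    constructor
    · rintro ⟨v, h, -⟩ h'
      rw [h'] at h
      cases h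
    · intro h
      exact ⟨l i, hM.eq_of_ne_none h, hl i⟩
  have h3 : ∀ k : ℕ, (o ((k : ZMod m)) = none ↔ ((Even k) ↔ o 0 = none)) := by
    intro k
    induction k with
    | zero => simp
    | succ k ih =>
      rw [Nat.cast_succ, h2, ih, Nat.even_add_one]
      tauto
  have h4 := h3 m
  rw [ZMod.natCast_self] at h4
  have h5 : ¬ Even m := by simpa using hm
  tauto

/-- at most one orbit -/
theorem orbit_unique [NeZero m] (hm : Odd m) {good : Λ → Bool} {l : ZMod m → Λ}
    {o o' : ZMod m → Option Λ} (hv : Valid good o) (hM : Match o l) (hv' : Valid good o')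
    (hM' : Match o' l) : o = o' := by
  by_cases hl : ∀ i, good (l i) = true
  · exact (no_orbit_of_good hm hl hv hM).elim
  push Not at hl
  obtain ⟨i₀, hi₀⟩ := hl
  have hb : ∀ {p : ZMod m → Option Λ}, Valid good p → Match p l → p (i₀ + 1) ≠ none := by
    intro p hp hpM h
    obtain ⟨v, h1, h2⟩ := (hp i₀).1 h
    rw [hpM i₀ v h1] at hi₀
    exact hi₀ h2
  have hall : ∀ j, (o j = none ↔ o' j = none) := by
    refine cyc_induction (p := fun j => (o j = none ↔ o' j = none)) (i₀ + 1) ?_ ?_
    · have h1 := hb hv hM
      have h2 := hb hv' hM'
      tauto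
    · intro i hi
      have heq : o i = o' i := by
        by_cases h : o i = none
        · rw [h, hi.1 h]
        · have h' : o' i ≠ none := fun h'' => h (hi.2 h'')
          rw [hM.eq_of_ne_none h, hM'.eq_of_ne_none h']
      rw [hv i, hv' i, heq]
  funext j
  by_cases h : o j = none
  · rw [h, (hall j).1 h]
  · have h' : o' j ≠ none := fun h'' => h ((hall j).2 h'')
    rw [hM.eq_of_ne_none h, hM'.eq_of_ne_none h']

/-- state sequence started after a bad block -/
private def st (good : Λ → Bool) (l : ZMod m → Λ) (a : ZMod m) : ℕ → Bool
  | 0 => false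
  | k + 1 => !(st good l a k) && good (l (a + k))

/-- there is an orbit as soon as some block is bad -/
theorem orbit_exists [NeZero m] {good : Λ → Bool} {l : ZMod m → Λ}
    (hl : ∃ i, good (l i) = false) :
    ∃ o : ZMod m → Option Λ, Valid good o ∧ Match o l := by
  obtain ⟨i₀, hi₀⟩ := hl
  set a : ZMod m := i₀ + 1 with ha
  let s : ZMod m → Bool := fun j => st good l a (j - a).val
  have hrec : ∀ j, s (j + 1) = (!(s j) && good (l j)) := by
    intro j
    have hj : a + (((j - a).val : ℕ) : ZMod m) = j := by
      rw [ZMod.natCast_zmod_val, add_sub_cancel]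
    by_cases hlt : (j - a).val + 1 < m
    · have hval : (j + 1 - a).val = (j - a).val + 1 := by
        have : j + 1 - a = (j - a) + 1 := by ring
        rw [this]
        have h1 : ((1 : ZMod m)).val = 1 := by
          have : Fact (1 < m) := ⟨by omega⟩
          exact ZMod.val_one m
        rw [ZMod.val_add_of_lt, h1]
        rw [h1]; exact hlt
      show st good l a (j + 1 - a).val = _
      rw [hval]
      show (!(st good l a (j - a).val) && good (l (a + (((j - a).val : ℕ) : ZMod m)))) = _
      rw [hj]
    · have hm' : (j - a).val + 1 = m := by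
        have := ZMod.val_lt (j - a)
        omega
      have hz : j + 1 - a = 0 := by
        have h1 : (((j - a).val + 1 : ℕ) : ZMod m) = 0 := by
          rw [hm', ZMod.natCast_self]
        rw [Nat.cast_succ, ZMod.natCast_zmod_val] at h1
        rw [← h1]; ring
      have hji : j = i₀ := by
        have : j + 1 = a := by
          have := sub_eq_zero.1 hz
          exact this
        rw [ha] at this
        exact add_right_cancel this
      have h0 : s (j + 1) = false := by
        show st good l a (j + 1 - a).val = _
        rw [hz, ZMod.val_zero]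
        rfl
      rw [h0, hji, hi₀, Bool.and_false]
  refine ⟨fun j => if s j then none else some (l j), ?_, ?_⟩
  · intro i
    simp only [hrec i]
    cases hs : s i with
    | true => simp
    | false =>
      cases hli : good (l i) with
      | true => simp [hli]
      | false => simp [hli]
  · intro i v hv
    simp only at hv
    split_ifs at hv with h
    exact Option.some.inj hv

end Crest.Agent.BW
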