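import Crest.Agent.BW_Has

/-! # BW_GateHas : the cyclic gate can be performed (S0085)
HINT: by induction on `m` construct a cube `ι_m` and `Π : (ι_m → Bool) → List Om` with
`EM B m H = ex (H ∘ Π)`, `ex (H(Π) SS) = ex (H(Π) sPhi(Π))`, `(Π x).length = m`,
`DegLE (sCost L) 1_{Π = L}` for all `L`, and
`DegLE n (x ↦ if endS s (Π x) = s' ∧ costS s (Π x) = n then 1 else 0)` for all `s s' n`
(`ι_{m+1} = ι ⊕ ι_m`).  Then `F(x) := FF Dm (Π x)`,
`1_F = 1 - Σ_s Σ_{n ≤ Dm} 1[endS s = s ∧ costS s = n]` (odd length: at most one closed `s`),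
`π' x = if F x then (true, E[sPhi;F]/P(F), Dm) else (false, sPhi, sCost)`. -/

set_option autoImplicit false

open Finset

namespace Crest.Agent.BW

theorem gate_has {B : (Om → ℝ) → ℝ} (hB : Has B) {m : ℕ} (hm : Odd m) (Dm : ℕ) :
    ∃ E' : (Om → ℝ) → ℝ, Has E' ∧
      EM B m (fun L => if FF Dm L then 0 else sPhi L ^ 2) ≤ E' (fun k => k.2.1 ^ 2) ∧
      E' (fun k => (k.2.2 : ℝ)) = EM B m (fun L => if FF Dm L then (Dm : ℝ) else (sCost L : ℝ)) ∧
      (Sup B (fun k => 1 ≤ k.2.2) → 1 ≤ Dm → Sup E' (fun k => 1 ≤ k.2.2)) := by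
  sorry

end Crest.Agent.BW
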