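import Crest.Agent.BW_Mean

/-! # BW_GateM : moment bounds for the cyclic gate (S0085)

All by induction on `m` over `EM B m`.  HINTS (helper18):
* `EM B m` is a `Mean` (from `Mean B`), `EM B m` is supported on lists of length `m` whose entries
  satisfy any `P` with `Sup B P`.
* all-good event: `L.all (·.1)`; for `Odd m` an all-good list has `endS s L = !s`, so it is in `FF`.
  If some entry is bad, `endS false L = endS true L`, so exactly one `s` has `endS s L = s`.
* hence `1_{FF} ≤ 1_{all good} + Σ_s 1[endS s L = s ∧ Dm < costS s L]`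
  `≤ 1_{all good} + exp(-lam*Dm) * Σ_s (if endS s L = s then exp (lam * costS s L) else 0)`.
* `Σ_{s'} ` : put `a m s := EM B m (fun L => Real.exp (lam * costS s L))`; recursion
  `a (m+1) false = b * a m false + g * a m true`, `a (m+1) true = a m false` (`B 1 = 1`), so
  `a m false ≤ μ^(m+1)`, `a m true ≤ μ^m` by induction from `b μ + g ≤ μ^2`, `1 ≤ μ`.
* (iv) on `FF` with a bad entry: `sCost L ≥ costS s L > Dm` for the closed `s`.
* (iii) `EM B m (1_{all good} * sPhi²) = m VG P^(m-1)` because `B (φ 1_good) = 0`.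
-/

set_option autoImplicit false

open Finset

namespace Crest.Agent.BW

theorem gate_moment {B : (Om → ℝ) → ℝ} (hm : Mean B) (hphi : B (fun k => k.2.1) = 0)
    {V c P VG CG R lam b g : ℝ} (hB : Block B V c P VG CG R lam b g) (hlam : 0 ≤ lam)
    {μ : ℝ} (hμ : 1 ≤ μ) (hμ2 : b * μ + g ≤ μ ^ 2) {m : ℕ} (hodd : Odd m) (Dm : ℕ) :
    m * V - (m * VG * P ^ (m - 1) + (m * R) ^ 2 * ((1 + μ) * μ ^ m * Real.exp (-(lam * Dm)))) ≤
      EM B m (fun L => if FF Dm L then 0 else sPhi L ^ 2) ∧
    EM B m (fun L => if FF Dm L then (Dm : ℝ) else (sCost L : ℝ)) ≤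
      m * c - (m * CG * P ^ (m - 1) - Dm * P ^ m) := by
  sorry

end Crest.Agent.BW
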