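import Mathlib

/-! # BW_H_Defs : product moments for helper7's global gadget (S0085)

`mom μ T e = ∫ x in T, x^e ∂μ`.  For a family of sets `T : I → Set ℝ` (one per letter),
`M0, M1, M2` are the zeroth, first and second moments of `∑ z` on the product event, and
`G μ s T = E[∏ 1_{T l}(z l) (1 - (∑ z - s)^2)]`. -/

set_option autoImplicit false

open MeasureTheory

namespace Crest.Agent.BWH

/-- cell moment -/
noncomputable def mom (μ : Measure ℝ) (T : Set ℝ) (e : ℕ) : ℝ := ∫ x in T, x ^ e ∂μ

variable {I : Type*} [Fintype I] [DecidableEq I]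

/-- probability of the product event -/
noncomputable def M0 (μ : Measure ℝ) (T : I → Set ℝ) : ℝ := ∏ l, mom μ (T l) 0

/-- first moment of `∑ z` on the product event -/
noncomputable def M1 (μ : Measure ℝ) (T : I → Set ℝ) : ℝ :=
  ∑ i, ∏ l, mom μ (T l) (if l = i then 1 else 0)

/-- second moment of `∑ z` on the product event -/
noncomputable def M2 (μ : Measure ℝ) (T : I → Set ℝ) : ℝ :=
  ∑ i, ∑ k, ∏ l, mom μ (T l) ((if l = i then 1 else 0) + (if l = k then 1 else 0))

/-- `E[∏ 1_{T l}(z l) (1 - (∑ z - s)^2)]` -/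
noncomputable def G (μ : Measure ℝ) (s : ℝ) (T : I → Set ℝ) : ℝ :=
  (1 - s ^ 2) * M0 μ T + 2 * s * M1 μ T - M2 μ T

variable {Q A : Type*} [Fintype Q] [DecidableEq Q] [Fintype A]

/-- the sets of the `α`-term of the gadget -/
def Ta (a : A → Set ℝ) (c : Q → Set ℝ) (j : A → Q) (α : A) : Option Q → Set ℝ
  | none => a α
  | some k => if k = j α then Set.univ else c k

/-- the sets of the subtracted term of the gadget -/
def Tc (c : Q → Set ℝ) : Option Q → Set ℝ
  | none => Set.univ
  | some k => c k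

/-- the gadget functional `E[1_ρ (1 - (∑ z - s)^2)]` -/
noncomputable def Fgad (μ : Measure ℝ) (s : ℝ) (a : A → Set ℝ) (c : Q → Set ℝ) (j : A → Q) : ℝ :=
  (∑ α, G μ s (Ta a c j α)) - G μ s (Tc c)

end Crest.Agent.BWH
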