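import Mathlib

/-! # BW_H_Mom : finite product moment algebra (S0085, helper7) -/

set_option autoImplicit false

namespace Crest.Agent.BW

variable {I : Type*} [Fintype I] [DecidableEq I]

theorem prod_one_insert (f : I → ℕ → ℝ) (h0 : ∀ l, f l 0 ≠ 0) (i : I) :
    ∏ l, f l (if l = i then 1 else 0) = (∏ l, f l 0) * (f i 1 / f i 0) := by
  have h1 : ∏ l, f l (if l = i then 1 else 0) = f i 1 * ∏ l ∈ Finset.univ.erase i, f l 0 := by
    rw [← Finset.mul_prod_erase Finset.univ _ (Finset.mem_univ i)]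
    congr 1
    · simp
    · refine Finset.prod_congr rfl fun l hl => ?_
      rw [if_neg (Finset.ne_of_mem_erase hl)]
  have h2 : ∏ l, f l 0 = f i 0 * ∏ l ∈ Finset.univ.erase i, f l 0 :=
    (Finset.mul_prod_erase Finset.univ _ (Finset.mem_univ i)).symm
  rw [h1, h2]
  field_simp [h0 i]

theorem prod_two_insert_same (f : I → ℕ → ℝ) (h0 : ∀ l, f l 0 ≠ 0) (i : I) :
    ∏ l, f l ((if l = i then 1 else 0) + (if l = i then 1 else 0)) =
      (∏ l, f l 0) * (f i 2 / f i 0) := by
  have h1 : ∏ l, f l ((if l = i then 1 else 0) + (if l = i then 1 else 0)) =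
      f i 2 * ∏ l ∈ Finset.univ.erase i, f l 0 := by
    rw [← Finset.mul_prod_erase Finset.univ _ (Finset.mem_univ i)]
    congr 1
    · simp
    · refine Finset.prod_congr rfl fun l hl => ?_
      rw [if_neg (Finset.ne_of_mem_erase hl)]
  have h2 : ∏ l, f l 0 = f i 0 * ∏ l ∈ Finset.univ.erase i, f l 0 :=
    (Finset.mul_prod_erase Finset.univ _ (Finset.mem_univ i)).symm
  rw [h1, h2]
  field_simp [h0 i]

theorem prod_two_insert_ne (f : I → ℕ → ℝ) (h0 : ∀ l, f l 0 ≠ 0) {i k : I} (hik : i ≠ k) :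
    ∏ l, f l ((if l = i then 1 else 0) + (if l = k then 1 else 0)) =
      (∏ l, f l 0) * ((f i 1 / f i 0) * (f k 1 / f k 0)) := by
  have hki : k ∈ Finset.univ.erase i := Finset.mem_erase.2 ⟨hik.symm, Finset.mem_univ k⟩
  have h1 : ∏ l, f l ((if l = i then 1 else 0) + (if l = k then 1 else 0)) =
      f i 1 * (f k 1 * ∏ l ∈ (Finset.univ.erase i).erase k, f l 0) := by
    rw [← Finset.mul_prod_erase Finset.univ _ (Finset.mem_univ i),
      ← Finset.mul_prod_erase (Finset.univ.erase i) _ hki]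
    congr 1
    · simp [hik]
    · congr 1
      · simp [hik.symm]
      · refine Finset.prod_congr rfl fun l hl => ?_
        rw [if_neg (Finset.ne_of_mem_erase (Finset.mem_of_mem_erase hl)),
          if_neg (Finset.ne_of_mem_erase hl)]
  have h2 : ∏ l, f l 0 = f i 0 * (f k 0 * ∏ l ∈ (Finset.univ.erase i).erase k, f l 0) := by
    rw [Finset.mul_prod_erase (Finset.univ.erase i) (fun l => f l 0) hki,
      Finset.mul_prod_erase Finset.univ (fun l => f l 0) (Finset.mem_univ i)]
  rw [h1, h2]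
  have hi := h0 i
  have hk := h0 k
  field_simp

/-- first moment of a product cell -/
theorem mom_one (f : I → ℕ → ℝ) (h0 : ∀ l, f l 0 ≠ 0) :
    ∑ i, ∏ l, f l (if l = i then 1 else 0) = (∏ l, f l 0) * ∑ i, f i 1 / f i 0 := by
  rw [Finset.mul_sum]
  exact Finset.sum_congr rfl fun i _ => prod_one_insert f h0 i

/-- second moment of a product cell -/
theorem mom_two (f : I → ℕ → ℝ) (h0 : ∀ l, f l 0 ≠ 0) :
    ∑ i, ∑ k, ∏ l, f l ((if l = i then 1 else 0) + (if l = k then 1 else 0)) =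
      (∏ l, f l 0) * (∑ i, (f i 2 / f i 0 - (f i 1 / f i 0) ^ 2) + (∑ i, f i 1 / f i 0) ^ 2) := by
  have h1 : ∀ i, ∑ k, ∏ l, f l ((if l = i then 1 else 0) + (if l = k then 1 else 0)) =
      (∏ l, f l 0) * ((f i 2 / f i 0 - (f i 1 / f i 0) ^ 2) +
        (f i 1 / f i 0) * ∑ k, f k 1 / f k 0) := by
    intro i
    rw [← Finset.add_sum_erase Finset.univ _ (Finset.mem_univ i), prod_two_insert_same f h0 i,
      ← Finset.add_sum_erase Finset.univ (fun k => f k 1 / f k 0) (Finset.mem_univ i)]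
    have h2 : ∑ k ∈ Finset.univ.erase i,
        ∏ l, f l ((if l = i then 1 else 0) + (if l = k then 1 else 0)) =
        (∏ l, f l 0) * ((f i 1 / f i 0) * ∑ k ∈ Finset.univ.erase i, f k 1 / f k 0) := by
      rw [Finset.mul_sum, Finset.mul_sum]
      refine Finset.sum_congr rfl fun k hk => ?_
      rw [prod_two_insert_ne f h0 (Finset.ne_of_mem_erase hk).symm]
    rw [h2]
    ring
  rw [Finset.sum_congr rfl fun i _ => h1 i, ← Finset.mul_sum, Finset.sum_add_distrib,
    ← Finset.sum_mul]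
  ring

end Crest.Agent.BW
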