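import Crest.Agent.BW_H_Defs
import Crest.Agent.BW_H_Mom

/-! # BW_H_Pos : positivity of the gadget functional from `(*)` (S0085, helper7) -/

set_option autoImplicit false

open MeasureTheory

namespace Crest.Agent.BWH

variable {Q A : Type*} [Fintype Q] [DecidableEq Q] [Fintype A]

/-- mean of a cell -/
noncomputable def cmean (μ : Measure ℝ) (T : Set ℝ) : ℝ := mom μ T 1 / mom μ T 0

/-- variance of a cell -/
noncomputable def cvar (μ : Measure ℝ) (T : Set ℝ) : ℝ := mom μ T 2 / mom μ T 0 - (cmean μ T) ^ 2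

theorem G_option (μ : Measure ℝ) (s : ℝ) (T : Option Q → Set ℝ)
    (hp : ∀ k, mom μ (T (some k)) 0 ≠ 0) :
    G μ s T = (∏ k, mom μ (T (some k)) 0) *
      ((1 - ∑ k, cvar μ (T (some k)) - (∑ k, cmean μ (T (some k)) - s) ^ 2) * mom μ (T none) 0
        - 2 * (∑ k, cmean μ (T (some k)) - s) * mom μ (T none) 1 - mom μ (T none) 2) := by
  have e1 := BW.mom_one (fun k e => mom μ (T (some k)) e) hp
  have e2 := BW.mom_two (fun k e => mom μ (T (some k)) e) hp
  have hM0 : M0 μ T = mom μ (T none) 0 * ∏ k, mom μ (T (some k)) 0 := by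
    rw [M0, Fintype.prod_option]
  have hM1 : M1 μ T = mom μ (T none) 1 * (∏ k, mom μ (T (some k)) 0) +
      mom μ (T none) 0 * ((∏ k, mom μ (T (some k)) 0) * ∑ k, cmean μ (T (some k))) := by
    rw [M1, Fintype.sum_option]
    simp only [Fintype.prod_option, if_true, reduceCtorEq, if_false, Option.some.injEq]
    rw [← Finset.mul_sum]
    simp only [cmean]
    rw [← e1]
  have hM2 : M2 μ T = mom μ (T none) 2 * (∏ k, mom μ (T (some k)) 0) +
      2 * (mom μ (T none) 1 * ((∏ k, mom μ (T (some k)) 0) * ∑ k, cmean μ (T (some k)))) +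
      mom μ (T none) 0 * ((∏ k, mom μ (T (some k)) 0) *
        (∑ k, cvar μ (T (some k)) + (∑ k, cmean μ (T (some k))) ^ 2)) := by
    rw [M2, Fintype.sum_option]
    simp only [Fintype.sum_option, Fintype.prod_option, if_true, reduceCtorEq, if_false,
      Option.some.injEq, add_zero, zero_add]
    rw [Finset.sum_add_distrib]
    simp only [← Finset.mul_sum]
    simp only [cmean, cvar]
    rw [← e1, ← e2]
    ring
  rw [G, hM0, hM1, hM2]
  ring

theorem mom_zero_eq (μ : Measure ℝ) (T : Set ℝ) : mom μ T 0 = μ.real T := by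
  simp [mom]

theorem mom_one_eq (μ : Measure ℝ) (T : Set ℝ) : mom μ T 1 = ∫ x in T, x ∂μ := by
  simp [mom]

theorem mom_univ_zero (μ : Measure ℝ) [IsProbabilityMeasure μ] : mom μ Set.univ 0 = 1 := by
  simp [mom]

variable {μ : Measure ℝ}

theorem prod_Ta (c : Q → Set ℝ) (j : Q) [IsProbabilityMeasure μ]
    (hp : ∀ k, mom μ (c k) 0 ≠ 0) :
    ∏ k, mom μ (if k = j then Set.univ else c k) 0 = (∏ k, mom μ (c k) 0) / mom μ (c j) 0 := by
  have h1 : ∏ k, mom μ (if k = j then Set.univ else c k) 0 =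
      ∏ k ∈ Finset.univ.erase j, mom μ (c k) 0 := by
    rw [← Finset.mul_prod_erase Finset.univ _ (Finset.mem_univ j), if_pos rfl, mom_univ_zero,
      one_mul]
    exact Finset.prod_congr rfl fun k hk => by rw [if_neg (Finset.ne_of_mem_erase hk)]
  rw [h1, ← Finset.mul_prod_erase Finset.univ _ (Finset.mem_univ j),
    mul_div_cancel_left₀ _ (hp j)]

theorem sum_Ta (c : Q → Set ℝ) (j : Q) (F : Set ℝ → ℝ) :
    ∑ k, F (if k = j then Set.univ else c k) = (∑ k, F (c k)) - F (c j) + F Set.univ := by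
  rw [← Finset.add_sum_erase Finset.univ _ (Finset.mem_univ j), if_pos rfl,
    ← Finset.add_sum_erase Finset.univ (fun k => F (c k)) (Finset.mem_univ j)]
  rw [Finset.sum_congr rfl fun k hk => by rw [if_neg (Finset.ne_of_mem_erase hk)]]
  ring

theorem setIntegral_quad [IsFiniteMeasure μ] (h1 : Integrable (fun x : ℝ => x) μ)
    (h2 : Integrable (fun x : ℝ => x ^ 2) μ) (T : Set ℝ) (b v : ℝ) :
    ∫ z in T, ((z + b) ^ 2 + v) ∂μ =
      mom μ T 2 + 2 * b * mom μ T 1 + (b ^ 2 + v) * mom μ T 0 := by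
  have i1 : IntegrableOn (fun x : ℝ => x) T μ := h1.integrableOn
  have i2 : IntegrableOn (fun x : ℝ => x ^ 2) T μ := h2.integrableOn
  have e : ∀ z : ℝ, (z + b) ^ 2 + v = (z ^ 2 + 2 * b * z) + (b ^ 2 + v) := fun z => by ring
  simp only [e]
  have e1 : ∫ z in T, (z ^ 2 + 2 * b * z + (b ^ 2 + v)) ∂μ =
      ∫ z in T, (z ^ 2 + 2 * b * z) ∂μ + ∫ _ in T, (b ^ 2 + v) ∂μ :=
    integral_add (i2.add (i1.const_mul (2 * b))) (integrable_const _)
  have e2 : ∫ z in T, (z ^ 2 + 2 * b * z) ∂μ = ∫ z in T, z ^ 2 ∂μ + ∫ z in T, 2 * b * z ∂μ :=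
    integral_add i2 (i1.const_mul (2 * b))
  rw [e1, e2, integral_const_mul]
  simp only [mom, pow_zero, pow_one, integral_const, smul_eq_mul, MeasurableSet.univ,
    Measure.restrict_apply, Set.univ_inter, Measure.real]
  ring

/-- exact value of the gadget functional -/
theorem Fgad_eq [IsProbabilityMeasure μ] (h1 : Integrable (fun x : ℝ => x) μ)
    (h2 : Integrable (fun x : ℝ => x ^ 2) μ) (hm : ∫ x, x ∂μ = 0) (hv : ∫ x, x ^ 2 ∂μ = 1)
    (a : A → Set ℝ) (c : Q → Set ℝ) (j : A → Q) (hp : ∀ k, mom μ (c k) 0 ≠ 0) (s x : ℝ)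
    (hs : s = ∑ k, cmean μ (c k) - x) :
    Fgad μ s a c j = (∏ k, mom μ (c k) 0) *
      ((∑ k, cvar μ (c k)) + x ^ 2 - ∑ α, (∫ z in a α, ((z + (x - cmean μ (c (j α)))) ^ 2 +
        ((∑ k, cvar μ (c k)) - cvar μ (c (j α)))) ∂μ) / mom μ (c (j α)) 0) := by
  have u0 : mom μ Set.univ 0 = 1 := mom_univ_zero μ
  have u1 : mom μ Set.univ 1 = 0 := by simpa [mom] using hm
  have u2 : mom μ Set.univ 2 = 1 := by simpa [mom] using hv
  have um : cmean μ Set.univ = 0 := by simp [cmean, u1]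
  have uv : cvar μ Set.univ = 1 := by simp [cvar, um, u0, u2]
  have hTc : G μ s (Tc c) = -((∏ k, mom μ (c k) 0) * ((∑ k, cvar μ (c k)) + x ^ 2)) := by
    rw [G_option μ s (Tc c) (fun k => hp k)]
    simp only [Tc, u0, u1, u2, hs]
    ring
  have hTa : ∀ α, G μ s (Ta a c j α) = -((∏ k, mom μ (c k) 0) *
      ((∫ z in a α, ((z + (x - cmean μ (c (j α)))) ^ 2 +
        ((∑ k, cvar μ (c k)) - cvar μ (c (j α)))) ∂μ) / mom μ (c (j α)) 0)) := by
    intro α
    have hp' : ∀ k, mom μ (Ta a c j α (some k)) 0 ≠ 0 := by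
      intro k
      simp only [Ta]
      split_ifs
      · rw [u0]; exact one_ne_zero
      · exact hp k
    rw [G_option μ s (Ta a c j α) hp']
    simp only [Ta]
    rw [prod_Ta c (j α) hp, sum_Ta c (j α) (cvar μ), sum_Ta c (j α) (cmean μ), um, uv,
      setIntegral_quad h1 h2, hs]
    ring
  rw [Fgad, hTc, Finset.sum_congr rfl fun α _ => hTa α, Finset.sum_neg_distrib, ← Finset.mul_sum]
  ring

theorem cvar_nonneg [IsFiniteMeasure μ] (h1 : Integrable (fun x : ℝ => x) μ)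
    (h2 : Integrable (fun x : ℝ => x ^ 2) μ) (T : Set ℝ) (hp : mom μ T 0 ≠ 0) :
    0 ≤ cvar μ T := by
  have hp0 : 0 < mom μ T 0 := lt_of_le_of_ne (by rw [mom_zero_eq]; exact measureReal_nonneg) hp.symm
  have h := setIntegral_quad h1 h2 T (-(cmean μ T)) 0
  have h0 : 0 ≤ ∫ z in T, ((z + (-(cmean μ T))) ^ 2 + 0) ∂μ :=
    integral_nonneg fun z => by positivity
  rw [h] at h0
  have e : mom μ T 2 + 2 * (-(cmean μ T)) * mom μ T 1 + ((-(cmean μ T)) ^ 2 + 0) * mom μ T 0 =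
      mom μ T 0 * cvar μ T := by
    simp only [cvar, cmean]
    field_simp
    ring
  rw [e] at h0
  exact nonneg_of_mul_nonneg_right h0 hp0

/-- lower bound of the gadget functional, general law -/
theorem Fgad_ge [IsProbabilityMeasure μ] (h1 : Integrable (fun x : ℝ => x) μ)
    (h2 : Integrable (fun x : ℝ => x ^ 2) μ) (hm : ∫ x, x ∂μ = 0) (hv : ∫ x, x ^ 2 ∂μ = 1)
    (a : A → Set ℝ) (c : Q → Set ℝ) (j : A → Q) (hp : ∀ k, mom μ (c k) 0 ≠ 0) (s x : ℝ)
    (hs : s = ∑ k, cmean μ (c k) - x) :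
    (∏ k, mom μ (c k) 0) *
      (x ^ 2 - ∑ α, (∫ z in a α, ((z + x - cmean μ (c (j α))) ^ 2 +
        (∑ k, cvar μ (c k))) ∂μ) / mom μ (c (j α)) 0) ≤ Fgad μ s a c j := by
  rw [Fgad_eq h1 h2 hm hv a c j hp s x hs]
  have hp0 : ∀ k, 0 < mom μ (c k) 0 := fun k =>
    lt_of_le_of_ne (by rw [mom_zero_eq]; exact measureReal_nonneg) (hp k).symm
  refine mul_le_mul_of_nonneg_left ?_ (Finset.prod_nonneg fun k _ => (hp0 k).le)
  have hV : 0 ≤ ∑ k, cvar μ (c k) := Finset.sum_nonneg fun k _ => cvar_nonneg h1 h2 _ (hp k)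
  have hle : ∑ α, (∫ z in a α, ((z + (x - cmean μ (c (j α)))) ^ 2 +
        ((∑ k, cvar μ (c k)) - cvar μ (c (j α)))) ∂μ) / mom μ (c (j α)) 0 ≤
      ∑ α, (∫ z in a α, ((z + x - cmean μ (c (j α))) ^ 2 +
        (∑ k, cvar μ (c k))) ∂μ) / mom μ (c (j α)) 0 := by
    refine Finset.sum_le_sum fun α _ => ?_
    refine div_le_div_of_nonneg_right ?_ (hp0 _).le
    have e : ∀ z : ℝ, (z + x - cmean μ (c (j α))) ^ 2 + (∑ k, cvar μ (c k)) =
        (z + (x - cmean μ (c (j α)))) ^ 2 + (∑ k, cvar μ (c k)) := fun z => by ring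
    simp only [e]
    rw [setIntegral_quad h1 h2, setIntegral_quad h1 h2]
    have := cvar_nonneg h1 h2 (c (j α)) (hp (j α))
    have h0 : 0 ≤ mom μ (a α) 0 := by rw [mom_zero_eq]; exact measureReal_nonneg
    nlinarith
  linarith

/-- `(*)` implies `0 < Fgad` for the standard Gaussian -/
theorem Fgad_gauss_pos (a : A → Set ℝ) (c : Q → Set ℝ) (j : A → Q) (x : ℝ)
    (hp : ∀ k, 0 < (ProbabilityTheory.gaussianReal 0 1).real (c k))
    (hstar : ∑ α, (∫ z in a α, ((z + x - cmean (ProbabilityTheory.gaussianReal 0 1) (c (j α))) ^ 2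
        + (∑ k, cvar (ProbabilityTheory.gaussianReal 0 1) (c k)))
          ∂(ProbabilityTheory.gaussianReal 0 1)) /
          (ProbabilityTheory.gaussianReal 0 1).real (c (j α)) < x ^ 2) :
    0 < Fgad (ProbabilityTheory.gaussianReal 0 1)
      (∑ k, cmean (ProbabilityTheory.gaussianReal 0 1) (c k) - x) a c j := by
  have hg1 : Integrable (fun x : ℝ => x) (ProbabilityTheory.gaussianReal 0 1) :=
    (ProbabilityTheory.memLp_id_gaussianReal 1).integrable (by norm_num)
  have hg2 : Integrable (fun x : ℝ => x ^ 2) (ProbabilityTheory.gaussianReal 0 1) :=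
    (ProbabilityTheory.memLp_id_gaussianReal 2).integrable_sq
  have hm : ∫ x : ℝ, x ∂(ProbabilityTheory.gaussianReal 0 1) = 0 :=
    ProbabilityTheory.integral_id_gaussianReal
  have hv : ∫ x : ℝ, x ^ 2 ∂(ProbabilityTheory.gaussianReal 0 1) = 1 := by
    have h := ProbabilityTheory.variance_eq_integral
      (μ := ProbabilityTheory.gaussianReal 0 1) (X := id) (by fun_prop)
    rw [ProbabilityTheory.variance_id_gaussianReal] at h
    simp only [id_eq] at h
    rw [ProbabilityTheory.integral_id_gaussianReal] at h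
    simpa using h.symm
  have hp' : ∀ k, mom (ProbabilityTheory.gaussianReal 0 1) (c k) 0 ≠ 0 := fun k => by
    rw [mom_zero_eq]; exact (hp k).ne'
  refine lt_of_lt_of_le ?_ (Fgad_ge hg1 hg2 hm hv a c j hp' _ x rfl)
  refine mul_pos (Finset.prod_pos fun k _ => by rw [mom_zero_eq]; exact hp k) ?_
  have e : ∀ α, mom (ProbabilityTheory.gaussianReal 0 1) (c (j α)) 0 =
      (ProbabilityTheory.gaussianReal 0 1).real (c (j α)) := fun α => mom_zero_eq _ _
  rw [Finset.sum_congr rfl fun α _ => by rw [e α]]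
  linarith

end Crest.Agent.BWH
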