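import Crest.Agent.BW_H_Star
import Crest.Agent.BW_H_Pos

/-! # BW_H_Gad : the gadget with positive Gaussian functional (S0085) -/

set_option autoImplicit false

open MeasureTheory ProbabilityTheory

namespace Crest.Agent.BWH

/-- there are finitely many cells such that helper7's gadget functional is positive for
standard Gaussian letters -/
theorem gadget_gauss : ∃ (q : ℕ) (s : ℝ) (c a : Fin q → Set ℝ),
    (∀ j, MeasurableSet (c j)) ∧ (∀ j, MeasurableSet (a j)) ∧
    (∀ j, (gaussianReal 0 1) (frontier (c j)) = 0) ∧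
    (∀ j, (gaussianReal 0 1) (frontier (a j)) = 0) ∧
    (∀ j, 0 < (gaussianReal 0 1).real (c j)) ∧
    Pairwise (Function.onFun Disjoint a) ∧ (⋃ j, a j) = Set.univ ∧
    0 < Fgad (gaussianReal 0 1) s a c id := by
  obtain ⟨q, x, c, a, h1, h2, h3, h4, h5, h6, h7, h8⟩ := Crest.Agent.BW.star_exists
  refine ⟨q, _, c, a, h1, h2, h3, h4, h5, h6, h7, Fgad_gauss_pos a c id x h5 ?_⟩
  refine lt_of_eq_of_lt ?_ h8
  refine Finset.sum_congr rfl fun j _ => ?_
  simp only [cmean, cvar, mom_zero_eq, mom_one_eq, id]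
  rfl

end Crest.Agent.BWH
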