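import Crest.Agent.BW_H_Defs
import Crest.Agent.BW_E_Cell

/-! # BW_H_Lim : the moment functional of the gadget for the finite law, and its limit -/

set_option autoImplicit false

open MeasureTheory ProbabilityTheory Filter Topology
open scoped ENNReal
open Crest.Agent.BW

namespace Crest.Agent.BWH

/-! ### finite product algebra -/

section Alg

variable {I Ω : Type*} [Fintype I] [DecidableEq I] [Fintype Ω]

theorem sum_prod_eq (u : I → Ω → ℝ) :
    ∑ ζ : I → Ω, ∏ l, u l (ζ l) = ∏ l, ∑ ω, u l ω := by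
  classical
  rw [Finset.prod_univ_sum, Fintype.piFinset_univ]

theorem sum_prod_mul_one (u : I → Ω → ℝ) (X : Ω → ℝ) :
    ∑ ζ : I → Ω, (∏ l, u l (ζ l)) * ∑ l, X (ζ l) =
      ∑ i, ∏ l, ∑ ω, u l ω * X ω ^ (if l = i then 1 else 0) := by
  simp_rw [← sum_prod_eq]
  rw [Finset.sum_comm]
  refine Finset.sum_congr rfl fun ζ _ => ?_
  rw [Finset.mul_sum]
  refine Finset.sum_congr rfl fun i _ => ?_
  rw [Finset.prod_mul_distrib]
  congr 1
  rw [Finset.prod_eq_single i]
  · simp
  · intro l _ h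
    simp [h]
  · simp

theorem sum_prod_mul_sq (u : I → Ω → ℝ) (X : Ω → ℝ) :
    ∑ ζ : I → Ω, (∏ l, u l (ζ l)) * (∑ l, X (ζ l)) ^ 2 =
      ∑ i, ∑ k, ∏ l, ∑ ω, u l ω * X ω ^ ((if l = i then 1 else 0) + (if l = k then 1 else 0)) := by
  have hX : ∀ (ζ : I → Ω) (i : I), ∏ l, X (ζ l) ^ (if l = i then 1 else 0) = X (ζ i) := by
    intro ζ i
    rw [Finset.prod_eq_single i]
    · simp
    · intro l _ h
      simp [h]
    · simp
  simp_rw [← sum_prod_eq, ← Finset.sum_comm (s := (Finset.univ : Finset (I → Ω)))]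
  refine Finset.sum_congr rfl fun ζ _ => ?_
  rw [sq, Finset.sum_mul_sum, Finset.mul_sum]
  refine Finset.sum_congr rfl fun i _ => ?_
  rw [Finset.mul_sum]
  refine Finset.sum_congr rfl fun k _ => ?_
  rw [Finset.prod_mul_distrib]
  congr 1
  simp_rw [pow_add]
  rw [Finset.prod_mul_distrib, hX, hX]

end Alg

variable {K : Type*} [Fintype K] {w φ : K → ℝ} {v : ℝ}

open Classical in
theorem mom_lawZ (hw : ∀ k, 0 ≤ w k) (L : ℕ) {T : Set ℝ} (hT : MeasurableSet T) (e : ℕ) :
    mom (lawZ w φ v L) T e =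
      ∑ k : Fin L → K, (PW w L k * (if Zn φ v L k ∈ T then 1 else 0)) * Zn φ v L k ^ e := by
  rw [mom, ← integral_indicator hT, integral_lawZ hw]
  refine Finset.sum_congr rfl fun k _ => ?_
  rw [smul_eq_mul, Set.indicator_apply]
  split_ifs <;> ring

theorem mom_tendsto (hw : ∀ k, 0 ≤ w k) (h1 : ∑ k, w k = 1) (h0 : ∑ k, w k * φ k = 0)
    (hv : ∑ k, w k * φ k ^ 2 = v) (hv0 : 0 < v) {T : Set ℝ} (hT : MeasurableSet T)
    (hfr : gaussianReal 0 1 (frontier T) = 0) {e : ℕ} (he : e ≤ 2) :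
    Tendsto (fun L => mom (lawZ w φ v L) T e) atTop (𝓝 (mom (gaussianReal 0 1) T e)) := by
  have h : e = 0 ∨ e = 1 ∨ e = 2 := by omega
  rcases h with rfl | rfl | rfl
  · have := cell_tendsto hw h1 h0 hv hv0 hT hfr 1 0 0
    simpa [mom] using this
  · have := cell_tendsto hw h1 h0 hv hv0 hT hfr 0 1 0
    simpa [mom] using this
  · have := cell_tendsto hw h1 h0 hv hv0 hT hfr 0 0 1
    simpa [mom] using this

section

variable {I : Type*} [Fintype I] [DecidableEq I]

theorem G_tendsto (hw : ∀ k, 0 ≤ w k) (h1 : ∑ k, w k = 1) (h0 : ∑ k, w k * φ k = 0)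
    (hv : ∑ k, w k * φ k ^ 2 = v) (hv0 : 0 < v) (s : ℝ) {T : I → Set ℝ}
    (hT : ∀ l, MeasurableSet (T l)) (hfr : ∀ l, gaussianReal 0 1 (frontier (T l)) = 0) :
    Tendsto (fun L => G (lawZ w φ v L) s T) atTop (𝓝 (G (gaussianReal 0 1) s T)) := by
  unfold G M0 M1 M2
  refine Tendsto.sub (Tendsto.add (Tendsto.const_mul _ ?_) (Tendsto.const_mul _ ?_)) ?_
  · exact tendsto_finsetProd _ fun l _ => mom_tendsto hw h1 h0 hv hv0 (hT l) (hfr l) (by norm_num)
  · refine tendsto_finsetSum _ fun i _ => tendsto_finsetProd _ fun l _ =>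
      mom_tendsto hw h1 h0 hv hv0 (hT l) (hfr l) ?_
    split_ifs <;> norm_num
  · refine tendsto_finsetSum _ fun i _ => tendsto_finsetSum _ fun k _ =>
      tendsto_finsetProd _ fun l _ => mom_tendsto hw h1 h0 hv hv0 (hT l) (hfr l) ?_
    split_ifs <;> norm_num

open Classical in
theorem G_lawZ (hw : ∀ k, 0 ≤ w k) (L : ℕ) (s : ℝ) {T : I → Set ℝ}
    (hT : ∀ l, MeasurableSet (T l)) :
    G (lawZ w φ v L) s T = ∑ ζ : I → (Fin L → K), (∏ l, PW w L (ζ l)) *
      ((∏ l, (if Zn φ v L (ζ l) ∈ T l then 1 else 0)) *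
        (1 - (∑ l, Zn φ v L (ζ l) - s) ^ 2)) := by
  have e0 : M0 (lawZ w φ v L) T = ∑ ζ : I → (Fin L → K),
      ∏ l, (PW w L (ζ l) * (if Zn φ v L (ζ l) ∈ T l then 1 else 0)) := by
    rw [M0, sum_prod_eq (fun l k => PW w L k * (if Zn φ v L k ∈ T l then 1 else 0))]
    refine Finset.prod_congr rfl fun l _ => ?_
    rw [mom_lawZ hw L (hT l)]
    simp
  have e1 : M1 (lawZ w φ v L) T = ∑ ζ : I → (Fin L → K),
      (∏ l, (PW w L (ζ l) * (if Zn φ v L (ζ l) ∈ T l then 1 else 0))) *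
        ∑ l, Zn φ v L (ζ l) := by
    rw [M1, sum_prod_mul_one (fun l k => PW w L k * (if Zn φ v L k ∈ T l then 1 else 0))]
    refine Finset.sum_congr rfl fun i _ => Finset.prod_congr rfl fun l _ => ?_
    rw [mom_lawZ hw L (hT l)]
  have e2 : M2 (lawZ w φ v L) T = ∑ ζ : I → (Fin L → K),
      (∏ l, (PW w L (ζ l) * (if Zn φ v L (ζ l) ∈ T l then 1 else 0))) *
        (∑ l, Zn φ v L (ζ l)) ^ 2 := by
    rw [M2, sum_prod_mul_sq (fun l k => PW w L k * (if Zn φ v L k ∈ T l then 1 else 0))]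
    refine Finset.sum_congr rfl fun i _ => Finset.sum_congr rfl fun k _ =>
      Finset.prod_congr rfl fun l _ => ?_
    rw [mom_lawZ hw L (hT l)]
  rw [G, e0, e1, e2, Finset.mul_sum, Finset.mul_sum, ← Finset.sum_add_distrib,
    ← Finset.sum_sub_distrib]
  refine Finset.sum_congr rfl fun ζ _ => ?_
  rw [Finset.prod_mul_distrib]
  ring

end

variable {Q A : Type*} [Fintype Q] [DecidableEq Q] [Fintype A]

open Classical in
/-- the indicator of `ρ` as the two-term expression of low degree -/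
noncomputable def rhoInd (a : A → Set ℝ) (c : Q → Set ℝ) (j : A → Q) (z : Option Q → ℝ) : ℝ :=
  (∑ α, ∏ l, (if z l ∈ Ta a c j α l then (1 : ℝ) else 0)) -
    ∏ l, (if z l ∈ Tc c l then (1 : ℝ) else 0)

/-- the event `ρ` -/
def Rho (a : A → Set ℝ) (c : Q → Set ℝ) (j : A → Q) (z : Option Q → ℝ) : Prop :=
  ∃ α, z none ∈ a α ∧ z (some (j α)) ∉ c (j α) ∧ ∀ k, k ≠ j α → z (some k) ∈ c k

theorem prod_ite_mem {I : Type*} [Fintype I] (z : I → ℝ) (T : I → Set ℝ)
    [∀ l, Decidable (z l ∈ T l)] [Decidable (∀ l, z l ∈ T l)] :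
    ∏ l, (if z l ∈ T l then (1 : ℝ) else 0) = if ∀ l, z l ∈ T l then 1 else 0 := by
  split_ifs with h
  · exact Finset.prod_eq_one fun l _ => by rw [if_pos (h l)]
  · push Not at h
    obtain ⟨l, hl⟩ := h
    exact Finset.prod_eq_zero (Finset.mem_univ l) (by rw [if_neg hl])

open Classical in
theorem rhoInd_eq {a : A → Set ℝ} {c : Q → Set ℝ} {j : A → Q}
    (hdis : Pairwise (fun α β => Disjoint (a α) (a β))) (hcov : ⋃ α, a α = Set.univ)
    (z : Option Q → ℝ) : rhoInd a c j z = if Rho a c j z then 1 else 0 := by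
  obtain ⟨α, hα⟩ : ∃ α, z none ∈ a α := by
    have : z none ∈ ⋃ α, a α := by rw [hcov]; trivial
    simpa using this
  have huniq : ∀ β, z none ∈ a β → β = α := by
    intro β hβ
    by_contra h
    exact Set.disjoint_left.1 (hdis h) hβ hα
  have hRho : Rho a c j z ↔ z (some (j α)) ∉ c (j α) ∧ ∀ k, k ≠ j α → z (some k) ∈ c k := by
    constructor
    · rintro ⟨β, h1, h2, h3⟩
      obtain rfl := huniq β h1
      exact ⟨h2, h3⟩
    · rintro ⟨h2, h3⟩
      exact ⟨α, hα, h2, h3⟩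
  rw [rhoInd, Finset.sum_eq_single α]
  · rw [prod_ite_mem, prod_ite_mem]
    have hTa : (∀ l, z l ∈ Ta a c j α l) ↔ ∀ k, k ≠ j α → z (some k) ∈ c k := by
      constructor
      · intro h k hk
        have := h (some k)
        simpa [Ta, hk] using this
      · intro h l
        cases l with
        | none => simpa [Ta] using hα
        | some k =>
          by_cases hk : k = j α
          · simp [Ta, hk]
          · simpa [Ta, hk] using h k hk
    have hTc : (∀ l, z l ∈ Tc c l) ↔ ∀ k, z (some k) ∈ c k := by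
      constructor
      · intro h k
        simpa [Tc] using h (some k)
      · intro h l
        cases l with
        | none => simp [Tc]
        | some k => simpa [Tc] using h k
    by_cases h1 : ∀ k, k ≠ j α → z (some k) ∈ c k
    · by_cases h2 : z (some (j α)) ∈ c (j α)
      · have h3 : ∀ k, z (some k) ∈ c k := by
          intro k
          by_cases hk : k = j α
          · rw [hk]; exact h2
          · exact h1 k hk
        rw [if_pos (hTa.2 h1), if_pos (hTc.2 h3), if_neg (fun h => (hRho.1 h).1 h2)]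
        norm_num
      · rw [if_pos (hTa.2 h1), if_neg (fun h => h2 (hTc.1 h _)), if_pos (hRho.2 ⟨h2, h1⟩)]
        norm_num
    · rw [if_neg (fun h => h1 (hTa.1 h)), if_neg (fun h => h1 fun k _ => hTc.1 h k),
        if_neg (fun h => h1 (hRho.1 h).2)]
      norm_num
  · intro β _ hβ
    refine Finset.prod_eq_zero (Finset.mem_univ none) ?_
    rw [if_neg]
    intro h
    exact hβ (huniq β h)
  · simp

omit [Fintype Q] [Fintype A] in
theorem measurable_Ta {a : A → Set ℝ} {c : Q → Set ℝ} {j : A → Q}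
    (ha : ∀ α, MeasurableSet (a α)) (hc : ∀ k, MeasurableSet (c k)) (α : A) (l : Option Q) :
    MeasurableSet (Ta a c j α l) := by
  cases l with
  | none => exact ha α
  | some k =>
    simp only [Ta]
    split_ifs
    · exact MeasurableSet.univ
    · exact hc k

omit [Fintype Q] [DecidableEq Q] in
theorem measurable_Tc {c : Q → Set ℝ} (hc : ∀ k, MeasurableSet (c k)) (l : Option Q) :
    MeasurableSet (Tc c l) := by
  cases l with
  | none => exact MeasurableSet.univ
  | some k => exact hc k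

/-- **(E2)** convergence of the gadget functional -/
theorem Fgad_tendsto (hw : ∀ k, 0 ≤ w k) (h1 : ∑ k, w k = 1) (h0 : ∑ k, w k * φ k = 0)
    (hv : ∑ k, w k * φ k ^ 2 = v) (hv0 : 0 < v) (s : ℝ) {a : A → Set ℝ} {c : Q → Set ℝ}
    {j : A → Q} (ha : ∀ α, MeasurableSet (a α)) (hc : ∀ k, MeasurableSet (c k))
    (hfa : ∀ α, gaussianReal 0 1 (frontier (a α)) = 0)
    (hfc : ∀ k, gaussianReal 0 1 (frontier (c k)) = 0) :
    Tendsto (fun L => Fgad (lawZ w φ v L) s a c j) atTop
      (𝓝 (Fgad (gaussianReal 0 1) s a c j)) := by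
  refine Tendsto.sub (tendsto_finsetSum _ fun α _ => ?_) ?_
  · refine G_tendsto hw h1 h0 hv hv0 s (measurable_Ta ha hc α) fun l => ?_
    cases l with
    | none => exact hfa α
    | some k =>
      simp only [Ta]
      split_ifs
      · simp
      · exact hfc k
  · refine G_tendsto hw h1 h0 hv hv0 s (measurable_Tc hc) fun l => ?_
    cases l with
    | none => simp [Tc]
    | some k => exact hfc k

/-- the gadget functional of the finite law is a finite sum -/
theorem Fgad_lawZ (hw : ∀ k, 0 ≤ w k) (L : ℕ) (s : ℝ) {a : A → Set ℝ} {c : Q → Set ℝ}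
    {j : A → Q} (ha : ∀ α, MeasurableSet (a α)) (hc : ∀ k, MeasurableSet (c k)) :
    Fgad (lawZ w φ v L) s a c j = ∑ ζ : Option Q → (Fin L → K), (∏ l, PW w L (ζ l)) *
      (rhoInd a c j (fun l => Zn φ v L (ζ l)) * (1 - (∑ l, Zn φ v L (ζ l) - s) ^ 2)) := by
  classical
  rw [Fgad, G_lawZ hw L s (measurable_Tc hc)]
  simp_rw [G_lawZ hw L s (measurable_Ta ha hc _)]
  rw [Finset.sum_comm, ← Finset.sum_sub_distrib]
  refine Finset.sum_congr rfl fun ζ _ => ?_
  rw [rhoInd, ← Finset.mul_sum, ← Finset.sum_mul]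
  ring

end Crest.Agent.BWH
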