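import Crest.Agent.BW_H_Star1

/-! # BW_H_Star : existence of the cells of helper7's global gadget (S0085), inequality (*) -/

set_option autoImplicit false

open MeasureTheory ProbabilityTheory Filter Topology
open scoped ENNReal NNReal

namespace Crest.Agent.BW

/-- abstract form of the estimate: grid of `q` cells -/
theorem star_bound (q : ℕ) (K η δ C : ℝ) (k0 : Fin q) (ℓ : Fin q → ℝ) (T : Set ℝ)
    (hT : MeasurableSet T)
    (hK : 1 ≤ K) (hη : 0 < η) (hη1 : η ≤ 1) (hδ : 0 < δ) (hδη : δ ≤ η)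
    (hℓ1 : ∀ k, -K ≤ ℓ k) (hℓ2 : ∀ k, ℓ k + η ≤ K) (hℓ0 : ℓ k0 = 0)
    (hq : (q : ℝ) * η = 2 * K) (hqδ : (q : ℝ) * δ ^ 2 ≤ 1)
    (hTK : ∀ z ∈ T, K ≤ |z + 1|)
    (hTb : ∫ z in T, (z + 1) ^ 2 ∂gam ≤ C * Real.exp (-(24 * K)))
    (c a : Fin q → Set ℝ) (hc : ∀ k, c k = Set.Ico (ℓ k) (ℓ k + δ))
    (ha : ∀ k, a k = Set.Ico (ℓ k - 1) (ℓ k - 1 + η) ∪ (if k = k0 then T else ∅))
    (hdis : ∀ k, Disjoint (Set.Ico (ℓ k - 1) (ℓ k - 1 + η)) T) :
    (∀ j, 0 < gam.real (c j)) ∧
    ∑ j, (∫ z in a j, ((z + 1 - (∫ z in c j, z ∂gam) / gam.real (c j)) ^ 2 +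
        ∑ k, ((∫ z in c k, z ^ 2 ∂gam) / gam.real (c k) -
          ((∫ z in c k, z ∂gam) / gam.real (c k)) ^ 2)) ∂gam) / gam.real (c j) ≤
      (η ^ 2 + q * δ ^ 2) * (2 * K / δ) * Real.exp (2 * K + 1) +
        5 * (C * Real.exp (-(24 * K))) / (δ * gph 1) := by
  have hmc : ∀ j, MeasurableSet (c j) := fun j => by rw [hc j]; exact measurableSet_Ico
  have hvc : ∀ j, volume (c j) = ENNReal.ofReal δ := fun j => by
    rw [hc j, Real.volume_Ico]; congr 1; ring
  have hp : ∀ j, 0 < gam.real (c j) := fun j => gam_pos (by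
    rw [hvc j]; simpa using hδ)
  refine ⟨hp, ?_⟩
  set m : Fin q → ℝ := fun j => (∫ z in c j, z ∂gam) / gam.real (c j) with hm
  set V : ℝ := ∑ k, ((∫ z in c k, z ^ 2 ∂gam) / gam.real (c k) -
          ((∫ z in c k, z ∂gam) / gam.real (c k)) ^ 2) with hV
  have hsub : ∀ j, c j ⊆ Set.Icc (ℓ j) (ℓ j + δ) := fun j => by
    rw [hc j]; exact Set.Ico_subset_Icc_self
  have hmm : ∀ j, ℓ j ≤ m j ∧ m j ≤ ℓ j + δ := fun j => cell_mean (hmc j) (hsub j) (hp j)
  have hV0 : 0 ≤ V := Finset.sum_nonneg fun k _ => (cell_var (hmc k) (hsub k) (hp k)).1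
  have hVq : V ≤ q * δ ^ 2 := by
    calc V ≤ ∑ _k : Fin q, δ ^ 2 :=
          Finset.sum_le_sum fun k _ => (cell_var (hmc k) (hsub k) (hp k)).2
      _ = q * δ ^ 2 := by simp
  have hV1 : V ≤ 1 := hVq.trans hqδ
  -- integrability of the integrands
  have hint : ∀ j, Integrable (fun z : ℝ => (z + 1 - m j) ^ 2 + V) gam := by
    intro j
    have e : (fun z : ℝ => (z + 1 - m j) ^ 2 + V) =
        fun z => z ^ 2 + 2 * (1 - m j) * z + ((1 - m j) ^ 2 + V) := by funext z; ring
    rw [e]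
    exact (integrable_sq_gam.add (integrable_id_gam.const_mul _)).add (integrable_const _)
  have hsq : Integrable (fun z : ℝ => (z + 1) ^ 2) gam := by
    have e : (fun z : ℝ => (z + 1) ^ 2) = fun z => z ^ 2 + 2 * z + 1 := by funext z; ring
    rw [e]
    exact (integrable_sq_gam.add (integrable_id_gam.const_mul 2)).add (integrable_const 1)
  -- main part
  have hmain : ∀ j, (∫ z in Set.Ico (ℓ j - 1) (ℓ j - 1 + η), ((z + 1 - m j) ^ 2 + V) ∂gam) /
      gam.real (c j) ≤ (η ^ 2 + q * δ ^ 2) * (η / δ) * Real.exp (2 * K + 1) := by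
    intro j
    set A := Set.Ico (ℓ j - 1) (ℓ j - 1 + η) with hA
    have h1 : ∫ z in A, ((z + 1 - m j) ^ 2 + V) ∂gam ≤ ∫ z in A, (η ^ 2 + q * δ ^ 2) ∂gam := by
      refine setIntegral_mono_on (hint j).integrableOn (integrableOn_const (measure_ne_top _ _))
        measurableSet_Ico fun z hz => ?_
      rw [hA, Set.mem_Ico] at hz
      have h2 := hmm j
      have : (z + 1 - m j) ^ 2 ≤ η ^ 2 := sq_le_sq' (by linarith) (by linarith)
      linarith
    rw [setIntegral_const, smul_eq_mul] at h1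
    have h3 : δ * gam.real A ≤ Real.exp (2 * K + 1) * η * gam.real (c j) := by
      refine gam_ratio measurableSet_Ico (hmc j) hη.le hδ.le ?_ (hvc j) ?_
      · rw [Real.volume_Ico]; congr 1; ring
      · intro z hz y hy
        rw [Set.mem_Ico] at hz
        rw [hc j, Set.mem_Ico] at hy
        have h4 := hℓ1 j
        have h5 := hℓ2 j
        refine gph_le ?_ ?_ ?_ hK
        · rw [abs_le]; constructor <;> linarith
        · rw [abs_le]; constructor <;> linarith
        · rw [abs_le]; constructor <;> linarith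
    have h6 : gam.real A ≤ Real.exp (2 * K + 1) * (η / δ) * gam.real (c j) := by
      have : gam.real A = (δ * gam.real A) / δ := by field_simp
      rw [this, div_le_iff₀ hδ]
      calc δ * gam.real A ≤ Real.exp (2 * K + 1) * η * gam.real (c j) := h3
        _ = Real.exp (2 * K + 1) * (η / δ) * gam.real (c j) * δ := by field_simp
    rw [div_le_iff₀ (hp j)]
    have h7 : (0 : ℝ) ≤ η ^ 2 + q * δ ^ 2 := by positivity
    calc ∫ z in A, ((z + 1 - m j) ^ 2 + V) ∂gam ≤ gam.real A * (η ^ 2 + q * δ ^ 2) := h1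
      _ ≤ (Real.exp (2 * K + 1) * (η / δ) * gam.real (c j)) * (η ^ 2 + q * δ ^ 2) :=
          mul_le_mul_of_nonneg_right h6 h7
      _ = _ := by ring
  -- tail part
  have hp0 : δ * gph 1 ≤ gam.real (c k0) := by
    rw [gam_real]
    have : ∫ y in c k0, gph 1 ≤ ∫ y in c k0, gph y := by
      refine setIntegral_mono_on (integrableOn_const (by rw [hvc k0]; exact ENNReal.ofReal_ne_top))
        integrable_gph.integrableOn (hmc k0) fun y hy => ?_
      rw [hc k0, Set.mem_Ico, hℓ0] at hy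
      rw [gph_eq, gph_eq]
      refine mul_le_mul_of_nonneg_left (Real.exp_le_exp.2 ?_) (by positivity)
      nlinarith [hy.1, hy.2]
    rwa [setIntegral_const, measureReal_def, hvc k0, ENNReal.toReal_ofReal hδ.le, smul_eq_mul] at this
  have htail : (∫ z in T, ((z + 1 - m k0) ^ 2 + V) ∂gam) / gam.real (c k0) ≤
      5 * (C * Real.exp (-(24 * K))) / (δ * gph 1) := by
    have h1 : ∫ z in T, ((z + 1 - m k0) ^ 2 + V) ∂gam ≤ ∫ z in T, 5 * (z + 1) ^ 2 ∂gam := by
      refine setIntegral_mono_on (hint k0).integrableOn (hsq.const_mul 5).integrableOn hT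
        fun z hz => ?_
      have h2 := hTK z hz
      have h3 := hmm k0
      rw [hℓ0] at h3
      have h4 : |z + 1 - m k0| ≤ 2 * |z + 1| := by
        have := abs_sub (z + 1) (m k0)
        have h5 : |m k0| ≤ 1 := by rw [abs_le]; constructor <;> linarith
        linarith
      have h5 : (z + 1 - m k0) ^ 2 ≤ 4 * (z + 1) ^ 2 := by
        have := mul_self_le_mul_self (abs_nonneg _) h4
        have e1 := sq_abs (z + 1 - m k0)
        have e2 := sq_abs (z + 1)
        nlinarith
      have h6 : 1 ≤ (z + 1) ^ 2 := by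
        have e2 := sq_abs (z + 1)
        nlinarith
      linarith
    rw [integral_const_mul] at h1
    have hgp : 0 < gph 1 := gph_pos 1
    have h0 : 0 ≤ 5 * (C * Real.exp (-(24 * K))) := by
      have : 0 ≤ ∫ z in T, (z + 1) ^ 2 ∂gam := setIntegral_nonneg hT fun z _ => sq_nonneg _
      linarith
    calc (∫ z in T, ((z + 1 - m k0) ^ 2 + V) ∂gam) / gam.real (c k0)
        ≤ (5 * (C * Real.exp (-(24 * K)))) / gam.real (c k0) :=
          div_le_div_of_nonneg_right (h1.trans (by linarith)) (hp k0).le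
      _ ≤ _ := div_le_div_of_nonneg_left h0 (by positivity) hp0
  -- decomposition of the integral over `a j`
  have hdec : ∀ j, (∫ z in a j, ((z + 1 - m j) ^ 2 + V) ∂gam) / gam.real (c j) ≤
      (η ^ 2 + q * δ ^ 2) * (η / δ) * Real.exp (2 * K + 1) +
        (if j = k0 then 5 * (C * Real.exp (-(24 * K))) / (δ * gph 1) else 0) := by
    intro j
    rw [ha j]
    by_cases hj : j = k0
    · rw [if_pos hj, if_pos hj]
      rw [setIntegral_union (hdis j) hT (hint j).integrableOn (hint j).integrableOn, add_div]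
      subst hj
      exact add_le_add (hmain j) htail
    · rw [if_neg hj, if_neg hj, Set.union_empty, add_zero]
      exact hmain j
  calc ∑ j, (∫ z in a j, ((z + 1 - m j) ^ 2 + V) ∂gam) / gam.real (c j)
      ≤ ∑ j : Fin q, ((η ^ 2 + q * δ ^ 2) * (η / δ) * Real.exp (2 * K + 1) +
        (if j = k0 then 5 * (C * Real.exp (-(24 * K))) / (δ * gph 1) else 0)) :=
        Finset.sum_le_sum fun j _ => hdec j
    _ = q * ((η ^ 2 + q * δ ^ 2) * (η / δ) * Real.exp (2 * K + 1)) +
        5 * (C * Real.exp (-(24 * K))) / (δ * gph 1) := by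
        rw [Finset.sum_add_distrib, Finset.sum_ite_eq' Finset.univ k0]
        simp
    _ = _ := by
        congr 1
        rw [← hq]
        field_simp

/-- the concrete grid -/
theorem star_param : ∃ C r : ℝ, 0 < C ∧ 0 < r ∧ r < 1 ∧ ∀ K : ℕ, 1 ≤ K →
    ∃ (q : ℕ) (c a : Fin q → Set ℝ),
      (∀ j, MeasurableSet (c j)) ∧ (∀ j, MeasurableSet (a j)) ∧
      (∀ j, (gaussianReal 0 1) (frontier (c j)) = 0) ∧
      (∀ j, (gaussianReal 0 1) (frontier (a j)) = 0) ∧
      (∀ j, 0 < (gaussianReal 0 1).real (c j)) ∧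
      Pairwise (Function.onFun Disjoint a) ∧ (⋃ j, a j) = Set.univ ∧
      ∑ j, (∫ z in a j, ((z + 1 - (∫ z in c j, z ∂(gaussianReal 0 1)) /
              (gaussianReal 0 1).real (c j)) ^ 2 +
          ∑ k, ((∫ z in c k, z ^ 2 ∂(gaussianReal 0 1)) / (gaussianReal 0 1).real (c k) -
            ((∫ z in c k, z ∂(gaussianReal 0 1)) / (gaussianReal 0 1).real (c k)) ^ 2))
          ∂(gaussianReal 0 1)) / (gaussianReal 0 1).real (c j) ≤
        (1 + 2 * K) * (2 * K) * 3 * (1 / 9) ^ K + C * r ^ K := by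
  obtain ⟨C, hC, hCt⟩ := tail_bound
  refine ⟨5 * C / gph 1, 531441 * Real.exp (-24), by have := gph_pos 1; positivity,
    by positivity, ?_, ?_⟩
  · have h1 : (2 : ℝ) ^ 24 < Real.exp 24 := by
      have h2 : (2 : ℝ) < Real.exp 1 := lt_trans (by norm_num) Real.exp_one_gt_d9
      calc (2 : ℝ) ^ 24 < Real.exp 1 ^ 24 := pow_lt_pow_left₀ h2 (by norm_num) (by norm_num)
        _ = Real.exp 24 := by rw [← Real.exp_nat_mul]; norm_num
    rw [Real.exp_neg, ← div_eq_mul_inv, div_lt_one (Real.exp_pos _)]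
    exact lt_trans (by norm_num) h1
  intro K hK1
  have hKr : (1 : ℝ) ≤ K := by exact_mod_cast hK1
  set e : ℝ := (1 / 81) ^ K with he
  have he0 : 0 < e := by positivity
  have he1 : e ≤ 1 / 81 := by
    calc e ≤ (1 / 81 : ℝ) ^ 1 := pow_le_pow_of_le_one (by norm_num) (by norm_num) hK1
      _ = 1 / 81 := by norm_num
  -- number of cells per unit
  set G : ℕ := 6561 ^ K with hG
  have hG1 : 1 ≤ G := Nat.one_le_pow _ _ (by norm_num)
  have hGe : (G : ℝ) * e ^ 2 = 1 := by
    rw [hG, he]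
    push_cast
    rw [← pow_mul, mul_comm K 2, pow_mul, ← mul_pow]
    norm_num
  set q : ℕ := 2 * K * G with hqd
  have hk0 : K * G < q := by rw [hqd]; nlinarith
  set k0 : Fin q := ⟨K * G, hk0⟩ with hk0d
  set ℓ : Fin q → ℝ := fun k => (k : ℕ) * e ^ 2 - K with hℓ
  set T : Set ℝ := {z : ℝ | z + 1 < -K ∨ (K : ℝ) ≤ z + 1} with hTd
  have hT : MeasurableSet T := by
    have e1 : T = Set.Iio (-(K : ℝ) - 1) ∪ Set.Ici ((K : ℝ) - 1) := by
      ext z
      simp only [hTd, Set.mem_setOf_eq, Set.mem_union, Set.mem_Iio, Set.mem_Ici]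
      constructor
      · rintro (h | h)
        · left; linarith
        · right; linarith
      · rintro (h | h)
        · left; linarith
        · right; linarith
    rw [e1]
    exact measurableSet_Iio.union measurableSet_Ici
  set c : Fin q → Set ℝ := fun k => Set.Ico (ℓ k) (ℓ k + e ^ 3) with hcd
  set a : Fin q → Set ℝ := fun k =>
    Set.Ico (ℓ k - 1) (ℓ k - 1 + e ^ 2) ∪ (if k = k0 then T else ∅) with had
  have hη : 0 < e ^ 2 := by positivity
  have hη1 : e ^ 2 ≤ 1 := by nlinarith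
  have hδ : 0 < e ^ 3 := by positivity
  have hδη : e ^ 3 ≤ e ^ 2 := by
    have : e ^ 3 = e ^ 2 * e := by ring
    nlinarith
  have hqη : (q : ℝ) * e ^ 2 = 2 * K := by
    rw [hqd]; push_cast
    calc 2 * (K : ℝ) * (G : ℝ) * e ^ 2 = 2 * (K : ℝ) * ((G : ℝ) * e ^ 2) := by ring
      _ = 2 * (K : ℝ) := by rw [hGe, mul_one]
  have hℓ1 : ∀ k, -(K : ℝ) ≤ ℓ k := fun k => by
    simp only [hℓ]
    have : (0 : ℝ) ≤ (k : ℕ) * e ^ 2 := by positivity
    linarith
  have hℓ2 : ∀ k, ℓ k + e ^ 2 ≤ K := fun k => by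
    simp only [hℓ]
    have h1 : ((k : ℕ) : ℝ) + 1 ≤ q := by exact_mod_cast k.2
    have := mul_le_mul_of_nonneg_right h1 hη.le
    rw [hqη] at this
    linarith
  have hℓ0 : ℓ k0 = 0 := by
    simp only [hℓ, hk0d]
    push_cast
    rw [mul_assoc, hGe]; ring
  have hKe : (K : ℝ) * e ≤ 1 := by
    have h1 : (K : ℝ) ≤ 81 ^ K := by
      have : K < 81 ^ K := Nat.lt_pow_self (by norm_num)
      exact_mod_cast this.le
    have h2 : (81 : ℝ) ^ K * e = 1 := by
      rw [he, ← mul_pow]; norm_num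
    nlinarith
  have hqδe : (q : ℝ) * (e ^ 3) ^ 2 = 2 * K * e ^ 4 := by
    calc (q : ℝ) * (e ^ 3) ^ 2 = (q * e ^ 2) * e ^ 4 := by ring
      _ = _ := by rw [hqη]
  have hqδ : (q : ℝ) * (e ^ 3) ^ 2 ≤ 1 := by
    rw [hqδe]
    have h3 : e ^ 4 = e * e ^ 3 := by ring
    have h4 : e ^ 3 ≤ 1 / 2 := by
      have : e ^ 3 = e ^ 2 * e := by ring
      nlinarith
    have h5 : 2 * (K : ℝ) * e ^ 4 = 2 * (K * e) * e ^ 3 := by ring
    rw [h5]
    have h6 : 0 ≤ (K : ℝ) * e := by positivity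
    nlinarith
  have hTK : ∀ z ∈ T, (K : ℝ) ≤ |z + 1| := by
    intro z hz
    rcases hz with h | h
    · have := neg_le_abs (z + 1); linarith
    · exact h.trans (le_abs_self _)
  have hTb : ∫ z in T, (z + 1) ^ 2 ∂gam ≤ C * Real.exp (-(24 * K)) := by
    refine le_trans ?_ (hCt K (by positivity))
    have hsq : Integrable (fun z : ℝ => (z + 1) ^ 2) gam := by
      have e : (fun z : ℝ => (z + 1) ^ 2) = fun z => z ^ 2 + 2 * z + 1 := by funext z; ring
      rw [e]
      exact (integrable_sq_gam.add (integrable_id_gam.const_mul 2)).add (integrable_const 1)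
    exact setIntegral_mono_set hsq.integrableOn (ae_of_all _ fun z => sq_nonneg _)
      (HasSubset.Subset.eventuallyLE hTK)
  have hdis : ∀ k, Disjoint (Set.Ico (ℓ k - 1) (ℓ k - 1 + e ^ 2)) T := by
    intro k
    rw [Set.disjoint_left]
    intro z hz hzT
    rw [Set.mem_Ico] at hz
    have h1 := hℓ1 k
    have h2 := hℓ2 k
    rcases hzT with h | h
    · linarith
    · linarith
  have hmeas_a : ∀ j, MeasurableSet (a j) := by
    intro j
    refine measurableSet_Ico.union ?_
    split_ifs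
    · exact hT
    · exact MeasurableSet.empty
  obtain ⟨hp, hmain⟩ := star_bound q K (e ^ 2) (e ^ 3) C k0 ℓ T hT hKr hη hη1 hδ hδη hℓ1 hℓ2 hℓ0
    hqη hqδ hTK hTb c a (fun _ => rfl) (fun _ => rfl) hdis
  have hna : NullSingletonClass (gaussianReal 0 1) := noAtoms_gaussianReal (by norm_num)
  have hfin : ∀ s : Set ℝ, s.Finite → (gaussianReal 0 1) s = 0 := fun s hs => hs.measure_zero _
  have hfIco : ∀ u w : ℝ, frontier (Set.Ico u w) ⊆ {u, w} := by
    intro u w
    by_cases h : u < w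
    · rw [frontier_Ico h]
    · rw [Set.Ico_eq_empty h, frontier_empty]; exact Set.empty_subset _
  have hfT : frontier T ⊆ {-(K : ℝ) - 1, (K : ℝ) - 1} := by
    have e1 : T = Set.Iio (-(K : ℝ) - 1) ∪ Set.Ici ((K : ℝ) - 1) := by
      ext z
      simp only [hTd, Set.mem_setOf_eq, Set.mem_union, Set.mem_Iio, Set.mem_Ici]
      constructor
      · rintro (h | h)
        · left; linarith
        · right; linarith
      · rintro (h | h)
        · left; linarith
        · right; linarith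
    rw [e1]
    refine (frontier_union_subset _ _).trans ?_
    rintro z (⟨h, _⟩ | ⟨_, h⟩)
    · rw [frontier_Iio] at h
      left; exact h
    · rw [frontier_Ici] at h
      right; exact h
  refine ⟨q, c, a, fun j => measurableSet_Ico, hmeas_a, fun j => ?_, fun j => ?_, hp, ?_, ?_, ?_⟩
  · exact hfin _ ((Set.toFinite _).subset (hfIco _ _))
  · refine hfin _ (Set.Finite.subset (s := ({ℓ j - 1, ℓ j - 1 + e ^ 2} : Set ℝ) ∪
      {-(K : ℝ) - 1, (K : ℝ) - 1}) (Set.toFinite _) ?_)
    refine (frontier_union_subset _ _).trans ?_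
    rintro z (⟨h, _⟩ | ⟨_, h⟩)
    · left; exact hfIco _ _ h
    · right
      split_ifs at h with h1
      · exact hfT h
      · rw [frontier_empty] at h; exact absurd h (Set.notMem_empty _)
  · -- pairwise disjoint
    intro i j hij
    simp only [Function.onFun]
    rw [Set.disjoint_left]
    intro z hzi hzj
    have key : ∀ i j : Fin q, i < j → z ∈ Set.Ico (ℓ i - 1) (ℓ i - 1 + e ^ 2) →
        z ∈ Set.Ico (ℓ j - 1) (ℓ j - 1 + e ^ 2) → False := by
      intro i j hij h1 h2
      rw [Set.mem_Ico] at h1 h2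
      have h3 : ((i : ℕ) : ℝ) + 1 ≤ (j : ℕ) := by exact_mod_cast hij
      have h4 := mul_le_mul_of_nonneg_right h3 hη.le
      simp only [hℓ] at h1 h2
      linarith [h1.2, h2.1]
    simp only [had, Set.mem_union] at hzi hzj
    rcases hzi with h1 | h1
    · rcases hzj with h2 | h2
      · rcases lt_or_gt_of_ne hij with h | h
        · exact key i j h h1 h2
        · exact key j i h h2 h1
      · split_ifs at h2 with h3
        · exact Set.disjoint_left.1 (hdis i) h1 h2
        · exact h2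
    · rcases hzj with h2 | h2
      · split_ifs at h1 with h3
        · exact Set.disjoint_left.1 (hdis j) h2 h1
        · exact h1
      · split_ifs at h1 with h3
        · split_ifs at h2 with h4
          · exact hij (h3.trans h4.symm)
          · exact h2
        · exact h1
  · -- union
    rw [Set.eq_univ_iff_forall]
    intro z
    rw [Set.mem_iUnion]
    by_cases hz : z ∈ T
    · exact ⟨k0, Or.inr (by rw [if_pos rfl]; exact hz)⟩
    · have hz1 : -(K : ℝ) ≤ z + 1 ∧ z + 1 < K := by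
        simp only [hTd, Set.mem_setOf_eq, not_or, not_lt, not_le] at hz
        exact hz
      have hnn : 0 ≤ (z + 1 + K) * G := mul_nonneg (by linarith [hz1.1]) (by positivity)
      have hGp : (0 : ℝ) < G := by exact_mod_cast hG1
      have hlt : ⌊(z + 1 + K) * G⌋₊ < q := by
        rw [Nat.floor_lt hnn, hqd]
        push_cast
        have : z + 1 + K < 2 * K := by linarith [hz1.2]
        exact mul_lt_mul_of_pos_right this hGp
      refine ⟨⟨_, hlt⟩, Or.inl ?_⟩
      have h1 := Nat.floor_le hnn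
      have h2 := Nat.lt_floor_add_one ((z + 1 + K) * G)
      rw [Set.mem_Ico]
      simp only [hℓ]
      have h3 := mul_le_mul_of_nonneg_right h1 hη.le
      have h4 := mul_lt_mul_of_pos_right h2 hη
      have h5 : (z + 1 + K) * G * e ^ 2 = z + 1 + K := by rw [mul_assoc, hGe, mul_one]
      rw [h5] at h3 h4
      constructor
      · linarith
      · linarith
  · refine hmain.trans ?_
    have hexp : Real.exp (2 * K + 1) ≤ 3 * 9 ^ K := by
      have h3 : Real.exp 1 ≤ 3 := Real.exp_one_lt_d9.le.trans (by norm_num)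
      have : Real.exp (2 * K + 1) = Real.exp 1 * (Real.exp 1 ^ 2) ^ K := by
        rw [← pow_mul, ← Real.exp_nat_mul, ← Real.exp_add]
        congr 1
        push_cast; ring
      rw [this]
      have h4 : Real.exp 1 ^ 2 ≤ 9 := by nlinarith [Real.exp_pos 1]
      exact mul_le_mul h3 (pow_le_pow_left₀ (by positivity) h4 K) (by positivity) (by norm_num)
    have h81 : e * 9 ^ K = (1 / 9) ^ K := by
      rw [he, ← mul_pow]; norm_num
    refine add_le_add ?_ (le_of_eq ?_)
    · rw [hqδe]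
      have e1 : ((e ^ 2) ^ 2 + 2 * K * e ^ 4) * (2 * K / e ^ 3) = (1 + 2 * K) * (2 * K) * e := by
        field_simp
      rw [e1]
      calc (1 + 2 * (K : ℝ)) * (2 * K) * e * Real.exp (2 * K + 1)
          ≤ (1 + 2 * (K : ℝ)) * (2 * K) * e * (3 * 9 ^ K) :=
            mul_le_mul_of_nonneg_left hexp (by positivity)
        _ = (1 + 2 * (K : ℝ)) * (2 * K) * 3 * (e * 9 ^ K) := by ring
        _ = _ := by rw [h81]
    · have e2 : Real.exp (-(24 * (K : ℝ))) = Real.exp (-24) ^ K := by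
        rw [← Real.exp_nat_mul]; congr 1; ring
      have e3 : (531441 : ℝ) ^ K * e ^ 3 = 1 := by
        rw [he, ← pow_mul, mul_comm K 3, pow_mul, ← mul_pow]; norm_num
      rw [e2, mul_pow]
      have hg := gph_pos 1
      have e4 : (531441 : ℝ) ^ K = 1 / e ^ 3 := by
        rw [eq_div_iff (by positivity)]; exact e3
      rw [e4]
      field_simp

/-- **(*)** : existence of the cells of the global gadget -/
theorem star_exists : ∃ (q : ℕ) (x : ℝ) (c a : Fin q → Set ℝ),
    (∀ j, MeasurableSet (c j)) ∧ (∀ j, MeasurableSet (a j)) ∧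
    (∀ j, (gaussianReal 0 1) (frontier (c j)) = 0) ∧
    (∀ j, (gaussianReal 0 1) (frontier (a j)) = 0) ∧
    (∀ j, 0 < (gaussianReal 0 1).real (c j)) ∧
    Pairwise (Function.onFun Disjoint a) ∧ (⋃ j, a j) = Set.univ ∧
    ∑ j, (∫ z in a j, ((z + x - (∫ z in c j, z ∂(gaussianReal 0 1)) /
            (gaussianReal 0 1).real (c j)) ^ 2 +
        ∑ k, ((∫ z in c k, z ^ 2 ∂(gaussianReal 0 1)) / (gaussianReal 0 1).real (c k) -
          ((∫ z in c k, z ∂(gaussianReal 0 1)) / (gaussianReal 0 1).real (c k)) ^ 2))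
        ∂(gaussianReal 0 1)) / (gaussianReal 0 1).real (c j) < x ^ 2 := by
  obtain ⟨C, r, hC, hr0, hr1, h⟩ := star_param
  have t1 : Tendsto (fun K : ℕ => (1 + 2 * (K : ℝ)) * (2 * K) * 3 * (1 / 9) ^ K + C * r ^ K)
      atTop (𝓝 0) := by
    have a1 : Tendsto (fun K : ℕ => (K : ℝ) ^ 1 * (1 / 9 : ℝ) ^ K) atTop (𝓝 0) :=
      tendsto_pow_const_mul_const_pow_of_abs_lt_one 1 (by rw [abs_of_pos] <;> norm_num)
    have a2 : Tendsto (fun K : ℕ => (K : ℝ) ^ 2 * (1 / 9 : ℝ) ^ K) atTop (𝓝 0) :=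
      tendsto_pow_const_mul_const_pow_of_abs_lt_one 2 (by rw [abs_of_pos] <;> norm_num)
    have a3 : Tendsto (fun K : ℕ => r ^ K) atTop (𝓝 0) :=
      tendsto_pow_atTop_nhds_zero_of_lt_one hr0.le hr1
    have a4 := ((a1.const_mul 6).add (a2.const_mul 12)).add (a3.const_mul C)
    simp only [mul_zero, add_zero] at a4
    refine a4.congr fun K => ?_
    ring
  have t2 : ∀ᶠ K : ℕ in atTop, (1 + 2 * (K : ℝ)) * (2 * K) * 3 * (1 / 9) ^ K + C * r ^ K < 1 :=
    t1.eventually (gt_mem_nhds one_pos)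
  obtain ⟨K, hK1, hK2⟩ := (t2.and (eventually_ge_atTop 1)).exists
  obtain ⟨q, c, a, h1, h2, h3, h4, h5, h6, h7, h8⟩ := h K hK2
  exact ⟨q, 1, c, a, h1, h2, h3, h4, h5, h6, h7, lt_of_le_of_lt h8 (by simpa using hK1)⟩

end Crest.Agent.BW
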