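import Mathlib

/-! # BW_H_Star1 : cell estimates for the global gadget of helper7 (S0085) -/

set_option autoImplicit false

open MeasureTheory ProbabilityTheory Filter Topology
open scoped ENNReal NNReal

namespace Crest.Agent.BW

/-- standard Gaussian measure -/
noncomputable abbrev gam : Measure ℝ := gaussianReal 0 1

/-- standard Gaussian density -/
noncomputable abbrev gph (x : ℝ) : ℝ := gaussianPDFReal 0 1 x

theorem gph_pos (x : ℝ) : 0 < gph x := gaussianPDFReal_pos 0 1 x (by norm_num)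

theorem gph_eq (x : ℝ) : gph x = (Real.sqrt (2 * Real.pi))⁻¹ * Real.exp (-(x ^ 2) / 2) := by
  simp [gph, gaussianPDFReal]

theorem gam_real (s : Set ℝ) : gam.real s = ∫ x in s, gph x := by
  rw [measureReal_def, gam, gaussianReal_apply_eq_integral _ (by norm_num),
    ENNReal.toReal_ofReal (integral_nonneg fun x => gaussianPDFReal_nonneg 0 1 x)]

theorem integrable_gph : Integrable gph := integrable_gaussianPDFReal 0 1

/-- comparison of `γ(A)/|A|` with `γ(B)/|B|` -/
theorem gam_ratio {A B : Set ℝ} (hA : MeasurableSet A) (hB : MeasurableSet B) {η δ C : ℝ}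
    (hη : 0 ≤ η) (hδ : 0 ≤ δ)
    (hvA : volume A = ENNReal.ofReal η) (hvB : volume B = ENNReal.ofReal δ)
    (h : ∀ z ∈ A, ∀ y ∈ B, gph z ≤ C * gph y) :
    δ * gam.real A ≤ C * η * gam.real B := by
  have hfA : volume A ≠ ∞ := by rw [hvA]; exact ENNReal.ofReal_ne_top
  have hfB : volume B ≠ ∞ := by rw [hvB]; exact ENNReal.ofReal_ne_top
  have hrA : volume.real A = η := by rw [measureReal_def, hvA, ENNReal.toReal_ofReal hη]
  have hrB : volume.real B = δ := by rw [measureReal_def, hvB, ENNReal.toReal_ofReal hδ]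
  have h1 : ∀ z ∈ A, δ * gph z ≤ C * gam.real B := by
    intro z hz
    have : ∫ y in B, gph z ≤ ∫ y in B, C * gph y := by
      refine setIntegral_mono_on (integrableOn_const hfB) (integrable_gph.integrableOn.const_mul C)
        hB fun y hy => h z hz y hy
    rw [setIntegral_const, hrB, smul_eq_mul, integral_const_mul, ← gam_real] at this
    exact this
  have h2 : ∫ z in A, δ * gph z ≤ ∫ z in A, C * gam.real B := by
    refine setIntegral_mono_on (integrable_gph.integrableOn.const_mul δ) (integrableOn_const hfA)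
      hA h1
  rw [setIntegral_const, hrA, smul_eq_mul, integral_const_mul, ← gam_real] at h2
  linarith

theorem gam_pos {A : Set ℝ} (h : volume A ≠ 0) : 0 < gam.real A := by
  rw [measureReal_def, ENNReal.toReal_pos_iff]
  refine ⟨?_, measure_lt_top _ _⟩
  rw [pos_iff_ne_zero]
  intro h0
  exact h ((gaussianReal_absolutelyContinuous' 0 (by norm_num : (1 : ℝ≥0) ≠ 0)) h0)

theorem integrable_id_gam : Integrable (fun x : ℝ => x) gam :=
  (memLp_id_gaussianReal (μ := 0) (v := 1) 1).integrable (by norm_num)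

theorem integrable_sq_gam : Integrable (fun x : ℝ => x ^ 2) gam := by
  have := (memLp_id_gaussianReal (μ := 0) (v := 1) 2).integrable_norm_pow (by norm_num)
  simpa using this

/-- mean of a cell lies in the cell -/
theorem cell_mean {A : Set ℝ} (hA : MeasurableSet A) {l δ : ℝ} (hsub : A ⊆ Set.Icc l (l + δ))
    (hp : 0 < gam.real A) :
    l ≤ (∫ z in A, z ∂gam) / gam.real A ∧ (∫ z in A, z ∂gam) / gam.real A ≤ l + δ := by
  have hi := integrable_id_gam.integrableOn (s := A)
  constructor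
  · rw [le_div_iff₀ hp]
    have : ∫ z in A, l ∂gam ≤ ∫ z in A, z ∂gam :=
      setIntegral_mono_on (integrableOn_const (measure_ne_top _ _)) hi hA fun z hz => (hsub hz).1
    rwa [setIntegral_const, smul_eq_mul, mul_comm] at this
  · rw [div_le_iff₀ hp]
    have : ∫ z in A, z ∂gam ≤ ∫ z in A, (l + δ) ∂gam :=
      setIntegral_mono_on hi (integrableOn_const (measure_ne_top _ _)) hA fun z hz => (hsub hz).2
    rwa [setIntegral_const, smul_eq_mul, mul_comm] at this

/-- variance of a cell -/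
theorem cell_var {A : Set ℝ} (hA : MeasurableSet A) {l δ : ℝ} (hsub : A ⊆ Set.Icc l (l + δ))
    (hp : 0 < gam.real A) :
    0 ≤ (∫ z in A, z ^ 2 ∂gam) / gam.real A - ((∫ z in A, z ∂gam) / gam.real A) ^ 2 ∧
    (∫ z in A, z ^ 2 ∂gam) / gam.real A - ((∫ z in A, z ∂gam) / gam.real A) ^ 2 ≤ δ ^ 2 := by
  set m := (∫ z in A, z ∂gam) / gam.real A with hm
  have hmem := cell_mean hA hsub hp
  rw [← hm] at hmem
  have hi := integrable_id_gam.integrableOn (s := A)
  have hi2 := integrable_sq_gam.integrableOn (s := A)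
  have hM : ∫ z in A, z ∂gam = m * gam.real A := by
    rw [hm, div_mul_cancel₀ _ hp.ne']
  have hq : ∫ z in A, (z - m) ^ 2 ∂gam = (∫ z in A, z ^ 2 ∂gam) - m ^ 2 * gam.real A := by
    have e : ∀ z : ℝ, (z - m) ^ 2 = z ^ 2 - 2 * m * z + m ^ 2 := fun z => by ring
    have hc : IntegrableOn (fun _ : ℝ => m ^ 2) A gam := integrableOn_const (measure_ne_top _ _)
    simp only [e]
    have h1 : ∫ z in A, (z ^ 2 - 2 * m * z + m ^ 2) ∂gam =
        (∫ z in A, (z ^ 2 - 2 * m * z) ∂gam) + ∫ z in A, m ^ 2 ∂gam :=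
      integral_add (hi2.sub (hi.const_mul (2 * m))) hc
    have h2 : ∫ z in A, (z ^ 2 - 2 * m * z) ∂gam =
        (∫ z in A, z ^ 2 ∂gam) - ∫ z in A, 2 * m * z ∂gam :=
      integral_sub hi2 (hi.const_mul (2 * m))
    rw [h1, h2, integral_const_mul, setIntegral_const, hM, smul_eq_mul]
    ring
  have hval : (∫ z in A, z ^ 2 ∂gam) / gam.real A - m ^ 2 =
      (∫ z in A, (z - m) ^ 2 ∂gam) / gam.real A := by
    rw [hq]; field_simp
  rw [hval]
  refine ⟨div_nonneg (setIntegral_nonneg hA fun z _ => sq_nonneg _) hp.le, ?_⟩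
  rw [div_le_iff₀ hp]
  have hint : IntegrableOn (fun z : ℝ => (z - m) ^ 2) A gam := by
    have e : (fun z : ℝ => (z - m) ^ 2) = fun z => z ^ 2 - 2 * m * z + m ^ 2 := by
      funext z; ring
    rw [e]
    exact (hi2.sub (hi.const_mul (2 * m))).add (integrableOn_const (measure_ne_top _ _))
  have : ∫ z in A, (z - m) ^ 2 ∂gam ≤ ∫ z in A, δ ^ 2 ∂gam := by
    refine setIntegral_mono_on hint (integrableOn_const (measure_ne_top _ _)) hA fun z hz => ?_
    have h1 := hsub hz
    rw [Set.mem_Icc] at h1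
    exact sq_le_sq' (by linarith) (by linarith)
  rwa [setIntegral_const, smul_eq_mul, mul_comm] at this

/-- the density comparison used for the grid -/
theorem gph_le {K z y : ℝ} (h1 : |y - (z + 1)| ≤ 1) (h2 : |y| ≤ K) (h3 : |z + 1| ≤ K)
    (hK : 1 ≤ K) :
    gph z ≤ Real.exp (2 * K + 1) * gph y := by
  rw [gph_eq, gph_eq]
  have hc : (0 : ℝ) < (Real.sqrt (2 * Real.pi))⁻¹ := by positivity
  have : Real.exp (-(z ^ 2) / 2) ≤ Real.exp (2 * K + 1) * Real.exp (-(y ^ 2) / 2) := by
    rw [← Real.exp_add]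
    apply Real.exp_le_exp.2
    rw [abs_le] at h1 h2 h3
    have h4 : 0 ≤ y - z := by linarith
    have h5 : y - z ≤ 2 := by linarith
    have h6 : y + z ≤ 2 * K + 1 := by linarith
    nlinarith [mul_le_mul_of_nonneg_left h6 h4]
  calc (Real.sqrt (2 * Real.pi))⁻¹ * Real.exp (-(z ^ 2) / 2)
      ≤ (Real.sqrt (2 * Real.pi))⁻¹ * (Real.exp (2 * K + 1) * Real.exp (-(y ^ 2) / 2)) :=
        mul_le_mul_of_nonneg_left this hc.le
    _ = _ := by ring

/-- Gaussian tail with an exponential factor -/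
theorem tail_bound : ∃ C : ℝ, 0 < C ∧ ∀ K : ℝ, 0 ≤ K →
    ∫ z in {z : ℝ | K ≤ |z + 1|}, (z + 1) ^ 2 ∂gam ≤ C * Real.exp (-(24 * K)) := by
  set g : ℝ → ℝ := fun z => 2 * (Real.exp (25 * (z + 1)) + Real.exp (-25 * (z + 1))) with hg
  have hgi : Integrable g gam := by
    have a1 : Integrable (fun z : ℝ => Real.exp (25 * z)) gam := integrable_exp_mul_gaussianReal 25
    have a2 : Integrable (fun z : ℝ => Real.exp (-25 * z)) gam := integrable_exp_mul_gaussianReal (-25)
    have e : g = fun z => 2 * Real.exp 25 * Real.exp (25 * z) + 2 * Real.exp (-25) * Real.exp (-25 * z) := by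
      funext z
      have e1 : Real.exp (25 * (z + 1)) = Real.exp 25 * Real.exp (25 * z) := by
        rw [← Real.exp_add]; ring_nf
      have e2 : Real.exp (-25 * (z + 1)) = Real.exp (-25) * Real.exp (-25 * z) := by
        rw [← Real.exp_add]; ring_nf
      simp only [hg]
      rw [e1, e2]; ring
    rw [e]
    exact (a1.const_mul _).add (a2.const_mul _)
  have hg0 : ∀ z, 0 ≤ g z := fun z => by simp only [hg]; positivity
  refine ⟨(∫ z, g z ∂gam) + 1, by have := integral_nonneg (μ := gam) (f := g) hg0; linarith, ?_⟩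
  intro K hK
  have hmeas : MeasurableSet {z : ℝ | K ≤ |z + 1|} := measurableSet_le measurable_const (by fun_prop)
  have hpt : ∀ z ∈ {z : ℝ | K ≤ |z + 1|}, (z + 1) ^ 2 ≤ Real.exp (-(24 * K)) * g z := by
    intro z hz
    have hz' : K ≤ |z + 1| := hz
    have h1 : (z + 1) ^ 2 ≤ 2 * Real.exp |z + 1| := by
      have := Real.quadratic_le_exp_of_nonneg (abs_nonneg (z + 1))
      have h2 := sq_abs (z + 1)
      nlinarith [abs_nonneg (z + 1)]
    have h2 : Real.exp (25 * |z + 1|) ≤ Real.exp (25 * (z + 1)) + Real.exp (-25 * (z + 1)) := by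
      rcases abs_cases (z + 1) with ⟨h, _⟩ | ⟨h, _⟩
      · rw [h]; linarith [Real.exp_pos (-25 * (z + 1))]
      · rw [h]
        have : Real.exp (25 * -(z + 1)) = Real.exp (-25 * (z + 1)) := by ring_nf
        rw [this]
        linarith [Real.exp_pos (25 * (z + 1))]
    have h3 : Real.exp |z + 1| ≤ Real.exp (-(24 * K)) * Real.exp (25 * |z + 1|) := by
      rw [← Real.exp_add]
      exact Real.exp_le_exp.2 (by linarith)
    calc (z + 1) ^ 2 ≤ 2 * Real.exp |z + 1| := h1
      _ ≤ 2 * (Real.exp (-(24 * K)) * Real.exp (25 * |z + 1|)) := by linarith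
      _ ≤ 2 * (Real.exp (-(24 * K)) * (Real.exp (25 * (z + 1)) + Real.exp (-25 * (z + 1)))) := by
          have := mul_le_mul_of_nonneg_left h2 (Real.exp_pos (-(24 * K))).le
          linarith
      _ = Real.exp (-(24 * K)) * g z := by simp only [hg]; ring
  have hsq : Integrable (fun z : ℝ => (z + 1) ^ 2) gam := by
    have e : (fun z : ℝ => (z + 1) ^ 2) = fun z => z ^ 2 + 2 * z + 1 := by funext z; ring
    rw [e]
    exact (integrable_sq_gam.add (integrable_id_gam.const_mul 2)).add (integrable_const 1)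
  calc ∫ z in {z : ℝ | K ≤ |z + 1|}, (z + 1) ^ 2 ∂gam
      ≤ ∫ z in {z : ℝ | K ≤ |z + 1|}, Real.exp (-(24 * K)) * g z ∂gam :=
        setIntegral_mono_on hsq.integrableOn (hgi.const_mul _).integrableOn hmeas hpt
    _ ≤ ∫ z, Real.exp (-(24 * K)) * g z ∂gam :=
        setIntegral_le_integral (hgi.const_mul _)
          (ae_of_all _ fun z => mul_nonneg (Real.exp_pos _).le (hg0 z))
    _ = Real.exp (-(24 * K)) * ∫ z, g z ∂gam := integral_const_mul _ _
    _ ≤ ((∫ z, g z ∂gam) + 1) * Real.exp (-(24 * K)) := by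
        nlinarith [Real.exp_pos (-(24 * K))]

end Crest.Agent.BW
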