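import Crest.Agent.BW_Mean
import Crest.Agent.BW_Deg

/-! # BW_Has : closure properties of realizable laws (S0085, helper18) -/

set_option autoImplicit false

open Finset

namespace Crest.Agent.BW

theorem ex_mean {ι : Type} [Fintype ι] [DecidableEq ι] {Ω : Type} (π : (ι → Bool) → Ω) :
    Mean (fun h : Ω → ℝ => ex (fun x => h (π x))) where
  add _ _ := ex_add _ _
  smul _ _ := ex_mul_left _ _
  mono _ _ h := ex_mono fun _ => h _
  one := ex_const 1

theorem Has.mean {E : (Om → ℝ) → ℝ} (hE : Has E) : Mean E := by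
  obtain ⟨ι, _, _, π, -, h⟩ := hE
  have : E = fun h => ex (fun x => h (π x)) := funext h
  rw [this]
  exact ex_mean π

/-- the value has mean `0` -/
theorem Has.phi {E : (Om → ℝ) → ℝ} (hE : Has E) : E (fun k => k.2.1) = 0 := by
  obtain ⟨ι, _, _, π, hπ, h⟩ := hE
  rw [h]
  have h1 := hπ.cond (fun _ => 1)
  simp only [one_mul] at h1
  rw [← h1, ex_SS]

theorem has_pure (l : Bool) : Has (fun h => h (l, 0, 0)) := by
  refine ⟨Empty, inferInstance, inferInstance, fun _ => (l, 0, 0), ⟨?_, ?_⟩, ?_⟩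
  · intro k
    by_cases hk : (l, (0 : ℝ), 0) = k
    · exact (DegLE.const 1 _).cast fun x => by simp [ind, hk]
    · exact (DegLE.const 0 _).cast fun x => by simp [ind, hk]
  · intro g
    have h1 : ∀ x : Empty → Bool, SS x = 0 := fun x => by simp [SS]
    simp only [h1]
  · intro h
    rw [ex_const]

theorem ex_unit (h : (Unit → Bool) → ℝ) :
    ex h = (h (fun _ => true) + h (fun _ => false)) / 2 := by
  unfold ex
  have : ∑ x : Unit → Bool, h x = ∑ b : Bool, h (fun _ => b) :=
    Fintype.sum_equiv (Equiv.funUnique Unit Bool) _ _ (fun x => by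
      congr 1)
  rw [this]
  simp

theorem has_bit : Has (fun h => (h (true, 1, 1) + h (false, -1, 1)) / 2) := by
  refine ⟨Unit, inferInstance, inferInstance, fun x => (x (), sg (x ()), 1), ⟨?_, ?_⟩, ?_⟩
  · intro k
    by_cases hk : k.2.2 = 1
    · rw [hk]
      exact (DegLE.coord () (fun b => if (b, sg b, 1) = k then (1 : ℝ) else 0)).cast
        fun x => by simp [ind]
    · refine (DegLE.const 0 _).cast fun x => ?_
      unfold ind
      rw [if_neg]
      rintro rfl
      exact hk rfl
  · intro g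
    congr 1
    funext x
    simp [SS]
  · intro h
    rw [ex_unit]
    simp [sg]

/-- relabelling and merging: any map of outcomes that fixes value and cost -/
theorem has_relabel {E : (Om → ℝ) → ℝ} (hE : Has E) (f : Om → Bool) :
    Has (fun h => E (fun k => h (f k, k.2.1, k.2.2))) := by
  classical
  obtain ⟨ι, _, _, π, hπ, h⟩ := hE
  refine ⟨ι, inferInstance, inferInstance, fun x => (f (π x), (π x).2.1, (π x).2.2), ⟨?_, ?_⟩, ?_⟩
  · intro k
    have h1 : ∀ x, ∑ k' ∈ (univ.image π).filter (fun k' => (f k', k'.2.1, k'.2.2) = k), ind π k' x =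
        ind (fun x => (f (π x), (π x).2.1, (π x).2.2)) k x := by
      intro x
      unfold ind
      rw [Finset.sum_ite_eq]
      simp only [mem_filter, mem_image, mem_univ, true_and, exists_apply_eq_apply]
    refine (DegLE.sum _ fun k' hk' => ?_).cast h1
    rw [mem_filter] at hk'
    have := hπ.deg k'
    rw [← hk'.2]
    exact this
  · intro g
    exact hπ.cond (fun k => g (f k, k.2.1, k.2.2))
  · intro g
    exact h _

theorem ex_flip {ι : Type} [Fintype ι] [DecidableEq ι] (h : (ι → Bool) → ℝ) :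
    ex (fun x => h (fun i => !x i)) = ex h := by
  unfold ex
  congr 1
  refine Fintype.sum_bijective (fun x i => !x i) ?_ _ _ (fun x => rfl)
  refine Function.Involutive.bijective ?_
  intro x
  funext i
  simp

theorem SS_flip {ι : Type} [Fintype ι] (x : ι → Bool) : SS (fun i => !x i) = -SS x := by
  unfold SS
  rw [← sum_neg_distrib]
  refine sum_congr rfl fun i _ => ?_
  cases h : x i <;> simp [sg, h]

theorem has_mirror {E : (Om → ℝ) → ℝ} (hE : Has E) :
    Has (fun h => E (fun k => h (k.1, -k.2.1, k.2.2))) := by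
  classical
  obtain ⟨ι, _, _, π, hπ, h⟩ := hE
  refine ⟨ι, inferInstance, inferInstance,
    fun x => ((π fun i => !x i).1, -(π fun i => !x i).2.1, (π fun i => !x i).2.2), ⟨?_, ?_⟩, ?_⟩
  · intro k
    refine (DegLE.flip (hπ.deg (k.1, -k.2.1, k.2.2))).cast fun x => ?_
    unfold ind
    have h1 : (π (fun i => !x i) = (k.1, -k.2.1, k.2.2)) ↔
        (((π fun i => !x i).1, -(π fun i => !x i).2.1, (π fun i => !x i).2.2) = k) := by
      constructor
      · intro h1; rw [h1]; simp
      · intro h1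
        rw [← h1]; simp
    simp only [h1]
  · intro g
    have h1 := hπ.cond (fun k => g (k.1, -k.2.1, k.2.2))
    rw [← ex_flip, ← ex_flip (fun x => g _ * (π x).2.1)] at h1
    simp only [SS_flip, mul_neg] at h1
    have h2 : ∀ f : (ι → Bool) → ℝ, ex (fun x => -f x) = -ex f := by
      intro f
      have := ex_mul_left (-1) f
      simpa using this
    rw [h2] at h1
    simp only [mul_neg]
    rw [h2, ← h1, neg_neg]
  · intro g
    refine (h _).trans ?_
    exact (ex_flip _).symm

/-- the support statement at the level of the cube -/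
theorem sup_cube {ι : Type} [Fintype ι] [DecidableEq ι] {π : (ι → Bool) → Om} {E : (Om → ℝ) → ℝ}
    (hE : ∀ h, E h = ex (fun x => h (π x))) {P : Om → Prop} (hP : Sup E P) (x : ι → Bool) :
    P (π x) := by
  classical
  by_contra hx
  have h1 := hP (fun k => if P k then 0 else 1) (fun _ => 0) (fun k hk => by simp [hk])
  rw [hE, hE, ex_const] at h1
  unfold ex at h1
  rw [div_eq_zero_iff] at h1
  rcases h1 with h1 | h1
  · rw [sum_eq_zero_iff_of_nonneg (fun y _ => by split_ifs <;> norm_num)] at h1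
    have := h1 x (mem_univ _)
    simp [hx] at this
  · exact absurd h1 (by positivity)

/-- values and costs are bounded -/
theorem has_bdd {E : (Om → ℝ) → ℝ} (hE : Has E) :
    ∃ (R : ℝ) (Cm : ℕ), 0 ≤ R ∧ Sup E (fun k => |k.2.1| ≤ R ∧ k.2.2 ≤ Cm) := by
  obtain ⟨ι, _, _, π, hπ, h⟩ := hE
  refine ⟨∑ x, |(π x).2.1|, ∑ x, (π x).2.2, sum_nonneg fun x _ => abs_nonneg _, ?_⟩
  intro f g hfg
  rw [h, h]
  congr 1
  funext x
  refine hfg _ ⟨?_, ?_⟩
  · exact single_le_sum (f := fun x => |(π x).2.1|) (fun x _ => abs_nonneg _) (mem_univ x)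
  · exact single_le_sum (f := fun x => (π x).2.2) (fun x _ => Nat.zero_le _) (mem_univ x)

/-- raising all costs to exactly `D` -/
theorem has_cost {E : (Om → ℝ) → ℝ} (hE : Has E) {D : ℕ} (hD : Sup E (fun k => k.2.2 ≤ D)) :
    Has (fun h => E (fun k => h (k.1, k.2.1, D))) := by
  classical
  obtain ⟨ι, _, _, π, hπ, h⟩ := hE
  have hD' := sup_cube h hD
  refine ⟨ι, inferInstance, inferInstance, fun x => ((π x).1, (π x).2.1, D), ⟨?_, ?_⟩, ?_⟩
  · intro k
    have h1 : ∀ x, ∑ k' ∈ (univ.image π).filter (fun k' => (k'.1, k'.2.1, D) = k), ind π k' x =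
        ind (fun x => ((π x).1, (π x).2.1, D)) k x := by
      intro x
      unfold ind
      rw [Finset.sum_ite_eq]
      simp only [mem_filter, mem_image, mem_univ, true_and, exists_apply_eq_apply]
    refine (DegLE.sum _ fun k' hk' => ?_).cast h1
    rw [mem_filter, mem_image] at hk'
    obtain ⟨⟨x, -, rfl⟩, hk⟩ := hk'
    have h2 : k.2.2 = D := by rw [← hk]
    rw [h2]
    exact (hπ.deg _).mono (hD' x)
  · intro g
    exact hπ.cond (fun k => g (k.1, k.2.1, D))
  · intro g
    exact h _

theorem has_bind {E : (Om → ℝ) → ℝ} {F : Om → (Om → ℝ) → ℝ} (hE : Has E) (hF : ∀ k, Has (F k)) :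
    Has (fun h => E (fun k => F k (fun k' => h (comb k k')))) := by
  classical
  obtain ⟨ι, _, _, π, hπ, h⟩ := hE
  choose κ fκ dκ ρ hρ hh using hF
  let R := Set.range π
  let _ : Fintype R := Fintype.ofFinite _
  let J := ι ⊕ (Σ k : R, κ k.1)
  let rg : (ι → Bool) → R := fun x => ⟨π x, ⟨x, rfl⟩⟩
  let emb : ∀ k : R, κ k.1 ↪ (Σ k : R, κ k.1) := fun k =>
    ⟨fun i => ⟨k, i⟩, fun i j hij => by simpa using hij⟩
  let T : (J → Bool) → Om := fun z =>
    comb (π (z ∘ Sum.inl)) (ρ (π (z ∘ Sum.inl)) ((z ∘ Sum.inr) ∘ (emb (rg (z ∘ Sum.inl)))))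
  have hexF : ∀ (k : R) (g : Om → ℝ), ex (fun y : (Σ k : R, κ k.1) → Bool => g (ρ k.1 (y ∘ emb k))) =
      F k.1 g := by
    intro k g
    rw [hh, ex_emb (emb k) (fun y => g (ρ k.1 y))]
  refine ⟨J, inferInstance, inferInstance, T, ⟨?_, ?_⟩, ?_⟩
  · intro k0
    have h1 : ∀ z : J → Bool, ∑ k : R, ∑ k' ∈ (univ.image (ρ k.1)).filter (fun k' => comb k.1 k' = k0),
        ind π k.1 (z ∘ Sum.inl) * ind (ρ k.1) k' ((z ∘ Sum.inr) ∘ emb k) = ind T k0 z := by
      intro z
      rw [sum_eq_single (rg (z ∘ Sum.inl))]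
      · have h2 : ind π (rg (z ∘ Sum.inl)).1 (z ∘ Sum.inl) = 1 := by simp [ind, rg]
        simp only [h2, one_mul]
        unfold ind
        rw [Finset.sum_ite_eq]
        simp only [mem_filter, mem_image, mem_univ, true_and, exists_apply_eq_apply]
        rfl
      · intro k _ hk
        have h2 : ind π k.1 (z ∘ Sum.inl) = 0 := by
          unfold ind
          rw [if_neg]
          intro h3
          exact hk (Subtype.ext h3.symm)
        simp only [h2, zero_mul, sum_const_zero]
      · intro h3; exact absurd (mem_univ _) h3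
    refine (DegLE.sum _ fun k _ => DegLE.sum _ fun k' hk' => ?_).cast h1
    rw [mem_filter] at hk'
    have h3 : k0.2.2 = k.1.2.2 + k'.2.2 := by rw [← hk'.2]; rfl
    rw [h3]
    refine DegLE.mul ((hπ.deg k.1).comap Sum.inl) ?_
    have h4 := ((hρ k.1).deg k').comap (fun i => (Sum.inr (emb k i) : J))
    exact h4
  · intro g
    rw [ex_sum_type, ex_sum_type]
    have h1 : ∀ (x : ι → Bool) (y : (Σ k : R, κ k.1) → Bool),
        T (Sum.elim x y) = comb (π x) (ρ (π x) (y ∘ emb (rg x))) := fun x y => rfl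
    have h2 : ∀ (x : ι → Bool) (y : (Σ k : R, κ k.1) → Bool),
        SS (Sum.elim x y) = SS x + SS y := by
      intro x y
      unfold SS
      rw [Fintype.sum_sum_type]
      rfl
    simp only [h1, h2]
    have h3 : ∀ x : ι → Bool, ex (fun y : (Σ k : R, κ k.1) → Bool =>
        g (comb (π x) (ρ (π x) (y ∘ emb (rg x)))) * (SS x + SS y)) =
        F (π x) (fun k' => g (comb (π x) k')) * SS x +
          F (π x) (fun k' => g (comb (π x) k') * k'.2.1) := by
      intro x
      simp only [mul_add]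
      rw [ex_add, ex_mul_right]
      have h4 : ex (fun y : (Σ k : R, κ k.1) → Bool =>
          g (comb (π x) (ρ (π x) (y ∘ emb (rg x))))) = F (π x) (fun k' => g (comb (π x) k')) :=
        hexF (rg x) (fun k' => g (comb (π x) k'))
      rw [h4]
      congr 1
      have h5 : ex (fun y : (Σ k : R, κ k.1) → Bool =>
          g (comb (π x) (ρ (π x) (y ∘ emb (rg x)))) * SS y) =
          ex (fun y => g (comb (π x) (ρ (π x) y)) * SS y) :=
        ex_emb_SS (emb (rg x)) (fun y => g (comb (π x) (ρ (rg x).1 y)))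
      rw [h5, (hρ (π x)).cond (fun k' => g (comb (π x) k')), hh]
    have h6 : ∀ x : ι → Bool, ex (fun y : (Σ k : R, κ k.1) → Bool =>
        g (comb (π x) (ρ (π x) (y ∘ emb (rg x)))) *
          (comb (π x) (ρ (π x) (y ∘ emb (rg x)))).2.1) =
        F (π x) (fun k' => g (comb (π x) k')) * (π x).2.1 +
          F (π x) (fun k' => g (comb (π x) k') * k'.2.1) := by
      intro x
      simp only [comb_phi, mul_add]
      rw [ex_add, ex_mul_right]
      have h4 : ex (fun y : (Σ k : R, κ k.1) → Bool =>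
          g (comb (π x) (ρ (π x) (y ∘ emb (rg x))))) = F (π x) (fun k' => g (comb (π x) k')) :=
        hexF (rg x) (fun k' => g (comb (π x) k'))
      rw [h4]
      congr 1
      exact hexF (rg x) (fun k' => g (comb (π x) k') * k'.2.1)
    simp only [h3, h6]
    rw [ex_add, ex_add]
    congr 1
    exact hπ.cond (fun k => F k (fun k' => g (comb k k')))
  · intro g
    refine (h _).trans ?_
    rw [ex_sum_type]
    congr 1
    funext x
    exact (hexF (rg x) (fun k' => g (comb (π x) k'))).symm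

theorem sch_of_has {E : (Om → ℝ) → ℝ} (hE : Has E) {D : ℕ} (hD : Sup E (fun k => k.2.2 ≤ D)) :
    ∃ (E' : (Om → ℝ) → ℝ) (R : ℝ), 0 ≤ R ∧ Sch E' D (E (fun k => k.2.1 ^ 2)) R := by
  obtain ⟨R, Cm, hR, hs⟩ := has_bdd hE
  refine ⟨fun h => E (fun k => h (k.1, k.2.1, D)), R, hR, has_cost hE hD, ?_, ?_, rfl⟩
  · intro f g hfg
    exact hs _ _ fun k _ => hfg _ rfl
  · intro f g hfg
    exact hs _ _ fun k hk => hfg _ hk.1

end Crest.Agent.BW
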