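import Mathlib

/-!
BW_L_Walk (S0085, helper20): i.i.d. rounds `k ∈ K` with weight `w k`, cost `c k`, value `X k`,
run until the total value leaves `(-a, a)` (at most `T` rounds).

* `BWL.exitT a X T x z : Option ℕ` first exit time (round number `1..T`) of the walk started at `x`.
* `BWL.exitS`, `BWL.exitC`, `BWL.exitN` : value, cost, number of rounds read.
* `BWL.exp_cos_mart` : exact identity
  `E[exp (θ C) cos (η S) (q⁻¹)^N] = cos (η x)`, `q = E[exp (θ c) cos (η X)]`.
* `BWL.wald` : `E[S² - R C] = x²` if `E X = 0`, `E[X² - R c] = 0`.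
* `BWL.exp_cost_le` : `E[exp (θ C)] ≤ 1 / cos (η (a+b))`.
-/

set_option autoImplicit false
set_option linter.unusedSectionVars false
set_option linter.unusedVariables false

open Finset

namespace BWL

variable {K : Type*} [Fintype K]

/-- product weight -/
noncomputable def W (w : K → ℝ) {M : ℕ} (z : Fin M → K) : ℝ := ∏ i, w (z i)

/-- first exit time (as a round number `1..M`) of the walk started at `x` -/
noncomputable def exitT (a : ℝ) (X : K → ℝ) : (M : ℕ) → ℝ → (Fin M → K) → Option ℕ
  | 0, _, _ => none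
  | M + 1, x, z => by
      classical
      exact if a ≤ |x + X (z 0)| then some 1
        else (exitT a X M (x + X (z 0)) (Fin.tail z)).map (· + 1)

/-- position at the exit time (or at the final time) -/
noncomputable def exitS (a : ℝ) (X : K → ℝ) : (M : ℕ) → ℝ → (Fin M → K) → ℝ
  | 0, x, _ => x
  | M + 1, x, z => by
      classical
      exact if a ≤ |x + X (z 0)| then x + X (z 0)
        else exitS a X M (x + X (z 0)) (Fin.tail z)

/-- number of rounds read -/
noncomputable def exitN (a : ℝ) (X : K → ℝ) : (M : ℕ) → ℝ → (Fin M → K) → ℕ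
  | 0, _, _ => 0
  | M + 1, x, z => by
      classical
      exact if a ≤ |x + X (z 0)| then 1
        else exitN a X M (x + X (z 0)) (Fin.tail z) + 1

/-- total cost read -/
noncomputable def exitC (a : ℝ) (X : K → ℝ) (c : K → ℕ) : (M : ℕ) → ℝ → (Fin M → K) → ℕ
  | 0, _, _ => 0
  | M + 1, x, z => by
      classical
      exact if a ≤ |x + X (z 0)| then c (z 0)
        else exitC a X c M (x + X (z 0)) (Fin.tail z) + c (z 0)

theorem W_nonneg {w : K → ℝ} (hw : ∀ k, 0 ≤ w k) {M : ℕ} (z : Fin M → K) : 0 ≤ W w z :=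
  Finset.prod_nonneg fun i _ => hw _

theorem W_cons (w : K → ℝ) {M : ℕ} (k : K) (z : Fin M → K) :
    W w (Fin.cons k z : Fin (M + 1) → K) = w k * W w z := by
  unfold W
  rw [Fin.prod_univ_succ]
  simp

theorem sum_fin_succ {M : ℕ} (f : (Fin (M + 1) → K) → ℝ) :
    ∑ z, f z = ∑ k : K, ∑ z : Fin M → K, f (Fin.cons k z) := by
  rw [← (Fin.consEquiv (fun _ => K)).sum_comp, Fintype.sum_prod_type]
  rfl

theorem sum_W {w : K → ℝ} (hw1 : ∑ k, w k = 1) (M : ℕ) : ∑ z : Fin M → K, W w z = 1 := by
  induction M with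
  | zero => simp [W]
  | succ M ih =>
    rw [sum_fin_succ]
    simp_rw [W_cons, ← Finset.mul_sum, ih, mul_one]
    exact hw1

section cons
variable (a : ℝ) (X : K → ℝ) (c : K → ℕ) {M : ℕ} (x : ℝ) (k : K) (z : Fin M → K)

theorem exitT_zero (z : Fin 0 → K) : exitT a X 0 x z = none := rfl
theorem exitS_zero (z : Fin 0 → K) : exitS a X 0 x z = x := rfl
theorem exitN_zero (z : Fin 0 → K) : exitN a X 0 x z = 0 := rfl
theorem exitC_zero (z : Fin 0 → K) : exitC a X c 0 x z = 0 := rfl

theorem exitT_cons [Decidable (a ≤ |x + X k|)] :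
    exitT a X (M + 1) x (Fin.cons k z : Fin (M + 1) → K) =
      if a ≤ |x + X k| then some 1 else (exitT a X M (x + X k) z).map (· + 1) := by
  simp only [exitT, Fin.cons_zero, Fin.tail_cons]

theorem exitS_cons [Decidable (a ≤ |x + X k|)] :
    exitS a X (M + 1) x (Fin.cons k z : Fin (M + 1) → K) =
      if a ≤ |x + X k| then x + X k else exitS a X M (x + X k) z := by
  simp only [exitS, Fin.cons_zero, Fin.tail_cons]

theorem exitN_cons [Decidable (a ≤ |x + X k|)] :
    exitN a X (M + 1) x (Fin.cons k z : Fin (M + 1) → K) =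
      if a ≤ |x + X k| then 1 else exitN a X M (x + X k) z + 1 := by
  simp only [exitN, Fin.cons_zero, Fin.tail_cons]

theorem exitC_cons [Decidable (a ≤ |x + X k|)] :
    exitC a X c (M + 1) x (Fin.cons k z : Fin (M + 1) → K) =
      if a ≤ |x + X k| then c k else exitC a X c M (x + X k) z + c k := by
  simp only [exitC, Fin.cons_zero, Fin.tail_cons]

end cons

/-- the exit time lies in `1..M` and equals the number of rounds read -/
theorem exitT_some (a : ℝ) (X : K → ℝ) {M : ℕ} (x : ℝ) (z : Fin M → K) {t : ℕ}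
    (h : exitT a X M x z = some t) : 1 ≤ t ∧ t ≤ M ∧ exitN a X M x z = t := by
  classical
  induction M generalizing x t with
  | zero => simp [exitT_zero] at h
  | succ M ih =>
    rw [← Fin.cons_self_tail z, exitT_cons] at h
    rw [← Fin.cons_self_tail z, exitN_cons]
    split_ifs at h with h1
    · simp only [Option.some.injEq] at h
      rw [if_pos h1]; omega
    · rw [Option.map_eq_some_iff] at h
      obtain ⟨c', hc', rfl⟩ := h
      have := ih _ _ hc'
      rw [if_neg h1]; omega

theorem exitN_of_none (a : ℝ) (X : K → ℝ) {M : ℕ} (x : ℝ) (z : Fin M → K)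
    (h : exitT a X M x z = none) : exitN a X M x z = M := by
  classical
  induction M generalizing x with
  | zero => rfl
  | succ M ih =>
    rw [← Fin.cons_self_tail z, exitT_cons] at h
    rw [← Fin.cons_self_tail z, exitN_cons]
    split_ifs at h with h1
    rw [Option.map_eq_none_iff] at h
    rw [if_neg h1, ih _ _ h]

theorem exitN_le (a : ℝ) (X : K → ℝ) {M : ℕ} (x : ℝ) (z : Fin M → K) : exitN a X M x z ≤ M := by
  cases h : exitT a X M x z with
  | none => exact (exitN_of_none a X x z h).le
  | some t => have := exitT_some a X x z h; omega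

/-- without exit the final position is the full sum -/
theorem exitS_of_none (a : ℝ) (X : K → ℝ) {M : ℕ} (x : ℝ) (z : Fin M → K)
    (h : exitT a X M x z = none) : exitS a X M x z = x + ∑ i, X (z i) := by
  classical
  induction M generalizing x with
  | zero => simp [exitS_zero]
  | succ M ih =>
    rw [← Fin.cons_self_tail z, exitT_cons] at h
    split_ifs at h with h1
    rw [Option.map_eq_none_iff] at h
    rw [Fin.sum_univ_succ]
    conv_lhs => rw [← Fin.cons_self_tail z]
    rw [exitS_cons, if_neg h1, ih _ _ h, add_assoc]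
    rfl

/-- without exit the final position is inside -/
theorem exitS_abs_lt (a : ℝ) (X : K → ℝ) {M : ℕ} (x : ℝ) (hx : |x| < a) (z : Fin M → K)
    (h : exitT a X M x z = none) : |exitS a X M x z| < a := by
  classical
  induction M generalizing x with
  | zero => simpa [exitS_zero] using hx
  | succ M ih =>
    rw [← Fin.cons_self_tail z, exitT_cons] at h
    rw [← Fin.cons_self_tail z, exitS_cons]
    split_ifs at h with h1
    rw [Option.map_eq_none_iff] at h
    rw [if_neg h1]
    exact ih _ (not_le.mp h1) _ h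

/-- at the exit the position is in `[a, a + b]` in absolute value, `b` a bound of the steps -/
theorem exitS_abs_of_some (a : ℝ) (X : K → ℝ) {b : ℝ} (hb : ∀ k, |X k| ≤ b) {M : ℕ} (x : ℝ)
    (hx : |x| < a) (z : Fin M → K) {t : ℕ} (h : exitT a X M x z = some t) :
    a ≤ |exitS a X M x z| ∧ |exitS a X M x z| ≤ a + b := by
  classical
  induction M generalizing x t with
  | zero => simp [exitT_zero] at h
  | succ M ih =>
    rw [← Fin.cons_self_tail z, exitT_cons] at h
    rw [← Fin.cons_self_tail z, exitS_cons]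
    split_ifs at h with h1
    · rw [if_pos h1]
      refine ⟨h1, ?_⟩
      have := abs_add_le x (X (z 0))
      have := hb (z 0)
      linarith
    · rw [Option.map_eq_some_iff] at h
      obtain ⟨c', hc', -⟩ := h
      rw [if_neg h1]
      exact ih _ (not_le.mp h1) _ hc'

theorem exitS_abs_le (a : ℝ) (X : K → ℝ) {b : ℝ} (hb0 : 0 ≤ b) (hb : ∀ k, |X k| ≤ b) {M : ℕ} (x : ℝ)
    (hx : |x| < a) (z : Fin M → K) : |exitS a X M x z| ≤ a + b := by
  cases h : exitT a X M x z with
  | none => have := exitS_abs_lt a X x hx z h; linarith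
  | some t => exact (exitS_abs_of_some a X hb x hx z h).2

/-- **exact exponential-cosine martingale identity** -/
theorem exp_cos_mart (a : ℝ) (w X : K → ℝ) (c : K → ℕ) (hw1 : ∑ k, w k = 1) (θ η q : ℝ)
    (hsin : ∑ k, w k * (Real.exp (θ * c k) * Real.sin (η * X k)) = 0)
    (hq : q = ∑ k, w k * (Real.exp (θ * c k) * Real.cos (η * X k))) (hq0 : q ≠ 0) (M : ℕ) (x : ℝ) :
    ∑ z : Fin M → K, W w z * (Real.exp (θ * exitC a X c M x z) * Real.cos (η * exitS a X M x z)
        * (q⁻¹) ^ (exitN a X M x z)) = Real.cos (η * x) := by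
  classical
  induction M generalizing x with
  | zero => simp [W, exitS_zero, exitC_zero, exitN_zero]
  | succ M ih =>
    rw [sum_fin_succ]
    have key : ∀ k : K, ∑ z : Fin M → K, W w (Fin.cons k z : Fin (M + 1) → K) *
        (Real.exp (θ * exitC a X c (M + 1) x (Fin.cons k z : Fin (M + 1) → K)) *
          Real.cos (η * exitS a X (M + 1) x (Fin.cons k z : Fin (M + 1) → K)) *
          (q⁻¹) ^ (exitN a X (M + 1) x (Fin.cons k z : Fin (M + 1) → K)))
        = w k * (q⁻¹ * (Real.exp (θ * c k) * Real.cos (η * (x + X k)))) := by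
      intro k
      by_cases h : a ≤ |x + X k|
      · simp only [W_cons, exitS_cons, exitC_cons, exitN_cons, if_pos h, pow_one]
        rw [show (fun z : Fin M → K => w k * W w z *
            (Real.exp (θ * c k) * Real.cos (η * (x + X k)) * q⁻¹)) =
          fun z => W w z * (w k * (q⁻¹ * (Real.exp (θ * c k) * Real.cos (η * (x + X k))))) from by
            funext z; ring]
        rw [← Finset.sum_mul, sum_W hw1, one_mul]
      · simp only [W_cons, exitS_cons, exitC_cons, exitN_cons, if_neg h]
        rw [← ih (x + X k), Finset.mul_sum, Finset.mul_sum, Finset.mul_sum]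
        refine Finset.sum_congr rfl fun z _ => ?_
        rw [pow_succ, Nat.cast_add, mul_add, Real.exp_add]
        ring
    simp_rw [key]
    have : ∀ k, w k * (q⁻¹ * (Real.exp (θ * c k) * Real.cos (η * (x + X k)))) =
        q⁻¹ * (Real.cos (η * x) * (w k * (Real.exp (θ * c k) * Real.cos (η * X k)))
          - Real.sin (η * x) * (w k * (Real.exp (θ * c k) * Real.sin (η * X k)))) := by
      intro k
      rw [mul_add, Real.cos_add]; ring
    simp_rw [this]
    rw [← Finset.mul_sum, Finset.sum_sub_distrib, ← Finset.mul_sum, ← Finset.mul_sum, hsin, ← hq]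
    field_simp
    ring

/-- **Wald**: `E[S² - R C] = x²` -/
theorem wald (a R : ℝ) (w X : K → ℝ) (c : K → ℕ) (hw1 : ∑ k, w k = 1)
    (h1 : ∑ k, w k * X k = 0) (h2 : ∑ k, w k * ((X k) ^ 2 - R * c k) = 0) (M : ℕ) (x : ℝ) :
    ∑ z : Fin M → K, W w z * ((exitS a X M x z) ^ 2 - R * exitC a X c M x z) = x ^ 2 := by
  classical
  induction M generalizing x with
  | zero => simp [W, exitS_zero, exitC_zero]
  | succ M ih =>
    rw [sum_fin_succ]
    have key : ∀ k : K, ∑ z : Fin M → K, W w (Fin.cons k z : Fin (M + 1) → K) *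
        ((exitS a X (M + 1) x (Fin.cons k z : Fin (M + 1) → K)) ^ 2 -
          R * exitC a X c (M + 1) x (Fin.cons k z : Fin (M + 1) → K))
        = w k * ((x + X k) ^ 2 - R * c k) := by
      intro k
      by_cases h : a ≤ |x + X k|
      · simp only [W_cons, exitS_cons, exitC_cons, if_pos h]
        rw [show (fun z : Fin M → K => w k * W w z * ((x + X k) ^ 2 - R * c k)) =
          fun z => W w z * (w k * ((x + X k) ^ 2 - R * c k)) from by funext z; ring]
        rw [← Finset.sum_mul, sum_W hw1, one_mul]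
      · simp only [W_cons, exitS_cons, exitC_cons, if_neg h]
        have h3 : w k * ((x + X k) ^ 2 - R * c k) =
            w k * (∑ z : Fin M → K, W w z * ((exitS a X M (x + X k) z) ^ 2
              - R * exitC a X c M (x + X k) z)) - w k * (R * c k) * ∑ z : Fin M → K, W w z := by
          rw [ih, sum_W hw1]; ring
        rw [h3, Finset.mul_sum, Finset.mul_sum, ← Finset.sum_sub_distrib]
        refine Finset.sum_congr rfl fun z _ => ?_
        push_cast
        ring
    simp_rw [key]
    have : ∀ k, w k * ((x + X k) ^ 2 - R * c k) =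
        x ^ 2 * w k + 2 * x * (w k * X k) + w k * ((X k) ^ 2 - R * c k) := by
      intro k; ring
    simp_rw [this]
    rw [Finset.sum_add_distrib, Finset.sum_add_distrib, ← Finset.mul_sum, ← Finset.mul_sum, hw1, h1, h2]
    ring

/-- first moment: `E[S] = x` -/
theorem wald_one (a : ℝ) (w X : K → ℝ) (hw1 : ∑ k, w k = 1)
    (h1 : ∑ k, w k * X k = 0) (M : ℕ) (x : ℝ) :
    ∑ z : Fin M → K, W w z * exitS a X M x z = x := by
  classical
  induction M generalizing x with
  | zero => simp [W, exitS_zero]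
  | succ M ih =>
    rw [sum_fin_succ]
    have key : ∀ k : K, ∑ z : Fin M → K, W w (Fin.cons k z : Fin (M + 1) → K) *
        exitS a X (M + 1) x (Fin.cons k z : Fin (M + 1) → K) = w k * (x + X k) := by
      intro k
      by_cases h : a ≤ |x + X k|
      · simp only [W_cons, exitS_cons, if_pos h]
        rw [show (fun z : Fin M → K => w k * W w z * (x + X k)) =
          fun z => W w z * (w k * (x + X k)) from by funext z; ring]
        rw [← Finset.sum_mul, sum_W hw1, one_mul]
      · simp only [W_cons, exitS_cons, if_neg h]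
        have h3 : w k * (x + X k) = w k * ∑ z : Fin M → K, W w z * exitS a X M (x + X k) z := by
          rw [ih]
        rw [h3, Finset.mul_sum]
        refine Finset.sum_congr rfl fun z _ => ?_
        ring
    simp_rw [key, mul_add]
    rw [Finset.sum_add_distrib, h1, ← Finset.sum_mul, hw1]
    ring

/-- weighted exponential moment of the cost, with the gain `q⁻¹` per round -/
theorem exp_cost_mul_le (a b : ℝ) (w X : K → ℝ) (c : K → ℕ) (hw : ∀ k, 0 ≤ w k) (hw1 : ∑ k, w k = 1)
    (hb0 : 0 ≤ b) (hb : ∀ k, |X k| ≤ b) (θ η q : ℝ) (hη : 0 ≤ η) (hηab : η * (a + b) < Real.pi / 2)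
    (hsin : ∑ k, w k * (Real.exp (θ * c k) * Real.sin (η * X k)) = 0)
    (hq : q = ∑ k, w k * (Real.exp (θ * c k) * Real.cos (η * X k))) (hq0 : 0 < q)
    (M : ℕ) (x : ℝ) (hx : |x| < a) :
    ∑ z : Fin M → K, W w z * (Real.exp (θ * exitC a X c M x z) * (q⁻¹) ^ (exitN a X M x z))
      ≤ Real.cos (η * x) / Real.cos (η * (a + b)) := by
  have hcos : 0 < Real.cos (η * (a + b)) := by
    apply Real.cos_pos_of_mem_Ioo
    constructor
    · have : 0 ≤ η * (a + b) := by
        have : 0 < a := lt_of_le_of_lt (abs_nonneg x) hx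
        positivity
      linarith [Real.pi_pos]
    · exact hηab
  rw [le_div_iff₀ hcos, ← exp_cos_mart a w X c hw1 θ η q hsin hq hq0.ne' M x, Finset.sum_mul]
  refine Finset.sum_le_sum fun z _ => ?_
  have h1 := exitS_abs_le a X hb0 hb x hx z
  have h2 : Real.cos (η * (a + b)) ≤ Real.cos (η * exitS a X M x z) := by
    rw [← Real.cos_abs (η * exitS a X M x z), abs_mul, abs_of_nonneg hη]
    apply Real.cos_le_cos_of_nonneg_of_le_pi
    · positivity
    · linarith [Real.pi_pos]
    · exact mul_le_mul_of_nonneg_left h1 hη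
  have h3 : 0 ≤ W w z * (Real.exp (θ * exitC a X c M x z) * (q⁻¹) ^ (exitN a X M x z)) := by
    have := W_nonneg hw z
    positivity
  calc _ ≤ W w z * (Real.exp (θ * exitC a X c M x z) * (q⁻¹) ^ (exitN a X M x z))
        * Real.cos (η * exitS a X M x z) := mul_le_mul_of_nonneg_left h2 h3
    _ = _ := by ring

/-- exponential moment of the cost -/
theorem exp_cost_le (a b : ℝ) (w X : K → ℝ) (c : K → ℕ) (hw : ∀ k, 0 ≤ w k) (hw1 : ∑ k, w k = 1)
    (hb0 : 0 ≤ b) (hb : ∀ k, |X k| ≤ b) (θ η q : ℝ) (hη : 0 ≤ η) (hηab : η * (a + b) < Real.pi / 2)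
    (hsin : ∑ k, w k * (Real.exp (θ * c k) * Real.sin (η * X k)) = 0)
    (hq : q = ∑ k, w k * (Real.exp (θ * c k) * Real.cos (η * X k))) (hq0 : 0 < q) (hq1 : q ≤ 1)
    (M : ℕ) (ha : 0 < a) :
    ∑ z : Fin M → K, W w z * Real.exp (θ * exitC a X c M 0 z) ≤ 1 / Real.cos (η * (a + b)) := by
  have h := exp_cost_mul_le a b w X c hw hw1 hb0 hb θ η q hη hηab hsin hq hq0 M 0 (by simpa using ha)
  rw [mul_zero, Real.cos_zero] at h
  refine le_trans (Finset.sum_le_sum fun z _ => ?_) h
  apply mul_le_mul_of_nonneg_left _ (W_nonneg hw z)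
  have : 1 ≤ (q⁻¹) ^ (exitN a X M 0 z) := one_le_pow₀ ((one_le_inv₀ hq0).mpr hq1)
  calc Real.exp (θ * exitC a X c M 0 z) = Real.exp (θ * exitC a X c M 0 z) * 1 := by ring
    _ ≤ _ := mul_le_mul_of_nonneg_left this (Real.exp_pos _).le

/-- timeouts: `E[exp (θ C); no exit] ≤ q ^ M / cos (η (a+b))` -/
theorem exp_cost_timeout_le (a b : ℝ) (w X : K → ℝ) (c : K → ℕ) (hw : ∀ k, 0 ≤ w k)
    (hw1 : ∑ k, w k = 1)
    (hb0 : 0 ≤ b) (hb : ∀ k, |X k| ≤ b) (θ η q : ℝ) (hη : 0 ≤ η) (hηab : η * (a + b) < Real.pi / 2)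
    (hsin : ∑ k, w k * (Real.exp (θ * c k) * Real.sin (η * X k)) = 0)
    (hq : q = ∑ k, w k * (Real.exp (θ * c k) * Real.cos (η * X k))) (hq0 : 0 < q)
    (M : ℕ) (ha : 0 < a) [DecidablePred fun z : Fin M → K => exitT a X M 0 z = none] :
    ∑ z ∈ Finset.univ.filter (fun z : Fin M → K => exitT a X M 0 z = none),
      W w z * Real.exp (θ * exitC a X c M 0 z) ≤ q ^ M / Real.cos (η * (a + b)) := by
  have h := exp_cost_mul_le a b w X c hw hw1 hb0 hb θ η q hη hηab hsin hq hq0 M 0 (by simpa using ha)
  rw [mul_zero, Real.cos_zero] at h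
  have h1 : ∑ z ∈ Finset.univ.filter (fun z : Fin M → K => exitT a X M 0 z = none),
      W w z * (Real.exp (θ * exitC a X c M 0 z) * (q⁻¹) ^ (exitN a X M 0 z))
      ≤ 1 / Real.cos (η * (a + b)) := by
    refine le_trans (Finset.sum_le_univ_sum_of_nonneg fun z => ?_) h
    have := W_nonneg hw z
    positivity
  have h2 : ∑ z ∈ Finset.univ.filter (fun z : Fin M → K => exitT a X M 0 z = none),
      W w z * Real.exp (θ * exitC a X c M 0 z) =
      q ^ M * ∑ z ∈ Finset.univ.filter (fun z : Fin M → K => exitT a X M 0 z = none),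
      W w z * (Real.exp (θ * exitC a X c M 0 z) * (q⁻¹) ^ (exitN a X M 0 z)) := by
    rw [Finset.mul_sum]
    refine Finset.sum_congr rfl fun z hz => ?_
    rw [exitN_of_none a X 0 z (Finset.mem_filter.mp hz).2]
    have : q ^ M * (q⁻¹) ^ M = 1 := by rw [← mul_pow, mul_inv_cancel₀ hq0.ne', one_pow]
    calc W w z * Real.exp (θ * exitC a X c M 0 z) = W w z * Real.exp (θ * exitC a X c M 0 z) * 1 := by ring
      _ = W w z * Real.exp (θ * exitC a X c M 0 z) * (q ^ M * (q⁻¹) ^ M) := by rw [this]
      _ = _ := by ring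
  rw [h2, div_eq_mul_one_div]
  exact mul_le_mul_of_nonneg_left h1 (by positivity)

end BWL
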