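import Crest.Agent.BW_Defs

/-! # BW_Main : assembly of S0085 from ROUND, WALD and FINAL

* `RoundStmt η` (ROUND + gadget + CLT): every scheme of positive information gives a round whose
  ratio information / mean cost is better by the universal factor `1 + η`.
* `WaldStmt`  (C) : rounds can be repeated until a cost budget `b` is exhausted.
* `FinalStmt c₀` (B) : a scheme with ratio `I / D` gives Boolean functions with
  `W(f) > C √deg` for every `C < c₀ √(I/D)`. -/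

set_option autoImplicit false

open Finset Filter Topology

namespace Crest.Agent.BW

/-- ROUND: universal improvement of the ratio by a round -/
def RoundStmt (η : ℝ) : Prop :=
  ∀ (D : ℕ) (I : ℝ), 0 < D → 0 < I → HasScheme D I →
    ∃ (Cmax : ℕ) (cbar J : ℝ), 0 < cbar ∧ HasRound Cmax cbar J ∧ (1 + η) * (I / D) ≤ J / cbar

/-- (C) WALD -/
def WaldStmt : Prop :=
  ∀ (Cmax : ℕ) (cbar J : ℝ), 0 < cbar → 0 ≤ J → HasRound Cmax cbar J →
    ∀ b : ℕ, 0 < b → HasScheme (b + Cmax) (b * (J / cbar))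

/-- (B) FINAL -/
def FinalStmt (c₀ : ℝ) : Prop :=
  ∀ (D : ℕ) (I : ℝ), 0 < D → 0 < I → HasScheme D I →
    ∀ C : ℝ, 0 < C → C < c₀ * Real.sqrt (I / D) → Good C

/-- the improvement step for schemes -/
theorem improve {η : ℝ} (hη : 0 < η) (hR : RoundStmt η) (hW : WaldStmt) (D : ℕ) (I : ℝ)
    (hD : 0 < D) (hI : 0 < I) (h : HasScheme D I) :
    ∃ (D' : ℕ) (I' : ℝ), 0 < D' ∧ 0 < I' ∧ HasScheme D' I' ∧ (1 + η / 2) * (I / D) ≤ I' / D' := by
  obtain ⟨Cmax, cbar, J, hc, hr, hJ⟩ := hR D I hD hI h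
  have hD' : (0 : ℝ) < D := by exact_mod_cast hD
  have hr0 : 0 < I / D := div_pos hI hD'
  have hJc : 0 < J / cbar := lt_of_lt_of_le (mul_pos (by linarith) hr0) hJ
  have hJ0 : 0 ≤ J := by
    by_contra hneg
    push Not at hneg
    exact absurd (div_neg_of_neg_of_pos hneg hc) (not_lt.2 hJc.le)
  have hlim : Tendsto (fun b : ℕ => ((b : ℝ) * (J / cbar)) / ((b + Cmax : ℕ) : ℝ)) atTop
      (𝓝 (J / cbar)) := by
    have h1 : Tendsto (fun b : ℕ => (b : ℝ) / ((b : ℝ) + (Cmax : ℝ))) atTop (𝓝 1) :=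
      tendsto_natCast_div_add_atTop (Cmax : ℝ)
    have h2 := h1.mul_const (J / cbar)
    rw [one_mul] at h2
    refine h2.congr fun b => ?_
    push_cast
    ring
  have hlt : (1 + η / 2) * (I / D) < J / cbar := lt_of_lt_of_le (by nlinarith) hJ
  obtain ⟨b, hb, hb0⟩ := ((hlim.eventually (lt_mem_nhds hlt)).and
    (eventually_gt_atTop 0)).exists
  refine ⟨b + Cmax, b * (J / cbar), by omega, ?_, hW Cmax cbar J hc hJ0 hr b hb0, hb.le⟩
  have : (0 : ℝ) < b := by exact_mod_cast hb0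
  positivity

theorem iterate {η : ℝ} (hη : 0 < η) (hR : RoundStmt η) (hW : WaldStmt)
    {D₀ : ℕ} {I₀ : ℝ} (hD : 0 < D₀) (hI : 0 < I₀) (h0 : HasScheme D₀ I₀) (n : ℕ) :
    ∃ (D : ℕ) (I : ℝ), 0 < D ∧ 0 < I ∧ HasScheme D I ∧
      (1 + η / 2) ^ n * (I₀ / D₀) ≤ I / D := by
  induction n with
  | zero => exact ⟨D₀, I₀, hD, hI, h0, by simp⟩
  | succ n ih =>
    obtain ⟨D, I, hD1, hI1, hs, hle⟩ := ih
    obtain ⟨D', I', hD2, hI2, hs', hle'⟩ := improve hη hR hW D I hD1 hI1 hs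
    refine ⟨D', I', hD2, hI2, hs', le_trans ?_ hle'⟩
    rw [pow_succ']
    have : 0 ≤ 1 + η / 2 := by linarith
    nlinarith [mul_le_mul_of_nonneg_left hle this]

/-- **assembly** -/
theorem main {η c₀ : ℝ} (hη : 0 < η) (hc₀ : 0 < c₀) (hR : RoundStmt η) (hW : WaldStmt)
    (hF : FinalStmt c₀) {D₀ : ℕ} {I₀ : ℝ} (hD : 0 < D₀) (hI : 0 < I₀) (h0 : HasScheme D₀ I₀)
    (C : ℝ) (hC : 0 < C) : Good C := by
  have hr0 : 0 < I₀ / D₀ := div_pos hI (by exact_mod_cast hD)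
  obtain ⟨n, hn⟩ := pow_unbounded_of_one_lt ((C / c₀) ^ 2 / (I₀ / D₀)) (by linarith : 1 < 1 + η / 2)
  obtain ⟨D, I, hD1, hI1, hs, hle⟩ := iterate hη hR hW hD hI h0 n
  refine hF D I hD1 hI1 hs C hC ?_
  have h1 : (C / c₀) ^ 2 < I / D := by
    rw [div_lt_iff₀ hr0] at hn
    exact lt_of_lt_of_le hn hle
  have h2 : C / c₀ < Real.sqrt (I / D) := Real.lt_sqrt_of_sq_lt h1
  rw [div_lt_iff₀ hc₀] at h2
  linarith [mul_comm (Real.sqrt (I / D)) c₀]

end Crest.Agent.BW
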