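import Crest.Agent.BW_Fn

/-! # BW_Mean : elementary facts about positive linear functionals (S0085, helper18) -/

set_option autoImplicit false

open Finset

namespace Crest.Agent.BW

variable {Ω : Type} {E : (Ω → ℝ) → ℝ}

namespace Mean

theorem smul' (hE : Mean E) (c : ℝ) (f : Ω → ℝ) : E (fun k => f k * c) = E f * c := by
  have := hE.smul c f
  simp only [mul_comm] at this ⊢
  exact this

theorem const (hE : Mean E) (c : ℝ) : E (fun _ => c) = c := by
  have := hE.smul c (fun _ => 1)
  simpa [hE.one] using this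

theorem zero (hE : Mean E) : E (fun _ => 0) = 0 := hE.const 0

theorem sub (hE : Mean E) (f g : Ω → ℝ) : E (fun k => f k - g k) = E f - E g := by
  have h1 := hE.smul (-1) g
  have h2 := hE.add f (fun k => -1 * g k)
  rw [h1] at h2
  have : (fun k => f k - g k) = (fun k => f k + -1 * g k) := by
    funext k; ring
  rw [this, h2]; ring

theorem neg (hE : Mean E) (f : Ω → ℝ) : E (fun k => -f k) = -E f := by
  have h1 := hE.smul (-1) f
  simp only [neg_mul, one_mul] at h1
  exact h1

theorem div (hE : Mean E) (f : Ω → ℝ) (c : ℝ) : E (fun k => f k / c) = E f / c := by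
  simp only [div_eq_mul_inv]
  exact hE.smul' _ _

theorem nonneg (hE : Mean E) {f : Ω → ℝ} (hf : ∀ k, 0 ≤ f k) : 0 ≤ E f := by
  have := hE.mono (fun _ => 0) f hf
  rwa [hE.zero] at this

theorem sum (hE : Mean E) {A : Type*} (s : Finset A) (f : A → Ω → ℝ) :
    E (fun k => ∑ a ∈ s, f a k) = ∑ a ∈ s, E (f a) := by
  classical
  induction s using Finset.induction_on with
  | empty => simpa using hE.zero
  | insert a s ha ih =>
    simp only [Finset.sum_insert ha]
    rw [hE.add, ih]

theorem mono_sup (hE : Mean E) {P : Ω → Prop} (hP : Sup E P) {f g : Ω → ℝ}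
    (h : ∀ k, P k → f k ≤ g k) : E f ≤ E g := by
  classical
  rw [hP f (fun k => if P k then f k else 0) (fun k hk => by simp [hk]),
    hP g (fun k => if P k then g k else 0) (fun k hk => by simp [hk])]
  refine hE.mono _ _ fun k => ?_
  by_cases hk : P k
  · simpa [hk] using h k hk
  · simp [hk]

theorem nonneg_sup (hE : Mean E) {P : Ω → Prop} (hP : Sup E P) {f : Ω → ℝ}
    (h : ∀ k, P k → 0 ≤ f k) : 0 ≤ E f := by
  have := hE.mono_sup hP (f := fun _ => 0) (g := f) h
  rwa [hE.zero] at this

/-- Cauchy-Schwarz with `1` -/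
theorem sq_le (hE : Mean E) (f : Ω → ℝ) : E f ^ 2 ≤ E (fun k => f k ^ 2) := by
  have h := hE.nonneg (f := fun k => (f k - E f) ^ 2) (fun k => sq_nonneg _)
  have h2 : (fun k => (f k - E f) ^ 2) = fun k => (f k ^ 2 - (2 * E f) * f k) + E f ^ 2 := by
    funext k; ring
  rw [h2, hE.add, hE.sub, hE.smul, hE.const] at h
  nlinarith

end Mean

theorem Sup.mono {P Q : Ω → Prop} (h : Sup E P) (hPQ : ∀ k, P k → Q k) : Sup E Q :=
  fun f g hfg => h f g fun k hk => hfg k (hPQ k hk)

theorem Sup.and {P Q : Ω → Prop} (h : Sup E P) (h' : Sup E Q) : Sup E (fun k => P k ∧ Q k) := by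
  classical
  intro f g hfg
  rw [h f (fun k => if P k then f k else g k) (fun k hk => by simp [hk])]
  refine h' _ _ fun k hk => ?_
  by_cases hp : P k
  · simp [hp, hfg k ⟨hp, hk⟩]
  · simp [hp]

end Crest.Agent.BW
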