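import Crest.Agent.BW_Fn

/-! # BW_Num : the numerical certificate (S0085)
`gd`, `w2`, `bd` are rational recursions (probabilities of the fair walk with barrier `±A`). -/

set_option autoImplicit false

open Finset

namespace Crest.Agent.BW

theorem num_cert : ∃ (N : ℕ) (A : ℤ) (s y z : ℝ), 1 ≤ N ∧ 2 ≤ A ∧ 0 < s ∧ s < 1 ∧ 0 < y ∧ y < 1 ∧
    0 < gd A N 0 ∧ w2 A N 0 < N * (1 - y) * gd A N 0 ∧ z < Real.exp (s * N * y) ∧
    1 ≤ gd A N 0 * z ∧
    bd A (1 / (1 - s)) N 0 * (gd A N 0 * z) + gd A N 0 * (1 / (1 - s)) ^ N ≤ (gd A N 0 * z) ^ 2 := by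
  sorry

end Crest.Agent.BW
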