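import Crest.Agent.BW_Deg

/-! # BW_R_Copies : independent copies of a partition, and the coarse round

* `DegLE_copies` : a function of the classes of the copies `j ∈ T` has degree `≤ |T| * D`;
* `IsCond_copies` : the conditional expectation for independent copies is the sum;
* `round_coarse` : merge an event `ρ` of lower degree `d` into one class, read everything else. -/

set_option autoImplicit false

open Finset

namespace Crest.Agent.BW

variable {ι κ J : Type} [Fintype ι] [DecidableEq ι] [Fintype κ] [DecidableEq κ] [Fintype J]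
  [DecidableEq J] {K : Type} [Fintype K] [DecidableEq K]

omit [DecidableEq κ] in
theorem DegLE.prod_card {d : ℕ} {A : Type*} [DecidableEq A] (s : Finset A) {f : A → (κ → Bool) → ℝ}
    (hf : ∀ a ∈ s, DegLE d (f a)) : DegLE (s.card * d) (fun x => ∏ a ∈ s, f a x) := by
  induction s using Finset.induction_on with
  | empty => simpa using DegLE.const 1 0
  | insert a s ha ih =>
    have h1 := (hf a (mem_insert_self a s)).mul (ih fun b hb => hf b (mem_insert_of_mem hb))
    rw [card_insert_of_notMem ha]
    have e : (s.card + 1) * d = d + s.card * d := by ring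
    rw [e]
    refine (congrArg (DegLE (d + s.card * d)) ?_).mp h1
    funext x
    rw [prod_insert ha]

/-- a function of the classes of the copies in `T` -/
theorem DegLE_copies {D : ℕ} {π : (ι → Bool) → K} (hπ : ∀ k, DegLE D (ind π k)) (T : Finset J)
    (g : (J → K) → ℝ) (hg : DependsOn g (T : Set J)) :
    DegLE (T.card * D) (fun x : J × ι → Bool => g (fun j => π (fun i => x (j, i)))) := by
  classical
  by_cases hK : Nonempty K
  · obtain ⟨k0⟩ := hK
    let ext : ((j : T) → K) → J → K := fun y j => if h : j ∈ T then y ⟨j, h⟩ else k0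
    have key : ∀ x : J × ι → Bool, g (fun j => π (fun i => x (j, i))) =
        ∑ y : (T → K), g (ext y) * ∏ j : T, ind π (y j) (fun i => x (j.1, i)) := by
      intro x
      rw [Finset.sum_eq_single (fun j : T => π (fun i => x (j.1, i)))]
      · have h1 : g (fun j => π (fun i => x (j, i))) =
            g (ext fun j : T => π (fun i => x (j.1, i))) := by
          refine hg ?_
          intro j hj
          have hj' : j ∈ T := hj
          simp only [ext, dif_pos hj']
        rw [h1]
        simp [ind]
      · intro y _ hy
        obtain ⟨j, hj⟩ := Function.ne_iff.1 hy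
        rw [Finset.prod_eq_zero (mem_univ j), mul_zero]
        unfold ind
        rw [if_neg (Ne.symm hj)]
      · intro h; exact absurd (mem_univ _) h
    refine (congrArg (DegLE (T.card * D)) (funext key)).mpr ?_
    refine DegLE.sum _ fun y _ => DegLE.smul ?_ _
    have := DegLE.prod_card (κ := J × ι) (d := D) (univ : Finset T)
      (f := fun j x => ind π (y j) (fun i => x (j.1, i))) (fun j _ => by
        exact (hπ (y j)).comap (fun i => (j.1, i)))
    simpa using this
  · have : IsEmpty K := not_nonempty_iff.1 hK
    exact absurd ⟨π (fun _ => true)⟩ hK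

/-- conditional expectation for independent copies -/
theorem IsCond_copies {π : (ι → Bool) → K} {φ : K → ℝ} (h : IsCond π φ) :
    IsCond (fun x : J × ι → Bool => fun j => π (fun i => x (j, i)))
      (fun ω : J → K => ∑ j, φ (ω j)) := by
  intro g
  have h1 : ∀ x : J × ι → Bool, g (fun j => π (fun i => x (j, i))) * SS x =
      ∑ j0, ∑ k : J → K, g k *
        ∏ j, (ind π (k j) (fun i => x (j, i)) * if j = j0 then SS (fun i => x (j, i)) else 1) := by
    intro x
    rw [SS_copies, mul_sum]
    refine sum_congr rfl fun j0 _ => ?_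
    rw [Finset.sum_eq_single (fun j => π (fun i => x (j, i)))]
    · congr 1
      rw [prod_mul_distrib]
      simp [ind]
    · intro k _ hk
      obtain ⟨j, hj⟩ := Function.ne_iff.1 hk
      rw [Finset.prod_eq_zero (mem_univ j), mul_zero]
      unfold ind
      rw [if_neg (Ne.symm hj), zero_mul]
    · intro h; exact absurd (mem_univ _) h
  have h2 : ∀ x : J × ι → Bool, g (fun j => π (fun i => x (j, i))) *
      (∑ j, φ (π (fun i => x (j, i)))) =
      ∑ j0, ∑ k : J → K, g k *
        ∏ j, (ind π (k j) (fun i => x (j, i)) * if j = j0 then φ (k j) else 1) := by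
    intro x
    rw [mul_sum]
    refine sum_congr rfl fun j0 _ => ?_
    rw [Finset.sum_eq_single (fun j => π (fun i => x (j, i)))]
    · congr 1
      rw [prod_mul_distrib]
      simp [ind]
    · intro k _ hk
      obtain ⟨j, hj⟩ := Function.ne_iff.1 hk
      rw [Finset.prod_eq_zero (mem_univ j), mul_zero]
      unfold ind
      rw [if_neg (Ne.symm hj), zero_mul]
    · intro h; exact absurd (mem_univ _) h
  simp only [h1, h2]
  rw [ex_sum, ex_sum]
  refine sum_congr rfl fun j0 _ => ?_
  rw [ex_sum, ex_sum]
  refine sum_congr rfl fun k _ => ?_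
  rw [ex_mul_left, ex_mul_left]
  congr 1
  rw [ex_prod_copies (fun j y => ind π (k j) y * if j = j0 then SS y else 1),
    ex_prod_copies (fun j y => ind π (k j) y * if j = j0 then φ (k j) else 1)]
  refine prod_congr rfl fun j _ => ?_
  by_cases hj : j = j0
  · simp only [hj, if_true]
    rw [h.wt, ex_mul_right]
    rfl
  · simp only [hj, if_false]

/-- the coarse round -/
theorem round_coarse {E d : ℕ} {π : (κ → Bool) → K} {φ : K → ℝ} (hdeg : ∀ k, DegLE E (ind π k))
    (hc : IsCond π φ) (ρ : K → Prop) [DecidablePred ρ] (hd1 : 1 ≤ d) (hdE : d ≤ E)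
    (hρ : DegLE d (fun x => if ρ (π x) then (1 : ℝ) else 0)) (t : ℝ) :
    HasRound E (E - (E - d) * ex (fun x => if ρ (π x) then (1 : ℝ) else 0))
      (ex (fun x => φ (π x) ^ 2) -
        ex (fun x => (if ρ (π x) then (1 : ℝ) else 0) * (φ (π x) - t) ^ 2)) := by
  classical
  set P : ℝ := ex (fun x => if ρ (π x) then (1 : ℝ) else 0) with hP
  set M : ℝ := ex (fun x => (if ρ (π x) then (1 : ℝ) else 0) * φ (π x)) with hM
  have hP0 : 0 ≤ P := ex_nonneg fun x => by split_ifs <;> norm_num
  let π' : (κ → Bool) → Option K := fun x => if ρ (π x) then none else some (π x)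
  let φ' : Option K → ℝ := fun o => o.elim (M / P) φ
  let cost : Option K → ℕ := fun o => o.elim d (fun _ => E)
  -- Cauchy–Schwarz: if P = 0 then M = 0
  have hPM : P = 0 → M = 0 := by
    intro h0
    have hz : ∀ x : κ → Bool, (if ρ (π x) then (1 : ℝ) else 0) = 0 := by
      have h1 : ∑ x : κ → Bool, (if ρ (π x) then (1 : ℝ) else 0) = 0 := by
        have : (2 : ℝ) ^ Fintype.card κ ≠ 0 := by positivity
        have h2 := h0
        rw [hP] at h2
        unfold ex at h2
        exact (div_eq_zero_iff.1 h2).resolve_right this
      have h2 := (Finset.sum_eq_zero_iff_of_nonneg (fun x _ => by split_ifs <;> norm_num)).1 h1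
      exact fun x => h2 x (mem_univ x)
    rw [hM]
    simp only [hz, zero_mul, ex_const]
  refine ⟨κ, Option K, inferInstance, inferInstance, inferInstance, inferInstance, π', φ', cost,
    ?_, ?_, ?_, ?_, ?_⟩
  · intro o
    cases o with
    | none => exact ⟨hd1, hdE⟩
    | some k => exact ⟨le_trans hd1 hdE, le_rfl⟩
  · intro o
    cases o with
    | none =>
      refine (congrArg (DegLE d) ?_).mpr hρ
      funext x
      simp only [ind, π']
      split_ifs <;> simp_all
    | some k =>
      by_cases hk : ρ k
      · refine (congrArg (DegLE E) ?_).mpr (DegLE.const 0 E)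
        funext x
        simp only [ind, π']
        by_cases hx : ρ (π x)
        · simp [hx]
        · have : π x ≠ k := fun h => hx (h ▸ hk)
          simp [hx, this]
      · refine (congrArg (DegLE E) ?_).mpr (hdeg k)
        funext x
        simp only [ind, π']
        by_cases hx : ρ (π x)
        · have : π x ≠ k := fun h => hk (h ▸ hx)
          simp [hx, this]
        · simp [hx]
  · intro g
    have e1 : ∀ x, g (π' x) = (fun k => if ρ k then g none else g (some k)) (π x) := by
      intro x
      simp only [π']
      split_ifs <;> rfl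
    have h1 : ex (fun x => g (π' x) * SS x) =
        ex (fun x => (fun k => if ρ k then g none else g (some k)) (π x) * φ (π x)) := by
      refine Eq.trans (congrArg ex (funext fun x => ?_))
        (hc (fun k => if ρ k then g none else g (some k)))
      rw [e1]
    rw [h1]
    have e2 : ∀ x, (fun k => if ρ k then g none else g (some k)) (π x) * φ (π x) =
        g none * ((if ρ (π x) then (1 : ℝ) else 0) * φ (π x)) +
          (if ρ (π x) then 0 else g (some (π x)) * φ (π x)) := by
      intro x
      by_cases hx : ρ (π x) <;> simp [hx]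
    have e3 : ∀ x, g (π' x) * φ' (π' x) =
        (g none * (M / P)) * (if ρ (π x) then (1 : ℝ) else 0) +
          (if ρ (π x) then 0 else g (some (π x)) * φ (π x)) := by
      intro x
      simp only [π', φ']
      by_cases hx : ρ (π x) <;> simp [hx]
    simp only [e2, e3]
    rw [ex_add, ex_add, ex_mul_left, ex_mul_left, ← hM, ← hP]
    congr 1
    by_cases h0 : P = 0
    · rw [hPM h0, h0]; ring
    · field_simp
  · have e1 : ∀ x, ((cost (π' x) : ℕ) : ℝ) = (E : ℝ) -
        ((E : ℝ) - d) * (if ρ (π x) then (1 : ℝ) else 0) := by
      intro x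
      simp only [π', cost]
      by_cases hx : ρ (π x) <;> simp [hx]
    simp only [e1]
    rw [ex_sub, ex_const, ex_mul_left]
  · have e1 : ∀ x, φ' (π' x) ^ 2 = φ (π x) ^ 2 -
        (if ρ (π x) then (1 : ℝ) else 0) * (φ (π x) - t) ^ 2 +
          ((t ^ 2 + (M / P) ^ 2) * (if ρ (π x) then (1 : ℝ) else 0) -
            (2 * t) * ((if ρ (π x) then (1 : ℝ) else 0) * φ (π x))) := by
      intro x
      simp only [π', φ']
      by_cases hx : ρ (π x) <;> simp [hx] <;> ring
    simp only [e1]
    rw [ex_add, ex_sub, ex_sub, ex_mul_left, ex_mul_left, ← hP, ← hM]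
    have h2 : 0 ≤ (t ^ 2 + (M / P) ^ 2) * P - 2 * t * M := by
      by_cases h0 : P = 0
      · rw [hPM h0, h0]; simp
      · have hM' : (M / P) * P = M := by field_simp
        have : (t ^ 2 + (M / P) ^ 2) * P - 2 * t * M = (t - M / P) ^ 2 * P := by
          calc (t ^ 2 + (M / P) ^ 2) * P - 2 * t * M =
              (t ^ 2 + (M / P) ^ 2) * P - 2 * t * ((M / P) * P) := by rw [hM']
            _ = _ := by ring
        rw [this]
        positivity
    linarith

end Crest.Agent.BW
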