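import Crest.Agent.BW_Has

/-! # BW_WF : (A) one bit, (C) WALD, (B) FINAL (S0085, helper18) -/

set_option autoImplicit false

open Finset

namespace Crest.Agent.BW

/-! ### bridges between finite partitions and law functionals -/

/-- a finite partition with costs gives a law functional -/
theorem has_of_part {ι K : Type} [Fintype ι] [DecidableEq ι] [Fintype K] [DecidableEq K]
    {π : (ι → Bool) → K} {φ : K → ℝ} {cost : K → ℕ} (hd : ∀ k, DegLE (cost k) (ind π k))
    (hc : IsCond π φ) : Has (fun h => ex (fun x => h (true, φ (π x), cost (π x)))) := by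
  classical
  refine ⟨ι, inferInstance, inferInstance, fun x => (true, φ (π x), cost (π x)), ⟨?_, ?_⟩,
    fun h => rfl⟩
  · intro k
    have h1 : ∀ x, ∑ k' ∈ univ.filter (fun k' => ((true, φ k', cost k') : Om) = k), ind π k' x =
        ind (fun x => ((true, φ (π x), cost (π x)) : Om)) k x := by
      intro x
      unfold ind
      rw [Finset.sum_ite_eq]
      simp only [mem_filter, mem_univ, true_and]
    refine (DegLE.sum _ fun k' hk' => ?_).cast h1
    rw [mem_filter] at hk'
    have h2 : k.2.2 = cost k' := by rw [← hk'.2]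
    rw [h2]
    exact hd k'
  · intro g
    exact hc (fun k => g (true, φ k, cost k))

/-- a law functional with bounded costs gives a scheme -/
theorem scheme_of_has {E : (Om → ℝ) → ℝ} (hE : Has E) {D : ℕ} (hD : Sup E (fun k => k.2.2 ≤ D))
    {I : ℝ} (hI : I ≤ E (fun k => k.2.1 ^ 2)) : HasScheme D I := by
  classical
  obtain ⟨ι, _, _, π, hπ, h⟩ := hE
  have hD' := sup_cube h hD
  let R := Set.range π
  let _ : Fintype R := Fintype.ofFinite _
  let rg : (ι → Bool) → R := fun x => ⟨π x, ⟨x, rfl⟩⟩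
  refine ⟨ι, R, inferInstance, inferInstance, inferInstance, inferInstance, rg, fun k => k.1.2.1,
    ?_, ?_, ?_⟩
  · rintro ⟨_, x0, rfl⟩
    refine ((hπ.deg (π x0)).mono (hD' x0)).cast fun x => ?_
    unfold ind
    simp only [rg, Subtype.mk.injEq]
  · intro g
    have h1 := hπ.cond (fun k => if hk : k ∈ R then g ⟨k, hk⟩ else 0)
    have h2 : ∀ x, (if hk : π x ∈ R then g ⟨π x, hk⟩ else 0) = g (rg x) := by
      intro x
      rw [dif_pos ⟨x, rfl⟩]
    simp only [h2] at h1
    exact h1
  · rw [h] at hI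
    exact hI

theorem scheme_bit : HasScheme 1 1 := by
  refine scheme_of_has has_bit (D := 1) ?_ ?_
  · intro f g hfg
    simp only
    rw [hfg _ le_rfl, hfg _ le_rfl]
  · norm_num

/-! ### (C) WALD -/

theorem wald_has {E : (Om → ℝ) → ℝ} (hE : Has E) (h1 : Sup E (fun k => 1 ≤ k.2.2)) {Cm : ℕ}
    (h2 : Sup E (fun k => k.2.2 ≤ Cm)) {J cb : ℝ} (hJ : J ≤ E (fun k => k.2.1 ^ 2)) (hJ0 : 0 ≤ J)
    (hc : E (fun k => (k.2.2 : ℝ)) ≤ cb) (hcb : 0 < cb) (b : ℕ) :
    ∃ E' : (Om → ℝ) → ℝ, Has E' ∧ Sup E' (fun k => k.2.2 ≤ if b = 0 then 0 else b + Cm) ∧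
      b * J / cb ≤ E' (fun k => k.2.1 ^ 2) := by
  classical
  induction b using Nat.strong_induction_on with
  | _ b ih =>
    rcases Nat.eq_zero_or_pos b with rfl | hb
    · refine ⟨fun h => h (true, 0, 0), has_pure true, ?_, ?_⟩
      · intro f g hfg
        exact hfg _ (by simp)
      · simp
    · choose G hG1 hG2 hG3 using ih
      let F : Om → (Om → ℝ) → ℝ := fun k =>
        if hk : 1 ≤ k.2.2 then G (b - k.2.2) (by omega) else fun h => h (true, 0, 0)
      have hF : ∀ k, Has (F k) := by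
        intro k
        by_cases hk : 1 ≤ k.2.2
        · simp only [F, dif_pos hk]
          exact hG1 _ _
        · simp only [F, dif_neg hk]
          exact has_pure true
      have hE' := has_bind hE hF
      refine ⟨_, hE', ?_, ?_⟩
      · intro f g hfg
        refine (h1.and h2) _ _ fun k hk => ?_
        have hFk : F k = G (b - k.2.2) (by omega) := by simp only [F, dif_pos hk.1]
        simp only [hFk]
        refine hG2 _ _ _ _ fun k' hk' => hfg _ ?_
        obtain ⟨hk1, hk2⟩ := hk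
        show (comb k k').2.2 ≤ (if b = 0 then 0 else b + Cm)
        rw [if_neg (by omega), comb_cost]
        by_cases hz : b - k.2.2 = 0
        · simp only [if_pos hz] at hk'
          omega
        · simp only [if_neg hz] at hk'
          omega
      · have hm := hE.mean
        have e1 : ∀ k, F k (fun k' => (comb k k').2.1 ^ 2) =
            k.2.1 ^ 2 + F k (fun k' => k'.2.1 ^ 2) := by
          intro k
          have hmk := (hF k).mean
          have e2 : (fun k' : Om => (comb k k').2.1 ^ 2) =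
              fun k' => (k.2.1 ^ 2 + (2 * k.2.1) * k'.2.1) + k'.2.1 ^ 2 := by
            funext k'; rw [comb_phi]; ring
          rw [e2, hmk.add, hmk.add, hmk.smul, hmk.const, (hF k).phi]
          ring
        simp only [e1]
        rw [hm.add]
        have e3 : E (fun k => ((b : ℝ) - k.2.2) * (J / cb)) ≤ E (fun k => F k (fun k' => k'.2.1 ^ 2)) := by
          refine hm.mono_sup h1 fun k hk => ?_
          have hFk : F k = G (b - k.2.2) (by omega) := by simp only [F, dif_pos hk]
          rw [hFk]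
          refine le_trans ?_ (hG3 (b - k.2.2) (by omega))
          rw [mul_div_assoc]
          refine mul_le_mul_of_nonneg_right ?_ (by positivity)
          rw [sub_le_iff_le_add]
          have : b ≤ b - k.2.2 + k.2.2 := by omega
          exact_mod_cast this
        rw [hm.smul', hm.sub, hm.const] at e3
        have e4 : (b - cb) * (J / cb) ≤ (b - E (fun k => (k.2.2 : ℝ))) * (J / cb) :=
          mul_le_mul_of_nonneg_right (by linarith) (by positivity)
        have e5 : (b - cb) * (J / cb) = b * J / cb - J := by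
          field_simp
        linarith

theorem wald {Cmax : ℕ} {cbar J : ℝ} (h : HasRound Cmax cbar J) (hc : 0 < cbar) (hJ : 0 ≤ J)
    (b : ℕ) : HasScheme (if b = 0 then 0 else b + Cmax) (b * J / cbar) := by
  obtain ⟨ι, K, _, _, _, _, π, φ, cost, h1, h2, h3, h4, h5⟩ := h
  obtain ⟨E', hE', hs, hv⟩ := wald_has (has_of_part h2 h3) (Cm := Cmax) (J := J) (cb := cbar)
    (by intro f g hfg; simp only; congr 1; funext x; exact hfg _ (h1 _).1)
    (by intro f g hfg; simp only; congr 1; funext x; exact hfg _ (h1 _).2) h5 hJ h4 hc b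
  exact scheme_of_has hE' hs hv

/-! ### (B) FINAL -/

/-- `L` independent copies -/
noncomputable def copies (E : (Om → ℝ) → ℝ) : ℕ → (Om → ℝ) → ℝ
  | 0, h => h (true, 0, 0)
  | L + 1, h => E (fun k => copies E L (fun k' => h (comb k k')))

theorem copies_has {E : (Om → ℝ) → ℝ} (hE : Has E) (L : ℕ) : Has (copies E L) := by
  induction L with
  | zero => exact has_pure true
  | succ L ih => exact has_bind hE fun _ => ih

theorem copies_sup {E : (Om → ℝ) → ℝ} {D : ℕ} (hD : Sup E (fun k => k.2.2 ≤ D)) (L : ℕ) :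
    Sup (copies E L) (fun k => k.2.2 ≤ L * D) := by
  induction L with
  | zero => intro f g hfg; exact hfg _ (by simp)
  | succ L ih =>
    intro f g hfg
    refine hD _ _ fun k hk => ih _ _ fun k' hk' => hfg _ ?_
    show (comb k k').2.2 ≤ (L + 1) * D
    simp only at hk hk'
    rw [comb_cost, add_mul, one_mul]
    omega

theorem copies_sq {E : (Om → ℝ) → ℝ} (hE : Has E) (L : ℕ) :
    copies E L (fun k => k.2.1 ^ 2) = L * E (fun k => k.2.1 ^ 2) := by
  induction L with
  | zero => simp [copies]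
  | succ L ih =>
    have hm := hE.mean
    have hmL := (copies_has hE L).mean
    have e1 : ∀ k, copies E L (fun k' => (comb k k').2.1 ^ 2) =
        k.2.1 ^ 2 + L * E (fun k => k.2.1 ^ 2) := by
      intro k
      have e2 : (fun k' : Om => (comb k k').2.1 ^ 2) =
          fun k' => (k.2.1 ^ 2 + (2 * k.2.1) * k'.2.1) + k'.2.1 ^ 2 := by
        funext k'; rw [comb_phi]; ring
      rw [e2, hmL.add, hmL.add, hmL.smul, hmL.const, (copies_has hE L).phi, ih]
      ring
    simp only [copies, e1]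
    rw [hm.add, hm.const]
    push_cast; ring

theorem copies_four {E : (Om → ℝ) → ℝ} (hE : Has E) (L : ℕ) :
    copies E L (fun k => k.2.1 ^ 4) = 3 * L * (L - 1) * (E (fun k => k.2.1 ^ 2)) ^ 2 +
      L * E (fun k => k.2.1 ^ 4) := by
  induction L with
  | zero => simp [copies]
  | succ L ih =>
    have hm := hE.mean
    have hmL := (copies_has hE L).mean
    have e1 : ∀ k, copies E L (fun k' => (comb k k').2.1 ^ 4) =
        k.2.1 ^ 4 + (6 * (L * E (fun k => k.2.1 ^ 2))) * k.2.1 ^ 2 +
          (4 * copies E L (fun k => k.2.1 ^ 3)) * k.2.1 + copies E L (fun k => k.2.1 ^ 4) := by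
      intro k
      have e2 : (fun k' : Om => (comb k k').2.1 ^ 4) =
          fun k' => (((k.2.1 ^ 4 + (4 * k.2.1 ^ 3) * k'.2.1) + (6 * k.2.1 ^ 2) * k'.2.1 ^ 2) +
            (4 * k.2.1) * k'.2.1 ^ 3) + k'.2.1 ^ 4 := by
        funext k'; rw [comb_phi]; ring
      rw [e2, hmL.add, hmL.add, hmL.add, hmL.add, hmL.smul, hmL.smul, hmL.smul, hmL.const,
        (copies_has hE L).phi, copies_sq hE]
      ring
    simp only [copies, e1]
    rw [hm.add, hm.add, hm.add, hm.smul, hm.smul, hm.const, hE.phi, ih]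
    push_cast; ring

/-- `|t| ≥ (3 t²/a - t⁴/a³)/2` -/
theorem abs_ge_poly (t a : ℝ) (ha : 0 < a) : (3 * t ^ 2 / a - t ^ 4 / a ^ 3) / 2 ≤ |t| := by
  have h1 : |t| - (3 * t ^ 2 / a - t ^ 4 / a ^ 3) / 2 =
      |t| * (|t| - a) ^ 2 * (|t| + 2 * a) / (2 * a ^ 3) := by
    have e2 : t ^ 2 = |t| ^ 2 := (sq_abs t).symm
    have e4 : t ^ 4 = |t| ^ 4 := by
      rw [show t ^ 4 = (t ^ 2) ^ 2 by ring, e2]; ring
    rw [e2, e4]
    field_simp
    ring
  have h2 : 0 ≤ |t| * (|t| - a) ^ 2 * (|t| + 2 * a) / (2 * a ^ 3) := by positivity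
  linarith

/-- the first absolute moment of many copies -/
theorem copies_abs {E : (Om → ℝ) → ℝ} (hE : Has E) {v : ℝ} (hv : E (fun k => k.2.1 ^ 2) = v)
    (hv0 : 0 < v) {L : ℕ} (hL : 1 ≤ L) (hM : E (fun k => k.2.1 ^ 4) ≤ L * v ^ 2) :
    Real.sqrt (L * v) / 2 ≤ copies E L (fun k => |k.2.1|) := by
  have hmL := (copies_has hE L).mean
  have hL' : (1 : ℝ) ≤ L := by exact_mod_cast hL
  set s := Real.sqrt (L * v) with hs
  have hs0 : 0 < s := Real.sqrt_pos.2 (by positivity)
  have hs2 : s ^ 2 = L * v := Real.sq_sqrt (by positivity)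
  have h1 := hmL.mono _ _ (fun k : Om => abs_ge_poly k.2.1 (2 * s) (by positivity))
  refine le_trans ?_ h1
  have e1 : (fun k : Om => (3 * k.2.1 ^ 2 / (2 * s) - k.2.1 ^ 4 / (2 * s) ^ 3) / 2) =
      fun k => (3 / (4 * s)) * k.2.1 ^ 2 - (1 / (16 * s ^ 3)) * k.2.1 ^ 4 := by
    funext k
    field_simp
    ring
  rw [e1, hmL.sub, hmL.smul, hmL.smul, copies_sq hE, copies_four hE, hv]
  have h4 : 3 * (L : ℝ) * (L - 1) * v ^ 2 + L * E (fun k => k.2.1 ^ 4) ≤ 4 * s ^ 4 := by
    have : s ^ 4 = (L * v) ^ 2 := by rw [← hs2]; ring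
    rw [this]
    nlinarith [mul_le_mul_of_nonneg_left hM (by positivity : (0 : ℝ) ≤ L),
      mul_pos (by positivity : (0 : ℝ) < L) (pow_pos hv0 2)]
  have h5 : 1 / (16 * s ^ 3) * (3 * (L : ℝ) * (L - 1) * v ^ 2 + L * E (fun k => k.2.1 ^ 4)) ≤
      1 / (16 * s ^ 3) * (4 * s ^ 4) := mul_le_mul_of_nonneg_left h4 (by positivity)
  have h6 : 1 / (16 * s ^ 3) * (4 * s ^ 4) = s / 4 := by field_simp; ring
  have h7 : 3 / (4 * s) * (L * v) = 3 * s / 4 := by rw [← hs2]; field_simp
  rw [h7]
  linarith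

/-- a realizable law with large first absolute moment gives the Boolean function -/
theorem good_of_has {E : (Om → ℝ) → ℝ} (hE : Has E) {D : ℕ} (hD : Sup E (fun k => k.2.2 ≤ D))
    {C : ℝ} (hC : 0 ≤ C) (h : C * Real.sqrt D < E (fun k => |k.2.1|)) : Good C := by
  classical
  obtain ⟨ι, _, _, π, hπ, hh⟩ := hE
  have hD' := sup_cube hh hD
  let e : ι ≃ Fin (Fintype.card ι) := Fintype.equivFin ι
  let f : (ι → Bool) → Bool := fun x => decide (0 ≤ (π x).2.1)
  let F : (Fin (Fintype.card ι) → Bool) → Bool := fun y => f (y ∘ e)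
  have hre : ∀ g : (ι → Bool) → ℝ, ∑ y : Fin (Fintype.card ι) → Bool, g (y ∘ e) = ∑ x, g x := by
    intro g
    refine Fintype.sum_equiv (Equiv.arrowCongr e.symm (Equiv.refl Bool)) _ _ (fun y => ?_)
    congr 1
  have hsg : ∀ b : Bool, (if b then (1 : ℝ) else -1) = sg b := fun b => rfl
  have hdeg : DegLE D (fun x => sg (f x)) := by
    have h1 : ∀ x, ∑ k ∈ univ.image π, sg (decide (0 ≤ k.2.1)) * ind π k x = sg (f x) := by
      intro x
      unfold ind
      rw [sum_eq_single (π x)]
      · simp [f]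
      · intro k _ hk
        rw [if_neg (Ne.symm hk), mul_zero]
      · intro h3
        exact absurd (mem_image_of_mem _ (mem_univ _)) h3
    refine (DegLE.sum _ fun k hk => ?_).cast h1
    rw [mem_image] at hk
    obtain ⟨x, -, rfl⟩ := hk
    exact ((hπ.deg _).mono (hD' x)).smul _
  have hW : ex (fun x => sg (f x) * SS x) = E (fun k => |k.2.1|) := by
    have h1 := hπ.cond (fun k => sg (decide (0 ≤ k.2.1)))
    rw [hh]
    refine h1.trans ?_
    congr 1
    funext x
    simp only [sg]
    by_cases hx : 0 ≤ (π x).2.1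
    · simp [hx, abs_of_nonneg hx]
    · simp [hx, abs_of_neg (not_le.1 hx)]
  refine ⟨Fintype.card ι, F, D, ?_, ?_, ?_⟩
  · by_contra hcon
    push Not at hcon
    have h1 : ∀ x, sg (f x) = sg (f (fun _ => true)) := by
      intro x
      have := hcon (x ∘ e.symm) (fun _ => true)
      simp only [F] at this
      have e1 : (x ∘ e.symm) ∘ e = x := by funext i; simp
      have e2 : ((fun _ : Fin (Fintype.card ι) => true) ∘ e) = fun _ => true := rfl
      rw [e1, e2] at this
      rw [this]
    have h2 : ex (fun x => sg (f x) * SS x) = 0 := by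
      simp only [h1]
      rw [ex_mul_left, ex_SS, mul_zero]
    rw [hW] at h2
    rw [h2] at h
    have : 0 ≤ C * Real.sqrt D := by positivity
    linarith
  · intro S hS
    have h1 := hdeg.orth (S.map e.symm.toEmbedding) (by rwa [card_map])
    rw [← hre] at h1
    simp only [hsg]
    rw [← h1]
    refine sum_congr rfl fun y _ => ?_
    congr 1
    rw [prod_map]
    refine prod_congr rfl fun i _ => ?_
    simp
  · rw [← hW] at h
    refine h.trans_eq ?_
    unfold SS
    simp only [mul_sum]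
    rw [ex_sum]
    refine Fintype.sum_equiv e _ _ (fun i => ?_)
    unfold ex
    congr 1
    simp only [hsg]
    rw [← hre]
    refine sum_congr rfl fun y _ => ?_
    simp [F]

theorem final {D : ℕ} {I C : ℝ} (h : HasScheme D I) (hD : 1 ≤ D) (hC : 0 < C)
    (hI : 4 * C ^ 2 * D < I) : Good C := by
  obtain ⟨ι, K, _, _, _, _, π, φ, h1, h2, h3⟩ := h
  have hE := has_of_part (cost := fun _ => D) h1 h2
  set E : (Om → ℝ) → ℝ := fun h => ex (fun x => h (true, φ (π x), D)) with hEdef
  have hs : Sup E (fun k => k.2.2 ≤ D) := by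
    intro f g hfg
    simp only [hEdef]
    congr 1
    funext x
    exact hfg _ le_rfl
  obtain ⟨v, hv⟩ : ∃ v, E (fun k => k.2.1 ^ 2) = v := ⟨_, rfl⟩
  have hvI : I ≤ v := by rw [← hv]; exact h3
  have hv0 : 0 < v := by
    have : 0 < 4 * C ^ 2 * D := by
      have : (0 : ℝ) < D := by exact_mod_cast hD
      positivity
    linarith
  obtain ⟨L0, hL0⟩ := exists_nat_ge (E (fun k => k.2.1 ^ 4) / v ^ 2)
  let L := L0 + 1
  have hL : 1 ≤ L := by omega
  have hM : E (fun k => k.2.1 ^ 4) ≤ L * v ^ 2 := by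
    rw [div_le_iff₀ (by positivity)] at hL0
    refine hL0.trans (mul_le_mul_of_nonneg_right ?_ (by positivity))
    simp [L]
  have h5 := copies_abs hE hv hv0 hL hM
  refine good_of_has (copies_has hE L) (copies_sup hs L) hC.le (lt_of_lt_of_le ?_ h5)
  have hL' : (0 : ℝ) < L := by exact_mod_cast hL
  have h6 : C * Real.sqrt ((L * D : ℕ) : ℝ) = Real.sqrt (C ^ 2 * (L * D)) := by
    rw [Real.sqrt_mul (by positivity), Real.sqrt_sq hC.le]
    push_cast; rfl
  rw [h6]
  have h7 : Real.sqrt (L * v) / 2 = Real.sqrt (L * v / 4) := by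
    rw [Real.sqrt_div (by positivity), show (4 : ℝ) = 2 ^ 2 by norm_num, Real.sqrt_sq (by norm_num)]
  rw [h7]
  refine Real.sqrt_lt_sqrt (by positivity) ?_
  nlinarith [mul_pos hL' (by linarith : (0 : ℝ) < v - 4 * C ^ 2 * D)]

/-- WALD in the form of `BW_Main.WaldStmt` -/
theorem wald' {Cmax : ℕ} {cbar J : ℝ} (hc : 0 < cbar) (hJ : 0 ≤ J) (h : HasRound Cmax cbar J)
    (b : ℕ) (hb : 0 < b) : HasScheme (b + Cmax) (b * (J / cbar)) := by
  have := wald h hc hJ b
  rwa [if_neg (by omega), mul_div_assoc] at this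

/-- FINAL in the form of `BW_Main.FinalStmt` -/
theorem final' {D : ℕ} {I : ℝ} (hD : 0 < D) (hI : 0 < I) (h : HasScheme D I) {C : ℝ} (hC : 0 < C)
    (hC2 : C < 1 / 2 * Real.sqrt (I / D)) : Good C := by
  refine final h hD hC ?_
  have hD' : (0 : ℝ) < D := by exact_mod_cast hD
  have h1 : C ^ 2 < (1 / 2 * Real.sqrt (I / D)) ^ 2 := by
    have := Real.sqrt_nonneg (I / D)
    nlinarith
  rw [mul_pow, Real.sq_sqrt (by positivity)] at h1
  have h2 : (1 / 2 : ℝ) ^ 2 * (I / D) * (4 * D) = I := by field_simp; norm_num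
  nlinarith [mul_lt_mul_of_pos_right h1 (by positivity : (0 : ℝ) < 4 * D)]

end Crest.Agent.BW

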