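import Crest.Agent.BW_Main
import Crest.Agent.BW_WF

/-! # BW_WFM : WALD and FINAL in the form of `BW_Main` (S0085, helper18) -/

set_option autoImplicit false

namespace Crest.Agent.BW

theorem waldStmt : WaldStmt := fun _ _ _ hc hJ h b hb => wald' hc hJ h b hb

theorem finalStmt : FinalStmt (1 / 2) := fun _ _ hD hI h _ hC hC2 => final' hD hI h hC hC2

/-- everything except ROUND -/
theorem good_of_round {η : ℝ} (hη : 0 < η) (hR : RoundStmt η) (C : ℝ) (hC : 0 < C) : Good C :=
  main hη (by norm_num) hR waldStmt finalStmt one_pos one_pos scheme_bit C hC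

end Crest.Agent.BW
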