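import Crest.Agent.BW_R_Copies
import Crest.Agent.BW_H_Gad
import Crest.Agent.BW_H_Lim
import Crest.Agent.BW_WFM

/-! # BW_Round18 : ROUND from the gadget (S0085, helper18) -/

set_option autoImplicit false

open Finset Filter Topology MeasureTheory ProbabilityTheory

namespace Crest.Agent.BW

open Crest.Agent.BWH

variable {ι K : Type} [Fintype ι] [DecidableEq ι] [Fintype K] [DecidableEq K]

/-- second moment of the sum of the values of independent copies -/
theorem ex_sq_copies {J : Type} [Fintype J] [DecidableEq J] {π : (ι → Bool) → K} {φ : K → ℝ}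
    (hφ : IsCond π φ) :
    ex (fun x : J × ι → Bool => (∑ j, φ (π (fun i => x (j, i)))) ^ 2) =
      Fintype.card J * ex (fun x => φ (π x) ^ 2) := by
  rw [ex_copies π (fun k : J → K => (∑ j, φ (k j)) ^ 2),
    sum_prod_mul_sq (fun _ => wt π) φ]
  have h0 : ∑ k, wt π k * φ k = 0 := hφ.sum_wt_phi
  have h1 : ∑ k, wt π k = 1 := sum_wt π
  have h2 : ∑ k, wt π k * φ k ^ 2 = ex (fun x => φ (π x) ^ 2) :=
    (ex_comp π (fun k => φ k ^ 2)).symm
  have h3 : ∀ i : J, ∑ k : J, ∏ l : J, ∑ ω, wt π ω * φ ω ^ ((if l = i then 1 else 0) +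
      (if l = k then 1 else 0)) = ex (fun x => φ (π x) ^ 2) := by
    intro i
    rw [Finset.sum_eq_single i]
    · rw [Finset.prod_eq_single i]
      · simpa using h2
      · intro l _ hl
        simpa [hl] using h1
      · intro h; exact absurd (mem_univ _) h
    · intro k _ hk
      refine Finset.prod_eq_zero (mem_univ i) ?_
      simpa [Ne.symm hk] using h0
    · intro h; exact absurd (mem_univ _) h
  rw [sum_congr rfl fun i _ => h3 i, sum_const, card_univ, nsmul_eq_mul]

/-- expectation of a function of the letters -/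
theorem ex_letters {Q : Type} [Fintype Q] [DecidableEq Q] (π : (ι → Bool) → K) (φ : K → ℝ) (v : ℝ)
    (L : ℕ) (G : (Q → ℝ) → ℝ) :
    ex (fun x : (Q × Fin L) × ι → Bool => G (fun l => Zn φ v L (fun i => π (fun u => x ((l, i), u))))) =
      ∑ ζ : Q → (Fin L → K), (∏ l, PW (wt π) L (ζ l)) * G (fun l => Zn φ v L (ζ l)) := by
  rw [ex_copies π (fun k : Q × Fin L → K => G (fun l => Zn φ v L (fun i => k (l, i))))]
  refine Fintype.sum_equiv (Equiv.curry Q (Fin L) K) _ _ (fun k => ?_)
  congr 1
  rw [Fintype.prod_prod_type]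
  rfl

theorem roundStmt : ∃ η : ℝ, 0 < η ∧ RoundStmt η := by
  classical
  obtain ⟨q, s, c, a, hc, ha, hfc, hfa, -, hdis, hcov, hF⟩ := gadget_gauss
  set F0 := Fgad (gaussianReal 0 1) s a c id with hF0
  have hq : 0 < q := by
    rcases Nat.eq_zero_or_pos q with rfl | h
    · exfalso
      have h0 : (0 : ℝ) ∈ ⋃ j, a j := by rw [hcov]; trivial
      simp only [Set.mem_iUnion] at h0
      obtain ⟨j, -⟩ := h0
      exact j.elim0
    · exact h
  refine ⟨F0 / (2 * (q + 1)), by positivity, ?_⟩
  intro D I hD hI h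
  obtain ⟨ι, K, _, _, _, _, π, φ, hdeg, hcond, hv⟩ := h
  set v := ex (fun x => φ (π x) ^ 2) with hvdef
  have hv0 : 0 < v := lt_of_lt_of_le hI hv
  have hw : ∀ k, 0 ≤ wt π k := wt_nonneg π
  have hlim := Fgad_tendsto (w := wt π) (φ := φ) (v := v) hw (sum_wt π) hcond.sum_wt_phi
    (ex_comp π (fun k => φ k ^ 2)).symm hv0 s (j := id) ha hc hfa hfc
  obtain ⟨L, hL1, hL2⟩ := ((hlim.eventually (lt_mem_nhds (half_lt_self hF))).and
    (eventually_gt_atTop 0)).exists
  let Q := Option (Fin q)
  let J := Q × Fin L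
  let πt : (J × ι → Bool) → (J → K) := fun x j => π (fun i => x (j, i))
  let φt : (J → K) → ℝ := fun ω => ∑ j, φ (ω j)
  let Z : (J → K) → Q → ℝ := fun ω l => Zn φ v L (fun i => ω (l, i))
  let ρ : (J → K) → Prop := fun ω => Rho a c id (Z ω)
  have hcardJ : Fintype.card J = (q + 1) * L := by simp [J, Q]
  have hL' : (0 : ℝ) < L := by exact_mod_cast hL2
  have hD' : (0 : ℝ) < D := by exact_mod_cast hD
  have hLv : 0 < (L : ℝ) * v := by positivity
  -- degrees
  have hE : ∀ k, DegLE ((q + 1) * L * D) (ind πt k) := by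
    intro k
    have := DegLE_copies (J := J) hdeg (univ : Finset J) (fun ω => if ω = k then (1 : ℝ) else 0)
      (by intro x y hxy
          have : x = y := funext fun j => hxy j (by simp)
          rw [this])
    rw [card_univ, hcardJ] at this
    exact this
  have hrho : ∀ ω : J → K, (if ρ ω then (1 : ℝ) else 0) = rhoInd a c id (Z ω) := fun ω =>
    (rhoInd_eq hdis hcov (Z ω)).symm
  have hdepZ : ∀ (l0 : Q) (T : Q → Set ℝ), T l0 = Set.univ →
      DegLE (q * L * D) (fun x : J × ι → Bool =>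
        ∏ l, (if Z (πt x) l ∈ T l then (1 : ℝ) else 0)) := by
    intro l0 T hT
    let U : Finset J := univ.filter (fun j => j.1 ≠ l0)
    have hU : U.card = q * L := by
      have h1 : U = (univ.filter (fun l : Q => l ≠ l0)) ×ˢ (univ : Finset (Fin L)) := by
        ext ⟨l, i⟩
        rw [Finset.mem_product]
        simp [U]
      rw [h1, card_product, card_univ, Fintype.card_fin]
      congr 1
      rw [filter_ne', card_erase_of_mem (mem_univ _), card_univ]
      simp [Q]
    rw [← hU]
    refine DegLE_copies (J := J) hdeg U (fun ω => ∏ l, (if Z ω l ∈ T l then (1 : ℝ) else 0)) ?_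
    intro x y hxy
    refine prod_congr rfl fun l _ => ?_
    by_cases hl : l = l0
    · subst hl
      simp [hT]
    · have : Z x l = Z y l := by
        simp only [Z]
        congr 1
        funext i
        exact hxy (l, i) (by simp [U, hl])
      rw [this]
  have hρdeg : DegLE (q * L * D) (fun x : J × ι → Bool => if ρ (πt x) then (1 : ℝ) else 0) := by
    have h1 : ∀ x : J × ι → Bool, (if ρ (πt x) then (1 : ℝ) else 0) =
        (∑ α, ∏ l, (if Z (πt x) l ∈ Ta a c id α l then (1 : ℝ) else 0)) -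
          ∏ l, (if Z (πt x) l ∈ Tc c l then (1 : ℝ) else 0) := fun x => hrho (πt x)
    refine DegLE.cast ?_ (fun x => (h1 x).symm)
    refine DegLE.sub (DegLE.sum _ fun α _ => ?_) ?_
    · exact hdepZ (some α) _ (by simp [Ta])
    · exact hdepZ none _ (by simp [Tc])
  have hcondt : IsCond πt φt := IsCond_copies hcond
  -- the round
  have hround := round_coarse hE hcondt ρ (d := q * L * D)
    (Nat.mul_pos (Nat.mul_pos hq hL2) hD) (by
      have : q * L * D ≤ (q + 1) * L * D := by gcongr; omega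
      exact this) hρdeg (s * Real.sqrt (L * v))
  set P := ex (fun x : J × ι → Bool => if ρ (πt x) then (1 : ℝ) else 0) with hP
  have hP0 : 0 ≤ P := ex_nonneg fun x => by split_ifs <;> norm_num
  have hP1 : P ≤ 1 := by
    have := ex_mono (f := fun x : J × ι → Bool => if ρ (πt x) then (1 : ℝ) else 0)
      (g := fun _ => 1) (fun x => by split_ifs <;> norm_num)
    rwa [ex_const] at this
  have e1 : ex (fun x : J × ι → Bool => φt (πt x) ^ 2) = (q + 1) * L * v := by
    have := ex_sq_copies (J := J) hcond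
    rw [hcardJ] at this
    push_cast at this
    exact this
  have hsum : ∀ ω : J → K, φt ω = Real.sqrt (L * v) * ∑ l, Z ω l := by
    intro ω
    have hs : Real.sqrt (L * v) ≠ 0 := (Real.sqrt_pos.2 hLv).ne'
    simp only [φt, Z, Zn]
    rw [Fintype.sum_prod_type, mul_sum]
    refine sum_congr rfl fun l _ => ?_
    field_simp
  set Qv := ex (fun x : J × ι → Bool =>
    (if ρ (πt x) then (1 : ℝ) else 0) * (∑ l, Z (πt x) l - s) ^ 2) with hQ
  have e2 : ex (fun x : J × ι → Bool =>
      (if ρ (πt x) then (1 : ℝ) else 0) * (φt (πt x) - s * Real.sqrt (L * v)) ^ 2) =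
      L * v * Qv := by
    refine Eq.trans (congrArg ex (funext fun x => ?_)) (ex_mul_left (L * v) _)
    rw [hsum]
    have : (Real.sqrt (L * v) * ∑ l, Z (πt x) l - s * Real.sqrt (L * v)) ^ 2 =
        (Real.sqrt (L * v)) ^ 2 * (∑ l, Z (πt x) l - s) ^ 2 := by ring
    rw [this, Real.sq_sqrt hLv.le]
    ring
  have e3 : P - Qv = Fgad (lawZ (wt π) φ v L) s a c id := by
    rw [Fgad_lawZ hw L s ha hc, hP, hQ, ← ex_sub]
    rw [← ex_letters π φ v L (fun z => rhoInd a c id z * (1 - (∑ l, z l - s) ^ 2))]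
    congr 1
    funext x
    rw [hrho]
    ring
  rw [e1, e2] at hround
  have hPQ : F0 / 2 < P - Qv := by rw [e3]; exact hL1
  have hq' : (0 : ℝ) < q := by exact_mod_cast hq
  have hq1 : (1 : ℝ) ≤ q := by exact_mod_cast hq
  have hcb : (((q + 1) * L * D : ℕ) : ℝ) - (((q + 1) * L * D : ℕ) - ((q * L * D : ℕ) : ℝ)) * P =
      L * D * (q + 1 - P) := by
    push_cast; ring
  rw [hcb] at hround
  have hden : 0 < (q : ℝ) + 1 - P := by linarith
  refine ⟨_, _, _, ?_, hround, ?_⟩
  · positivity
  · have e4 : ((q : ℝ) + 1) * L * v - L * v * Qv = L * v * (q + 1 - Qv) := by ring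
    rw [e4, le_div_iff₀ (by positivity)]
    have hIv : I / D ≤ v / D := by gcongr
    have e5 : (1 + F0 / (2 * (q + 1))) * (q + 1 - P) ≤ q + 1 - Qv := by
      have : F0 / (2 * ((q : ℝ) + 1)) * (q + 1 - P) ≤ F0 / 2 := by
        rw [div_mul_eq_mul_div, div_le_div_iff₀ (by positivity) (by norm_num)]
        nlinarith
      nlinarith
    calc (1 + F0 / (2 * (q + 1))) * (I / D) * (L * D * (q + 1 - P))
        ≤ (1 + F0 / (2 * (q + 1))) * (v / D) * (L * D * (q + 1 - P)) := by
          gcongr
      _ = L * v * ((1 + F0 / (2 * (q + 1))) * (q + 1 - P)) := by field_simp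
      _ ≤ L * v * (q + 1 - Qv) := by gcongr

theorem good_all (C : ℝ) (hC : 0 < C) : Good C := by
  obtain ⟨η, hη, hR⟩ := roundStmt
  exact good_of_round hη hR C hC

end Crest.Agent.BW
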