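import Crest.Agent.BW_Has

/-! # BW_Wald : running a round until the budget `b` is used (S0085)
HINT: strong induction on `b`; for `b > 0` use `has_bind` with
`F k = if 1 ≤ k.2.2 then E_{b - k.2.2} else (fun h => h (true, 0, 0))`; value:
`E[(φ+φ')²] = E φ² + 2 E[φ E_k φ'] + E[E_k φ'²]` and `E_k φ' = 0`. -/

set_option autoImplicit false

open Finset

namespace Crest.Agent.BW

theorem wald {E : (Om → ℝ) → ℝ} (hE : Has E) (h1 : Sup E (fun k => 1 ≤ k.2.2)) {Cm : ℕ}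
    (h2 : Sup E (fun k => k.2.2 ≤ Cm)) {J cb : ℝ} (hJ : J ≤ E (fun k => k.2.1 ^ 2)) (hJ0 : 0 ≤ J)
    (hc : E (fun k => (k.2.2 : ℝ)) ≤ cb) (hcb : 0 < cb) (b : ℕ) :
    ∃ E' : (Om → ℝ) → ℝ, Has E' ∧ Sup E' (fun k => k.2.2 ≤ if b = 0 then 0 else b + Cm) ∧
      b * J / cb ≤ E' (fun k => k.2.1 ^ 2) := by
  sorry

end Crest.Agent.BW
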