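import Crest.Agent.BW_Mean

/-! # BW_Wk : the letter made from a scheme (S0085)

HINTS (helper18).  `E` the scheme (mean `m E φ = 0`, variance `v`, cost exactly `D`, `|φ| ≤ R`),
`r = v / D ≥ 1`, `a' = a + R`, start at `x` with `|x| ≤ a'`.  By induction on `n`:
* `wk E a n x` is a `Mean`, supported on `|x + φ| ≤ a'`, `label = decide (0 ≤ x + φ)`,
  `a ≤ |x + φ| ∨ cost = n * D`.
* Wald: `wk E a n x ((x+φ)²) = x² + (v/D) * wk E a n x cost`.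
* hence `n * D * Pr[|x+φ| < a] ≤ wk cost ≤ a'² D / v`.
* `κ = s'' v / a'²`, `exp (lam D) = 1/(1-κ)`, `H x = (1 - s'' x²/a'²)/(1-s'')`:
  `wk E a n x (exp (lam cost)) ≤ H x` for `|x| ≤ a'` (because `1 ≤ H x ≤ 1/(1-s'')` and
  `E H(x+φ) = H x - κ/(1-s'')`).
Letter: `V = wk E a n 1 ((1+φ)²)`, `c = 1 + wk E a n 1 cost`, `w = wk E a n 1 |1+φ|`,
`M = exp lam * wk E a n 1 (exp (lam cost)) ≤ exp lam / (1-s'')`; take `s''` slightly less than `s`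
(`s'' = s (1-δ/2)`) so that `M ≤ 1/(1-s)` for `a` large, and
`lam c ≥ s'' (a² (1-T) - 1) / a'²`, `T = Pr[|1+φ| < a] ≤ a'²/(n v)`; `a → ∞`, then `n → ∞`. -/

set_option autoImplicit false

open Finset

namespace Crest.Agent.BW

theorem letter_exists {E : (Om → ℝ) → ℝ} {D : ℕ} {v R : ℝ} (hE : Sch E D v R) (hm : Mean E)
    (hphi : E (fun k => k.2.1) = 0) (hD : 1 ≤ D) (hv : (D : ℝ) ≤ v) (hR : 0 ≤ R)
    (hhas : ∀ (a : ℝ) (n : ℕ), Has (letter E a n))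
    {s δ : ℝ} (hs : 0 < s) (hs1 : s < 1) (hδ : 0 < δ) (hδ1 : δ < 1) :
    ∃ (C : (Om → ℝ) → ℝ) (V c w lam M : ℝ), Letter C (v / D) s δ V c w lam M := by
  sorry

end Crest.Agent.BW
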