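import Crest.Agent.CD_Defs

/-!
# CD-CoreNum: numerical lemmas for CD_Core
-/

set_option autoImplicit false
open MeasureTheory Metric Filter

namespace Crest.Agent.CD

theorem ff_nonneg (n : ℕ) (d : ℝ) (u : Eu n) : 0 ≤ ff n d u := by
  unfold ff
  apply Finset.sum_nonneg
  intro k _
  split_ifs <;> norm_num

/-- `ff n 0 u ≥ 1` and `ff n 0 u ≥ n (1 - ‖u‖)` for `‖u‖ ≤ 1` (number of `k ≤ n` with
`k ≤ n (1 - ‖u‖)`). -/
theorem ff_ge {n : ℕ} (hn : 1 ≤ n) (u : Eu n) (hu : ‖u‖ ≤ 1) :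
    1 ≤ ff n 0 u ∧ n * (1 - ‖u‖) ≤ ff n 0 u := by
  have hn' : (0:ℝ) < n := by exact_mod_cast (by omega : 0 < n)
  set m := ⌊(n:ℝ) * (1 - ‖u‖)⌋₊ with hm
  have hnn : 0 ≤ (n:ℝ) * (1 - ‖u‖) := mul_nonneg hn'.le (by linarith)
  have hmle : (m:ℝ) ≤ n * (1 - ‖u‖) := Nat.floor_le hnn
  have hmn : m ≤ n := by
    have : (m:ℝ) ≤ n := by
      have h0 := norm_nonneg u
      nlinarith
    exact_mod_cast this
  have key : ((m:ℝ) + 1) ≤ ff n 0 u := by
    unfold ff
    calc ((m:ℝ) + 1) = ∑ k ∈ Finset.range (m+1), (1:ℝ) := by simp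
      _ = ∑ k ∈ Finset.range (m+1), (if ‖u‖ ≤ 1 + 0 - (k : ℝ) / n then (1 : ℝ) else 0) := by
          apply Finset.sum_congr rfl
          intro k hk
          rw [if_pos]
          have hk' : (k:ℝ) ≤ m := by
            have := Finset.mem_range.mp hk
            exact_mod_cast (by omega : k ≤ m)
          have : (k:ℝ) / n ≤ 1 - ‖u‖ := by
            rw [div_le_iff₀ hn']
            nlinarith
          linarith
      _ ≤ _ := by
          apply Finset.sum_le_sum_of_subset_of_nonneg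
          · intro k hk
            simp only [Finset.mem_range] at hk ⊢
            omega
          · intro k _ _
            split_ifs <;> norm_num
  constructor
  · have : (0:ℝ) ≤ m := Nat.cast_nonneg m
    linarith
  · have := Nat.lt_floor_add_one ((n:ℝ) * (1 - ‖u‖))
    linarith

theorem diag_num {n : ℕ} (hn : 1 ≤ n) (u : Eu n) (hu : ‖u‖ ≤ 1) (m : ℝ)
    (h1 : Real.exp (-(2 ^ 21 * n * (1 - ‖u‖))) / 16 ≤ m) (h2 : m ≤ 1 / 8) :
    (1 + m⁻¹) ^ 2 * Real.exp (3 * m) ≤ Real.exp (2 ^ 23 * ff n 0 u) := by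
  obtain ⟨hf1, hf2⟩ := ff_ge hn u hu
  set a : ℝ := 2 ^ 21 * n * (1 - ‖u‖) with ha
  have hn' : (0:ℝ) < n := by exact_mod_cast (by omega : 0 < n)
  have ha0 : 0 ≤ a := by
    have : 0 ≤ 1 - ‖u‖ := by linarith
    positivity
  have hm0 : 0 < m := lt_of_lt_of_le (by positivity) h1
  have hinv : m⁻¹ ≤ 16 * Real.exp a := by
    have h3 : m⁻¹ ≤ (Real.exp (-a) / 16)⁻¹ := by
      apply inv_anti₀ (by positivity) h1
    rw [Real.exp_neg] at h3
    have h4 : ((Real.exp a)⁻¹ / 16)⁻¹ = 16 * Real.exp a := by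
      field_simp
    rw [h4] at h3
    exact h3
  have hexp1 : 1 ≤ Real.exp a := Real.one_le_exp ha0
  have hb : 1 + m⁻¹ ≤ Real.exp (3 + a) := by
    have h17 : (17:ℝ) ≤ Real.exp 3 := by
      have := Real.exp_one_gt_d9
      have h3 : Real.exp 3 = Real.exp 1 ^ 3 := by
        rw [← Real.exp_nat_mul]; norm_num
      rw [h3]
      nlinarith [Real.exp_pos 1, mul_pos (Real.exp_pos 1) (Real.exp_pos 1), sq_nonneg (Real.exp 1 - 2.7), pow_le_pow_left₀ (by norm_num : (0:ℝ) ≤ 2.7) (by linarith : (2.7:ℝ) ≤ Real.exp 1) 3]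
    rw [Real.exp_add]
    nlinarith [Real.exp_pos a]
  have hpos : 0 ≤ 1 + m⁻¹ := by positivity
  calc (1 + m⁻¹) ^ 2 * Real.exp (3 * m) ≤ (Real.exp (3 + a)) ^ 2 * Real.exp 1 := by
        apply mul_le_mul
        · exact pow_le_pow_left₀ hpos hb 2
        · exact Real.exp_le_exp.mpr (by linarith)
        · positivity
        · positivity
    _ = Real.exp (7 + 2 * a) := by
        rw [← Real.exp_nat_mul, ← Real.exp_add]
        congr 1
        push_cast
        ring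
    _ ≤ Real.exp (2 ^ 23 * ff n 0 u) := by
        apply Real.exp_le_exp.mpr
        have : a ≤ 2 ^ 21 * ff n 0 u := by
          rw [ha]
          nlinarith
        nlinarith

theorem off_num : ∃ n₀ : ℕ, ∀ n : ℕ, n₀ ≤ n → ∀ (u u' : Eu n) (m m' c : ℝ),
    1 - th n < ‖u‖ → ‖u‖ ≤ 1 → 1 - th n < ‖u'‖ → ‖u'‖ ≤ 1 → s0 n ≤ ‖u - u'‖ →
    Real.exp (-(2 ^ 21 * n * (1 - ‖u‖))) / 16 ≤ m →
    Real.exp (-(2 ^ 21 * n * (1 - ‖u'‖))) / 16 ≤ m' → 0 ≤ c →
    c ≤ Real.exp (-(((n : ℝ) - 1) * ‖u - u'‖ ^ 2)) / 8 →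
    c / (m * m') ≤ 2 / 5 / T0 n ^ 2 := by
  refine ⟨2, ?_⟩
  intro n hn u u' m m' c hu1 hu2 hu1' hu2' hs hm hm' hc0 hc
  have hn' : (2:ℝ) ≤ n := by exact_mod_cast hn
  have hn0 : (0:ℝ) < n := by linarith
  have hlog : 0 < Real.log n := Real.log_pos (by linarith)
  set L := Real.log n with hL
  -- bounds on m
  have e1 : ∀ r : ℝ, 1 - th n < r → Real.exp (-(3 * 2 ^ 21 * L)) / 16 ≤
      Real.exp (-(2 ^ 21 * n * (1 - r))) / 16 := by
    intro r hr
    have h1 : (n:ℝ) * (1 - r) ≤ 3 * L := by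
      have : 1 - r < 3 * L / n := by
        have := hr
        unfold th at this
        linarith
      rw [lt_div_iff₀ hn0] at this
      linarith
    have : Real.exp (-(3 * 2 ^ 21 * L)) ≤ Real.exp (-(2 ^ 21 * n * (1 - r))) := by
      apply Real.exp_le_exp.mpr
      nlinarith
    exact div_le_div_of_nonneg_right this (by norm_num)
  have hm1 := (e1 _ hu1).trans hm
  have hm1' := (e1 _ hu1').trans hm'
  have hp : 0 < Real.exp (-(3 * 2 ^ 21 * L)) / 16 := by positivity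
  have hmm : (Real.exp (-(3 * 2 ^ 21 * L)) / 16) * (Real.exp (-(3 * 2 ^ 21 * L)) / 16) ≤ m * m' :=
    mul_le_mul hm1 hm1' hp.le (hp.le.trans hm1)
  have hmm2 : Real.exp (-(3 * 2 ^ 22 * L)) / 256 ≤ m * m' := by
    refine le_trans (le_of_eq ?_) hmm
    have : Real.exp (-(3 * 2 ^ 22 * L)) = Real.exp (-(3 * 2 ^ 21 * L)) * Real.exp (-(3 * 2 ^ 21 * L)) := by
      rw [← Real.exp_add]; congr 1; ring
    rw [this]; ring
  -- bound on c
  have hs2 : 2 ^ 26 * (L / n) ≤ ‖u - u'‖ ^ 2 := by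
    have h1 : s0 n ^ 2 ≤ ‖u - u'‖ ^ 2 := by
      apply pow_le_pow_left₀ _ hs
      unfold s0; positivity
    have h2 : s0 n ^ 2 = 2 ^ 26 * (L / n) := by
      unfold s0
      rw [mul_pow, Real.sq_sqrt (by positivity), ← hL]
      norm_num
    rw [← h2]; exact h1
  have hc2 : c ≤ Real.exp (-(2 ^ 25 * L)) / 8 := by
    refine hc.trans ?_
    have : Real.exp (-(((n : ℝ) - 1) * ‖u - u'‖ ^ 2)) ≤ Real.exp (-(2 ^ 25 * L)) := by
      apply Real.exp_le_exp.mpr
      apply neg_le_neg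
      calc (2:ℝ) ^ 25 * L = (n / 2) * (2 ^ 26 * (L / n)) := by field_simp
        _ ≤ ((n:ℝ) - 1) * (2 ^ 26 * (L / n)) := by
            apply mul_le_mul_of_nonneg_right _ (by positivity)
            linarith
        _ ≤ ((n:ℝ) - 1) * ‖u - u'‖ ^ 2 := by
            apply mul_le_mul_of_nonneg_left hs2
            linarith
    exact div_le_div_of_nonneg_right this (by norm_num)
  -- T0
  have hT : 0 < T0 n := by unfold T0; positivity
  have hmmpos : 0 < m * m' := lt_of_lt_of_le (by positivity) hmm2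
  rw [div_le_div_iff₀ hmmpos (by positivity)]
  -- c * T0^2 ≤ 2/5 * (m m')
  have hLn : L ≤ n := by
    have := Real.log_le_sub_one_of_pos hn0
    linarith
  have hT2 : T0 n ^ 2 ≤ Real.exp (4 * L) / 2 ^ 52 := by
    have hnL : (n:ℝ) = Real.exp L := by rw [hL, Real.exp_log hn0]
    have h1 : T0 n ≤ n * n / 2 ^ 26 := by
      unfold T0
      have : (n:ℝ) * Real.log n ≤ n * n := by
        apply mul_le_mul_of_nonneg_left hLn hn0.le
      exact div_le_div_of_nonneg_right this (by norm_num)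
    have h2 : T0 n ^ 2 ≤ (n * n / 2 ^ 26 : ℝ) ^ 2 := pow_le_pow_left₀ hT.le h1 2
    refine h2.trans (le_of_eq ?_)
    have h4 : Real.exp (4 * L) = (n:ℝ) ^ 4 := by
      have : Real.exp (4 * L) = Real.exp L ^ 4 := by
        rw [← Real.exp_nat_mul]; norm_num
      rw [this, ← hnL]
    rw [h4]; ring
  calc c * T0 n ^ 2 ≤ (Real.exp (-(2 ^ 25 * L)) / 8) * (Real.exp (4 * L) / 2 ^ 52) := by
        apply mul_le_mul hc2 hT2 (by positivity) (by positivity)
    _ = Real.exp (-(2 ^ 25 * L) + 4 * L) * (1 / (8 * 2 ^ 52)) := by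
        rw [Real.exp_add]; ring
    _ ≤ Real.exp (-(3 * 2 ^ 22 * L)) * (2 / 5 * (1 / 256)) := by
        apply mul_le_mul
        · apply Real.exp_le_exp.mpr
          nlinarith
        · norm_num
        · positivity
        · positivity
    _ = 2 / 5 * (Real.exp (-(3 * 2 ^ 22 * L)) / 256) := by ring
    _ ≤ 2 / 5 * (m * m') := by
        apply mul_le_mul_of_nonneg_left hmm2 (by norm_num)

end Crest.Agent.CD
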