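/-
  CVD_Main (S0347 part D): the lossless tower GP.
-/
import Crest.Agent.CVD_W8
import Crest.Agent.CVD_B3

set_option autoImplicit false

namespace Crest.Agent.CVD

/-- PART [D] of S0347. -/
theorem gp : Crest.Agent.CV.GP := gp_of blockNumbers

end Crest.Agent.CVD
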