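import Crest.Agent.CZ_Defs

/-! CZ-01a: basic facts about circle means. -/

set_option autoImplicit false

open Complex Metric Set
open scoped ComplexConjugate

namespace Crest.Agent.CZ

/-- mean value property on circles inside the unit disc -/
theorem av_eq {F : Type*} [NormedAddCommGroup F] [NormedSpace ℂ F] [CompleteSpace F] {f : ℂ → F}
    (hf : DifferentiableOn ℂ f (ball 0 1)) {s : ℝ} (h0 : 0 < s) (h1 : s < 1) :
    Real.circleAverage f 0 s = f 0 := by
  refine circleAverage_of_differentiable_on_off_countable Set.countable_empty ?_ ?_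
  · rw [abs_of_pos h0]
    exact hf.continuousOn.mono (closedBall_subset_ball h1)
  · intro z hz
    rw [abs_of_pos h0] at hz
    exact hf.differentiableAt (isOpen_ball.mem_nhds (ball_subset_ball h1.le hz.1))

/-- the circle mean of a function analytic in the punctured disc does not depend on the radius -/
theorem av_shift {F : Type*} [NormedAddCommGroup F] [NormedSpace ℂ F] [CompleteSpace F] {f : ℂ → F}
    (hf : DifferentiableOn ℂ f (ball 0 1 \ {0})) {s t : ℝ} (h0 : 0 < s) (hst : s ≤ t) (h1 : t < 1) :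
    Real.circleAverage f 0 s = Real.circleAverage f 0 t := by
  have ht : 0 < t := h0.trans_le hst
  rw [Real.circleAverage_eq_circleIntegral h0.ne', Real.circleAverage_eq_circleIntegral ht.ne']
  congr 1
  refine (circleIntegral_sub_center_inv_smul_eq_of_differentiable_on_annulus_off_countable h0 hst
    Set.countable_empty ?_ ?_).symm
  · refine hf.continuousOn.mono fun z hz => ⟨closedBall_subset_ball h1 hz.1, ?_⟩
    rintro rfl
    exact hz.2 (mem_ball_self h0)
  · intro z hz
    have hz1 : z ∈ ball (0 : ℂ) 1 \ {0} := by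
      refine ⟨ball_subset_ball h1.le hz.1.1, ?_⟩
      rintro rfl
      exact hz.1.2 (mem_closedBall_self h0.le)
    exact hf.differentiableAt ((isOpen_ball.sdiff isClosed_singleton).mem_nhds hz1)

/-- `ζ^{-j} ζ^{k} f` has mean zero for `j < k`. -/
theorem av_inv_pow_mul {f : ℂ → ℂ} (hf : DifferentiableOn ℂ f (ball 0 1)) {s : ℝ} (h0 : 0 < s)
    (h1 : s < 1) (j k : ℕ) (hjk : j < k) :
    Real.circleAverage (fun ζ => (ζ⁻¹) ^ j * (ζ ^ k * f ζ)) 0 s = 0 := by
  obtain ⟨m, rfl⟩ := Nat.exists_eq_add_of_lt hjk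
  have h2 : Real.circleAverage (fun ζ => (ζ⁻¹) ^ j * (ζ ^ (j + m + 1) * f ζ)) 0 s
      = Real.circleAverage (fun ζ => ζ ^ (m + 1) * f ζ) 0 s := by
    refine Real.circleAverage_congr_sphere fun ζ hζ => ?_
    have hz1 : ‖ζ‖ = s := by simpa [abs_of_pos h0] using hζ
    have hz0 : ζ ≠ 0 := by
      rintro rfl
      rw [norm_zero] at hz1
      exact h0.ne hz1
    have h3 : (ζ⁻¹) ^ j * ζ ^ j = 1 := by rw [← mul_pow, inv_mul_cancel₀ hz0, one_pow]
    calc (ζ⁻¹) ^ j * (ζ ^ (j + m + 1) * f ζ) = ((ζ⁻¹) ^ j * ζ ^ j) * (ζ ^ (m + 1) * f ζ) := by ring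
      _ = _ := by rw [h3, one_mul]
  have h4 : DifferentiableOn ℂ (fun ζ => ζ ^ (m + 1) * f ζ) (ball 0 1) :=
    (differentiableOn_pow _).mul hf
  rw [h2, av_eq h4 h0 h1]
  simp

/-- means of nontrivial monomials vanish -/
theorem av_pow_inv (j : ℕ) {s : ℝ} (h0 : 0 < s) :
    Real.circleAverage (fun ζ : ℂ => (ζ⁻¹) ^ (j + 1)) 0 s = 0 := by
  rw [Real.circleAverage_eq_circleIntegral h0.ne']
  have h1 : (∮ z in C((0 : ℂ), s), (z - 0)⁻¹ • (z⁻¹) ^ (j + 1))
      = ∮ z in C((0 : ℂ), s), (z - 0) ^ (-(j + 2 : ℤ)) := by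
    refine circleIntegral.integral_congr h0.le fun z _ => ?_
    simp only [sub_zero, smul_eq_mul]
    rw [zpow_neg, ← inv_zpow, show (j + 2 : ℤ) = ((j + 2 : ℕ) : ℤ) by push_cast; rfl,
      zpow_natCast]
    ring
  rw [h1, circleIntegral.integral_sub_zpow_of_ne (by omega), smul_zero]

end Crest.Agent.CZ
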