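import Crest.Agent.CZ_Base

/-! CZ-02: the Cauchy formula `av (P(G) X) = P(A)` for polynomials, in a Banach algebra. -/

set_option autoImplicit false

open Complex Metric Set Polynomial
open scoped ComplexConjugate

namespace Crest.Agent.CZ

variable {K U : Set ℂ} (E : Ext K U)

/-- algebra behind the expansion -/
theorem avPoly_alg {𝔸 : Type*} [Ring 𝔸] [Algebra ℂ 𝔸] (B : 𝔸) (z : ℂ) (hz : z ≠ 0)
    (hu : IsUnit (1 - z • B)) (n : ℕ) :
    (z⁻¹) ^ n • Ring.inverse (1 - z • B) =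
      ∑ j ∈ Finset.range n, (z⁻¹) ^ (n - j) • B ^ j + B ^ n * Ring.inverse (1 - z • B) := by
  have h1 : (1 - z • B) * Ring.inverse (1 - z • B) = 1 := Ring.mul_inverse_cancel _ hu
  have h2 : (∑ j ∈ Finset.range n, (z • B) ^ j) * (1 - z • B) = 1 - (z • B) ^ n :=
    geom_sum_mul_neg (z • B) n
  have h3 : Ring.inverse (1 - z • B) =
      ∑ j ∈ Finset.range n, (z • B) ^ j + (z • B) ^ n * Ring.inverse (1 - z • B) := by
    have h4 : (∑ j ∈ Finset.range n, (z • B) ^ j) * ((1 - z • B) * Ring.inverse (1 - z • B)) =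
        (1 - (z • B) ^ n) * Ring.inverse (1 - z • B) := by
      rw [← mul_assoc, h2]
    rw [h1, mul_one, sub_mul, one_mul] at h4
    rw [h4]
    abel
  have h5 : (z⁻¹) ^ n • Ring.inverse (1 - z • B) =
      (z⁻¹) ^ n • (∑ j ∈ Finset.range n, (z • B) ^ j +
        (z • B) ^ n * Ring.inverse (1 - z • B)) := by
    rw [← h3]
  rw [h5, smul_add, Finset.smul_sum]
  congr 1
  · apply Finset.sum_congr rfl
    intro j hj
    have hj' : j < n := Finset.mem_range.1 hj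
    rw [_root_.smul_pow, smul_smul]
    congr 1
    obtain ⟨d, rfl⟩ := Nat.exists_eq_add_of_lt hj'
    have e : j + d + 1 - j = d + 1 := by omega
    rw [e, add_assoc, pow_add, mul_comm (z⁻¹ ^ j), mul_assoc, ← mul_pow, inv_mul_cancel₀ hz,
      one_pow, mul_one]
  · rw [_root_.smul_pow, smul_mul_assoc, smul_smul, ← mul_pow, inv_mul_cancel₀ hz, one_pow, one_smul]

theorem avPoly_sphere_mem {ζ : ℂ} {s : ℝ} (h0 : 0 < s) (h1 : s < 1) (h : ζ ∈ sphere (0 : ℂ) s) :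
    ζ ∈ ball (0 : ℂ) 1 ∧ ζ ≠ 0 := by
  have hn : ‖ζ‖ = s := by simpa using h
  constructor
  · simp [hn, h1]
  · intro h'
    rw [h', norm_zero] at hn
    exact h0.ne hn

theorem avPoly_pow {𝔸 : Type*} [NormedRing 𝔸] [NormedAlgebra ℂ 𝔸] [CompleteSpace 𝔸] (A : 𝔸)
    {s : ℝ} (h0 : 0 < s) (h1 : s < 1)
    (hs : ∀ ζ ∈ closedBall (0 : ℂ) s, IsUnit (1 - E.g ζ • (A - algebraMap ℂ 𝔸 E.a)))
    (n : ℕ) :
    CircleIntegrable (fun ζ => ((E.g ζ)⁻¹) ^ n • E.X A ζ) 0 s ∧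
    Real.circleAverage (fun ζ => ((E.g ζ)⁻¹) ^ n • E.X A ζ) 0 s =
      (A - algebraMap ℂ 𝔸 E.a) ^ n := by
  set B := A - algebraMap ℂ 𝔸 E.a with hB
  have hcd : ∀ ζ ∈ ball (0 : ℂ) 1, DifferentiableAt ℂ E.c ζ := fun ζ hζ =>
    E.c_diff.differentiableAt (isOpen_ball.mem_nhds hζ)
  have hgd : ∀ ζ ∈ ball (0 : ℂ) 1, DifferentiableAt ℂ E.g ζ := fun ζ hζ =>
    E.diff.differentiableAt (isOpen_ball.mem_nhds hζ)
  have hid : ∀ ζ ∈ closedBall (0 : ℂ) s,
      DifferentiableAt ℂ (fun ζ => E.c ζ • (B ^ n * Ring.inverse (1 - E.g ζ • B))) ζ := by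
    intro ζ hζ
    have hζ1 : ζ ∈ ball (0 : ℂ) 1 := closedBall_subset_ball h1 hζ
    have hinv : DifferentiableAt ℂ (fun ζ => Ring.inverse (1 - E.g ζ • B)) ζ := by
      have hd : DifferentiableAt ℂ (Ring.inverse : 𝔸 → 𝔸) (1 - E.g ζ • B) :=
        differentiableAt_inverse (hs ζ hζ)
      exact hd.comp ζ ((differentiableAt_const _).sub ((hgd ζ hζ1).smul_const B))
    exact (hcd ζ hζ1).smul (hinv.const_mul _)
  have hmean : Real.circleAverage
      (fun ζ => E.c ζ • (B ^ n * Ring.inverse (1 - E.g ζ • B))) 0 s = B ^ n := by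
    have habs : |s| = s := abs_of_pos h0
    rw [circleAverage_of_differentiable_on_off_countable (s := ∅) countable_empty]
    · simp only [E.c_zero, E.g_zero, zero_smul, sub_zero, Ring.inverse_one, mul_one, one_smul]
    · rw [habs]
      exact fun ζ hζ => (hid ζ hζ).continuousAt.continuousWithinAt
    · intro ζ hζ
      rw [habs] at hζ
      exact hid ζ (ball_subset_closedBall hζ.1)
  have hint0 : CircleIntegrable
      (fun ζ => E.c ζ • (B ^ n * Ring.inverse (1 - E.g ζ • B))) 0 s := by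
    apply ContinuousOn.circleIntegrable h0.le
    exact fun ζ hζ => (hid ζ (sphere_subset_closedBall hζ)).continuousAt.continuousWithinAt
  have hgi : ∀ k : ℕ, ContinuousOn (fun ζ => E.c ζ * ((E.g ζ)⁻¹) ^ k) (sphere (0 : ℂ) s) := by
    intro k ζ hζ
    obtain ⟨hb, hne⟩ := avPoly_sphere_mem h0 h1 hζ
    exact ((hcd ζ hb).continuousAt.mul
      (((hgd ζ hb).continuousAt.inv₀ (E.g_ne hb hne)).pow k)).continuousWithinAt
  have hintj : ∀ j ∈ Finset.range n, CircleIntegrable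
      (fun ζ => (E.c ζ * ((E.g ζ)⁻¹) ^ (n - j)) • B ^ j) 0 s := by
    intro j _
    apply ContinuousOn.circleIntegrable h0.le
    exact (hgi (n - j)).smul continuousOn_const
  have hmeanj : ∀ j ∈ Finset.range n, Real.circleAverage
      (fun ζ => (E.c ζ * ((E.g ζ)⁻¹) ^ (n - j)) • B ^ j) 0 s = 0 := by
    intro j hj
    have hj' : j < n := Finset.mem_range.1 hj
    have hz := E.av_c_pow (n - j - 1) h0 h1
    have e : n - j - 1 + 1 = n - j := by omega
    rw [e] at hz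
    unfold Real.circleAverage at hz ⊢
    rw [intervalIntegral.integral_smul_const, ← smul_assoc, hz, zero_smul]
  have hE : Set.EqOn (fun ζ => ((E.g ζ)⁻¹) ^ n • E.X A ζ)
      (fun ζ => ∑ j ∈ Finset.range n, (E.c ζ * ((E.g ζ)⁻¹) ^ (n - j)) • B ^ j +
        E.c ζ • (B ^ n * Ring.inverse (1 - E.g ζ • B))) (sphere 0 |s|) := by
    intro ζ hζ
    rw [abs_of_pos h0] at hζ
    obtain ⟨hb, hne⟩ := avPoly_sphere_mem h0 h1 hζ
    have hu : IsUnit (1 - E.g ζ • B) := hs ζ (sphere_subset_closedBall hζ)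
    show ((E.g ζ)⁻¹) ^ n • (E.c ζ • Ring.inverse (1 - E.g ζ • B)) = _
    rw [smul_comm, avPoly_alg B (E.g ζ) (E.g_ne hb hne) hu n, smul_add, Finset.smul_sum]
    simp only [smul_smul]
  have hsum : CircleIntegrable
      (fun ζ => ∑ j ∈ Finset.range n, (E.c ζ * ((E.g ζ)⁻¹) ^ (n - j)) • B ^ j) 0 s := by
    apply ContinuousOn.circleIntegrable h0.le
    apply continuousOn_finsetSum
    intro j _
    exact (hgi (n - j)).smul continuousOn_const
  constructor
  · apply ContinuousOn.circleIntegrable h0.le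
    have hc : ContinuousOn (fun ζ => ∑ j ∈ Finset.range n, (E.c ζ * ((E.g ζ)⁻¹) ^ (n - j)) • B ^ j +
        E.c ζ • (B ^ n * Ring.inverse (1 - E.g ζ • B))) (sphere 0 s) := by
      apply ContinuousOn.add
      · apply continuousOn_finsetSum
        intro j _
        exact (hgi (n - j)).smul continuousOn_const
      · exact fun ζ hζ => (hid ζ (sphere_subset_closedBall hζ)).continuousAt.continuousWithinAt
    rw [abs_of_pos h0] at hE
    exact hc.congr hE
  · rw [Real.circleAverage_congr_sphere hE, Real.circleAverage_fun_add hsum hint0, hmean,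
      Real.circleAverage_fun_sum hintj, Finset.sum_eq_zero hmeanj, zero_add]

/-- Proof: with `B = A - a`, `P(a + 1/g)` is a combination of `g^{-k}`; and
`g^{-k} X = c (∑_{j ≤ k} g^{j-k} B^j + g B^{k+1} (1 - g B)⁻¹)`; use `av_c_pow`, `av_eq`. -/
theorem Ext.av_poly {𝔸 : Type*} [NormedRing 𝔸] [NormedAlgebra ℂ 𝔸] [CompleteSpace 𝔸] (A : 𝔸)
    {s : ℝ} (h0 : 0 < s) (h1 : s < 1)
    (hs : ∀ ζ ∈ closedBall (0 : ℂ) s, IsUnit (1 - E.g ζ • (A - algebraMap ℂ 𝔸 E.a)))
    (P : ℂ[X]) :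
    Real.circleAverage (fun ζ => P.eval (E.G ζ) • E.X A ζ) 0 s = aeval A P := by
  set Q : ℂ[X] := P.comp (Polynomial.X + C E.a) with hQ
  have hA : aeval A P = aeval (A - algebraMap ℂ 𝔸 E.a) Q := by
    rw [hQ, aeval_comp]
    congr 1
    simp
  have hG : ∀ ζ, P.eval (E.G ζ) = ∑ i ∈ Finset.range (Q.natDegree + 1),
      Q.coeff i * ((E.g ζ)⁻¹) ^ i := by
    intro ζ
    rw [← eval_eq_sum_range, hQ, eval_comp]
    congr 1
    simp [Ext.G, add_comm]
  have hfun : (fun ζ => P.eval (E.G ζ) • E.X A ζ) = fun ζ =>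
      ∑ i ∈ Finset.range (Q.natDegree + 1), Q.coeff i • (((E.g ζ)⁻¹) ^ i • E.X A ζ) := by
    funext ζ
    rw [hG, Finset.sum_smul]
    simp only [smul_smul]
  rw [hfun, Real.circleAverage_fun_sum, hA, aeval_eq_sum_range]
  · apply Finset.sum_congr rfl
    intro i _
    rw [Real.circleAverage_fun_smul, (avPoly_pow E A h0 h1 hs i).2]
  · intro i _
    exact IntervalIntegrable.smul (avPoly_pow E A h0 h1 hs i).1 (Q.coeff i)

/-- the scalar case at a point `G ζ'`, for circles of radius `s < ‖ζ'‖` -/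
theorem Ext.av_poly_scalar {ζ' : ℂ} (h' : ζ' ∈ ball (0 : ℂ) 1) {s : ℝ} (h0 : 0 < s)
    (h1 : s < ‖ζ'‖) (P : ℂ[X]) :
    Real.circleAverage (fun ζ => P.eval (E.G ζ) * (E.Th ζ / (E.G ζ - E.G ζ'))) 0 s
      = P.eval (E.G ζ') := by
  have hlt1 : ‖ζ'‖ < 1 := by simpa using h'
  have hs1 : s < 1 := h1.trans hlt1
  have hne' : ζ' ≠ 0 := by
    intro h
    rw [h, norm_zero] at h1
    linarith
  have hg' : E.g ζ' ≠ 0 := E.g_ne h' hne'
  have hsub : E.G ζ' - E.a = (E.g ζ')⁻¹ := by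
    unfold Ext.G
    ring
  have hunit : ∀ ζ ∈ closedBall (0 : ℂ) s,
      IsUnit (1 - E.g ζ • (E.G ζ' - algebraMap ℂ ℂ E.a)) := by
    intro ζ hζ
    have hn : ‖ζ‖ ≤ s := by simpa using hζ
    have hζ1 : ζ ∈ ball (0 : ℂ) 1 := closedBall_subset_ball hs1 hζ
    rw [isUnit_iff_ne_zero, Algebra.algebraMap_self_apply, hsub, smul_eq_mul]
    intro h
    have h2 : E.g ζ = E.g ζ' := by
      have : E.g ζ * (E.g ζ')⁻¹ = 1 := by linear_combination -h
      field_simp at this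
      exact this
    have h3 := E.inj hζ1 h' h2
    rw [h3] at hn
    linarith
  have key := E.av_poly (E.G ζ') h0 hs1 hunit P
  rw [coe_aeval_eq_eval] at key
  rw [← key]
  apply Real.circleAverage_congr_sphere
  intro ζ hζ
  rw [abs_of_pos h0] at hζ
  obtain ⟨hb, hne⟩ := avPoly_sphere_mem h0 hs1 hζ
  have hg : E.g ζ ≠ 0 := E.g_ne hb hne
  have hu := hunit ζ (sphere_subset_closedBall hζ)
  rw [isUnit_iff_ne_zero, Algebra.algebraMap_self_apply, hsub, smul_eq_mul] at hu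
  show P.eval (E.G ζ) * (E.Th ζ / (E.G ζ - E.G ζ')) = P.eval (E.G ζ) • E.X (E.G ζ') ζ
  rw [smul_eq_mul]
  congr 1
  unfold Ext.X
  rw [Algebra.algebraMap_self_apply, hsub, smul_eq_mul, smul_eq_mul, E.c_eq hne,
    Ring.inverse_eq_inv']
  have hGG : E.G ζ - E.G ζ' = (E.g ζ)⁻¹ * (1 - E.g ζ * (E.g ζ')⁻¹) := by
    unfold Ext.G
    field_simp
    ring
  rw [hGG]
  unfold Ext.Th
  field_simp

end Crest.Agent.CZ
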