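import Crest.Agent.CZ_Av

/-! CZ-01b: basic facts about the map `g` of `Ext`. -/

set_option autoImplicit false

open Complex Metric Set
open scoped ComplexConjugate

namespace Crest.Agent.CZ

namespace Ext

variable {K U : Set ℂ} (E : Ext K U)

theorem g_ne {ζ : ℂ} (h : ζ ∈ ball (0 : ℂ) 1) (h0 : ζ ≠ 0) : E.g ζ ≠ 0 := by
  intro hg
  exact h0 (E.inj h (mem_ball_self one_pos) (by rw [hg, E.g_zero]))

theorem base_u_of_ne {ζ : ℂ} (h0 : ζ ≠ 0) : dslope E.g 0 ζ = E.g ζ / ζ := by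
  rw [dslope_of_ne _ h0, slope_def_field, E.g_zero, sub_zero, sub_zero]

theorem u_ne {ζ : ℂ} (h : ζ ∈ ball (0 : ℂ) 1) : dslope E.g 0 ζ ≠ 0 := by
  by_cases h0 : ζ = 0
  · subst h0
    rw [dslope_same]
    exact E.deriv_ne 0 h
  · rw [E.base_u_of_ne h0]
    exact div_ne_zero (E.g_ne h h0) h0

theorem u_diff : DifferentiableOn ℂ (dslope E.g 0) (ball 0 1) :=
  (Complex.differentiableOn_dslope (isOpen_ball.mem_nhds (mem_ball_self one_pos))).2 E.diff

theorem deriv_diff : DifferentiableOn ℂ (deriv E.g) (ball 0 1) :=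
  E.diff.deriv isOpen_ball

theorem c_diff : DifferentiableOn ℂ E.c (ball 0 1) :=
  E.deriv_diff.div E.u_diff fun _ hζ => E.u_ne hζ

theorem c_zero : E.c 0 = 1 := by
  unfold c
  rw [dslope_same]
  exact div_self (E.deriv_ne 0 (mem_ball_self one_pos))

theorem c_eq {ζ : ℂ} (h0 : ζ ≠ 0) : E.c ζ = ζ * deriv E.g ζ / E.g ζ := by
  unfold c
  rw [E.base_u_of_ne h0, div_div_eq_mul_div, mul_comm]

theorem G_ne {ζ ζ' : ℂ} (h : ζ ∈ ball (0 : ℂ) 1) (h0 : ζ ≠ 0) (h' : ζ' ∈ ball (0 : ℂ) 1)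
    (h0' : ζ' ≠ 0) (hne : ζ ≠ ζ') : E.G ζ ≠ E.G ζ' := by
  intro hG
  unfold G at hG
  have h1 := add_left_cancel hG
  exact hne (E.inj h h' (inv_injective h1))

/-- exact derivatives have mean zero: `ζ g' g^{-(k+2)}` -/
theorem av_c_pow (k : ℕ) {s : ℝ} (h0 : 0 < s) (h1 : s < 1) :
    Real.circleAverage (fun ζ => E.c ζ * ((E.g ζ)⁻¹) ^ (k + 1)) 0 s = 0 := by
  rw [Real.circleAverage_eq_circleIntegral h0.ne']
  have key : (∮ z in C((0 : ℂ), s), (z - 0)⁻¹ • (E.c z * ((E.g z)⁻¹) ^ (k + 1))) = 0 := by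
    refine circleIntegral.integral_eq_zero_of_hasDerivWithinAt h0.le
      (f := fun z => -((k : ℂ) + 1)⁻¹ * ((E.g z)⁻¹) ^ (k + 1)) fun z hz => ?_
    have hz1 : ‖z‖ = s := by simpa using hz
    have hz0 : z ≠ 0 := by
      rintro rfl
      rw [norm_zero] at hz1
      exact h0.ne hz1
    have hzb : z ∈ ball (0 : ℂ) 1 := by
      rw [mem_ball_zero_iff, hz1]; exact h1
    have hg := E.g_ne hzb hz0
    have hd : HasDerivAt E.g (deriv E.g z) z :=
      (E.diff.differentiableAt (isOpen_ball.mem_nhds hzb)).hasDerivAt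
    have hk : ((k : ℂ) + 1) ≠ 0 := Nat.cast_add_one_ne_zero k
    have h2 := ((hd.inv hg).pow (k + 1)).const_mul (-((k : ℂ) + 1)⁻¹)
    refine HasDerivAt.hasDerivWithinAt (h2.congr_deriv ?_)
    rw [E.c_eq hz0, smul_eq_mul, sub_zero]
    simp only [Pi.inv_apply, Nat.add_sub_cancel]
    push_cast
    field_simp
    rw [pow_succ]
    field_simp
  rw [key, smul_zero]

theorem G_diff : DifferentiableOn ℂ E.G (ball 0 1 \ {0}) := by
  have hd : DifferentiableOn ℂ E.g (ball 0 1 \ {0}) := E.diff.mono Set.sdiff_subset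
  have h2 : DifferentiableOn ℂ (fun ζ => E.a + (E.g ζ)⁻¹) (ball 0 1 \ {0}) :=
    (differentiableOn_const _).add (hd.inv fun ζ hζ => E.g_ne hζ.1 (by simpa using hζ.2))
  exact h2

end Ext

end Crest.Agent.CZ
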