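import Mathlib

/-! CZ-70: boundary correspondence for `b = f ∘ G` (S0181). -/

set_option autoImplicit false

open Complex Metric Set Filter Topology
open scoped ComplexConjugate

namespace Crest.Agent.CZ

/-- the geometric data of S0181 -/
structure Bd (Ω U : Set ℂ) (f G : ℂ → ℂ) (r : ℝ) : Prop where
  hΩ₁ : IsOpen Ω
  hΩ₂ : Bornology.IsBounded Ω
  hΩ₃ : Convex ℝ Ω
  hU : IsOpen U
  hΩU : closure Ω ⊆ U
  hf₁ : DifferentiableOn ℂ f U
  hf₂ : InjOn f U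
  hf₃ : f '' Ω = ball 0 1
  hr₁ : 0 < r
  hr₂ : r < 1
  hG₁ : DifferentiableOn ℂ G {t : ℂ | r < ‖t‖}
  hG₂ : InjOn G {t : ℂ | r < ‖t‖}
  hG₃ : G '' {t : ℂ | 1 < ‖t‖} = (closure Ω)ᶜ

namespace Bd

variable {Ω U : Set ℂ} {f G : ℂ → ℂ} {r : ℝ} (B : Bd Ω U f G r)
include B

theorem norm_f_lt {z : ℂ} (hz : z ∈ Ω) : ‖f z‖ < 1 := by
  have : f z ∈ ball (0 : ℂ) 1 := B.hf₃ ▸ mem_image_of_mem f hz
  simpa using this

theorem norm_f_le {z : ℂ} (hz : z ∈ closure Ω) : ‖f z‖ ≤ 1 := by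
  have hc : ContinuousWithinAt f Ω z :=
    ((B.hf₁.continuousOn z (B.hΩU hz)).mono (subset_closure.trans B.hΩU))
  have hmaps : MapsTo f Ω (closedBall 0 1) := fun w hw => by
    simpa using (B.norm_f_lt hw).le
  have := hc.mem_closure hz hmaps
  rw [isClosed_closedBall.closure_eq] at this
  simpa using this

/-- if `‖f z‖ < 1` then `f z = f w` with `w ∈ Ω`, so `z = w` -/
theorem one_le_norm_f {z : ℂ} (hz : z ∈ U) (hz' : z ∉ Ω) : 1 ≤ ‖f z‖ := by
  by_contra hlt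
  push Not at hlt
  have : f z ∈ f '' Ω := by rw [B.hf₃]; simpa using hlt
  obtain ⟨w, hw, hwz⟩ := this
  have : w = z := B.hf₂ (B.hΩU (subset_closure hw)) hz hwz
  exact hz' (this ▸ hw)

/-- the image of the compact set `closure Ω` is closed, contains `ball 0 1` -/
theorem f_closure : f '' closure Ω = closedBall 0 1 := by
  apply Subset.antisymm
  · rintro _ ⟨z, hz, rfl⟩
    simpa using B.norm_f_le hz
  · have hcomp : IsCompact (closure Ω) := B.hΩ₂.isCompact_closure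
    have himg : IsCompact (f '' closure Ω) :=
      hcomp.image_of_continuousOn (B.hf₁.continuousOn.mono B.hΩU)
    have hsub : ball (0 : ℂ) 1 ⊆ f '' closure Ω := by
      rw [← B.hf₃]
      exact image_mono subset_closure
    rw [← closure_ball (0 : ℂ) one_ne_zero]
    exact closure_minimal hsub himg.isClosed

/-- otherwise `G t = G t'` with `1 < ‖t'‖` -/
theorem G_mem {t : ℂ} (ht : ‖t‖ = 1) : G t ∈ closure Ω := by
  by_contra hn
  have : G t ∈ G '' {t : ℂ | 1 < ‖t‖} := by rw [B.hG₃]; exact hn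
  obtain ⟨t', ht', he⟩ := this
  have h1 : t' = t := B.hG₂ (show r < ‖t'‖ from lt_trans B.hr₂ ht')
    (show r < ‖t‖ by rw [ht]; exact B.hr₂) he
  have h2 : 1 < ‖t'‖ := ht'
  rw [h1, ht] at h2
  exact lt_irrefl _ h2

theorem G_notMem_closure {t : ℂ} (ht : 1 < ‖t‖) : G t ∉ closure Ω := by
  have : G t ∈ (closure Ω)ᶜ := by rw [← B.hG₃]; exact mem_image_of_mem G ht
  exact this

theorem G_contAt {t : ℂ} (ht : r < ‖t‖) : ContinuousAt G t := by
  have hopen : IsOpen {t : ℂ | r < ‖t‖} := isOpen_lt continuous_const continuous_norm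
  exact (B.hG₁.differentiableAt (hopen.mem_nhds ht)).continuousAt

/-- otherwise `G (s t) ∈ Ω` for `s > 1` close to `1` -/
theorem G_notMem {t : ℂ} (ht : ‖t‖ = 1) : G t ∉ Ω := by
  intro hmem
  have hc : ContinuousAt G t := B.G_contAt (by rw [ht]; exact B.hr₂)
  have hev : ∀ᶠ w in 𝓝 t, G w ∈ Ω := hc (B.hΩ₁.mem_nhds hmem)
  have hlim : Tendsto (fun s : ℝ => (s : ℂ) * t) (𝓝[>] 1) (𝓝 t) := by
    have : Continuous (fun s : ℝ => (s : ℂ) * t) := by fun_prop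
    have h := this.tendsto 1
    simp only [ofReal_one, one_mul] at h
    exact h.mono_left nhdsWithin_le_nhds
  have h1 := hlim.eventually hev
  have h2 : ∀ᶠ s : ℝ in 𝓝[>] 1, 1 < s := self_mem_nhdsWithin
  obtain ⟨s, hs1, hs2⟩ := (h1.and h2).exists
  refine B.G_notMem_closure (t := (s : ℂ) * t) ?_ (subset_closure hs1)
  rw [norm_mul, ht, mul_one, Complex.norm_real, Real.norm_of_nonneg (by linarith)]
  exact hs2

theorem norm_b {t : ℂ} (ht : ‖t‖ = 1) : ‖f (G t)‖ = 1 :=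
  le_antisymm (B.norm_f_le (B.G_mem ht)) (B.one_le_norm_f (B.hΩU (B.G_mem ht)) (B.G_notMem ht))

theorem b_inj {t t' : ℂ} (ht : ‖t‖ = 1) (ht' : ‖t'‖ = 1) (h : f (G t) = f (G t')) : t = t' := by
  have h1 : G t = G t' := B.hf₂ (B.hΩU (B.G_mem ht)) (B.hΩU (B.G_mem ht')) h
  exact B.hG₂ (show r < ‖t‖ by rw [ht]; exact B.hr₂) (show r < ‖t'‖ by rw [ht']; exact B.hr₂) h1

/-- `b = f ∘ G` is holomorphic on the open set `W ⊇ circle` where `G t ∈ U`; `‖b t‖ ≥ 1` for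
`t ∈ W`, `1 < ‖t‖`. -/
theorem exists_W : ∃ W : Set ℂ, IsOpen W ∧ sphere (0 : ℂ) 1 ⊆ W ∧
    DifferentiableOn ℂ (fun t => f (G t)) W ∧ ∀ t ∈ W, 1 < ‖t‖ → 1 ≤ ‖f (G t)‖ := by
  have hopen : IsOpen {t : ℂ | r < ‖t‖} := isOpen_lt continuous_const continuous_norm
  refine ⟨{t : ℂ | r < ‖t‖} ∩ G ⁻¹' U, B.hG₁.continuousOn.isOpen_inter_preimage hopen B.hU, ?_, ?_, ?_⟩
  · intro t ht
    have ht' : ‖t‖ = 1 := by simpa using ht
    exact ⟨show r < ‖t‖ by rw [ht']; exact B.hr₂, B.hΩU (B.G_mem ht')⟩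
  · exact B.hf₁.comp (B.hG₁.mono inter_subset_left) (fun t ht => ht.2)
  · intro t ht h1
    exact B.one_le_norm_f ht.2 (fun hΩ => B.G_notMem_closure h1 (subset_closure hΩ))

end Bd

end Crest.Agent.CZ
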