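import Crest.Agent.CZ_Bd

/-! CZ-71: the phase derivative `β θ = t b'(t)/b(t)`, `t = e^{iθ}`, of the circle homeomorphism
`b = f ∘ G`. -/

set_option autoImplicit false

open Complex Metric Set Filter Topology
open scoped ComplexConjugate

namespace Crest.Agent.CZ

/-- `b (e^{iθ})` -/
noncomputable def bb (f G : ℂ → ℂ) (θ : ℝ) : ℂ := f (G (exp ((θ : ℂ) * I)))

/-- `β θ = Re (t b'(t)/b(t))`, `t = e^{iθ}` -/
noncomputable def beta (f G : ℂ → ℂ) (θ : ℝ) : ℝ :=
  (exp ((θ : ℂ) * I) * deriv (fun t => f (G t)) (exp ((θ : ℂ) * I)) / f (G (exp ((θ : ℂ) * I)))).re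

theorem beta_exp_periodic (θ : ℝ) :
    exp (((θ + 2 * Real.pi : ℝ) : ℂ) * I) = exp ((θ : ℂ) * I) := by
  have : ((θ + 2 * Real.pi : ℝ) : ℂ) * I = (θ : ℂ) * I + 2 * Real.pi * I := by
    push_cast
    ring
  rw [this, Complex.exp_periodic]

theorem beta_exp_norm (θ : ℝ) : ‖exp ((θ : ℂ) * I)‖ = 1 := Complex.norm_exp_ofReal_mul_I θ

namespace Bd

variable {Ω U : Set ℂ} {f G : ℂ → ℂ} {r : ℝ} (B : Bd Ω U f G r)

theorem bb_periodic (f G : ℂ → ℂ) : Function.Periodic (bb f G) (2 * Real.pi) := by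
  intro θ
  unfold bb
  rw [beta_exp_periodic]

theorem beta_periodic (f G : ℂ → ℂ) : Function.Periodic (beta f G) (2 * Real.pi) := by
  intro θ
  unfold beta
  rw [beta_exp_periodic]

include B

theorem bb_norm (θ : ℝ) : ‖bb f G θ‖ = 1 := B.norm_b (beta_exp_norm θ)

omit B in
theorem beta_mem {W : Set ℂ} (hW : sphere (0 : ℂ) 1 ⊆ W) (θ : ℝ) : exp ((θ : ℂ) * I) ∈ W :=
  hW (by rw [mem_sphere_zero_iff_norm]; exact beta_exp_norm θ)

omit B in
theorem beta_exp_cont : Continuous fun θ : ℝ => exp ((θ : ℂ) * I) := by fun_prop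

theorem bb_cont : Continuous (bb f G) := by
  obtain ⟨W, hWo, hW, hd, -⟩ := B.exists_W
  exact hd.continuousOn.comp_continuous beta_exp_cont (beta_mem hW)

theorem beta_cont : Continuous (beta f G) := by
  obtain ⟨W, hWo, hW, hd, -⟩ := B.exists_W
  unfold beta
  have h1 : Continuous fun θ : ℝ => deriv (fun t => f (G t)) (exp ((θ : ℂ) * I)) :=
    (hd.deriv hWo).continuousOn.comp_continuous beta_exp_cont (beta_mem hW)
  have h2 : Continuous fun θ : ℝ => f (G (exp ((θ : ℂ) * I))) := B.bb_cont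
  refine Complex.continuous_re.comp ((beta_exp_cont.mul h1).div h2 fun θ => ?_)
  have := B.bb_norm θ
  unfold bb at this
  rw [← norm_ne_zero_iff, this]
  exact one_ne_zero

/-- the derivative of `b` at a point of the circle -/
theorem beta_hasDerivAt_b (θ : ℝ) : HasDerivAt (fun t => f (G t))
    (deriv (fun t => f (G t)) (exp ((θ : ℂ) * I))) (exp ((θ : ℂ) * I)) := by
  obtain ⟨W, hWo, hW, hd, -⟩ := B.exists_W
  exact (hd.differentiableAt (hWo.mem_nhds (beta_mem hW θ))).hasDerivAt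

/-- radial derivative of `‖b‖²` at `t` is `≥ 0`, since `‖b (s t)‖ ≥ 1` for `s > 1` near `1` -/
theorem beta_nonneg (θ : ℝ) : 0 ≤ beta f G θ := by
  obtain ⟨W, hWo, hW, hd, hge⟩ := B.exists_W
  set t := exp ((θ : ℂ) * I) with ht
  have htn : ‖t‖ = 1 := beta_exp_norm θ
  have hb := B.beta_hasDerivAt_b θ
  rw [← ht] at hb
  set b' := deriv (fun t => f (G t)) t with hb'
  have hline : HasDerivAt (fun s : ℝ => (s : ℂ) * t) t 1 := by
    have := (Complex.ofRealCLM.hasDerivAt (x := (1 : ℝ))).mul_const t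
    simpa using this
  have hcomp : HasDerivAt (fun s : ℝ => f (G ((s : ℂ) * t))) (b' * t) 1 := by
    have hb2 : HasDerivAt (fun t => f (G t)) b' ((fun s : ℝ => (s : ℂ) * t) 1) := by
      simpa using hb
    exact HasDerivAt.comp (h₂ := fun t => f (G t)) (h := fun s : ℝ => (s : ℂ) * t) (1 : ℝ) hb2 hline
  have hsq := hcomp.norm_sq
  have hbn : ‖f (G t)‖ = 1 := B.norm_b htn
  have hval : ‖f (G (((1 : ℝ) : ℂ) * t))‖ ^ 2 = 1 := by
    rw [Complex.ofReal_one, one_mul, hbn, one_pow]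
  have hinner : (inner ℝ (f (G (((1 : ℝ) : ℂ) * t))) (b' * t) : ℝ) = beta f G θ := by
    rw [Complex.ofReal_one, one_mul, Complex.inner]
    unfold beta
    rw [← ht, ← hb']
    congr 1
    have hne : f (G t) ≠ 0 := by
      rw [← norm_ne_zero_iff, hbn]
      exact one_ne_zero
    rw [eq_div_iff hne]
    have : conj (f (G t)) * f (G t) = 1 := by
      rw [← Complex.normSq_eq_conj_mul_self, Complex.normSq_eq_norm_sq, hbn]
      simp
    calc b' * t * conj (f (G t)) * f (G t) = (conj (f (G t)) * f (G t)) * (t * b') := by ring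
      _ = t * b' := by rw [this, one_mul]
  rw [hinner] at hsq
  have hslope := (hasDerivWithinAt_iff_tendsto_slope' (s := Ioi (1 : ℝ))
    (fun h => lt_irrefl (1 : ℝ) h)).1 hsq.hasDerivWithinAt
  have hev : ∀ᶠ s in 𝓝[>] (1 : ℝ), 0 ≤ slope (fun s : ℝ => ‖f (G ((s : ℂ) * t))‖ ^ 2) 1 s := by
    have hWn : ∀ᶠ s : ℝ in 𝓝 (1 : ℝ), (s : ℂ) * t ∈ W := by
      have hc : ContinuousAt (fun s : ℝ => (s : ℂ) * t) 1 := hline.continuousAt
      apply hc.eventually_mem
      apply hWo.mem_nhds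
      rw [Complex.ofReal_one, one_mul]
      exact beta_mem hW θ
    filter_upwards [self_mem_nhdsWithin, mem_nhdsWithin_of_mem_nhds hWn] with s hs hsW
    have hs1 : (1 : ℝ) < s := hs
    have hn : 1 < ‖(s : ℂ) * t‖ := by
      rw [norm_mul, htn, mul_one, Complex.norm_real, Real.norm_eq_abs, abs_of_pos (by linarith)]
      exact hs1
    have h1 := hge _ hsW hn
    rw [slope_def_field, hval]
    apply div_nonneg _ (by linarith)
    nlinarith [norm_nonneg (f (G ((s : ℂ) * t)))]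
  have := ge_of_tendsto hslope hev
  linarith

/-- `d/dθ b(e^{iθ}) = i t b'(t) = i β b`: `t b'(t)/b(t)` is real because `‖b (e^{iθ})‖ = 1` -/
theorem bb_hasDerivAt (θ : ℝ) : HasDerivAt (bb f G) (I * (beta f G θ : ℂ) * bb f G θ) θ := by
  have hb := B.beta_hasDerivAt_b θ
  have hexp : HasDerivAt (fun θ : ℝ => exp ((θ : ℂ) * I)) (exp ((θ : ℂ) * I) * I) θ := by
    have h1 : HasDerivAt (fun s : ℝ => (s : ℂ) * I) I θ := by
      have := (Complex.ofRealCLM.hasDerivAt (x := θ)).mul_const I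
      simpa using this
    exact h1.cexp
  have hc : HasDerivAt (bb f G) (deriv (fun t => f (G t)) (exp ((θ : ℂ) * I)) *
      (exp ((θ : ℂ) * I) * I)) θ :=
    HasDerivAt.comp (h₂ := fun t => f (G t)) (h := fun θ : ℝ => exp ((θ : ℂ) * I)) θ hb hexp
  have hbn := B.bb_norm θ
  have hne : bb f G θ ≠ 0 := by
    rw [← norm_ne_zero_iff, hbn]
    exact one_ne_zero
  have hsq := hc.norm_sq
  have hconst : HasDerivAt (fun θ => ‖bb f G θ‖ ^ 2) 0 θ := by
    have : (fun θ => ‖bb f G θ‖ ^ 2) = fun _ => (1 : ℝ) := by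
      funext x
      rw [B.bb_norm x, one_pow]
    rw [this]
    exact hasDerivAt_const _ _
  have h0 := hsq.unique hconst
  rw [Complex.inner] at h0
  set w := exp ((θ : ℂ) * I) * deriv (fun t => f (G t)) (exp ((θ : ℂ) * I)) / bb f G θ with hw
  have hw' : exp ((θ : ℂ) * I) * deriv (fun t => f (G t)) (exp ((θ : ℂ) * I)) = w * bb f G θ := by
    rw [hw, div_mul_cancel₀ _ hne]
  have hcb : conj (bb f G θ) * bb f G θ = 1 := by
    rw [← Complex.normSq_eq_conj_mul_self, Complex.normSq_eq_norm_sq, hbn]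
    simp
  have e1 : (deriv (fun t => f (G t)) (exp ((θ : ℂ) * I)) *
      (exp ((θ : ℂ) * I) * I)) * conj (bb f G θ) = w * I := by
    calc _ = conj (bb f G θ) * (exp ((θ : ℂ) * I) *
          deriv (fun t => f (G t)) (exp ((θ : ℂ) * I))) * I := by ring
      _ = (conj (bb f G θ) * bb f G θ) * w * I := by rw [hw']; ring
      _ = w * I := by rw [hcb, one_mul]
  rw [e1] at h0
  have him : w.im = 0 := by
    simp at h0
    exact h0
  have hre : (beta f G θ : ℂ) = w := by
    apply Complex.ext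
    · rw [Complex.ofReal_re]
      rfl
    · rw [Complex.ofReal_im, him]
  convert hc using 1
  rw [hre]
  calc I * w * bb f G θ = (w * bb f G θ) * I := by ring
    _ = _ := by rw [← hw']; ring

end Bd

end Crest.Agent.CZ
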