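import Mathlib

/-! CZ-41: compression to a finite-dimensional subspace. -/

set_option autoImplicit false

open Complex Metric Set Filter Topology
open scoped ComplexConjugate

namespace Crest.Agent.CZ

variable {H : Type*} [NormedAddCommGroup H] [InnerProductSpace ℂ H] [CompleteSpace H]

/-- Proof: `W` = span of `A^k (v j)`, `k ≤ d`; `A'` = (orthogonal projection onto `W`) ∘ `A` on `W`;
`A'^k (v j) = A^k (v j)` for `k ≤ d` by induction. -/
theorem compress (A : H →L[ℂ] H) (m d : ℕ) (v : Fin m → H) :
    ∃ W : Submodule ℂ H, FiniteDimensional ℂ W ∧ ∃ (A' : W →L[ℂ] W) (w : Fin m → W),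
      (∀ j, (w j : H) = v j) ∧ (∀ j, ∀ k ≤ d, (((A' ^ k) (w j) : W) : H) = (A ^ k) (v j)) ∧
      (∀ x : W, (inner ℂ x (A' x) : ℂ) = inner ℂ (x : H) (A (x : H))) := by
  set W : Submodule ℂ H :=
    Submodule.span ℂ (Set.range (fun p : Fin m × Fin (d + 1) => (A ^ (p.2 : ℕ)) (v p.1))) with hW
  have hfin : FiniteDimensional ℂ W := FiniteDimensional.span_of_finite ℂ (Set.finite_range _)
  have hmem : ∀ j, ∀ k ≤ d, (A ^ k) (v j) ∈ W := by
    intro j k hk
    exact Submodule.subset_span ⟨(j, ⟨k, by omega⟩), rfl⟩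
  have hmem0 : ∀ j, v j ∈ W := by
    intro j
    simpa using hmem j 0 (Nat.zero_le d)
  refine ⟨W, hfin, (W.orthogonalProjectionOnto.comp A).comp W.subtypeL, fun j => ⟨v j, hmem0 j⟩,
    fun j => rfl, ?_, ?_⟩
  · intro j k
    induction k with
    | zero => intro _; simp
    | succ k ih =>
      intro hk
      rw [pow_succ', pow_succ']
      simp only [ContinuousLinearMap.mul_def, ContinuousLinearMap.comp_apply,
        Submodule.subtypeL_apply]
      rw [ih (by omega)]
      have h := hmem j (k + 1) hk
      rw [pow_succ'] at h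
      exact congrArg Subtype.val (Submodule.orthogonalProjectionOnto_mem_subspace_eq_self
        (K := W) ⟨_, h⟩)
  · intro x
    simp only [ContinuousLinearMap.comp_apply, Submodule.subtypeL_apply]
    exact Submodule.inner_orthogonalProjectionOnto_eq_of_mem_left _ _

end Crest.Agent.CZ
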