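import Crest.Agent.CZ_Mat

/-! CZ-76: conjugation by `S = H^{1/2}`. -/

set_option autoImplicit false

open Complex Metric Set Filter Topology Polynomial
open scoped ComplexConjugate ComplexOrder
open Crest.AnalysisR.NumRange

namespace Crest.Agent.CZ

variable {n : ℕ}

theorem conj_ip (A : Matrix (Fin n) (Fin n) ℂ) (x : EuclideanSpace ℂ (Fin n)) :
    inner ℂ x (op A x) = star (WithLp.ofLp x) ⬝ᵥ A.mulVec (WithLp.ofLp x) := by
  rw [EuclideanSpace.inner_eq_star_dotProduct, dotProduct_comm]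
  rfl

theorem conj_ip_nonneg {A : Matrix (Fin n) (Fin n) ℂ} (hA : A.PosSemidef)
    (x : EuclideanSpace ℂ (Fin n)) : 0 ≤ (inner ℂ x (op A x)).re := by
  rw [conj_ip]
  exact hA.re_dotProduct_nonneg _

theorem conj_norm_sq {S H : Matrix (Fin n) (Fin n) ℂ}
    (hS₁ : S.PosSemidef) (hS₂ : S * S = H) (x : EuclideanSpace ℂ (Fin n)) :
    ‖op S x‖ ^ 2 = (inner ℂ x (op H x)).re := by
  have h1 : ContinuousLinearMap.adjoint (op S) = op S := by
    have := map_star (Matrix.toEuclideanCLM (n := Fin n) (𝕜 := ℂ)) S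
    rw [Matrix.star_eq_conjTranspose, hS₁.isHermitian.eq] at this
    rw [← ContinuousLinearMap.star_eq_adjoint]
    exact this.symm
  have h2 : op H x = op S (op S x) := by
    rw [← hS₂, op, map_mul]
    rfl
  rw [h2]
  have h3 : inner ℂ x (op S (op S x)) = inner ℂ (op S x) (op S x) := by
    conv_lhs => rw [← h1]
    rw [ContinuousLinearMap.adjoint_inner_right, h1]
  rw [h3, inner_self_eq_norm_sq_to_K]
  norm_cast

theorem S_unit {S H : Matrix (Fin n) (Fin n) ℂ} (h1 : (H - 1).PosSemidef) (hS₂ : S * S = H) :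
    IsUnit S.det := by
  have hH : H.PosDef := by
    have := Matrix.PosDef.posSemidef_add h1 (Matrix.PosDef.one (n := Fin n) (R := ℂ))
    simpa using this
  have hdet : H.det ≠ 0 := hH.det_pos.ne'
  rw [← hS₂, Matrix.det_mul] at hdet
  exact isUnit_iff_ne_zero.2 (left_ne_zero_of_mul hdet)

theorem conj_lower {S H : Matrix (Fin n) (Fin n) ℂ} (h1 : (H - 1).PosSemidef)
    (hS₁ : S.PosSemidef) (hS₂ : S * S = H) (x : EuclideanSpace ℂ (Fin n)) :
    ‖x‖ ≤ ‖op S x‖ := by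
  have h := conj_ip_nonneg h1 x
  have h2 : op (H - 1) x = op H x - x := by
    rw [op, map_sub, map_one]; rfl
  rw [h2, inner_sub_right, Complex.sub_re, ← conj_norm_sq hS₁ hS₂, inner_self_eq_norm_sq_to_K] at h
  have h3 : (((‖x‖ : ℝ) : ℂ) ^ 2).re = ‖x‖ ^ 2 := by norm_cast
  have h4 : ‖x‖ ^ 2 ≤ ‖op S x‖ ^ 2 := by
    have : ((RCLike.ofReal ‖x‖ : ℂ) ^ 2).re = ‖x‖ ^ 2 := h3
    rw [this] at h
    linarith
  exact le_of_sq_le_sq h4 (norm_nonneg _) |> fun h => h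

theorem S_inv_norm {S H : Matrix (Fin n) (Fin n) ℂ} (h1 : (H - 1).PosSemidef)
    (hS₁ : S.PosSemidef) (hS₂ : S * S = H) : ‖op S⁻¹‖ ≤ 1 := by
  refine ContinuousLinearMap.opNorm_le_bound _ zero_le_one fun y => ?_
  have hu := S_unit h1 hS₂
  have h2 : op S (op S⁻¹ y) = y := by
    have : op S * op S⁻¹ = 1 := by
      rw [op, op, ← map_mul, Matrix.mul_nonsing_inv _ hu, map_one]
    calc op S (op S⁻¹ y) = (op S * op S⁻¹) y := rfl
      _ = y := by rw [this]; rfl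
  have h3 := conj_lower h1 hS₁ hS₂ (op S⁻¹ y)
  rw [h2] at h3
  linarith

theorem S_norm {S H : Matrix (Fin n) (Fin n) ℂ} {κsq : ℝ}
    (h2 : ((κsq : ℂ) • (1 : Matrix (Fin n) (Fin n) ℂ) - H).PosSemidef)
    (hS₁ : S.PosSemidef) (hS₂ : S * S = H) : ‖op S‖ ≤ Real.sqrt κsq := by
  refine ContinuousLinearMap.opNorm_le_bound _ (Real.sqrt_nonneg _) fun x => ?_
  have h := conj_ip_nonneg h2 x
  have h3 : op ((κsq : ℂ) • (1 : Matrix (Fin n) (Fin n) ℂ) - H) x = (κsq : ℂ) • x - op H x := by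
    rw [op, map_sub, map_smul, map_one]; rfl
  rw [h3, inner_sub_right, Complex.sub_re, ← conj_norm_sq hS₁ hS₂, inner_smul_right,
    inner_self_eq_norm_sq_to_K] at h
  have h4 : ((κsq : ℂ) * (RCLike.ofReal ‖x‖ : ℂ) ^ 2).re = κsq * ‖x‖ ^ 2 := by
    have : ((κsq : ℂ) * (((‖x‖ : ℝ) : ℂ)) ^ 2) = ((κsq * ‖x‖ ^ 2 : ℝ) : ℂ) := by push_cast; rfl
    calc ((κsq : ℂ) * (RCLike.ofReal ‖x‖ : ℂ) ^ 2).re
        = ((κsq : ℂ) * (((‖x‖ : ℝ) : ℂ)) ^ 2).re := rfl
      _ = κsq * ‖x‖ ^ 2 := by rw [this, Complex.ofReal_re]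
  rw [h4] at h
  by_cases hk : 0 ≤ κsq
  · have h5 : ‖op S x‖ ^ 2 ≤ (Real.sqrt κsq * ‖x‖) ^ 2 := by
      rw [mul_pow, Real.sq_sqrt hk]; linarith
    exact le_of_sq_le_sq h5 (mul_nonneg (Real.sqrt_nonneg _) (norm_nonneg _))
  · push Not at hk
    have h6 : ‖op S x‖ ^ 2 ≤ 0 := by nlinarith [sq_nonneg ‖x‖]
    have h7 : ‖op S x‖ = 0 := by
      have := sq_nonneg ‖op S x‖
      exact pow_eq_zero_iff (n := 2) two_ne_zero |>.1 (le_antisymm h6 this)
    rw [h7]
    exact mul_nonneg (Real.sqrt_nonneg _) (norm_nonneg _)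

theorem conj_contr {S H T : Matrix (Fin n) (Fin n) ℂ} (h1 : (H - 1).PosSemidef)
    (h3 : (H - T.conjTranspose * H * T).PosSemidef)
    (hS₁ : S.PosSemidef) (hS₂ : S * S = H) : ‖op (S * T * S⁻¹)‖ ≤ 1 := by
  refine ContinuousLinearMap.opNorm_le_bound _ zero_le_one fun y => ?_
  have hu := S_unit h1 hS₂
  have h2 : op S (op S⁻¹ y) = y := by
    have : op S * op S⁻¹ = 1 := by
      rw [op, op, ← map_mul, Matrix.mul_nonsing_inv _ hu, map_one]
    calc op S (op S⁻¹ y) = (op S * op S⁻¹) y := rfl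
      _ = y := by rw [this]; rfl
  set x := op S⁻¹ y with hx
  have h4 : op (S * T * S⁻¹) y = op S (op T x) := by
    rw [op, map_mul, map_mul]; rfl
  have h := conj_ip_nonneg h3 x
  have h5 : op (H - T.conjTranspose * H * T) x
      = op H x - (ContinuousLinearMap.adjoint (op T)) (op H (op T x)) := by
    have := map_star (Matrix.toEuclideanCLM (n := Fin n) (𝕜 := ℂ)) T
    rw [Matrix.star_eq_conjTranspose] at this
    rw [← ContinuousLinearMap.star_eq_adjoint, op, map_sub, map_mul, map_mul, this]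
    rfl
  rw [h5, inner_sub_right, Complex.sub_re, ContinuousLinearMap.adjoint_inner_right,
    ← conj_norm_sq hS₁ hS₂, ← conj_norm_sq hS₁ hS₂, h2] at h
  rw [h4, one_mul]
  exact le_of_sq_le_sq (by linarith) (norm_nonneg _)

theorem conj_pow {S A : Matrix (Fin n) (Fin n) ℂ} (hS : IsUnit S.det) (k : ℕ) :
    (S * A * S⁻¹) ^ k = S * A ^ k * S⁻¹ := by
  induction k with
  | zero => simp [Matrix.mul_nonsing_inv _ hS]
  | succ k ih =>
    rw [pow_succ, ih, pow_succ]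
    calc S * A ^ k * S⁻¹ * (S * A * S⁻¹) = S * A ^ k * (S⁻¹ * S) * A * S⁻¹ := by
          simp only [Matrix.mul_assoc]
      _ = S * (A ^ k * A) * S⁻¹ := by
          rw [Matrix.nonsing_inv_mul _ hS]; simp only [Matrix.mul_assoc, Matrix.mul_one]

theorem aeval_conj {S A : Matrix (Fin n) (Fin n) ℂ} (hS : IsUnit S.det) (q : ℂ[X]) :
    aeval (S * A * S⁻¹) q = S * aeval A q * S⁻¹ := by
  induction q using Polynomial.induction_on' with
  | add p q hp hq => rw [map_add, map_add, hp, hq, Matrix.mul_add, Matrix.add_mul]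
  | monomial k a =>
    rw [aeval_monomial, aeval_monomial, conj_pow hS, ← Algebra.smul_def, ← Algebra.smul_def,
      Matrix.mul_smul, Matrix.smul_mul]

theorem spectrum_conj {S T : Matrix (Fin n) (Fin n) ℂ} (hS : IsUnit S.det) :
    spectrum ℂ (S * T * S⁻¹) = spectrum ℂ T := by
  have hS' : IsUnit S := (Matrix.isUnit_iff_isUnit_det _).2 hS
  obtain ⟨u, hu⟩ := hS'
  have h1 : (↑u⁻¹ : Matrix (Fin n) (Fin n) ℂ) = S⁻¹ := by
    rw [← hu, Matrix.coe_units_inv]
  rw [← hu, ← Matrix.coe_units_inv]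
  exact spectrum.units_conjugate

end Crest.Agent.CZ
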