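import Crest.Agent.CZ_Base

/-! CZ-04: Faber polynomials. -/

set_option autoImplicit false

open Complex Metric Set Polynomial
open scoped ComplexConjugate

namespace Crest.Agent.CZ

variable {K U : Set ℂ} (E : Ext K U)

/-- general step: `(ζ⁻¹)^N * v ζ` for `v` analytic on the disc. -/
theorem Ext.faber_aux (N : ℕ) : ∀ v : ℂ → ℂ, DifferentiableOn ℂ v (ball 0 1) →
    ∃ P : ℂ[X], ∃ e : ℂ → ℂ, DifferentiableOn ℂ e (ball 0 1) ∧ e 0 = 0 ∧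
      ∀ ζ ∈ ball (0 : ℂ) 1, ζ ≠ 0 → P.eval (E.G ζ) = (ζ⁻¹) ^ N * v ζ + e ζ := by
  induction N with
  | zero =>
    intro v hv
    refine ⟨C (v 0), fun ζ => v 0 - v ζ, (differentiableOn_const _).sub hv, by simp, ?_⟩
    intro ζ _ _
    simp
  | succ N ih =>
    intro v hv
    have h0mem : (0 : ℂ) ∈ ball (0 : ℂ) 1 := mem_ball_self one_pos
    have hu := E.u_diff
    set u : ℂ → ℂ := dslope E.g 0 with hudef
    set q : ℂ := v 0 * (u 0) ^ (N + 1) with hq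
    set w : ℂ → ℂ := fun ζ => v ζ - q * ((u ζ) ^ (N + 1))⁻¹ with hw
    have hwd : DifferentiableOn ℂ w (ball 0 1) := by
      refine hv.sub ((differentiableOn_const _).mul ?_)
      refine (hu.pow (N + 1)).inv fun ζ hζ => ?_
      exact pow_ne_zero _ (E.u_ne hζ)
    have hw0 : w 0 = 0 := by
      have : u 0 ^ (N + 1) ≠ 0 := pow_ne_zero _ (E.u_ne h0mem)
      simp only [hw, hq]
      field_simp
      ring
    have hwd' : DifferentiableOn ℂ (dslope w 0) (ball 0 1) :=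
      (Complex.differentiableOn_dslope (isOpen_ball.mem_nhds h0mem)).2 hwd
    obtain ⟨P, e, he, he0, hP⟩ := ih (dslope w 0) hwd'
    refine ⟨C q * (Polynomial.X - C E.a) ^ (N + 1) + P, e, he, he0, ?_⟩
    intro ζ hζ hζ0
    rw [Polynomial.eval_add, hP ζ hζ hζ0]
    have hG : (C q * (Polynomial.X - C E.a) ^ (N + 1) : ℂ[X]).eval (E.G ζ)
        = q * ((E.g ζ)⁻¹) ^ (N + 1) := by
      simp [Ext.G]
    rw [hG]
    have hdw : dslope w 0 ζ = ζ⁻¹ * w ζ := by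
      rw [dslope_of_ne _ hζ0, slope_def_field, hw0, sub_zero, sub_zero, div_eq_inv_mul]
    have hdu : u ζ = ζ⁻¹ * E.g ζ := by
      rw [hudef, dslope_of_ne _ hζ0, slope_def_field, E.g_zero, sub_zero, sub_zero,
        div_eq_inv_mul]
    rw [hdw]
    simp only [hw]
    rw [hdu]
    have e1 : ((ζ⁻¹ * E.g ζ) ^ (N + 1))⁻¹ = ζ ^ (N + 1) * ((E.g ζ)⁻¹) ^ (N + 1) := by
      rw [mul_pow, mul_inv, inv_pow, inv_inv, inv_pow]
    have e2 : ζ⁻¹ ^ (N + 1) * ζ ^ (N + 1) = 1 := by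
      rw [← mul_pow, inv_mul_cancel₀ hζ0, one_pow]
    rw [e1]
    calc q * (E.g ζ)⁻¹ ^ (N + 1) +
        (ζ⁻¹ ^ N * (ζ⁻¹ * (v ζ - q * (ζ ^ (N + 1) * (E.g ζ)⁻¹ ^ (N + 1)))) + e ζ)
        = q * (E.g ζ)⁻¹ ^ (N + 1) * (1 - ζ⁻¹ ^ (N + 1) * ζ ^ (N + 1))
          + ζ⁻¹ ^ (N + 1) * v ζ + e ζ := by ring
      _ = ζ⁻¹ ^ (N + 1) * v ζ + e ζ := by rw [e2]; ring

/-- Every polynomial in `1/ζ` is `P ∘ G` up to an analytic function vanishing at `0`.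
Proof: show by induction on `N` the more general statement: if `v` is analytic on the disc then
there are `P` and `e` (analytic, `e 0 = 0`) with `(ζ⁻¹)^N * v ζ = P (G ζ) + e ζ` off `0`
(subtract `v 0 * (g'(0))^N * (1/g)^N = v 0 g'(0)^N (z - a)^N ∘ G`). -/
theorem Ext.faber (R : ℂ[X]) :
    ∃ P : ℂ[X], ∃ e : ℂ → ℂ, DifferentiableOn ℂ e (ball 0 1) ∧ e 0 = 0 ∧
      ∀ ζ ∈ ball (0 : ℂ) 1, ζ ≠ 0 → P.eval (E.G ζ) = R.eval ζ⁻¹ + e ζ := by
  induction R using Polynomial.induction_on' with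
  | add R S hR hS =>
    obtain ⟨P₁, e₁, hd₁, h0₁, h₁⟩ := hR
    obtain ⟨P₂, e₂, hd₂, h0₂, h₂⟩ := hS
    refine ⟨P₁ + P₂, fun ζ => e₁ ζ + e₂ ζ, hd₁.add hd₂, by simp [h0₁, h0₂], ?_⟩
    intro ζ hζ hζ0
    rw [Polynomial.eval_add, Polynomial.eval_add, h₁ ζ hζ hζ0, h₂ ζ hζ hζ0]
    ring
  | monomial n a =>
    obtain ⟨P, e, hd, h0, h⟩ := E.faber_aux n (fun _ => a) (differentiableOn_const _)
    refine ⟨P, e, hd, h0, ?_⟩
    intro ζ hζ hζ0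
    rw [h ζ hζ hζ0, Polynomial.eval_monomial]
    ring

end Crest.Agent.CZ
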