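import Crest.Agent.CZ_Rep
import Crest.Agent.CZ_Faber

/-! CZ-07: the contraction property. -/

set_option autoImplicit false

open Complex Metric Set Polynomial MeasureTheory
open scoped ComplexConjugate

namespace Crest.Agent.CZ

/-- abstract doubly stochastic kernel inequality -/
theorem dsk_aux {μ : Measure ℝ} [IsFiniteMeasure μ] (k : ℝ → ℝ → ℝ) (φ ψ : ℝ → ℂ) (m : ℝ)
    (hm : 0 < m)
    (hk : Measurable (fun p : ℝ × ℝ => k p.1 p.2)) (hk0 : ∀ x y, 0 ≤ k x y)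
    (hL : ∀ y, Integrable (fun x => k x y) μ) (hR : ∀ x, Integrable (fun y => k x y) μ)
    (hL1 : ∀ y, ∫ x, k x y ∂μ = m) (hR1 : ∀ x, ∫ y, k x y ∂μ = m)
    (hφ : Continuous φ) (C : ℝ) (hφC : ∀ x, ‖φ x‖ ≤ C)
    (h : ∀ y, ψ y = m⁻¹ * ∫ x, ((k x y : ℝ) : ℂ) * φ x ∂μ) :
    ∫ y, ‖ψ y‖ ^ 2 ∂μ ≤ ∫ x, ‖φ x‖ ^ 2 ∂μ := by
  -- integrability on the product
  have hkint : Integrable (fun p : ℝ × ℝ => k p.1 p.2) (μ.prod μ) := by
    rw [integrable_prod_iff hk.aestronglyMeasurable]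
    refine ⟨Filter.Eventually.of_forall hR, ?_⟩
    have : (fun x => ∫ y, ‖k x y‖ ∂μ) = fun _ => m := by
      funext x
      rw [← hR1 x]
      congr 1
      funext y
      exact Real.norm_of_nonneg (hk0 x y)
    simp only
    rw [this]
    exact integrable_const _
  have hF : Integrable (fun p : ℝ × ℝ => k p.1 p.2 * ‖φ p.1‖ ^ 2) (μ.prod μ) := by
    refine hkint.mul_bdd (c := C ^ 2) ?_ ?_
    · exact ((hφ.comp continuous_fst).norm.pow 2).aestronglyMeasurable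
    · refine Filter.Eventually.of_forall fun p => ?_
      rw [Real.norm_of_nonneg (by positivity)]
      exact pow_le_pow_left₀ (norm_nonneg _) (hφC _) 2
  have hc : ∀ y, Integrable (fun x => ((k x y : ℝ) : ℂ)) μ := fun y => (hL y).ofReal
  have hcφ : ∀ y, Integrable (fun x => ((k x y : ℝ) : ℂ) * φ x) μ := fun y =>
    (hc y).mul_bdd (c := C) hφ.aestronglyMeasurable (Filter.Eventually.of_forall hφC)
  have hkφ2 : ∀ y, Integrable (fun x => k x y * ‖φ x‖ ^ 2) μ := fun y =>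
    (hL y).mul_bdd (c := C ^ 2) (hφ.norm.pow 2).aestronglyMeasurable
      (Filter.Eventually.of_forall fun x => by
        rw [Real.norm_of_nonneg (by positivity)]
        exact pow_le_pow_left₀ (norm_nonneg _) (hφC _) 2)
  -- pointwise inequality
  have hpt : ∀ y, ‖ψ y‖ ^ 2 ≤ m⁻¹ * ∫ x, k x y * ‖φ x‖ ^ 2 ∂μ := by
    intro y
    have h0 : 0 ≤ ∫ x, k x y * ‖φ x - ψ y‖ ^ 2 ∂μ :=
      integral_nonneg fun x => mul_nonneg (hk0 x y) (by positivity)
    have e1 : ∀ x, k x y * ‖φ x - ψ y‖ ^ 2 =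
        k x y * ‖φ x‖ ^ 2 - 2 * (conj (ψ y) * (((k x y : ℝ) : ℂ) * φ x)).re + k x y * ‖ψ y‖ ^ 2 := by
      intro x
      rw [← Complex.normSq_eq_norm_sq, ← Complex.normSq_eq_norm_sq, ← Complex.normSq_eq_norm_sq,
        Complex.normSq_sub]
      simp [Complex.mul_re, Complex.mul_im]
      ring
    simp_rw [e1] at h0
    have i2 : Integrable (fun x => (conj (ψ y) * (((k x y : ℝ) : ℂ) * φ x)).re) μ :=
      ((hcφ y).const_mul _).re
    have i3 : Integrable (fun x => k x y * ‖φ x‖ ^ 2 -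
        2 * (conj (ψ y) * (((k x y : ℝ) : ℂ) * φ x)).re) μ := (hkφ2 y).sub (i2.const_mul 2)
    rw [integral_add i3 ((hL y).mul_const _),
      integral_sub (hkφ2 y) (i2.const_mul 2), integral_const_mul, integral_mul_const, hL1] at h0
    have e2 : ∫ x, (conj (ψ y) * (((k x y : ℝ) : ℂ) * φ x)).re ∂μ =
        m * ‖ψ y‖ ^ 2 := by
      have e3 : ∫ x, (conj (ψ y) * (((k x y : ℝ) : ℂ) * φ x)).re ∂μ =
          (∫ x, (conj (ψ y) * (((k x y : ℝ) : ℂ) * φ x)) ∂μ).re := by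
        exact integral_re ((hcφ y).const_mul _)
      rw [e3, integral_const_mul]
      have e4 : ∫ x, ((k x y : ℝ) : ℂ) * φ x ∂μ = m * ψ y := by
        rw [h y]
        have : (m : ℂ) ≠ 0 := by exact_mod_cast hm.ne'
        rw [Complex.ofReal_inv, ← mul_assoc, mul_inv_cancel₀ this, one_mul]
      rw [e4]
      have e5 : conj (ψ y) * (m * ψ y) = ((m * ‖ψ y‖ ^ 2 : ℝ) : ℂ) := by
        push_cast
        rw [← Complex.conj_mul']
        ring
      rw [e5, Complex.ofReal_re]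
    rw [e2] at h0
    have h5 : m * ‖ψ y‖ ^ 2 ≤ ∫ x, k x y * ‖φ x‖ ^ 2 ∂μ := by linarith
    rw [inv_mul_eq_div, le_div_iff₀ hm]
    linarith
  have hswap : ∫ y, (∫ x, k x y * ‖φ x‖ ^ 2 ∂μ) ∂μ = ∫ x, (∫ y, k x y * ‖φ x‖ ^ 2 ∂μ) ∂μ :=
    (integral_integral_swap (f := fun x y => k x y * ‖φ x‖ ^ 2) hF).symm
  calc ∫ y, ‖ψ y‖ ^ 2 ∂μ ≤ ∫ y, m⁻¹ * ∫ x, k x y * ‖φ x‖ ^ 2 ∂μ ∂μ := by
        refine integral_mono_of_nonneg (Filter.Eventually.of_forall fun y => by positivity) ?_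
          (Filter.Eventually.of_forall hpt)
        exact (hF.integral_prod_right).const_mul _
    _ = m⁻¹ * ∫ x, (∫ y, k x y * ‖φ x‖ ^ 2 ∂μ) ∂μ := by
        rw [integral_const_mul, hswap]
    _ = m⁻¹ * ∫ x, m * ‖φ x‖ ^ 2 ∂μ := by
        congr 2
        funext x
        rw [integral_mul_const, hR1]
    _ = ∫ x, ‖φ x‖ ^ 2 ∂μ := by
        rw [integral_const_mul]
        field_simp

variable {K U : Set ℂ} (E : Ext K U)

/-- Abstract form: a doubly stochastic kernel on the circle is a contraction of `L²`.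
(Cauchy-Schwarz for each `ζ'`, then Tonelli.) -/
theorem Ext.contr_aux (φ ψ : ℂ → ℂ) (hφ : ContinuousOn φ (sphere 0 E.ρ))
    (hψ : ContinuousOn ψ (sphere 0 E.ρ))
    (h : ∀ ζ', ‖ζ'‖ = E.ρ →
      ψ ζ' = Real.circleAverage (fun ζ => ((E.ker ζ ζ' : ℝ) : ℂ) * φ ζ) 0 E.ρ) :
    Real.circleAverage (fun ζ => ‖ψ ζ‖ ^ 2) 0 E.ρ ≤ Real.circleAverage (fun ζ => ‖φ ζ‖ ^ 2) 0 E.ρ := by
  have hρ := E.ρ_pos
  have hn : ∀ x, ‖circleMap 0 E.ρ x‖ = E.ρ := fun x => by
    rw [norm_circleMap_zero, abs_of_pos hρ]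
  have hmem : ∀ x, circleMap 0 E.ρ x ∈ sphere (0 : ℂ) E.ρ := fun x => by
    rw [mem_sphere_iff_norm, sub_zero, hn]
  have h2π : (0 : ℝ) ≤ 2 * Real.pi := by positivity
  obtain ⟨C, hC⟩ := (isCompact_sphere (0 : ℂ) E.ρ).exists_bound_of_continuousOn hφ
  rw [Real.circleAverage_def, Real.circleAverage_def, intervalIntegral.integral_of_le h2π,
    intervalIntegral.integral_of_le h2π, smul_eq_mul, smul_eq_mul]
  refine mul_le_mul_of_nonneg_left ?_ (by positivity)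
  have hav : ∀ f : ℂ → ℝ, Real.circleAverage f 0 E.ρ = 1 →
      ∫ x in Ioc 0 (2 * Real.pi), f (circleMap 0 E.ρ x) = 2 * Real.pi := by
    intro f hf
    rw [Real.circleAverage_def, intervalIntegral.integral_of_le h2π, smul_eq_mul,
      inv_mul_eq_div, div_eq_one_iff_eq (by positivity)] at hf
    exact hf
  have hint : ∀ f : ℂ → ℝ, CircleIntegrable f 0 E.ρ →
      Integrable (fun x => f (circleMap 0 E.ρ x)) (volume.restrict (Ioc 0 (2 * Real.pi))) := by
    intro f hf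
    unfold CircleIntegrable at hf
    rw [intervalIntegrable_iff_integrableOn_Ioc_of_le h2π] at hf
    exact hf
  refine dsk_aux (μ := volume.restrict (Ioc 0 (2 * Real.pi)))
    (fun x y => E.ker (circleMap 0 E.ρ x) (circleMap 0 E.ρ y))
    (fun x => φ (circleMap 0 E.ρ x)) (fun y => ψ (circleMap 0 E.ρ y)) (2 * Real.pi) (by positivity)
    E.ker_measurable (fun x y => E.ker_nonneg (hn x) (hn y)) ?_ ?_ ?_ ?_ ?_ C
    (fun x => hC _ (hmem x)) ?_
  · exact fun y => hint _ (E.ker_int_left (hn y))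
  · exact fun x => hint _ (E.ker_int_right (hn x))
  · exact fun y => hav (fun ζ => E.ker ζ (circleMap 0 E.ρ y)) (E.ker_av_left (hn y))
  · exact fun x => hav (fun ζ' => E.ker (circleMap 0 E.ρ x) ζ') (E.ker_av_right (hn x))
  · exact hφ.comp_continuous (continuous_circleMap 0 E.ρ) hmem
  · intro y
    rw [h _ (hn y), Real.circleAverage_def, intervalIntegral.integral_of_le h2π]
    rw [Complex.real_smul]

theorem Ext.contr (P R : ℂ[X]) (e : ℂ → ℂ) (he : DifferentiableOn ℂ e (ball 0 1)) (he0 : e 0 = 0)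
    (hP : ∀ ζ ∈ ball (0 : ℂ) 1, ζ ≠ 0 → P.eval (E.G ζ) = R.eval ζ⁻¹ + e ζ) :
    Real.circleAverage (fun ζ => ‖e ζ‖ ^ 2) 0 E.ρ
      ≤ Real.circleAverage (fun ζ => ‖R.eval ζ⁻¹ - R.coeff 0‖ ^ 2) 0 E.ρ := by
  have hρ := E.ρ_pos
  have h1 := E.ρ_lt
  have hsub : sphere (0 : ℂ) E.ρ ⊆ ball 0 1 := by
    intro z hz
    simp only [mem_sphere_iff_norm, sub_zero] at hz
    simp [hz, h1]
  refine E.contr_aux (fun ζ => R.eval ζ⁻¹ - R.coeff 0) e ?_ (he.continuousOn.mono hsub) ?_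
  · refine ContinuousOn.sub ?_ continuousOn_const
    refine (R.continuous.continuousOn (s := univ)).comp (f := fun ζ : ℂ => ζ⁻¹) ?_ (by intro x _; trivial)
    refine ContinuousOn.inv₀ continuousOn_id ?_
    intro z hz h0
    simp only [mem_sphere_iff_norm, sub_zero] at hz
    have h0' : z = 0 := h0
    rw [h0', norm_zero] at hz
    linarith
  · intro ζ' h'
    exact E.rep P R e he he0 hP h'

end Crest.Agent.CZ
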