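import Crest.Agent.CZ_Energy

/-! CZ-09: the core inequality. -/

set_option autoImplicit false

open Complex Metric Set Polynomial MeasureTheory
open scoped ComplexConjugate

namespace Crest.Agent.CZ

variable {K U : Set ℂ} (E : Ext K U)
variable {H : Type*} [NormedAddCommGroup H] [InnerProductSpace ℂ H] [FiniteDimensional ℂ H]
  [CompleteSpace H]

omit [FiniteDimensional ℂ H] [CompleteSpace H] in
private theorem Ext.core_sphere {ζ : ℂ} (h : ζ ∈ sphere (0 : ℂ) E.ρ) :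
    ζ ∈ ball (0 : ℂ) 1 ∧ ζ ≠ 0 := by
  have hρ := E.ρ_pos
  have h1 := E.ρ_lt
  simp only [mem_sphere_iff_norm, sub_zero] at h
  refine ⟨by simp [h, h1], ?_⟩
  rintro rfl
  simp at h
  linarith

private theorem Ext.core_contG : ContinuousOn E.G (sphere 0 E.ρ) := by
  refine E.G_diff.continuousOn.mono ?_
  intro z hz
  have := E.core_sphere hz
  exact ⟨this.1, by simpa using this.2⟩

private theorem Ext.core_contX (A : H →L[ℂ] H) (hA : ∀ x : H, ‖x‖ = 1 → inner ℂ x (A x) ∈ K)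
    (x y : H) : ContinuousOn (fun ζ => (inner ℂ y (E.X A ζ x) : ℂ)) (sphere 0 E.ρ) := by
  have h1 : ContinuousOn (E.X A) (sphere 0 E.ρ) :=
    (E.X_diff A hA).continuousOn.mono fun z hz => (E.core_sphere hz).1
  have h2 : ContinuousOn (fun ζ => E.X A ζ x) (sphere 0 E.ρ) :=
    h1.clm_apply continuousOn_const
  exact ContinuousOn.inner continuousOn_const h2

/-- pairing bound -/
private theorem Ext.core_pair (A : H →L[ℂ] H) (hA : ∀ x : H, ‖x‖ = 1 → inner ℂ x (A x) ∈ K)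
    {m : ℕ} (M : Fin m → Fin m → ℂ → ℂ) (hM : ∀ i j, ContinuousOn (M i j) (sphere 0 E.ρ))
    (y u : Fin m → H) :
    ‖∑ k, ∑ j, Real.circleAverage (fun ζ => M k j ζ * inner ℂ (u k) (E.X A ζ (y j))) 0 E.ρ‖ ≤
      Real.sqrt (Real.circleAverage (fun ζ => ∑ k, ∑ j, ‖M k j ζ‖ ^ 2) 0 E.ρ) *
        Real.sqrt (E.en2 A y u) := by
  have hρ := E.ρ_pos
  have h := av_cs hρ (Finset.univ : Finset (Fin m × Fin m)) (fun p => M p.1 p.2)
    (fun p ζ => inner ℂ (u p.1) (E.X A ζ (y p.2)))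
    (fun p _ => hM p.1 p.2) (fun p _ => E.core_contX A hA (y p.2) (u p.1))
  rw [Real.circleAverage_fun_sum] at h
  · simp only [Fintype.sum_prod_type] at h
    exact h
  · intro p _
    exact ((hM p.1 p.2).mul (E.core_contX A hA (y p.2) (u p.1))).circleIntegrable hρ.le

private theorem core_real {κ a b e L : ℝ} (ha : 0 < a) (hb : 0 < b) (hL : 0 ≤ L)
    (hκ : 0 ≤ κ)
    (h1 : κ * (a / 2) ≤ L * Real.sqrt a * Real.sqrt e)
    (h2 : κ * (b / 2) ≤ L * Real.sqrt b * Real.sqrt e)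
    (he : e ≤ Real.sqrt a * Real.sqrt b) (he0 : 0 ≤ e) : κ ≤ 2 * L := by
  have hsa : 0 < Real.sqrt a := Real.sqrt_pos.2 ha
  have hsb : 0 < Real.sqrt b := Real.sqrt_pos.2 hb
  have ea : Real.sqrt a * Real.sqrt a = a := Real.mul_self_sqrt ha.le
  have eb : Real.sqrt b * Real.sqrt b = b := Real.mul_self_sqrt hb.le
  have ee : Real.sqrt e * Real.sqrt e = e := Real.mul_self_sqrt he0
  have h1' : κ * Real.sqrt a ≤ 2 * L * Real.sqrt e := by
    have : Real.sqrt a * (κ * Real.sqrt a) ≤ Real.sqrt a * (2 * L * Real.sqrt e) := by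
      nlinarith
    exact le_of_mul_le_mul_left this hsa
  have h2' : κ * Real.sqrt b ≤ 2 * L * Real.sqrt e := by
    have : Real.sqrt b * (κ * Real.sqrt b) ≤ Real.sqrt b * (2 * L * Real.sqrt e) := by
      nlinarith
    exact le_of_mul_le_mul_left this hsb
  have h3 : (κ * Real.sqrt a) * (κ * Real.sqrt b) ≤
      (2 * L * Real.sqrt e) * (2 * L * Real.sqrt e) :=
    mul_le_mul h1' h2' (by positivity) (by positivity)
  have h4 : κ ^ 2 * (Real.sqrt a * Real.sqrt b) ≤ (2 * L) ^ 2 * (Real.sqrt a * Real.sqrt b) := by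
    calc κ ^ 2 * (Real.sqrt a * Real.sqrt b) = (κ * Real.sqrt a) * (κ * Real.sqrt b) := by ring
      _ ≤ (2 * L * Real.sqrt e) * (2 * L * Real.sqrt e) := h3
      _ = (2 * L) ^ 2 * (Real.sqrt e * Real.sqrt e) := by ring
      _ = (2 * L) ^ 2 * e := by rw [ee]
      _ ≤ (2 * L) ^ 2 * (Real.sqrt a * Real.sqrt b) :=
        mul_le_mul_of_nonneg_left he (by positivity)
  have h5 : κ ^ 2 ≤ (2 * L) ^ 2 := le_of_mul_le_mul_right h4 (by positivity)
  exact (pow_le_pow_iff_left₀ hκ (by positivity) two_ne_zero).1 h5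

/-- bound for the mean of the HS norm of the product matrix -/
private theorem Ext.core_prod_bound {m : ℕ} (M N : Fin m → Fin m → ℂ → ℂ)
    (hM : ∀ i j, ContinuousOn (M i j) (sphere 0 E.ρ))
    (hN : ∀ i j, ContinuousOn (N i j) (sphere 0 E.ρ))
    (L c : ℝ) (hL : 0 ≤ L)
    (h : ∀ ζ ∈ sphere (0 : ℂ) E.ρ, ∑ i, ∑ j, ‖M i j ζ‖ ^ 2 ≤ L ^ 2 * ∑ i, ∑ j, ‖N i j ζ‖ ^ 2)
    (hc : Real.circleAverage (fun ζ => ∑ i, ∑ j, ‖N i j ζ‖ ^ 2) 0 E.ρ ≤ c) :
    Real.sqrt (Real.circleAverage (fun ζ => ∑ i, ∑ j, ‖M i j ζ‖ ^ 2) 0 E.ρ) ≤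
      L * Real.sqrt c := by
  have hρ := E.ρ_pos
  have hMc : ContinuousOn (fun ζ => ∑ i, ∑ j, ‖M i j ζ‖ ^ 2) (sphere 0 E.ρ) :=
    continuousOn_finsetSum _ fun i _ => continuousOn_finsetSum _ fun j _ => (hM i j).norm.pow 2
  have hNc : ContinuousOn (fun ζ => ∑ i, ∑ j, ‖N i j ζ‖ ^ 2) (sphere 0 E.ρ) :=
    continuousOn_finsetSum _ fun i _ => continuousOn_finsetSum _ fun j _ => (hN i j).norm.pow 2
  have h1 : Real.circleAverage (fun ζ => ∑ i, ∑ j, ‖M i j ζ‖ ^ 2) 0 E.ρ ≤ L ^ 2 * c := by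
    calc Real.circleAverage (fun ζ => ∑ i, ∑ j, ‖M i j ζ‖ ^ 2) 0 E.ρ
        ≤ Real.circleAverage (fun ζ => L ^ 2 * ∑ i, ∑ j, ‖N i j ζ‖ ^ 2) 0 E.ρ := by
          refine Real.circleAverage_mono (hMc.circleIntegrable hρ.le)
            ((continuousOn_const.mul hNc).circleIntegrable hρ.le) ?_
          intro x hx
          rw [abs_of_pos hρ] at hx
          exact h x hx
      _ = L ^ 2 * Real.circleAverage (fun ζ => ∑ i, ∑ j, ‖N i j ζ‖ ^ 2) 0 E.ρ := by
          have := Real.circleAverage_fun_smul (a := L ^ 2)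
            (f := fun ζ => ∑ i, ∑ j, ‖N i j ζ‖ ^ 2) (c := 0) (R := E.ρ)
          simpa [smul_eq_mul] using this
      _ ≤ L ^ 2 * c := mul_le_mul_of_nonneg_left hc (by positivity)
  calc Real.sqrt (Real.circleAverage (fun ζ => ∑ i, ∑ j, ‖M i j ζ‖ ^ 2) 0 E.ρ)
      ≤ Real.sqrt (L ^ 2 * c) := Real.sqrt_le_sqrt h1
    _ = L * Real.sqrt c := by
      rw [Real.sqrt_mul (by positivity), Real.sqrt_sq hL]

/-- The core: `‖F[A]‖ ≤ 2 max ‖F‖`.
Proof: let `Φ` be the operator `v ↦ (Σ_j FA i j (v j))_i` on `PiLp 2`, `κ = ‖Φ‖ > 0`,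
`Φ y = κ u`, `Φ* u = κ y`, `‖y‖ = ‖u‖ = 1` (`exists_norm_pair`), i.e.
`Σ_j FA i j (y j) = κ u_i`, `Σ_i (FA i j)* u_i = κ y_j`.
With `Hp` from `energy` for `y`: `κ (en y/2 - ε) ≤ κ Re Σ_ij ⟪y_i, Hp_ij(A) y_j⟫
= Re Σ_kj ⟪u_k, Σ_i FA_ki Hp_ij(A) y_j⟫ = Re av Σ_kj (F Hp(G))_kj ⟪u_k, X y_j⟫
≤ L √(en y) √(en2 y u)` (`av_cs`, `hs_mul_le`).
With `Hp` from `energy` for `u`: `κ (en u/2 - ε) ≤ κ Re Σ_ij ⟪u_i, Hp_ij(A) u_j⟫
= Re Σ_ik ⟪u_i, Σ_j Hp_ij(A) FA_jk y_k⟫ = Re av Σ_ik (Hp(G) F)_ik ⟪u_i, X y_k⟫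
≤ L √(en u) √(en2 y u)`.
`ε → 0`, multiply, `en2 ≤ √(en y) √(en u)`: `κ²/4 ≤ L²`. -/
theorem Ext.core (A : H →L[ℂ] H) (hA : ∀ x : H, ‖x‖ = 1 → inner ℂ x (A x) ∈ K) {m : ℕ}
    (F : Fin m → Fin m → ℂ → ℂ) (hFc : ∀ i j, ContinuousOn (F i j) (sphere 0 E.ρ))
    (FA : Fin m → Fin m → (H →L[ℂ] H)) (hcomm : ∀ i j, Commute (FA i j) A)
    (hF : ∀ i j (P : ℂ[X]) (x y : H),
      Real.circleAverage (fun ζ => P.eval (E.G ζ) * F i j ζ * inner ℂ y (E.X A ζ x)) 0 E.ρ
        = inner ℂ y (aeval A P (FA i j x)))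
    (L : ℝ) (hL : 0 ≤ L)
    (hFL : ∀ ζ : ℂ, ‖ζ‖ = E.ρ →
      ‖Matrix.toEuclideanCLM (n := Fin m) (𝕜 := ℂ) (Matrix.of fun i j => F i j ζ)‖ ≤ L)
    (v : PiLp 2 (fun _ : Fin m => H)) :
    ‖(WithLp.toLp 2 (fun i : Fin m => ∑ j : Fin m, FA i j (v j)) : PiLp 2 (fun _ : Fin m => H))‖
      ≤ 2 * L * ‖v‖ := by
  have hρ := E.ρ_pos
  -- the operator
  let Φl : (PiLp 2 (fun _ : Fin m => H)) →ₗ[ℂ] (PiLp 2 (fun _ : Fin m => H)) :=
    { toFun := fun w => WithLp.toLp 2 (fun i : Fin m => ∑ j : Fin m, FA i j (w j))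
      map_add' := by
        intro w w'
        ext i
        simp [Finset.sum_add_distrib]
      map_smul' := by
        intro c w
        ext i
        simp [Finset.smul_sum] }
  let Φ : (PiLp 2 (fun _ : Fin m => H)) →L[ℂ] (PiLp 2 (fun _ : Fin m => H)) :=
    LinearMap.toContinuousLinearMap Φl
  have hΦ : ∀ w, Φ w = WithLp.toLp 2 (fun i : Fin m => ∑ j : Fin m, FA i j (w j)) := fun w => rfl
  have hΦi : ∀ w i, Φ w i = ∑ j : Fin m, FA i j (w j) := fun w i => rfl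
  suffices hmain : ‖Φ‖ ≤ 2 * L by
    rw [← hΦ]
    exact (Φ.le_opNorm v).trans (mul_le_mul_of_nonneg_right hmain (norm_nonneg _))
  rcases (norm_nonneg Φ).eq_or_lt with h0 | hpos
  · rw [← h0]; positivity
  obtain ⟨y, u, hy1, hu1, hyu, huy⟩ := exists_norm_pair Φ hpos
  set κ : ℝ := ‖Φ‖ with hκ
  -- component equations
  have eq1 : ∀ i, ∑ j, FA i j (y j) = (κ : ℂ) • u i := by
    intro i
    rw [← hΦi, hyu]
    rfl
  have eq2 : ∀ k (w : H), ∑ i, (inner ℂ (u i) (FA i k w) : ℂ) = (κ : ℂ) * inner ℂ (y k) w := by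
    intro k w
    have h := ContinuousLinearMap.adjoint_inner_left Φ
      (WithLp.toLp 2 (Pi.single k w) : PiLp 2 (fun _ : Fin m => H)) u
    rw [huy, inner_smul_left, PiLp.inner_apply, PiLp.inner_apply] at h
    have hs : ∀ i, Φ (WithLp.toLp 2 (Pi.single k w) : PiLp 2 (fun _ : Fin m => H)) i = FA i k w := by
      intro i
      rw [hΦi, Finset.sum_eq_single k]
      · simp
      · intro j _ hj
        simp [Pi.single_eq_of_ne hj]
      · simp
    rw [Finset.sum_eq_single k] at h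
    · simp only [hs] at h
      rw [← h]
      simp
    · intro j _ hj
      simp [Pi.single_eq_of_ne hj]
    · simp
  have eq2' : ∀ k (w : H), (κ : ℂ) * inner ℂ (y k) w = ∑ i, (inner ℂ (u i) (FA i k w) : ℂ) :=
    fun k w => (eq2 k w).symm
  have ncomm : ∀ i j (P : ℂ[X]), Commute (FA i j) (aeval A P) := by
    intro i j P
    induction P using Polynomial.induction_on' with
    | add p q hp hq => rw [map_add]; exact hp.add_right hq
    | monomial n a =>
      rw [aeval_monomial]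
      exact (Algebra.commute_algebraMap_right a _).mul_right ((hcomm i j).pow_right n)
  have hGc : ∀ (P : ℂ[X]), ContinuousOn (fun ζ => P.eval (E.G ζ)) (sphere 0 E.ρ) := by
    intro P
    exact P.continuous.comp_continuousOn E.core_contG
  have hyne : ∃ i, y i ≠ 0 := by
    by_contra hcon
    push Not at hcon
    have : y = 0 := by ext i; exact hcon i
    rw [this] at hy1
    simp at hy1
  have hune : ∃ i, u i ≠ 0 := by
    by_contra hcon
    push Not at hcon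
    have : u = 0 := by ext i; exact hcon i
    rw [this] at hu1
    simp at hu1
  have hey := E.en_pos A hA (fun i => y i) hyne
  have heu := E.en_pos A hA (fun i => u i) hune
  have he2 := E.en2_le A hA (fun i => y i) (fun i => u i)
  have he20 : 0 ≤ E.en2 A (fun i => y i) (fun i => u i) := by
    unfold Ext.en2
    refine Real.circleAverage_nonneg_of_nonneg ?_
    intro x _
    positivity
  refine core_real hey heu hL hpos.le ?_ ?_ he2 he20
  · -- first
    refine le_of_forall_pos_le_add ?_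
    intro δ hδ
    obtain ⟨Hp, hp1, hp2⟩ := E.energy A hA (fun i => y i) (ε := δ / κ) (by positivity)
    have key : (κ : ℂ) * ∑ i, ∑ j, inner ℂ (y i) (aeval A (Hp i j) (y j)) =
        ∑ k, ∑ j, Real.circleAverage (fun ζ => (∑ i, F k i ζ * (Hp i j).eval (E.G ζ)) *
          inner ℂ (u k) (E.X A ζ (y j))) 0 E.ρ := by
      have e1 : ∀ k j, Real.circleAverage (fun ζ => (∑ i, F k i ζ * (Hp i j).eval (E.G ζ)) *
          inner ℂ (u k) (E.X A ζ (y j))) 0 E.ρ =
          ∑ i, (inner ℂ (u k) (FA k i (aeval A (Hp i j) (y j))) : ℂ) := by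
        intro k j
        have e2 : (fun ζ => (∑ i, F k i ζ * (Hp i j).eval (E.G ζ)) *
          (inner ℂ (u k) (E.X A ζ (y j)) : ℂ)) = fun ζ => ∑ i, (Hp i j).eval (E.G ζ) * F k i ζ *
            inner ℂ (u k) (E.X A ζ (y j)) := by
          funext ζ
          rw [Finset.sum_mul]
          refine Finset.sum_congr rfl fun i _ => ?_
          ring
        rw [e2, Real.circleAverage_fun_sum]
        · refine Finset.sum_congr rfl fun i _ => ?_
          rw [hF k i (Hp i j) (y j) (u k)]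
          have := (ncomm k i (Hp i j)).eq
          exact congrArg (fun T : H →L[ℂ] H => (inner ℂ (u k) (T (y j)) : ℂ)) this.symm
        · intro i _
          exact (((hGc _).mul (hFc k i)).mul (E.core_contX A hA (y j) (u k))).circleIntegrable hρ.le
      simp only [e1]
      rw [Finset.mul_sum]
      calc ∑ i, (κ : ℂ) * ∑ j, inner ℂ (y i) (aeval A (Hp i j) (y j))
          = ∑ i, ∑ j, ∑ k, (inner ℂ (u k) (FA k i (aeval A (Hp i j) (y j))) : ℂ) := by
            refine Finset.sum_congr rfl fun i _ => ?_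
            rw [Finset.mul_sum]
            refine Finset.sum_congr rfl fun j _ => ?_
            rw [eq2']
        _ = ∑ k, ∑ j, ∑ i, (inner ℂ (u k) (FA k i (aeval A (Hp i j) (y j))) : ℂ) := by
            rw [Finset.sum_comm]
            calc _ = ∑ j, ∑ k, ∑ i, (inner ℂ (u k) (FA k i (aeval A (Hp i j) (y j))) : ℂ) :=
                  Finset.sum_congr rfl fun j _ => Finset.sum_comm
              _ = _ := Finset.sum_comm
    have hMc : ∀ k j, ContinuousOn (fun ζ => ∑ i, F k i ζ * (Hp i j).eval (E.G ζ))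
        (sphere 0 E.ρ) := fun k j => continuousOn_finsetSum _ fun i _ => (hFc k i).mul (hGc _)
    have hb := E.core_pair A hA (fun k j ζ => ∑ i, F k i ζ * (Hp i j).eval (E.G ζ)) hMc
      (fun i => y i) (fun i => u i)
    rw [← key] at hb
    have hb2 := E.core_prod_bound (fun k j ζ => ∑ i, F k i ζ * (Hp i j).eval (E.G ζ))
      (fun i j ζ => (Hp i j).eval (E.G ζ)) hMc (fun i j => hGc _) L (E.en A fun i => y i) hL
      (by
        intro ζ hζ
        simp only [mem_sphere_iff_norm, sub_zero] at hζ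
        exact hs_mul_le (Matrix.of fun i j => F i j ζ)
          (Matrix.of fun i j => (Hp i j).eval (E.G ζ)) L (hFL ζ hζ)) hp2
    have hb3 : κ * (∑ i, ∑ j, (inner ℂ (y i) (aeval A (Hp i j) (y j)) : ℂ)).re ≤
        L * Real.sqrt (E.en A fun i => y i) * Real.sqrt (E.en2 A (fun i => y i) fun i => u i) := by
      calc κ * (∑ i, ∑ j, (inner ℂ (y i) (aeval A (Hp i j) (y j)) : ℂ)).re
          = ((κ : ℂ) * ∑ i, ∑ j, (inner ℂ (y i) (aeval A (Hp i j) (y j)) : ℂ)).re := by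
            rw [Complex.re_ofReal_mul]
        _ ≤ ‖(κ : ℂ) * ∑ i, ∑ j, (inner ℂ (y i) (aeval A (Hp i j) (y j)) : ℂ)‖ :=
            Complex.re_le_norm _
        _ ≤ _ := hb
        _ ≤ _ := mul_le_mul_of_nonneg_right hb2 (Real.sqrt_nonneg _)
    have hb4 : κ * (E.en A (fun i => y i) / 2 - δ / κ) ≤
        κ * (∑ i, ∑ j, (inner ℂ (y i) (aeval A (Hp i j) (y j)) : ℂ)).re :=
      mul_le_mul_of_nonneg_left hp1 hpos.le
    have hb5 : κ * (δ / κ) = δ := by field_simp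
    nlinarith
  · -- second
    refine le_of_forall_pos_le_add ?_
    intro δ hδ
    obtain ⟨Hp, hp1, hp2⟩ := E.energy A hA (fun i => u i) (ε := δ / κ) (by positivity)
    have key : (κ : ℂ) * ∑ i, ∑ j, inner ℂ (u i) (aeval A (Hp i j) (u j)) =
        ∑ i, ∑ k, Real.circleAverage (fun ζ => (∑ j, (Hp i j).eval (E.G ζ) * F j k ζ) *
          inner ℂ (u i) (E.X A ζ (y k))) 0 E.ρ := by
      have e1 : ∀ i k, Real.circleAverage (fun ζ => (∑ j, (Hp i j).eval (E.G ζ) * F j k ζ) *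
          inner ℂ (u i) (E.X A ζ (y k))) 0 E.ρ =
          ∑ j, (inner ℂ (u i) (aeval A (Hp i j) (FA j k (y k))) : ℂ) := by
        intro i k
        have e2 : (fun ζ => (∑ j, (Hp i j).eval (E.G ζ) * F j k ζ) *
          (inner ℂ (u i) (E.X A ζ (y k)) : ℂ)) = fun ζ => ∑ j, (Hp i j).eval (E.G ζ) * F j k ζ *
            inner ℂ (u i) (E.X A ζ (y k)) := by
          funext ζ
          rw [Finset.sum_mul]
        rw [e2, Real.circleAverage_fun_sum]
        · refine Finset.sum_congr rfl fun j _ => ?_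
          rw [hF j k (Hp i j) (y k) (u i)]
        · intro j _
          exact (((hGc _).mul (hFc j k)).mul (E.core_contX A hA (y k) (u i))).circleIntegrable hρ.le
      simp only [e1]
      rw [Finset.mul_sum]
      refine Finset.sum_congr rfl fun i _ => ?_
      rw [Finset.mul_sum]
      calc ∑ j, (κ : ℂ) * inner ℂ (u i) (aeval A (Hp i j) (u j))
          = ∑ j, ∑ k, (inner ℂ (u i) (aeval A (Hp i j) (FA j k (y k))) : ℂ) := by
            refine Finset.sum_congr rfl fun j _ => ?_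
            rw [← inner_smul_right, ← map_smul, ← eq1 j, map_sum, inner_sum]
        _ = _ := Finset.sum_comm
    have hMc : ∀ i k, ContinuousOn (fun ζ => ∑ j, (Hp i j).eval (E.G ζ) * F j k ζ)
        (sphere 0 E.ρ) := fun i k => continuousOn_finsetSum _ fun j _ => (hGc _).mul (hFc j k)
    have hb := E.core_pair A hA (fun i k ζ => ∑ j, (Hp i j).eval (E.G ζ) * F j k ζ) hMc
      (fun i => y i) (fun i => u i)
    rw [← key] at hb
    have hb2 := E.core_prod_bound (fun i k ζ => ∑ j, (Hp i j).eval (E.G ζ) * F j k ζ)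
      (fun i j ζ => (Hp i j).eval (E.G ζ)) hMc (fun i j => hGc _) L (E.en A fun i => u i) hL
      (by
        intro ζ hζ
        simp only [mem_sphere_iff_norm, sub_zero] at hζ
        exact hs_mul_le' (Matrix.of fun i j => F i j ζ)
          (Matrix.of fun i j => (Hp i j).eval (E.G ζ)) L (hFL ζ hζ)) hp2
    have hb3 : κ * (∑ i, ∑ j, (inner ℂ (u i) (aeval A (Hp i j) (u j)) : ℂ)).re ≤
        L * Real.sqrt (E.en A fun i => u i) * Real.sqrt (E.en2 A (fun i => y i) fun i => u i) := by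
      calc κ * (∑ i, ∑ j, (inner ℂ (u i) (aeval A (Hp i j) (u j)) : ℂ)).re
          = ((κ : ℂ) * ∑ i, ∑ j, (inner ℂ (u i) (aeval A (Hp i j) (u j)) : ℂ)).re := by
            rw [Complex.re_ofReal_mul]
        _ ≤ ‖(κ : ℂ) * ∑ i, ∑ j, (inner ℂ (u i) (aeval A (Hp i j) (u j)) : ℂ)‖ :=
            Complex.re_le_norm _
        _ ≤ _ := hb
        _ ≤ _ := mul_le_mul_of_nonneg_right hb2 (Real.sqrt_nonneg _)
    have hb4 : κ * (E.en A (fun i => u i) / 2 - δ / κ) ≤
        κ * (∑ i, ∑ j, (inner ℂ (u i) (aeval A (Hp i j) (u j)) : ℂ)).re :=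
      mul_le_mul_of_nonneg_left hp1 hpos.le
    have hb5 : κ * (δ / κ) = δ := by field_simp
    nlinarith

end Crest.Agent.CZ
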