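import Mathlib

/-!
# Completely bounded Crouzeix theorem: definitions (rows S0179, S0180, S0181)

`Ext K U`: an exterior univalent map of a compact convex set `K`, in the coordinate `ζ = 1/w`:
`G ζ = a + 1/g ζ`, `g` univalent on the unit disc, `g 0 = 0`, with a circle `‖ζ‖ = ρ` whose image
is a convex curve around `K` inside `U`.
-/

set_option autoImplicit false

open Complex Metric Set
open scoped ComplexConjugate

namespace Crest.Agent.CZ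

structure Ext (K U : Set ℂ) where
  g : ℂ → ℂ
  a : ℂ
  ρ : ℝ
  ρ_pos : 0 < ρ
  ρ_lt : ρ < 1
  diff : DifferentiableOn ℂ g (ball 0 1)
  inj : InjOn g (ball 0 1)
  deriv_ne : ∀ ζ ∈ ball (0 : ℂ) 1, deriv g ζ ≠ 0
  g_zero : g 0 = 0
  notMem : ∀ ζ ∈ ball (0 : ℂ) 1, ζ ≠ 0 → a + (g ζ)⁻¹ ∉ K
  mem_U : ∀ ζ : ℂ, ‖ζ‖ = ρ → a + (g ζ)⁻¹ ∈ U
  /-- convexity of the image curve seen from points of `K` -/
  pos1 : ∀ ζ : ℂ, ‖ζ‖ = ρ → ∀ z ∈ K,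
    0 ≤ ((ζ * deriv g ζ / (g ζ) ^ 2) * conj (a + (g ζ)⁻¹ - z)).re
  /-- convexity of the image curve (for `ζ = ζ'` this is `0 ≤ 0` by division by zero) -/
  pos2 : ∀ ζ ζ' : ℂ, ‖ζ‖ = ρ → ‖ζ'‖ = ρ →
    0 ≤ ((ζ * deriv g ζ / (g ζ) ^ 2) / ((a + (g ζ)⁻¹) - (a + (g ζ')⁻¹))).re

namespace Ext

variable {K U : Set ℂ} (E : Ext K U)

/-- the exterior map -/
noncomputable def G (ζ : ℂ) : ℂ := E.a + (E.g ζ)⁻¹

/-- `w G'(w)` -/
noncomputable def Th (ζ : ℂ) : ℂ := ζ * deriv E.g ζ / (E.g ζ) ^ 2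

/-- `ζ g'(ζ)/g(ζ)`, equal to `1` at `0` -/
noncomputable def c (ζ : ℂ) : ℂ := deriv E.g ζ / dslope E.g 0 ζ

/-- the double layer kernel on the circle -/
noncomputable def ker (ζ ζ' : ℂ) : ℝ := 2 * (E.Th ζ / (E.G ζ - E.G ζ')).re

/-- `X ζ = w G'(w) (G(w) - A)⁻¹`, analytic on the disc with `X 0 = 1` -/
noncomputable def X {𝔸 : Type*} [Ring 𝔸] [Algebra ℂ 𝔸] (A : 𝔸) (ζ : ℂ) : 𝔸 :=
  E.c ζ • Ring.inverse (1 - E.g ζ • (A - algebraMap ℂ 𝔸 E.a))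

end Ext

end Crest.Agent.CZ
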