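import Crest.Agent.CZ_Geo1

/-! CZ-30: derivative form of convexity. -/

set_option autoImplicit false

open Complex Metric Set Filter Topology
open scoped ComplexConjugate

namespace Crest.Agent.CZ

/-- If `F t ≥ F 0` for all small `t > 0` then the derivative at `0` is nonnegative. -/
theorem Geo4_deriv_nonneg {F : ℝ → ℝ} {F' : ℝ} (hF : HasDerivAt F F' 0)
    (h : ∀ᶠ t in 𝓝[>] (0 : ℝ), F 0 ≤ F t) : 0 ≤ F' := by
  have h1 : Tendsto (slope F 0) (𝓝[>] (0 : ℝ)) (𝓝 F') := by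
    have := (hasDerivWithinAt_iff_tendsto_slope' (s := Ioi (0 : ℝ)) (x := 0) (by simp)).1
      hF.hasDerivWithinAt
    exact this
  refine ge_of_tendsto h1 ?_
  filter_upwards [h, self_mem_nhdsWithin] with t ht ht0
  rw [slope_def_field, sub_zero]
  exact div_nonneg (by linarith) (le_of_lt ht0)

/-- Proof: for small `t ≥ 0` the point `z_t = (1 - t) G ζ + t p` is not in `K`, so
`‖ψ z_t‖² ≥ ‖ζ‖² = ‖ψ z_0‖²`, and the right derivative at `t = 0` is `≥ 0`: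
`Re (ψ'(G ζ) (p - G ζ) conj ζ) ≥ 0`.  Since `ψ (G ζ) = ζ` near `ζ`, `ψ'(G ζ) G'(ζ) = 1`,
`G'(ζ) = - g'(ζ)/g(ζ)²`, i.e. `ψ'(G ζ)/ζ = - 1/Th`, `Th = ζ g'(ζ)/g(ζ)²`.  Hence
`Re ((G ζ - p)/Th) ≥ 0` (divide by `‖ζ‖²`: `ψ' conj ζ = ‖ζ‖² ψ'/ζ`). -/
theorem Rm.re_nonneg {K : Set ℂ} {a : ℂ} (R : Rm K a) (hK : IsCompact K)
    (ha : a ∈ interior K) {ζ p : ℂ} (h1 : ζ ∈ ball (0 : ℂ) 1) (h0 : ζ ≠ 0)
    (h : ∀ t : ℝ, 0 ≤ t → t ≤ 1 → ((1 - t : ℝ) : ℂ) * R.G ζ + (t : ℂ) * p ∉ K →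
      ‖ζ‖ ≤ ‖R.ψ (((1 - t : ℝ) : ℂ) * R.G ζ + (t : ℂ) * p)‖) :
    0 ≤ ((R.G ζ - p) / (ζ * deriv R.g ζ / (R.g ζ) ^ 2)).re := by
  have haK : a ∈ K := interior_subset ha
  have hw : R.G ζ ∉ K := R.G_notMem h1 h0
  have hopen : IsOpen Kᶜ := hK.isClosed.isOpen_compl
  have hψd : HasDerivAt R.ψ (deriv R.ψ (R.G ζ)) (R.G ζ) :=
    ((R.ψ_diff haK hK).differentiableAt (hopen.mem_nhds hw)).hasDerivAt
  obtain ⟨D, hD⟩ : ∃ D : ℂ, D = deriv R.ψ (R.G ζ) := ⟨_, rfl⟩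
  rw [← hD] at hψd
  have hψG : R.ψ (R.G ζ) = ζ := R.ψ_G h1 h0
  -- the path
  have hγd : HasDerivAt (fun t : ℝ => ((1 - t : ℝ) : ℂ) * R.G ζ + (t : ℂ) * p) (p - R.G ζ) 0 := by
    have e1 : HasDerivAt (fun t : ℝ => (t : ℂ)) 1 (0 : ℝ) := Complex.ofRealCLM.hasDerivAt
    have e2 : HasDerivAt (fun t : ℝ => ((1 - t : ℝ) : ℂ)) (-1) (0 : ℝ) := by
      have := e1.const_sub 1
      refine this.congr_of_eventuallyEq (Eventually.of_forall fun t => ?_)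
      push_cast
      rfl
    have e3 := (e2.mul_const (R.G ζ)).add (e1.mul_const p)
    have e4 : -1 * R.G ζ + 1 * p = p - R.G ζ := by ring
    rw [e4] at e3
    exact e3
  have hγ0 : ((1 - (0 : ℝ) : ℝ) : ℂ) * R.G ζ + ((0 : ℝ) : ℂ) * p = R.G ζ := by simp
  have hcomp : HasDerivAt (fun t : ℝ => R.ψ (((1 - t : ℝ) : ℂ) * R.G ζ + (t : ℂ) * p))
      ((p - R.G ζ) • D) 0 := by
    have hψd' : HasDerivAt R.ψ D (((1 - (0 : ℝ) : ℝ) : ℂ) * R.G ζ + ((0 : ℝ) : ℂ) * p) := by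
      rw [hγ0]; exact hψd
    exact HasDerivAt.scomp (𝕜 := ℝ) (𝕜' := ℂ) (g₁ := R.ψ) (0 : ℝ) hψd' hγd
  have hsq := hcomp.norm_sq
  have hnn := Geo4_deriv_nonneg hsq (by
    have hc : ContinuousAt (fun t : ℝ => ((1 - t : ℝ) : ℂ) * R.G ζ + (t : ℂ) * p) 0 :=
      hγd.continuousAt
    have hev : ∀ᶠ t : ℝ in 𝓝 0, ((1 - t : ℝ) : ℂ) * R.G ζ + (t : ℂ) * p ∈ Kᶜ := by
      refine hc.eventually_mem ?_
      rw [hγ0]
      exact hopen.mem_nhds hw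
    have hlt : ∀ᶠ t : ℝ in 𝓝 0, t < 1 := eventually_lt_nhds one_pos
    filter_upwards [nhdsWithin_le_nhds hev, nhdsWithin_le_nhds hlt, self_mem_nhdsWithin]
      with t ht1 ht2 ht3
    have h3 := h t (le_of_lt ht3) ht2.le ht1
    rw [hγ0, hψG]
    gcongr)
  rw [hγ0, hψG, Complex.inner] at hnn
  -- the derivative of the inverse
  have hg : HasDerivAt R.g (deriv R.g ζ) ζ :=
    (R.g_diff.differentiableAt (isOpen_ball.mem_nhds h1)).hasDerivAt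
  have hgne : R.g ζ ≠ 0 := R.g_ne h1 h0
  have hg'ne : deriv R.g ζ ≠ 0 := R.deriv_ne h1 hK
  have hGd : HasDerivAt R.G (-deriv R.g ζ / (R.g ζ) ^ 2) ζ := (hg.inv hgne).const_add a
  have hmul : D * (-deriv R.g ζ / (R.g ζ) ^ 2) = 1 := by
    have e1 : HasDerivAt (R.ψ ∘ R.G) (D * (-deriv R.g ζ / (R.g ζ) ^ 2)) ζ :=
      HasDerivAt.comp ζ hψd hGd
    have e2 : HasDerivAt (R.ψ ∘ R.G) 1 ζ := by
      refine (hasDerivAt_id ζ).congr_of_eventuallyEq ?_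
      have hop : IsOpen (ball (0 : ℂ) 1 ∩ {0}ᶜ) := isOpen_ball.inter isOpen_compl_singleton
      filter_upwards [hop.mem_nhds ⟨h1, h0⟩] with ξ hξ
      exact R.ψ_G hξ.1 hξ.2
    exact e1.unique e2
  have hDeq : D = -(R.g ζ) ^ 2 / deriv R.g ζ := by
    field_simp at hmul
    field_simp
    linear_combination -hmul
  have hE : (R.G ζ - p) / (ζ * deriv R.g ζ / (R.g ζ) ^ 2)
      = (conj ζ * ((p - R.G ζ) • D)) / ((normSq ζ : ℝ) : ℂ) := by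
    rw [Complex.normSq_eq_conj_mul_self, hDeq, smul_eq_mul]
    have hc : conj ζ ≠ 0 := by simpa using h0
    field_simp
    ring
  rw [hE, Complex.div_ofReal_re]
  have hn : 0 < normSq ζ := Complex.normSq_pos.2 h0
  refine div_nonneg ?_ hn.le
  rw [mul_comm (conj ζ)]
  linarith [hnn]

end Crest.Agent.CZ
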