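import Crest.Agent.CZ_Geo3
import Crest.Agent.CZ_Geo4
import Crest.Agent.CZ_Defs

/-! CZ-31: existence of `Ext K U`. -/

set_option autoImplicit false

open Complex Metric Set Filter Topology
open scoped ComplexConjugate

namespace Crest.Agent.CZ

/-- Proof: choose `δ > 0` with `K' = cthickening δ K ⊆ U` (`IsCompact.exists_cthickening_subset_open`)
compact, convex (`Convex.cthickening`), with `K` in its interior; `a ∈ K`; `R : Rm K' a`
(`exists_rm`); `s` from `proper1` with `W = U`; `ρ = (1 + max s 0)/2`, say.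
`pos1`: `conv2` + `re_nonneg` give `Re ((G ζ - z)/Th) ≥ 0`, hence
`Re (Th * conj (G ζ - z)) = ‖Th‖² Re ((G ζ - z)/Th) ≥ 0`.
`pos2`: `conv1` + `re_nonneg` give `Re ((G ζ - G ζ')/Th) ≥ 0`, hence `Re (Th/(G ζ - G ζ')) ≥ 0`. -/
theorem exists_ext {K U : Set ℂ} (hK : IsCompact K) (hc : Convex ℝ K) (hne : K.Nonempty)
    (hU : IsOpen U) (hKU : K ⊆ U) : Nonempty (Ext K U) := by
  obtain ⟨δ, hδ, hsub⟩ := hK.exists_cthickening_subset_open hU hKU
  obtain ⟨a, haK⟩ := hne
  have hK' : IsCompact (cthickening δ K) := hK.cthickening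
  have hc' : Convex ℝ (cthickening δ K) := hc.cthickening δ
  have hKK' : K ⊆ cthickening δ K := self_subset_cthickening K
  have ha : a ∈ interior (cthickening δ K) :=
    mem_interior.2 ⟨thickening δ K, thickening_subset_cthickening δ K, isOpen_thickening,
      self_subset_thickening hδ K haK⟩
  obtain ⟨R⟩ := exists_rm hK' hc' ha
  obtain ⟨s, hs1, hs⟩ := R.proper1 hK' ha hU hsub
  set ρ : ℝ := (1 + max s 0) / 2 with hρ
  have hm0 : (0 : ℝ) ≤ max s 0 := le_max_right _ _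
  have hms : s ≤ max s 0 := le_max_left _ _
  have hm1 : max s 0 < 1 := max_lt hs1 one_pos
  have hρ0 : 0 < ρ := by rw [hρ]; linarith
  have hρ1 : ρ < 1 := by rw [hρ]; linarith
  have hsρ : s < ρ := by rw [hρ]; linarith
  have hball : ∀ ζ : ℂ, ‖ζ‖ = ρ → ζ ∈ ball (0 : ℂ) 1 := fun ζ h => by
    rw [mem_ball_zero_iff, h]; exact hρ1
  have hne0 : ∀ ζ : ℂ, ‖ζ‖ = ρ → ζ ≠ 0 := fun ζ h h0 => by
    rw [h0, norm_zero] at h; exact absurd h (ne_of_lt hρ0)
  have key1 : ∀ T w : ℂ, 0 ≤ (w / T).re → 0 ≤ (T * conj w).re := by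
    intro T w h
    rcases eq_or_ne T 0 with hT | hT
    · simp [hT]
    · have e : T * conj w = ((‖T‖ ^ 2 : ℝ) : ℂ) * conj (w / T) := by
        rw [map_div₀]
        have hcT : conj T ≠ 0 := by simpa using hT
        field_simp
        rw [show T * conj w * conj T = (T * conj T) * conj w by ring, Complex.mul_conj,
          Complex.normSq_eq_norm_sq]
        ring
      rw [e, Complex.re_ofReal_mul, Complex.conj_re]
      positivity
  have key2 : ∀ T w : ℂ, 0 ≤ (w / T).re → 0 ≤ (T / w).re := by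
    intro T w h
    rw [← inv_div w T, Complex.inv_re]
    exact div_nonneg h (Complex.normSq_nonneg _)
  refine ⟨⟨R.g, a, ρ, hρ0, hρ1, R.g_diff, ?_, fun ζ h => R.deriv_ne h hK', R.g_zero, ?_, ?_, ?_,
    ?_⟩⟩
  · intro x hx y hy h
    rw [← R.φ_g x hx, ← R.φ_g y hy, h]
  · intro ζ h h0 hm
    exact R.G_notMem h h0 (hKK' hm)
  · intro ζ h
    exact hs ζ (hball ζ h) (by rw [h]; exact hsρ)
  · intro ζ h z hz
    exact key1 _ _ (R.re_nonneg hK' ha (hball ζ h) (hne0 ζ h) fun t ht0 ht1 hn =>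
      R.conv2 hK' hc' ha (hball ζ h) (hne0 ζ h) (hKK' hz) ht0 ht1 hn)
  · intro ζ ζ' h h'
    exact key2 _ _ (R.re_nonneg hK' ha (hball ζ h) (hne0 ζ h) fun t ht0 ht1 hn =>
      R.conv1 hK' hc' ha (hball ζ h) (hne0 ζ h) (h.trans h'.symm) ht0 ht1 hn)

end Crest.Agent.CZ
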