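import Crest.Agent.CZ_Hol
import Crest.Agent.CZ_Exists
import Crest.Agent.CZ_Core

/-! CZ-57: the core inequality for `F ∘ f`. -/

set_option autoImplicit false

open Complex Metric Set Filter Topology Polynomial
open scoped ComplexConjugate
open Crest.AnalysisR.NumRange

namespace Crest.Agent.CZ

private theorem hasSum_av {ρ : ℝ} (hρ : 0 < ρ) (F : ℕ → ℂ → ℂ)
    (hF : ∀ k, ContinuousOn (F k) (sphere 0 ρ)) (b : ℕ → ℝ) (hb : Summable b)
    (hFb : ∀ k, ∀ ζ ∈ sphere (0 : ℂ) ρ, ‖F k ζ‖ ≤ b k) :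
    HasSum (fun k => Real.circleAverage (F k) 0 ρ)
      (Real.circleAverage (fun ζ => ∑' k, F k ζ) 0 ρ) := by
  unfold Real.circleAverage
  refine HasSum.const_smul _ ?_
  have hmem : ∀ θ : ℝ, circleMap 0 ρ θ ∈ sphere (0 : ℂ) ρ := fun θ =>
    circleMap_mem_sphere 0 hρ.le θ
  refine intervalIntegral.hasSum_integral_of_dominated_convergence (fun k _ => b k) ?_ ?_ ?_ ?_ ?_
  · intro k
    exact (intervalIntegrable_iff.1 ((hF k).circleIntegrable hρ.le)).aestronglyMeasurable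
  · intro k
    exact Eventually.of_forall fun θ _ => hFb k _ (hmem θ)
  · exact Eventually.of_forall fun θ _ => hb
  · exact intervalIntegrable_const
  · refine Eventually.of_forall fun θ _ => ?_
    exact (Summable.of_norm_bounded hb (fun k => hFb k _ (hmem θ))).hasSum

/-- Proof: `K = numRange A = nr (op A)` is compact convex nonempty in `Ω`; `E : Ext K Ω`
(`exists_ext`); `core` with `L = 1`, `F i j ζ = Σ' k, f (G ζ)^k * C k i j`,
`FA i j = Σ' k, C k i j • op (T^k)`, `T = aeval A p`.  `hF`: the circle is compact, so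
`‖f (G ζ)‖ ≤ r < 1` on it and the series converges uniformly; termwise `av_hol` for
`h = P * f^k`, `q = P * p^k` (`Dv.mul`, `Dv.pow`). -/
theorem core_hol {n : ℕ} (hn : 1 ≤ n) (A : Matrix (Fin n) (Fin n) ℂ) {Ω : Set ℂ} (hΩ : IsOpen Ω)
    (hΩc : Convex ℝ Ω) (hA : numRange A ⊆ Ω) {f : ℂ → ℂ} (hf : DifferentiableOn ℂ f Ω)
    (hfb : ∀ z ∈ Ω, ‖f z‖ < 1) (p : ℂ[X]) (hp : AgreesOnSpectrum A f p) {m : ℕ}
    (C : ℕ → Matrix (Fin m) (Fin m) ℂ) (hC : ∀ k i j, ‖C k i j‖ ≤ 1)
    (hCF : ∀ t : ℂ, ‖t‖ < 1 → ‖Matrix.toEuclideanCLM (n := Fin m) (𝕜 := ℂ)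
      (Matrix.of fun i j => ∑' k : ℕ, t ^ k * C k i j)‖ ≤ 1)
    (v : PiLp 2 (fun _ : Fin m => EuclideanSpace ℂ (Fin n))) :
    ‖(WithLp.toLp 2 (fun i : Fin m => ∑ j : Fin m, ∑' k : ℕ, C k i j • op ((aeval A p) ^ k) (v j))
        : PiLp 2 (fun _ : Fin m => EuclideanSpace ℂ (Fin n)))‖ ≤ 2 * ‖v‖ := by
  have : Nonempty (Fin n) := ⟨⟨0, hn⟩⟩
  have hKeq := numRange_eq A
  have hKc : IsCompact (numRange A) := by rw [hKeq]; exact nr_compact _
  have hKcv : Convex ℝ (numRange A) := by rw [hKeq]; exact nr_convex _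
  have hKn : (numRange A).Nonempty := by rw [hKeq]; exact nr_nonempty _
  obtain ⟨E⟩ := exists_ext hKc hKcv hKn hΩ hA
  have hρ := E.ρ_pos
  have hAK : ∀ x : EuclideanSpace ℂ (Fin n), ‖x‖ = 1 → inner ℂ x (op A x) ∈ numRange A := by
    intro x hx
    rw [hKeq]
    exact ⟨x, hx, rfl⟩
  -- continuity on the circle
  have hsph : ∀ ζ ∈ sphere (0 : ℂ) E.ρ, ζ ∈ ball (0 : ℂ) 1 ∧ ζ ≠ 0 := by
    intro ζ h
    have h1 := E.ρ_lt
    simp only [mem_sphere_iff_norm, sub_zero] at h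
    refine ⟨by simp [h, h1], ?_⟩
    rintro rfl
    simp at h
    linarith
  have hGc : ContinuousOn E.G (sphere 0 E.ρ) := by
    refine E.G_diff.continuousOn.mono ?_
    intro z hz
    exact ⟨(hsph z hz).1, by simpa using (hsph z hz).2⟩
  have hGU : ∀ ζ ∈ sphere (0 : ℂ) E.ρ, E.G ζ ∈ Ω := fun ζ hζ =>
    E.mem_U ζ (by simpa using hζ)
  have hfG : ContinuousOn (fun ζ => f (E.G ζ)) (sphere 0 E.ρ) :=
    hf.continuousOn.comp hGc hGU
  have hXc : ∀ x y : EuclideanSpace ℂ (Fin n),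
      ContinuousOn (fun ζ => (inner ℂ y (E.X (op A) ζ x) : ℂ)) (sphere 0 E.ρ) := by
    intro x y
    have h1 : ContinuousOn (E.X (op A)) (sphere 0 E.ρ) :=
      (E.X_diff (op A) hAK).continuousOn.mono fun z hz => (hsph z hz).1
    have h2 : ContinuousOn (fun ζ => E.X (op A) ζ x) (sphere 0 E.ρ) :=
      h1.clm_apply continuousOn_const
    exact ContinuousOn.inner continuousOn_const h2
  have hPc : ∀ (P : ℂ[X]), ContinuousOn (fun ζ => P.eval (E.G ζ)) (sphere 0 E.ρ) := fun P =>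
    P.continuous.comp_continuousOn hGc
  -- the bound `r`
  obtain ⟨ζ₀, hζ₀, hmax⟩ := (isCompact_sphere (0 : ℂ) E.ρ).exists_isMaxOn
    (NormedSpace.sphere_nonempty.2 hρ.le) hfG.norm
  set r : ℝ := ‖f (E.G ζ₀)‖ with hr
  have hr1 : r < 1 := hfb _ (hGU _ hζ₀)
  have hr0 : 0 ≤ r := norm_nonneg _
  have hfr : ∀ ζ ∈ sphere (0 : ℂ) E.ρ, ‖f (E.G ζ)‖ ≤ r := fun ζ hζ => hmax hζ
  have hsumr : Summable fun k : ℕ => r ^ k := summable_geometric_of_lt_one hr0 hr1
  -- the powers of `T`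
  set T := aeval A p with hT
  obtain ⟨c₁, r₁, hc₁, hr₁0, hr₁1, hTk⟩ := powers_decay (T := T) (by
    intro μ hμ
    obtain ⟨ν, hν, rfl⟩ := spectrum_aeval hn hp μ hμ
    exact hfb _ (hA (spectrum_subset_numRange A hν)))
  have hsumr₁ : Summable fun k : ℕ => c₁ * r₁ ^ k :=
    (summable_geometric_of_lt_one hr₁0.le hr₁1).mul_left _
  have hFAs : ∀ i j, Summable fun k : ℕ => C k i j • op (T ^ k) := by
    intro i j
    refine Summable.of_norm_bounded hsumr₁ fun k => ?_
    rw [norm_smul]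
    calc ‖C k i j‖ * ‖op (T ^ k)‖ ≤ 1 * (c₁ * r₁ ^ k) :=
          mul_le_mul (hC k i j) (hTk k) (norm_nonneg _) zero_le_one
      _ = _ := one_mul _
  set FA : Fin m → Fin m → (EuclideanSpace ℂ (Fin n) →L[ℂ] EuclideanSpace ℂ (Fin n)) :=
    fun i j => ∑' k : ℕ, C k i j • op (T ^ k) with hFA
  have hFAv : ∀ i j x, HasSum (fun k : ℕ => C k i j • op (T ^ k) x) (FA i j x) := by
    intro i j x
    have := ((hFAs i j).hasSum).mapL (ContinuousLinearMap.apply ℂ _ x)
    exact this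
  have hgoal : (fun i : Fin m => ∑ j : Fin m, ∑' k : ℕ, C k i j • op (T ^ k) (v j)) =
      fun i : Fin m => ∑ j : Fin m, FA i j (v j) := by
    funext i
    exact Finset.sum_congr rfl fun j _ => (hFAv i j (v j)).tsum_eq
  rw [hgoal]
  have hcore := E.core (op A) hAK (fun i j ζ => ∑' k : ℕ, f (E.G ζ) ^ k * C k i j) ?_ FA ?_ ?_ 1
    zero_le_one ?_ v
  · simpa using hcore
  · intro i j
    refine continuousOn_tsum (u := fun k : ℕ => r ^ k) ?_ hsumr ?_
    · intro k
      exact (hfG.pow k).mul continuousOn_const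
    · intro k ζ hζ
      rw [norm_mul, norm_pow]
      calc ‖f (E.G ζ)‖ ^ k * ‖C k i j‖ ≤ r ^ k * 1 :=
            mul_le_mul (pow_le_pow_left₀ (norm_nonneg _) (hfr ζ hζ) k) (hC k i j) (norm_nonneg _)
              (by positivity)
        _ = _ := mul_one _
  · intro i j
    have h1 : ∀ k, Commute (C k i j • op (T ^ k)) (op A) := by
      intro k
      refine Commute.smul_left ?_ _
      have h2 : Commute (T ^ k) A := by
        have h3 : Commute T A := by
          have := (Commute.all p Polynomial.X).map (aeval A)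
          rwa [Polynomial.aeval_X] at this
        exact h3.pow_left k
      exact h2.map (Matrix.toEuclideanCLM (n := Fin n) (𝕜 := ℂ))
    have h2 : FA i j * op A = op A * FA i j := by
      rw [hFA]
      simp only
      rw [← (hFAs i j).tsum_mul_right, ← (hFAs i j).tsum_mul_left]
      exact tsum_congr fun k => (h1 k).eq
    exact h2
  · intro i j P x y
    have hDp : Dv A Ω f p := Dv.of_agrees hΩ ((spectrum_subset_numRange A).trans hA) hf hp
    have hterm : ∀ k : ℕ, Real.circleAverage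
        (fun ζ => C k i j * (P.eval (E.G ζ) * f (E.G ζ) ^ k * inner ℂ y (E.X (op A) ζ x))) 0 E.ρ =
        inner ℂ y (aeval (op A) P (C k i j • op (T ^ k) x)) := by
      intro k
      have h1 := Real.circleAverage_fun_smul (a := C k i j)
        (f := fun ζ => (P.eval (E.G ζ) * f (E.G ζ) ^ k * inner ℂ y (E.X (op A) ζ x) : ℂ))
        (c := 0) (R := E.ρ)
      simp only [smul_eq_mul] at h1
      rw [h1, E.av_hol hΩ hΩc A subset_rfl ((Dv.poly A Ω P).mul (hDp.pow k)) x y]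
      have h6 : op (aeval A (P * p ^ k)) = op (aeval A P) * op (T ^ k) := by
        rw [map_mul, map_pow, ← hT]
        exact map_mul (Matrix.toEuclideanCLM (n := Fin n) (𝕜 := ℂ)) _ _
      rw [h6, map_smul, inner_smul_right, aeval_op]
      rfl
    obtain ⟨MP, hMP⟩ := (isCompact_sphere (0 : ℂ) E.ρ).exists_bound_of_continuousOn
      ((hPc P).mul (hXc x y))
    have hsum := hasSum_av hρ
      (fun k ζ => C k i j * (P.eval (E.G ζ) * f (E.G ζ) ^ k * inner ℂ y (E.X (op A) ζ x)))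
      (fun k => continuousOn_const.mul (((hPc P).mul (hfG.pow k)).mul (hXc x y)))
      (fun k => MP * r ^ k) (hsumr.mul_left _) (by
        intro k ζ hζ
        have e1 : C k i j * (P.eval (E.G ζ) * f (E.G ζ) ^ k * inner ℂ y (E.X (op A) ζ x)) =
            C k i j * ((P.eval (E.G ζ) * inner ℂ y (E.X (op A) ζ x)) * f (E.G ζ) ^ k) := by ring
        rw [e1, norm_mul, norm_mul, norm_pow]
        have h2 := hMP ζ hζ
        simp only [Pi.mul_apply] at h2
        have h3 : 0 ≤ MP := (norm_nonneg _).trans h2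
        calc ‖C k i j‖ * (‖P.eval (E.G ζ) * inner ℂ y (E.X (op A) ζ x)‖ * ‖f (E.G ζ)‖ ^ k)
            ≤ 1 * (MP * r ^ k) := by
              refine mul_le_mul (hC k i j) ?_ (by positivity) zero_le_one
              exact mul_le_mul h2 (pow_le_pow_left₀ (norm_nonneg _) (hfr ζ hζ) k) (by positivity) h3
          _ = _ := one_mul _)
    simp only [hterm] at hsum
    have hsum2 : HasSum (fun k => (inner ℂ y (aeval (op A) P (C k i j • op (T ^ k) x)) : ℂ))
        (inner ℂ y (aeval (op A) P (FA i j x))) :=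
      (hFAv i j x).mapL ((innerSL ℂ y).comp (aeval (op A) P))
    rw [← hsum.unique hsum2]
    congr 1
    funext ζ
    have h5 : (∑' k : ℕ, f (E.G ζ) ^ k * C k i j) * (P.eval (E.G ζ) * inner ℂ y (E.X (op A) ζ x)) =
        ∑' k : ℕ, f (E.G ζ) ^ k * C k i j * (P.eval (E.G ζ) * inner ℂ y (E.X (op A) ζ x)) :=
      tsum_mul_right.symm
    calc P.eval (E.G ζ) * (∑' k : ℕ, f (E.G ζ) ^ k * C k i j) * inner ℂ y (E.X (op A) ζ x)
        = (∑' k : ℕ, f (E.G ζ) ^ k * C k i j) * (P.eval (E.G ζ) * inner ℂ y (E.X (op A) ζ x)) := by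
          ring
      _ = _ := h5
      _ = _ := tsum_congr fun k => by ring
  · intro ζ hζ
    exact hCF _ (hfb _ (E.mem_U ζ hζ))

end Crest.Agent.CZ
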