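import Crest.Agent.CZ_Core

/-! CZ-10: the core inequality for matrix polynomials.  (Proved by helper38.) -/

set_option autoImplicit false

open Complex Metric Set Polynomial MeasureTheory
open scoped ComplexConjugate

namespace Crest.Agent.CZ

variable {K U : Set ℂ} (E : Ext K U)
variable {H : Type*} [NormedAddCommGroup H] [InnerProductSpace ℂ H] [FiniteDimensional ℂ H]
  [CompleteSpace H]

include E in
/-- Polynomial case of `core`: `F i j ζ = (f_ij).eval (G ζ)`, `FA i j = aeval A f_ij`,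
`f_ij = Σ_k (B k i j) X^k`; `hF` is `av_inner` for `P * f_ij`; `G ζ ∈ U` by `mem_U`. -/
theorem Ext.core_poly (A : H →L[ℂ] H) (hA : ∀ x : H, ‖x‖ = 1 → inner ℂ x (A x) ∈ K) {m d : ℕ}
    (B : Fin (d + 1) → Matrix (Fin m) (Fin m) ℂ) (L : ℝ) (hL : 0 ≤ L)
    (hBL : ∀ z ∈ U, ‖Matrix.toEuclideanCLM (n := Fin m) (𝕜 := ℂ)
          (∑ k : Fin (d + 1), z ^ (k : ℕ) • B k)‖ ≤ L)
    (v : PiLp 2 (fun _ : Fin m => H)) :
    ‖(WithLp.toLp 2 (fun i : Fin m => ∑ j : Fin m, ∑ k : Fin (d + 1), B k i j • (A ^ (k : ℕ)) (v j))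
        : PiLp 2 (fun _ : Fin m => H))‖ ≤ 2 * L * ‖v‖ := by
  set f : Fin m → Fin m → ℂ[X] := fun i j => ∑ k : Fin (d + 1), Polynomial.C (B k i j) * Polynomial.X ^ (k : ℕ) with hf
  have hfA : ∀ i j, aeval A (f i j) = ∑ k : Fin (d + 1), B k i j • A ^ (k : ℕ) := by
    intro i j
    rw [hf]
    simp only [map_sum, map_mul, aeval_C, map_pow, aeval_X, Algebra.algebraMap_eq_smul_one,
      smul_mul_assoc, one_mul]
  have hfe : ∀ i j (z : ℂ), (f i j).eval z = ∑ k : Fin (d + 1), z ^ (k : ℕ) * B k i j := by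
    intro i j z
    rw [hf]
    simp only [eval_finsetSum, eval_mul, eval_C, eval_pow, eval_X]
    exact Finset.sum_congr rfl fun k _ => mul_comm _ _
  have hcore := E.core A hA (fun i j ζ => (f i j).eval (E.G ζ))
    (fun i j => E.energy_contG (f i j)) (fun i j => aeval A (f i j)) ?_ ?_ L hL ?_ v
  · have e1 : (fun i : Fin m => ∑ j : Fin m, ∑ k : Fin (d + 1), B k i j • (A ^ (k : ℕ)) (v j))
        = fun i : Fin m => ∑ j : Fin m, (aeval A (f i j)) (v j) := by
      funext i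
      refine Finset.sum_congr rfl fun j _ => ?_
      rw [hfA i j, _root_.sum_apply]
      rfl
    rw [e1]
    exact hcore
  · intro i j
    have hc := (Commute.all (f i j) Polynomial.X).map (aeval A)
    rw [Polynomial.aeval_X] at hc
    exact hc
  · intro i j P x y
    have e1 : (fun ζ => P.eval (E.G ζ) * (f i j).eval (E.G ζ) * (inner ℂ y (E.X A ζ x) : ℂ))
        = fun ζ => (P * f i j).eval (E.G ζ) * (inner ℂ y (E.X A ζ x) : ℂ) := by
      funext ζ
      rw [eval_mul]
    rw [e1, E.av_inner A hA (P * f i j) x y, map_mul]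
    rfl
  · intro ζ hζ
    have e1 : (Matrix.of fun i j => (f i j).eval (E.G ζ))
        = ∑ k : Fin (d + 1), (E.G ζ) ^ (k : ℕ) • B k := by
      ext i j
      rw [Matrix.of_apply, hfe, Matrix.sum_apply]
      rfl
    rw [e1]
    exact hBL _ (E.mem_U ζ hζ)

end Crest.Agent.CZ
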