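import Mathlib

/-! CZ-53: Douglas factorization and transfer functions. -/

set_option autoImplicit false

open Complex Metric Set Filter Topology Polynomial
open scoped ComplexConjugate ComplexOrder

namespace Crest.Agent.CZ

/-- Douglas: `‖Mᴴ x‖ = ‖Nᴴ x‖` for all `x`, so `Nᴴ x ↦ Mᴴ x` is a well defined isometry on the range
of `Nᴴ`; extend by `0` on the orthogonal complement; `V` = its adjoint. -/
theorem exists_contraction {n : ℕ} {ι : Type*} [Fintype ι] [DecidableEq ι]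
    (M N : Matrix (Fin n) ι ℂ) (h : M * M.conjTranspose = N * N.conjTranspose) :
    ∃ V : Matrix ι ι ℂ, ‖Matrix.toEuclideanCLM (n := ι) (𝕜 := ℂ) V‖ ≤ 1 ∧ M = N * V := by
  classical
  let A : EuclideanSpace ℂ (Fin n) →ₗ[ℂ] EuclideanSpace ℂ ι := Matrix.toEuclideanLin N.conjTranspose
  let B : EuclideanSpace ℂ (Fin n) →ₗ[ℂ] EuclideanSpace ℂ ι := Matrix.toEuclideanLin M.conjTranspose
  have hnorm : ∀ (P : Matrix (Fin n) ι ℂ) (x : EuclideanSpace ℂ (Fin n)),
      ‖Matrix.toEuclideanLin P.conjTranspose x‖ ^ 2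
        = (star (WithLp.ofLp x) ⬝ᵥ ((P * P.conjTranspose).mulVec (WithLp.ofLp x))).re := by
    intro P x
    have h1 : (‖Matrix.toEuclideanLin P.conjTranspose x‖ : ℝ) ^ 2
        = (inner ℂ (Matrix.toEuclideanLin P.conjTranspose x)
            (Matrix.toEuclideanLin P.conjTranspose x)).re := by
      rw [inner_self_eq_norm_sq_to_K]
      norm_cast
    rw [h1, EuclideanSpace.inner_eq_star_dotProduct]
    congr 1
    simp only [Matrix.ofLp_toEuclideanLin_apply]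
    rw [Matrix.star_mulVec, Matrix.conjTranspose_conjTranspose, dotProduct_comm,
      ← Matrix.dotProduct_mulVec, Matrix.mulVec_mulVec]
  have hAB : ∀ x, ‖B x‖ = ‖A x‖ := by
    intro x
    have h1 := hnorm M x
    have h2 := hnorm N x
    rw [h] at h1
    have h3 : ‖B x‖ ^ 2 = ‖A x‖ ^ 2 := h1.trans h2.symm
    exact (pow_left_inj₀ (norm_nonneg _) (norm_nonneg _) two_ne_zero).1 h3
  obtain ⟨s, hs⟩ := A.rangeRestrict.exists_rightInverse_of_surjective (LinearMap.range_rangeRestrict A)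
  have hs' : ∀ y : LinearMap.range A, A (s y) = (y : EuclideanSpace ℂ ι) := by
    intro y
    have := congrArg (fun f => ((f y : LinearMap.range A) : EuclideanSpace ℂ ι)) hs
    simpa using this
  have hBs : ∀ x, B (s (A.rangeRestrict x)) = B x := by
    intro x
    have h1 : A (s (A.rangeRestrict x) - x) = 0 := by
      rw [map_sub, hs']
      simp
    have h2 : ‖B (s (A.rangeRestrict x) - x)‖ = 0 := by
      rw [hAB, h1, norm_zero]
    have h3 : B (s (A.rangeRestrict x) - x) = 0 := norm_eq_zero.1 h2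
    rw [map_sub, sub_eq_zero] at h3
    exact h3
  let W₀ : LinearMap.range A →ₗ[ℂ] EuclideanSpace ℂ ι := B ∘ₗ s
  have hW₀ : ∀ y : LinearMap.range A, ‖W₀ y‖ = ‖y‖ := by
    intro y
    have : ‖W₀ y‖ = ‖A (s y)‖ := hAB (s y)
    rw [this, hs']
    rfl
  let P := (LinearMap.range A).orthogonalProjection
  let Wl : EuclideanSpace ℂ ι →ₗ[ℂ] EuclideanSpace ℂ ι := W₀ ∘ₗ (P : EuclideanSpace ℂ ι →ₗ[ℂ] LinearMap.range A)
  let W : EuclideanSpace ℂ ι →L[ℂ] EuclideanSpace ℂ ι := Wl.mkContinuous 1 (by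
    intro y
    have h1 : ‖Wl y‖ = ‖P y‖ := hW₀ (P y)
    rw [h1, one_mul]
    exact Submodule.norm_orthogonalProjection_apply_le _ y)
  have hWnorm : ‖W‖ ≤ 1 := LinearMap.mkContinuous_norm_le _ zero_le_one _
  have hWA : ∀ x, W (A x) = B x := by
    intro x
    have h1 : P (A x) = A.rangeRestrict x := by
      have : (A x) = ((A.rangeRestrict x : LinearMap.range A) : EuclideanSpace ℂ ι) := rfl
      rw [this]
      exact Submodule.orthogonalProjection_mem_subspace_eq_self _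
    change W₀ (P (A x)) = B x
    rw [h1]
    exact hBs x
  let e := Matrix.toEuclideanCLM (n := ι) (𝕜 := ℂ)
  let Wm : Matrix ι ι ℂ := e.symm W
  have heW : e Wm = W := e.apply_symm_apply W
  refine ⟨star Wm, ?_, ?_⟩
  · have : Matrix.toEuclideanCLM (n := ι) (𝕜 := ℂ) (star Wm) = star W := by
      change e (star Wm) = star W
      rw [map_star, heW]
    rw [this]
    exact (norm_star (E := EuclideanSpace ℂ ι →L[ℂ] EuclideanSpace ℂ ι) W).trans_le hWnorm
  · have h1 : Wm * N.conjTranspose = M.conjTranspose := by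
      apply Matrix.toEuclideanLin.injective
      ext1 x
      have h2 : e Wm (A x) = B x := by rw [heW]; exact hWA x
      have h3 : (e Wm (A x)) = Matrix.toEuclideanLin (Wm * N.conjTranspose) x := by
        change WithLp.toLp 2 (Wm.mulVec (N.conjTranspose.mulVec (WithLp.ofLp x)))
          = WithLp.toLp 2 ((Wm * N.conjTranspose).mulVec (WithLp.ofLp x))
        rw [Matrix.mulVec_mulVec]
      rw [← h3, h2]
    have h4 := congrArg Matrix.conjTranspose h1
    rw [Matrix.conjTranspose_mul, Matrix.conjTranspose_conjTranspose,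
      Matrix.conjTranspose_conjTranspose] at h4
    exact h4.symm

/-- coefficients of the transfer function `V₁₁ + t V₁₂ (1 - t V₂₂)⁻¹ V₂₁` -/
def tc {n : ℕ} (V11 V12 V21 V22 : Matrix (Fin n) (Fin n) ℂ) : ℕ → Matrix (Fin n) (Fin n) ℂ
  | 0 => V11
  | k + 1 => V12 * V22 ^ k * V21

theorem block_ineq {n : ℕ} (V11 V12 V21 V22 : Matrix (Fin n) (Fin n) ℂ)
    (hV : ‖Matrix.toEuclideanCLM (n := Fin n ⊕ Fin n) (𝕜 := ℂ)
      (Matrix.fromBlocks V11 V12 V21 V22)‖ ≤ 1) (x y : EuclideanSpace ℂ (Fin n)) :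
    ‖Matrix.toEuclideanCLM (n := Fin n) (𝕜 := ℂ) V11 x
        + Matrix.toEuclideanCLM (n := Fin n) (𝕜 := ℂ) V12 y‖ ^ 2
      + ‖Matrix.toEuclideanCLM (n := Fin n) (𝕜 := ℂ) V21 x
        + Matrix.toEuclideanCLM (n := Fin n) (𝕜 := ℂ) V22 y‖ ^ 2 ≤ ‖x‖ ^ 2 + ‖y‖ ^ 2 := by
  let z : EuclideanSpace ℂ (Fin n ⊕ Fin n) := WithLp.toLp 2 (Sum.elim (WithLp.ofLp x) (WithLp.ofLp y))
  have hz : ‖z‖ ^ 2 = ‖x‖ ^ 2 + ‖y‖ ^ 2 := by
    rw [EuclideanSpace.norm_sq_eq, EuclideanSpace.norm_sq_eq, EuclideanSpace.norm_sq_eq,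
      Fintype.sum_sum_type]
    rfl
  have hTz : ‖Matrix.toEuclideanCLM (n := Fin n ⊕ Fin n) (𝕜 := ℂ)
      (Matrix.fromBlocks V11 V12 V21 V22) z‖ ^ 2
      = ‖Matrix.toEuclideanCLM (n := Fin n) (𝕜 := ℂ) V11 x
        + Matrix.toEuclideanCLM (n := Fin n) (𝕜 := ℂ) V12 y‖ ^ 2
      + ‖Matrix.toEuclideanCLM (n := Fin n) (𝕜 := ℂ) V21 x
        + Matrix.toEuclideanCLM (n := Fin n) (𝕜 := ℂ) V22 y‖ ^ 2 := by
    have hz' : Matrix.toEuclideanCLM (n := Fin n ⊕ Fin n) (𝕜 := ℂ)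
      (Matrix.fromBlocks V11 V12 V21 V22) z = WithLp.toLp 2 (Sum.elim
        (V11.mulVec (WithLp.ofLp x) + V12.mulVec (WithLp.ofLp y))
        (V21.mulVec (WithLp.ofLp x) + V22.mulVec (WithLp.ofLp y))) := by
      change WithLp.toLp 2 ((Matrix.fromBlocks V11 V12 V21 V22).mulVec
        (Sum.elim (WithLp.ofLp x) (WithLp.ofLp y))) = _
      rw [Matrix.fromBlocks_mulVec]
      rfl
    rw [hz', EuclideanSpace.norm_sq_eq, EuclideanSpace.norm_sq_eq, EuclideanSpace.norm_sq_eq,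
      Fintype.sum_sum_type]
    rfl
  rw [← hz, ← hTz]
  have h1 := (Matrix.toEuclideanCLM (n := Fin n ⊕ Fin n) (𝕜 := ℂ)
      (Matrix.fromBlocks V11 V12 V21 V22)).le_opNorm z
  have h2 : ‖Matrix.toEuclideanCLM (n := Fin n ⊕ Fin n) (𝕜 := ℂ)
      (Matrix.fromBlocks V11 V12 V21 V22) z‖ ≤ ‖z‖ :=
    h1.trans (by simpa using mul_le_mul_of_nonneg_right hV (norm_nonneg z))
  gcongr

theorem block_norms {n : ℕ} (V11 V12 V21 V22 : Matrix (Fin n) (Fin n) ℂ)
    (hV : ‖Matrix.toEuclideanCLM (n := Fin n ⊕ Fin n) (𝕜 := ℂ)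
      (Matrix.fromBlocks V11 V12 V21 V22)‖ ≤ 1) :
    ‖Matrix.toEuclideanCLM (n := Fin n) (𝕜 := ℂ) V11‖ ≤ 1 ∧
    ‖Matrix.toEuclideanCLM (n := Fin n) (𝕜 := ℂ) V12‖ ≤ 1 ∧
    ‖Matrix.toEuclideanCLM (n := Fin n) (𝕜 := ℂ) V21‖ ≤ 1 ∧
    ‖Matrix.toEuclideanCLM (n := Fin n) (𝕜 := ℂ) V22‖ ≤ 1 := by
  have key := block_ineq V11 V12 V21 V22 hV
  have aux : ∀ a b : ℝ, 0 ≤ b → a ^ 2 ≤ b ^ 2 → a ≤ 1 * b := by
    intro a b hb hab
    rw [one_mul]
    exact le_of_sq_le_sq hab hb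
  refine ⟨?_, ?_, ?_, ?_⟩
  · refine ContinuousLinearMap.opNorm_le_bound _ zero_le_one fun x => aux _ _ (norm_nonneg _) ?_
    have := key x 0
    simp only [map_zero, add_zero, norm_zero] at this
    nlinarith [sq_nonneg ‖Matrix.toEuclideanCLM (n := Fin n) (𝕜 := ℂ) V21 x‖]
  · refine ContinuousLinearMap.opNorm_le_bound _ zero_le_one fun x => aux _ _ (norm_nonneg _) ?_
    have := key 0 x
    simp only [map_zero, zero_add, norm_zero] at this
    nlinarith [sq_nonneg ‖Matrix.toEuclideanCLM (n := Fin n) (𝕜 := ℂ) V22 x‖]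
  · refine ContinuousLinearMap.opNorm_le_bound _ zero_le_one fun x => aux _ _ (norm_nonneg _) ?_
    have := key x 0
    simp only [map_zero, add_zero, norm_zero] at this
    nlinarith [sq_nonneg ‖Matrix.toEuclideanCLM (n := Fin n) (𝕜 := ℂ) V11 x‖]
  · refine ContinuousLinearMap.opNorm_le_bound _ zero_le_one fun x => aux _ _ (norm_nonneg _) ?_
    have := key 0 x
    simp only [map_zero, zero_add, norm_zero] at this
    nlinarith [sq_nonneg ‖Matrix.toEuclideanCLM (n := Fin n) (𝕜 := ℂ) V12 x‖]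

theorem tc_op_le {n : ℕ} (V11 V12 V21 V22 : Matrix (Fin n) (Fin n) ℂ)
    (hV : ‖Matrix.toEuclideanCLM (n := Fin n ⊕ Fin n) (𝕜 := ℂ)
      (Matrix.fromBlocks V11 V12 V21 V22)‖ ≤ 1) (k : ℕ) :
    ‖Matrix.toEuclideanCLM (n := Fin n) (𝕜 := ℂ) (tc V11 V12 V21 V22 k)‖ ≤ 1 := by
  obtain ⟨h11, h12, h21, h22⟩ := block_norms V11 V12 V21 V22 hV
  cases k with
  | zero => exact h11
  | succ k =>
    have hp : ‖(Matrix.toEuclideanCLM (n := Fin n) (𝕜 := ℂ) V22) ^ k‖ ≤ 1 := by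
      induction k with
      | zero =>
        rw [pow_zero]
        exact ContinuousLinearMap.norm_id_le
      | succ k ih =>
        rw [pow_succ]
        calc _ ≤ ‖(Matrix.toEuclideanCLM (n := Fin n) (𝕜 := ℂ) V22) ^ k‖
              * ‖Matrix.toEuclideanCLM (n := Fin n) (𝕜 := ℂ) V22‖ := norm_mul_le _ _
          _ ≤ 1 * 1 := by gcongr
          _ = 1 := one_mul 1
    have h1 : Matrix.toEuclideanCLM (n := Fin n) (𝕜 := ℂ) (tc V11 V12 V21 V22 (k + 1))
        = Matrix.toEuclideanCLM (n := Fin n) (𝕜 := ℂ) V12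
          * (Matrix.toEuclideanCLM (n := Fin n) (𝕜 := ℂ) V22) ^ k
          * Matrix.toEuclideanCLM (n := Fin n) (𝕜 := ℂ) V21 := by
      simp only [tc, map_mul, map_pow]
    rw [h1]
    calc _ ≤ ‖Matrix.toEuclideanCLM (n := Fin n) (𝕜 := ℂ) V12
          * (Matrix.toEuclideanCLM (n := Fin n) (𝕜 := ℂ) V22) ^ k‖
          * ‖Matrix.toEuclideanCLM (n := Fin n) (𝕜 := ℂ) V21‖ := norm_mul_le _ _
      _ ≤ (‖Matrix.toEuclideanCLM (n := Fin n) (𝕜 := ℂ) V12‖
          * ‖(Matrix.toEuclideanCLM (n := Fin n) (𝕜 := ℂ) V22) ^ k‖)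
          * ‖Matrix.toEuclideanCLM (n := Fin n) (𝕜 := ℂ) V21‖ := by
            gcongr
            exact norm_mul_le _ _
      _ ≤ (1 * 1) * 1 := by gcongr
      _ = 1 := by norm_num

/-- the entry functional -/
noncomputable def entryL {n : ℕ} (i j : Fin n) :
    (EuclideanSpace ℂ (Fin n) →L[ℂ] EuclideanSpace ℂ (Fin n)) →L[ℂ] ℂ :=
  (EuclideanSpace.proj i : EuclideanSpace ℂ (Fin n) →L[ℂ] ℂ).comp
    (ContinuousLinearMap.apply ℂ (EuclideanSpace ℂ (Fin n)) (EuclideanSpace.single j (1 : ℂ)))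

theorem entryL_apply {n : ℕ} (i j : Fin n) (A : Matrix (Fin n) (Fin n) ℂ) :
    entryL i j (Matrix.toEuclideanCLM (n := Fin n) (𝕜 := ℂ) A) = A i j := by
  change (A.mulVec (Pi.single j 1)) i = A i j
  simp

/-- entries of `tc` are bounded by `1` (each block of a contraction is a contraction) -/
theorem tc_le {n : ℕ} (V11 V12 V21 V22 : Matrix (Fin n) (Fin n) ℂ)
    (hV : ‖Matrix.toEuclideanCLM (n := Fin n ⊕ Fin n) (𝕜 := ℂ)
      (Matrix.fromBlocks V11 V12 V21 V22)‖ ≤ 1) (k : ℕ) (i j : Fin n) :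
    ‖tc V11 V12 V21 V22 k i j‖ ≤ 1 := by
  rw [← entryL_apply i j (tc V11 V12 V21 V22 k)]
  set T := Matrix.toEuclideanCLM (n := Fin n) (𝕜 := ℂ) (tc V11 V12 V21 V22 k) with hT
  have h1 : ‖T‖ ≤ 1 := tc_op_le V11 V12 V21 V22 hV k
  have h2 : ‖T (EuclideanSpace.single j (1 : ℂ))‖ ≤ 1 := by
    calc _ ≤ ‖T‖ * ‖EuclideanSpace.single j (1 : ℂ)‖ := T.le_opNorm _
      _ ≤ 1 * 1 := by
        gcongr
        simp
      _ = 1 := one_mul 1
  calc ‖entryL i j T‖ = ‖(T (EuclideanSpace.single j (1 : ℂ))) i‖ := rfl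
    _ ≤ ‖T (EuclideanSpace.single j (1 : ℂ))‖ := PiLp.norm_apply_le _ i
    _ ≤ 1 := h2

theorem norm_transpose {n : ℕ} (A : Matrix (Fin n) (Fin n) ℂ)
    (hA : ‖Matrix.toEuclideanCLM (n := Fin n) (𝕜 := ℂ) A‖ ≤ 1) :
    ‖Matrix.toEuclideanCLM (n := Fin n) (𝕜 := ℂ) A.transpose‖ ≤ 1 := by
  have h1 : ‖Matrix.toEuclideanCLM (n := Fin n) (𝕜 := ℂ) A.conjTranspose‖ ≤ 1 := by
    have : Matrix.toEuclideanCLM (n := Fin n) (𝕜 := ℂ) A.conjTranspose
        = star (Matrix.toEuclideanCLM (n := Fin n) (𝕜 := ℂ) A) :=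
      map_star (Matrix.toEuclideanCLM (n := Fin n) (𝕜 := ℂ)) A
    rw [this]
    exact (norm_star (E := EuclideanSpace ℂ (Fin n) →L[ℂ] EuclideanSpace ℂ (Fin n))
      (Matrix.toEuclideanCLM (n := Fin n) (𝕜 := ℂ) A)).trans_le hA
  refine ContinuousLinearMap.opNorm_le_bound _ zero_le_one fun x => ?_
  let x' : EuclideanSpace ℂ (Fin n) := WithLp.toLp 2 (star (WithLp.ofLp x))
  have hx' : ‖x'‖ = ‖x‖ := by
    have : ‖x'‖ ^ 2 = ‖x‖ ^ 2 := by
      rw [EuclideanSpace.norm_sq_eq, EuclideanSpace.norm_sq_eq]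
      refine Finset.sum_congr rfl fun i _ => ?_
      change ‖star (WithLp.ofLp x i)‖ ^ 2 = _
      rw [norm_star]
    exact (pow_left_inj₀ (norm_nonneg _) (norm_nonneg _) two_ne_zero).1 this
  have h2 : ‖Matrix.toEuclideanCLM (n := Fin n) (𝕜 := ℂ) A.transpose x‖
      = ‖Matrix.toEuclideanCLM (n := Fin n) (𝕜 := ℂ) A.conjTranspose x'‖ := by
    have : ‖Matrix.toEuclideanCLM (n := Fin n) (𝕜 := ℂ) A.transpose x‖ ^ 2
      = ‖Matrix.toEuclideanCLM (n := Fin n) (𝕜 := ℂ) A.conjTranspose x'‖ ^ 2 := by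
      rw [EuclideanSpace.norm_sq_eq, EuclideanSpace.norm_sq_eq]
      refine Finset.sum_congr rfl fun i _ => ?_
      congr 1
      change ‖(A.transpose.mulVec (WithLp.ofLp x)) i‖
        = ‖(A.conjTranspose.mulVec (star (WithLp.ofLp x))) i‖
      rw [← norm_star ((A.transpose.mulVec (WithLp.ofLp x)) i)]
      congr 1
      simp only [Matrix.mulVec, dotProduct, star_sum, Matrix.transpose_apply,
        Matrix.conjTranspose_apply, Pi.star_apply, star_mul']
    exact (pow_left_inj₀ (norm_nonneg _) (norm_nonneg _) two_ne_zero).1 this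
  rw [h2, ← hx']
  exact (ContinuousLinearMap.le_opNorm _ _).trans (by gcongr)

/-- The transfer function is contractive on the disc (we need its transpose).  Proof:
`F t = V₁₁ + t V₁₂ (1 - t V₂₂)⁻¹ V₂₁`; for a vector `ξ` let `η = (1 - t V₂₂)⁻¹ V₂₁ ξ`; then
`V (ξ, t η) = (F t ξ, η)`, so `‖F t ξ‖² + ‖η‖² ≤ ‖ξ‖² + |t|² ‖η‖²`.  The norm of the transpose is the
same (`conj` of the adjoint). -/
theorem tc_contr {n : ℕ} (V11 V12 V21 V22 : Matrix (Fin n) (Fin n) ℂ)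
    (hV : ‖Matrix.toEuclideanCLM (n := Fin n ⊕ Fin n) (𝕜 := ℂ)
      (Matrix.fromBlocks V11 V12 V21 V22)‖ ≤ 1) (t : ℂ) (ht : ‖t‖ < 1) :
    ‖Matrix.toEuclideanCLM (n := Fin n) (𝕜 := ℂ)
      (Matrix.of fun i j => ∑' k : ℕ, t ^ k * tc V11 V12 V21 V22 k j i)‖ ≤ 1 := by
  obtain ⟨h11, h12, h21, h22⟩ := block_norms V11 V12 V21 V22 hV
  set e := Matrix.toEuclideanCLM (n := Fin n) (𝕜 := ℂ) with he
  set T11 := e V11 with hT11
  set T12 := e V12 with hT12
  set T21 := e V21 with hT21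
  set T22 := e V22 with hT22
  have hlt : ‖t • T22‖ < 1 := by
    rw [norm_smul]
    calc ‖t‖ * ‖T22‖ ≤ ‖t‖ * 1 := by gcongr
      _ < 1 := by simpa using ht
  set S := ∑' k : ℕ, (t • T22) ^ k with hS
  have hsumS : Summable fun k : ℕ => (t • T22) ^ k :=
    summable_geometric_of_norm_lt_one hlt
  have hS1 : (1 - t • T22) * S = 1 := mul_neg_geom_series _ hlt
  let F := T11 + t • (T12 * S * T21)
  have hF : HasSum (fun k : ℕ => t ^ k • e (tc V11 V12 V21 V22 k)) F := by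
    have h1 : HasSum (fun k : ℕ => t ^ (k + 1) • e (tc V11 V12 V21 V22 (k + 1)))
        (t • (T12 * S * T21)) := by
      have h2 : HasSum (fun k : ℕ => (t • T22) ^ k) S := hsumS.hasSum
      have h3 := ((h2.mul_left T12).mul_right T21).const_smul t
      have h4 : (fun k : ℕ => t ^ (k + 1) • e (tc V11 V12 V21 V22 (k + 1)))
          = fun k : ℕ => t • (T12 * (t • T22) ^ k * T21) := by
        funext k
        have h5 : e (tc V11 V12 V21 V22 (k + 1)) = T12 * T22 ^ k * T21 := by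
          change e (V12 * V22 ^ k * V21) = _
          rw [map_mul, map_mul, map_pow]
        rw [h5, _root_.smul_pow, mul_smul_comm, smul_mul_assoc, smul_smul, pow_succ']
      rw [h4]
      exact h3
    have h4 := (hasSum_nat_add_iff' (f := fun k : ℕ => t ^ k • e (tc V11 V12 V21 V22 k))
      (g := F) 1).1
    apply h4
    simp only [Finset.range_one, Finset.sum_singleton, pow_zero, one_smul]
    have h5 : F - e (tc V11 V12 V21 V22 0) = t • (T12 * S * T21) := by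
      change T11 + t • (T12 * S * T21) - T11 = _
      rw [add_sub_cancel_left]
    rw [h5]
    exact h1
  have hFnorm : ‖F‖ ≤ 1 := by
    refine ContinuousLinearMap.opNorm_le_bound _ zero_le_one fun ξ => ?_
    rw [one_mul]
    let η := S (T21 ξ)
    have hη : T21 ξ + T22 (t • η) = η := by
      have h1 : ((1 - t • T22) * S) (T21 ξ) = T21 ξ := by rw [hS1]; rfl
      have h2 : η - t • T22 η = T21 ξ := h1
      rw [map_smul, ← h2]
      abel
    have hFξ : F ξ = T11 ξ + T12 (t • η) := by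
      rw [map_smul]
      rfl
    have key := block_ineq V11 V12 V21 V22 hV ξ (t • η)
    have key' : ‖F ξ‖ ^ 2 + ‖η‖ ^ 2 ≤ ‖ξ‖ ^ 2 + ‖t • η‖ ^ 2 := by
      rw [hFξ, ← congrArg norm hη] 
      exact key
    have h3 : ‖t • η‖ ^ 2 ≤ ‖η‖ ^ 2 := by
      rw [norm_smul]
      have : ‖t‖ * ‖η‖ ≤ ‖η‖ := by
        calc ‖t‖ * ‖η‖ ≤ 1 * ‖η‖ := by gcongr
          _ = ‖η‖ := one_mul _
      gcongr
    have h4 : ‖F ξ‖ ^ 2 ≤ ‖ξ‖ ^ 2 := by linarith
    exact le_of_sq_le_sq h4 (norm_nonneg _)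
  have hmat : (Matrix.of fun i j => ∑' k : ℕ, t ^ k * tc V11 V12 V21 V22 k j i)
      = (e.symm F).transpose := by
    ext i j
    rw [Matrix.transpose_apply, Matrix.of_apply]
    have h1 : e.symm F j i = entryL j i F := by
      rw [← entryL_apply j i (e.symm F)]
      congr 1
      exact e.apply_symm_apply F
    rw [h1]
    have h2 := (entryL j i).hasSum hF
    have h3 : HasSum (fun k : ℕ => t ^ k * tc V11 V12 V21 V22 k j i) (entryL j i F) := by
      convert h2 using 2 with k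
      rw [map_smul, entryL_apply, smul_eq_mul]
    exact h3.tsum_eq
  rw [hmat]
  apply norm_transpose
  have : Matrix.toEuclideanCLM (n := Fin n) (𝕜 := ℂ) (e.symm F) = F := e.apply_symm_apply F
  rw [this]
  exact hFnorm

end Crest.Agent.CZ
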