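import Crest.Agent.CZ_Mat
import Crest.Agent.CZ_Douglas

/-! CZ-54: the series for `N^{1/2}`. -/

set_option autoImplicit false

open Complex Metric Set Filter Topology Polynomial
open scoped ComplexConjugate ComplexOrder

namespace Crest.Agent.CZ

open scoped Matrix.Norms.L2Operator in
lemma series_block22 {n : ℕ} (V11 V12 V21 V22 : Matrix (Fin n) (Fin n) ℂ)
    (hV : ‖Matrix.toEuclideanCLM (n := Fin n ⊕ Fin n) (𝕜 := ℂ)
      (Matrix.fromBlocks V11 V12 V21 V22)‖ ≤ 1) : ‖V22‖ ≤ 1 := by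
  rw [← Matrix.l2_opNorm_toEuclideanCLM]
  refine ContinuousLinearMap.opNorm_le_bound _ zero_le_one fun x => ?_
  rw [one_mul]
  set y : EuclideanSpace ℂ (Fin n ⊕ Fin n) := WithLp.toLp 2 (Sum.elim 0 x.ofLp) with hy
  set W := Matrix.toEuclideanCLM (n := Fin n ⊕ Fin n) (𝕜 := ℂ)
      (Matrix.fromBlocks V11 V12 V21 V22) with hW
  have h1 : ‖W y‖ ≤ ‖y‖ := by
    calc ‖W y‖ ≤ ‖W‖ * ‖y‖ := ContinuousLinearMap.le_opNorm _ _
      _ ≤ 1 * ‖y‖ := by gcongr
      _ = ‖y‖ := one_mul _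
  have h2 : ‖y‖ ^ 2 = ‖x‖ ^ 2 := by
    rw [EuclideanSpace.norm_sq_eq, EuclideanSpace.norm_sq_eq, Fintype.sum_sum_type]
    simp [hy]
  have h3 : ‖Matrix.toEuclideanCLM (n := Fin n) (𝕜 := ℂ) V22 x‖ ^ 2 ≤ ‖W y‖ ^ 2 := by
    rw [EuclideanSpace.norm_sq_eq, EuclideanSpace.norm_sq_eq, Fintype.sum_sum_type]
    have h4 : ∀ i, (W y).ofLp (Sum.inr i) =
        (Matrix.toEuclideanCLM (n := Fin n) (𝕜 := ℂ) V22 x).ofLp i := by
      intro i
      rw [hy, hW, Matrix.toEuclideanCLM_toLp, Matrix.ofLp_toEuclideanCLM, Matrix.fromBlocks_mulVec]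
      simp
    simp only [h4]
    have : 0 ≤ ∑ i, ‖(W y).ofLp (Sum.inl i)‖ ^ 2 := by positivity
    linarith
  have h5 : ‖W y‖ ^ 2 ≤ ‖y‖ ^ 2 := by gcongr
  exact (sq_le_sq₀ (norm_nonneg _) (norm_nonneg _)).mp (by linarith)

/-- Let `Xh = Zh V11 + T Yh V21`, `Yh = Zh V12 + T Yh V22` with `T^k → 0` exponentially and `V` a
contraction.  Then `Xh = Σ_k T^k Zh (tc k)`: iterate
`Yh = Σ_{k<N} T^k Zh V12 V22^k + T^N Yh V22^N`. -/
theorem series_eq {n : ℕ} (T Xh Yh Zh V11 V12 V21 V22 : Matrix (Fin n) (Fin n) ℂ)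
    (hV : ‖Matrix.toEuclideanCLM (n := Fin n ⊕ Fin n) (𝕜 := ℂ)
      (Matrix.fromBlocks V11 V12 V21 V22)‖ ≤ 1)
    (hT : ∀ μ ∈ spectrum ℂ T, ‖μ‖ < 1)
    (h1 : Xh = Zh * V11 + T * Yh * V21) (h2 : Yh = Zh * V12 + T * Yh * V22) :
    HasSum (fun k => T ^ k * Zh * tc V11 V12 V21 V22 k) Xh := by
  obtain ⟨C, r, hC, hr, hr1, hk⟩ := powers_decay hT
  open scoped Matrix.Norms.L2Operator in
  have hV22 := series_block22 V11 V12 V21 V22 hV
  have hpow : ∀ k, ‖V22 ^ k‖ ≤ 1 := by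
    intro k
    rcases Nat.eq_zero_or_pos k with rfl | hk
    · rw [pow_zero]
      rw [← Matrix.l2_opNorm_toEuclideanCLM, map_one]
      exact ContinuousLinearMap.norm_id_le
    · calc ‖V22 ^ k‖ ≤ ‖V22‖ ^ k := norm_pow_le' _ hk
        _ ≤ 1 := pow_le_one₀ (norm_nonneg _) hV22
  have hTk : ∀ k, ‖T ^ k‖ ≤ C * r ^ k := fun k => hk k
  -- iteration
  have hY : ∀ N : ℕ, Yh = ∑ k ∈ Finset.range N, T ^ k * Zh * V12 * V22 ^ k + T ^ N * Yh * V22 ^ N := by
    intro N
    induction N with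
    | zero => simp
    | succ N ih =>
      rw [Finset.sum_range_succ]
      have : T ^ N * Yh * V22 ^ N = T ^ N * Zh * V12 * V22 ^ N + T ^ (N + 1) * Yh * V22 ^ (N + 1) := by
        conv_lhs => rw [h2]
        rw [pow_succ T N, pow_succ' V22 N]
        noncomm_ring
      rw [add_assoc, ← this]
      exact ih
  have hX : ∀ N : ℕ, Xh - ∑ k ∈ Finset.range (N + 1), T ^ k * Zh * tc V11 V12 V21 V22 k =
      T ^ (N + 1) * Yh * V22 ^ N * V21 := by
    intro N
    rw [Finset.sum_range_succ']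
    have h3 : T * Yh * V21 = ∑ k ∈ Finset.range N, T ^ (k + 1) * Zh * tc V11 V12 V21 V22 (k + 1) +
        T ^ (N + 1) * Yh * V22 ^ N * V21 := by
      conv_lhs => rw [hY N]
      rw [Matrix.mul_add, Matrix.add_mul, Finset.mul_sum, Finset.sum_mul]
      congr 1
      · refine Finset.sum_congr rfl fun k _ => ?_
        simp only [tc, pow_succ' T k, Matrix.mul_assoc]
      · simp only [pow_succ' T N, Matrix.mul_assoc]
    conv_lhs => rw [h1, h3]
    simp only [tc, pow_zero, one_mul]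
    abel
  have hsum : Summable (fun k => T ^ k * Zh * tc V11 V12 V21 V22 k) := by
    rw [← summable_nat_add_iff 1]
    refine Summable.of_norm_bounded (g := fun k => C * r ^ (k + 1) * ‖Zh‖ * (‖V12‖ * 1 * ‖V21‖)) ?_ ?_
    · apply Summable.mul_right
      apply Summable.mul_right
      apply Summable.mul_left
      exact (summable_nat_add_iff 1).mpr (summable_geometric_of_lt_one hr.le hr1)
    · intro k
      calc ‖T ^ (k + 1) * Zh * tc V11 V12 V21 V22 (k + 1)‖ ≤ ‖T ^ (k + 1)‖ * ‖Zh‖ * (‖V12‖ * ‖V22 ^ k‖ * ‖V21‖) := by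
            refine (norm_mul_le _ _).trans ?_
            gcongr
            · exact norm_mul_le _ _
            · simp only [tc]
              refine (norm_mul_le _ _).trans ?_
              gcongr
              exact norm_mul_le _ _
        _ ≤ _ := by
            gcongr
            · exact hTk _
            · exact hpow _
  rw [hsum.hasSum_iff_tendsto_nat]
  rw [← tendsto_add_atTop_iff_nat 1]
  have h0 : Tendsto (fun N => T ^ (N + 1) * Yh * V22 ^ N * V21) atTop (𝓝 0) := by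
    rw [tendsto_zero_iff_norm_tendsto_zero]
    have : Tendsto (fun N : ℕ => C * r ^ (N + 1) * ‖Yh‖ * 1 * ‖V21‖) atTop (𝓝 (C * 0 * ‖Yh‖ * 1 * ‖V21‖)) := by
      refine Tendsto.mul_const _ (Tendsto.mul_const _ (Tendsto.mul_const _ (Tendsto.const_mul _ ?_)))
      exact (tendsto_add_atTop_iff_nat 1).mpr (tendsto_pow_atTop_nhds_zero_of_lt_one hr.le hr1)
    rw [mul_zero, zero_mul, zero_mul, zero_mul] at this
    refine squeeze_zero (fun _ => norm_nonneg _) (fun N => ?_) this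
    refine (norm_mul_le _ _).trans ?_
    gcongr
    refine (norm_mul_le _ _).trans ?_
    gcongr
    · refine (norm_mul_le _ _).trans ?_
      gcongr
      exact hTk _
    · exact hpow _
  have h6 : (fun N => ∑ k ∈ Finset.range (N + 1), T ^ k * Zh * tc V11 V12 V21 V22 k) =
      fun N => Xh - T ^ (N + 1) * Yh * V22 ^ N * V21 := by
    ext1 N
    rw [← hX N]
    abel
  rw [h6]
  have := h0.const_sub Xh
  rwa [sub_zero] at this

end Crest.Agent.CZ
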