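import Crest.Agent.CZ_CoreHol
import Crest.Agent.CZ_Series

/-! CZ-58: the dual inequality. -/

set_option autoImplicit false

open Complex Metric Set Filter Topology Polynomial
open scoped ComplexConjugate ComplexOrder
open Crest.AnalysisR.NumRange

namespace Crest.Agent.CZ

/-- trace of `X Xᴴ` as a square sum -/
theorem trace_mul_conjTranspose_re {n : ℕ} (X : Matrix (Fin n) (Fin n) ℂ) :
    (X * X.conjTranspose).trace.re = ∑ i : Fin n, ∑ l : Fin n, ‖X l i‖ ^ 2 := by
  rw [Matrix.trace, Complex.re_sum, Finset.sum_comm]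
  refine Finset.sum_congr rfl fun l _ => ?_
  rw [Matrix.diag_apply, Matrix.mul_apply, Complex.re_sum]
  refine Finset.sum_congr rfl fun i _ => ?_
  rw [Matrix.conjTranspose_apply, Complex.star_def, Complex.mul_conj, Complex.ofReal_re,
    Complex.normSq_eq_norm_sq]

open scoped MatrixOrder Matrix.Norms.L2Operator in
theorem psd_exists {n : ℕ} {X : Matrix (Fin n) (Fin n) ℂ} (h : X.PosSemidef) :
    ∃ B : Matrix (Fin n) (Fin n) ℂ, X = B.conjTranspose * B := by
  obtain ⟨B, hB⟩ := CStarAlgebra.nonneg_iff_eq_star_mul_self.mp h.nonneg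
  exact ⟨B, hB⟩

/-- Proof: let `Xh, Yh, Zh` be the positive square roots of `N, Y, P`; `T = aeval A p`.
`N + Y = P + T Y Tᴴ` says `[Xh Yh] [Xh Yh]ᴴ = [Zh (T Yh)] [Zh (T Yh)]ᴴ`, so
`[Xh Yh] = [Zh (T Yh)] V` (`exists_contraction`, `ι = Fin n ⊕ Fin n`, `Matrix.fromCols`), and
`series_eq`: `Xh = Σ T^k Zh (tc k)`.  Column `i`: `Xh e_i = Σ_j Σ_k (tc k) j i • T^k (Zh e_j)`.
`core_hol` with `C k i j = tc k j i`, `v j = Zh e_j`: `‖Xh‖_HS ≤ 2 ‖Zh‖_HS`, i.e.
`tr N ≤ 4 tr P`.  (`spectrum` of `T` in the open disc by `spectrum_aeval`.) -/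
theorem dual_ineq {n : ℕ} (hn : 1 ≤ n) (A : Matrix (Fin n) (Fin n) ℂ) {Ω : Set ℂ} (hΩ : IsOpen Ω)
    (hΩc : Convex ℝ Ω) (hA : numRange A ⊆ Ω) {f : ℂ → ℂ} (hf : DifferentiableOn ℂ f Ω)
    (hfb : ∀ z ∈ Ω, ‖f z‖ < 1) (p : ℂ[X]) (hp : AgreesOnSpectrum A f p)
    (Y P N : Matrix (Fin n) (Fin n) ℂ) (hY : Y.PosSemidef) (hP : P.PosSemidef) (hN : N.PosSemidef)
    (h : Y - (aeval A p) * Y * (aeval A p).conjTranspose = P - N) :
    N.trace.re ≤ 4 * P.trace.re := by
  set T : Matrix (Fin n) (Fin n) ℂ := aeval A p with hTdef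
  have hT : ∀ μ ∈ spectrum ℂ T, ‖μ‖ < 1 := by
    intro μ hμ
    obtain ⟨ν, hν, rfl⟩ := spectrum_aeval hn hp μ hμ
    exact hfb ν (hA (spectrum_subset_numRange A hν))
  obtain ⟨Xb, hXb⟩ := psd_exists hN
  obtain ⟨Yb, hYb⟩ := psd_exists hY
  obtain ⟨Zb, hZb⟩ := psd_exists hP
  set Xh := Xb.conjTranspose with hXh
  set Yh := Yb.conjTranspose with hYh
  set Zh := Zb.conjTranspose with hZh
  have hX : N = Xh * Xh.conjTranspose := by rw [hXh, Matrix.conjTranspose_conjTranspose]; exact hXb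
  have hY' : Y = Yh * Yh.conjTranspose := by rw [hYh, Matrix.conjTranspose_conjTranspose]; exact hYb
  have hZ : P = Zh * Zh.conjTranspose := by rw [hZh, Matrix.conjTranspose_conjTranspose]; exact hZb
  have hMN : (Matrix.fromCols Xh Yh) * (Matrix.fromCols Xh Yh).conjTranspose =
      (Matrix.fromCols Zh (T * Yh)) * (Matrix.fromCols Zh (T * Yh)).conjTranspose := by
    rw [Matrix.conjTranspose_fromCols_eq_fromRows_conjTranspose,
      Matrix.conjTranspose_fromCols_eq_fromRows_conjTranspose,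
      Matrix.fromCols_mul_fromRows, Matrix.fromCols_mul_fromRows, ← hX, ← hY', ← hZ,
      Matrix.conjTranspose_mul]
    have e : T * Yh * (Yh.conjTranspose * T.conjTranspose) = T * Y * T.conjTranspose := by
      rw [hY']; simp only [Matrix.mul_assoc]
    rw [e]
    have := h
    rw [sub_eq_sub_iff_add_eq_add] at this
    rw [add_comm N Y]
    exact this
  obtain ⟨V, hV, hVeq⟩ := exists_contraction _ _ hMN
  rw [← Matrix.fromBlocks_toBlocks V] at hV hVeq
  rw [Matrix.fromCols_mul_fromBlocks] at hVeq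
  obtain ⟨h1, h2⟩ := (Matrix.fromCols_ext_iff _ _ _ _).mp hVeq
  set V11 := V.toBlocks₁₁
  set V12 := V.toBlocks₁₂
  set V21 := V.toBlocks₂₁
  set V22 := V.toBlocks₂₂
  have hs := series_eq T Xh Yh Zh V11 V12 V21 V22 hV hT h1 h2
  obtain ⟨K, r, hK, hr0, hr1, hKr⟩ := powers_decay hT
  let v : PiLp 2 (fun _ : Fin n => EuclideanSpace ℂ (Fin n)) :=
    WithLp.toLp 2 (fun j => WithLp.toLp 2 (fun i => Zh i j))
  have key := core_hol hn A hΩ hΩc hA hf hfb p hp
    (fun k => Matrix.of fun i j => tc V11 V12 V21 V22 k j i)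
    (fun k i j => tc_le V11 V12 V21 V22 hV k j i)
    (fun t ht => tc_contr V11 V12 V21 V22 hV t ht) v
  rw [← hTdef] at key
  have hcol : ∀ i : Fin n, (∑ j : Fin n, ∑' k : ℕ,
      (Matrix.of fun i j => tc V11 V12 V21 V22 k j i : Matrix (Fin n) (Fin n) ℂ) i j •
        op (T ^ k) (v j)) = WithLp.toLp 2 (fun l => Xh l i) := by
    intro i
    have hsum : ∀ j, HasSum (fun k => (Matrix.of fun i j => tc V11 V12 V21 V22 k j i :
        Matrix (Fin n) (Fin n) ℂ) i j • op (T ^ k) (v j)) (∑' k, (Matrix.of fun i j =>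
          tc V11 V12 V21 V22 k j i : Matrix (Fin n) (Fin n) ℂ) i j • op (T ^ k) (v j)) := by
      intro j
      refine Summable.hasSum (Summable.of_norm_bounded (g := fun k => K * r ^ k * ‖v j‖)
        ((summable_geometric_of_lt_one hr0.le hr1).mul_left K |>.mul_right _) fun k => ?_)
      rw [norm_smul]
      calc _ ≤ 1 * (K * r ^ k * ‖v j‖) := by
            refine mul_le_mul (tc_le V11 V12 V21 V22 hV k j i) ?_ (norm_nonneg _) zero_le_one
            exact (ContinuousLinearMap.le_opNorm _ _).trans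
              (mul_le_mul_of_nonneg_right (hKr k) (norm_nonneg _))
        _ = _ := one_mul _
    have hsum2 := hasSum_sum (s := Finset.univ) (fun j _ => hsum j)
    have hc : HasSum (fun k => (WithLp.toLp 2 (fun l => (T ^ k * Zh * tc V11 V12 V21 V22 k) l i) :
        EuclideanSpace ℂ (Fin n))) (WithLp.toLp 2 (fun l => Xh l i)) := by
      have hg : Continuous (fun M : Matrix (Fin n) (Fin n) ℂ =>
          (WithLp.toLp 2 (fun l => M l i) : EuclideanSpace ℂ (Fin n))) := by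
        fun_prop
      let φ : Matrix (Fin n) (Fin n) ℂ →+ EuclideanSpace ℂ (Fin n) :=
        { toFun := fun M => WithLp.toLp 2 (fun l => M l i)
          map_zero' := rfl
          map_add' := fun _ _ => rfl }
      exact hs.map φ hg
    refine HasSum.unique hsum2 ?_
    convert hc using 2 with k
    ext l
    simp only [WithLp.ofLp_sum, WithLp.ofLp_smul, Finset.sum_apply, Pi.smul_apply, smul_eq_mul,
      Matrix.of_apply]
    rw [Matrix.mul_apply]
    refine Finset.sum_congr rfl fun j _ => ?_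
    rw [mul_comm]
    congr 1
  have hlhs : ‖(WithLp.toLp 2 (fun i : Fin n => ∑ j : Fin n, ∑' k : ℕ,
      (Matrix.of fun i j => tc V11 V12 V21 V22 k j i : Matrix (Fin n) (Fin n) ℂ) i j •
        op (T ^ k) (v j)) : PiLp 2 (fun _ : Fin n => EuclideanSpace ℂ (Fin n)))‖ ^ 2 =
      N.trace.re := by
    simp only [hcol]
    rw [hX, trace_mul_conjTranspose_re, PiLp.norm_sq_eq_of_L2]
    refine Finset.sum_congr rfl fun i _ => ?_
    rw [EuclideanSpace.norm_sq_eq]
  have hrhs : ‖v‖ ^ 2 = P.trace.re := by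
    rw [hZ, trace_mul_conjTranspose_re, PiLp.norm_sq_eq_of_L2]
    refine Finset.sum_congr rfl fun i _ => ?_
    rw [EuclideanSpace.norm_sq_eq]
  rw [← hlhs, ← hrhs]
  calc _ ≤ (2 * ‖v‖) ^ 2 := pow_le_pow_left₀ (norm_nonneg _) key 2
    _ = _ := by ring

end Crest.Agent.CZ
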