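import Crest.Agent.CZ_Mat

/-! CZ-55: division by the characteristic polynomial.  (Proved by helper38.) -/

set_option autoImplicit false

open Complex Metric Set Filter Topology Polynomial
open scoped ComplexConjugate
open Crest.AnalysisR.NumRange

namespace Crest.Agent.CZ

variable {n : ℕ}

/-- `h = q + χ_A r` on `Ω` with `r` holomorphic -/
def Dv (A : Matrix (Fin n) (Fin n) ℂ) (Ω : Set ℂ) (h : ℂ → ℂ) (q : ℂ[X]) : Prop :=
  ∃ r : ℂ → ℂ, DifferentiableOn ℂ r Ω ∧ ∀ z ∈ Ω, h z = q.eval z + A.charpoly.eval z * r z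

/-- division by a product of linear factors -/
theorem Dv.aux {Ω : Set ℂ} (hΩ : IsOpen Ω) (s : Multiset ℂ) :
    ∀ g : ℂ → ℂ, DifferentiableOn ℂ g Ω → (∀ μ ∈ s, μ ∈ Ω) →
      (∀ μ ∈ s, ((s.count μ : ℕ) : ℕ∞) ≤ analyticOrderAt g μ) →
      ∃ r : ℂ → ℂ, DifferentiableOn ℂ r Ω ∧ ∀ z ∈ Ω, g z = (s.map (z - ·)).prod * r z := by
  induction s using Multiset.induction_on with
  | empty =>
    intro g hg _ _
    exact ⟨g, hg, fun z _ => by simp⟩
  | cons μ s ih =>
    intro g hg hs hc
    have hμΩ : μ ∈ Ω := hs μ (Multiset.mem_cons_self μ s)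
    have hμn : Ω ∈ 𝓝 μ := hΩ.mem_nhds hμΩ
    have hr1 : DifferentiableOn ℂ (dslope g μ) Ω := (Complex.differentiableOn_dslope hμn).2 hg
    have hgμ : g μ = 0 := by
      have h1 := hc μ (Multiset.mem_cons_self μ s)
      have h2 : analyticOrderAt g μ ≠ 0 := by
        intro h0
        rw [h0, Multiset.count_cons_self] at h1
        simp at h1
      exact (analyticOrderAt_ne_zero.1 h2).2
    have hgz : ∀ z, g z = (z - μ) * dslope g μ z := by
      intro z
      have := sub_smul_dslope g μ z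
      rw [smul_eq_mul, hgμ, sub_zero] at this
      exact this.symm
    have hgf : g = (fun z => z - μ) * dslope g μ := by
      funext z
      rw [Pi.mul_apply]
      exact hgz z
    have key : ∀ ν ∈ s, ((s.count ν : ℕ) : ℕ∞) ≤ analyticOrderAt (dslope g μ) ν := by
      intro ν hν
      have hνΩ : ν ∈ Ω := hs ν (Multiset.mem_cons_of_mem hν)
      have ha1 : AnalyticAt ℂ (fun z : ℂ => z - μ) ν := analyticAt_id.sub analyticAt_const
      have ha2 : AnalyticAt ℂ (dslope g μ) ν := hr1.analyticAt (hΩ.mem_nhds hνΩ)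
      have h1 := hc ν (Multiset.mem_cons_of_mem hν)
      have h2 : analyticOrderAt g ν
          = analyticOrderAt (fun z : ℂ => z - μ) ν + analyticOrderAt (dslope g μ) ν := by
        conv_lhs => rw [hgf]
        exact analyticOrderAt_mul ha1 ha2
      rw [h2] at h1
      by_cases hνμ : ν = μ
      · subst hνμ
        have h3 : analyticOrderAt (fun z : ℂ => z - ν) ν = 1 := analyticOrderAt_id_sub_const_self
        rw [h3, Multiset.count_cons_self, Nat.cast_add, Nat.cast_one, add_comm] at h1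
        exact (ENat.add_le_add_iff_left (by simp)).1 h1
      · have h3 : analyticOrderAt (fun z : ℂ => z - μ) ν = 0 := by
          rw [ha1.analyticOrderAt_eq_zero]
          exact sub_ne_zero.2 hνμ
        rw [h3, zero_add, Multiset.count_cons_of_ne hνμ] at h1
        exact h1
    obtain ⟨r, hr, hrz⟩ := ih (dslope g μ) hr1 (fun ν hν => hs ν (Multiset.mem_cons_of_mem hν)) key
    refine ⟨r, hr, fun z hz => ?_⟩
    rw [Multiset.map_cons, Multiset.prod_cons, hgz z, hrz z hz, mul_assoc]

/-- Division lemma.  `h - q` vanishes to order `≥ n` at every eigenvalue, and every eigenvalue is a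
root of `χ_A` of multiplicity `≤ n`; so `(h - q)/χ_A` extends holomorphically (remove the factors
`z - μ` one by one with `dslope`, or use meromorphic orders / removable singularities). -/
theorem Dv.of_agrees {A : Matrix (Fin n) (Fin n) ℂ} {Ω : Set ℂ} (hΩ : IsOpen Ω)
    (hA : spectrum ℂ A ⊆ Ω) {h : ℂ → ℂ} (hh : DifferentiableOn ℂ h Ω) {q : ℂ[X]}
    (hq : AgreesOnSpectrum A h q) : Dv A Ω h q := by
  have hmem : ∀ μ ∈ A.charpoly.roots, μ ∈ spectrum ℂ A := by
    intro μ hμ
    rw [Matrix.mem_spectrum_iff_isRoot_charpoly]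
    exact Polynomial.isRoot_of_mem_roots hμ
  have hg : DifferentiableOn ℂ (h - fun z => q.eval z) Ω :=
    hh.sub q.differentiable.differentiableOn
  have key : ∀ μ ∈ A.charpoly.roots, ((A.charpoly.roots.count μ : ℕ) : ℕ∞)
      ≤ analyticOrderAt (h - fun z => q.eval z) μ := by
    intro μ hμ
    have hμs := hmem μ hμ
    have hμΩ := hA hμs
    have ha : AnalyticAt ℂ (h - fun z => q.eval z) μ := hg.analyticAt (hΩ.mem_nhds hμΩ)
    have hah : AnalyticAt ℂ h μ := hh.analyticAt (hΩ.mem_nhds hμΩ)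
    have haq : AnalyticAt ℂ (fun z => q.eval z) μ := q.differentiable.analyticAt μ
    have h1 : (n : ℕ∞) ≤ analyticOrderAt (h - fun z => q.eval z) μ := by
      rw [natCast_le_analyticOrderAt_iff_iteratedDeriv_eq_zero ha]
      intro j hj
      rw [iteratedDeriv_sub hah.contDiffAt haq.contDiffAt, hq μ hμs j hj, sub_self]
    refine le_trans ?_ h1
    have h2 : A.charpoly.roots.count μ ≤ n := by
      refine (Multiset.count_le_card _ _).trans ?_
      refine (Polynomial.card_roots' _).trans ?_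
      rw [Matrix.charpoly_natDegree_eq_dim, Fintype.card_fin]
    exact_mod_cast h2
  obtain ⟨r, hr, hrz⟩ := Dv.aux hΩ A.charpoly.roots (h - fun z => q.eval z) hg
    (fun μ hμ => hA (hmem μ hμ)) key
  refine ⟨r, hr, fun z hz => ?_⟩
  have h1 := hrz z hz
  rw [← (IsAlgClosed.splits A.charpoly).eval_eq_prod_roots_of_monic A.charpoly_monic,
    Pi.sub_apply] at h1
  linear_combination h1

theorem Dv.poly (A : Matrix (Fin n) (Fin n) ℂ) (Ω : Set ℂ) (q : ℂ[X]) :
    Dv A Ω (fun z => q.eval z) q :=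
  ⟨0, differentiableOn_const 0, fun z _ => by simp⟩

theorem Dv.diff {A : Matrix (Fin n) (Fin n) ℂ} {Ω : Set ℂ} {h : ℂ → ℂ} {q : ℂ[X]}
    (H : Dv A Ω h q) : DifferentiableOn ℂ h Ω := by
  obtain ⟨r, hr, hz⟩ := H
  have h1 : DifferentiableOn ℂ (fun z => q.eval z + A.charpoly.eval z * r z) Ω :=
    q.differentiable.differentiableOn.add (A.charpoly.differentiable.differentiableOn.mul hr)
  exact h1.congr hz

theorem Dv.mul {A : Matrix (Fin n) (Fin n) ℂ} {Ω : Set ℂ} {h h' : ℂ → ℂ} {q q' : ℂ[X]}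
    (H : Dv A Ω h q) (H' : Dv A Ω h' q') : Dv A Ω (fun z => h z * h' z) (q * q') := by
  obtain ⟨r, hr, hz⟩ := H
  obtain ⟨r', hr', hz'⟩ := H'
  refine ⟨fun z => q.eval z * r' z + r z * q'.eval z + A.charpoly.eval z * (r z * r' z), ?_, ?_⟩
  · exact ((q.differentiable.differentiableOn.mul hr').add
      (hr.mul q'.differentiable.differentiableOn)).add
      (A.charpoly.differentiable.differentiableOn.mul (hr.mul hr'))
  · intro z hzΩ
    simp only
    rw [hz z hzΩ, hz' z hzΩ, eval_mul]
    ring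

theorem Dv.pow {A : Matrix (Fin n) (Fin n) ℂ} {Ω : Set ℂ} {h : ℂ → ℂ} {q : ℂ[X]}
    (H : Dv A Ω h q) (k : ℕ) : Dv A Ω (fun z => h z ^ k) (q ^ k) := by
  induction k with
  | zero =>
    refine ⟨0, differentiableOn_const 0, fun z _ => by simp⟩
  | succ k ih =>
    have h1 := ih.mul H
    simp only [pow_succ]
    exact h1

end Crest.Agent.CZ
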