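import Mathlib

/-! CZ-08a: linear algebra lemma (Hilbert-Schmidt Cauchy-Schwarz for a positive form). -/

set_option autoImplicit false

open Complex
open scoped ComplexConjugate

namespace Crest.Agent.CZ

variable {H : Type*} [NormedAddCommGroup H] [InnerProductSpace ℂ H]

open Matrix in
/-- Hilbert–Schmidt norm as a trace -/
theorem psd_cs_hs {m n : Type*} [Fintype m] [Fintype n] (A : Matrix m n ℂ) :
    ((∑ i, ∑ j, ‖A i j‖ ^ 2 : ℝ) : ℂ) = Matrix.trace (A * Aᴴ) := by
  simp only [Matrix.trace, Matrix.diag_apply, Matrix.mul_apply, Matrix.conjTranspose_apply]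
  push_cast
  refine Finset.sum_congr rfl fun i _ => Finset.sum_congr rfl fun j _ => ?_
  rw [← Complex.mul_conj']
  rfl

open Matrix in
/-- Cauchy–Schwarz for the trace form -/
theorem psd_cs_tr {n : Type*} [Fintype n] (S T : Matrix n n ℂ) :
    ‖Matrix.trace (S * T)‖ ^ 2 ≤ (∑ i, ∑ j, ‖S i j‖ ^ 2) * (∑ i, ∑ j, ‖T i j‖ ^ 2) := by
  have h1 : ‖Matrix.trace (S * T)‖ ≤ ∑ p : n × n, ‖S p.1 p.2‖ * ‖T p.2 p.1‖ := by
    simp only [Matrix.trace, Matrix.diag_apply, Matrix.mul_apply]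
    rw [← Finset.univ_product_univ, Finset.sum_product]
    refine (norm_sum_le _ _).trans (Finset.sum_le_sum fun i _ => ?_)
    refine (norm_sum_le _ _).trans (Finset.sum_le_sum fun j _ => ?_)
    rw [norm_mul]
  have h2 := Finset.sum_mul_sq_le_sq_mul_sq (Finset.univ : Finset (n × n))
    (fun p => ‖S p.1 p.2‖) (fun p => ‖T p.2 p.1‖)
  have h3 : ∑ p : n × n, ‖S p.1 p.2‖ ^ 2 = ∑ i, ∑ j, ‖S i j‖ ^ 2 := by
    rw [← Finset.univ_product_univ, Finset.sum_product]
  have h4 : ∑ p : n × n, ‖T p.2 p.1‖ ^ 2 = ∑ i, ∑ j, ‖T i j‖ ^ 2 := by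
    rw [← Finset.univ_product_univ, Finset.sum_product_right]
  rw [h3, h4] at h2
  exact (pow_le_pow_left₀ (norm_nonneg _) h1 2).trans h2

open Matrix in
theorem psd_cs_swap {m n : Type*} [Fintype m] [Fintype n] (U : Matrix n m ℂ) :
    (∑ i, ∑ j, ‖(U * Uᴴ) i j‖ ^ 2 : ℝ) = ∑ i, ∑ j, ‖(Uᴴ * U) i j‖ ^ 2 := by
  have h1 := psd_cs_hs (U * Uᴴ)
  have h2 := psd_cs_hs (Uᴴ * U)
  have h3 : Matrix.trace ((U * Uᴴ) * (U * Uᴴ)ᴴ) = Matrix.trace ((Uᴴ * U) * (Uᴴ * U)ᴴ) := by
    simp only [Matrix.conjTranspose_mul, Matrix.conjTranspose_conjTranspose]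
    rw [Matrix.mul_assoc, Matrix.trace_mul_comm]
    simp only [Matrix.mul_assoc]
  rw [h3, ← h2] at h1
  exact_mod_cast h1

open scoped MatrixOrder ComplexOrder in
theorem psd_cs_factor {n : Type*} [Fintype n] [DecidableEq n] (M : Matrix n n ℂ)
    (h : M.PosSemidef) : ∃ B : Matrix n n ℂ, M = B.conjTranspose * B := by
  have h0 : 0 ≤ M := Matrix.nonneg_iff_posSemidef.2 h
  refine ⟨CFC.sqrt M, ?_⟩
  have h1 : 0 ≤ CFC.sqrt M := CFC.sqrt_nonneg M
  rw [(Matrix.nonneg_iff_posSemidef.1 h1).isHermitian, CFC.sqrt_mul_sqrt_self M h0]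

open scoped ComplexOrder in
/-- `X + X*` is positive; `‖U* M Y‖_HS² ≤ ‖Y* M Y‖_HS ‖U* M U‖_HS`, `M = X + X*` (squared form).
Proof: `m p q = ⟪p, X q⟫ + conj ⟪q, X p⟫` is a positive semidefinite hermitian form.  The Gram
matrix of the `2 m` vectors `y, u` for this form is positive semidefinite, hence equals `T * Tᴴ`,
`T = [P; R]`; the blocks are `P Pᴴ`, `R Rᴴ`, `R Pᴴ`, and
`‖R Pᴴ‖_HS² = tr (P Rᴴ R Pᴴ) = tr ((Pᴴ P)(Rᴴ R)) ≤ ‖Pᴴ P‖_HS ‖Rᴴ R‖_HS = ‖P Pᴴ‖_HS ‖R Rᴴ‖_HS`. -/
theorem psd_cs (X : H →L[ℂ] H) (hX : ∀ p : H, 0 ≤ (inner ℂ p (X p)).re) {m : ℕ}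
    (y u : Fin m → H) :
    (∑ i, ∑ j, ‖inner ℂ (u i) (X (y j)) + conj (inner ℂ (y j) (X (u i)))‖ ^ 2) ^ 2 ≤
      (∑ i, ∑ j, ‖inner ℂ (y i) (X (y j)) + conj (inner ℂ (y j) (X (y i)))‖ ^ 2) *
      (∑ i, ∑ j, ‖inner ℂ (u i) (X (u j)) + conj (inner ℂ (u j) (X (u i)))‖ ^ 2) := by
  classical
  set v : Fin m ⊕ Fin m → H := Sum.elim y u with hv
  set M : Matrix (Fin m ⊕ Fin m) (Fin m ⊕ Fin m) ℂ :=
    Matrix.of fun a b => inner ℂ (v a) (X (v b)) + conj (inner ℂ (v b) (X (v a))) with hM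
  have hMpsd : M.PosSemidef := by
    refine Matrix.PosSemidef.of_dotProduct_mulVec_nonneg ?_ ?_
    · ext a b
      simp [hM, Matrix.conjTranspose_apply, add_comm]
    · intro x
      set w : H := ∑ a, x a • v a with hw
      have key : star x ⬝ᵥ M.mulVec x = inner ℂ w (X w) + conj (inner ℂ w (X w)) := by
        have e1 : inner ℂ w (X w) = ∑ a, ∑ b, conj (x a) * (inner ℂ (v a) (X (v b)) * x b) := by
          rw [hw, map_sum, sum_inner]
          refine Finset.sum_congr rfl fun a _ => ?_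
          rw [inner_sum]
          refine Finset.sum_congr rfl fun b _ => ?_
          rw [map_smul, inner_smul_left, inner_smul_right]
          ring
        have e2 : conj (inner ℂ w (X w))
            = ∑ a, ∑ b, conj (x a) * (conj (inner ℂ (v b) (X (v a))) * x b) := by
          rw [e1, map_sum]
          simp only [map_sum]
          rw [Finset.sum_comm]
          refine Finset.sum_congr rfl fun a _ => Finset.sum_congr rfl fun b _ => ?_
          simp only [map_mul, Complex.conj_conj]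
          ring
        rw [e2, e1, ← Finset.sum_add_distrib]
        simp only [dotProduct, Matrix.mulVec, hM, Matrix.of_apply, Finset.mul_sum, Pi.star_apply,
          ← Finset.sum_add_distrib]
        refine Finset.sum_congr rfl fun a _ => Finset.sum_congr rfl fun b _ => ?_
        simp only [RCLike.star_def]
        ring
      rw [key, Complex.add_conj]
      have := hX w
      exact_mod_cast mul_nonneg zero_le_two this
  obtain ⟨B, hB⟩ := psd_cs_factor M hMpsd
  set Y : Matrix (Fin m ⊕ Fin m) (Fin m) ℂ := B.submatrix id Sum.inl with hY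
  set U : Matrix (Fin m ⊕ Fin m) (Fin m) ℂ := B.submatrix id Sum.inr with hU
  have f1 : ∀ i j, inner ℂ (y i) (X (y j)) + conj (inner ℂ (y j) (X (y i)))
      = (Y.conjTranspose * Y) i j := fun i j => by
    have : M (Sum.inl i) (Sum.inl j) = (B.conjTranspose * B) (Sum.inl i) (Sum.inl j) := by rw [← hB]
    simpa [hM, hv, hY, Matrix.mul_apply] using this
  have f2 : ∀ i j, inner ℂ (u i) (X (u j)) + conj (inner ℂ (u j) (X (u i)))
      = (U.conjTranspose * U) i j := fun i j => by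
    have : M (Sum.inr i) (Sum.inr j) = (B.conjTranspose * B) (Sum.inr i) (Sum.inr j) := by rw [← hB]
    simpa [hM, hv, hU, Matrix.mul_apply] using this
  have f3 : ∀ i j, inner ℂ (u i) (X (y j)) + conj (inner ℂ (y j) (X (u i)))
      = (U.conjTranspose * Y) i j := fun i j => by
    have : M (Sum.inr i) (Sum.inl j) = (B.conjTranspose * B) (Sum.inr i) (Sum.inl j) := by rw [← hB]
    simpa [hM, hv, hU, hY, Matrix.mul_apply] using this
  simp only [f1, f2, f3]
  have g1 := psd_cs_hs (U.conjTranspose * Y)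
  have g2 : Matrix.trace ((U.conjTranspose * Y) * (U.conjTranspose * Y).conjTranspose)
      = Matrix.trace ((Y * Y.conjTranspose) * (U * U.conjTranspose)) := by
    simp only [Matrix.conjTranspose_mul, Matrix.conjTranspose_conjTranspose]
    rw [Matrix.mul_assoc, Matrix.trace_mul_comm]
    simp only [Matrix.mul_assoc]
  rw [g2] at g1
  have g3 := psd_cs_tr (Y * Y.conjTranspose) (U * U.conjTranspose)
  rw [← g1, psd_cs_swap, psd_cs_swap, Complex.norm_real, Real.norm_eq_abs, sq_abs] at g3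
  exact g3

end Crest.Agent.CZ
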