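import Crest.Agent.CZ_Av

/-! CZ-08d: orthogonality and Parseval facts on the circle `‖ζ‖ = ρ`, `0 < ρ < 1`.
(Proved by helper9.) -/

set_option autoImplicit false

open Complex Metric Set Polynomial MeasureTheory
open scoped ComplexConjugate

namespace Crest.Agent.CZ

lemma pars_sphere_sub {ρ : ℝ} (h1 : ρ < 1) : sphere (0 : ℂ) ρ ⊆ ball (0 : ℂ) 1 := by
  intro ζ hζ
  rw [mem_sphere_zero_iff_norm] at hζ
  rw [mem_ball_zero_iff, hζ]
  exact h1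

theorem av_norm_sq_add_conj {ρ : ℝ} (h0 : 0 < ρ) (h1 : ρ < 1) {p q : ℂ → ℂ}
    (hp : DifferentiableOn ℂ p (ball 0 1)) (hq : DifferentiableOn ℂ q (ball 0 1)) :
    Real.circleAverage (fun ζ => ‖p ζ + conj (q ζ)‖ ^ 2) 0 ρ
      = Real.circleAverage (fun ζ => ‖p ζ‖ ^ 2) 0 ρ
        + Real.circleAverage (fun ζ => ‖q ζ‖ ^ 2) 0 ρ + 2 * (p 0 * q 0).re := by
  have hpc : ContinuousOn p (sphere 0 ρ) := hp.continuousOn.mono (pars_sphere_sub h1)
  have hqc : ContinuousOn q (sphere 0 ρ) := hq.continuousOn.mono (pars_sphere_sub h1)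
  have e1 : (fun ζ => ‖p ζ + conj (q ζ)‖ ^ 2) =
      fun ζ => (‖p ζ‖ ^ 2 + ‖q ζ‖ ^ 2) + (2 : ℝ) • (p ζ * q ζ).re := by
    funext ζ
    rw [← Complex.normSq_eq_norm_sq, Complex.normSq_add, ← Complex.normSq_eq_norm_sq,
      ← Complex.normSq_eq_norm_sq, Complex.normSq_conj, Complex.conj_conj, smul_eq_mul]
  have i1 : CircleIntegrable (fun ζ => ‖p ζ‖ ^ 2) 0 ρ :=
    ContinuousOn.circleIntegrable h0.le (hpc.norm.pow 2)
  have i2 : CircleIntegrable (fun ζ => ‖q ζ‖ ^ 2) 0 ρ :=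
    ContinuousOn.circleIntegrable h0.le (hqc.norm.pow 2)
  have i3 : CircleIntegrable (fun ζ => p ζ * q ζ) 0 ρ :=
    ContinuousOn.circleIntegrable h0.le (hpc.mul hqc)
  have i4 : CircleIntegrable (fun ζ => (2 : ℝ) • (p ζ * q ζ).re) 0 ρ :=
    ContinuousOn.circleIntegrable h0.le
      ((Complex.continuous_re.comp_continuousOn (hpc.mul hqc)).const_smul (2 : ℝ))
  have e2 : Real.circleAverage (fun ζ => (p ζ * q ζ).re) 0 ρ = (p 0 * q 0).re := by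
    have h2 := ContinuousLinearMap.circleAverage_comp_comm Complex.reCLM i3
    have h3 : Real.circleAverage (fun ζ => p ζ * q ζ) 0 ρ = p 0 * q 0 :=
      av_eq (f := fun ζ => p ζ * q ζ) (hp.mul hq) h0 h1
    rw [h3] at h2
    exact h2
  have i5 : CircleIntegrable (fun ζ => ‖p ζ‖ ^ 2 + ‖q ζ‖ ^ 2) 0 ρ :=
    ContinuousOn.circleIntegrable h0.le ((hpc.norm.pow 2).add (hqc.norm.pow 2))
  rw [e1, Real.circleAverage_fun_add i5 i4, Real.circleAverage_fun_add i1 i2,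
    Real.circleAverage_fun_smul, e2, smul_eq_mul]

/-- the polynomial `S` with `conj (R.eval ζ⁻¹) = S.eval ζ` on the circle. -/
lemma exists_conj_poly {ρ : ℝ} (h0 : 0 < ρ) (R : ℂ[X]) :
    ∃ S : ℂ[X], S.eval 0 = conj (R.coeff 0) ∧
      ∀ ζ : ℂ, ‖ζ‖ = ρ → R.eval ζ⁻¹ = conj (S.eval ζ) := by
  refine ⟨(R.map (starRingEnd ℂ)).comp (C (((ρ ^ 2 : ℝ) : ℂ)⁻¹) * X), ?_, ?_⟩
  · rw [eval_comp]
    simp only [eval_mul, eval_C, eval_X, mul_zero]
    rw [← coeff_zero_eq_eval_zero, coeff_map]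
  · intro ζ hζ
    rw [eval_comp]
    simp only [eval_mul, eval_C, eval_X]
    have e : ((ρ ^ 2 : ℝ) : ℂ)⁻¹ * ζ = conj (ζ⁻¹) := by
      have hmul : ζ * conj ζ = ((ρ ^ 2 : ℝ) : ℂ) := by
        rw [Complex.mul_conj, Complex.normSq_eq_norm_sq, hζ]
      have hζ0 : ζ ≠ 0 := by
        intro h
        rw [h, norm_zero] at hζ
        exact h0.ne hζ
      have hζc : conj ζ ≠ 0 := (_root_.map_ne_zero _).2 hζ0
      rw [map_inv₀, ← hmul]
      field_simp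
    have e2 : (starRingEnd ℂ).comp (starRingEnd ℂ) = RingHom.id ℂ := by
      ext z
      exact Complex.conj_conj z
    rw [e, eval_map, Polynomial.hom_eval₂, Complex.conj_conj, e2, Polynomial.eval₂_id]

/-- cross term: on the circle `conj (R.eval ζ⁻¹) = S.eval ζ` for the polynomial
`S = ∑ conj (r_k) ρ^{-2k} x^k` (`conj ζ⁻¹ = ζ/ρ²`), and `S e` is analytic, `0` at `0`. -/
theorem av_norm_sq_add {ρ : ℝ} (h0 : 0 < ρ) (h1 : ρ < 1) (R : ℂ[X]) {e : ℂ → ℂ}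
    (he : DifferentiableOn ℂ e (ball 0 1)) (he0 : e 0 = 0) :
    Real.circleAverage (fun ζ => ‖R.eval ζ⁻¹ + e ζ‖ ^ 2) 0 ρ
      = Real.circleAverage (fun ζ => ‖R.eval ζ⁻¹‖ ^ 2) 0 ρ
        + Real.circleAverage (fun ζ => ‖e ζ‖ ^ 2) 0 ρ := by
  obtain ⟨S, hS0, hS⟩ := exists_conj_poly h0 R
  have h2 := av_norm_sq_add_conj h0 h1 he (S.differentiable.differentiableOn (s := ball 0 1))
  rw [he0, zero_mul, Complex.zero_re, mul_zero, add_zero] at h2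
  have e1 : Real.circleAverage (fun ζ => ‖R.eval ζ⁻¹ + e ζ‖ ^ 2) 0 ρ =
      Real.circleAverage (fun ζ => ‖e ζ + conj (S.eval ζ)‖ ^ 2) 0 ρ := by
    refine Real.circleAverage_congr_sphere fun ζ hζ => ?_
    rw [abs_of_pos h0, mem_sphere_zero_iff_norm] at hζ
    simp only [hS ζ hζ, add_comm]
  have e2 : Real.circleAverage (fun ζ => ‖R.eval ζ⁻¹‖ ^ 2) 0 ρ =
      Real.circleAverage (fun ζ => ‖S.eval ζ‖ ^ 2) 0 ρ := by
    refine Real.circleAverage_congr_sphere fun ζ hζ => ?_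
    rw [abs_of_pos h0, mem_sphere_zero_iff_norm] at hζ
    simp only [hS ζ hζ, Complex.norm_conj]
  rw [e1, e2, h2, add_comm]

theorem av_norm_sq_coeff {ρ : ℝ} (h0 : 0 < ρ) (h1 : ρ < 1) (R : ℂ[X]) :
    Real.circleAverage (fun ζ : ℂ => ‖R.eval ζ⁻¹‖ ^ 2) 0 ρ
      = ‖R.coeff 0‖ ^ 2 + Real.circleAverage (fun ζ : ℂ => ‖R.eval ζ⁻¹ - R.coeff 0‖ ^ 2) 0 ρ := by
  obtain ⟨S, hS0, hS⟩ := exists_conj_poly h0 R
  have h2 := av_norm_sq_add_conj h0 h1 (p := fun _ => R.coeff 0)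
    (q := fun ζ => S.eval ζ - conj (R.coeff 0))
    (differentiableOn_const _) ((S.differentiable.differentiableOn (s := ball 0 1)).sub_const _)
  rw [hS0, sub_self, mul_zero, Complex.zero_re, mul_zero, add_zero, Real.circleAverage_const] at h2
  have e1 : Real.circleAverage (fun ζ : ℂ => ‖R.eval ζ⁻¹‖ ^ 2) 0 ρ =
      Real.circleAverage (fun ζ => ‖R.coeff 0 + conj (S.eval ζ - conj (R.coeff 0))‖ ^ 2) 0 ρ := by
    refine Real.circleAverage_congr_sphere fun ζ hζ => ?_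
    rw [abs_of_pos h0, mem_sphere_zero_iff_norm] at hζ
    simp only [hS ζ hζ, map_sub, Complex.conj_conj, add_sub_cancel]
  have e2 : Real.circleAverage (fun ζ : ℂ => ‖R.eval ζ⁻¹ - R.coeff 0‖ ^ 2) 0 ρ =
      Real.circleAverage (fun ζ => ‖S.eval ζ - conj (R.coeff 0)‖ ^ 2) 0 ρ := by
    refine Real.circleAverage_congr_sphere fun ζ hζ => ?_
    rw [abs_of_pos h0, mem_sphere_zero_iff_norm] at hζ
    simp only [hS ζ hζ]
    rw [← Complex.norm_conj, map_sub, Complex.conj_conj]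
  rw [e1, e2, h2]

lemma norm_av_le {ρ : ℝ} (f : ℂ → ℂ) :
    ‖Real.circleAverage f 0 ρ‖ ≤ Real.circleAverage (fun ζ => ‖f ζ‖) 0 ρ := by
  unfold Real.circleAverage
  rw [norm_smul, smul_eq_mul, Real.norm_eq_abs, abs_of_pos (inv_pos.2 Real.two_pi_pos)]
  refine mul_le_mul_of_nonneg_left ?_ (inv_pos.2 Real.two_pi_pos).le
  exact intervalIntegral.norm_integral_le_integral_norm Real.two_pi_pos.le

/-- Cauchy-Schwarz for circle means of matrix-indexed families -/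
theorem av_cs {ρ : ℝ} (h0 : 0 < ρ) {ι : Type*} (s : Finset ι) (a b : ι → ℂ → ℂ)
    (ha : ∀ i ∈ s, ContinuousOn (a i) (sphere 0 ρ)) (hb : ∀ i ∈ s, ContinuousOn (b i) (sphere 0 ρ)) :
    ‖Real.circleAverage (fun ζ => ∑ i ∈ s, a i ζ * b i ζ) 0 ρ‖ ≤
      Real.sqrt (Real.circleAverage (fun ζ => ∑ i ∈ s, ‖a i ζ‖ ^ 2) 0 ρ) *
      Real.sqrt (Real.circleAverage (fun ζ => ∑ i ∈ s, ‖b i ζ‖ ^ 2) 0 ρ) := by
  have ca : ContinuousOn (fun ζ => ∑ i ∈ s, ‖a i ζ‖ ^ 2) (sphere 0 ρ) :=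
    continuousOn_finsetSum _ fun i hi => (ha i hi).norm.pow 2
  have cb : ContinuousOn (fun ζ => ∑ i ∈ s, ‖b i ζ‖ ^ 2) (sphere 0 ρ) :=
    continuousOn_finsetSum _ fun i hi => (hb i hi).norm.pow 2
  have cab : ContinuousOn (fun ζ => ∑ i ∈ s, ‖a i ζ‖ * ‖b i ζ‖) (sphere 0 ρ) :=
    continuousOn_finsetSum _ fun i hi => (ha i hi).norm.mul (hb i hi).norm
  have cf : ContinuousOn (fun ζ => ‖∑ i ∈ s, a i ζ * b i ζ‖) (sphere 0 ρ) :=
    (continuousOn_finsetSum _ fun i hi => (ha i hi).mul (hb i hi)).norm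
  set M := Real.circleAverage (fun ζ => ∑ i ∈ s, ‖a i ζ‖ * ‖b i ζ‖) 0 ρ with hM
  set P := Real.circleAverage (fun ζ => ∑ i ∈ s, ‖a i ζ‖ ^ 2) 0 ρ with hP
  set Q := Real.circleAverage (fun ζ => ∑ i ∈ s, ‖b i ζ‖ ^ 2) 0 ρ with hQ
  have h1 : ‖Real.circleAverage (fun ζ => ∑ i ∈ s, a i ζ * b i ζ) 0 ρ‖ ≤ M := by
    refine (norm_av_le _).trans ?_
    refine Real.circleAverage_mono (ContinuousOn.circleIntegrable h0.le cf)
      (ContinuousOn.circleIntegrable h0.le cab) fun ζ _ => ?_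
    refine (norm_sum_le _ _).trans (le_of_eq ?_)
    exact Finset.sum_congr rfl fun i _ => norm_mul _ _
  have hP0 : 0 ≤ P := Real.circleAverage_nonneg_of_nonneg fun ζ _ =>
    Finset.sum_nonneg fun i _ => by positivity
  have hQ0 : 0 ≤ Q := Real.circleAverage_nonneg_of_nonneg fun ζ _ =>
    Finset.sum_nonneg fun i _ => by positivity
  have h2 : ∀ t : ℝ, 0 ≤ P * (t * t) + (2 * M) * t + Q := by
    intro t
    have h3 : 0 ≤ Real.circleAverage (fun ζ => ∑ i ∈ s, (t * ‖a i ζ‖ + ‖b i ζ‖) ^ 2) 0 ρ :=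
      Real.circleAverage_nonneg_of_nonneg fun ζ _ => Finset.sum_nonneg fun i _ => by positivity
    have e : (fun ζ => ∑ i ∈ s, (t * ‖a i ζ‖ + ‖b i ζ‖) ^ 2) =
        fun ζ => ((t * t) • (∑ i ∈ s, ‖a i ζ‖ ^ 2) + (2 * t) • (∑ i ∈ s, ‖a i ζ‖ * ‖b i ζ‖)) +
          ∑ i ∈ s, ‖b i ζ‖ ^ 2 := by
      funext ζ
      simp only [smul_eq_mul, Finset.mul_sum]
      rw [← Finset.sum_add_distrib, ← Finset.sum_add_distrib]
      exact Finset.sum_congr rfl fun i _ => by ring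
    have i1 : CircleIntegrable (fun ζ => (t * t) • (∑ i ∈ s, ‖a i ζ‖ ^ 2)) 0 ρ :=
      ContinuousOn.circleIntegrable h0.le (ca.const_smul (t * t))
    have i2 : CircleIntegrable (fun ζ => (2 * t) • (∑ i ∈ s, ‖a i ζ‖ * ‖b i ζ‖)) 0 ρ :=
      ContinuousOn.circleIntegrable h0.le (cab.const_smul (2 * t))
    have i3 : CircleIntegrable (fun ζ => (t * t) • (∑ i ∈ s, ‖a i ζ‖ ^ 2) +
        (2 * t) • (∑ i ∈ s, ‖a i ζ‖ * ‖b i ζ‖)) 0 ρ :=
      ContinuousOn.circleIntegrable h0.le ((ca.const_smul (t * t)).add (cab.const_smul (2 * t)))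
    have i4 : CircleIntegrable (fun ζ => ∑ i ∈ s, ‖b i ζ‖ ^ 2) 0 ρ :=
      ContinuousOn.circleIntegrable h0.le cb
    rw [e, Real.circleAverage_fun_add i3 i4, Real.circleAverage_fun_add i1 i2,
      Real.circleAverage_fun_smul,
      Real.circleAverage_fun_smul, smul_eq_mul, smul_eq_mul, ← hM, ← hP, ← hQ] at h3
    linarith
  have h4 := discrim_le_zero h2
  unfold discrim at h4
  have h5 : M ^ 2 ≤ P * Q := by nlinarith
  rw [← Real.sqrt_mul hP0]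
  exact h1.trans (Real.le_sqrt_of_sq_le h5)

end Crest.Agent.CZ
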