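import Crest.Agent.CZ_XOp
import Crest.Agent.CZ_Pars
import Crest.Agent.CZ_Lin

/-! CZ-08e: energies of families of vectors.  (Proved by helper9.) -/

set_option autoImplicit false

open Complex Metric Set Polynomial MeasureTheory
open scoped ComplexConjugate

namespace Crest.Agent.CZ

variable {K U : Set ℂ} (E : Ext K U)
variable {H : Type*} [NormedAddCommGroup H] [InnerProductSpace ℂ H] [FiniteDimensional ℂ H]
  [CompleteSpace H]

/-- `‖B‖²` in `L²(circle; HS)`, `B_ij = ⟪y_i, X y_j⟫ + conj ⟪y_j, X y_i⟫`. -/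
noncomputable def Ext.en (A : H →L[ℂ] H) {m : ℕ} (y : Fin m → H) : ℝ :=
  Real.circleAverage (fun ζ => ∑ i, ∑ j,
    ‖inner ℂ (y i) (E.X A ζ (y j)) + conj (inner ℂ (y j) (E.X A ζ (y i)))‖ ^ 2) 0 E.ρ

/-- `‖X2‖²`, `X2_ij = ⟪u_i, X y_j⟫`. -/
noncomputable def Ext.en2 (A : H →L[ℂ] H) {m : ℕ} (y u : Fin m → H) : ℝ :=
  Real.circleAverage (fun ζ => ∑ i, ∑ j, ‖inner ℂ (u i) (E.X A ζ (y j))‖ ^ 2) 0 E.ρ

theorem Ext.inner_X_diff (A : H →L[ℂ] H) (hA : ∀ x : H, ‖x‖ = 1 → inner ℂ x (A x) ∈ K)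
    (x y : H) : DifferentiableOn ℂ (fun ζ => (inner ℂ x (E.X A ζ y) : ℂ)) (ball 0 1) := by
  have h1 := E.X_diff A hA
  have h2 : Differentiable ℂ
      (fun T : H →L[ℂ] H => innerSL ℂ x (ContinuousLinearMap.apply ℂ H y T)) :=
    (innerSL ℂ x).differentiable.comp (ContinuousLinearMap.apply ℂ H y).differentiable
  exact h2.comp_differentiableOn h1

theorem Ext.sphere_sub : sphere (0 : ℂ) E.ρ ⊆ ball (0 : ℂ) 1 := by
  intro ζ hζ
  rw [mem_sphere_zero_iff_norm] at hζ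
  rw [mem_ball_zero_iff, hζ]
  exact E.ρ_lt

theorem Ext.inner_X_cont (A : H →L[ℂ] H) (hA : ∀ x : H, ‖x‖ = 1 → inner ℂ x (A x) ∈ K)
    (x y : H) : ContinuousOn (fun ζ => (inner ℂ x (E.X A ζ y) : ℂ)) (sphere 0 E.ρ) :=
  (E.inner_X_diff A hA x y).continuousOn.mono E.sphere_sub

theorem Ext.inner_X_zero (A : H →L[ℂ] H) (x y : H) :
    (inner ℂ x (E.X A 0 y) : ℂ) = inner ℂ x y := by
  rw [E.X_zero A]; rfl

theorem Ext.av_pair (A : H →L[ℂ] H) (hA : ∀ x : H, ‖x‖ = 1 → inner ℂ x (A x) ∈ K) {m : ℕ}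
    (y u : Fin m → H) :
    Real.circleAverage (fun ζ => ∑ i, ∑ j,
      ‖inner ℂ (u i) (E.X A ζ (y j)) + conj (inner ℂ (y j) (E.X A ζ (u i)))‖ ^ 2) 0 E.ρ =
    ∑ i, ∑ j, (Real.circleAverage (fun ζ => ‖inner ℂ (u i) (E.X A ζ (y j))‖ ^ 2) 0 E.ρ
      + Real.circleAverage (fun ζ => ‖inner ℂ (y j) (E.X A ζ (u i))‖ ^ 2) 0 E.ρ
      + 2 * ‖(inner ℂ (u i) (y j) : ℂ)‖ ^ 2) := by
  have hcont : ∀ i j, ContinuousOn (fun ζ =>
      ‖inner ℂ (u i) (E.X A ζ (y j)) + conj (inner ℂ (y j) (E.X A ζ (u i)))‖ ^ 2)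
      (sphere 0 E.ρ) := by
    intro i j
    exact ((E.inner_X_cont A hA (u i) (y j)).add
      (continuous_conj.comp_continuousOn (E.inner_X_cont A hA (y j) (u i)))).norm.pow 2
  rw [Real.circleAverage_fun_sum (fun i _ => ContinuousOn.circleIntegrable E.ρ_pos.le
    (continuousOn_finset_sum _ fun j _ => hcont i j))]
  refine Finset.sum_congr rfl fun i _ => ?_
  rw [Real.circleAverage_fun_sum (fun j _ => ContinuousOn.circleIntegrable E.ρ_pos.le (hcont i j))]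
  refine Finset.sum_congr rfl fun j _ => ?_
  rw [av_norm_sq_add_conj E.ρ_pos E.ρ_lt (E.inner_X_diff A hA (u i) (y j))
    (E.inner_X_diff A hA (y j) (u i)), E.inner_X_zero, E.inner_X_zero]
  congr 1
  congr 1
  rw [← inner_conj_symm (y j) (u i), Complex.mul_conj, Complex.ofReal_re, Complex.normSq_eq_norm_sq]

/-- `‖B‖² = 2 ∑ (av |q_ij|² + |⟪y_i,y_j⟫|²)`, `q_ij = ⟪y_i, X y_j⟫` (`av_norm_sq_add_conj` with
`p = q_ij`, `q = q_ji`, `q_ij 0 q_ji 0 = |⟪y_i, y_j⟫|²`). -/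
theorem Ext.en_eq (A : H →L[ℂ] H) (hA : ∀ x : H, ‖x‖ = 1 → inner ℂ x (A x) ∈ K) {m : ℕ}
    (y : Fin m → H) :
    E.en A y = ∑ i, ∑ j, (2 * Real.circleAverage (fun ζ => ‖inner ℂ (y i) (E.X A ζ (y j))‖ ^ 2) 0 E.ρ
      + 2 * ‖(inner ℂ (y i) (y j) : ℂ)‖ ^ 2) := by
  unfold Ext.en
  rw [E.av_pair A hA y y]
  simp only [Finset.sum_add_distrib, two_mul]
  congr 1
  congr 1
  exact Finset.sum_comm

theorem Ext.av_sq_nonneg (f : ℂ → ℝ) (hf : ∀ ζ, 0 ≤ f ζ) : 0 ≤ Real.circleAverage f 0 E.ρ :=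
  Real.circleAverage_nonneg_of_nonneg fun ζ _ => hf ζ

theorem Ext.en_pos (A : H →L[ℂ] H) (hA : ∀ x : H, ‖x‖ = 1 → inner ℂ x (A x) ∈ K) {m : ℕ}
    (y : Fin m → H) (hy : ∃ i, y i ≠ 0) : 0 < E.en A y := by
  rw [E.en_eq A hA]
  obtain ⟨i, hi⟩ := hy
  have hterm : ∀ i j, 0 ≤ 2 * Real.circleAverage (fun ζ => ‖inner ℂ (y i) (E.X A ζ (y j))‖ ^ 2) 0 E.ρ
      + 2 * ‖(inner ℂ (y i) (y j) : ℂ)‖ ^ 2 := by
    intro i j
    have := E.av_sq_nonneg (fun ζ => ‖inner ℂ (y i) (E.X A ζ (y j))‖ ^ 2) fun ζ => by positivity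
    positivity
  have hii : 0 < 2 * Real.circleAverage (fun ζ => ‖inner ℂ (y i) (E.X A ζ (y i))‖ ^ 2) 0 E.ρ
      + 2 * ‖(inner ℂ (y i) (y i) : ℂ)‖ ^ 2 := by
    have := E.av_sq_nonneg (fun ζ => ‖inner ℂ (y i) (E.X A ζ (y i))‖ ^ 2) fun ζ => by positivity
    have h2 : 0 < ‖(inner ℂ (y i) (y i) : ℂ)‖ := norm_pos_iff.2 (inner_self_ne_zero.2 hi)
    positivity
  refine Finset.sum_pos' (fun i _ => Finset.sum_nonneg fun j _ => hterm i j)
    ⟨i, Finset.mem_univ i, ?_⟩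
  exact Finset.sum_pos' (fun j _ => hterm i j) ⟨i, Finset.mem_univ i, hii⟩

/-- Cauchy-Schwarz in the mean for nonnegative continuous functions. -/
theorem av_sqrt_mul_sqrt_le {ρ : ℝ} (h0 : 0 < ρ) {a b : ℂ → ℝ} (ha : ContinuousOn a (sphere 0 ρ))
    (hb : ContinuousOn b (sphere 0 ρ)) (ha0 : ∀ ζ, 0 ≤ a ζ) (hb0 : ∀ ζ, 0 ≤ b ζ) :
    Real.circleAverage (fun ζ => √(a ζ) * √(b ζ)) 0 ρ ≤
      √(Real.circleAverage a 0 ρ) * √(Real.circleAverage b 0 ρ) := by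
  have h := av_cs h0 ({0} : Finset (Fin 1)) (fun _ ζ => ((√(a ζ) : ℝ) : ℂ))
    (fun _ ζ => ((√(b ζ) : ℝ) : ℂ))
    (fun _ _ => Complex.continuous_ofReal.comp_continuousOn ha.sqrt)
    (fun _ _ => Complex.continuous_ofReal.comp_continuousOn hb.sqrt)
  simp only [Finset.sum_singleton, Complex.norm_real, Real.norm_eq_abs, sq_abs,
    Real.sq_sqrt (ha0 _), Real.sq_sqrt (hb0 _)] at h
  refine le_trans ?_ h
  have hint : CircleIntegrable (fun ζ => √(a ζ) * √(b ζ)) 0 ρ :=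
    ContinuousOn.circleIntegrable h0.le (ha.sqrt.mul hb.sqrt)
  have e : Real.circleAverage (fun ζ => ((√(a ζ) : ℝ) : ℂ) * ((√(b ζ) : ℝ) : ℂ)) 0 ρ =
      ((Real.circleAverage (fun ζ => √(a ζ) * √(b ζ)) 0 ρ : ℝ) : ℂ) := by
    rw [← Complex.ofRealCLM_apply, ← ContinuousLinearMap.circleAverage_comp_comm _ hint]
    congr 1
    funext ζ
    simp
  rw [e, Complex.norm_real]
  exact le_abs_self _

/-- `en2 ≤ √(en y) √(en u)`: by `av_norm_sq_add_conj` (the cross term is `2 |⟪u_i, y_j⟫|² ≥ 0`)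
`en2 ≤ av ∑ ‖⟪u_i, X y_j⟫ + conj ⟪y_j, X u_i⟫‖²`, then `psd_cs` pointwise (`X_pos`), then
Cauchy-Schwarz in the mean (`av_cs` with a one point index set and the real functions
`√(∑∑‖·‖²)`, or directly). -/
theorem Ext.en2_le (A : H →L[ℂ] H) (hA : ∀ x : H, ‖x‖ = 1 → inner ℂ x (A x) ∈ K) {m : ℕ}
    (y u : Fin m → H) : E.en2 A y u ≤ Real.sqrt (E.en A y) * Real.sqrt (E.en A u) := by
  have hcont : ∀ p q : Fin m → H, ContinuousOn (fun ζ => ∑ i, ∑ j,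
      ‖inner ℂ (p i) (E.X A ζ (q j)) + conj (inner ℂ (q j) (E.X A ζ (p i)))‖ ^ 2)
      (sphere 0 E.ρ) := by
    intro p q
    refine continuousOn_finset_sum _ fun i _ => continuousOn_finset_sum _ fun j _ => ?_
    exact ((E.inner_X_cont A hA (p i) (q j)).add
      (continuous_conj.comp_continuousOn (E.inner_X_cont A hA (q j) (p i)))).norm.pow 2
  have hcont2 : ∀ i j, ContinuousOn (fun ζ => ‖inner ℂ (u i) (E.X A ζ (y j))‖ ^ 2)
      (sphere 0 E.ρ) := fun i j => (E.inner_X_cont A hA (u i) (y j)).norm.pow 2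
  have h1 : E.en2 A y u ≤ Real.circleAverage (fun ζ => ∑ i, ∑ j,
      ‖inner ℂ (u i) (E.X A ζ (y j)) + conj (inner ℂ (y j) (E.X A ζ (u i)))‖ ^ 2) 0 E.ρ := by
    rw [E.av_pair A hA y u]
    unfold Ext.en2
    rw [Real.circleAverage_fun_sum (fun i _ => ContinuousOn.circleIntegrable E.ρ_pos.le
      (continuousOn_finset_sum _ fun j _ => hcont2 i j))]
    refine Finset.sum_le_sum fun i _ => ?_
    rw [Real.circleAverage_fun_sum
      (fun j _ => ContinuousOn.circleIntegrable E.ρ_pos.le (hcont2 i j))]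
    refine Finset.sum_le_sum fun j _ => ?_
    have h2 := E.av_sq_nonneg (fun ζ => ‖inner ℂ (y j) (E.X A ζ (u i))‖ ^ 2) fun ζ => by positivity
    have h3 : 0 ≤ 2 * ‖(inner ℂ (u i) (y j) : ℂ)‖ ^ 2 := by positivity
    linarith
  refine h1.trans ?_
  unfold Ext.en
  refine le_trans ?_ (av_sqrt_mul_sqrt_le E.ρ_pos (hcont y y) (hcont u u)
    (fun ζ => Finset.sum_nonneg fun i _ => Finset.sum_nonneg fun j _ => by positivity)
    (fun ζ => Finset.sum_nonneg fun i _ => Finset.sum_nonneg fun j _ => by positivity))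
  refine Real.circleAverage_mono (ContinuousOn.circleIntegrable E.ρ_pos.le (hcont u y))
    (ContinuousOn.circleIntegrable E.ρ_pos.le ((hcont y y).sqrt.mul (hcont u u).sqrt)) ?_
  intro ζ hζ
  rw [abs_of_pos E.ρ_pos, mem_sphere_zero_iff_norm] at hζ
  rw [← Real.sqrt_mul (Finset.sum_nonneg fun i _ => Finset.sum_nonneg fun j _ => by positivity)]
  refine Real.le_sqrt_of_sq_le ?_
  exact psd_cs (E.X A ζ) (fun p => E.X_pos A hA hζ p) y u

end Crest.Agent.CZ
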