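import Mathlib

/-! CZ-08b: linear algebra lemmas (Hilbert-Schmidt norms, norm attaining pairs).
(Proved by helper38.) -/

set_option autoImplicit false

open Complex
open scoped ComplexConjugate

namespace Crest.Agent.CZ

/-- `‖F H‖_HS ≤ ‖F‖_op ‖H‖_HS` (column by column) -/
theorem hs_mul_le {m : ℕ} (F Hm : Matrix (Fin m) (Fin m) ℂ) (L : ℝ)
    (hF : ‖Matrix.toEuclideanCLM (n := Fin m) (𝕜 := ℂ) F‖ ≤ L) :
    ∑ i, ∑ j, ‖(F * Hm) i j‖ ^ 2 ≤ L ^ 2 * ∑ i, ∑ j, ‖Hm i j‖ ^ 2 := by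
  have hL : 0 ≤ L := (norm_nonneg _).trans hF
  rw [Finset.sum_comm, Finset.sum_comm (f := fun i j => ‖Hm i j‖ ^ 2), Finset.mul_sum]
  refine Finset.sum_le_sum fun j _ => ?_
  have h1 := (Matrix.toEuclideanCLM (n := Fin m) (𝕜 := ℂ) F).le_opNorm
    (WithLp.toLp 2 (fun k => Hm k j))
  rw [Matrix.toEuclideanCLM_toLp] at h1
  have h2 : ‖(WithLp.toLp 2 (F.mulVec fun k => Hm k j) : EuclideanSpace ℂ (Fin m))‖ ^ 2
      ≤ (L * ‖(WithLp.toLp 2 (fun k => Hm k j) : EuclideanSpace ℂ (Fin m))‖) ^ 2 := by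
    refine pow_le_pow_left₀ (norm_nonneg _) (h1.trans ?_) 2
    exact mul_le_mul_of_nonneg_right hF (norm_nonneg _)
  rw [mul_pow, EuclideanSpace.norm_sq_eq, EuclideanSpace.norm_sq_eq] at h2
  exact h2

/-- `‖H F‖_HS ≤ ‖F‖_op ‖H‖_HS` (rows: `conj` of a row of `H F` is `F* (conj row of H)`) -/
theorem hs_mul_le' {m : ℕ} (F Hm : Matrix (Fin m) (Fin m) ℂ) (L : ℝ)
    (hF : ‖Matrix.toEuclideanCLM (n := Fin m) (𝕜 := ℂ) F‖ ≤ L) :
    ∑ i, ∑ j, ‖(Hm * F) i j‖ ^ 2 ≤ L ^ 2 * ∑ i, ∑ j, ‖Hm i j‖ ^ 2 := by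
  have hF' : ‖Matrix.toEuclideanCLM (n := Fin m) (𝕜 := ℂ) (star F)‖ ≤ L := by
    rw [map_star, ContinuousLinearMap.star_eq_adjoint, LinearIsometryEquiv.norm_map]
    exact hF
  have h := hs_mul_le (star F) (star Hm) L hF'
  rw [← star_mul] at h
  have e1 : ∀ (M : Matrix (Fin m) (Fin m) ℂ), ∑ i, ∑ j, ‖(star M) i j‖ ^ 2
      = ∑ i, ∑ j, ‖M i j‖ ^ 2 := by
    intro M
    rw [Finset.sum_comm]
    refine Finset.sum_congr rfl fun i _ => Finset.sum_congr rfl fun j _ => ?_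
    rw [Matrix.star_apply, norm_star]
  rw [e1, e1] at h
  exact h

/-- norm attaining pair of a bounded operator on a finite-dimensional space: the unit sphere is
compact, take `y` with `‖T y‖ = ‖T‖`, `u = T y/‖T‖`; then `⟪T* T y, y⟫ = ‖T‖²` and
`‖T* T y‖ ≤ ‖T‖²` force `T* T y = ‖T‖² y`. -/
theorem exists_norm_pair {V : Type*} [NormedAddCommGroup V] [InnerProductSpace ℂ V]
    [FiniteDimensional ℂ V] [CompleteSpace V] (T : V →L[ℂ] V) (hT : 0 < ‖T‖) :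
    ∃ y u : V, ‖y‖ = 1 ∧ ‖u‖ = 1 ∧ T y = (‖T‖ : ℂ) • u ∧
      ContinuousLinearMap.adjoint T u = (‖T‖ : ℂ) • y := by
  have hne : (Metric.sphere (0 : V) 1).Nonempty := by
    have : ∃ x : V, x ≠ 0 := by
      by_contra hcon
      push Not at hcon
      have : T = 0 := by
        ext x
        rw [hcon x]
        simp
      rw [this, norm_zero] at hT
      exact lt_irrefl _ hT
    obtain ⟨x, hx⟩ := this
    refine ⟨((‖x‖⁻¹ : ℝ) : ℂ) • x, ?_⟩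
    rw [mem_sphere_zero_iff_norm, norm_smul, Complex.norm_real, norm_inv, norm_norm,
      inv_mul_cancel₀ (norm_ne_zero_iff.2 hx)]
  have : ProperSpace V := FiniteDimensional.proper ℂ V
  obtain ⟨y, hy, hmax⟩ := (isCompact_sphere (0 : V) 1).exists_isMaxOn hne
    (f := fun y => ‖T y‖) (T.continuous.norm.continuousOn)
  rw [mem_sphere_zero_iff_norm] at hy
  have hTy : ‖T y‖ = ‖T‖ := by
    refine le_antisymm ?_ ?_
    · have := T.le_opNorm y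
      rwa [hy, mul_one] at this
    · refine T.opNorm_le_bound (norm_nonneg _) fun x => ?_
      by_cases hx : x = 0
      · simp [hx]
      · have hxn : 0 < ‖x‖ := norm_pos_iff.2 hx
        have h1 : ((‖x‖⁻¹ : ℝ) : ℂ) • x ∈ Metric.sphere (0 : V) 1 := by
          rw [mem_sphere_zero_iff_norm, norm_smul, Complex.norm_real, norm_inv, norm_norm,
            inv_mul_cancel₀ hxn.ne']
        have h2 : ‖T (((‖x‖⁻¹ : ℝ) : ℂ) • x)‖ ≤ ‖T y‖ := hmax h1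
        rw [map_smul, norm_smul, Complex.norm_real, norm_inv, norm_norm] at h2
        rw [inv_mul_le_iff₀ hxn] at h2
        linarith
  have hTC : ((‖T‖ : ℝ) : ℂ) ≠ 0 := by exact_mod_cast hT.ne'
  set z : V := ContinuousLinearMap.adjoint T (T y) with hz
  have hz1 : ‖z‖ ≤ ‖T‖ ^ 2 := by
    have h1 := (ContinuousLinearMap.adjoint T).le_opNorm (T y)
    rw [hTy, LinearIsometryEquiv.norm_map] at h1
    rw [sq]
    exact h1
  have hzy : inner ℂ z y = ((‖T‖ ^ 2 : ℝ) : ℂ) := by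
    rw [hz, ContinuousLinearMap.adjoint_inner_left, inner_self_eq_norm_sq_to_K, hTy]
    norm_cast
  have hzz : z = ((‖T‖ ^ 2 : ℝ) : ℂ) • y := by
    rw [← sub_eq_zero, ← norm_eq_zero]
    have h2 : ‖z - ((‖T‖ ^ 2 : ℝ) : ℂ) • y‖ ^ 2 ≤ 0 := by
      rw [norm_sub_sq (𝕜 := ℂ), inner_smul_right, hzy, norm_smul, hy, Complex.norm_real, mul_one,
        Real.norm_of_nonneg (by positivity)]
      have h3 : RCLike.re (((‖T‖ ^ 2 : ℝ) : ℂ) * ((‖T‖ ^ 2 : ℝ) : ℂ)) = (‖T‖ ^ 2) * (‖T‖ ^ 2) := by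
        rw [← Complex.ofReal_mul]
        exact Complex.ofReal_re _
      rw [h3]
      have h4 : ‖z‖ ^ 2 ≤ (‖T‖ ^ 2) ^ 2 := pow_le_pow_left₀ (norm_nonneg _) hz1 2
      nlinarith
    have h5 : ‖z - ((‖T‖ ^ 2 : ℝ) : ℂ) • y‖ ^ 2 = 0 := le_antisymm h2 (by positivity)
    exact pow_eq_zero_iff (two_ne_zero) |>.1 h5
  refine ⟨y, ((‖T‖⁻¹ : ℝ) : ℂ) • T y, hy, ?_, ?_, ?_⟩
  · rw [norm_smul, Complex.norm_real, norm_inv, norm_norm, hTy, inv_mul_cancel₀ hT.ne']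
  · rw [smul_smul, Complex.ofReal_inv, mul_inv_cancel₀ hTC, one_smul]
  · rw [map_smul, ← hz, hzz, smul_smul]
    congr 1
    rw [Complex.ofReal_inv, Complex.ofReal_pow, sq, ← mul_assoc, inv_mul_cancel₀ hTC, one_mul]

end Crest.Agent.CZ
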