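import Crest.Agent.CZ_Av

/-! CZ-08c: Taylor truncation. -/

set_option autoImplicit false

open Complex Metric Set Polynomial MeasureTheory
open scoped ComplexConjugate

namespace Crest.Agent.CZ

private lemma conj_circle {ρ : ℝ} {ζ : ℂ} (h0 : 0 < ρ) (h : ‖ζ‖ = ρ) :
    conj ζ = (ρ : ℂ) ^ 2 * ζ⁻¹ := by
  have hz : ζ ≠ 0 := by
    rintro rfl
    simp at h
    linarith
  have h1 : ζ * conj ζ = (ρ : ℂ) ^ 2 := by
    rw [Complex.mul_conj, Complex.normSq_eq_norm_sq, h]
    push_cast
    rfl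
  rw [← h1]
  field_simp

private lemma trunc_step {ρ : ℝ} (h0 : 0 < ρ) (h1 : ρ < 1) (c : ℕ → ℂ) (n : ℕ) :
    Real.circleAverage (fun ζ : ℂ => ‖∑ k ∈ Finset.range n, c k * ζ ^ k‖ ^ 2) 0 ρ
      ≤ Real.circleAverage (fun ζ : ℂ => ‖∑ k ∈ Finset.range (n + 1), c k * ζ ^ k‖ ^ 2) 0 ρ := by
  have hcont : ∀ m : ℕ, Continuous (fun ζ : ℂ => ∑ k ∈ Finset.range m, c k * ζ ^ k) := by
    intro m
    fun_prop
  have hI : ∀ {F : Type} [NormedAddCommGroup F] {f : ℂ → F}, Continuous f →
      CircleIntegrable f 0 ρ := by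
    intro F _ f hf
    exact hf.continuousOn.circleIntegrable h0.le
  -- the cross term
  have hcross : Real.circleAverage (fun ζ : ℂ =>
      conj (∑ k ∈ Finset.range n, c k * ζ ^ k) * (c n * ζ ^ n)) 0 ρ = 0 := by
    have e1 : Real.circleAverage (fun ζ : ℂ =>
        conj (∑ k ∈ Finset.range n, c k * ζ ^ k) * (c n * ζ ^ n)) 0 ρ
        = Real.circleAverage (fun ζ : ℂ => ∑ k ∈ Finset.range n,
          (conj (c k) * (ρ : ℂ) ^ (2 * k) * c n) * ((ζ⁻¹) ^ k * (ζ ^ n * 1))) 0 ρ := by
      apply Real.circleAverage_congr_sphere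
      intro ζ hζ
      rw [mem_sphere_iff_norm, sub_zero, abs_of_pos h0] at hζ
      simp only [map_sum, map_mul, map_pow, conj_circle h0 hζ, Finset.sum_mul]
      apply Finset.sum_congr rfl
      intro k _
      rw [mul_pow, ← pow_mul]
      ring
    rw [e1, Real.circleAverage_fun_sum]
    · apply Finset.sum_eq_zero
      intro k hk
      have e2 : Real.circleAverage (fun ζ : ℂ => ((conj (c k) * (ρ : ℂ) ^ (2 * k) * c n)) *
          ((ζ⁻¹) ^ k * (ζ ^ n * 1))) 0 ρ
          = (conj (c k) * (ρ : ℂ) ^ (2 * k) * c n) •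
            Real.circleAverage (fun ζ : ℂ => ((ζ⁻¹) ^ k * (ζ ^ n * 1))) 0 ρ := by
        rw [← Real.circleAverage_fun_smul]
        rfl
      rw [e2, av_inv_pow_mul (f := fun _ => 1) (differentiableOn_const _) h0 h1 k n
        (Finset.mem_range.1 hk), smul_zero]
    · intro k _
      apply ContinuousOn.circleIntegrable h0.le
      have hz : ∀ ζ ∈ sphere (0 : ℂ) ρ, ζ ≠ 0 := by
        intro ζ hζ h
        rw [mem_sphere_iff_norm, sub_zero, h, norm_zero] at hζ
        linarith
      have : ContinuousOn (fun ζ : ℂ => ζ⁻¹) (sphere (0 : ℂ) ρ) :=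
        continuousOn_inv₀.mono fun ζ hζ => hz ζ hζ
      fun_prop
  have hcont2 : Continuous (fun ζ : ℂ =>
      conj (∑ k ∈ Finset.range n, c k * ζ ^ k) * (c n * ζ ^ n)) := by
    have := Complex.continuous_conj.comp (hcont n)
    exact this.mul (by fun_prop)
  have hre : Real.circleAverage (fun ζ : ℂ => 2 *
      (conj (∑ k ∈ Finset.range n, c k * ζ ^ k) * (c n * ζ ^ n)).re) 0 ρ = 0 := by
    have e3 := ContinuousLinearMap.circleAverage_comp_comm Complex.reCLM (hI hcont2)
    rw [hcross, map_zero] at e3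
    have e4 : Real.circleAverage (fun ζ : ℂ => (2 : ℝ) *
        (conj (∑ k ∈ Finset.range n, c k * ζ ^ k) * (c n * ζ ^ n)).re) 0 ρ
        = (2 : ℝ) • Real.circleAverage (Complex.reCLM ∘ (fun ζ : ℂ =>
          conj (∑ k ∈ Finset.range n, c k * ζ ^ k) * (c n * ζ ^ n))) 0 ρ := by
      rw [← Real.circleAverage_fun_smul]
      rfl
    rw [e4, e3, smul_zero]
  have hcre : Continuous (fun ζ : ℂ => 2 *
      (conj (∑ k ∈ Finset.range n, c k * ζ ^ k) * (c n * ζ ^ n)).re) :=
    continuous_const.mul (Complex.continuous_re.comp hcont2)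
  have hn2 : ∀ m : ℕ, Continuous (fun ζ : ℂ => ‖∑ k ∈ Finset.range m, c k * ζ ^ k‖ ^ 2) :=
    fun m => (hcont m).norm.pow 2
  have hsum := Real.circleAverage_fun_add (hI (hn2 n)) (hI hcre)
  rw [hre, add_zero] at hsum
  rw [← hsum]
  apply Real.circleAverage_mono
  · exact hI ((hn2 n).add hcre)
  · exact hI (hn2 (n + 1))
  · intro ζ _
    rw [Finset.sum_range_succ]
    generalize (∑ k ∈ Finset.range n, c k * ζ ^ k) = a
    generalize c n * ζ ^ n = b
    have h2 : ‖a + b‖ ^ 2 = ‖a‖ ^ 2 + 2 * (conj a * b).re + ‖b‖ ^ 2 := by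
      rw [← Complex.normSq_eq_norm_sq, ← Complex.normSq_eq_norm_sq, ← Complex.normSq_eq_norm_sq]
      simp only [Complex.normSq_apply, Complex.add_re, Complex.add_im, Complex.mul_re,
        Complex.conj_re, Complex.conj_im]
      ring
    rw [h2]
    nlinarith [sq_nonneg ‖b‖]

/-- Taylor truncation of `conj q`, written as a polynomial in `1/ζ` (on the circle
`conj ζ = ρ²/ζ`): `R = ∑_{k ≤ N} conj (q_k) ρ^{2k} x^k`, `N` large (the Taylor series converges
uniformly on the circle).  The last inequality: `‖R.eval ζ⁻¹‖ = ‖S_N ζ‖` with `S_N` the Taylor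
polynomial of `q`, and `q - S_N = ζ^{N+1} r` is orthogonal to `S_N` in the mean:
`av |q|² = av |S_N|² + av |q - S_N|²`. -/
theorem exists_trunc {ρ : ℝ} (h0 : 0 < ρ) (h1 : ρ < 1) {q : ℂ → ℂ}
    (hq : DifferentiableOn ℂ q (ball 0 1)) {δ : ℝ} (hδ : 0 < δ) :
    ∃ R : ℂ[X], R.coeff 0 = conj (q 0) ∧ (∀ ζ : ℂ, ‖ζ‖ = ρ → ‖R.eval ζ⁻¹ - conj (q ζ)‖ ≤ δ) ∧
      Real.circleAverage (fun ζ => ‖R.eval ζ⁻¹‖ ^ 2) 0 ρ
        ≤ Real.circleAverage (fun ζ => ‖q ζ‖ ^ 2) 0 ρ := by
  obtain ⟨r, hr0, hr1⟩ := exists_between h1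
  obtain ⟨r', hr'0, hr'1⟩ := exists_between hr0
  have hrpos : 0 < r := h0.trans hr0
  have hr'pos : 0 < r' := h0.trans hr'0
  lift r to NNReal using hrpos.le
  lift r' to NNReal using hr'pos.le
  have hd : DifferentiableOn ℂ q (closedBall 0 r) := hq.mono (closedBall_subset_ball hr1)
  have hp := hd.hasFPowerSeriesOnBall (NNReal.coe_pos.1 hrpos)
  have hu := hp.tendstoUniformlyOn' (r' := r') (by exact_mod_cast hr'1)
  set p := cauchyPowerSeries q 0 r with hpdef
  set c : ℕ → ℂ := fun k => p.coeff k with hc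
  have hpart : ∀ n : ℕ, ∀ y : ℂ, p.partialSum n (y - 0) = ∑ k ∈ Finset.range n, c k * y ^ k := by
    intro n y
    simp only [FormalMultilinearSeries.partialSum, sub_zero]
    apply Finset.sum_congr rfl
    intro k _
    rw [FormalMultilinearSeries.apply_eq_pow_smul_coeff, smul_eq_mul, mul_comm]
  have hu' : TendstoUniformlyOn (fun n (y : ℂ) => ∑ k ∈ Finset.range n, c k * y ^ k) q
      Filter.atTop (sphere (0 : ℂ) ρ) := by
    have := hu.mono (s' := sphere (0 : ℂ) ρ) (by
      intro z hz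
      rw [mem_sphere_iff_norm] at hz
      rw [mem_ball_iff_norm, hz]
      exact hr'0)
    refine this.congr ?_
    exact Filter.Eventually.of_forall fun n y _ => hpart n y
  have hc0 : c 0 = q 0 := by
    have := hp.coeff_zero (fun _ => 0)
    rw [hc]
    simp only [FormalMultilinearSeries.coeff]
    rw [← this]
    congr 1
    ext i
    exact i.elim0
  -- choose n
  have hev := (Metric.tendstoUniformlyOn_iff.1 hu') δ hδ
  obtain ⟨n, hn, hn1⟩ := (hev.and (Filter.eventually_ge_atTop 1)).exists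
  have hqc : ContinuousOn q (sphere (0 : ℂ) ρ) := by
    refine hq.continuousOn.mono ?_
    intro z hz
    rw [mem_sphere_iff_norm] at hz
    rw [mem_ball_iff_norm, hz]
    exact h1
  -- evaluation
  have heval : ∀ ζ : ℂ, ‖ζ‖ = ρ →
      (∑ k ∈ Finset.range n, C (conj (c k) * (ρ : ℂ) ^ (2 * k)) * X ^ k : ℂ[X]).eval ζ⁻¹
        = conj (∑ k ∈ Finset.range n, c k * ζ ^ k) := by
    intro ζ hζ
    simp only [Polynomial.eval_finsetSum, Polynomial.eval_mul, Polynomial.eval_C,
      Polynomial.eval_pow, Polynomial.eval_X, map_sum, map_mul, map_pow, conj_circle h0 hζ]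
    apply Finset.sum_congr rfl
    intro k _
    rw [mul_pow, ← pow_mul]
    ring
  refine ⟨∑ k ∈ Finset.range n, C (conj (c k) * (ρ : ℂ) ^ (2 * k)) * X ^ k, ?_, ?_, ?_⟩
  · rw [Polynomial.finsetSum_coeff]
    rw [Finset.sum_eq_single 0]
    · simp [hc0]
    · intro k _ hk
      rw [Polynomial.coeff_C_mul, Polynomial.coeff_X_pow]
      simp [Ne.symm hk]
    · intro h
      exact absurd (Finset.mem_range.2 (by omega)) h
  · intro ζ hζ
    rw [heval ζ hζ, ← map_sub]
    rw [RCLike.norm_conj]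
    have := hn ζ (by simpa using hζ)
    rw [dist_comm, dist_eq_norm] at this
    exact this.le
  · have e1 : Real.circleAverage (fun ζ => ‖(∑ k ∈ Finset.range n,
        C (conj (c k) * (ρ : ℂ) ^ (2 * k)) * X ^ k : ℂ[X]).eval ζ⁻¹‖ ^ 2) 0 ρ
        = Real.circleAverage (fun ζ : ℂ => ‖∑ k ∈ Finset.range n, c k * ζ ^ k‖ ^ 2) 0 ρ := by
      apply Real.circleAverage_congr_sphere
      intro ζ hζ
      rw [mem_sphere_iff_norm, sub_zero, abs_of_pos h0] at hζ
      simp only [heval ζ hζ, RCLike.norm_conj]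
    rw [e1]
    have hmono : Monotone (fun m : ℕ =>
        Real.circleAverage (fun ζ : ℂ => ‖∑ k ∈ Finset.range m, c k * ζ ^ k‖ ^ 2) 0 ρ) :=
      monotone_nat_of_le_succ fun m => trunc_step h0 h1 c m
    have hlim : Filter.Tendsto (fun m : ℕ =>
        Real.circleAverage (fun ζ : ℂ => ‖∑ k ∈ Finset.range m, c k * ζ ^ k‖ ^ 2) 0 ρ)
        Filter.atTop (nhds (Real.circleAverage (fun ζ => ‖q ζ‖ ^ 2) 0 ρ)) := by
      unfold Real.circleAverage
      apply Filter.Tendsto.const_smul
      apply intervalIntegral.tendsto_integral_filter_of_dominated_convergence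
        (bound := fun θ => (‖q (circleMap 0 ρ θ)‖ + 1) ^ 2)
      · refine Filter.Eventually.of_forall fun m => ?_
        apply Continuous.aestronglyMeasurable
        fun_prop
      · have h1ev := (Metric.tendstoUniformlyOn_iff.1 hu') 1 one_pos
        refine h1ev.mono fun m hm => ?_
        refine Filter.Eventually.of_forall fun θ _ => ?_
        have := hm (circleMap 0 ρ θ) (circleMap_mem_sphere 0 h0.le θ)
        rw [dist_comm, dist_eq_norm] at this
        rw [Real.norm_of_nonneg (sq_nonneg _)]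
        have h3 : ‖∑ k ∈ Finset.range m, c k * circleMap 0 ρ θ ^ k‖
            ≤ ‖q (circleMap 0 ρ θ)‖ + 1 := by
          have := norm_sub_norm_le (∑ k ∈ Finset.range m, c k * circleMap 0 ρ θ ^ k)
            (q (circleMap 0 ρ θ))
          linarith
        exact pow_le_pow_left₀ (norm_nonneg _) h3 2
      · apply Continuous.intervalIntegrable
        have : Continuous (fun θ => q (circleMap 0 ρ θ)) :=
          hqc.comp_continuous (continuous_circleMap 0 ρ)
            (fun θ => circleMap_mem_sphere 0 h0.le θ)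
        exact (this.norm.add continuous_const).pow 2
      · refine Filter.Eventually.of_forall fun θ _ => ?_
        have := hu'.tendsto_at (circleMap_mem_sphere 0 h0.le θ)
        exact this.norm.pow 2
    exact hmono.ge_of_tendsto hlim n

end Crest.Agent.CZ
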