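import Crest.Agent.CZ_Contr
import Crest.Agent.CZ_Energy1
import Crest.Agent.CZ_Trunc
import Crest.Agent.CZ_Lin2

/-! CZ-08f: test polynomials. -/

set_option autoImplicit false

open Complex Metric Set Polynomial MeasureTheory
open scoped ComplexConjugate

namespace Crest.Agent.CZ

variable {K U : Set ℂ} (E : Ext K U)

theorem Ext.energy_contG (P : ℂ[X]) : ContinuousOn (fun ζ => P.eval (E.G ζ)) (sphere 0 E.ρ) := by
  have hρ := E.ρ_pos
  have h1 := E.ρ_lt
  have hsub : sphere (0 : ℂ) E.ρ ⊆ ball 0 1 \ {0} := by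
    intro z hz
    simp only [mem_sphere_iff_norm, sub_zero] at hz
    refine ⟨by simp [hz, h1], ?_⟩
    intro h0
    have h0' : z = 0 := h0
    rw [h0', norm_zero] at hz
    linarith
  exact (P.continuous.continuousOn (s := univ)).comp (E.G_diff.continuousOn.mono hsub)
    (by intro x _; trivial)

theorem Ext.energy_aux (q : ℂ → ℂ) (hq : DifferentiableOn ℂ q (ball 0 1)) {δ M : ℝ} (hδ : 0 < δ)
    (hM : ∀ ζ ∈ sphere (0 : ℂ) E.ρ, ‖q ζ‖ ≤ M) :
    ∃ P : ℂ[X],
      Real.circleAverage (fun ζ => ‖q ζ‖ ^ 2) 0 E.ρ + ‖q 0‖ ^ 2 - δ * M ≤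
        (Real.circleAverage (fun ζ => P.eval (E.G ζ) * q ζ) 0 E.ρ).re ∧
      Real.circleAverage (fun ζ => ‖P.eval (E.G ζ)‖ ^ 2) 0 E.ρ ≤
        2 * Real.circleAverage (fun ζ => ‖q ζ‖ ^ 2) 0 E.ρ + 2 * ‖q 0‖ ^ 2 := by
  have hρ := E.ρ_pos
  have h1 := E.ρ_lt
  have hsub : sphere (0 : ℂ) E.ρ ⊆ ball 0 1 := by
    intro z hz
    simp only [mem_sphere_iff_norm, sub_zero] at hz
    simp [hz, h1]
  have hne : ∀ ζ ∈ sphere (0 : ℂ) E.ρ, ζ ≠ 0 := by
    intro z hz h0
    simp only [mem_sphere_iff_norm, sub_zero] at hz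
    rw [h0, norm_zero] at hz
    linarith
  have habs : |E.ρ| = E.ρ := abs_of_pos hρ
  obtain ⟨R₀, hR0, hR1, hR2⟩ := exists_trunc hρ h1 hq hδ
  set c : ℂ := conj (q 0) with hc
  obtain ⟨P, e, he, he0, hP⟩ := E.faber (R₀ + C c)
  have hcG := E.energy_contG P
  have hcq : ContinuousOn q (sphere 0 E.ρ) := hq.continuousOn.mono hsub
  have hce : ContinuousOn e (sphere 0 E.ρ) := he.continuousOn.mono hsub
  refine ⟨P, ?_, ?_⟩
  · -- the lower bound
    have hint : CircleIntegrable (fun ζ => P.eval (E.G ζ) * q ζ) 0 E.ρ :=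
      (hcG.mul hcq).circleIntegrable hρ.le
    have hre := Complex.reCLM.circleAverage_comp_comm hint
    have hre' : (Real.circleAverage (fun ζ => P.eval (E.G ζ) * q ζ) 0 E.ρ).re
        = Real.circleAverage (fun ζ => (P.eval (E.G ζ) * q ζ).re) 0 E.ρ := by
      rw [← Complex.reCLM_apply, ← hre]
      rfl
    rw [hre']
    -- analytic part
    have hh : DifferentiableOn ℂ (fun ζ => (c + e ζ) * q ζ) (ball 0 1) :=
      ((differentiableOn_const c).add he).mul hq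
    have hhav : Real.circleAverage (fun ζ => (c + e ζ) * q ζ) 0 E.ρ = c * q 0 := by
      rw [av_eq hh hρ h1, he0, add_zero]
    have hhint : CircleIntegrable (fun ζ => (c + e ζ) * q ζ) 0 E.ρ :=
      (hh.continuousOn.mono hsub).circleIntegrable hρ.le
    have hhre : Real.circleAverage (fun ζ => ((c + e ζ) * q ζ).re) 0 E.ρ = ‖q 0‖ ^ 2 := by
      have h2 := Complex.reCLM.circleAverage_comp_comm hhint
      rw [hhav] at h2
      have h3 : Complex.reCLM (c * q 0) = ‖q 0‖ ^ 2 := by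
        rw [hc, Complex.reCLM_apply, Complex.conj_mul']
        norm_cast
      rw [h3] at h2
      exact h2
    have hqint : CircleIntegrable (fun ζ => ‖q ζ‖ ^ 2) 0 E.ρ :=
      (hcq.norm.pow 2).circleIntegrable hρ.le
    have hhrint : CircleIntegrable (fun ζ => ((c + e ζ) * q ζ).re) 0 E.ρ :=
      (Complex.continuous_re.comp_continuousOn (hh.continuousOn.mono hsub)).circleIntegrable hρ.le
    have hlow : Real.circleAverage (fun ζ => (‖q ζ‖ ^ 2 + ((c + e ζ) * q ζ).re) + (- (δ * M))) 0 E.ρ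
        ≤ Real.circleAverage (fun ζ => (P.eval (E.G ζ) * q ζ).re) 0 E.ρ := by
      refine Real.circleAverage_mono ?_ ?_ ?_
      · exact (hqint.add hhrint).add (circleIntegrable_const _ _ _)
      · exact (Complex.continuous_re.comp_continuousOn (hcG.mul hcq)).circleIntegrable hρ.le
      · intro ζ hζ
        rw [habs] at hζ
        have hP' := hP ζ (hsub hζ) (hne ζ hζ)
        have hR1' := hR1 ζ (by simpa using hζ)
        have hkey : P.eval (E.G ζ) * q ζ
            = (R₀.eval ζ⁻¹ - conj (q ζ)) * q ζ + conj (q ζ) * q ζ + (c + e ζ) * q ζ := by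
          rw [hP', eval_add, eval_C]
          ring
        rw [hkey, Complex.add_re, Complex.add_re]
        have e1 : (conj (q ζ) * q ζ).re = ‖q ζ‖ ^ 2 := by
          rw [Complex.conj_mul']
          norm_cast
        have e2 : |((R₀.eval ζ⁻¹ - conj (q ζ)) * q ζ).re| ≤ δ * M := by
          refine (Complex.abs_re_le_norm _).trans ?_
          rw [norm_mul]
          exact mul_le_mul hR1' (hM ζ hζ) (norm_nonneg _) hδ.le
        have e3 := neg_le_of_abs_le e2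
        rw [e1]
        linarith
    have hsumint : CircleIntegrable (fun ζ => ‖q ζ‖ ^ 2 + ((c + e ζ) * q ζ).re) 0 E.ρ :=
      hqint.add hhrint
    rw [Real.circleAverage_fun_add hsumint (circleIntegrable_const _ _ _),
      Real.circleAverage_fun_add hqint hhrint, Real.circleAverage_const, hhre] at hlow
    linarith
  · -- the upper bound
    have e1 : Real.circleAverage (fun ζ => ‖P.eval (E.G ζ)‖ ^ 2) 0 E.ρ
        = Real.circleAverage (fun ζ => ‖(R₀ + C c).eval ζ⁻¹ + e ζ‖ ^ 2) 0 E.ρ := by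
      refine Real.circleAverage_congr_sphere ?_
      intro ζ hζ
      rw [habs] at hζ
      simp only []
      rw [hP ζ (hsub hζ) (hne ζ hζ)]
    have e2 := av_norm_sq_add hρ h1 (R₀ + C c) he he0
    have e3 := E.contr P (R₀ + C c) e he he0 hP
    have e4 := av_norm_sq_coeff hρ h1 (R₀ + C c)
    have e5 := av_norm_sq_coeff hρ h1 R₀
    have e6 : ∀ ζ : ℂ, (R₀ + C c).eval ζ⁻¹ - (R₀ + C c).coeff 0 = R₀.eval ζ⁻¹ - R₀.coeff 0 := by
      intro ζ
      rw [eval_add, eval_C, coeff_add, coeff_C_zero]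
      ring
    simp only [e6] at e3 e4
    have e7 : ‖(R₀ + C c).coeff 0‖ ^ 2 = 4 * ‖q 0‖ ^ 2 := by
      rw [coeff_add, coeff_C_zero, hR0, ← two_mul, norm_mul, Complex.norm_conj]
      norm_num
      ring
    have e8 : ‖R₀.coeff 0‖ ^ 2 = ‖q 0‖ ^ 2 := by
      rw [hR0, Complex.norm_conj]
    rw [e7] at e4
    rw [e8] at e5
    rw [e1, e2, e4]
    linarith

variable {H : Type*} [NormedAddCommGroup H] [InnerProductSpace ℂ H] [FiniteDimensional ℂ H]
  [CompleteSpace H]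

/-- The test polynomials: for `i j` take `q_ij ζ = ⟪y_i, X ζ y_j⟫` (analytic,
`q_ij 0 = ⟪y_i, y_j⟫ =: π_ij`), `R_ij` = truncation from `exists_trunc` plus the constant
`conj π_ij` (so `R_ij(0) = 2 conj π_ij`), `Hp i j` = the polynomial from `faber R_ij`.
Then `⟪y_i, Hp_ij(A) y_j⟫ = av (Hp_ij(G) q_ij) = av (R_ij(1/ζ) q_ij)` (`av_inner`, and `e q_ij` is
analytic, zero at `0`) `≈ av |q_ij|² + |π_ij|²`, and
`av |Hp_ij(G)|² = av |R_ij|² + av |e|² ≤ |2 π_ij|² + 2 av |R_ij - R_ij(0)|² ≤ 2 av |q_ij|² + 2 |π_ij|²`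
(`av_norm_sq_add`, `av_norm_sq_coeff`, `contr`); `en_eq` says `en = ∑ (2 av |q_ij|² + 2 |π_ij|²)`. -/
theorem Ext.energy (A : H →L[ℂ] H) (hA : ∀ x : H, ‖x‖ = 1 → inner ℂ x (A x) ∈ K) {m : ℕ}
    (y : Fin m → H) {ε : ℝ} (hε : 0 < ε) :
    ∃ Hp : Fin m → Fin m → ℂ[X],
      E.en A y / 2 - ε ≤ (∑ i, ∑ j, inner ℂ (y i) (aeval A (Hp i j) (y j))).re ∧
      Real.circleAverage (fun ζ => ∑ i, ∑ j, ‖(Hp i j).eval (E.G ζ)‖ ^ 2) 0 E.ρ ≤ E.en A y := by
  have hρ := E.ρ_pos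
  have h1 := E.ρ_lt
  have hsub : sphere (0 : ℂ) E.ρ ⊆ ball 0 1 := by
    intro z hz
    simp only [mem_sphere_iff_norm, sub_zero] at hz
    simp [hz, h1]
  have hXd := E.X_diff A hA
  have hq : ∀ i j, DifferentiableOn ℂ (fun ζ => (inner ℂ (y i) (E.X A ζ (y j)) : ℂ)) (ball 0 1) := by
    intro i j
    have h2 : DifferentiableOn ℂ (fun ζ => E.X A ζ (y j)) (ball 0 1) :=
      hXd.clm_apply (differentiableOn_const _)
    exact ((innerSL ℂ (y i)).differentiable.comp_differentiableOn h2)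
  have hMex : ∀ i j, ∃ M : ℝ, ∀ ζ ∈ sphere (0 : ℂ) E.ρ,
      ‖(inner ℂ (y i) (E.X A ζ (y j)) : ℂ)‖ ≤ M := fun i j =>
    (isCompact_sphere (0 : ℂ) E.ρ).exists_bound_of_continuousOn ((hq i j).continuousOn.mono hsub)
  choose M hM using hMex
  have hM0 : ∀ i j, 0 ≤ M i j := by
    intro i j
    have hmem : (E.ρ : ℂ) ∈ sphere (0 : ℂ) E.ρ := by
      simp [abs_of_pos hρ]
    exact (norm_nonneg _).trans (hM i j _ hmem)
  set S : ℝ := ∑ i, ∑ j, M i j with hS
  have hS0 : 0 ≤ S := Finset.sum_nonneg fun i _ => Finset.sum_nonneg fun j _ => hM0 i j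
  set δ : ℝ := ε / (S + 1) with hδdef
  have hδ : 0 < δ := div_pos hε (by linarith)
  have hδS : δ * S ≤ ε := by
    rw [hδdef, div_mul_eq_mul_div, div_le_iff₀ (by linarith)]
    nlinarith
  choose P hP1 hP2 using fun i j => E.energy_aux _ (hq i j) hδ (hM i j)
  have hq0 : ∀ i j, (inner ℂ (y i) (E.X A 0 (y j)) : ℂ) = inner ℂ (y i) (y j) := by
    intro i j
    rw [E.X_zero A]
    rfl
  refine ⟨P, ?_, ?_⟩
  · rw [E.en_eq A hA y]
    have h3 : ∀ i j, Real.circleAverage (fun ζ => ‖inner ℂ (y i) (E.X A ζ (y j))‖ ^ 2) 0 E.ρ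
        + ‖(inner ℂ (y i) (y j) : ℂ)‖ ^ 2 - δ * M i j
        ≤ (inner ℂ (y i) (aeval A (P i j) (y j)) : ℂ).re := by
      intro i j
      have h4 := hP1 i j
      rw [hq0 i j, E.av_inner A hA (P i j) (y j) (y i)] at h4
      exact h4
    have h5 : ∑ i, ∑ j, (Real.circleAverage (fun ζ => ‖inner ℂ (y i) (E.X A ζ (y j))‖ ^ 2) 0 E.ρ
        + ‖(inner ℂ (y i) (y j) : ℂ)‖ ^ 2 - δ * M i j)
        ≤ ∑ i, ∑ j, (inner ℂ (y i) (aeval A (P i j) (y j)) : ℂ).re :=
      Finset.sum_le_sum fun i _ => Finset.sum_le_sum fun j _ => h3 i j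
    have h6 : ∑ i, ∑ j, (inner ℂ (y i) (aeval A (P i j) (y j)) : ℂ).re
        = (∑ i, ∑ j, (inner ℂ (y i) (aeval A (P i j) (y j)) : ℂ)).re := by
      simp only [Complex.re_sum]
    rw [← h6]
    refine le_trans ?_ h5
    have h7 : ∑ i, ∑ j, (Real.circleAverage (fun ζ => ‖inner ℂ (y i) (E.X A ζ (y j))‖ ^ 2) 0 E.ρ
        + ‖(inner ℂ (y i) (y j) : ℂ)‖ ^ 2 - δ * M i j)
        = (∑ i, ∑ j, (2 * Real.circleAverage (fun ζ => ‖inner ℂ (y i) (E.X A ζ (y j))‖ ^ 2) 0 E.ρ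
          + 2 * ‖(inner ℂ (y i) (y j) : ℂ)‖ ^ 2)) / 2 - δ * S := by
      rw [hS, Finset.sum_div, Finset.mul_sum, ← Finset.sum_sub_distrib]
      refine Finset.sum_congr rfl fun i _ => ?_
      rw [Finset.sum_div, Finset.mul_sum, ← Finset.sum_sub_distrib]
      refine Finset.sum_congr rfl fun j _ => ?_
      ring
    rw [h7]
    linarith
  · rw [E.en_eq A hA y]
    have hint : ∀ i j, CircleIntegrable (fun ζ => ‖(P i j).eval (E.G ζ)‖ ^ 2) 0 E.ρ := fun i j =>
      ((E.energy_contG (P i j)).norm.pow 2).circleIntegrable hρ.le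
    rw [Real.circleAverage_fun_sum (f := fun i ζ => ∑ j, ‖(P i j).eval (E.G ζ)‖ ^ 2)]
    · refine Finset.sum_le_sum fun i _ => ?_
      rw [Real.circleAverage_fun_sum (f := fun j ζ => ‖(P i j).eval (E.G ζ)‖ ^ 2)
        (fun j _ => hint i j)]
      refine Finset.sum_le_sum fun j _ => ?_
      have h4 := hP2 i j
      rw [hq0 i j] at h4
      exact h4
    · intro i _
      have h8 : ContinuousOn (fun ζ => ∑ j, ‖(P i j).eval (E.G ζ)‖ ^ 2) (sphere 0 E.ρ) :=
        continuousOn_finsetSum _ fun j _ => (E.energy_contG (P i j)).norm.pow 2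
      exact h8.circleIntegrable hρ.le

end Crest.Agent.CZ
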