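import Mathlib

/-! CZ-20: injective holomorphic functions.  (Proved by helper9: the inverse is continuous by the
open mapping theorem, holomorphic off the critical values by the inverse function rule, hence
holomorphic by the removable singularity theorem; so the derivative does not vanish.) -/

set_option autoImplicit false

open Complex Metric Set Filter Topology
open scoped ComplexConjugate

namespace Crest.Agent.CZ

/-- an injective holomorphic function is open. -/
theorem inj_nhds_le {V : Set ℂ} (hV : IsOpen V) {f : ℂ → ℂ}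
    (hf : DifferentiableOn ℂ f V) (hi : InjOn f V) {z : ℂ} (hz : z ∈ V) :
    𝓝 (f z) ≤ map f (𝓝 z) := by
  have han : AnalyticAt ℂ f z := hf.analyticAt (hV.mem_nhds hz)
  rcases han.eventually_constant_or_nhds_le_map_nhds with h | h
  · exfalso
    have h2 : ∀ᶠ w in 𝓝 z, w = z := by
      filter_upwards [h, hV.mem_nhds hz] with w hw hwV
      exact hi hwV hz hw
    have h3 : ∀ᶠ w in 𝓝[≠] z, False := by
      have h4 : ∀ᶠ w in 𝓝[≠] z, w = z := h2.filter_mono nhdsWithin_le_nhds
      filter_upwards [h4, self_mem_nhdsWithin] with w hw hw2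
      exact hw2 hw
    have h5 : (𝓝[≠] z).NeBot := inferInstance
    exact (Filter.eventually_false_iff_eq_bot.1 h3 ▸ h5).ne rfl
  · exact h

theorem inj_isOpen_image {V : Set ℂ} (hV : IsOpen V) {f : ℂ → ℂ}
    (hf : DifferentiableOn ℂ f V) (hi : InjOn f V) : IsOpen (f '' V) := by
  rw [isOpen_iff_mem_nhds]
  rintro _ ⟨z, hz, rfl⟩
  exact inj_nhds_le hV hf hi hz (image_mem_map (hV.mem_nhds hz))

theorem inj_inv_continuousAt {V : Set ℂ} (hV : IsOpen V) {f g : ℂ → ℂ}
    (hf : DifferentiableOn ℂ f V) (hi : InjOn f V) (hg : ∀ z ∈ V, g (f z) = z) {z : ℂ}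
    (hz : z ∈ V) : ContinuousAt g (f z) := by
  have h1 : Tendsto (g ∘ f) (𝓝 z) (𝓝 z) := by
    refine tendsto_id.congr' ?_
    filter_upwards [hV.mem_nhds hz] with w hw
    exact (hg w hw).symm
  show Tendsto g (𝓝 (f z)) (𝓝 (g (f z)))
  rw [hg z hz]
  exact (tendsto_map'_iff.2 h1).mono_left (inj_nhds_le hV hf hi hz)

theorem inj_inv_hasDerivAt {V : Set ℂ} (hV : IsOpen V) {f g : ℂ → ℂ}
    (hf : DifferentiableOn ℂ f V) (hi : InjOn f V) (hg : ∀ z ∈ V, g (f z) = z) {z : ℂ}
    (hz : z ∈ V) (hd : deriv f z ≠ 0) : HasDerivAt g (deriv f z)⁻¹ (f z) := by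
  refine HasDerivAt.of_local_left_inverse (f := f) (inj_inv_continuousAt hV hf hi hg hz) ?_ hd ?_
  · rw [hg z hz]
    exact (hf.differentiableAt (hV.mem_nhds hz)).hasDerivAt
  · filter_upwards [(inj_isOpen_image hV hf hi).mem_nhds (mem_image_of_mem f hz)] with y hy
    obtain ⟨w, hw, rfl⟩ := hy
    rw [hg w hw]

/-- Proof: otherwise near `z`, `f w = f z + (w - z)^n h w`, `n ≥ 2`, `h z ≠ 0` (`f` is not locally
constant; Mathlib: `AnalyticAt` order), take an analytic `n`-th root `k` of `(w - z)^n h w` near `z`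
(`k w = (w - z) exp (log (h w / h z)/n) * c`), `k` is an open map near `z` (`deriv k z ≠ 0`), so it
takes two small values `ε, ε ω`, `ω^n = 1`, `ω ≠ 1`, at distinct points; contradiction. -/
theorem deriv_ne_zero_of_injOn {V : Set ℂ} (hV : IsOpen V) {f : ℂ → ℂ}
    (hf : DifferentiableOn ℂ f V) (hi : InjOn f V) {z : ℂ} (hz : z ∈ V) : deriv f z ≠ 0 := by
  obtain ⟨g, hg⟩ : ∃ g : ℂ → ℂ, ∀ z ∈ V, g (f z) = z :=
    ⟨Function.invFunOn f V, fun z hz => hi.leftInvOn_invFunOn hz⟩
  have hfa : AnalyticAt ℂ f z := hf.analyticAt (hV.mem_nhds hz)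
  have hda : AnalyticAt ℂ (deriv f) z := hfa.deriv
  rcases hda.eventually_eq_zero_or_eventually_ne_zero with h | h
  · -- `f` is locally constant
    exfalso
    have h1 : ∀ᶠ w in 𝓝 z, deriv f w = 0 ∧ w ∈ V := h.and (hV.mem_nhds hz)
    obtain ⟨r, hr, hball⟩ := Metric.eventually_nhds_iff_ball.1 h1
    have hconst : ∀ w ∈ ball z r, f w = f z := by
      obtain ⟨a, ha⟩ := isOpen_ball.exists_is_const_of_deriv_eq_zero
        (convex_ball z r).isPreconnected
        (hf.mono fun w hw => (hball w hw).2) (fun w hw => (hball w hw).1)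
      intro w hw
      rw [ha w hw, ha z (mem_ball_self hr)]
    have hw : z + ((r / 2 : ℝ) : ℂ) ∈ ball z r := by
      rw [mem_ball, dist_eq_norm, add_sub_cancel_left, Complex.norm_real, Real.norm_eq_abs,
        abs_of_pos (by positivity)]
      linarith
    have h2 := hi (hball _ hw).2 hz (hconst _ hw)
    have h3 : ((r / 2 : ℝ) : ℂ) = 0 := by
      have : z + ((r / 2 : ℝ) : ℂ) = z + 0 := by rw [h2, add_zero]
      exact add_left_cancel this
    have h4 : r / 2 = 0 := by exact_mod_cast h3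
    linarith
  · have hgc : ContinuousAt g (f z) := inj_inv_continuousAt hV hf hi hg hz
    have h1 : ∀ᶠ w in 𝓝 z, w ≠ z → deriv f w ≠ 0 := by
      rwa [eventually_nhdsWithin_iff] at h
    have h2 : ∀ᶠ y in 𝓝 (f z), (g y ≠ z → deriv f (g y) ≠ 0) := by
      have := hgc.eventually (by rw [hg z hz]; exact h1)
      exact this
    have h3 : ∀ᶠ y in 𝓝[≠] (f z), DifferentiableAt ℂ g y := by
      rw [eventually_nhdsWithin_iff]
      filter_upwards [h2, (inj_isOpen_image hV hf hi).mem_nhds (mem_image_of_mem f hz)] with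
        y hy hyV hyne
      obtain ⟨w, hw, rfl⟩ := hyV
      rw [hg w hw] at hy
      have hwz : w ≠ z := by
        rintro rfl
        exact hyne rfl
      exact (inj_inv_hasDerivAt hV hf hi hg hw (hy hwz)).differentiableAt
    have h4 : DifferentiableAt ℂ g (f z) :=
      (analyticAt_of_differentiable_on_punctured_nhds_of_continuousAt h3 hgc).differentiableAt
    intro h0
    have h5 : HasDerivAt (g ∘ f) (deriv g (f z) * deriv f z) z :=
      h4.hasDerivAt.comp z hfa.differentiableAt.hasDerivAt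
    have h6 : HasDerivAt (g ∘ f) 1 z := by
      refine (hasDerivAt_id z).congr_of_eventuallyEq ?_
      filter_upwards [hV.mem_nhds hz] with w hw
      exact hg w hw
    have h7 := h5.unique h6
    rw [h0, mul_zero] at h7
    exact zero_ne_one h7

/-- inverse of an injective holomorphic function -/
theorem exists_inverse {V : Set ℂ} (hV : IsOpen V) {f : ℂ → ℂ}
    (hf : DifferentiableOn ℂ f V) (hi : InjOn f V) :
    IsOpen (f '' V) ∧ ∃ g : ℂ → ℂ, DifferentiableOn ℂ g (f '' V) ∧ ∀ z ∈ V, g (f z) = z := by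
  refine ⟨inj_isOpen_image hV hf hi, Function.invFunOn f V, ?_,
    fun z hz => hi.leftInvOn_invFunOn hz⟩
  rintro _ ⟨z, hz, rfl⟩
  exact (inj_inv_hasDerivAt hV hf hi (fun z hz => hi.leftInvOn_invFunOn hz) hz
    (deriv_ne_zero_of_injOn hV hf hi hz)).differentiableAt.differentiableWithinAt

end Crest.Agent.CZ
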