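import Crest.Agent.CZ_Hol
import Crest.Agent.CZ_Exists
import Crest.Agent.CZ_Bd
import Crest.Agent.CZ_Inj
import Crest.Agent.CZ_Energy1

/-! CZ-75: functional calculus: `q(A) = Σ c_j T^j` if `v = Σ c_j f^j`.  (Proved by helper38.) -/

set_option autoImplicit false

open Complex Metric Set Filter Topology Polynomial
open scoped ComplexConjugate
open Crest.AnalysisR.NumRange

namespace Crest.Agent.CZ

/-- circle means of uniformly convergent series -/
theorem av_hasSum_fc {ρ : ℝ} (h0 : 0 < ρ) {F : ℕ → ℂ → ℂ} {f : ℂ → ℂ} (u : ℕ → ℝ)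
    (hF : ∀ j, ContinuousOn (F j) (sphere 0 ρ)) (hu : ∀ j, ∀ ζ ∈ sphere (0 : ℂ) ρ, ‖F j ζ‖ ≤ u j)
    (hus : Summable u) (hs : ∀ ζ ∈ sphere (0 : ℂ) ρ, HasSum (fun j => F j ζ) (f ζ)) :
    HasSum (fun j => Real.circleAverage (F j) 0 ρ) (Real.circleAverage f 0 ρ) := by
  have hmem : ∀ θ : ℝ, circleMap 0 ρ θ ∈ sphere (0 : ℂ) ρ := fun θ =>
    circleMap_mem_sphere 0 h0.le θ
  have h1 : HasSum (fun j => ∫ θ in (0 : ℝ)..2 * Real.pi, F j (circleMap 0 ρ θ))
      (∫ θ in (0 : ℝ)..2 * Real.pi, f (circleMap 0 ρ θ)) := by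
    refine intervalIntegral.hasSum_integral_of_dominated_convergence (fun j _ => u j) ?_ ?_ ?_ ?_ ?_
    · intro j
      have h2 : Continuous (fun θ : ℝ => F j (circleMap 0 ρ θ)) :=
        (hF j).comp_continuous (continuous_circleMap 0 ρ) hmem
      exact h2.aestronglyMeasurable
    · intro j
      exact Filter.Eventually.of_forall fun θ _ => hu j _ (hmem θ)
    · exact Filter.Eventually.of_forall fun θ _ => hus
    · exact _root_.intervalIntegrable_const
    · exact Filter.Eventually.of_forall fun θ _ => hs _ (hmem θ)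
  unfold Real.circleAverage
  exact h1.const_smul _

/-- Taylor series of `v ∘ f⁻¹`, which is holomorphic on a disc of radius `> 1`: `f '' (U ∩ V)` is
open (`exists_inverse`) and contains `f '' closure Ω = closedBall 0 1` (`Bd.f_closure`). -/
theorem Bd.exists_series {Ω U : Set ℂ} {f G : ℂ → ℂ} {r : ℝ} (B : Bd Ω U f G r) {V : Set ℂ}
    (hV : IsOpen V) (hΩV : closure Ω ⊆ V) {v : ℂ → ℂ} (hv : DifferentiableOn ℂ v V) :
    ∃ c : ℕ → ℂ, Summable (fun j => ‖c j‖) ∧
      ∀ z ∈ closure Ω, HasSum (fun j => c j * f z ^ j) (v z) := by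
  have hW : IsOpen (U ∩ V) := B.hU.inter hV
  obtain ⟨hO, g, hg, hgf⟩ := exists_inverse hW (B.hf₁.mono inter_subset_left)
    (B.hf₂.mono inter_subset_left)
  have hcl : closure Ω ⊆ U ∩ V := subset_inter B.hΩU hΩV
  have hball : closedBall (0 : ℂ) 1 ⊆ f '' (U ∩ V) := by
    rw [← B.f_closure]
    exact image_mono hcl
  obtain ⟨δ, hδ, hsub⟩ := (isCompact_closedBall (0 : ℂ) 1).exists_cthickening_subset_open hO hball
  have hsub' : ball (0 : ℂ) (δ + 1) ⊆ f '' (U ∩ V) := by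
    refine subset_trans ?_ hsub
    rw [← thickening_closedBall hδ zero_le_one]
    exact thickening_subset_cthickening _ _
  have hF : DifferentiableOn ℂ (fun w => v (g w)) (ball (0 : ℂ) (δ + 1)) := by
    refine hv.comp (hg.mono hsub') ?_
    intro w hw
    obtain ⟨z, hz, rfl⟩ := hsub' hw
    rw [hgf z hz]
    exact hz.2
  set c : ℕ → ℂ := fun j => ((Nat.factorial j : ℕ) : ℂ)⁻¹ * iteratedDeriv j (fun w => v (g w)) 0
    with hc
  have hT : ∀ w ∈ ball (0 : ℂ) (δ + 1), HasSum (fun j => c j * w ^ j) (v (g w)) := by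
    intro w hw
    have h1 := Complex.hasSum_taylorSeries_on_ball hF hw
    refine h1.congr_fun ?_
    intro j
    simp only [hc, sub_zero, smul_eq_mul]
    ring
  refine ⟨c, ?_, ?_⟩
  · have hw : (((1 : ℝ) + δ / 2 : ℝ) : ℂ) ∈ ball (0 : ℂ) (δ + 1) := by
      rw [mem_ball_zero_iff, Complex.norm_real, Real.norm_eq_abs, abs_of_pos (by positivity)]
      linarith
    have h1 := (hT _ hw).summable.norm
    refine Summable.of_nonneg_of_le (fun j => norm_nonneg _) (fun j => ?_) h1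
    have h3 : ‖c j * (((1 : ℝ) + δ / 2 : ℝ) : ℂ) ^ j‖ = ‖c j‖ * (1 + δ / 2) ^ j := by
      rw [norm_mul (c j), norm_pow, Complex.norm_real, Real.norm_eq_abs,
        abs_of_pos (by positivity)]
    rw [h3]
    have h2 : (1 : ℝ) ≤ (1 + δ / 2) ^ j := one_le_pow₀ (by linarith)
    exact le_mul_of_one_le_right (norm_nonneg _) h2
  · intro z hz
    have h1 : f z ∈ ball (0 : ℂ) (δ + 1) := by
      rw [mem_ball_zero_iff]
      have := B.norm_f_le hz
      linarith
    have h2 := hT _ h1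
    rw [hgf z (hcl hz)] at h2
    exact h2

theorem inner_op_single {n : ℕ} (M : Matrix (Fin n) (Fin n) ℂ) (a b : Fin n) :
    (inner ℂ (EuclideanSpace.single a (1 : ℂ)) (op M (EuclideanSpace.single b (1 : ℂ))) : ℂ)
      = M a b := by
  rw [EuclideanSpace.inner_single_left, map_one, one_mul, Matrix.ofLp_toEuclideanCLM]
  have : (EuclideanSpace.single b (1 : ℂ) : EuclideanSpace ℂ (Fin n)).ofLp = Pi.single b 1 := rfl
  rw [this, Matrix.mulVec_single_one]
  rfl

/-- Proof: `E : Ext (numRange A) Ω` (`exists_ext`, `numRange_eq`, `nr_convex`, `nr_compact`,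
`nr_nonempty`).  For all `x y`: `⟪y, q(A) x⟫ = av (v (G) ⟪y, X x⟫) = Σ_j c_j av (f (G)^j ⟪y, X x⟫)
= Σ_j c_j ⟪y, T^j x⟫` (`av_hol` with `Dv.of_agrees`, `Dv.pow`; uniform convergence since
`‖f‖ ≤ 1`); `Σ c_j T^j` converges since `T^j` is bounded (`powers_decay`, `spectrum_aeval`). -/
theorem fc_series {n : ℕ} (hn : 1 ≤ n) (A : Matrix (Fin n) (Fin n) ℂ) {Ω : Set ℂ} (hΩ : IsOpen Ω)
    (hΩc : Convex ℝ Ω) (hA : numRange A ⊆ Ω) {f : ℂ → ℂ} (hf : DifferentiableOn ℂ f Ω)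
    (hfb : ∀ z ∈ Ω, ‖f z‖ < 1) (p : ℂ[X]) (hp : AgreesOnSpectrum A f p) {v : ℂ → ℂ}
    (hv : DifferentiableOn ℂ v Ω) (q : ℂ[X]) (hq : AgreesOnSpectrum A v q) (c : ℕ → ℂ)
    (hc : Summable fun j => ‖c j‖) (hs : ∀ z ∈ Ω, HasSum (fun j => c j * f z ^ j) (v z)) :
    HasSum (fun j => c j • (aeval A p) ^ j) (aeval A q) := by
  have : Nonempty (Fin n) := ⟨⟨0, hn⟩⟩
  have hnr : numRange A = nr (op A) := numRange_eq A
  obtain ⟨E⟩ : Nonempty (Ext (numRange A) Ω) := by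
    refine exists_ext ?_ ?_ ?_ hΩ hA
    · rw [hnr]; exact nr_compact _
    · rw [hnr]; exact nr_convex _
    · rw [hnr]; exact nr_nonempty _
  have hAop : ∀ x : EuclideanSpace ℂ (Fin n), ‖x‖ = 1 → inner ℂ x (op A x) ∈ numRange A := by
    intro x hx
    rw [hnr]
    exact ⟨x, hx, rfl⟩
  have hspec : spectrum ℂ A ⊆ Ω := (spectrum_subset_numRange A).trans hA
  have hDf : Dv A Ω f p := Dv.of_agrees hΩ hspec hf hp
  have hDv : Dv A Ω v q := Dv.of_agrees hΩ hspec hv hq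
  have hGsub : ∀ ζ ∈ sphere (0 : ℂ) E.ρ, E.G ζ ∈ Ω := fun ζ hζ =>
    E.mem_U ζ (by simpa using hζ)
  have hsph : sphere (0 : ℂ) E.ρ ⊆ ball 0 1 \ {0} := by
    intro ζ hζ
    rw [mem_sphere_zero_iff_norm] at hζ
    refine ⟨by rw [mem_ball_zero_iff, hζ]; exact E.ρ_lt, ?_⟩
    intro h0
    have h0' : ζ = 0 := h0
    rw [h0', norm_zero] at hζ
    exact absurd hζ E.ρ_pos.ne
  have hGc : ContinuousOn E.G (sphere 0 E.ρ) := E.G_diff.continuousOn.mono hsph
  have hfG : ContinuousOn (fun ζ => f (E.G ζ)) (sphere 0 E.ρ) :=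
    hf.continuousOn.comp hGc hGsub
  -- entrywise convergence
  have key : ∀ a b : Fin n, HasSum (fun j => (c j • (aeval A p) ^ j) a b) ((aeval A q) a b) := by
    intro a b
    set x : EuclideanSpace ℂ (Fin n) := EuclideanSpace.single b (1 : ℂ) with hx
    set y : EuclideanSpace ℂ (Fin n) := EuclideanSpace.single a (1 : ℂ) with hy
    have hcont := E.inner_X_cont (op A) hAop y x
    obtain ⟨M, hM⟩ := (isCompact_sphere (0 : ℂ) E.ρ).exists_bound_of_continuousOn hcont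
    have h1 := av_hasSum_fc E.ρ_pos
      (F := fun j ζ => c j * (f (E.G ζ) ^ j * inner ℂ y (E.X (op A) ζ x)))
      (f := fun ζ => v (E.G ζ) * inner ℂ y (E.X (op A) ζ x))
      (fun j => ‖c j‖ * M) ?_ ?_ (hc.mul_right M) ?_
    · rw [E.av_hol hΩ hΩc A le_rfl hDv x y, inner_op_single] at h1
      refine h1.congr_fun ?_
      intro j
      have h2 := E.av_hol hΩ hΩc A le_rfl (hDf.pow j) x y
      rw [inner_op_single, map_pow] at h2
      rw [Matrix.smul_apply, ← h2, ← Real.circleAverage_smul]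
      rfl
    · intro j
      exact continuousOn_const.mul ((hfG.pow j).mul hcont)
    · intro j ζ hζ
      rw [norm_mul]
      refine mul_le_mul_of_nonneg_left ?_ (norm_nonneg _)
      rw [norm_mul, norm_pow]
      have h2 : ‖f (E.G ζ)‖ ^ j ≤ 1 := pow_le_one₀ (norm_nonneg _) (hfb _ (hGsub ζ hζ)).le
      calc ‖f (E.G ζ)‖ ^ j * ‖(inner ℂ y (E.X (op A) ζ x) : ℂ)‖
          ≤ 1 * ‖(inner ℂ y (E.X (op A) ζ x) : ℂ)‖ :=
            mul_le_mul_of_nonneg_right h2 (norm_nonneg _)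
        _ ≤ M := by rw [one_mul]; exact hM ζ hζ
    · intro ζ hζ
      have h2 := (hs _ (hGsub ζ hζ)).mul_right (inner ℂ y (E.X (op A) ζ x) : ℂ)
      refine h2.congr_fun ?_
      intro j
      ring
  exact Pi.hasSum.2 fun a => Pi.hasSum.2 fun b => key a b

end Crest.Agent.CZ
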