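import Crest.Agent.CZ_TH
import Crest.Agent.CZ_Exists
import Crest.Agent.CZ_CorePoly

/-! CZ-42: S0179 in finite dimension. -/

set_option autoImplicit false

open Complex Metric Set Filter Topology
open scoped ComplexConjugate

namespace Crest.Agent.CZ

/-- Proof: if `H` is trivial then `v = 0`.  Otherwise `K = nr A` is compact, convex, nonempty; for
`ε > 0` let `U = {z | ‖toEuclideanCLM (Σ z^k B k)‖ < M + ε}`, open and `⊇ K` (and `M ≥ 0`); `exists_ext`
and `core_poly` with `L = M + ε`; let `ε → 0`. -/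
theorem fin_dim {H : Type*} [NormedAddCommGroup H] [InnerProductSpace ℂ H] [FiniteDimensional ℂ H]
    [CompleteSpace H]
    (A : H →L[ℂ] H) (m d : ℕ) (B : Fin (d + 1) → Matrix (Fin m) (Fin m) ℂ) (M : ℝ)
    (hM : ∀ x : H, ‖x‖ = 1 →
      ‖Matrix.toEuclideanCLM (n := Fin m) (𝕜 := ℂ)
          (∑ k : Fin (d + 1), (inner ℂ x (A x)) ^ (k : ℕ) • B k)‖ ≤ M)
    (v : PiLp 2 (fun _ : Fin m => H)) :
    ‖(WithLp.toLp 2 (fun i : Fin m => ∑ j : Fin m, ∑ k : Fin (d + 1), B k i j • (A ^ (k : ℕ)) (v j))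
        : PiLp 2 (fun _ : Fin m => H))‖ ≤ 2 * M * ‖v‖ := by
  rcases subsingleton_or_nontrivial H with hH | hH
  · have hv : v = 0 := by
      ext i
      exact Subsingleton.elim _ _
    subst hv
    simp
    rfl
  · have hK : IsCompact (nr A) := nr_compact A
    have hc : Convex ℝ (nr A) := nr_convex A
    have hne : (nr A).Nonempty := nr_nonempty A
    have hM0 : 0 ≤ M := by
      obtain ⟨z, x, hx, -⟩ := hne
      exact (norm_nonneg _).trans (hM x hx)
    have hcont : Continuous (fun z : ℂ => ‖Matrix.toEuclideanCLM (n := Fin m) (𝕜 := ℂ)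
          (∑ k : Fin (d + 1), z ^ (k : ℕ) • B k)‖) := by
      have h1 : (fun z : ℂ => ‖Matrix.toEuclideanCLM (n := Fin m) (𝕜 := ℂ)
          (∑ k : Fin (d + 1), z ^ (k : ℕ) • B k)‖) = fun z : ℂ =>
            ‖∑ k : Fin (d + 1), z ^ (k : ℕ) • Matrix.toEuclideanCLM (n := Fin m) (𝕜 := ℂ) (B k)‖ := by
        funext z
        rw [map_sum]
        simp only [map_smul]
      rw [h1]
      fun_prop
    have key : ∀ ε : ℝ, 0 < ε →
        ‖(WithLp.toLp 2 (fun i : Fin m => ∑ j : Fin m, ∑ k : Fin (d + 1), B k i j • (A ^ (k : ℕ)) (v j))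
        : PiLp 2 (fun _ : Fin m => H))‖ ≤ 2 * (M + ε) * ‖v‖ := by
      intro ε hε
      set U : Set ℂ := {z | ‖Matrix.toEuclideanCLM (n := Fin m) (𝕜 := ℂ)
          (∑ k : Fin (d + 1), z ^ (k : ℕ) • B k)‖ < M + ε} with hU
      have hUo : IsOpen U := isOpen_lt hcont continuous_const
      have hKU : nr A ⊆ U := by
        rintro z ⟨x, hx, rfl⟩
        have h3 := hM x hx
        rw [hU, Set.mem_ofPred_eq]
        linarith
      obtain ⟨E⟩ := exists_ext hK hc hne hUo hKU
      exact E.core_poly A (fun x hx => ⟨x, hx, rfl⟩) B (M + ε) (by linarith)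
        (fun z hz => le_of_lt hz) v
    refine le_of_forall_pos_le_add fun δ hδ => ?_
    have hv1 : 0 < 2 * (‖v‖ + 1) := by positivity
    have := key (δ / (2 * (‖v‖ + 1))) (by positivity)
    refine this.trans ?_
    have h2 : 2 * (δ / (2 * (‖v‖ + 1))) * ‖v‖ ≤ δ := by
      rw [show 2 * (δ / (2 * (‖v‖ + 1))) * ‖v‖ = δ * (‖v‖ / (‖v‖ + 1)) by field_simp]
      have h3 : ‖v‖ / (‖v‖ + 1) ≤ 1 := by
        rw [div_le_one (by positivity)]
        linarith
      nlinarith
    nlinarith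

end Crest.Agent.CZ
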