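import Mathlib

/-! CZ-25: the domain `Vd K a` = inversion of the complement of a convex compact set. -/

set_option autoImplicit false

open Complex Metric Set Filter Topology
open scoped ComplexConjugate

namespace Crest.Agent.CZ

/-- `{0} ∪ {z : a + 1/z ∉ K}` -/
def Vd (K : Set ℂ) (a : ℂ) : Set ℂ := {z | z = 0 ∨ a + z⁻¹ ∉ K}

theorem zero_mem_Vd (K : Set ℂ) (a : ℂ) : (0 : ℂ) ∈ Vd K a := Or.inl rfl

/-- open: near `0` because `K` is bounded -/
theorem Vd_open {K : Set ℂ} (hK : IsCompact K) (a : ℂ) : IsOpen (Vd K a) := by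
  rw [isOpen_iff_mem_nhds]
  intro z hz
  by_cases h0 : z = 0
  · subst h0
    obtain ⟨R, hR⟩ := hK.isBounded.subset_closedBall a
    have hR' : 0 < max R 1 := lt_max_of_lt_right one_pos
    refine mem_of_superset (ball_mem_nhds (0 : ℂ) (inv_pos.2 hR')) ?_
    intro w hw
    by_cases hw0 : w = 0
    · exact Or.inl hw0
    refine Or.inr fun hmem => ?_
    have h1 := hR hmem
    rw [mem_closedBall, dist_eq_norm, add_sub_cancel_left, norm_inv] at h1
    rw [mem_ball_zero_iff] at hw
    have hwpos : 0 < ‖w‖ := norm_pos_iff.2 hw0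
    have h2 : max R 1 < ‖w‖⁻¹ := by
      rw [lt_inv_comm₀ hR' hwpos]
      exact hw
    exact absurd (h1.trans (le_max_left R 1)) (not_le.2 h2)
  · have hz' : a + z⁻¹ ∉ K := hz.resolve_left h0
    have hc : ContinuousAt (fun w : ℂ => a + w⁻¹) z := continuousAt_const.add (continuousAt_inv₀ h0)
    have := hc (hK.isClosed.isOpen_compl.mem_nhds hz')
    filter_upwards [this] with w hw
    exact Or.inr hw

/-- bounded because `a` is interior to `K` -/
theorem Vd_bdd {K : Set ℂ} {a : ℂ} (ha : a ∈ interior K) : Bornology.IsBounded (Vd K a) := by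
  obtain ⟨ε, hε, hsub⟩ := Metric.isOpen_iff.1 isOpen_interior a ha
  refine (isBounded_iff_forall_norm_le).2 ⟨ε⁻¹, ?_⟩
  rintro z (rfl | hz)
  · simp [hε.le]
  · by_cases h0 : z = 0
    · subst h0; simp [hε.le]
    have hzpos : 0 < ‖z‖ := norm_pos_iff.2 h0
    have h1 : ¬ ‖z⁻¹‖ < ε := by
      intro hlt
      refine hz (interior_subset (hsub ?_))
      rw [mem_ball, dist_eq_norm, add_sub_cancel_left]
      exact hlt
    rw [norm_inv, not_lt] at h1
    rw [le_inv_comm₀ hzpos hε]
    exact h1

/-- star-shaped at `0`: `a + z⁻¹ = (1 - t) a + t (a + (t z)⁻¹)`; hence contractible, hence simply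
connected. -/
theorem Vd_sc {K : Set ℂ} (hK : IsCompact K) (hc : Convex ℝ K) {a : ℂ} (ha : a ∈ interior K) :
    IsSimplyConnected (Vd K a) := by
  have hstar : StarConvex ℝ (0 : ℂ) (Vd K a) := by
    intro y hy s t hs ht hst
    rw [smul_zero, zero_add]
    by_cases hy0 : y = 0
    · left; rw [hy0, smul_zero]
    by_cases ht0 : t = 0
    · left; rw [ht0, zero_smul]
    have hy' : a + y⁻¹ ∉ K := hy.resolve_left hy0
    refine Or.inr fun hmem => hy' ?_
    have h1 := hc (interior_subset ha) hmem hs ht hst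
    have htc : (t : ℂ) ≠ 0 := by exact_mod_cast ht0
    have h2 : s • a + t • (a + (t • y)⁻¹) = a + y⁻¹ := by
      have hsc : (s : ℂ) = 1 - t := by
        have : s = 1 - t := by linarith
        rw [this]; push_cast; ring
      rw [Complex.real_smul, Complex.real_smul, Complex.real_smul, hsc]
      field_simp
      ring
    rwa [h2] at h1
  have : ContractibleSpace (Vd K a) := hstar.contractibleSpace ⟨0, zero_mem_Vd K a⟩
  exact SimplyConnectedSpace.ofContractible _

end Crest.Agent.CZ
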