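import Mathlib

/-! CZ-26: maximum principle with `limsup` boundary conditions. -/

set_option autoImplicit false

open Complex Metric Set Filter Topology
open scoped ComplexConjugate

namespace Crest.Agent.CZ

/-- Proof: if `‖F η₀‖ > M`, the set `S = {η ∈ N | ‖F η₀‖ ≤ ‖F η‖}` is closed in `ℂ` (boundary
condition with `ε = (‖F η₀‖ - M)/2`), hence compact; `‖F‖` attains its maximum over `N` on `S`; the
set of maximum points is compact, nonempty and open (`Complex.eventually_eq_of_isLocalMax_norm` or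
`Complex.norm_eventually_eq_of_isLocalMax`), impossible in `ℂ`. -/
theorem max_principle_limsup {N : Set ℂ} (hN : IsOpen N) (hb : Bornology.IsBounded N) {F : ℂ → ℂ}
    (hF : DifferentiableOn ℂ F N) {M : ℝ}
    (hbd : ∀ ξ ∈ closure N, ξ ∉ N → ∀ ε > 0, ∀ᶠ η in 𝓝[N] ξ, ‖F η‖ ≤ M + ε) :
    ∀ η ∈ N, ‖F η‖ ≤ M := by
  intro η₀ h₀
  by_contra hcon
  push Not at hcon
  have hcont : ∀ ξ ∈ N, ContinuousAt (fun η => ‖F η‖) ξ := fun ξ hξ =>
    ((hF ξ hξ).differentiableAt (hN.mem_nhds hξ)).continuousAt.norm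
  -- superlevel sets are closed
  have hclosed : ∀ c, ‖F η₀‖ ≤ c → IsClosed {η | η ∈ N ∧ c ≤ ‖F η‖} := by
    intro c hc
    refine isClosed_of_closure_subset ?_
    intro ξ hξ
    have hfr : ∃ᶠ η in 𝓝 ξ, η ∈ {η | η ∈ N ∧ c ≤ ‖F η‖} := mem_closure_iff_frequently.1 hξ
    have hξN : ξ ∈ N := by
      by_contra hn
      have hcl : ξ ∈ closure N := closure_mono (fun η hη => hη.1) hξ
      have h1 := hbd ξ hcl hn ((‖F η₀‖ - M) / 2) (by linarith)
      rw [eventually_nhdsWithin_iff] at h1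
      obtain ⟨η, hη, hη'⟩ := (hfr.and_eventually h1).exists
      have h2 := hη' hη.1
      have h3 := hη.2
      linarith
    refine ⟨hξN, ?_⟩
    by_contra hlt
    push Not at hlt
    have h1 : ∀ᶠ η in 𝓝 ξ, ‖F η‖ < c := (hcont ξ hξN).eventually (gt_mem_nhds hlt)
    obtain ⟨η, hη, hη'⟩ := (hfr.and_eventually h1).exists
    exact absurd hη.2 (not_le.2 hη')
  have hS : IsCompact {η | η ∈ N ∧ ‖F η₀‖ ≤ ‖F η‖} :=
    Metric.isCompact_of_isClosed_isBounded (hclosed _ le_rfl) (hb.subset fun η hη => hη.1)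
  obtain ⟨η₁, hη₁, hmax⟩ := hS.exists_isMaxOn (f := fun η => ‖F η‖) ⟨η₀, h₀, le_rfl⟩
    (fun ξ hξ => (hcont ξ hξ.1).continuousWithinAt)
  have hmaxN : ∀ η ∈ N, ‖F η‖ ≤ ‖F η₁‖ := by
    intro η hη
    by_cases h : ‖F η₀‖ ≤ ‖F η‖
    · exact hmax ⟨hη, h⟩
    · push Not at h
      exact h.le.trans hη₁.2
  have hT : IsClopen {η | η ∈ N ∧ ‖F η₁‖ ≤ ‖F η‖} := by
    refine ⟨hclosed _ hη₁.2, ?_⟩
    rw [isOpen_iff_mem_nhds]
    rintro ξ ⟨hξN, hξ⟩
    have heq : ‖F ξ‖ = ‖F η₁‖ := le_antisymm (hmaxN ξ hξN) hξ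
    have hlm : IsLocalMax (norm ∘ F) ξ := by
      filter_upwards [hN.mem_nhds hξN] with η hη
      simp only [Function.comp]
      rw [heq]
      exact hmaxN η hη
    have hd : ∀ᶠ z in 𝓝 ξ, DifferentiableAt ℂ F z := by
      filter_upwards [hN.mem_nhds hξN] with η hη
      exact (hF η hη).differentiableAt (hN.mem_nhds hη)
    filter_upwards [Complex.norm_eventually_eq_of_isLocalMax hd hlm, hN.mem_nhds hξN] with η h1 h2
    exact ⟨h2, by rw [h1, heq]⟩
  have huniv := hT.eq_univ ⟨η₁, hη₁.1, le_rfl⟩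
  have hNuniv : N = univ := by
    refine eq_univ_of_forall fun η => ?_
    have : η ∈ {η | η ∈ N ∧ ‖F η₁‖ ≤ ‖F η‖} := by rw [huniv]; trivial
    exact this.1
  rw [hNuniv] at hb
  exact NormedSpace.unbounded_univ ℝ ℂ hb

end Crest.Agent.CZ
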