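import Crest.Agent.CZ_RMT
import Crest.Agent.CZ_Geo0
import Crest.Agent.CZ_MaxP

/-! CZ-27: the exterior Riemann map and its boundary behaviour. -/

set_option autoImplicit false

open Complex Metric Set Filter Topology
open scoped ComplexConjugate

namespace Crest.Agent.CZ

/-- Riemann map of `Vd K a` -/
structure Rm (K : Set ℂ) (a : ℂ) where
  g : ℂ → ℂ
  φ : ℂ → ℂ
  g_diff : DifferentiableOn ℂ g (ball 0 1)
  φ_diff : DifferentiableOn ℂ φ (Vd K a)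
  g_maps : MapsTo g (ball 0 1) (Vd K a)
  φ_maps : MapsTo φ (Vd K a) (ball 0 1)
  φ_g : ∀ ζ ∈ ball (0 : ℂ) 1, φ (g ζ) = ζ
  g_φ : ∀ z ∈ Vd K a, g (φ z) = z
  g_zero : g 0 = 0
  φ_zero : φ 0 = 0

theorem exists_rm {K : Set ℂ} (hK : IsCompact K) (hc : Convex ℝ K) {a : ℂ} (ha : a ∈ interior K) :
    Nonempty (Rm K a) := by
  obtain ⟨φ, g, h1, h2, h3, h4, h5, h6, h7, h8⟩ :=
    riemann_map (Vd_open hK a) (Vd_sc hK hc ha) (zero_mem_Vd K a) (Vd_bdd ha)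
  exact ⟨⟨g, φ, h2, h1, h4, h3, h6, h5, h8, h7⟩⟩

namespace Rm

variable {K : Set ℂ} {a : ℂ} (R : Rm K a)

/-- exterior map -/
noncomputable def G (ζ : ℂ) : ℂ := a + (R.g ζ)⁻¹

/-- its inverse -/
noncomputable def ψ (z : ℂ) : ℂ := R.φ ((z - a)⁻¹)

theorem g_ne {ζ : ℂ} (h : ζ ∈ ball (0 : ℂ) 1) (h0 : ζ ≠ 0) : R.g ζ ≠ 0 := by
  intro h1
  have := R.φ_g ζ h
  rw [h1, R.φ_zero] at this
  exact h0 this.symm

theorem chain {ζ : ℂ} (h : ζ ∈ ball (0 : ℂ) 1) (hK : IsCompact K) :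
    deriv R.φ (R.g ζ) * deriv R.g ζ = 1 := by
  have h1 : DifferentiableAt ℂ R.g ζ := R.g_diff.differentiableAt (isOpen_ball.mem_nhds h)
  have h2 : DifferentiableAt ℂ R.φ (R.g ζ) :=
    R.φ_diff.differentiableAt ((Vd_open hK a).mem_nhds (R.g_maps h))
  have h3 : deriv (R.φ ∘ R.g) ζ = deriv R.φ (R.g ζ) * deriv R.g ζ := deriv_comp ζ h2 h1
  rw [← h3]
  have h4 : R.φ ∘ R.g =ᶠ[𝓝 ζ] id := by
    filter_upwards [isOpen_ball.mem_nhds h] with w hw using R.φ_g w hw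
  rw [h4.deriv_eq, deriv_id]

theorem deriv_ne {ζ : ℂ} (h : ζ ∈ ball (0 : ℂ) 1) (hK : IsCompact K) : deriv R.g ζ ≠ 0 := by
  intro h1
  have := R.chain h hK
  rw [h1, mul_zero] at this
  exact zero_ne_one this

theorem G_notMem {ζ : ℂ} (h : ζ ∈ ball (0 : ℂ) 1) (h0 : ζ ≠ 0) : R.G ζ ∉ K := by
  rcases R.g_maps h with h1 | h1
  · exact absurd h1 (R.g_ne h h0)
  · exact h1

theorem ψ_G {ζ : ℂ} (h : ζ ∈ ball (0 : ℂ) 1) (h0 : ζ ≠ 0) : R.ψ (R.G ζ) = ζ := by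
  simp only [ψ, G, add_sub_cancel_left, inv_inv]
  exact R.φ_g ζ h

theorem mem_Vd {z : ℂ} (hz : z ∉ K) : (z - a)⁻¹ ∈ Vd K a := by
  right
  rw [inv_inv, add_sub_cancel]
  exact hz

theorem ψ_mem (ha : a ∈ K) {z : ℂ} (hz : z ∉ K) : R.ψ z ∈ ball (0 : ℂ) 1 :=
  R.φ_maps (mem_Vd hz)

theorem ψ_ne (ha : a ∈ K) {z : ℂ} (hz : z ∉ K) : R.ψ z ≠ 0 := by
  intro h
  have h1 := R.g_φ _ (mem_Vd (a := a) hz)
  rw [show R.φ ((z - a)⁻¹) = 0 from h, R.g_zero] at h1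
  have h2 : z - a = 0 := inv_eq_zero.1 h1.symm
  rw [sub_eq_zero] at h2
  exact hz (h2 ▸ ha)

theorem G_ψ (ha : a ∈ K) {z : ℂ} (hz : z ∉ K) : R.G (R.ψ z) = z := by
  simp only [ψ, G]
  rw [R.g_φ _ (mem_Vd hz), inv_inv, add_sub_cancel]

theorem G_diff : DifferentiableOn ℂ R.G (ball 0 1 \ {0}) := by
  refine DifferentiableOn.const_add _ ?_
  refine DifferentiableOn.fun_inv (R.g_diff.mono diff_subset) ?_
  rintro ζ ⟨h1, h2⟩
  exact R.g_ne h1 h2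

theorem ψ_diff (ha : a ∈ K) (hK : IsCompact K) : DifferentiableOn ℂ R.ψ Kᶜ := by
  refine R.φ_diff.comp (t := Vd K a) (g := R.φ) (f := fun z => (z - a)⁻¹) ?_ ?_
  · refine DifferentiableOn.fun_inv (by fun_prop) ?_
    intro z hz h
    rw [sub_eq_zero] at h
    exact hz (h ▸ ha)
  · intro z hz
    exact mem_Vd hz

theorem deriv_mul (hK : IsCompact K) : deriv R.φ 0 * deriv R.g 0 = 1 := by
  have := R.chain (mem_ball_self one_pos) hK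
  rwa [R.g_zero] at this

end Rm

end Crest.Agent.CZ
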