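import Crest.Agent.CZ_Geo1

/-! CZ-27b: boundary behaviour of the exterior Riemann map. -/

set_option autoImplicit false

open Complex Metric Set Filter Topology
open scoped ComplexConjugate

namespace Crest.Agent.CZ

namespace Rm

variable {K : Set ℂ} {a : ℂ} (R : Rm K a)

theorem inv_mem_Vd (ha : a ∈ K) {z : ℂ} (hz : z ∉ K) : (z - a)⁻¹ ∈ Vd K a := by
  right
  rw [inv_inv, add_sub_cancel]
  exact hz

theorem g_ψ (ha : a ∈ K) {z : ℂ} (hz : z ∉ K) : R.g (R.ψ z) = (z - a)⁻¹ :=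
  R.g_φ _ (inv_mem_Vd ha hz)

/-- `C = {z | z = 0 ∨ a + z⁻¹ ∉ W}` is a closed subset of the bounded set `Vd K a`, so `φ '' C` is
compact in the open disc. -/
theorem proper1 (hK : IsCompact K) (ha : a ∈ interior K) {W : Set ℂ} (hW : IsOpen W) (hKW : K ⊆ W) :
    ∃ s < 1, ∀ ζ ∈ ball (0 : ℂ) 1, s < ‖ζ‖ → R.G ζ ∈ W := by
  have hsub : Vd W a ⊆ Vd K a := by
    rintro z (hz | hz)
    · exact Or.inl hz
    · exact Or.inr fun h => hz (hKW h)
  have hcl : IsClosed (Vd W a) := by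
    rw [← isOpen_compl_iff]
    have heq : (Vd W a)ᶜ = {z : ℂ | z ≠ 0} ∩ (fun z : ℂ => a + z⁻¹) ⁻¹' W := by
      ext z
      simp only [Vd, mem_compl_iff, mem_ofPred_eq, not_or, not_not, mem_inter_iff, mem_preimage]
    rw [heq]
    refine ContinuousOn.isOpen_inter_preimage ?_ isOpen_ne hW
    exact continuousOn_const.add (continuousOn_id.inv₀ fun z hz => hz)
  have hcomp : IsCompact (Vd W a) :=
    Metric.isCompact_of_isClosed_isBounded hcl ((Vd_bdd ha).subset hsub)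
  have himg : IsCompact (R.φ '' Vd W a) :=
    hcomp.image_of_continuousOn (R.φ_diff.continuousOn.mono hsub)
  have hne : (R.φ '' Vd W a).Nonempty := ⟨_, 0, zero_mem_Vd W a, rfl⟩
  obtain ⟨p, hp, hpmax⟩ := himg.exists_isMaxOn hne continuous_norm.continuousOn
  obtain ⟨z₀, hz₀, rfl⟩ := hp
  refine ⟨‖R.φ z₀‖, ?_, ?_⟩
  · have := R.φ_maps (hsub hz₀)
    rwa [mem_ball_zero_iff] at this
  · intro ζ hζ hlt
    by_contra hG
    have h1 : R.g ζ ∈ Vd W a := Or.inr hG
    have h2 := hpmax (mem_image_of_mem R.φ h1)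
    simp only [mem_ofPred_eq, R.φ_g ζ hζ] at h2
    exact absurd h2 (not_le.mpr hlt)

/-- `{z ∉ K | ‖ψ z‖ ≤ 1 - ε}` is closed: it is the set of `z ≠ a` with `(z - a)⁻¹` in the compact
set `g '' closedBall 0 (1 - ε)`. -/
theorem proper2 (hK : IsCompact K) (ha : a ∈ interior K) {ε : ℝ} (hε : 0 < ε) :
    ∃ W : Set ℂ, IsOpen W ∧ K ⊆ W ∧ ∀ z ∈ W, z ∉ K → 1 - ε < ‖R.ψ z‖ := by
  have hb : closedBall (0 : ℂ) (1 - ε) ⊆ ball 0 1 := closedBall_subset_ball (by linarith)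
  have hKc : IsCompact (R.g '' closedBall (0 : ℂ) (1 - ε)) :=
    (isCompact_closedBall _ _).image_of_continuousOn (R.g_diff.continuousOn.mono hb)
  refine ⟨(fun z => z - a) ⁻¹' Vd (R.g '' closedBall (0 : ℂ) (1 - ε)) 0,
    (Vd_open hKc 0).preimage (continuous_id.sub continuous_const), ?_, ?_⟩
  · intro z hz
    by_cases hza : z - a = 0
    · exact Or.inl hza
    · right
      rintro ⟨ζ, hζ, hg⟩
      rw [zero_add] at hg
      rcases R.g_maps (hb hζ) with h | h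
      · rw [h] at hg
        exact hza (inv_eq_zero.mp hg.symm)
      · rw [hg, inv_inv, add_sub_cancel] at h
        exact h hz
  · intro z hz hzK
    by_contra hle
    rw [not_lt] at hle
    have haK : a ∈ K := interior_subset ha
    rcases hz with h | h
    · apply hzK
      rw [sub_eq_zero.mp h]
      exact haK
    · apply h
      rw [zero_add]
      exact ⟨R.ψ z, by rwa [mem_closedBall_zero_iff], R.g_ψ haK hzK⟩

/-- near infinity `ψ z * (z - a) → φ'(0)` -/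
theorem ψ_infty (hK : IsCompact K) (ha : a ∈ K) :
    Tendsto (fun z => R.ψ z * (z - a)) (Bornology.cobounded ℂ) (𝓝 (deriv R.φ 0)) := by
  have hd : HasDerivAt R.φ (deriv R.φ 0) 0 :=
    (R.φ_diff.differentiableAt ((Vd_open hK a).mem_nhds (zero_mem_Vd K a))).hasDerivAt
  rw [hasDerivAt_iff_tendsto_slope_zero] at hd
  simp only [zero_add, R.φ_zero, sub_zero, smul_eq_mul] at hd
  have h1 : Tendsto (fun z : ℂ => (z - a)⁻¹) (Bornology.cobounded ℂ) (𝓝[≠] 0) :=
    Filter.tendsto_inv₀_cobounded'.comp (tendsto_sub_const_cobounded a)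
  refine (hd.comp h1).congr fun z => ?_
  simp only [Function.comp_apply, inv_inv, ψ]
  ring

/-- `ψ` is bounded below on bounded sets (`g (φ τ) = τ`, `g` continuous at `0`, `g 0 = 0`) -/
theorem ψ_lower (hK : IsCompact K) (ha : a ∈ K) (r : ℝ) :
    ∃ c > 0, ∀ z, z ∉ K → ‖z‖ ≤ r → c ≤ ‖R.ψ z‖ := by
  have hM : (0 : ℝ) < |r| + ‖a‖ + 1 := by positivity
  have hc : ContinuousAt R.g 0 :=
    (R.g_diff.differentiableAt (ball_mem_nhds 0 one_pos)).continuousAt
  rw [Metric.continuousAt_iff] at hc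
  obtain ⟨δ, hδ, h⟩ := hc (|r| + ‖a‖ + 1)⁻¹ (inv_pos.mpr hM)
  refine ⟨δ, hδ, fun z hz hzr => ?_⟩
  by_contra hlt
  rw [not_le] at hlt
  have h2 := h (x := R.ψ z) (by rwa [dist_zero_right])
  rw [R.g_zero, dist_zero_right, R.g_ψ ha hz, norm_inv] at h2
  have hza : z - a ≠ 0 := fun h0 => hz (by rw [sub_eq_zero.mp h0]; exact ha)
  have h3 : ‖z - a‖ ≤ |r| + ‖a‖ + 1 := by
    have := norm_sub_le z a
    have := le_abs_self r
    linarith
  have h4 := inv_anti₀ (norm_pos_iff.mpr hza) h3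
  linarith

/-- `ζ G ζ → 1/g'(0)` at `0` -/
theorem G_zero (hK : IsCompact K) :
    Tendsto (fun ζ => ζ * R.G ζ) (𝓝[≠] 0) (𝓝 (deriv R.g 0)⁻¹) := by
  have hne : deriv R.g 0 ≠ 0 := right_ne_zero_of_mul_eq_one (R.deriv_mul hK)
  have hd : HasDerivAt R.g (deriv R.g 0) 0 :=
    (R.g_diff.differentiableAt (ball_mem_nhds 0 one_pos)).hasDerivAt
  rw [hasDerivAt_iff_tendsto_slope_zero] at hd
  simp only [zero_add, R.g_zero, sub_zero, smul_eq_mul] at hd
  have h1 := hd.inv₀ hne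
  have h2 : Tendsto (fun ζ : ℂ => ζ * a) (𝓝[≠] 0) (𝓝 (0 * a)) :=
    ((continuous_id.mul continuous_const).tendsto 0).mono_left nhdsWithin_le_nhds
  have h3 := h2.add h1
  rw [zero_mul, zero_add] at h3
  refine h3.congr fun ζ => ?_
  simp only [G, mul_add, mul_inv, inv_inv]

end Rm

end Crest.Agent.CZ
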