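import Crest.Agent.CZ_Geo1b

/-! CZ-28: comparison principle for the exterior map. -/

set_option autoImplicit false

open Complex Metric Set Filter Topology
open scoped ComplexConjugate

namespace Crest.Agent.CZ

/-- Comparison principle.  Proof: apply `max_principle_limsup` with `M = 1` to
`N = {η ∈ ball 0 1 | η ≠ 0 ∧ Φ η ∉ K}`, `F η = η / ψ (Φ η)`.  Boundary points `ξ`:
* `‖ξ‖ = 1`: near `ξ`, `Φ η ∈ W` (`h1`) for `W` from `proper2`, so `‖F η‖ ≤ 1/(1 - ε)`;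
* `0 < ‖ξ‖ < 1`, `Φ ξ ∈ K`: the same by continuity of `Φ` at `ξ`;
* `ξ = 0`: if `‖Φ η‖ ≤ r` then `‖F η‖ ≤ ‖η‖/c` (`ψ_lower`); if `‖Φ η‖ > r`, `r` large, then
  `F η = η (Φ η - a)/(ψ (Φ η) (Φ η - a))` has norm close to `‖b‖/‖φ'(0)‖ = ‖b g'(0)‖ ≤ 1` or
  smaller (`ψ_infty`, `h2`). -/
theorem Rm.compare {K : Set ℂ} {a : ℂ} (R : Rm K a) (hK : IsCompact K) (ha : a ∈ interior K)
    (Φ : ℂ → ℂ) (hΦ : DifferentiableOn ℂ Φ (ball 0 1 \ {0}))
    (h1 : ∀ W : Set ℂ, IsOpen W → K ⊆ W → ∃ s < 1, ∀ η ∈ ball (0 : ℂ) 1, s < ‖η‖ → Φ η ∈ W)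
    {b : ℂ} (h2 : Tendsto (fun η => η * Φ η) (𝓝[≠] 0) (𝓝 b)) (hb : ‖b * deriv R.g 0‖ ≤ 1)
    {η : ℂ} (hη : η ∈ ball (0 : ℂ) 1) (h0 : η ≠ 0) (hn : Φ η ∉ K) : ‖η‖ ≤ ‖R.ψ (Φ η)‖ := by
  have haK : a ∈ K := interior_subset ha
  have hopen : IsOpen (ball (0 : ℂ) 1 \ {0}) := isOpen_ball.sdiff isClosed_singleton
  set N : Set ℂ := (ball (0 : ℂ) 1 \ {0}) ∩ Φ ⁻¹' Kᶜ with hNdef
  have hN : IsOpen N := hΦ.continuousOn.isOpen_inter_preimage hopen hK.isClosed.isOpen_compl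
  have hNb : Bornology.IsBounded N :=
    isBounded_ball.subset fun x hx => hx.1.1
  have hNK : ∀ x ∈ N, Φ x ∉ K := fun x hx => hx.2
  have hψd : DifferentiableOn ℂ (fun η => R.ψ (Φ η)) N := by
    refine (R.ψ_diff haK hK).comp (hΦ.mono fun x hx => hx.1) fun x hx => hx.2
  have hψ0 : ∀ x ∈ N, R.ψ (Φ x) ≠ 0 := fun x hx => R.ψ_ne haK (hNK x hx)
  have hF : DifferentiableOn ℂ (fun η => η / R.ψ (Φ η)) N :=
    differentiableOn_id.div hψd hψ0
  -- the boundary estimate away from `0`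
  have key : ∀ ξ ∈ closure N, ξ ∉ N → ξ ≠ 0 → ∀ ε > 0,
      ∀ᶠ η in 𝓝[N] ξ, ‖η / R.ψ (Φ η)‖ ≤ 1 + ε := by
    intro ξ hξ hξN hξ0 ε hε
    obtain ⟨W, hW, hKW, hWψ⟩ := R.proper2 hK ha (ε := ε / (1 + ε)) (by positivity)
    have hevW : ∀ᶠ η in 𝓝[N] ξ, Φ η ∈ W := by
      by_cases h1ξ : ‖ξ‖ < 1
      · have hξd : ξ ∈ ball (0 : ℂ) 1 \ {0} := ⟨by simpa using h1ξ, by simpa using hξ0⟩
        have hΦξ : Φ ξ ∈ K := by
          by_contra h
          exact hξN ⟨hξd, h⟩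
        have hcont : ContinuousAt Φ ξ :=
          (hΦ.differentiableAt (hopen.mem_nhds hξd)).continuousAt
        have := hcont.eventually (hW.mem_nhds (hKW hΦξ))
        exact this.filter_mono nhdsWithin_le_nhds
      · obtain ⟨s, hs, hsW⟩ := h1 W hW hKW
        have hev : ∀ᶠ η in 𝓝 ξ, s < ‖η‖ :=
          continuous_norm.continuousAt.eventually (lt_mem_nhds (by linarith))
        filter_upwards [hev.filter_mono nhdsWithin_le_nhds, self_mem_nhdsWithin] with η h3 h4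
        exact hsW η h4.1.1 h3
    filter_upwards [hevW, self_mem_nhdsWithin] with η h3 h4
    have h5 := hWψ (Φ η) h3 (hNK η h4)
    have h6 : ‖η‖ < 1 := by simpa using h4.1.1
    have h7 : 1 - ε / (1 + ε) = (1 + ε)⁻¹ := by field_simp; ring
    rw [h7] at h5
    have h8 : 0 < ‖R.ψ (Φ η)‖ := lt_trans (by positivity) h5
    rw [norm_div, div_le_iff₀ h8]
    have h9 : 1 ≤ (1 + ε) * ‖R.ψ (Φ η)‖ := by
      have : (1 + ε) * (1 + ε)⁻¹ ≤ (1 + ε) * ‖R.ψ (Φ η)‖ :=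
        mul_le_mul_of_nonneg_left h5.le (by positivity)
      rwa [mul_inv_cancel₀ (by positivity)] at this
    linarith
  -- the boundary estimate at `0`
  have key0 : ∀ ε > 0, ∀ᶠ η in 𝓝[N] (0 : ℂ), ‖η / R.ψ (Φ η)‖ ≤ 1 + ε := by
    intro ε hε
    set m : ℝ := ‖deriv R.φ 0‖ with hm
    have hdm := R.deriv_mul hK
    have hm0 : 0 < m := by
      rw [hm, norm_pos_iff]
      intro h
      rw [h, zero_mul] at hdm
      exact zero_ne_one hdm
    have hg0 : 0 < ‖deriv R.g 0‖ := by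
      rw [norm_pos_iff]
      intro h
      rw [h, mul_zero] at hdm
      exact zero_ne_one hdm
    have hbm : ‖b‖ ≤ m := by
      rw [norm_mul] at hb
      have h3 : m * ‖deriv R.g 0‖ = 1 := by rw [hm, ← norm_mul, hdm, norm_one]
      have h4 : ‖b‖ * ‖deriv R.g 0‖ ≤ m * ‖deriv R.g 0‖ := by rw [h3]; exact hb
      exact le_of_mul_le_mul_right h4 hg0
    set δ : ℝ := ε * m / (2 + ε) with hδ
    have hδ0 : 0 < δ := by positivity
    have hδm : m + δ = (1 + ε) * (m - δ) := by rw [hδ]; field_simp; ring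
    have hmδ : 0 < m - δ := by
      have : δ < m := by
        rw [hδ, div_lt_iff₀ (by positivity)]
        nlinarith
      linarith
    -- behaviour at infinity
    have hinf := R.ψ_infty hK haK
    have hinf2 : ∀ᶠ z in Bornology.cobounded ℂ, m - δ < ‖R.ψ z * (z - a)‖ := by
      have := (continuous_norm.tendsto _).comp hinf
      exact this.eventually (lt_mem_nhds (by rw [← hm]; linarith))
    rw [(Metric.hasBasis_cobounded_compl_closedBall (0 : ℂ)).eventually_iff] at hinf2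
    obtain ⟨r, -, hr⟩ := hinf2
    obtain ⟨c, hc0, hc⟩ := R.ψ_lower hK haK r
    -- behaviour at `0`
    have hb1 : Tendsto (fun η => η * (Φ η - a)) (𝓝[≠] 0) (𝓝 b) := by
      have h3 : Tendsto (fun η : ℂ => η * a) (𝓝[≠] 0) (𝓝 0) := by
        have : Tendsto (fun η : ℂ => η * a) (𝓝 0) (𝓝 (0 * a)) :=
          (continuous_id.mul continuous_const).tendsto 0
        rw [zero_mul] at this
        exact this.mono_left nhdsWithin_le_nhds
      have h4 := h2.sub h3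
      rw [sub_zero] at h4
      refine h4.congr fun η => ?_
      ring
    have hev1 : ∀ᶠ η in 𝓝[≠] (0 : ℂ), ‖η * (Φ η - a)‖ < m + δ := by
      have := (continuous_norm.tendsto _).comp hb1
      exact this.eventually (gt_mem_nhds (by linarith))
    have hsub : 𝓝[N] (0 : ℂ) ≤ 𝓝[≠] 0 := by
      refine nhdsWithin_mono _ fun x hx => ?_
      simpa using hx.1.2
    have hev2 : ∀ᶠ η in 𝓝[N] (0 : ℂ), ‖η‖ < c := by
      have : ∀ᶠ η in 𝓝 (0 : ℂ), ‖η‖ < c :=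
        continuous_norm.continuousAt.eventually (gt_mem_nhds (by simpa using hc0))
      exact this.filter_mono nhdsWithin_le_nhds
    filter_upwards [hsub hev1, hev2, self_mem_nhdsWithin] with η h3 h4 h5
    have hΦK := hNK η h5
    have h8 : 0 < ‖R.ψ (Φ η)‖ := norm_pos_iff.2 (hψ0 η h5)
    rw [norm_div, div_le_iff₀ h8]
    by_cases hΦr : ‖Φ η‖ ≤ r
    · have h6 := hc (Φ η) hΦK hΦr
      nlinarith
    · have h6 : m - δ < ‖R.ψ (Φ η) * (Φ η - a)‖ := hr (by simpa using hΦr)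
      rw [norm_mul] at h6 h3
      have h7 : 0 < ‖Φ η - a‖ := by
        by_contra hneg
        have : ‖Φ η - a‖ = 0 := le_antisymm (not_lt.1 hneg) (norm_nonneg _)
        rw [this, mul_zero] at h6
        linarith
      have h9 : ‖η‖ * ‖Φ η - a‖ ≤ ((1 + ε) * ‖R.ψ (Φ η)‖) * ‖Φ η - a‖ := by
        have : (1 + ε) * (m - δ) ≤ (1 + ε) * (‖R.ψ (Φ η)‖ * ‖Φ η - a‖) :=
          mul_le_mul_of_nonneg_left h6.le (by positivity)
        rw [← hδm] at this
        linarith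
      exact le_of_mul_le_mul_right h9 h7
  have hmax := max_principle_limsup hN hNb hF (M := 1) (by
    intro ξ hξ hξN ε hε
    by_cases hξ0 : ξ = 0
    · subst hξ0
      exact key0 ε hε
    · exact key ξ hξ hξN hξ0 ε hε)
  have hηN : η ∈ N := ⟨⟨hη, by simpa using h0⟩, hn⟩
  have := hmax η hηN
  have h8 : 0 < ‖R.ψ (Φ η)‖ := norm_pos_iff.2 (hψ0 η hηN)
  rw [norm_div, div_le_iff₀ h8, one_mul] at this
  exact this

end Crest.Agent.CZ
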