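import Crest.Agent.CZ_Geo2

/-! CZ-29: convexity of the level curves of the exterior map. -/

set_option autoImplicit false

open Complex Metric Set Filter Topology
open scoped ComplexConjugate

namespace Crest.Agent.CZ

private theorem geo3_mul_mem {ω η : ℂ} (hω : ‖ω‖ = 1) (hη : η ∈ ball (0 : ℂ) 1) :
    η * ω ∈ ball (0 : ℂ) 1 := by
  rw [mem_ball_zero_iff] at hη ⊢
  rw [norm_mul, hω, mul_one]
  exact hη

private theorem geo3_diff {K : Set ℂ} {a : ℂ} (R : Rm K a) {ω : ℂ} (hω : ‖ω‖ = 1) :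
    DifferentiableOn ℂ (fun η => R.G (η * ω)) (ball 0 1 \ {0}) := by
  have hω0 : ω ≠ 0 := by
    intro h
    rw [h, norm_zero] at hω
    exact zero_ne_one hω
  refine R.G_diff.comp ((differentiable_id.mul_const ω).differentiableOn) ?_
  intro η hη
  exact ⟨geo3_mul_mem hω hη.1, mul_ne_zero hη.2 hω0⟩

private theorem geo3_tendsto {K : Set ℂ} {a : ℂ} (R : Rm K a) (hK : IsCompact K) {ω : ℂ}
    (hω : ‖ω‖ = 1) :
    Tendsto (fun η => η * R.G (η * ω)) (𝓝[≠] 0) (𝓝 (ω⁻¹ * (deriv R.g 0)⁻¹)) := by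
  have hω0 : ω ≠ 0 := by
    intro h
    rw [h, norm_zero] at hω
    exact zero_ne_one hω
  have h1 : Tendsto (fun η : ℂ => η * ω) (𝓝[≠] 0) (𝓝[≠] 0) := by
    refine tendsto_nhdsWithin_iff.mpr ⟨?_, ?_⟩
    · have : Tendsto (fun η : ℂ => η * ω) (𝓝 0) (𝓝 (0 * ω)) :=
        (continuous_id.mul continuous_const).tendsto 0
      rw [zero_mul] at this
      exact this.mono_left nhdsWithin_le_nhds
    · filter_upwards [self_mem_nhdsWithin] with η hη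
      exact mul_ne_zero hη hω0
  have h2 := (R.G_zero hK).comp h1
  have h3 := h2.const_mul ω⁻¹
  refine h3.congr fun η => ?_
  simp only [Function.comp]
  field_simp

private theorem geo3_proper {K : Set ℂ} {a : ℂ} (R : Rm K a) (hK : IsCompact K)
    (hc : Convex ℝ K) (ha : a ∈ interior K) {W : Set ℂ} (hW : IsOpen W) (hKW : K ⊆ W) :
    ∃ W' : Set ℂ, Convex ℝ W' ∧ K ⊆ W' ∧ W' ⊆ W ∧
      ∃ s < 1, ∀ ζ ∈ ball (0 : ℂ) 1, s < ‖ζ‖ → R.G ζ ∈ W' := by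
  obtain ⟨δ, hδ, hδW⟩ := hK.exists_thickening_subset_open hW hKW
  obtain ⟨s, hs, hsG⟩ := R.proper1 hK ha (isOpen_thickening (δ := δ) (E := K))
    (self_subset_thickening hδ K)
  exact ⟨thickening δ K, hc.thickening δ, self_subset_thickening hδ K, hδW, s, hs, hsG⟩

/-- Proof: `compare` with `Φ η = (1 - t) G (η ω₁) + t G (η ω₂)`, `ω_i = ζ_i/s`, `s = ‖ζ_i‖`, at
`η = s`.  `h1`: `W ⊇ thickening δ K` which is convex, and `proper1`.  `h2`: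
`b = ((1 - t) ω₁⁻¹ + t ω₂⁻¹)/g'(0)` (`G_zero`). -/
theorem Rm.conv1 {K : Set ℂ} {a : ℂ} (R : Rm K a) (hK : IsCompact K) (hc : Convex ℝ K)
    (ha : a ∈ interior K) {ζ₁ ζ₂ : ℂ} (h1 : ζ₁ ∈ ball (0 : ℂ) 1) (h0 : ζ₁ ≠ 0) (h12 : ‖ζ₁‖ = ‖ζ₂‖)
    {t : ℝ} (ht0 : 0 ≤ t) (ht1 : t ≤ 1)
    (hn : ((1 - t : ℝ) : ℂ) * R.G ζ₁ + (t : ℂ) * R.G ζ₂ ∉ K) :
    ‖ζ₁‖ ≤ ‖R.ψ (((1 - t : ℝ) : ℂ) * R.G ζ₁ + (t : ℂ) * R.G ζ₂)‖ := by
  have hs0 : (‖ζ₁‖ : ℂ) ≠ 0 := by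
    exact_mod_cast norm_ne_zero_iff.mpr h0
  have hsp : 0 < ‖ζ₁‖ := norm_pos_iff.mpr h0
  set ω₁ : ℂ := ζ₁ / (‖ζ₁‖ : ℂ) with hω₁
  set ω₂ : ℂ := ζ₂ / (‖ζ₁‖ : ℂ) with hω₂
  have hn1 : ‖ω₁‖ = 1 := by
    rw [hω₁, norm_div, Complex.norm_real, norm_norm, div_self hsp.ne']
  have hn2 : ‖ω₂‖ = 1 := by
    rw [hω₂, norm_div, Complex.norm_real, norm_norm, ← h12, div_self hsp.ne']
  have e1 : (‖ζ₁‖ : ℂ) * ω₁ = ζ₁ := by rw [hω₁]; field_simp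
  have e2 : (‖ζ₁‖ : ℂ) * ω₂ = ζ₂ := by rw [hω₂]; field_simp
  have ht1' : 0 ≤ 1 - t := by linarith
  set Φ : ℂ → ℂ := fun η => ((1 - t : ℝ) : ℂ) * R.G (η * ω₁) + (t : ℂ) * R.G (η * ω₂) with hΦ
  have hΦd : DifferentiableOn ℂ Φ (ball 0 1 \ {0}) :=
    ((geo3_diff R hn1).const_mul _).add ((geo3_diff R hn2).const_mul _)
  have hΦW : ∀ W : Set ℂ, IsOpen W → K ⊆ W →
      ∃ s < 1, ∀ η ∈ ball (0 : ℂ) 1, s < ‖η‖ → Φ η ∈ W := by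
    intro W hW hKW
    obtain ⟨W', hW'c, -, hW'W, s, hs, hsG⟩ := geo3_proper R hK hc ha hW hKW
    refine ⟨s, hs, fun η hη hηs => hW'W ?_⟩
    have g1 := hsG (η * ω₁) (geo3_mul_mem hn1 hη) (by rw [norm_mul, hn1, mul_one]; exact hηs)
    have g2 := hsG (η * ω₂) (geo3_mul_mem hn2 hη) (by rw [norm_mul, hn2, mul_one]; exact hηs)
    have := hW'c g1 g2 ht1' ht0 (by ring)
    simpa only [Complex.real_smul] using this
  have hlim : Tendsto (fun η => η * Φ η) (𝓝[≠] 0)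
      (𝓝 (((1 - t : ℝ) : ℂ) * (ω₁⁻¹ * (deriv R.g 0)⁻¹) +
        (t : ℂ) * (ω₂⁻¹ * (deriv R.g 0)⁻¹))) := by
    refine (((geo3_tendsto R hK hn1).const_mul _).add
      ((geo3_tendsto R hK hn2).const_mul _)).congr fun η => ?_
    simp only [hΦ]
    ring
  have hb : ‖(((1 - t : ℝ) : ℂ) * (ω₁⁻¹ * (deriv R.g 0)⁻¹) +
        (t : ℂ) * (ω₂⁻¹ * (deriv R.g 0)⁻¹)) * deriv R.g 0‖ ≤ 1 := by
    have hd : deriv R.g 0 ≠ 0 := R.deriv_ne (mem_ball_self one_pos) hK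
    have : (((1 - t : ℝ) : ℂ) * (ω₁⁻¹ * (deriv R.g 0)⁻¹) +
        (t : ℂ) * (ω₂⁻¹ * (deriv R.g 0)⁻¹)) * deriv R.g 0 =
        ((1 - t : ℝ) : ℂ) * ω₁⁻¹ + (t : ℂ) * ω₂⁻¹ := by
      field_simp
    rw [this]
    refine (norm_add_le _ _).trans ?_
    rw [norm_mul, norm_mul, norm_inv, norm_inv, hn1, hn2, Complex.norm_real, Complex.norm_real,
      Real.norm_of_nonneg ht1', Real.norm_of_nonneg ht0]
    simp
  have hΦs : Φ (‖ζ₁‖ : ℂ) = ((1 - t : ℝ) : ℂ) * R.G ζ₁ + (t : ℂ) * R.G ζ₂ := by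
    simp only [hΦ]
    rw [e1, e2]
  have hmem : (‖ζ₁‖ : ℂ) ∈ ball (0 : ℂ) 1 := by
    rw [mem_ball_zero_iff, Complex.norm_real, norm_norm]
    exact mem_ball_zero_iff.mp h1
  have := R.compare hK ha Φ hΦd hΦW hlim hb hmem hs0 (by rw [hΦs]; exact hn)
  rwa [hΦs, Complex.norm_real, norm_norm] at this

/-- Proof: `compare` with `Φ η = (1 - t) G (η ω) + t z`, `ω = ζ/‖ζ‖`, at `η = ‖ζ‖`. -/
theorem Rm.conv2 {K : Set ℂ} {a : ℂ} (R : Rm K a) (hK : IsCompact K) (hc : Convex ℝ K)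
    (ha : a ∈ interior K) {ζ z : ℂ} (h1 : ζ ∈ ball (0 : ℂ) 1) (h0 : ζ ≠ 0) (hz : z ∈ K)
    {t : ℝ} (ht0 : 0 ≤ t) (ht1 : t ≤ 1)
    (hn : ((1 - t : ℝ) : ℂ) * R.G ζ + (t : ℂ) * z ∉ K) :
    ‖ζ‖ ≤ ‖R.ψ (((1 - t : ℝ) : ℂ) * R.G ζ + (t : ℂ) * z)‖ := by
  have hs0 : (‖ζ‖ : ℂ) ≠ 0 := by
    exact_mod_cast norm_ne_zero_iff.mpr h0
  have hsp : 0 < ‖ζ‖ := norm_pos_iff.mpr h0
  set ω : ℂ := ζ / (‖ζ‖ : ℂ) with hω
  have hn1 : ‖ω‖ = 1 := by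
    rw [hω, norm_div, Complex.norm_real, norm_norm, div_self hsp.ne']
  have e1 : (‖ζ‖ : ℂ) * ω = ζ := by rw [hω]; field_simp
  have ht1' : 0 ≤ 1 - t := by linarith
  set Φ : ℂ → ℂ := fun η => ((1 - t : ℝ) : ℂ) * R.G (η * ω) + (t : ℂ) * z with hΦ
  have hΦd : DifferentiableOn ℂ Φ (ball 0 1 \ {0}) :=
    ((geo3_diff R hn1).const_mul _).add (differentiableOn_const _)
  have hΦW : ∀ W : Set ℂ, IsOpen W → K ⊆ W →
      ∃ s < 1, ∀ η ∈ ball (0 : ℂ) 1, s < ‖η‖ → Φ η ∈ W := by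
    intro W hW hKW
    obtain ⟨W', hW'c, hKW', hW'W, s, hs, hsG⟩ := geo3_proper R hK hc ha hW hKW
    refine ⟨s, hs, fun η hη hηs => hW'W ?_⟩
    have g1 := hsG (η * ω) (geo3_mul_mem hn1 hη) (by rw [norm_mul, hn1, mul_one]; exact hηs)
    have := hW'c g1 (hKW' hz) ht1' ht0 (by ring)
    simpa only [Complex.real_smul] using this
  have hlim : Tendsto (fun η => η * Φ η) (𝓝[≠] 0)
      (𝓝 (((1 - t : ℝ) : ℂ) * (ω⁻¹ * (deriv R.g 0)⁻¹))) := by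
    have h3 : Tendsto (fun η : ℂ => η * ((t : ℂ) * z)) (𝓝[≠] 0) (𝓝 0) := by
      have : Tendsto (fun η : ℂ => η * ((t : ℂ) * z)) (𝓝 0) (𝓝 (0 * ((t : ℂ) * z))) :=
        (continuous_id.mul continuous_const).tendsto 0
      rw [zero_mul] at this
      exact this.mono_left nhdsWithin_le_nhds
    have h4 := ((geo3_tendsto R hK hn1).const_mul ((1 - t : ℝ) : ℂ)).add h3
    rw [add_zero] at h4
    refine h4.congr fun η => ?_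
    simp only [hΦ]
    ring
  have hb : ‖((1 - t : ℝ) : ℂ) * (ω⁻¹ * (deriv R.g 0)⁻¹) * deriv R.g 0‖ ≤ 1 := by
    have hd : deriv R.g 0 ≠ 0 := R.deriv_ne (mem_ball_self one_pos) hK
    have : ((1 - t : ℝ) : ℂ) * (ω⁻¹ * (deriv R.g 0)⁻¹) * deriv R.g 0 =
        ((1 - t : ℝ) : ℂ) * ω⁻¹ := by
      field_simp
    rw [this, norm_mul, norm_inv, hn1, Complex.norm_real, Real.norm_of_nonneg ht1']
    simp only [inv_one, mul_one]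
    linarith
  have hΦs : Φ (‖ζ‖ : ℂ) = ((1 - t : ℝ) : ℂ) * R.G ζ + (t : ℂ) * z := by
    simp only [hΦ]
    rw [e1]
  have hmem : (‖ζ‖ : ℂ) ∈ ball (0 : ℂ) 1 := by
    rw [mem_ball_zero_iff, Complex.norm_real, norm_norm]
    exact mem_ball_zero_iff.mp h1
  have := R.compare hK ha Φ hΦd hΦW hlim hb hmem hs0 (by rw [hΦs]; exact hn)
  rwa [hΦs, Complex.norm_real, norm_norm] at this

end Crest.Agent.CZ
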