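import Crest.Agent.CZ_XOp
import Crest.Agent.CZ_Dv

/-! CZ-56: the Cauchy formula for holomorphic functions. -/

set_option autoImplicit false

open Complex Metric Set Filter Topology Polynomial
open scoped ComplexConjugate
open Crest.AnalysisR.NumRange

namespace Crest.Agent.CZ

variable {K U : Set ℂ} (E : Ext K U)

/-- Cauchy's theorem: `h` has a primitive on the convex set `U` (`Convex.exists_forall_hasDerivWithinAt`)
and `Th ζ = - ζ G'(ζ)`. -/
theorem Ext.av_Th_mul (hUo : IsOpen U) (hUc : Convex ℝ U) {h : ℂ → ℂ}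
    (hh : DifferentiableOn ℂ h U) :
    Real.circleAverage (fun ζ => E.Th ζ * h (E.G ζ)) 0 E.ρ = 0 := by
  rw [Real.circleAverage_eq_circleIntegral E.ρ_pos.ne']
  obtain ⟨F, hF⟩ := hUc.exists_forall_hasDerivWithinAt hh
  have key : (∮ z in C((0 : ℂ), E.ρ), (z - 0)⁻¹ • (E.Th z * h (E.G z))) = 0 := by
    refine circleIntegral.integral_eq_zero_of_hasDerivWithinAt E.ρ_pos.le
      (f := fun z => -F (E.G z)) fun z hz => ?_
    have hz1 : ‖z‖ = E.ρ := by simpa using hz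
    have hz0 : z ≠ 0 := by
      rintro rfl
      rw [norm_zero] at hz1
      exact E.ρ_pos.ne hz1
    have hzb : z ∈ ball (0 : ℂ) 1 := by
      rw [mem_ball_zero_iff, hz1]; exact E.ρ_lt
    have hg := E.g_ne hzb hz0
    have hd : HasDerivAt E.g (deriv E.g z) z :=
      (E.diff.differentiableAt (isOpen_ball.mem_nhds hzb)).hasDerivAt
    have hGd : HasDerivAt E.G (-deriv E.g z / (E.g z) ^ 2) z := (hd.inv hg).const_add E.a
    have hU : E.G z ∈ U := E.mem_U z hz1
    have hFd : HasDerivAt F (h (E.G z)) (E.G z) := (hF _ hU).hasDerivAt (hUo.mem_nhds hU)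
    refine HasDerivAt.hasDerivWithinAt ((hFd.comp z hGd).neg.congr_deriv ?_)
    rw [smul_eq_mul, sub_zero]
    unfold Ext.Th
    field_simp
  rw [key, smul_zero]

/-- `z ↦ ⟪y, op (adjugate (z - A)) x⟫` is entire -/
theorem hol_adj_diff {n : ℕ} (A : Matrix (Fin n) (Fin n) ℂ) (x y : EuclideanSpace ℂ (Fin n)) :
    Differentiable ℂ (fun z : ℂ =>
      (inner ℂ y (op (Matrix.adjugate (Matrix.scalar (Fin n) z - A)) x) : ℂ)) := by
  have h1 : ∀ z : ℂ, Matrix.adjugate (Matrix.scalar (Fin n) z - A)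
      = (evalRingHom z).mapMatrix (Matrix.adjugate (Matrix.charmatrix A)) := by
    intro z
    rw [RingHom.map_adjugate]
    congr 1
    ext i j
    by_cases hij : i = j
    · subst hij
      simp [Matrix.charmatrix_apply_eq]
    · simp [Matrix.charmatrix_apply_ne _ _ _ hij, Matrix.diagonal_apply_ne _ hij]
  have h2 : (fun z : ℂ =>
      (inner ℂ y (op (Matrix.adjugate (Matrix.scalar (Fin n) z - A)) x) : ℂ))
      = fun z => ∑ i, (∑ j, (Matrix.adjugate (Matrix.charmatrix A) i j).eval z * x j)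
          * conj (y i) := by
    funext z
    rw [h1 z, PiLp.inner_apply]
    refine Finset.sum_congr rfl fun i _ => ?_
    simp only [RCLike.inner_apply, Matrix.ofLp_toEuclideanCLM, Matrix.mulVec, dotProduct]
    rfl
  rw [h2]
  refine Differentiable.fun_sum fun i _ => ?_
  refine Differentiable.mul ?_ (differentiable_const _)
  refine Differentiable.fun_sum fun j _ => ?_
  exact (Polynomial.differentiable _).mul (differentiable_const _)

theorem hol_aux {𝔸 : Type*} [Ring 𝔸] [Algebra ℂ 𝔸] (B : 𝔸) {g : ℂ} (hg : g ≠ 0) (a : ℂ) :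
    1 - g • (B - algebraMap ℂ 𝔸 a) = g • ((a + g⁻¹) • (1 : 𝔸) - B) := by
  rw [Algebra.algebraMap_eq_smul_one, smul_sub, smul_sub, smul_smul, smul_smul, mul_add,
    mul_inv_cancel₀ hg, add_smul, one_smul]
  abel

/-- `χ (G ζ) • X ζ = Th ζ • op (adjugate (G ζ - A))` -/
theorem Ext.hol_X_adj {n : ℕ} (A : Matrix (Fin n) (Fin n) ℂ)
    (hA : ∀ x : EuclideanSpace ℂ (Fin n), ‖x‖ = 1 → inner ℂ x (op A x) ∈ K)
    {ζ : ℂ} (hζ : ‖ζ‖ = E.ρ) :
    A.charpoly.eval (E.G ζ) • E.X (op A) ζ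
      = E.Th ζ • op (Matrix.adjugate (Matrix.scalar (Fin n) (E.G ζ) - A)) := by
  have hζb : ζ ∈ ball (0 : ℂ) 1 := by
    rw [mem_ball_zero_iff, hζ]; exact E.ρ_lt
  have hζ0 : ζ ≠ 0 := by
    rintro rfl
    rw [norm_zero] at hζ
    exact absurd hζ E.ρ_pos.ne
  have hg : E.g ζ ≠ 0 := E.g_ne hζb hζ0
  have hU := E.isUnit_X (op A) hA hζb
  obtain ⟨M, hM⟩ : ∃ M, M = Matrix.scalar (Fin n) (E.G ζ) - A := ⟨_, rfl⟩
  obtain ⟨T, hT⟩ : ∃ T, T = 1 - E.g ζ • (op A - algebraMap ℂ _ E.a) := ⟨_, rfl⟩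
  have hTM : T = E.g ζ • op M := by
    rw [hT, hM]
    have h1 : Matrix.scalar (Fin n) (E.G ζ) = E.G ζ • (1 : Matrix (Fin n) (Fin n) ℂ) := by
      rw [Matrix.smul_one_eq_diagonal]; rfl
    have h2 : op (E.G ζ • (1 : Matrix (Fin n) (Fin n) ℂ) - A)
        = E.G ζ • (1 : EuclideanSpace ℂ (Fin n) →L[ℂ] EuclideanSpace ℂ (Fin n)) - op A := by
      unfold op
      rw [map_sub, map_smul, map_one]
    rw [h1, h2]
    exact hol_aux (op A) hg E.a
  have hdet : op M * op M.adjugate = A.charpoly.eval (E.G ζ) • 1 := by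
    rw [← map_mul, Matrix.mul_adjugate, map_smul, map_one, Matrix.eval_charpoly, hM]
  have hTadj : T * op M.adjugate = (E.g ζ * A.charpoly.eval (E.G ζ)) • 1 := by
    rw [hTM, smul_mul_assoc, hdet, smul_smul]
  rw [← hT] at hU
  have hinv : op M.adjugate = (E.g ζ * A.charpoly.eval (E.G ζ)) • Ring.inverse T := by
    calc op M.adjugate = (Ring.inverse T * T) * op M.adjugate := by
          rw [Ring.inverse_mul_cancel _ hU, one_mul]
      _ = Ring.inverse T * (T * op M.adjugate) := mul_assoc _ _ _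
      _ = _ := by rw [hTadj, mul_smul_comm, mul_one]
  rw [← hM, hinv]
  unfold Ext.X Ext.Th
  rw [← hT, smul_smul, smul_smul, E.c_eq hζ0]
  congr 1
  field_simp

/-- Proof: `h (G ζ) = q (G ζ) + χ (G ζ) r (G ζ)` on the circle.  The first part is `av_inner`
(with `aeval_op`), for the second `χ (G ζ) • X ζ = Th ζ • op (adjugate (G ζ - A))` (Cayley-Hamilton:
`(z - A) * adjugate (z - A) = χ z`), so it is the mean of `Th ζ * (r s) (G ζ)` with
`s z = ⟪y, op (adjugate (z - A)) x⟫` entire (a polynomial in `z`): `av_Th_mul`. -/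
theorem Ext.av_hol (hUo : IsOpen U) (hUc : Convex ℝ U) {n : ℕ} (A : Matrix (Fin n) (Fin n) ℂ)
    (hA : numRange A ⊆ K) {h : ℂ → ℂ} {q : ℂ[X]} (hD : Dv A U h q)
    (x y : EuclideanSpace ℂ (Fin n)) :
    Real.circleAverage (fun ζ => h (E.G ζ) * inner ℂ y (E.X (op A) ζ x)) 0 E.ρ
      = inner ℂ y (op (aeval A q) x) := by
  have hA' : ∀ x : EuclideanSpace ℂ (Fin n), ‖x‖ = 1 → inner ℂ x (op A x) ∈ K :=
    fun x hx => hA ⟨x, hx, rfl⟩
  obtain ⟨r, hr, hrq⟩ := hD
  obtain ⟨s, hs⟩ : ∃ s : ℂ → ℂ, s = fun z : ℂ =>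
      (inner ℂ y (op (Matrix.adjugate (Matrix.scalar (Fin n) z - A)) x) : ℂ) := ⟨_, rfl⟩
  have hsd : Differentiable ℂ s := by rw [hs]; exact hol_adj_diff A x y
  have hrs : DifferentiableOn ℂ (fun z => r z * s z) U := hr.mul hsd.differentiableOn
  have hz := E.av_Th_mul hUo hUc hrs
  have hq := E.av_inner (op A) hA' q x y
  rw [aeval_op] at hq
  have hsph : ∀ ζ ∈ sphere (0 : ℂ) |E.ρ|, ‖ζ‖ = E.ρ := by
    intro ζ hζ
    rwa [mem_sphere_zero_iff_norm, abs_of_pos E.ρ_pos] at hζ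
  have hsub : sphere (0 : ℂ) |E.ρ| ⊆ ball 0 1 \ {0} := by
    intro ζ hζ
    have hζ' := hsph ζ hζ
    refine ⟨by rw [mem_ball_zero_iff, hζ']; exact E.ρ_lt, ?_⟩
    rintro h
    rw [mem_singleton_iff.1 h, norm_zero] at hζ'
    exact absurd hζ' E.ρ_pos.ne
  have hG : ContinuousOn E.G (sphere 0 |E.ρ|) := (E.G_diff.continuousOn).mono hsub
  have hX : ContinuousOn (E.X (op A)) (sphere 0 |E.ρ|) :=
    ((E.X_diff (op A) hA').continuousOn).mono (hsub.trans sdiff_subset)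
  have hXi : ContinuousOn (fun ζ => (inner ℂ y (E.X (op A) ζ x) : ℂ)) (sphere 0 |E.ρ|) :=
    continuousOn_const.inner (hX.clm_apply continuousOn_const)
  have hTh : ContinuousOn E.Th (sphere 0 |E.ρ|) := by
    unfold Ext.Th
    refine ((continuousOn_id.mul ((E.deriv_diff.continuousOn).mono (hsub.trans sdiff_subset))).div
      (((E.diff.continuousOn).mono (hsub.trans sdiff_subset)).pow 2) ?_)
    intro ζ hζ
    exact pow_ne_zero 2 (E.g_ne (hsub hζ).1 (by simpa using (hsub hζ).2))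
  have hmaps : MapsTo E.G (sphere 0 |E.ρ|) U := fun ζ hζ => E.mem_U ζ (hsph ζ hζ)
  have hi1 : CircleIntegrable (fun ζ => q.eval (E.G ζ) * inner ℂ y (E.X (op A) ζ x)) 0 E.ρ := by
    apply ContinuousOn.circleIntegrable'
    exact (q.continuous.comp_continuousOn hG).mul hXi
  have hi2 : CircleIntegrable (fun ζ => E.Th ζ * (r (E.G ζ) * s (E.G ζ))) 0 E.ρ := by
    apply ContinuousOn.circleIntegrable'
    exact hTh.mul (hrs.continuousOn.comp hG hmaps)
  have hsum := Real.circleAverage_add hi1 hi2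
  rw [hz, hq, add_zero] at hsum
  rw [← hsum]
  refine Real.circleAverage_congr_sphere fun ζ hζ => ?_
  have hζ' := hsph ζ hζ
  have e1 : A.charpoly.eval (E.G ζ) * inner ℂ y (E.X (op A) ζ x)
      = E.Th ζ * s (E.G ζ) := by
    have e2 := congrArg (fun T : EuclideanSpace ℂ (Fin n) →L[ℂ] EuclideanSpace ℂ (Fin n) =>
      (inner ℂ y (T x) : ℂ)) (E.hol_X_adj A hA' hζ')
    simp only [_root_.smul_apply, inner_smul_right] at e2
    rw [e2, hs]
  simp only [Pi.add_apply]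
  have e3 : h (E.G ζ) = q.eval (E.G ζ) + A.charpoly.eval (E.G ζ) * r (E.G ζ) :=
    hrq _ (E.mem_U ζ hζ')
  rw [e3]
  linear_combination (r (E.G ζ)) * e1

end Crest.Agent.CZ
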