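import Mathlib

/-! CZ-22: Hurwitz's theorem (injectivity of limits). -/

set_option autoImplicit false

open Complex Metric Set Filter Topology
open scoped ComplexConjugate

namespace Crest.Agent.CZ

/-- Proof: if `f a = f b`, `a ≠ b`, then `f - f a` is not locally constant near `b` (identity
theorem on the preconnected `V`), so there is a closed disc `closedBall b r ⊆ V` not containing `a`
with `‖f - f a‖ ≥ m > 0` on the circle.  `φ n - φ n a` has no zero on the disc (injectivity) and is
`≥ m/2` in norm on the circle for large `n`, so by the maximum principle for its inverse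
`‖φ n b - φ n a‖ ≥ m/2`; but it tends to `f b - f a = 0`. -/
theorem hurwitz_inj {V : Set ℂ} (hV : IsOpen V) (hc : IsPreconnected V) (φ : ℕ → ℂ → ℂ) (f : ℂ → ℂ)
    (hφ : ∀ n, DifferentiableOn ℂ (φ n) V) (hinj : ∀ n, InjOn (φ n) V)
    (hlim : TendstoLocallyUniformlyOn φ f atTop V)
    (hne : ∃ z ∈ V, ∃ w ∈ V, f z ≠ f w) : InjOn f V := by
  have hf : DifferentiableOn ℂ f V := hlim.differentiableOn (Eventually.of_forall hφ) hV
  intro a ha b hb hab
  by_contra hne'
  -- `F = f - f a`
  have hF : AnalyticOnNhd ℂ (fun w => f w - f a) V :=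
    (hf.sub_const (f a)).analyticOnNhd hV
  rcases (hF b hb).eventually_eq_zero_or_eventually_ne_zero with h | h
  · have hz := hF.eqOn_zero_of_preconnected_of_eventuallyEq_zero hc hb h
    obtain ⟨z, hz', w, hw', hzw⟩ := hne
    have h1 := hz hz'
    have h2 := hz hw'
    simp only [Pi.zero_apply, sub_eq_zero] at h1 h2
    exact hzw (h1.trans h2.symm)
  · -- a small closed ball
    have h1 : ∀ᶠ z in 𝓝 b, z ≠ b → f z - f a ≠ 0 := by
      rw [eventually_nhdsWithin_iff] at h
      exact h
    have h2 : ∀ᶠ z in 𝓝 b, z ∈ V := hV.mem_nhds hb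
    have h3 : ∀ᶠ z in 𝓝 b, z ≠ a := by
      have : ({a}ᶜ : Set ℂ) ∈ 𝓝 b := isOpen_compl_singleton.mem_nhds (fun h => hne' h.symm)
      filter_upwards [this] with z hz
      exact hz
    obtain ⟨ε, hε, hball⟩ := Metric.eventually_nhds_iff_ball.1 (h1.and (h2.and h3))
    set r := ε / 2 with hr
    have hrpos : 0 < r := by positivity
    have hsub : closedBall b r ⊆ ball b ε := closedBall_subset_ball (by linarith)
    have hKV : closedBall b r ⊆ V := fun z hz => (hball z (hsub hz)).2.1
    have hcont : ContinuousOn (fun w => ‖f w - f a‖) (sphere b r) :=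
      ((hf.continuousOn.mono (sphere_subset_closedBall.trans hKV)).sub continuousOn_const).norm
    obtain ⟨z₀, hz₀, hmin⟩ := (isCompact_sphere b r).exists_isMinOn
      ((NormedSpace.sphere_nonempty (E := ℂ)).2 hrpos.le) hcont
    set m := ‖f z₀ - f a‖ with hm
    have hmpos : 0 < m := by
      rw [hm, norm_pos_iff]
      refine (hball z₀ (hsub (sphere_subset_closedBall hz₀))).1 ?_
      rintro rfl
      rw [mem_sphere, dist_self] at hz₀
      exact hrpos.ne hz₀
    have hmin' : ∀ z ∈ sphere b r, m ≤ ‖f z - f a‖ := fun z hz => hmin hz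
    -- uniform convergence
    have hunif : TendstoUniformlyOn φ f atTop (closedBall b r) :=
      (tendstoLocallyUniformlyOn_iff_forall_isCompact hV).1 hlim _ hKV (isCompact_closedBall b r)
    have hunifa : TendstoUniformlyOn φ f atTop {a} :=
      (tendstoLocallyUniformlyOn_iff_forall_isCompact hV).1 hlim _ (singleton_subset_iff.2 ha)
        isCompact_singleton
    have he1 := Metric.tendstoUniformlyOn_iff.1 hunif (m / 5) (by positivity)
    have he2 := Metric.tendstoUniformlyOn_iff.1 hunifa (m / 5) (by positivity)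
    obtain ⟨n, hn1, hn2⟩ := (he1.and he2).exists
    have hna : ‖f a - φ n a‖ < m / 5 := by
      have := hn2 a (mem_singleton a)
      rwa [dist_eq_norm] at this
    have hnz : ∀ z ∈ closedBall b r, ‖f z - φ n z‖ < m / 5 := by
      intro z hz
      have := hn1 z hz
      rwa [dist_eq_norm] at this
    have hGne : ∀ z ∈ closedBall b r, φ n z - φ n a ≠ 0 := by
      intro z hz h0
      exact (hball z (hsub hz)).2.2 (hinj n (hKV hz) ha (sub_eq_zero.1 h0))
    have hGd : DiffContOnCl ℂ (fun z => (φ n z - φ n a)⁻¹) (ball b r) := by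
      apply DifferentiableOn.diffContOnCl
      rw [closure_ball b hrpos.ne']
      exact ((hφ n).mono hKV |>.sub_const (φ n a)).inv hGne
    have hbd : ∀ z ∈ frontier (ball b r), ‖(φ n z - φ n a)⁻¹‖ ≤ 5 / (3 * m) := by
      intro z hz
      rw [frontier_ball b hrpos.ne'] at hz
      have h5 := hmin' z hz
      have h6 := hnz z (sphere_subset_closedBall hz)
      have h7 : f z - f a = (f z - φ n z) + (φ n z - φ n a) - (f a - φ n a) := by ring
      have h8 : ‖f z - f a‖ ≤ ‖f z - φ n z‖ + ‖φ n z - φ n a‖ + ‖f a - φ n a‖ := by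
        rw [h7]
        exact (norm_sub_le _ _).trans (add_le_add_left (norm_add_le _ _) _)
      have h9 : 3 * m / 5 ≤ ‖φ n z - φ n a‖ := by linarith
      rw [norm_inv]
      calc ‖φ n z - φ n a‖⁻¹ ≤ (3 * m / 5)⁻¹ := inv_anti₀ (by positivity) h9
        _ = 5 / (3 * m) := by rw [inv_div]
    have hfin := Complex.norm_le_of_forall_mem_frontier_norm_le isBounded_ball hGd hbd
      (subset_closure (mem_ball_self hrpos))
    have h10 : ‖φ n b - φ n a‖ < 2 * m / 5 := by
      have h11 : φ n b - φ n a = (f a - φ n a) - (f b - φ n b) := by rw [hab]; ring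
      rw [h11]
      have := norm_sub_le (f a - φ n a) (f b - φ n b)
      have := hnz b (mem_closedBall_self hrpos.le)
      linarith
    have h12 : 0 < ‖φ n b - φ n a‖ :=
      norm_pos_iff.2 (hGne b (mem_closedBall_self hrpos.le))
    rw [norm_inv] at hfin
    have h13 : (2 * m / 5)⁻¹ < ‖φ n b - φ n a‖⁻¹ := inv_strictAnti₀ h12 h10
    have h14 : (2 * m / 5)⁻¹ < 5 / (3 * m) := h13.trans_le hfin
    rw [inv_div, div_lt_div_iff₀ (by positivity) (by positivity)] at h14
    linarith

end Crest.Agent.CZ
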