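import Crest.Agent.CZ_Ker1

/-! CZ-05b: the kernel `ker` is a doubly stochastic kernel on the circle `‖ζ‖ = ρ`. -/

set_option autoImplicit false

open Complex Metric Set Polynomial MeasureTheory
open scoped ComplexConjugate

namespace Crest.Agent.CZ

variable {K U : Set ℂ} (E : Ext K U)

/-- functions which agree on a circle except at one point are equal codiscretely -/
theorem eventuallyEq_codiscrete_of_ne {α : Type*} {f h : ℂ → α} {p : ℂ} {ρ : ℝ} (hρ : 0 < ρ)
    (H : ∀ ζ, ‖ζ‖ = ρ → ζ ≠ p → f ζ = h ζ) :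
    f =ᶠ[Filter.codiscreteWithin (sphere (0 : ℂ) |ρ|)] h := by
  have : ({p}ᶜ ∩ sphere (0 : ℂ) |ρ|) ∈ Filter.codiscreteWithin (sphere (0 : ℂ) |ρ|) := by
    refine Filter.inter_mem ?_ (Filter.self_mem_codiscreteWithin _)
    rw [mem_codiscreteWithin]
    intro x _
    rw [Filter.disjoint_principal_right]
    have hsub : ({p} : Set ℂ)ᶜ ∪ {x} ⊆ (sphere (0 : ℂ) |ρ| \ {p}ᶜ)ᶜ ∪ {x} := by
      intro y hy
      rcases hy with hy | hy
      · left
        intro h
        exact h.2 hy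
      · right; exact hy
    by_cases hx : x = p
    · rw [mem_nhdsWithin]
      refine ⟨Set.univ, isOpen_univ, Set.mem_univ _, ?_⟩
      rintro y ⟨_, hy⟩ h
      apply h.2
      rw [hx] at hy
      exact hy
    · refine mem_nhdsWithin_of_mem_nhds ?_
      have h1 : ({p} : Set ℂ)ᶜ ∈ nhds x := isOpen_compl_singleton.mem_nhds hx
      filter_upwards [h1] with y hy h
      exact h.2 hy
  filter_upwards [this] with ζ hζ
  have h2 : ‖ζ‖ = ρ := by
    have := hζ.2
    rw [mem_sphere_zero_iff_norm, abs_of_pos hρ] at this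
    exact this
  exact H ζ h2 hζ.1

theorem circleIntegrable_re_of_diff {L : ℂ → ℂ} (hL : DifferentiableOn ℂ L (ball 0 1)) {ρ : ℝ}
    (h0 : 0 < ρ) (h1 : ρ < 1) :
    CircleIntegrable (fun ζ => 1 + 2 * (L ζ).re) 0 ρ := by
  apply ContinuousOn.circleIntegrable h0.le
  have hc : ContinuousOn L (sphere 0 ρ) := hL.continuousOn.mono fun z hz => by
    rw [mem_sphere_zero_iff_norm] at hz
    rw [mem_ball_zero_iff, hz]; exact h1
  exact (continuousOn_const.add (continuousOn_const.mul (continuous_re.comp_continuousOn hc)))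

theorem circleAverage_re_of_diff {L : ℂ → ℂ} (hL : DifferentiableOn ℂ L (ball 0 1)) {ρ : ℝ}
    (h0 : 0 < ρ) (h1 : ρ < 1) (hL0 : L 0 = 0) :
    Real.circleAverage (fun ζ => 1 + 2 * (L ζ).re) 0 ρ = 1 := by
  have hc : ContinuousOn L (sphere 0 ρ) := hL.continuousOn.mono fun z hz => by
    rw [mem_sphere_zero_iff_norm] at hz
    rw [mem_ball_zero_iff, hz]; exact h1
  have hLi : CircleIntegrable L 0 ρ := hc.circleIntegrable h0.le
  have hre : Real.circleAverage (fun ζ => (L ζ).re) 0 ρ = 0 := by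
    have := Complex.reCLM.circleAverage_comp_comm (f := L) hLi
    have h2 : (⇑Complex.reCLM ∘ L) = fun ζ => (L ζ).re := by
      ext ζ; simp
    rw [h2] at this
    rw [this, av_eq hL h0 h1, hL0]
    simp
  have hrei : CircleIntegrable (fun ζ => (L ζ).re) 0 ρ :=
    (continuous_re.comp_continuousOn hc).circleIntegrable h0.le
  have h3 : Real.circleAverage (fun ζ => 2 * (L ζ).re) 0 ρ = 0 := by
    have := Real.circleAverage_fun_smul (a := (2 : ℝ)) (f := fun ζ => (L ζ).re) (c := 0) (R := ρ)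
    simp only [smul_eq_mul] at this
    rw [this, hre, mul_zero]
  have h4 : CircleIntegrable (fun ζ => 2 * (L ζ).re) 0 ρ :=
    (continuousOn_const.mul (continuous_re.comp_continuousOn hc)).circleIntegrable h0.le
  rw [Real.circleAverage_fun_add (circleIntegrable_const _ _ _) h4, h3,
    Real.circleAverage_const, add_zero]

/-- `ker · ζ'` agrees on the circle, except at `ζ = ζ'`, with the continuous function
`1 + 2 Re L` (`exists_left`). -/
theorem Ext.ker_int_left {ζ' : ℂ} (h' : ‖ζ'‖ = E.ρ) :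
    CircleIntegrable (fun ζ => E.ker ζ ζ') 0 E.ρ := by
  obtain ⟨L, hL, -, -, h4⟩ := E.exists_left h'
  exact (circleIntegrable_re_of_diff hL E.ρ_pos E.ρ_lt).congr_codiscreteWithin
    (eventuallyEq_codiscrete_of_ne E.ρ_pos fun ζ h1 h2 => (h4 ζ h1 h2).symm)

/-- a.e. equal to `1 + 2 Re L`, and `av L = L 0 = 0` -/
theorem Ext.ker_av_left {ζ' : ℂ} (h' : ‖ζ'‖ = E.ρ) :
    Real.circleAverage (fun ζ => E.ker ζ ζ') 0 E.ρ = 1 := by
  obtain ⟨L, hL, hL0, -, h4⟩ := E.exists_left h'
  rw [Real.circleAverage_congr_codiscreteWithin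
    (eventuallyEq_codiscrete_of_ne E.ρ_pos fun ζ h1 h2 => h4 ζ h1 h2) E.ρ_pos.ne']
  exact circleAverage_re_of_diff hL E.ρ_pos E.ρ_lt hL0

theorem Ext.ker_int_right {ζ : ℂ} (h : ‖ζ‖ = E.ρ) :
    CircleIntegrable (fun ζ' => E.ker ζ ζ') 0 E.ρ := by
  obtain ⟨L, hL, -, -, h4⟩ := E.exists_right h
  exact (circleIntegrable_re_of_diff hL E.ρ_pos E.ρ_lt).congr_codiscreteWithin
    (eventuallyEq_codiscrete_of_ne E.ρ_pos fun ζ h1 h2 => (h4 ζ h1 h2).symm)

theorem Ext.ker_av_right {ζ : ℂ} (h : ‖ζ‖ = E.ρ) :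
    Real.circleAverage (fun ζ' => E.ker ζ ζ') 0 E.ρ = 1 := by
  obtain ⟨L, hL, hL0, -, h4⟩ := E.exists_right h
  rw [Real.circleAverage_congr_codiscreteWithin
    (eventuallyEq_codiscrete_of_ne E.ρ_pos fun ζ h1 h2 => h4 ζ h1 h2) E.ρ_pos.ne']
  exact circleAverage_re_of_diff hL E.ρ_pos E.ρ_lt hL0

theorem Ext.continuous_comp_circleMap {f : ℂ → ℂ} (hf : ContinuousOn f (ball (0 : ℂ) 1)) :
    Continuous fun θ : ℝ => f (circleMap 0 E.ρ θ) := by
  refine hf.comp_continuous (continuous_circleMap 0 E.ρ) fun θ => ?_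
  rw [mem_ball_zero_iff, norm_circleMap_zero, abs_of_pos E.ρ_pos]
  exact E.ρ_lt

theorem Ext.continuous_Th_circle : Continuous fun θ : ℝ => E.Th (circleMap 0 E.ρ θ) := by
  have h1 := E.continuous_comp_circleMap E.diff.continuousOn
  have h2 := E.continuous_comp_circleMap E.deriv_diff.continuousOn
  unfold Ext.Th
  refine Continuous.div ((continuous_circleMap 0 E.ρ).mul h2) (h1.pow 2) fun θ => ?_
  refine pow_ne_zero _ (E.g_ne ?_ ?_)
  · rw [mem_ball_zero_iff, norm_circleMap_zero, abs_of_pos E.ρ_pos]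
    exact E.ρ_lt
  · exact circleMap_ne_center E.ρ_pos.ne'

theorem Ext.continuous_G_circle : Continuous fun θ : ℝ => E.G (circleMap 0 E.ρ θ) := by
  have h1 := E.continuous_comp_circleMap E.diff.continuousOn
  unfold Ext.G
  refine continuous_const.add (h1.inv₀ fun θ => E.g_ne ?_ ?_)
  · rw [mem_ball_zero_iff, norm_circleMap_zero, abs_of_pos E.ρ_pos]
    exact E.ρ_lt
  · exact circleMap_ne_center E.ρ_pos.ne'

/-- joint measurability in the angles -/
theorem Ext.ker_measurable :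
    Measurable (fun p : ℝ × ℝ => E.ker (circleMap 0 E.ρ p.1) (circleMap 0 E.ρ p.2)) := by
  unfold Ext.ker
  have h1 : Measurable fun p : ℝ × ℝ => E.Th (circleMap 0 E.ρ p.1) :=
    (E.continuous_Th_circle.comp continuous_fst).measurable
  have h2 : Measurable fun p : ℝ × ℝ => E.G (circleMap 0 E.ρ p.1) :=
    (E.continuous_G_circle.comp continuous_fst).measurable
  have h3 : Measurable fun p : ℝ × ℝ => E.G (circleMap 0 E.ρ p.2) :=
    (E.continuous_G_circle.comp continuous_snd).measurable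
  exact measurable_const.mul (Complex.measurable_re.comp (h1.div (h2.sub h3)))

end Crest.Agent.CZ
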