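import Crest.Agent.CZ_Base

/-! CZ-05a: the kernel `ker` on the circle `‖ζ‖ = ρ`: positivity and analytic structure. -/

set_option autoImplicit false

open Complex Metric Set Polynomial MeasureTheory
open scoped ComplexConjugate

namespace Crest.Agent.CZ

variable {K U : Set ℂ} (E : Ext K U)

theorem Ext.ker_nonneg {ζ ζ' : ℂ} (h : ‖ζ‖ = E.ρ) (h' : ‖ζ'‖ = E.ρ) : 0 ≤ E.ker ζ ζ' := by
  have := E.pos2 ζ ζ' h h'
  unfold Ext.ker Ext.Th Ext.G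
  linarith

theorem mem_ball_of_norm_eq_rho {ζ : ℂ} (h : ‖ζ‖ = E.ρ) : ζ ∈ ball (0 : ℂ) 1 := by
  rw [mem_ball_zero_iff, h]; exact E.ρ_lt

theorem ne_zero_of_norm_eq_rho {ζ : ℂ} (h : ‖ζ‖ = E.ρ) : ζ ≠ 0 := by
  intro h0
  rw [h0, norm_zero] at h
  exact absurd h.symm E.ρ_pos.ne'

theorem Ext.g_eq_mul (ζ : ℂ) : E.g ζ = ζ * dslope E.g 0 ζ := by
  have := sub_smul_dslope E.g 0 ζ
  rw [E.g_zero, sub_zero, sub_zero, smul_eq_mul] at this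
  exact this.symm

theorem Ext.dslope_ne {w ζ : ℂ} (hw : w ∈ ball (0 : ℂ) 1) (h : ζ ∈ ball (0 : ℂ) 1) :
    dslope E.g w ζ ≠ 0 := by
  by_cases hne : ζ = w
  · rw [hne, dslope_same]
    exact E.deriv_ne w hw
  · intro h0
    have := sub_smul_dslope E.g w ζ
    rw [h0, smul_zero] at this
    exact hne (E.inj h hw (sub_eq_zero.1 this.symm))

theorem Ext.dslope_diff {w : ℂ} (hw : w ∈ ball (0 : ℂ) 1) :
    DifferentiableOn ℂ (dslope E.g w) (ball 0 1) :=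
  (Complex.differentiableOn_dslope (isOpen_ball.mem_nhds hw)).2 E.diff

theorem dslope_symm' (f : ℂ → ℂ) (z w : ℂ) (h : z ≠ w) : dslope f w z = dslope f z w := by
  rw [dslope_of_ne f h, dslope_of_ne f h.symm, slope_comm]

/-- the basic algebraic formula -/
theorem Ext.th_div_eq {ζ ζ' : ℂ} (h : ζ ∈ ball (0 : ℂ) 1) (h0 : ζ ≠ 0)
    (h' : ζ' ∈ ball (0 : ℂ) 1) (h0' : ζ' ≠ 0) (hne : ζ ≠ ζ') :
    E.Th ζ / (E.G ζ - E.G ζ') = ζ' / (ζ' - ζ) *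
      (deriv E.g ζ * dslope E.g 0 ζ' / (dslope E.g 0 ζ * dslope E.g ζ' ζ)) := by
  have hu : dslope E.g 0 ζ ≠ 0 := E.u_ne h
  have hu' : dslope E.g 0 ζ' ≠ 0 := E.u_ne h'
  have hd : dslope E.g ζ' ζ ≠ 0 := E.dslope_ne h' h
  have hsub : E.g ζ - E.g ζ' = (ζ - ζ') * dslope E.g ζ' ζ := by
    have := sub_smul_dslope E.g ζ' ζ
    rw [smul_eq_mul] at this
    exact this.symm
  have hg : E.g ζ ≠ 0 := E.g_ne h h0
  have hg' : E.g ζ' ≠ 0 := E.g_ne h' h0'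
  have hGG : E.G ζ - E.G ζ' = (ζ' - ζ) * dslope E.g ζ' ζ / (E.g ζ * E.g ζ') := by
    unfold Ext.G
    have : E.a + (E.g ζ)⁻¹ - (E.a + (E.g ζ')⁻¹) = -(E.g ζ - E.g ζ') / (E.g ζ * E.g ζ') := by
      field_simp
      ring
    rw [this, hsub]
    ring
  have h1 : ζ' - ζ ≠ 0 := sub_ne_zero.2 hne.symm
  rw [hGG]
  unfold Ext.Th
  have e1 := E.g_eq_mul ζ
  have e2 := E.g_eq_mul ζ'
  rw [e1] at hg
  rw [e1, e2]
  field_simp

theorem two_re_div {ζ ζ' : ℂ} {r : ℝ} (h : ‖ζ‖ = r) (h' : ‖ζ'‖ = r) (hne : ζ ≠ ζ') :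
    2 * (ζ' / (ζ' - ζ)).re = 1 := by
  have hsub : ζ' - ζ ≠ 0 := sub_ne_zero.2 hne.symm
  have hpos : 0 < Complex.normSq (ζ' - ζ) := Complex.normSq_pos.2 hsub
  have e1 : Complex.normSq ζ = r ^ 2 := by rw [Complex.normSq_eq_norm_sq, h]
  have e2 : Complex.normSq ζ' = r ^ 2 := by rw [Complex.normSq_eq_norm_sq, h']
  rw [Complex.div_re]
  rw [Complex.normSq_apply] at e1 e2 hpos ⊢
  simp only [Complex.sub_re, Complex.sub_im] at hpos ⊢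
  have hne' := hpos.ne'
  rw [← add_div, mul_div_assoc', div_eq_one_iff_eq hne']
  linear_combination e2 - e1

/-- For fixed `ζ'` on the circle, `ker ζ ζ' = 1 + 2 Re L ζ` for `ζ ≠ ζ'` on the circle, where `L`
is analytic on the disc, `L 0 = 0`, and `Th ζ/(G ζ - G ζ') = ζ'/(ζ' - ζ) + L ζ` for all
`ζ ≠ 0, ζ'` in the disc.
Proof: with `u = dslope g 0` (so `g ζ = ζ u ζ`), for `ζ ≠ 0, ζ'`:
`Th ζ/(G ζ - G ζ') = ζ g'(ζ) g(ζ')/(g(ζ) (g(ζ') - g(ζ))) = ζ'/(ζ' - ζ) * C ζ`,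
`C z = deriv g z * u ζ' / (u z * dslope g ζ' z)`, `C ζ' = 1`, `C 0 = 1`; so
`L ζ = - ζ' * dslope C ζ' ζ` works (`C` is analytic on the disc since `dslope g ζ' z ≠ 0`).
On the circle `2 Re (ζ'/(ζ' - ζ)) = 1` for `ζ ≠ ζ'`. -/
theorem Ext.exists_left {ζ' : ℂ} (h' : ‖ζ'‖ = E.ρ) :
    ∃ L : ℂ → ℂ, DifferentiableOn ℂ L (ball 0 1) ∧ L 0 = 0 ∧
      (∀ ζ ∈ ball (0 : ℂ) 1, ζ ≠ 0 → ζ ≠ ζ' →
        E.Th ζ / (E.G ζ - E.G ζ') = ζ' / (ζ' - ζ) + L ζ) ∧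
      ∀ ζ, ‖ζ‖ = E.ρ → ζ ≠ ζ' → E.ker ζ ζ' = 1 + 2 * (L ζ).re := by
  have hb' : ζ' ∈ ball (0 : ℂ) 1 := mem_ball_of_norm_eq_rho E h'
  have h0' : ζ' ≠ 0 := ne_zero_of_norm_eq_rho E h'
  have hu' : dslope E.g 0 ζ' ≠ 0 := E.u_ne hb'
  set C : ℂ → ℂ := fun z => deriv E.g z * dslope E.g 0 ζ' / (dslope E.g 0 z * dslope E.g ζ' z)
    with hC
  have hCd : DifferentiableOn ℂ C (ball 0 1) := by
    refine DifferentiableOn.div (E.deriv_diff.mul_const _) (E.u_diff.mul (E.dslope_diff hb')) ?_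
    intro z hz
    exact mul_ne_zero (E.u_ne hz) (E.dslope_ne hb' hz)
  have hC1 : C ζ' = 1 := by
    have hd : deriv E.g ζ' ≠ 0 := E.deriv_ne ζ' hb'
    simp only [hC, dslope_same]
    field_simp
  have hC0 : C 0 = 1 := by
    have hd : deriv E.g 0 ≠ 0 := E.deriv_ne 0 (by simp)
    simp only [hC, dslope_same]
    rw [dslope_symm' E.g 0 ζ' h0'.symm]
    field_simp
  have hCs : ∀ ζ, C ζ = 1 + (ζ - ζ') * dslope C ζ' ζ := by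
    intro ζ
    have := sub_smul_dslope C ζ' ζ
    rw [smul_eq_mul, hC1] at this
    rw [this]; ring
  have key : ∀ ζ ∈ ball (0 : ℂ) 1, ζ ≠ 0 → ζ ≠ ζ' →
        E.Th ζ / (E.G ζ - E.G ζ') = ζ' / (ζ' - ζ) + -ζ' * dslope C ζ' ζ := by
    intro ζ hζ h0 hne
    have h1 : ζ' - ζ ≠ 0 := sub_ne_zero.2 hne.symm
    have e : E.Th ζ / (E.G ζ - E.G ζ') = ζ' / (ζ' - ζ) * C ζ := E.th_div_eq hζ h0 hb' h0' hne
    rw [e, hCs]
    field_simp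
    ring
  refine ⟨fun ζ => -ζ' * dslope C ζ' ζ, ?_, ?_, key, ?_⟩
  · exact DifferentiableOn.const_mul
      ((Complex.differentiableOn_dslope (isOpen_ball.mem_nhds hb')).2 hCd) _
  · have := hCs 0
    rw [hC0, zero_sub] at this
    show -ζ' * dslope C ζ' 0 = 0
    linear_combination -this
  · intro ζ hζ hne
    have e := key ζ (mem_ball_of_norm_eq_rho E hζ) (ne_zero_of_norm_eq_rho E hζ) hne
    unfold Ext.ker
    rw [e, Complex.add_re, mul_add, two_re_div hζ h' hne]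

/-- The same in the second variable:
`Th ζ/(G ζ - G ζ') = ζ'/(ζ' - ζ) + L ζ'`, `L` analytic in `ζ'`, `L 0 = 0`:
`Th ζ/(G ζ - G ζ') = ζ'/(ζ' - ζ) * B ζ'`, `B z = deriv g ζ * u z / (u ζ * dslope g ζ z)`,
`B ζ = 1`, `L ζ' = ζ' * dslope B ζ ζ'`. -/
theorem Ext.exists_right {ζ : ℂ} (h : ‖ζ‖ = E.ρ) :
    ∃ L : ℂ → ℂ, DifferentiableOn ℂ L (ball 0 1) ∧ L 0 = 0 ∧
      (∀ ζ' ∈ ball (0 : ℂ) 1, ζ' ≠ 0 → ζ' ≠ ζ →
        E.Th ζ / (E.G ζ - E.G ζ') = ζ' / (ζ' - ζ) + L ζ') ∧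
      ∀ ζ', ‖ζ'‖ = E.ρ → ζ' ≠ ζ → E.ker ζ ζ' = 1 + 2 * (L ζ').re := by
  have hb : ζ ∈ ball (0 : ℂ) 1 := mem_ball_of_norm_eq_rho E h
  have h0 : ζ ≠ 0 := ne_zero_of_norm_eq_rho E h
  have hu : dslope E.g 0 ζ ≠ 0 := E.u_ne hb
  have hd : deriv E.g ζ ≠ 0 := E.deriv_ne ζ hb
  set B : ℂ → ℂ := fun z => deriv E.g ζ * dslope E.g 0 z / (dslope E.g 0 ζ * dslope E.g ζ z)
    with hB
  have hBd : DifferentiableOn ℂ B (ball 0 1) := by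
    refine DifferentiableOn.div (E.u_diff.const_mul _) ((E.dslope_diff hb).const_mul _) ?_
    intro z hz
    exact mul_ne_zero hu (E.dslope_ne hb hz)
  have hB1 : B ζ = 1 := by
    simp only [hB, dslope_same]
    field_simp
  have hBs : ∀ z, B z = 1 + (z - ζ) * dslope B ζ z := by
    intro z
    have := sub_smul_dslope B ζ z
    rw [smul_eq_mul, hB1] at this
    rw [this]; ring
  have key : ∀ ζ' ∈ ball (0 : ℂ) 1, ζ' ≠ 0 → ζ' ≠ ζ →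
        E.Th ζ / (E.G ζ - E.G ζ') = ζ' / (ζ' - ζ) + ζ' * dslope B ζ ζ' := by
    intro ζ' hζ' h0' hne
    have h1 : ζ' - ζ ≠ 0 := sub_ne_zero.2 hne
    have e : E.Th ζ / (E.G ζ - E.G ζ') = ζ' / (ζ' - ζ) * B ζ' := by
      rw [E.th_div_eq hb h0 hζ' h0' hne.symm, dslope_symm' E.g ζ ζ' hne.symm]
    rw [e, hBs]
    field_simp
  refine ⟨fun z => z * dslope B ζ z, ?_, ?_, key, ?_⟩
  · exact differentiableOn_id.mul
      ((Complex.differentiableOn_dslope (isOpen_ball.mem_nhds hb)).2 hBd)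
  · show (0 : ℂ) * dslope B ζ 0 = 0
    rw [zero_mul]
  · intro ζ' hζ' hne
    have e := key ζ' (mem_ball_of_norm_eq_rho E hζ') (ne_zero_of_norm_eq_rho E hζ') hne
    unfold Ext.ker
    rw [e, Complex.add_re, mul_add, two_re_div h hζ' hne.symm]

end Crest.Agent.CZ
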