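import Mathlib

/-! CZ-23: the square root trick of Koebe. -/

set_option autoImplicit false

open Complex Metric Set Filter Topology
open scoped ComplexConjugate

namespace Crest.Agent.CZ

/-- the Moebius map used in `koebe_step` -/
noncomputable def kmob (a w : ℂ) : ℂ := (w - a) / (1 - conj a * w)

theorem kmob_den_ne {a w : ℂ} (ha : ‖a‖ < 1) (hw : ‖w‖ < 1) : 1 - conj a * w ≠ 0 := by
  intro h
  have h1 : conj a * w = 1 := (sub_eq_zero.mp h).symm
  have h2 : ‖a‖ * ‖w‖ = 1 := by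
    have := congrArg norm h1
    simpa using this
  nlinarith [norm_nonneg a, norm_nonneg w]

theorem kmob_identity (a w : ℂ) :
    ‖1 - conj a * w‖ ^ 2 - ‖w - a‖ ^ 2 = (1 - ‖a‖ ^ 2) * (1 - ‖w‖ ^ 2) := by
  simp only [← Complex.normSq_eq_norm_sq, Complex.normSq_apply, Complex.sub_re, Complex.sub_im,
    Complex.mul_re, Complex.mul_im, Complex.conj_re, Complex.conj_im, Complex.one_re,
    Complex.one_im]
  ring

theorem kmob_norm_lt {a w : ℂ} (ha : ‖a‖ < 1) (hw : ‖w‖ < 1) : ‖kmob a w‖ < 1 := by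
  have hd := kmob_den_ne ha hw
  have hdp : 0 < ‖1 - conj a * w‖ := norm_pos_iff.mpr hd
  rw [kmob, norm_div, div_lt_one hdp]
  have h1 : 0 < 1 - ‖a‖ ^ 2 := by nlinarith [norm_nonneg a]
  have h2 : 0 < 1 - ‖w‖ ^ 2 := by nlinarith [norm_nonneg w]
  have h3 := kmob_identity a w
  have h4 : ‖w - a‖ ^ 2 < ‖1 - conj a * w‖ ^ 2 := by nlinarith [mul_pos h1 h2]
  exact lt_of_pow_lt_pow_left₀ 2 hdp.le h4

theorem kmob_hasDerivAt {a w : ℂ} (ha : ‖a‖ < 1) (hw : ‖w‖ < 1) :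
    HasDerivAt (kmob a) ((1 - conj a * a) / (1 - conj a * w) ^ 2) w := by
  have hd := kmob_den_ne ha hw
  have h1 : HasDerivAt (fun w : ℂ => w - a) 1 w := (hasDerivAt_id w).sub_const a
  have h2 : HasDerivAt (fun w : ℂ => 1 - conj a * w) (-(conj a)) w := by
    have := ((hasDerivAt_id w).const_mul (conj a)).const_sub 1
    simpa using this
  have h3 := h1.div h2 hd
  have he : (1 * (1 - conj a * w) - (w - a) * -(conj a)) / (1 - conj a * w) ^ 2
      = (1 - conj a * a) / (1 - conj a * w) ^ 2 := by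
    congr 1; ring
  rw [he] at h3
  exact h3

theorem kmob_inj {a w w' : ℂ} (ha : ‖a‖ < 1) (hw : ‖w‖ < 1) (hw' : ‖w'‖ < 1)
    (h : kmob a w = kmob a w') : w = w' := by
  have hd := kmob_den_ne ha hw
  have hd' := kmob_den_ne ha hw'
  rw [kmob, kmob, div_eq_div_iff hd hd'] at h
  have h1 : (w - w') * (1 - conj a * a) = 0 := by linear_combination h
  rcases mul_eq_zero.mp h1 with h2 | h2
  · exact sub_eq_zero.mp h2
  · exact absurd h2 (kmob_den_ne ha ha)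

theorem kmob_self (a : ℂ) : kmob a a = 0 := by simp [kmob]

theorem kmob_zero (a : ℂ) : kmob a 0 = -a := by simp [kmob]

/-- Proof: `T w = (w - α)/(1 - conj α w)`; `T ∘ φ` has no zero on `V`, so it has a continuous square
root `h` on `V` (`Complex.exists_continuousOn_pow_eq`, in `Mathlib.Analysis.Complex.BranchLogRoot`),
holomorphic and injective, with values in the disc, `β = h 0`, `β² = -α`.
`ψ = (h - β)/(1 - conj β h)`.  `h' 0 = (1 - |α|²) φ'(0)/(2 β)`,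
`ψ' 0 = h' 0/(1 - |β|²) = φ'(0) (1 + |α|)/(2 β)`, and `1 + |α| > 2 |β|` for `|α| = |β|² < 1`.
(`α ≠ 0` since `φ 0 = 0`.) -/
theorem koebe_step {V : Set ℂ} (hV : IsOpen V) (hs : IsSimplyConnected V) (h0 : (0 : ℂ) ∈ V)
    (φ : ℂ → ℂ) (hφ : DifferentiableOn ℂ φ V) (hm : MapsTo φ V (ball 0 1)) (hi : InjOn φ V)
    (hφ0 : φ 0 = 0) (hd : deriv φ 0 ≠ 0) {α : ℂ} (hα : α ∈ ball (0 : ℂ) 1)
    (hna : ∀ z ∈ V, φ z ≠ α) :
    ∃ ψ : ℂ → ℂ, DifferentiableOn ℂ ψ V ∧ MapsTo ψ V (ball 0 1) ∧ InjOn ψ V ∧ ψ 0 = 0 ∧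
      ‖deriv φ 0‖ < ‖deriv ψ 0‖ := by
  have hα1 : ‖α‖ < 1 := by simpa using hα
  have hm1 : ∀ z ∈ V, ‖φ z‖ < 1 := fun z hz => by simpa using hm hz
  have hα0 : α ≠ 0 := by
    intro h
    exact hna 0 h0 (by rw [hφ0, h])
  set g : ℂ → ℂ := fun z => kmob α (φ z) with hg
  have hφd : ∀ z ∈ V, HasDerivAt φ (deriv φ z) z := fun z hz =>
    ((hφ z hz).differentiableAt (hV.mem_nhds hz)).hasDerivAt
  have hgd : ∀ z ∈ V, HasDerivAt g
      ((1 - conj α * α) / (1 - conj α * φ z) ^ 2 * deriv φ z) z := fun z hz =>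
    (kmob_hasDerivAt hα1 (hm1 z hz)).comp z (hφd z hz)
  have hgc : ContinuousOn g V := fun z hz => (hgd z hz).continuousAt.continuousWithinAt
  have hg0 : ∀ z ∈ V, g z ≠ 0 := by
    intro z hz h
    apply hna z hz
    apply kmob_inj hα1 (hm1 z hz) hα1
    rw [kmob_self]; exact h
  have hg1 : ∀ z ∈ V, ‖g z‖ < 1 := fun z hz => kmob_norm_lt hα1 (hm1 z hz)
  obtain ⟨h, hhc, hh⟩ := Complex.exists_continuousOn_pow_eq hs hV hgc
    (by rintro ⟨z, hz, h⟩; exact hg0 z hz h) (n := 2) (by norm_num)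
  have hh0 : ∀ z ∈ V, h z ≠ 0 := by
    intro z hz hz0
    apply hg0 z hz
    rw [← hh z, hz0]; norm_num
  have hh1 : ∀ z ∈ V, ‖h z‖ < 1 := by
    intro z hz
    have h1 : ‖h z‖ ^ 2 < 1 := by
      rw [← norm_pow, hh z]; exact hg1 z hz
    nlinarith [norm_nonneg (h z)]
  have hhd : ∀ z ∈ V, HasDerivAt h
      ((1 - conj α * α) / (1 - conj α * φ z) ^ 2 * deriv φ z / (2 * h z)) z := by
    intro z hz
    have hca : ContinuousAt h z := hhc.continuousAt (hV.mem_nhds hz)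
    rw [hasDerivAt_iff_tendsto_slope]
    have h1 := hasDerivAt_iff_tendsto_slope.mp (hgd z hz)
    have h2 : Tendsto (fun w => h w + h z) (𝓝[≠] z) (𝓝 (2 * h z)) := by
      have : Tendsto (fun w => h w + h z) (𝓝 z) (𝓝 (h z + h z)) := hca.add tendsto_const_nhds
      rw [two_mul]
      exact this.mono_left nhdsWithin_le_nhds
    have h3 : (2 * h z) ≠ 0 := mul_ne_zero two_ne_zero (hh0 z hz)
    have h4 := h1.div h2 h3
    refine h4.congr' ?_
    have h5 : ∀ᶠ w in 𝓝[≠] z, h w + h z ≠ 0 := h2.eventually_ne h3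
    filter_upwards [h5, self_mem_nhdsWithin] with w hw hwz
    have hwz' : w - z ≠ 0 := sub_ne_zero.mpr hwz
    simp only [Pi.div_apply, slope_def_field]
    rw [← hh w, ← hh z]
    rw [div_div, div_eq_div_iff]
    · ring
    · exact mul_ne_zero hwz' hw
    · exact hwz'
  set β : ℂ := h 0 with hβ
  have hβ2 : β ^ 2 = -α := by
    rw [hβ, hh 0, hg]; simp only [hφ0]; exact kmob_zero α
  have hβ1 : ‖β‖ < 1 := hh1 0 h0
  have hβ0 : β ≠ 0 := hh0 0 h0
  refine ⟨fun z => kmob β (h z), ?_, ?_, ?_, ?_, ?_⟩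
  · intro z hz
    exact ((kmob_hasDerivAt hβ1 (hh1 z hz)).comp z (hhd z hz)).differentiableAt.differentiableWithinAt
  · intro z hz
    have := kmob_norm_lt hβ1 (hh1 z hz)
    simpa using this
  · intro z hz w hw hzw
    have h1 : h z = h w := kmob_inj hβ1 (hh1 z hz) (hh1 w hw) hzw
    have h2 : g z = g w := by rw [← hh z, ← hh w, h1]
    exact hi hz hw (kmob_inj hα1 (hm1 z hz) (hm1 w hw) h2)
  · exact kmob_self β
  · have h1 := ((kmob_hasDerivAt hβ1 (hh1 0 h0)).comp 0 (hhd 0 h0)).deriv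
    have h2 : deriv (fun z => kmob β (h z)) 0 =
        (1 - conj β * β) / (1 - conj β * h 0) ^ 2 *
        ((1 - conj α * α) / (1 - conj α * φ 0) ^ 2 * deriv φ 0 / (2 * h 0)) := h1
    rw [h2, hφ0, ← hβ]
    have hb : 0 < ‖β‖ := norm_pos_iff.mpr hβ0
    have hab : ‖α‖ = ‖β‖ ^ 2 := by
      rw [← norm_pow, hβ2, norm_neg]
    have e1 : (1 : ℂ) - conj β * β = ((1 - ‖β‖ ^ 2 : ℝ) : ℂ) := by
      rw [← Complex.normSq_eq_conj_mul_self, Complex.normSq_eq_norm_sq]; push_cast; ring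
    have e2 : (1 : ℂ) - conj α * α = ((1 - ‖α‖ ^ 2 : ℝ) : ℂ) := by
      rw [← Complex.normSq_eq_conj_mul_self, Complex.normSq_eq_norm_sq]; push_cast; ring
    have p1 : 0 < 1 - ‖β‖ ^ 2 := by nlinarith [norm_nonneg β]
    have p2 : 0 < 1 - ‖α‖ ^ 2 := by nlinarith [norm_nonneg α]
    have hdp : 0 < ‖deriv φ 0‖ := norm_pos_iff.mpr hd
    rw [e1, e2]
    simp only [norm_mul, norm_div, norm_pow, Complex.norm_real, mul_zero, sub_zero,
      one_pow, div_one, Real.norm_eq_abs, abs_of_pos p1, abs_of_pos p2, Complex.norm_ofNat]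
    have e3 : (1 - ‖β‖ ^ 2) / (1 - ‖β‖ ^ 2) ^ 2 * ((1 - ‖α‖ ^ 2) * ‖deriv φ 0‖ / (2 * ‖β‖))
        = ‖deriv φ 0‖ * ((1 + ‖β‖ ^ 2) / (2 * ‖β‖)) := by
      rw [hab]
      field_simp
      ring
    rw [e3]
    have h5 : 1 < (1 + ‖β‖ ^ 2) / (2 * ‖β‖) := by
      rw [one_lt_div (by positivity)]
      nlinarith [sq_pos_of_pos (sub_pos.mpr hβ1)]
    nlinarith

end Crest.Agent.CZ
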