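import Crest.Agent.CZ_Beta

/-! CZ-72: winding number one and moments. -/

set_option autoImplicit false

open Complex Metric Set Filter Topology MeasureTheory intervalIntegral
open scoped ComplexConjugate

namespace Crest.Agent.CZ

namespace Bd

variable {Ω U : Set ℂ} {f G : ℂ → ℂ} {r : ℝ} (B : Bd Ω U f G r)
include B

theorem bb_ne (θ : ℝ) : bb f G θ ≠ 0 := by
  intro h
  have := B.bb_norm θ
  rw [h, norm_zero] at this
  exact zero_ne_one this

/-- exponential representation of `bb` -/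
theorem bb_eq_exp (θ : ℝ) :
    bb f G θ = bb f G 0 * exp (((∫ t in (0 : ℝ)..θ, beta f G t : ℝ) : ℂ) * I) := by
  set φ : ℝ → ℝ := fun θ => ∫ t in (0 : ℝ)..θ, beta f G t with hφ
  have hφd : ∀ θ, HasDerivAt φ (beta f G θ) θ := fun θ =>
    (B.beta_cont.integral_hasStrictDerivAt 0 θ).hasDerivAt
  set h : ℝ → ℂ := fun θ => bb f G θ * exp (-(φ θ : ℂ) * I) with hh
  have hhd : ∀ θ, HasDerivAt h 0 θ := by
    intro θ
    have h1 := B.bb_hasDerivAt θ
    have h2 : HasDerivAt (fun θ => -(φ θ : ℂ) * I) (-(beta f G θ : ℂ) * I) θ :=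
      ((hφd θ).ofReal_comp.neg).mul_const I
    have h3 := h1.mul h2.cexp
    refine h3.congr_deriv ?_
    ring
  have hconst : h θ = h 0 :=
    is_const_of_deriv_eq_zero (fun x => (hhd x).differentiableAt) (fun x => (hhd x).deriv) θ 0
  have h0 : φ 0 = 0 := by simp [hφ]
  simp only [hh, h0, ofReal_zero, neg_zero, zero_mul, exp_zero, mul_one] at hconst
  rw [← hconst, mul_assoc, ← exp_add]
  have : -(φ θ : ℂ) * I + (φ θ : ℂ) * I = 0 := by ring
  rw [this, exp_zero, mul_one]

/-- the circle is traversed once: no coincidences inside the period -/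
theorem bb_ne_zero_of_mem {θ : ℝ} (h0 : 0 < θ) (h1 : θ < 2 * Real.pi) :
    bb f G θ ≠ bb f G 0 := by
  intro h
  have h2 : exp ((θ : ℂ) * I) = exp (((0 : ℝ) : ℂ) * I) := by
    refine B.b_inj ?_ ?_ h
    · exact norm_exp_ofReal_mul_I θ
    · exact norm_exp_ofReal_mul_I 0
  rw [ofReal_zero, zero_mul, exp_zero, exp_eq_one_iff] at h2
  obtain ⟨n, hn⟩ := h2
  have h3 : (θ : ℂ) = (n : ℂ) * (2 * Real.pi) := by
    have : (θ : ℂ) * I = ((n : ℂ) * (2 * Real.pi)) * I := by rw [hn]; ring
    exact mul_right_cancel₀ I_ne_zero this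
  have h4 : θ = n * (2 * Real.pi) := by exact_mod_cast h3
  have hpi := Real.pi_pos
  have h5 : (0 : ℝ) < n := by
    by_contra hneg
    push Not at hneg
    nlinarith
  have h6 : (n : ℝ) < 1 := by
    by_contra hneg
    push Not at hneg
    nlinarith
  have h7 : (0 : ℤ) < n := by exact_mod_cast h5
  have h8 : n < 1 := by exact_mod_cast h6
  omega

/-- Let `φ θ = ∫_0^θ β`.  Then `b(e^{iθ}) = b(1) e^{iφ(θ)}`, so `φ(2π) = 2πN`, `N` an integer `≥ 0`.
`N = 0` would give `β = 0` (continuous, `≥ 0`), `b` constant on the circle; `N ≥ 2` would give (IVT)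
`θ ∈ (0, 2π)` with `φ θ = 2π`, `b(e^{iθ}) = b(1)`; both contradict injectivity (`b_inj`). -/
theorem beta_int : ∫ θ in (0 : ℝ)..2 * Real.pi, beta f G θ = 2 * Real.pi := by
  set φ : ℝ → ℝ := fun θ => ∫ t in (0 : ℝ)..θ, beta f G t with hφ
  have hpi := Real.pi_pos
  have hφd : ∀ θ, HasDerivAt φ (beta f G θ) θ := fun θ =>
    (B.beta_cont.integral_hasStrictDerivAt 0 θ).hasDerivAt
  have hφc : Continuous φ := continuous_iff_continuousAt.2 fun θ => (hφd θ).continuousAt
  have hφm : Monotone φ := monotone_of_deriv_nonneg (fun θ => (hφd θ).differentiableAt)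
    (fun θ => by rw [(hφd θ).deriv]; exact B.beta_nonneg θ)
  have h0 : φ 0 = 0 := by simp [hφ]
  have hexp : ∀ θ, bb f G θ = bb f G 0 * exp ((φ θ : ℂ) * I) := fun θ => B.bb_eq_exp θ
  -- `φ (2π)` is a multiple of `2π`
  have hper : bb f G (2 * Real.pi) = bb f G 0 := by
    have := bb_periodic f G 0
    rwa [zero_add] at this
  have h1 : exp ((φ (2 * Real.pi) : ℂ) * I) = 1 := by
    have h2 := hexp (2 * Real.pi)
    rw [hper] at h2
    have h3 : bb f G 0 * exp ((φ (2 * Real.pi) : ℂ) * I) = bb f G 0 * 1 := by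
      rw [mul_one]; exact h2.symm
    exact mul_left_cancel₀ (B.bb_ne 0) h3
  rw [exp_eq_one_iff] at h1
  obtain ⟨n, hn⟩ := h1
  have h3 : (φ (2 * Real.pi) : ℂ) = (n : ℂ) * (2 * Real.pi) := by
    have : (φ (2 * Real.pi) : ℂ) * I = ((n : ℂ) * (2 * Real.pi)) * I := by rw [hn]; ring
    exact mul_right_cancel₀ I_ne_zero this
  have h4 : φ (2 * Real.pi) = n * (2 * Real.pi) := by exact_mod_cast h3
  change φ (2 * Real.pi) = 2 * Real.pi
  have hn1 : n = 1 := by
    rcases lt_trichotomy n 1 with hlt | heq | hgt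
    · exfalso
      have hn0 : (n : ℝ) ≤ 0 := by exact_mod_cast (by omega : n ≤ 0)
      have h5 : φ Real.pi ≤ φ (2 * Real.pi) := hφm (by linarith)
      have h6 : φ 0 ≤ φ Real.pi := hφm hpi.le
      have h7 : φ Real.pi = 0 := by
        apply le_antisymm
        · nlinarith
        · linarith
      have h8 := hexp Real.pi
      rw [h7, ofReal_zero, zero_mul, exp_zero, mul_one] at h8
      exact B.bb_ne_zero_of_mem hpi (by linarith) h8
    · exact heq
    · exfalso
      have hn2 : (2 : ℝ) ≤ n := by exact_mod_cast (by omega : 2 ≤ n)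
      have h5 : 2 * Real.pi ∈ Icc (φ 0) (φ (2 * Real.pi)) := by
        constructor
        · rw [h0]; positivity
        · rw [h4]; nlinarith
      obtain ⟨θ, hθ, hθ2⟩ := intermediate_value_Icc (by positivity : (0 : ℝ) ≤ 2 * Real.pi)
        hφc.continuousOn h5
      have h8 := hexp θ
      rw [hθ2] at h8
      have h9 : exp (((2 * Real.pi : ℝ) : ℂ) * I) = 1 := by
        push_cast
        exact exp_two_pi_mul_I
      rw [h9, mul_one] at h8
      have hθ0 : θ ≠ 0 := by
        rintro rfl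
        rw [h0] at hθ2
        linarith
      have hθ1 : θ ≠ 2 * Real.pi := by
        rintro rfl
        rw [h4] at hθ2
        nlinarith
      exact B.bb_ne_zero_of_mem (lt_of_le_of_ne hθ.1 (Ne.symm hθ0)) (lt_of_le_of_ne hθ.2 hθ1) h8
  rw [h4, hn1]
  push_cast
  ring

/-- for `j ≠ k` the integrand is a derivative of a periodic function: with `l = j - k`,
`d/dθ b^l = i l β b^l`. -/
theorem moments (j k : ℕ) :
    (2 * Real.pi : ℂ)⁻¹ * (∫ θ in (0 : ℝ)..2 * Real.pi,
      (beta f G θ : ℂ) * (bb f G θ ^ j * ((bb f G θ)⁻¹) ^ k)) = if j = k then 1 else 0 := by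
  have hpi := Real.pi_pos
  have hz : ∀ θ, bb f G θ ^ j * ((bb f G θ)⁻¹) ^ k = bb f G θ ^ ((j : ℤ) - k) := by
    intro θ
    rw [zpow_sub₀ (B.bb_ne θ), zpow_natCast, zpow_natCast, inv_pow, div_eq_mul_inv]
  simp only [hz]
  split_ifs with hjk
  · subst hjk
    simp only [sub_self, zpow_zero, mul_one]
    rw [intervalIntegral.integral_ofReal, B.beta_int]
    push_cast
    rw [inv_mul_cancel₀]
    have : ((2 * Real.pi : ℝ) : ℂ) ≠ 0 := by
      rw [Ne, ofReal_eq_zero]; positivity
    simpa using this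
  · set m : ℤ := (j : ℤ) - k with hm
    have hm0 : (m : ℂ) ≠ 0 := by
      rw [Int.cast_ne_zero, hm]
      omega
    have hd : ∀ θ, HasDerivAt (fun θ => bb f G θ ^ m)
        ((I * (m : ℂ)) * ((beta f G θ : ℂ) * bb f G θ ^ m)) θ := by
      intro θ
      have h1 := (hasDerivAt_zpow m (bb f G θ) (Or.inl (B.bb_ne θ))).scomp θ (B.bb_hasDerivAt θ)
      refine h1.congr_deriv ?_
      rw [smul_eq_mul]
      have h2 : bb f G θ ^ m = bb f G θ * bb f G θ ^ (m - 1) := by
        rw [zpow_sub_one₀ (B.bb_ne θ)]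
        field_simp [B.bb_ne θ]
      rw [h2]
      ring
    have hc : Continuous fun θ => (beta f G θ : ℂ) * bb f G θ ^ m :=
      (continuous_ofReal.comp B.beta_cont).mul
        (B.bb_cont.zpow₀ m fun θ => Or.inl (B.bb_ne θ))
    have h3 := intervalIntegral.integral_eq_sub_of_hasDerivAt (a := 0) (b := 2 * Real.pi)
      (fun θ _ => hd θ) ((continuous_const.mul hc).intervalIntegrable 0 (2 * Real.pi))
    have hper : bb f G (2 * Real.pi) = bb f G 0 := by
      have := bb_periodic f G 0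
      rwa [zero_add] at this
    rw [hper, sub_self, intervalIntegral.integral_const_mul] at h3
    have h4 := (mul_eq_zero.1 h3).resolve_left (mul_ne_zero I_ne_zero hm0)
    rw [h4, mul_zero]

end Bd

end Crest.Agent.CZ
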