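import Crest.Agent.CZ_Poisson
import Crest.Agent.CZ_Wind

/-! CZ-74: the density `Λ`. -/

set_option autoImplicit false

open Complex Metric Set Filter Topology MeasureTheory intervalIntegral
open scoped ComplexConjugate ComplexOrder

namespace Crest.Agent.CZ

variable {n : ℕ}

/-- the density -/
noncomputable def Lam (f G : ℂ → ℂ) (C : Matrix (Fin n) (Fin n) ℂ) (θ : ℝ) :
    Matrix (Fin n) (Fin n) ℂ :=
  (beta f G θ : ℂ) • Pk C (bb f G θ)

namespace Bd

variable {Ω U : Set ℂ} {f G : ℂ → ℂ} {r : ℝ} (B : Bd Ω U f G r)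
  (C : Matrix (Fin n) (Fin n) ℂ)

theorem Lam_periodic (f G : ℂ → ℂ) : Function.Periodic (Lam f G C) (2 * Real.pi) := by
  intro θ
  unfold Lam
  rw [bb_periodic f G θ, beta_periodic f G θ]

include B

theorem Lam_cont (hs : ∀ μ ∈ spectrum ℂ C, ‖μ‖ < 1) : Continuous (Lam f G C) := by
  have h1 : Continuous fun θ : ℝ => Pk C (bb f G θ) :=
    (Pk_continuousOn C hs).comp_continuous B.bb_cont fun θ => by
      rw [mem_sphere_zero_iff_norm]
      exact B.bb_norm θ
  exact (continuous_ofReal.comp B.beta_cont).smul h1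

theorem Lam_psd (hC : ‖op C‖ ≤ 1) (hs : ∀ μ ∈ spectrum ℂ C, ‖μ‖ < 1) (θ : ℝ) :
    (Lam f G C θ).PosSemidef := by
  refine (Pk_posSemidef C hC hs (B.bb_norm θ)).smul ?_
  exact_mod_cast B.beta_nonneg θ

theorem Lam_cont_apply (hs : ∀ μ ∈ spectrum ℂ C, ‖μ‖ < 1) (a b : Fin n) :
    Continuous fun θ => Lam f G C θ a b :=
  (continuous_apply b).comp ((continuous_apply a).comp (B.Lam_cont C hs))

/-- sum over `j` (uniform convergence) -/
theorem Lam_hasSum_int (g : ℝ → ℂ) (hg : Continuous g) (F : ℕ → ℝ → ℂ) (hF : ∀ k, Continuous (F k))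
    (u : ℕ → ℝ) (hu : Summable u) (hFu : ∀ k θ, ‖F k θ‖ ≤ u k) (w : ℝ → ℂ)
    (hw : ∀ θ, HasSum (fun k => F k θ) (w θ)) :
    HasSum (fun k => ∫ θ in (0 : ℝ)..2 * Real.pi, g θ * F k θ)
      (∫ θ in (0 : ℝ)..2 * Real.pi, g θ * w θ) := by
  refine intervalIntegral.hasSum_integral_of_dominated_convergence
    (fun k θ => ‖g θ‖ * u k) (fun k => (hg.mul (hF k)).aestronglyMeasurable) ?_ ?_ ?_ ?_
  · intro k
    refine Eventually.of_forall fun θ _ => ?_
    rw [norm_mul]
    exact mul_le_mul_of_nonneg_left (hFu k θ) (norm_nonneg _)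
  · exact Eventually.of_forall fun θ _ => hu.mul_left _
  · have : (fun θ : ℝ => ∑' k, ‖g θ‖ * u k) = fun θ => ‖g θ‖ * ∑' k, u k := by
      funext θ; exact tsum_mul_left
    rw [this]
    exact (hg.norm.mul continuous_const).intervalIntegrable _ _
  · exact Eventually.of_forall fun θ _ => (hw θ).mul_left _

/-- integrate the Neumann series `Pk_hasSum` termwise (`Pk_bound`), use `moments` -/
theorem Lam_moment (hs : ∀ μ ∈ spectrum ℂ C, ‖μ‖ < 1) (j : ℕ) (a b : Fin n) :
    (2 * Real.pi : ℂ)⁻¹ * (∫ θ in (0 : ℝ)..2 * Real.pi, Lam f G C θ a b * bb f G θ ^ j)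
      = (C ^ j) a b := by
  obtain ⟨u, hu, hub⟩ := Pk_bound C hs
  set F : ℕ → ℝ → ℂ := fun k θ => bb f G θ ^ k * (C.conjTranspose ^ k) a b
      + (if k = 0 then 0 else ((bb f G θ)⁻¹) ^ k * (C ^ k) a b) with hF
  have hbb := B.bb_cont
  have hbn : ∀ θ, ‖bb f G θ‖ = 1 := B.bb_norm
  have hb0 : ∀ θ, bb f G θ ≠ 0 := fun θ h => by
    have := hbn θ
    rw [h, norm_zero] at this
    exact zero_ne_one this
  have hbi : Continuous fun θ => (bb f G θ)⁻¹ := hbb.inv₀ hb0
  have hFc : ∀ k, Continuous (F k) := by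
    intro k
    refine ((hbb.pow k).mul continuous_const).add ?_
    by_cases hk : k = 0
    · simp only [hk, if_true]; exact continuous_const
    · simp only [hk, if_false]
      exact (hbi.pow k).mul continuous_const
  have hFu : ∀ k θ, ‖F k θ‖ ≤ u k := by
    intro k θ
    refine (norm_add_le _ _).trans (le_trans (add_le_add ?_ ?_) (hub k a b))
    · rw [norm_mul, norm_pow, hbn, one_pow, one_mul]
    · split_ifs
      · rw [norm_zero]; exact norm_nonneg _
      · rw [norm_mul, norm_pow, norm_inv, hbn, inv_one, one_pow, one_mul]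
  have hw : ∀ θ, HasSum (fun k => F k θ) (Pk C (bb f G θ) a b) := fun θ =>
    Pk_hasSum C hs (hbn θ) a b
  have hg : Continuous fun θ : ℝ => (beta f G θ : ℂ) * bb f G θ ^ j :=
    (continuous_ofReal.comp B.beta_cont).mul (hbb.pow j)
  have key := (B.Lam_hasSum_int (fun θ : ℝ => (beta f G θ : ℂ) * bb f G θ ^ j) hg F hFc u hu hFu
    (fun θ => Pk C (bb f G θ) a b) hw).mul_left ((2 * Real.pi : ℂ)⁻¹)
  have hterm : ∀ k, (2 * Real.pi : ℂ)⁻¹ *
      (∫ θ in (0 : ℝ)..2 * Real.pi, (beta f G θ : ℂ) * bb f G θ ^ j * F k θ) =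
      if k = j then (C ^ j) a b else 0 := by
    intro k
    have e1 : ∀ θ : ℝ, (beta f G θ : ℂ) * bb f G θ ^ j * F k θ =
        (C.conjTranspose ^ k) a b * ((beta f G θ : ℂ) * (bb f G θ ^ (j + k) * ((bb f G θ)⁻¹) ^ 0))
        + (if k = 0 then 0 else (C ^ k) a b) *
          ((beta f G θ : ℂ) * (bb f G θ ^ j * ((bb f G θ)⁻¹) ^ k)) := by
      intro θ
      simp only [hF]
      split_ifs
      · rw [pow_add]; ring
      · rw [pow_add]; ring
    have hc1 : Continuous fun θ : ℝ =>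
        (C.conjTranspose ^ k) a b * ((beta f G θ : ℂ) * (bb f G θ ^ (j + k) * ((bb f G θ)⁻¹) ^ 0)) :=
      continuous_const.mul ((continuous_ofReal.comp B.beta_cont).mul
        ((hbb.pow _).mul (hbi.pow _)))
    have hc2 : Continuous fun θ : ℝ => (if k = 0 then 0 else (C ^ k) a b) *
          ((beta f G θ : ℂ) * (bb f G θ ^ j * ((bb f G θ)⁻¹) ^ k)) :=
      continuous_const.mul ((continuous_ofReal.comp B.beta_cont).mul
        ((hbb.pow _).mul (hbi.pow _)))
    rw [intervalIntegral.integral_congr (g := fun θ : ℝ =>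
        (C.conjTranspose ^ k) a b * ((beta f G θ : ℂ) * (bb f G θ ^ (j + k) * ((bb f G θ)⁻¹) ^ 0))
        + (if k = 0 then 0 else (C ^ k) a b) *
          ((beta f G θ : ℂ) * (bb f G θ ^ j * ((bb f G θ)⁻¹) ^ k))) (fun θ _ => e1 θ),
      intervalIntegral.integral_add (hc1.intervalIntegrable _ _) (hc2.intervalIntegrable _ _),
      intervalIntegral.integral_const_mul, intervalIntegral.integral_const_mul, mul_add,
      mul_left_comm, B.moments (j + k) 0, mul_left_comm, B.moments j k]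
    by_cases hk : k = 0
    · subst hk
      by_cases hj : j = 0
      · subst hj; simp
      · have hj' : ¬ (0 = j) := fun h => hj h.symm
        simp [hj, hj']
    · have h1 : ¬ (j + k = 0) := by omega
      by_cases hj : j = k
      · subst hj; simp [hk]
      · have hj' : ¬ (k = j) := fun h => hj h.symm
        simp [h1, hk, hj, hj']
  rw [show (fun k => (2 * Real.pi : ℂ)⁻¹ *
      (∫ θ in (0 : ℝ)..2 * Real.pi, (beta f G θ : ℂ) * bb f G θ ^ j * F k θ)) =
      fun k => if k = j then (C ^ j) a b else 0 from funext hterm] at key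
  have h2 := hasSum_ite_eq j ((C ^ j) a b)
  have h3 := key.unique h2
  rw [← h3]
  congr 1
  refine intervalIntegral.integral_congr fun θ _ => ?_
  simp only [Lam, Matrix.smul_apply, smul_eq_mul]
  ring

/-- sum over `j` (uniform convergence) -/
theorem Lam_series (hs : ∀ μ ∈ spectrum ℂ C, ‖μ‖ < 1) (c : ℕ → ℂ) (hc : Summable fun j => ‖c j‖)
    (w : ℝ → ℂ) (hw : ∀ θ, HasSum (fun j => c j * bb f G θ ^ j) (w θ)) (a b : Fin n) {D : ℂ}
    (hD : HasSum (fun j => c j * (C ^ j) a b) D) :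
    (2 * Real.pi : ℂ)⁻¹ * (∫ θ in (0 : ℝ)..2 * Real.pi, Lam f G C θ a b * w θ) = D := by
  have hbn : ∀ θ, ‖bb f G θ‖ = 1 := B.bb_norm
  have key := (B.Lam_hasSum_int (fun θ : ℝ => Lam f G C θ a b) (B.Lam_cont_apply C hs a b)
    (fun j θ => c j * bb f G θ ^ j) (fun j => continuous_const.mul (B.bb_cont.pow j))
    (fun j => ‖c j‖) hc (fun j θ => by rw [norm_mul, norm_pow, hbn, one_pow, mul_one])
    w hw).mul_left ((2 * Real.pi : ℂ)⁻¹)
  have h1 : (fun j => (2 * Real.pi : ℂ)⁻¹ *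
      ∫ θ in (0 : ℝ)..2 * Real.pi, Lam f G C θ a b * (c j * bb f G θ ^ j)) =
      fun j => c j * (C ^ j) a b := by
    funext j
    have e : (∫ θ in (0 : ℝ)..2 * Real.pi, Lam f G C θ a b * (c j * bb f G θ ^ j)) =
        c j * ∫ θ in (0 : ℝ)..2 * Real.pi, Lam f G C θ a b * bb f G θ ^ j := by
      rw [← intervalIntegral.integral_const_mul]
      exact intervalIntegral.integral_congr fun θ _ => by
        show Lam f G C θ a b * (c j * bb f G θ ^ j) = c j * (Lam f G C θ a b * bb f G θ ^ j)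
        ring
    rw [e, ← B.Lam_moment C hs j a b]
    ring
  rw [h1] at key
  exact key.unique hD

end Bd

end Crest.Agent.CZ
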