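import Mathlib

/-! CZ-40: the numerical range (Toeplitz-Hausdorff theorem). -/

set_option autoImplicit false

open Complex Metric Set Filter Topology
open scoped ComplexConjugate

namespace Crest.Agent.CZ

variable {H : Type*} [NormedAddCommGroup H] [InnerProductSpace ℂ H]

/-- numerical range -/
def nr (A : H →L[ℂ] H) : Set ℂ := {z | ∃ x : H, ‖x‖ = 1 ∧ z = inner ℂ x (A x)}

/-- the phase making the cross terms real -/
theorem TH_phase (r : ℂ) : ∃ ω : ℂ, ‖ω‖ = 1 ∧ (ω * r).im = 0 := by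
  by_cases hr : r = 0
  · exact ⟨1, by simp, by simp [hr]⟩
  · refine ⟨conj r / (‖r‖ : ℂ), ?_, ?_⟩
    · rw [norm_div, Complex.norm_conj, Complex.norm_real, norm_norm,
        div_self (norm_ne_zero_iff.2 hr)]
    · rw [div_mul_eq_mul_div, Complex.conj_mul', ← Complex.ofReal_pow, ← Complex.ofReal_div,
        Complex.ofReal_im]

/-- normalised version of Toeplitz-Hausdorff -/
theorem TH_norm (B : H →L[ℂ] H) {x y : H} (hx : ‖x‖ = 1) (hy : ‖y‖ = 1)
    (hBx : inner ℂ x (B x) = 0) (hBy : inner ℂ y (B y) = 1) {s : ℝ} (hs0 : 0 ≤ s) (hs1 : s ≤ 1) :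
    ∃ w : H, ‖w‖ = 1 ∧ inner ℂ w (B w) = (s : ℂ) := by
  obtain ⟨ω, hω, him⟩ := TH_phase (inner ℂ y (B x) - conj (inner ℂ x (B y)))
  have hωω : conj ω * ω = 1 := by
    rw [Complex.conj_mul', hω]; simp
  -- the cross term
  obtain ⟨c, hc⟩ : ∃ c : ℝ, inner ℂ (ω • x) (B y) + inner ℂ y (B (ω • x)) = (c : ℂ) := by
    refine ⟨(inner ℂ (ω • x) (B y) + inner ℂ y (B (ω • x))).re, ?_⟩
    refine Complex.ext (by simp) ?_
    rw [Complex.ofReal_im, map_smul, inner_smul_left, inner_smul_right]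
    rw [mul_sub, Complex.sub_im] at him
    have h1 : (conj ω * inner ℂ x (B y)).im = -(ω * conj (inner ℂ x (B y))).im := by
      have : ω * conj (inner ℂ x (B y)) = conj (conj ω * inner ℂ x (B y)) := by simp
      rw [this, Complex.conj_im, neg_neg]
    rw [Complex.add_im, h1]
    linarith
  have hBx' : inner ℂ (ω • x) (B (ω • x)) = 0 := by
    rw [map_smul, inner_smul_left, inner_smul_right, hBx, mul_zero, mul_zero]
  have hx' : ‖ω • x‖ = 1 := by rw [norm_smul, hω, hx, mul_one]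
  set x' : H := ω • x with hx'def
  -- the path
  set v : ℝ → H := fun t => ((1 - t : ℝ) : ℂ) • x' + ((t : ℝ) : ℂ) • y with hv
  have hvB : ∀ t : ℝ, inner ℂ (v t) (B (v t)) = ((t ^ 2 + t * (1 - t) * c : ℝ) : ℂ) := by
    intro t
    simp only [hv, map_add, map_smul, inner_add_left, inner_add_right, inner_smul_left,
      inner_smul_right, Complex.conj_ofReal, hBx', hBy]
    push_cast
    linear_combination ((1 - (t : ℂ)) * (t : ℂ)) * hc
  have hvne : ∀ t : ℝ, v t ≠ 0 := by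
    intro t ht
    have h1 := hvB t
    rw [ht, map_zero, inner_zero_right] at h1
    have ht0 : (t : ℂ) ≠ 0 := by
      intro h0
      have h0' : t = 0 := by exact_mod_cast h0
      have : v t = x' := by simp [hv, h0']
      rw [this] at ht
      rw [ht, norm_zero] at hx'
      exact zero_ne_one hx'
    have hyx : y = (-((t : ℂ)⁻¹ * ((1 - t : ℝ) : ℂ))) • x' := by
      have h2 : ((t : ℝ) : ℂ) • y = -(((1 - t : ℝ) : ℂ) • x') := by
        rw [eq_neg_iff_add_eq_zero, add_comm]; exact ht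
      have h3 := congrArg (fun z => (t : ℂ)⁻¹ • z) h2
      simp only [smul_smul, inv_mul_cancel₀ ht0, one_smul, smul_neg] at h3
      rw [h3, neg_smul]
    have h4 : inner ℂ y (B y) = 0 := by
      rw [hyx, map_smul, inner_smul_left, inner_smul_right, hBx', mul_zero, mul_zero]
    rw [hBy] at h4
    exact one_ne_zero h4
  have hvc : Continuous v := by
    simp only [hv]
    fun_prop
  have hfc : Continuous fun t : ℝ => (t ^ 2 + t * (1 - t) * c) - s * ‖v t‖ ^ 2 := by fun_prop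
  have h0 : ((0 : ℝ) ^ 2 + 0 * (1 - 0) * c) - s * ‖v 0‖ ^ 2 ≤ 0 := by
    have : v 0 = x' := by simp [hv]
    rw [this, hx']
    linarith
  have h1 : 0 ≤ ((1 : ℝ) ^ 2 + 1 * (1 - 1) * c) - s * ‖v 1‖ ^ 2 := by
    have : v 1 = y := by simp [hv]
    rw [this, hy]
    linarith
  obtain ⟨t, -, ht⟩ := intermediate_value_Icc zero_le_one hfc.continuousOn ⟨h0, h1⟩
  simp only [] at ht
  have hn : (‖v t‖ : ℂ) ≠ 0 := by exact_mod_cast norm_ne_zero_iff.2 (hvne t)
  refine ⟨((‖v t‖ : ℂ)⁻¹) • v t, ?_, ?_⟩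
  · rw [norm_smul, norm_inv, Complex.norm_real, norm_norm,
      inv_mul_cancel₀ (norm_ne_zero_iff.2 (hvne t))]
  · rw [map_smul, inner_smul_left, inner_smul_right, hvB t, map_inv₀, Complex.conj_ofReal]
    have : (t ^ 2 + t * (1 - t) * c : ℝ) = s * ‖v t‖ ^ 2 := by linarith
    rw [this]
    push_cast
    field_simp

/-- Toeplitz-Hausdorff.  Proof: let `z₁ = ⟪x, A x⟫ ≠ z₂ = ⟪y, A y⟫`, `‖x‖ = ‖y‖ = 1`; replacing `A`
by `(z₂ - z₁)⁻¹ (A - z₁)` we may assume `z₁ = 0`, `z₂ = 1`; `x, y` are linearly independent.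
With `p = ⟪x, A y⟫`, `q = ⟪y, A x⟫` choose `|ω| = 1` with `ω (q - conj p)` real and replace `x` by
`ω x`: then `⟪x, A y⟫ + ⟪y, A x⟫` is real.  For `v_t = (1 - t) x + t y ≠ 0` the value
`⟪v_t, A v_t⟫/‖v_t‖²` is real and continuous in `t`, `0` at `t = 0` and `1` at `t = 1`; use the
intermediate value theorem. -/
theorem nr_convex (A : H →L[ℂ] H) : Convex ℝ (nr A) := by
  rintro z₁ ⟨x, hx, hz₁⟩ z₂ ⟨y, hy, hz₂⟩ a b ha hb hab
  by_cases hne : z₂ = z₁
  · rw [hne, ← add_smul, hab, one_smul]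
    exact ⟨x, hx, hz₁⟩
  have hd : z₂ - z₁ ≠ 0 := sub_ne_zero.2 hne
  have hin : ∀ w : H, ‖w‖ = 1 → inner ℂ w (((z₂ - z₁)⁻¹ • (A - z₁ • ContinuousLinearMap.id ℂ H)) w)
      = (z₂ - z₁)⁻¹ * (inner ℂ w (A w) - z₁) := by
    intro w hw
    simp only [_root_.smul_apply, _root_.sub_apply,
      ContinuousLinearMap.id_apply, inner_smul_right, inner_sub_right]
    rw [inner_self_eq_norm_sq_to_K, hw]
    simp
  obtain ⟨w, hw, hwB⟩ := TH_norm ((z₂ - z₁)⁻¹ • (A - z₁ • ContinuousLinearMap.id ℂ H)) hx hy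
    (by rw [hin x hx, ← hz₁, sub_self, mul_zero])
    (by rw [hin y hy, ← hz₂, inv_mul_cancel₀ hd]) hb (by linarith)
  refine ⟨w, hw, ?_⟩
  rw [hin w hw] at hwB
  have h1 : inner ℂ w (A w) - z₁ = (z₂ - z₁) * b := by
    rw [← hwB, mul_inv_cancel_left₀ hd]
  have h2 : inner ℂ w (A w) = z₁ + (z₂ - z₁) * b := by linear_combination h1
  rw [h2, Complex.real_smul, Complex.real_smul]
  have hab' : (a : ℂ) = 1 - b := by
    have : a = 1 - b := by linarith
    rw [this]; push_cast; ring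
  rw [hab']
  ring

theorem nr_compact [FiniteDimensional ℂ H] (A : H →L[ℂ] H) : IsCompact (nr A) := by
  have : ProperSpace H := FiniteDimensional.proper ℂ H
  have h1 : nr A = (fun x : H => inner ℂ x (A x)) '' sphere (0 : H) 1 := by
    ext z
    constructor
    · rintro ⟨x, hx, rfl⟩
      exact ⟨x, by simpa using hx, rfl⟩
    · rintro ⟨x, hx, rfl⟩
      exact ⟨x, by simpa using hx, rfl⟩
  rw [h1]
  exact (isCompact_sphere (0 : H) 1).image (by fun_prop)

theorem nr_nonempty [Nontrivial H] (A : H →L[ℂ] H) : (nr A).Nonempty := by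
  obtain ⟨x, hx⟩ := exists_ne (0 : H)
  refine ⟨_, ((‖x‖ : ℂ)⁻¹) • x, ?_, rfl⟩
  rw [norm_smul, norm_inv, Complex.norm_real, norm_norm,
    inv_mul_cancel₀ (norm_ne_zero_iff.2 hx)]

end Crest.Agent.CZ
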