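import Crest.Prelude.Def_NumRangeMetric
import Crest.Agent.CZ_TH

/-! CZ-50: matrices and operators: numerical range, spectrum, decay of powers. -/

set_option autoImplicit false

open Complex Metric Set Filter Topology Polynomial
open scoped ComplexConjugate
open Crest.AnalysisR.NumRange

namespace Crest.Agent.CZ

variable {n : ℕ}

/-- the operator of a matrix on Euclidean space -/
noncomputable abbrev op (A : Matrix (Fin n) (Fin n) ℂ) :
    EuclideanSpace ℂ (Fin n) →L[ℂ] EuclideanSpace ℂ (Fin n) :=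
  Matrix.toEuclideanCLM (n := Fin n) (𝕜 := ℂ) A

theorem numRange_eq (A : Matrix (Fin n) (Fin n) ℂ) : numRange A = nr (op A) := by
  rfl

theorem aeval_op (A : Matrix (Fin n) (Fin n) ℂ) (P : ℂ[X]) : aeval (op A) P = op (aeval A P) := by
  have h := Polynomial.aeval_algHom_apply
    ((Matrix.toEuclideanCLM (n := Fin n) (𝕜 := ℂ)).toAlgEquiv : _ ≃ₐ[ℂ] _).toAlgHom A P
  exact h

theorem spectrum_subset_numRange (A : Matrix (Fin n) (Fin n) ℂ) : spectrum ℂ A ⊆ numRange A := by
  intro μ hμ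
  have h1 : Module.End.HasEigenvalue (Matrix.toLin' A) μ := by
    rw [Module.End.hasEigenvalue_iff_mem_spectrum, Matrix.spectrum_toLin']
    exact hμ
  obtain ⟨v, hv⟩ := h1.exists_hasEigenvector
  have hv0 : v ≠ 0 := hv.2
  have hv1 : A.mulVec v = μ • v := by
    have := hv.apply_eq_smul
    simpa using this
  set w : EuclideanSpace ℂ (Fin n) := WithLp.toLp 2 v with hw
  have hw0 : w ≠ 0 := by
    intro h
    apply hv0
    have := congrArg WithLp.ofLp h
    simpa [hw] using this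
  have hAw : Matrix.toEuclideanLin A w = μ • w := by
    rw [hw]
    ext i
    simp [Matrix.toEuclideanLin, hv1]
  have hnw : (‖w‖ : ℂ) ≠ 0 := by
    exact_mod_cast norm_ne_zero_iff.2 hw0
  refine ⟨(‖w‖⁻¹ : ℂ) • w, ?_, ?_⟩
  · rw [norm_smul]
    simp [hw0]
  · rw [map_smul, hAw, inner_smul_left, inner_smul_right, inner_smul_right,
      inner_self_eq_norm_sq_to_K]
    simp
    field_simp

/-- `spectrum (p(A)) = p (spectrum A)` (Mathlib: `spectrum.map_polynomial_aeval_of_nonempty` or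
`spectrum.subset_polynomial_aeval` etc.), and `p μ = f μ` on the spectrum (`j = 0 < n`). -/
theorem spectrum_aeval (hn : 1 ≤ n) {A : Matrix (Fin n) (Fin n) ℂ} {f : ℂ → ℂ} {p : ℂ[X]}
    (hp : AgreesOnSpectrum A f p) : ∀ μ ∈ spectrum ℂ (aeval A p), ∃ ν ∈ spectrum ℂ A, μ = f ν := by
  intro μ hμ
  have : Nonempty (Fin n) := ⟨⟨0, hn⟩⟩
  have h1 : (spectrum ℂ A).Nonempty := spectrum.nonempty_of_isAlgClosed_of_finiteDimensional ℂ A
  rw [spectrum.map_polynomial_aeval_of_nonempty A p h1] at hμ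
  obtain ⟨ν, hν, rfl⟩ := hμ
  refine ⟨ν, hν, ?_⟩
  have := hp ν hν 0 hn
  simpa using this

/-- Gelfand's formula: spectral radius `< 1` -/
theorem powers_decay {T : Matrix (Fin n) (Fin n) ℂ} (hT : ∀ μ ∈ spectrum ℂ T, ‖μ‖ < 1) :
    ∃ C r : ℝ, 0 < C ∧ 0 < r ∧ r < 1 ∧ ∀ k : ℕ, ‖op (T ^ k)‖ ≤ C * r ^ k := by
  rcases Nat.eq_zero_or_pos n with rfl | hn
  · refine ⟨1, 1 / 2, one_pos, by norm_num, by norm_num, fun k => ?_⟩
    have : op (T ^ k) = 0 := by
      ext x i
      exact Fin.elim0 i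
    rw [this, norm_zero]
    positivity
  · have : Nonempty (Fin n) := ⟨⟨0, hn⟩⟩
    have hnt : Nontrivial (EuclideanSpace ℂ (Fin n)) := by infer_instance
    have hsp : spectrum ℂ (op T) = spectrum ℂ T :=
      AlgEquiv.spectrum_eq (Matrix.toEuclideanCLM (n := Fin n) (𝕜 := ℂ)) T
    have hne : (spectrum ℂ (op T)).Nonempty := by
      rw [hsp]
      exact spectrum.nonempty_of_isAlgClosed_of_finiteDimensional ℂ T
    have hlt : spectralRadius ℂ (op T) < ((1 : NNReal) : ENNReal) := by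
      apply spectrum.spectralRadius_lt_of_forall_lt_of_nonempty hne
      intro μ hμ
      rw [hsp] at hμ
      have := hT μ hμ
      exact_mod_cast this
    obtain ⟨r, hr1, hr2⟩ := ENNReal.lt_iff_exists_nnreal_btwn.1 hlt
    have hr3 : r < 1 := by exact_mod_cast hr2
    have hr0 : 0 < r := by
      have : (0 : ENNReal) < r := lt_of_le_of_lt zero_le hr1
      exact_mod_cast this
    have hg := spectrum.pow_nnnorm_pow_one_div_tendsto_nhds_spectralRadius (op T)
    have hev := hg.eventually (gt_mem_nhds hr1)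
    obtain ⟨N, hN⟩ := eventually_atTop.1 hev
    have hbig : ∀ k : ℕ, max N 1 ≤ k → ‖op (T ^ k)‖ ≤ (r : ℝ) ^ k := by
      intro k hk
      have hk1 : 1 ≤ k := le_trans (le_max_right _ _) hk
      have hkN : N ≤ k := le_trans (le_max_left _ _) hk
      have h1 := hN k hkN
      have hk0 : (0 : ℝ) < k := by exact_mod_cast hk1
      have h2 : (‖op T ^ k‖₊ : ENNReal) ≤ (r : ENNReal) ^ k := by
        have h3 : ((‖op T ^ k‖₊ : ENNReal) ^ (1 / k : ℝ)) ^ (k : ℝ) ≤ (r : ENNReal) ^ (k : ℝ) :=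
          ENNReal.rpow_le_rpow h1.le hk0.le
        rw [← ENNReal.rpow_mul, one_div_mul_cancel hk0.ne', ENNReal.rpow_one,
          ENNReal.rpow_natCast] at h3
        exact h3
      have h4 : ‖op T ^ k‖₊ ≤ r ^ k := by exact_mod_cast h2
      rw [show op (T ^ k) = op T ^ k from map_pow _ _ _]
      exact_mod_cast h4
    refine ⟨1 + ∑ k ∈ Finset.range (max N 1), ‖op (T ^ k)‖ / (r : ℝ) ^ k, r, ?_, ?_, ?_, ?_⟩
    · have : 0 ≤ ∑ k ∈ Finset.range (max N 1), ‖op (T ^ k)‖ / (r : ℝ) ^ k :=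
        Finset.sum_nonneg fun k _ => by positivity
      linarith
    · exact_mod_cast hr0
    · exact_mod_cast hr3
    · intro k
      have hrk : (0 : ℝ) < (r : ℝ) ^ k := by positivity
      rcases lt_or_ge k (max N 1) with hk | hk
      · have h1 : ‖op (T ^ k)‖ / (r : ℝ) ^ k ≤
            ∑ k ∈ Finset.range (max N 1), ‖op (T ^ k)‖ / (r : ℝ) ^ k :=
          Finset.single_le_sum (f := fun k => ‖op (T ^ k)‖ / (r : ℝ) ^ k)
            (fun i _ => by positivity) (Finset.mem_range.2 hk)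
        rw [div_le_iff₀ hrk] at h1
        nlinarith
      · have h1 := hbig k hk
        have : 0 ≤ ∑ k ∈ Finset.range (max N 1), ‖op (T ^ k)‖ / (r : ℝ) ^ k :=
          Finset.sum_nonneg fun k _ => by positivity
        nlinarith

end Crest.Agent.CZ
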