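import Mathlib

/-! CZ-21: Montel's theorem. -/

set_option autoImplicit false

open Complex Metric Set Filter Topology
open scoped ComplexConjugate

namespace Crest.Agent.CZ

/-- Local Lipschitz bound from Cauchy's estimate. -/
theorem montel_lip {g : ℂ → ℂ} {V : Set ℂ} {c : ℂ} {r : ℝ} (hr : 0 < r)
    (hg : DifferentiableOn ℂ g V) (hV : IsOpen V) (hb : ∀ z ∈ V, ‖g z‖ ≤ 1)
    (hsub : closedBall c (3 * r) ⊆ V) {x y : ℂ} (hx : x ∈ ball c (2 * r)) (hy : y ∈ ball c (2 * r)) :
    ‖g x - g y‖ ≤ 1 / r * ‖x - y‖ := by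
  have hd : ∀ w ∈ ball c (2 * r), ‖deriv g w‖ ≤ 1 / r := by
    intro w hw
    have hcb : closedBall w r ⊆ V := by
      refine (closedBall_subset_closedBall' ?_).trans hsub
      have := mem_ball.1 hw
      linarith
    refine norm_deriv_le_of_forall_mem_sphere_norm_le hr ?_ ?_
    · refine DifferentiableOn.diffContOnCl ?_
      rw [closure_ball w hr.ne']
      exact hg.mono hcb
    · intro z hz
      exact hb z (hcb (sphere_subset_closedBall hz))
  have hdiff : ∀ w ∈ ball c (2 * r), DifferentiableAt ℂ g w := by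
    intro w hw
    have hwV : w ∈ V := hsub (ball_subset_closedBall (ball_subset_ball (by linarith) hw))
    exact (hg w hwV).differentiableAt (hV.mem_nhds hwV)
  exact (convex_ball c (2 * r)).norm_image_sub_le_of_norm_deriv_le hdiff hd hy hx

/-- Montel. Proof: local Lipschitz bounds from Cauchy's estimate (`ball z (2 r) ⊆ V` gives
`‖φ n x - φ n y‖ ≤ (1/r) ‖x - y‖` on `ball z r`); pointwise convergence along a subsequence on a
countable dense subset of `V` (a countable product of closed discs is compact and first countable,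
hence sequentially compact); equicontinuity gives locally uniform Cauchy, hence a locally uniform
limit, which is differentiable (`TendstoLocallyUniformlyOn.differentiableOn`).
(Or use Mathlib's Arzela-Ascoli.) -/
theorem montel {V : Set ℂ} (hV : IsOpen V) (φ : ℕ → ℂ → ℂ)
    (hφ : ∀ n, DifferentiableOn ℂ (φ n) V) (hb : ∀ n, ∀ z ∈ V, ‖φ n z‖ ≤ 1) :
    ∃ (s : ℕ → ℕ) (f : ℂ → ℂ), StrictMono s ∧ DifferentiableOn ℂ f V ∧
      TendstoLocallyUniformlyOn (fun n => φ (s n)) f atTop V := by
  obtain ⟨D, hDc, hDd⟩ := TopologicalSpace.exists_countable_dense V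
  haveI : Countable D := hDc.to_subtype
  obtain ⟨a, -, s, hs, hlim⟩ := (isCompact_univ_pi
    (fun _ : D => isCompact_closedBall (0 : ℂ) 1)).tendsto_subseq
    (x := fun n => (fun d : D => φ n ((d : V) : ℂ)))
    (by
      intro n d _
      simpa using hb n _ (d : V).2)
  -- pointwise convergence on D
  have hpt : ∀ d : D, Tendsto (fun n => φ (s n) ((d : V) : ℂ)) atTop (𝓝 (a d)) := by
    intro d
    exact (tendsto_pi_nhds.1 hlim) d
  -- local uniform Cauchy
  have hcau : ∀ c ∈ V, ∃ r > 0, closedBall c r ⊆ V ∧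
      UniformCauchySeqOn (fun n => φ (s n)) atTop (closedBall c r) := by
    intro c hc
    obtain ⟨ρ, hρ, hρV⟩ := Metric.isOpen_iff.1 hV c hc
    set r := ρ / 4 with hr_def
    have hr : 0 < r := by positivity
    have hsub : closedBall c (3 * r) ⊆ V :=
      (closedBall_subset_ball (by rw [hr_def]; linarith)).trans hρV
    refine ⟨r, hr, (closedBall_subset_closedBall (by linarith)).trans hsub, ?_⟩
    rw [Metric.uniformCauchySeqOn_iff]
    intro ε hε
    set δ := min r (ε * r / 4) with hδ_def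
    have hδ : 0 < δ := lt_min hr (by positivity)
    -- finite cover
    obtain ⟨t, ht⟩ := (isCompact_closedBall c r).elim_finite_subcover
      (fun d : D => ball ((d : V) : ℂ) δ) (fun d => isOpen_ball)
      (by
        intro x hx
        have hxV : x ∈ V := ((closedBall_subset_closedBall (by linarith)).trans hsub) hx
        obtain ⟨y, hyD, hy⟩ := hDd.exists_dist_lt (⟨x, hxV⟩ : V) hδ
        refine mem_iUnion.2 ⟨⟨y, hyD⟩, ?_⟩
        simpa [mem_ball, Subtype.dist_eq] using hy)
    have hN : ∃ N, ∀ d ∈ t, ∀ m ≥ N, ∀ n ≥ N,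
        dist (φ (s m) ((d : V) : ℂ)) (φ (s n) ((d : V) : ℂ)) < ε / 4 := by
      have h1 : ∀ d : D, ∃ N, ∀ m ≥ N, ∀ n ≥ N,
          dist (φ (s m) ((d : V) : ℂ)) (φ (s n) ((d : V) : ℂ)) < ε / 4 := fun d =>
        Metric.cauchySeq_iff.1 (hpt d).cauchySeq (ε / 4) (by positivity)
      choose N hN using h1
      refine ⟨t.sup N, fun d hd m hm n hn => ?_⟩
      have hle : N d ≤ t.sup N := Finset.le_sup hd
      exact hN d m (hle.trans hm) n (hle.trans hn)
    obtain ⟨N, hN⟩ := hN
    refine ⟨N, fun m hm n hn x hx => ?_⟩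
    obtain ⟨d, hdt, hd⟩ : ∃ d ∈ t, x ∈ ball ((d : V) : ℂ) δ := by
      have := ht hx
      simpa using this
    have hxd : ‖x - ((d : V) : ℂ)‖ < δ := by
      rw [← dist_eq_norm]; exact mem_ball.1 hd
    have hx2 : x ∈ ball c (2 * r) := by
      have := mem_closedBall.1 hx
      rw [mem_ball]; linarith
    have hd2 : ((d : V) : ℂ) ∈ ball c (2 * r) := by
      have h1 := mem_closedBall.1 hx
      have h2 : dist ((d : V) : ℂ) x < r := by
        rw [dist_comm, dist_eq_norm]; exact lt_of_lt_of_le hxd (min_le_left _ _)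
      have h3 := dist_triangle ((d : V) : ℂ) x c
      rw [mem_ball]; linarith
    have hlip : ∀ k, ‖φ (s k) x - φ (s k) ((d : V) : ℂ)‖ ≤ ε / 4 := by
      intro k
      have h1 := montel_lip hr (hφ (s k)) hV (hb (s k)) hsub hx2 hd2
      have h2 : ‖x - ((d : V) : ℂ)‖ ≤ ε * r / 4 := (hxd.le).trans (min_le_right _ _)
      calc ‖φ (s k) x - φ (s k) ((d : V) : ℂ)‖ ≤ 1 / r * ‖x - ((d : V) : ℂ)‖ := h1
        _ ≤ 1 / r * (ε * r / 4) := by gcongr
        _ = ε / 4 := by field_simp
    have h1 := hlip m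
    have h2 := hlip n
    have h3 := hN d hdt m hm n hn
    rw [← dist_eq_norm] at h1 h2
    have h4 := dist_triangle (φ (s m) x) (φ (s m) ((d : V) : ℂ)) (φ (s n) x)
    have h5 := dist_triangle (φ (s m) ((d : V) : ℂ)) (φ (s n) ((d : V) : ℂ)) (φ (s n) x)
    rw [dist_comm (φ (s n) ((d : V) : ℂ)) (φ (s n) x)] at h5
    linarith
  -- pointwise limits
  have hex : ∀ x : ℂ, ∃ y : ℂ, x ∈ V → Tendsto (fun n => φ (s n) x) atTop (𝓝 y) := by
    intro x
    by_cases hx : x ∈ V
    · obtain ⟨r, hr, -, hu⟩ := hcau x hx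
      have hc : CauchySeq (fun n => φ (s n) x) := hu.cauchySeq (mem_closedBall_self hr.le)
      obtain ⟨y, hy⟩ := cauchySeq_tendsto_of_complete hc
      exact ⟨y, fun _ => hy⟩
    · exact ⟨0, fun h => absurd h hx⟩
  choose f hf using hex
  have hloc : TendstoLocallyUniformlyOn (fun n => φ (s n)) f atTop V := by
    rw [tendstoLocallyUniformlyOn_iff_forall_isCompact hV]
    intro K hKV hK
    rw [← tendstoLocallyUniformlyOn_iff_tendstoUniformlyOn_of_compact hK]
    intro u hu x hx
    obtain ⟨r, hr, hrV, huc⟩ := hcau x (hKV hx)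
    have h1 : TendstoUniformlyOn (fun n => φ (s n)) f atTop (closedBall x r) :=
      huc.tendstoUniformlyOn_of_tendsto (fun y hy => hf y (hrV hy))
    exact ⟨closedBall x r, mem_nhdsWithin_of_mem_nhds (closedBall_mem_nhds x hr), h1 u hu⟩
  exact ⟨s, f, hs, hloc.differentiableOn (Eventually.of_forall fun n => hφ (s n)) hV, hloc⟩

end Crest.Agent.CZ
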