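import Mathlib

/-! CZ-77: norm bound from a positive density. -/

set_option autoImplicit false

open Complex Metric Set Filter Topology MeasureTheory intervalIntegral
open scoped ComplexConjugate ComplexOrder

namespace Crest.Agent.CZ

private theorem form_eq_inner {ι : Type*} [Fintype ι] [DecidableEq ι] (w : Matrix ι ι ℂ)
    (p q : ι → ℂ) :
    ∑ c, ∑ d, conj (p c) * w c d * q d =
      inner ℂ (WithLp.toLp 2 p : EuclideanSpace ℂ ι)
        (Matrix.toEuclideanCLM (n := ι) (𝕜 := ℂ) w (WithLp.toLp 2 q)) := by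
  rw [PiLp.inner_apply]
  refine Finset.sum_congr rfl fun c _ => ?_
  rw [RCLike.inner_apply, Matrix.ofLp_toEuclideanCLM, Matrix.mulVec, dotProduct, Finset.sum_mul]
  refine Finset.sum_congr rfl fun d _ => ?_
  ring

private theorem form_bound {m : ℕ} (w : Matrix (Fin m) (Fin m) ℂ) (M : ℝ)
    (hM : ‖Matrix.toEuclideanCLM (n := Fin m) (𝕜 := ℂ) w‖ ≤ M) (p q : Fin m → ℂ) :
    ‖∑ c, ∑ d, conj (p c) * w c d * q d‖ ≤ M * ((∑ c, ‖p c‖ ^ 2) + ∑ c, ‖q c‖ ^ 2) / 2 := by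
  have hM0 : 0 ≤ M := (norm_nonneg _).trans hM
  rw [form_eq_inner]
  have h1 : ‖(WithLp.toLp 2 p : EuclideanSpace ℂ (Fin m))‖ ^ 2 = ∑ c, ‖p c‖ ^ 2 :=
    EuclideanSpace.norm_sq_eq _
  have h2 : ‖(WithLp.toLp 2 q : EuclideanSpace ℂ (Fin m))‖ ^ 2 = ∑ c, ‖q c‖ ^ 2 :=
    EuclideanSpace.norm_sq_eq _
  rw [← h1, ← h2]
  set P := (WithLp.toLp 2 p : EuclideanSpace ℂ (Fin m))
  set Q := (WithLp.toLp 2 q : EuclideanSpace ℂ (Fin m))
  calc ‖(inner ℂ P (Matrix.toEuclideanCLM (n := Fin m) (𝕜 := ℂ) w Q) : ℂ)‖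
      ≤ ‖P‖ * ‖Matrix.toEuclideanCLM (n := Fin m) (𝕜 := ℂ) w Q‖ := norm_inner_le_norm _ _
    _ ≤ ‖P‖ * (M * ‖Q‖) := by
        refine mul_le_mul_of_nonneg_left ?_ (norm_nonneg _)
        exact (ContinuousLinearMap.le_opNorm _ _).trans
          (mul_le_mul_of_nonneg_right hM (norm_nonneg _))
    _ ≤ M * (‖P‖ ^ 2 + ‖Q‖ ^ 2) / 2 := by
        nlinarith [mul_nonneg hM0 (sq_nonneg (‖P‖ - ‖Q‖))]

private theorem diag_eq {n m : ℕ} (B : Matrix (Fin n) (Fin n) ℂ) (x : Fin n × Fin m → ℂ) :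
    (∑ a, ∑ b, ∑ c, conj (x (a, c)) * (B.conjTranspose * B) a b * x (b, c)).re =
      ∑ e, ∑ c, ‖∑ a, B e a * x (a, c)‖ ^ 2 := by
  have h : ∑ a, ∑ b, ∑ c, conj (x (a, c)) * (B.conjTranspose * B) a b * x (b, c) =
      ((∑ e, ∑ c, ‖∑ a, B e a * x (a, c)‖ ^ 2 : ℝ) : ℂ) := by
    push_cast
    have h1 : ∀ e c, ((‖∑ a, B e a * x (a, c)‖ : ℝ) : ℂ) ^ 2 =
        ∑ a, ∑ b, conj (x (a, c)) * (conj (B e a) * B e b) * x (b, c) := by
      intro e c
      rw [← Complex.conj_mul', map_sum, Finset.sum_mul_sum]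
      refine Finset.sum_congr rfl fun a _ => Finset.sum_congr rfl fun b _ => ?_
      rw [map_mul]; ring
    simp only [h1, Matrix.mul_apply, Matrix.conjTranspose_apply, Finset.mul_sum, Finset.sum_mul,
      RCLike.star_def]
    -- reorder sums
    calc ∑ a, ∑ b, ∑ c, ∑ e, conj (x (a, c)) * (conj (B e a) * B e b) * x (b, c)
        = ∑ a, ∑ b, ∑ e, ∑ c, conj (x (a, c)) * (conj (B e a) * B e b) * x (b, c) :=
          Finset.sum_congr rfl fun a _ => Finset.sum_congr rfl fun b _ => Finset.sum_comm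
      _ = ∑ a, ∑ e, ∑ b, ∑ c, conj (x (a, c)) * (conj (B e a) * B e b) * x (b, c) :=
          Finset.sum_congr rfl fun a _ => Finset.sum_comm
      _ = ∑ e, ∑ a, ∑ b, ∑ c, conj (x (a, c)) * (conj (B e a) * B e b) * x (b, c) :=
          Finset.sum_comm
      _ = ∑ e, ∑ a, ∑ c, ∑ b, conj (x (a, c)) * (conj (B e a) * B e b) * x (b, c) :=
          Finset.sum_congr rfl fun e _ => Finset.sum_congr rfl fun a _ => Finset.sum_comm
      _ = ∑ e, ∑ c, ∑ a, ∑ b, conj (x (a, c)) * (conj (B e a) * B e b) * x (b, c) :=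
          Finset.sum_congr rfl fun e _ => Finset.sum_comm
  rw [h, Complex.ofReal_re]

/-- pointwise bound: `Λ = Bᴴ B`;
`|Σ conj x_{ac} Λ_{ab} w_{cd} y_{bd}| = |Σ_e ⟪(Bx)_e, w (By)_e⟫| ≤ M (‖Bx‖² + ‖By‖²)/2`,
`‖Bx‖² = Σ_c Σ_{ab} conj x_{ac} Λ_{ab} x_{bc}`. -/
theorem kron_bound {n m : ℕ} (Λ : Matrix (Fin n) (Fin n) ℂ) (hΛ : Λ.PosSemidef)
    (w : Matrix (Fin m) (Fin m) ℂ) (M : ℝ)
    (hM : ‖Matrix.toEuclideanCLM (n := Fin m) (𝕜 := ℂ) w‖ ≤ M) (x y : Fin n × Fin m → ℂ) :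
    ‖∑ i, ∑ j, conj (x i) * (Λ i.1 j.1 * w i.2 j.2) * y j‖ ≤
      M * ((∑ a, ∑ b, ∑ c, conj (x (a, c)) * Λ a b * x (b, c)).re
        + (∑ a, ∑ b, ∑ c, conj (y (a, c)) * Λ a b * y (b, c)).re) / 2 := by
  obtain ⟨B, rfl⟩ : ∃ B : Matrix (Fin n) (Fin n) ℂ, Λ = B.conjTranspose * B := by
    open scoped MatrixOrder Matrix.Norms.L2Operator in
    exact CStarAlgebra.nonneg_iff_eq_star_mul_self.mp hΛ.nonneg
  rw [diag_eq, diag_eq]
  have key : ∑ i, ∑ j, conj (x i) * ((B.conjTranspose * B) i.1 j.1 * w i.2 j.2) * y j =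
      ∑ e, ∑ c, ∑ d, conj (∑ a, B e a * x (a, c)) * w c d * (∑ b, B e b * y (b, d)) := by
    have h1 : ∀ e c d, conj (∑ a, B e a * x (a, c)) * w c d * (∑ b, B e b * y (b, d)) =
        ∑ a, ∑ b, conj (x (a, c)) * (conj (B e a) * B e b * w c d) * y (b, d) := by
      intro e c d
      rw [map_sum, Finset.sum_mul, Finset.sum_mul_sum]
      refine Finset.sum_congr rfl fun a _ => Finset.sum_congr rfl fun b _ => ?_
      rw [map_mul]; ring
    simp only [h1, Fintype.sum_prod_type, Matrix.mul_apply, Matrix.conjTranspose_apply,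
      Finset.mul_sum, Finset.sum_mul, RCLike.star_def]
    set g : Fin n → Fin m → Fin m → Fin n → Fin n → ℂ := fun e c d a b =>
      conj (x (a, c)) * (conj (B e a) * B e b * w c d) * y (b, d) with hg
    show ∑ a, ∑ c, ∑ b, ∑ d, ∑ e, g e c d a b = ∑ e, ∑ c, ∑ d, ∑ a, ∑ b, g e c d a b
    calc ∑ a, ∑ c, ∑ b, ∑ d, ∑ e, g e c d a b
        = ∑ a, ∑ c, ∑ b, ∑ e, ∑ d, g e c d a b :=
          Finset.sum_congr rfl fun a _ => Finset.sum_congr rfl fun c _ =>
            Finset.sum_congr rfl fun b _ => Finset.sum_comm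
      _ = ∑ a, ∑ c, ∑ e, ∑ b, ∑ d, g e c d a b :=
          Finset.sum_congr rfl fun a _ => Finset.sum_congr rfl fun c _ => Finset.sum_comm
      _ = ∑ a, ∑ e, ∑ c, ∑ b, ∑ d, g e c d a b :=
          Finset.sum_congr rfl fun a _ => Finset.sum_comm
      _ = ∑ e, ∑ a, ∑ c, ∑ b, ∑ d, g e c d a b := Finset.sum_comm
      _ = ∑ e, ∑ c, ∑ a, ∑ b, ∑ d, g e c d a b :=
          Finset.sum_congr rfl fun e _ => Finset.sum_comm
      _ = ∑ e, ∑ c, ∑ a, ∑ d, ∑ b, g e c d a b :=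
          Finset.sum_congr rfl fun e _ => Finset.sum_congr rfl fun c _ =>
            Finset.sum_congr rfl fun a _ => Finset.sum_comm
      _ = ∑ e, ∑ c, ∑ d, ∑ a, ∑ b, g e c d a b :=
          Finset.sum_congr rfl fun e _ => Finset.sum_congr rfl fun c _ => Finset.sum_comm
  rw [key]
  calc ‖∑ e, ∑ c, ∑ d, conj (∑ a, B e a * x (a, c)) * w c d * (∑ b, B e b * y (b, d))‖
      ≤ ∑ e, ‖∑ c, ∑ d, conj (∑ a, B e a * x (a, c)) * w c d * (∑ b, B e b * y (b, d))‖ :=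
        norm_sum_le _ _
    _ ≤ ∑ e, M * ((∑ c, ‖∑ a, B e a * x (a, c)‖ ^ 2) + ∑ c, ‖∑ a, B e a * y (a, c)‖ ^ 2) / 2 :=
        Finset.sum_le_sum fun e _ => form_bound w M hM (fun c => ∑ a, B e a * x (a, c))
          (fun c => ∑ a, B e a * y (a, c))
    _ = _ := by
        rw [← Finset.sum_div, ← Finset.mul_sum, Finset.sum_add_distrib]

private theorem norm_le_of_form {ι : Type*} [Fintype ι] [DecidableEq ι] (W : Matrix ι ι ℂ) (M : ℝ)
    (hM0 : 0 ≤ M)
    (h : ∀ x y : ι → ℂ, ‖∑ i, ∑ j, conj (x i) * W i j * y j‖ ≤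
      M * ((∑ i, ‖x i‖ ^ 2) + ∑ i, ‖y i‖ ^ 2) / 2) :
    ‖Matrix.toEuclideanCLM (n := ι) (𝕜 := ℂ) W‖ ≤ M := by
  set T := Matrix.toEuclideanCLM (n := ι) (𝕜 := ℂ) W with hT
  have h' : ∀ x y : EuclideanSpace ℂ ι, ‖(inner ℂ x (T y) : ℂ)‖ ≤ M * (‖x‖ ^ 2 + ‖y‖ ^ 2) / 2 := by
    intro x y
    have := h (fun i => x i) (fun i => y i)
    rw [form_eq_inner, ← EuclideanSpace.norm_sq_eq, ← EuclideanSpace.norm_sq_eq] at this
    exact this
  refine ContinuousLinearMap.opNorm_le_bound _ hM0 fun y => ?_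
  by_cases hy : y = 0
  · simp [hy]
  have hyn : 0 < ‖y‖ := norm_pos_iff.2 hy
  by_cases hTy : T y = 0
  · rw [hTy, norm_zero]; positivity
  have hTn : 0 < ‖T y‖ := norm_pos_iff.2 hTy
  -- x = (‖y‖ / ‖T y‖) • T y
  have h1 := h' (((‖y‖ / ‖T y‖ : ℝ) : ℂ) • T y) y
  rw [inner_smul_left, inner_self_eq_norm_sq_to_K, norm_smul, Complex.conj_ofReal] at h1
  have h2 : ‖(((‖y‖ / ‖T y‖ : ℝ) : ℂ) * ((‖T y‖ : ℝ) : ℂ) ^ 2)‖ = ‖y‖ * ‖T y‖ := by
    rw [norm_mul, norm_pow, Complex.norm_real, Complex.norm_real, norm_norm, norm_div, norm_norm,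
      norm_norm]
    field_simp
  have h3 : ‖((‖y‖ / ‖T y‖ : ℝ) : ℂ)‖ * ‖T y‖ = ‖y‖ := by
    rw [Complex.norm_real, norm_div, norm_norm, norm_norm]
    field_simp
  have h4 : ‖y‖ * ‖T y‖ ≤ M * (‖y‖ ^ 2 + ‖y‖ ^ 2) / 2 := by
    rw [← h2]
    rw [h3] at h1
    exact h1
  have h5 : ‖y‖ * ‖T y‖ ≤ ‖y‖ * (M * ‖y‖) := by nlinarith
  exact le_of_mul_le_mul_left h5 hyn

/-- integrate `kron_bound`: `|⟪x, W y⟫| ≤ M (‖x‖² + ‖y‖²)/2`, hence `‖W‖ ≤ M` -/
theorem poisson_bound {n m : ℕ} (Λ : ℝ → Matrix (Fin n) (Fin n) ℂ) (hΛ : Continuous Λ)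
    (hpos : ∀ θ, (Λ θ).PosSemidef)
    (hmean : ∀ a b, (2 * Real.pi : ℂ)⁻¹ * (∫ θ in (0 : ℝ)..2 * Real.pi, Λ θ a b)
        = (1 : Matrix (Fin n) (Fin n) ℂ) a b)
    (w : ℝ → Matrix (Fin m) (Fin m) ℂ) (hw : ∀ c d, Continuous fun θ => w θ c d) (M : ℝ)
    (hM : ∀ θ, ‖Matrix.toEuclideanCLM (n := Fin m) (𝕜 := ℂ) (w θ)‖ ≤ M) :
    ‖Matrix.toEuclideanCLM (n := Fin n × Fin m) (𝕜 := ℂ)
        (Matrix.of fun (i : Fin n × Fin m) (j : Fin n × Fin m) =>
          (2 * Real.pi : ℂ)⁻¹ * (∫ θ in (0 : ℝ)..2 * Real.pi, Λ θ i.1 j.1 * w θ i.2 j.2))‖ ≤ M := by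
  have hM0 : 0 ≤ M := (norm_nonneg _).trans (hM 0)
  have h2π : (0 : ℝ) < 2 * Real.pi := Real.two_pi_pos
  have hΛab : ∀ a b, Continuous fun θ => Λ θ a b := fun a b =>
    (continuous_apply_apply a b).comp hΛ
  refine norm_le_of_form _ M hM0 fun x y => ?_
  -- the form as an integral
  have e1 : ∑ i, ∑ j, conj (x i) * (Matrix.of fun (i : Fin n × Fin m) (j : Fin n × Fin m) =>
      (2 * Real.pi : ℂ)⁻¹ * (∫ θ in (0 : ℝ)..2 * Real.pi, Λ θ i.1 j.1 * w θ i.2 j.2)) i j * y j =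
      (2 * Real.pi : ℂ)⁻¹ * ∫ θ in (0 : ℝ)..2 * Real.pi,
        ∑ i, ∑ j, conj (x i) * (Λ θ i.1 j.1 * w θ i.2 j.2) * y j := by
    rw [intervalIntegral.integral_finsetSum]
    · rw [Finset.mul_sum]
      refine Finset.sum_congr rfl fun i _ => ?_
      rw [intervalIntegral.integral_finsetSum]
      · rw [Finset.mul_sum]
        refine Finset.sum_congr rfl fun j _ => ?_
        rw [Matrix.of_apply, intervalIntegral.integral_mul_const,
          intervalIntegral.integral_const_mul]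
        ring
      · intro j _
        exact ((continuous_const.mul ((hΛab _ _).mul (hw _ _))).mul
          continuous_const).intervalIntegrable _ _
    · intro i _
      refine Continuous.intervalIntegrable ?_ _ _
      refine continuous_finsetSum _ fun j _ => ?_
      exact (continuous_const.mul ((hΛab _ _).mul (hw _ _))).mul continuous_const
  -- the diagonal forms
  have hform : ∀ z : Fin n × Fin m → ℂ,
      ∫ θ in (0 : ℝ)..2 * Real.pi, (∑ a, ∑ b, ∑ c, conj (z (a, c)) * Λ θ a b * z (b, c)).re =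
        2 * Real.pi * ∑ i, ‖z i‖ ^ 2 := by
    intro z
    have hc : Continuous fun θ => ∑ a, ∑ b, ∑ c, conj (z (a, c)) * Λ θ a b * z (b, c) :=
      continuous_finsetSum _ fun a _ => continuous_finsetSum _ fun b _ =>
        continuous_finsetSum _ fun c _ => (continuous_const.mul (hΛab _ _)).mul continuous_const
    have h1 : ∫ θ in (0 : ℝ)..2 * Real.pi,
        (∑ a, ∑ b, ∑ c, conj (z (a, c)) * Λ θ a b * z (b, c)).re =
        (∫ θ in (0 : ℝ)..2 * Real.pi,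
          ∑ a, ∑ b, ∑ c, conj (z (a, c)) * Λ θ a b * z (b, c)).re := by
      have := Complex.reCLM.intervalIntegral_comp_comm (hc.intervalIntegrable 0 (2 * Real.pi))
        (μ := volume)
      simpa using this
    rw [h1]
    have h2 : ∫ θ in (0 : ℝ)..2 * Real.pi, ∑ a, ∑ b, ∑ c, conj (z (a, c)) * Λ θ a b * z (b, c) =
        ((2 * Real.pi * ∑ i, ‖z i‖ ^ 2 : ℝ) : ℂ) := by
      have hπ : (2 * Real.pi : ℂ) ≠ 0 := by
        exact_mod_cast h2π.ne'
      have hint : ∀ a b, ∫ θ in (0 : ℝ)..2 * Real.pi, Λ θ a b =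
          (2 * Real.pi : ℂ) * (1 : Matrix (Fin n) (Fin n) ℂ) a b := by
        intro a b
        rw [← hmean a b, ← mul_assoc, mul_inv_cancel₀ hπ, one_mul]
      rw [intervalIntegral.integral_finsetSum]
      · calc _ = ∑ a, ∑ b, ∑ c, ∫ θ in (0 : ℝ)..2 * Real.pi, conj (z (a, c)) * Λ θ a b * z (b, c) := by
              refine Finset.sum_congr rfl fun a _ => ?_
              rw [intervalIntegral.integral_finsetSum]
              · refine Finset.sum_congr rfl fun b _ => ?_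
                rw [intervalIntegral.integral_finsetSum]
                intro c _
                exact ((continuous_const.mul (hΛab _ _)).mul
                  continuous_const).intervalIntegrable _ _
              · intro b _
                refine Continuous.intervalIntegrable ?_ _ _
                exact continuous_finsetSum _ fun c _ =>
                  (continuous_const.mul (hΛab _ _)).mul continuous_const
          _ = ∑ a, ∑ b, ∑ c, conj (z (a, c)) *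
              ((2 * Real.pi : ℂ) * (1 : Matrix (Fin n) (Fin n) ℂ) a b) * z (b, c) := by
              refine Finset.sum_congr rfl fun a _ => Finset.sum_congr rfl fun b _ =>
                Finset.sum_congr rfl fun c _ => ?_
              rw [intervalIntegral.integral_mul_const, intervalIntegral.integral_const_mul, hint]
          _ = ∑ a, ∑ c, conj (z (a, c)) * ((2 * Real.pi : ℂ)) * z (a, c) := by
              refine Finset.sum_congr rfl fun a _ => ?_
              rw [Finset.sum_eq_single a]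
              · simp
              · intro b _ hb
                simp [Matrix.one_apply_ne hb.symm]
              · simp
          _ = _ := by
              rw [Fintype.sum_prod_type]
              push_cast
              rw [Finset.mul_sum]
              refine Finset.sum_congr rfl fun a _ => ?_
              rw [Finset.mul_sum]
              refine Finset.sum_congr rfl fun c _ => ?_
              rw [← Complex.conj_mul']
              ring
      · intro a _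
        refine Continuous.intervalIntegrable ?_ _ _
        exact continuous_finsetSum _ fun b _ =>
          continuous_finsetSum _ fun c _ => (continuous_const.mul (hΛab _ _)).mul continuous_const
    rw [h2, Complex.ofReal_re]
  have hcz : ∀ z : Fin n × Fin m → ℂ,
      Continuous fun θ => (∑ a, ∑ b, ∑ c, conj (z (a, c)) * Λ θ a b * z (b, c)).re := by
    intro z
    refine Complex.continuous_re.comp ?_
    exact continuous_finsetSum _ fun a _ => continuous_finsetSum _ fun b _ =>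
        continuous_finsetSum _ fun c _ => (continuous_const.mul (hΛab _ _)).mul continuous_const
  rw [e1, norm_mul]
  have hn : ‖(2 * Real.pi : ℂ)⁻¹‖ = (2 * Real.pi)⁻¹ := by
    rw [norm_inv]
    congr 1
    have : (2 * Real.pi : ℂ) = ((2 * Real.pi : ℝ) : ℂ) := by push_cast; rfl
    rw [this, Complex.norm_real, Real.norm_of_nonneg h2π.le]
  rw [hn]
  have hle : ‖∫ θ in (0 : ℝ)..2 * Real.pi,
        ∑ i, ∑ j, conj (x i) * (Λ θ i.1 j.1 * w θ i.2 j.2) * y j‖ ≤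
      ∫ θ in (0 : ℝ)..2 * Real.pi,
        M * ((∑ a, ∑ b, ∑ c, conj (x (a, c)) * Λ θ a b * x (b, c)).re
        + (∑ a, ∑ b, ∑ c, conj (y (a, c)) * Λ θ a b * y (b, c)).re) / 2 := by
    refine intervalIntegral.norm_integral_le_of_norm_le h2π.le ?_ ?_
    · exact Eventually.of_forall fun θ _ => kron_bound (Λ θ) (hpos θ) (w θ) M (hM θ) x y
    · refine Continuous.intervalIntegrable ?_ _ _
      exact (continuous_const.mul ((hcz x).add (hcz y))).div_const 2
  have hval : ∫ θ in (0 : ℝ)..2 * Real.pi,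
        M * ((∑ a, ∑ b, ∑ c, conj (x (a, c)) * Λ θ a b * x (b, c)).re
        + (∑ a, ∑ b, ∑ c, conj (y (a, c)) * Λ θ a b * y (b, c)).re) / 2 =
      2 * Real.pi * (M * ((∑ i, ‖x i‖ ^ 2) + ∑ i, ‖y i‖ ^ 2) / 2) := by
    rw [intervalIntegral.integral_div, intervalIntegral.integral_const_mul,
      intervalIntegral.integral_add ((hcz x).intervalIntegrable _ _)
        ((hcz y).intervalIntegrable _ _), hform, hform]
    ring
  calc (2 * Real.pi)⁻¹ * ‖∫ θ in (0 : ℝ)..2 * Real.pi,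
        ∑ i, ∑ j, conj (x i) * (Λ θ i.1 j.1 * w θ i.2 j.2) * y j‖
      ≤ (2 * Real.pi)⁻¹ * (2 * Real.pi * (M * ((∑ i, ‖x i‖ ^ 2) + ∑ i, ‖y i‖ ^ 2) / 2)) := by
        refine mul_le_mul_of_nonneg_left ?_ (by positivity)
        rw [← hval]
        exact hle
    _ = _ := by
        rw [← mul_assoc, inv_mul_cancel₀ h2π.ne', one_mul]

private theorem kron_one_norm {n m : ℕ} (S : Matrix (Fin n) (Fin n) ℂ) (s : ℝ)
    (hs : ‖Matrix.toEuclideanCLM (n := Fin n) (𝕜 := ℂ) S‖ ≤ s) :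
    ‖Matrix.toEuclideanCLM (n := Fin n × Fin m) (𝕜 := ℂ)
      (Matrix.kroneckerMap (· * ·) S (1 : Matrix (Fin m) (Fin m) ℂ))‖ ≤ s := by
  have hs0 : 0 ≤ s := (norm_nonneg _).trans hs
  refine ContinuousLinearMap.opNorm_le_bound _ hs0 fun x => ?_
  refine le_of_sq_le_sq ?_ (by positivity)
  rw [EuclideanSpace.norm_sq_eq, mul_pow, EuclideanSpace.norm_sq_eq, Fintype.sum_prod_type_right,
    Fintype.sum_prod_type_right, Finset.mul_sum]
  refine Finset.sum_le_sum fun c _ => ?_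
  have h1 := ContinuousLinearMap.le_opNorm (Matrix.toEuclideanCLM (n := Fin n) (𝕜 := ℂ) S)
    (WithLp.toLp 2 fun a => x (a, c))
  have h2 : ‖Matrix.toEuclideanCLM (n := Fin n) (𝕜 := ℂ) S (WithLp.toLp 2 fun a => x (a, c))‖ ≤
      s * ‖(WithLp.toLp 2 fun a => x (a, c) : EuclideanSpace ℂ (Fin n))‖ :=
    h1.trans (mul_le_mul_of_nonneg_right hs (norm_nonneg _))
  have h3 := pow_le_pow_left₀ (norm_nonneg _) h2 2
  rw [mul_pow, EuclideanSpace.norm_sq_eq, EuclideanSpace.norm_sq_eq] at h3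
  refine le_trans (le_of_eq ?_) h3
  refine Finset.sum_congr rfl fun a _ => ?_
  congr 2
  rw [Matrix.ofLp_toEuclideanCLM, Matrix.ofLp_toEuclideanCLM, Matrix.mulVec, Matrix.mulVec,
    dotProduct, dotProduct, Fintype.sum_prod_type]
  refine Finset.sum_congr rfl fun b _ => ?_
  rw [Finset.sum_eq_single c]
  · simp
  · intro d _ hd
    simp [Matrix.one_apply_ne hd.symm]
  · simp

/-- `‖S ⊗ 1‖ ≤ ‖S‖`, written in coordinates; `v[A] = (S⁻¹ ⊗ 1) v[S A S⁻¹] (S ⊗ 1)` -/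
theorem conj_bound {n m : ℕ} (S : Matrix (Fin n) (Fin n) ℂ) (hS : IsUnit S.det)
    (Q : Fin m → Fin m → Matrix (Fin n) (Fin n) ℂ) (s M : ℝ)
    (h1 : ‖Matrix.toEuclideanCLM (n := Fin n) (𝕜 := ℂ) S⁻¹‖ ≤ 1)
    (h2 : ‖Matrix.toEuclideanCLM (n := Fin n) (𝕜 := ℂ) S‖ ≤ s)
    (h3 : ‖Matrix.toEuclideanCLM (n := Fin n × Fin m) (𝕜 := ℂ)
        (Matrix.of fun (i : Fin n × Fin m) (j : Fin n × Fin m) =>
          (S * Q i.2 j.2 * S⁻¹) i.1 j.1)‖ ≤ M) :
    ‖Matrix.toEuclideanCLM (n := Fin n × Fin m) (𝕜 := ℂ)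
        (Matrix.of fun (i : Fin n × Fin m) (j : Fin n × Fin m) => Q i.2 j.2 i.1 j.1)‖ ≤ s * M := by
  have hM0 : 0 ≤ M := (norm_nonneg _).trans h3
  have hs0 : 0 ≤ s := (norm_nonneg _).trans h2
  set I₁ := Matrix.kroneckerMap (· * ·) S⁻¹ (1 : Matrix (Fin m) (Fin m) ℂ)
  set I₂ := Matrix.kroneckerMap (· * ·) S (1 : Matrix (Fin m) (Fin m) ℂ)
  set N' : Matrix (Fin n × Fin m) (Fin n × Fin m) ℂ :=
    Matrix.of fun (i : Fin n × Fin m) (j : Fin n × Fin m) => (S * Q i.2 j.2 * S⁻¹) i.1 j.1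
  have key : (Matrix.of fun (i : Fin n × Fin m) (j : Fin n × Fin m) => Q i.2 j.2 i.1 j.1) =
      I₁ * N' * I₂ := by
    ext ⟨a, c⟩ ⟨b, d⟩
    have e1 : Q c d = S⁻¹ * (S * Q c d * S⁻¹) * S := by
      rw [mul_assoc S, ← mul_assoc S⁻¹ S, Matrix.nonsing_inv_mul _ hS, one_mul, mul_assoc,
        Matrix.nonsing_inv_mul _ hS, mul_one]
    simp only [Matrix.of_apply]
    rw [e1]
    simp only [Matrix.mul_apply (M := I₁ * N'), Matrix.mul_apply (M := I₁),
      Fintype.sum_prod_type]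
    rw [Matrix.mul_apply]
    refine Finset.sum_congr rfl fun b' _ => ?_
    rw [Finset.sum_eq_single d]
    · rw [Matrix.mul_apply]
      congr 1
      · refine Finset.sum_congr rfl fun a' _ => ?_
        rw [Finset.sum_eq_single c]
        · simp [I₁, N']
        · intro c' _ hc'
          simp [I₁, Matrix.one_apply_ne hc'.symm]
        · simp
      · simp [I₂]
    · intro d' _ hd'
      simp [I₂, Matrix.one_apply_ne hd']
    · simp
  rw [key, map_mul, map_mul]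
  have hI1 := kron_one_norm (m := m) S⁻¹ 1 h1
  have hI2 := kron_one_norm (m := m) S s h2
  calc _ ≤ ‖Matrix.toEuclideanCLM (n := Fin n × Fin m) (𝕜 := ℂ) I₁‖ *
        ‖Matrix.toEuclideanCLM (n := Fin n × Fin m) (𝕜 := ℂ) N'‖ *
        ‖Matrix.toEuclideanCLM (n := Fin n × Fin m) (𝕜 := ℂ) I₂‖ :=
        (norm_mul_le _ _).trans (mul_le_mul_of_nonneg_right (norm_mul_le _ _) (norm_nonneg _))
    _ ≤ 1 * M * s := by
        refine mul_le_mul (mul_le_mul hI1 h3 (norm_nonneg _) zero_le_one) hI2 (norm_nonneg _)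
          (by positivity)
    _ = s * M := by ring

end Crest.Agent.CZ
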