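import Crest.Agent.CZ_Mat

/-! CZ-73: the operator Poisson kernel. -/

set_option autoImplicit false

open Complex Metric Set Filter Topology Polynomial
open scoped ComplexConjugate ComplexOrder

namespace Crest.Agent.CZ

variable {n : ℕ}

/-- Poisson kernel of a contraction on the circle (`conj z = z⁻¹`) -/
noncomputable def Pk (C : Matrix (Fin n) (Fin n) ℂ) (z : ℂ) : Matrix (Fin n) (Fin n) ℂ :=
  (1 - z • C.conjTranspose)⁻¹ + (1 - z⁻¹ • C)⁻¹ - 1

theorem Pk_entry_le (A : Matrix (Fin n) (Fin n) ℂ) (a b : Fin n) : ‖A a b‖ ≤ ‖op A‖ := by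
  have h1 : A a b = (op A (EuclideanSpace.single b 1)) a := by
    change A a b = (WithLp.ofLp (Matrix.toEuclideanCLM (n := Fin n) (𝕜 := ℂ) A
      (EuclideanSpace.single b 1))) a
    rw [Matrix.ofLp_toEuclideanCLM]
    simp
  rw [h1]
  calc ‖(op A (EuclideanSpace.single b 1)) a‖ ≤ ‖op A (EuclideanSpace.single b 1)‖ :=
        PiLp.norm_apply_le _ _
    _ ≤ ‖op A‖ * ‖(EuclideanSpace.single b 1 : EuclideanSpace ℂ (Fin n))‖ :=
        ContinuousLinearMap.le_opNorm _ _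
    _ = ‖op A‖ := by simp

theorem Pk_isUnit (C : Matrix (Fin n) (Fin n) ℂ)
    (hs : ∀ μ ∈ spectrum ℂ C, ‖μ‖ < 1) {z : ℂ} (hz : ‖z‖ = 1) : IsUnit (1 - z⁻¹ • C) := by
  have hz0 : z ≠ 0 := by
    rintro rfl
    simp at hz
  have h1 : z ∉ spectrum ℂ C := by
    intro h
    have := hs z h
    linarith
  rw [spectrum.notMem_iff] at h1
  have h2 : (1 - z⁻¹ • C) = z⁻¹ • (algebraMap ℂ (Matrix (Fin n) (Fin n) ℂ) z - C) := by
    rw [smul_sub, Algebra.algebraMap_eq_smul_one, smul_smul, inv_mul_cancel₀ hz0, one_smul]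
  rw [h2]
  exact (IsUnit.smul (Units.mk0 z⁻¹ (inv_ne_zero hz0)) h1)

theorem Pk_conj (C : Matrix (Fin n) (Fin n) ℂ) {z : ℂ} (hz : ‖z‖ = 1) :
    (1 - z • C.conjTranspose) = (1 - z⁻¹ • C).conjTranspose := by
  have hz0 : z ≠ 0 := by
    rintro rfl
    simp at hz
  rw [Matrix.conjTranspose_sub, Matrix.conjTranspose_one, Matrix.conjTranspose_smul]
  congr 2
  have := Complex.mul_conj' z
  rw [hz] at this
  have hc : star z⁻¹ = z := by
    rw [Complex.star_def, map_inv₀]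
    apply inv_eq_of_mul_eq_one_left
    rw [this]
    norm_num
  exact hc.symm

/-- with `R = 1 - z⁻¹ C` (`R` invertible since `z` is not an eigenvalue of `C`; `Rᴴ = 1 - z Cᴴ`):
`Pk = (Rᴴ)⁻¹ (R + Rᴴ - Rᴴ R) R⁻¹ = (Rᴴ)⁻¹ (1 - Cᴴ C) R⁻¹` -/
theorem Pk_posSemidef (C : Matrix (Fin n) (Fin n) ℂ) (hC : ‖op C‖ ≤ 1)
    (hs : ∀ μ ∈ spectrum ℂ C, ‖μ‖ < 1) {z : ℂ} (hz : ‖z‖ = 1) : (Pk C z).PosSemidef := by
  have hz0 : z ≠ 0 := by
    rintro rfl
    simp at hz
  set R : Matrix (Fin n) (Fin n) ℂ := 1 - z⁻¹ • C with hR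
  have hRu : IsUnit R := Pk_isUnit C hs hz
  have hRd : IsUnit R.det := (Matrix.isUnit_iff_isUnit_det R).1 hRu
  have hRH : (1 - z • C.conjTranspose) = R.conjTranspose := Pk_conj C hz
  have hRHd : IsUnit R.conjTranspose.det := by
    rw [Matrix.det_conjTranspose]
    exact hRd.star
  have hzz : z * z⁻¹ = 1 := mul_inv_cancel₀ hz0
  have hcc : R.conjTranspose * R = R + R.conjTranspose - (1 - C.conjTranspose * C) := by
    have h1 : C.conjTranspose * C = (z • C.conjTranspose) * (z⁻¹ • C) := by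
      rw [Matrix.smul_mul, Matrix.mul_smul, smul_smul, hzz, one_smul]
    rw [h1, ← hRH, hR]
    generalize z • C.conjTranspose = P
    generalize z⁻¹ • C = Q
    noncomm_ring
  have hPk : Pk C z = (R⁻¹).conjTranspose * (1 - C.conjTranspose * C) * R⁻¹ := by
    have h2 : (1 - C.conjTranspose * C) = R + R.conjTranspose - R.conjTranspose * R := by
      rw [hcc]; abel
    rw [h2, Pk, hRH, ← hR, Matrix.conjTranspose_nonsing_inv, mul_sub, sub_mul, mul_add, add_mul,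
      Matrix.nonsing_inv_mul _ hRHd, Matrix.one_mul, ← Matrix.mul_assoc,
      Matrix.nonsing_inv_mul _ hRHd, Matrix.one_mul, Matrix.mul_nonsing_inv _ hRd,
      Matrix.mul_assoc, Matrix.mul_nonsing_inv _ hRd, Matrix.mul_one]
  rw [hPk]
  apply Matrix.PosSemidef.conjTranspose_mul_mul_same
  apply Matrix.PosSemidef.of_dotProduct_mulVec_nonneg
  · rw [Matrix.IsHermitian, Matrix.conjTranspose_sub, Matrix.conjTranspose_one,
      Matrix.conjTranspose_mul, Matrix.conjTranspose_conjTranspose]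
  · intro x
    have h3 : star x ⬝ᵥ (1 - C.conjTranspose * C).mulVec x
        = ((‖(WithLp.toLp 2 x : EuclideanSpace ℂ (Fin n))‖ ^ 2
            - ‖op C (WithLp.toLp 2 x)‖ ^ 2 : ℝ) : ℂ) := by
      rw [Matrix.sub_mulVec, Matrix.one_mulVec, dotProduct_sub, ← Matrix.mulVec_mulVec,
        Matrix.dotProduct_mulVec, ← Matrix.star_mulVec]
      push_cast
      have e1 : ∀ y : Fin n → ℂ, star y ⬝ᵥ y
          = ((‖(WithLp.toLp 2 y : EuclideanSpace ℂ (Fin n))‖ : ℝ) : ℂ) ^ 2 := by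
        intro y
        have h5 := inner_self_eq_norm_sq_to_K (𝕜 := ℂ)
          (WithLp.toLp 2 y : EuclideanSpace ℂ (Fin n))
        rw [EuclideanSpace.inner_eq_star_dotProduct] at h5
        rw [dotProduct_comm]
        exact h5
      rw [e1 x, e1 (C.mulVec x)]
      rfl
    rw [h3]
    have h4 : ‖op C (WithLp.toLp 2 x)‖ ≤ ‖(WithLp.toLp 2 x : EuclideanSpace ℂ (Fin n))‖ := by
      calc _ ≤ ‖op C‖ * ‖(WithLp.toLp 2 x : EuclideanSpace ℂ (Fin n))‖ :=
            ContinuousLinearMap.le_opNorm _ _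
        _ ≤ 1 * ‖(WithLp.toLp 2 x : EuclideanSpace ℂ (Fin n))‖ := by gcongr
        _ = _ := one_mul _
    rw [Complex.zero_le_real]
    have := pow_le_pow_left₀ (norm_nonneg _) h4 2
    linarith

theorem Pk_continuousOn (C : Matrix (Fin n) (Fin n) ℂ) (hs : ∀ μ ∈ spectrum ℂ C, ‖μ‖ < 1) :
    ContinuousOn (Pk C) (sphere 0 1) := by
  have hinv : ∀ F : ℂ → Matrix (Fin n) (Fin n) ℂ, ContinuousOn F (sphere 0 1) →
      (∀ z ∈ sphere (0:ℂ) 1, IsUnit (F z)) → ContinuousOn (fun z => (F z)⁻¹) (sphere 0 1) := by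
    intro F hF hu
    have : ∀ z ∈ sphere (0:ℂ) 1, (F z)⁻¹ = ((F z).det)⁻¹ • (F z).adjugate := by
      intro z _
      rw [Matrix.inv_def, Ring.inverse_eq_inv']
    refine ContinuousOn.congr ?_ this
    refine ContinuousOn.smul (f := fun z => ((F z).det)⁻¹) (g := fun z => (F z).adjugate) ?_ ?_
    · apply ContinuousOn.inv₀
      · exact (Continuous.matrix_det continuous_id).comp_continuousOn hF
      · intro z hz
        exact ((Matrix.isUnit_iff_isUnit_det _).1 (hu z hz)).ne_zero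
    · exact (Continuous.matrix_adjugate continuous_id).comp_continuousOn hF
  have hz : ∀ z ∈ sphere (0:ℂ) 1, ‖z‖ = 1 := by
    intro z hz
    simpa using hz
  unfold Pk
  apply ContinuousOn.sub _ continuousOn_const
  apply ContinuousOn.add
  · apply hinv
    · fun_prop
    · intro z h
      rw [Pk_conj C (hz z h)]
      rw [Matrix.isUnit_iff_isUnit_det, Matrix.det_conjTranspose]
      exact ((Matrix.isUnit_iff_isUnit_det _).1 (Pk_isUnit C hs (hz z h))).star
  · apply hinv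
    · apply continuousOn_const.sub
      refine ContinuousOn.smul (f := fun z : ℂ => z⁻¹) (g := fun _ => C) ?_ continuousOn_const
      apply ContinuousOn.inv₀ continuousOn_id
      intro z h h0
      have := hz z h
      simp only [id] at h0
      rw [h0] at this
      simp at this
    · intro z h
      exact Pk_isUnit C hs (hz z h)

theorem Pk_geo (D : Matrix (Fin n) (Fin n) ℂ) (w : ℂ) (hw : ‖w‖ = 1) (hu : IsUnit (1 - w • D))
    (K r : ℝ) (hr : 0 < r) (hr1 : r < 1) (hb : ∀ k a b, ‖(D ^ k) a b‖ ≤ K * r ^ k)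
    (a b : Fin n) : HasSum (fun k : ℕ => w ^ k * (D ^ k) a b) ((1 - w • D)⁻¹ a b) := by
  have hub : ∀ k a b, ‖w ^ k * (D ^ k) a b‖ ≤ K * r ^ k := by
    intro k a b
    rw [norm_mul, norm_pow, hw, one_pow, one_mul]
    exact hb k a b
  have hgs : Summable (fun k : ℕ => K * r ^ k) :=
    (summable_geometric_of_lt_one hr.le hr1).mul_left K
  have hsum : Summable (fun k : ℕ => w ^ k * (D ^ k) a b) :=
    Summable.of_norm_bounded hgs (fun k => hub k a b)
  rw [hsum.hasSum_iff_tendsto_nat]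
  have hdet : IsUnit (1 - w • D).det := (Matrix.isUnit_iff_isUnit_det _).1 hu
  have hpart : ∀ N : ℕ, ∑ i ∈ Finset.range N, w ^ i * (D ^ i) a b
      = (1 - w • D)⁻¹ a b - ∑ c, (1 - w • D)⁻¹ a c * (w ^ N * (D ^ N) c b) := by
    intro N
    have h1 : (1 - w • D) * ∑ i ∈ Finset.range N, (w • D) ^ i = 1 - (w • D) ^ N :=
      mul_neg_geom_sum _ _
    have h2 : ∑ i ∈ Finset.range N, (w • D) ^ i
        = (1 - w • D)⁻¹ - (1 - w • D)⁻¹ * (w • D) ^ N := by
      have := congrArg (fun M => (1 - w • D)⁻¹ * M) h1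
      rw [← Matrix.mul_assoc, Matrix.nonsing_inv_mul _ hdet, Matrix.one_mul, mul_sub,
        Matrix.mul_one] at this
      exact this
    have h3 := congrFun (congrFun h2 a) b
    rw [Matrix.sum_apply, Matrix.sub_apply, Matrix.mul_apply] at h3
    simp only [_root_.smul_pow, Matrix.smul_apply, smul_eq_mul] at h3
    exact h3
  simp_rw [hpart]
  have hlim : Tendsto (fun N : ℕ => ∑ c, (1 - w • D)⁻¹ a c * (w ^ N * (D ^ N) c b)) atTop
      (𝓝 0) := by
    have : (0 : ℂ) = ∑ c : Fin n, (1 - w • D)⁻¹ a c * 0 := by simp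
    rw [this]
    apply tendsto_finsetSum
    intro c _
    apply Tendsto.const_mul
    apply squeeze_zero_norm (fun k => hub k c b)
    have := (tendsto_pow_atTop_nhds_zero_of_lt_one hr.le hr1).const_mul K
    simpa using this
  simpa using tendsto_const_nhds.sub hlim

theorem Pk_bound0 (C : Matrix (Fin n) (Fin n) ℂ) (hs : ∀ μ ∈ spectrum ℂ C, ‖μ‖ < 1) :
    ∃ K r : ℝ, 0 < r ∧ r < 1 ∧ (∀ (k : ℕ) (a b : Fin n), ‖(C ^ k) a b‖ ≤ K * r ^ k) ∧
      (∀ (k : ℕ) (a b : Fin n), ‖(C.conjTranspose ^ k) a b‖ ≤ K * r ^ k) := by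
  obtain ⟨K, r, hK, hr, hr1, hb⟩ := powers_decay hs
  have h1 : ∀ (k : ℕ) (a b : Fin n), ‖(C ^ k) a b‖ ≤ K * r ^ k := fun k a b =>
    (Pk_entry_le _ a b).trans (hb k)
  refine ⟨K, r, hr, hr1, h1, ?_⟩
  intro k a b
  rw [← Matrix.conjTranspose_pow, Matrix.conjTranspose_apply, norm_star]
  exact h1 k b a

/-- Neumann series (`powers_decay`); the `k = 0` term is `1` -/
theorem Pk_hasSum (C : Matrix (Fin n) (Fin n) ℂ) (hs : ∀ μ ∈ spectrum ℂ C, ‖μ‖ < 1) {z : ℂ}
    (hz : ‖z‖ = 1) (a b : Fin n) :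
    HasSum (fun k : ℕ => z ^ k * (C.conjTranspose ^ k) a b
      + (if k = 0 then 0 else (z⁻¹) ^ k * (C ^ k) a b)) (Pk C z a b) := by
  obtain ⟨K, r, hr, hr1, h1, h2⟩ := Pk_bound0 C hs
  have hu := Pk_isUnit C hs hz
  have hu' : IsUnit (1 - z • C.conjTranspose) := by
    rw [Pk_conj C hz, Matrix.isUnit_iff_isUnit_det, Matrix.det_conjTranspose]
    exact ((Matrix.isUnit_iff_isUnit_det _).1 hu).star
  have s1 := Pk_geo C.conjTranspose z hz hu' K r hr hr1 h2 a b
  have s2 := Pk_geo C z⁻¹ (by rw [norm_inv, hz, inv_one]) hu K r hr hr1 h1 a b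
  have s3 : HasSum (fun k : ℕ => if k = 0 then (1 : Matrix (Fin n) (Fin n) ℂ) a b else 0)
      ((1 : Matrix (Fin n) (Fin n) ℂ) a b) := hasSum_ite_eq 0 _
  have s4 := (s1.add s2).sub s3
  have e : (fun k : ℕ => z ^ k * (C.conjTranspose ^ k) a b
      + (if k = 0 then 0 else (z⁻¹) ^ k * (C ^ k) a b))
      = (fun k : ℕ => z ^ k * (C.conjTranspose ^ k) a b + (z⁻¹) ^ k * (C ^ k) a b
        - if k = 0 then (1 : Matrix (Fin n) (Fin n) ℂ) a b else 0) := by
    funext k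
    by_cases hk : k = 0
    · subst hk; simp
    · simp [hk]
  rw [e]
  exact s4

/-- summable bound for the terms, uniform in `z` -/
theorem Pk_bound (C : Matrix (Fin n) (Fin n) ℂ) (hs : ∀ μ ∈ spectrum ℂ C, ‖μ‖ < 1) :
    ∃ u : ℕ → ℝ, Summable u ∧ ∀ (k : ℕ) (a b : Fin n),
      ‖(C.conjTranspose ^ k) a b‖ + ‖(C ^ k) a b‖ ≤ u k := by
  obtain ⟨K, r, hr, hr1, h1, h2⟩ := Pk_bound0 C hs
  refine ⟨fun k => K * r ^ k + K * r ^ k, ?_, fun k a b => add_le_add (h2 k a b) (h1 k a b)⟩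
  exact ((summable_geometric_of_lt_one hr.le hr1).mul_left K).add
    ((summable_geometric_of_lt_one hr.le hr1).mul_left K)

end Crest.Agent.CZ
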