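import Crest.Agent.CZ_Inj
import Crest.Agent.CZ_Montel
import Crest.Agent.CZ_Hurwitz
import Crest.Agent.CZ_Koebe

/-! CZ-24: the Riemann mapping theorem for bounded simply connected domains. -/

set_option autoImplicit false

open Complex Metric Set Filter Topology
open scoped ComplexConjugate

namespace Crest.Agent.CZ

/-- Proof: maximize `‖deriv φ 0‖` over injective holomorphic `φ : V → disc`, `φ 0 = 0` (nonempty:
`z / M`; bounded by Cauchy's estimate).  A maximizing sequence has a locally uniform limit `f`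
(`montel`), derivatives converge (`TendstoLocallyUniformlyOn.deriv`), so `‖deriv f 0‖ = sup > 0`,
`f` is not constant, injective (`hurwitz_inj`), `‖f‖ ≤ 1` hence `< 1` (maximum principle), and onto
the disc by `koebe_step` and maximality.  The inverse is holomorphic by `exists_inverse`. -/
theorem riemann_map {V : Set ℂ} (hV : IsOpen V) (hs : IsSimplyConnected V) (h0 : (0 : ℂ) ∈ V)
    (hb : Bornology.IsBounded V) :
    ∃ φ g : ℂ → ℂ, DifferentiableOn ℂ φ V ∧ DifferentiableOn ℂ g (ball 0 1) ∧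
      MapsTo φ V (ball 0 1) ∧ MapsTo g (ball 0 1) V ∧ (∀ z ∈ V, g (φ z) = z) ∧
      (∀ ζ ∈ ball (0 : ℂ) 1, φ (g ζ) = ζ) ∧ φ 0 = 0 ∧ g 0 = 0 := by
  have hpc : IsPreconnected V := hs.isPathConnected.isConnected.isPreconnected
  set S : Set ℝ := {d | ∃ φ : ℂ → ℂ, DifferentiableOn ℂ φ V ∧ MapsTo φ V (ball 0 1) ∧
    InjOn φ V ∧ φ 0 = 0 ∧ d = ‖deriv φ 0‖} with hS
  -- nonempty
  obtain ⟨M, hM0, hM⟩ : ∃ M : ℝ, 0 < M ∧ V ⊆ ball 0 M := by
    obtain ⟨M, hM⟩ := hb.subset_ball 0
    refine ⟨max M 1, by positivity, hM.trans (ball_subset_ball (le_max_left _ _))⟩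
  have hMc : (M : ℂ) ≠ 0 := by exact_mod_cast hM0.ne'
  have hmem : M⁻¹ ∈ S := by
    refine ⟨fun z => z / M, ?_, ?_, ?_, by simp, ?_⟩
    · exact (differentiable_id.div_const _).differentiableOn
    · intro z hz
      have := hM hz
      rw [mem_ball_zero_iff] at this ⊢
      rw [norm_div, Complex.norm_real, Real.norm_eq_abs, abs_of_pos hM0, div_lt_one hM0]
      exact this
    · intro z _ w _ h
      simpa [div_left_inj' hMc] using h
    · simp [deriv_div_const, abs_of_pos hM0]
  -- bounded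
  obtain ⟨r, hr0, hr⟩ : ∃ r : ℝ, 0 < r ∧ closedBall (0 : ℂ) r ⊆ V :=
    Metric.nhds_basis_closedBall.mem_iff.1 (hV.mem_nhds h0)
  have hbdd : BddAbove S := by
    refine ⟨1 / r, ?_⟩
    rintro d ⟨φ, h1, h2, -, -, rfl⟩
    refine Complex.norm_deriv_le_of_forall_mem_sphere_norm_le hr0 ?_ ?_
    · refine DifferentiableOn.diffContOnCl ?_
      rw [closure_ball _ hr0.ne']
      exact h1.mono hr
    · intro z hz
      have := h2 (hr (sphere_subset_closedBall hz))
      rw [mem_ball_zero_iff] at this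
      exact this.le
  set D := sSup S with hD
  have hDpos : 0 < D := lt_of_lt_of_le (inv_pos.2 hM0) (le_csSup hbdd hmem)
  obtain ⟨u, -, hu2, hu3⟩ := exists_seq_tendsto_sSup ⟨_, hmem⟩ hbdd
  choose φ hφ1 hφ2 hφ3 hφ4 hφ5 using hu3
  obtain ⟨s, f, hs1, hf, hlim⟩ := montel hV φ hφ1 (fun n z hz => by
    have := hφ2 n hz
    rw [mem_ball_zero_iff] at this
    exact this.le)
  have hlim' := hlim.deriv (Eventually.of_forall fun n => hφ1 (s n)) hV
  have hder : ‖deriv f 0‖ = D := by
    have h1 : Tendsto (fun n => ‖deriv (φ (s n)) 0‖) atTop (𝓝 ‖deriv f 0‖) :=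
      (hlim'.tendsto_at h0).norm
    have h2 : Tendsto (fun n => ‖deriv (φ (s n)) 0‖) atTop (𝓝 D) := by
      have := hu2.comp hs1.tendsto_atTop
      refine this.congr fun n => ?_
      simp [hφ5]
    exact tendsto_nhds_unique h1 h2
  have hne : ∃ z ∈ V, ∃ w ∈ V, f z ≠ f w := by
    by_contra hcon
    push Not at hcon
    have : f =ᶠ[𝓝 0] fun _ => f 0 := by
      filter_upwards [hV.mem_nhds h0] with z hz using hcon z hz 0 h0
    rw [this.deriv_eq] at hder
    simp at hder
    exact hDpos.ne hder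
  have hinj : InjOn f V := hurwitz_inj hV hpc (fun n => φ (s n)) f (fun n => hφ1 _)
    (fun n => hφ3 _) hlim hne
  have hle : ∀ z ∈ V, ‖f z‖ ≤ 1 := by
    intro z hz
    refine le_of_tendsto (hlim.tendsto_at hz).norm (Eventually.of_forall fun n => ?_)
    have := hφ2 (s n) hz
    rw [mem_ball_zero_iff] at this
    exact this.le
  have hmaps : MapsTo f V (ball 0 1) := by
    intro z hz
    rw [mem_ball_zero_iff]
    refine lt_of_le_of_ne (hle z hz) fun h => ?_
    have hmax : IsMaxOn (norm ∘ f) V z := by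
      intro w hw
      simp only [mem_ofPred_eq, Function.comp, h]
      exact hle w hw
    have := Complex.eqOn_of_isPreconnected_of_isMaxOn_norm hpc hV hf hz hmax
    obtain ⟨a, ha, b, hb', hab⟩ := hne
    exact hab ((this ha).trans (this hb').symm)
  have hf0 : f 0 = 0 := by
    have := hlim.tendsto_at h0
    simp only [hφ4] at this
    exact (tendsto_nhds_unique this tendsto_const_nhds)
  have hsurj : f '' V = ball 0 1 := by
    refine Subset.antisymm hmaps.image_subset fun α hα => ?_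
    by_contra hcon
    have hna : ∀ z ∈ V, f z ≠ α := fun z hz h => hcon ⟨z, hz, h⟩
    obtain ⟨ψ, p1, p2, p3, p4, p5⟩ := koebe_step hV hs h0 f hf hmaps hinj hf0
      (by rw [← norm_pos_iff, hder]; exact hDpos) hα hna
    have : ‖deriv ψ 0‖ ≤ D := le_csSup hbdd ⟨ψ, p1, p2, p3, p4, rfl⟩
    linarith
  obtain ⟨-, g, hg, hgf⟩ := exists_inverse hV hf hinj
  rw [hsurj] at hg
  refine ⟨f, g, hf, hg, hmaps, ?_, hgf, ?_, hf0, ?_⟩
  · intro ζ hζ
    rw [← hsurj] at hζ
    obtain ⟨z, hz, rfl⟩ := hζ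
    rw [hgf z hz]; exact hz
  · intro ζ hζ
    rw [← hsurj] at hζ
    obtain ⟨z, hz, rfl⟩ := hζ
    rw [hgf z hz]
  · have := hgf 0 h0
    rwa [hf0] at this

end Crest.Agent.CZ
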