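import Crest.Agent.CZ_Ker
import Crest.Agent.CZ_AvPoly

/-! CZ-06: the negative part of `P ∘ G` is the double layer transform of its positive part. -/

set_option autoImplicit false

open Complex Metric Set Polynomial MeasureTheory
open scoped ComplexConjugate

namespace Crest.Agent.CZ

variable {K U : Set ℂ} (E : Ext K U)

/-- functions analytic in the punctured disc are circle integrable -/
theorem rep_int {f : ℂ → ℂ} (hf : ContinuousOn f (ball 0 1 \ {0})) {s : ℝ} (h0 : 0 < s)
    (h1 : s < 1) : CircleIntegrable f 0 s := by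
  apply ContinuousOn.circleIntegrable h0.le
  apply hf.mono
  intro z hz
  simp only [mem_sphere, dist_zero_right] at hz
  refine ⟨by simpa [hz] using h1, ?_⟩
  simp only [mem_singleton_iff]
  rintro rfl
  simp at hz
  linarith

theorem rep_av_inv_poly (Q : ℂ[X]) {s : ℝ} (h0 : 0 < s) :
    Real.circleAverage (fun ζ : ℂ => ζ⁻¹ * Q.eval ζ⁻¹) 0 s = 0 := by
  have hc : ∀ j : ℕ, CircleIntegrable (fun ζ : ℂ => Q.coeff j • (ζ⁻¹) ^ (j + 1)) 0 s := by
    intro j
    apply ContinuousOn.circleIntegrable h0.le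
    simp only [smul_eq_mul]
    apply ContinuousOn.mul continuousOn_const
    apply ContinuousOn.pow
    apply ContinuousOn.inv₀ continuousOn_id
    intro z hz
    simp only [mem_sphere, dist_zero_right] at hz
    intro h
    simp only [id] at h
    rw [h] at hz
    simp at hz
    linarith
  have : (fun ζ : ℂ => ζ⁻¹ * Q.eval ζ⁻¹)
      = fun ζ => ∑ j ∈ Finset.range (Q.natDegree + 1), Q.coeff j • (ζ⁻¹) ^ (j + 1) := by
    funext ζ
    rw [Polynomial.eval_eq_sum_range, Finset.mul_sum]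
    apply Finset.sum_congr rfl
    intro j _
    simp only [smul_eq_mul]
    ring
  rw [this, Real.circleAverage_fun_sum (fun j _ => hc j)]
  apply Finset.sum_eq_zero
  intro j _
  rw [Real.circleAverage_fun_smul, av_pow_inv j h0, smul_zero]

/-- Let `φ ζ = R(1/ζ) - R(0)`, a combination of `ζ^{-j}`, `j ≥ 1`, and `L` from `exists_left`.
`ker = 1 + 2 Re L` a.e. in `ζ`; `av φ = 0`; `av (conj L * φ) = conj (av (L * conj φ)) = 0` because
`conj φ` is analytic on the circle (`conj ζ⁻¹ = ζ/ρ²`) and `L 0 = 0`;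
`av_ρ (L φ) = av_ρ (L (P∘G - R(0) - e)) = av_ρ (L * P∘G)`, shift this mean to a radius `s < ρ`
(`av_shift`), where `L = Th/(G - G ζ') - ζ'/(ζ' - ζ)`: the first part gives `P (G ζ')` by
`av_poly_scalar`, the second gives `R (1/ζ')`. -/
theorem Ext.rep (P R : ℂ[X]) (e : ℂ → ℂ) (he : DifferentiableOn ℂ e (ball 0 1)) (he0 : e 0 = 0)
    (hP : ∀ ζ ∈ ball (0 : ℂ) 1, ζ ≠ 0 → P.eval (E.G ζ) = R.eval ζ⁻¹ + e ζ)
    {ζ' : ℂ} (h' : ‖ζ'‖ = E.ρ) :
    e ζ' = Real.circleAverage
      (fun ζ => ((E.ker ζ ζ' : ℝ) : ℂ) * (R.eval ζ⁻¹ - R.coeff 0)) 0 E.ρ := by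
  have hρ0 := E.ρ_pos
  have hρ1 := E.ρ_lt
  obtain ⟨L, hL, hL0, hLe, hLk⟩ := E.exists_left h'
  have hζ'0 : ζ' ≠ 0 := by
    rintro rfl
    simp at h'
    linarith
  have hζ'b : ζ' ∈ ball (0 : ℂ) 1 := by
    simpa [h'] using hρ1
  -- points of the circle
  have hsph : ∀ z ∈ sphere (0 : ℂ) |E.ρ|, ‖z‖ = E.ρ ∧ z ≠ 0 ∧ z ∈ ball (0 : ℂ) 1 := by
    intro z hz
    rw [abs_of_pos hρ0] at hz
    simp only [mem_sphere, dist_zero_right] at hz
    refine ⟨hz, ?_, by simpa [hz] using hρ1⟩
    rintro rfl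
    simp at hz
    linarith
  -- the polynomial of the positive part
  set D : ℂ[X] := R.divX with hD
  have hφ : ∀ x : ℂ, R.eval x - R.coeff 0 = x * D.eval x := by
    intro x
    conv_lhs => rw [← Polynomial.divX_mul_X_add R]
    simp
    ring
  -- continuity facts
  have hinv : ContinuousOn (fun ζ : ℂ => ζ⁻¹) (ball 0 1 \ {0}) := by
    apply ContinuousOn.inv₀ continuousOn_id
    intro z hz
    exact hz.2
  have hinvD : ∀ Q : ℂ[X], ContinuousOn (fun ζ : ℂ => Q.eval ζ⁻¹) (ball 0 1 \ {0}) := by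
    intro Q
    exact Q.continuous.comp_continuousOn hinv
  have hLc : ContinuousOn L (ball 0 1 \ {0}) := (hL.continuousOn).mono sdiff_subset
  have hec : ContinuousOn e (ball 0 1 \ {0}) := (he.continuousOn).mono sdiff_subset
  -- Step 1: the kernel
  have step1 : Real.circleAverage
      (fun ζ => ((E.ker ζ ζ' : ℝ) : ℂ) * (R.eval ζ⁻¹ - R.coeff 0)) 0 E.ρ
      = Real.circleAverage (fun ζ => (ζ⁻¹ * D.eval ζ⁻¹) + L ζ * (ζ⁻¹ * D.eval ζ⁻¹)
          + conj (L ζ) * (ζ⁻¹ * D.eval ζ⁻¹)) 0 E.ρ := by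
    apply Real.circleAverage_congr_codiscreteWithin _ hρ0.ne'
    filter_upwards [Filter.self_mem_codiscreteWithin (sphere (0:ℂ) |E.ρ|),
      compl_singleton_mem_codiscreteWithin (s := sphere (0:ℂ) |E.ρ|) (x := ζ')] with ζ hζ hne
    obtain ⟨h1, h2, h3⟩ := hsph ζ hζ
    rw [hLk ζ h1 hne, hφ]
    have h2re : ((1 + 2 * (L ζ).re : ℝ) : ℂ) = 1 + L ζ + conj (L ζ) := by
      rw [add_assoc, Complex.add_conj]
      push_cast
      ring
    rw [h2re]
    ring
  -- Step 2: the antianalytic part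
  have hconjc : ContinuousOn (fun ζ => conj (L ζ)) (ball 0 1 \ {0}) :=
    Complex.continuous_conj.comp_continuousOn hLc
  have step2 : Real.circleAverage (fun ζ => conj (L ζ) * (ζ⁻¹ * D.eval ζ⁻¹)) 0 E.ρ = 0 := by
    have e1 : Real.circleAverage (fun ζ => conj (L ζ) * (ζ⁻¹ * D.eval ζ⁻¹)) 0 E.ρ
        = Real.circleAverage ((conjCLE : ℂ →L[ℝ] ℂ) ∘ (fun ζ => L ζ * (conj (ζ⁻¹ * D.eval ζ⁻¹)))) 0 E.ρ := by
      congr 1
      funext ζ
      simp
    rw [e1, ContinuousLinearMap.circleAverage_comp_comm]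
    · -- the mean of `L * conj φ`
      have e2 : Real.circleAverage (fun ζ => L ζ * (conj (ζ⁻¹ * D.eval ζ⁻¹))) 0 E.ρ
          = Real.circleAverage (fun ζ => L ζ * ((ζ / (E.ρ : ℂ) ^ 2) *
              (D.map (starRingEnd ℂ)).eval (ζ / (E.ρ : ℂ) ^ 2))) 0 E.ρ := by
        apply Real.circleAverage_congr_sphere
        intro ζ hζ
        obtain ⟨h1, h2, h3⟩ := hsph ζ hζ
        have hz : conj (ζ⁻¹) = ζ / (E.ρ : ℂ) ^ 2 := by
          rw [map_inv₀, eq_div_iff (by
            apply pow_ne_zero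
            exact_mod_cast hρ0.ne'), ← h1]
          have := Complex.mul_conj' ζ
          have hcz : conj ζ ≠ 0 := by simpa using h2
          field_simp
          rw [← this]
          ring
        simp only [map_mul]
        rw [hz]
        congr 2
        rw [← hz, Polynomial.eval_map, Polynomial.eval₂_at_apply]
      rw [e2, av_eq _ hρ0 hρ1]
      · simp
      · apply hL.mul
        apply DifferentiableOn.mul
        · fun_prop
        · exact (Polynomial.differentiable (D.map (starRingEnd ℂ))).comp_differentiableOn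
            (by fun_prop)
    · apply rep_int _ hρ0 hρ1
      apply hLc.mul
      exact Complex.continuous_conj.comp_continuousOn (hinv.mul (hinvD D))
  -- Step 3: the analytic part
  have hGc : DifferentiableOn ℂ (fun ζ => L ζ * P.eval (E.G ζ)) (ball 0 1 \ {0}) := by
    apply (hL.mono sdiff_subset).mul
    exact (Polynomial.differentiable P).comp_differentiableOn E.G_diff
  have step3 : Real.circleAverage (fun ζ => L ζ * (ζ⁻¹ * D.eval ζ⁻¹)) 0 E.ρ
      = Real.circleAverage (fun ζ => L ζ * P.eval (E.G ζ)) 0 E.ρ := by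
    have e1 : Real.circleAverage (fun ζ => L ζ * (ζ⁻¹ * D.eval ζ⁻¹)) 0 E.ρ
        = Real.circleAverage (fun ζ => L ζ * P.eval (E.G ζ) - L ζ * (R.coeff 0 + e ζ)) 0 E.ρ := by
      apply Real.circleAverage_congr_sphere
      intro ζ hζ
      obtain ⟨h1, h2, h3⟩ := hsph ζ hζ
      simp only
      rw [← hφ, hP ζ h3 h2]
      ring
    rw [e1, Real.circleAverage_fun_sub, av_eq (f := fun ζ => L ζ * (R.coeff 0 + e ζ)) _ hρ0 hρ1]
    · simp [hL0]
    · exact hL.mul (he.const_add _)
    · exact rep_int hGc.continuousOn hρ0 hρ1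
    · exact rep_int (hLc.mul (continuousOn_const.add hec)) hρ0 hρ1
  -- Step 4: shift
  set s : ℝ := E.ρ / 2 with hs
  have hs0 : 0 < s := by positivity
  have hsρ : s < E.ρ := by
    rw [hs]
    linarith
  have hs1 : s < 1 := by linarith
  have step4 : Real.circleAverage (fun ζ => L ζ * P.eval (E.G ζ)) 0 E.ρ
      = Real.circleAverage (fun ζ => L ζ * P.eval (E.G ζ)) 0 s :=
    (av_shift hGc hs0 hsρ.le hρ1).symm
  have hsph' : ∀ z ∈ sphere (0 : ℂ) s, ‖z‖ = s ∧ z ≠ 0 ∧ z ∈ ball (0 : ℂ) 1 ∧ z ≠ ζ' := by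
    intro z hz
    simp only [mem_sphere, dist_zero_right] at hz
    refine ⟨hz, ?_, by simpa [hz] using hs1, ?_⟩
    · rintro rfl
      simp at hz
      linarith
    · rintro rfl
      linarith
  -- the geometric kernel on the circle of radius s
  have hgeo : ∀ h : ℂ → ℂ, DifferentiableOn ℂ h (ball 0 1) →
      Real.circleAverage (fun ζ => h ζ * (ζ' / (ζ' - ζ))) 0 s = h 0 := by
    intro h hh
    have hne : ∀ z ∈ closedBall (0 : ℂ) s, ζ' - z ≠ 0 := by
      intro z hz hzz
      have : z = ζ' := (sub_eq_zero.mp hzz).symm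
      rw [this] at hz
      simp only [mem_closedBall, dist_zero_right] at hz
      linarith
    have hd : DiffContOnCl ℂ (fun ζ => h ζ * (ζ' / (ζ' - ζ))) (ball 0 |s|) := by
      rw [abs_of_pos hs0]
      apply DifferentiableOn.diffContOnCl
      rw [closure_ball _ hs0.ne']
      apply DifferentiableOn.mul
      · apply hh.mono
        exact closedBall_subset_ball hs1
      · apply DifferentiableOn.div
        · exact differentiableOn_const _
        · fun_prop
        · exact hne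
    rw [hd.circleAverage]
    simp [hζ'0]
  have step5 : Real.circleAverage (fun ζ => L ζ * P.eval (E.G ζ)) 0 s = e ζ' := by
    obtain ⟨Q, hQ⟩ : ∃ Q : ℂ[X], R - C (R.eval ζ'⁻¹) = (Polynomial.X - C ζ'⁻¹) * Q := by
      have := Polynomial.dvd_iff_isRoot.mpr (show (R - C (R.eval ζ'⁻¹)).IsRoot ζ'⁻¹ by simp)
      exact this
    have hQe : ∀ x, R.eval x = R.eval ζ'⁻¹ + (x - ζ'⁻¹) * Q.eval x := by
      intro x
      have := congrArg (Polynomial.eval x) hQ
      simp only [eval_sub, eval_C, eval_mul, eval_X] at this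
      linear_combination this
    have hThc : ContinuousOn (fun ζ => P.eval (E.G ζ) * (E.Th ζ / (E.G ζ - E.G ζ')))
        (sphere 0 s) := by
      have : ContinuousOn (fun ζ => P.eval (E.G ζ) * (ζ' / (ζ' - ζ) + L ζ)) (sphere 0 s) := by
        apply ContinuousOn.mul
        · apply (P.continuous.comp_continuousOn E.G_diff.continuousOn).mono
          intro z hz
          obtain ⟨h1, h2, h3, h4⟩ := hsph' z hz
          exact ⟨h3, h2⟩
        · apply ContinuousOn.add
          · apply ContinuousOn.div continuousOn_const (by fun_prop)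
            intro z hz
            obtain ⟨h1, h2, h3, h4⟩ := hsph' z hz
            exact sub_ne_zero.mpr h4.symm
          · apply hL.continuousOn.mono
            intro z hz
            exact (hsph' z hz).2.2.1
      apply this.congr
      intro z hz
      obtain ⟨h1, h2, h3, h4⟩ := hsph' z hz
      simp only
      rw [hLe z h3 h2 h4]
    have hIgeo : ∀ h : ℂ → ℂ, ContinuousOn h (ball 0 1 \ {0}) →
        CircleIntegrable (fun ζ => h ζ * (ζ' / (ζ' - ζ))) 0 s := by
      intro h hh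
      apply ContinuousOn.circleIntegrable hs0.le
      apply ContinuousOn.mul
      · apply hh.mono
        intro z hz
        obtain ⟨h1, h2, h3, h4⟩ := hsph' z hz
        exact ⟨h3, h2⟩
      · apply ContinuousOn.div continuousOn_const (by fun_prop)
        intro z hz
        obtain ⟨h1, h2, h3, h4⟩ := hsph' z hz
        exact sub_ne_zero.mpr h4.symm
    have e1 : Real.circleAverage (fun ζ => L ζ * P.eval (E.G ζ)) 0 s
        = Real.circleAverage (fun ζ => P.eval (E.G ζ) * (E.Th ζ / (E.G ζ - E.G ζ'))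
            - ((R.eval ζ'⁻¹ + e ζ) * (ζ' / (ζ' - ζ)) + ζ⁻¹ * Q.eval ζ⁻¹)) 0 s := by
      apply Real.circleAverage_congr_sphere
      rw [abs_of_pos hs0]
      intro ζ hζ
      obtain ⟨h1, h2, h3, h4⟩ := hsph' ζ hζ
      simp only
      rw [hLe ζ h3 h2 h4, hP ζ h3 h2, hQe ζ⁻¹]
      have h5 : ζ' - ζ ≠ 0 := sub_ne_zero.mpr h4.symm
      field_simp
      ring
    rw [e1, Real.circleAverage_fun_sub, Real.circleAverage_fun_add,
      E.av_poly_scalar hζ'b hs0 (by rw [h']; exact hsρ), rep_av_inv_poly Q hs0,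
      hgeo (fun ζ => R.eval ζ'⁻¹ + e ζ) (he.const_add _), he0, hP ζ' hζ'b hζ'0]
    · ring
    · exact hIgeo _ (continuousOn_const.add hec)
    · exact rep_int (hinv.mul (hinvD Q)) hs0 hs1
    · exact hThc.circleIntegrable hs0.le
    · exact (hIgeo _ (continuousOn_const.add hec)).add (rep_int (hinv.mul (hinvD Q)) hs0 hs1)
  rw [step1, Real.circleAverage_fun_add, Real.circleAverage_fun_add, rep_av_inv_poly D hρ0,
    step2, step3, step4, step5]
  · ring
  · exact rep_int (hinv.mul (hinvD D)) hρ0 hρ1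
  · exact rep_int (hLc.mul (hinv.mul (hinvD D))) hρ0 hρ1
  · exact (rep_int (hinv.mul (hinvD D)) hρ0 hρ1).add
      (rep_int (hLc.mul (hinv.mul (hinvD D))) hρ0 hρ1)
  · exact rep_int (hconjc.mul (hinv.mul (hinvD D))) hρ0 hρ1

end Crest.Agent.CZ
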