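import Crest.Agent.CZ_Mat

/-! CZ-52: SDP duality (Hahn-Banach). -/

set_option autoImplicit false

open Complex Metric Set Filter Topology Polynomial
open scoped ComplexConjugate ComplexOrder
open Crest.AnalysisR.NumRange

namespace Crest.Agent.CZ

variable {n : ℕ}

namespace SepAux

open Matrix

/-- spectral theorem in the form used below -/
theorem herm_spec (M : Matrix (Fin n) (Fin n) ℂ) (hM : M.IsHermitian) :
    ∃ (U : Matrix (Fin n) (Fin n) ℂ) (d : Fin n → ℝ), U * Uᴴ = 1 ∧ Uᴴ * U = 1 ∧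
      (∀ i j, ‖U i j‖ ≤ 1) ∧ M = U * Matrix.diagonal (fun i => (d i : ℂ)) * Uᴴ := by
  refine ⟨(hM.eigenvectorUnitary : Matrix _ _ ℂ), hM.eigenvalues, ?_, ?_, ?_, ?_⟩
  · have := Unitary.coe_mul_star_self hM.eigenvectorUnitary
    simpa [star_eq_conjTranspose] using this
  · have := Unitary.coe_star_mul_self hM.eigenvectorUnitary
    simpa [star_eq_conjTranspose] using this
  · intro i j
    exact entry_norm_bound_of_unitary hM.eigenvectorUnitary.2 i j
  · have := hM.spectral_theorem
    rw [Unitary.conjStarAlgAut_apply] at this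
    simpa [star_eq_conjTranspose, Function.comp_def] using this

theorem diag_conj_psd (U : Matrix (Fin n) (Fin n) ℂ) (d : Fin n → ℝ) (hd : ∀ i, 0 ≤ d i) :
    (U * Matrix.diagonal (fun i => (d i : ℂ)) * Uᴴ).PosSemidef := by
  apply Matrix.PosSemidef.mul_mul_conjTranspose_same
  rw [posSemidef_diagonal_iff]
  intro i
  exact_mod_cast hd i

theorem diag_conj_psd_iff (U : Matrix (Fin n) (Fin n) ℂ) (h2 : Uᴴ * U = 1) (d : Fin n → ℝ)
    (h : (U * Matrix.diagonal (fun i => (d i : ℂ)) * Uᴴ).PosSemidef) (i : Fin n) : 0 ≤ d i := by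
  have h4 := h.conjTranspose_mul_mul_same U
  have e1 : Uᴴ * (U * Matrix.diagonal (fun i => (d i : ℂ)) * Uᴴ) * U = Matrix.diagonal (fun i => (d i : ℂ)) := by
    calc _ = (Uᴴ * U) * Matrix.diagonal (fun i => (d i : ℂ)) * (Uᴴ * U) := by
          simp only [Matrix.mul_assoc]
      _ = _ := by rw [h2]; simp
  rw [e1, posSemidef_diagonal_iff] at h4
  exact_mod_cast h4 i

theorem smul_one_eq (U : Matrix (Fin n) (Fin n) ℂ) (h1 : U * Uᴴ = 1) (c : ℝ) :
    (c : ℂ) • (1 : Matrix (Fin n) (Fin n) ℂ) = U * Matrix.diagonal (fun _ => (c : ℂ)) * Uᴴ := by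
  have : (Matrix.diagonal (fun _ => (c : ℂ)) : Matrix (Fin n) (Fin n) ℂ)
      = (c : ℂ) • (1 : Matrix (Fin n) (Fin n) ℂ) := by
    rw [← diagonal_one, ← diagonal_smul]
    congr 1
    funext i
    simp
  rw [this, Matrix.mul_smul, Matrix.mul_one, Matrix.smul_mul, h1]

theorem conj_sub (U : Matrix (Fin n) (Fin n) ℂ) (d e : Fin n → ℝ) :
    U * Matrix.diagonal (fun i => (d i : ℂ)) * Uᴴ - U * Matrix.diagonal (fun i => (e i : ℂ)) * Uᴴ
      = U * Matrix.diagonal (fun i => ((d i - e i : ℝ) : ℂ)) * Uᴴ := by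
  rw [← Matrix.sub_mul, ← Matrix.mul_sub, diagonal_sub]
  congr 3
  funext i
  push_cast
  rfl

theorem conj_mul (U : Matrix (Fin n) (Fin n) ℂ) (h2 : Uᴴ * U = 1) (d e : Fin n → ℝ) :
    (U * Matrix.diagonal (fun i => (d i : ℂ)) * Uᴴ) * (U * Matrix.diagonal (fun i => (e i : ℂ)) * Uᴴ)
      = U * Matrix.diagonal (fun i => ((d i * e i : ℝ) : ℂ)) * Uᴴ := by
  calc _ = U * Matrix.diagonal (fun i => (d i : ℂ)) * (Uᴴ * U) * Matrix.diagonal (fun i => (e i : ℂ)) * Uᴴ := by
        simp only [Matrix.mul_assoc]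
    _ = U * (Matrix.diagonal (fun i => (d i : ℂ)) * Matrix.diagonal (fun i => (e i : ℂ))) * Uᴴ := by
        rw [h2, Matrix.mul_one]; simp only [Matrix.mul_assoc]
    _ = _ := by
        rw [diagonal_mul_diagonal]
        congr 3
        funext i
        push_cast
        rfl

theorem trace_conj (U : Matrix (Fin n) (Fin n) ℂ) (h2 : Uᴴ * U = 1) (d : Fin n → ℝ) :
    (U * Matrix.diagonal (fun i => (d i : ℂ)) * Uᴴ).trace.re = ∑ i, d i := by
  rw [Matrix.mul_assoc, Matrix.trace_mul_comm, Matrix.mul_assoc, h2, Matrix.mul_one,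
    Matrix.trace_diagonal]
  simp

/-- the feasible metrics -/
def S (n : ℕ) : Set (Matrix (Fin n) (Fin n) ℂ) :=
  {H | (H - 1).PosSemidef ∧ (((4 : ℝ) : ℂ) • (1 : Matrix (Fin n) (Fin n) ℂ) - H).PosSemidef}

theorem isClosed_psd : IsClosed {M : Matrix (Fin n) (Fin n) ℂ | M.PosSemidef} := by
  have e : {M : Matrix (Fin n) (Fin n) ℂ | M.PosSemidef}
      = {M | Mᴴ = M} ∩ ⋂ x : Fin n → ℂ, {M | 0 ≤ star x ⬝ᵥ (M *ᵥ x)} := by
    ext M
    simp only [Set.mem_ofPred_eq, mem_inter_iff, mem_iInter]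
    rw [posSemidef_iff_dotProduct_mulVec]
    rfl
  rw [e]
  refine IsClosed.inter (isClosed_eq (by fun_prop) (by fun_prop)) (isClosed_iInter fun x => ?_)
  exact isClosed_Ici.preimage (by fun_prop : Continuous fun M : Matrix (Fin n) (Fin n) ℂ =>
    star x ⬝ᵥ (M *ᵥ x))

theorem isCompact_S : IsCompact (S n) := by
  have hcl : IsClosed (S n) := by
    refine IsClosed.inter ?_ ?_
    · exact isClosed_psd.preimage (by fun_prop : Continuous fun H : Matrix (Fin n) (Fin n) ℂ => H - 1)
    · exact isClosed_psd.preimage (by fun_prop : Continuous fun H : Matrix (Fin n) (Fin n) ℂ =>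
        ((4 : ℝ) : ℂ) • (1 : Matrix (Fin n) (Fin n) ℂ) - H)
  have hcomp : IsCompact (Set.pi univ fun _ : Fin n => Set.pi univ fun _ : Fin n =>
      closedBall (0 : ℂ) (n * 4)) :=
    isCompact_univ_pi fun _ => isCompact_univ_pi fun _ => isCompact_closedBall _ _
  refine IsCompact.of_isClosed_subset hcomp hcl ?_
  rintro H ⟨h1, h4⟩ i - j -
  have hH : H.IsHermitian := by
    have := h1.1.add (isHermitian_one (n := Fin n) (α := ℂ))
    simpa using this
  obtain ⟨U, d, hU1, hU2, hUb, hHe⟩ := herm_spec H hH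
  have hd : ∀ i, |d i| ≤ 4 := by
    intro i
    have a1 : 0 ≤ d i - 1 := by
      apply diag_conj_psd_iff U hU2 (fun i => d i - 1)
      rw [← conj_sub, ← hHe, ← smul_one_eq U hU1]
      simpa using h1
    have a4 : 0 ≤ 4 - d i := by
      apply diag_conj_psd_iff U hU2 (fun i => 4 - d i)
      rw [← conj_sub, ← hHe, ← smul_one_eq U hU1]
      exact h4
    rw [abs_le]
    constructor <;> linarith
  rw [mem_closedBall_zero_iff, hHe, Matrix.mul_apply]
  refine (norm_sum_le _ _).trans ?_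
  have : ∀ k ∈ Finset.univ, ‖(U * Matrix.diagonal (fun i => (d i : ℂ))) i k * Uᴴ k j‖ ≤ 4 := by
    intro k _
    rw [Matrix.mul_diagonal, conjTranspose_apply, norm_mul, norm_mul, norm_star]
    have b1 := hUb i k
    have b2 := hUb j k
    have b3 : ‖(d k : ℂ)‖ ≤ 4 := by
      rw [Complex.norm_real]
      exact hd k
    calc ‖U i k‖ * ‖(d k : ℂ)‖ * ‖U j k‖ ≤ 1 * 4 * 1 := by
          apply mul_le_mul (mul_le_mul b1 b3 (norm_nonneg _) (by norm_num)) b2 (norm_nonneg _)
            (by norm_num)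
      _ = 4 := by norm_num
  refine (Finset.sum_le_sum this).trans ?_
  simp

theorem convex_S : Convex ℝ (S n) := by
  rintro A ⟨hA1, hA4⟩ B ⟨hB1, hB4⟩ a b ha hb hab
  have hone : ∀ c : ℂ, c • (1 : Matrix (Fin n) (Fin n) ℂ) = a • (c • 1) + b • (c • 1) := by
    intro c
    rw [← add_smul, hab, one_smul]
  constructor
  · have : a • A + b • B - 1 = a • (A - 1) + b • (B - 1) := by
      have h1 := hone 1
      rw [one_smul] at h1
      conv_lhs => rw [h1]
      simp only [smul_sub]
      abel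
    rw [this]
    exact (hA1.smul ha).add (hB1.smul hb)
  · have : ((4 : ℝ) : ℂ) • (1 : Matrix (Fin n) (Fin n) ℂ) - (a • A + b • B)
        = a • (((4 : ℝ) : ℂ) • (1 : Matrix (Fin n) (Fin n) ℂ) - A)
          + b • (((4 : ℝ) : ℂ) • (1 : Matrix (Fin n) (Fin n) ℂ) - B) := by
      have h1 := hone ((4 : ℝ) : ℂ)
      conv_lhs => rw [h1]
      simp only [smul_sub]
      abel
    rw [this]
    exact (hA4.smul ha).add (hB4.smul hb)

theorem convex_psd : Convex ℝ {M : Matrix (Fin n) (Fin n) ℂ | M.PosSemidef} := by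
  intro A hA B hB a b ha hb _
  exact (Matrix.PosSemidef.smul hA ha).add (Matrix.PosSemidef.smul hB hb)

/-- representation of a real linear functional -/
theorem repr_fun (φ : Matrix (Fin n) (Fin n) ℂ →ₗ[ℝ] ℝ) :
    ∃ Z : Matrix (Fin n) (Fin n) ℂ, ∀ M, φ M = (Z * M).trace.re := by
  classical
  refine ⟨fun j i => (φ (Matrix.single i j 1) : ℂ) - Complex.I * (φ (Matrix.single i j Complex.I) : ℂ), ?_⟩
  intro M
  have hM : M = ∑ i, ∑ j, ((M i j).re • Matrix.single i j (1 : ℂ)
      + (M i j).im • Matrix.single i j Complex.I) := by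
    conv_lhs => rw [Matrix.matrix_eq_sum_single M]
    refine Finset.sum_congr rfl fun i _ => Finset.sum_congr rfl fun j _ => ?_
    rw [Matrix.smul_single, Matrix.smul_single, ← Matrix.single_add]
    congr 1
    rw [Complex.real_smul, Complex.real_smul, mul_one]
    exact (Complex.re_add_im _).symm
  conv_lhs => rw [hM]
  simp only [map_sum, map_add, map_smul, smul_eq_mul]
  rw [Matrix.trace]
  simp only [Matrix.diag_apply, Matrix.mul_apply, Complex.re_sum]
  rw [Finset.sum_comm]
  refine Finset.sum_congr rfl fun j _ => Finset.sum_congr rfl fun i _ => ?_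
  simp [Complex.mul_re, Complex.mul_im]
  ring

end SepAux

open Matrix SepAux in
/-- Proof: otherwise the compact convex set `{H - Tᴴ H T | 1 ≤ H ≤ 4}` and the closed convex cone of
positive semidefinite matrices are disjoint; `geometric_hahn_banach_compact_closed` (real vector
space of matrices) gives a real linear continuous `φ` with `φ < 0` on the first set and `φ ≥ 0` on
the cone; `φ M = Re tr (Z M)` for some `Z`; with `Y = (Z + Zᴴ)/2`, `φ M = Re tr (Y M)` for hermitian
`M`, `Y` is positive semidefinite (`M = x xᴴ`), and for `1 ≤ H ≤ 4`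
`0 > φ (H - Tᴴ H T) = Re tr (H Δ)`, `Δ = Y - T Y Tᴴ`.  Diagonalize `Δ = P - N` (positive and negative
parts, commuting spectral projections) and take `H` = `4` on the positive part and `1` on the rest:
`Re tr (H Δ) = 4 tr P - tr N ≥ 0`, contradiction. -/
theorem feasible_of_dual (T : Matrix (Fin n) (Fin n) ℂ)
    (h : ∀ Y P N : Matrix (Fin n) (Fin n) ℂ, Y.PosSemidef → P.PosSemidef → N.PosSemidef →
      Y - T * Y * T.conjTranspose = P - N → N.trace.re ≤ 4 * P.trace.re) :
    ∃ H : Matrix (Fin n) (Fin n) ℂ, MetricFeasible T H 4 := by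
  by_contra hno
  have : LocallyConvexSpace ℝ (Matrix (Fin n) (Fin n) ℂ) :=
    inferInstanceAs (LocallyConvexSpace ℝ (Fin n → Fin n → ℂ))
  let L : Matrix (Fin n) (Fin n) ℂ →ₗ[ℝ] Matrix (Fin n) (Fin n) ℂ :=
    { toFun := fun H => H - Tᴴ * H * T
      map_add' := fun A B => by
        simp only [Matrix.mul_add, Matrix.add_mul]
        abel
      map_smul' := fun c A => by
        simp only [Matrix.mul_smul, Matrix.smul_mul, RingHom.id_apply, smul_sub] }
  have hLc : Continuous L := by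
    show Continuous fun H : Matrix (Fin n) (Fin n) ℂ => H - Tᴴ * H * T
    fun_prop
  have hdisj : Disjoint (L '' S n) {M : Matrix (Fin n) (Fin n) ℂ | M.PosSemidef} := by
    rw [Set.disjoint_left]
    rintro _ ⟨H, ⟨h1, h4⟩, rfl⟩ hM
    exact hno ⟨H, h1, h4, hM⟩
  obtain ⟨φ, u, v, hu, huv, hv⟩ := geometric_hahn_banach_compact_closed
    (convex_S.linear_image L) (isCompact_S.image hLc) convex_psd isClosed_psd hdisj
  have hv0 : v < 0 := by
    have := hv 0 Matrix.PosSemidef.zero
    simpa using this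
  have hcone : ∀ M : Matrix (Fin n) (Fin n) ℂ, M.PosSemidef → 0 ≤ φ M := by
    intro M hM
    by_contra hneg
    rw [not_le] at hneg
    have hs : 0 ≤ v / φ M := by
      apply div_nonneg_of_nonpos hv0.le hneg.le
    have := hv ((v / φ M) • M) (Matrix.PosSemidef.smul hM hs)
    rw [map_smul, smul_eq_mul, div_mul_cancel₀ _ hneg.ne] at this
    exact lt_irrefl _ this
  obtain ⟨Z, hZ⟩ := repr_fun (φ : Matrix (Fin n) (Fin n) ℂ →ₗ[ℝ] ℝ)
  have hZ' : ∀ M, φ M = (Z * M).trace.re := fun M => hZ M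
  set Y : Matrix (Fin n) (Fin n) ℂ := ((1 / 2 : ℝ) : ℂ) • (Z + Zᴴ) with hY
  have hYh : Yᴴ = Y := by
    rw [hY, conjTranspose_smul, conjTranspose_add, conjTranspose_conjTranspose, add_comm]
    congr 1
    simp
  have hφY : ∀ M : Matrix (Fin n) (Fin n) ℂ, Mᴴ = M → φ M = (Y * M).trace.re := by
    intro M hM
    have e1 : (Zᴴ * M).trace.re = (Z * M).trace.re := by
      have : (Zᴴ * M).trace = star ((Z * M).trace) := by
        rw [← trace_conjTranspose, conjTranspose_mul, hM, Matrix.trace_mul_comm]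
      rw [this]
      simp
    rw [hY, Matrix.smul_mul, Matrix.trace_smul, Matrix.add_mul, Matrix.trace_add, smul_eq_mul,
      Complex.re_ofReal_mul, Complex.add_re, e1, hZ']
    ring
  have hYpsd : Y.PosSemidef := by
    rw [posSemidef_iff_dotProduct_mulVec]
    refine ⟨hYh, fun x => ?_⟩
    have hx : (vecMulVec x (star x)).PosSemidef := posSemidef_vecMulVec_self_star x
    have h1 := hcone _ hx
    rw [hφY _ hx.1] at h1
    have e2 : (Y * vecMulVec x (star x)).trace = star x ⬝ᵥ (Y *ᵥ x) := by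
      rw [Matrix.mul_vecMulVec, Matrix.trace_vecMulVec, dotProduct_comm]
    rw [e2] at h1
    have him : star (star x ⬝ᵥ (Y *ᵥ x)) = star x ⬝ᵥ (Y *ᵥ x) := by
      rw [← star_dotProduct, star_mulVec, hYh, ← dotProduct_mulVec]
    rw [Complex.le_def]
    refine ⟨h1, ?_⟩
    have := congrArg Complex.im him
    simp at this
    simp
    linarith
  -- spectral decomposition of Δ
  set Δ := Y - T * Y * Tᴴ with hΔ
  have hΔh : Δ.IsHermitian := by
    show Δᴴ = Δ
    rw [hΔ, conjTranspose_sub, conjTranspose_mul, conjTranspose_mul, conjTranspose_conjTranspose,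
      hYh, Matrix.mul_assoc]
  obtain ⟨U, d, hU1, hU2, -, hΔe⟩ := herm_spec Δ hΔh
  have key := h Y (U * Matrix.diagonal (fun i => ((max (d i) 0 : ℝ) : ℂ)) * Uᴴ)
    (U * Matrix.diagonal (fun i => ((max (-d i) 0 : ℝ) : ℂ)) * Uᴴ) hYpsd
    (diag_conj_psd _ _ fun i => le_max_right _ _) (diag_conj_psd _ _ fun i => le_max_right _ _)
    (by
      rw [conj_sub, ← hΔ, hΔe]
      congr 3
      funext i
      congr 1
      rcases le_total 0 (d i) with h0 | h0
      · rw [max_eq_left h0, max_eq_right (by linarith)]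
        ring
      · rw [max_eq_right h0, max_eq_left (by linarith)]
        ring)
  rw [trace_conj U hU2, trace_conj U hU2] at key
  set H : Matrix (Fin n) (Fin n) ℂ :=
    U * Matrix.diagonal (fun i => ((if 0 < d i then 4 else 1 : ℝ) : ℂ)) * Uᴴ with hH
  have hHS : H ∈ S n := by
    constructor
    · have e1 := smul_one_eq U hU1 1
      rw [Complex.ofReal_one, one_smul] at e1
      rw [e1, hH]
      have := conj_sub U (fun i => if 0 < d i then 4 else 1) (fun _ => 1)
      simp only [Complex.ofReal_one] at this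
      rw [this]
      apply diag_conj_psd
      intro i
      split_ifs <;> norm_num
    · rw [smul_one_eq U hU1, hH, conj_sub U (fun _ => 4)]
      apply diag_conj_psd
      intro i
      split_ifs <;> norm_num
  have hHh : Hᴴ = H := (diag_conj_psd U (fun i => (if 0 < d i then 4 else 1 : ℝ))
    (fun i => by split_ifs <;> norm_num)).1
  have hneg : φ (L H) < 0 := (hu _ ⟨H, hHS, rfl⟩).trans (huv.trans hv0)
  have hLH : (L H)ᴴ = L H := by
    have gen : ∀ K : Matrix (Fin n) (Fin n) ℂ, Kᴴ = K → (K - Tᴴ * K * T)ᴴ = K - Tᴴ * K * T := by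
      intro K hK
      rw [conjTranspose_sub, conjTranspose_mul, conjTranspose_mul, conjTranspose_conjTranspose,
        hK, Matrix.mul_assoc]
    exact gen H hHh
  rw [hφY _ hLH] at hneg
  have e3 : (Y * (L H)).trace = (H * Δ).trace := by
    show (Y * (H - Tᴴ * H * T)).trace = (H * Δ).trace
    rw [hΔ, Matrix.mul_sub, Matrix.mul_sub, Matrix.trace_sub, Matrix.trace_sub,
      Matrix.trace_mul_comm Y H]
    congr 1
    calc (Y * (Tᴴ * H * T)).trace = ((Y * Tᴴ) * (H * T)).trace := by simp only [Matrix.mul_assoc]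
      _ = ((H * T) * (Y * Tᴴ)).trace := Matrix.trace_mul_comm _ _
      _ = _ := by simp only [Matrix.mul_assoc]
  rw [e3, hΔe, hH, conj_mul U hU2, trace_conj U hU2] at hneg
  have e4 : ∑ i, (if 0 < d i then 4 else 1 : ℝ) * d i
      = 4 * ∑ i, max (d i) 0 - ∑ i, max (-d i) 0 := by
    rw [Finset.mul_sum, ← Finset.sum_sub_distrib]
    refine Finset.sum_congr rfl fun i _ => ?_
    split_ifs with h0
    · rw [max_eq_left h0.le, max_eq_right (by linarith)]
      ring
    · rw [max_eq_right (by linarith), max_eq_left (by linarith)]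
      ring
  rw [e4] at hneg
  linarith

end Crest.Agent.CZ
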