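import Crest.Agent.CZ_Mat

/-! CZ-51: strict feasibility and existence of the optimum. -/

set_option autoImplicit false

open Complex Metric Set Filter Topology Polynomial
open scoped ComplexConjugate ComplexOrder
open Crest.AnalysisR.NumRange

namespace Crest.Agent.CZ

variable {n : ℕ}

lemma strict_aux1 (B : Matrix (Fin n) (Fin n) ℂ) (x : Fin n → ℂ) :
    star x ⬝ᵥ ((B.conjTranspose * B).mulVec x) = ((‖op B (WithLp.toLp 2 x)‖ ^ 2 : ℝ) : ℂ) := by
  have h1 : op B (WithLp.toLp 2 x) = WithLp.toLp 2 (B.mulVec x) := by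
    simp [op, Matrix.toEuclideanCLM_toLp]
  rw [h1]
  have h2 : ((‖(WithLp.toLp 2 (B.mulVec x) : EuclideanSpace ℂ (Fin n))‖ ^ 2 : ℝ) : ℂ)
      = inner ℂ (WithLp.toLp 2 (B.mulVec x) : EuclideanSpace ℂ (Fin n)) (WithLp.toLp 2 (B.mulVec x)) := by
    rw [inner_self_eq_norm_sq_to_K]
    push_cast
    rfl
  rw [h2, EuclideanSpace.inner_toLp_toLp]
  rw [← Matrix.mulVec_mulVec, Matrix.dotProduct_mulVec, Matrix.vecMul_conjTranspose, star_star,
    dotProduct_comm]

lemma strict_aux0 (x : Fin n → ℂ) :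
    star x ⬝ᵥ x = ((‖(WithLp.toLp 2 x : EuclideanSpace ℂ (Fin n))‖ ^ 2 : ℝ) : ℂ) := by
  have := strict_aux1 (1 : Matrix (Fin n) (Fin n) ℂ) x
  simpa using this

lemma strict_aux0' {x : Fin n → ℂ} (hx : x ≠ 0) :
    0 < ‖(WithLp.toLp 2 x : EuclideanSpace ℂ (Fin n))‖ := by
  rw [norm_pos_iff]
  intro h
  apply hx
  have := congrArg WithLp.ofLp h
  simpa using this

lemma strict_aux2 (B : Matrix (Fin n) (Fin n) ℂ) (hB : ‖op B‖ < 1) :
    (1 - B.conjTranspose * B).PosDef := by
  apply Matrix.PosDef.of_dotProduct_mulVec_pos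
  · exact (Matrix.isHermitian_one).sub (Matrix.isHermitian_conjTranspose_mul_self B)
  · intro x hx
    rw [Matrix.sub_mulVec, dotProduct_sub, strict_aux1, Matrix.one_mulVec]
    rw [strict_aux0]
    have hx' := strict_aux0' hx
    have h2 : ‖op B (WithLp.toLp 2 x)‖ < ‖(WithLp.toLp 2 x : EuclideanSpace ℂ (Fin n))‖ := by
      calc ‖op B (WithLp.toLp 2 x)‖ ≤ ‖op B‖ * ‖(WithLp.toLp 2 x : EuclideanSpace ℂ (Fin n))‖ :=
            ContinuousLinearMap.le_opNorm _ _
        _ < 1 * ‖(WithLp.toLp 2 x : EuclideanSpace ℂ (Fin n))‖ := by gcongr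
        _ = _ := one_mul _
    have h3 : ‖op B (WithLp.toLp 2 x)‖ ^ 2 < ‖(WithLp.toLp 2 x : EuclideanSpace ℂ (Fin n))‖ ^ 2 := by
      gcongr
    rw [← Complex.ofReal_sub]
    exact_mod_cast sub_pos.mpr h3

lemma strict_herm_im {H : Matrix (Fin n) (Fin n) ℂ} (hH : H.IsHermitian) (x : Fin n → ℂ) :
    (star x ⬝ᵥ (H.mulVec x)).im = 0 := by
  have h5 : star (star x ⬝ᵥ (H.mulVec x)) = star x ⬝ᵥ (H.mulVec x) := by
    conv_rhs => rw [Matrix.dotProduct_mulVec]
    rw [← hH.eq, Matrix.vecMul_conjTranspose, star_star, hH.eq, ← Matrix.star_dotProduct]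
  exact Complex.conj_eq_iff_im.mp h5

lemma strict_aux3 (H : Matrix (Fin n) (Fin n) ℂ) (hH : H.IsHermitian) (τ : ℝ) (hτ : ‖op H‖ < τ) :
    ((τ : ℂ) • (1 : Matrix (Fin n) (Fin n) ℂ) - H).PosDef := by
  apply Matrix.PosDef.of_dotProduct_mulVec_pos
  · refine Matrix.IsHermitian.sub ?_ hH
    rw [Matrix.IsHermitian, Matrix.conjTranspose_smul]
    simp
  · intro x hx
    rw [Matrix.sub_mulVec, dotProduct_sub, Matrix.smul_mulVec, Matrix.one_mulVec, dotProduct_smul]
    rw [strict_aux0]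
    have hx' := strict_aux0' hx
    have him := strict_herm_im hH x
    have hre : (star x ⬝ᵥ (H.mulVec x)).re ≤ ‖op H‖ * ‖(WithLp.toLp 2 x : EuclideanSpace ℂ (Fin n))‖ ^ 2 := by
      have h6 : star x ⬝ᵥ (H.mulVec x) = inner ℂ (WithLp.toLp 2 x : EuclideanSpace ℂ (Fin n)) (op H (WithLp.toLp 2 x)) := by
        have h1 : op H (WithLp.toLp 2 x) = WithLp.toLp 2 (H.mulVec x) := by
          simp [op, Matrix.toEuclideanCLM_toLp]
        rw [h1, EuclideanSpace.inner_toLp_toLp, dotProduct_comm]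
      rw [h6]
      calc _ ≤ ‖(inner ℂ (WithLp.toLp 2 x : EuclideanSpace ℂ (Fin n)) (op H (WithLp.toLp 2 x)) : ℂ)‖ := Complex.re_le_norm _
        _ ≤ ‖(WithLp.toLp 2 x : EuclideanSpace ℂ (Fin n))‖ * ‖op H (WithLp.toLp 2 x)‖ := norm_inner_le_norm _ _
        _ ≤ ‖(WithLp.toLp 2 x : EuclideanSpace ℂ (Fin n))‖ * (‖op H‖ * ‖(WithLp.toLp 2 x : EuclideanSpace ℂ (Fin n))‖) := by
          gcongr
          exact ContinuousLinearMap.le_opNorm _ _
        _ = _ := by ring
    rw [Complex.pos_iff]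
    constructor
    · rw [Complex.sub_re, smul_eq_mul, ← Complex.ofReal_mul, Complex.ofReal_re]
      have : ‖op H‖ * ‖(WithLp.toLp 2 x : EuclideanSpace ℂ (Fin n))‖ ^ 2 < τ * ‖(WithLp.toLp 2 x : EuclideanSpace ℂ (Fin n))‖ ^ 2 := by
        gcongr
      linarith
    · rw [Complex.sub_im, him, smul_eq_mul, ← Complex.ofReal_mul, Complex.ofReal_im]
      simp

/-- `H = 2 Σ (T^k)ᴴ T^k`, `H - Tᴴ H T = 2`, `H ≥ 2`, `τ` large. -/
theorem exists_strict {T : Matrix (Fin n) (Fin n) ℂ} (hT : ∀ μ ∈ spectrum ℂ T, ‖μ‖ < 1) :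
    ∃ (H : Matrix (Fin n) (Fin n) ℂ) (τ : ℝ), MetricStrictlyFeasible T H τ := by
  obtain ⟨C, r, hC, hr, hr1, hk⟩ := powers_decay hT
  obtain ⟨N, hN⟩ : ∃ N : ℕ, C * r ^ N < 1 := by
    have : Tendsto (fun N : ℕ => C * r ^ N) atTop (𝓝 (C * 0)) :=
      (tendsto_pow_atTop_nhds_zero_of_lt_one hr.le hr1).const_mul C
    rw [mul_zero] at this
    exact (this.eventually_lt_const zero_lt_one).exists
  obtain ⟨N, hN⟩ : ∃ N : ℕ, C * r ^ (N + 1) < 1 := ⟨N, by
    calc C * r ^ (N + 1) = (C * r ^ N) * r := by ring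
      _ ≤ (C * r ^ N) * 1 := by gcongr
      _ < 1 := by linarith⟩
  have hTN : ‖op (T ^ (N + 1))‖ < 1 := lt_of_le_of_lt (hk _) hN
  set S : Matrix (Fin n) (Fin n) ℂ := ∑ k ∈ Finset.range (N + 1), (T ^ k).conjTranspose * T ^ k with hS
  have hSsplit : S = 1 + ∑ k ∈ Finset.range N, (T ^ (k + 1)).conjTranspose * T ^ (k + 1) := by
    rw [hS, Finset.sum_range_succ']
    simp [add_comm]
  have hrest : (∑ k ∈ Finset.range N, (T ^ (k + 1)).conjTranspose * T ^ (k + 1)).PosSemidef := by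
    apply Matrix.posSemidef_sum
    intro i _
    exact Matrix.posSemidef_conjTranspose_mul_self _
  have hSh : S.IsHermitian := by
    rw [hSsplit]
    exact Matrix.isHermitian_one.add hrest.isHermitian
  have hH : (S + S).IsHermitian := hSh.add hSh
  refine ⟨S + S, ‖op (S + S)‖ + 1, ?_, ?_, ?_⟩
  · have : S + S - 1 = 1 + (∑ k ∈ Finset.range N, (T ^ (k + 1)).conjTranspose * T ^ (k + 1) +
        ∑ k ∈ Finset.range N, (T ^ (k + 1)).conjTranspose * T ^ (k + 1)) := by
      rw [hSsplit]; abel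
    rw [this]
    exact Matrix.PosDef.one.add_posSemidef (hrest.add hrest)
  · exact strict_aux3 _ hH _ (by linarith)
  · have h1 : S - T.conjTranspose * S * T = 1 - (T ^ (N + 1)).conjTranspose * T ^ (N + 1) := by
      have h2 : T.conjTranspose * S * T = ∑ k ∈ Finset.range (N + 1), (T ^ (k + 1)).conjTranspose * T ^ (k + 1) := by
        rw [hS, Finset.mul_sum, Finset.sum_mul]
        refine Finset.sum_congr rfl fun k _ => ?_
        rw [pow_succ T k, Matrix.conjTranspose_mul]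
        simp only [Matrix.mul_assoc]
      rw [h2, Finset.sum_range_succ, hSsplit]
      abel
    have h3 : S + S - T.conjTranspose * (S + S) * T =
        (1 - (T ^ (N + 1)).conjTranspose * T ^ (N + 1)) + (1 - (T ^ (N + 1)).conjTranspose * T ^ (N + 1)) := by
      rw [← h1, Matrix.mul_add, Matrix.add_mul]
      abel
    rw [h3]
    exact (strict_aux2 _ hTN).add (strict_aux2 _ hTN)

lemma strict_isClosed_psd {X : Type*} [TopologicalSpace X] (f : X → Matrix (Fin n) (Fin n) ℂ)
    (hf : Continuous f) : IsClosed {x | (f x).PosSemidef} := by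
  have : {x | (f x).PosSemidef} = {x | (f x).conjTranspose = f x} ∩
      ⋂ v : Fin n → ℂ, {x | 0 ≤ star v ⬝ᵥ ((f x).mulVec v)} := by
    ext x
    simp only [mem_ofPred_eq, mem_inter_iff, mem_iInter]
    constructor
    · intro h
      exact ⟨h.isHermitian, fun v => h.dotProduct_mulVec_nonneg v⟩
    · rintro ⟨h1, h2⟩
      exact Matrix.PosSemidef.of_dotProduct_mulVec_nonneg h1 h2
  rw [this]
  apply IsClosed.inter
  · exact isClosed_eq (hf.matrix_conjTranspose) hf
  · apply isClosed_iInter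
    intro v
    have hc : Continuous fun x => star v ⬝ᵥ ((f x).mulVec v) := by
      exact continuous_const.dotProduct (hf.matrix_mulVec continuous_const)
    exact isClosed_le continuous_const hc

lemma strict_quad_two (H : Matrix (Fin n) (Fin n) ℂ) (i j : Fin n) (c : ℂ) :
    star (Pi.single i 1 + Pi.single j c : Fin n → ℂ) ⬝ᵥ (H.mulVec (Pi.single i 1 + Pi.single j c)) =
      H i i + c * H i j + star c * H j i + star c * c * H j j := by
  simp only [Matrix.mulVec_add, Matrix.mulVec_single, star_add, add_dotProduct, dotProduct_add]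
  simp only [Pi.star_single, single_dotProduct]
  simp
  ring

lemma strict_entry_bound {H : Matrix (Fin n) (Fin n) ℂ} {τ : ℝ} (h1 : H.PosSemidef)
    (h2 : ((τ : ℂ) • (1 : Matrix (Fin n) (Fin n) ℂ) - H).PosSemidef) (i j : Fin n) :
    ‖H i j‖ ≤ 2 * τ := by
  obtain ⟨c, hc, hcH⟩ : ∃ c : ℂ, ‖c‖ = 1 ∧ c * H i j = (‖H i j‖ : ℂ) := by
    by_cases h : H i j = 0
    · exact ⟨1, by simp, by simp [h]⟩
    · refine ⟨(‖H i j‖ : ℂ) / H i j, ?_, ?_⟩
      · rw [norm_div]; simp [h]
      · field_simp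
  have hji : star c * H j i = (‖H i j‖ : ℂ) := by
    have : H j i = star (H i j) := by
      have := congrFun (congrFun h1.isHermitian i) j
      rw [← this]
      simp [Matrix.conjTranspose_apply]
    rw [this, ← star_mul', hcH]
    simp
  have hcc : star c * c = 1 := by
    have := Complex.conj_mul' c
    rw [hc] at this
    simpa using this
  have hd1 := (Complex.le_def.mp (h1.diag_nonneg (i := i))).1
  have hd2 := (Complex.le_def.mp (h1.diag_nonneg (i := j))).1
  have hq := h2.dotProduct_mulVec_nonneg (Pi.single i 1 + Pi.single j c)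
  rw [strict_quad_two] at hq
  have hq2 := (Complex.le_def.mp hq).1
  have hte : ∀ a b : Fin n, ((τ : ℂ) • (1 : Matrix (Fin n) (Fin n) ℂ) - H) a b = τ * (if a = b then 1 else 0) - H a b := by
    intro a b
    simp [Matrix.one_apply]
  rw [hte, hte, hte, hte, hcc] at hq2
  have e1 : c * (τ * (if i = j then (1:ℂ) else 0) - H i j) = c * (τ * (if i = j then (1:ℂ) else 0)) - (‖H i j‖ : ℂ) := by
    rw [mul_sub, hcH]
  have e2 : star c * (τ * (if j = i then (1:ℂ) else 0) - H j i) = star c * (τ * (if j = i then (1:ℂ) else 0)) - (‖H i j‖ : ℂ) := by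
    rw [mul_sub, hji]
  rw [e1, e2] at hq2
  have hτ : 0 ≤ τ := by
    have h3 := (h1.add h2).diag_nonneg (i := i)
    simp only [Matrix.add_apply, hte] at h3
    have := (Complex.le_def.mp h3).1
    simpa using this
  have hcre : c.re ≤ 1 := (Complex.re_le_norm c).trans hc.le
  by_cases hij : i = j
  · subst hij
    simp at hq2 hd1
    nlinarith
  · simp [hij, Ne.symm hij] at hq2 hd1 hd2
    linarith

/-- The set of feasible `(H, τ)` with `τ ≤ 4` is compact and nonempty (`1 ≤ H ≤ τ ≤ 4`); take `τ`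
minimal.  `1 ≤ τ` for a feasible pair since `n ≥ 1`. -/
theorem exists_optimal (hn : 1 ≤ n) (T : Matrix (Fin n) (Fin n) ℂ)
    (h4 : ∃ H : Matrix (Fin n) (Fin n) ℂ, MetricFeasible T H 4) :
    ∃ (H : Matrix (Fin n) (Fin n) ℂ) (κsq : ℝ), IsOptimalMetric T H κsq ∧ 1 ≤ κsq ∧ κsq ≤ 4 := by
  have hone : ∀ (H : Matrix (Fin n) (Fin n) ℂ) (τ : ℝ), MetricFeasible T H τ → 1 ≤ τ := by
    intro H τ h
    have := (h.1.add h.2.1).diag_nonneg (i := ⟨0, hn⟩)
    simp only [Matrix.add_apply, Matrix.sub_apply, Matrix.smul_apply, Matrix.one_apply_eq,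
      smul_eq_mul, mul_one] at this
    have h3 : (0 : ℂ) ≤ (τ : ℂ) - 1 := by
      convert this using 1; ring
    have h4 := (Complex.le_def.mp h3).1
    simp at h4
    linarith
  have hent : ∀ (H : Matrix (Fin n) (Fin n) ℂ) (τ : ℝ), MetricFeasible T H τ → τ ≤ 4 →
      ∀ i j, ‖H i j‖ ≤ 8 := by
    intro H τ h hτ i j
    have hH : H.PosSemidef := by
      have := h.1.add Matrix.PosSemidef.one
      rwa [sub_add_cancel] at this
    have := strict_entry_bound hH h.2.1 i j
    linarith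
  set K : Set (Matrix (Fin n) (Fin n) ℂ × ℝ) := {p | MetricFeasible T p.1 p.2 ∧ p.2 ≤ 4} with hK
  have hKclosed : IsClosed K := by
    have : K = ({p | (p.1 - 1).PosSemidef} ∩
      ({p | ((p.2 : ℂ) • (1 : Matrix (Fin n) (Fin n) ℂ) - p.1).PosSemidef} ∩
        {p | (p.1 - T.conjTranspose * p.1 * T).PosSemidef})) ∩ {p | p.2 ≤ 4} := by
      ext p; simp [K, MetricFeasible]
    rw [this]
    refine IsClosed.inter (IsClosed.inter ?_ (IsClosed.inter ?_ ?_)) ?_
    · exact strict_isClosed_psd _ (continuous_fst.sub continuous_const)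
    · refine strict_isClosed_psd _ (Continuous.sub ?_ continuous_fst)
      exact (Complex.continuous_ofReal.comp continuous_snd).smul continuous_const
    · refine strict_isClosed_psd _ (continuous_fst.sub ?_)
      exact (continuous_const.matrix_mul continuous_fst).matrix_mul continuous_const
    · exact isClosed_le continuous_snd continuous_const
  have hKcomp : IsCompact K := by
    have hbig : IsCompact ((Set.pi univ fun _ : Fin n => Set.pi univ fun _ : Fin n =>
        Metric.closedBall (0 : ℂ) 8 : Set (Fin n → Fin n → ℂ)) ×ˢ Set.Icc (0 : ℝ) 4) := by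
      apply IsCompact.prod _ isCompact_Icc
      apply isCompact_univ_pi
      intro i
      apply isCompact_univ_pi
      intro j
      exact isCompact_closedBall _ _
    refine hbig.of_isClosed_subset hKclosed ?_
    rintro ⟨H, τ⟩ ⟨h, hτ⟩
    refine ⟨?_, ?_, hτ⟩
    · intro i _ j _
      rw [mem_closedBall_zero_iff]
      exact hent _ _ h hτ i j
    · have := hone _ _ h
      simp only at this ⊢
      linarith
  obtain ⟨H, hH⟩ := h4
  obtain ⟨p, hp, hmin⟩ := hKcomp.exists_isMinOn (f := fun p => p.2) ⟨(H, 4), hH, le_refl _⟩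
    continuous_snd.continuousOn
  refine ⟨p.1, p.2, ⟨hp.1, ?_⟩, hone _ _ hp.1, hp.2⟩
  intro H' τ' h'
  rcases le_total τ' 4 with h | h
  · exact hmin (show (H', τ') ∈ K from ⟨h', h⟩)
  · exact hp.2.trans h

end Crest.Agent.CZ
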