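import Crest.Agent.CZ_Base

/-! CZ-03a: the operator function `X` for an operator with numerical range in `K`. -/

set_option autoImplicit false

open Complex Metric Set Polynomial
open scoped ComplexConjugate

namespace Crest.Agent.CZ

variable {K U : Set ℂ} (E : Ext K U)
variable {H : Type*} [NormedAddCommGroup H] [InnerProductSpace ℂ H] [FiniteDimensional ℂ H]
  [CompleteSpace H]

/-- `1 - g ζ (A - a) = g ζ (G ζ - A)` for `ζ ≠ 0`, and `G ζ ∉ K` cannot be an eigenvalue. -/
theorem Ext.isUnit_X (A : H →L[ℂ] H) (hA : ∀ x : H, ‖x‖ = 1 → inner ℂ x (A x) ∈ K)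
    {ζ : ℂ} (hζ : ζ ∈ ball (0 : ℂ) 1) :
    IsUnit (1 - E.g ζ • (A - algebraMap ℂ (H →L[ℂ] H) E.a)) := by
  by_cases h0 : ζ = 0
  · subst h0
    rw [E.g_zero, zero_smul, sub_zero]
    exact isUnit_one
  have hg : E.g ζ ≠ 0 := E.g_ne hζ h0
  rw [ContinuousLinearMap.isUnit_iff_bijective]
  set T : H →L[ℂ] H := 1 - E.g ζ • (A - algebraMap ℂ (H →L[ℂ] H) E.a) with hT
  have hTx : ∀ x, T x = x - E.g ζ • (A x - E.a • x) := by
    intro x
    rw [hT]
    simp [Algebra.algebraMap_eq_smul_one]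
  have hinj : Function.Injective T := by
    rw [injective_iff_map_eq_zero]
    intro x hx
    by_contra hx0
    have hn : ‖x‖ ≠ 0 := norm_ne_zero_iff.mpr hx0
    -- normalise
    set y : H := ((‖x‖ : ℂ))⁻¹ • x with hy
    have hyn : ‖y‖ = 1 := by
      rw [hy, norm_smul, norm_inv, Complex.norm_real, norm_norm, inv_mul_cancel₀ hn]
    have hTy : T y = 0 := by rw [hy, map_smul, hx, smul_zero]
    rw [hTx] at hTy
    have h1 : A y = (E.a + (E.g ζ)⁻¹) • y := by
      have h2 : y = E.g ζ • (A y - E.a • y) := sub_eq_zero.mp hTy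
      have h3 : (E.g ζ)⁻¹ • y = A y - E.a • y := by
        conv_lhs => rw [h2]
        rw [smul_smul, inv_mul_cancel₀ hg, one_smul]
      rw [add_smul, h3]
      abel
    have h4 := hA y hyn
    rw [h1, inner_smul_right, inner_self_eq_norm_sq_to_K, hyn] at h4
    apply E.notMem ζ hζ h0
    simpa using h4
  refine ⟨hinj, ?_⟩
  have := (LinearMap.injective_iff_surjective (f := (T : H →ₗ[ℂ] H))).mp hinj
  exact this

theorem Ext.X_diff (A : H →L[ℂ] H) (hA : ∀ x : H, ‖x‖ = 1 → inner ℂ x (A x) ∈ K) :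
    DifferentiableOn ℂ (E.X A) (ball 0 1) := by
  unfold Ext.X
  refine E.c_diff.smul ?_
  intro ζ hζ
  have h1 : DifferentiableWithinAt ℂ
      (fun ζ => (1 - E.g ζ • (A - algebraMap ℂ (H →L[ℂ] H) E.a) : H →L[ℂ] H)) (ball 0 1) ζ :=
    (differentiableWithinAt_const _).sub ((E.diff ζ hζ).smul_const _)
  exact (differentiableAt_inverse (E.isUnit_X A hA hζ)).comp_differentiableWithinAt ζ h1

theorem Ext.X_zero (A : H →L[ℂ] H) : E.X A 0 = 1 := by
  unfold Ext.X
  rw [E.c_zero, E.g_zero, zero_smul, sub_zero, Ring.inverse_one, one_smul]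

/-- `X ζ` commutes with everything commuting with `A` -/
theorem Ext.X_comm (A B : H →L[ℂ] H) (hAB : Commute B A) (ζ : ℂ) : Commute B (E.X A ζ) := by
  unfold Ext.X
  refine Commute.smul_right ?_ _
  set T : H →L[ℂ] H := 1 - E.g ζ • (A - algebraMap ℂ (H →L[ℂ] H) E.a) with hT
  have hBT : Commute B T :=
    (Commute.one_right B).sub_right
      (Commute.smul_right (hAB.sub_right (Algebra.commutes' E.a B).symm) _)
  by_cases hu : IsUnit T
  · obtain ⟨u, hu⟩ := hu
    rw [← hu, Ring.inverse_unit]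
    rw [← hu] at hBT
    exact hBT.units_inv_right
  · rw [Ring.inverse_non_unit _ hu]
    exact Commute.zero_right _

end Crest.Agent.CZ
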