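import Crest.Agent.CZ_AvPoly
import Crest.Agent.CZ_XOp1

/-! CZ-03b: positivity of `X` and the Cauchy formula. -/

set_option autoImplicit false

open Complex Metric Set Polynomial
open scoped ComplexConjugate

namespace Crest.Agent.CZ

variable {K U : Set ℂ} (E : Ext K U)
variable {H : Type*} [NormedAddCommGroup H] [InnerProductSpace ℂ H] [FiniteDimensional ℂ H]
  [CompleteSpace H]

/-- positivity of `X + X*` on the circle, from `pos1`: with `v = (G ζ - A)⁻¹ x`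
(i.e. `v = g ζ • (1 - g ζ (A - a))⁻¹ x`), `X x = Th ζ • v`, `x = (G ζ - A) v`,
`⟪x, X x⟫ = Th ζ * ⟪(G ζ - A) v, v⟫ = Th ζ * conj ⟪v, (G ζ - A) v⟫`, and for `v ≠ 0`
`⟪v, (G ζ - A) v⟫ = ‖v‖² (G ζ - z)`, `z = ⟪v, A v⟫/‖v‖² ∈ K`. -/
theorem Ext.X_pos (A : H →L[ℂ] H) (hA : ∀ x : H, ‖x‖ = 1 → inner ℂ x (A x) ∈ K)
    {ζ : ℂ} (hζ : ‖ζ‖ = E.ρ) (x : H) : 0 ≤ (inner ℂ x (E.X A ζ x)).re := by
  have hζb : ζ ∈ ball (0 : ℂ) 1 := by
    rw [mem_ball_zero_iff, hζ]; exact E.ρ_lt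
  have hζ0 : ζ ≠ 0 := by
    rintro rfl
    rw [norm_zero] at hζ
    exact absurd hζ E.ρ_pos.ne
  have hg : E.g ζ ≠ 0 := E.g_ne hζb hζ0
  have hU := E.isUnit_X A hA hζb
  obtain ⟨T, hT⟩ : ∃ T, T = 1 - E.g ζ • (A - algebraMap ℂ (H →L[ℂ] H) E.a) := ⟨_, rfl⟩
  rw [← hT] at hU
  obtain ⟨v, hv⟩ : ∃ v, v = E.g ζ • (Ring.inverse T x) := ⟨_, rfl⟩
  have hTv : T (Ring.inverse T x) = x := by
    have := Ring.mul_inverse_cancel T hU
    have h2 : (T * Ring.inverse T) x = (1 : H →L[ℂ] H) x := by rw [this]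
    simpa using h2
  have hx : x = E.G ζ • v - A v := by
    rw [hv, map_smul]
    obtain ⟨w, hw⟩ : ∃ w, w = Ring.inverse T x := ⟨_, rfl⟩
    rw [← hw] at hTv ⊢
    rw [← hTv, hT]
    unfold Ext.G
    simp only [_root_.sub_apply, _root_.smul_apply,
      _root_.one_apply_eq_self, Algebra.algebraMap_eq_smul_one, smul_sub, smul_smul, add_mul,
      inv_mul_cancel₀ hg]
    rw [add_smul, one_smul, mul_comm E.a]
    abel
  have hXx : E.X A ζ x = E.Th ζ • v := by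
    unfold Ext.X Ext.Th
    rw [← hT, _root_.smul_apply, E.c_eq hζ0, hv, smul_smul]
    congr 1
    field_simp
  have h1 : inner ℂ x (E.X A ζ x) = E.Th ζ * conj (inner ℂ v x) := by
    rw [hXx, inner_smul_right, inner_conj_symm]
  rw [h1]
  by_cases hv0 : v = 0
  · rw [hv0]; simp
  have hvn : 0 < ‖v‖ := norm_pos_iff.2 hv0
  obtain ⟨e, he⟩ : ∃ e, e = ((‖v‖ : ℂ)⁻¹) • v := ⟨_, rfl⟩
  have he1 : ‖e‖ = 1 := by
    rw [he, norm_smul, norm_inv, Complex.norm_real, Real.norm_eq_abs, abs_of_pos hvn]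
    field_simp
  have hve : v = (‖v‖ : ℂ) • e := by
    rw [he, smul_smul, mul_inv_cancel₀ (by exact_mod_cast hvn.ne'), one_smul]
  have hz := hA e he1
  have h2 : inner ℂ v x = ((‖v‖ : ℂ) ^ 2) * (E.G ζ - inner ℂ e (A e)) := by
    conv_lhs => rw [hx]
    rw [inner_sub_right, inner_smul_right, inner_self_eq_norm_sq_to_K]
    have h3 : inner ℂ v (A v) = (‖v‖ : ℂ) ^ 2 * inner ℂ e (A e) := by
      conv_lhs => rw [hve]
      rw [map_smul, inner_smul_left, inner_smul_right, Complex.conj_ofReal]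
      ring
    rw [h3]
    simp only [Complex.coe_algebraMap]
    ring
  have h4 := E.pos1 ζ hζ _ hz
  rw [h2, map_mul, map_pow, Complex.conj_ofReal]
  have h5 : E.Th ζ * ((‖v‖ : ℂ) ^ 2 * conj (E.G ζ - inner ℂ e (A e))) =
      ((‖v‖ ^ 2 : ℝ) : ℂ) * (E.Th ζ * conj (E.G ζ - inner ℂ e (A e))) := by
    push_cast; ring
  rw [h5, Complex.re_ofReal_mul]
  exact mul_nonneg (by positivity) h4

/-- from `av_poly` by applying the continuous linear map `T ↦ ⟪y, T x⟫` -/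
theorem Ext.av_inner (A : H →L[ℂ] H) (hA : ∀ x : H, ‖x‖ = 1 → inner ℂ x (A x) ∈ K)
    (P : ℂ[X]) (x y : H) :
    Real.circleAverage (fun ζ => P.eval (E.G ζ) * inner ℂ y (E.X A ζ x)) 0 E.ρ
      = inner ℂ y (aeval A P x) := by
  have h1 := E.av_poly A E.ρ_pos E.ρ_lt (fun ζ hζ => E.isUnit_X A hA (by
    rw [mem_closedBall_zero_iff] at hζ
    rw [mem_ball_zero_iff]
    exact hζ.trans_lt E.ρ_lt)) P
  obtain ⟨L, hL⟩ : ∃ L : (H →L[ℂ] H) →L[ℂ] ℂ, ∀ T, L T = inner ℂ y (T x) :=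
    ⟨(innerSL ℂ y).comp (ContinuousLinearMap.apply ℂ H x), fun T => by simp⟩
  have hsub : sphere (0 : ℂ) |E.ρ| ⊆ ball 0 1 \ {0} := by
    intro ζ hζ
    rw [mem_sphere_zero_iff_norm, abs_of_pos E.ρ_pos] at hζ
    refine ⟨by rw [mem_ball_zero_iff, hζ]; exact E.ρ_lt, ?_⟩
    rintro h
    rw [mem_singleton_iff.1 h, norm_zero] at hζ
    exact absurd hζ E.ρ_pos.ne
  have hG : ContinuousOn E.G (sphere 0 |E.ρ|) := (E.G_diff.continuousOn).mono hsub
  have hX : ContinuousOn (E.X A) (sphere 0 |E.ρ|) :=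
    ((E.X_diff A hA).continuousOn).mono (hsub.trans sdiff_subset)
  have hint : CircleIntegrable (fun ζ => P.eval (E.G ζ) • E.X A ζ) 0 E.ρ := by
    apply ContinuousOn.circleIntegrable'
    exact ((P.continuous.comp_continuousOn hG).smul hX)
  have h2 := ContinuousLinearMap.circleAverage_comp_comm (L.restrictScalars ℝ) hint
  rw [h1] at h2
  have h3 : (L.restrictScalars ℝ) (aeval A P) = inner ℂ y (aeval A P x) := hL _
  rw [h3] at h2
  rw [← h2]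
  congr 1
  ext ζ
  simp [hL]

end Crest.Agent.CZ
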