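import Crest.Agent.EG_List

set_option autoImplicit false

namespace Crest.Agent.EG

variable {V : Type*} [DecidableEq V]

open Classical in
/-- one step of ball growing: add all vertices `y ∈ Z \ X` joined to `B` by an edge of `D` outside `F` -/
noncomputable def ballStep (D F : Finset (Sym2 V)) (Z X B : Finset V) : Finset V :=
  B ∪ Z.filter (fun y => y ∉ X ∧ ∃ x ∈ B, s(x, y) ∈ D ∧ s(x, y) ∉ F)

/-- ball of radius `t` around the set `B` -/
noncomputable def ball (D F : Finset (Sym2 V)) (Z X B : Finset V) : ℕ → Finset V
  | 0 => B
  | t + 1 => ballStep D F Z X (ball D F Z X B t)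

/-! TASK EG-Ball: basic facts on balls. -/

theorem ball_mono (D F : Finset (Sym2 V)) (Z X B : Finset V) {t t' : ℕ} (h : t ≤ t') :
    ball D F Z X B t ⊆ ball D F Z X B t' := by
  induction h with
  | refl => exact Finset.Subset.refl _
  | step _ ih => exact ih.trans (Finset.subset_union_left)

theorem ball_subset (D F : Finset (Sym2 V)) (Z X B : Finset V) (hB : B ⊆ Z) (t : ℕ) :
    ball D F Z X B t ⊆ Z := by
  induction t with
  | zero => exact hB
  | succ t ih => exact Finset.union_subset ih (Finset.filter_subset _ _)

theorem ball_add (D F : Finset (Sym2 V)) (Z X B : Finset V) (t t' : ℕ) :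
    ball D F Z X B (t + t') = ball D F Z X (ball D F Z X B t) t' := by
  induction t' with
  | zero => rfl
  | succ t' ih =>
    show ballStep D F Z X (ball D F Z X B (t + t')) = ballStep D F Z X _
    rw [ih]

/-- a vertex of the ball around `{a}` is the end of a path of length at most `t` starting at `a`, whose
other vertices avoid `X` -/
theorem ball_path (D F : Finset (Sym2 V)) (Z X : Finset V) (a y : V) (ha : a ∈ X) (t : ℕ)
    (hy : y ∈ ball D F Z X {a} t) :
    ∃ l : List V, (a :: l).Nodup ∧ (a :: l).getLast? = some y ∧ (∀ x ∈ l, x ∉ X ∧ x ∈ Z) ∧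
      (∀ e ∈ pE (a :: l), e ∈ D ∧ e ∉ F) ∧ l.length ≤ t := by
  induction t generalizing y with
  | zero =>
    have hy' : y = a := Finset.mem_singleton.1 hy
    subst hy'
    exact ⟨[], by simp, by simp, by simp, by simp [pE], by simp⟩
  | succ t ih =>
    rcases Finset.mem_union.1 (show y ∈ ballStep D F Z X (ball D F Z X {a} t) from hy) with h | h
    · obtain ⟨l, h1, h2, h3, h4, h5⟩ := ih y h
      exact ⟨l, h1, h2, h3, h4, by omega⟩
    · obtain ⟨hyZ, hyX, x, hx, hxyD, hxyF⟩ := Finset.mem_filter.1 h
      obtain ⟨l, h1, h2, h3, h4, h5⟩ := ih x hx
      have hya : y ≠ a := by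
        rintro rfl
        exact hyX ha
      by_cases hyl : y ∈ l
      · obtain ⟨l₁, l₂, hl⟩ := List.append_of_mem hyl
        subst hl
        have hsub : (l₁ ++ [y]).Sublist (l₁ ++ y :: l₂) :=
          List.Sublist.append_left (List.singleton_sublist.2 (by simp)) l₁
        refine ⟨l₁ ++ [y], ?_, ?_, ?_, ?_, ?_⟩
        · exact (List.Sublist.cons_cons a hsub).nodup h1
        · rw [← List.cons_append, List.getLast?_append_of_ne_nil _ (by simp)]
          rfl
        · intro z hz
          exact h3 z (hsub.subset hz)
        · intro e he
          apply h4 e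
          have := pE_append_cons (a :: l₁) y l₂
          rw [List.cons_append, List.cons_append] at this
          rw [this]
          exact List.mem_append_left _ he
        · have := hsub.length_le
          omega
      · refine ⟨l ++ [y], ?_, ?_, ?_, ?_, ?_⟩
        · rw [← List.cons_append, List.nodup_append]
          refine ⟨h1, by simp, ?_⟩
          intro z hz w hw
          rw [List.mem_singleton] at hw
          subst hw
          rintro rfl
          rcases List.mem_cons.1 hz with h | h
          · exact hya h
          · exact hyl h
        · rw [← List.cons_append, List.getLast?_append_of_ne_nil _ (by simp)]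
          rfl
        · intro z hz
          rcases List.mem_append.1 hz with h | h
          · exact h3 z h
          · rw [List.mem_singleton] at h
            subst h
            exact ⟨hyX, hyZ⟩
        · intro e he
          rw [← List.cons_append, pE_append (a :: l) [y] x y h2 rfl] at he
          rcases List.mem_append.1 he with h | h
          · exact h4 e h
          · simp only [pE, List.mem_cons, List.not_mem_nil, or_false] at h
            subst h
            exact ⟨hxyD, hxyF⟩
        · simp only [List.length_append, List.length_cons, List.length_nil]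
          omega

omit [DecidableEq V] in
theorem pE_append_last {l₁ : List V} {y : V} (h : l₁.getLast? = some y) (r : List V) :
    pE (l₁ ++ r) = pE l₁ ++ pE (y :: r) := by
  obtain ⟨l₀, rfl⟩ : ∃ l₀, l₁ = l₀ ++ [y] := by
    have hne : l₁ ≠ [] := by
      rintro rfl
      simp at h
    refine ⟨l₁.dropLast, ?_⟩
    rw [List.getLast?_eq_some_getLast hne, Option.some.injEq] at h
    rw [← h]
    exact (List.dropLast_append_getLast hne).symm
  rw [List.append_assoc, List.singleton_append]
  exact pE_append_cons l₀ y r

/-- two balls that meet give a path from `a` to `b` with inner vertices avoiding `X` -/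
theorem ball_meet (D F : Finset (Sym2 V)) (Z X : Finset V) (a b y : V) (hab : a ≠ b)
    (ha : a ∈ X) (hb : b ∈ X) (t : ℕ)
    (hy : y ∈ ball D F Z X {a} t) (hy' : y ∈ ball D F Z X {b} t) :
    ∃ q : List V, (a :: (q ++ [b])).Nodup ∧ (∀ x ∈ q, x ∉ X ∧ x ∈ Z) ∧
      (∀ e ∈ pE (a :: (q ++ [b])), e ∈ D ∧ e ∉ F) ∧ q.length + 1 ≤ 2 * t := by
  obtain ⟨l, h1, h2, h3, h4, h5⟩ := ball_path D F Z X a y ha t hy
  obtain ⟨l', g1, g2, g3, g4, g5⟩ := ball_path D F Z X b y hb t hy'
  obtain ⟨r, hr⟩ : ∃ r, (b :: l').reverse = y :: r := by
    have : (b :: l').reverse.head? = some y := by rw [List.head?_reverse]; exact g2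
    cases hrev : (b :: l').reverse with
    | nil => rw [hrev] at this; simp at this
    | cons z r =>
      rw [hrev] at this
      simp only [List.head?_cons, Option.some.injEq] at this
      exact ⟨r, by rw [this]⟩
  have hlast : (y :: r).getLast? = some b := by
    rw [← hr, List.getLast?_reverse]
    rfl
  have hW : pE ((a :: l) ++ r) = pE (a :: l) ++ pE (y :: r) := pE_append_last h2 r
  have hWlast : ((a :: l) ++ r).getLast? = some b := by
    cases hrc : r with
    | nil =>
      rw [hrc] at hlast
      simp only [List.getLast?_singleton, Option.some.injEq] at hlast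
      rw [List.append_nil, h2, hlast]
    | cons z r' =>
      rw [List.getLast?_append_of_ne_nil _ (by simp)]
      rw [hrc] at hlast
      simpa using hlast
  obtain ⟨p, p1, p2, p3, p4, p5, p6⟩ :=
    exists_path_of_walk ((a :: l) ++ r) a b rfl hWlast
  have hlen : r.length = l'.length := by
    have := congrArg List.length hr
    simpa using this.symm
  obtain ⟨q, hq⟩ : ∃ q, p = a :: (q ++ [b]) := by
    cases hp : p with
    | nil => rw [hp] at p2; simp at p2
    | cons z p' =>
      rw [hp] at p2 p3
      simp only [List.head?_cons, Option.some.injEq] at p2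
      subst p2
      cases hp' : p' with
      | nil =>
        rw [hp'] at p3
        simp only [List.getLast?_singleton, Option.some.injEq] at p3
        exact absurd p3 hab
      | cons w p'' =>
        rw [hp'] at p3
        rw [List.getLast?_cons_cons] at p3
        have hne : (w :: p'') ≠ [] := by simp
        refine ⟨(w :: p'').dropLast, ?_⟩
        rw [List.getLast?_eq_some_getLast hne, Option.some.injEq] at p3
        have := List.dropLast_append_getLast hne
        rw [p3] at this
        rw [this]
  subst hq
  refine ⟨q, p1, ?_, ?_, ?_⟩
  · intro x hx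
    have hxW : x ∈ (a :: l) ++ r := p5 x (by simp [hx])
    have hxa : x ≠ a := by
      rintro rfl
      exact (List.nodup_cons.1 p1).1 (by simp [hx])
    have hxb : x ≠ b := by
      rintro rfl
      have := (List.nodup_cons.1 p1).2
      exact (List.nodup_append.1 this).2.2 x hx x (by simp) rfl
    rcases List.mem_append.1 hxW with h | h
    · rcases List.mem_cons.1 h with h | h
      · exact absurd h hxa
      · exact h3 x h
    · have : x ∈ (b :: l').reverse := by rw [hr]; exact List.mem_cons_of_mem _ h
      rw [List.mem_reverse] at this
      rcases List.mem_cons.1 this with h | h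
      · exact absurd h hxb
      · exact g3 x h
  · intro e he
    have := p6 e he
    rw [hW] at this
    rcases List.mem_append.1 this with h | h
    · exact h4 e h
    · rw [← hr, pE_reverse, List.mem_reverse] at h
      exact g4 e h
  · simp only [List.length_append, List.length_cons, List.length_nil] at p4
    omega

end Crest.Agent.EG
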