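import Crest.Agent.EG_Energy

set_option autoImplicit false

namespace Crest.Agent.EG

private theorem blk_sq (a b m : ℝ) : (a - m) ^ 2 ≤ 2 * (a - b) ^ 2 + 2 * (b - m) ^ 2 := by
  nlinarith [sq_nonneg ((a - b) - (b - m))]

private theorem blk_num (x : ℝ) (hx : 3 ≤ x) :
    8 * x + 4 * x ^ 2 * (12 * x + 3) ≤ 72 * x ^ 3 := by
  nlinarith [mul_nonneg (mul_nonneg (by linarith : (0 : ℝ) ≤ x) (by linarith : (0 : ℝ) ≤ x))
    (by linarith : (0 : ℝ) ≤ x - 3), mul_nonneg (by linarith : (0 : ℝ) ≤ x)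
    (by linarith : (0 : ℝ) ≤ x - 3)]

private theorem blk_t (x t φ : ℝ) (hx : 3 ≤ x) (ht : t ≤ φ / (16 * x ^ 2)) :
    4 * x ^ 2 * t ≤ φ / 4 := by
  have hNp : (0 : ℝ) < 16 * x ^ 2 := by positivity
  rw [le_div_iff₀ hNp] at ht
  linarith

section aux
open Classical

/-- indicator of a counted pair -/
private noncomputable def blkP {ι : Type*} (G : SimpleGraph ι) (S W U : Finset ι) (u v : ι) : ℝ :=
  if u ∈ U ∧ (v ∈ W ∧ v ∉ U) ∧ G.Adj u v ∧ (u ∈ S ∨ v ∈ S) then 1 else 0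

private theorem blkP_nonneg {ι : Type*} (G : SimpleGraph ι) (S W U : Finset ι) (u v : ι) :
    0 ≤ blkP G S W U u v := by
  unfold blkP
  split_ifs <;> norm_num

private theorem block_enn_le {ι : Type*} [Fintype ι] (G : SimpleGraph ι) (S W U A B : Finset ι)
    (hA : A ⊆ W) (hB : B ⊆ W) (hAB : A ⊆ S ∨ B ⊆ S) (h : ι → ℝ) (c : ℝ)
    (h1 : ∀ v ∈ U, h v = 1 - c) (h0 : ∀ v, v ∉ U → h v = - c) :
    enn G A B h ≤ 2 * ∑ u : ι, ∑ v : ι, blkP G S W U u v := by
  have hterm : ∀ u ∈ A, ∀ v ∈ B, (if G.Adj u v then (h u - h v) ^ 2 else 0) ≤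
      blkP G S W U u v + blkP G S W U v u := by
    intro u hu v hv
    have k1 := blkP_nonneg G S W U u v
    have k2 := blkP_nonneg G S W U v u
    by_cases hadj : G.Adj u v
    · rw [if_pos hadj]
      have hS : u ∈ S ∨ v ∈ S := hAB.elim (fun h => Or.inl (h hu)) (fun h => Or.inr (h hv))
      by_cases hu' : u ∈ U
      · by_cases hv' : v ∈ U
        · rw [h1 u hu', h1 v hv']
          have : ((1 - c) - (1 - c)) ^ 2 = (0 : ℝ) := by ring
          rw [this]
          linarith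
        · have : blkP G S W U u v = 1 := by
            unfold blkP
            rw [if_pos ⟨hu', ⟨hB hv, hv'⟩, hadj, hS⟩]
          rw [h1 u hu', h0 v hv', this]
          have : ((1 - c) - (- c)) ^ 2 = (1 : ℝ) := by ring
          rw [this]
          linarith
      · by_cases hv' : v ∈ U
        · have : blkP G S W U v u = 1 := by
            unfold blkP
            rw [if_pos ⟨hv', ⟨hA hu, hu'⟩, hadj.symm, hS.symm⟩]
          rw [h0 u hu', h1 v hv', this]
          have : ((- c) - (1 - c)) ^ 2 = (1 : ℝ) := by ring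
          rw [this]
          linarith
        · rw [h0 u hu', h0 v hv']
          have : ((- c) - (- c)) ^ 2 = (0 : ℝ) := by ring
          rw [this]
          linarith
    · rw [if_neg hadj]
      linarith
  calc enn G A B h
      = ∑ u ∈ A, ∑ v ∈ B, (if G.Adj u v then (h u - h v) ^ 2 else 0) := by
        unfold enn
        refine Finset.sum_congr rfl fun u _ => ?_
        rw [Finset.sum_filter]
    _ ≤ ∑ u ∈ A, ∑ v ∈ B, (blkP G S W U u v + blkP G S W U v u) :=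
        Finset.sum_le_sum fun u hu => Finset.sum_le_sum fun v hv => hterm u hu v hv
    _ ≤ ∑ u : ι, ∑ v : ι, (blkP G S W U u v + blkP G S W U v u) := by
        refine (Finset.sum_le_sum fun u _ => Finset.sum_le_sum_of_subset_of_nonneg
          (Finset.subset_univ B) fun v _ _ => add_nonneg (blkP_nonneg _ _ _ _ _ _)
            (blkP_nonneg _ _ _ _ _ _)).trans ?_
        exact Finset.sum_le_sum_of_subset_of_nonneg (Finset.subset_univ A) fun u _ _ =>
          Finset.sum_nonneg fun v _ => add_nonneg (blkP_nonneg _ _ _ _ _ _)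
            (blkP_nonneg _ _ _ _ _ _)
    _ = 2 * ∑ u : ι, ∑ v : ι, blkP G S W U u v := by
        simp only [Finset.sum_add_distrib]
        rw [Finset.sum_comm (f := fun u v => blkP G S W U v u)]
        ring

private theorem block_count {ι : Type*} [Fintype ι] (G : SimpleGraph ι) (S W U : Finset ι) :
    ∑ u : ι, ∑ v : ι, blkP G S W U u v =
      ∑ u ∈ U, (((W \ U).filter (fun v => G.Adj u v ∧ (u ∈ S ∨ v ∈ S))).card : ℝ) := by
  rw [← Finset.sum_subset (Finset.subset_univ U)]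
  · refine Finset.sum_congr rfl fun u hu => ?_
    rw [Finset.card_filter, Nat.cast_sum, ← Finset.sum_subset (Finset.subset_univ (W \ U))]
    · refine Finset.sum_congr rfl fun v hv => ?_
      rw [Finset.mem_sdiff] at hv
      unfold blkP
      by_cases h : G.Adj u v ∧ (u ∈ S ∨ v ∈ S)
      · rw [if_pos ⟨hu, hv, h⟩, if_pos h]; simp
      · rw [if_neg (fun h' => h h'.2.2), if_neg h]; simp
    · intro v _ hv
      rw [Finset.mem_sdiff] at hv
      unfold blkP
      rw [if_neg (fun h' => hv h'.2.1)]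
  · intro u _ hu
    refine Finset.sum_eq_zero fun v _ => ?_
    unfold blkP
    rw [if_neg (fun h' => hu h'.1)]

end aux

/-- TASK EG-Block: expansion of the block `S` inside `W` (`W = S`, or `W = univ`).
For `h = 1_U - c`, `c = w(U)/w(W)` (so `Σ_W w h = 0`), `g = avg G T1 h`, `m` from `cheeger` for `g`, `E` = number of pairs
`(u,v) ∈ U × (W \ U)` adjacent with `u ∈ S` or `v ∈ S` = unordered energy of `h` over the edges inside `W` meeting `S`:
`V := Σ_W w h² = w(U)(1 - w(U)/w(W)) ≥ w(U)/2`, `V ≤ Σ_W w (h - m)² ≤ 2 Σ_W w (h-g)² + 2 Σ_W w (g-m)²`,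
`Σ_W w (h-g)² ≤ Σ_W deg (h-g)² ≤ 2N · enn W T1 h ≤ 2N · 2E` (`avg_dev`, `w_le`),
`Σ_W w (g-m)² ≤ (1/φ) enn univ univ g ≤ (1/φ)(N² (12N+3) · enn S S h + 4N² t V)`, `enn S S h ≤ 2E`. With `t ≤ φ/(16N²)`:
`V/2 ≤ (8N + 4N²(12N+3)/φ) E ≤ (72 N³/φ) E`, so `φ w(U) ≤ 288 N³ E`. -/
theorem block {ι : Type*} [Fintype ι] [DecidableEq ι] (G : SimpleGraph ι) (w : ι → ℝ) (s φ : ℝ)
    (hub : SHub G w s φ) (hs : 0 < s) (hφ : 0 < φ) (hφ1 : φ ≤ 1) (N : ℕ) (hN : 3 ≤ N)
    (lab : ι → Fin N) (t : ℝ) (ht : 0 ≤ t) (htφ : t ≤ φ / (16 * N ^ 2))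
    (l1 l3 l4 : Fin N) (h13 : l1 ≠ l3) (h14 : l1 ≠ l4) (h34 : l3 ≠ l4)
    (hg : GoodLab G w N lab t l1 l3 l4) (S W : Finset ι)
    (hS : S = cls lab l1 ∪ cls lab l3 ∪ cls lab l4) (hSW : S ⊆ W)
    (U : Finset ι) (hU : U ⊆ W) (hhalf : ∑ v ∈ U, w v ≤ (∑ v ∈ W, w v) / 2) [DecidableRel G.Adj] :
    φ * ∑ v ∈ U, w v ≤ 288 * N ^ 3 *
      ∑ u ∈ U, (((W \ U).filter (fun v => G.Adj u v ∧ (u ∈ S ∨ v ∈ S))).card : ℝ) := by
  have hE0 : 0 ≤ ∑ u ∈ U,
      (((W \ U).filter (fun v => G.Adj u v ∧ (u ∈ S ∨ v ∈ S))).card : ℝ) :=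
    Finset.sum_nonneg fun u _ => Nat.cast_nonneg _
  have hcount : ∑ u : ι, ∑ v : ι, blkP G S W U u v =
      ∑ u ∈ U, (((W \ U).filter (fun v => G.Adj u v ∧ (u ∈ S ∨ v ∈ S))).card : ℝ) := by
    rw [block_count]
    refine Finset.sum_congr rfl fun u _ => ?_
    congr!
  set E : ℝ := ∑ u ∈ U, (((W \ U).filter (fun v => G.Adj u v ∧ (u ∈ S ∨ v ∈ S))).card : ℝ)
    with hEdef
  have hwpos : ∀ v, 0 < w v := fun v => hs.trans_le (hub.w_ge v)
  have hN3 : (3 : ℝ) ≤ N := by exact_mod_cast hN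
  rcases W.eq_empty_or_nonempty with hW | hW
  · have hUe : U = ∅ := Finset.subset_empty.mp (hW ▸ hU)
    rw [hUe, Finset.sum_empty, mul_zero]
    exact mul_nonneg (by positivity) hE0
  have hWpos : 0 < ∑ v ∈ W, w v := Finset.sum_pos (fun v _ => hwpos v) hW
  set a : ℝ := ∑ v ∈ U, w v with ha
  set b : ℝ := ∑ v ∈ W, w v with hb
  set c : ℝ := a / b with hc
  have hcb : c * b = a := by rw [hc]; field_simp
  have ha0 : 0 ≤ a := Finset.sum_nonneg fun v _ => (hwpos v).le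
  have hc0 : 0 ≤ c := div_nonneg ha0 hWpos.le
  have hc2 : c ≤ 1 / 2 := by
    rw [hc, div_le_iff₀ hWpos]; linarith
  set h : ι → ℝ := fun v => (if v ∈ U then (1 : ℝ) else 0) - c with hh
  set T1 : Finset ι := cls lab l1 with hT1
  have hT1S : T1 ⊆ S := by
    rw [hS]
    exact Finset.subset_union_left.trans Finset.subset_union_left
  have hsumU : ∀ f : ι → ℝ, ∑ v ∈ W, (if v ∈ U then (1 : ℝ) else 0) * f v = ∑ v ∈ U, f v := by
    intro f
    simp only [ite_mul, one_mul, zero_mul]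
    rw [← Finset.sum_filter, Finset.filter_mem_eq_inter, Finset.inter_eq_right.mpr hU]
  -- the variance
  have hmean : ∑ v ∈ W, w v * h v = 0 := by
    have : ∑ v ∈ W, w v * h v = ∑ v ∈ W, (if v ∈ U then (1 : ℝ) else 0) * w v -
        c * ∑ v ∈ W, w v := by
      rw [Finset.mul_sum, ← Finset.sum_sub_distrib]
      refine Finset.sum_congr rfl fun v _ => ?_
      simp only [hh]; ring
    rw [this, hsumU]
    linarith
  set V : ℝ := ∑ v ∈ W, w v * h v ^ 2 with hV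
  have hVeq : V = a * (1 - c) := by
    have h1 : ∀ v ∈ W, w v * h v ^ 2 = (if v ∈ U then (1 : ℝ) else 0) * (w v * (1 - c)) -
        c * (w v * h v) := by
      intro v _
      simp only [hh]
      by_cases hv : v ∈ U
      · rw [if_pos hv]; ring
      · rw [if_neg hv]; ring
    rw [hV, Finset.sum_congr rfl h1, Finset.sum_sub_distrib, hsumU, ← Finset.mul_sum, hmean,
      ← Finset.sum_mul]
    ring
  have hVge : a / 2 ≤ V := by
    rw [hVeq]
    have := mul_le_mul_of_nonneg_left (by linarith : (1 : ℝ) / 2 ≤ 1 - c) ha0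
    linarith
  have hV0 : 0 ≤ V := le_trans (by linarith) hVge
  have hh1 : ∀ v ∈ U, h v = 1 - c := fun v hv => by simp only [hh]; rw [if_pos hv]
  have hh0 : ∀ v, v ∉ U → h v = - c := fun v hv => by simp only [hh]; rw [if_neg hv]; ring
  -- energies
  have hAB1 : enn G W T1 h ≤ 2 * E := by
    rw [← hcount]
    exact block_enn_le G S W U W T1 (Finset.Subset.refl W) (hT1S.trans hSW) (Or.inr hT1S) h c
      hh1 hh0
  have hAB2 : enn G S S h ≤ 2 * E := by
    rw [← hcount]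
    exact block_enn_le G S W U S S hSW hSW (Or.inl (Finset.Subset.refl S)) h c hh1 hh0
  set g : ι → ℝ := avg G T1 h with hgdef
  obtain ⟨m, hm⟩ := cheeger G w s φ hub hs hφ g
  have hN1 : 1 ≤ N := by omega
  have hdev := avg_dev G N hN1 T1 W hg.deg h
  have hext := energy_ext G w (fun v => (hwpos v).le) N hN lab t ht l1 l3 l4 h13 h14 h34 hg S hS h
  have havg := energy_avg G N hN1 T1 S hT1S hg.deg h
  -- bounds
  have k1 : ∑ v ∈ W, w v * (h v - g v) ^ 2 ≤ 4 * N * E := by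
    calc ∑ v ∈ W, w v * (h v - g v) ^ 2
        ≤ ∑ v ∈ W, (dgr G Finset.univ v : ℝ) * (h v - g v) ^ 2 :=
          Finset.sum_le_sum fun v _ => mul_le_mul_of_nonneg_right (hub.w_le v) (sq_nonneg _)
      _ ≤ 2 * N * enn G W T1 h := hdev
      _ ≤ 2 * N * (2 * E) := by
          refine mul_le_mul_of_nonneg_left hAB1 ?_
          positivity
      _ = 4 * N * E := by ring
  have k2 : ∑ v ∈ T1, w v * h v ^ 2 ≤ V :=
    Finset.sum_le_sum_of_subset_of_nonneg (hT1S.trans hSW)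
      fun v _ _ => mul_nonneg (hwpos v).le (sq_nonneg _)
  have k3 : enn G Finset.univ Finset.univ g ≤ N ^ 2 * ((12 * N + 3) * (2 * E)) + φ / 4 * V := by
    refine hext.trans (add_le_add ?_ ?_)
    · refine mul_le_mul_of_nonneg_left (havg.trans ?_) (by positivity)
      exact mul_le_mul_of_nonneg_left hAB2 (by positivity)
    · have h1 : 4 * (N : ℝ) ^ 2 * t ≤ φ / 4 := blk_t N t φ hN3 htφ
      refine mul_le_mul h1 k2 (Finset.sum_nonneg fun v _ =>
        mul_nonneg (hwpos v).le (sq_nonneg _)) (by positivity)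
  have k4 : φ * ∑ v ∈ W, w v * (g v - m) ^ 2 ≤
      N ^ 2 * ((12 * N + 3) * (2 * E)) + φ / 4 * V := by
    refine le_trans (mul_le_mul_of_nonneg_left ?_ hφ.le) (hm.trans k3)
    exact Finset.sum_le_sum_of_subset_of_nonneg (Finset.subset_univ W)
      fun v _ _ => mul_nonneg (hwpos v).le (sq_nonneg _)
  have k5 : V ≤ ∑ v ∈ W, w v * (h v - m) ^ 2 := by
    have : ∑ v ∈ W, w v * (h v - m) ^ 2 = V - 2 * m * ∑ v ∈ W, w v * h v +
        m ^ 2 * ∑ v ∈ W, w v := by
      rw [hV, Finset.mul_sum, Finset.mul_sum, ← Finset.sum_sub_distrib, ← Finset.sum_add_distrib]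
      refine Finset.sum_congr rfl fun v _ => ?_
      ring
    rw [this, hmean]
    have : 0 ≤ m ^ 2 * ∑ v ∈ W, w v := mul_nonneg (sq_nonneg _) hWpos.le
    linarith
  have k6 : ∑ v ∈ W, w v * (h v - m) ^ 2 ≤ 2 * ∑ v ∈ W, w v * (h v - g v) ^ 2 +
      2 * ∑ v ∈ W, w v * (g v - m) ^ 2 := by
    rw [Finset.mul_sum, Finset.mul_sum, ← Finset.sum_add_distrib]
    refine Finset.sum_le_sum fun v _ => ?_
    have h1 : (h v - m) ^ 2 ≤ 2 * (h v - g v) ^ 2 + 2 * (g v - m) ^ 2 := blk_sq _ _ _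
    have h2 := mul_le_mul_of_nonneg_left h1 (hwpos v).le
    linarith
  -- conclusion
  have k7 : φ * V ≤ φ * (8 * N * E) + 2 * (N ^ 2 * ((12 * N + 3) * (2 * E)) + φ / 4 * V) := by
    have h1 : φ * V ≤ φ * (2 * ∑ v ∈ W, w v * (h v - g v) ^ 2 +
        2 * ∑ v ∈ W, w v * (g v - m) ^ 2) := mul_le_mul_of_nonneg_left (k5.trans k6) hφ.le
    have h2 := mul_le_mul_of_nonneg_left k1 hφ.le
    have h3 : φ * (2 * ∑ v ∈ W, w v * (h v - g v) ^ 2 + 2 * ∑ v ∈ W, w v * (g v - m) ^ 2) =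
        2 * (φ * ∑ v ∈ W, w v * (h v - g v) ^ 2) + 2 * (φ * ∑ v ∈ W, w v * (g v - m) ^ 2) := by
      ring
    have h4 : φ * (8 * N * E) = 2 * (φ * (4 * N * E)) := by ring
    linarith
  have k8 : φ * V ≤ 144 * N ^ 3 * E := by
    have h1 : φ * V / 2 ≤ φ * (8 * N * E) + 4 * N ^ 2 * (12 * N + 3) * E := by
      have : 2 * (N ^ 2 * ((12 * (N : ℝ) + 3) * (2 * E)) + φ / 4 * V) =
        4 * N ^ 2 * (12 * N + 3) * E + φ * V / 2 := by ring
      linarith
    have h2 : φ * (8 * N * E) ≤ 8 * N * E := by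
      have : 0 ≤ 8 * (N : ℝ) * E := mul_nonneg (by positivity) hE0
      exact mul_le_of_le_one_left this hφ1
    have h3 : 8 * (N : ℝ) * E + 4 * N ^ 2 * (12 * N + 3) * E ≤ 72 * N ^ 3 * E := by
      have h4 : 8 * (N : ℝ) + 4 * N ^ 2 * (12 * N + 3) ≤ 72 * N ^ 3 := blk_num N hN3
      calc 8 * (N : ℝ) * E + 4 * N ^ 2 * (12 * N + 3) * E
          = (8 * (N : ℝ) + 4 * N ^ 2 * (12 * N + 3)) * E := by ring
        _ ≤ 72 * N ^ 3 * E := mul_le_mul_of_nonneg_right h4 hE0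
    linarith
  have k9 : φ * a ≤ 2 * (φ * V) := by
    have := mul_le_mul_of_nonneg_left hVge hφ.le
    linarith
  linarith

end Crest.Agent.EG
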