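import Crest.Agent.EG_Cd

set_option autoImplicit false

namespace Crest.Agent.EG

theorem bridge_mem_pE {V : Type*} : ∀ (l : List V) (e : Sym2 V), e ∈ pE l → ∀ x ∈ e, x ∈ l
  | [], e, h => by simp [pE] at h
  | [_], e, h => by simp [pE] at h
  | a :: b :: l, e, h => by
      intro x hx
      rw [pE, List.mem_cons] at h
      rcases h with h | h
      · subst h
        rw [Sym2.mem_iff] at hx
        rcases hx with rfl | rfl <;> simp
      · exact List.mem_cons_of_mem _ (bridge_mem_pE (b :: l) e h x hx)

/-- a walk from a list whose consecutive pairs are edges -/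
theorem bridge_walk {V : Type*} (G : SimpleGraph V) :
    ∀ (t : List V) (a c : V), (∀ e ∈ pE (a :: (t ++ [c])), e ∈ G.edgeSet) →
      ∃ w : G.Walk a c, w.support = a :: (t ++ [c]) ∧ w.edges = pE (a :: (t ++ [c]))
  | [], a, c, h => by
      have hac : G.Adj a c := by
        have := h s(a, c) (by simp [pE])
        simpa using this
      refine ⟨SimpleGraph.Walk.cons hac SimpleGraph.Walk.nil, ?_, ?_⟩
      · simp
      · simp [pE]
  | b :: t, a, c, h => by
      have hab : G.Adj a b := by
        have := h s(a, b) (by simp [pE])
        simpa using this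
      obtain ⟨w, hw1, hw2⟩ := bridge_walk G t b c (by
        intro e he
        apply h e
        simp only [List.cons_append, pE]
        exact List.mem_cons_of_mem _ he)
      refine ⟨SimpleGraph.Walk.cons hab w, ?_, ?_⟩
      · simp [hw1]
      · simp [hw2, pE]

theorem bridge_cycle {V : Type*} (G : SimpleGraph V) (l : List V) (hl : l.Nodup)
    (h3 : 3 ≤ l.length) (hE : ∀ e ∈ cycE l, e ∈ G.edgeSet) :
    ∃ (u : V) (w : G.Walk u u), w.IsCycle ∧ w.edges = cycE l := by
  match l, hl, h3, hE with
  | a :: b :: c :: t, hl, _, hE =>
    have hcyc : cycE (a :: b :: c :: t) = s(a, b) :: pE (b :: (c :: t ++ [a])) := by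
      simp [cycE, pE]
    rw [hcyc] at hE ⊢
    have hab : G.Adj a b := by
      have := hE s(a, b) (by simp)
      simpa using this
    obtain ⟨w, hw1, hw2⟩ := bridge_walk G (c :: t) b a (by
      intro e he
      exact hE e (List.mem_cons_of_mem _ he))
    refine ⟨a, SimpleGraph.Walk.cons hab w, ?_, ?_⟩
    · rw [SimpleGraph.Walk.cons_isCycle_iff]
      have hnd : (b :: (c :: t ++ [a])).Nodup := by
        have hp : (b :: (c :: t ++ [a])).Perm (a :: b :: c :: t) := by
          have : b :: (c :: t ++ [a]) = (b :: c :: t) ++ [a] := by simp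
          rw [this]
          exact List.perm_append_singleton a (b :: c :: t)
        exact hp.nodup_iff.mpr hl
      refine ⟨?_, ?_⟩
      · rw [SimpleGraph.Walk.isPath_def, hw1]
        exact hnd
      · rw [hw2]
        intro hmem
        rw [List.cons_append, pE, List.mem_cons] at hmem
        rcases hmem with hmem | hmem
        · rw [Sym2.eq_iff] at hmem
          rcases hmem with ⟨h1, -⟩ | ⟨h1, -⟩
          · simp [h1] at hl
          · simp [h1] at hl
        · have := bridge_mem_pE _ _ hmem b (by simp)
          rw [List.nodup_cons] at hnd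
          exact hnd.1 this
    · simp [hw2]

/-! TASK EG-Bridge: translate to the statement of S0064. For `V` empty everything is trivial (`m = 0`,
`Sym2 V` is empty). Otherwise take `S = univ`, `E = G.edgeFinset` (classical), `m = cd E + 1 ≤ (C+1) * card V`,
enumerate the parts of an optimal partition by `Fin (cd E)`; the remaining label is used for all non-edges.
A part `{e}` gives the second alternative; a part `IsCyc` (list `l`, nodup, length ≥ 3) gives a closed walk
which `IsCycle` with edge set the part. -/
theorem bridge (C : ℝ)
    (hC : ∀ (V : Type) [DecidableEq V] (S : Finset V) (E : Finset (Sym2 V)),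
      Loopless E → Supp E S → (cd E : ℝ) ≤ C * S.card) :
    ∃ C : ℝ, ∀ (V : Type) [Fintype V] (G : SimpleGraph V),
      ∃ (m : ℕ) (f : Sym2 V → Fin m), (m : ℝ) ≤ C * Fintype.card V ∧
        ∀ i : Fin m, G.edgeSet ∩ f ⁻¹' {i} = ∅ ∨
          (∃ e ∈ G.edgeSet, G.edgeSet ∩ f ⁻¹' {i} = {e}) ∨
          (∃ (u : V) (w : G.Walk u u), w.IsCycle ∧ {e | e ∈ w.edges} = G.edgeSet ∩ f ⁻¹' {i}) := by
  classical
  refine ⟨C + 1, ?_⟩
  intro V _ G
  rcases isEmpty_or_nonempty V with hV | hV
  · refine ⟨0, fun e => ?_, ?_, ?_⟩
    · exact (e.ind (fun a _ => isEmptyElim a) : False).elim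
    · simp
    · intro i; exact i.elim0
  · set E : Finset (Sym2 V) := G.edgeFinset with hEdef
    have hmemE : ∀ e, e ∈ E ↔ e ∈ G.edgeSet := fun e => SimpleGraph.mem_edgeFinset
    have hloop : Loopless E := by
      intro e he
      exact G.not_isDiag_of_mem_edgeSet ((hmemE e).1 he)
    have hsupp : Supp E Finset.univ := by
      intro e _ x _
      exact Finset.mem_univ x
    have hcard := hC V Finset.univ E hloop hsupp
    obtain ⟨Q, hQcard, hQpart, hQdisj, hQU⟩ := CD_cd E
    have hpos : (1 : ℝ) ≤ Fintype.card V := by
      exact_mod_cast Fintype.card_pos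
    have hex : ∀ e ∈ E, ∃ D : Finset (Sym2 V), D ∈ Q ∧ e ∈ D := by
      intro e he
      rw [← hQU, Finset.mem_biUnion] at he
      simpa using he
    let φ : {D // D ∈ Q} ≃ Fin Q.card := Q.equivFin
    let f : Sym2 V → Fin (cd E + 1) := fun e =>
      if h : ∃ D : Finset (Sym2 V), D ∈ Q ∧ e ∈ D then
        Fin.castLE (by omega) (φ ⟨h.choose, h.choose_spec.1⟩)
      else Fin.last _
    have hf1 : ∀ e (D : Finset (Sym2 V)) (hD : D ∈ Q), e ∈ D →
        f e = Fin.castLE (by omega) (φ ⟨D, hD⟩) := by
      intro e D hD he
      have h : ∃ D : Finset (Sym2 V), D ∈ Q ∧ e ∈ D := ⟨D, hD, he⟩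
      have hEq : h.choose = D := by
        by_contra hne
        have := hQdisj h.choose_spec.1 hD hne
        exact (Finset.disjoint_left.1 this) h.choose_spec.2 he
      simp only [f, dif_pos h]
      congr 2
      exact Subtype.ext hEq
    refine ⟨cd E + 1, f, ?_, ?_⟩
    · push_cast
      rw [Finset.card_univ] at hcard
      nlinarith
    · intro i
      by_cases hi : i.val < Q.card
      · set D := φ.symm ⟨i.val, hi⟩ with hDdef
        have hDi : φ D = ⟨i.val, hi⟩ := by simp [hDdef]
        have hset : G.edgeSet ∩ f ⁻¹' {i} = (D.1 : Set (Sym2 V)) := by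
          ext e
          constructor
          · rintro ⟨heG, hfe⟩
            obtain ⟨D', hD', heD'⟩ := hex e ((hmemE e).2 heG)
            have h1 := hf1 e D' hD' heD'
            have h2 : f e = i := hfe
            rw [h1] at h2
            have h3 : φ ⟨D', hD'⟩ = φ D := by
              rw [hDi]
              apply Fin.ext
              have := congrArg Fin.val h2
              simpa using this
            have h4 := φ.injective h3
            have : D' = D.1 := by rw [← h4]
            rw [this] at heD'
            exact heD'
          · intro heD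
            have heE : e ∈ E := by
              rw [← hQU, Finset.mem_biUnion]
              exact ⟨D.1, D.2, heD⟩
            refine ⟨(hmemE e).1 heE, ?_⟩
            show f e = i
            rw [hf1 e D.1 D.2 heD]
            apply Fin.ext
            simp [hDi]
        have hsub : ∀ e ∈ D.1, e ∈ G.edgeSet := by
          intro e he
          have : e ∈ G.edgeSet ∩ f ⁻¹' {i} := by rw [hset]; exact he
          exact this.1
        rw [hset]
        rcases hQpart D.1 D.2 with ⟨e, he⟩ | ⟨l, hl1, hl2, hl3⟩
        · right; left
          refine ⟨e, hsub e (by rw [he]; simp), ?_⟩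
          rw [he]; simp
        · right; right
          obtain ⟨u, w, hw1, hw2⟩ := bridge_cycle G l hl1 hl2 (by
            intro e he
            apply hsub
            rw [hl3]
            simpa using he)
          refine ⟨u, w, hw1, ?_⟩
          rw [hw2, hl3]
          ext e
          simp
      · left
        ext e
        simp only [Set.mem_inter_iff, Set.mem_preimage, Set.mem_singleton_iff, Set.mem_empty_iff_false,
          iff_false, not_and]
        intro heG hfe
        obtain ⟨D', hD', heD'⟩ := hex e ((hmemE e).2 heG)
        rw [hf1 e D' hD' heD'] at hfe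
        apply hi
        rw [← hfe]
        simp

end Crest.Agent.EG
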