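import Crest.Agent.EG_HubB

set_option autoImplicit false

namespace Crest.Agent.EG

variable {V : Type*} [DecidableEq V]

/-- TASK EG-Clean: cleaning lemma.
Proof. `B₀ = {x ∈ Z : q x > θ w x}`, `w(B₀) ≤ q(Z)/θ ≤ φη w(Z)/16`. Among all `X` with `B₀ ⊆ X ⊆ Z`,
`w(X) ≤ w(Z)/4` and `|bd D X| ≤ w(B₀)/φ + (η/2) w(X)` (e.g. `X = B₀`, as `|bd D B₀| ≤ Σ_{B₀} dg ≤ w(B₀)/φ`) take one of maximal
cardinality, `Z' = Z \ X`. As `η w(X) ≤ |bd D X|` we get `w(X) ≤ 2 w(B₀)/(ηφ) ≤ w(Z)/8`.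
If some `U ⊆ Z'` has `w(U) ≤ w(Z')/2` and `|bd (ind D Z') U| < (η/2) w(U)` (so `U ≠ ∅`) put `X' = X ∪ U`:
`|bd D X'| ≤ |bd D X| + |bd (ind D Z') U| ≤ w(B₀)/φ + (η/2) w(X')`. If `w(X') ≤ w(Z)/2` then
`η w(X') ≤ |bd D X'|` gives `w(X') ≤ 2w(B₀)/(ηφ) ≤ w(Z)/8`, contradicting maximality. Otherwise `w(Z \ X') < w(Z)/2`, but
`w(Z \ X') ≥ w(Z')/2 ≥ (7/16) w(Z)`, so `(7/16) η w(Z) ≤ |bd D X'| ≤ η w(Z)/16 + (η/2)(9/16) w(Z)`, impossible. -/
theorem clean (D : Finset (Sym2 V)) (Z : Finset V) (w q : V → ℝ) (s φ η θ : ℝ)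
    (hub : Hub D Z w s φ η) (hs : 0 < s) (hφ : 0 < φ) (hη : 0 < η) (hφ1 : φ ≤ 1) (hη1 : η ≤ 1)
    (hθ : 0 < θ) (hq : ∀ v ∈ Z, 0 ≤ q v)
    (hqZ : ∑ v ∈ Z, q v ≤ θ * φ * η / 16 * ∑ v ∈ Z, w v) :
    ∃ Z' ⊆ Z, Hub (ind D Z') Z' w s φ (η / 2) ∧ (∀ x ∈ Z', q x ≤ θ * w x) ∧
      ∑ v ∈ Z \ Z', w v ≤ 2 * (∑ v ∈ Z, q v) / (η * θ * φ) := by
  classical
  have hw0 : ∀ v ∈ Z, 0 < w v := fun v hv => lt_of_lt_of_le hs (hub.w_ge v hv)
  have hnn : ∀ X ⊆ Z, 0 ≤ ∑ v ∈ X, w v := fun X hX =>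
    Finset.sum_nonneg (fun v hv => (hw0 v (hX hv)).le)
  set W := ∑ v ∈ Z, w v with hW
  set Q := ∑ v ∈ Z, q v with hQ
  have hW0 : 0 ≤ W := hnn Z (Finset.Subset.refl _)
  set B₀ := Z.filter (fun x => θ * w x < q x) with hB₀
  have hB₀Z : B₀ ⊆ Z := Finset.filter_subset _ _
  set b := ∑ v ∈ B₀, w v with hb
  have hb0 : 0 ≤ b := hnn B₀ hB₀Z
  have hθb : θ * b ≤ Q := by
    rw [hb, Finset.mul_sum]
    calc ∑ v ∈ B₀, θ * w v ≤ ∑ v ∈ B₀, q v := by
          apply Finset.sum_le_sum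
          intro v hv
          exact (Finset.mem_filter.mp hv).2.le
      _ ≤ Q := Finset.sum_le_sum_of_subset_of_nonneg hB₀Z (fun v hv _ => hq v hv)
  have hbW : 16 * b ≤ φ * η * W := by
    have h1 : θ * b ≤ θ * (φ * η / 16 * W) := by
      calc θ * b ≤ Q := hθb
        _ ≤ θ * φ * η / 16 * W := hqZ
        _ = θ * (φ * η / 16 * W) := by ring
    have h2 := le_of_mul_le_mul_left h1 hθ
    linarith
  have hφη : φ * η ≤ 1 := by nlinarith
  have hφηW : φ * η * W ≤ η * W := by nlinarith [mul_nonneg hη.le hW0]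
  -- b / φ ≤ η W / 16
  have hbφ : 16 * (b / φ) ≤ η * W := by
    rw [← mul_div_assoc, div_le_iff₀ hφ]
    linarith [mul_comm φ η]
    
  let P : Finset V → Prop := fun X => B₀ ⊆ X ∧ (∑ v ∈ X, w v ≤ W / 4) ∧
    ((bd D X).card : ℝ) ≤ b / φ + η / 2 * ∑ v ∈ X, w v
  have hPB : P B₀ := by
    refine ⟨Finset.Subset.refl _, ?_, ?_⟩
    · have : φ * η * W ≤ 1 * W := mul_le_mul_of_nonneg_right hφη hW0
      change b ≤ W / 4
      linarith
    · have h1 : ((bd D B₀).card : ℝ) ≤ ∑ v ∈ B₀, (dg D v : ℝ) := by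
        exact_mod_cast card_bd_le_sum_dg D B₀
      have h2 : ∑ v ∈ B₀, (dg D v : ℝ) ≤ b / φ := by
        rw [le_div_iff₀ hφ, hb, Finset.sum_mul]
        apply Finset.sum_le_sum
        intro v hv
        have := hub.w_deg v (hB₀Z hv)
        linarith [mul_comm φ (dg D v : ℝ)]
      have h3 : 0 ≤ η / 2 * ∑ v ∈ B₀, w v := by
        have := hnn B₀ hB₀Z
        positivity
      linarith
  obtain ⟨X, hXmem, hXmax⟩ := Finset.exists_max_image (Z.powerset.filter P) (fun X => X.card)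
    ⟨B₀, by simp only [Finset.mem_filter, Finset.mem_powerset]; exact ⟨hB₀Z, hPB⟩⟩
  simp only [Finset.mem_filter, Finset.mem_powerset] at hXmem hXmax
  obtain ⟨hXZ, hBX, hXW, hXbd⟩ := hXmem
  have key : ∀ Y ⊆ Z, ∑ v ∈ Y, w v ≤ W / 2 → ((bd D Y).card : ℝ) ≤ b / φ + η / 2 * ∑ v ∈ Y, w v →
      η * ∑ v ∈ Y, w v ≤ 2 * (b / φ) := by
    intro Y hY hYW hYbd
    have := hub.exp Y hY hYW
    linarith
  have hX2 : η * ∑ v ∈ X, w v ≤ 2 * (b / φ) := key X hXZ (by linarith) hXbd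
  have hX8 : ∑ v ∈ X, w v ≤ W / 8 := by
    have h1 : η * ∑ v ∈ X, w v ≤ η * (W / 8) := by linarith
    exact le_of_mul_le_mul_left h1 hη
  have hsplit : ∀ Y ⊆ Z, ∑ v ∈ Z \ Y, w v + ∑ v ∈ Y, w v = W := by
    intro Y hY
    exact Finset.sum_sdiff hY
  refine ⟨Z \ X, Finset.sdiff_subset, ?_, ?_, ?_⟩
  · constructor
    · intro e he
      exact hub.loopless e (mem_ind.mp he).1
    · intro e he
      exact (mem_ind.mp he).2
    · intro v hv
      exact hub.w_ge v (Finset.sdiff_subset hv)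
    · intro v hv
      have h1 := hub.w_deg v (Finset.sdiff_subset hv)
      have h2 : dg (ind D (Z \ X)) v ≤ dg D v := dg_mono (fun e he => (mem_ind.mp he).1) v
      have h3 : (dg (ind D (Z \ X)) v : ℝ) ≤ dg D v := by exact_mod_cast h2
      have h4 : φ * (dg (ind D (Z \ X)) v : ℝ) ≤ φ * (dg D v : ℝ) :=
        mul_le_mul_of_nonneg_left h3 hφ.le
      linarith
    · intro U hU hUw
      by_contra hcon
      push Not at hcon
      have hUZ : U ⊆ Z := fun x hx => Finset.sdiff_subset (hU hx)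
      have hdisj : Disjoint X U := by
        rw [Finset.disjoint_left]
        intro x hx hxU
        exact (Finset.mem_sdiff.mp (hU hxU)).2 hx
      have hUne : U.Nonempty := by
        rw [Finset.nonempty_iff_ne_empty]
        rintro rfl
        simp at hcon
        linarith [show (0:ℝ) ≤ ((bd (ind D (Z \ X)) (∅ : Finset V)).card : ℝ) by positivity]
      have hWpos : 0 < W := by
        obtain ⟨u, hu⟩ := hUne
        exact lt_of_lt_of_le (hw0 u (hUZ hu))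
          (Finset.single_le_sum (f := w) (fun v hv => (hw0 v hv).le) (hUZ hu))
      have hsum : ∑ v ∈ X ∪ U, w v = ∑ v ∈ X, w v + ∑ v ∈ U, w v := Finset.sum_union hdisj
      have hX'Z : X ∪ U ⊆ Z := Finset.union_subset hXZ hUZ
      have hbdsub : bd D (X ∪ U) ⊆ bd D X ∪ bd (ind D (Z \ X)) U := by
        intro e he
        rw [mem_bd] at he
        obtain ⟨heD, ⟨x, hxe, hx⟩, ⟨y, hye, hy⟩⟩ := he
        rw [Finset.mem_union] at hx ⊢
        simp only [Finset.mem_union, not_or] at hy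
        by_cases hex : ∃ z ∈ e, z ∈ X
        · left
          rw [mem_bd]
          exact ⟨heD, hex, y, hye, hy.1⟩
        · right
          push Not at hex
          rw [mem_bd, mem_ind]
          refine ⟨⟨heD, fun z hz => Finset.mem_sdiff.mpr ⟨hub.supp e heD z hz, hex z hz⟩⟩,
            ⟨x, hxe, ?_⟩, ⟨y, hye, hy.2⟩⟩
          rcases hx with hx | hx
          · exact absurd hx (hex x hxe)
          · exact hx
      have hbdcard : ((bd D (X ∪ U)).card : ℝ) ≤ (bd D X).card + (bd (ind D (Z \ X)) U).card := by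
        exact_mod_cast (Finset.card_le_card hbdsub).trans (Finset.card_union_le _ _)
      have hbdX' : ((bd D (X ∪ U)).card : ℝ) ≤ b / φ + η / 2 * ∑ v ∈ X ∪ U, w v := by
        rw [hsum, mul_add]
        linarith
      have hZX := hsplit X hXZ
      by_cases hhalf : ∑ v ∈ X ∪ U, w v ≤ W / 2
      · have h1 := key (X ∪ U) hX'Z hhalf hbdX'
        have h2 : η * ∑ v ∈ X ∪ U, w v ≤ η * (W / 4) := by nlinarith
        have h3 : ∑ v ∈ X ∪ U, w v ≤ W / 4 := le_of_mul_le_mul_left h2 hη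
        have h4 := hXmax (X ∪ U) ⟨hX'Z, hBX.trans Finset.subset_union_left, h3, hbdX'⟩
        rw [Finset.card_union_of_disjoint hdisj] at h4
        have := hUne.card_pos
        omega
      · push Not at hhalf
        have hsp := hsplit (X ∪ U) hX'Z
        have h1 : ∑ v ∈ Z \ (X ∪ U), w v ≤ W / 2 := by linarith
        have h2 := hub.exp (Z \ (X ∪ U)) Finset.sdiff_subset h1
        rw [bd_compl hub.supp hX'Z] at h2
        have h3 : ∑ v ∈ X ∪ U, w v ≤ 9 / 16 * W := by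
          rw [hsum]; linarith
        have h4 : 7 / 16 * W ≤ ∑ v ∈ Z \ (X ∪ U), w v := by linarith
        have h5 : η * (7 / 16 * W) ≤ η * ∑ v ∈ Z \ (X ∪ U), w v :=
          mul_le_mul_of_nonneg_left h4 hη.le
        have h6 : η / 2 * ∑ v ∈ X ∪ U, w v ≤ η / 2 * (9 / 16 * W) :=
          mul_le_mul_of_nonneg_left h3 (by linarith)
        have h7 : 0 < η * W := mul_pos hη hWpos
        linarith
  · intro x hx
    rw [Finset.mem_sdiff] at hx
    by_contra hc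
    push Not at hc
    exact hx.2 (hBX (Finset.mem_filter.mpr ⟨hx.1, hc⟩))
  · have h1 : Z \ (Z \ X) = X := Finset.sdiff_sdiff_eq_self hXZ
    rw [h1]
    rw [le_div_iff₀ (by positivity)]
    have h2 : φ * (b / φ) = b := by field_simp
    calc (∑ v ∈ X, w v) * (η * θ * φ) = (η * ∑ v ∈ X, w v) * (θ * φ) := by ring
      _ ≤ (2 * (b / φ)) * (θ * φ) := mul_le_mul_of_nonneg_right hX2 (by positivity)
      _ = 2 * (θ * (φ * (b / φ))) := by ring
      _ = 2 * (θ * b) := by rw [h2]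
      _ ≤ 2 * Q := by linarith

end Crest.Agent.EG
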