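import Crest.Agent.EG_Defs

set_option autoImplicit false

namespace Crest.Agent.EG

variable {V : Type*} [DecidableEq V]

/-! TASK EG-Cd: basic API of `cd`. All easy. (`CD_card`: use the partition into singletons.) -/

theorem CD_card (E : Finset (Sym2 V)) : CD E E.card := by
  refine ⟨E.image (fun e => ({e} : Finset (Sym2 V))), Finset.card_image_le, ?_, ?_, ?_⟩
  · intro C hC
    obtain ⟨e, _, rfl⟩ := Finset.mem_image.1 hC
    exact Or.inl ⟨e, rfl⟩
  · intro C hC C' hC' hne
    simp only [Finset.coe_image, Set.mem_image, Finset.mem_coe] at hC hC'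
    obtain ⟨e, _, rfl⟩ := hC
    obtain ⟨e', _, rfl⟩ := hC'
    simp only [Function.onFun, id, Finset.disjoint_singleton]
    rintro rfl
    exact hne rfl
  · ext e
    simp

theorem CD_cd (E : Finset (Sym2 V)) : CD E (cd E) := by
  have : {k | CD E k}.Nonempty := ⟨_, CD_card E⟩
  exact Nat.sInf_mem this

theorem cd_le_of_CD {E : Finset (Sym2 V)} {k : ℕ} (h : CD E k) : cd E ≤ k := Nat.sInf_le h

theorem cd_le_card (E : Finset (Sym2 V)) : cd E ≤ E.card := cd_le_of_CD (CD_card E)

theorem cd_empty : cd (∅ : Finset (Sym2 V)) = 0 := by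
  have := cd_le_card (∅ : Finset (Sym2 V))
  simpa using this

theorem CD_union {E F : Finset (Sym2 V)} {k l : ℕ} (h : Disjoint E F) (hE : CD E k) (hF : CD F l) :
    CD (E ∪ F) (k + l) := by
  obtain ⟨Q, h1, h2, h3, h4⟩ := hE
  obtain ⟨R, g1, g2, g3, g4⟩ := hF
  have hQ : ∀ C ∈ Q, C ⊆ E := by
    intro C hC e he
    rw [← h4]
    exact Finset.mem_biUnion.2 ⟨C, hC, he⟩
  have hR : ∀ C ∈ R, C ⊆ F := by
    intro C hC e he
    rw [← g4]
    exact Finset.mem_biUnion.2 ⟨C, hC, he⟩
  refine ⟨Q ∪ R, ?_, ?_, ?_, ?_⟩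
  · exact (Finset.card_union_le _ _).trans (by omega)
  · intro C hC
    rcases Finset.mem_union.1 hC with hC | hC
    · exact h2 C hC
    · exact g2 C hC
  · intro C hC C' hC' hne
    rw [Finset.coe_union] at hC hC'
    rcases hC with hC | hC <;> rcases hC' with hC' | hC'
    · exact h3 hC hC' hne
    · exact Finset.disjoint_of_subset_left (hQ C hC) (Finset.disjoint_of_subset_right (hR C' hC') h)
    · exact (Finset.disjoint_of_subset_left (hQ C' hC')
        (Finset.disjoint_of_subset_right (hR C hC) h)).symm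
    · exact g3 hC hC' hne
  · ext e
    simp only [Finset.mem_biUnion, Finset.mem_union, id]
    rw [← h4, ← g4]
    simp only [Finset.mem_biUnion, id]
    constructor
    · rintro ⟨C, hC | hC, he⟩
      · exact Or.inl ⟨C, hC, he⟩
      · exact Or.inr ⟨C, hC, he⟩
    · rintro (⟨C, hC, he⟩ | ⟨C, hC, he⟩)
      · exact ⟨C, Or.inl hC, he⟩
      · exact ⟨C, Or.inr hC, he⟩

theorem cd_union_le {E F : Finset (Sym2 V)} (h : Disjoint E F) : cd (E ∪ F) ≤ cd E + cd F :=
  cd_le_of_CD (CD_union h (CD_cd E) (CD_cd F))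

theorem cd_split {E F : Finset (Sym2 V)} (h : F ⊆ E) : cd E ≤ cd F + cd (E \ F) := by
  have := cd_union_le (E := F) (F := E \ F) Finset.disjoint_sdiff
  rwa [Finset.union_sdiff_of_subset h] at this

theorem cd_biUnion_le {ι : Type*} [DecidableEq ι] (s : Finset ι) (f : ι → Finset (Sym2 V))
    (h : (s : Set ι).PairwiseDisjoint f) : cd (s.biUnion f) ≤ ∑ i ∈ s, cd (f i) := by
  induction s using Finset.induction_on with
  | empty => simp [cd_empty]
  | insert a s ha ih =>
    rw [Finset.biUnion_insert, Finset.sum_insert ha]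
    have h1 : (s : Set ι).PairwiseDisjoint f := h.subset (by simp)
    have h2 : Disjoint (f a) (s.biUnion f) := by
      rw [Finset.disjoint_biUnion_right]
      intro i hi
      refine h (by simp) (by simp [hi]) ?_
      rintro rfl
      exact ha hi
    exact (cd_union_le h2).trans (Nat.add_le_add_left (ih h1) _)

theorem cd_cyc {C : Finset (Sym2 V)} (h : IsCyc C) : cd C ≤ 1 := by
  refine cd_le_of_CD ⟨{C}, by simp, ?_, by simp, by simp⟩
  intro C' hC'
  rw [Finset.mem_singleton] at hC'
  subst hC'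
  exact Or.inr h

theorem cd_biUnion_cyc {ι : Type*} [DecidableEq ι] (s : Finset ι) (f : ι → Finset (Sym2 V))
    (h : (s : Set ι).PairwiseDisjoint f) (hc : ∀ i ∈ s, IsCyc (f i)) :
    cd (s.biUnion f) ≤ s.card := by
  refine (cd_biUnion_le s f h).trans ?_
  calc ∑ i ∈ s, cd (f i) ≤ ∑ _i ∈ s, 1 := Finset.sum_le_sum fun i hi => cd_cyc (hc i hi)
    _ = s.card := by simp

/-- if `G` is a union of `E`, `F` that are disjoint, written as an equation -/
theorem cd_eq_union_le {G E F : Finset (Sym2 V)} (hG : G = E ∪ F) (h : Disjoint E F) :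
    cd G ≤ cd E + cd F := by
  rw [hG]
  exact cd_union_le h

end Crest.Agent.EG
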