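import Crest.Agent.EG_Defs

set_option autoImplicit false

namespace Crest.Agent.EG

variable {V : Type*}

/-! TASK EG-HubB: basic lemmas on degrees, induced edges, hubs. -/

theorem mem_ind {E : Finset (Sym2 V)} {U : Finset V} {e : Sym2 V} :
    e ∈ ind E U ↔ e ∈ E ∧ ∀ x ∈ e, x ∈ U := by
  classical
  unfold ind
  rw [Finset.mem_filter]

theorem mem_inc {E : Finset (Sym2 V)} {U : Finset V} {e : Sym2 V} :
    e ∈ inc E U ↔ e ∈ E ∧ ∃ x ∈ e, x ∈ U := by
  classical
  unfold inc
  rw [Finset.mem_filter]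

theorem mem_bd {E : Finset (Sym2 V)} {U : Finset V} {e : Sym2 V} :
    e ∈ bd E U ↔ e ∈ E ∧ (∃ x ∈ e, x ∈ U) ∧ ∃ y ∈ e, y ∉ U := by
  classical
  unfold bd
  rw [Finset.mem_filter]

theorem dg_mono {E F : Finset (Sym2 V)} (h : E ⊆ F) (v : V) : dg E v ≤ dg F v := by
  classical
  unfold dg
  exact Finset.card_le_card (Finset.filter_subset_filter _ h)

/-- handshake -/
theorem sum_dg {E : Finset (Sym2 V)} {S : Finset V} (hl : Loopless E) (hs : Supp E S) :
    ∑ v ∈ S, dg E v = 2 * E.card := by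
  classical
  unfold dg
  have h1 : ∀ v ∈ S, (E.filter (fun e => v ∈ e)).card = ∑ e ∈ E, if v ∈ e then 1 else 0 := by
    intro v _
    rw [Finset.card_filter]
  have h1' : ∑ v ∈ S, (E.filter (fun e => v ∈ e)).card
      = ∑ v ∈ S, ∑ e ∈ E, if v ∈ e then 1 else 0 := Finset.sum_congr rfl h1
  have h2 : ∀ e ∈ E, (∑ v ∈ S, if v ∈ e then 1 else 0) = 2 := by
    intro e he
    rw [← Finset.card_filter]
    have hd := hl e he
    have hss := hs e he
    induction e using Sym2.ind with
    | _ a b =>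
      have hab : a ≠ b := by simpa using hd
      have : S.filter (fun v => v ∈ s(a, b)) = {a, b} := by
        ext v
        simp only [Finset.mem_filter, Sym2.mem_iff, Finset.mem_insert, Finset.mem_singleton]
        constructor
        · exact fun h => h.2
        · intro h
          refine ⟨?_, h⟩
          rcases h with rfl | rfl
          · exact hss _ (by simp)
          · exact hss _ (by simp)
      rw [this, Finset.card_pair hab]
  calc ∑ v ∈ S, (E.filter (fun e => v ∈ e)).card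
      = ∑ v ∈ S, ∑ e ∈ E, (if v ∈ e then 1 else 0) := h1'
    _ = ∑ e ∈ E, ∑ v ∈ S, (if v ∈ e then 1 else 0) := Finset.sum_comm
    _ = ∑ e ∈ E, 2 := Finset.sum_congr rfl h2
    _ = 2 * E.card := by rw [Finset.sum_const, smul_eq_mul, mul_comm]

theorem dg_eq_dgin {E : Finset (Sym2 V)} {S : Finset V} (hl : Loopless E) (hs : Supp E S) (v : V) :
    dg E v = dgin E S v := by
  classical
  unfold dg dgin
  symm
  apply Finset.card_bij (fun y _ => s(v, y))
  · intro y hy
    simp only [Finset.mem_filter] at hy ⊢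
    exact ⟨hy.2, by simp⟩
  · intro y _ z _ h
    exact Sym2.congr_right.1 h
  · intro e he
    simp only [Finset.mem_filter] at he
    obtain ⟨he, hv⟩ := he
    obtain ⟨y, rfl⟩ := Sym2.mem_iff_exists.1 hv
    exact ⟨y, by simp only [Finset.mem_filter]; exact ⟨hs _ he y (by simp), he⟩, rfl⟩

theorem dg_lt_card {E : Finset (Sym2 V)} {S : Finset V} (hl : Loopless E) (hs : Supp E S) {v : V}
    (hv : v ∈ S) : dg E v < S.card := by
  classical
  rw [dg_eq_dgin hl hs v]
  unfold dgin
  apply Finset.card_lt_card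
  rw [Finset.ssubset_iff_of_subset (Finset.filter_subset _ _)]
  refine ⟨v, hv, ?_⟩
  simp only [Finset.mem_filter, not_and]
  intro _ h
  exact hl _ h (by simp)

/-- the boundary of `U`, counted from both sides -/
theorem card_bd {E : Finset (Sym2 V)} {S U : Finset V} (hl : Loopless E) (hs : Supp E S)
    [DecidableEq V] (hU : U ⊆ S) : (bd E U).card = ∑ v ∈ U, dgin E (S \ U) v := by
  classical
  have h1 : ∀ v ∈ U, dgin E (S \ U) v = ∑ e ∈ bd E U, if v ∈ e then 1 else 0 := by
    intro v hv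
    rw [← Finset.card_filter]
    unfold dgin
    apply Finset.card_bij (fun y _ => s(v, y))
    · intro y hy
      simp only [Finset.mem_filter, Finset.mem_sdiff] at hy
      simp only [Finset.mem_filter, mem_bd]
      exact ⟨⟨hy.2, ⟨v, by simp, hv⟩, ⟨y, by simp, hy.1.2⟩⟩, by simp⟩
    · intro y _ z _ h
      exact Sym2.congr_right.1 h
    · intro e he
      simp only [Finset.mem_filter, mem_bd] at he
      obtain ⟨⟨he, -, ⟨z, hz, hzU⟩⟩, hve⟩ := he
      obtain ⟨y, rfl⟩ := Sym2.mem_iff_exists.1 hve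
      have hzy : z = y := by
        rcases Sym2.mem_iff.1 hz with h | h
        · exact absurd (h ▸ hv) hzU
        · exact h
      subst hzy
      exact ⟨z, by simp only [Finset.mem_filter, Finset.mem_sdiff]; exact ⟨⟨hs _ he z (by simp), hzU⟩, he⟩, rfl⟩
  have h2 : ∀ e ∈ bd E U, (∑ v ∈ U, if v ∈ e then 1 else 0) = 1 := by
    intro e he
    rw [← Finset.card_filter]
    rw [mem_bd] at he
    obtain ⟨he, ⟨x, hx, hxU⟩, ⟨z, hz, hzU⟩⟩ := he
    obtain ⟨y, rfl⟩ := Sym2.mem_iff_exists.1 hx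
    have hzy : z = y := by
      rcases Sym2.mem_iff.1 hz with h | h
      · exact absurd (h ▸ hxU) hzU
      · exact h
    subst hzy
    have : U.filter (fun v => v ∈ s(x, z)) = {x} := by
      ext v
      simp only [Finset.mem_filter, Sym2.mem_iff, Finset.mem_singleton]
      constructor
      · rintro ⟨hvU, h | h⟩
        · exact h
        · exact absurd (h ▸ hvU) hzU
      · rintro rfl
        exact ⟨hxU, Or.inl rfl⟩
    rw [this, Finset.card_singleton]
  calc (bd E U).card = ∑ e ∈ bd E U, 1 := by simp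
    _ = ∑ e ∈ bd E U, ∑ v ∈ U, (if v ∈ e then 1 else 0) := (Finset.sum_congr rfl h2).symm
    _ = ∑ v ∈ U, ∑ e ∈ bd E U, (if v ∈ e then 1 else 0) := Finset.sum_comm
    _ = ∑ v ∈ U, dgin E (S \ U) v := (Finset.sum_congr rfl h1).symm

theorem bd_compl {E : Finset (Sym2 V)} {S U : Finset V} (hs : Supp E S)
    [DecidableEq V] (hU : U ⊆ S) : bd E (S \ U) = bd E U := by
  classical
  ext e
  simp only [mem_bd, Finset.mem_sdiff, not_and, not_not]
  constructor
  · rintro ⟨he, ⟨x, hx, hxS, hxU⟩, ⟨y, hy, hyU⟩⟩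
    exact ⟨he, ⟨y, hy, hyU (hs e he y hy)⟩, ⟨x, hx, hxU⟩⟩
  · rintro ⟨he, ⟨x, hx, hxU⟩, ⟨y, hy, hyU⟩⟩
    exact ⟨he, ⟨y, hy, hs e he y hy, hyU⟩, ⟨x, hx, fun _ => hxU⟩⟩

theorem card_bd' {E : Finset (Sym2 V)} {S U : Finset V} (hl : Loopless E) (hs : Supp E S)
    [DecidableEq V] (hU : U ⊆ S) : (bd E U).card = ∑ v ∈ S \ U, dgin E U v := by
  classical
  rw [← bd_compl hs hU, card_bd hl hs (Finset.sdiff_subset : S \ U ⊆ S),
    Finset.sdiff_sdiff_eq_self hU]

theorem card_bd_le_sum_dg (E : Finset (Sym2 V)) (U : Finset V) :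
    (bd E U).card ≤ ∑ v ∈ U, dg E v := by
  classical
  have hsub : bd E U ⊆ U.biUnion (fun v => E.filter (fun e => v ∈ e)) := by
    intro e he
    rw [mem_bd] at he
    obtain ⟨he, ⟨x, hx, hxU⟩, -⟩ := he
    rw [Finset.mem_biUnion]
    exact ⟨x, hxU, by rw [Finset.mem_filter]; exact ⟨he, hx⟩⟩
  refine (Finset.card_le_card hsub).trans (Finset.card_biUnion_le.trans (le_of_eq ?_))
  apply Finset.sum_congr rfl
  intro v _
  unfold dg
  congr

theorem card_le_sq {E : Finset (Sym2 V)} {S : Finset V} (hl : Loopless E) (hs : Supp E S) :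
    E.card ≤ S.card ^ 2 := by
  classical
  have h := sum_dg hl hs
  have h2 : ∑ v ∈ S, dg E v ≤ ∑ v ∈ S, S.card :=
    Finset.sum_le_sum (fun v hv => (dg_lt_card hl hs hv).le)
  rw [Finset.sum_const, smul_eq_mul] at h2
  nlinarith

theorem HubB_dgin_le (E : Finset (Sym2 V)) (T : Finset V) (v : V) : dgin E T v ≤ T.card := by
  classical
  unfold dgin
  exact Finset.card_filter_le _ _

/-- In a hub with `η = 1`, `s > 1` and at least two vertices there is no heavy vertex, and `w v ≤ dg D v`.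
(If `w v ≤ w(Z)/2` use the expansion of `{v}`. Otherwise use `U = Z \ {v}`: `|U| < s |U| ≤ w(U) ≤ |bd D U| ≤ |U|`.) -/
theorem hub_w_le_dg [DecidableEq V] {D : Finset (Sym2 V)} {Z : Finset V} {w : V → ℝ} {s φ : ℝ}
    (hub : Hub D Z w s φ 1) (hs : 1 < s) (hZ : 2 ≤ Z.card) {v : V} (hv : v ∈ Z) :
    w v ≤ dg D v := by
  classical
  by_cases hhalf : w v ≤ (∑ v ∈ Z, w v) / 2
  · have h := hub.exp {v} (by simpa using hv) (by simpa using hhalf)
    have h2 := card_bd_le_sum_dg D {v}
    simp only [Finset.sum_singleton, one_mul] at h h2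
    exact h.trans (by exact_mod_cast h2)
  · exfalso
    push Not at hhalf
    have hsplit : ∑ u ∈ Z \ {v}, w u + w v = ∑ u ∈ Z, w u := by
      have := Finset.sum_sdiff (f := w) (Finset.singleton_subset_iff.2 hv)
      simpa using this
    have h := hub.exp (Z \ {v}) Finset.sdiff_subset (by linarith)
    rw [bd_compl hub.supp (Finset.singleton_subset_iff.2 hv)] at h
    have hc : (bd D {v}).card ≤ (Z \ {v}).card := by
      rw [card_bd' hub.loopless hub.supp (Finset.singleton_subset_iff.2 hv)]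
      have : ∀ u ∈ Z \ {v}, dgin D {v} u ≤ 1 := by
        intro u _
        exact (HubB_dgin_le _ _ _).trans (by simp)
      calc ∑ u ∈ Z \ {v}, dgin D {v} u ≤ ∑ u ∈ Z \ {v}, 1 := Finset.sum_le_sum this
        _ = (Z \ {v}).card := by simp
    have hcard : 1 ≤ (Z \ {v}).card := by
      rw [Finset.card_sdiff_of_subset (Finset.singleton_subset_iff.2 hv)]
      simp only [Finset.card_singleton]
      omega
    have hw : s * ((Z \ {v}).card : ℝ) ≤ ∑ u ∈ Z \ {v}, w u := by
      have : ∑ u ∈ Z \ {v}, s ≤ ∑ u ∈ Z \ {v}, w u :=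
        Finset.sum_le_sum (fun u hu => hub.w_ge u (Finset.sdiff_subset hu))
      rw [Finset.sum_const, nsmul_eq_mul] at this
      linarith
    have hcR : ((bd D {v}).card : ℝ) ≤ ((Z \ {v}).card : ℝ) := by exact_mod_cast hc
    have hcardR : (1 : ℝ) ≤ ((Z \ {v}).card : ℝ) := by exact_mod_cast hcard
    nlinarith

/-- removing few edges at each vertex keeps half of the expansion -/
theorem hub_sdiff [DecidableEq V] {D F : Finset (Sym2 V)} {Z : Finset V} {w : V → ℝ} {s φ η : ℝ}
    (hub : Hub D Z w s φ η) (hφ : 0 ≤ φ) (hF : ∀ v ∈ Z, (dg F v : ℝ) ≤ η / 2 * w v) :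
    Hub (D \ F) Z w s φ (η / 2) := by
  classical
  refine ⟨?_, ?_, hub.w_ge, ?_, ?_⟩
  · intro e he
    exact hub.loopless e (Finset.sdiff_subset he)
  · intro e he
    exact hub.supp e (Finset.sdiff_subset he)
  · intro v hv
    have h1 : ((dg (D \ F) v : ℕ) : ℝ) ≤ (dg D v : ℝ) := by
      exact_mod_cast dg_mono Finset.sdiff_subset v
    exact (mul_le_mul_of_nonneg_left h1 hφ).trans (hub.w_deg v hv)
  · intro U hU hw
    have h := hub.exp U hU hw
    have hsub : bd D U ⊆ bd (D \ F) U ∪ bd F U := by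
      intro e he
      rw [mem_bd] at he
      rw [Finset.mem_union, mem_bd, mem_bd, Finset.mem_sdiff]
      by_cases heF : e ∈ F
      · exact Or.inr ⟨heF, he.2⟩
      · exact Or.inl ⟨⟨he.1, heF⟩, he.2⟩
    have hc : (bd D U).card ≤ (bd (D \ F) U).card + (bd F U).card :=
      (Finset.card_le_card hsub).trans (Finset.card_union_le _ _)
    have h2 : ((bd F U).card : ℝ) ≤ η / 2 * ∑ v ∈ U, w v := by
      have h3 : ((bd F U).card : ℝ) ≤ ∑ v ∈ U, (dg F v : ℝ) := by
        exact_mod_cast card_bd_le_sum_dg F U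
      refine h3.trans ?_
      rw [Finset.mul_sum]
      exact Finset.sum_le_sum (fun v hv => hF v (hU hv))
    have hcR : ((bd D U).card : ℝ) ≤ ((bd (D \ F) U).card : ℝ) + ((bd F U).card : ℝ) := by
      exact_mod_cast hc
    linarith

end Crest.Agent.EG
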