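import Mathlib

set_option autoImplicit false

namespace Crest.Agent.EG

section HaxellAux

variable {ι α : Type*} [DecidableEq ι] [DecidableEq α]

/-- indices of `D` whose `M`-edge meets `f` -/
def hxW (D : Finset ι) (M : ι → Finset α) (f : Finset α) : Finset ι :=
  D.filter (fun i => ¬ Disjoint (M i) f)

/-- all indices hit by the edges of the list -/
def hxCov (D : Finset ι) (M : ι → Finset α) : List (ι × Finset α) → Finset ι
  | [] => ∅
  | p :: L => hxW D M p.2 ∪ hxCov D M L

/-- union of the edges of the list -/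
def hxUn : List (ι × Finset α) → Finset α
  | [] => ∅
  | p :: L => p.2 ∪ hxUn L

/-- numerical value of the signature -/
def hxV (D : Finset ι) (M : ι → Finset α) : List (ι × Finset α) → ℕ
  | [] => 0
  | p :: L => (D.card + 2) * hxV D M L + (hxW D M p.2).card

/-- validity of a sequence (newest element first) -/
def hxOK (D : Finset ι) (x₀ : ι) (H : ι → Set (Finset α)) (M : ι → Finset α) :
    List (ι × Finset α) → Prop
  | [] => True
  | p :: L => hxOK D x₀ H M L ∧ (p.1 = x₀ ∨ p.1 ∈ hxCov D M L) ∧ p.2 ∈ H p.1 ∧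
      Disjoint p.2 (hxUn L) ∧ (∀ i ∈ hxCov D M L, Disjoint (M i) p.2) ∧
      (∀ q ∈ L, (hxW D M q.2).Nonempty)

theorem hx_mem_W {D : Finset ι} {M : ι → Finset α} {f : Finset α} {i : ι} :
    i ∈ hxW D M f ↔ i ∈ D ∧ ¬ Disjoint (M i) f := by
  simp [hxW]

theorem hx_W_sub (D : Finset ι) (M : ι → Finset α) (f : Finset α) : hxW D M f ⊆ D :=
  Finset.filter_subset _ _

theorem hx_cov_sub (D : Finset ι) (M : ι → Finset α) (L : List (ι × Finset α)) :
    hxCov D M L ⊆ D := by
  induction L with
  | nil => simp [hxCov]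
  | cons p L ih => exact Finset.union_subset (hx_W_sub _ _ _) ih

theorem hx_mem_cov {D : Finset ι} {M : ι → Finset α} {L : List (ι × Finset α)} {i : ι} :
    i ∈ hxCov D M L ↔ ∃ q ∈ L, i ∈ hxW D M q.2 := by
  induction L with
  | nil => simp [hxCov]
  | cons p L ih => simp [hxCov, ih]

theorem hx_sub_un {L : List (ι × Finset α)} {q : ι × Finset α} (hq : q ∈ L) : q.2 ⊆ hxUn L := by
  induction L with
  | nil => simp at hq
  | cons p L ih =>
    rcases List.mem_cons.1 hq with h | h
    · subst h; exact Finset.subset_union_left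
    · exact (ih h).trans Finset.subset_union_right

theorem hx_un_append (L₁ L₂ : List (ι × Finset α)) : hxUn L₂ ⊆ hxUn (L₁ ++ L₂) := by
  induction L₁ with
  | nil => simp
  | cons p L ih => exact ih.trans Finset.subset_union_right

theorem hx_len_le {D : Finset ι} {x₀ : ι} {H : ι → Set (Finset α)} {M : ι → Finset α}
    {L : List (ι × Finset α)} (hok : hxOK D x₀ H M L) (hne : ∀ q ∈ L, (hxW D M q.2).Nonempty) :
    L.length ≤ (hxCov D M L).card := by
  induction L with
  | nil => simp
  | cons p L ih =>
    obtain ⟨h1, h2, h3, h4, h5, h6⟩ := hok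
    have hd : Disjoint (hxW D M p.2) (hxCov D M L) := by
      rw [Finset.disjoint_left]
      intro i hi hi'
      exact (hx_mem_W.1 hi).2 (h5 i hi')
    have := ih h1 h6
    have h7 : 0 < (hxW D M p.2).card := (hne p (by simp)).card_pos
    simp only [List.length_cons, hxCov]
    rw [Finset.card_union_of_disjoint hd]
    omega

theorem hx_un_card {D : Finset ι} {x₀ : ι} {H : ι → Set (Finset α)} {M : ι → Finset α} {r : ℕ}
    (hr : ∀ i, ∀ e ∈ H i, e.card ≤ r)
    {L : List (ι × Finset α)} (hok : hxOK D x₀ H M L) : (hxUn L).card ≤ r * L.length := by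
  induction L with
  | nil => simp [hxUn]
  | cons p L ih =>
    obtain ⟨h1, h2, h3, h4, h5, h6⟩ := hok
    have := ih h1
    have h7 := hr _ _ h3
    have h8 := Finset.card_union_le p.2 (hxUn L)
    simp only [List.length_cons, hxUn]
    nlinarith

theorem hx_V_append (D : Finset ι) (M : ι → Finset α) (L₁ L₂ : List (ι × Finset α)) :
    (D.card + 2) ^ L₁.length * hxV D M L₂ ≤ hxV D M (L₁ ++ L₂) := by
  induction L₁ with
  | nil => simp
  | cons p L ih =>
    simp only [List.length_cons, List.cons_append, hxV, pow_succ]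
    calc (D.card + 2) ^ L.length * (D.card + 2) * hxV D M L₂
        = (D.card + 2) * ((D.card + 2) ^ L.length * hxV D M L₂) := by ring
      _ ≤ (D.card + 2) * hxV D M (L ++ L₂) := Nat.mul_le_mul_left _ ih
      _ ≤ _ := Nat.le_add_right _ _

theorem hx_W_update {D : Finset ι} {M : ι → Finset α} {f e : Finset α} {y : ι}
    (hd : Disjoint e f) : hxW D (Function.update M y e) f = (hxW D M f).erase y := by
  ext i
  rw [Finset.mem_erase, hx_mem_W, hx_mem_W]
  by_cases h : i = y
  · subst h
    simp [hd]
  · simp [h]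

theorem hx_cov_update {D : Finset ι} {M : ι → Finset α} {e : Finset α} {y : ι}
    {L : List (ι × Finset α)} (hd : Disjoint e (hxUn L)) :
    hxCov D (Function.update M y e) L = (hxCov D M L).erase y := by
  ext i
  rw [Finset.mem_erase, hx_mem_cov, hx_mem_cov]
  constructor
  · rintro ⟨q, hq, hi⟩
    rw [hx_W_update (hd.mono_right (hx_sub_un hq)), Finset.mem_erase] at hi
    exact ⟨hi.1, q, hq, hi.2⟩
  · rintro ⟨hi, q, hq, hi'⟩
    refine ⟨q, hq, ?_⟩
    rw [hx_W_update (hd.mono_right (hx_sub_un hq)), Finset.mem_erase]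
    exact ⟨hi, hi'⟩

theorem hx_W_update' {D : Finset ι} {M : ι → Finset α} {f e : Finset α} {y : ι}
    (hd : Disjoint e f) (hy : y ∉ hxW D M f) : hxW D (Function.update M y e) f = hxW D M f := by
  rw [hx_W_update hd, Finset.erase_eq_of_notMem hy]

theorem hx_cov_update' {D : Finset ι} {M : ι → Finset α} {e : Finset α} {y : ι}
    {L : List (ι × Finset α)} (hd : Disjoint e (hxUn L)) (hy : y ∉ hxCov D M L) :
    hxCov D (Function.update M y e) L = hxCov D M L := by
  rw [hx_cov_update hd, Finset.erase_eq_of_notMem hy]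

theorem hx_V_update {D : Finset ι} {M : ι → Finset α} {e : Finset α} {y : ι}
    {L : List (ι × Finset α)} (hd : Disjoint e (hxUn L)) (hy : y ∉ hxCov D M L) :
    hxV D (Function.update M y e) L = hxV D M L := by
  induction L with
  | nil => simp [hxV]
  | cons p L ih =>
    simp only [hxUn, Finset.disjoint_union_right] at hd
    simp only [hxCov, Finset.mem_union, not_or] at hy
    simp only [hxV]
    rw [ih hd.2 hy.2, hx_W_update' hd.1 hy.1]

theorem hx_OK_update {D : Finset ι} {x₀ : ι} {H : ι → Set (Finset α)} {M : ι → Finset α}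
    {e : Finset α} {y : ι}
    {L : List (ι × Finset α)} (hok : hxOK D x₀ H M L) (hd : Disjoint e (hxUn L))
    (hy : y ∉ hxCov D M L) :
    hxOK D x₀ H (Function.update M y e) L := by
  induction L with
  | nil => simp [hxOK]
  | cons p L ih =>
    simp only [hxUn, Finset.disjoint_union_right] at hd
    simp only [hxCov, Finset.mem_union, not_or] at hy
    obtain ⟨h1, h2, h3, h4, h5, h6⟩ := hok
    refine ⟨ih h1 hd.2 hy.2, ?_, h3, h4, ?_, ?_⟩
    · rwa [hx_cov_update' hd.2 hy.2]
    · rw [hx_cov_update' hd.2 hy.2]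
      intro i hi
      have : i ≠ y := by
        rintro rfl; exact hy.2 hi
      simpa [this] using h5 i hi
    · intro q hq
      rw [hx_W_update' (hd.2.mono_right (hx_sub_un hq))
        (fun h => hy.2 (hx_mem_cov.2 ⟨q, hq, h⟩))]
      exact h6 q hq

theorem hx_OK_suffix {D : Finset ι} {x₀ : ι} {H : ι → Set (Finset α)} {M : ι → Finset α}
    {L₁ L₂ : List (ι × Finset α)} (hok : hxOK D x₀ H M (L₁ ++ L₂)) : hxOK D x₀ H M L₂ := by
  induction L₁ with
  | nil => simpa using hok
  | cons p L ih => exact ih hok.1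

theorem hx_main {r : ℕ} (H : ι → Set (Finset α)) (hr : ∀ i, ∀ e ∈ H i, e.card ≤ r)
    (hyp : ∀ I : Finset ι, I.Nonempty → ∀ F : Finset α, F.card ≤ 2 * r * I.card →
      ∃ i ∈ I, ∃ e ∈ H i, Disjoint e F) (D : Finset ι) (x₀ : ι) (hx₀ : x₀ ∉ D) (N : ℕ) :
    ∀ (M : ι → Finset α) (L : List (ι × Finset α)),
      (∀ i ∈ D, M i ∈ H i) → (∀ i ∈ D, ∀ j ∈ D, i ≠ j → Disjoint (M i) (M j)) →
      hxOK D x₀ H M L → (hxV D M L + 1) * (D.card + 2) ^ (D.card + 1 - L.length) ≤ N →
      ∃ M' : ι → Finset α, (∀ i ∈ insert x₀ D, M' i ∈ H i) ∧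
        (∀ i ∈ insert x₀ D, ∀ j ∈ insert x₀ D, i ≠ j → Disjoint (M' i) (M' j)) := by
  induction N using Nat.strong_induction_on with
  | _ N ih =>
  intro M L hM hdis hok hN
  by_cases hne : ∀ q ∈ L, (hxW D M q.2).Nonempty
  · -- extend the sequence
    have hlen := hx_len_le hok hne
    have hcov := Finset.card_le_card (hx_cov_sub D M L)
    set I := insert x₀ (hxCov D M L) with hI
    set F := hxUn L ∪ (hxCov D M L).biUnion M with hF
    have hx₀' : x₀ ∉ hxCov D M L := fun h => hx₀ (hx_cov_sub D M L h)
    have hIcard : I.card = (hxCov D M L).card + 1 := by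
      rw [hI, Finset.card_insert_of_notMem hx₀']
    have hb : ((hxCov D M L).biUnion M).card ≤ (hxCov D M L).card * r :=
      Finset.card_biUnion_le_card_mul _ _ _ (fun i hi => hr i _ (hM i (hx_cov_sub D M L hi)))
    have hFcard : F.card ≤ 2 * r * I.card := by
      have h1 := Finset.card_union_le (hxUn L) ((hxCov D M L).biUnion M)
      have h2 := hx_un_card hr hok
      have h3 : r * L.length ≤ r * (hxCov D M L).card := Nat.mul_le_mul_left _ hlen
      rw [hIcard]
      calc F.card ≤ r * L.length + (hxCov D M L).card * r := h1.trans (Nat.add_le_add h2 hb)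
        _ ≤ r * (hxCov D M L).card + (hxCov D M L).card * r := Nat.add_le_add_right h3 _
        _ ≤ 2 * r * ((hxCov D M L).card + 1) := by nlinarith
    obtain ⟨y, hy, e, he, hdF⟩ := hyp I (Finset.insert_nonempty _ _) F hFcard
    rw [hF, Finset.disjoint_union_right, Finset.disjoint_biUnion_right] at hdF
    have hok' : hxOK D x₀ H M ((y, e) :: L) := by
      refine ⟨hok, ?_, he, hdF.1, fun i hi => (hdF.2 i hi).symm, hne⟩
      rw [hI, Finset.mem_insert] at hy
      exact hy
    refine ih _ ?_ M ((y, e) :: L) hM hdis hok' le_rfl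
    refine lt_of_lt_of_le ?_ hN
    have hWc : (hxW D M e).card ≤ D.card := Finset.card_le_card (hx_W_sub D M e)
    have hexp : D.card + 1 - L.length = (D.card + 1 - (L.length + 1)) + 1 := by omega
    simp only [hxV, List.length_cons]
    rw [hexp, pow_succ]
    have hpos : 0 < (D.card + 2) ^ (D.card + 1 - (L.length + 1)) := by positivity
    generalize (D.card + 2) ^ (D.card + 1 - (L.length + 1)) = P at hpos
    generalize hxV D M L = v
    have : (D.card + 2) * v + (hxW D M e).card + 1 < (v + 1) * (D.card + 2) := by nlinarith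
    nlinarith
  · -- the head has empty W
    match L, hok, hN, hne with
    | [], _, _, hne => exact absurd (by simp) hne
    | p :: L, hok, hN, hne =>
    have hW : hxW D M p.2 = ∅ := by
      by_contra h
      apply hne
      intro q hq
      rcases List.mem_cons.1 hq with h' | h'
      · subst h'; exact Finset.nonempty_iff_ne_empty.2 h
      · exact hok.2.2.2.2.2 q h'
    obtain ⟨h1, h2, h3, h4, h5, h6⟩ := hok
    have hdisj : ∀ i ∈ D, Disjoint (M i) p.2 := by
      intro i hi
      by_contra h
      have : i ∈ hxW D M p.2 := hx_mem_W.2 ⟨hi, h⟩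
      rw [hW] at this
      simp at this
    by_cases hpx : p.1 = x₀
    · refine ⟨Function.update M x₀ p.2, ?_, ?_⟩
      · intro i hi
        rcases Finset.mem_insert.1 hi with h | h
        · subst h; simpa [hpx] using h3
        · have : i ≠ x₀ := fun h' => hx₀ (h' ▸ h)
          simpa [this] using hM i h
      · intro i hi j hj hij
        rcases Finset.mem_insert.1 hi with h | h
        · rcases Finset.mem_insert.1 hj with h' | h'
          · exact absurd (h.trans h'.symm) hij
          · subst h
            have : j ≠ i := hij.symm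
            simpa [this] using (hdisj j h').symm
        · rcases Finset.mem_insert.1 hj with h' | h'
          · subst h'
            simpa [hij] using hdisj i h
          · have hi' : i ≠ x₀ := fun h'' => hx₀ (h'' ▸ h)
            have hj' : j ≠ x₀ := fun h'' => hx₀ (h'' ▸ h')
            simpa [hi', hj'] using hdis i h j h' hij
    · have hy : p.1 ∈ hxCov D M L := h2.resolve_left hpx
      have hyD : p.1 ∈ D := hx_cov_sub D M L hy
      obtain ⟨q, hq, hyq⟩ := hx_mem_cov.1 hy
      obtain ⟨L₁, L₂, rfl⟩ := List.append_of_mem hq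
      have hlen := hx_len_le h1 h6
      have hcov := Finset.card_le_card (hx_cov_sub D M (L₁ ++ q :: L₂))
      have hokq : hxOK D x₀ H M (q :: L₂) := hx_OK_suffix h1
      obtain ⟨g1, g2, g3, g4, g5, g6⟩ := hokq
      have hyL₂ : p.1 ∉ hxCov D M L₂ := fun h => (hx_mem_W.1 hyq).2 (g5 _ h)
      have hdq : Disjoint p.2 (hxUn (q :: L₂)) := h4.mono_right (hx_un_append _ _)
      simp only [hxUn, Finset.disjoint_union_right] at hdq
      have hM' : ∀ i ∈ D, Function.update M p.1 p.2 i ∈ H i := by
        intro i hi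
        by_cases h : i = p.1
        · subst h; simpa using h3
        · simpa [h] using hM i hi
      have hdis' : ∀ i ∈ D, ∀ j ∈ D, i ≠ j →
          Disjoint (Function.update M p.1 p.2 i) (Function.update M p.1 p.2 j) := by
        intro i hi j hj hij
        by_cases h : i = p.1
        · subst h
          simpa [hij.symm] using (hdisj j hj).symm
        · by_cases h' : j = p.1
          · subst h'
            simpa [hij] using hdisj i hi
          · simpa [h, h'] using hdis i hi j hj hij
      have hok' : hxOK D x₀ H (Function.update M p.1 p.2) (q :: L₂) := by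
        refine ⟨hx_OK_update g1 hdq.2 hyL₂, ?_, g3, g4, ?_, ?_⟩
        · rwa [hx_cov_update' hdq.2 hyL₂]
        · rw [hx_cov_update' hdq.2 hyL₂]
          intro i hi
          have : i ≠ p.1 := by
            intro h; rw [h] at hi; exact hyL₂ hi
          simpa [this] using g5 i hi
        · intro q' hq'
          rw [hx_W_update' (hdq.2.mono_right (hx_sub_un hq'))
            (fun h => hyL₂ (hx_mem_cov.2 ⟨q', hq', h⟩))]
          exact g6 q' hq'
      refine ih _ ?_ (Function.update M p.1 p.2) (q :: L₂) hM' hdis' hok' le_rfl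
      refine lt_of_lt_of_le ?_ hN
      have hWcard : (hxW D (Function.update M p.1 p.2) q.2).card + 1 = (hxW D M q.2).card := by
        rw [hx_W_update hdq.1, Finset.card_erase_add_one hyq]
      have hVnew : hxV D (Function.update M p.1 p.2) (q :: L₂) + 1 = hxV D M (q :: L₂) := by
        simp only [hxV]
        rw [hx_V_update hdq.2 hyL₂]
        omega
      rw [hVnew]
      have hVapp := hx_V_append D M (p :: L₁) (q :: L₂)
      have hcons : p :: L₁ ++ q :: L₂ = p :: (L₁ ++ q :: L₂) := rfl
      rw [hcons] at hVapp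
      simp only [List.length_append, List.length_cons] at hlen
      have hexp : D.card + 1 - (q :: L₂).length =
          (p :: L₁).length + (D.card + 1 - (p :: (L₁ ++ q :: L₂)).length) := by
        simp only [List.length_append, List.length_cons]
        omega
      rw [hexp, pow_add]
      have hpos : 0 < (D.card + 2) ^ (D.card + 1 - (p :: (L₁ ++ q :: L₂)).length) := by positivity
      generalize (D.card + 2) ^ (D.card + 1 - (p :: (L₁ ++ q :: L₂)).length) = P at hpos
      generalize hxV D M (p :: (L₁ ++ q :: L₂)) = v at hVapp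
      generalize hxV D M (q :: L₂) = w at hVapp
      generalize (D.card + 2) ^ (p :: L₁).length = Q at hVapp
      calc w * (Q * P) = (Q * w) * P := by ring
        _ ≤ v * P := Nat.mul_le_mul_right _ hVapp
        _ < (v + 1) * P := by nlinarith

end HaxellAux

/-- TASK EG-Haxell: weak form of Haxell's theorem (disjoint representatives).
Proof. Take a partial system of disjoint representatives `M : I_M → Finset α` (`M i ∈ H i`) with `I_M` of maximal
cardinality; suppose `x₀ ∉ I_M`. Consider sequences `(y₁,f₁),…,(y_k,f_k)` (together with the current `M` on the fixed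
`I_M`) such that, with `W_j := {i ∈ I_M : M i ∩ f_j ≠ ∅}`: `y_j ∈ {x₀} ∪ W_1 ∪ … ∪ W_{j-1}`, `f_j ∈ H y_j`, `f_j` is
disjoint from `f_l` (l<j) and from `M i` for `i ∈ W_1 ∪ … ∪ W_{j-1}`, (hence the `W_j` are disjoint), and `W_j ≠ ∅` for
`j < k`. Signature `(|W_1|,…,|W_k|)`, ordered lexicographically with "extension is smaller" (pad with ∞). Only finitely
many signatures (`W_j` disjoint subsets of `I_M`, nonempty for `j<k`). Take a minimal one. If `W_k ≠ ∅` (or `k = 0`):
`I := {x₀} ∪ ⋃ W_j`, `F := ⋃ f_j ∪ ⋃_{i ∈ ⋃ W_j} M i` has `|F| ≤ r k + r |⋃ W_j| ≤ 2 r |⋃ W_j| < 2 r |I|` so the hypothesis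
gives `y ∈ I`, `f ∈ H y` disjoint from `F`: extend the sequence, smaller signature. If `W_k = ∅`: `f_k` is disjoint from
all `M i`. If `y_k = x₀`, adding `f_k` contradicts maximality of `I_M`. Otherwise `y_k ∈ W_m`, `m < k`; replace `M y_k`
by `f_k` and truncate the sequence to its first `m` terms: the signature becomes `(|W_1|,…,|W_m| - 1)`, smaller. -/
theorem haxell {ι α : Type*} [Fintype ι] [DecidableEq ι] [DecidableEq α] (r : ℕ)
    (H : ι → Set (Finset α)) (hr : ∀ i, ∀ e ∈ H i, e.card ≤ r)
    (hyp : ∀ I : Finset ι, I.Nonempty → ∀ F : Finset α, F.card ≤ 2 * r * I.card →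
      ∃ i ∈ I, ∃ e ∈ H i, Disjoint e F) :
    ∃ f : ι → Finset α, (∀ i, f i ∈ H i) ∧ ∀ i j, i ≠ j → Disjoint (f i) (f j) := by
  have key : ∀ D : Finset ι, ∃ M : ι → Finset α, (∀ i ∈ D, M i ∈ H i) ∧
      (∀ i ∈ D, ∀ j ∈ D, i ≠ j → Disjoint (M i) (M j)) := by
    intro D
    induction D using Finset.induction_on with
    | empty => exact ⟨fun _ => ∅, by simp, by simp⟩
    | insert x D hx ih =>
      obtain ⟨M, h1, h2⟩ := ih
      exact hx_main H hr hyp D x hx _ M [] h1 h2 trivial le_rfl
  obtain ⟨M, h1, h2⟩ := key Finset.univ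
  exact ⟨M, fun i => h1 i (Finset.mem_univ i),
    fun i j hij => h2 i (Finset.mem_univ i) j (Finset.mem_univ j) hij⟩

end Crest.Agent.EG
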