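import Crest.Agent.EG_Grow2
import Crest.Agent.EG_Haxell

set_option autoImplicit false

namespace Crest.Agent.EG

variable {V : Type*} [DecidableEq V]

/-- number of edges of a vertex list -/
theorem Link_pE_length (l : List V) : (pE l).length = l.length - 1 := by
  induction l with
  | nil => rfl
  | cons a l ih =>
    cases l with
    | nil => rfl
    | cons b l =>
      simp only [pE, List.length_cons] at ih ⊢
      omega

/-- two subsets of `Z` of weight more than half meet -/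
theorem Link_meet (Z A B : Finset V) (w : V → ℝ) (hA : A ⊆ Z) (hB : B ⊆ Z)
    (hw : ∀ v ∈ Z, 0 ≤ w v) (hwA : (∑ v ∈ Z, w v) / 2 < ∑ v ∈ A, w v)
    (hwB : (∑ v ∈ Z, w v) / 2 < ∑ v ∈ B, w v) : ∃ y, y ∈ A ∧ y ∈ B := by
  by_contra hcon
  have hd : Disjoint A B := Finset.disjoint_left.2 fun y h1 h2 => hcon ⟨y, h1, h2⟩
  have h1 : ∑ v ∈ A, w v + ∑ v ∈ B, w v = ∑ v ∈ A ∪ B, w v := (Finset.sum_union hd).symm
  have h2 : ∑ v ∈ A ∪ B, w v ≤ ∑ v ∈ Z, w v :=
    Finset.sum_le_sum_of_subset_of_nonneg (Finset.union_subset hA hB) fun v hv _ => hw v hv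
  linarith

/-- the growth part of the linking lemma: a set `J` of indices with `4 |J| ≥ M` contains an index whose
ball is large -/
theorem Link_grow {ι : Type*} [Fintype ι] [DecidableEq ι]
    (D F : Finset (Sym2 V)) (Z : Finset V) (w : V → ℝ) (s φ η θ : ℝ) (L t₁ r M : ℕ)
    (hub : Hub D Z w s φ η) (hs : 0 < s) (hφ : 0 < φ) (hη : 0 < η)
    (ht₁ : 2 ≤ η * φ * t₁)
    (hwZ : ∑ v ∈ Z, w v ≤ 2 ^ L * s) (hι : Fintype.card ι ≤ 2 ^ L)
    (hrθ : 256 * (r : ℝ) * θ ≤ η)
    (a : ι → V) (X : ι → Finset V) (ha : ∀ i, a i ∈ Z)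
    (hdeg : ∀ v ∈ Z, ((Finset.univ.filter (fun i => a i = v)).card : ℝ) ≤ θ * w v)
    (J : Finset ι) (hX : ∀ i ∈ J, ((X i).card : ℝ) ≤ η * s / 8)
    (hFM : F.card ≤ 2 * r * M) (hM : 1 ≤ M) (hJ : M ≤ 4 * J.card) :
    ∃ i ∈ J, (∑ v ∈ Z, w v) / 2 < ∑ v ∈ ball D F Z (X i) {a i} (2 * L * t₁), w v := by
  have hJne : J.Nonempty := by
    rw [← Finset.card_pos]; omega
  have hw0 : ∀ v ∈ Z, 0 ≤ w v := fun v hv => hs.le.trans (hub.w_ge v hv)
  have hJa : J.image a ⊆ Z := by
    intro v hv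
    obtain ⟨i, -, rfl⟩ := Finset.mem_image.1 hv
    exact ha i
  have h1 : (J.card : ℝ) ≤ θ * ∑ v ∈ J.image a, w v := by
    have : J.card ≤ ∑ v ∈ J.image a, (Finset.univ.filter (fun i => a i = v)).card := by
      rw [Finset.card_eq_sum_card_image a J]
      refine Finset.sum_le_sum fun v _ => Finset.card_le_card ?_
      intro i hi
      simp only [Finset.mem_filter, Finset.mem_univ, true_and] at hi ⊢
      exact hi.2
    calc (J.card : ℝ) ≤ ((∑ v ∈ J.image a, (Finset.univ.filter (fun i => a i = v)).card : ℕ) : ℝ) := by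
          exact_mod_cast this
      _ = ∑ v ∈ J.image a, ((Finset.univ.filter (fun i => a i = v)).card : ℝ) := by push_cast; rfl
      _ ≤ ∑ v ∈ J.image a, θ * w v := Finset.sum_le_sum fun v hv => hdeg v (hJa hv)
      _ = θ * ∑ v ∈ J.image a, w v := by rw [Finset.mul_sum]
  have hWJ0 : 0 ≤ ∑ v ∈ J.image a, w v := Finset.sum_nonneg fun v hv => hw0 v (hJa hv)
  have hWJ : ∑ v ∈ J.image a, w v ≤ ∑ v ∈ Z, w v :=
    Finset.sum_le_sum_of_subset_of_nonneg hJa fun v hv _ => hw0 v hv
  have h2 : (F.card : ℝ) ≤ η / 32 * ∑ v ∈ J.image a, w v := by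
    have h3 : (F.card : ℝ) ≤ 2 * r * (4 * J.card) := by
      have : F.card ≤ 2 * r * (4 * J.card) := hFM.trans (Nat.mul_le_mul_left _ hJ)
      exact_mod_cast this
    have h4 : (2 : ℝ) * r * (4 * J.card) ≤ 8 * r * (θ * ∑ v ∈ J.image a, w v) := by
      have : (0 : ℝ) ≤ r := Nat.cast_nonneg _
      nlinarith
    have h5 : 8 * r * (θ * ∑ v ∈ J.image a, w v) ≤ η / 32 * ∑ v ∈ J.image a, w v := by
      nlinarith
    linarith
  refine grow_single D F Z w s φ η (η * s / 8) hub hs hφ hη t₁ L ht₁ a X J hJne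
    ((Finset.card_le_univ J).trans hι) (fun i _ => ha i) hwZ hX le_rfl ?_ ?_
  · nlinarith
  · nlinarith

/-- TASK EG-Link: the linking lemma.
Proof. `t₁ := ⌈2/(ηφ)⌉ ≤ 3/(ηφ)`, `r := 8 L t₁` (so `256 r θ ≤ η`, `(4r+2) g ≤ η s/8`). Apply `haxell` on the type
`Sym2 V ⊕ (κ × V)` with `H i` = sets `edges of the path a i :: (q ++ [b i])` ∪ `{(cl i, x) : x ∈ q}` for all paths in `D`
with inner vertices `q` outside `X (cl i)` and `q.length + 1 ≤ 4 L t₁`.
Given `I₀` nonempty, `M = |I₀|`, and `F = F_E ∪ F_cls`, `|F| ≤ 2 r M`: the indices `i ∈ I₀` with `|F_{cl i}| > 4 r g` number at most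
`M/2` (each such class has at most `g` indices and `Σ_c |F_c| ≤ 2 r M`), let `I₁` be the others, `|I₁| ≥ M/2`; forbidden set of
`i ∈ I₁`: `X' i = F_{cl i} ∪ X (cl i)` of size `≤ (4r+2) g ≤ ηs/8`. If `J ⊆ I₁` has `4|J| ≥ M` then
`|J| ≤ Σ_{v ∈ J.image a} θ w v` so `|F_E| ≤ 2rM ≤ 8rθ w(J.image a) ≤ (η/32) w(J.image a) ≤ (η/32) w(Z)`, so `grow_single` gives `i ∈ J` whose
`a`-ball of radius `2 L t₁` has weight more than half. Hence fewer than `M/4` indices of `I₁` are bad for `a`, same for `b`, so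
some `i ∈ I₁` is good for both, the two balls meet, `ball_meet` gives the path. -/
theorem link {ι κ : Type*} [Fintype ι] [DecidableEq ι] [DecidableEq κ]
    (D : Finset (Sym2 V)) (Z : Finset V) (w : V → ℝ) (s φ η θ : ℝ) (L g : ℕ)
    (hub : Hub D Z w s φ η) (hs : 0 < s) (hφ : 0 < φ) (hφ1 : φ ≤ 1) (hη : 0 < η) (hη1 : η ≤ 1)
    (hL : 1 ≤ L) (hg : 1 ≤ g)
    (hwZ : ∑ v ∈ Z, w v ≤ 2 ^ L * s) (hι : Fintype.card ι ≤ 2 ^ L)
    (hθ : 6144 * L * θ ≤ η ^ 2 * φ) (hgs : 960 * L * g ≤ η ^ 2 * φ * s)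
    (a b : ι → V) (cl : ι → κ) (X : κ → Finset V)
    (ha : ∀ i, a i ∈ Z) (hb : ∀ i, b i ∈ Z) (hab : ∀ i, a i ≠ b i)
    (haX : ∀ i, a i ∈ X (cl i)) (hbX : ∀ i, b i ∈ X (cl i))
    (hX : ∀ c, (X c).card ≤ 2 * g)
    (hcl : ∀ c, (Finset.univ.filter (fun i => cl i = c)).card ≤ g)
    (hdeg : ∀ v ∈ Z, ((Finset.univ.filter (fun i => a i = v ∨ b i = v)).card : ℝ) ≤ θ * w v) :
    ∃ q : ι → List V,
      (∀ i, (a i :: (q i ++ [b i])).Nodup) ∧
      (∀ i, ∀ e ∈ pE (a i :: (q i ++ [b i])), e ∈ D) ∧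
      (∀ i, ∀ x ∈ q i, x ∉ X (cl i)) ∧
      (∀ i j, i ≠ j → Disjoint (pE (a i :: (q i ++ [b i]))).toFinset
        (pE (a j :: (q j ++ [b j]))).toFinset) ∧
      (∀ i j, i ≠ j → cl i = cl j → List.Disjoint (q i) (q j)) := by
  classical
  by_cases hne : Nonempty ι
  swap
  · rw [not_nonempty_iff] at hne
    exact ⟨fun _ => [], fun i => hne.elim i, fun i => hne.elim i, fun i => hne.elim i,
      fun i => hne.elim i, fun i => hne.elim i⟩
  obtain ⟨i₀⟩ := hne
  have hw0 : ∀ v ∈ Z, 0 ≤ w v := fun v hv => hs.le.trans (hub.w_ge v hv)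
  have hηφ : 0 < η * φ := mul_pos hη hφ
  have hηφ1 : η * φ ≤ 1 := mul_le_one₀ hη1 hφ.le hφ1
  have hθ0 : 0 ≤ θ := by
    have h1 := hdeg (a i₀) (ha i₀)
    have h2 : (0 : ℝ) ≤ ((Finset.univ.filter (fun i => a i = a i₀ ∨ b i = a i₀)).card : ℝ) :=
      Nat.cast_nonneg _
    have h3 : 0 < w (a i₀) := hs.trans_le (hub.w_ge _ (ha i₀))
    by_contra h4
    push_neg at h4
    have := mul_neg_of_neg_of_pos h4 h3
    linarith
  -- the parameters
  obtain ⟨t₁, ht₁, ht₁'⟩ : ∃ t₁ : ℕ, 2 ≤ η * φ * t₁ ∧ η * φ * t₁ ≤ 3 := by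
    refine ⟨⌈2 / (η * φ)⌉₊, ?_, ?_⟩
    · have := Nat.le_ceil (2 / (η * φ))
      calc (2 : ℝ) = η * φ * (2 / (η * φ)) := by field_simp
        _ ≤ _ := by gcongr
    · have := (Nat.ceil_lt_add_one (a := 2 / (η * φ)) (by positivity)).le
      calc η * φ * (⌈2 / (η * φ)⌉₊ : ℝ) ≤ η * φ * (2 / (η * φ) + 1) := by gcongr
        _ = 2 + η * φ := by field_simp
        _ ≤ 3 := by linarith
  have ht1pos : 0 < t₁ := by
    rcases Nat.eq_zero_or_pos t₁ with h | h
    · rw [h] at ht₁; norm_num at ht₁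
    · exact h
  obtain ⟨r, hr⟩ : ∃ r : ℕ, r = 8 * L * t₁ := ⟨_, rfl⟩
  have hrpos : 0 < r := by rw [hr]; positivity
  have hLR : (1 : ℝ) ≤ L := by exact_mod_cast hL
  have hgR : (1 : ℝ) ≤ g := by exact_mod_cast hg
  have hrR : (r : ℝ) = 8 * L * t₁ := by rw [hr]; push_cast; ring
  have hr24 : η * φ * r ≤ 24 * L := by
    rw [hrR]
    nlinarith
  have hrθ : 256 * (r : ℝ) * θ ≤ η := by
    -- multiply by `η φ`
    have h1 : η * φ * (256 * (r : ℝ) * θ) ≤ η * φ * η := by
      have h2 : η * φ * r * θ ≤ 24 * L * θ := mul_le_mul_of_nonneg_right hr24 hθ0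
      nlinarith
    exact le_of_mul_le_mul_left h1 hηφ
  have hrg : ((4 * r + 2) * g : ℝ) ≤ η * s / 8 := by
    have h1 : η * φ * ((4 * r + 2) * g : ℝ) ≤ η * φ * (η * s / 8) := by
      have h2 : η * φ * r * g ≤ 24 * L * g := mul_le_mul_of_nonneg_right hr24 (by linarith)
      have h3 : η * φ * g ≤ L * g := by
        have : η * φ ≤ L := hηφ1.trans hLR
        exact mul_le_mul_of_nonneg_right this (by linarith)
      nlinarith
    exact le_of_mul_le_mul_left h1 hηφ
  -- the hypergraphs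
  let S : ι → List V → Finset (Sym2 V ⊕ (κ × V)) := fun i q =>
    (pE (a i :: (q ++ [b i]))).toFinset.disjSum (q.toFinset.image fun x => (cl i, x))
  let H : ι → Set (Finset (Sym2 V ⊕ (κ × V))) := fun i =>
    {T | ∃ q : List V, (a i :: (q ++ [b i])).Nodup ∧ (∀ e ∈ pE (a i :: (q ++ [b i])), e ∈ D) ∧
      (∀ x ∈ q, x ∉ X (cl i)) ∧ q.length + 1 ≤ 4 * L * t₁ ∧ T = S i q}
  have key := haxell (ι := ι) (α := Sym2 V ⊕ (κ × V)) r H ?_ ?_
  · obtain ⟨f, hf, hdis⟩ := key
    choose q hq1 hq2 hq3 hq4 hq5 using hf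
    refine ⟨q, hq1, hq2, hq3, ?_, ?_⟩
    · intro i j hij
      have h1 := hdis i j hij
      rw [hq5 i, hq5 j] at h1
      rw [Finset.disjoint_left] at h1 ⊢
      intro e he he'
      exact h1 (a := Sum.inl e) (by simp only [S, Finset.inl_mem_disjSum]; exact he)
        (by simp only [S, Finset.inl_mem_disjSum]; exact he')
    · intro i j hij hcij x hx hx'
      have h1 := hdis i j hij
      rw [hq5 i, hq5 j] at h1
      rw [Finset.disjoint_left] at h1
      refine h1 (a := Sum.inr (cl i, x)) ?_ ?_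
      · simp only [S, Finset.inr_mem_disjSum, Finset.mem_image, List.mem_toFinset]
        exact ⟨x, hx, rfl⟩
      · simp only [S, Finset.inr_mem_disjSum, Finset.mem_image, List.mem_toFinset]
        exact ⟨x, hx', by rw [hcij]⟩
  · rintro i T ⟨q, -, -, -, hq, rfl⟩
    simp only [S, Finset.card_disjSum]
    have h1 : (pE (a i :: (q ++ [b i]))).toFinset.card ≤ q.length + 1 := by
      refine (List.toFinset_card_le _).trans ?_
      rw [Link_pE_length]
      simp
    have h2 : (q.toFinset.image fun x => (cl i, x)).card ≤ q.length :=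
      Finset.card_image_le.trans (List.toFinset_card_le _)
    have h3 : r = 2 * (4 * L * t₁) := by rw [hr]; ring
    omega
  · intro I₀ hI₀ F hF
    obtain ⟨M, hM⟩ : ∃ M, M = I₀.card := ⟨_, rfl⟩
    have hMpos : 1 ≤ M := by rw [hM]; exact Finset.card_pos.2 hI₀
    rw [← hM] at hF
    let FE : Finset (Sym2 V) := F.toLeft
    let FC : κ → Finset V := fun c => (F.toRight.filter fun p => p.1 = c).image Prod.snd
    have hFE : FE.card ≤ 2 * r * M := (Finset.card_toLeft_le).trans hF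
    have hFCmem : ∀ c x, x ∈ FC c ↔ Sum.inr (c, x) ∈ F := by
      intro c x
      simp only [FC, Finset.mem_image, Finset.mem_filter, Finset.mem_toRight]
      constructor
      · rintro ⟨⟨c', x'⟩, ⟨h1, h2⟩, h3⟩
        simp only at h2 h3
        rw [← h2, ← h3]; exact h1
      · intro h
        exact ⟨(c, x), ⟨h, rfl⟩, rfl⟩
    -- good classes
    let I₁ : Finset ι := I₀.filter fun i => (FC (cl i)).card ≤ 4 * r * g
    have hI₁ : M ≤ 2 * I₁.card := by
      let Ib : Finset ι := I₀.filter fun i => ¬ (FC (cl i)).card ≤ 4 * r * g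
      have hsplit : I₁.card + Ib.card = M := by
        rw [hM]; exact Finset.card_filter_add_card_filter_not _
      let Cb : Finset κ := Ib.image cl
      have hb1 : Ib.card ≤ g * Cb.card := by
        rw [Finset.card_eq_sum_card_image cl Ib, mul_comm, ← smul_eq_mul, ← Finset.sum_const]
        refine Finset.sum_le_sum fun c _ => le_trans (Finset.card_le_card ?_) (hcl c)
        intro i hi
        simp only [Finset.mem_filter, Finset.mem_univ, true_and] at hi ⊢
        exact hi.2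
      have hb2 : ∑ c ∈ Cb, (FC c).card ≤ 2 * r * M := by
        refine le_trans ?_ ((Finset.card_toRight_le (u := F)).trans hF)
        calc ∑ c ∈ Cb, (FC c).card ≤ ∑ c ∈ Cb, (F.toRight.filter fun p => p.1 = c).card :=
              Finset.sum_le_sum fun c _ => Finset.card_image_le
          _ = (Cb.biUnion fun c => F.toRight.filter fun p => p.1 = c).card := by
              rw [Finset.card_biUnion]
              intro c _ c' _ hcc
              rw [Function.onFun, Finset.disjoint_left]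
              intro p hp hp'
              simp only [Finset.mem_filter] at hp hp'
              exact hcc (hp.2.symm.trans hp'.2)
          _ ≤ F.toRight.card := Finset.card_le_card (by
              intro p hp
              simp only [Finset.mem_biUnion, Finset.mem_filter] at hp
              obtain ⟨c, -, hp, -⟩ := hp
              exact hp)
      have hb3 : Cb.card * (4 * r * g) ≤ ∑ c ∈ Cb, (FC c).card := by
        rw [← smul_eq_mul, ← Finset.sum_const]
        refine Finset.sum_le_sum fun c hc => ?_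
        obtain ⟨i, hi, rfl⟩ := Finset.mem_image.1 hc
        have := (Finset.mem_filter.1 hi).2
        omega
      have hb4 : 2 * r * (2 * Ib.card) ≤ 2 * r * M := by
        calc 2 * r * (2 * Ib.card) ≤ 2 * r * (2 * (g * Cb.card)) := by gcongr
          _ = Cb.card * (4 * r * g) := by ring
          _ ≤ _ := hb3.trans hb2
      have hb5 : 2 * Ib.card ≤ M := Nat.le_of_mul_le_mul_left hb4 (by positivity)
      omega
    -- forbidden sets
    let X' : ι → Finset V := fun i => FC (cl i) ∪ X (cl i)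
    have hX' : ∀ i ∈ I₁, ((X' i).card : ℝ) ≤ η * s / 8 := by
      intro i hi
      have h1 : (X' i).card ≤ 4 * r * g + 2 * g :=
        (Finset.card_union_le _ _).trans (add_le_add (Finset.mem_filter.1 hi).2 (hX _))
      have h2 : ((X' i).card : ℝ) ≤ (4 * r + 2) * g := by
        have : ((X' i).card : ℝ) ≤ ((4 * r * g + 2 * g : ℕ) : ℝ) := by exact_mod_cast h1
        refine this.trans (le_of_eq ?_)
        push_cast; ring
      exact h2.trans hrg
    have hdega : ∀ v ∈ Z, ((Finset.univ.filter (fun i => a i = v)).card : ℝ) ≤ θ * w v := by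
      intro v hv
      refine le_trans ?_ (hdeg v hv)
      have : (Finset.univ.filter (fun i => a i = v)).card ≤
          (Finset.univ.filter (fun i => a i = v ∨ b i = v)).card :=
        Finset.card_le_card fun i hi => by
          simp only [Finset.mem_filter, Finset.mem_univ, true_and] at hi ⊢
          exact Or.inl hi
      exact_mod_cast this
    have hdegb : ∀ v ∈ Z, ((Finset.univ.filter (fun i => b i = v)).card : ℝ) ≤ θ * w v := by
      intro v hv
      refine le_trans ?_ (hdeg v hv)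
      have : (Finset.univ.filter (fun i => b i = v)).card ≤
          (Finset.univ.filter (fun i => a i = v ∨ b i = v)).card :=
        Finset.card_le_card fun i hi => by
          simp only [Finset.mem_filter, Finset.mem_univ, true_and] at hi ⊢
          exact Or.inr hi
      exact_mod_cast this
    let Ba : Finset ι := I₁.filter fun i =>
      ¬ (∑ v ∈ Z, w v) / 2 < ∑ v ∈ ball D FE Z (X' i) {a i} (2 * L * t₁), w v
    let Bb : Finset ι := I₁.filter fun i =>
      ¬ (∑ v ∈ Z, w v) / 2 < ∑ v ∈ ball D FE Z (X' i) {b i} (2 * L * t₁), w v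
    have hBa : 4 * Ba.card < M := by
      by_contra hcon
      push_neg at hcon
      obtain ⟨i, hi, hi'⟩ := Link_grow D FE Z w s φ η θ L t₁ r M hub hs hφ hη ht₁ hwZ hι hrθ
        a X' ha hdega Ba (fun i hi => hX' i (Finset.mem_filter.1 hi).1) hFE hMpos hcon
      exact (Finset.mem_filter.1 hi).2 hi'
    have hBb : 4 * Bb.card < M := by
      by_contra hcon
      push_neg at hcon
      obtain ⟨i, hi, hi'⟩ := Link_grow D FE Z w s φ η θ L t₁ r M hub hs hφ hη ht₁ hwZ hι hrθ
        b X' hb hdegb Bb (fun i hi => hX' i (Finset.mem_filter.1 hi).1) hFE hMpos hcon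
      exact (Finset.mem_filter.1 hi).2 hi'
    obtain ⟨i, hi1, hi2, hi3⟩ : ∃ i ∈ I₁, i ∉ Ba ∧ i ∉ Bb := by
      by_contra hcon
      push_neg at hcon
      have : I₁ ⊆ Ba ∪ Bb := by
        intro i hi
        rw [Finset.mem_union]
        by_cases h : i ∈ Ba
        · exact Or.inl h
        · exact Or.inr (hcon i hi h)
      have h1 := (Finset.card_le_card this).trans (Finset.card_union_le _ _)
      omega
    have hga : (∑ v ∈ Z, w v) / 2 < ∑ v ∈ ball D FE Z (X' i) {a i} (2 * L * t₁), w v := by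
      by_contra h
      exact hi2 (Finset.mem_filter.2 ⟨hi1, h⟩)
    have hgb : (∑ v ∈ Z, w v) / 2 < ∑ v ∈ ball D FE Z (X' i) {b i} (2 * L * t₁), w v := by
      by_contra h
      exact hi3 (Finset.mem_filter.2 ⟨hi1, h⟩)
    obtain ⟨y, hy, hy'⟩ := Link_meet Z _ _ w
      (ball_subset D FE Z (X' i) {a i} (Finset.singleton_subset_iff.2 (ha i)) _)
      (ball_subset D FE Z (X' i) {b i} (Finset.singleton_subset_iff.2 (hb i)) _) hw0 hga hgb
    obtain ⟨q, hq1, hq2, hq3, hq4⟩ := ball_meet D FE Z (X' i) (a i) (b i) y (hab i)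
      (Finset.mem_union_right _ (haX i)) (Finset.mem_union_right _ (hbX i)) _ hy hy'
    refine ⟨i, (Finset.mem_filter.1 hi1).1, S i q, ⟨q, hq1, fun e he => (hq3 e he).1,
      fun x hx hx' => (hq2 x hx).1 (Finset.mem_union_right _ hx'), ?_, rfl⟩, ?_⟩
    · refine hq4.trans (le_of_eq ?_)
      ring
    · rw [Finset.disjoint_left]
      rintro (e | ⟨c, x⟩) he heF
      · simp only [S, Finset.inl_mem_disjSum, List.mem_toFinset] at he
        exact (hq3 e he).2 (Finset.mem_toLeft.2 heF)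
      · simp only [S, Finset.inr_mem_disjSum, Finset.mem_image, List.mem_toFinset,
          Prod.mk.injEq] at he
        obtain ⟨x', hx', rfl, rfl⟩ := he
        exact (hq2 x' hx').1 (Finset.mem_union_left _ ((hFCmem _ _).2 heF))

end Crest.Agent.EG
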