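import Crest.Agent.EG_Concat
import Crest.Agent.EG_Link
import Crest.Agent.EG_Cd
import Crest.Agent.EG_HubB

set_option autoImplicit false

namespace Crest.Agent.EG

variable {V : Type*} [DecidableEq V]

/-- the demands inside the core `Z` -/
def liftDem (𝒦 : Finset (List (V × V))) (Z : Finset V) : Finset (List (V × V) × (V × V)) :=
  (𝒦.biUnion fun l => l.toFinset.image fun p => (l, p)).filter fun d => d.2.1 ≠ d.2.2 ∧ d.2.1 ∈ Z

theorem mem_liftDem {𝒦 : Finset (List (V × V))} {Z : Finset V} {d : List (V × V) × (V × V)} :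
    d ∈ liftDem 𝒦 Z ↔ d.1 ∈ 𝒦 ∧ d.2 ∈ d.1 ∧ d.2.1 ≠ d.2.2 ∧ d.2.1 ∈ Z := by
  unfold liftDem
  simp only [Finset.mem_filter, Finset.mem_biUnion, Finset.mem_image, List.mem_toFinset]
  constructor
  · rintro ⟨⟨l, hl, p, hp, rfl⟩, h1, h2⟩
    exact ⟨hl, hp, h1, h2⟩
  · rintro ⟨h1, h2, h3, h4⟩
    exact ⟨⟨d.1, h1, d.2, h2, rfl⟩, h3, h4⟩

/-- vertices of a skeleton inside `Z` -/
def liftX (𝒦 : Finset (List (V × V))) (Z : Finset V) (l : List (V × V)) : Finset V :=
  if l ∈ 𝒦 then (l.toFinset.image Prod.fst ∪ l.toFinset.image Prod.snd).filter (· ∈ Z) else ∅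

theorem mem_liftX {𝒦 : Finset (List (V × V))} {Z : Finset V} {l : List (V × V)} (hl : l ∈ 𝒦)
    {x : V} : x ∈ liftX 𝒦 Z l ↔ (∃ p ∈ l, x = p.1 ∨ x = p.2) ∧ x ∈ Z := by
  unfold liftX
  rw [if_pos hl, Finset.mem_filter, Finset.mem_union, Finset.mem_image, Finset.mem_image]
  simp only [List.mem_toFinset]
  constructor
  · rintro ⟨⟨p, hp, rfl⟩ | ⟨p, hp, rfl⟩, hz⟩
    · exact ⟨⟨p, hp, Or.inl rfl⟩, hz⟩
    · exact ⟨⟨p, hp, Or.inr rfl⟩, hz⟩
  · rintro ⟨⟨p, hp, rfl | rfl⟩, hz⟩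
    · exact ⟨Or.inl ⟨p, hp, rfl⟩, hz⟩
    · exact ⟨Or.inr ⟨p, hp, rfl⟩, hz⟩

omit [DecidableEq V] in
theorem liftSep_symm : Std.Symm (fun p q : V × V =>
    p.1 ≠ q.1 ∧ p.1 ≠ q.2 ∧ p.2 ≠ q.1 ∧ p.2 ≠ q.2) :=
  ⟨fun _ _ h => ⟨h.1.symm, h.2.2.1.symm, h.2.1.symm, h.2.2.2.symm⟩⟩

theorem validSk_sep {𝓒 : Finset (Finset V)} {g : ℕ} {l : List (V × V)} (h : ValidSk 𝓒 g l)
    {p q : V × V} (hp : p ∈ l) (hq : q ∈ l) (hne : p ≠ q) :
    p.1 ≠ q.1 ∧ p.1 ≠ q.2 ∧ p.2 ≠ q.1 ∧ p.2 ≠ q.2 := by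
  have h1 := h.2.2.1
  have := liftSep_symm (V := V)
  exact h1.forall hp hq hne

theorem validSk_nodup {𝓒 : Finset (Finset V)} {g : ℕ} {l : List (V × V)} (h : ValidSk 𝓒 g l) :
    l.Nodup := by
  refine h.2.2.1.imp ?_
  intro p q hpq he
  exact hpq.1 (by rw [he])

theorem validSk_nodup_skE {𝓒 : Finset (Finset V)} {g : ℕ} {l : List (V × V)}
    (h : ValidSk 𝓒 g l) : (skE l).Nodup :=
  nodup_skE h.1 h.2.2.1 h.2.2.2.1

theorem card_liftX_le {𝓒 : Finset (Finset V)} {g : ℕ} {𝒦 : Finset (List (V × V))}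
    (hv : ∀ l ∈ 𝒦, ValidSk 𝓒 g l) {Z : Finset V} (hZ : Z ∈ 𝓒) (l : List (V × V)) :
    (liftX 𝒦 Z l).card ≤ 2 * g := by
  by_cases hl : l ∈ 𝒦
  swap
  · unfold liftX; rw [if_neg hl]; simp
  have h1 := (hv l hl).2.2.2.2 Z hZ
  set l' := l.filter (fun p => decide (p.1 ∈ Z ∨ p.2 ∈ Z)) with hl'
  have h2 : liftX 𝒦 Z l ⊆ l'.toFinset.image Prod.fst ∪ l'.toFinset.image Prod.snd := by
    intro x hx
    obtain ⟨⟨p, hp, hxp⟩, hz⟩ := (mem_liftX hl).1 hx
    rw [Finset.mem_union, Finset.mem_image, Finset.mem_image]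
    rcases hxp with rfl | rfl
    · left
      refine ⟨p, ?_, rfl⟩
      rw [List.mem_toFinset, hl', List.mem_filter]
      exact ⟨hp, by simpa using Or.inl hz⟩
    · right
      refine ⟨p, ?_, rfl⟩
      rw [List.mem_toFinset, hl', List.mem_filter]
      exact ⟨hp, by simpa using Or.inr hz⟩
  have h3 : l'.toFinset.card ≤ g := (List.toFinset_card_le _).trans h1
  calc (liftX 𝒦 Z l).card ≤ _ := Finset.card_le_card h2
    _ ≤ (l'.toFinset.image Prod.fst).card + (l'.toFinset.image Prod.snd).card :=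
        Finset.card_union_le _ _
    _ ≤ l'.toFinset.card + l'.toFinset.card :=
        add_le_add Finset.card_image_le Finset.card_image_le
    _ ≤ 2 * g := by omega

theorem card_liftDem_class_le {𝓒 : Finset (Finset V)} {g : ℕ} {𝒦 : Finset (List (V × V))}
    (hv : ∀ l ∈ 𝒦, ValidSk 𝓒 g l) {Z : Finset V} (hZ : Z ∈ 𝓒) (l : List (V × V)) :
    ((liftDem 𝒦 Z).filter (fun d => d.1 = l)).card ≤ g := by
  by_cases hl : l ∈ 𝒦
  swap
  · have : (liftDem 𝒦 Z).filter (fun d => d.1 = l) = ∅ := by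
      rw [Finset.filter_eq_empty_iff]
      intro d hd h
      exact hl (h ▸ (mem_liftDem.1 hd).1)
    rw [this]; simp
  have h1 := (hv l hl).2.2.2.2 Z hZ
  set l' := l.filter (fun p => decide (p.1 ∈ Z ∨ p.2 ∈ Z)) with hl'
  have h2 : (liftDem 𝒦 Z).filter (fun d => d.1 = l) ⊆ l'.toFinset.image (fun p => (l, p)) := by
    intro d hd
    rw [Finset.mem_filter] at hd
    obtain ⟨hd1, hd2⟩ := hd
    obtain ⟨h3, h4, h5, h6⟩ := mem_liftDem.1 hd1
    rw [Finset.mem_image]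
    refine ⟨d.2, ?_, by rw [← hd2]⟩
    rw [List.mem_toFinset, hl', List.mem_filter]
    rw [hd2] at h4
    exact ⟨h4, by simpa using Or.inl h6⟩
  calc _ ≤ _ := Finset.card_le_card h2
    _ ≤ l'.toFinset.card := Finset.card_image_le
    _ ≤ g := (List.toFinset_card_le _).trans h1

theorem card_liftDem_le {𝓒 : Finset (Finset V)} {g : ℕ} {R R₁ : Finset (Sym2 V)}
    {𝒦 : Finset (List (V × V))} (hK : SkFam 𝓒 g R 𝒦 R₁) (Z : Finset V) :
    (liftDem 𝒦 Z).card ≤ R.card := by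
  calc (liftDem 𝒦 Z).card ≤ (𝒦.biUnion fun l => l.toFinset.image fun p => (l, p)).card :=
        Finset.card_filter_le _ _
    _ ≤ ∑ l ∈ 𝒦, (l.toFinset.image fun p => (l, p)).card := Finset.card_biUnion_le
    _ ≤ ∑ l ∈ 𝒦, (skE l).toFinset.card := by
        refine Finset.sum_le_sum fun l hl => ?_
        calc _ ≤ l.toFinset.card := Finset.card_image_le
          _ ≤ l.length := List.toFinset_card_le _
          _ = (skE l).length := (length_skE l).symm
          _ = (skE l).toFinset.card :=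
              (List.toFinset_card_of_nodup (validSk_nodup_skE (hK.valid l hl))).symm
    _ = (𝒦.biUnion fun l => (skE l).toFinset).card := (Finset.card_biUnion hK.disj).symm
    _ = (R \ R₁).card := by rw [hK.cover]
    _ ≤ R.card := Finset.card_le_card Finset.sdiff_subset

/-- the number of demands at a vertex is at most its degree in `R` -/
theorem card_liftDem_vertex_le {𝓒 : Finset (Finset V)} {g : ℕ} {R R₁ : Finset (Sym2 V)}
    {𝒦 : Finset (List (V × V))} (hK : SkFam 𝓒 g R 𝒦 R₁) (Z : Finset V) (v : V) :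
    ((liftDem 𝒦 Z).filter (fun d => d.2.1 = v ∨ d.2.2 = v)).card ≤ dg R v := by
  classical
  have h1 : ∀ d ∈ (liftDem 𝒦 Z).filter (fun d => d.2.1 = v ∨ d.2.2 = v),
      ∃ e ∈ skE d.1, v ∈ e := by
    intro d hd
    rw [Finset.mem_filter] at hd
    obtain ⟨hd1, hd2⟩ := hd
    obtain ⟨h3, h4, h5, h6⟩ := mem_liftDem.1 hd1
    obtain ⟨⟨e, he, hv⟩, ⟨e', he', hv'⟩⟩ := exists_mem_skE h4
    rcases hd2 with h | h
    · exact ⟨e, he, h ▸ hv⟩
    · exact ⟨e', he', h ▸ hv'⟩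
  have : Nonempty (Sym2 V) := ⟨s(v, v)⟩
  choose! e he hve using h1
  unfold dg
  refine Finset.card_le_card_of_injOn e ?_ ?_
  · intro d hd
    have hd' := hd
    rw [Finset.mem_coe, Finset.mem_filter] at hd'
    obtain ⟨h3, h4, h5, h6⟩ := mem_liftDem.1 hd'.1
    have h7 : e d ∈ R \ R₁ := by
      rw [hK.cover, Finset.mem_biUnion]
      exact ⟨d.1, h3, List.mem_toFinset.2 (he d hd)⟩
    simp only [Finset.coe_filter, Set.mem_setOf_eq]
    exact ⟨(Finset.mem_sdiff.1 h7).1, hve d hd⟩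
  · intro d hd d' hd' hdd
    have hd1 := hd
    have hd1' := hd'
    rw [Finset.mem_coe, Finset.mem_filter] at hd1 hd1'
    obtain ⟨h3, h4, h5, h6⟩ := mem_liftDem.1 hd1.1
    obtain ⟨h3', h4', h5', h6'⟩ := mem_liftDem.1 hd1'.1
    have hl : d.1 = d'.1 := by
      by_contra hne
      have h8 := hK.disj h3 h3' hne
      rw [Function.onFun, Finset.disjoint_left] at h8
      refine h8 (List.mem_toFinset.2 (he d hd)) ?_
      show e d ∈ (skE d'.1).toFinset
      rw [hdd]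
      exact List.mem_toFinset.2 (he d' hd')
    have hp : d.2 = d'.2 := by
      by_contra hne
      rw [← hl] at h4'
      obtain ⟨k1, k2, k3, k4⟩ := validSk_sep (hK.valid _ h3) h4 h4' hne
      rcases hd1.2 with h | h <;> rcases hd1'.2 with h' | h'
      · exact k1 (h.trans h'.symm)
      · exact k2 (h.trans h'.symm)
      · exact k3 (h.trans h'.symm)
      · exact k4 (h.trans h'.symm)
    exact Prod.ext hl hp

/-- the ends of a demand lie in the core -/
theorem liftDem_snd_mem {𝓒 : Finset (Finset V)} (hdisj : (𝓒 : Set (Finset V)).PairwiseDisjoint id)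
    {g : ℕ} {𝒦 : Finset (List (V × V))} (hv : ∀ l ∈ 𝒦, ValidSk 𝓒 g l) {Z : Finset V} (hZ : Z ∈ 𝓒)
    {d : List (V × V) × (V × V)} (hd : d ∈ liftDem 𝒦 Z) : d.2.2 ∈ Z := by
  obtain ⟨h3, h4, h5, h6⟩ := mem_liftDem.1 hd
  rcases (hv _ h3).2.1 _ h4 with h | ⟨Z', hZ', h1, h2⟩
  · exact absurd h h5
  · have : Z = Z' := by
      by_contra hne
      have h7 := hdisj hZ hZ' hne
      rw [Function.onFun, Finset.disjoint_left] at h7
      exact h7 h6 h1
    rw [this]
    exact h2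

/-- the links inside one core -/
theorem lift_core (𝓒 : Finset (Finset V)) (hdisj : (𝓒 : Set (Finset V)).PairwiseDisjoint id)
    (Dc : Finset V → Finset (Sym2 V)) (w : V → ℝ) (s φ η θ : ℝ) (L g : ℕ)
    (hub : ∀ Z ∈ 𝓒, Hub (Dc Z) Z w s φ η) (hs : 0 < s) (hφ : 0 < φ) (hφ1 : φ ≤ 1)
    (hη : 0 < η) (hη1 : η ≤ 1) (hL : 1 ≤ L) (hg : 1 ≤ g)
    (hwZ : ∀ Z ∈ 𝓒, ∑ v ∈ Z, w v ≤ 2 ^ L * s)
    (hθ : 6144 * L * θ ≤ η ^ 2 * φ) (hgs : 960 * L * g ≤ η ^ 2 * φ * s)
    (R : Finset (Sym2 V))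
    (hRL : R.card ≤ 2 ^ L) (hdeg : ∀ Z ∈ 𝓒, ∀ v ∈ Z, (dg R v : ℝ) ≤ θ * w v)
    (𝒦 : Finset (List (V × V))) (R₁ : Finset (Sym2 V)) (hK : SkFam 𝓒 g R 𝒦 R₁)
    (Z : Finset V) (hZ : Z ∈ 𝓒) :
    ∃ q : List (V × V) × (V × V) → List V,
      (∀ d ∈ liftDem 𝒦 Z, (d.2.1 :: (q d ++ [d.2.2])).Nodup) ∧
      (∀ d ∈ liftDem 𝒦 Z, ∀ e ∈ pE (d.2.1 :: (q d ++ [d.2.2])), e ∈ Dc Z) ∧
      (∀ d ∈ liftDem 𝒦 Z, ∀ x ∈ q d, x ∉ liftX 𝒦 Z d.1) ∧
      (∀ d ∈ liftDem 𝒦 Z, ∀ d' ∈ liftDem 𝒦 Z, d ≠ d' →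
        Disjoint (pE (d.2.1 :: (q d ++ [d.2.2]))).toFinset
          (pE (d'.2.1 :: (q d' ++ [d'.2.2]))).toFinset) ∧
      (∀ d ∈ liftDem 𝒦 Z, ∀ d' ∈ liftDem 𝒦 Z, d ≠ d' → d.1 = d'.1 →
        List.Disjoint (q d) (q d')) := by
  classical
  have key := link (ι := ↥(liftDem 𝒦 Z)) (κ := List (V × V)) (Dc Z) Z w s φ η θ L g (hub Z hZ)
    hs hφ hφ1 hη hη1 hL hg (hwZ Z hZ)
    (by rw [Fintype.card_coe]; exact (card_liftDem_le hK Z).trans hRL) hθ hgs
    (fun d => d.1.2.1) (fun d => d.1.2.2) (fun d => d.1.1) (liftX 𝒦 Z)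
    (fun d => (mem_liftDem.1 d.2).2.2.2) (fun d => liftDem_snd_mem hdisj hK.valid hZ d.2)
    (fun d => (mem_liftDem.1 d.2).2.2.1)
    (fun d => (mem_liftX (mem_liftDem.1 d.2).1).2
      ⟨⟨_, (mem_liftDem.1 d.2).2.1, Or.inl rfl⟩, (mem_liftDem.1 d.2).2.2.2⟩)
    (fun d => (mem_liftX (mem_liftDem.1 d.2).1).2
      ⟨⟨_, (mem_liftDem.1 d.2).2.1, Or.inr rfl⟩, liftDem_snd_mem hdisj hK.valid hZ d.2⟩)
    (card_liftX_le hK.valid hZ)
    (fun l => by
      refine le_trans ?_ (card_liftDem_class_le hK.valid hZ l)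
      refine Finset.card_le_card_of_injOn (fun d => d.1) ?_ ?_
      · intro d hd
        rw [Finset.mem_coe, Finset.mem_filter] at hd
        rw [Finset.mem_coe, Finset.mem_filter]
        exact ⟨d.2, hd.2⟩
      · intro d _ d' _ h
        exact Subtype.ext h)
    (fun v hv => by
      refine le_trans ?_ (hdeg Z hZ v hv)
      have h1 := card_liftDem_vertex_le hK Z v
      have h2 : (Finset.univ.filter (fun i : ↥(liftDem 𝒦 Z) => i.1.2.1 = v ∨ i.1.2.2 = v)).card ≤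
          ((liftDem 𝒦 Z).filter (fun d => d.2.1 = v ∨ d.2.2 = v)).card := by
        refine Finset.card_le_card_of_injOn (fun d => d.1) ?_ ?_
        · intro d hd
          rw [Finset.mem_coe, Finset.mem_filter] at hd
          rw [Finset.mem_coe, Finset.mem_filter]
          exact ⟨d.2, hd.2⟩
        · intro d _ d' _ h
          exact Subtype.ext h
      exact_mod_cast h2.trans h1)
  obtain ⟨q, k1, k2, k3, k4, k5⟩ := key
  refine ⟨fun d => if h : d ∈ liftDem 𝒦 Z then q ⟨d, h⟩ else [], ?_, ?_, ?_, ?_, ?_⟩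
  · intro d hd
    simp only [dif_pos hd]
    exact k1 ⟨d, hd⟩
  · intro d hd
    simp only [dif_pos hd]
    exact k2 ⟨d, hd⟩
  · intro d hd
    simp only [dif_pos hd]
    exact k3 ⟨d, hd⟩
  · intro d hd d' hd' hne
    simp only [dif_pos hd, dif_pos hd']
    exact k4 ⟨d, hd⟩ ⟨d', hd'⟩ (fun h => hne (congrArg Subtype.val h))
  · intro d hd d' hd' hne hc
    simp only [dif_pos hd, dif_pos hd']
    exact k5 ⟨d, hd⟩ ⟨d', hd'⟩ (fun h => hne (congrArg Subtype.val h)) hc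

/-- TASK EG-Lift: all skeletons of a family are lifted simultaneously to edge-disjoint cycles.
Proof. For each core `Z ∈ 𝓒` apply `link` in `(Dc Z, Z)`: demands = pairs (skeleton `l ∈ 𝒦`, position `t` of a station with
`p.1 ≠ p.2`, `p.1 ∈ Z`, hence `p.2 ∈ Z`), class = `l`, `X l` = vertices of `l` in `Z` (at most `2g` as at most `g` stations meet `Z`).
Number of demands `≤ Σ_l |skE l| ≤ |R| ≤ 2^L`. A vertex `v ∈ Z` is in at most one station of each `l`, and then `l` has an edge of `R` at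
`v` (`exists_mem_skE`), these edges are distinct for different `l`: at most `dg R v ≤ θ w v` demands. Link vertices lie in
`Z` (edges in `Dc Z`). Then `concat_isCyc` for each `l` (with `q p = [p.1]` if `p.1 = p.2`, the link path otherwise): the flatMap
is nodup. `Q Z` = union of all link edges in `Z`. The cycles are edge-disjoint: `R` has no edge inside a core. -/
theorem lift (𝓒 : Finset (Finset V)) (hdisj : (𝓒 : Set (Finset V)).PairwiseDisjoint id)
    (Dc : Finset V → Finset (Sym2 V)) (w : V → ℝ) (s φ η θ : ℝ) (L g : ℕ)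
    (hub : ∀ Z ∈ 𝓒, Hub (Dc Z) Z w s φ η) (hs : 0 < s) (hφ : 0 < φ) (hφ1 : φ ≤ 1)
    (hη : 0 < η) (hη1 : η ≤ 1) (hL : 1 ≤ L) (hg : 1 ≤ g)
    (hwZ : ∀ Z ∈ 𝓒, ∑ v ∈ Z, w v ≤ 2 ^ L * s)
    (hθ : 6144 * L * θ ≤ η ^ 2 * φ) (hgs : 960 * L * g ≤ η ^ 2 * φ * s)
    (R : Finset (Sym2 V)) (hl : Loopless R) (hR : ∀ e ∈ R, ∀ Z ∈ 𝓒, ¬ ∀ x ∈ e, x ∈ Z)
    (hRL : R.card ≤ 2 ^ L) (hdeg : ∀ Z ∈ 𝓒, ∀ v ∈ Z, (dg R v : ℝ) ≤ θ * w v)
    (𝒦 : Finset (List (V × V))) (R₁ : Finset (Sym2 V)) (hK : SkFam 𝓒 g R 𝒦 R₁) :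
    ∃ Q : Finset V → Finset (Sym2 V), (∀ Z ∈ 𝓒, Q Z ⊆ Dc Z) ∧
      cd ((R \ R₁) ∪ 𝓒.biUnion Q) ≤ 𝒦.card := by
  classical
  have h0 := lift_core 𝓒 hdisj Dc w s φ η θ L g hub hs hφ hφ1 hη hη1 hL hg hwZ hθ hgs R hRL hdeg
    𝒦 R₁ hK
  choose! q hq using h0
  -- the core of a point
  have huniq : ∀ Z ∈ 𝓒, ∀ Z' ∈ 𝓒, ∀ x, x ∈ Z → x ∈ Z' → Z = Z' := by
    intro Z hZ Z' hZ' x h1 h2
    by_contra hne
    have h7 := hdisj hZ hZ' hne
    rw [Function.onFun, Finset.disjoint_left] at h7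
    exact h7 h1 h2
  let co : V → Finset V := fun x => if h : ∃ Z ∈ 𝓒, x ∈ Z then h.choose else ∅
  have hco : ∀ Z ∈ 𝓒, ∀ x ∈ Z, co x = Z := by
    intro Z hZ x hx
    have h : ∃ Z ∈ 𝓒, x ∈ Z := ⟨Z, hZ, hx⟩
    simp only [co, dif_pos h]
    exact huniq _ h.choose_spec.1 _ hZ x h.choose_spec.2 hx
  let inner : List (V × V) → V × V → List V := fun l p => q (co p.1) (l, p)
  let path : List (V × V) → V × V → List V := fun l p =>
    if p.1 = p.2 then [p.1] else p.1 :: (inner l p ++ [p.2])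
  -- nontrivial stations are demands in their core
  have hdem : ∀ l ∈ 𝒦, ∀ p ∈ l, p.1 ≠ p.2 → co p.1 ∈ 𝓒 ∧ (l, p) ∈ liftDem 𝒦 (co p.1) := by
    intro l hl p hp hne
    rcases (hK.valid l hl).2.1 p hp with h | ⟨Z, hZ, h1, h2⟩
    · exact absurd h hne
    · rw [hco Z hZ _ h1]
      exact ⟨hZ, mem_liftDem.2 ⟨hl, hp, hne, h1⟩⟩
  have hpathmem : ∀ l p x, x ∈ path l p ↔ x = p.1 ∨ x = p.2 ∨ (p.1 ≠ p.2 ∧ x ∈ inner l p) := by
    intro l p x
    by_cases h : p.1 = p.2
    · simp only [path, if_pos h, List.mem_singleton]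
      constructor
      · intro h'; exact Or.inl h'
      · rintro (h' | h' | h')
        · exact h'
        · rw [h', h]
        · exact absurd h h'.1
    · simp only [path, if_neg h, List.mem_cons, List.mem_append, List.not_mem_nil, or_false]
      constructor
      · rintro (h' | h' | h')
        · exact Or.inl h'
        · exact Or.inr (Or.inr ⟨h, h'⟩)
        · exact Or.inr (Or.inl h')
      · rintro (h' | h' | h')
        · exact Or.inl h'
        · exact Or.inr (Or.inr h')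
        · exact Or.inr (Or.inl h'.2)
  -- edges of paths
  have hpathE : ∀ l ∈ 𝒦, ∀ p ∈ l, ∀ e ∈ pE (path l p), p.1 ≠ p.2 ∧ co p.1 ∈ 𝓒 ∧ e ∈ Dc (co p.1) := by
    intro l hl p hp e he
    by_cases h : p.1 = p.2
    · simp only [path, if_pos h, pE, List.not_mem_nil] at he
    · simp only [path, if_neg h] at he
      obtain ⟨h1, h2⟩ := hdem l hl p hp h
      exact ⟨h, h1, (hq _ h1).2.1 _ h2 e he⟩
  -- inner vertices
  have hinner : ∀ l ∈ 𝒦, ∀ p ∈ l, p.1 ≠ p.2 → ∀ x ∈ inner l p,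
      x ∈ co p.1 ∧ ∀ p' ∈ l, x ≠ p'.1 ∧ x ≠ p'.2 := by
    intro l hl p hp hne x hx
    obtain ⟨h1, h2⟩ := hdem l hl p hp hne
    have h3 : x ∈ co p.1 := by
      have hx' : x ∈ path l p := (hpathmem l p x).2 (Or.inr (Or.inr ⟨hne, hx⟩))
      have hlen : 2 ≤ (path l p).length := by
        simp only [path, if_neg hne, List.length_cons, List.length_append]
        omega
      obtain ⟨e, he, hxe⟩ := exists_mem_pE hlen hx'
      obtain ⟨_, _, h4⟩ := hpathE l hl p hp e he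
      exact (hub _ h1).supp e h4 x hxe
    refine ⟨h3, ?_⟩
    have h4 := (hq _ h1).2.2.1 _ h2 x hx
    intro p' hp'
    constructor
    · intro h
      exact h4 ((mem_liftX hl).2 ⟨⟨p', hp', Or.inl h⟩, h3⟩)
    · intro h
      exact h4 ((mem_liftX hl).2 ⟨⟨p', hp', Or.inr h⟩, h3⟩)
  -- ends of paths
  have hends : ∀ l p, (path l p).head? = some p.1 ∧ (path l p).getLast? = some p.2 := by
    intro l p
    by_cases h : p.1 = p.2
    · simp only [path, if_pos h]
      simp [h]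
    · simp only [path, if_neg h]
      constructor
      · simp
      · rw [← List.cons_append, List.getLast?_append]
        simp
  -- the flatMap is nodup
  have hnd : ∀ l ∈ 𝒦, (l.flatMap (path l)).Nodup := by
    intro l hl
    rw [List.nodup_flatMap]
    constructor
    · intro p hp
      by_cases h : p.1 = p.2
      · simp only [path, if_pos h, List.nodup_singleton]
      · simp only [path, if_neg h]
        obtain ⟨h1, h2⟩ := hdem l hl p hp h
        exact (hq _ h1).1 _ h2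
    · have hnd := validSk_nodup (hK.valid l hl)
      have h5 : l.Pairwise (fun p p' => p ∈ l ∧ p' ∈ l ∧ p ≠ p') := by
        rw [List.pairwise_iff_getElem]
        intro i j hi hj hij
        exact ⟨List.getElem_mem _, List.getElem_mem _, fun h => by
          have := (hnd.getElem_inj_iff).1 h
          omega⟩
      refine h5.imp ?_
      rintro p p' ⟨hp, hp', hne⟩
      obtain ⟨k1, k2, k3, k4⟩ := validSk_sep (hK.valid l hl) hp hp' hne
      intro x hx hx'
      rw [hpathmem] at hx hx'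
      rcases hx with hx | hx | ⟨hn, hx⟩ <;> rcases hx' with hx' | hx' | ⟨hn', hx'⟩
      · exact k1 (hx.symm.trans hx')
      · exact k2 (hx.symm.trans hx')
      · exact ((hinner l hl p' hp' hn' x hx').2 p hp).1 hx
      · exact k3 (hx.symm.trans hx')
      · exact k4 (hx.symm.trans hx')
      · exact ((hinner l hl p' hp' hn' x hx').2 p hp).2 hx
      · exact ((hinner l hl p hp hn x hx).2 p' hp').1 hx'
      · exact ((hinner l hl p hp hn x hx).2 p' hp').2 hx'
      · obtain ⟨h1, h2⟩ := hdem l hl p hp hn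
        obtain ⟨h1', h2'⟩ := hdem l hl p' hp' hn'
        have hcc : co p.1 = co p'.1 :=
          huniq _ h1 _ h1' x (hinner l hl p hp hn x hx).1 (hinner l hl p' hp' hn' x hx').1
        have h6 := (hq _ h1).2.2.2.2 (l, p) h2 (l, p') (by rw [hcc]; exact h2')
          (fun h => hne (Prod.mk.inj h).2) rfl
        refine h6 hx ?_
        rw [hcc]
        exact hx'
  -- length
  have hlen : ∀ l ∈ 𝒦, 3 ≤ (l.flatMap (path l)).length := by
    intro l hl
    have hone : ∀ p, 1 ≤ (path l p).length := by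
      intro p
      by_cases h : p.1 = p.2
      · simp only [path, if_pos h, List.length_singleton, le_refl]
      · simp only [path, if_neg h, List.length_cons, List.length_append]
        omega
    have hgen : ∀ l' : List (V × V), l'.length ≤ (l'.flatMap (path l)).length := by
      intro l'
      induction l' with
      | nil => simp
      | cons p l' ih =>
        rw [List.flatMap_cons, List.length_append, List.length_cons]
        have := hone p
        omega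
    rcases (hK.valid l hl).2.2.2.1 with h | ⟨p, hp, hne⟩
    · exact h.trans (hgen l)
    · obtain ⟨l₁, l₂, rfl⟩ := List.append_of_mem hp
      have h2 := (hK.valid _ hl).1
      have h3 : 2 ≤ (path (l₁ ++ p :: l₂) p).length := by
        simp only [path, if_neg hne, List.length_cons, List.length_append]
        omega
      have h4 := hgen l₁
      have h5 := hgen l₂
      rw [List.flatMap_append, List.flatMap_cons, List.length_append, List.length_append]
      rw [List.length_append, List.length_cons] at h2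
      omega
  -- the cycles
  let C : List (V × V) → Finset (Sym2 V) := fun l =>
    (skE l).toFinset ∪ l.toFinset.biUnion (fun p => (pE (path l p)).toFinset)
  have hC : ∀ l ∈ 𝒦, IsCyc (C l) := by
    intro l hl
    exact concat_isCyc l (path l) (by have := (hK.valid l hl).1; omega) (fun p _ => hends l p)
      (hnd l hl) (hlen l hl)
  have hRsub : ∀ l ∈ 𝒦, ∀ e ∈ skE l, e ∈ R := by
    intro l hl e he
    have : e ∈ R \ R₁ := by
      rw [hK.cover, Finset.mem_biUnion]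
      exact ⟨l, hl, List.mem_toFinset.2 he⟩
    exact (Finset.mem_sdiff.1 this).1
  have hmemC : ∀ l e, e ∈ C l ↔ e ∈ skE l ∨ ∃ p ∈ l, e ∈ pE (path l p) := by
    intro l e
    simp only [C, Finset.mem_union, Finset.mem_biUnion, List.mem_toFinset]
  have hcross : ∀ l ∈ 𝒦, ∀ l' ∈ 𝒦, ∀ e, e ∈ skE l → ¬ ∃ p ∈ l', e ∈ pE (path l' p) := by
    rintro l hl l' hl' e he ⟨p, hp, he'⟩
    obtain ⟨_, h1, h2⟩ := hpathE l' hl' p hp e he'
    exact hR e (hRsub l hl e he) _ h1 (fun x hx => (hub _ h1).supp e h2 x hx)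
  have hdis : (𝒦 : Set (List (V × V))).PairwiseDisjoint C := by
    intro l hl l' hl' hne
    rw [Function.onFun, Finset.disjoint_left]
    intro e he he'
    rw [hmemC] at he he'
    rcases he with he | ⟨p, hp, he⟩ <;> rcases he' with he' | ⟨p', hp', he'⟩
    · have h8 := hK.disj hl hl' hne
      rw [Function.onFun, Finset.disjoint_left] at h8
      exact h8 (List.mem_toFinset.2 he) (List.mem_toFinset.2 he')
    · exact hcross l hl l' hl' e he ⟨p', hp', he'⟩
    · exact hcross l' hl' l hl e he' ⟨p, hp, he⟩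
    · obtain ⟨hn, h1, h2⟩ := hpathE l hl p hp e he
      obtain ⟨hn', h1', h2'⟩ := hpathE l' hl' p' hp' e he'
      have hcc : co p.1 = co p'.1 := by
        induction e using Sym2.ind with
        | _ a b =>
          exact huniq _ h1 _ h1' a ((hub _ h1).supp _ h2 a (Sym2.mem_mk_left _ _))
            ((hub _ h1').supp _ h2' a (Sym2.mem_mk_left _ _))
      have h3 := (hdem l hl p hp hn).2
      have h3' := (hdem l' hl' p' hp' hn').2
      have h6 := (hq _ h1).2.2.2.1 (l, p) h3 (l', p') (by rw [hcc]; exact h3')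
          (fun h => hne (Prod.mk.inj h).1)
      rw [Finset.disjoint_left] at h6
      refine h6 (a := e) ?_ ?_
      · rw [List.mem_toFinset]
        simp only [path, if_neg hn] at he
        exact he
      · rw [List.mem_toFinset]
        simp only [path, if_neg hn'] at he'
        simp only [inner] at he'
        rw [hcc]
        exact he'
  refine ⟨fun Z => 𝒦.biUnion fun l => (l.toFinset.filter fun p => p.1 ≠ p.2 ∧ co p.1 = Z).biUnion
    fun p => (pE (path l p)).toFinset, ?_, ?_⟩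
  · intro Z hZ e he
    simp only [Finset.mem_biUnion, Finset.mem_filter, List.mem_toFinset] at he
    obtain ⟨l, hl, p, ⟨hp, hn, hc⟩, he⟩ := he
    obtain ⟨_, h1, h2⟩ := hpathE l hl p hp e he
    rw [hc] at h2
    exact h2
  · have hU : (R \ R₁) ∪ 𝓒.biUnion (fun Z => 𝒦.biUnion fun l =>
        (l.toFinset.filter fun p => p.1 ≠ p.2 ∧ co p.1 = Z).biUnion
          fun p => (pE (path l p)).toFinset) = 𝒦.biUnion C := by
      rw [hK.cover]
      ext e
      simp only [Finset.mem_union, Finset.mem_biUnion, Finset.mem_filter, List.mem_toFinset, hmemC]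
      constructor
      · rintro (⟨l, hl, he⟩ | ⟨Z, hZ, l, hl, p, ⟨hp, hn, hc⟩, he⟩)
        · exact ⟨l, hl, Or.inl he⟩
        · exact ⟨l, hl, Or.inr ⟨p, hp, he⟩⟩
      · rintro ⟨l, hl, he | ⟨p, hp, he⟩⟩
        · exact Or.inl ⟨l, hl, he⟩
        · obtain ⟨hn, h1, h2⟩ := hpathE l hl p hp e he
          exact Or.inr ⟨co p.1, h1, l, hl, p, ⟨hp, hn, rfl⟩, he⟩
    rw [hU]
    exact cd_biUnion_cyc 𝒦 C hdis hC

end Crest.Agent.EG
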