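import Crest.Agent.EG_Skel
import Crest.Agent.EG_Lift
import Crest.Agent.EG_Clean

set_option autoImplicit false

namespace Crest.Agent.EG

variable {V : Type*} [DecidableEq V]

/-- numerical facts used in `contraction` -/
private theorem contr_num (s P : ℝ) (L : ℕ)
    (hL : (2 : ℝ) ^ 200 ≤ L) (hP : (L : ℝ) ^ 50 ≤ P) (hs : P ^ 5 ≤ s) :
    ∃ g : ℕ, 2 ≤ g ∧ Even g ∧ (960 : ℝ) * L * g ≤ (1 / (2 ^ 52 * P) / 2) ^ 2 * (1 / P) * s ∧
      (g : ℝ) ≤ s / P ∧ (g : ℝ) ≤ s / 2 ∧ ∀ r : ℝ, 0 ≤ r → 2 * r / g ≤ (L : ℝ) ^ 2 * P ^ 3 * r / s := by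
  have hL0 : (0 : ℝ) < L := lt_of_lt_of_le (by positivity) hL
  have hL1 : (1 : ℝ) ≤ L := le_trans (one_le_pow₀ (by norm_num)) hL
  have hLP : (L : ℝ) ≤ P := le_trans (by
    calc (L : ℝ) = L ^ 1 := (pow_one _).symm
      _ ≤ L ^ 50 := pow_le_pow_right₀ hL1 (by norm_num)) hP
  have hP0 : (0 : ℝ) < P := lt_of_lt_of_le hL0 hLP
  have hP200 : (2 : ℝ) ^ 200 ≤ P := le_trans hL hLP
  have hs0 : 0 < s := lt_of_lt_of_le (by positivity) hs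
  set M : ℝ := 2 ^ 107 * 960 * L * P ^ 3 with hM
  have hM0 : 0 < M := by positivity
  have h2200 : (2 : ℝ) ^ 107 * 960 ≤ 2 ^ 200 := by norm_num
  have hMs : M ≤ s := by
    calc M = (2 ^ 107 * 960) * L * P ^ 3 := by rw [hM]
      _ ≤ P * P * P ^ 3 := by
          gcongr
          exact h2200.trans hP200
      _ = P ^ 5 := by ring
      _ ≤ s := hs
  have hx1 : 1 ≤ s / M := by rwa [le_div_iff₀ hM0, one_mul]
  set k : ℕ := ⌊s / M⌋₊ with hk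
  have hk1 : 1 ≤ k := by
    rw [hk]
    exact Nat.le_floor (by simpa using hx1)
  have hkle : (k : ℝ) ≤ s / M := Nat.floor_le (by positivity)
  have hklt : s / M < k + 1 := Nat.lt_floor_add_one _
  have hk1' : (1 : ℝ) ≤ k := by exact_mod_cast hk1
  refine ⟨2 * k, by omega, even_two_mul k, ?_, ?_, ?_, ?_⟩
  · push_cast
    calc (960 : ℝ) * L * (2 * k) ≤ 960 * L * (2 * (s / M)) := by gcongr
      _ = (1 / (2 ^ 52 * P) / 2) ^ 2 * (1 / P) * s := by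
          rw [hM]; field_simp
  · push_cast
    have h1 : 2 * (s / M) ≤ s / P := by
      have hMP : 2 * P ≤ M := by
        rw [hM]
        calc 2 * P = 2 * 1 * P ^ 1 := by ring
          _ ≤ (2 ^ 107 * 960) * L * P ^ 3 := by
            have : P ^ 1 ≤ P ^ 3 := pow_le_pow_right₀ (hL1.trans hLP) (by norm_num)
            gcongr
            norm_num
      rw [← mul_div_assoc, div_le_div_iff₀ hM0 hP0]
      nlinarith
    linarith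
  · push_cast
    have h1 : 2 * (s / M) ≤ s / 2 := by
      have hMP : 4 ≤ M := by
        rw [hM]
        calc (4 : ℝ) = 4 * 1 * 1 := by ring
          _ ≤ (2 ^ 107 * 960) * L * P ^ 3 := by
            have : (1:ℝ) ≤ P ^ 3 := one_le_pow₀ (hL1.trans hLP)
            gcongr
            norm_num
      rw [← mul_div_assoc, div_le_div_iff₀ hM0 (by norm_num)]
      nlinarith
    linarith
  · intro r hr
    push_cast
    have h1 : s / M ≤ 2 * k := by linarith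
    have h2 : 2 * r / (2 * k) ≤ 2 * r / (s / M) := by
      apply div_le_div_of_nonneg_left (by positivity) (by positivity) h1
    refine h2.trans ?_
    have h3 : 2 * r / (s / M) = (2 ^ 108 * 960) * L * P ^ 3 * r / s := by
      rw [hM]; field_simp
    rw [h3]
    have h4 : (2 : ℝ) ^ 108 * 960 ≤ L := le_trans (by norm_num) hL
    have h5 : (2 ^ 108 * 960) * L * P ^ 3 * r ≤ (L : ℝ) ^ 2 * P ^ 3 * r := by
      rw [pow_two]
      gcongr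
    gcongr

/-- TASK EG-Contr: contraction at one level.
`η = 1/(2^52 P)`, `φ = 1/P`, `θ₀ = 1/(2^106 * 6144 * L * P^3)`, `g = 2 * ⌊s/(2^107 * 960 * L * P^3)⌋₊` (so `2 ≤ g`, `g ≤ s/P`,
`960 L g ≤ s/(2^106 P^3)` and `g ≥ s/(2^107 * 960 * L * P^3)`), `q = dg R`.
For a hub `Z ∈ HH` with `q(Z) ≤ θ₀ φ η/16 w(Z)` `clean` gives a core `Z' ⊆ Z` with `Hub (ind (Da Z) Z') Z' w s φ (η/2)`; the other hubs are
dropped (`w(Z) < 16 q(Z)/(θ₀φη)`). Since `Σ_Z q(Z) ≤ 2|R|`, the total weight of hub vertices outside the cores is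
`≤ 32 |R|/(θ₀φη) ≤ L² P^5 |R|`, so at most `L² P^5 |R|/s` vertices. Not all hubs are dropped by `hbig`.
`w v ≤ |Z|` gives `|Z| ≥ s`; `w(Z') ≥ 7/8 w(Z) ≥ 7/8 s|Z|` and `w(Z') ≤ |Z'||Z|` give `|Z'| ≥ 7s/8 > g`. `b Z' = |Z|` works in `skel` as
`dg R v ≤ θ₀ w v ≤ |Z|/4`. Then `skel` on the cores, `lift` with `η/2`, and the edges in `R₁` are single. -/
theorem contraction (S : Finset V) (HH : Finset (Finset V)) (hsub : ∀ Z ∈ HH, Z ⊆ S)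
    (hdisj : (HH : Set (Finset V)).PairwiseDisjoint id)
    (Da : Finset V → Finset (Sym2 V)) (w : V → ℝ) (s P : ℝ) (L : ℕ)
    (hL : (2 : ℝ) ^ 200 ≤ L) (hP : (L : ℝ) ^ 50 ≤ P) (hs : P ^ 5 ≤ s)
    (hub : ∀ Z ∈ HH, Hub (Da Z) Z w s (1 / P) (1 / (2 ^ 52 * P)))
    (hwZ : ∀ Z ∈ HH, ∑ v ∈ Z, w v ≤ 2 ^ L * s) (hwle : ∀ Z ∈ HH, ∀ v ∈ Z, w v ≤ Z.card)
    (hZne : ∀ Z ∈ HH, Z.Nonempty)
    (R : Finset (Sym2 V)) (hl : Loopless R) (hS : Supp R S) (hR : ∀ e ∈ R, ∀ Z ∈ HH, ¬ ∀ x ∈ e, x ∈ Z)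
    (hRL : R.card ≤ 2 ^ L) (τ : ℝ) (hτ : 0 ≤ τ)
    (IH : ∀ (S' : Finset V) (E' : Finset (Sym2 V)), Loopless E' → Supp E' S' → S'.card < S.card →
      (cd E' : ℝ) ≤ τ * S'.card)
    (hbig : (L : ℝ) ^ 2 * P ^ 5 * R.card / s + (∑ Z ∈ HH, (Z.card : ℝ)) / P < ∑ Z ∈ HH, (Z.card : ℝ)) :
    ∃ Q : Finset V → Finset (Sym2 V), (∀ Z ∈ HH, Q Z ⊆ Da Z) ∧
      (cd (R ∪ HH.biUnion Q) : ℝ) ≤ ∑ Z ∈ HH, ((Z.card : ℝ) + 1) + (L : ℝ) ^ 2 * P ^ 3 * R.card / s +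
        τ * (S.card - ∑ Z ∈ HH, (Z.card : ℝ) + (L : ℝ) ^ 2 * P ^ 5 * R.card / s +
          (∑ Z ∈ HH, (Z.card : ℝ)) / P) := by
  classical
  have hL0 : (0 : ℝ) < L := lt_of_lt_of_le (by positivity) hL
  have hL1 : (1 : ℝ) ≤ L := le_trans (one_le_pow₀ (by norm_num)) hL
  have hLP : (L : ℝ) ≤ P := le_trans (by
    calc (L : ℝ) = L ^ 1 := (pow_one _).symm
      _ ≤ L ^ 50 := pow_le_pow_right₀ hL1 (by norm_num)) hP
  have hP0 : (0 : ℝ) < P := lt_of_lt_of_le hL0 hLP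
  have hP1 : (1 : ℝ) ≤ P := hL1.trans hLP
  have hs0 : 0 < s := lt_of_lt_of_le (by positivity) hs
  obtain ⟨g, hg2, hgeven, hg960, hgsP, hgs2, hgR⟩ := contr_num s P L hL hP hs
  set θ : ℝ := 1 / (2 ^ 106 * 6144 * L * P ^ 3) with hθdef
  set η : ℝ := 1 / (2 ^ 52 * P) with hηdef
  set φ : ℝ := 1 / P with hφdef
  have hθ0 : 0 < θ := by positivity
  have hη0 : 0 < η := by positivity
  have hφ0 : 0 < φ := by positivity
  have hφ1 : φ ≤ 1 := by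
    rw [hφdef, div_le_one hP0]; exact hP1
  have hη1 : η ≤ 1 := by
    rw [hηdef, div_le_one (by positivity)]
    nlinarith
  have hw0 : ∀ Z ∈ HH, ∀ v ∈ Z, 0 < w v := fun Z hZ v hv => lt_of_lt_of_le hs0 ((hub Z hZ).w_ge v hv)
  -- `|Z| ≥ s`
  have hZs : ∀ Z ∈ HH, s ≤ Z.card := by
    intro Z hZ
    obtain ⟨v, hv⟩ := hZne Z hZ
    exact ((hub Z hZ).w_ge v hv).trans (hwle Z hZ v hv)
  let q : V → ℝ := fun v => dg R v
  -- cores
  have hclean : ∀ Z ∈ HH, (∑ v ∈ Z, q v ≤ θ * φ * η / 16 * ∑ v ∈ Z, w v) →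
      ∃ Z' ⊆ Z, Hub (ind (Da Z) Z') Z' w s φ (η / 2) ∧ (∀ x ∈ Z', q x ≤ θ * w x) ∧
        ∑ v ∈ Z \ Z', w v ≤ 2 * (∑ v ∈ Z, q v) / (η * θ * φ) := fun Z hZ hq =>
    clean (Da Z) Z w q s φ η θ (hub Z hZ) hs0 hφ0 hη0 hφ1 hη1 hθ0 (fun v _ => Nat.cast_nonneg _) hq
  let HG : Finset (Finset V) := HH.filter (fun Z => ∑ v ∈ Z, q v ≤ θ * φ * η / 16 * ∑ v ∈ Z, w v)
  have hex : ∀ Z : Finset V, ∃ Z' : Finset V, Z ∈ HG → (Z' ⊆ Z ∧ Hub (ind (Da Z) Z') Z' w s φ (η / 2) ∧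
      (∀ x ∈ Z', q x ≤ θ * w x) ∧ ∑ v ∈ Z \ Z', w v ≤ 2 * (∑ v ∈ Z, q v) / (η * θ * φ)) := by
    intro Z
    by_cases hZ : Z ∈ HG
    · obtain ⟨hZ1, hZ2⟩ := Finset.mem_filter.1 hZ
      obtain ⟨Z', h1, h2, h3, h4⟩ := hclean Z hZ1 hZ2
      exact ⟨Z', fun _ => ⟨h1, h2, h3, h4⟩⟩
    · exact ⟨∅, fun h => absurd h hZ⟩
  choose c hc using hex
  have hHG : ∀ Z ∈ HG, Z ∈ HH := fun Z hZ => (Finset.mem_filter.1 hZ).1
  -- `η θ φ`
  have hprod : η * θ * φ = 1 / (2 ^ 158 * 6144 * L * P ^ 5) := by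
    rw [hηdef, hθdef, hφdef]; field_simp
  have hprod0 : 0 < η * θ * φ := by positivity
  -- lost weight in one hub
  have hlost : ∀ Z ∈ HG, ∑ v ∈ Z \ c Z, w v ≤ (∑ v ∈ Z, w v) / 8 := by
    intro Z hZ
    have h1 := (hc Z hZ).2.2.2
    have h2 := (Finset.mem_filter.1 hZ).2
    refine h1.trans ?_
    rw [div_le_iff₀ hprod0]
    have : (∑ v ∈ Z, w v) / 8 * (η * θ * φ) = 2 * (θ * φ * η / 16 * ∑ v ∈ Z, w v) := by ring
    rw [this]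
    linarith
  have hsplit : ∀ Z ∈ HG, ∑ v ∈ Z \ c Z, w v + ∑ v ∈ c Z, w v = ∑ v ∈ Z, w v := fun Z hZ =>
    Finset.sum_sdiff (hc Z hZ).1
  have hwZs : ∀ Z ∈ HH, s * Z.card ≤ ∑ v ∈ Z, w v := by
    intro Z hZ
    calc s * Z.card = ∑ v ∈ Z, s := by rw [Finset.sum_const, nsmul_eq_mul, mul_comm]
      _ ≤ ∑ v ∈ Z, w v := Finset.sum_le_sum (fun v hv => (hub Z hZ).w_ge v hv)
  -- size of the cores
  have hcore : ∀ Z ∈ HG, 7 / 8 * s ≤ (c Z).card := by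
    intro Z hZ
    have hZH := hHG Z hZ
    have h1 := hlost Z hZ
    have h2 := hsplit Z hZ
    have h3 : ∑ v ∈ c Z, w v ≤ (c Z).card * Z.card := by
      calc ∑ v ∈ c Z, w v ≤ ∑ v ∈ c Z, (Z.card : ℝ) :=
            Finset.sum_le_sum (fun v hv => hwle Z hZH v ((hc Z hZ).1 hv))
        _ = (c Z).card * Z.card := by rw [Finset.sum_const, nsmul_eq_mul]
    have h4 := hwZs Z hZH
    have hZpos : (0 : ℝ) < Z.card := lt_of_lt_of_le hs0 (hZs Z hZH)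
    have h5 : 7 / 8 * s * Z.card ≤ (c Z).card * Z.card := by nlinarith
    exact le_of_mul_le_mul_right h5 hZpos
  have hgcore : ∀ Z ∈ HG, g < (c Z).card := by
    intro Z hZ
    have h1 := hcore Z hZ
    have : (g : ℝ) < (c Z).card := by nlinarith
    exact_mod_cast this
  -- injectivity
  have hinj : Set.InjOn c (HG : Set (Finset V)) := by
    intro Z hZ Z₂ hZ₂ h
    by_contra hne
    have hd : Disjoint Z Z₂ := hdisj (hHG Z hZ) (hHG Z₂ hZ₂) hne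
    have hpos : 0 < (c Z).card := lt_of_le_of_lt (Nat.zero_le g) (hgcore Z hZ)
    obtain ⟨x, hx⟩ := Finset.card_pos.1 hpos
    exact Finset.disjoint_left.1 hd ((hc Z hZ).1 hx) ((hc Z₂ hZ₂).1 (h ▸ hx))
  let 𝓒 : Finset (Finset V) := HG.image c
  have hmem𝓒 : ∀ Z', Z' ∈ 𝓒 ↔ ∃ Z ∈ HG, c Z = Z' := fun Z' => Finset.mem_image
  -- counting lost vertices
  have hqR : ∑ Z ∈ HH, ∑ v ∈ Z, q v ≤ 2 * R.card := by
    have h1 : ∑ Z ∈ HH, ∑ v ∈ Z, q v = ∑ v ∈ HH.biUnion id, q v := by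
      rw [Finset.sum_biUnion hdisj]; rfl
    rw [h1]
    have h2 : HH.biUnion id ⊆ S := by
      intro v hv
      obtain ⟨Z, hZ, hvZ⟩ := Finset.mem_biUnion.1 hv
      exact hsub Z hZ hvZ
    calc ∑ v ∈ HH.biUnion id, q v ≤ ∑ v ∈ S, q v :=
          Finset.sum_le_sum_of_subset_of_nonneg h2 (fun v _ _ => Nat.cast_nonneg _)
      _ = ((∑ v ∈ S, dg R v : ℕ) : ℝ) := by push_cast; rfl
      _ = 2 * R.card := by rw [sum_dg hl hS]; push_cast; ring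
  have hcardle : ∀ Z ∈ HH, (Z.card : ℝ) ≤ (if Z ∈ HG then ((c Z).card : ℝ) else 0) +
      16 * (∑ v ∈ Z, q v) / (η * θ * φ) / s := by
    intro Z hZ
    by_cases hZG : Z ∈ HG
    · rw [if_pos hZG]
      have h1 := (hc Z hZG).2.2.2
      have h2 : s * (Z \ c Z).card ≤ ∑ v ∈ Z \ c Z, w v := by
        calc s * (Z \ c Z).card = ∑ v ∈ Z \ c Z, s := by
              rw [Finset.sum_const, nsmul_eq_mul, mul_comm]
          _ ≤ ∑ v ∈ Z \ c Z, w v :=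
            Finset.sum_le_sum (fun v hv => (hub Z hZ).w_ge v (Finset.sdiff_subset hv))
      have h3 : (Z.card : ℝ) = (c Z).card + (Z \ c Z).card := by
        have := Finset.card_sdiff_add_card_eq_card (hc Z hZG).1
        rw [← this]; push_cast; ring
      have hq0 : 0 ≤ ∑ v ∈ Z, q v := Finset.sum_nonneg (fun v _ => Nat.cast_nonneg _)
      have h4 : ((Z \ c Z).card : ℝ) ≤ 16 * (∑ v ∈ Z, q v) / (η * θ * φ) / s := by
        rw [le_div_iff₀ hs0, mul_comm]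
        refine h2.trans (h1.trans ?_)
        gcongr
        norm_num
      rw [h3]
      linarith
    · rw [if_neg hZG, zero_add]
      have h1 : θ * φ * η / 16 * ∑ v ∈ Z, w v < ∑ v ∈ Z, q v := by
        by_contra hcon
        exact hZG (Finset.mem_filter.2 ⟨hZ, not_lt.1 hcon⟩)
      have h2 := hwZs Z hZ
      rw [le_div_iff₀ hs0, mul_comm]
      refine h2.trans ?_
      rw [le_div_iff₀ hprod0]
      have : θ * φ * η / 16 * ∑ v ∈ Z, w v = (∑ v ∈ Z, w v) * (η * θ * φ) / 16 := by ring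
      rw [this] at h1
      linarith
  have hsum𝓒 : ∑ Z' ∈ 𝓒, (Z'.card : ℝ) = ∑ Z ∈ HG, ((c Z).card : ℝ) :=
    Finset.sum_image hinj
  have hlostN : ∑ Z ∈ HH, (Z.card : ℝ) ≤ ∑ Z' ∈ 𝓒, (Z'.card : ℝ) + (L : ℝ) ^ 2 * P ^ 5 * R.card / s := by
    have h1 : ∑ Z ∈ HH, (Z.card : ℝ) ≤ ∑ Z ∈ HH, (if Z ∈ HG then ((c Z).card : ℝ) else 0) +
        16 * (∑ Z ∈ HH, ∑ v ∈ Z, q v) / (η * θ * φ) / s := by
      rw [Finset.mul_sum, Finset.sum_div, Finset.sum_div, ← Finset.sum_add_distrib]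
      exact Finset.sum_le_sum hcardle
    have h2 : ∑ Z ∈ HH, (if Z ∈ HG then ((c Z).card : ℝ) else 0) = ∑ Z' ∈ 𝓒, (Z'.card : ℝ) := by
      rw [hsum𝓒, ← Finset.sum_filter]
      congr 1
      ext Z
      simp only [Finset.mem_filter]
      exact ⟨fun h => h.2, fun h => ⟨hHG Z h, h⟩⟩
    rw [h2] at h1
    refine h1.trans ?_
    gcongr
    have h3 : 16 * (∑ Z ∈ HH, ∑ v ∈ Z, q v) / (η * θ * φ) ≤ 16 * (2 * R.card) / (η * θ * φ) := by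
      gcongr
    refine h3.trans ?_
    rw [hprod, div_div_eq_mul_div, div_one]
    have h4 : (16 * 2 * (2 ^ 158 * 6144) : ℝ) ≤ L := le_trans (by norm_num) hL
    calc (16 : ℝ) * (2 * R.card) * (2 ^ 158 * 6144 * L * P ^ 5)
        = (16 * 2 * (2 ^ 158 * 6144)) * L * P ^ 5 * R.card := by ring
      _ ≤ L * L * P ^ 5 * R.card := by gcongr
      _ = (L : ℝ) ^ 2 * P ^ 5 * R.card := by ring
  have hne : 𝓒.Nonempty := by
    rw [Finset.nonempty_iff_ne_empty]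
    intro h
    rw [h, Finset.sum_empty, zero_add] at hlostN
    have hnn : 0 ≤ (∑ Z ∈ HH, (Z.card : ℝ)) / P :=
      div_nonneg (Finset.sum_nonneg (fun _ _ => Nat.cast_nonneg _)) hP0.le
    linarith only [hnn, hlostN, hbig]
  -- the family 𝓒
  have hdisj𝓒 : (𝓒 : Set (Finset V)).PairwiseDisjoint id := by
    intro A hA B hB hAB
    obtain ⟨Z, hZ, rfl⟩ := (hmem𝓒 A).1 hA
    obtain ⟨Z₂, hZ₂, rfl⟩ := (hmem𝓒 B).1 hB
    have hne' : Z ≠ Z₂ := fun h => hAB (by rw [h])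
    exact Disjoint.mono (hc Z hZ).1 (hc Z₂ hZ₂).1 (hdisj (hHG Z hZ) (hHG Z₂ hZ₂) hne')
  have hsub𝓒 : ∀ Z' ∈ 𝓒, Z' ⊆ S := by
    intro A hA
    obtain ⟨Z, hZ, rfl⟩ := (hmem𝓒 A).1 hA
    exact (hc Z hZ).1.trans (hsub Z (hHG Z hZ))
  have hR𝓒 : ∀ e ∈ R, ∀ Z' ∈ 𝓒, ¬ ∀ x ∈ e, x ∈ Z' := by
    intro e he A hA hcon
    obtain ⟨Z, hZ, rfl⟩ := (hmem𝓒 A).1 hA
    exact hR e he Z (hHG Z hZ) (fun x hx => (hc Z hZ).1 (hcon x hx))
  have hcard𝓒 : ∀ Z' ∈ 𝓒, g < Z'.card := by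
    intro A hA
    obtain ⟨Z, hZ, rfl⟩ := (hmem𝓒 A).1 hA
    exact hgcore Z hZ
  let b : Finset V → ℝ := fun Z' => ∑ Z ∈ HG with c Z = Z', (Z.card : ℝ)
  have hb : ∀ Z' ∈ 𝓒, ∀ v ∈ Z', (Z'.card : ℝ) / 2 + 2 * dg R v ≤ b Z' := by
    intro A hA v hv
    obtain ⟨Z, hZ, rfl⟩ := (hmem𝓒 A).1 hA
    have h1 : (Z.card : ℝ) ≤ b (c Z) := by
      refine Finset.single_le_sum (f := fun Z : Finset V => (Z.card : ℝ)) (fun _ _ => Nat.cast_nonneg _) ?_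
      exact Finset.mem_filter.2 ⟨hZ, rfl⟩
    have h2 : ((c Z).card : ℝ) ≤ Z.card := by exact_mod_cast Finset.card_le_card (hc Z hZ).1
    have h3 : (dg R v : ℝ) ≤ θ * w v := (hc Z hZ).2.2.1 v hv
    have h4 : w v ≤ Z.card := hwle Z (hHG Z hZ) v ((hc Z hZ).1 hv)
    have h5 : θ ≤ 1 / 4 := by
      rw [hθdef]
      apply div_le_div_of_nonneg_left (by norm_num) (by norm_num)
      have : (1:ℝ) ≤ P ^ 3 := one_le_pow₀ hP1
      calc (4 : ℝ) = 4 * 1 * 1 := by ring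
        _ ≤ 2 ^ 106 * 6144 * L * P ^ 3 := by
          gcongr
          norm_num
    have h6 : θ * w v ≤ 1 / 4 * Z.card := by
      have := hw0 Z (hHG Z hZ) v ((hc Z hZ).1 hv)
      gcongr
    linarith
  obtain ⟨R₁, 𝒦, hfam, hcount⟩ := skel S 𝓒 hdisj𝓒 hsub𝓒 hne R hl hS hR𝓒 g hg2 hgeven hcard𝓒 b hb τ hτ IH
  -- the lifting
  let inv : Finset V → Finset V := Function.invFunOn c (HG : Set (Finset V))
  have hinv : ∀ Z ∈ HG, inv (c Z) = Z := fun Z hZ => hinj.leftInvOn_invFunOn hZ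
  let Dc : Finset V → Finset (Sym2 V) := fun Z' => ind (Da (inv Z')) Z'
  have hhub𝓒 : ∀ Z' ∈ 𝓒, Hub (Dc Z') Z' w s φ (η / 2) := by
    intro A hA
    obtain ⟨Z, hZ, rfl⟩ := (hmem𝓒 A).1 hA
    change Hub (ind (Da (inv (c Z))) (c Z)) (c Z) w s φ (η / 2)
    rw [hinv Z hZ]
    exact (hc Z hZ).2.1
  have hwZ𝓒 : ∀ Z' ∈ 𝓒, ∑ v ∈ Z', w v ≤ 2 ^ L * s := by
    intro A hA
    obtain ⟨Z, hZ, rfl⟩ := (hmem𝓒 A).1 hA
    refine le_trans ?_ (hwZ Z (hHG Z hZ))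
    exact Finset.sum_le_sum_of_subset_of_nonneg (hc Z hZ).1
      (fun v hv _ => (hw0 Z (hHG Z hZ) v hv).le)
  have hdeg𝓒 : ∀ Z' ∈ 𝓒, ∀ v ∈ Z', (dg R v : ℝ) ≤ θ * w v := by
    intro A hA v hv
    obtain ⟨Z, hZ, rfl⟩ := (hmem𝓒 A).1 hA
    exact (hc Z hZ).2.2.1 v hv
  have hθ' : 6144 * L * θ ≤ (η / 2) ^ 2 * φ := by
    apply le_of_eq
    rw [hθdef, hηdef, hφdef]; field_simp
  have hLnat : 1 ≤ L := by exact_mod_cast hL1
  obtain ⟨Q', hQ'sub, hQ'cd⟩ := lift 𝓒 hdisj𝓒 Dc w s φ (η / 2) θ L g hhub𝓒 hs0 hφ0 hφ1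
    (by positivity) (by linarith) hLnat (by omega) hwZ𝓒 hθ' hg960 R hl hR𝓒 hRL hdeg𝓒 𝒦 R₁ hfam
  refine ⟨fun Z => if Z ∈ HG then Q' (c Z) else ∅, ?_, ?_⟩
  · intro Z hZ
    by_cases hZG : Z ∈ HG
    · simp only [hZG, if_true]
      intro e he
      have h1 := hQ'sub (c Z) ((hmem𝓒 _).2 ⟨Z, hZG, rfl⟩) he
      have h2 : e ∈ ind (Da (inv (c Z))) (c Z) := h1
      rw [hinv Z hZG] at h2
      exact (mem_ind.1 h2).1
    · simp [hZG]
  · -- the bound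
    have hU : HH.biUnion (fun Z => if Z ∈ HG then Q' (c Z) else ∅) = 𝓒.biUnion Q' := by
      ext e
      simp only [Finset.mem_biUnion]
      constructor
      · rintro ⟨Z, hZ, he⟩
        by_cases hZG : Z ∈ HG
        · rw [if_pos hZG] at he
          exact ⟨c Z, (hmem𝓒 _).2 ⟨Z, hZG, rfl⟩, he⟩
        · rw [if_neg hZG] at he
          exact absurd he (Finset.notMem_empty _)
      · rintro ⟨A, hA, he⟩
        obtain ⟨Z, hZ, rfl⟩ := (hmem𝓒 A).1 hA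
        exact ⟨Z, hHG Z hZ, by rw [if_pos hZ]; exact he⟩
    rw [hU]
    have hF : (R \ R₁) ∪ 𝓒.biUnion Q' ⊆ R ∪ 𝓒.biUnion Q' :=
      Finset.union_subset_union Finset.sdiff_subset (Finset.Subset.refl _)
    have h1 := cd_split hF
    have h2 : (R ∪ 𝓒.biUnion Q') \ ((R \ R₁) ∪ 𝓒.biUnion Q') ⊆ R₁ := by
      intro e he
      simp only [Finset.mem_sdiff, Finset.mem_union, not_or, not_and, not_not] at he
      obtain ⟨h3, h4, h5⟩ := he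
      rcases h3 with h3 | h3
      · exact h4 h3
      · exact absurd h3 h5
    have h3 : cd (R ∪ 𝓒.biUnion Q') ≤ 𝒦.card + R₁.card :=
      h1.trans (Nat.add_le_add hQ'cd ((cd_le_card _).trans (Finset.card_le_card h2)))
    have h4 : (cd (R ∪ 𝓒.biUnion Q') : ℝ) ≤ 𝒦.card + R₁.card := by exact_mod_cast h3
    refine h4.trans (hcount.trans ?_)
    have h5 : ∑ Z' ∈ 𝓒, (b Z' + 1) ≤ ∑ Z ∈ HH, ((Z.card : ℝ) + 1) := by
      rw [Finset.sum_add_distrib, Finset.sum_add_distrib]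
      have h6 : ∑ Z' ∈ 𝓒, b Z' = ∑ Z ∈ HG, (Z.card : ℝ) :=
        Finset.sum_fiberwise_of_maps_to (fun Z hZ => (hmem𝓒 _).2 ⟨Z, hZ, rfl⟩) _
      have h7 : ∑ Z ∈ HG, (Z.card : ℝ) ≤ ∑ Z ∈ HH, (Z.card : ℝ) :=
        Finset.sum_le_sum_of_subset_of_nonneg (Finset.filter_subset _ _)
          (fun _ _ _ => Nat.cast_nonneg _)
      have h8 : ∑ _Z' ∈ 𝓒, (1 : ℝ) ≤ ∑ _Z ∈ HH, (1 : ℝ) := by
        rw [Finset.sum_const, Finset.sum_const, nsmul_eq_mul, nsmul_eq_mul, mul_one, mul_one]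
        exact_mod_cast (Finset.card_image_le).trans (Finset.card_le_card (Finset.filter_subset _ _))
      linarith
    have h6 : 2 * (R.card : ℝ) / g ≤ (L : ℝ) ^ 2 * P ^ 3 * R.card / s := hgR _ (Nat.cast_nonneg _)
    have h7 : (g : ℝ) * 𝓒.card ≤ (∑ Z ∈ HH, (Z.card : ℝ)) / P := by
      have h8 : (𝓒.card : ℝ) ≤ HH.card := by
        exact_mod_cast (Finset.card_image_le).trans (Finset.card_le_card (Finset.filter_subset _ _))
      have h9 : s * HH.card ≤ ∑ Z ∈ HH, (Z.card : ℝ) := by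
        calc s * HH.card = ∑ Z ∈ HH, s := by rw [Finset.sum_const, nsmul_eq_mul, mul_comm]
          _ ≤ ∑ Z ∈ HH, (Z.card : ℝ) := Finset.sum_le_sum (fun Z hZ => hZs Z hZ)
      calc (g : ℝ) * 𝓒.card ≤ s / P * HH.card := by gcongr
        _ = s * HH.card / P := by ring
        _ ≤ (∑ Z ∈ HH, (Z.card : ℝ)) / P := by gcongr
    have h8 : (S.card : ℝ) - ∑ Z' ∈ 𝓒, (Z'.card : ℝ) + g * 𝓒.card ≤
        S.card - ∑ Z ∈ HH, (Z.card : ℝ) + (L : ℝ) ^ 2 * P ^ 5 * R.card / s +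
          (∑ Z ∈ HH, (Z.card : ℝ)) / P := by linarith
    have h9 := mul_le_mul_of_nonneg_left h8 hτ
    linarith

end Crest.Agent.EG
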