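import Crest.Agent.EG_Decomp

set_option autoImplicit false

namespace Crest.Agent.EG

variable {V : Type*} [DecidableEq V]

/-- degree scale at level `i` -/
noncomputable def lvD (n P L : ℝ) (i : ℕ) : ℝ := n * (3 * L / P) ^ i

/-- one level of the decomposition: hubs `HH` inside the graph `R`, remainder `R'` -/
structure Level (S : Finset V) (R R' : Finset (Sym2 V)) (HH : Finset (Finset V)) (P s : ℝ) : Prop where
  loopless : Loopless R
  supp : Supp R S
  sub : R' ⊆ R
  hsub : ∀ Z ∈ HH, Z ⊆ S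
  disj : (HH : Set (Finset V)).PairwiseDisjoint id
  hub : ∀ Z ∈ HH, Hub (ind R Z) Z (fun v => s + 1 / P * (dg R v : ℝ)) s (1 / P) 1
  two : ∀ Z ∈ HH, 2 ≤ Z.card
  cover : R \ R' = HH.biUnion (fun Z => ind R Z)

/-- total weight of the whole vertex set at level `i` -/
theorem levels_weight (S : Finset V) (R : Finset (Sym2 V)) (hl : Loopless R) (hE : Supp R S)
    (P D : ℝ) (hP : 0 < P) (hR : (R.card : ℝ) ≤ S.card * D) :
    ∑ v ∈ S, (D / P + 1 / P * (dg R v : ℝ)) ≤ 3 * S.card * (D / P) := by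
  have h1 := sum_dg hl hE
  have h2 : ∑ v ∈ S, (dg R v : ℝ) = 2 * (R.card : ℝ) := by exact_mod_cast h1
  rw [Finset.sum_add_distrib, ← Finset.mul_sum, h2, Finset.sum_const, nsmul_eq_mul]
  have h3 : 1 / P * (2 * (R.card : ℝ)) ≤ 1 / P * (2 * (S.card * D)) := by
    apply mul_le_mul_of_nonneg_left _ (by positivity)
    linarith
  calc (S.card : ℝ) * (D / P) + 1 / P * (2 * (R.card : ℝ))
      ≤ (S.card : ℝ) * (D / P) + 1 / P * (2 * (S.card * D)) := by linarith
    _ = 3 * S.card * (D / P) := by ring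

/-- TASK EG-Levels: iterate `hub_decomp` (recursive choice).  At level `i`: `s = lvD i / P`, `φ = 1/P`,
`w(S) = |S| s + 2 φ |R i| ≤ 3 n s ≤ 2^L s` (handshake `sum_dg`), so `|R (i+1)| ≤ L · 3 n s = n · lvD (i+1)`. -/
theorem levels (S : Finset V) (E : Finset (Sym2 V)) (hl : Loopless E) (hE : Supp E S) (P : ℝ) (L : ℕ)
    (hP : 0 < P) (hL : 1 ≤ L) (hS : 1 ≤ S.card) (hnL : 3 * (S.card : ℝ) ≤ 2 ^ L) :
    ∃ (R : ℕ → Finset (Sym2 V)) (HH : ℕ → Finset (Finset V)), R 0 = E ∧
      (∀ i, Level S (R i) (R (i + 1)) (HH i) P (lvD S.card P L i / P)) ∧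
      (∀ i, ((R i).card : ℝ) ≤ S.card * lvD S.card P L i) := by
  have hn : (0:ℝ) < (S.card : ℝ) := by exact_mod_cast hS
  have hLr : (0:ℝ) < (L : ℝ) := by exact_mod_cast hL
  have hD : ∀ i, 0 < lvD (S.card : ℝ) P L i := by
    intro i
    unfold lvD
    positivity
  have step : ∀ (i : ℕ) (R : Finset (Sym2 V)),
      (Loopless R ∧ Supp R S ∧ (R.card : ℝ) ≤ S.card * lvD S.card P L i) →
      ∃ (R' : Finset (Sym2 V)) (HH : Finset (Finset V)),
        Level S R R' HH P (lvD S.card P L i / P) ∧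
        (Loopless R' ∧ Supp R' S ∧ (R'.card : ℝ) ≤ S.card * lvD S.card P L (i + 1)) := by
    intro i R ⟨hlR, hsR, hcR⟩
    have hs : 0 < lvD (S.card : ℝ) P L i / P := div_pos (hD i) hP
    have hw := levels_weight S R hlR hsR P _ hP hcR
    have hw2 : ∑ v ∈ S, (lvD (S.card : ℝ) P L i / P + 1 / P * (dg R v : ℝ)) ≤
        2 ^ L * (lvD (S.card : ℝ) P L i / P) :=
      hw.trans (mul_le_mul_of_nonneg_right hnL hs.le)
    obtain ⟨HH, R', h1, h2, h3, h4, h5, h6, h7⟩ :=
      hub_decomp S R hlR hsR (lvD (S.card : ℝ) P L i / P) (1 / P) hs (by positivity) L hw2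
    refine ⟨R', HH, ⟨hlR, hsR, h1, h2, h3, h4, h5, h6⟩, fun e he => hlR e (h1 he),
      fun e he => hsR e (h1 he), ?_⟩
    calc (R'.card : ℝ) ≤ _ := h7
      _ ≤ L * (3 * S.card * (lvD (S.card : ℝ) P L i / P)) :=
          mul_le_mul_of_nonneg_left hw hLr.le
      _ = S.card * lvD S.card P L (i + 1) := by
          unfold lvD
          rw [pow_succ]
          ring
  choose! f g hfg using step
  have h0 : Loopless E ∧ Supp E S ∧ (E.card : ℝ) ≤ S.card * lvD S.card P L 0 := by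
    refine ⟨hl, hE, ?_⟩
    unfold lvD
    rw [pow_zero, mul_one]
    have := card_le_sq hl hE
    have h2 : (E.card : ℝ) ≤ (S.card : ℝ) ^ 2 := by exact_mod_cast this
    rw [← sq]
    exact h2
  let R : ℕ → Finset (Sym2 V) := fun i => Nat.rec E (fun j X => f j X) i
  have hR : ∀ i, Loopless (R i) ∧ Supp (R i) S ∧ ((R i).card : ℝ) ≤ S.card * lvD S.card P L i := by
    intro i
    induction i with
    | zero => exact h0
    | succ j ih => exact (hfg j (R j) ih).2
  exact ⟨R, fun i => g i (R i), rfl, fun i => (hfg i (R i) (hR i)).1, fun i => (hR i).2.2⟩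

end Crest.Agent.EG
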