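import Crest.Agent.EG_P1
import Crest.Agent.EG_Contr
import Crest.Agent.EG_Levels

set_option autoImplicit false

namespace Crest.Agent.EG

variable {V : Type*} [DecidableEq V]

/-- total size of the hubs of a level -/
noncomputable def hubsz (HH : Finset (Finset V)) : ℝ := ∑ Z ∈ HH, (Z.card : ℝ)

theorem CaseA_P_pos {P : ℝ} {L : ℕ} (hL : (2 : ℝ) ^ 200 ≤ L) (hP : (L : ℝ) ^ 50 ≤ P) : 1 ≤ P ∧ (1:ℝ) ≤ L := by
  have h1 : (1:ℝ) ≤ L := le_trans (by norm_num) hL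
  exact ⟨le_trans (one_le_pow₀ h1) hP, h1⟩

/-- P1 for a hub of a level -/
theorem CaseA_P1 (S : Finset V) (R R' : Finset (Sym2 V)) (HH : Finset (Finset V)) (P : ℝ) (L : ℕ) (D : ℝ)
    (hL : (2 : ℝ) ^ 200 ≤ L) (hP : (L : ℝ) ^ 50 ≤ P)
    (hlev : Level S R R' HH P (D / P))
    (hR : (R.card : ℝ) ≤ S.card * D)
    (hnL : 3 * (S.card : ℝ) ^ 2 ≤ 2 ^ L) (hs : P ^ 5 ≤ D / P)
    (τ : ℝ) (hτ : 0 ≤ τ)
    (IH : ∀ (S' : Finset V) (E' : Finset (Sym2 V)), Loopless E' → Supp E' S' → S'.card < S.card →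
      (cd E' : ℝ) ≤ τ * S'.card) (Z : Finset V) (hZ : Z ∈ HH) :
    (∑ v ∈ Z, (D / P + 1 / P * (dg R v : ℝ)) ≤ 2 ^ L * (D / P)) ∧
    ∃ Da ⊆ ind R Z, Hub Da Z (fun v => D / P + 1 / P * (dg R v : ℝ)) (D / P) (1 / P) (1 / (2 ^ 52 * P)) ∧
      ∀ Q ⊆ Da, (cd (ind R Z \ Q) : ℝ) ≤ (12 + 3 / 4096 * τ) * Z.card := by
  obtain ⟨hP1, hL1⟩ := CaseA_P_pos hL hP
  have hP0 : 0 < P := by linarith
  have hs0 : 0 < D / P := lt_of_lt_of_le (by positivity) hs
  have hZS := hlev.hsub Z hZ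
  have hZc : (Z.card : ℝ) ≤ S.card := by exact_mod_cast Finset.card_le_card hZS
  have hZ2 := hlev.two Z hZ
  have hn1 : (1 : ℝ) ≤ S.card := by
    have : (2 : ℝ) ≤ Z.card := by exact_mod_cast hZ2
    linarith
  have hw : ∑ v ∈ Z, (D / P + 1 / P * (dg R v : ℝ)) ≤ 2 ^ L * (D / P) := by
    calc ∑ v ∈ Z, (D / P + 1 / P * (dg R v : ℝ)) ≤ ∑ v ∈ S, (D / P + 1 / P * (dg R v : ℝ)) := by
          apply Finset.sum_le_sum_of_subset_of_nonneg hZS
          intro v _ _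
          positivity
      _ ≤ 3 * S.card * (D / P) := levels_weight S R hlev.loopless hlev.supp P D hP0 hR
      _ ≤ 2 ^ L * (D / P) := by
          apply mul_le_mul_of_nonneg_right _ hs0.le
          calc 3 * (S.card : ℝ) ≤ 3 * (S.card : ℝ) ^ 2 := by nlinarith
            _ ≤ 2 ^ L := hnL
  refine ⟨hw, ?_⟩
  apply P1 (ind R Z) Z (fun v => D / P + 1 / P * (dg R v : ℝ)) (D / P) P L hL hP hs (hlev.hub Z hZ) hZ2 ?_ hw τ hτ ?_
  · have : (Z.card : ℝ) ^ 2 ≤ 2 ^ L := by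
      have h0 : (0:ℝ) ≤ Z.card := by positivity
      nlinarith
    exact_mod_cast this
  · intro S' E' h1 h2 h3
    exact IH S' E' h1 h2 (lt_of_lt_of_le h3 (Finset.card_le_card hZS))

theorem CaseA_hub_cost (S : Finset V) (R R' : Finset (Sym2 V)) (HH : Finset (Finset V)) (P : ℝ) (L : ℕ) (D : ℝ)
    (hL : (2 : ℝ) ^ 200 ≤ L) (hP : (L : ℝ) ^ 50 ≤ P)
    (hlev : Level S R R' HH P (D / P))
    (hR : (R.card : ℝ) ≤ S.card * D)
    (hnL : 3 * (S.card : ℝ) ^ 2 ≤ 2 ^ L) (hs : P ^ 5 ≤ D / P)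
    (τ : ℝ) (hτ : 0 ≤ τ)
    (IH : ∀ (S' : Finset V) (E' : Finset (Sym2 V)), Loopless E' → Supp E' S' → S'.card < S.card →
      (cd E' : ℝ) ≤ τ * S'.card) :
    (cd (R \ R') : ℝ) ≤ (12 + 3 / 4096 * τ) * hubsz HH := by
  have hdis : (HH : Set (Finset V)).PairwiseDisjoint (fun Z => ind R Z) := by
    intro Z hZ Z' hZ' hne
    show Disjoint (ind R Z) (ind R Z')
    rw [Finset.disjoint_left]
    intro e he he'
    rw [mem_ind] at he he'
    have hd : Disjoint Z Z' := hlev.disj hZ hZ' hne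
    induction e using Sym2.ind with
    | _ x y =>
      exact Finset.disjoint_left.mp hd (he.2 x (Sym2.mem_mk_left x y)) (he'.2 x (Sym2.mem_mk_left x y))
  rw [hlev.cover]
  calc (cd (HH.biUnion fun Z => ind R Z) : ℝ) ≤ ((∑ Z ∈ HH, cd (ind R Z) : ℕ) : ℝ) := by
        exact_mod_cast cd_biUnion_le HH (fun Z => ind R Z) hdis
    _ = ∑ Z ∈ HH, (cd (ind R Z) : ℝ) := by push_cast; rfl
    _ ≤ ∑ Z ∈ HH, (12 + 3 / 4096 * τ) * (Z.card : ℝ) := by
        apply Finset.sum_le_sum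
        intro Z hZ
        obtain ⟨_, Da, hDa, _, h⟩ := CaseA_P1 S R R' HH P L D hL hP hlev hR hnL hs τ hτ IH Z hZ
        have := h ∅ (by simp)
        simpa using this
    _ = (12 + 3 / 4096 * τ) * hubsz HH := by
        rw [hubsz, Finset.mul_sum]

theorem CaseA_sub (S : Finset V) (R : ℕ → Finset (Sym2 V)) (HH : ℕ → Finset (Finset V)) (P : ℝ) (L : ℕ)
    (hlev : ∀ i, Level S (R i) (R (i + 1)) (HH i) P (lvD S.card P L i / P)) {i j : ℕ} (h : i ≤ j) : R j ⊆ R i := by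
  induction j, h using Nat.le_induction with
  | base => exact Finset.Subset.refl _
  | succ j _ ih => exact (hlev j).sub.trans ih

/-- TASK EG-Hubs: cost of all hubs of the levels `0..j` when nothing is removed or added. -/
theorem hubs_cost (S : Finset V) (R : ℕ → Finset (Sym2 V)) (HH : ℕ → Finset (Finset V)) (P : ℝ) (L : ℕ)
    (hL : (2 : ℝ) ^ 200 ≤ L) (hP : (L : ℝ) ^ 50 ≤ P)
    (hlev : ∀ i, Level S (R i) (R (i + 1)) (HH i) P (lvD S.card P L i / P))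
    (hR : ∀ i, ((R i).card : ℝ) ≤ S.card * lvD S.card P L i)
    (hnL : 3 * (S.card : ℝ) ^ 2 ≤ 2 ^ L) (J : ℕ) (hs : ∀ i ≤ J, P ^ 5 ≤ lvD S.card P L i / P)
    (τ : ℝ) (hτ : 0 ≤ τ)
    (IH : ∀ (S' : Finset V) (E' : Finset (Sym2 V)), Loopless E' → Supp E' S' → S'.card < S.card →
      (cd E' : ℝ) ≤ τ * S'.card) :
    (cd (R 0 \ R (J + 1)) : ℝ) ≤ (12 + 3 / 4096 * τ) * ∑ i ∈ Finset.range (J + 1), hubsz (HH i) := by
  induction J with
  | zero =>
    simp only [zero_add, Finset.range_one, Finset.sum_singleton]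
    exact CaseA_hub_cost S (R 0) (R 1) (HH 0) P L _ hL hP (hlev 0) (hR 0) hnL (hs 0 le_rfl) τ hτ IH
  | succ J ih =>
    have h1 := ih (fun i hi => hs i (by omega))
    have h2 := CaseA_hub_cost S (R (J+1)) (R (J+2)) (HH (J+1)) P L _ hL hP (hlev (J+1)) (hR (J+1)) hnL
      (hs (J+1) le_rfl) τ hτ IH
    have hsub1 : R (J + 1) ⊆ R 0 := CaseA_sub S R HH P L hlev (Nat.zero_le _)
    have hsub2 : R (J + 2) ⊆ R (J + 1) := (hlev (J+1)).sub
    have heq : R 0 \ R (J + 1 + 1) = (R 0 \ R (J + 1)) ∪ (R (J + 1) \ R (J + 2)) := by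
      ext e
      simp only [Finset.mem_sdiff, Finset.mem_union]
      constructor
      · rintro ⟨h, h'⟩
        by_cases h3 : e ∈ R (J + 1)
        · exact Or.inr ⟨h3, h'⟩
        · exact Or.inl ⟨h, h3⟩
      · rintro (⟨h, h'⟩ | ⟨h, h'⟩)
        · exact ⟨h, fun h3 => h' (hsub2 h3)⟩
        · exact ⟨hsub1 h, h'⟩
    have hd : Disjoint (R 0 \ R (J + 1)) (R (J + 1) \ R (J + 2)) := by
      rw [Finset.disjoint_left]
      intro e he he'
      rw [Finset.mem_sdiff] at he he'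
      exact he.2 he'.1
    have h3 := cd_eq_union_le heq hd
    rw [Finset.sum_range_succ, mul_add]
    have h4 : (cd (R 0 \ R (J + 1 + 1)) : ℝ) ≤ cd (R 0 \ R (J + 1)) + cd (R (J + 1) \ R (J + 2)) := by
      exact_mod_cast h3
    linarith

theorem CaseA_range (S : Finset V) (R : ℕ → Finset (Sym2 V)) (HH : ℕ → Finset (Finset V)) (P : ℝ) (L : ℕ)
    (hL : (2 : ℝ) ^ 200 ≤ L) (hP : (L : ℝ) ^ 50 ≤ P)
    (hlev : ∀ i, Level S (R i) (R (i + 1)) (HH i) P (lvD S.card P L i / P))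
    (hR : ∀ i, ((R i).card : ℝ) ≤ S.card * lvD S.card P L i)
    (hnL : 3 * (S.card : ℝ) ^ 2 ≤ 2 ^ L) (J : ℕ) (hs : ∀ i ≤ J, P ^ 5 ≤ lvD S.card P L i / P)
    (τ : ℝ) (hτ : 0 ≤ τ)
    (IH : ∀ (S' : Finset V) (E' : Finset (Sym2 V)), Loopless E' → Supp E' S' → S'.card < S.card →
      (cd E' : ℝ) ≤ τ * S'.card) (i j : ℕ) (hij : i ≤ j) (hj : j ≤ J + 1) :
    (cd (R i \ R j) : ℝ) ≤ (12 + 3 / 4096 * τ) * ∑ k ∈ Finset.Ico i j, hubsz (HH k) := by
  induction j, hij using Nat.le_induction with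
  | base =>
    simp [cd_empty]
  | succ j hij ih =>
    have h1 := ih (by omega)
    have h2 := CaseA_hub_cost S (R j) (R (j+1)) (HH j) P L _ hL hP (hlev j) (hR j) hnL
      (hs j (by omega)) τ hτ IH
    have hsub1 : R j ⊆ R i := CaseA_sub S R HH P L hlev hij
    have hsub2 : R (j + 1) ⊆ R j := (hlev j).sub
    have heq : R i \ R (j + 1) = (R i \ R j) ∪ (R j \ R (j + 1)) := by
      ext e
      simp only [Finset.mem_sdiff, Finset.mem_union]
      constructor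
      · rintro ⟨h, h'⟩
        by_cases h3 : e ∈ R j
        · exact Or.inr ⟨h3, h'⟩
        · exact Or.inl ⟨h, h3⟩
      · rintro (⟨h, h'⟩ | ⟨h, h'⟩)
        · exact ⟨h, fun h3 => h' (hsub2 h3)⟩
        · exact ⟨hsub1 h, h'⟩
    have hd : Disjoint (R i \ R j) (R j \ R (j + 1)) := by
      rw [Finset.disjoint_left]
      intro e he he'
      rw [Finset.mem_sdiff] at he he'
      exact he.2 he'.1
    have h3 := cd_eq_union_le heq hd
    rw [Finset.sum_Ico_succ_top hij, mul_add]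
    have h4 : (cd (R i \ R (j + 1)) : ℝ) ≤ cd (R i \ R j) + cd (R j \ R (j + 1)) := by
      exact_mod_cast h3
    linarith

theorem CaseA_ind_disj {HH : Finset (Finset V)} (hdisj : (HH : Set (Finset V)).PairwiseDisjoint id)
    (R : Finset (Sym2 V)) : (HH : Set (Finset V)).PairwiseDisjoint (fun Z => ind R Z) := by
  intro Z hZ Z' hZ' hne
  show Disjoint (ind R Z) (ind R Z')
  rw [Finset.disjoint_left]
  intro e he he'
  rw [mem_ind] at he he'
  have hd : Disjoint Z Z' := hdisj hZ hZ' hne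
  induction e using Sym2.ind with
  | _ x y =>
    exact Finset.disjoint_left.mp hd (he.2 x (Sym2.mem_mk_left x y)) (he'.2 x (Sym2.mem_mk_left x y))

/-- numerical estimate for case A -/
theorem CaseA_num (n D P a r L : ℝ) (hn : 1 ≤ n) (hL : (2 : ℝ) ^ 200 ≤ L) (hP : L ^ 50 ≤ P)
    (hD : P ^ 5 ≤ D / P) (hr0 : 0 ≤ r) (hr : r ≤ n * (D * (3 * L / P) ^ 9)) (ha : n / P ≤ a) :
    L ^ 2 * P ^ 5 * r / (D / P) ≤ a / 100 ∧ L ^ 2 * P ^ 3 * r / (D / P) ≤ a / 100 ∧ a / P ≤ a / 100 ∧ 0 < a := by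
  have hL1 : (1:ℝ) ≤ L := le_trans (by norm_num) hL
  have hL0 : (0:ℝ) < L := by linarith
  have hP1 : 1 ≤ P := le_trans (one_le_pow₀ hL1) hP
  have hP0 : 0 < P := by linarith
  have hDP : 0 < D / P := lt_of_lt_of_le (by positivity) hD
  have hD0 : 0 < D := by
    have := (div_pos_iff_of_pos_right hP0).mp hDP
    exact this
  have ha0 : 0 < a := lt_of_lt_of_le (by positivity) ha
  -- L^13 ≤ P ^ 2 type facts
  have hLP : L ^ 14 ≤ P := le_trans (pow_le_pow_right₀ hL1 (by norm_num)) hP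
  have hbig : (100 : ℝ) * 3 ^ 9 ≤ L := le_trans (by norm_num) hL
  have hkey : 100 * 3 ^ 9 * L ^ 11 ≤ P := by
    calc 100 * 3 ^ 9 * L ^ 11 ≤ L * L ^ 11 := by
          apply mul_le_mul_of_nonneg_right hbig (by positivity)
      _ = L ^ 12 := by ring
      _ ≤ L ^ 14 := pow_le_pow_right₀ hL1 (by norm_num)
      _ ≤ P := hLP
  have h1 : L ^ 2 * P ^ 5 * r / (D / P) ≤ a / 100 := by
    calc L ^ 2 * P ^ 5 * r / (D / P) ≤ L ^ 2 * P ^ 5 * (n * (D * (3 * L / P) ^ 9)) / (D / P) := by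
          gcongr
      _ = (3 ^ 9 * L ^ 11) * (n / P) / P ^ 2 := by
          field_simp
      _ ≤ (3 ^ 9 * L ^ 11) * a / P ^ 2 := by gcongr
      _ ≤ a / 100 := by
          rw [div_le_div_iff₀ (by positivity) (by norm_num)]
          have : 3 ^ 9 * L ^ 11 * 100 ≤ P ^ 2 := by nlinarith
          nlinarith
  have h2 : L ^ 2 * P ^ 3 * r / (D / P) ≤ a / 100 := by
    refine le_trans ?_ h1
    have : P ^ 3 ≤ P ^ 5 := pow_le_pow_right₀ hP1 (by norm_num)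
    gcongr
  have h3 : a / P ≤ a / 100 := by
    apply div_le_div_of_nonneg_left ha0.le (by norm_num)
    have : (1:ℝ) ≤ L ^ 11 := one_le_pow₀ hL1
    nlinarith
  exact ⟨h1, h2, h3, ha0⟩

/-- TASK EG-CaseA: contraction at level `j` (`j + 8 ≤ J`).
`E = R 0` is the disjoint union of the `ind (R i) Z`, `i ≤ j+8`, `Z ∈ HH i`, and `R (j+9)`. For the hubs of level `j` take `Da Z` from `P1`,
`R° = R (j+9)` (which has no edge inside a hub of level `j`); `contraction` gives `Q Z ⊆ Da Z` and a bound for `cd (R° ∪ ⋃ Q Z)`; `P1` bounds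
`cd (ind (R j) Z \ Q Z)`. -/
theorem caseA (S : Finset V) (R : ℕ → Finset (Sym2 V)) (HH : ℕ → Finset (Finset V)) (P : ℝ) (L : ℕ)
    (hL : (2 : ℝ) ^ 200 ≤ L) (hP : (L : ℝ) ^ 50 ≤ P)
    (hlev : ∀ i, Level S (R i) (R (i + 1)) (HH i) P (lvD S.card P L i / P))
    (hR : ∀ i, ((R i).card : ℝ) ≤ S.card * lvD S.card P L i) (hS : 1 ≤ S.card)
    (hnL : 3 * (S.card : ℝ) ^ 2 ≤ 2 ^ L) (j : ℕ) (hs : ∀ i ≤ j + 8, P ^ 5 ≤ lvD S.card P L i / P)
    (τ : ℝ) (hτ : 12000 ≤ τ)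
    (IH : ∀ (S' : Finset V) (E' : Finset (Sym2 V)), Loopless E' → Supp E' S' → S'.card < S.card →
      (cd E' : ℝ) ≤ τ * S'.card)
    (ha : (S.card : ℝ) / P ≤ hubsz (HH j))
    (hA : ∑ i ∈ Finset.range (j + 9), hubsz (HH i) ≤ 512 * hubsz (HH j)) :
    (cd (R 0) : ℝ) ≤ τ * S.card := by
  classical
  obtain ⟨hP1, hL1⟩ := CaseA_P_pos hL hP
  have hP0 : 0 < P := by linarith
  have hτ0 : 0 ≤ τ := by linarith
  set D := lvD S.card P L j with hDdef
  set a := hubsz (HH j) with hadef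
  have hsj : P ^ 5 ≤ D / P := hs j (by omega)
  have hn1 : (1:ℝ) ≤ S.card := by exact_mod_cast hS
  have hlj := hlev j
  -- P1 for the hubs of level j
  have hP1h := fun Z hZ => CaseA_P1 S (R j) (R (j+1)) (HH j) P L D hL hP hlj (hR j) hnL hsj τ hτ0 IH Z hZ
  have hex : ∀ Z, ∃ Da : Finset (Sym2 V), Z ∈ HH j → (Da ⊆ ind (R j) Z ∧
      Hub Da Z (fun v => D / P + 1 / P * (dg (R j) v : ℝ)) (D / P) (1 / P) (1 / (2 ^ 52 * P)) ∧
      ∀ Q ⊆ Da, (cd (ind (R j) Z \ Q) : ℝ) ≤ (12 + 3 / 4096 * τ) * Z.card) := by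
    intro Z
    by_cases hZ : Z ∈ HH j
    · obtain ⟨_, Da, h1, h2, h3⟩ := hP1h Z hZ
      exact ⟨Da, fun _ => ⟨h1, h2, h3⟩⟩
    · exact ⟨∅, fun h => absurd h hZ⟩
  choose Da hDa using hex
  -- no edge of R (j+9) lies inside a hub
  have hsub9 : R (j + 9) ⊆ R (j + 1) := CaseA_sub S R HH P L hlev (by omega)
  have hindsub : ∀ Z ∈ HH j, ind (R j) Z ⊆ R j \ R (j + 1) := by
    intro Z hZ
    rw [hlj.cover]
    exact Finset.subset_biUnion_of_mem (fun Z => ind (R j) Z) hZ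
  have hRno : ∀ e ∈ R (j + 9), ∀ Z ∈ HH j, ¬ ∀ x ∈ e, x ∈ Z := by
    intro e he Z hZ hx
    have h1 : e ∈ ind (R j) Z := by
      rw [mem_ind]
      exact ⟨hlj.sub (hsub9 he), hx⟩
    have h2 := hindsub Z hZ h1
    rw [Finset.mem_sdiff] at h2
    exact h2.2 (hsub9 he)
  have hRsub0 : ∀ i, R i ⊆ R 0 := fun i => CaseA_sub S R HH P L hlev (Nat.zero_le i)
  -- numerics
  have hlv9 : lvD S.card P L (j + 9) = D * (3 * L / P) ^ 9 := by
    rw [hDdef, lvD, lvD, pow_add, mul_assoc]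
  have hr : ((R (j + 9)).card : ℝ) ≤ S.card * (D * (3 * L / P) ^ 9) := by
    have := hR (j + 9)
    rwa [hlv9] at this
  obtain ⟨hn1', hn2, hn3, ha0⟩ := CaseA_num S.card D P a ((R (j+9)).card) L hn1 hL hP hsj (by positivity) hr ha
  have hRcard : (R (j + 9)).card ≤ 2 ^ L := by
    have h1 : (R (j + 9)).card ≤ (R 0).card := Finset.card_le_card (hRsub0 _)
    have h2 : (R 0).card ≤ S.card ^ 2 := card_le_sq (hlev 0).loopless (hlev 0).supp
    have h3 : ((S.card ^ 2 : ℕ) : ℝ) ≤ ((2 ^ L : ℕ) : ℝ) := by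
      push_cast
      have : (0:ℝ) ≤ (S.card : ℝ) ^ 2 := by positivity
      linarith
    have h4 : S.card ^ 2 ≤ 2 ^ L := by exact_mod_cast h3
    omega
  have hs1 : 1 < D / P := by
    refine lt_of_lt_of_le ?_ hsj
    have h2 : (2:ℝ) ≤ L := le_trans (by norm_num) hL
    have h3 : (2:ℝ) ≤ P := by
      calc (2:ℝ) ≤ L := h2
        _ = L ^ 1 := (pow_one _).symm
        _ ≤ L ^ 50 := pow_le_pow_right₀ hL1 (by norm_num)
        _ ≤ P := hP
    calc (1:ℝ) < 2 ^ 5 := by norm_num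
      _ ≤ P ^ 5 := by gcongr
  obtain ⟨Q, hQ, hQc⟩ := contraction S (HH j) hlj.hsub hlj.disj Da
    (fun v => D / P + 1 / P * (dg (R j) v : ℝ)) (D / P) P L hL hP hsj
    (fun Z hZ => (hDa Z hZ).2.1) (fun Z hZ => (hP1h Z hZ).1)
    (by
      intro Z hZ v hv
      have h1 := hub_w_le_dg (hlj.hub Z hZ) hs1 (hlj.two Z hZ) hv
      have h2 := dg_lt_card (hlj.hub Z hZ).loopless (hlj.hub Z hZ).supp hv
      have h3 : (dg (ind (R j) Z) v : ℝ) ≤ Z.card := by exact_mod_cast h2.le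
      exact le_trans h1 h3)
    (by
      intro Z hZ
      have := hlj.two Z hZ
      exact Finset.card_pos.mp (by omega))
    (R (j + 9)) (fun e he => (hlev 0).loopless e (hRsub0 _ he)) (fun e he => (hlev 0).supp e (hRsub0 _ he)) hRno hRcard
    τ hτ0 IH
    (by
      show (L : ℝ) ^ 2 * P ^ 5 * (R (j+9)).card / (D / P) + a / P < a
      linarith)
  -- decomposition of the edge set
  have hQc' : (cd (R (j + 9) ∪ (HH j).biUnion Q) : ℝ) ≤ 2 * a + a / 100 + τ * (S.card - a + a / 100 + a / 100) := by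
    refine le_trans hQc ?_
    have h1 : ∑ Z ∈ HH j, ((Z.card : ℝ) + 1) ≤ 2 * a := by
      rw [hadef, hubsz, Finset.mul_sum]
      apply Finset.sum_le_sum
      intro Z hZ
      have : (2:ℝ) ≤ Z.card := by exact_mod_cast hlj.two Z hZ
      linarith
    have h2 : τ * (S.card - a + (L : ℝ) ^ 2 * P ^ 5 * (R (j+9)).card / (D / P) + a / P) ≤
        τ * (S.card - a + a / 100 + a / 100) := by
      apply mul_le_mul_of_nonneg_left _ hτ0
      linarith
    have h3 : (∑ Z ∈ HH j, (Z.card : ℝ)) = a := rfl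
    rw [h3]
    linarith
  have hlevel : (cd ((HH j).biUnion (fun Z => ind (R j) Z \ Q Z)) : ℝ) ≤ (12 + 3 / 4096 * τ) * a := by
    have hd : (HH j : Set (Finset V)).PairwiseDisjoint (fun Z => ind (R j) Z \ Q Z) := by
      intro Z hZ Z' hZ' hne
      exact Disjoint.mono Finset.sdiff_subset Finset.sdiff_subset (CaseA_ind_disj hlj.disj (R j) hZ hZ' hne)
    calc (cd ((HH j).biUnion (fun Z => ind (R j) Z \ Q Z)) : ℝ) ≤ ((∑ Z ∈ HH j, cd (ind (R j) Z \ Q Z) : ℕ) : ℝ) := by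
          exact_mod_cast cd_biUnion_le (HH j) (fun Z => ind (R j) Z \ Q Z) hd
      _ = ∑ Z ∈ HH j, (cd (ind (R j) Z \ Q Z) : ℝ) := by push_cast; rfl
      _ ≤ ∑ Z ∈ HH j, (12 + 3 / 4096 * τ) * (Z.card : ℝ) := by
          apply Finset.sum_le_sum
          intro Z hZ
          exact (hDa Z hZ).2.2 (Q Z) (hQ Z hZ)
      _ = (12 + 3 / 4096 * τ) * a := by rw [hadef, hubsz, Finset.mul_sum]
  have hr1 := CaseA_range S R HH P L hL hP hlev hR hnL (j + 8) hs τ hτ0 IH 0 j (Nat.zero_le j) (by omega)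
  have hr2 := CaseA_range S R HH P L hL hP hlev hR hnL (j + 8) hs τ hτ0 IH (j+1) (j+9) (by omega) (by omega)
  have hQR : ∀ Z ∈ HH j, Q Z ⊆ ind (R j) Z := fun Z hZ => (hQ Z hZ).trans (hDa Z hZ).1
  have hsubj : R j ⊆ R 0 := hRsub0 j
  have hsubj1 : R (j + 1) ⊆ R j := hlj.sub
  -- R 0 = (R 0 \ R j) ∪ ((R (j+1) \ R (j+9)) ∪ (level part ∪ (R (j+9) ∪ ⋃ Q)))
  have hcov : ∀ e, e ∈ R j \ R (j + 1) ↔ ∃ Z ∈ HH j, e ∈ ind (R j) Z := by
    intro e
    rw [hlj.cover]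
    simp
  have heq : R 0 = (R 0 \ R j) ∪ ((R (j+1) \ R (j+9)) ∪ ((HH j).biUnion (fun Z => ind (R j) Z \ Q Z) ∪
      (R (j + 9) ∪ (HH j).biUnion Q))) := by
    ext e
    simp only [Finset.mem_union, Finset.mem_sdiff, Finset.mem_biUnion]
    constructor
    · intro he
      by_cases h1 : e ∈ R j
      · right
        by_cases h2 : e ∈ R (j + 1)
        · by_cases h3 : e ∈ R (j + 9)
          · right; right; left; exact h3
          · left; exact ⟨h2, h3⟩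
        · right
          obtain ⟨Z, hZ, hZe⟩ := (hcov e).mp (Finset.mem_sdiff.mpr ⟨h1, h2⟩)
          by_cases h3 : e ∈ Q Z
          · right; right; exact ⟨Z, hZ, h3⟩
          · left; exact ⟨Z, hZ, hZe, h3⟩
      · left; exact ⟨he, h1⟩
    · rintro (⟨h, _⟩ | ⟨h, _⟩ | ⟨Z, hZ, h, _⟩ | h | ⟨Z, hZ, h⟩)
      · exact h
      · exact hRsub0 _ h
      · exact hRsub0 j (mem_ind.mp h).1
      · exact hRsub0 _ h
      · exact hRsub0 j (mem_ind.mp (hQR Z hZ h)).1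
  have hnot : ∀ Z ∈ HH j, ∀ e ∈ ind (R j) Z, e ∈ R j ∧ e ∉ R (j + 1) := by
    intro Z hZ e he
    have := hindsub Z hZ he
    rwa [Finset.mem_sdiff] at this
  have hd1 : Disjoint ((HH j).biUnion (fun Z => ind (R j) Z \ Q Z)) (R (j + 9) ∪ (HH j).biUnion Q) := by
    rw [Finset.disjoint_left]
    intro e he he'
    simp only [Finset.mem_union, Finset.mem_sdiff, Finset.mem_biUnion] at he he'
    obtain ⟨Z, hZ, h1, h2⟩ := he
    rcases he' with h | ⟨Z', hZ', h⟩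
    · exact (hnot Z hZ e h1).2 (hsub9 h)
    · by_cases hZZ : Z = Z'
      · subst hZZ; exact h2 h
      · exact Finset.disjoint_left.mp (CaseA_ind_disj hlj.disj (R j) hZ hZ' hZZ) h1 (hQR Z' hZ' h)
  have hd2 : Disjoint (R (j+1) \ R (j+9)) ((HH j).biUnion (fun Z => ind (R j) Z \ Q Z) ∪
      (R (j + 9) ∪ (HH j).biUnion Q)) := by
    rw [Finset.disjoint_left]
    intro e he he'
    simp only [Finset.mem_union, Finset.mem_sdiff, Finset.mem_biUnion] at he he'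
    rcases he' with ⟨Z, hZ, h, _⟩ | h | ⟨Z, hZ, h⟩
    · exact (hnot Z hZ e h).2 he.1
    · exact he.2 h
    · exact (hnot Z hZ e (hQR Z hZ h)).2 he.1
  have hd3 : Disjoint (R 0 \ R j) ((R (j+1) \ R (j+9)) ∪ ((HH j).biUnion (fun Z => ind (R j) Z \ Q Z) ∪
      (R (j + 9) ∪ (HH j).biUnion Q))) := by
    rw [Finset.disjoint_left]
    intro e he he'
    simp only [Finset.mem_union, Finset.mem_sdiff, Finset.mem_biUnion] at he he'
    rcases he' with ⟨h, _⟩ | ⟨Z, hZ, h, _⟩ | h | ⟨Z, hZ, h⟩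
    · exact he.2 (hsubj1 h)
    · exact he.2 (hnot Z hZ e h).1
    · exact he.2 (hsubj1 (hsub9 h))
    · exact he.2 (hnot Z hZ e (hQR Z hZ h)).1
  have hc1 := cd_eq_union_le heq hd3
  have hc2 := cd_union_le hd2
  have hc3 := cd_union_le hd1
  have hc : (cd (R 0) : ℝ) ≤ cd (R 0 \ R j) + (cd (R (j+1) \ R (j+9)) + (cd ((HH j).biUnion (fun Z => ind (R j) Z \ Q Z)) +
      cd (R (j + 9) ∪ (HH j).biUnion Q))) := by
    have : cd (R 0) ≤ cd (R 0 \ R j) + (cd (R (j+1) \ R (j+9)) + (cd ((HH j).biUnion (fun Z => ind (R j) Z \ Q Z)) +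
      cd (R (j + 9) ∪ (HH j).biUnion Q))) := by omega
    exact_mod_cast this
  have hsum : ∑ i ∈ Finset.range (j + 9), hubsz (HH i) =
      ∑ k ∈ Finset.Ico 0 j, hubsz (HH k) + (a + ∑ k ∈ Finset.Ico (j+1) (j+9), hubsz (HH k)) := by
    rw [Finset.range_eq_Ico, ← Finset.sum_Ico_consecutive _ (Nat.zero_le j) (by omega : j ≤ j + 9),
      Finset.sum_eq_sum_Ico_succ_bot (by omega : j < j + 9)]
  have hcoef : (0:ℝ) ≤ 12 + 3 / 4096 * τ := by positivity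
  have hfin : (12 + 3 / 4096 * τ) * ∑ i ∈ Finset.range (j + 9), hubsz (HH i) ≤ (12 + 3 / 4096 * τ) * (512 * a) :=
    mul_le_mul_of_nonneg_left hA hcoef
  rw [hsum] at hfin
  have htotal : (cd (R 0) : ℝ) ≤ (12 + 3 / 4096 * τ) * (512 * a) + (2 * a + a / 100 + τ * (S.card - a + a / 100 + a / 100)) := by
    nlinarith
  nlinarith

end Crest.Agent.EG
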