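import Crest.Agent.EG_Spec

set_option autoImplicit false

namespace Crest.Agent.EG

section CheegerAux

variable {ι : Type*} [Fintype ι] [DecidableEq ι]

open Classical in
/-- the coarea inequality -/
theorem cheeger_coarea (G : SimpleGraph ι) (w : ι → ℝ) (W : ℝ) (hw : ∀ v, 0 ≤ w v)
    (hexp : ∀ U : Finset ι, ∑ v ∈ U, w v ≤ W → ∑ v ∈ U, w v ≤ ∑ v ∈ U, (dgr G Uᶜ v : ℝ)) :
    ∀ (n : ℕ) (h : ι → ℝ), (∀ v, 0 ≤ h v) → (Finset.univ.filter (fun v => 0 < h v)).card ≤ n →
      ∑ v ∈ Finset.univ.filter (fun v => 0 < h v), w v ≤ W →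
      ∑ v, w v * h v ≤
        ∑ u, ∑ v ∈ Finset.univ.filter (fun v => G.Adj u v), max (h u - h v) 0 := by
  intro n
  induction n with
  | zero =>
    intro h h0 hc _
    have hz : ∀ v, h v = 0 := by
      intro v
      by_contra hv
      have : v ∈ Finset.univ.filter (fun v => 0 < h v) := by
        simp only [Finset.mem_filter, Finset.mem_univ, true_and]
        exact lt_of_le_of_ne (h0 v) (Ne.symm hv)
      rw [Finset.card_eq_zero.mp (Nat.le_zero.mp hc)] at this
      simp at this
    simp [hz]
  | succ n ih =>
    intro h h0 hc hW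
    set U := Finset.univ.filter (fun v => 0 < h v) with hU
    rcases U.eq_empty_or_nonempty with hUe | hUn
    · have hz : ∀ v, h v = 0 := by
        intro v
        by_contra hv
        have : v ∈ U := by
          rw [hU]
          simp only [Finset.mem_filter, Finset.mem_univ, true_and]
          exact lt_of_le_of_ne (h0 v) (Ne.symm hv)
        rw [hUe] at this
        simp at this
      simp [hz]
    · obtain ⟨v0, hv0, hmin⟩ := Finset.exists_min_image U h hUn
      have hv0pos : 0 < h v0 := by
        rw [hU] at hv0
        exact (Finset.mem_filter.mp hv0).2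
      have hmemU : ∀ v, v ∈ U ↔ 0 < h v := by
        intro v
        rw [hU]
        simp
      have hnU : ∀ v, v ∉ U → h v = 0 := by
        intro v hv
        rw [hmemU] at hv
        exact le_antisymm (not_lt.mp hv) (h0 v)
      set h' : ι → ℝ := fun v => h v - (if v ∈ U then h v0 else 0) with hh'
      have hh'0 : ∀ v, 0 ≤ h' v := by
        intro v
        rw [hh']
        by_cases hv : v ∈ U
        · simp only [hv, if_true]
          linarith [hmin v hv]
        · simp only [hv, if_false]
          linarith [h0 v]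
      have hsub : Finset.univ.filter (fun v => 0 < h' v) ⊆ U.erase v0 := by
        intro v hv
        simp only [Finset.mem_filter, Finset.mem_univ, true_and] at hv
        rw [Finset.mem_erase]
        constructor
        · rintro rfl
          rw [hh'] at hv
          simp only [hv0, if_true, sub_self, lt_self_iff_false] at hv
        · by_contra hvU
          rw [hh'] at hv
          simp only [hvU, if_false, sub_zero] at hv
          rw [hnU v hvU] at hv
          exact lt_irrefl _ hv
      have hcard : (Finset.univ.filter (fun v => 0 < h' v)).card ≤ n := by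
        have h1 := Finset.card_le_card hsub
        rw [Finset.card_erase_of_mem hv0] at h1
        omega
      have hW' : ∑ v ∈ Finset.univ.filter (fun v => 0 < h' v), w v ≤ W := by
        refine le_trans (Finset.sum_le_sum_of_subset_of_nonneg
          (hsub.trans (Finset.erase_subset _ _)) (fun v _ _ => hw v)) hW
      have hih := ih h' hh'0 hcard hW'
      have hUexp := hexp U hW
      have hL : ∑ v, w v * h v = ∑ v, w v * h' v + h v0 * ∑ v ∈ U, w v := by
        have e0 : ∑ i ∈ U, h v0 * w i = ∑ i, (if i ∈ U then h v0 * w i else 0) := by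
          rw [Finset.sum_ite_mem, Finset.univ_inter]
        rw [Finset.mul_sum, e0, ← Finset.sum_add_distrib]
        apply Finset.sum_congr rfl
        intro v _
        simp only [hh']
        by_cases hv : v ∈ U
        · simp only [hv, if_true]; ring
        · simp only [hv, if_false]; ring
      have hR : ∑ u, ∑ v ∈ Finset.univ.filter (fun v => G.Adj u v), max (h u - h v) 0 =
          ∑ u, ∑ v ∈ Finset.univ.filter (fun v => G.Adj u v), max (h' u - h' v) 0 +
            h v0 * ∑ v ∈ U, (dgr G Uᶜ v : ℝ) := by
        have e1 : ∑ v ∈ U, (dgr G Uᶜ v : ℝ) =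
            ∑ u, ∑ v ∈ Finset.univ.filter (fun v => G.Adj u v),
              (if u ∈ U ∧ v ∉ U then (1 : ℝ) else 0) := by
          have e2 : ∑ v ∈ U, (dgr G Uᶜ v : ℝ) = ∑ v, (if v ∈ U then (dgr G Uᶜ v : ℝ) else 0) := by
            rw [Finset.sum_ite_mem, Finset.univ_inter]
          rw [e2]
          apply Finset.sum_congr rfl
          intro u _
          by_cases hu : u ∈ U
          · simp only [hu, if_true, true_and]
            rw [Finset.sum_boole]
            unfold dgr
            congr 2
            ext v
            simp only [Finset.mem_filter, Finset.mem_compl, Finset.mem_univ, true_and]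
            tauto
          · simp only [hu, if_false, false_and, Finset.sum_const_zero]
        rw [e1, Finset.mul_sum, ← Finset.sum_add_distrib]
        apply Finset.sum_congr rfl
        intro u _
        rw [Finset.mul_sum, ← Finset.sum_add_distrib]
        apply Finset.sum_congr rfl
        intro v _
        by_cases hu : u ∈ U
        · by_cases hv : v ∈ U
          · simp only [hh', hu, hv, if_true, not_true_eq_false, and_false, if_false, mul_zero,
              add_zero]
            congr 1
            ring
          · have := h0 u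
            have := hmin u hu
            simp only [hh', hu, hv, if_true, not_false_eq_true, and_true, if_false, mul_one,
              hnU v hv, sub_zero]
            rw [max_eq_left (h0 u), max_eq_left (by linarith)]
            ring
        · have h1 := h0 v
          have h2 := hh'0 v
          simp only [hu, false_and, if_false, mul_zero, add_zero]
          have h3 : h' u = 0 := by
            simp only [hh', hu, if_false, sub_zero]
            exact hnU u hu
          rw [hnU u hu, h3, max_eq_right (by linarith), max_eq_right (by linarith)]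
      rw [hL, hR]
      have := mul_le_mul_of_nonneg_left hUexp hv0pos.le
      linarith

open Classical in
/-- the Poincaré inequality for nonnegative functions with small support -/
theorem cheeger_pos (G : SimpleGraph ι) (w : ι → ℝ) (s φ : ℝ) (hub : SHub G w s φ) (hs : 0 < s)
    (hφ : 0 < φ) (g : ι → ℝ) (h0 : ∀ v, 0 ≤ g v)
    (hW : ∑ v ∈ Finset.univ.filter (fun v => 0 < g v), w v ≤ (∑ v, w v) / 2) :
    φ * ∑ v, w v * g v ^ 2 ≤ enn G Finset.univ Finset.univ g := by
  have hw : ∀ v, 0 ≤ w v := fun v => hs.le.trans (hub.w_ge v)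
  have hfil : Finset.univ.filter (fun v => 0 < g v ^ 2) = Finset.univ.filter (fun v => 0 < g v) := by
    ext v
    simp only [Finset.mem_filter, Finset.mem_univ, true_and]
    constructor
    · intro h
      rcases (h0 v).lt_or_eq with h1 | h1
      · exact h1
      · rw [← h1] at h; simp at h
    · intro h; positivity
  have h1 := cheeger_coarea G w ((∑ v, w v) / 2) hw hub.exp _ (fun v => g v ^ 2)
    (fun v => sq_nonneg _) le_rfl (by rw [hfil]; exact hW)
  -- symmetrize
  have hsym : ∑ u, ∑ v ∈ Finset.univ.filter (fun v => G.Adj u v), max (g u ^ 2 - g v ^ 2) 0 =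
      ∑ u, ∑ v ∈ Finset.univ.filter (fun v => G.Adj u v), max (g v ^ 2 - g u ^ 2) 0 := by
    simp only [Finset.sum_filter]
    rw [Finset.sum_comm]
    apply Finset.sum_congr rfl
    intro u _
    apply Finset.sum_congr rfl
    intro v _
    simp only [G.adj_comm]
  have hpt : ∀ u v, φ * (max (g u ^ 2 - g v ^ 2) 0 + max (g v ^ 2 - g u ^ 2) 0) ≤
      (g u - g v) ^ 2 + φ ^ 2 / 2 * (g u ^ 2 + g v ^ 2) := by
    intro u v
    have e1 : max (g u ^ 2 - g v ^ 2) 0 + max (g v ^ 2 - g u ^ 2) 0 = |g u ^ 2 - g v ^ 2| := by
      rcases le_total (g u ^ 2) (g v ^ 2) with h | h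
      · rw [max_eq_right (by linarith), max_eq_left (by linarith), abs_of_nonpos (by linarith)]
        ring
      · rw [max_eq_left (by linarith), max_eq_right (by linarith), abs_of_nonneg (by linarith)]
        ring
    rw [e1]
    have e2 : g u ^ 2 - g v ^ 2 = (g u - g v) * (g u + g v) := by ring
    have e3 : φ * ((g u - g v) * (g u + g v)) ≤ (g u - g v) ^ 2 + φ ^ 2 / 4 * (g u + g v) ^ 2 := by
      nlinarith [sq_nonneg ((g u - g v) - φ / 2 * (g u + g v))]
    have e4 : -(φ * ((g u - g v) * (g u + g v))) ≤
        (g u - g v) ^ 2 + φ ^ 2 / 4 * (g u + g v) ^ 2 := by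
      nlinarith [sq_nonneg ((g u - g v) + φ / 2 * (g u + g v))]
    have e5 : φ ^ 2 / 4 * (g u + g v) ^ 2 ≤ φ ^ 2 / 2 * (g u ^ 2 + g v ^ 2) := by
      nlinarith [mul_nonneg (sq_nonneg φ) (sq_nonneg (g u - g v))]
    rw [e2]
    rcases abs_cases ((g u - g v) * (g u + g v)) with ⟨h, _⟩ | ⟨h, _⟩ <;> rw [h] <;> linarith
  have hsum : φ * (2 * ∑ u, ∑ v ∈ Finset.univ.filter (fun v => G.Adj u v),
      max (g u ^ 2 - g v ^ 2) 0) ≤ enn G Finset.univ Finset.univ g +
        φ ^ 2 / 2 * ∑ u, ∑ v ∈ Finset.univ.filter (fun v => G.Adj u v), (g u ^ 2 + g v ^ 2) := by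
    have e : 2 * ∑ u, ∑ v ∈ Finset.univ.filter (fun v => G.Adj u v), max (g u ^ 2 - g v ^ 2) 0 =
        ∑ u, ∑ v ∈ Finset.univ.filter (fun v => G.Adj u v),
          (max (g u ^ 2 - g v ^ 2) 0 + max (g v ^ 2 - g u ^ 2) 0) := by
      simp only [Finset.sum_add_distrib]
      rw [← hsym]; ring
    rw [e]
    unfold enn
    rw [Finset.mul_sum, Finset.mul_sum, ← Finset.sum_add_distrib]
    apply Finset.sum_le_sum
    intro u _
    rw [Finset.mul_sum, Finset.mul_sum, ← Finset.sum_add_distrib]
    apply Finset.sum_le_sum
    intro v _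
    exact hpt u v
  have hdeg : ∑ u, ∑ v ∈ Finset.univ.filter (fun v => G.Adj u v), (g u ^ 2 + g v ^ 2) =
      2 * ∑ u, (dgr G Finset.univ u : ℝ) * g u ^ 2 := by
    have a1 : ∑ u, ∑ v ∈ Finset.univ.filter (fun v => G.Adj u v), g v ^ 2 =
        ∑ u, ∑ v ∈ Finset.univ.filter (fun v => G.Adj u v), g u ^ 2 := by
      simp only [Finset.sum_filter]
      rw [Finset.sum_comm]
      apply Finset.sum_congr rfl
      intro u _
      apply Finset.sum_congr rfl
      intro v _
      simp only [G.adj_comm]
    simp only [Finset.sum_add_distrib]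
    rw [a1, ← two_mul]
    congr 1
    apply Finset.sum_congr rfl
    intro u _
    rw [Finset.sum_const, nsmul_eq_mul]
    rfl
  have hdw : φ * ∑ u, (dgr G Finset.univ u : ℝ) * g u ^ 2 ≤ ∑ v, w v * g v ^ 2 := by
    rw [Finset.mul_sum]
    apply Finset.sum_le_sum
    intro v _
    rw [← mul_assoc]
    exact mul_le_mul_of_nonneg_right (hub.w_deg v) (sq_nonneg _)
  rw [hdeg] at hsum
  have h2 := mul_le_mul_of_nonneg_left h1 hφ.le
  have h3 := mul_le_mul_of_nonneg_left hdw hφ.le
  nlinarith

open Classical in
theorem cheeger_median (w f : ι → ℝ) (hw : ∀ v, 0 ≤ w v) :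
    ∃ m : ℝ, ∑ v ∈ Finset.univ.filter (fun v => m < f v), w v ≤ (∑ v, w v) / 2 ∧
      ∑ v ∈ Finset.univ.filter (fun v => f v < m), w v ≤ (∑ v, w v) / 2 := by
  rcases isEmpty_or_nonempty ι with hemp | hne
  · exact ⟨0, by simp, by simp⟩
  have hW : 0 ≤ (∑ v, w v) / 2 := div_nonneg (Finset.sum_nonneg fun v _ => hw v) (by norm_num)
  set A := Finset.univ.filter
    (fun v0 => ∑ v ∈ Finset.univ.filter (fun v => f v0 < f v), w v ≤ (∑ v, w v) / 2) with hA
  have hAne : A.Nonempty := by
    obtain ⟨v1, _, hv1⟩ := Finset.exists_max_image Finset.univ f Finset.univ_nonempty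
    refine ⟨v1, ?_⟩
    rw [hA, Finset.mem_filter]
    refine ⟨Finset.mem_univ _, ?_⟩
    have : Finset.univ.filter (fun v => f v1 < f v) = ∅ := by
      ext v
      simp only [Finset.mem_filter, Finset.mem_univ, true_and, Finset.notMem_empty, iff_false,
        not_lt]
      exact hv1 v (Finset.mem_univ _)
    rw [this, Finset.sum_empty]
    exact hW
  obtain ⟨v0, hv0, hmin⟩ := Finset.exists_min_image A f hAne
  refine ⟨f v0, ?_, ?_⟩
  · rw [hA, Finset.mem_filter] at hv0
    exact hv0.2
  · rcases (Finset.univ.filter (fun v => f v < f v0)).eq_empty_or_nonempty with he | hn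
    · rw [he, Finset.sum_empty]; exact hW
    · obtain ⟨v1, hv1, hmax⟩ := Finset.exists_max_image _ f hn
      have hv1' : f v1 < f v0 := (Finset.mem_filter.mp hv1).2
      have hv1A : v1 ∉ A := fun h => absurd (hmin v1 h) (not_le.mpr hv1')
      rw [hA, Finset.mem_filter] at hv1A
      have h2 : (∑ v, w v) / 2 < ∑ v ∈ Finset.univ.filter (fun v => f v1 < f v), w v := by
        by_contra hcon
        exact hv1A ⟨Finset.mem_univ _, not_lt.mp hcon⟩
      have h3 : Finset.univ.filter (fun v => f v1 < f v) =
          Finset.univ.filter (fun v => ¬ f v < f v0) := by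
        ext v
        simp only [Finset.mem_filter, Finset.mem_univ, true_and, not_lt]
        constructor
        · intro h
          by_contra hcon
          have := hmax v (by
            simp only [Finset.mem_filter, Finset.mem_univ, true_and]
            exact not_le.mp hcon)
          linarith
        · intro h; linarith
      have h4 := Finset.sum_filter_add_sum_filter_not Finset.univ (fun v => f v < f v0) w
      rw [h3] at h2
      linarith

end CheegerAux

/-- TASK EG-Cheeger: Poincaré inequality. `m` = weighted median of `f`: `w{f > m} ≤ w/2`, `w{f < m} ≤ w/2`.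
For `g ≥ 0` with support of weight `≤ w/2`, coarea: `Σ_{(u,v) : g u > g v, adj} (g u² - g v²) ≥ Σ w g²` (for each level set
`{g² > r}` use `exp`; e.g. order the values, or an integral, or induction on the number of values of `g`), and Cauchy-Schwarz:
`Σ_{unordered} |g u² - g v²| ≤ (Σ (g u - g v)²)^{1/2} (Σ (g u + g v)²)^{1/2} ≤ E(g)^{1/2} (2 Σ deg g²)^{1/2} ≤ E(g)^{1/2} ((2/φ) Σ w g²)^{1/2}`,
so `φ/2 Σ w g² ≤ E(g)` (unordered energy), i.e. `φ Σ w g² ≤ enn g`. Apply to `g = (f - m)⁺` and `(f - m)⁻`,
`(f u - f v)² ≥ (f⁺u - f⁺v)² + (f⁻u - f⁻v)²`. -/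
theorem cheeger {ι : Type*} [Fintype ι] [DecidableEq ι] (G : SimpleGraph ι) (w : ι → ℝ) (s φ : ℝ)
    (hub : SHub G w s φ) (hs : 0 < s) (hφ : 0 < φ) (f : ι → ℝ) :
    ∃ m : ℝ, φ * ∑ v, w v * (f v - m) ^ 2 ≤ enn G Finset.univ Finset.univ f := by
  classical
  have hw : ∀ v, 0 ≤ w v := fun v => hs.le.trans (hub.w_ge v)
  obtain ⟨m, hm1, hm2⟩ := cheeger_median w f hw
  refine ⟨m, ?_⟩
  have hp := cheeger_pos G w s φ hub hs hφ (fun v => max (f v - m) 0) (fun v => le_max_right _ _) (by
    refine le_trans (le_of_eq ?_) hm1
    congr 1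
    ext v
    simp)
  have hn := cheeger_pos G w s φ hub hs hφ (fun v => max (m - f v) 0) (fun v => le_max_right _ _) (by
    refine le_trans (le_of_eq ?_) hm2
    congr 1
    ext v
    simp)
  have e1 : ∑ v, w v * (f v - m) ^ 2 =
      ∑ v, w v * (max (f v - m) 0) ^ 2 + ∑ v, w v * (max (m - f v) 0) ^ 2 := by
    rw [← Finset.sum_add_distrib]
    apply Finset.sum_congr rfl
    intro v _
    rcases le_total (f v) m with h | h
    · rw [max_eq_right (by linarith), max_eq_left (by linarith)]; ring
    · rw [max_eq_left (by linarith), max_eq_right (by linarith)]; ring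
  have e2 : enn G Finset.univ Finset.univ (fun v => max (f v - m) 0) +
      enn G Finset.univ Finset.univ (fun v => max (m - f v) 0) ≤
      enn G Finset.univ Finset.univ f := by
    unfold enn
    rw [← Finset.sum_add_distrib]
    apply Finset.sum_le_sum
    intro u _
    rw [← Finset.sum_add_distrib]
    apply Finset.sum_le_sum
    intro v _
    simp only
    rcases le_total (f u) m with h | h <;> rcases le_total (f v) m with h' | h'
    · rw [max_eq_right (by linarith), max_eq_right (by linarith), max_eq_left (by linarith),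
        max_eq_left (by linarith)]
      nlinarith
    · rw [max_eq_right (by linarith), max_eq_left (by linarith), max_eq_left (by linarith),
        max_eq_right (by linarith)]
      nlinarith [mul_nonneg (sub_nonneg.mpr h) (sub_nonneg.mpr h')]
    · rw [max_eq_left (by linarith), max_eq_right (by linarith), max_eq_right (by linarith),
        max_eq_left (by linarith)]
      nlinarith [mul_nonneg (sub_nonneg.mpr h) (sub_nonneg.mpr h')]
    · rw [max_eq_left (by linarith), max_eq_left (by linarith), max_eq_right (by linarith),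
        max_eq_right (by linarith)]
      nlinarith
  rw [e1, mul_add]
  linarith

end Crest.Agent.EG
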