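import Crest.Agent.EG_Defs

set_option autoImplicit false

namespace Crest.Agent.EG

variable {V : Type*}

/-! TASK EG-List: API of `pE` and `cycE`. -/

theorem pE_append_cons (l₁ : List V) (x : V) (l₂ : List V) :
    pE (l₁ ++ x :: l₂) = pE (l₁ ++ [x]) ++ pE (x :: l₂) := by
  induction l₁ with
  | nil => simp [pE]
  | cons a l₁ ih =>
    cases l₁ with
    | nil => simp [pE]
    | cons b l₁ =>
      simp only [List.cons_append, pE] at ih ⊢
      rw [ih]

theorem pE_append (l₁ l₂ : List V) (a b : V) (h₁ : l₁.getLast? = some a) (h₂ : l₂.head? = some b) :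
    pE (l₁ ++ l₂) = pE l₁ ++ s(a, b) :: pE l₂ := by
  obtain ⟨l₂', rfl⟩ : ∃ l₂', l₂ = b :: l₂' := by
    cases l₂ with
    | nil => simp at h₂
    | cons c l₂ =>
      simp only [List.head?_cons, Option.some.injEq] at h₂
      exact ⟨l₂, by rw [h₂]⟩
  induction l₁ with
  | nil => simp at h₁
  | cons c l₁ ih =>
    cases l₁ with
    | nil =>
      simp only [List.getLast?_singleton, Option.some.injEq] at h₁
      subst h₁
      simp [pE]
    | cons d l₁ =>
      have h3 : (d :: l₁).getLast? = some a := by simpa using h₁
      have := ih h3
      simp only [List.cons_append, pE] at this ⊢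
      rw [this]

theorem pE_reverse (l : List V) : pE l.reverse = (pE l).reverse := by
  induction l with
  | nil => simp [pE]
  | cons a l ih =>
    cases l with
    | nil => simp [pE]
    | cons b l =>
      have e : (a :: b :: l).reverse = l.reverse ++ b :: [a] := by simp
      rw [e, pE_append_cons]
      have e2 : l.reverse ++ [b] = (b :: l).reverse := by simp
      rw [e2, ih]
      simp only [pE, List.reverse_cons, Sym2.eq_swap (a := b) (b := a)]

theorem mem_of_mem_pE {l : List V} {e : Sym2 V} (he : e ∈ pE l) {x : V} (hx : x ∈ e) : x ∈ l := by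
  induction l with
  | nil => simp [pE] at he
  | cons a l ih =>
    cases l with
    | nil => simp [pE] at he
    | cons b l =>
      simp only [pE, List.mem_cons] at he
      rcases he with rfl | he
      · rcases Sym2.mem_iff.1 hx with rfl | rfl
        · simp
        · simp
      · exact List.mem_cons_of_mem _ (ih he)

theorem mem_pE_iff {l : List V} {e : Sym2 V} :
    e ∈ pE l ↔ ∃ (l₁ l₂ : List V) (a b : V), l = l₁ ++ a :: b :: l₂ ∧ e = s(a, b) := by
  constructor
  · intro he
    induction l with
    | nil => simp [pE] at he
    | cons a l ih =>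
      cases l with
      | nil => simp [pE] at he
      | cons b l =>
        simp only [pE, List.mem_cons] at he
        rcases he with rfl | he
        · exact ⟨[], l, a, b, rfl, rfl⟩
        · obtain ⟨l₁, l₂, c, d, h1, h2⟩ := ih he
          exact ⟨a :: l₁, l₂, c, d, by rw [h1]; rfl, h2⟩
  · rintro ⟨l₁, l₂, a, b, rfl, rfl⟩
    rw [pE_append_cons]
    simp [pE]

theorem length_pE (l : List V) : (pE l).length = l.length - 1 := by
  induction l with
  | nil => simp [pE]
  | cons a l ih =>
    cases l with
    | nil => simp [pE]
    | cons b l =>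
      simp only [pE, List.length_cons] at ih ⊢
      rw [ih]
      omega

theorem nodup_pE {l : List V} (h : l.Nodup) : (pE l).Nodup := by
  induction l with
  | nil => simp [pE]
  | cons a l ih =>
    cases l with
    | nil => simp [pE]
    | cons b l =>
      simp only [pE, List.nodup_cons] at ih ⊢
      rw [List.nodup_cons] at h
      refine ⟨fun hmem => ?_, ih (by simpa using h.2)⟩
      exact h.1 (mem_of_mem_pE hmem (by simp))

theorem not_isDiag_of_mem_pE {l : List V} (h : l.Nodup) {e : Sym2 V} (he : e ∈ pE l) : ¬ e.IsDiag := by
  obtain ⟨l₁, l₂, a, b, rfl, rfl⟩ := mem_pE_iff.1 he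
  have h2 := (List.nodup_append.1 h).2.1
  rw [List.nodup_cons] at h2
  rw [Sym2.mk_isDiag_iff]
  rintro rfl
  exact h2.1 (by simp)

theorem cycE_eq {l : List V} {a b : V} (h₁ : l.head? = some a) (h₂ : l.getLast? = some b) :
    cycE l = pE l ++ [s(b, a)] := by
  obtain ⟨l', rfl⟩ : ∃ l', l = a :: l' := by
    cases l with
    | nil => simp at h₁
    | cons c l =>
      simp only [List.head?_cons, Option.some.injEq] at h₁
      exact ⟨l, by rw [h₁]⟩
  unfold cycE
  have e : (a :: l').take 1 = [a] := by simp
  rw [e, pE_append _ _ b a h₂ rfl]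
  simp [pE]

theorem length_cycE (l : List V) : (cycE l).length = l.length := by
  cases l with
  | nil => simp [cycE, pE]
  | cons a l =>
    obtain ⟨b, hb⟩ : ∃ b, (a :: l).getLast? = some b := by
      rw [← Option.isSome_iff_exists]
      simp
    rw [cycE_eq rfl hb, List.length_append, length_pE]
    simp

theorem nodup_cycE {l : List V} (h : l.Nodup) (h3 : 3 ≤ l.length) : (cycE l).Nodup := by
  obtain ⟨a, b, l', rfl⟩ : ∃ a b l', l = a :: b :: l' := by
    rcases l with _ | ⟨a, _ | ⟨b, l⟩⟩
    · simp at h3
    · simp at h3
    · exact ⟨a, b, l, rfl⟩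
  have hne : l' ≠ [] := by
    rintro rfl
    simp at h3
  obtain ⟨l'', c, rfl⟩ : ∃ l'' c, l' = l'' ++ [c] := ⟨l'.dropLast, l'.getLast hne,
    (List.dropLast_append_getLast hne).symm⟩
  have hlast : (a :: b :: (l'' ++ [c])).getLast? = some c := by
    have : a :: b :: (l'' ++ [c]) = (a :: b :: l'') ++ [c] := by simp
    rw [this, List.getLast?_concat]
  rw [cycE_eq rfl hlast]
  rw [List.nodup_append]
  refine ⟨nodup_pE h, by simp, ?_⟩
  intro e he e' he'
  simp only [List.mem_singleton] at he'
  subst he'
  rintro rfl
  -- `s(c,a)` is an edge of the path: the edge at `a` is `s(a,b)` only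
  simp only [pE, List.mem_cons] at he
  rw [List.nodup_cons, List.nodup_cons] at h
  rcases he with he | he
  · rw [Sym2.eq_iff] at he
    rcases he with ⟨h1, h2⟩ | ⟨h1, h2⟩
    · apply h.1
      rw [← h1]
      simp
    · apply h.2.1
      rw [← h1]
      simp
  · exact h.1 (mem_of_mem_pE he (by simp))

theorem not_isDiag_of_mem_cycE {l : List V} (h : l.Nodup) (h2 : 2 ≤ l.length) {e : Sym2 V}
    (he : e ∈ cycE l) : ¬ e.IsDiag := by
  obtain ⟨a, l', rfl⟩ : ∃ a l', l = a :: l' := by
    cases l with
    | nil => simp at h2
    | cons a l => exact ⟨a, l, rfl⟩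
  have hne : l' ≠ [] := by
    rintro rfl
    simp at h2
  obtain ⟨l'', c, rfl⟩ : ∃ l'' c, l' = l'' ++ [c] := ⟨l'.dropLast, l'.getLast hne,
    (List.dropLast_append_getLast hne).symm⟩
  have hlast : (a :: (l'' ++ [c])).getLast? = some c := by
    have : a :: (l'' ++ [c]) = (a :: l'') ++ [c] := by simp
    rw [this, List.getLast?_concat]
  rw [cycE_eq rfl hlast, List.mem_append] at he
  rcases he with he | he
  · exact not_isDiag_of_mem_pE h he
  · simp only [List.mem_singleton] at he
    subst he
    rw [Sym2.mk_isDiag_iff]
    rintro rfl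
    rw [List.nodup_cons] at h
    exact h.1 (by simp)

theorem mem_of_mem_cycE {l : List V} {e : Sym2 V} (he : e ∈ cycE l) {x : V} (hx : x ∈ e) : x ∈ l := by
  unfold cycE at he
  have := mem_of_mem_pE he hx
  rw [List.mem_append] at this
  rcases this with h | h
  · exact h
  · exact List.mem_of_mem_take h

/-- every vertex of a path list with at least 2 vertices lies on an edge -/
theorem exists_mem_pE {l : List V} (h2 : 2 ≤ l.length) {x : V} (hx : x ∈ l) : ∃ e ∈ pE l, x ∈ e := by
  induction l with
  | nil => simp at hx
  | cons a l ih =>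
    cases l with
    | nil => simp at h2
    | cons b l =>
      rcases List.mem_cons.1 hx with rfl | hx
      · exact ⟨s(x, b), by simp [pE], by simp⟩
      · cases l with
        | nil =>
          simp only [List.mem_singleton] at hx
          subst hx
          exact ⟨s(a, x), by simp [pE], by simp⟩
        | cons c l =>
          obtain ⟨e, he, hxe⟩ := ih (by simp) hx
          exact ⟨e, by simp only [pE, List.mem_cons] at he ⊢; exact Or.inr he, hxe⟩

/-- every walk contains a path with the same ends whose edges and vertices are among those of the walk -/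
theorem exists_path_of_walk (l : List V) (a b : V) (h₁ : l.head? = some a) (h₂ : l.getLast? = some b) :
    ∃ l' : List V, l'.Nodup ∧ l'.head? = some a ∧ l'.getLast? = some b ∧ l'.length ≤ l.length ∧
      (∀ x ∈ l', x ∈ l) ∧ ∀ e ∈ pE l', e ∈ pE l := by
  classical
  induction l generalizing a with
  | nil => simp at h₁
  | cons c l ih =>
    simp only [List.head?_cons, Option.some.injEq] at h₁
    subst h₁
    cases l with
    | nil =>
      simp only [List.getLast?_singleton, Option.some.injEq] at h₂
      subst h₂
      exact ⟨[c], by simp, rfl, rfl, le_rfl, fun x hx => hx, fun e he => he⟩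
    | cons d l =>
      obtain ⟨l', hnd, hh, hlast, hlen, hsub, hedge⟩ := ih d rfl (by simpa using h₂)
      by_cases hc : c ∈ l'
      · obtain ⟨s, t, rfl⟩ := List.append_of_mem hc
        refine ⟨c :: t, (List.nodup_append.1 hnd).2.1, rfl, ?_, ?_, ?_, ?_⟩
        · rw [List.getLast?_append] at hlast
          simpa using hlast
        · simp only [List.length_append, List.length_cons] at hlen ⊢
          omega
        · intro x hx
          exact List.mem_cons_of_mem _ (hsub x (List.mem_append_right _ hx))
        · intro e he
          simp only [pE, List.mem_cons]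
          right
          refine hedge e ?_
          rw [pE_append_cons]
          exact List.mem_append_right _ he
      · obtain ⟨l'', rfl⟩ : ∃ l'', l' = d :: l'' := by
          cases l' with
          | nil => simp at hh
          | cons x l' =>
            simp only [List.head?_cons, Option.some.injEq] at hh
            exact ⟨l', by rw [hh]⟩
        refine ⟨c :: d :: l'', List.nodup_cons.2 ⟨hc, hnd⟩, rfl, by simpa using hlast, ?_, ?_, ?_⟩
        · simp only [List.length_cons] at hlen ⊢
          omega
        · intro x hx
          rcases List.mem_cons.1 hx with rfl | hx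
          · simp
          · exact List.mem_cons_of_mem _ (hsub x hx)
        · intro e he
          simp only [pE, List.mem_cons] at he ⊢
          rcases he with he | he
          · exact Or.inl he
          · exact Or.inr (hedge e he)

end Crest.Agent.EG
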