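import Crest.Agent.EG_Ins

set_option autoImplicit false

namespace Crest.Agent.EG

variable {V : Type*} [DecidableEq V]

/-- parity of the number of edges at `y` along a walk -/
theorem path_parity (l : List V) (u v : V) (hu : l.head? = some u) (hv : l.getLast? = some v)
    (hl : ∀ e ∈ pE l, ¬ e.IsDiag) (y : V) :
    ((pE l).countP (fun e => decide (y ∈ e)) : ZMod 2) =
      (if y = u then 1 else 0) + (if y = v then 1 else 0) := by
  induction l generalizing u with
  | nil => simp at hu
  | cons a l ih =>
    cases l with
    | nil =>
      simp only [List.head?_cons, Option.some.injEq] at hu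
      simp only [List.getLast?_singleton, Option.some.injEq] at hv
      subst hu; subst hv
      simp only [pE, List.countP_nil, Nat.cast_zero]
      split_ifs
      · decide
      · simp
    | cons b l =>
      simp only [List.head?_cons, Option.some.injEq] at hu
      subst hu
      have h1 := ih b rfl (by simpa using hv) (fun e he => hl e (by simp [pE, he]))
      have hab : a ≠ b := by
        have := hl s(a, b) (by simp [pE])
        simpa using this
      simp only [pE, List.countP_cons, Nat.cast_add, h1]
      by_cases hya : y = a
      · subst hya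
        simp only [Sym2.mem_iff, true_or, decide_true, if_true, Nat.cast_one, hab, if_false, zero_add]
        ring
      · by_cases hyb : y = b
        · subst hyb
          simp only [Sym2.mem_iff, or_true, decide_true, if_true, Nat.cast_one, hya, if_false, zero_add]
          have : (1 : ZMod 2) + 1 = 0 := by decide
          linear_combination this
        · simp [hya, hyb]

/-- reinserting the edges of a trail -/
theorem reinsert (W : Finset V) (l : List V) :
    ∀ (H : Finset (Sym2 V)) (p : V → List V) (u v : V), l.head? = some u → l.getLast? = some v →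
      PFam W H p → (∀ x ∈ l, x ∈ W) → (pE l).Nodup → (∀ e ∈ pE l, ¬ e.IsDiag) →
      (∀ e ∈ pE l, e ∉ H) → (∀ y ∈ W, 1 ≤ ends W p y) → 2 ≤ ends W p u →
      ∃ p' : V → List V, PFam W (H ∪ (pE l).toFinset) p' ∧
        ∀ y ∈ W, ends W p' y + (if y = u then 1 else 0) = ends W p y + (if y = v then 1 else 0) := by
  induction l with
  | nil => intro H p u v hu; simp at hu
  | cons a l ih =>
    intro H p u v hu hv hp hW hnd hdiag hnot hend hend2
    simp only [List.head?_cons, Option.some.injEq] at hu
    subst hu
    cases l with
    | nil =>
      simp only [List.getLast?_singleton, Option.some.injEq] at hv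
      subst hv
      refine ⟨p, ?_, fun y _ => rfl⟩
      simpa [pE] using hp
    | cons b l =>
      have hab : a ≠ b := by
        have := hdiag s(a, b) (by simp [pE])
        simpa using this
      have ha : a ∈ W := hW a (by simp)
      have hb : b ∈ W := hW b (by simp)
      have hbaH : s(b, a) ∉ H := by
        have := hnot s(a, b) (by simp [pE])
        rwa [Sym2.eq_swap] at this
      obtain ⟨p1, hp1, he1⟩ := insert_edge W H p hp b a hb ha hab.symm hbaH
        (fun y hy _ => hend y hy)
      have hnd' : (pE (b :: l)).Nodup ∧ s(a, b) ∉ pE (b :: l) := by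
        simp only [pE, List.nodup_cons] at hnd
        exact ⟨hnd.2, hnd.1⟩
      obtain ⟨p2, hp2, he2⟩ := ih (insert s(b, a) H) p1 b v rfl (by simpa using hv) hp1
        (fun x hx => hW x (List.mem_cons_of_mem _ hx)) hnd'.1
        (fun e he => hdiag e (by simp [pE, he]))
        (by
          intro e he hmem
          rcases Finset.mem_insert.1 hmem with h | h
          · rw [h, Sym2.eq_swap] at he
            exact hnd'.2 he
          · exact hnot e (by simp [pE, he]) h)
        (by
          intro y hy
          have := he1 y hy
          have h3 := hend y hy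
          by_cases hya : y = a
          · subst hya
            simp only [if_true, hab, if_false] at this
            omega
          · simp only [hya, if_false] at this
            omega)
        (by
          have := he1 b hb
          have h3 := hend b hb
          simp only [hab.symm, if_false, if_true] at this
          omega)
      refine ⟨p2, ?_, ?_⟩
      · have : insert s(b, a) H ∪ (pE (b :: l)).toFinset = H ∪ (pE (a :: b :: l)).toFinset := by
          simp only [pE, List.toFinset_cons]
          rw [Sym2.eq_swap (a := b) (b := a)]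
          ext e
          simp only [Finset.mem_union, Finset.mem_insert]
          tauto
        rw [← this]
        exact hp2
      · intro y hy
        have h1 := he1 y hy
        have h2 := he2 y hy
        omega

/-- a maximal trail (growing at the head) -/
theorem exists_max_trail (H : Finset (Sym2 V)) (v : V) :
    ∃ (l : List V) (u : V), l.head? = some u ∧ l.getLast? = some v ∧ (pE l).Nodup ∧
      (∀ e ∈ pE l, e ∈ H) ∧ ∀ e ∈ H, u ∈ e → e ∈ pE l := by
  classical
  let Q : ℕ → Prop := fun n => ∃ l : List V, l.length = n ∧ l.getLast? = some v ∧ (pE l).Nodup ∧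
    ∀ e ∈ pE l, e ∈ H
  have hbound : ∀ n, Q n → n ≤ H.card + 1 := by
    rintro n ⟨l, hl, _, hnd, hsub⟩
    have h1 : (pE l).toFinset ⊆ H := by
      intro e he
      exact hsub e (List.mem_toFinset.1 he)
    have h2 := Finset.card_le_card h1
    rw [List.toFinset_card_of_nodup hnd, length_pE] at h2
    omega
  have hQ1 : Q 1 := ⟨[v], rfl, rfl, by simp [pE], by simp [pE]⟩
  obtain ⟨n, hn, hmax⟩ : ∃ n, Q n ∧ ∀ m, Q m → m ≤ n := by
    refine ⟨Nat.findGreatest Q (H.card + 1), ?_, ?_⟩
    · exact Nat.findGreatest_spec (m := 1) (by omega) hQ1
    · intro m hm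
      exact Nat.le_findGreatest (hbound m hm) hm
  obtain ⟨l, hl, hlast, hnd, hsub⟩ := hn
  have hne : l ≠ [] := by
    rintro rfl
    simp at hlast
  obtain ⟨u, l', rfl⟩ := List.exists_cons_of_ne_nil hne
  refine ⟨u :: l', u, rfl, hlast, hnd, hsub, ?_⟩
  intro e he hue
  by_contra hcon
  obtain ⟨w, rfl⟩ := hue
  have : Q (n + 1) := by
    refine ⟨w :: u :: l', by simp [hl], ?_, ?_, ?_⟩
    · simpa using hlast
    · simp only [pE, List.nodup_cons]
      refine ⟨?_, hnd⟩
      rwa [Sym2.eq_swap]
    · intro e' he'
      simp only [pE, List.mem_cons] at he'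
      rcases he' with rfl | h
      · rwa [Sym2.eq_swap]
      · exact hsub e' h
  have := hmax _ this
  omega

theorem dg_eq_countP (l : List V) (hnd : (pE l).Nodup) (y : V) :
    dg (pE l).toFinset y = (pE l).countP (fun e => decide (y ∈ e)) := by
  classical
  unfold dg
  rw [List.countP_eq_length_filter, ← List.toFinset_card_of_nodup (hnd.filter _)]
  congr 1
  ext e
  simp

theorem dg_sdiff {H T : Finset (Sym2 V)} (h : T ⊆ H) (y : V) : dg (H \ T) y + dg T y = dg H y := by
  classical
  unfold dg
  rw [← Finset.card_union_of_disjoint]
  · congr 1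
    ext e
    simp only [Finset.mem_union, Finset.mem_filter, Finset.mem_sdiff]
    constructor
    · rintro (⟨⟨h1, _⟩, h3⟩ | ⟨h1, h2⟩)
      · exact ⟨h1, h3⟩
      · exact ⟨h h1, h2⟩
    · rintro ⟨h1, h2⟩
      by_cases h3 : e ∈ T
      · exact Or.inr ⟨h3, h2⟩
      · exact Or.inl ⟨⟨h1, h3⟩, h2⟩
  · rw [Finset.disjoint_left]
    intro e he he'
    simp only [Finset.mem_filter, Finset.mem_sdiff] at he he'
    exact he.1.2 he'.1

/-- the strong form -/
theorem path_decomp_strong (W : Finset V) (n : ℕ) : ∀ (H : Finset (Sym2 V)), H.card = n →
    Loopless H → Supp H W →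
    ∃ p : V → List V, PFam W H p ∧ ∀ v ∈ W, (Even (dg H v) → ends W p v = 2) ∧
      (¬ Even (dg H v) → ends W p v = 1 ∨ ends W p v = 3) := by
  classical
  induction n using Nat.strong_induction_on with
  | _ n ih =>
  intro H hcard hl hs
  by_cases hH : H = ∅
  · subst hH
    refine ⟨fun i => [i], ⟨by simp, by simp, ?_, ?_, ?_⟩, ?_⟩
    · intro i hi x hx
      simp only [List.mem_singleton] at hx
      subst hx; exact hi
    · intro i _ j _ _
      simp [pE]
    · ext e; simp [pE]
    · intro v hv
      have h1 : ends W (fun i => [i]) v = 2 := by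
        unfold ends
        have : W.filter (fun i => ([i] : List V).head? = some v) = {v} := by
          ext i
          simp only [List.head?_cons, Option.some.injEq, Finset.mem_filter, Finset.mem_singleton]
          constructor
          · rintro ⟨_, h⟩; exact h
          · rintro rfl; exact ⟨hv, rfl⟩
        have h2 : W.filter (fun i => ([i] : List V).getLast? = some v) = {v} := by
          ext i
          simp only [List.getLast?_singleton, Option.some.injEq, Finset.mem_filter,
            Finset.mem_singleton]
          constructor
          · rintro ⟨_, h⟩; exact h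
          · rintro rfl; exact ⟨hv, rfl⟩
        rw [this, h2]
        simp
      refine ⟨fun _ => h1, fun h => ?_⟩
      exfalso
      apply h
      simp [dg]
  -- choose the start
  obtain ⟨v, hvne, hvodd⟩ : ∃ v : V, (∃ e ∈ H, v ∈ e) ∧
      ((∃ w, ¬ Even (dg H w)) → ¬ Even (dg H v)) := by
    by_cases hodd : ∃ w, ¬ Even (dg H w)
    · obtain ⟨w, hw⟩ := hodd
      refine ⟨w, ?_, fun _ => hw⟩
      by_contra hcon
      push Not at hcon
      apply hw
      have : dg H w = 0 := by
        unfold dg
        rw [Finset.card_eq_zero]
        ext e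
        simp only [Finset.mem_filter, Finset.notMem_empty, iff_false]
        exact fun he => hcon e he.1 he.2
      rw [this]; exact Even.zero
    · obtain ⟨e, he⟩ := Finset.nonempty_iff_ne_empty.2 hH
      induction e with
      | _ a b => exact ⟨a, ⟨s(a, b), he, by simp⟩, fun h => absurd h hodd⟩
  obtain ⟨l, u, hu, hv, hnd, hsub, hall⟩ := exists_max_trail H v
  have hT : (pE l).toFinset ⊆ H := fun e he => hsub e (List.mem_toFinset.1 he)
  have hdiag : ∀ e ∈ pE l, ¬ e.IsDiag := fun e he => hl e (hsub e he)
  -- the trail is nonempty
  have hlne : pE l ≠ [] := by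
    intro h0
    obtain ⟨e, he, hve⟩ := hvne
    have h2 : l.length ≤ 1 := by
      have := length_pE l
      rw [h0] at this
      simp at this
      omega
    have huv : u = v := by
      rcases l with _ | ⟨a, _ | ⟨b, l⟩⟩
      · simp at hu
      · simp only [List.head?_cons, Option.some.injEq] at hu
        simp only [List.getLast?_singleton, Option.some.injEq] at hv
        rw [← hu, hv]
      · simp at h2
    have := hall e he (by rw [huv]; exact hve)
    rw [h0] at this
    simp at this
  set T := (pE l).toFinset with hTdef
  have hTne : T.Nonempty := by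
    obtain ⟨e, he⟩ := List.exists_mem_of_ne_nil _ hlne
    exact ⟨e, List.mem_toFinset.2 he⟩
  have hpar : ∀ y, (dg T y : ZMod 2) = (if y = u then 1 else 0) + (if y = v then 1 else 0) := by
    intro y
    rw [hTdef, dg_eq_countP l hnd y]
    exact path_parity l u v hu hv hdiag y
  have hdgu : dg H u = dg T u := by
    unfold dg
    congr 1
    ext e
    simp only [Finset.mem_filter]
    constructor
    · rintro ⟨h1, h2⟩
      exact ⟨List.mem_toFinset.2 (hall e h1 h2), h2⟩
    · rintro ⟨h1, h2⟩
      exact ⟨hT h1, h2⟩
  -- membership in W
  have hmemW : ∀ x ∈ l, x ∈ W := by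
    intro x hx
    by_cases h2 : 2 ≤ l.length
    · obtain ⟨e, he, hxe⟩ := exists_mem_pE h2 hx
      exact hs e (hsub e he) x hxe
    · exfalso
      apply hlne
      rcases l with _ | ⟨a, _ | ⟨b, l⟩⟩
      · simp at hu
      · rfl
      · simp at h2
  have huW : u ∈ W := hmemW u (List.mem_of_mem_head? hu)
  have hvW : v ∈ W := hmemW v (List.mem_of_getLast? hv)
  -- induction
  obtain ⟨p, hp, hends⟩ := ih (H \ T).card (by
      rw [← hcard]
      exact Finset.card_lt_card (Finset.sdiff_ssubset hT hTne)) (H \ T) rfl
    (fun e he => hl e (Finset.sdiff_subset he)) (fun e he => hs e (Finset.sdiff_subset he))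
  -- parity of H \ T
  have hparHT : ∀ y, (dg (H \ T) y : ZMod 2) = (dg H y : ZMod 2) +
      ((if y = u then 1 else 0) + (if y = v then 1 else 0)) := by
    intro y
    have h1 := dg_sdiff hT y
    have h2 : (dg (H \ T) y : ZMod 2) + dg T y = dg H y := by rw [← h1]; push_cast; rfl
    rw [hpar y] at h2
    have h3 : ((if y = u then 1 else 0) + (if y = v then 1 else 0) : ZMod 2) +
        ((if y = u then 1 else 0) + (if y = v then 1 else 0)) = 0 := CharTwo.add_self_eq_zero _
    linear_combination h2 + (-1 : ZMod 2) * h3
  have heven : ∀ (E' : Finset (Sym2 V)) y, Even (dg E' y) ↔ (dg E' y : ZMod 2) = 0 := by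
    intro E' y
    rw [ZMod.natCast_eq_zero_iff_even]
  -- all ends at least one, `ends u ≥ 2`
  have hge1 : ∀ y ∈ W, 1 ≤ ends W p y := by
    intro y hy
    by_cases he : Even (dg (H \ T) y)
    · rw [(hends y hy).1 he]; omega
    · rcases (hends y hy).2 he with h | h <;> omega
  have hu_even : Even (dg (H \ T) u) := by
    rw [heven, hparHT u, hdgu, hpar u]
    exact CharTwo.add_self_eq_zero _
  have hu2 : ends W p u = 2 := (hends u huW).1 hu_even
  obtain ⟨p', hp', he'⟩ := reinsert W l (H \ T) p u v hu hv hp hmemW hnd hdiag
    (fun e he hmem => (Finset.mem_sdiff.1 hmem).2 (List.mem_toFinset.2 he)) hge1 (by omega)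
  have hunion : H \ T ∪ (pE l).toFinset = H := Finset.sdiff_union_of_subset hT
  rw [hunion] at hp'
  refine ⟨p', hp', ?_⟩
  by_cases huv : u = v
  · -- closed trail: everything has the same parity
    intro y hy
    have h1 := he' y hy
    rw [← huv] at h1
    have h2 : ends W p' y = ends W p y := by omega
    have h3 : (dg (H \ T) y : ZMod 2) = dg H y := by
      rw [hparHT y, ← huv, CharTwo.add_self_eq_zero, add_zero]
    rw [heven H y, ← h3, ← heven, h2]
    exact hends y hy
  · have hv_even : Even (dg (H \ T) v) := by
      by_cases hodd : ∃ w, ¬ Even (dg H w)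
      · have h4 := hvodd hodd
        rw [heven, hparHT v]
        have h5 : (dg H v : ZMod 2) = 1 := by
          rw [heven] at h4
          have : ∀ a : ZMod 2, a ≠ 0 → a = 1 := by decide
          exact this _ h4
        rw [h5, if_neg (Ne.symm huv), if_pos rfl]
        decide
      · exfalso
        push Not at hodd
        have h4 := hodd u
        rw [heven, hdgu, hpar u, if_pos rfl, if_neg huv] at h4
        exact absurd h4 (by decide)
    have hv2 : ends W p v = 2 := (hends v hvW).1 hv_even
    intro y hy
    have h1 := he' y hy
    by_cases hyu : y = u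
    · subst hyu
      rw [if_pos rfl, if_neg huv] at h1
      have h3 : ¬ Even (dg H y) := by
        rw [heven, hdgu, hpar y, if_pos rfl, if_neg huv]
        decide
      exact ⟨fun h => absurd h h3, fun _ => Or.inl (by omega)⟩
    · by_cases hyv : y = v
      · subst hyv
        rw [if_neg hyu, if_pos rfl] at h1
        have h3 : ¬ Even (dg H y) := by
          intro h4
          rw [heven] at h4 hv_even
          rw [hparHT y, h4, if_neg hyu, if_pos rfl] at hv_even
          exact absurd hv_even (by decide)
        exact ⟨fun h => absurd h h3, fun _ => Or.inr (by omega)⟩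
      · rw [if_neg hyu, if_neg hyv] at h1
        have h2 : ends W p' y = ends W p y := by omega
        have h3 : (dg (H \ T) y : ZMod 2) = dg H y := by
          rw [hparHT y, if_neg hyu, if_neg hyv]; ring
        rw [heven H y, ← h3, ← heven, h2]
        exact hends y hy

/-- TASK EG-Path: path decomposition with controlled ends. -/
theorem path_decomp (W : Finset V) (H : Finset (Sym2 V)) (hl : Loopless H) (hs : Supp H W) :
    ∃ p : V → List V, PFam W H p ∧ ∀ v ∈ W, ends W p v ≤ 3 := by
  obtain ⟨p, hp, he⟩ := path_decomp_strong W H.card H rfl hl hs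
  refine ⟨p, hp, fun v hv => ?_⟩
  by_cases h : Even (dg H v)
  · rw [(he v hv).1 h]; omega
  · rcases (he v hv).2 h with h | h <;> omega

end Crest.Agent.EG
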