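import Crest.Agent.EG_Link
import Crest.Agent.EG_Path
import Crest.Agent.EG_Cd
import Crest.Agent.EG_List

set_option autoImplicit false

namespace Crest.Agent.EG

variable {V : Type*} [DecidableEq V]

theorem close_color {T W : Type*} [DecidableEq T] [DecidableEq W] (B : Finset T) (e : T → W)
    (h : ∀ v, (B.filter (fun t => e t = v)).card ≤ 3) :
    ∃ c : T → Fin 3, ∀ t ∈ B, ∀ t' ∈ B, e t = e t' → c t = c t' → t = t' := by
  have h1 : ∀ v, Nonempty ({t // t ∈ B.filter (fun t => e t = v)} ↪ Fin 3) := by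
    intro v
    refine Function.Embedding.nonempty_of_card_le ?_
    simpa using h v
  let em' : ∀ v, {t // t ∈ B.filter (fun t => e t = v)} ↪ Fin 3 := fun v => Classical.choice (h1 v)
  refine ⟨fun t => if ht : t ∈ B then em' (e t) ⟨t, by simp [ht]⟩ else 0, ?_⟩
  intro t ht t' ht' he hc
  simp only [ht, ht', dif_pos] at hc
  have key : ∀ (v v' : W) (hv : v = v') (a : {t // t ∈ B.filter (fun t => e t = v)})
      (b : {t // t ∈ B.filter (fun t => e t = v')}), em' v a = em' v' b → a.1 = b.1 := by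
    intro v v' hv a b hab
    subst hv
    exact congrArg Subtype.val ((em' v).injective hab)
  exact key _ _ he _ _ hc

omit [DecidableEq V] in
/-- the cyclic edges of a concatenation -/
theorem close_cycE {l₁ l₂ : List V} {x y a b : V} (h1 : l₁.head? = some x)
    (h2 : l₁.getLast? = some y) (h3 : l₂.head? = some b) (h4 : l₂.getLast? = some a) :
    cycE (l₁ ++ l₂) = pE l₁ ++ s(y, b) :: pE l₂ ++ [s(a, x)] := by
  rw [cycE_eq (a := x) (b := a), pE_append l₁ l₂ y b h2 h3]
  · rw [List.head?_append, h1]; rfl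
  · rw [List.getLast?_append, h4]; rfl

/-- the abstract closing step: paths `p i` in `Y` and paths `Q i` in `S` -/
theorem close_aux (Y S : Finset V) (hYS : Disjoint Y S) (DS H : Finset (Sym2 V))
    (f : V → Fin 3 → V) (hf : ∀ x ∈ Y, ∀ i, f x i ∈ S) (hinj : ∀ x ∈ Y, Function.Injective (f x))
    (p : V → List V) (hp : PFam Y H p) (B : Finset V) (hB : B = Y.filter (fun i => 2 ≤ (p i).length))
    (x0 x1 : V → V) (hx0 : ∀ i ∈ Y, (p i).head? = some (x0 i))
    (hx1 : ∀ i ∈ Y, (p i).getLast? = some (x1 i))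
    (c : V × Bool → Fin 3)
    (hc : ∀ t ∈ B ×ˢ (Finset.univ : Finset Bool), ∀ t' ∈ B ×ˢ (Finset.univ : Finset Bool),
      (if t.2 then x1 t.1 else x0 t.1) = (if t'.2 then x1 t'.1 else x0 t'.1) → c t = c t' → t = t')
    (Q : V → List V)
    (hQ1 : ∀ i ∈ B, (Q i).head? = some (f (x0 i) (c (i, false))))
    (hQ2 : ∀ i ∈ B, (Q i).getLast? = some (f (x1 i) (c (i, true))))
    (hQ3 : ∀ i ∈ B, (Q i).Nodup) (hQ4 : ∀ i ∈ B, ∀ x ∈ Q i, x ∈ S)
    (hQ5 : ∀ i ∈ B, ∀ e ∈ pE (Q i), e ∈ DS)
    (hQ6 : ∀ i ∈ B, ∀ j ∈ B, i ≠ j → Disjoint (pE (Q i)).toFinset (pE (Q j)).toFinset) :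
    ∃ Q' ⊆ DS, cd (H ∪ (Y ×ˢ (Finset.univ : Finset (Fin 3))).image (fun p => s(p.1, f p.1 p.2)) ∪ Q')
      ≤ 4 * Y.card := by
  have hBY : ∀ i ∈ B, i ∈ Y := fun i hi => by rw [hB] at hi; exact (Finset.mem_filter.1 hi).1
  have hx0Y : ∀ i ∈ Y, x0 i ∈ Y := fun i hi =>
    hp.mem i hi _ (List.mem_of_mem_head? (by rw [hx0 i hi]; rfl))
  have hx1Y : ∀ i ∈ Y, x1 i ∈ Y := fun i hi =>
    hp.mem i hi _ (List.mem_of_mem_getLast? (by rw [hx1 i hi]; rfl))
  -- edges between `Y` and `S`
  have hg : ∀ x ∈ Y, ∀ y ∈ Y, ∀ α β, s(x, f x α) = s(y, f y β) → x = y ∧ α = β := by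
    intro x hx y hy α β h
    rw [Sym2.eq_iff] at h
    rcases h with ⟨h1, h2⟩ | ⟨h1, h2⟩
    · subst h1
      exact ⟨rfl, hinj x hx h2⟩
    · exfalso
      exact Finset.disjoint_left.1 hYS hx (h1 ▸ hf y hy β)
  have hmemC : ∀ i ∈ B, ∀ e, e ∈ cycE (p i ++ (Q i).reverse) ↔
      (e ∈ pE (p i) ∨ e ∈ pE (Q i) ∨ e = s(x0 i, f (x0 i) (c (i, false))) ∨
        e = s(x1 i, f (x1 i) (c (i, true)))) := by
    intro i hi e
    rw [close_cycE (hx0 i (hBY i hi)) (hx1 i (hBY i hi))
      (a := f (x0 i) (c (i, false))) (b := f (x1 i) (c (i, true))) (by rw [List.head?_reverse, hQ2 i hi])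
      (by rw [List.getLast?_reverse, hQ1 i hi]), pE_reverse]
    simp only [List.append_assoc, List.cons_append, List.mem_append, List.mem_cons,
      List.mem_reverse, List.not_mem_nil, or_false]
    rw [Sym2.eq_swap (a := f (x0 i) (c (i, false)))]
    tauto
  let C : V → Finset (Sym2 V) := fun i => (cycE (p i ++ (Q i).reverse)).toFinset
  have hCmem : ∀ i ∈ B, ∀ e, e ∈ C i ↔
      (e ∈ pE (p i) ∨ e ∈ pE (Q i) ∨ e = s(x0 i, f (x0 i) (c (i, false))) ∨
        e = s(x1 i, f (x1 i) (c (i, true)))) := by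
    intro i hi e
    rw [← hmemC i hi e]
    exact List.mem_toFinset
  have hcyc : ∀ i ∈ B, IsCyc (C i) := by
    intro i hi
    refine ⟨p i ++ (Q i).reverse, ?_, ?_, rfl⟩
    · rw [List.nodup_append]
      refine ⟨hp.nodup i (hBY i hi), List.nodup_reverse.2 (hQ3 i hi), ?_⟩
      intro x hx y hy hxy
      subst hxy
      exact Finset.disjoint_left.1 hYS (hp.mem i (hBY i hi) x hx)
        (hQ4 i hi x (List.mem_reverse.1 hy))
    · rw [List.length_append, List.length_reverse]
      have h1 : 2 ≤ (p i).length := by rw [hB] at hi; exact (Finset.mem_filter.1 hi).2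
      have h2 : Q i ≠ [] := by
        intro h
        have := hQ1 i hi
        rw [h] at this
        simp at this
      have h3 := List.length_pos_iff.2 h2
      omega
  -- types of edges
  have tP : ∀ i ∈ B, ∀ e ∈ pE (p i), ∀ x ∈ e, x ∈ Y := fun i hi e he x hx =>
    hp.mem i (hBY i hi) x (mem_of_mem_pE he hx)
  have tQ : ∀ i ∈ B, ∀ e ∈ pE (Q i), ∀ x ∈ e, x ∈ S := fun i hi e he x hx =>
    hQ4 i hi x (mem_of_mem_pE he hx)
  have nYS : ∀ x, x ∈ Y → x ∈ S → False := fun x h1 h2 => Finset.disjoint_left.1 hYS h1 h2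
  have hne : ∀ e : Sym2 V, ∃ x, x ∈ e := fun e => by
    induction e using Sym2.ind with
    | _ a b => exact ⟨a, by simp⟩
  have dPQ : ∀ i ∈ B, ∀ j ∈ B, ∀ e, e ∈ pE (p i) → e ∈ pE (Q j) → False := by
    intro i hi j hj e h1 h2
    obtain ⟨x, hx⟩ := hne e
    exact nYS x (tP i hi e h1 x hx) (tQ j hj e h2 x hx)
  have dPG : ∀ i ∈ B, ∀ x ∈ Y, ∀ α, s(x, f x α) ∈ pE (p i) → False := by
    intro i hi x hx α h
    exact nYS _ (tP i hi _ h (f x α) (by simp)) (hf x hx α)
  have dQG : ∀ i ∈ B, ∀ x ∈ Y, ∀ α, s(x, f x α) ∈ pE (Q i) → False := by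
    intro i hi x hx α h
    exact nYS _ hx (tQ i hi _ h x (by simp))
  have hdisj : (B : Set V).PairwiseDisjoint C := by
    intro i hi j hj hij
    have hi' : i ∈ B := hi
    have hj' : j ∈ B := hj
    simp only [Function.onFun]
    rw [Finset.disjoint_left]
    intro e he1 he2
    rw [hCmem i hi'] at he1
    rw [hCmem j hj'] at he2
    have m : ∀ (k : V) (hk : k ∈ B) (u : Bool), (k, u) ∈ B ×ˢ (Finset.univ : Finset Bool) :=
      fun k hk u => by simp [hk]
    have key : ∀ (u u' : Bool),
        s((if u then x1 i else x0 i), f (if u then x1 i else x0 i) (c (i, u))) =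
          s((if u' then x1 j else x0 j), f (if u' then x1 j else x0 j) (c (j, u'))) → False := by
      intro u u' h
      have e1 : (if u then x1 i else x0 i) ∈ Y := by
        cases u
        · exact hx0Y i (hBY i hi')
        · exact hx1Y i (hBY i hi')
      have e2 : (if u' then x1 j else x0 j) ∈ Y := by
        cases u'
        · exact hx0Y j (hBY j hj')
        · exact hx1Y j (hBY j hj')
      obtain ⟨h1, h2⟩ := hg _ e1 _ e2 _ _ h
      have := hc (i, u) (m i hi' u) (j, u') (m j hj' u') h1 h2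
      exact hij (congrArg Prod.fst this)
    rcases he1 with he1 | he1 | he1 | he1 <;> rcases he2 with he2 | he2 | he2 | he2
    · exact Finset.disjoint_left.1 (hp.disj i (hBY i hi') j (hBY j hj') hij)
        (List.mem_toFinset.2 he1) (List.mem_toFinset.2 he2)
    · exact dPQ i hi' j hj' e he1 he2
    · exact dPG i hi' _ (hx0Y j (hBY j hj')) _ (he2 ▸ he1)
    · exact dPG i hi' _ (hx1Y j (hBY j hj')) _ (he2 ▸ he1)
    · exact dPQ j hj' i hi' e he2 he1
    · exact Finset.disjoint_left.1 (hQ6 i hi' j hj' hij)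
        (List.mem_toFinset.2 he1) (List.mem_toFinset.2 he2)
    · exact dQG i hi' _ (hx0Y j (hBY j hj')) _ (he2 ▸ he1)
    · exact dQG i hi' _ (hx1Y j (hBY j hj')) _ (he2 ▸ he1)
    · exact dPG j hj' _ (hx0Y i (hBY i hi')) _ (he1 ▸ he2)
    · exact dQG j hj' _ (hx0Y i (hBY i hi')) _ (he1 ▸ he2)
    · exact key false false (he1.symm.trans he2)
    · exact key false true (he1.symm.trans he2)
    · exact dPG j hj' _ (hx1Y i (hBY i hi')) _ (he1 ▸ he2)
    · exact dQG j hj' _ (hx1Y i (hBY i hi')) _ (he1 ▸ he2)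
    · exact key true false (he1.symm.trans he2)
    · exact key true true (he1.symm.trans he2)
  refine ⟨B.biUnion (fun i => (pE (Q i)).toFinset), ?_, ?_⟩
  · intro e he
    simp only [Finset.mem_biUnion, List.mem_toFinset] at he
    obtain ⟨i, hi, he⟩ := he
    exact hQ5 i hi e he
  set T := H ∪ (Y ×ˢ (Finset.univ : Finset (Fin 3))).image (fun p => s(p.1, f p.1 p.2)) ∪
    B.biUnion (fun i => (pE (Q i)).toFinset) with hT
  have hU : B.biUnion C ⊆ T := by
    intro e he
    rw [Finset.mem_biUnion] at he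
    obtain ⟨i, hi, he⟩ := he
    rw [hCmem i hi] at he
    rw [hT]
    simp only [Finset.mem_union]
    rcases he with he | he | he | he
    · left; left
      rw [← hp.cover]
      exact Finset.mem_biUnion.2 ⟨i, hBY i hi, List.mem_toFinset.2 he⟩
    · right
      exact Finset.mem_biUnion.2 ⟨i, hi, List.mem_toFinset.2 he⟩
    · left; right
      exact Finset.mem_image.2 ⟨(x0 i, c (i, false)), by simp [hx0Y i (hBY i hi)], he.symm⟩
    · left; right
      exact Finset.mem_image.2 ⟨(x1 i, c (i, true)), by simp [hx1Y i (hBY i hi)], he.symm⟩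
  have hR : T \ B.biUnion C ⊆
      (Y ×ˢ (Finset.univ : Finset (Fin 3))).image (fun p => s(p.1, f p.1 p.2)) := by
    intro e he
    rw [Finset.mem_sdiff] at he
    obtain ⟨h1, h2⟩ := he
    rw [hT] at h1
    simp only [Finset.mem_union] at h1
    rcases h1 with (h1 | h1) | h1
    · exfalso
      apply h2
      rw [← hp.cover, Finset.mem_biUnion] at h1
      obtain ⟨i, hi, he⟩ := h1
      rw [List.mem_toFinset] at he
      have hiB : i ∈ B := by
        rw [hB, Finset.mem_filter]
        refine ⟨hi, ?_⟩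
        rcases h : p i with _ | ⟨u, _ | ⟨v, l⟩⟩
        · rw [h] at he; simp [pE] at he
        · rw [h] at he; simp [pE] at he
        · simp
      exact Finset.mem_biUnion.2 ⟨i, hiB, (hCmem i hiB e).2 (Or.inl he)⟩
    · exact h1
    · exfalso
      apply h2
      rw [Finset.mem_biUnion] at h1
      obtain ⟨i, hi, he⟩ := h1
      exact Finset.mem_biUnion.2 ⟨i, hi, (hCmem i hi e).2 (Or.inr (Or.inl (List.mem_toFinset.1 he)))⟩
  calc cd T ≤ cd (B.biUnion C) + cd (T \ B.biUnion C) := cd_split hU
    _ ≤ B.card + (T \ B.biUnion C).card :=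
        add_le_add (cd_biUnion_cyc B C hdisj hcyc) (cd_le_card _)
    _ ≤ Y.card + (Y.card * 3) := by
        refine add_le_add (Finset.card_le_card fun i hi => hBY i hi) ?_
        refine (Finset.card_le_card hR).trans (Finset.card_image_le.trans ?_)
        simp
    _ = 4 * Y.card := by ring

/-- TASK EG-Close: a graph `H` on `Y`, three edges from each `x ∈ Y` to the reservoir `S` (disjoint from `Y`) and an
expander `DS` on `S`. Then `H ∪ (all f-edges) ∪ (some edges of DS)` is a union of `≤ 4 |Y|` parts.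
Proof: `path_decomp Y H` gives `|Y|` paths, each vertex is an end at most 3 times; assign injectively to the
end-incidences at `x` the indices `0,1,2`. For each path with at least two vertices, ends `x ≠ y` with indices `α, β`: if
`f x α = f y β` close it by this vertex (cycle of length ≥ 3); otherwise link `f x α` to `f y β` in `DS` by `link` with
`ι` = these paths, `κ = ι`, `cl = id`, `g = 1`, `X i = {a i, b i}`. Each closed path is a cycle; the unused f-edges (≤ 3|Y|) are
single edges. -/
theorem close (Y S : Finset V) (hYS : Disjoint Y S) (DS : Finset (Sym2 V)) (w : V → ℝ)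
    (s φ η θ : ℝ) (L : ℕ) (hub : Hub DS S w s φ η) (hs : 0 < s) (hφ : 0 < φ) (hφ1 : φ ≤ 1)
    (hη : 0 < η) (hη1 : η ≤ 1) (hL : 1 ≤ L)
    (hwS : ∑ v ∈ S, w v ≤ 2 ^ L * s) (hY : Y.card ≤ 2 ^ L)
    (hθ : 6144 * L * θ ≤ η ^ 2 * φ) (hgs : 960 * L ≤ η ^ 2 * φ * s)
    (H : Finset (Sym2 V)) (hl : Loopless H) (hH : Supp H Y)
    (f : V → Fin 3 → V) (hf : ∀ x ∈ Y, ∀ i, f x i ∈ S) (hinj : ∀ x ∈ Y, Function.Injective (f x))
    (hload : ∀ y ∈ S, (((Y ×ˢ (Finset.univ : Finset (Fin 3))).filter
      (fun p => f p.1 p.2 = y)).card : ℝ) ≤ θ * w y) :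
    ∃ Q ⊆ DS, cd (H ∪ (Y ×ˢ (Finset.univ : Finset (Fin 3))).image (fun p => s(p.1, f p.1 p.2)) ∪ Q)
      ≤ 4 * Y.card := by
  obtain ⟨p, hp, hends⟩ := path_decomp Y H hl hH
  have h0 : ∀ i ∈ Y, ∃ x, (p i).head? = some x := fun i hi => by
    rcases h : p i with _ | ⟨u, l⟩
    · exact absurd h (hp.ne i hi)
    · exact ⟨u, rfl⟩
  have h1 : ∀ i ∈ Y, ∃ x, (p i).getLast? = some x := fun i hi =>
    ⟨_, List.getLast?_eq_some_getLast (hp.ne i hi)⟩
  choose! x0 hx0 using h0
  choose! x1 hx1 using h1
  have hx0Y : ∀ i ∈ Y, x0 i ∈ Y := fun i hi =>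
    hp.mem i hi _ (List.mem_of_mem_head? (by rw [hx0 i hi]; rfl))
  have hx1Y : ∀ i ∈ Y, x1 i ∈ Y := fun i hi =>
    hp.mem i hi _ (List.mem_of_mem_getLast? (by rw [hx1 i hi]; rfl))
  obtain ⟨B, hB⟩ : ∃ B, B = Y.filter (fun i => 2 ≤ (p i).length) := ⟨_, rfl⟩
  have hBY : ∀ i ∈ B, i ∈ Y := fun i hi => by rw [hB] at hi; exact (Finset.mem_filter.1 hi).1
  obtain ⟨c, hc⟩ := close_color (B ×ˢ (Finset.univ : Finset Bool))
    (fun t => if t.2 then x1 t.1 else x0 t.1) (by
      intro v
      by_cases hv : v ∈ Y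
      · refine le_trans ?_ (hends v hv)
        unfold ends
        have hsub : (B ×ˢ (Finset.univ : Finset Bool)).filter
            (fun t => (if t.2 then x1 t.1 else x0 t.1) = v) ⊆
            (Y.filter (fun i => (p i).head? = some v)).image (fun i => (i, false)) ∪
            (Y.filter (fun i => (p i).getLast? = some v)).image (fun i => (i, true)) := by
          rintro ⟨i, u⟩ h
          rw [Finset.mem_filter, Finset.mem_product] at h
          obtain ⟨⟨hi, _⟩, h⟩ := h
          simp only at hi h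
          rw [Finset.mem_union]
          cases u
          · left
            simp only [Bool.false_eq_true, if_false] at h
            exact Finset.mem_image.2 ⟨i, Finset.mem_filter.2 ⟨hBY i hi, by
              rw [hx0 i (hBY i hi), h]⟩, rfl⟩
          · right
            simp only [if_true] at h
            exact Finset.mem_image.2 ⟨i, Finset.mem_filter.2 ⟨hBY i hi, by
              rw [hx1 i (hBY i hi), h]⟩, rfl⟩
        exact (Finset.card_le_card hsub).trans ((Finset.card_union_le _ _).trans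
          (add_le_add Finset.card_image_le Finset.card_image_le))
      · have : (B ×ˢ (Finset.univ : Finset Bool)).filter
            (fun t => (if t.2 then x1 t.1 else x0 t.1) = v) = ∅ := by
          rw [Finset.filter_eq_empty_iff]
          rintro ⟨i, u⟩ h h'
          rw [Finset.mem_product] at h
          apply hv
          rw [← h']
          cases u
          · exact hx0Y i (hBY i h.1)
          · exact hx1Y i (hBY i h.1)
        rw [this]
        simp)
  -- ends in `S`
  let a : V → V := fun i => f (x0 i) (c (i, false))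
  let b : V → V := fun i => f (x1 i) (c (i, true))
  have haS : ∀ i ∈ B, a i ∈ S := fun i hi => hf _ (hx0Y i (hBY i hi)) _
  have hbS : ∀ i ∈ B, b i ∈ S := fun i hi => hf _ (hx1Y i (hBY i hi)) _
  obtain ⟨B', hB'⟩ : ∃ B', B' = B.filter (fun i => a i ≠ b i) := ⟨_, rfl⟩
  have hB'B : ∀ i ∈ B', i ∈ B := fun i hi => by rw [hB'] at hi; exact (Finset.mem_filter.1 hi).1
  have hB'n : ∀ i ∈ B', a i ≠ b i := fun i hi => by rw [hB'] at hi; exact (Finset.mem_filter.1 hi).2
  obtain ⟨q, hq1, hq2, -, hq4, -⟩ := link (ι := {i // i ∈ B'}) (κ := {i // i ∈ B'}) DS S w s φ η θ L 1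
    hub hs hφ hφ1 hη hη1 hL le_rfl hwS (by
      rw [Fintype.card_coe]
      exact (Finset.card_le_card fun i hi => hBY i (hB'B i hi)).trans hY) hθ (by simpa using hgs)
    (fun i => a i.1) (fun i => b i.1) id (fun i => {a i.1, b i.1})
    (fun i => haS i.1 (hB'B i.1 i.2)) (fun i => hbS i.1 (hB'B i.1 i.2))
    (fun i => hB'n i.1 i.2)
    (fun i => by simp) (fun i => by simp)
    (fun i => by
      refine (Finset.card_insert_le _ _).trans ?_
      simp)
    (fun i => by
      simp only [id]
      rw [Finset.filter_eq' Finset.univ i]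
      simp)
    (by
      intro v hv
      refine le_trans ?_ (hload v hv)
      rw [Nat.cast_le]
      refine Finset.card_le_card_of_injOn
        (fun i : {i // i ∈ B'} => if a i.1 = v then (x0 i.1, c (i.1, false))
          else (x1 i.1, c (i.1, true))) ?_ ?_
      · intro i hi
        simp only [Finset.coe_filter, Finset.mem_univ, true_and, Set.mem_ofPred_eq] at hi
        have hiY := hBY i.1 (hB'B i.1 i.2)
        by_cases h : a i.1 = v
        · simp only [h, if_true, Finset.coe_filter, Finset.mem_product, Finset.mem_univ, and_true,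
            Set.mem_ofPred_eq]
          exact ⟨hx0Y _ hiY, h⟩
        · have h' : b i.1 = v := hi.resolve_left h
          simp only [h, if_false, Finset.coe_filter, Finset.mem_product, Finset.mem_univ, and_true,
            Set.mem_ofPred_eq]
          exact ⟨hx1Y _ hiY, h'⟩
      · intro i hi j hj hij
        have m : ∀ (k : {i // i ∈ B'}) (u : Bool), (k.1, u) ∈ B ×ˢ (Finset.univ : Finset Bool) :=
          fun k u => by simp [hB'B k.1 k.2]
        have key : ∀ (u u' : Bool),
            ((if u then x1 i.1 else x0 i.1), c (i.1, u)) =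
              ((if u' then x1 j.1 else x0 j.1), c (j.1, u')) → i = j := by
          intro u u' h
          rw [Prod.mk.injEq] at h
          have := hc (i.1, u) (m i u) (j.1, u') (m j u') h.1 h.2
          exact Subtype.ext (congrArg Prod.fst this)
        simp only at hij
        by_cases h : a i.1 = v <;> by_cases h' : a j.1 = v <;>
          simp only [h, h', if_true, if_false] at hij
        · exact key false false (by simpa using hij)
        · exact key false true (by simpa using hij)
        · exact key true false (by simpa using hij)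
        · exact key true true (by simpa using hij))
  let Q : V → List V := fun i => if h : i ∈ B' then a i :: (q ⟨i, h⟩ ++ [b i]) else [a i]
  have hQp : ∀ i (h : i ∈ B'), Q i = a i :: (q ⟨i, h⟩ ++ [b i]) := fun i h => by
    simp only [Q, h, dif_pos]
  have hQn : ∀ i, i ∉ B' → Q i = [a i] := fun i h => by
    simp only [Q, h, dif_neg, not_false_eq_true]
  have hab : ∀ i ∈ B, i ∉ B' → a i = b i := fun i hi h => by
    by_contra hne
    exact h (by rw [hB', Finset.mem_filter]; exact ⟨hi, hne⟩)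
  refine close_aux Y S hYS DS H f hf hinj p hp B hB x0 x1 hx0 hx1 c hc Q ?_ ?_ ?_ ?_ ?_ ?_
  · intro i hi
    by_cases h : i ∈ B'
    · rw [hQp i h]; rfl
    · rw [hQn i h]; rfl
  · intro i hi
    by_cases h : i ∈ B'
    · rw [hQp i h, ← List.cons_append, List.getLast?_append]; rfl
    · rw [hQn i h]
      simp only [List.getLast?_singleton]
      rw [hab i hi h]
  · intro i hi
    by_cases h : i ∈ B'
    · rw [hQp i h]; exact hq1 ⟨i, h⟩
    · rw [hQn i h]; simp
  · intro i hi x hx
    by_cases h : i ∈ B'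
    · rw [hQp i h] at hx
      obtain ⟨e, he, hxe⟩ := exists_mem_pE (by simp) hx
      exact hub.supp e (hq2 ⟨i, h⟩ e he) x hxe
    · rw [hQn i h] at hx
      rw [List.mem_singleton] at hx
      rw [hx]
      exact haS i hi
  · intro i hi e he
    by_cases h : i ∈ B'
    · rw [hQp i h] at he
      exact hq2 ⟨i, h⟩ e he
    · rw [hQn i h] at he
      simp [pE] at he
  · intro i hi j hj hij
    by_cases h : i ∈ B'
    · by_cases h' : j ∈ B'
      · rw [hQp i h, hQp j h']
        exact hq4 ⟨i, h⟩ ⟨j, h'⟩ (fun e => hij (congrArg Subtype.val e))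
      · rw [hQn j h']
        simp [pE]
    · rw [hQn i h]
      simp [pE]

end Crest.Agent.EG
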