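import Crest.Agent.EG_Concat
import Crest.Agent.EG_HubB

set_option autoImplicit false

namespace Crest.Agent.EG

variable {V : Type*} [DecidableEq V]

/-- TASK EG-Color: greedy colouring with bounded classes. (Induction on `X`: a new element is blocked by at most `Δ` colours of
its neighbours and at most `X.card / g` full colours.) -/
theorem greedy_color {α : Type*} [DecidableEq α] (X : Finset α) (conf : α → α → Prop)
    (hsymm : ∀ x y, conf x y → conf y x) [DecidableRel conf] (Δ g : ℕ) (hg : 1 ≤ g)
    (hΔ : ∀ x ∈ X, (X.filter (fun y => y ≠ x ∧ conf x y)).card ≤ Δ) :
    ∃ c : α → ℕ, (∀ x ∈ X, c x < Δ + X.card / g + 1) ∧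
      (∀ x ∈ X, ∀ y ∈ X, x ≠ y → c x = c y → ¬ conf x y) ∧
      ∀ k, (X.filter (fun x => c x = k)).card ≤ g := by
  have main : ∀ Y : Finset α, Y ⊆ X → ∃ c : α → ℕ, (∀ x ∈ Y, c x < Δ + X.card / g + 1) ∧
      (∀ x ∈ Y, ∀ y ∈ Y, x ≠ y → c x = c y → ¬ conf x y) ∧
      ∀ k, (Y.filter (fun x => c x = k)).card ≤ g := by
    intro Y
    induction Y using Finset.induction_on with
    | empty =>
      intro _
      refine ⟨fun _ => 0, ?_, ?_, ?_⟩
      · intro x hx
        exact absurd hx (Finset.notMem_empty x)
      · intro x hx
        exact absurd hx (Finset.notMem_empty x)
      · intro k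
        simp
    | insert x Y hx ih =>
      intro hsub
      have hxX : x ∈ X := hsub (Finset.mem_insert_self x Y)
      have hYX : Y ⊆ X := fun y hy => hsub (Finset.mem_insert_of_mem hy)
      obtain ⟨c, h1, h2, h3⟩ := ih hYX
      -- blocked colours
      set B1 : Finset ℕ := (Y.filter (fun y => conf x y)).image c with hB1
      set B2 : Finset ℕ := (Finset.range (Δ + X.card / g + 1)).filter
        (fun k => (Y.filter (fun z => c z = k)).card = g) with hB2
      have hc1 : B1.card ≤ Δ := by
        refine Finset.card_image_le.trans ((Finset.card_le_card ?_).trans (hΔ x hxX))
        intro y hy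
        rw [Finset.mem_filter] at hy ⊢
        refine ⟨hYX hy.1, ?_, hy.2⟩
        rintro rfl
        exact hx hy.1
      have hc2 : B2.card ≤ X.card / g := by
        rw [Nat.le_div_iff_mul_le hg]
        have hs : ∑ k ∈ B2, (Y.filter (fun z => c z = k)).card = B2.card * g := by
          rw [Finset.sum_congr rfl (g := fun _ => g)]
          · rw [Finset.sum_const, smul_eq_mul]
          · intro k hk
            exact (Finset.mem_filter.1 hk).2
        rw [← hs]
        have hle : ∑ k ∈ B2, (Y.filter (fun z => c z = k)).card ≤ Y.card := by
          rw [← Finset.card_biUnion]
          · apply Finset.card_le_card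
            intro y hy
            obtain ⟨k, _, hk⟩ := Finset.mem_biUnion.1 hy
            exact (Finset.mem_filter.1 hk).1
          · intro k _ k' _ hne
            rw [Function.onFun, Finset.disjoint_left]
            intro y hy hy'
            exact hne ((Finset.mem_filter.1 hy).2.symm.trans (Finset.mem_filter.1 hy').2)
        exact hle.trans (Finset.card_le_card hYX)
      obtain ⟨k, hkr, hkB⟩ : ∃ k ∈ Finset.range (Δ + X.card / g + 1), k ∉ B1 ∪ B2 := by
        apply Finset.exists_mem_notMem_of_card_lt_card
        rw [Finset.card_range]
        have := Finset.card_union_le B1 B2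
        omega
      rw [Finset.mem_union, not_or] at hkB
      have hk : k < Δ + X.card / g + 1 := Finset.mem_range.1 hkr
      refine ⟨Function.update c x k, ?_, ?_, ?_⟩
      · intro y hy
        rcases Finset.mem_insert.1 hy with rfl | hy'
        · rw [Function.update_self]
          exact hk
        · have hne : y ≠ x := by
            rintro rfl
            exact hx hy'
          rw [Function.update_of_ne hne]
          exact h1 y hy'
      · intro y hy z hz hyz hc
        rcases Finset.mem_insert.1 hy with rfl | hy'
        · rcases Finset.mem_insert.1 hz with rfl | hz'
          · exact absurd rfl hyz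
          · rw [Function.update_self, Function.update_of_ne (Ne.symm hyz)] at hc
            intro hconf
            apply hkB.1
            rw [hB1, hc]
            exact Finset.mem_image_of_mem c (Finset.mem_filter.2 ⟨hz', hconf⟩)
        · rcases Finset.mem_insert.1 hz with rfl | hz'
          · rw [Function.update_self, Function.update_of_ne hyz] at hc
            intro hconf
            apply hkB.1
            rw [hB1, ← hc]
            exact Finset.mem_image_of_mem c (Finset.mem_filter.2 ⟨hy', hsymm _ _ hconf⟩)
          · have hne : y ≠ x := by
              rintro rfl
              exact hx hy'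
            have hne' : z ≠ x := by
              rintro rfl
              exact hx hz'
            rw [Function.update_of_ne hne, Function.update_of_ne hne'] at hc
            exact h2 y hy' z hz' hyz hc
      · intro j
        have hfil : ∀ j, Y.filter (fun z => Function.update c x k z = j) =
            Y.filter (fun z => c z = j) := by
          intro j
          apply Finset.filter_congr
          intro z hz
          have hne : z ≠ x := by
            rintro rfl
            exact hx hz
          rw [Function.update_of_ne hne]
        rw [Finset.filter_insert]
        by_cases hj : Function.update c x k x = j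
        · rw [if_pos hj, hfil j]
          refine (Finset.card_insert_le _ _).trans ?_
          rw [Function.update_self] at hj
          subst hj
          have hlt : (Y.filter (fun z => c z = k)).card ≠ g := by
            intro h
            exact hkB.2 (Finset.mem_filter.2 ⟨hkr, h⟩)
          have := h3 k
          omega
        · rw [if_neg hj, hfil j]
          exact h3 j
  exact main X (Finset.Subset.refl X)

end Crest.Agent.EG
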