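import Crest.Agent.EG_List

set_option autoImplicit false

namespace Crest.Agent.EG

variable {V : Type*} [DecidableEq V]

omit [DecidableEq V] in
theorem Concat_skp_concat (l : List (V × V)) (z p : V × V) (hz : l.getLast? = some z) :
    skp (l ++ [p]) = skp l ++ [s(z.2, p.1)] := by
  induction l with
  | nil => simp at hz
  | cons a l ih =>
    cases l with
    | nil =>
      simp only [List.getLast?_singleton, Option.some.injEq] at hz
      subst hz
      simp [skp]
    | cons b l =>
      have h3 : (b :: l).getLast? = some z := by simpa using hz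
      have := ih h3
      simp only [List.cons_append, skp] at this ⊢
      rw [this]

omit [DecidableEq V] in
theorem Concat_skE_eq {l : List (V × V)} {p z : V × V} (h₁ : l.head? = some p)
    (h₂ : l.getLast? = some z) : skE l = skp l ++ [s(z.2, p.1)] := by
  obtain ⟨l', rfl⟩ : ∃ l', l = p :: l' := by
    cases l with
    | nil => simp at h₁
    | cons c l =>
      simp only [List.head?_cons, Option.some.injEq] at h₁
      exact ⟨l, by rw [h₁]⟩
  unfold skE
  have e : (p :: l').take 1 = [p] := by simp
  rw [e, Concat_skp_concat _ z p h₂]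

omit [DecidableEq V] in
theorem Concat_ends {l : List (V × V)} (h : l ≠ []) :
    ∃ p z, l.head? = some p ∧ l.getLast? = some z ∧ p ∈ l ∧ z ∈ l := by
  refine ⟨l.head h, l.getLast h, List.head?_eq_some_head h, List.getLast?_eq_some_getLast h,
    List.head_mem h, List.getLast_mem h⟩

omit [DecidableEq V] in
theorem Concat_head (l : List (V × V)) (q : V × V → List V)
    (hq : ∀ p ∈ l, (q p).head? = some p.1 ∧ (q p).getLast? = some p.2) {p : V × V}
    (hp : l.head? = some p) : (l.flatMap q).head? = some p.1 := by
  cases l with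
  | nil => simp at hp
  | cons a l =>
    simp only [List.head?_cons, Option.some.injEq] at hp
    subst hp
    rw [List.flatMap_cons, List.head?_append, (hq a (by simp)).1]
    rfl

omit [DecidableEq V] in
theorem Concat_last (l : List (V × V)) (q : V × V → List V)
    (hq : ∀ p ∈ l, (q p).head? = some p.1 ∧ (q p).getLast? = some p.2) {z : V × V}
    (hz : l.getLast? = some z) : (l.flatMap q).getLast? = some z.2 := by
  have hne : l ≠ [] := by
    rintro rfl
    simp at hz
  obtain ⟨l', c, rfl⟩ : ∃ l' c, l = l' ++ [c] := ⟨l.dropLast, l.getLast hne,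
    (List.dropLast_append_getLast hne).symm⟩
  rw [List.getLast?_concat, Option.some.injEq] at hz
  subst hz
  rw [List.flatMap_append, List.getLast?_append]
  simp only [List.flatMap_cons, List.flatMap_nil, List.append_nil]
  rw [(hq c (by simp)).2]
  rfl

omit [DecidableEq V] in
theorem Concat_mem_pE (l : List (V × V)) (q : V × V → List V)
    (hq : ∀ p ∈ l, (q p).head? = some p.1 ∧ (q p).getLast? = some p.2) (e : Sym2 V) :
    e ∈ pE (l.flatMap q) ↔ e ∈ skp l ∨ ∃ p ∈ l, e ∈ pE (q p) := by
  induction l with
  | nil => simp [pE, skp]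
  | cons a l ih =>
    cases l with
    | nil => simp [skp]
    | cons b l =>
      have hq' : ∀ p ∈ b :: l, (q p).head? = some p.1 ∧ (q p).getLast? = some p.2 :=
        fun p hp => hq p (List.mem_cons_of_mem _ hp)
      have ih' := ih hq'
      rw [List.flatMap_cons, pE_append (q a) _ a.2 b.1 (hq a (by simp)).2
        (Concat_head (b :: l) q hq' rfl), List.mem_append, List.mem_cons, ih']
      simp only [skp, List.mem_cons, exists_eq_or_imp]
      tauto

/-- TASK EG-Concat: replacing each station `p = (x,y)` of a skeleton by a path `q p` from `x` to `y` gives a cycle. -/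
theorem concat_cyc (l : List (V × V)) (q : V × V → List V) (h2 : 1 ≤ l.length)
    (hq : ∀ p ∈ l, (q p).head? = some p.1 ∧ (q p).getLast? = some p.2)
    (hnd : (l.flatMap q).Nodup) (h3 : 3 ≤ (l.flatMap q).length) :
    (cycE (l.flatMap q)).toFinset =
      (skE l).toFinset ∪ l.toFinset.biUnion (fun p => (pE (q p)).toFinset) := by
  have hne : l ≠ [] := by
    rintro rfl
    simp at h2
  obtain ⟨p, z, hp, hz, -, -⟩ := Concat_ends hne
  rw [cycE_eq (Concat_head l q hq hp) (Concat_last l q hq hz), Concat_skE_eq hp hz]
  ext e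
  simp only [List.mem_toFinset, List.mem_append, Finset.mem_union, Finset.mem_biUnion,
    Concat_mem_pE l q hq]
  exact or_right_comm

theorem concat_isCyc (l : List (V × V)) (q : V × V → List V) (h2 : 1 ≤ l.length)
    (hq : ∀ p ∈ l, (q p).head? = some p.1 ∧ (q p).getLast? = some p.2)
    (hnd : (l.flatMap q).Nodup) (h3 : 3 ≤ (l.flatMap q).length) :
    IsCyc ((skE l).toFinset ∪ l.toFinset.biUnion (fun p => (pE (q p)).toFinset)) := by
  rw [← concat_cyc l q h2 hq hnd h3]
  exact ⟨_, hnd, h3, rfl⟩

omit [DecidableEq V] in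
theorem Concat_length_skp (l : List (V × V)) : (skp l).length = l.length - 1 := by
  induction l with
  | nil => simp [skp]
  | cons a l ih =>
    cases l with
    | nil => simp [skp]
    | cons b l =>
      simp only [skp, List.length_cons] at ih ⊢
      rw [ih]
      omega

theorem length_skE (l : List (V × V)) : (skE l).length = l.length := by
  by_cases hne : l = []
  · subst hne
    simp [skE, skp]
  · obtain ⟨p, z, hp, hz, -, -⟩ := Concat_ends hne
    rw [Concat_skE_eq hp hz, List.length_append, Concat_length_skp]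
    have : 0 < l.length := List.length_pos_iff.2 hne
    simp only [List.length_cons, List.length_nil]
    omega

omit [DecidableEq V] in
theorem Concat_skp_append_cons (l₁ : List (V × V)) (x : V × V) (l₂ : List (V × V)) :
    skp (l₁ ++ x :: l₂) = skp (l₁ ++ [x]) ++ skp (x :: l₂) := by
  induction l₁ with
  | nil => simp [skp]
  | cons a l₁ ih =>
    cases l₁ with
    | nil => simp [skp]
    | cons b l₁ =>
      simp only [List.cons_append, skp] at ih ⊢
      rw [ih]

/-- every vertex of a skeleton lies on one of its edges -/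
theorem exists_mem_skE {l : List (V × V)} {p : V × V} (hp : p ∈ l) :
    (∃ e ∈ skE l, p.1 ∈ e) ∧ (∃ e ∈ skE l, p.2 ∈ e) := by
  obtain ⟨l₁, l₂, rfl⟩ := List.append_of_mem hp
  have hne : l₁ ++ p :: l₂ ≠ [] := by simp
  obtain ⟨a, z, ha, hz, -, -⟩ := Concat_ends hne
  constructor
  · by_cases h1 : l₁ = []
    · subst h1
      simp only [List.nil_append, List.head?_cons, Option.some.injEq] at ha
      subst ha
      refine ⟨s(z.2, p.1), ?_, by simp⟩
      rw [Concat_skE_eq (p := p) (by simp) hz]
      simp
    · obtain ⟨b, c, hb, hc, -, -⟩ := Concat_ends h1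
      refine ⟨s(c.2, p.1), ?_, by simp⟩
      rw [Concat_skE_eq ha hz, Concat_skp_append_cons, Concat_skp_concat l₁ c p hc]
      simp
  · by_cases h1 : l₂ = []
    · subst h1
      have : (l₁ ++ [p]).getLast? = some p := List.getLast?_concat
      rw [this, Option.some.injEq] at hz
      subst hz
      refine ⟨s(p.2, a.1), ?_, by simp⟩
      rw [Concat_skE_eq ha this]
      simp
    · obtain ⟨b, l₃, rfl⟩ : ∃ b l₃, l₂ = b :: l₃ := List.exists_cons_of_ne_nil h1
      refine ⟨s(p.2, b.1), ?_, by simp⟩
      rw [Concat_skE_eq ha hz, Concat_skp_append_cons]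
      simp [skp]

omit [DecidableEq V] in
theorem Concat_mem_of_mem_skp {l : List (V × V)} {e : Sym2 V} (he : e ∈ skp l) {x : V}
    (hx : x ∈ e) : ∃ p ∈ l, x = p.1 ∨ x = p.2 := by
  induction l with
  | nil => simp [skp] at he
  | cons a l ih =>
    cases l with
    | nil => simp [skp] at he
    | cons b l =>
      simp only [skp, List.mem_cons] at he
      rcases he with rfl | he
      · rcases Sym2.mem_iff.1 hx with rfl | rfl
        · exact ⟨a, by simp, Or.inr rfl⟩
        · exact ⟨b, by simp, Or.inl rfl⟩
      · obtain ⟨p, hp, hx⟩ := ih he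
        exact ⟨p, List.mem_cons_of_mem _ hp, hx⟩

/-- the ends of the skeleton edges are entries of stations -/
theorem mem_of_mem_skE {l : List (V × V)} {e : Sym2 V} (he : e ∈ skE l) {x : V} (hx : x ∈ e) :
    ∃ p ∈ l, x = p.1 ∨ x = p.2 := by
  unfold skE at he
  obtain ⟨p, hp, hx⟩ := Concat_mem_of_mem_skp he hx
  rw [List.mem_append] at hp
  rcases hp with hp | hp
  · exact ⟨p, hp, hx⟩
  · exact ⟨p, List.mem_of_mem_take hp, hx⟩

omit [DecidableEq V] in
theorem Concat_nodup_skp {l : List (V × V)}
    (hd : l.Pairwise (fun p q => p.1 ≠ q.1 ∧ p.1 ≠ q.2 ∧ p.2 ≠ q.1 ∧ p.2 ≠ q.2)) :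
    (skp l).Nodup := by
  induction l with
  | nil => simp [skp]
  | cons a l ih =>
    cases l with
    | nil => simp [skp]
    | cons b l =>
      rw [List.pairwise_cons] at hd
      simp only [skp]
      refine List.nodup_cons.2 ⟨fun hmem => ?_, ih hd.2⟩
      obtain ⟨p, hp, hx⟩ := Concat_mem_of_mem_skp hmem (Sym2.mem_mk_left a.2 b.1)
      have := hd.1 p hp
      rcases hx with hx | hx
      · exact this.2.2.1 hx
      · exact this.2.2.2 hx

/-- the edges of a skeleton with pairwise disjoint stations are distinct -/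
theorem nodup_skE {l : List (V × V)} (h2 : 2 ≤ l.length)
    (hd : l.Pairwise (fun p q => p.1 ≠ q.1 ∧ p.1 ≠ q.2 ∧ p.2 ≠ q.1 ∧ p.2 ≠ q.2))
    (h3 : 3 ≤ l.length ∨ ∃ p ∈ l, p.1 ≠ p.2) : (skE l).Nodup := by
  obtain ⟨p, q, l', rfl⟩ : ∃ a b l', l = a :: b :: l' := by
    rcases l with _ | ⟨a, _ | ⟨b, l⟩⟩
    · simp at h2
    · simp at h2
    · exact ⟨a, b, l, rfl⟩
  obtain ⟨a, z, ha, hz, -, hzm⟩ := Concat_ends (l := p :: q :: l') (by simp)
  simp only [List.head?_cons, Option.some.injEq] at ha
  subst ha
  rw [Concat_skE_eq (p := p) (by simp) hz, List.nodup_append]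
  refine ⟨Concat_nodup_skp hd, by simp, ?_⟩
  intro e he e' he'
  simp only [List.mem_singleton] at he'
  subst he'
  rintro rfl
  rw [List.pairwise_cons] at hd
  simp only [skp, List.mem_cons] at he
  rcases he with he | he
  · rw [Sym2.eq_iff] at he
    rcases he with ⟨h1, h4⟩ | ⟨h1, h4⟩
    · exact (hd.1 q (by simp)).1 h4
    · -- `z.2 = q.1`, `p.1 = p.2`
      by_cases hl : l' = []
      · subst hl
        have hz2 : z = q := by
          simpa using hz.symm
        subst hz2
        rcases h3 with h3 | ⟨r, hr, hr2⟩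
        · simp at h3
        · simp only [List.mem_cons, List.not_mem_nil, or_false] at hr
          rcases hr with rfl | rfl
          · exact hr2 h4
          · exact hr2 h1.symm
      · have hzl : z ∈ l' := by
          obtain ⟨c, d, -, hd', -, hdm⟩ := Concat_ends hl
          have : (p :: q :: l').getLast? = some d := by
            rw [List.getLast?_cons_of_ne_nil, List.getLast?_cons_of_ne_nil hl, hd']
            simp
          rw [this, Option.some.injEq] at hz
          rw [← hz]
          exact hdm
        have := (List.pairwise_cons.1 hd.2).1 z hzl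
        exact this.2.1 h1.symm
  · obtain ⟨r, hr, hx⟩ := Concat_mem_of_mem_skp he (Sym2.mem_mk_right z.2 p.1)
    have := hd.1 r hr
    rcases hx with hx | hx
    · exact this.1 hx
    · exact this.2.1 hx

end Crest.Agent.EG
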