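import Crest.Agent.EG_HubB

set_option autoImplicit false

namespace Crest.Agent.EG

variable {V : Type*} [DecidableEq V]

/-- the recursive statement: a partition into expanders -/
theorem decomp_rec (R : Finset (Sym2 V)) (s : ℝ) (hs : 0 < s) (w : V → ℝ) (hw : ∀ v, s ≤ w v) :
    ∀ (k : ℕ) (Z : Finset V), Z.card = k → Z.Nonempty →
      ∃ Q : Finset (Finset V), (∀ Y ∈ Q, Y ⊆ Z) ∧ (∀ Y ∈ Q, Y.Nonempty) ∧
        (Q : Set (Finset V)).PairwiseDisjoint id ∧
        (∀ x ∈ Z, ∃ Y ∈ Q, x ∈ Y) ∧
        (∀ Y ∈ Q, ∀ U ⊆ Y, ∑ v ∈ U, w v ≤ (∑ v ∈ Y, w v) / 2 →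
          ∑ v ∈ U, w v ≤ ((bd (ind R Y) U).card : ℝ)) ∧
        ∃ R₂ : Finset (Sym2 V), R₂ ⊆ ind R Z ∧
          (∀ e ∈ ind R Z, e ∉ R₂ → ∃ Y ∈ Q, ∀ x ∈ e, x ∈ Y) ∧
          (∀ e ∈ R₂, ∀ Y ∈ Q, ¬ ∀ x ∈ e, x ∈ Y) ∧
          (R₂.card : ℝ) ≤ (∑ v ∈ Z, w v) * Real.logb 2 ((∑ v ∈ Z, w v) / s) := by
  intro k
  induction k using Nat.strong_induction_on with
  | _ k ih =>
    intro Z hZk hZ
    have hwpos : ∀ v, 0 < w v := fun v => lt_of_lt_of_le hs (hw v)
    have hsumpos : ∀ A : Finset V, A.Nonempty → 0 < ∑ v ∈ A, w v := fun A hA =>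
      Finset.sum_pos (fun v _ => hwpos v) hA
    have hsumge : ∀ A : Finset V, A.Nonempty → s ≤ ∑ v ∈ A, w v := by
      intro A hA
      obtain ⟨a, ha⟩ := hA
      exact le_trans (hw a) (Finset.single_le_sum (fun v _ => (hwpos v).le) ha)
    by_cases hgood : ∀ U ⊆ Z, ∑ v ∈ U, w v ≤ (∑ v ∈ Z, w v) / 2 →
          ∑ v ∈ U, w v ≤ ((bd (ind R Z) U).card : ℝ)
    · refine ⟨{Z}, ?_, ?_, ?_, ?_, ?_, ∅, ?_, ?_, ?_, ?_⟩
      · intro Y hY; rw [Finset.mem_singleton] at hY; rw [hY]
      · intro Y hY; rw [Finset.mem_singleton] at hY; rw [hY]; exact hZ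
      · simp
      · intro x hx; exact ⟨Z, Finset.mem_singleton_self _, hx⟩
      · intro Y hY; rw [Finset.mem_singleton] at hY; rw [hY]; exact hgood
      · exact Finset.empty_subset _
      · intro e he _
        exact ⟨Z, Finset.mem_singleton_self _, (mem_ind.1 he).2⟩
      · intro e he; simp at he
      · simp only [Finset.card_empty, Nat.cast_zero]
        apply mul_nonneg (hsumpos Z hZ).le
        apply Real.logb_nonneg (by norm_num)
        rw [le_div_iff₀ hs, one_mul]
        exact hsumge Z hZ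
    · push Not at hgood
      obtain ⟨U, hUZ, hUw, hUb⟩ := hgood
      have hUne : U.Nonempty := by
        rw [Finset.nonempty_iff_ne_empty]
        rintro rfl
        simp only [Finset.sum_empty] at hUb
        have : (0:ℝ) ≤ ((bd (ind R Z) ∅).card : ℝ) := Nat.cast_nonneg _
        linarith
      have hUZne : U ≠ Z := by
        rintro rfl
        have := hsumpos U hUne
        linarith
      have hssub : U ⊂ Z := Finset.ssubset_iff_subset_ne.2 ⟨hUZ, hUZne⟩
      have hcne : (Z \ U).Nonempty := by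
        rw [Finset.sdiff_nonempty]
        intro h
        exact hUZne (Finset.Subset.antisymm hUZ h)
      obtain ⟨Q1, hQ1s, hQ1n, hQ1d, hQ1c, hQ1g, R1, hR1s, hR1c, hR1n, hR1b⟩ :=
        ih U.card (by rw [← hZk]; exact Finset.card_lt_card hssub) U rfl hUne
      obtain ⟨Q2, hQ2s, hQ2n, hQ2d, hQ2c, hQ2g, R2, hR2s, hR2c, hR2n, hR2b⟩ :=
        ih (Z \ U).card (by
          rw [← hZk]
          apply Finset.card_lt_card
          refine Finset.ssubset_iff_subset_ne.2 ⟨Finset.sdiff_subset, ?_⟩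
          intro h
          obtain ⟨a, ha⟩ := hUne
          have : a ∈ Z \ U := by rw [h]; exact hUZ ha
          exact (Finset.mem_sdiff.1 this).2 ha) (Z \ U) rfl hcne
      have hsplit : ∑ v ∈ Z \ U, w v + ∑ v ∈ U, w v = ∑ v ∈ Z, w v := Finset.sum_sdiff hUZ
      refine ⟨Q1 ∪ Q2, ?_, ?_, ?_, ?_, ?_, bd (ind R Z) U ∪ (R1 ∪ R2), ?_, ?_, ?_, ?_⟩
      · intro Y hY
        rcases Finset.mem_union.1 hY with h | h
        · exact (hQ1s Y h).trans hUZ
        · exact (hQ2s Y h).trans Finset.sdiff_subset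
      · intro Y hY
        rcases Finset.mem_union.1 hY with h | h
        · exact hQ1n Y h
        · exact hQ2n Y h
      · intro A hA B hB hAB
        simp only [Finset.coe_union, Set.mem_union, Finset.mem_coe] at hA hB
        have key : ∀ A ∈ Q1, ∀ B ∈ Q2, Disjoint A B := by
          intro A hA B hB
          rw [Finset.disjoint_left]
          intro x hx hxB
          exact (Finset.mem_sdiff.1 (hQ2s B hB hxB)).2 (hQ1s A hA hx)
        rcases hA with hA | hA <;> rcases hB with hB | hB
        · exact hQ1d hA hB hAB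
        · exact key A hA B hB
        · exact (key B hB A hA).symm
        · exact hQ2d hA hB hAB
      · intro x hx
        by_cases hxU : x ∈ U
        · obtain ⟨Y, hY, hxY⟩ := hQ1c x hxU
          exact ⟨Y, Finset.mem_union_left _ hY, hxY⟩
        · obtain ⟨Y, hY, hxY⟩ := hQ2c x (Finset.mem_sdiff.2 ⟨hx, hxU⟩)
          exact ⟨Y, Finset.mem_union_right _ hY, hxY⟩
      · intro Y hY
        rcases Finset.mem_union.1 hY with h | h
        · exact hQ1g Y h
        · exact hQ2g Y h
      · apply Finset.union_subset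
        · intro e he; exact (mem_bd.1 he).1
        · apply Finset.union_subset
          · intro e he
            have := mem_ind.1 (hR1s he)
            exact mem_ind.2 ⟨this.1, fun x hx => hUZ (this.2 x hx)⟩
          · intro e he
            have := mem_ind.1 (hR2s he)
            exact mem_ind.2 ⟨this.1, fun x hx => Finset.sdiff_subset (this.2 x hx)⟩
      · intro e he hne
        simp only [Finset.mem_union, not_or] at hne
        obtain ⟨hn0, hn1, hn2⟩ := hne
        have heR := (mem_ind.1 he).1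
        have heZ := (mem_ind.1 he).2
        by_cases h1 : ∃ x ∈ e, x ∈ U
        · have h2 : ∀ x ∈ e, x ∈ U := by
            by_contra hcon
            push Not at hcon
            obtain ⟨y, hy, hyU⟩ := hcon
            exact hn0 (mem_bd.2 ⟨he, h1, y, hy, hyU⟩)
          obtain ⟨Y, hY, hx⟩ := hR1c e (mem_ind.2 ⟨heR, h2⟩) hn1
          exact ⟨Y, Finset.mem_union_left _ hY, hx⟩
        · push Not at h1
          obtain ⟨Y, hY, hx⟩ := hR2c e
            (mem_ind.2 ⟨heR, fun x hx => Finset.mem_sdiff.2 ⟨heZ x hx, h1 x hx⟩⟩) hn2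
          exact ⟨Y, Finset.mem_union_right _ hY, hx⟩
      · intro e he Y hY hcon
        have hexist : ∃ x, x ∈ e := by
          induction e with
          | _ a b => exact ⟨a, by simp⟩
        obtain ⟨x0, hx0⟩ := hexist
        rcases Finset.mem_union.1 he with he | he
        · obtain ⟨_, ⟨x, hx, hxU⟩, y, hy, hyU⟩ := mem_bd.1 he
          rcases Finset.mem_union.1 hY with h | h
          · exact hyU (hQ1s Y h (hcon y hy))
          · exact (Finset.mem_sdiff.1 (hQ2s Y h (hcon x hx))).2 hxU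
        · rcases Finset.mem_union.1 he with he | he
          · rcases Finset.mem_union.1 hY with h | h
            · exact hR1n e he Y h hcon
            · exact (Finset.mem_sdiff.1 (hQ2s Y h (hcon x0 hx0))).2 ((mem_ind.1 (hR1s he)).2 x0 hx0)
          · rcases Finset.mem_union.1 hY with h | h
            · exact (Finset.mem_sdiff.1 ((mem_ind.1 (hR2s he)).2 x0 hx0)).2 (hQ1s Y h (hcon x0 hx0))
            · exact hR2n e he Y h hcon
      · have hcard : ((bd (ind R Z) U ∪ (R1 ∪ R2)).card : ℝ) ≤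
            ((bd (ind R Z) U).card : ℝ) + (R1.card : ℝ) + (R2.card : ℝ) := by
          have h1 := Finset.card_union_le (bd (ind R Z) U) (R1 ∪ R2)
          have h2 := Finset.card_union_le R1 R2
          have h3 : (bd (ind R Z) U ∪ (R1 ∪ R2)).card ≤
            (bd (ind R Z) U).card + R1.card + R2.card := by omega
          exact_mod_cast h3
        set a := ∑ v ∈ U, w v with ha
        set b := ∑ v ∈ Z \ U, w v with hb
        set c := ∑ v ∈ Z, w v with hc
        have ha0 : 0 < a := hsumpos U hUne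
        have hb0 : 0 < b := hsumpos _ hcne
        have hc0 : 0 < c := hsumpos _ hZ
        have hbc : b ≤ c := by linarith
        have hl1 : Real.logb 2 (a / s) ≤ Real.logb 2 (c / s) - 1 := by
          have : Real.logb 2 (c / s) - 1 = Real.logb 2 (c / s / 2) := by
            rw [Real.logb_div (div_pos hc0 hs).ne' (by norm_num : (2:ℝ) ≠ 0)]
            simp
          rw [this]
          apply Real.logb_le_logb_of_le (by norm_num) (div_pos ha0 hs)
          rw [div_div, mul_comm s 2, ← div_div]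
          exact div_le_div_of_nonneg_right hUw hs.le
        have hl2 : Real.logb 2 (b / s) ≤ Real.logb 2 (c / s) := by
          apply Real.logb_le_logb_of_le (by norm_num) (div_pos hb0 hs)
          exact div_le_div_of_nonneg_right hbc hs.le
        calc ((bd (ind R Z) U ∪ (R1 ∪ R2)).card : ℝ) ≤ _ := hcard
          _ ≤ a + a * Real.logb 2 (a / s) + b * Real.logb 2 (b / s) := by linarith
          _ ≤ a + a * (Real.logb 2 (c / s) - 1) + b * Real.logb 2 (c / s) := by
              have h1 := mul_le_mul_of_nonneg_left hl1 ha0.le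
              have h2 := mul_le_mul_of_nonneg_left hl2 hb0.le
              linarith
          _ = (b + a) * Real.logb 2 (c / s) := by ring
          _ = c * Real.logb 2 (c / s) := by rw [hsplit]

/-- TASK EG-Decomp: hub decomposition. `w v = s + φ * dg R v`.
Proof. Claim, by strong induction on `|Z|` for `Z ⊆ S` nonempty: there is a partition `Q` of `Z` (finset of nonempty
pairwise disjoint sets with union `Z`) such that every part `Y` satisfies `w(U) ≤ |bd (ind R Y) U|` for all `U ⊆ Y` with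
`w(U) ≤ w(Y)/2`, and the number of edges of `ind R Z` not inside a part is at most `w(Z) log₂(w(Z)/s)`
(`Real.logb 2`). If `Z` itself is not such a part, some `U ⊆ Z`, `w(U) ≤ w(Z)/2`, `|bd (ind R Z) U| < w(U)` (so `U ≠ ∅`, `U ≠ Z`);
induct on `U` and `Z \ U`: `w(U) + w(U) log₂(w(U)/s) + w(Z\U) log₂(w(Z\U)/s) ≤ w(U) + w(U)(log₂(w(Z)/s) - 1) + w(Z\U) log₂(w(Z)/s)`.
Finally `HH` := parts with at least 2 elements, `R'` := edges not inside any part (a loopless edge is never inside a
one-element part), `log₂(w(S)/s) ≤ L`. -/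
theorem hub_decomp (S : Finset V) (R : Finset (Sym2 V)) (hl : Loopless R) (hS : Supp R S)
    (s φ : ℝ) (hs : 0 < s) (hφ : 0 < φ) (L : ℕ)
    (hw : ∑ v ∈ S, (s + φ * (dg R v : ℝ)) ≤ 2 ^ L * s) :
    ∃ (HH : Finset (Finset V)) (R' : Finset (Sym2 V)),
      R' ⊆ R ∧ (∀ Z ∈ HH, Z ⊆ S) ∧ (HH : Set (Finset V)).PairwiseDisjoint id ∧
      (∀ Z ∈ HH, Hub (ind R Z) Z (fun v => s + φ * (dg R v : ℝ)) s φ 1) ∧
      (∀ Z ∈ HH, 2 ≤ Z.card) ∧
      R \ R' = HH.biUnion (fun Z => ind R Z) ∧
      (R'.card : ℝ) ≤ L * ∑ v ∈ S, (s + φ * (dg R v : ℝ)) := by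
  have hwge : ∀ v : V, s ≤ s + φ * (dg R v : ℝ) := by
    intro v
    have : 0 ≤ φ * (dg R v : ℝ) := mul_nonneg hφ.le (Nat.cast_nonneg _)
    linarith
  have hexist : ∀ e : Sym2 V, ∃ x, x ∈ e := by
    intro e
    induction e with
    | _ a b => exact ⟨a, by simp⟩
  rcases S.eq_empty_or_nonempty with hSe | hSn
  · have hR : R = ∅ := by
      rw [Finset.eq_empty_iff_forall_notMem]
      intro e he
      obtain ⟨x, hx⟩ := hexist e
      have := hS e he x hx
      rw [hSe] at this
      simp at this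
    refine ⟨∅, ∅, ?_, ?_, ?_, ?_, ?_, ?_, ?_⟩
    · exact Finset.empty_subset _
    · intro Z hZ; simp at hZ
    · simp
    · intro Z hZ; simp at hZ
    · intro Z hZ; simp at hZ
    · rw [hR]; simp
    · simp [hSe]
  · obtain ⟨Q, hQs, hQn, hQd, hQc, hQg, R₂, hR2s, hR2c, hR2n, hR2b⟩ :=
      decomp_rec R s hs (fun v => s + φ * (dg R v : ℝ)) hwge S.card S rfl hSn
    have hindS : ind R S = R := by
      ext e
      rw [mem_ind]
      exact ⟨fun h => h.1, fun h => ⟨h, hS e h⟩⟩
    rw [hindS] at hR2s hR2c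
    refine ⟨Q.filter (fun Z => 2 ≤ Z.card), R₂, hR2s, ?_, ?_, ?_, ?_, ?_, ?_⟩
    · intro Z hZ; exact hQs Z (Finset.mem_filter.1 hZ).1
    · intro A hA B hB hAB
      have hA' := (Finset.mem_filter.1 (Finset.mem_coe.1 hA)).1
      have hB' := (Finset.mem_filter.1 (Finset.mem_coe.1 hB)).1
      exact hQd hA' hB' hAB
    · intro Z hZ
      have hZQ := (Finset.mem_filter.1 hZ).1
      refine ⟨?_, ?_, ?_, ?_, ?_⟩
      · intro e he; exact hl e (mem_ind.1 he).1
      · intro e he x hx; exact (mem_ind.1 he).2 x hx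
      · intro v _; exact hwge v
      · intro v _
        have h1 : dg (ind R Z) v ≤ dg R v := dg_mono (fun e he => (mem_ind.1 he).1) v
        have h2 : (dg (ind R Z) v : ℝ) ≤ (dg R v : ℝ) := by exact_mod_cast h1
        have h3 := mul_le_mul_of_nonneg_left h2 hφ.le
        show φ * (dg (ind R Z) v : ℝ) ≤ s + φ * (dg R v : ℝ)
        linarith
      · intro U hU hUw
        rw [one_mul]
        exact hQg Z hZQ U hU hUw
    · intro Z hZ; exact (Finset.mem_filter.1 hZ).2
    · ext e
      rw [Finset.mem_sdiff, Finset.mem_biUnion]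
      constructor
      · rintro ⟨heR, heR2⟩
        obtain ⟨Y, hY, hYe⟩ := hR2c e heR heR2
        refine ⟨Y, Finset.mem_filter.2 ⟨hY, ?_⟩, mem_ind.2 ⟨heR, hYe⟩⟩
        have hd := hl e heR
        induction e with
        | _ a b =>
          rw [Sym2.mk_isDiag_iff] at hd
          have ha : a ∈ Y := hYe a (by simp)
          have hb : b ∈ Y := hYe b (by simp)
          exact Finset.one_lt_card.2 ⟨a, ha, b, hb, hd⟩
      · rintro ⟨Y, hY, heY⟩
        refine ⟨(mem_ind.1 heY).1, fun h2 => ?_⟩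
        exact hR2n e h2 Y (Finset.mem_filter.1 hY).1 (mem_ind.1 heY).2
    · refine hR2b.trans ?_
      have hpos : 0 < ∑ v ∈ S, (s + φ * (dg R v : ℝ)) :=
        Finset.sum_pos (fun v _ => lt_of_lt_of_le hs (hwge v)) hSn
      rw [mul_comm]
      apply mul_le_mul_of_nonneg_right _ hpos.le
      rw [Real.logb_le_iff_le_rpow (by norm_num) (div_pos hpos hs), div_le_iff₀ hs]
      simpa using hw

end Crest.Agent.EG
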