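import Mathlib

/-!
# S0064 (Erdos-Gallai cycle decomposition): core definitions

The paper proof is in the team notes (rid S0064, helper49) and in `EG_Proof.md`-style comment of
`EG_Main.lean`.  Graphs are finite sets of edges `E : Finset (Sym2 V)`.
-/

set_option autoImplicit false

namespace Crest.Agent.EG

variable {V : Type*}

/-- consecutive edges of a vertex list -/
def pE : List V → List (Sym2 V)
  | [] => []
  | [_] => []
  | a :: b :: l => s(a, b) :: pE (b :: l)

/-- edges of the closed cycle through a vertex list -/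
def cycE (l : List V) : List (Sym2 V) := pE (l ++ l.take 1)

/-- no loops -/
def Loopless (E : Finset (Sym2 V)) : Prop := ∀ e ∈ E, ¬ e.IsDiag

/-- all edges have their ends in `S` -/
def Supp (E : Finset (Sym2 V)) (S : Finset V) : Prop := ∀ e ∈ E, ∀ x ∈ e, x ∈ S

section
open Classical

/-- degree of `v` in the edge set `E` -/
noncomputable def dg (E : Finset (Sym2 V)) (v : V) : ℕ := (E.filter (fun e => v ∈ e)).card

/-- edges with one end in `U` and one end outside `U` -/
noncomputable def bd (E : Finset (Sym2 V)) (U : Finset V) : Finset (Sym2 V) :=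
  E.filter (fun e => (∃ x ∈ e, x ∈ U) ∧ ∃ y ∈ e, y ∉ U)

/-- edges with both ends in `U` -/
noncomputable def ind (E : Finset (Sym2 V)) (U : Finset V) : Finset (Sym2 V) :=
  E.filter (fun e => ∀ x ∈ e, x ∈ U)

/-- edges with at least one end in `U` -/
noncomputable def inc (E : Finset (Sym2 V)) (U : Finset V) : Finset (Sym2 V) :=
  E.filter (fun e => ∃ x ∈ e, x ∈ U)

/-- edges meeting both `A` and `B` (used for disjoint `A`, `B`) -/
noncomputable def btw (E : Finset (Sym2 V)) (A B : Finset V) : Finset (Sym2 V) :=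
  E.filter (fun e => (∃ x ∈ e, x ∈ A) ∧ ∃ y ∈ e, y ∈ B)

/-- number of neighbours of `v` inside the vertex set `T` -/
noncomputable def dgin (E : Finset (Sym2 V)) (T : Finset V) (v : V) : ℕ :=
  (T.filter (fun y => s(v, y) ∈ E)).card

end

/-- `(D, w)` is an expander on `Z`: `w ≥ s`, `w ≥ φ deg`, and `e(U, Z \ U) ≥ η w(U)` for all `U ⊆ Z`
with `w(U) ≤ w(Z)/2`. -/
structure Hub (D : Finset (Sym2 V)) (Z : Finset V) (w : V → ℝ) (s φ η : ℝ) : Prop where
  loopless : Loopless D
  supp : Supp D Z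
  w_ge : ∀ v ∈ Z, s ≤ w v
  w_deg : ∀ v ∈ Z, φ * (dg D v : ℝ) ≤ w v
  exp : ∀ U ⊆ Z, ∑ v ∈ U, w v ≤ (∑ v ∈ Z, w v) / 2 → η * ∑ v ∈ U, w v ≤ ((bd D U).card : ℝ)

variable [DecidableEq V]

/-- `C` is the edge set of a cycle -/
def IsCyc (C : Finset (Sym2 V)) : Prop :=
  ∃ l : List V, l.Nodup ∧ 3 ≤ l.length ∧ C = (cycE l).toFinset

/-- `C` is a single edge or a cycle -/
def IsPart (C : Finset (Sym2 V)) : Prop := (∃ e, C = {e}) ∨ IsCyc C

/-- `E` can be partitioned into at most `k` parts -/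
def CD (E : Finset (Sym2 V)) (k : ℕ) : Prop :=
  ∃ Q : Finset (Finset (Sym2 V)), Q.card ≤ k ∧ (∀ C ∈ Q, IsPart C) ∧
    (Q : Set (Finset (Sym2 V))).PairwiseDisjoint id ∧ Q.biUnion id = E

/-- the least number of parts in a partition of `E` into cycles and single edges -/
noncomputable def cd (E : Finset (Sym2 V)) : ℕ := sInf {k | CD E k}

/-- edges of a skeleton (stations `(x₁,y₁), (x₂,y₂), …`): `s(y₁,x₂), s(y₂,x₃), …` (open version) -/
def skp : List (V × V) → List (Sym2 V)
  | [] => []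
  | [_] => []
  | p :: q :: l => s(p.2, q.1) :: skp (q :: l)

/-- cyclic edges of a skeleton -/
def skE (l : List (V × V)) : List (Sym2 V) := skp (l ++ l.take 1)

/-- A valid skeleton w.r.t. the cores `𝓒`: a cyclic list of at least two stations `(x,y)`; a station is
trivial (`x = y`) or both entries lie in a common core (they will be linked inside the core); distinct
stations have disjoint vertices; at most `g` stations meet any given core. -/
def ValidSk (𝓒 : Finset (Finset V)) (g : ℕ) (l : List (V × V)) : Prop :=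
  2 ≤ l.length ∧
  (∀ p ∈ l, p.1 = p.2 ∨ ∃ Z ∈ 𝓒, p.1 ∈ Z ∧ p.2 ∈ Z) ∧
  l.Pairwise (fun p q => p.1 ≠ q.1 ∧ p.1 ≠ q.2 ∧ p.2 ≠ q.1 ∧ p.2 ≠ q.2) ∧
  (3 ≤ l.length ∨ ∃ p ∈ l, p.1 ≠ p.2) ∧
  (∀ Z ∈ 𝓒, (l.filter (fun p => decide (p.1 ∈ Z ∨ p.2 ∈ Z))).length ≤ g)

/-- `𝒦` is a family of valid skeletons with pairwise disjoint edge sets, and `R` is the disjoint union of
`R₁` and the skeleton edges. -/
structure SkFam (𝓒 : Finset (Finset V)) (g : ℕ) (R : Finset (Sym2 V))
    (𝒦 : Finset (List (V × V))) (R₁ : Finset (Sym2 V)) : Prop where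
  valid : ∀ l ∈ 𝒦, ValidSk 𝓒 g l
  disj : (𝒦 : Set (List (V × V))).PairwiseDisjoint (fun l => (skE l).toFinset)
  sub : R₁ ⊆ R
  cover : R \ R₁ = 𝒦.biUnion (fun l => (skE l).toFinset)

end Crest.Agent.EG
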