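import Crest.Agent.EG_Cheeger

set_option autoImplicit false

namespace Crest.Agent.EG

/-! TASK EG-Energy (deterministic part of the spectral sampling lemma). -/

section
open Classical

/-- `enn` as a double sum of a nonnegative symmetric kernel -/
theorem energy_enn_eq {ι : Type*} [Fintype ι] (G : SimpleGraph ι) (U T : Finset ι) (f : ι → ℝ) :
    enn G U T f = ∑ u ∈ U, ∑ v ∈ T, (if G.Adj u v then (f u - f v) ^ 2 else 0) := by
  unfold enn
  refine Finset.sum_congr rfl fun u _ => ?_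
  rw [Finset.sum_filter]

theorem energy_enn_nonneg {ι : Type*} [Fintype ι] (G : SimpleGraph ι) (U T : Finset ι) (f : ι → ℝ) :
    0 ≤ enn G U T f := by
  unfold enn
  exact Finset.sum_nonneg fun u _ => Finset.sum_nonneg fun v _ => sq_nonneg _

theorem energy_enn_comm {ι : Type*} [Fintype ι] (G : SimpleGraph ι) (U T : Finset ι) (f : ι → ℝ) :
    enn G U T f = enn G T U f := by
  rw [energy_enn_eq, energy_enn_eq, Finset.sum_comm]
  refine Finset.sum_congr rfl fun u _ => Finset.sum_congr rfl fun v _ => ?_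
  by_cases h : G.Adj v u
  · rw [if_pos h, if_pos h.symm]; ring
  · rw [if_neg h, if_neg (fun h' => h h'.symm)]

theorem energy_enn_mono {ι : Type*} [Fintype ι] (G : SimpleGraph ι) (U T T' : Finset ι) (f : ι → ℝ)
    (hT : T ⊆ T') : enn G U T f ≤ enn G U T' f := by
  unfold enn
  refine Finset.sum_le_sum fun u _ => ?_
  exact Finset.sum_le_sum_of_subset_of_nonneg (Finset.filter_subset_filter _ hT)
    fun v _ _ => sq_nonneg _

theorem energy_enn_union {ι : Type*} [Fintype ι] [DecidableEq ι] (G : SimpleGraph ι) (U T T' : Finset ι) (f : ι → ℝ)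
    (hT : Disjoint T T') : enn G U (T ∪ T') f = enn G U T f + enn G U T' f := by
  rw [energy_enn_eq, energy_enn_eq, energy_enn_eq, ← Finset.sum_add_distrib]
  refine Finset.sum_congr rfl fun u _ => ?_
  rw [Finset.sum_union hT]

theorem energy_enn_union' {ι : Type*} [Fintype ι] [DecidableEq ι] (G : SimpleGraph ι) (U T T' : Finset ι) (f : ι → ℝ)
    (hT : Disjoint T T') : enn G (T ∪ T') U f = enn G T U f + enn G T' U f := by
  rw [energy_enn_comm, energy_enn_union G U T T' f hT, energy_enn_comm G U T, energy_enn_comm G U T']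

theorem energy_enn_univ {ι : Type*} [Fintype ι] (G : SimpleGraph ι) {N : ℕ} (lab : ι → Fin N)
    (U : Finset ι) (f : ι → ℝ) :
    enn G U Finset.univ f = ∑ l, enn G U (cls lab l) f := by
  rw [energy_enn_eq]
  simp only [energy_enn_eq]
  rw [Finset.sum_comm]
  conv_rhs =>
    enter [2, l]
    rw [Finset.sum_comm]
  unfold cls
  rw [Finset.sum_fiberwise]

end

/-- Extension to all of `Z = ι`: with `T1,T3,T4` the classes, `S = T1 ∪ T3 ∪ T4`, `g = avg G T1 h`:
`E_Z(g) ≤ N² E_S(g) + 2N² t Σ_{T1} w h²` (unordered energies; here ordered, so the `t` term has an extra factor 2).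
`E_Z(g) ≤ E_{T1}(g) + Σ_{z ∉ T1} Star_z(g)`, `Σ_{z ∉ T1} Star_z ≤ (N-1) Σ_{z ∈ T3} Star_z + (N-2) t Σ` by `e1` for all labels `≠ l1`,
`Σ_{z ∈ T3} Star_z = (neighbours in T1 ∪ T3) + Σ_{z' ∉ T1 ∪ T3} X'_{z'}`, `≤ 2 E_{T1 ∪ T3}(g) + (N-2) E_{T3,T4}(g) + (N-3) t Σ` by `e2`. -/
theorem energy_ext {ι : Type*} [Fintype ι] [DecidableEq ι] (G : SimpleGraph ι) (w : ι → ℝ) (hw : ∀ v, 0 ≤ w v)
    (N : ℕ) (hN : 3 ≤ N)
    (lab : ι → Fin N) (t : ℝ) (ht : 0 ≤ t) (l1 l3 l4 : Fin N) (h13 : l1 ≠ l3) (h14 : l1 ≠ l4) (h34 : l3 ≠ l4)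
    (hg : GoodLab G w N lab t l1 l3 l4) (S : Finset ι)
    (hS : S = cls lab l1 ∪ cls lab l3 ∪ cls lab l4) (h : ι → ℝ) :
    enn G Finset.univ Finset.univ (avg G (cls lab l1) h) ≤
      N ^ 2 * enn G S S (avg G (cls lab l1) h) + 4 * N ^ 2 * t * ∑ v ∈ cls lab l1, w v * h v ^ 2 := by
  classical
  set g : ι → ℝ := avg G (cls lab l1) h with hgdef
  set Q : ℝ := t * ∑ v ∈ cls lab l1, w v * h v ^ 2 with hQ
  have hQ0 : 0 ≤ Q := mul_nonneg ht (Finset.sum_nonneg fun v _ => mul_nonneg (hw v) (sq_nonneg _))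
  set x : Fin N → Fin N → ℝ := fun l l' => enn G (cls lab l) (cls lab l') g with hx
  have hx0 : ∀ l l', 0 ≤ x l l' := fun l l' => energy_enn_nonneg G _ _ g
  have hxs : ∀ l l', x l l' = x l' l := fun l l' => energy_enn_comm G _ _ g
  set X : Fin N → ℝ := fun l => enn G (cls lab l) Finset.univ g with hX
  have hXx : ∀ l, X l = ∑ l', x l l' := fun l => energy_enn_univ G lab _ g
  have hX0 : ∀ l, 0 ≤ X l := fun l => energy_enn_nonneg G _ _ g
  have htot : enn G Finset.univ Finset.univ g = ∑ l, X l := by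
    rw [energy_enn_univ G lab]
    exact Finset.sum_congr rfl fun l _ => energy_enn_comm G _ _ g
  have he1 : ∀ l, l ≠ l1 → X l ≤ X l3 + Q := fun l hl => hg.e1 l hl h
  have he2 : ∀ l, l ≠ l1 → l ≠ l3 → x l l3 ≤ x l4 l3 + Q := fun l hl hl3 => hg.e2 l hl hl3 h
  have hNR : (3 : ℝ) ≤ N := by exact_mod_cast hN
  -- split off `l1`
  have hs1 : ∑ l, X l = X l1 + ∑ l ∈ Finset.univ.erase l1, X l :=
    (Finset.add_sum_erase _ _ (Finset.mem_univ l1)).symm
  have hs2 : X l1 = x l1 l1 + ∑ l ∈ Finset.univ.erase l1, x l1 l := by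
    rw [hXx]
    exact (Finset.add_sum_erase _ _ (Finset.mem_univ l1)).symm
  have hs3 : ∑ l ∈ Finset.univ.erase l1, x l1 l ≤ ∑ l ∈ Finset.univ.erase l1, X l := by
    refine Finset.sum_le_sum fun l _ => ?_
    rw [hxs, hXx]
    exact Finset.single_le_sum (f := fun l' => x l l') (fun l' _ => hx0 l l') (Finset.mem_univ l1)
  have hcard1 : ((Finset.univ.erase l1).card : ℝ) = N - 1 := by
    rw [Finset.card_erase_of_mem (Finset.mem_univ _), Finset.card_univ, Fintype.card_fin,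
      Nat.cast_sub (by omega)]
    simp
  have hs4 : ∑ l ∈ Finset.univ.erase l1, X l ≤ (N - 1) * (X l3 + Q) := by
    refine le_trans (Finset.sum_le_sum fun l hl => he1 l (Finset.ne_of_mem_erase hl)) ?_
    rw [Finset.sum_const, nsmul_eq_mul, hcard1]
  have hmem3 : l3 ∈ Finset.univ.erase l1 := Finset.mem_erase.mpr ⟨h13.symm, Finset.mem_univ _⟩
  have hs5 : X l3 = x l3 l1 + (x l3 l3 + ∑ l ∈ (Finset.univ.erase l1).erase l3, x l3 l) := by
    rw [hXx, ← Finset.add_sum_erase _ _ (Finset.mem_univ l1), ← Finset.add_sum_erase _ _ hmem3]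
  have hcard2 : (((Finset.univ.erase l1).erase l3).card : ℝ) = N - 2 := by
    rw [Finset.card_erase_of_mem hmem3, Finset.card_erase_of_mem (Finset.mem_univ _),
      Finset.card_univ, Fintype.card_fin, Nat.sub_sub, Nat.cast_sub (by omega)]
    norm_num
  have hs6 : ∑ l ∈ (Finset.univ.erase l1).erase l3, x l3 l ≤ (N - 2) * (x l4 l3 + Q) := by
    refine le_trans (Finset.sum_le_sum fun l hl => ?_) (?_ : ∑ l ∈ (Finset.univ.erase l1).erase l3,
      (x l4 l3 + Q) ≤ _)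
    · rw [hxs]
      exact he2 l (Finset.ne_of_mem_erase (Finset.mem_of_mem_erase hl)) (Finset.ne_of_mem_erase hl)
    · rw [Finset.sum_const, nsmul_eq_mul, hcard2]
  -- the energy in `S`
  have hd : ∀ l l', l ≠ l' → Disjoint (cls lab l) (cls lab l') := by
    intro l l' hl
    rw [Finset.disjoint_left]
    intro z hz hz'
    simp only [cls, Finset.mem_filter] at hz hz'
    exact hl (hz.2.symm.trans hz'.2)
  have hd2 : Disjoint (cls lab l1 ∪ cls lab l3) (cls lab l4) := by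
    rw [Finset.disjoint_union_left]
    exact ⟨hd _ _ h14, hd _ _ h34⟩
  have hES : enn G S S g = x l1 l1 + x l3 l3 + x l4 l4 + 2 * x l3 l1 + 2 * x l4 l1 + 2 * x l4 l3 := by
    rw [hS, energy_enn_union _ _ _ _ _ hd2, energy_enn_union _ _ _ _ _ (hd _ _ h13),
      energy_enn_union' _ _ _ _ _ hd2, energy_enn_union' _ _ _ _ _ (hd _ _ h13),
      energy_enn_union' _ _ _ _ _ hd2, energy_enn_union' _ _ _ _ _ (hd _ _ h13),
      energy_enn_union' _ _ _ _ _ hd2, energy_enn_union' _ _ _ _ _ (hd _ _ h13)]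
    change x l1 l1 + x l3 l1 + x l4 l1 + (x l1 l3 + x l3 l3 + x l4 l3) +
      (x l1 l4 + x l3 l4 + x l4 l4) = _
    rw [hxs l1 l3, hxs l1 l4, hxs l3 l4]
    ring
  rw [htot, hES]
  have hlin : ∑ l, X l ≤ x l1 l1 + 2 * ((N - 1) * (x l3 l1 + (x l3 l3 +
      (N - 2) * (x l4 l3 + Q)) + Q)) := by
    have h1 : (N - 1 : ℝ) * (X l3 + Q) ≤ (N - 1) * (x l3 l1 + (x l3 l3 +
      (N - 2) * (x l4 l3 + Q)) + Q) := by
      apply mul_le_mul_of_nonneg_left _ (by linarith)
      linarith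
    linarith
  refine hlin.trans ?_
  have e : 4 * (N : ℝ) ^ 2 * t * ∑ v ∈ cls lab l1, w v * h v ^ 2 = 4 * (N : ℝ) ^ 2 * Q := by
    rw [hQ]; ring
  rw [e]
  have a11 := hx0 l1 l1
  have a33 := hx0 l3 l3
  have a44 := hx0 l4 l4
  have a31 := hx0 l3 l1
  have a41 := hx0 l4 l1
  have a43 := hx0 l4 l3
  have hN2 : (0 : ℝ) ≤ (N : ℝ) ^ 2 - 1 := by nlinarith
  have c1 : 0 ≤ ((N : ℝ) ^ 2 - 1) * x l1 l1 := mul_nonneg hN2 a11
  have c2 : 0 ≤ ((N : ℝ) ^ 2 - 2 * (N - 1)) * x l3 l3 := mul_nonneg (by nlinarith) a33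
  have c3 : 0 ≤ ((N : ℝ) ^ 2) * x l4 l4 := mul_nonneg (by positivity) a44
  have c4 : 0 ≤ (2 * (N : ℝ) ^ 2 - 2 * (N - 1)) * x l3 l1 := mul_nonneg (by nlinarith) a31
  have c5 : 0 ≤ (2 * (N : ℝ) ^ 2) * x l4 l1 := mul_nonneg (by positivity) a41
  have c6 : 0 ≤ (2 * (N : ℝ) ^ 2 - 2 * (N - 1) * (N - 2)) * x l4 l3 := mul_nonneg (by nlinarith) a43
  have c7 : 0 ≤ (4 * (N : ℝ) ^ 2 - 2 * (N - 1) * (N - 1)) * Q := mul_nonneg (by nlinarith) hQ0
  nlinarith [c1, c2, c3, c4, c5, c6, c7]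

/-- local averages: for `S ⊆ W`, `T1 ⊆ S`, the energy over edges inside `W` with an end in `S` controls
`Σ_{u ∈ W} deg(u) (h u - g u)²`: it is at most `2N · Σ_{u∈W} Σ_{v ∈ T1, v ~ u} (h u - h v)²`. -/
theorem avg_dev {ι : Type*} [Fintype ι] [DecidableEq ι] (G : SimpleGraph ι) (N : ℕ) (hN : 1 ≤ N) (T W : Finset ι)
    (hdeg : ∀ z, (dgr G Finset.univ z : ℝ) ≤ 2 * N * dgr G T z) (h : ι → ℝ) :
    ∑ u ∈ W, (dgr G Finset.univ u : ℝ) * (h u - avg G T h u) ^ 2 ≤ 2 * N * enn G W T h := by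
  classical
  unfold enn
  rw [Finset.mul_sum]
  refine Finset.sum_le_sum fun u _ => ?_
  set A := T.filter (fun v => G.Adj u v) with hA
  have hdA : (dgr G T u : ℝ) = A.card := rfl
  have hav : avg G T h u = (∑ v ∈ A, h v) / A.card := rfl
  have hdu := hdeg u
  rw [hdA] at hdu
  have hsum0 : 0 ≤ ∑ v ∈ A, (h u - h v) ^ 2 := Finset.sum_nonneg fun v _ => sq_nonneg _
  rcases Nat.eq_zero_or_pos A.card with h0 | hpos
  · rw [h0] at hdu
    have hz : (dgr G Finset.univ u : ℝ) = 0 :=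
      le_antisymm (by simpa using hdu) (Nat.cast_nonneg _)
    rw [hz, zero_mul]
    exact mul_nonneg (by positivity) hsum0
  · have hcpos : (0 : ℝ) < A.card := by exact_mod_cast hpos
    have hcs : (∑ v ∈ A, (h u - h v)) ^ 2 ≤ A.card * ∑ v ∈ A, (h u - h v) ^ 2 :=
      sq_sum_le_card_mul_sum_sq
    have hdiff : h u - avg G T h u = (∑ v ∈ A, (h u - h v)) / A.card := by
      rw [hav, Finset.sum_sub_distrib, Finset.sum_const, nsmul_eq_mul]
      field_simp
    have hsq : (h u - avg G T h u) ^ 2 ≤ (∑ v ∈ A, (h u - h v) ^ 2) / A.card := by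
      rw [hdiff, div_pow, div_le_div_iff₀ (by positivity) hcpos]
      nlinarith [mul_le_mul_of_nonneg_right hcs hcpos.le]
    calc (dgr G Finset.univ u : ℝ) * (h u - avg G T h u) ^ 2
        ≤ (2 * N * A.card) * ((∑ v ∈ A, (h u - h v) ^ 2) / A.card) :=
          mul_le_mul hdu hsq (sq_nonneg _) (by positivity)
      _ = 2 * N * ∑ v ∈ A, (h u - h v) ^ 2 := by
          field_simp

/-- `E_S(g) ≤ (12N+3) E_S(h)` (both sides doubled). -/
theorem energy_avg {ι : Type*} [Fintype ι] [DecidableEq ι] (G : SimpleGraph ι) (N : ℕ) (hN : 1 ≤ N) (T S : Finset ι)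
    (hTS : T ⊆ S) (hdeg : ∀ z, (dgr G Finset.univ z : ℝ) ≤ 2 * N * dgr G T z) (h : ι → ℝ) :
    enn G S S (avg G T h) ≤ (12 * N + 3) * enn G S S h := by
  classical
  set g := avg G T h with hg
  have hdev := avg_dev G N hN T S hdeg h
  have hmono : enn G S T h ≤ enn G S S h := energy_enn_mono G S T S h hTS
  -- pointwise
  have hpt : enn G S S g ≤ ∑ u ∈ S, ∑ v ∈ S.filter (fun v => G.Adj u v),
      (3 * (h u - g u) ^ 2 + 3 * (h u - h v) ^ 2 + 3 * (h v - g v) ^ 2) := by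
    unfold enn
    refine Finset.sum_le_sum fun u _ => Finset.sum_le_sum fun v _ => ?_
    nlinarith [sq_nonneg ((g u - h u) - (h u - h v)), sq_nonneg ((h u - h v) - (h v - g v)),
      sq_nonneg ((g u - h u) - (h v - g v))]
  have hsplit : ∑ u ∈ S, ∑ v ∈ S.filter (fun v => G.Adj u v),
      (3 * (h u - g u) ^ 2 + 3 * (h u - h v) ^ 2 + 3 * (h v - g v) ^ 2) =
      3 * ∑ u ∈ S, ∑ v ∈ S.filter (fun v => G.Adj u v), (h u - g u) ^ 2 + 3 * enn G S S h +
      3 * ∑ u ∈ S, ∑ v ∈ S.filter (fun v => G.Adj u v), (h v - g v) ^ 2 := by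
    unfold enn
    simp only [Finset.sum_add_distrib, Finset.mul_sum]
  have hsw : ∑ u ∈ S, ∑ v ∈ S.filter (fun v => G.Adj u v), (h v - g v) ^ 2 =
      ∑ u ∈ S, ∑ v ∈ S.filter (fun v => G.Adj u v), (h u - g u) ^ 2 := by
    simp only [Finset.sum_filter]
    rw [Finset.sum_comm]
    refine Finset.sum_congr rfl fun u _ => Finset.sum_congr rfl fun v _ => ?_
    by_cases hh : G.Adj v u
    · rw [if_pos hh, if_pos hh.symm]
    · rw [if_neg hh, if_neg (fun h' => hh h'.symm)]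
  have hone : ∑ u ∈ S, ∑ v ∈ S.filter (fun v => G.Adj u v), (h u - g u) ^ 2 ≤
      ∑ u ∈ S, (dgr G Finset.univ u : ℝ) * (h u - g u) ^ 2 := by
    refine Finset.sum_le_sum fun u _ => ?_
    rw [Finset.sum_const, nsmul_eq_mul]
    refine mul_le_mul_of_nonneg_right ?_ (sq_nonneg _)
    unfold dgr
    exact_mod_cast Finset.card_le_card (Finset.filter_subset_filter _ (Finset.subset_univ S))
  rw [hsplit, hsw] at hpt
  have hNN : (0 : ℝ) ≤ N := Nat.cast_nonneg N
  have hm2 : (N : ℝ) * enn G S T h ≤ N * enn G S S h := mul_le_mul_of_nonneg_left hmono hNN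
  nlinarith

end Crest.Agent.EG
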