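import Crest.Agent.EG_Hall
import Crest.Agent.EG_HubB

set_option autoImplicit false

namespace Crest.Agent.EG

variable {V : Type*} [DecidableEq V]

structure FedgesG (D : Finset (Sym2 V)) (Z : Finset V) (w : V → ℝ) (θ : ℝ) (S : Fin 3 → Finset V)
    (P : Finset (Fin 3 × Fin 3)) (f : Fin 3 → V → Fin 3 → V) : Prop where
  mem : ∀ p ∈ P, ∀ x ∈ Z \ S p.1, f p.1 x p.2 ∈ S p.1 ∧ s(x, f p.1 x p.2) ∈ D
  inj : ∀ p ∈ P, ∀ q ∈ P, ∀ x ∈ Z \ S p.1, ∀ y ∈ Z \ S q.1,
    s(x, f p.1 x p.2) = s(y, f q.1 y q.2) → p = q ∧ x = y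
  load : ∀ p ∈ P, ∀ y, ((Z \ S p.1).filter (fun x => f p.1 x p.2 = y)).card ≤ ⌊θ * w y / 3⌋₊

/-- the used edges -/
def fedgesF (Z : Finset V) (S : Fin 3 → Finset V) (P : Finset (Fin 3 × Fin 3))
    (f : Fin 3 → V → Fin 3 → V) : Finset (Sym2 V) :=
  P.biUnion (fun p => (Z \ S p.1).image (fun x => s(x, f p.1 x p.2)))

theorem fedges_sum_le (S : Fin 3 → Finset V) (hdisj : ∀ k l, k ≠ l → Disjoint (S k) (S l)) (x : V)
    (c : ℕ) (P : Finset (Fin 3 × Fin 3)) :
    ∑ p ∈ P, (if x ∈ S p.1 then c else 0) ≤ 3 * c := by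
  calc ∑ p ∈ P, (if x ∈ S p.1 then c else 0)
      ≤ ∑ p : Fin 3 × Fin 3, (if x ∈ S p.1 then c else 0) :=
        Finset.sum_le_sum_of_subset (Finset.subset_univ _)
    _ = ∑ k : Fin 3, ∑ _i : Fin 3, (if x ∈ S k then c else 0) := by
        rw [Fintype.sum_prod_type]
    _ = ∑ k : Fin 3, (if x ∈ S k then 3 * c else 0) := by
        refine Finset.sum_congr rfl (fun k _ => ?_)
        rw [Finset.sum_const, Finset.card_univ, Fintype.card_fin]
        split_ifs <;> simp
    _ = (Finset.univ.filter (fun k => x ∈ S k)).card * (3 * c) := by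
        rw [← Finset.sum_filter, Finset.sum_const, smul_eq_mul]
    _ ≤ 1 * (3 * c) := by
        apply Nat.mul_le_mul_right
        rw [Finset.card_le_one]
        intro a ha b hb
        by_contra hab
        exact (Finset.disjoint_left.mp (hdisj a b hab)) (Finset.mem_filter.mp ha).2
          (Finset.mem_filter.mp hb).2
    _ = 3 * c := one_mul _

theorem fedges_used {D : Finset (Sym2 V)} {Z : Finset V} {w : V → ℝ} {θ : ℝ} {S : Fin 3 → Finset V}
    {P : Finset (Fin 3 × Fin 3)} {f : Fin 3 → V → Fin 3 → V}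
    (hdisj : ∀ k l, k ≠ l → Disjoint (S k) (S l))
    (hG : FedgesG D Z w θ S P f) (T : Finset V) (x : V) :
    (T.filter (fun y => s(x, y) ∈ fedgesF Z S P f)).card ≤ 9 + 3 * ⌊θ * w x / 3⌋₊ := by
  have hsub : T.filter (fun y => s(x, y) ∈ fedgesF Z S P f) ⊆
      (P.image (fun p => f p.1 x p.2)) ∪
        P.biUnion (fun p => (Z \ S p.1).filter (fun y => f p.1 y p.2 = x)) := by
    intro y hy
    rw [Finset.mem_filter] at hy
    obtain ⟨_, hy⟩ := hy
    rw [fedgesF, Finset.mem_biUnion] at hy
    obtain ⟨p, hp, hy⟩ := hy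
    rw [Finset.mem_image] at hy
    obtain ⟨x', hx', hy⟩ := hy
    rw [Sym2.eq_iff] at hy
    rw [Finset.mem_union]
    rcases hy with ⟨h1, h2⟩ | ⟨h1, h2⟩
    · left
      rw [Finset.mem_image]
      exact ⟨p, hp, by rw [← h1]; exact h2⟩
    · right
      rw [Finset.mem_biUnion]
      refine ⟨p, hp, ?_⟩
      rw [Finset.mem_filter]
      rw [← h1]
      exact ⟨hx', h2⟩
  have h9 : (P.image (fun p => f p.1 x p.2)).card ≤ 9 := by
    refine Finset.card_image_le.trans ?_
    refine (Finset.card_le_univ P).trans ?_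
    simp
  have h3 : (P.biUnion (fun p => (Z \ S p.1).filter (fun y => f p.1 y p.2 = x))).card ≤
      3 * ⌊θ * w x / 3⌋₊ := by
    refine Finset.card_biUnion_le.trans ?_
    refine le_trans ?_ (fedges_sum_le S hdisj x ⌊θ * w x / 3⌋₊ P)
    refine Finset.sum_le_sum (fun p hp => ?_)
    split_ifs with hx
    · exact hG.load p hp x
    · rw [Nat.le_zero, Finset.card_eq_zero, Finset.filter_eq_empty_iff]
      intro y hy hfy
      exact hx (hfy ▸ (hG.mem p hp y hy).1)
  calc (T.filter (fun y => s(x, y) ∈ fedgesF Z S P f)).card ≤ _ := Finset.card_le_card hsub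
    _ ≤ _ := Finset.card_union_le _ _
    _ ≤ 9 + 3 * ⌊θ * w x / 3⌋₊ := Nat.add_le_add h9 h3

/-- number of neighbours of `y` in a subset of `Z` is at most the degree -/
theorem fedges_card_nb (D : Finset (Sym2 V)) (Y : Finset V) (y : V) :
    (Y.filter (fun x => s(x, y) ∈ D)).card ≤ dg D y := by
  unfold dg
  refine Finset.card_le_card_of_injOn (fun x => s(x, y)) ?_ ?_
  · intro x hx
    have hx' := (Finset.mem_filter.mp (Finset.mem_coe.mp hx)).2
    simp only [Finset.coe_filter, Set.mem_ofPred_eq]
    exact ⟨hx', Sym2.mem_mk_right _ _⟩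
  · intro a _ b _ hab
    have hab' : s(a, y) = s(b, y) := hab
    rw [Sym2.eq_iff] at hab'
    rcases hab' with ⟨h, _⟩ | ⟨h1, h2⟩
    · exact h
    · rw [h1, ← h2]

/-- TASK EG-Fedges: choose, for each `k < 3` and `x ∈ Z \ S k`, three edges from `x` into `S k`, all edges distinct over all
`(k, x, i)`, with loads at most `θ w y` at each `y ∈ S k`.
Proof: `w v ≤ dg D v` (`hub_w_le_dg`). Process the 9 pairs `(k,i)` one after the other. Let `F` be the set of edges used so far:
a vertex `x` is on at most `9 + θ w x` of them (at most 9 as first vertex; as second vertex, if `x ∈ S k'`, at most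
`3 ⌊θ w x/3⌋ ≤ θ w x` since the `S k'` are disjoint), hence on at most `9 + θ dg D x ≤ dg D x/(4N)`. Allowed set
`A x = {y ∈ S k : s(x,y) ∈ D \ F}`, `|A x| ≥ dg D x/(2N) - dg D x/(4N) = dg D x/(4N)`. Apply `hall_cap` with
`cap y = ⌊θ w y/3⌋₊` for `y ∈ Z`: `Σ_{x : y ∈ A x} 1/|A x| ≤ dg D y · 4N/s ≤ 4N w y/(φ s) ≤ θ w y/6 ≤ ⌊θ w y/3⌋` as `θ w y ≥ 6`.
(Use the type `V` for `β`, `Y = Z \ S k`.) -/
theorem fedges (D : Finset (Sym2 V)) (Z : Finset V) (w : V → ℝ) (s φ θ : ℝ) (N : ℕ)
    (hub : Hub D Z w s φ 1) (hZ : 2 ≤ Z.card) (hφ : 0 < φ) (hφ1 : φ ≤ 1) (hN : 1 ≤ N)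
    (hs : 72 * N ≤ s) (hθ0 : 0 < θ) (hθ : 8 * N * θ ≤ 1) (hθs : 24 * N ≤ θ * φ * s)
    (S : Fin 3 → Finset V) (hS : ∀ k, S k ⊆ Z) (hdisj : ∀ k l, k ≠ l → Disjoint (S k) (S l))
    (hdeg : ∀ k, ∀ v ∈ Z, (dg D v : ℝ) ≤ 2 * N * dgin D (S k) v) :
    ∃ f : Fin 3 → V → Fin 3 → V,
      (∀ k, ∀ x ∈ Z \ S k, ∀ i, f k x i ∈ S k ∧ s(x, f k x i) ∈ D) ∧
      (∀ k l, ∀ x ∈ Z \ S k, ∀ y ∈ Z \ S l, ∀ i j, s(x, f k x i) = s(y, f l y j) →
        k = l ∧ x = y ∧ i = j) ∧
      (∀ k, ∀ y ∈ S k, ((((Z \ S k) ×ˢ (Finset.univ : Finset (Fin 3))).filter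
        (fun p => f k p.1 p.2 = y)).card : ℝ) ≤ θ * w y) := by
  have hNpos : (1 : ℝ) ≤ (N : ℝ) := by exact_mod_cast hN
  have hs1 : (1 : ℝ) < s := by nlinarith
  have hspos : (0 : ℝ) < s := by linarith
  have hθs24 : (24 : ℝ) ≤ θ * s := by
    have h1 : θ * φ * s ≤ θ * s := by
      have : θ * φ ≤ θ := by nlinarith
      exact mul_le_mul_of_nonneg_right this hspos.le
    nlinarith
  have hwdg : ∀ v ∈ Z, w v ≤ dg D v := fun v hv => hub_w_le_dg hub hs1 hZ hv
  -- main induction
  have key : ∀ P : Finset (Fin 3 × Fin 3), ∃ f : Fin 3 → V → Fin 3 → V, FedgesG D Z w θ S P f := by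
    intro P
    induction P using Finset.induction_on with
    | empty =>
      exact ⟨fun _ x _ => x, ⟨by simp, by simp, by simp⟩⟩
    | insert p P hpP ih =>
      obtain ⟨f, hG⟩ := ih
      obtain ⟨k, i⟩ := p
      classical
      set F := fedgesF Z S P f with hF
      let A : V → Finset V := fun x => (S k).filter (fun y => s(x, y) ∈ D ∧ s(x, y) ∉ F)
      have hAcard : ∀ x ∈ Z, (dg D x : ℝ) / (4 * N) ≤ ((A x).card : ℝ) := by
        intro x hx
        have h1 := fedges_used hdisj hG (S k) x
        rw [← hF] at h1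
        have h2 : dgin D (S k) x ≤ (A x).card + ((S k).filter (fun y => s(x, y) ∈ F)).card := by
          have : (S k).filter (fun y => s(x, y) ∈ D) ⊆
              A x ∪ (S k).filter (fun y => s(x, y) ∈ F) := by
            intro y hy
            rw [Finset.mem_filter] at hy
            rw [Finset.mem_union]
            by_cases hyF : s(x, y) ∈ F
            · right; exact Finset.mem_filter.mpr ⟨hy.1, hyF⟩
            · left; exact Finset.mem_filter.mpr ⟨hy.1, hy.2, hyF⟩
          have h3 := (Finset.card_le_card this).trans (Finset.card_union_le _ _)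
          have h4 : dgin D (S k) x = ((S k).filter (fun y => s(x, y) ∈ D)).card := by
            unfold dgin
            congr 1
            apply Finset.filter_congr_decidable
          rw [h4]
          exact h3
        have h3 : (dg D x : ℝ) ≤ 2 * N * dgin D (S k) x := hdeg k x hx
        have h4 : ((dgin D (S k) x : ℕ) : ℝ) ≤ ((A x).card : ℝ) + (9 + 3 * (⌊θ * w x / 3⌋₊ : ℝ)) := by
          have : dgin D (S k) x ≤ (A x).card + (9 + 3 * ⌊θ * w x / 3⌋₊) := by omega
          exact_mod_cast this
        have hwx := hub.w_ge x hx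
        have h5 : (⌊θ * w x / 3⌋₊ : ℝ) ≤ θ * w x / 3 := by
          apply Nat.floor_le
          have : 0 ≤ θ * w x := mul_nonneg hθ0.le (by linarith)
          linarith
        have h6 := hwdg x hx
        have h7 : θ * w x ≤ dg D x / (8 * N) := by
          rw [le_div_iff₀ (by positivity)]
          have : θ * w x * (8 * N) = (8 * N * θ) * w x := by ring
          rw [this]
          nlinarith [hub.w_ge x hx]
        have h8 : (9 : ℝ) ≤ dg D x / (8 * N) := by
          rw [le_div_iff₀ (by positivity)]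
          nlinarith
        have h9 : (dg D x : ℝ) / (2 * N) ≤ dgin D (S k) x := by
          rw [div_le_iff₀ (by positivity)]
          linarith
        have h10 : (dg D x : ℝ) / (2 * N) = dg D x / (4 * N) + dg D x / (4 * N) := by
          field_simp; ring
        have h11 : (dg D x : ℝ) / (4 * N) = dg D x / (8 * N) + dg D x / (8 * N) := by
          field_simp; ring
        linarith
      have hdgpos : ∀ x ∈ Z, (s : ℝ) ≤ dg D x := fun x hx => (hub.w_ge x hx).trans (hwdg x hx)
      have hAne : ∀ x ∈ Z \ S k, (A x).Nonempty := by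
        intro x hx
        have hxZ := (Finset.mem_sdiff.mp hx).1
        have h1 := hAcard x hxZ
        have h2 := hdgpos x hxZ
        have h3 : (0 : ℝ) < (dg D x : ℝ) / (4 * N) := by
          apply div_pos <;> [linarith; positivity]
        have h4 : (0 : ℝ) < ((A x).card : ℝ) := lt_of_lt_of_le h3 h1
        rw [← Finset.card_pos]
        exact_mod_cast h4
      have hcap : ∀ y, ∑ x ∈ (Z \ S k).filter (fun x => y ∈ A x), (1 : ℝ) / (A x).card ≤
          (⌊θ * w y / 3⌋₊ : ℕ) := by
        intro y
        by_cases hyS : y ∈ S k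
        · have hyZ : y ∈ Z := hS k hyS
          have hwy := hub.w_ge y hyZ
          have hθwy : (6 : ℝ) ≤ θ * w y := by nlinarith
          have hfl : θ * w y / 6 ≤ (⌊θ * w y / 3⌋₊ : ℝ) := by
            have := Nat.lt_floor_add_one (θ * w y / 3)
            linarith
          refine le_trans ?_ hfl
          have h1 : ∑ x ∈ (Z \ S k).filter (fun x => y ∈ A x), (1 : ℝ) / (A x).card ≤
              ∑ x ∈ (Z \ S k).filter (fun x => y ∈ A x), 4 * N / s := by
            refine Finset.sum_le_sum (fun x hx => ?_)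
            have hxZ : x ∈ Z := (Finset.mem_sdiff.mp (Finset.mem_filter.mp hx).1).1
            have h2 := hAcard x hxZ
            have h3 := hdgpos x hxZ
            have h4 : s / (4 * N) ≤ ((A x).card : ℝ) :=
              le_trans (div_le_div_of_nonneg_right h3 (by positivity)) h2
            have h5 : (0 : ℝ) < s / (4 * N) := by positivity
            calc (1 : ℝ) / (A x).card ≤ 1 / (s / (4 * N)) := one_div_le_one_div_of_le h5 h4
              _ = 4 * N / s := by field_simp
          refine h1.trans ?_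
          rw [Finset.sum_const, nsmul_eq_mul]
          have h2 : (((Z \ S k).filter (fun x => y ∈ A x)).card : ℝ) ≤ dg D y := by
            have h3 : ((Z \ S k).filter (fun x => y ∈ A x)).card ≤
                ((Z \ S k).filter (fun x => s(x, y) ∈ D)).card := by
              apply Finset.card_le_card
              intro x hx
              rw [Finset.mem_filter] at hx ⊢
              exact ⟨hx.1, (Finset.mem_filter.mp hx.2).2.1⟩
            exact_mod_cast h3.trans (fedges_card_nb D (Z \ S k) y)
          have h3 := hub.w_deg y hyZ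
          have h4 : (dg D y : ℝ) ≤ w y / φ := by
            rw [le_div_iff₀ hφ]; linarith
          have h5 : (4 * N / s : ℝ) ≤ θ * φ / 6 := by
            rw [div_le_iff₀ hspos]; nlinarith
          have h6 : (0 : ℝ) ≤ 4 * N / s := by positivity
          have hwy0 : 0 ≤ w y := by linarith
          calc (((Z \ S k).filter (fun x => y ∈ A x)).card : ℝ) * (4 * N / s)
              ≤ (w y / φ) * (θ * φ / 6) := by
                apply mul_le_mul (h2.trans h4) h5 h6
                positivity
            _ = θ * w y / 6 := by field_simp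
        · have : (Z \ S k).filter (fun x => y ∈ A x) = ∅ := by
            rw [Finset.filter_eq_empty_iff]
            intro x _ hyA
            exact hyS (Finset.mem_filter.mp hyA).1
          rw [this, Finset.sum_empty]
          positivity
      obtain ⟨g, hg1, hg2⟩ := hall_cap (Z \ S k) A (fun y => ⌊θ * w y / 3⌋₊) hAne hcap
      let f' : Fin 3 → V → Fin 3 → V := fun l x j => if l = k ∧ j = i then g x else f l x j
      have hnew : ∀ x, f' k x i = g x := fun x => by simp [f']
      have hold : ∀ p ∈ P, ∀ x, f' p.1 x p.2 = f p.1 x p.2 := by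
        intro p hp x
        have : ¬ (p.1 = k ∧ p.2 = i) := by
          rintro ⟨h1, h2⟩
          apply hpP
          rw [← h1, ← h2]
          exact hp
        simp only [f', if_neg this]
      have hnotF : ∀ x ∈ Z \ S k, ∀ q ∈ P, ∀ y ∈ Z \ S q.1, s(x, g x) ≠ s(y, f q.1 y q.2) := by
        intro x hx q hq y hy heq
        have h1 := (Finset.mem_filter.mp (hg1 x hx)).2.2
        apply h1
        rw [hF, fedgesF, Finset.mem_biUnion]
        exact ⟨q, hq, Finset.mem_image.mpr ⟨y, hy, heq.symm⟩⟩
      refine ⟨f', ⟨?_, ?_, ?_⟩⟩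
      · intro p hp x hx
        rw [Finset.mem_insert] at hp
        rcases hp with rfl | hp
        · have h1 := Finset.mem_filter.mp (hg1 x hx)
          simp only [hnew]
          exact ⟨h1.1, h1.2.1⟩
        · rw [hold p hp x]
          exact hG.mem p hp x hx
      · intro p hp q hq x hx y hy heq
        rw [Finset.mem_insert] at hp hq
        rcases hp with rfl | hp
        · rcases hq with rfl | hq
          · refine ⟨rfl, ?_⟩
            simp only [hnew] at heq
            rw [Sym2.eq_iff] at heq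
            rcases heq with ⟨h, _⟩ | ⟨h1, _⟩
            · exact h
            · exfalso
              have h2 := (Finset.mem_filter.mp (hg1 y hy)).1
              rw [← h1] at h2
              exact (Finset.mem_sdiff.mp hx).2 h2
          · exfalso
            rw [hold q hq y] at heq
            simp only [hnew] at heq
            exact hnotF x hx q hq y hy heq
        · rcases hq with rfl | hq
          · exfalso
            rw [hold p hp x] at heq
            simp only [hnew] at heq
            exact hnotF y hy p hp x hx heq.symm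
          · rw [hold p hp x, hold q hq y] at heq
            exact hG.inj p hp q hq x hx y hy heq
      · intro p hp y
        rw [Finset.mem_insert] at hp
        rcases hp with rfl | hp
        · simp only [hnew]
          exact hg2 y
        · have : (Z \ S p.1).filter (fun x => f' p.1 x p.2 = y) =
              (Z \ S p.1).filter (fun x => f p.1 x p.2 = y) := by
            apply Finset.filter_congr
            intro x _
            rw [hold p hp x]
          rw [this]
          exact hG.load p hp y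
  obtain ⟨f, hG⟩ := key Finset.univ
  refine ⟨f, ?_, ?_, ?_⟩
  · intro k x hx i
    exact hG.mem (k, i) (Finset.mem_univ _) x hx
  · intro k l x hx y hy i j heq
    have h := hG.inj (k, i) (Finset.mem_univ _) (l, j) (Finset.mem_univ _) x hx y hy heq
    have h1 := congrArg Prod.fst h.1
    have h2 := congrArg Prod.snd h.1
    exact ⟨h1, h.2, h2⟩
  · intro k y hy
    have hyZ := hS k hy
    have hwy := hub.w_ge y hyZ
    have h1 : (((Z \ S k) ×ˢ (Finset.univ : Finset (Fin 3))).filter
        (fun p => f k p.1 p.2 = y)).card ≤ ∑ _i : Fin 3, ⌊θ * w y / 3⌋₊ := by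
      have h2 : (((Z \ S k) ×ˢ (Finset.univ : Finset (Fin 3))).filter
        (fun p => f k p.1 p.2 = y)) ⊆ (Finset.univ : Finset (Fin 3)).biUnion
          (fun i => ((Z \ S k).filter (fun x => f k x i = y)).image (fun x => (x, i))) := by
        intro p hp
        rw [Finset.mem_filter, Finset.mem_product] at hp
        rw [Finset.mem_biUnion]
        refine ⟨p.2, Finset.mem_univ _, Finset.mem_image.mpr ⟨p.1, ?_, rfl⟩⟩
        exact Finset.mem_filter.mpr ⟨hp.1.1, hp.2⟩
      refine (Finset.card_le_card h2).trans (Finset.card_biUnion_le.trans ?_)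
      refine Finset.sum_le_sum (fun i _ => Finset.card_image_le.trans ?_)
      exact hG.load (k, i) (Finset.mem_univ _) y
    have h2 : (⌊θ * w y / 3⌋₊ : ℝ) ≤ θ * w y / 3 := by
      apply Nat.floor_le
      have : 0 ≤ θ * w y := mul_nonneg hθ0.le (by linarith)
      linarith
    have h3 : ((((Z \ S k) ×ˢ (Finset.univ : Finset (Fin 3))).filter
        (fun p => f k p.1 p.2 = y)).card : ℝ) ≤ ((∑ _i : Fin 3, ⌊θ * w y / 3⌋₊ : ℕ) : ℝ) := by
      exact_mod_cast h1
    refine h3.trans ?_
    rw [Finset.sum_const, Finset.card_univ, Fintype.card_fin]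
    simp only [smul_eq_mul, Nat.cast_mul, Nat.cast_ofNat]
    linarith

end Crest.Agent.EG
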