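import Crest.Agent.EG_Step
import Crest.Agent.EG_Bridge
import Crest.Agent.EG_HubB

set_option autoImplicit false

namespace Crest.Agent.EG

/-- the constants of the scales -/
noncomputable def tauSeq (C₀ : ℝ) : ℕ → ℝ
  | 0 => C₀
  | k + 1 => tauSeq C₀ k * (1 + 2 ^ 18 / 2 ^ (k / 16))

theorem tauSeq_ge (C₀ : ℝ) (hC : 0 ≤ C₀) (k : ℕ) : C₀ ≤ tauSeq C₀ k := by
  induction k with
  | zero => exact le_refl _
  | succ k ih =>
    rw [tauSeq]
    have h : (0:ℝ) ≤ 2 ^ 18 / 2 ^ (k / 16) := by positivity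
    nlinarith

theorem Final_large (k₀ : ℕ) : ∃ C₀ : ℝ, 12000 ≤ C₀ ∧ ∀ k : ℕ, k ≤ k₀ → (2:ℝ) ^ (2 ^ k) ≤ C₀ := by
  refine ⟨12000 + ∑ k ∈ Finset.range (k₀ + 1), (2:ℝ) ^ (2 ^ k), ?_, ?_⟩
  · have : (0:ℝ) ≤ ∑ k ∈ Finset.range (k₀ + 1), (2:ℝ) ^ (2 ^ k) := Finset.sum_nonneg (fun i _ => by positivity)
    linarith
  · intro k hk
    have h : (2:ℝ) ^ (2 ^ k) ≤ ∑ k ∈ Finset.range (k₀ + 1), (2:ℝ) ^ (2 ^ k) :=
      Finset.single_le_sum (f := fun k => (2:ℝ) ^ (2 ^ k)) (fun i _ => by positivity) (Finset.mem_range.mpr (by omega))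
    linarith

/-- TASK EG-Final: final recursion. -/
theorem main_bound : ∃ C : ℝ, ∀ (V : Type) [DecidableEq V] (S : Finset V) (E : Finset (Sym2 V)),
    Loopless E → Supp E S → (cd E : ℝ) ≤ C * S.card := by
  obtain ⟨k₀, hk₀⟩ : ∃ k₀ : ℕ, 1000 ≤ k₀ := ⟨1000, le_rfl⟩
  obtain ⟨C₀, hC1, hC2⟩ := Final_large k₀
  have hC0 : 0 ≤ C₀ := by linarith
  have hpos : ∀ k, 0 ≤ tauSeq C₀ k := fun k => le_trans hC0 (tauSeq_ge C₀ hC0 k)
  obtain ⟨C, hC⟩ := rec_bounded (tauSeq C₀) hpos (fun k => le_of_eq rfl)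
  refine ⟨C, ?_⟩
  intro V _ S E hl hE
  have claim : ∀ k : ℕ, ∀ (S : Finset V) (E : Finset (Sym2 V)), Loopless E → Supp E S → S.card ≤ 2 ^ (2 ^ k) →
      (cd E : ℝ) ≤ tauSeq C₀ k * S.card := by
    intro k
    by_cases hk : k ≤ k₀
    · intro S E hl hE hS
      have h1 : (cd E : ℝ) ≤ (S.card : ℝ) ^ 2 := by
        have h1 := cd_le_card E
        have h2 := card_le_sq hl hE
        exact_mod_cast h1.trans h2
      have h2 : (S.card : ℝ) ≤ 2 ^ (2 ^ k) := by exact_mod_cast hS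
      have h3 : (S.card : ℝ) ≤ tauSeq C₀ k := h2.trans ((hC2 k hk).trans (tauSeq_ge C₀ hC0 k))
      have h4 : (0:ℝ) ≤ S.card := by positivity
      nlinarith
    · push Not at hk
      obtain ⟨d, rfl⟩ : ∃ d, k = k₀ + d := ⟨k - k₀, by omega⟩
      clear hk
      induction d with
      | zero =>
        intro S E hl hE hS
        have h1 : (cd E : ℝ) ≤ (S.card : ℝ) ^ 2 := by
          have h1 := cd_le_card E
          have h2 := card_le_sq hl hE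
          exact_mod_cast h1.trans h2
        have h2 : (S.card : ℝ) ≤ 2 ^ (2 ^ (k₀ + 0)) := by exact_mod_cast hS
        have h3 : (S.card : ℝ) ≤ tauSeq C₀ (k₀ + 0) := h2.trans ((hC2 _ (by omega)).trans (tauSeq_ge C₀ hC0 _))
        have h4 : (0:ℝ) ≤ S.card := by positivity
        nlinarith
      | succ d ih =>
        have hge : 12000 ≤ tauSeq C₀ (k₀ + d) := hC1.trans (tauSeq_ge C₀ hC0 _)
        exact step (k₀ + d) (by omega) (tauSeq C₀ (k₀ + d)) hge ih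
  obtain ⟨k, hk⟩ : ∃ k : ℕ, S.card ≤ 2 ^ (2 ^ k) := by
    refine ⟨S.card, ?_⟩
    have h1 : S.card ≤ 2 ^ S.card := Nat.lt_two_pow_self.le
    exact h1.trans (Nat.lt_two_pow_self.le)
  refine (claim k S E hl hE hk).trans ?_
  gcongr
  exact hC k

end Crest.Agent.EG
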