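import Crest.Agent.EG_Concat
import Crest.Agent.EG_Cd

set_option autoImplicit false

namespace Crest.Agent.EG

variable {V : Type*} [DecidableEq V]

theorem gamma_mem_skp (L : List (V × V)) (e : Sym2 V) :
    e ∈ skp L ↔ ∃ i, ∃ h : i + 1 < L.length, e = s((L[i]).2, (L[i + 1]).1) := by
  induction L with
  | nil => simp [skp]
  | cons p L ih =>
    cases L with
    | nil => simp [skp]
    | cons q l =>
      rw [skp, List.mem_cons, ih]
      constructor
      · rintro (rfl | ⟨i, h, rfl⟩)
        · exact ⟨0, by simp, rfl⟩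
        · exact ⟨i + 1, by simpa using h, rfl⟩
      · rintro ⟨i, h, rfl⟩
        cases i with
        | zero => exact Or.inl rfl
        | succ i => exact Or.inr ⟨i, by simpa using h, rfl⟩

theorem gamma_mem_pE (L : List V) (e : Sym2 V) :
    e ∈ pE L ↔ ∃ i, ∃ h : i + 1 < L.length, e = s((L[i]), (L[i + 1])) := by
  induction L with
  | nil => simp [pE]
  | cons p L ih =>
    cases L with
    | nil => simp [pE]
    | cons q l =>
      rw [pE, List.mem_cons, ih]
      constructor
      · rintro (rfl | ⟨i, h, rfl⟩)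
        · exact ⟨0, by simp, rfl⟩
        · exact ⟨i + 1, by simpa using h, rfl⟩
      · rintro ⟨i, h, rfl⟩
        cases i with
        | zero => exact Or.inl rfl
        | succ i => exact Or.inr ⟨i, by simpa using h, rfl⟩

theorem gamma_cyc_get {α : Type*} (K : List α) (hK : 0 < K.length) (i : ℕ) (hi : i < K.length)
    (h : i + 1 < (K ++ K.take 1).length) :
    (K ++ K.take 1)[i] = K[i] ∧
      (K ++ K.take 1)[i + 1] = K[(i + 1) % K.length]'(Nat.mod_lt _ hK) := by
  constructor
  · rw [List.getElem_append_left hi]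
  · by_cases h1 : i + 1 < K.length
    · rw [List.getElem_append_left h1]
      congr 1
      exact (Nat.mod_eq_of_lt h1).symm
    · have h2 : i + 1 = K.length := by omega
      rw [List.getElem_append_right (by omega)]
      simp [h2]

theorem gamma_mem_skE (K : List (V × V)) (hK : 0 < K.length) (e : Sym2 V) :
    e ∈ skE K ↔ ∃ i, ∃ h : i < K.length,
      e = s((K[i]).2, (K[(i + 1) % K.length]'(Nat.mod_lt _ hK)).1) := by
  have hl : (K ++ K.take 1).length = K.length + 1 := by
    simp; omega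
  rw [skE, gamma_mem_skp]
  constructor
  · rintro ⟨i, h, rfl⟩
    have hi : i < K.length := by omega
    obtain ⟨e1, e2⟩ := gamma_cyc_get K hK i hi h
    exact ⟨i, hi, by rw [e1, e2]⟩
  · rintro ⟨i, hi, rfl⟩
    have h : i + 1 < (K ++ K.take 1).length := by omega
    obtain ⟨e1, e2⟩ := gamma_cyc_get K hK i hi h
    exact ⟨i, h, by rw [e1, e2]⟩

theorem gamma_mem_cycE (K : List V) (hK : 0 < K.length) (e : Sym2 V) :
    e ∈ cycE K ↔ ∃ i, ∃ h : i < K.length,
      e = s(K[i], K[(i + 1) % K.length]'(Nat.mod_lt _ hK)) := by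
  have hl : (K ++ K.take 1).length = K.length + 1 := by
    simp; omega
  rw [cycE, gamma_mem_pE]
  constructor
  · rintro ⟨i, h, rfl⟩
    have hi : i < K.length := by omega
    obtain ⟨e1, e2⟩ := gamma_cyc_get K hK i hi h
    exact ⟨i, hi, by rw [e1, e2]⟩
  · rintro ⟨i, hi, rfl⟩
    have h : i + 1 < (K ++ K.take 1).length := by omega
    obtain ⟨e1, e2⟩ := gamma_cyc_get K hK i hi h
    exact ⟨i, h, by rw [e1, e2]⟩

/-- fibres of `π` -/
theorem gamma_fib (𝓒 : Finset (Finset V)) (hdisj : (𝓒 : Set (Finset V)).PairwiseDisjoint id)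
    (π : V → V) (hπ1 : ∀ u, (∀ Z ∈ 𝓒, u ∉ Z) → π u = u) (hπ2 : ∀ Z ∈ 𝓒, ∀ u ∈ Z, π u ∈ Z)
    {x y : V} (h : π x = π y) : x = y ∨ ∃ Z ∈ 𝓒, x ∈ Z ∧ y ∈ Z := by
  have key : ∀ x y : V, π x = π y → ∀ Z ∈ 𝓒, x ∈ Z → y ∈ Z := by
    intro x y h Z hZ hx
    have h1 : π y ∈ Z := h ▸ hπ2 Z hZ x hx
    by_cases hy : ∀ Z ∈ 𝓒, y ∉ Z
    · rw [hπ1 y hy] at h1
      exact absurd h1 (hy Z hZ)
    · push Not at hy
      obtain ⟨Z', hZ', hy'⟩ := hy
      have h2 := hπ2 Z' hZ' y hy'
      have : Z = Z' := by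
        by_contra hne
        exact Finset.disjoint_left.1 (hdisj hZ hZ' hne) h1 h2
      rw [this]; exact hy'
  by_cases hx : ∀ Z ∈ 𝓒, x ∉ Z
  · left
    have hy : ∀ Z ∈ 𝓒, y ∉ Z := fun Z hZ hy => hx Z hZ (key y x h.symm Z hZ hy)
    rw [hπ1 x hx, hπ1 y hy] at h
    exact h
  · push Not at hx
    obtain ⟨Z, hZ, hxZ⟩ := hx
    exact Or.inr ⟨Z, hZ, hxZ, key x y h Z hZ hxZ⟩

/-- TASK EG-Gamma: lift a decomposition of the quotient graph `Γ = image of R under Sym2.map π` to skeletons.
Single edges of `Γ` give single edges in `R₁`. A cycle `a₀,…,a_{m-1}` of `Γ` (`m ≥ 3`, distinct): each edge `s(a_t,a_{t+1})` is the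
image of a unique edge `s(y_t, x_{t+1}) ∈ R` with `π y_t = a_t`, `π x_{t+1} = a_{t+1}`; the skeleton is
`[(x₀,y₀), …, (x_{m-1},y_{m-1})]`. `π x_t = π y_t` implies `x_t = y_t` or both in a common core. Stations meeting a core `Z` have distinct
`π`-values in `Z.image π`, so at most `g` of them. -/
theorem gamma_lift (𝓒 : Finset (Finset V)) (hdisj : (𝓒 : Set (Finset V)).PairwiseDisjoint id)
    (R : Finset (Sym2 V)) (hl : Loopless R) (hR : ∀ e ∈ R, ∀ Z ∈ 𝓒, ¬ ∀ x ∈ e, x ∈ Z)
    (g : ℕ) (π : V → V) (hπ1 : ∀ u, (∀ Z ∈ 𝓒, u ∉ Z) → π u = u) (hπ2 : ∀ Z ∈ 𝓒, ∀ u ∈ Z, π u ∈ Z)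
    (hπ3 : ∀ Z ∈ 𝓒, (Z.image π).card ≤ g) (hinj : Set.InjOn (Sym2.map π) (R : Set (Sym2 V))) :
    ∃ (R₁ : Finset (Sym2 V)) (𝒦 : Finset (List (V × V))), SkFam 𝓒 g R 𝒦 R₁ ∧
      𝒦.card + R₁.card ≤ cd (R.image (Sym2.map π)) := by
  classical
  obtain ⟨Q, hQcard, hQpart, hQdisj, hQcover⟩ := CD_cd (R.image (Sym2.map π))
  -- ordered lifts
  have hlift : ∀ a b : V, ∃ p : V × V, s(a, b) ∈ R.image (Sym2.map π) →
      s(p.1, p.2) ∈ R ∧ π p.1 = a ∧ π p.2 = b := by
    intro a b
    by_cases h : s(a, b) ∈ R.image (Sym2.map π)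
    · obtain ⟨e, he, hab⟩ := Finset.mem_image.1 h
      induction e using Sym2.ind with
      | _ u v =>
        rw [Sym2.map_mk, Sym2.eq_iff] at hab
        rcases hab with ⟨h1, h2⟩ | ⟨h1, h2⟩
        · exact ⟨(u, v), fun _ => ⟨he, h1, h2⟩⟩
        · exact ⟨(v, u), fun _ => ⟨by rw [Sym2.eq_swap]; exact he, h2, h1⟩⟩
    · exact ⟨(a, b), fun h' => absurd h' h⟩
  choose P hP using hlift
  -- one cycle
  have hcyc : ∀ C ∈ Q, IsCyc C → ∃ K : List (V × V), ValidSk 𝓒 g K ∧
      (skE K).toFinset = R.filter (fun e => Sym2.map π e ∈ C) := by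
    rintro C hC ⟨l, hnd, h3, hCl⟩
    have hm : 0 < l.length := by omega
    have hsub : ∀ e ∈ C, e ∈ R.image (Sym2.map π) := fun e he => by
      rw [← hQcover]
      exact Finset.mem_biUnion.2 ⟨C, hC, he⟩
    have hedge : ∀ i (hi : i < l.length),
        s(l[i], l[(i + 1) % l.length]'(Nat.mod_lt _ hm)) ∈ C := by
      intro i hi
      rw [hCl, List.mem_toFinset, gamma_mem_cycE l hm]
      exact ⟨i, hi, rfl⟩
    have hPe : ∀ i (hi : i < l.length),
        s((P l[i] (l[(i + 1) % l.length]'(Nat.mod_lt _ hm))).1,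
          (P l[i] (l[(i + 1) % l.length]'(Nat.mod_lt _ hm))).2) ∈ R ∧
        π (P l[i] (l[(i + 1) % l.length]'(Nat.mod_lt _ hm))).1 = l[i] ∧
        π (P l[i] (l[(i + 1) % l.length]'(Nat.mod_lt _ hm))).2 =
          l[(i + 1) % l.length]'(Nat.mod_lt _ hm) := fun i hi => hP _ _ (hsub _ (hedge i hi))
    let st : Fin l.length → V × V := fun i =>
      ((P (l[(i.val + l.length - 1) % l.length]'(Nat.mod_lt _ hm)) l[i.val]).2,
        (P l[i.val] (l[(i.val + 1) % l.length]'(Nat.mod_lt _ hm))).1)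
    have hst1 : ∀ i : Fin l.length, π (st i).1 = l[i.val] := by
      intro i
      have hj : (i.val + l.length - 1) % l.length < l.length := Nat.mod_lt _ hm
      have h := (hPe _ hj).2.2
      have hjj : ((i.val + l.length - 1) % l.length + 1) % l.length = i.val := by
        have h0 := i.isLt
        rw [Nat.mod_add_mod]
        have : i.val + l.length - 1 + 1 = i.val + l.length := by omega
        rw [this, Nat.add_mod_right, Nat.mod_eq_of_lt h0]
      simp only [hjj] at h
      exact h
    have hst2 : ∀ i : Fin l.length, π (st i).2 = l[i.val] := fun i => (hPe i.val i.isLt).2.1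
    let K : List (V × V) := List.ofFn st
    have hKl : K.length = l.length := List.length_ofFn
    have hKm : 0 < K.length := by rw [hKl]; exact hm
    have hKmap : K.map (fun p => π p.1) = l := by
      apply List.ext_getElem
      · simp [hKl]
      · intro i h1 h2
        rw [List.getElem_map, List.getElem_ofFn]
        exact hst1 _
    have hmemK : ∀ p ∈ K, ∃ i : Fin l.length, st i = p := by
      intro p hp
      exact (List.mem_ofFn' _ _).1 hp |>.imp fun i hi => hi
    refine ⟨K, ⟨by omega, ?_, ?_, Or.inl (by omega), ?_⟩, ?_⟩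
    · intro p hp
      obtain ⟨i, rfl⟩ := hmemK p hp
      exact gamma_fib 𝓒 hdisj π hπ1 hπ2 ((hst1 i).trans (hst2 i).symm)
    · rw [List.pairwise_ofFn]
      intro i j hij
      have hne : l[i.val] ≠ l[j.val] := by
        intro h
        have := (List.Nodup.getElem_inj_iff hnd).1 h
        exact absurd this (Nat.ne_of_lt hij)
      refine ⟨fun h => hne ?_, fun h => hne ?_, fun h => hne ?_, fun h => hne ?_⟩
      · rw [← hst1, ← hst1, h]
      · rw [← hst1, ← hst2, h]
      · rw [← hst2, ← hst1, h]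
      · rw [← hst2, ← hst2, h]
    · intro Z hZ
      have hnd' : ((K.filter (fun p => decide (p.1 ∈ Z ∨ p.2 ∈ Z))).map (fun p => π p.1)).Nodup := by
        refine List.Nodup.sublist (l₂ := K.map (fun p => π p.1)) ?_ (by rw [hKmap]; exact hnd)
        exact List.Sublist.map _ List.filter_sublist
      calc (K.filter (fun p => decide (p.1 ∈ Z ∨ p.2 ∈ Z))).length
          = ((K.filter (fun p => decide (p.1 ∈ Z ∨ p.2 ∈ Z))).map (fun p => π p.1)).length := by
            rw [List.length_map]
        _ = ((K.filter (fun p => decide (p.1 ∈ Z ∨ p.2 ∈ Z))).map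
              (fun p => π p.1)).toFinset.card := (List.toFinset_card_of_nodup hnd').symm
        _ ≤ (Z.image π).card := by
            refine Finset.card_le_card fun a ha => ?_
            rw [List.mem_toFinset, List.mem_map] at ha
            obtain ⟨p, hp, rfl⟩ := ha
            rw [List.mem_filter] at hp
            obtain ⟨hpK, hpZ⟩ := hp
            obtain ⟨i, rfl⟩ := hmemK p hpK
            rcases of_decide_eq_true hpZ with h | h
            · exact Finset.mem_image.2 ⟨_, h, rfl⟩
            · exact Finset.mem_image.2 ⟨_, h, (hst2 i).trans (hst1 i).symm⟩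
        _ ≤ g := hπ3 Z hZ
    · ext e
      rw [List.mem_toFinset, gamma_mem_skE K hKm, Finset.mem_filter]
      have hKe : ∀ i (hi : i < K.length),
          s((K[i]).2, (K[(i + 1) % K.length]'(Nat.mod_lt _ hKm)).1) =
          s((P l[i] (l[(i + 1) % l.length]'(Nat.mod_lt _ hm))).1,
          (P l[i] (l[(i + 1) % l.length]'(Nat.mod_lt _ hm))).2) := by
        intro i hi
        have h1 : (K[i]).2 = (P l[i] (l[(i + 1) % l.length]'(Nat.mod_lt _ hm))).1 := by
          simp only [K, List.getElem_ofFn, st]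
        have h2 : (K[(i + 1) % K.length]'(Nat.mod_lt _ hKm)).1 =
            (P l[i] (l[(i + 1) % l.length]'(Nat.mod_lt _ hm))).2 := by
          have hi' : i < l.length := by omega
          have e1 : ((i + 1) % l.length + l.length - 1) % l.length = i := by
            by_cases h : i + 1 < l.length
            · rw [Nat.mod_eq_of_lt h]
              have : i + 1 + l.length - 1 = i + l.length := by omega
              rw [this, Nat.add_mod_right, Nat.mod_eq_of_lt hi']
            · have : i + 1 = l.length := by omega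
              rw [this, Nat.mod_self]
              have : 0 + l.length - 1 = i := by omega
              rw [this, Nat.mod_eq_of_lt hi']
          have key : ∀ j (hj : j < l.length), j = (i + 1) % l.length →
              (P (l[(j + l.length - 1) % l.length]'(Nat.mod_lt _ hm)) l[j]).2 =
              (P l[i] (l[(i + 1) % l.length]'(Nat.mod_lt _ hm))).2 := by
            intro j hj hjj
            subst hjj
            simp only [e1]
          simp only [K, List.getElem_ofFn, st]
          exact key _ _ (by rw [hKl])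
        rw [h1, h2]
      constructor
      · rintro ⟨i, hi, rfl⟩
        have hi' : i < l.length := by omega
        rw [hKe i hi]
        refine ⟨(hPe i hi').1, ?_⟩
        rw [Sym2.map_mk, (hPe i hi').2.1, (hPe i hi').2.2]
        exact hedge i hi'
      · rintro ⟨heR, heC⟩
        rw [hCl, List.mem_toFinset, gamma_mem_cycE l hm] at heC
        obtain ⟨i, hi, hei⟩ := heC
        have hi' : i < K.length := by omega
        refine ⟨i, hi', ?_⟩
        rw [hKe i hi']
        refine hinj heR (hPe i hi).1 ?_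
        rw [hei, Sym2.map_mk, (hPe i hi).2.1, (hPe i hi).2.2]
  set Q1 : Finset (Finset (Sym2 V)) := Q.filter (fun C => ∃ e, C = {e}) with hQ1
  set Q2 : Finset (Finset (Sym2 V)) := Q \ Q1 with hQ2
  have hQ2c : ∀ C ∈ Q2, IsCyc C := by
    intro C hC
    obtain ⟨h1, h2⟩ := Finset.mem_sdiff.1 hC
    rcases hQpart C h1 with h | h
    · exact absurd (Finset.mem_filter.2 ⟨h1, h⟩) h2
    · exact h
  have hK' : ∀ C : Finset (Sym2 V), ∃ K : List (V × V), C ∈ Q2 → ValidSk 𝓒 g K ∧
      (skE K).toFinset = R.filter (fun e => Sym2.map π e ∈ C) := by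
    intro C
    by_cases hC : C ∈ Q2
    · obtain ⟨K, h1, h2⟩ := hcyc C (Finset.mem_sdiff.1 hC).1 (hQ2c C hC)
      exact ⟨K, fun _ => ⟨h1, h2⟩⟩
    · exact ⟨[], fun h => absurd h hC⟩
  choose K hK using hK'
  refine ⟨R.filter (fun e => ∃ C ∈ Q1, Sym2.map π e ∈ C), Q2.image K, ⟨?_, ?_, ?_, ?_⟩, ?_⟩
  · intro l hl
    obtain ⟨C, hC, rfl⟩ := Finset.mem_image.1 hl
    exact (hK C hC).1
  · intro l hl l' hl' hne
    obtain ⟨C, hC, rfl⟩ := Finset.mem_image.1 (Finset.mem_coe.1 hl)
    obtain ⟨C', hC', rfl⟩ := Finset.mem_image.1 (Finset.mem_coe.1 hl')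
    have hCC : C ≠ C' := fun h => hne (by rw [h])
    change Disjoint (skE (K C)).toFinset (skE (K C')).toFinset
    rw [(hK C hC).2, (hK C' hC').2, Finset.disjoint_left]
    intro e he he'
    have h1 := (Finset.mem_filter.1 he).2
    have h2 := (Finset.mem_filter.1 he').2
    exact Finset.disjoint_left.1 (hQdisj (Finset.mem_sdiff.1 hC).1 (Finset.mem_sdiff.1 hC').1 hCC) h1 h2
  · exact Finset.filter_subset _ _
  · ext e
    rw [Finset.mem_sdiff, Finset.mem_biUnion]
    constructor
    · rintro ⟨heR, hne⟩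
      have h1 : Sym2.map π e ∈ Q.biUnion id := by
        rw [hQcover]; exact Finset.mem_image_of_mem _ heR
      obtain ⟨C, hC, heC⟩ := Finset.mem_biUnion.1 h1
      have hC2 : C ∈ Q2 := by
        refine Finset.mem_sdiff.2 ⟨hC, fun h => hne ?_⟩
        exact Finset.mem_filter.2 ⟨heR, C, h, heC⟩
      refine ⟨K C, Finset.mem_image_of_mem _ hC2, ?_⟩
      rw [(hK C hC2).2]
      exact Finset.mem_filter.2 ⟨heR, heC⟩
    · rintro ⟨l, hl, he⟩
      obtain ⟨C, hC, rfl⟩ := Finset.mem_image.1 hl
      rw [(hK C hC).2] at he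
      obtain ⟨heR, heC⟩ := Finset.mem_filter.1 he
      refine ⟨heR, fun h => ?_⟩
      obtain ⟨-, C', hC', heC'⟩ := Finset.mem_filter.1 h
      have hne : C ≠ C' := fun h => (Finset.mem_sdiff.1 hC).2 (h ▸ hC')
      exact Finset.disjoint_left.1
        (hQdisj (Finset.mem_sdiff.1 hC).1 (Finset.mem_filter.1 hC').1 hne) heC heC'
  · have h1 : (Q2.image K).card ≤ Q2.card := Finset.card_image_le
    have h2 : (R.filter (fun e => ∃ C ∈ Q1, Sym2.map π e ∈ C)).card ≤ Q1.card := by
      refine Finset.card_le_card_of_injOn (fun e => {Sym2.map π e}) ?_ ?_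
      · intro e he
        obtain ⟨heR, C, hC, heC⟩ := Finset.mem_filter.1 (Finset.mem_coe.1 he)
        obtain ⟨hCQ, e', rfl⟩ := Finset.mem_filter.1 hC
        rw [Finset.mem_singleton] at heC
        simp only [heC]
        exact hC
      · intro e he e' he' h
        have h3 : Sym2.map π e = Sym2.map π e' := Finset.singleton_injective h
        exact hinj (Finset.mem_filter.1 (Finset.mem_coe.1 he)).1
          (Finset.mem_filter.1 (Finset.mem_coe.1 he')).1 h3
    have h3 : Q2.card + Q1.card = Q.card := by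
      rw [hQ2]
      exact Finset.card_sdiff_add_card_eq_card (Finset.filter_subset _ _)
    omega

end Crest.Agent.EG
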