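import Crest.Agent.EG_HubB

set_option autoImplicit false

namespace Crest.Agent.EG

variable {V : Type*} [DecidableEq V]

/-- (EG-Group helper) choose representatives of the fibres of `f` on `R`. -/
theorem EGGroup_reps {α β : Type*} [DecidableEq α] [DecidableEq β] (f : α → β) (R : Finset α) :
    ∃ R' ⊆ R, Set.InjOn f (R' : Set α) ∧ (∀ a ∈ R, ∃ b ∈ R', f b = f a) ∧
      2 * (R.card - R'.card) ≤ ((R ×ˢ R).filter (fun p => p.1 ≠ p.2 ∧ f p.1 = f p.2)).card := by
  classical
  induction R using Finset.induction_on with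
  | empty => exact ⟨∅, by simp, by simp, by simp, by simp⟩
  | insert a R ha ih =>
    obtain ⟨R', hsub, hinj, hsurj, hcard⟩ := ih
    by_cases h : ∃ b ∈ R, f b = f a
    · obtain ⟨b, hb, hfb⟩ := h
      refine ⟨R', hsub.trans (Finset.subset_insert _ _), hinj, ?_, ?_⟩
      · intro x hx
        rw [Finset.mem_insert] at hx
        rcases hx with rfl | hx
        · obtain ⟨c, hc, hfc⟩ := hsurj b hb
          exact ⟨c, hc, hfc.trans hfb⟩
        · exact hsurj x hx
      · have hab : a ≠ b := fun h => ha (h ▸ hb)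
        have hsub2 : ((R ×ˢ R).filter (fun p => p.1 ≠ p.2 ∧ f p.1 = f p.2)) ∪ {(a, b), (b, a)} ⊆
            ((insert a R ×ˢ insert a R).filter (fun p => p.1 ≠ p.2 ∧ f p.1 = f p.2)) := by
          intro p hp
          simp only [Finset.mem_union, Finset.mem_filter, Finset.mem_product, Finset.mem_insert,
            Finset.mem_singleton] at hp ⊢
          rcases hp with ⟨⟨h1, h2⟩, h3⟩ | rfl | rfl
          · exact ⟨⟨Or.inr h1, Or.inr h2⟩, h3⟩
          · exact ⟨⟨Or.inl rfl, Or.inr hb⟩, hab, hfb.symm⟩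
          · exact ⟨⟨Or.inr hb, Or.inl rfl⟩, hab.symm, hfb⟩
        have hdisj : Disjoint ((R ×ˢ R).filter (fun p => p.1 ≠ p.2 ∧ f p.1 = f p.2)) {(a, b), (b, a)} := by
          rw [Finset.disjoint_left]
          intro p hp hp2
          simp only [Finset.mem_filter, Finset.mem_product, Finset.mem_insert,
            Finset.mem_singleton] at hp hp2
          rcases hp2 with rfl | rfl
          · exact ha hp.1.1
          · exact ha hp.1.2
        have h2 : ({(a, b), (b, a)} : Finset (α × α)).card = 2 := by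
          rw [Finset.card_pair]
          intro h; exact hab (Prod.ext_iff.1 h).1
        have h3 := Finset.card_le_card hsub2
        rw [Finset.card_union_of_disjoint hdisj, h2] at h3
        rw [Finset.card_insert_of_notMem ha]
        have h4 := Finset.card_le_card hsub
        omega
    · push Not at h
      have haR' : a ∉ R' := fun h => ha (hsub h)
      refine ⟨insert a R', Finset.insert_subset_insert _ hsub, ?_, ?_, ?_⟩
      · rw [Finset.coe_insert, Set.injOn_insert (by simpa using haR')]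
        refine ⟨hinj, ?_⟩
        rintro ⟨b, hb, hfb⟩
        exact h b (hsub hb) hfb
      · intro x hx
        rw [Finset.mem_insert] at hx
        rcases hx with rfl | hx
        · exact ⟨x, Finset.mem_insert_self _ _, rfl⟩
        · obtain ⟨b, hb, hfb⟩ := hsurj x hx
          exact ⟨b, Finset.mem_insert_of_mem hb, hfb⟩
      · rw [Finset.card_insert_of_notMem ha, Finset.card_insert_of_notMem haR']
        have : ((R ×ˢ R).filter (fun p => p.1 ≠ p.2 ∧ f p.1 = f p.2)).card ≤
            ((insert a R ×ˢ insert a R).filter (fun p => p.1 ≠ p.2 ∧ f p.1 = f p.2)).card := by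
          apply Finset.card_le_card
          apply Finset.filter_subset_filter
          exact Finset.product_subset_product (Finset.subset_insert _ _) (Finset.subset_insert _ _)
        omega

/-- (EG-Group helper) the number of functions with two prescribed coincidences. -/
theorem EGGroup_count {S : Type*} [Fintype S] [DecidableEq S] (g : ℕ) (x x' y y' : S)
    (h1 : x ≠ x') (h2 : x ≠ y') (h3 : y ≠ x') (h4 : y ≠ y') (h5 : x' ≠ y') :
    g ^ 2 * (Finset.univ.filter (fun c : S → Fin g => c x = c x' ∧ c y = c y')).card ≤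
      Fintype.card (S → Fin g) := by
  classical
  have key : (((Finset.univ : Finset (Fin g × Fin g)) ×ˢ
      (Finset.univ.filter (fun c : S → Fin g => c x = c x' ∧ c y = c y'))).card) ≤
      (Finset.univ : Finset (S → Fin g)).card := by
    apply Finset.card_le_card_of_injOn
      (fun p => Function.update (Function.update p.2 x' p.1.1) y' p.1.2)
    · intro p _; simp
    · rintro ⟨⟨i, j⟩, c⟩ hp ⟨⟨i', j'⟩, c'⟩ hp' heq
      simp only [Finset.coe_product, Finset.coe_univ, Finset.coe_filter, Finset.mem_univ, true_and,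
        Set.mem_prod, Set.mem_univ, Set.mem_ofPred_eq] at hp hp' heq
      have e1 : i = i' := by
        have := congrFun heq x'
        simpa [Function.update_of_ne h5] using this
      have e2 : j = j' := by
        have := congrFun heq y'
        simpa using this
      have e3 : ∀ z, z ≠ x' → z ≠ y' → c z = c' z := by
        intro z hz1 hz2
        have := congrFun heq z
        simpa [Function.update_of_ne hz1, Function.update_of_ne hz2] using this
      have e4 : c = c' := by
        funext z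
        by_cases hz1 : z = x'
        · subst hz1
          rw [← hp.1, ← hp'.1]; exact e3 x h1 h2
        · by_cases hz2 : z = y'
          · subst hz2
            rw [← hp.2, ← hp'.2]; exact e3 y h3 h4
          · exact e3 z hz1 hz2
      rw [e1, e2, e4]
  rw [Finset.card_product] at key
  simp only [Finset.card_univ, Fintype.card_prod, Fintype.card_fin] at key
  calc g ^ 2 * _ = g * g * _ := by ring
    _ ≤ _ := key

/-- (EG-Group helper) two distinct edges between the same pair of cores, without common vertices. -/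
def EGGroup_compat (𝓒 : Finset (Finset V)) (e e' : Sym2 V) : Prop :=
  ∃ Z ∈ 𝓒, ∃ Z' ∈ 𝓒, Z ≠ Z' ∧ ∃ x ∈ Z, ∃ x' ∈ Z, ∃ y ∈ Z', ∃ y' ∈ Z',
    e = s(x, y) ∧ e' = s(x', y') ∧ x ≠ x' ∧ y ≠ y'

theorem EGGroup_compat_card (𝓒 : Finset (Finset V)) (hdisj : (𝓒 : Set (Finset V)).PairwiseDisjoint id)
    (R : Finset (Sym2 V)) (g : ℕ) (hg : 1 ≤ g)
    (hbtw : ∀ Z ∈ 𝓒, ∀ Z' ∈ 𝓒, Z ≠ Z' → (btw R Z Z').card ≤ g) (e : Sym2 V) (he : e ∈ R)
    [DecidablePred (EGGroup_compat 𝓒 e)] :
    (R.filter (fun e' => EGGroup_compat 𝓒 e e')).card ≤ g - 1 := by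
  classical
  have huniq : ∀ Z ∈ 𝓒, ∀ Z' ∈ 𝓒, ∀ x, x ∈ Z → x ∈ Z' → Z = Z' := by
    intro Z hZ Z' hZ' x hx hx'
    by_contra hne
    exact Finset.disjoint_left.1 (hdisj hZ hZ' hne) hx hx'
  rcases (R.filter (fun e' => EGGroup_compat 𝓒 e e')).eq_empty_or_nonempty with h | ⟨e0, h0⟩
  · rw [h]; simp
  · rw [Finset.mem_filter] at h0
    obtain ⟨_, Z, hZ, Z', hZ', hne, x, hx, x', hx', y, hy, y', hy', hexy, _⟩ := h0
    have hmem : e ∈ btw R Z Z' := by
      unfold btw
      rw [Finset.mem_filter]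
      refine ⟨he, ⟨x, ?_, hx⟩, ⟨y, ?_, hy⟩⟩ <;> simp [hexy]
    have hsub : R.filter (fun e' => EGGroup_compat 𝓒 e e') ⊆ (btw R Z Z').erase e := by
      intro e1 h1
      rw [Finset.mem_filter] at h1
      obtain ⟨h1R, Z1, hZ1, Z1', hZ1', hne1, x1, hx1, x1', hx1', y1, hy1, y1', hy1', hexy1, he1, hxx1, hyy1⟩ := h1
      rw [Finset.mem_erase]
      constructor
      · rintro rfl
        rw [hexy1, Sym2.eq_iff] at he1
        rcases he1 with ⟨h, _⟩ | ⟨h, _⟩
        · exact hxx1 h
        · exact hne1 (huniq Z1 hZ1 Z1' hZ1' x1 hx1 (h ▸ hy1'))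
      · unfold btw
        rw [Finset.mem_filter]
        refine ⟨h1R, ?_⟩
        rw [hexy, Sym2.eq_iff] at hexy1
        rcases hexy1 with ⟨h1, h2⟩ | ⟨h1, h2⟩
        · subst h1; subst h2
          have hZZ : Z1 = Z := huniq _ hZ1 _ hZ _ hx1 hx
          have hZZ' : Z1' = Z' := huniq _ hZ1' _ hZ' _ hy1 hy
          subst hZZ; subst hZZ'
          exact ⟨⟨x1', by simp [he1], hx1'⟩, ⟨y1', by simp [he1], hy1'⟩⟩
        · subst h1; subst h2
          have hZZ : Z1' = Z := huniq _ hZ1' _ hZ _ hy1 hx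
          have hZZ' : Z1 = Z' := huniq _ hZ1 _ hZ' _ hx1 hy
          subst hZZ; subst hZZ'
          exact ⟨⟨y1', by simp [he1], hy1'⟩, ⟨x1', by simp [he1], hx1'⟩⟩
    calc _ ≤ ((btw R Z Z').erase e).card := Finset.card_le_card hsub
      _ = (btw R Z Z').card - 1 := Finset.card_erase_of_mem hmem
      _ ≤ g - 1 := by have := hbtw Z hZ Z' hZ' hne; omega

/-- TASK EG-Group: random grouping of the cores in `g` groups each (averaging over all functions `c : S → Fin g`).
For `c`, a collision is a pair of distinct edges `{x,y}, {x',y'}` of `R` between two cores `Z ∋ x,x'`, `Z' ∋ y,y'` with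
`c x = c x'`, `c y = c y'`; by `hstar` the four vertices are distinct, so a fraction `1/g²` of all `c` gives a collision; the number of
pairs is at most `Σ_{Z,Z'} m(m-1)/2 ≤ |R| (g-1)/2` (`m = |btw R Z Z'| ≤ g`). So some `c` has at most `|R|/(2g)` collisions. For each core fix
an injection `Fin g → Z` and let `π x` = image of `c x` (`π u = u` outside the cores). Edges with an end outside all cores never
collide by `hstar`. Remove all but one edge from each fibre of `Sym2.map π` on `R`: a fibre of size `m` has at least `m-1` collisions. -/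
theorem grouping (𝓒 : Finset (Finset V)) (hdisj : (𝓒 : Set (Finset V)).PairwiseDisjoint id)
    (S : Finset V) (hsub : ∀ Z ∈ 𝓒, Z ⊆ S)
    (R : Finset (Sym2 V)) (hl : Loopless R) (hS : Supp R S) (hR : ∀ e ∈ R, ∀ Z ∈ 𝓒, ¬ ∀ x ∈ e, x ∈ Z)
    (g : ℕ) (hg : 1 ≤ g) (hcard : ∀ Z ∈ 𝓒, g ≤ Z.card)
    (hstar : ∀ Z ∈ 𝓒, ∀ u, u ∉ Z → dgin R Z u ≤ 1)
    (hbtw : ∀ Z ∈ 𝓒, ∀ Z' ∈ 𝓒, Z ≠ Z' → (btw R Z Z').card ≤ g) :
    ∃ (π : V → V) (R' : Finset (Sym2 V)), R' ⊆ R ∧
      (∀ u, (∀ Z ∈ 𝓒, u ∉ Z) → π u = u) ∧ (∀ Z ∈ 𝓒, ∀ u ∈ Z, π u ∈ Z) ∧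
      (∀ Z ∈ 𝓒, (Z.image π).card ≤ g) ∧
      Set.InjOn (Sym2.map π) (R' : Set (Sym2 V)) ∧
      (R.card : ℝ) - R'.card ≤ R.card / (2 * g) := by
  classical
  have huniq : ∀ Z ∈ 𝓒, ∀ Z' ∈ 𝓒, ∀ x, x ∈ Z → x ∈ Z' → Z = Z' := by
    intro Z hZ Z' hZ' x hx hx'
    by_contra hne
    exact Finset.disjoint_left.1 (hdisj hZ hZ' hne) hx hx'
  have : NeZero g := ⟨by omega⟩
  -- injections
  have hι : ∀ Z ∈ 𝓒, ∃ ι : Fin g → V, Function.Injective ι ∧ ∀ i, ι i ∈ Z := by
    intro Z hZ
    obtain ⟨T, hT, hTc⟩ := Finset.exists_subset_card_eq (hcard Z hZ)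
    refine ⟨fun i => ((T.equivFinOfCardEq hTc).symm i : V), ?_, fun i => hT (Finset.coe_mem _)⟩
    intro i j hij
    exact (T.equivFinOfCardEq hTc).symm.injective (Subtype.ext hij)
  choose ι hι1 hι2 using hι
  -- the grouping map
  let cc : (S → Fin g) → V → Fin g := fun c x => if h : x ∈ S then c ⟨x, h⟩ else 0
  let π : (S → Fin g) → V → V := fun c x =>
    if h : ∃ Z ∈ 𝓒, x ∈ Z then ι h.choose h.choose_spec.1 (cc c x) else x
  have hπ1 : ∀ c Z (hZ : Z ∈ 𝓒) x, x ∈ Z → π c x = ι Z hZ (cc c x) := by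
    intro c Z hZ x hx
    have h : ∃ Z ∈ 𝓒, x ∈ Z := ⟨Z, hZ, hx⟩
    have hc : h.choose = Z := huniq _ h.choose_spec.1 _ hZ x h.choose_spec.2 hx
    simp only [π, dif_pos h]
    congr 1
  have hπ2 : ∀ c x, (∀ Z ∈ 𝓒, x ∉ Z) → π c x = x := by
    intro c x hx
    have h : ¬ ∃ Z ∈ 𝓒, x ∈ Z := by
      rintro ⟨Z, hZ, hxZ⟩; exact hx Z hZ hxZ
    simp only [π, dif_neg h]
  have hπ3 : ∀ c, ∀ Z ∈ 𝓒, ∀ u ∈ Z, π c u ∈ Z := by
    intro c Z hZ u hu
    rw [hπ1 c Z hZ u hu]; exact hι2 Z hZ _
  -- two points with the same image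
  have hsame : ∀ c x x', π c x = π c x' → x ≠ x' →
      ∃ Z ∈ 𝓒, x ∈ Z ∧ x' ∈ Z ∧ cc c x = cc c x' := by
    intro c x x' h hne
    by_cases hx : ∃ Z ∈ 𝓒, x ∈ Z
    · obtain ⟨Z, hZ, hxZ⟩ := hx
      by_cases hx' : ∃ Z' ∈ 𝓒, x' ∈ Z'
      · obtain ⟨Z', hZ', hxZ'⟩ := hx'
        have : Z = Z' := huniq Z hZ Z' hZ' (π c x) (hπ3 c Z hZ x hxZ) (h ▸ hπ3 c Z' hZ' x' hxZ')
        subst this
        refine ⟨Z, hZ, hxZ, hxZ', ?_⟩
        rw [hπ1 c Z hZ x hxZ, hπ1 c Z hZ x' hxZ'] at h
        exact hι1 Z hZ h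
      · push Not at hx'
        rw [hπ2 c x' hx'] at h
        exact absurd (h ▸ hπ3 c Z hZ x hxZ) (hx' Z hZ)
    · push Not at hx
      rw [hπ2 c x hx] at h
      by_cases hx' : ∃ Z' ∈ 𝓒, x' ∈ Z'
      · obtain ⟨Z', hZ', hxZ'⟩ := hx'
        exact absurd (h ▸ hπ3 c Z' hZ' x' hxZ') (hx Z' hZ')
      · push Not at hx'
        rw [hπ2 c x' hx'] at h
        exact absurd h hne
  -- two edges at an outside vertex going to the same core
  have hdeg : ∀ Z ∈ 𝓒, ∀ u, u ∉ Z → ∀ y ∈ Z, ∀ y' ∈ Z, s(u, y) ∈ R → s(u, y') ∈ R → y = y' := by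
    intro Z hZ u hu y hy y' hy' h1 h2
    by_contra hne
    have h3 : ({y, y'} : Finset V) ⊆ Z.filter (fun y => s(u, y) ∈ R) := by
      intro z hz
      simp only [Finset.mem_insert, Finset.mem_singleton] at hz
      rw [Finset.mem_filter]
      rcases hz with rfl | rfl
      · exact ⟨hy, h1⟩
      · exact ⟨hy', h2⟩
    have h4 := Finset.card_le_card h3
    rw [Finset.card_pair hne] at h4
    have h5 := hstar Z hZ u hu
    unfold dgin at h5
    have h6 : (Z.filter (fun y => s(u, y) ∈ R)).card ≤ 1 := by convert h5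
    omega
  -- collisions are compatible pairs
  have hcoll : ∀ c e e', e ∈ R → e' ∈ R → e ≠ e' → Sym2.map (π c) e = Sym2.map (π c) e' →
      EGGroup_compat 𝓒 e e' := by
    intro c e e' he he' hne hmap
    have main : ∀ x y x' y', s(x, y) ∈ R → s(x', y') ∈ R → s(x, y) ≠ s(x', y') →
        π c x = π c x' → π c y = π c y' → EGGroup_compat 𝓒 s(x, y) s(x', y') := by
      intro x y x' y' h1 h2 h3 h4 h5
      have hxx : x ≠ x' := by
        rintro rfl
        have hyy : y ≠ y' := fun h => h3 (by rw [h])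
        obtain ⟨Z', hZ', hy, hy', _⟩ := hsame c y y' h5 hyy
        have hx : x ∉ Z' := by
          intro hx
          refine hR _ h1 Z' hZ' ?_
          intro z hz
          simp only [Sym2.mem_iff] at hz
          rcases hz with rfl | rfl <;> assumption
        exact hyy (hdeg Z' hZ' x hx y hy y' hy' h1 h2)
      have hyy : y ≠ y' := by
        rintro rfl
        obtain ⟨Z', hZ', hx, hx', _⟩ := hsame c x x' h4 hxx
        have hy : y ∉ Z' := by
          intro hy
          refine hR _ h1 Z' hZ' ?_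
          intro z hz
          simp only [Sym2.mem_iff] at hz
          rcases hz with rfl | rfl <;> assumption
        exact hxx (hdeg Z' hZ' y hy x hx x' hx' (by rwa [Sym2.eq_swap]) (by rwa [Sym2.eq_swap]))
      obtain ⟨Z, hZ, hx, hx', _⟩ := hsame c x x' h4 hxx
      obtain ⟨Z', hZ', hy, hy', _⟩ := hsame c y y' h5 hyy
      refine ⟨Z, hZ, Z', hZ', ?_, x, hx, x', hx', y, hy, y', hy', rfl, rfl, hxx, hyy⟩
      rintro rfl
      refine hR _ h1 Z hZ ?_
      intro z hz
      simp only [Sym2.mem_iff] at hz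
      rcases hz with rfl | rfl <;> assumption
    induction e using Sym2.ind with
    | _ x y =>
      induction e' using Sym2.ind with
      | _ x' y' =>
        simp only [Sym2.map_mk, Sym2.eq_iff] at hmap
        rcases hmap with ⟨h1, h2⟩ | ⟨h1, h2⟩
        · exact main x y x' y' he he' hne h1 h2
        · rw [Sym2.eq_swap (a := x') (b := y')]
          rw [Sym2.eq_swap (a := x') (b := y')] at he' hne
          exact main x y y' x' he he' hne h1 h2
  -- counting for a compatible pair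
  have hcount : ∀ e e', e ∈ R → e' ∈ R → EGGroup_compat 𝓒 e e' →
      g ^ 2 * (Finset.univ.filter (fun c : S → Fin g => Sym2.map (π c) e = Sym2.map (π c) e')).card ≤
        Fintype.card (S → Fin g) := by
    rintro e e' he he' ⟨Z, hZ, Z', hZ', hne, x, hx, x', hx', y, hy, y', hy', rfl, rfl, hxx, hyy⟩
    have hxS := hsub Z hZ hx
    have hxS' := hsub Z hZ hx'
    have hyS := hsub Z' hZ' hy
    have hyS' := hsub Z' hZ' hy'
    have hxy : ∀ a ∈ Z, ∀ b ∈ Z', a ≠ b := by
      rintro a ha b hb rfl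
      exact hne (huniq Z hZ Z' hZ' a ha hb)
    have h1 := EGGroup_count (S := S) g ⟨x, hxS⟩ ⟨x', hxS'⟩ ⟨y, hyS⟩ ⟨y', hyS'⟩
      (fun h => hxx (Subtype.ext_iff.1 h)) (fun h => hxy x hx y' hy' (Subtype.ext_iff.1 h))
      (fun h => hxy x' hx' y hy (Subtype.ext_iff.1 h).symm) (fun h => hyy (Subtype.ext_iff.1 h))
      (fun h => hxy x' hx' y' hy' (Subtype.ext_iff.1 h))
    refine le_trans (Nat.mul_le_mul_left _ (Finset.card_le_card ?_)) h1
    intro c hc
    rw [Finset.mem_filter] at hc ⊢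
    refine ⟨Finset.mem_univ _, ?_⟩
    have hc2 := hc.2
    simp only [Sym2.map_mk, Sym2.eq_iff] at hc2
    have hcx : ∀ z (hz : z ∈ S), cc c z = c ⟨z, hz⟩ := by
      intro z hz; simp only [cc, dif_pos hz]
    rcases hc2 with ⟨h2, h3⟩ | ⟨h2, h3⟩
    · constructor
      · rw [hπ1 c Z hZ x hx, hπ1 c Z hZ x' hx'] at h2
        have := hι1 Z hZ h2
        rwa [hcx x hxS, hcx x' hxS'] at this
      · rw [hπ1 c Z' hZ' y hy, hπ1 c Z' hZ' y' hy'] at h3
        have := hι1 Z' hZ' h3
        rwa [hcx y hyS, hcx y' hyS'] at this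
    · exact absurd h2 (hxy _ (hπ3 c Z hZ x hx) _ (hπ3 c Z' hZ' y' hy'))
  -- averaging
  have hsum : g ^ 2 * ∑ c : S → Fin g,
      ((R ×ˢ R).filter (fun p => p.1 ≠ p.2 ∧ Sym2.map (π c) p.1 = Sym2.map (π c) p.2)).card ≤
      R.card * (g - 1) * Fintype.card (S → Fin g) := by
    have e1 : ∑ c : S → Fin g,
        ((R ×ˢ R).filter (fun p => p.1 ≠ p.2 ∧ Sym2.map (π c) p.1 = Sym2.map (π c) p.2)).card =
        ∑ p ∈ R ×ˢ R, (Finset.univ.filter (fun c : S → Fin g => p.1 ≠ p.2 ∧ Sym2.map (π c) p.1 = Sym2.map (π c) p.2)).card := by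
      simp only [Finset.card_filter]
      exact Finset.sum_comm
    rw [e1, Finset.sum_product, Finset.mul_sum]
    calc ∑ e ∈ R, g ^ 2 * ∑ e' ∈ R, (Finset.univ.filter (fun c : S → Fin g =>
            (e, e').1 ≠ (e, e').2 ∧ Sym2.map (π c) (e, e').1 = Sym2.map (π c) (e, e').2)).card
        ≤ ∑ e ∈ R, (g - 1) * Fintype.card (S → Fin g) := by
          apply Finset.sum_le_sum
          intro e he
          rw [Finset.mul_sum]
          calc ∑ e' ∈ R, g ^ 2 * (Finset.univ.filter (fun c : S → Fin g =>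
            (e, e').1 ≠ (e, e').2 ∧ Sym2.map (π c) (e, e').1 = Sym2.map (π c) (e, e').2)).card
              ≤ ∑ e' ∈ R, if EGGroup_compat 𝓒 e e' then Fintype.card (S → Fin g) else 0 := by
                apply Finset.sum_le_sum
                intro e' he'
                split_ifs with hcmp
                · refine le_trans (Nat.mul_le_mul_left _ (Finset.card_le_card ?_)) (hcount e e' he he' hcmp)
                  intro c hc
                  rw [Finset.mem_filter] at hc ⊢
                  exact ⟨hc.1, hc.2.2⟩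
                · rw [Nat.le_zero, Nat.mul_eq_zero]
                  right
                  rw [Finset.card_eq_zero, Finset.filter_eq_empty_iff]
                  rintro c _ ⟨h1, h2⟩
                  exact hcmp (hcoll c e e' he he' h1 h2)
            _ = (R.filter (fun e' => EGGroup_compat 𝓒 e e')).card * Fintype.card (S → Fin g) := by
                rw [← Finset.sum_filter, Finset.sum_const, smul_eq_mul]
            _ ≤ (g - 1) * Fintype.card (S → Fin g) := by
                apply Nat.mul_le_mul_right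
                exact EGGroup_compat_card 𝓒 hdisj R g hg hbtw e he
      _ = R.card * (g - 1) * Fintype.card (S → Fin g) := by
          rw [Finset.sum_const, smul_eq_mul, mul_assoc]
  obtain ⟨c, hc⟩ : ∃ c : S → Fin g, g ^ 2 *
      ((R ×ˢ R).filter (fun p => p.1 ≠ p.2 ∧ Sym2.map (π c) p.1 = Sym2.map (π c) p.2)).card ≤
      R.card * (g - 1) := by
    by_contra hcon
    push Not at hcon
    have h1 : ∑ c : S → Fin g, R.card * (g - 1) < ∑ c : S → Fin g, g ^ 2 *
      ((R ×ˢ R).filter (fun p => p.1 ≠ p.2 ∧ Sym2.map (π c) p.1 = Sym2.map (π c) p.2)).card := by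
      apply Finset.sum_lt_sum_of_nonempty
      · exact ⟨fun _ => 0, Finset.mem_univ _⟩
      · intro c _; exact hcon c
    rw [Finset.sum_const, smul_eq_mul, Finset.card_univ, mul_comm (Fintype.card _)] at h1
    have h2 := hsum
    rw [Finset.mul_sum] at h2
    exact absurd (lt_of_lt_of_le h1 h2) (lt_irrefl _)
  obtain ⟨R', hR'sub, hinj, _, hR'card⟩ := EGGroup_reps (Sym2.map (π c)) R
  refine ⟨π c, R', hR'sub, hπ2 c, hπ3 c, ?_, hinj, ?_⟩
  · intro Z hZ
    have : Z.image (π c) ⊆ Finset.univ.image (ι Z hZ) := by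
      intro z hz
      rw [Finset.mem_image] at hz
      obtain ⟨u, hu, rfl⟩ := hz
      rw [hπ1 c Z hZ u hu]
      exact Finset.mem_image_of_mem _ (Finset.mem_univ _)
    calc _ ≤ _ := Finset.card_le_card this
      _ ≤ (Finset.univ : Finset (Fin g)).card := Finset.card_image_le
      _ = g := by simp
  · have hle := Finset.card_le_card hR'sub
    have h1 : g ^ 2 * (2 * (R.card - R'.card)) ≤ R.card * (g - 1) :=
      (Nat.mul_le_mul_left _ hR'card).trans hc
    have h2 : (g : ℝ) ^ 2 * (2 * ((R.card : ℝ) - R'.card)) ≤ R.card * (g - 1) := by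
      have h3 : ((g ^ 2 * (2 * (R.card - R'.card)) : ℕ) : ℝ) ≤ ((R.card * (g - 1) : ℕ) : ℝ) := by
        exact_mod_cast h1
      push_cast [Nat.cast_sub hle, Nat.cast_sub hg] at h3
      exact h3
    have hg0 : (0 : ℝ) < g := by exact_mod_cast hg
    rw [le_div_iff₀ (by positivity)]
    have h4 : (R.card : ℝ) * (g - 1) ≤ R.card * g := by
      apply mul_le_mul_of_nonneg_left _ (by positivity); linarith
    have h5 : (g : ℝ) * (((R.card : ℝ) - R'.card) * (2 * g)) ≤ g * R.card := by nlinarith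
    exact le_of_mul_le_mul_left h5 hg0

end Crest.Agent.EG
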