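import Crest.Agent.EG_Ball

set_option autoImplicit false

namespace Crest.Agent.EG

variable {V : Type*} [DecidableEq V]

/-- TASK EG-Grow (one step of the union of balls growth). `U = ⋃_{i ∈ J} B i`.
Proof: `|bd D U| ≥ η w(U)` by expansion. For `x ∈ U` choose `i(x) ∈ J` with `x ∈ B i(x)`. A boundary edge `xy`
(`x ∈ U`, `y ∈ Z \ U`) which is not in `F` and with `y ∉ X (i(x))` has `y ∈ ballStep … (X i(x)) (B i(x))`. The excluded boundary
edges number at most `|F| + Σ_{x ∈ U} |X (i(x))| ≤ (η/8) w(U) + |U| η s/8 ≤ (η/4) w(U)`. So at least `(3/4) η w(U)` edges go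
from `U` to `U' \ U`, `U'` the new union, and each `y ∈ U' \ U` absorbs at most `dg D y ≤ w y / φ` of them, so
`w(U' \ U) ≥ φ (3/4) η w(U)`. -/
theorem grow_step {ι : Type*} [DecidableEq ι] (D F : Finset (Sym2 V)) (Z : Finset V) (w : V → ℝ)
    (s φ η x₀ : ℝ) (hub : Hub D Z w s φ η) (hs : 0 < s) (hφ : 0 < φ) (hη : 0 < η)
    (J : Finset ι) (B X : ι → Finset V) (hB : ∀ i ∈ J, B i ⊆ Z)
    (hX : ∀ i ∈ J, ((X i).card : ℝ) ≤ x₀) (hx₀ : x₀ ≤ η * s / 8)
    (hF : (F.card : ℝ) ≤ η / 8 * ∑ v ∈ J.biUnion B, w v)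
    (hhalf : ∑ v ∈ J.biUnion B, w v ≤ (∑ v ∈ Z, w v) / 2) :
    (1 + η * φ / 2) * ∑ v ∈ J.biUnion B, w v ≤
      ∑ v ∈ J.biUnion (fun i => ballStep D F Z (X i) (B i)), w v := by
  classical
  set U : Finset V := J.biUnion B with hU
  set U' : Finset V := J.biUnion (fun i => ballStep D F Z (X i) (B i)) with hU'
  have hUZ : U ⊆ Z := by
    intro v hv
    obtain ⟨i, hi, hvi⟩ := Finset.mem_biUnion.1 hv
    exact hB i hi hvi
  have hUU' : U ⊆ U' := by
    intro v hv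
    obtain ⟨i, hi, hvi⟩ := Finset.mem_biUnion.1 hv
    exact Finset.mem_biUnion.2 ⟨i, hi, by unfold ballStep; exact Finset.mem_union_left _ hvi⟩
  have hU'Z : U' ⊆ Z := by
    intro v hv
    obtain ⟨i, hi, hvi⟩ := Finset.mem_biUnion.1 hv
    unfold ballStep at hvi
    rcases Finset.mem_union.1 hvi with h | h
    · exact hB i hi h
    · exact (Finset.mem_filter.1 h).1
  have hexp := hub.exp U hUZ hhalf
  have hchoose : ∀ x : V, ∃ S : Finset V, x ∈ U → ∃ i ∈ J, x ∈ B i ∧ S = X i := by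
    intro x
    by_cases hx : x ∈ U
    · obtain ⟨i, hi, hxi⟩ := Finset.mem_biUnion.1 hx
      exact ⟨X i, fun _ => ⟨i, hi, hxi, rfl⟩⟩
    · exact ⟨∅, fun h => absurd h hx⟩
  choose Xf hXf using hchoose
  set E2 : Finset (Sym2 V) := U.biUnion (fun x => (Xf x).image (fun y => s(x, y))) with hE2
  set E3 : Finset (Sym2 V) := (U' \ U).biUnion (fun y => D.filter (fun e => y ∈ e)) with hE3
  have hcover : bd D U ⊆ F ∪ E2 ∪ E3 := by
    intro e he
    unfold bd at he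
    obtain ⟨heD, ⟨x, hxe, hxU⟩, y, hye, hyU⟩ := Finset.mem_filter.1 he
    have hxy : x ≠ y := fun h => hyU (h ▸ hxU)
    have hexy : e = s(x, y) := (Sym2.mem_and_mem_iff hxy).1 ⟨hxe, hye⟩
    by_cases heF : e ∈ F
    · exact Finset.mem_union_left _ (Finset.mem_union_left _ heF)
    by_cases hyX : y ∈ Xf x
    · refine Finset.mem_union_left _ (Finset.mem_union_right _ ?_)
      exact Finset.mem_biUnion.2 ⟨x, hxU, Finset.mem_image.2 ⟨y, hyX, hexy.symm⟩⟩
    · refine Finset.mem_union_right _ ?_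
      obtain ⟨i, hi, hxi, hXi⟩ := hXf x hxU
      have hyZ : y ∈ Z := hub.supp e heD y hye
      have hyU' : y ∈ U' := by
        refine Finset.mem_biUnion.2 ⟨i, hi, ?_⟩
        unfold ballStep
        refine Finset.mem_union_right _ (Finset.mem_filter.2 ⟨hyZ, ?_, x, hxi, ?_, ?_⟩)
        · rw [← hXi]; exact hyX
        · rw [← hexy]; exact heD
        · rw [← hexy]; exact heF
      exact Finset.mem_biUnion.2 ⟨y, Finset.mem_sdiff.2 ⟨hyU', hyU⟩, Finset.mem_filter.2 ⟨heD, hye⟩⟩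
  have hwpos : ∀ v ∈ Z, 0 ≤ w v := fun v hv => le_trans hs.le (hub.w_ge v hv)
  have hwU : 0 ≤ ∑ v ∈ U, w v := Finset.sum_nonneg (fun v hv => hwpos v (hUZ hv))
  have hE2card : (E2.card : ℝ) ≤ η / 8 * ∑ v ∈ U, w v := by
    have h1 : E2.card ≤ ∑ x ∈ U, ((Xf x).image (fun y => s(x, y))).card := Finset.card_biUnion_le
    have h2 : (E2.card : ℝ) ≤ ∑ x ∈ U, (((Xf x).image (fun y => s(x, y))).card : ℝ) := by
      exact_mod_cast h1
    refine le_trans h2 ?_
    rw [Finset.mul_sum]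
    refine Finset.sum_le_sum (fun x hx => ?_)
    obtain ⟨i, hi, hxi, hXi⟩ := hXf x hx
    have h3 : (((Xf x).image (fun y => s(x, y))).card : ℝ) ≤ ((Xf x).card : ℝ) := by
      exact_mod_cast Finset.card_image_le
    have h4 : ((Xf x).card : ℝ) ≤ x₀ := by rw [hXi]; exact hX i hi
    have h5 := hub.w_ge x (hUZ hx)
    have h6 : η * s / 8 ≤ η / 8 * w x := by
      have := mul_le_mul_of_nonneg_left h5 (by positivity : 0 ≤ η / 8)
      linarith
    linarith
  have hE3card : (E3.card : ℝ) ≤ ∑ y ∈ U' \ U, (dg D y : ℝ) := by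
    have h1 : E3.card ≤ ∑ y ∈ U' \ U, (D.filter (fun e => y ∈ e)).card := Finset.card_biUnion_le
    have h2 : E3.card ≤ ∑ y ∈ U' \ U, dg D y := by
      refine le_trans h1 (Finset.sum_le_sum (fun y _ => ?_))
      unfold dg
      exact le_of_eq (by congr)
    exact_mod_cast h2
  have hbd : ((bd D U).card : ℝ) ≤ (F.card : ℝ) + E2.card + E3.card := by
    have h1 : (bd D U).card ≤ (F ∪ E2 ∪ E3).card := Finset.card_le_card hcover
    have h2 : (F ∪ E2 ∪ E3).card ≤ (F ∪ E2).card + E3.card := Finset.card_union_le _ _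
    have h3 : (F ∪ E2).card ≤ F.card + E2.card := Finset.card_union_le _ _
    have h4 : (bd D U).card ≤ F.card + E2.card + E3.card := by omega
    exact_mod_cast h4
  have hφd : φ * ∑ y ∈ U' \ U, (dg D y : ℝ) ≤ ∑ y ∈ U' \ U, w y := by
    rw [Finset.mul_sum]
    exact Finset.sum_le_sum (fun y hy => hub.w_deg y (hU'Z (Finset.mem_sdiff.1 hy).1))
  have hsum : ∑ v ∈ U', w v = ∑ v ∈ U' \ U, w v + ∑ v ∈ U, w v := (Finset.sum_sdiff hUU').symm
  have hmain : 3 / 4 * η * ∑ v ∈ U, w v ≤ ∑ y ∈ U' \ U, (dg D y : ℝ) := by linarith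
  have h7 := mul_le_mul_of_nonneg_left hmain hφ.le
  have h8 : 0 ≤ η * φ * ∑ v ∈ U, w v := by positivity
  rw [hsum]
  nlinarith

end Crest.Agent.EG
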