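import Crest.Agent.EG_Grow

set_option autoImplicit false

namespace Crest.Agent.EG

variable {V : Type*} [DecidableEq V]

/-! TASK EG-Grow2: iterate `grow_step`. -/

theorem grow2_ball_succ (D F : Finset (Sym2 V)) (Z X B : Finset V) (t : ℕ) :
    ball D F Z X B (t + 1) = ballStep D F Z X (ball D F Z X B t) := rfl

omit [DecidableEq V] in
theorem grow2_sum_mono {Z : Finset V} {w : V → ℝ} (hw : ∀ v ∈ Z, 0 ≤ w v) {A B : Finset V}
    (hAB : A ⊆ B) (hB : B ⊆ Z) : ∑ v ∈ A, w v ≤ ∑ v ∈ B, w v :=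
  Finset.sum_le_sum_of_subset_of_nonneg hAB fun v hv _ => hw v (hB hv)

/-- If `W₀ ≤ w(⋃ B i)` and `w(Z) < 2^(k+1) W₀`, then after `k * t₁` steps (`t₁ ≥ 2/(ηφ)`, so that
`(1+ηφ/2)^{t₁} ≥ 2`) the union of the balls has weight more than half. -/
theorem grow_iter {ι : Type*} [DecidableEq ι] (D F : Finset (Sym2 V)) (Z : Finset V) (w : V → ℝ)
    (s φ η x₀ W₀ : ℝ) (hub : Hub D Z w s φ η) (hs : 0 < s) (hφ : 0 < φ) (hη : 0 < η)
    (t₁ : ℕ) (ht₁ : 2 ≤ η * φ * t₁)
    (J : Finset ι) (B X : ι → Finset V) (hB : ∀ i ∈ J, B i ⊆ Z)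
    (hX : ∀ i ∈ J, ((X i).card : ℝ) ≤ x₀) (hx₀ : x₀ ≤ η * s / 8)
    (hW₀ : 0 < W₀) (hW : W₀ ≤ ∑ v ∈ J.biUnion B, w v)
    (hF : (F.card : ℝ) ≤ η / 8 * W₀) (k : ℕ) (hk : ∑ v ∈ Z, w v < 2 ^ (k + 1) * W₀) :
    (∑ v ∈ Z, w v) / 2 < ∑ v ∈ J.biUnion (fun i => ball D F Z (X i) (B i) (k * t₁)), w v := by
  have hw : ∀ v ∈ Z, 0 ≤ w v := fun v hv => hs.le.trans (hub.w_ge v hv)
  have hsub : ∀ t, J.biUnion (fun i => ball D F Z (X i) (B i) t) ⊆ Z := by
    intro t
    refine Finset.biUnion_subset.2 fun i hi => ?_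
    exact ball_subset D F Z (X i) (B i) (hB i hi) t
  have hmono : ∀ {t t' : ℕ}, t ≤ t' → ∑ v ∈ J.biUnion (fun i => ball D F Z (X i) (B i) t), w v
      ≤ ∑ v ∈ J.biUnion (fun i => ball D F Z (X i) (B i) t'), w v := by
    intro t t' h
    refine grow2_sum_mono hw ?_ (hsub t')
    exact Finset.biUnion_mono fun i _ => ball_mono D F Z (X i) (B i) h
  have h0 : ∀ t, W₀ ≤ ∑ v ∈ J.biUnion (fun i => ball D F Z (X i) (B i) t), w v := by
    intro t
    refine hW.trans ?_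
    exact hmono (t := 0) (t' := t) (Nat.zero_le _)
  have hx : (0 : ℝ) ≤ η * φ / 2 := by positivity
  have main : ∀ t : ℕ, (∑ v ∈ Z, w v) / 2 < ∑ v ∈ J.biUnion (fun i => ball D F Z (X i) (B i) t), w v ∨
      (1 + η * φ / 2) ^ t * W₀ ≤ ∑ v ∈ J.biUnion (fun i => ball D F Z (X i) (B i) t), w v := by
    intro t
    induction t with
    | zero =>
      right
      rw [pow_zero, one_mul]
      exact h0 0
    | succ t ih =>
      by_cases hlt : (∑ v ∈ Z, w v) / 2 < ∑ v ∈ J.biUnion (fun i => ball D F Z (X i) (B i) t), w v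
      · left
        exact hlt.trans_le (hmono (Nat.le_succ t))
      · right
        rcases ih with ih | ih
        · exact absurd ih hlt
        · have hstep := grow_step D F Z w s φ η x₀ hub hs hφ hη J
            (fun i => ball D F Z (X i) (B i) t) X
            (fun i hi => ball_subset D F Z (X i) (B i) (hB i hi) t) hX hx₀
            (hF.trans (mul_le_mul_of_nonneg_left (h0 t) (by positivity))) (not_lt.1 hlt)
          calc (1 + η * φ / 2) ^ (t + 1) * W₀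
              = (1 + η * φ / 2) * ((1 + η * φ / 2) ^ t * W₀) := by ring
            _ ≤ (1 + η * φ / 2) * ∑ v ∈ J.biUnion (fun i => ball D F Z (X i) (B i) t), w v := by
              exact mul_le_mul_of_nonneg_left ih (by positivity)
            _ ≤ _ := hstep
  rcases main (k * t₁) with h | h
  · exact h
  · refine lt_of_lt_of_le ?_ h
    have h2 : (2 : ℝ) ≤ (1 + η * φ / 2) ^ t₁ := by
      have hb := one_add_mul_le_pow (a := η * φ / 2) (by linarith) t₁
      have : (t₁ : ℝ) * (η * φ / 2) ≥ 1 := by nlinarith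
      linarith
    have h3 : (2 : ℝ) ^ k ≤ (1 + η * φ / 2) ^ (k * t₁) := by
      rw [Nat.mul_comm k t₁, pow_mul]
      exact pow_le_pow_left₀ (by norm_num) h2 k
    have h4 : (2 : ℝ) ^ k * W₀ ≤ (1 + η * φ / 2) ^ (k * t₁) * W₀ :=
      mul_le_mul_of_nonneg_right h3 hW₀.le
    rw [pow_succ] at hk
    linarith

/-- Halving: if the union of the balls over `J`, `|J| ≤ 2^k`, has weight more than half, then after
`k * t₁` more steps a single ball has weight more than half. (Induction on `k`; split `J` in two parts of size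
`≤ 2^(k-1)`; one of the two unions has weight `> w(Z)/4`; grow it by `t₁` steps with `grow_iter` (`k = 1`); use
`ball_add`.) -/
theorem grow_half {ι : Type*} [DecidableEq ι] (D F : Finset (Sym2 V)) (Z : Finset V) (w : V → ℝ)
    (s φ η x₀ : ℝ) (hub : Hub D Z w s φ η) (hs : 0 < s) (hφ : 0 < φ) (hη : 0 < η)
    (t₁ : ℕ) (ht₁ : 2 ≤ η * φ * t₁)
    (B X : ι → Finset V) (k : ℕ) (J : Finset ι) (hJ : J.Nonempty) (hJk : J.card ≤ 2 ^ k)
    (hB : ∀ i ∈ J, B i ⊆ Z)
    (hX : ∀ i ∈ J, ((X i).card : ℝ) ≤ x₀) (hx₀ : x₀ ≤ η * s / 8)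
    (hF : (F.card : ℝ) ≤ η / 8 * ((∑ v ∈ Z, w v) / 4))
    (hW : (∑ v ∈ Z, w v) / 2 < ∑ v ∈ J.biUnion B, w v) :
    ∃ i ∈ J, (∑ v ∈ Z, w v) / 2 < ∑ v ∈ ball D F Z (X i) (B i) (k * t₁), w v := by
  have hw : ∀ v ∈ Z, 0 ≤ w v := fun v hv => hs.le.trans (hub.w_ge v hv)
  have hwZ : 0 ≤ ∑ v ∈ Z, w v := Finset.sum_nonneg hw
  induction k generalizing J B with
  | zero =>
    have h1 : J.card = 1 := by
      have := Finset.card_pos.2 hJ
      simp at hJk
      omega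
    obtain ⟨i, hi⟩ := Finset.card_eq_one.1 h1
    refine ⟨i, by simp [hi], ?_⟩
    rw [Nat.zero_mul]
    rw [hi, Finset.singleton_biUnion] at hW
    exact hW
  | succ k ih =>
    obtain ⟨J1, hJ1, hJ1c⟩ := Finset.exists_subset_card_eq (s := J) (n := J.card / 2)
      (Nat.div_le_self _ _)
    have hJ2c : (J \ J1).card ≤ 2 ^ k := by
      rw [Finset.card_sdiff_of_subset hJ1, hJ1c]
      rw [pow_succ] at hJk
      omega
    have hJ1c' : J1.card ≤ 2 ^ k := by
      rw [hJ1c]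
      rw [pow_succ] at hJk
      omega
    -- generic step
    have key : ∀ J' : Finset ι, J' ⊆ J → J'.card ≤ 2 ^ k →
        (∑ v ∈ Z, w v) / 4 < ∑ v ∈ J'.biUnion B, w v →
        ∃ i ∈ J, (∑ v ∈ Z, w v) / 2 < ∑ v ∈ ball D F Z (X i) (B i) ((k + 1) * t₁), w v := by
      intro J' hJ' hJ'c hlt
      have hne : J'.Nonempty := by
        by_contra hcon
        rw [Finset.not_nonempty_iff_eq_empty] at hcon
        rw [hcon] at hlt
        simp at hlt
        linarith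
      have hpos : 0 < ∑ v ∈ J'.biUnion B, w v := lt_of_le_of_lt (by linarith) hlt
      have hit := grow_iter D F Z w s φ η x₀ (∑ v ∈ J'.biUnion B, w v) hub hs hφ hη t₁ ht₁ J' B X
        (fun i hi => hB i (hJ' hi)) (fun i hi => hX i (hJ' hi)) hx₀ hpos le_rfl
        (hF.trans (mul_le_mul_of_nonneg_left hlt.le (by positivity))) 1 (by norm_num; linarith)
      obtain ⟨i, hi, hlti⟩ := ih (fun i => ball D F Z (X i) (B i) (1 * t₁)) J' hne hJ'c
        (fun i hi => ball_subset D F Z (X i) (B i) (hB i (hJ' hi)) _)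
        (fun i hi => hX i (hJ' hi)) hit
      refine ⟨i, hJ' hi, ?_⟩
      have he : (k + 1) * t₁ = 1 * t₁ + k * t₁ := by ring
      rw [he, ball_add]
      exact hlti
    by_cases h1 : (∑ v ∈ Z, w v) / 4 < ∑ v ∈ J1.biUnion B, w v
    · exact key J1 hJ1 hJ1c' h1
    · refine key (J \ J1) Finset.sdiff_subset hJ2c ?_
      have hun : J.biUnion B ⊆ J1.biUnion B ∪ (J \ J1).biUnion B := by
        rw [← Finset.union_biUnion, Finset.union_sdiff_of_subset hJ1]
      have hsubZ : J1.biUnion B ∪ (J \ J1).biUnion B ⊆ Z := by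
        refine Finset.union_subset ?_ ?_
        · exact Finset.biUnion_subset.2 fun i hi => hB i (hJ1 hi)
        · exact Finset.biUnion_subset.2 fun i hi => hB i (Finset.mem_sdiff.1 hi).1
      have h2 : ∑ v ∈ J.biUnion B, w v
          ≤ ∑ v ∈ J1.biUnion B, w v + ∑ v ∈ (J \ J1).biUnion B, w v := by
        refine (grow2_sum_mono hw hun hsubZ).trans ?_
        have h3 := Finset.sum_union_inter (s₁ := J1.biUnion B) (s₂ := (J \ J1).biUnion B) (f := w)
        have h4 : 0 ≤ ∑ v ∈ J1.biUnion B ∩ (J \ J1).biUnion B, w v :=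
          Finset.sum_nonneg fun v hv => hw v (hsubZ (Finset.mem_union_left _ (Finset.mem_inter.1 hv).1))
        linarith
      linarith

/-- Combination. -/
theorem grow_single {ι : Type*} [DecidableEq ι] (D F : Finset (Sym2 V)) (Z : Finset V) (w : V → ℝ)
    (s φ η x₀ : ℝ) (hub : Hub D Z w s φ η) (hs : 0 < s) (hφ : 0 < φ) (hη : 0 < η)
    (t₁ L : ℕ) (ht₁ : 2 ≤ η * φ * t₁)
    (a : ι → V) (X : ι → Finset V) (J : Finset ι) (hJ : J.Nonempty) (hJk : J.card ≤ 2 ^ L)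
    (ha : ∀ i ∈ J, a i ∈ Z) (hwZ : ∑ v ∈ Z, w v ≤ 2 ^ L * s)
    (hX : ∀ i ∈ J, ((X i).card : ℝ) ≤ x₀) (hx₀ : x₀ ≤ η * s / 8)
    (hF : (F.card : ℝ) ≤ η / 8 * ((∑ v ∈ Z, w v) / 4))
    (hF' : (F.card : ℝ) ≤ η / 8 * ∑ v ∈ J.image a, w v) :
    ∃ i ∈ J, (∑ v ∈ Z, w v) / 2 < ∑ v ∈ ball D F Z (X i) {a i} (2 * L * t₁), w v := by
  have hbi : J.biUnion (fun i => ({a i} : Finset V)) = J.image a := by
    ext v
    simp only [Finset.mem_biUnion, Finset.mem_singleton, Finset.mem_image]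
    exact ⟨fun ⟨i, hi, h⟩ => ⟨i, hi, h.symm⟩, fun ⟨i, hi, h⟩ => ⟨i, hi, h.symm⟩⟩
  have hsW : s ≤ ∑ v ∈ J.image a, w v := by
    obtain ⟨i, hi⟩ := hJ
    have hm : a i ∈ J.image a := Finset.mem_image_of_mem a hi
    calc s ≤ w (a i) := hub.w_ge _ (ha i hi)
      _ ≤ ∑ v ∈ J.image a, w v := by
        refine Finset.single_le_sum (f := w) (fun v hv => ?_) hm
        obtain ⟨j, hj, rfl⟩ := Finset.mem_image.1 hv
        exact hs.le.trans (hub.w_ge _ (ha j hj))
  have hit := grow_iter D F Z w s φ η x₀ (∑ v ∈ J.image a, w v) hub hs hφ hη t₁ ht₁ J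
    (fun i => {a i}) X (fun i hi => Finset.singleton_subset_iff.2 (ha i hi)) hX hx₀
    (hs.trans_le hsW) (by rw [hbi]) hF' L (by
      have h1 : (2 : ℝ) ^ L * s ≤ 2 ^ L * ∑ v ∈ J.image a, w v := by gcongr
      have h2 : (0 : ℝ) < 2 ^ L * ∑ v ∈ J.image a, w v :=
        mul_pos (by positivity) (hs.trans_le hsW)
      rw [pow_succ]
      linarith)
  obtain ⟨i, hi, hlt⟩ := grow_half D F Z w s φ η x₀ hub hs hφ hη t₁ ht₁
    (fun i => ball D F Z (X i) {a i} (L * t₁)) X L J hJ hJk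
    (fun i hi => ball_subset D F Z (X i) {a i} (Finset.singleton_subset_iff.2 (ha i hi)) _)
    hX hx₀ hF hit
  refine ⟨i, hi, ?_⟩
  have he : 2 * L * t₁ = L * t₁ + L * t₁ := by ring
  rw [he, ball_add]
  exact hlt

end Crest.Agent.EG
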