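import Mathlib

set_option autoImplicit false

namespace Crest.Agent.EG

/-- TASK EG-Hall: Hall's theorem with capacities from a fractional assignment.
Proof: Mathlib's `Finset.all_card_le_biUnion_card_iff_exists_injective` for `ι = ↥Y` and the sets
`(A x).sigma/product with range (cap y)` in `β × ℕ`. Hall condition for `X ⊆ Y`: `|X| = Σ_{x∈X} Σ_{y ∈ A x} 1/|A x|
≤ Σ_{y ∈ ⋃ A x} Σ_{x ∈ Y, y ∈ A x} 1/|A x| ≤ Σ_{y ∈ ⋃ A x} cap y`.
(The types `α` and `β` are equal here: for `Y = ∅` and `β` empty the general form fails.) -/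
theorem hall_cap {α : Type*} [DecidableEq α] (Y : Finset α) (A : α → Finset α)
    (cap : α → ℕ) (hA : ∀ x ∈ Y, (A x).Nonempty)
    (h : ∀ y, ∑ x ∈ Y.filter (fun x => y ∈ A x), (1 : ℝ) / (A x).card ≤ cap y) :
    ∃ f : α → α, (∀ x ∈ Y, f x ∈ A x) ∧ ∀ y, (Y.filter (fun x => f x = y)).card ≤ cap y := by
  classical
  let t : Y → Finset (Σ _ : α, ℕ) := fun x => (A x).sigma (fun y => Finset.range (cap y))
  have hall : ∀ s : Finset Y, s.card ≤ (s.biUnion t).card := by
    intro s
    -- neighbourhood
    let M : Finset α := s.biUnion (fun x => A x)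
    have hM : s.biUnion t = M.sigma (fun y => Finset.range (cap y)) := by
      ext ⟨y, n⟩
      simp only [t, M, Finset.mem_biUnion, Finset.mem_sigma]
      constructor
      · rintro ⟨x, hx, hy, hn⟩
        exact ⟨⟨x, hx, hy⟩, hn⟩
      · rintro ⟨⟨x, hx, hy⟩, hn⟩
        exact ⟨x, hx, hy, hn⟩
    rw [hM, Finset.card_sigma]
    simp only [Finset.card_range]
    have h1 : (s.card : ℝ) = ∑ x ∈ s, ∑ y ∈ M, if y ∈ A x then (1 : ℝ) / (A x).card else 0 := by
      rw [Finset.card_eq_sum_ones]
      push_cast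
      refine Finset.sum_congr rfl fun x hx => ?_
      rw [← Finset.sum_filter]
      have : M.filter (fun y => y ∈ A x) = A x := by
        ext y
        simp only [Finset.mem_filter, M, Finset.mem_biUnion]
        constructor
        · rintro ⟨_, h⟩; exact h
        · intro h; exact ⟨⟨x, hx, h⟩, h⟩
      rw [this, Finset.sum_const, nsmul_eq_mul]
      have hpos : (0 : ℝ) < (A x).card := by
        exact_mod_cast (hA x x.2).card_pos
      field_simp
    have h2 : (s.card : ℝ) ≤ ∑ y ∈ M, (cap y : ℝ) := by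
      rw [h1, Finset.sum_comm]
      refine Finset.sum_le_sum fun y _ => ?_
      refine le_trans ?_ (h y)
      rw [Finset.sum_filter]
      have e1 : ∑ x ∈ s, (if y ∈ A (x : α) then (1 : ℝ) / (A (x : α)).card else 0) =
          ∑ x ∈ s.map (Function.Embedding.subtype _), (if y ∈ A x then (1 : ℝ) / (A x).card else 0) := by
        rw [Finset.sum_map]
        rfl
      rw [e1]
      refine Finset.sum_le_sum_of_subset_of_nonneg ?_ ?_
      · intro x hx
        obtain ⟨x', _, rfl⟩ := Finset.mem_map.1 hx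
        exact x'.2
      · intro x _ _
        split_ifs
        · positivity
        · exact le_rfl
    exact_mod_cast h2
  obtain ⟨f, hfinj, hf⟩ := (Finset.all_card_le_biUnion_card_iff_exists_injective t).1 hall
  refine ⟨fun x => if hx : x ∈ Y then (f ⟨x, hx⟩).1 else x, ?_, ?_⟩
  · intro x hx
    simp only [hx, dif_pos]
    exact (Finset.mem_sigma.1 (hf ⟨x, hx⟩)).1
  · intro y
    have : (Y.filter (fun x => (if hx : x ∈ Y then (f ⟨x, hx⟩).1 else x) = y)).card ≤
        (Finset.range (cap y)).card := by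
      refine Finset.card_le_card_of_injOn (fun x => if hx : x ∈ Y then (f ⟨x, hx⟩).2 else 0) ?_ ?_
      · intro x hx
        obtain ⟨hx1, hx2⟩ := Finset.mem_filter.1 (Finset.mem_coe.1 hx)
        simp only [hx1, dif_pos] at hx2 ⊢
        have := (Finset.mem_sigma.1 (hf ⟨x, hx1⟩)).2
        rw [hx2] at this
        exact Finset.mem_coe.2 this
      · intro x hx x' hx' he
        obtain ⟨hx1, hx2⟩ := Finset.mem_filter.1 (Finset.mem_coe.1 hx)
        obtain ⟨hx1', hx2'⟩ := Finset.mem_filter.1 (Finset.mem_coe.1 hx')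
        simp only [hx1, hx1', dif_pos] at hx2 hx2' he
        have h3 : f ⟨x, hx1⟩ = f ⟨x', hx1'⟩ := by
          apply Sigma.ext
          · rw [hx2, hx2']
          · rw [he]
        have := hfinj h3
        exact congrArg Subtype.val this
    rwa [Finset.card_range] at this

end Crest.Agent.EG
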