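import Crest.Agent.EG_List

set_option autoImplicit false

namespace Crest.Agent.EG

variable {V : Type*} [DecidableEq V]

/-- a family of paths (nonempty nodup vertex lists, one for each `i ∈ W`) decomposing the edge set `H` -/
structure PFam (W : Finset V) (H : Finset (Sym2 V)) (p : V → List V) : Prop where
  ne : ∀ i ∈ W, p i ≠ []
  nodup : ∀ i ∈ W, (p i).Nodup
  mem : ∀ i ∈ W, ∀ x ∈ p i, x ∈ W
  disj : ∀ i ∈ W, ∀ j ∈ W, i ≠ j → Disjoint (pE (p i)).toFinset (pE (p j)).toFinset
  cover : W.biUnion (fun i => (pE (p i)).toFinset) = H

/-- the number of path ends at `v` (a one-vertex path counts twice) -/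
def ends (W : Finset V) (p : V → List V) (v : V) : ℕ :=
  (W.filter (fun i => (p i).head? = some v)).card + (W.filter (fun i => (p i).getLast? = some v)).card

/-! ### lists read from one of the two sides -/

/-- the list read from the side `b` -/
def sd (b : Bool) (l : List V) : List V := if b then l else l.reverse

omit [DecidableEq V] in
theorem sd_sd (b : Bool) (l : List V) : sd b (sd b l) = l := by
  cases b <;> simp [sd]

omit [DecidableEq V] in
theorem sd_not (b : Bool) (l : List V) : sd (!b) l = (sd b l).reverse := by
  cases b <;> simp [sd]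

omit [DecidableEq V] in
theorem sd_perm (b : Bool) (l : List V) : (sd b l).Perm l := by
  cases b
  · exact List.reverse_perm l
  · exact List.Perm.refl l

omit [DecidableEq V] in
theorem pE_rev_coe (l : List V) : (pE l.reverse : Multiset (Sym2 V)) = (pE l : Multiset (Sym2 V)) := by
  rw [pE_reverse]
  exact Multiset.coe_eq_coe.2 (List.reverse_perm _)

omit [DecidableEq V] in
theorem pE_sd (b : Bool) (l : List V) :
    (pE (sd b l) : Multiset (Sym2 V)) = (pE l : Multiset (Sym2 V)) := by
  cases b
  · exact pE_rev_coe l
  · rfl

/-- the number of ends of `l` at `y` -/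
def en (l : List V) (y : V) : ℕ :=
  (if l.head? = some y then 1 else 0) + (if l.getLast? = some y then 1 else 0)

theorem en_sd (b : Bool) (l : List V) (y : V) : en (sd b l) y = en l y := by
  cases b
  · simp only [sd, en, Bool.false_eq_true, if_false, List.head?_reverse, List.getLast?_reverse]
    exact add_comm _ _
  · rfl

theorem ends_eq (W : Finset V) (p : V → List V) (y : V) :
    ends W p y = ∑ i ∈ W, en (p i) y := by
  unfold ends en
  rw [Finset.sum_add_distrib, Finset.card_filter, Finset.card_filter]

/-- the conditions on the single paths -/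
def Fam (W : Finset V) (p : V → List V) : Prop :=
  ∀ i ∈ W, p i ≠ [] ∧ (p i).Nodup ∧ ∀ x ∈ p i, x ∈ W

/-- the multiset of all edges -/
def ME (W : Finset V) (p : V → List V) : Multiset (Sym2 V) :=
  ∑ i ∈ W, (pE (p i) : Multiset (Sym2 V))

theorem count_ME (W : Finset V) (p : V → List V) (e : Sym2 V) :
    (ME W p).count e = ∑ i ∈ W, (pE (p i)).count e := by
  unfold ME
  rw [Multiset.count_sum']
  simp

theorem PFam.fam {W : Finset V} {H : Finset (Sym2 V)} {p : V → List V} (h : PFam W H p) :
    Fam W p := fun i hi => ⟨h.ne i hi, h.nodup i hi, h.mem i hi⟩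

theorem PFam.me {W : Finset V} {H : Finset (Sym2 V)} {p : V → List V} (h : PFam W H p) :
    ME W p = H.val := by
  ext e
  rw [count_ME]
  by_cases he : e ∈ H
  · rw [Multiset.count_eq_one_of_mem H.nodup he]
    rw [← h.cover] at he
    obtain ⟨i, hi, hei⟩ := Finset.mem_biUnion.1 he
    rw [List.mem_toFinset] at hei
    rw [Finset.sum_eq_single i]
    · exact List.count_eq_one_of_mem (nodup_pE (h.nodup i hi)) hei
    · intro j hj hji
      rw [List.count_eq_zero]
      intro hej
      exact Finset.disjoint_left.1 (h.disj j hj i hi hji) (List.mem_toFinset.2 hej)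
        (List.mem_toFinset.2 hei)
    · intro h'
      exact absurd hi h'
  · rw [Multiset.count_eq_zero_of_notMem he]
    refine Finset.sum_eq_zero fun i hi => ?_
    rw [List.count_eq_zero]
    intro hei
    apply he
    rw [← h.cover]
    exact Finset.mem_biUnion.2 ⟨i, hi, List.mem_toFinset.2 hei⟩

theorem PFam.of_me {W : Finset V} {H : Finset (Sym2 V)} {p : V → List V} (h : Fam W p)
    (hM : ME W p = H.val) : PFam W H p where
  ne i hi := (h i hi).1
  nodup i hi := (h i hi).2.1
  mem i hi := (h i hi).2.2
  disj i hi j hj hij := by
    rw [Finset.disjoint_left]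
    intro e hei hej
    rw [List.mem_toFinset] at hei hej
    have h1 : (ME W p).count e ≤ 1 := by
      rw [hM]
      exact Multiset.nodup_iff_count_le_one.1 H.nodup e
    rw [count_ME] at h1
    have h2 : ∑ k ∈ ({i, j} : Finset V), (pE (p k)).count e ≤ ∑ k ∈ W, (pE (p k)).count e := by
      refine Finset.sum_le_sum_of_subset ?_
      intro k hk
      rcases Finset.mem_insert.1 hk with rfl | hk
      · exact hi
      · rw [Finset.mem_singleton.1 hk]; exact hj
    rw [Finset.sum_pair hij] at h2
    have h3 := List.count_pos_iff.2 hei
    have h4 := List.count_pos_iff.2 hej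
    omega
  cover := by
    ext e
    rw [← Finset.mem_val (s := H), ← hM, ← Multiset.count_pos, count_ME, Finset.mem_biUnion]
    constructor
    · rintro ⟨i, hi, he⟩
      rw [List.mem_toFinset] at he
      exact lt_of_lt_of_le (List.count_pos_iff.2 he)
        (Finset.single_le_sum (f := fun i => (pE (p i)).count e) (fun _ _ => Nat.zero_le _) hi)
    · intro h'
      obtain ⟨i, hi, hpos⟩ := Finset.exists_ne_zero_of_sum_ne_zero h'.ne'
      exact ⟨i, hi, List.mem_toFinset.2 (List.count_pos_iff.1 (Nat.pos_of_ne_zero hpos))⟩

omit [DecidableEq V] in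
theorem split_unique {u : V} : ∀ {A A' B B' : List V}, A ++ u :: B = A' ++ u :: B' → u ∉ A → u ∉ A' →
    A = A' ∧ B = B'
  | [], [], B, B', h, _, _ => ⟨rfl, by simpa using h⟩
  | [], a' :: A', B, B', h, _, h2 => by
      simp only [List.nil_append, List.cons_append, List.cons.injEq] at h
      exact absurd (by simp [h.1]) h2
  | a :: A, [], B, B', h, h1, _ => by
      simp only [List.nil_append, List.cons_append, List.cons.injEq] at h
      exact absurd (by simp [h.1]) h1
  | a :: A, a' :: A', B, B', h, h1, h2 => by
      simp only [List.cons_append, List.cons.injEq] at h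
      obtain ⟨h3, h4⟩ := split_unique h.2 (fun h' => h1 (List.mem_cons_of_mem _ h'))
        (fun h' => h2 (List.mem_cons_of_mem _ h'))
      exact ⟨by rw [h.1, h3], h4⟩

theorem me_update {W : Finset V} {i : V} (hi : i ∈ W) (p : V → List V) (l : List V) :
    ME W (Function.update p i l) + (pE (p i) : Multiset (Sym2 V)) =
      ME W p + (pE l : Multiset (Sym2 V)) := by
  unfold ME
  rw [← Finset.add_sum_erase W _ hi, ← Finset.add_sum_erase W (fun i => (pE (p i) : Multiset (Sym2 V))) hi]
  rw [Function.update_self]
  have : ∑ x ∈ W.erase i, (pE (Function.update p i l x) : Multiset (Sym2 V)) =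
      ∑ x ∈ W.erase i, (pE (p x) : Multiset (Sym2 V)) := by
    refine Finset.sum_congr rfl fun x hx => ?_
    rw [Function.update_of_ne (Finset.ne_of_mem_erase hx)]
  rw [this]
  abel

theorem en_update {W : Finset V} {i : V} (hi : i ∈ W) (p : V → List V) (l : List V) (y : V) :
    ∑ j ∈ W, en (Function.update p i l j) y + en (p i) y = ∑ j ∈ W, en (p j) y + en l y := by
  rw [← Finset.add_sum_erase W _ hi, ← Finset.add_sum_erase W (fun i => en (p i) y) hi]
  rw [Function.update_self]
  have : ∑ x ∈ W.erase i, en (Function.update p i l x) y = ∑ x ∈ W.erase i, en (p x) y := by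
    refine Finset.sum_congr rfl fun x hx => ?_
    rw [Function.update_of_ne (Finset.ne_of_mem_erase hx)]
  rw [this]
  ring

theorem fam_update {W : Finset V} {i : V} {p : V → List V} (h : Fam W p) {l : List V}
    (h1 : l ≠ []) (h2 : l.Nodup) (h3 : ∀ x ∈ l, x ∈ W) : Fam W (Function.update p i l) := by
  intro j hj
  by_cases hji : j = i
  · subst hji
    rw [Function.update_self]
    exact ⟨h1, h2, h3⟩
  · rw [Function.update_of_ne hji]
    exact h j hj

/-- the induction along the orbit -/
theorem ins_aux (W : Finset V) (u : V) (hu : u ∈ W) (σ : V → V × Bool) (ν : V → V) :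
    ∀ (n : ℕ) (Y : Finset V) (p : V → List V) (v : V), Y.card = n → Fam W p → v ∈ Y →
      (∀ y ∈ Y, (σ y).1 ∈ W ∧ (sd (σ y).2 (p (σ y).1)).head? = some y ∧
        (u ∈ p (σ y).1 → (∃ A B, sd (σ y).2 (p (σ y).1) = A ++ u :: B ∧ A.head? = some y ∧
          A.getLast? = some (ν y)) ∧ ν y ∈ Y ∧ ν y ≠ v)) →
      (∀ y ∈ Y, ∀ y' ∈ Y, u ∈ p (σ y).1 → u ∈ p (σ y').1 → ν y = ν y' → y = y') →
      ∃ p' : V → List V, Fam W p' ∧ ME W p' = s(u, v) ::ₘ ME W p ∧
        ∀ y, ∑ i ∈ W, en (p' i) y + (if y = v then 1 else 0) =
          ∑ i ∈ W, en (p i) y + (if y = u then 1 else 0) := by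
  intro n
  induction n with
  | zero =>
    intro Y p v hc _ hv
    rw [Finset.card_eq_zero] at hc
    subst hc
    simp at hv
  | succ n ih =>
    intro Y p v hc hp hv hY hinj
    obtain ⟨hiW, hhead, hrec⟩ := hY v hv
    set i := (σ v).1 with hi
    set b := (σ v).2 with hb
    obtain ⟨hne, hnd, hmem⟩ := hp i hiW
    set L := sd b (p i) with hL
    have hpi : p i = sd b L := by rw [hL, sd_sd]
    have hLperm : L.Perm (p i) := sd_perm b (p i)
    have hLnd : L.Nodup := hLperm.nodup_iff.2 hnd
    have hLmem : ∀ x ∈ L, x ∈ W := fun x hx => hmem x (hLperm.mem_iff.1 hx)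
    by_cases hui : u ∈ p i
    · -- rotate
      obtain ⟨⟨A, B, hAB, hAh, hAl⟩, hνY, hνv⟩ := hrec hui
      have hnd' : (A ++ u :: B).Nodup := by rw [← hAB]; exact hLnd
      have huA : u ∉ A := by
        intro h
        exact (List.nodup_append.1 hnd').2.2 u h u (by simp) rfl
      set L₁ := A.reverse ++ u :: B with hL₁
      have hL₁perm : L₁.Perm L := by
        rw [hAB, hL₁]
        exact (List.reverse_perm A).append_right _
      have hL₁nd : L₁.Nodup := hL₁perm.nodup_iff.2 hLnd
      set p₁ := Function.update p i (sd b L₁) with hp₁
      have hfam₁ : Fam W p₁ := by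
        refine fam_update hp ?_ ?_ ?_
        · intro h
          have := (sd_perm b L₁).symm
          rw [h] at this
          have := this.eq_nil
          simp [hL₁] at this
        · exact (sd_perm b L₁).nodup_iff.2 hL₁nd
        · intro x hx
          exact hLmem x (hL₁perm.mem_iff.1 ((sd_perm b L₁).mem_iff.1 hx))
      have hmemu : ∀ j, u ∈ p₁ j ↔ u ∈ p j := by
        intro j
        by_cases hj : j = i
        · subst hj
          rw [hp₁, Function.update_self]
          constructor
          · intro _; exact hui
          · intro _
            rw [(sd_perm b L₁).mem_iff]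
            simp [hL₁]
        · rw [hp₁, Function.update_of_ne hj]
      have hME : ME W p₁ + {s(ν v, u)} = ME W p + {s(v, u)} := by
        have h1 := me_update hiW p (sd b L₁)
        rw [← hp₁, pE_sd] at h1
        have h2 : (pE (p i) : Multiset (Sym2 V)) = (pE L : Multiset (Sym2 V)) := by
          rw [hpi, pE_sd]
        rw [h2] at h1
        have h3 : (pE L : Multiset (Sym2 V)) =
            (pE A : Multiset (Sym2 V)) + (pE (u :: B) : Multiset (Sym2 V)) + {s(ν v, u)} := by
          rw [hAB, pE_append A (u :: B) (ν v) u hAl rfl]
          rw [← Multiset.coe_add, ← Multiset.cons_coe, ← Multiset.singleton_add]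
          abel
        have h4 : (pE L₁ : Multiset (Sym2 V)) =
            (pE A : Multiset (Sym2 V)) + (pE (u :: B) : Multiset (Sym2 V)) + {s(v, u)} := by
          rw [hL₁, pE_append A.reverse (u :: B) v u (by rw [List.getLast?_reverse]; exact hAh) rfl]
          rw [← Multiset.coe_add, ← Multiset.cons_coe, ← Multiset.singleton_add, pE_rev_coe]
          abel
        rw [h3, h4] at h1
        have h5 : (ME W p₁ + {s(ν v, u)}) + ((pE A : Multiset (Sym2 V)) + (pE (u :: B) : Multiset (Sym2 V))) =
            (ME W p + {s(v, u)}) + ((pE A : Multiset (Sym2 V)) + (pE (u :: B) : Multiset (Sym2 V))) := by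
          calc _ = ME W p₁ + ((pE A : Multiset (Sym2 V)) + (pE (u :: B) : Multiset (Sym2 V)) +
                {s(ν v, u)}) := by abel
            _ = _ := h1
            _ = _ := by abel
        exact add_right_cancel h5
      have hEN : ∀ y, ∑ j ∈ W, en (p₁ j) y + (if y = v then 1 else 0) =
          ∑ j ∈ W, en (p j) y + (if y = ν v then 1 else 0) := by
        intro y
        have h1 := en_update hiW p (sd b L₁) y
        rw [← hp₁, en_sd] at h1
        have h2 : en (p i) y = en L y := by rw [hpi, en_sd]
        rw [h2] at h1
        have hA0 : A ≠ [] := by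
          rintro rfl
          simp at hAh
        have h3 : en L y = (if v = y then 1 else 0) +
            (if (u :: B).getLast? = some y then 1 else 0) := by
          unfold en
          rw [hAB, List.head?_append_of_ne_nil _ hA0, hAh,
            List.getLast?_append_of_ne_nil _ (by simp)]
          simp
        have h4 : en L₁ y = (if ν v = y then 1 else 0) +
            (if (u :: B).getLast? = some y then 1 else 0) := by
          unfold en
          rw [hL₁, List.head?_append_of_ne_nil _ (by simpa using hA0), List.head?_reverse, hAl,
            List.getLast?_append_of_ne_nil _ (by simp)]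
          simp
        rw [h3, h4] at h1
        have e1 : (if y = v then 1 else 0) = (if v = y then 1 else 0 : ℕ) := by
          simp only [eq_comm]
        have e2 : (if y = ν v then 1 else 0) = (if ν v = y then 1 else 0 : ℕ) := by
          simp only [eq_comm]
        rw [e1, e2]
        omega
      obtain ⟨p', hp', hM', hE'⟩ := ih (Y.erase v) p₁ (ν v)
        (by rw [Finset.card_erase_of_mem hv, hc]; rfl) hfam₁
        (Finset.mem_erase.2 ⟨hνv, hνY⟩)
        (by
          intro y hy
          obtain ⟨hyv, hyY⟩ := Finset.mem_erase.1 hy
          obtain ⟨hjW, hjhead, hjrec⟩ := hY y hyY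
          refine ⟨hjW, ?_, ?_⟩
          · by_cases hj : (σ y).1 = i
            · -- the other side of the path `i`
              have hbne : (σ y).2 = !b := by
                by_contra h
                have hb' : (σ y).2 = b := by
                  revert h; cases (σ y).2 <;> cases b <;> simp
                rw [hj, hb', ← hL, hhead] at hjhead
                exact hyv (Option.some.inj hjhead).symm
              obtain ⟨⟨A', B', hAB', hAh', hAl'⟩, _, _⟩ := hjrec (by rw [hj]; exact hui)
              rw [hj, hbne, sd_not, ← hL, hAB] at hAB'
              have hnd2 : (A' ++ u :: B').Nodup := by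
                rw [← hAB']
                exact List.nodup_reverse.2 hnd'
              have huA' : u ∉ A' := by
                intro h
                exact (List.nodup_append.1 hnd2).2.2 u h u (by simp) rfl
              have huB : u ∉ B := by
                have := (List.nodup_append.1 hnd').2.1
                exact (List.nodup_cons.1 this).1
              have : B.reverse ++ u :: A.reverse = A' ++ u :: B' := by
                rw [← hAB']
                simp
              obtain ⟨h5, h6⟩ := split_unique this (by simpa using huB) huA'
              have hA'0 : A' ≠ [] := by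
                rintro rfl
                simp at hAh'
              rw [hj, hbne, hp₁, Function.update_self, sd_not, sd_sd, hL₁]
              have : (A.reverse ++ u :: B).reverse = A' ++ u :: A := by
                rw [← h5]; simp
              rw [this, List.head?_append_of_ne_nil _ hA'0]
              exact hAh'
            · rw [hp₁, Function.update_of_ne hj]
              exact hjhead
          · intro huj
            have huj' : u ∈ p (σ y).1 := (hmemu _).1 huj
            obtain ⟨⟨A', B', hAB', hAh', hAl'⟩, hνyY, hνyv⟩ := hjrec huj'
            refine ⟨?_, Finset.mem_erase.2 ⟨hνyv, hνyY⟩, ?_⟩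
            · by_cases hj : (σ y).1 = i
              · have hbne : (σ y).2 = !b := by
                  by_contra h
                  have hb' : (σ y).2 = b := by
                    revert h; cases (σ y).2 <;> cases b <;> simp
                  rw [hj, hb', ← hL, hhead] at hjhead
                  exact hyv (Option.some.inj hjhead).symm
                rw [hj, hbne, sd_not, ← hL, hAB] at hAB'
                have hnd2 : (A' ++ u :: B').Nodup := by
                  rw [← hAB']
                  exact List.nodup_reverse.2 hnd'
                have huA' : u ∉ A' := by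
                  intro h
                  exact (List.nodup_append.1 hnd2).2.2 u h u (by simp) rfl
                have huB : u ∉ B := by
                  have := (List.nodup_append.1 hnd').2.1
                  exact (List.nodup_cons.1 this).1
                have : B.reverse ++ u :: A.reverse = A' ++ u :: B' := by
                  rw [← hAB']
                  simp
                obtain ⟨h5, h6⟩ := split_unique this (by simpa using huB) huA'
                refine ⟨A', A, ?_, hAh', hAl'⟩
                rw [hj, hbne, hp₁, Function.update_self, sd_not, sd_sd, hL₁, ← h5]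
                simp
              · refine ⟨A', B', ?_, hAh', hAl'⟩
                rw [hp₁, Function.update_of_ne hj]
                exact hAB'
            · intro h
              exact hyv (hinj y hyY v hv huj' hui h))
        (by
          intro y hy y' hy' h1 h2 h3
          exact hinj y (Finset.mem_of_mem_erase hy) y' (Finset.mem_of_mem_erase hy')
            ((hmemu _).1 h1) ((hmemu _).1 h2) h3)
      refine ⟨p', hp', ?_, ?_⟩
      · rw [hM']
        have : s(u, ν v) ::ₘ ME W p₁ = ME W p₁ + {s(ν v, u)} := by
          rw [Sym2.eq_swap, ← Multiset.singleton_add, add_comm]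
        rw [this, hME, Sym2.eq_swap, ← Multiset.singleton_add, add_comm]
      · intro y
        have h1 := hE' y
        have h2 := hEN y
        omega
    · -- append `u`
      have huL : u ∉ L := fun h => hui (hLperm.mem_iff.1 h)
      obtain ⟨L', hLL'⟩ : ∃ L', L = v :: L' := by
        cases hLc : L with
        | nil => rw [hLc] at hhead; simp at hhead
        | cons a t =>
          rw [hLc] at hhead
          simp only [List.head?_cons, Option.some.injEq] at hhead
          exact ⟨t, by rw [hhead]⟩
      refine ⟨Function.update p i (sd b (u :: L)), ?_, ?_, ?_⟩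
      · refine fam_update hp ?_ ?_ ?_
        · intro h
          have := (sd_perm b (u :: L)).symm
          rw [h] at this
          have := this.eq_nil
          simp at this
        · rw [(sd_perm b (u :: L)).nodup_iff]
          exact List.nodup_cons.2 ⟨huL, hLnd⟩
        · intro x hx
          rw [(sd_perm b (u :: L)).mem_iff] at hx
          rcases List.mem_cons.1 hx with rfl | hx
          · exact hu
          · exact hLmem x hx
      · have h1 := me_update hiW p (sd b (u :: L))
        rw [pE_sd] at h1
        have h2 : (pE (p i) : Multiset (Sym2 V)) = (pE L : Multiset (Sym2 V)) := by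
          rw [hpi, pE_sd]
        rw [h2] at h1
        have h3 : (pE (u :: L) : Multiset (Sym2 V)) = {s(u, v)} + (pE L : Multiset (Sym2 V)) := by
          rw [hLL']
          simp only [pE]
          rw [← Multiset.cons_coe, Multiset.singleton_add]
        rw [h3, ← add_assoc] at h1
        rw [add_right_cancel h1, ← Multiset.singleton_add, add_comm]
      · intro y
        have h1 := en_update hiW p (sd b (u :: L)) y
        rw [en_sd] at h1
        have h2 : en (p i) y = en L y := by rw [hpi, en_sd]
        rw [h2] at h1
        have h3 : en L y = (if v = y then 1 else 0) + (if L.getLast? = some y then 1 else 0) := by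
          unfold en
          rw [hhead]
          simp
        have h4 : en (u :: L) y = (if u = y then 1 else 0) +
            (if L.getLast? = some y then 1 else 0) := by
          unfold en
          rw [hLL']
          simp
        rw [h3, h4] at h1
        have e1 : (if y = v then 1 else 0) = (if v = y then 1 else 0 : ℕ) := by
          simp only [eq_comm]
        have e2 : (if y = u then 1 else 0) = (if u = y then 1 else 0 : ℕ) := by
          simp only [eq_comm]
        rw [e1, e2]
        omega

/-- TASK EG-Ins: edge insertion lemma. If every vertex `y ≠ u` is an end of some path, then the edge `uv` can be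
inserted, moving one end from `v` to `u`.
Proof: for each `y ≠ u` in `W` choose a path `P(y)` and a side of it (head or last) whose end is `y`. If `u ∈ P(y)`
let `next y` be the vertex just before `u` when walking along `P(y)` from the end `y` (so `{next y, u}` is an edge of
`P(y)`). `next` is injective where defined (edges `{next y, u}` for distinct (path, side) are distinct edges), and `v`
is not in its range since `uv ∉ H`. Hence the orbit `v = y₀, y₁ = next y₀, …` is injective and must stop at some
`y_k` with `u ∉ P(y_k)`. For `t < k` replace, in the path `P(y_t) = A ++ [u] ++ B` (from the end `y_t`), `A` by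
`A.reverse` (this removes the edge `{y_{t+1}, u}` and adds `{y_t, u}`; the end `y_t` becomes `y_{t+1}`); this may be
done on both sides of the same path. Append `u` to `P(y_k)` at the end `y_k`.
(Alternative proof by induction on the length of the orbit / on the set of not yet used ends: generalise the
statement so that only the ends in the orbit are used; or process the orbit from the last element backwards.) -/
theorem insert_edge (W : Finset V) (H : Finset (Sym2 V)) (p : V → List V) (hp : PFam W H p)
    (u v : V) (hu : u ∈ W) (hv : v ∈ W) (huv : u ≠ v) (hH : s(u, v) ∉ H)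
    (hend : ∀ y ∈ W, y ≠ u → 1 ≤ ends W p y) :
    ∃ p' : V → List V, PFam W (insert s(u, v) H) p' ∧
      ∀ y ∈ W, ends W p' y + (if y = v then 1 else 0) = ends W p y + (if y = u then 1 else 0) := by
  classical
  -- choose the sides
  have hside : ∀ y ∈ W, y ≠ u → ∃ q : V × Bool, q.1 ∈ W ∧ (sd q.2 (p q.1)).head? = some y := by
    intro y hy hyu
    have h1 := hend y hy hyu
    unfold ends at h1
    rcases Nat.eq_zero_or_pos (W.filter (fun i => (p i).head? = some y)).card with h0 | h0
    · have h2 : 0 < (W.filter (fun i => (p i).getLast? = some y)).card := by omega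
      obtain ⟨i, hi⟩ := Finset.card_pos.1 h2
      obtain ⟨hiW, hi'⟩ := Finset.mem_filter.1 hi
      exact ⟨(i, false), hiW, by simpa [sd, List.head?_reverse] using hi'⟩
    · obtain ⟨i, hi⟩ := Finset.card_pos.1 h0
      obtain ⟨hiW, hi'⟩ := Finset.mem_filter.1 hi
      exact ⟨(i, true), hiW, by simpa [sd] using hi'⟩
  choose! σ hσW hσh using hside
  have hsplit : ∀ y ∈ W, y ≠ u → u ∈ p (σ y).1 → ∃ z : V, ∃ A B : List V,
      sd (σ y).2 (p (σ y).1) = A ++ u :: B ∧ A.head? = some y ∧ A.getLast? = some z := by
    intro y hy hyu hu'
    have hmem : u ∈ sd (σ y).2 (p (σ y).1) := (sd_perm _ _).mem_iff.2 hu'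
    obtain ⟨A, B, hAB⟩ := List.append_of_mem hmem
    have hA0 : A ≠ [] := by
      rintro rfl
      have := hσh y hy hyu
      rw [hAB] at this
      simp only [List.nil_append, List.head?_cons, Option.some.injEq] at this
      exact hyu this.symm
    refine ⟨A.getLast hA0, A, B, hAB, ?_, List.getLast?_eq_some_getLast hA0⟩
    have := hσh y hy hyu
    rw [hAB, List.head?_append_of_ne_nil _ hA0] at this
    exact this
  choose! ν hν using hsplit
  have hedge : ∀ y ∈ W, y ≠ u → u ∈ p (σ y).1 → s(ν y, u) ∈ pE (p (σ y).1) := by
    intro y hy hyu hu'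
    obtain ⟨A, B, hAB, hAh, hAl⟩ := hν y hy hyu hu'
    have h1 : s(ν y, u) ∈ pE (sd (σ y).2 (p (σ y).1)) := by
      rw [hAB, pE_append A (u :: B) (ν y) u hAl rfl]
      simp
    have h2 : s(ν y, u) ∈ (pE (sd (σ y).2 (p (σ y).1)) : Multiset (Sym2 V)) := h1
    rw [pE_sd] at h2
    exact h2
  have hnd : ∀ y ∈ W, y ≠ u → (sd (σ y).2 (p (σ y).1)).Nodup := fun y hy hyu =>
    (sd_perm _ _).nodup_iff.2 (hp.nodup _ (hσW y hy hyu))
  obtain ⟨p', hp', hM', hE'⟩ := ins_aux W u hu σ ν (W.erase u).card (W.erase u) p v rfl hp.fam
    (Finset.mem_erase.2 ⟨huv.symm, hv⟩)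
    (by
      intro y hy
      obtain ⟨hyu, hyW⟩ := Finset.mem_erase.1 hy
      refine ⟨hσW y hyW hyu, hσh y hyW hyu, fun hu' => ?_⟩
      refine ⟨hν y hyW hyu hu', ?_, ?_⟩
      · obtain ⟨A, B, hAB, hAh, hAl⟩ := hν y hyW hyu hu'
        have hzA : ν y ∈ A := List.mem_of_getLast? hAl
        have hzL : ν y ∈ sd (σ y).2 (p (σ y).1) := by rw [hAB]; simp [hzA]
        refine Finset.mem_erase.2 ⟨?_, hp.mem _ (hσW y hyW hyu) _ ((sd_perm _ _).mem_iff.1 hzL)⟩
        intro h
        have := hnd y hyW hyu
        rw [hAB] at this
        exact (List.nodup_append.1 this).2.2 (ν y) hzA u (by simp) h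
      · intro h
        apply hH
        rw [← hp.cover]
        refine Finset.mem_biUnion.2 ⟨(σ y).1, hσW y hyW hyu, ?_⟩
        have := hedge y hyW hyu hu'
        rw [h, Sym2.eq_swap] at this
        exact List.mem_toFinset.2 this)
    (by
      intro y hy y' hy' h1 h2 h3
      obtain ⟨hyu, hyW⟩ := Finset.mem_erase.1 hy
      obtain ⟨hyu', hyW'⟩ := Finset.mem_erase.1 hy'
      have e1 := hedge y hyW hyu h1
      have e2 := hedge y' hyW' hyu' h2
      rw [← h3] at e2
      have hidx : (σ y).1 = (σ y').1 := by
        by_contra hne
        exact Finset.disjoint_left.1 (hp.disj _ (hσW y hyW hyu) _ (hσW y' hyW' hyu') hne)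
          (List.mem_toFinset.2 e1) (List.mem_toFinset.2 e2)
      obtain ⟨A, B, hAB, hAh, hAl⟩ := hν y hyW hyu h1
      obtain ⟨A', B', hAB', hAh', hAl'⟩ := hν y' hyW' hyu' h2
      have nd := hnd y hyW hyu
      have nd' := hnd y' hyW' hyu'
      rw [hAB] at nd
      rw [hAB'] at nd'
      have huA : u ∉ A := fun h => (List.nodup_append.1 nd).2.2 u h u (by simp) rfl
      have huA' : u ∉ A' := fun h => (List.nodup_append.1 nd').2.2 u h u (by simp) rfl
      by_cases hb : (σ y).2 = (σ y').2
      · rw [hidx, hb, hAB'] at hAB
        obtain ⟨h5, _⟩ := split_unique hAB huA' huA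
        rw [h5] at hAh'
        rw [hAh] at hAh'
        exact Option.some.inj hAh'
      · exfalso
        have hb' : (σ y).2 = !(σ y').2 := by
          revert hb; cases (σ y).2 <;> cases (σ y').2 <;> simp
        rw [hidx, hb', sd_not, hAB'] at hAB
        have huB' : u ∉ B' := by
          have := (List.nodup_append.1 nd').2.1
          exact (List.nodup_cons.1 this).1
        have : B'.reverse ++ u :: A'.reverse = A ++ u :: B := by
          rw [← hAB]
          simp
        obtain ⟨h5, h6⟩ := split_unique this (by simpa using huB') huA
        have hzA : ν y ∈ A := List.mem_of_getLast? hAl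
        have hzA' : ν y' ∈ A' := List.mem_of_getLast? hAl'
        rw [← h3] at hzA'
        have hzB' : ν y ∈ B' := by
          rw [← h5] at hzA
          simpa using hzA
        exact (List.nodup_append.1 nd').2.2 (ν y) hzA' (ν y) (by simp [hzB']) rfl)
  refine ⟨p', PFam.of_me hp' ?_, fun y _ => ?_⟩
  · rw [hM', hp.me, Finset.insert_val_of_notMem hH]
  · rw [ends_eq, ends_eq]
    exact hE' y

end Crest.Agent.EG
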