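import Mathlib

set_option autoImplicit false

open scoped Matrix

namespace Crest.Agent.EG

/-! TASK EG-Khin: matrix Khintchine inequality by trace moments. -/

theorem khin_diag {δ : Type*} [Fintype δ] [DecidableEq δ] (X : Matrix δ δ ℝ) (hX : X.IsSymm) :
    ∃ (U : Matrix δ δ ℝ) (l : δ → ℝ), Uᵀ * U = 1 ∧ U * Uᵀ = 1 ∧
      ∀ k : ℕ, X ^ k = U * Matrix.diagonal (fun i => l i ^ k) * Uᵀ := by
  have hH : X.IsHermitian := by
    rw [Matrix.IsHermitian, Matrix.conjTranspose_eq_transpose_of_trivial]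
    exact hX
  have h1 := hH.spectral_theorem
  rw [Unitary.conjStarAlgAut_apply] at h1
  set U : Matrix δ δ ℝ := (hH.eigenvectorUnitary : Matrix δ δ ℝ) with hU
  have hU1 : Uᵀ * U = 1 := by
    have := Unitary.coe_star_mul_self hH.eigenvectorUnitary
    rwa [Matrix.star_eq_conjTranspose, Matrix.conjTranspose_eq_transpose_of_trivial] at this
  have hU2 : U * Uᵀ = 1 := mul_eq_one_comm.1 hU1
  have h2 : X = U * Matrix.diagonal hH.eigenvalues * Uᵀ := by
    rw [Matrix.star_eq_conjTranspose, Matrix.conjTranspose_eq_transpose_of_trivial] at h1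
    exact h1
  refine ⟨U, hH.eigenvalues, hU1, hU2, fun k => ?_⟩
  induction k with
  | zero => simp [hU2]
  | succ k ih =>
    rw [pow_succ, ih]
    have : U * Matrix.diagonal (fun i => hH.eigenvalues i ^ k) * Uᵀ *
        (U * Matrix.diagonal hH.eigenvalues * Uᵀ) =
        U * (Matrix.diagonal (fun i => hH.eigenvalues i ^ k) * (Uᵀ * U) *
          Matrix.diagonal hH.eigenvalues) * Uᵀ := by
      simp only [Matrix.mul_assoc]
    calc U * Matrix.diagonal (fun i => hH.eigenvalues i ^ k) * Uᵀ * X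
        = U * Matrix.diagonal (fun i => hH.eigenvalues i ^ k) * Uᵀ *
        (U * Matrix.diagonal hH.eigenvalues * Uᵀ) := by rw [← h2]
      _ = _ := by
        rw [this, hU1, Matrix.mul_one, Matrix.diagonal_mul_diagonal]
        simp only [pow_succ]

theorem khin_scalar (x y : ℝ) (m : ℕ) :
    ∑ a ∈ Finset.range (2 * m + 1), x ^ a * y ^ (2 * m - a) ≤
      (2 * m + 1) / 2 * (x ^ (2 * m) + y ^ (2 * m)) := by
  have hrev : ∑ a ∈ Finset.range (2 * m + 1), x ^ a * y ^ (2 * m - a) =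
      ∑ a ∈ Finset.range (2 * m + 1), x ^ (2 * m - a) * y ^ a := by
    rw [← Finset.sum_range_reflect]
    refine Finset.sum_congr rfl fun a ha => ?_
    have : a ≤ 2 * m := by
      have := Finset.mem_range.1 ha
      omega
    rw [show 2 * m + 1 - 1 - a = 2 * m - a by omega, show 2 * m - (2 * m - a) = a by omega]
  have hterm : ∀ a ∈ Finset.range (2 * m + 1),
      x ^ a * y ^ (2 * m - a) + x ^ (2 * m - a) * y ^ a ≤ x ^ (2 * m) + y ^ (2 * m) := by
    intro a ha
    have ha2 : a ≤ 2 * m := by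
      have := Finset.mem_range.1 ha
      omega
    obtain ⟨b, hb⟩ := Nat.exists_eq_add_of_le ha2
    have hb2 : 2 * m - a = b := by omega
    rw [hb2]
    have e1 : x ^ a * y ^ b ≤ |x| ^ a * |y| ^ b := by
      rw [← abs_pow, ← abs_pow, ← abs_mul]
      exact le_abs_self _
    have e2 : x ^ b * y ^ a ≤ |x| ^ b * |y| ^ a := by
      rw [← abs_pow, ← abs_pow, ← abs_mul]
      exact le_abs_self _
    have e3 : x ^ (2 * m) = |x| ^ a * |x| ^ b := by
      rw [← pow_add, ← hb, pow_mul, pow_mul, sq_abs]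
    have e4 : y ^ (2 * m) = |y| ^ a * |y| ^ b := by
      rw [← pow_add, ← hb, pow_mul, pow_mul, sq_abs]
    have e5 : 0 ≤ (|x| ^ a - |y| ^ a) * (|x| ^ b - |y| ^ b) := by
      rcases le_total |x| |y| with h | h
      · have h1 := pow_le_pow_left₀ (abs_nonneg x) h a
        have h2 := pow_le_pow_left₀ (abs_nonneg x) h b
        nlinarith
      · have h1 := pow_le_pow_left₀ (abs_nonneg y) h a
        have h2 := pow_le_pow_left₀ (abs_nonneg y) h b
        nlinarith
    rw [e3, e4]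
    nlinarith
  have h2 := Finset.sum_le_sum hterm
  rw [Finset.sum_add_distrib, ← hrev, Finset.sum_const, Finset.card_range, nsmul_eq_mul] at h2
  push_cast at h2
  linarith

/-- `tr (A X^a A Y^b)` averaged over `a + b = 2m` is at most the average of `tr (A² X^{2m})`, `tr (A² Y^{2m})`.
(Diagonalise `X = U diag(λ) Uᵀ`, `Y = W diag(μ) Wᵀ`, `C = Uᵀ A W`: `tr (A X^a A Y^b) = Σ_{ij} C_{ij}² λ_i^a μ_j^b`, and
`Σ_a |λ|^a |μ|^b ≤ (2m+1)/2 (λ^{2m} + μ^{2m})` termwise by weighted AM-GM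
`|λ|^a |μ|^b ≤ (a/2m) λ^{2m} + (b/2m) μ^{2m}`.) -/
theorem trace_young {δ : Type*} [Fintype δ] [DecidableEq δ] (A X Y : Matrix δ δ ℝ)
    (hA : A.IsSymm) (hX : X.IsSymm) (hY : Y.IsSymm) (m : ℕ) :
    ∑ a ∈ Finset.range (2 * m + 1), (A * X ^ a * A * Y ^ (2 * m - a)).trace ≤
      (2 * m + 1) / 2 * ((A * A * X ^ (2 * m)).trace + (A * A * Y ^ (2 * m)).trace) := by
  obtain ⟨U, l, hU1, hU2, hXk⟩ := khin_diag X hX
  obtain ⟨W, r, hW1, hW2, hYk⟩ := khin_diag Y hY
  set C : Matrix δ δ ℝ := Uᵀ * A * W with hC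
  have hCt : Cᵀ = Wᵀ * A * U := by
    rw [hC, Matrix.transpose_mul, Matrix.transpose_mul, Matrix.transpose_transpose, hA.eq,
      Matrix.mul_assoc]
  have key : ∀ a b : ℕ, (A * X ^ a * A * Y ^ b).trace = ∑ i, ∑ j, C i j ^ 2 * (l i ^ a * r j ^ b) := by
    intro a b
    have h1 : (A * X ^ a * A * Y ^ b).trace =
        (Matrix.diagonal (fun i => l i ^ a) * C * (Matrix.diagonal (fun j => r j ^ b) * Cᵀ)).trace := by
      rw [hXk, hYk, hCt, hC]
      rw [show A * (U * Matrix.diagonal (fun i => l i ^ a) * Uᵀ) * A *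
        (W * Matrix.diagonal (fun i => r i ^ b) * Wᵀ) =
        (A * U) * (Matrix.diagonal (fun i => l i ^ a) * (Uᵀ * A * W) *
          (Matrix.diagonal (fun i => r i ^ b) * Wᵀ)) by simp only [Matrix.mul_assoc]]
      rw [Matrix.trace_mul_comm]
      simp only [Matrix.mul_assoc]
    rw [h1, Matrix.trace]
    refine Finset.sum_congr rfl fun i _ => ?_
    rw [Matrix.diag_apply, Matrix.mul_apply]
    refine Finset.sum_congr rfl fun j _ => ?_
    rw [Matrix.diagonal_mul, Matrix.diagonal_mul, Matrix.transpose_apply]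
    ring
  have hX2 : (A * A * X ^ (2 * m)).trace = ∑ i, ∑ j, C i j ^ 2 * l i ^ (2 * m) := by
    have h1 := key (2 * m) 0
    rw [pow_zero, Matrix.mul_one] at h1
    rw [Matrix.mul_assoc, Matrix.trace_mul_comm, h1]
    simp
  have hY2 : (A * A * Y ^ (2 * m)).trace = ∑ i, ∑ j, C i j ^ 2 * r j ^ (2 * m) := by
    have h1 := key 0 (2 * m)
    rw [pow_zero, Matrix.mul_one] at h1
    rw [h1]
    simp
  rw [hX2, hY2]
  simp only [key]
  rw [Finset.sum_comm, ← Finset.sum_add_distrib, Finset.mul_sum]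
  refine Finset.sum_le_sum fun i _ => ?_
  rw [Finset.sum_comm, ← Finset.sum_add_distrib, Finset.mul_sum]
  refine Finset.sum_le_sum fun j _ => ?_
  rw [← Finset.mul_sum]
  have h1 := mul_le_mul_of_nonneg_left (khin_scalar (l i) (r j) m) (sq_nonneg (C i j))
  linarith

theorem khin_tele {R : Type*} [Ring R] (x y : R) (n : ℕ) :
    x ^ n - y ^ n = ∑ a ∈ Finset.range n, x ^ a * (x - y) * y ^ (n - 1 - a) := by
  have h := Finset.sum_range_sub (fun a => x ^ a * y ^ (n - a)) n
  simp only [Nat.sub_self, pow_zero, mul_one, Nat.sub_zero, one_mul] at h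
  rw [← h]
  refine Finset.sum_congr rfl fun a ha => ?_
  have ha' := Finset.mem_range.1 ha
  obtain ⟨c, hc⟩ := Nat.exists_eq_add_of_lt ha'
  have e1 : n - (a + 1) = c := by omega
  have e2 : n - a = c + 1 := by omega
  have e3 : n - 1 - a = c := by omega
  rw [e1, e2, e3, pow_succ x a, pow_succ' y c]
  noncomm_ring

/-- Matrix Khintchine. Induction on `m`: with `X_ε = Σ ε_z A_z` and, for fixed `z`, `X_± =` the same with `ε_z = ±1`,
`E tr X^{2m+2} = Σ_z E ½ tr (A_z (X_+^{2m+1} - X_-^{2m+1}))`, `X_+^{k} - X_-^{k} = Σ_{a+b=k-1} X_+^a (2 A_z) X_-^b`, `trace_young`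
gives `E tr X^{2m+2} ≤ (2m+1) E tr ((Σ A_z²) X^{2m}) ≤ (2m+1) v E tr X^{2m}` (`X^{2m}` is PSD). -/
theorem khintchine {ι δ : Type*} [Fintype ι] [DecidableEq ι] [Fintype δ] [DecidableEq δ]
    (A : ι → Matrix δ δ ℝ) (hA : ∀ z, (A z).IsSymm) (v : ℝ) (hv0 : 0 ≤ v)
    (hv : ∀ h : δ → ℝ, ∑ z, (A z).mulVec h ⬝ᵥ (A z).mulVec h ≤ v * ∑ d, h d ^ 2) (m : ℕ) :
    ∑ ε : ι → Bool, ((∑ z, (if ε z then (1 : ℝ) else -1) • A z) ^ (2 * m)).trace ≤
      2 ^ Fintype.card ι * ((2 * m : ℝ) ^ m * v ^ m * Fintype.card δ) := by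
  set X : (ι → Bool) → Matrix δ δ ℝ := fun ε => ∑ z, (if ε z then (1 : ℝ) else -1) • A z with hXdef
  change ∑ ε : ι → Bool, ((X ε) ^ (2 * m)).trace ≤ _
  have hXs : ∀ ε, (X ε).IsSymm := by
    intro ε
    rw [Matrix.IsSymm, hXdef]
    simp only
    rw [Matrix.transpose_sum]
    refine Finset.sum_congr rfl fun z _ => ?_
    rw [Matrix.transpose_smul, (hA z).eq]
  -- flips
  let τ : ι → (ι → Bool) → (ι → Bool) := fun z ε => Function.update ε z (!ε z)
  have hττ : ∀ z ε, τ z (τ z ε) = ε := by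
    intro z ε
    ext w
    by_cases hw : w = z
    · subst hw; simp [τ]
    · simp [τ, hw]
  let sg : (ι → Bool) → ι → ℝ := fun ε z => if ε z then (1 : ℝ) else -1
  have hsgτ : ∀ z ε, sg (τ z ε) z = - sg ε z := by
    intro z ε
    by_cases h : ε z <;> simp [sg, τ, h]
  have hsg2 : ∀ ε z, sg ε z * sg ε z = 1 := by
    intro ε z
    by_cases h : ε z <;> simp [sg, h]
  have hdiff : ∀ z ε, X ε - X (τ z ε) = (2 * sg ε z) • A z := by
    intro z ε
    have : X ε - X (τ z ε) = ∑ w, (sg ε w - sg (τ z ε) w) • A w := by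
      simp only [hXdef, sg]
      rw [← Finset.sum_sub_distrib]
      refine Finset.sum_congr rfl fun w _ => ?_
      rw [sub_smul]
    rw [this, Finset.sum_eq_single z]
    · rw [hsgτ]; congr 1; ring
    · intro w _ hw
      have : sg (τ z ε) w = sg ε w := by simp [sg, τ, hw]
      rw [this, sub_self, zero_smul]
    · intro h; exact absurd (Finset.mem_univ _) h
  have hflip : ∀ z (f : (ι → Bool) → ℝ), ∑ ε, f (τ z ε) = ∑ ε, f ε := by
    intro z f
    exact Equiv.sum_comp (⟨τ z, τ z, hττ z, hττ z⟩ : (ι → Bool) ≃ (ι → Bool)) f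
  -- PSD bound
  have hpsd : ∀ (Z : Matrix δ δ ℝ), Z.IsSymm → ∀ k : ℕ,
      ∑ z, (A z * A z * Z ^ (2 * k)).trace ≤ v * (Z ^ (2 * k)).trace := by
    intro Z hZ k
    have hZk : (Z ^ k)ᵀ = Z ^ k := by rw [Matrix.transpose_pow, hZ.eq]
    have h1 : ∀ z, (A z * A z * Z ^ (2 * k)).trace =
        ∑ d, (A z).mulVec (fun c => (Z ^ k) c d) ⬝ᵥ (A z).mulVec (fun c => (Z ^ k) c d) := by
      intro z
      have : (A z * A z * Z ^ (2 * k)).trace = ((A z * Z ^ k)ᵀ * (A z * Z ^ k)).trace := by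
        rw [Matrix.transpose_mul, hZk, (hA z).eq, two_mul, pow_add]
        rw [show A z * A z * (Z ^ k * Z ^ k) = (A z * A z * Z ^ k) * Z ^ k by
          simp only [Matrix.mul_assoc]]
        rw [Matrix.trace_mul_comm]
        simp only [Matrix.mul_assoc]
      rw [this, Matrix.trace]
      refine Finset.sum_congr rfl fun d _ => ?_
      rw [Matrix.diag_apply, Matrix.mul_apply]
      rfl
    have h2 : (Z ^ (2 * k)).trace = ∑ d, ∑ c, ((Z ^ k) c d) ^ 2 := by
      have : Z ^ (2 * k) = (Z ^ k)ᵀ * Z ^ k := by rw [hZk, two_mul, pow_add]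
      rw [this, Matrix.trace]
      refine Finset.sum_congr rfl fun d _ => ?_
      rw [Matrix.diag_apply, Matrix.mul_apply]
      refine Finset.sum_congr rfl fun c _ => ?_
      rw [Matrix.transpose_apply]; ring
    rw [h2, Finset.mul_sum]
    simp only [h1]
    rw [Finset.sum_comm]
    exact Finset.sum_le_sum fun d _ => hv _
  -- the recursion
  have hrec : ∀ k : ℕ, ∑ ε, ((X ε) ^ (2 * (k + 1))).trace ≤
      (2 * k + 1) * v * ∑ ε, ((X ε) ^ (2 * k)).trace := by
    intro k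
    have hexp : ∀ ε, ((X ε) ^ (2 * (k + 1))).trace =
        ∑ z, sg ε z * (A z * (X ε) ^ (2 * k + 1)).trace := by
      intro ε
      rw [show 2 * (k + 1) = (2 * k + 1) + 1 by ring, pow_succ']
      nth_rw 1 [hXdef]
      simp only
      rw [Finset.sum_mul, Matrix.trace_sum]
      refine Finset.sum_congr rfl fun z _ => ?_
      rw [Matrix.smul_mul, Matrix.trace_smul, smul_eq_mul]
    have hz : ∀ z, ∑ ε, sg ε z * (A z * (X ε) ^ (2 * k + 1)).trace ≤
        (2 * k + 1) * ∑ ε, (A z * A z * (X ε) ^ (2 * k)).trace := by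
      intro z
      have h1 : ∑ ε, sg ε z * (A z * (X ε) ^ (2 * k + 1)).trace =
          - ∑ ε, sg ε z * (A z * (X (τ z ε)) ^ (2 * k + 1)).trace := by
        rw [← hflip z, ← Finset.sum_neg_distrib]
        refine Finset.sum_congr rfl fun ε _ => ?_
        rw [hsgτ]; ring
      have h2 : ∑ ε, sg ε z * (A z * (X ε) ^ (2 * k + 1)).trace =
          1 / 2 * ∑ ε, sg ε z * (A z * ((X ε) ^ (2 * k + 1) - (X (τ z ε)) ^ (2 * k + 1))).trace := by
        have : ∑ ε, sg ε z * (A z * ((X ε) ^ (2 * k + 1) - (X (τ z ε)) ^ (2 * k + 1))).trace =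
            ∑ ε, sg ε z * (A z * (X ε) ^ (2 * k + 1)).trace -
            ∑ ε, sg ε z * (A z * (X (τ z ε)) ^ (2 * k + 1)).trace := by
          rw [← Finset.sum_sub_distrib]
          refine Finset.sum_congr rfl fun ε _ => ?_
          rw [Matrix.mul_sub, Matrix.trace_sub]; ring
        rw [this]; linarith
      have h3 : ∀ ε, 1 / 2 * (sg ε z * (A z * ((X ε) ^ (2 * k + 1) -
          (X (τ z ε)) ^ (2 * k + 1))).trace) =
          ∑ a ∈ Finset.range (2 * k + 1),
            (A z * (X ε) ^ a * A z * (X (τ z ε)) ^ (2 * k - a)).trace := by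
        intro ε
        rw [khin_tele, Finset.mul_sum, Matrix.trace_sum, Finset.mul_sum, Finset.mul_sum]
        refine Finset.sum_congr rfl fun a _ => ?_
        rw [hdiff, Matrix.mul_smul, Matrix.smul_mul, Matrix.mul_smul, Matrix.trace_smul,
          smul_eq_mul]
        have e1 : 2 * k + 1 - 1 - a = 2 * k - a := by omega
        rw [e1]
        have e2 : A z * (X ε ^ a * A z * X (τ z ε) ^ (2 * k - a)) =
          A z * X ε ^ a * A z * X (τ z ε) ^ (2 * k - a) := by simp only [Matrix.mul_assoc]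
        rw [e2]
        have e3 := hsg2 ε z
        linear_combination (A z * X ε ^ a * A z * X (τ z ε) ^ (2 * k - a)).trace * e3
      rw [h2, Finset.mul_sum]
      simp only [h3]
      calc ∑ ε, ∑ a ∈ Finset.range (2 * k + 1),
            (A z * (X ε) ^ a * A z * (X (τ z ε)) ^ (2 * k - a)).trace
          ≤ ∑ ε, (2 * k + 1) / 2 * ((A z * A z * (X ε) ^ (2 * k)).trace +
            (A z * A z * (X (τ z ε)) ^ (2 * k)).trace) :=
            Finset.sum_le_sum fun ε _ => trace_young _ _ _ (hA z) (hXs _) (hXs _) k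
        _ = (2 * k + 1) * ∑ ε, (A z * A z * (X ε) ^ (2 * k)).trace := by
            rw [← Finset.mul_sum, Finset.sum_add_distrib,
              hflip z (fun ε => (A z * A z * (X ε) ^ (2 * k)).trace)]
            ring
    simp only [hexp]
    rw [Finset.sum_comm]
    calc ∑ z, ∑ ε, sg ε z * (A z * (X ε) ^ (2 * k + 1)).trace
        ≤ ∑ z, (2 * k + 1) * ∑ ε, (A z * A z * (X ε) ^ (2 * k)).trace :=
          Finset.sum_le_sum fun z _ => hz z
      _ = (2 * k + 1) * ∑ ε, ∑ z, (A z * A z * (X ε) ^ (2 * k)).trace := by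
          rw [← Finset.mul_sum, Finset.sum_comm]
      _ ≤ (2 * k + 1) * ∑ ε, v * ((X ε) ^ (2 * k)).trace := by
          refine mul_le_mul_of_nonneg_left ?_ (by positivity)
          exact Finset.sum_le_sum fun ε _ => hpsd _ (hXs ε) k
      _ = (2 * k + 1) * v * ∑ ε, ((X ε) ^ (2 * k)).trace := by
          rw [← Finset.mul_sum]; ring
  induction m with
  | zero =>
    simp
  | succ m ih =>
    refine (hrec m).trans ?_
    have h1 : (2 * m + 1 : ℝ) * v * ∑ ε, ((X ε) ^ (2 * m)).trace ≤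
        (2 * m + 1 : ℝ) * v * (2 ^ Fintype.card ι * ((2 * m : ℝ) ^ m * v ^ m * Fintype.card δ)) :=
      mul_le_mul_of_nonneg_left ih (by positivity)
    refine h1.trans ?_
    have h2 : (2 * m + 1 : ℝ) * (2 * m : ℝ) ^ m ≤ (2 * ((m + 1 : ℕ) : ℝ)) ^ (m + 1) := by
      rw [pow_succ']
      push_cast
      refine mul_le_mul (by linarith) (pow_le_pow_left₀ (by positivity) (by linarith) _)
        (by positivity) (by positivity)
    calc (2 * m + 1 : ℝ) * v * (2 ^ Fintype.card ι * ((2 * m : ℝ) ^ m * v ^ m * Fintype.card δ))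
        = ((2 * m + 1 : ℝ) * (2 * m : ℝ) ^ m) * (2 ^ Fintype.card ι * (v ^ (m + 1) * Fintype.card δ)) := by
          ring
      _ ≤ (2 * ((m + 1 : ℕ) : ℝ)) ^ (m + 1) * (2 ^ Fintype.card ι * (v ^ (m + 1) * Fintype.card δ)) :=
          mul_le_mul_of_nonneg_right h2 (by positivity)
      _ = _ := by ring

end Crest.Agent.EG
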