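import Crest.Agent.EG_Spec

set_option autoImplicit false

namespace Crest.Agent.EG

/-! TASK EG-StarB: norm bounds for the star forms. `g = avg G T h`, `g(z)² ≤ (2N/deg z) Σ_{v ∈ T, v~z} h(v)²` by Cauchy-Schwarz and
`hdeg`. -/

open Classical in
theorem starB_deg_avg {ι : Type*} [Fintype ι] (G : SimpleGraph ι) (N : ℕ) (T : Finset ι)
    (hdeg : ∀ z, (dgr G Finset.univ z : ℝ) ≤ 2 * N * dgr G T z) (h : ι → ℝ) (z : ι) :
    (dgr G Finset.univ z : ℝ) * avg G T h z ^ 2
      ≤ 2 * N * ∑ v ∈ T.filter (fun v => G.Adj z v), h v ^ 2 := by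
  have hS : 0 ≤ ∑ v ∈ T.filter (fun v => G.Adj z v), h v ^ 2 :=
    Finset.sum_nonneg fun _ _ => sq_nonneg _
  rcases Nat.eq_zero_or_pos (dgr G T z) with h0 | hpos
  · have : avg G T h z = 0 := by
      unfold avg
      rw [h0]
      simp
    rw [this]
    simp only [ne_eq, OfNat.ofNat_ne_zero, not_false_eq_true, zero_pow, mul_zero]
    positivity
  · have hd : (0 : ℝ) < dgr G T z := by exact_mod_cast hpos
    have hcs : (∑ v ∈ T.filter (fun v => G.Adj z v), h v) ^ 2
        ≤ (dgr G T z : ℝ) * ∑ v ∈ T.filter (fun v => G.Adj z v), h v ^ 2 := by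
      have := sq_sum_le_card_mul_sum_sq (s := T.filter (fun v => G.Adj z v)) (f := h)
      simpa [dgr] using this
    have hav : (dgr G T z : ℝ) * avg G T h z ^ 2 ≤ ∑ v ∈ T.filter (fun v => G.Adj z v), h v ^ 2 := by
      unfold avg
      rw [div_pow, mul_div_assoc', div_le_iff₀ (by positivity)]
      calc (dgr G T z : ℝ) * (∑ v ∈ T.filter (fun v => G.Adj z v), h v) ^ 2
          ≤ (dgr G T z : ℝ) * ((dgr G T z : ℝ) * ∑ v ∈ T.filter (fun v => G.Adj z v), h v ^ 2) := by
            gcongr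
        _ = (∑ v ∈ T.filter (fun v => G.Adj z v), h v ^ 2) * (dgr G T z : ℝ) ^ 2 := by ring
    calc (dgr G Finset.univ z : ℝ) * avg G T h z ^ 2
        ≤ (2 * N * dgr G T z) * avg G T h z ^ 2 := by
          gcongr
          exact hdeg z
      _ = 2 * N * ((dgr G T z : ℝ) * avg G T h z ^ 2) := by ring
      _ ≤ 2 * N * ∑ v ∈ T.filter (fun v => G.Adj z v), h v ^ 2 := by gcongr

open Classical in
theorem starB_swap {ι : Type*} [Fintype ι] (G : SimpleGraph ι) (T : Finset ι) (U : Finset ι)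
    (h : ι → ℝ) :
    ∑ z ∈ U, ∑ v ∈ T.filter (fun v => G.Adj z v), h v ^ 2
      = ∑ v ∈ T, (dgr G U v : ℝ) * h v ^ 2 := by
  calc ∑ z ∈ U, ∑ v ∈ T.filter (fun v => G.Adj z v), h v ^ 2
      = ∑ z ∈ U, ∑ v ∈ T, if G.Adj z v then h v ^ 2 else 0 := by
        refine Finset.sum_congr rfl fun z _ => ?_
        rw [Finset.sum_filter]
    _ = ∑ v ∈ T, ∑ z ∈ U, if G.Adj z v then h v ^ 2 else 0 := Finset.sum_comm
    _ = ∑ v ∈ T, (dgr G U v : ℝ) * h v ^ 2 := by
        refine Finset.sum_congr rfl fun v _ => ?_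
        rw [← Finset.sum_filter, Finset.sum_const, nsmul_eq_mul]
        congr 2
        unfold dgr
        congr 1
        ext u
        simp [G.adj_comm]

theorem starB_dgr_mono {ι : Type*} [Fintype ι] (G : SimpleGraph ι) (U : Finset ι) (v : ι) :
    dgr G U v ≤ dgr G Finset.univ v := by
  classical
  unfold dgr
  exact Finset.card_le_card (Finset.filter_subset_filter _ (Finset.subset_univ _))

/-- `Star_z(g) ≤ 2 deg(z) g(z)² + 2 Σ_{z'~z} g(z')²`; first term `≤ 4N Σ_{v∈T,v~z} h² ≤ (4N/s) Σ_T w h²`; second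
`≤ 4N Σ_{v∈T} h(v)² Σ_{z' ~ z, z' ~ v} 1/deg z' ≤ 4N Σ_{v ∈ T} h(v)² deg(v)/s ≤ (4N/(φ s)) Σ_T w h²`. -/
theorem star_bound {ι : Type*} [Fintype ι] [DecidableEq ι] (G : SimpleGraph ι) (w : ι → ℝ) (s φ : ℝ)
    (hub : SHub G w s φ) (hs : 0 < s) (hφ : 0 < φ) (hφ1 : φ ≤ 1) (N : ℕ) (hN : 1 ≤ N) (T : Finset ι)
    (hdeg : ∀ z, (dgr G Finset.univ z : ℝ) ≤ 2 * N * dgr G T z) (h : ι → ℝ) (z : ι) :
    enn G {z} Finset.univ (avg G T h) ≤ 8 * N / (φ * s) * ∑ v ∈ T, w v * h v ^ 2 := by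
  classical
  set g := avg G T h with hg
  have hw : ∀ v, 0 < w v := fun v => hs.trans_le (hub.w_ge v)
  set Q := ∑ v ∈ T, w v * h v ^ 2 with hQ
  have hQ0 : 0 ≤ Q := Finset.sum_nonneg fun v _ => mul_nonneg (hw v).le (sq_nonneg _)
  have hstar : enn G {z} Finset.univ g
      ≤ 2 * ((dgr G Finset.univ z : ℝ) * g z ^ 2)
        + 2 * ∑ v ∈ Finset.univ.filter (fun v => G.Adj z v), g v ^ 2 := by
    unfold enn
    rw [Finset.sum_singleton]
    calc ∑ v ∈ Finset.univ.filter (fun v => G.Adj z v), (g z - g v) ^ 2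
        ≤ ∑ v ∈ Finset.univ.filter (fun v => G.Adj z v), (2 * g z ^ 2 + 2 * g v ^ 2) := by
          refine Finset.sum_le_sum fun v _ => ?_
          nlinarith [sq_nonneg (g z + g v)]
      _ = _ := by
          rw [Finset.sum_add_distrib, Finset.sum_const, nsmul_eq_mul, ← Finset.mul_sum]
          simp only [dgr]
          ring
  -- first term
  have h1 : (dgr G Finset.univ z : ℝ) * g z ^ 2 ≤ 2 * N * (Q / (φ * s)) := by
    have h2 := starB_deg_avg G N T hdeg h z
    refine h2.trans ?_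
    have h3 : ∑ v ∈ T.filter (fun v => G.Adj z v), h v ^ 2 ≤ Q / (φ * s) := by
      rw [le_div_iff₀ (by positivity), hQ, Finset.sum_mul]
      calc ∑ v ∈ T.filter (fun v => G.Adj z v), h v ^ 2 * (φ * s)
          ≤ ∑ v ∈ T, h v ^ 2 * (φ * s) := by
            refine Finset.sum_le_sum_of_subset_of_nonneg (Finset.filter_subset _ _) ?_
            intro v _ _
            positivity
        _ ≤ ∑ v ∈ T, w v * h v ^ 2 := by
            refine Finset.sum_le_sum fun v _ => ?_
            have : φ * s ≤ w v := by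
              calc φ * s ≤ 1 * s := by gcongr
                _ = s := one_mul s
                _ ≤ w v := hub.w_ge v
            calc h v ^ 2 * (φ * s) ≤ h v ^ 2 * w v := by gcongr
              _ = w v * h v ^ 2 := by ring
    gcongr
  -- second term
  have h2 : ∑ v ∈ Finset.univ.filter (fun v => G.Adj z v), g v ^ 2 ≤ 2 * N * (Q / (φ * s)) := by
    have h3 : ∀ v, g v ^ 2 ≤ 2 * N / s * ∑ u ∈ T.filter (fun u => G.Adj v u), h u ^ 2 := by
      intro v
      have h4 := starB_deg_avg G N T hdeg h v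
      have h5 : s ≤ (dgr G Finset.univ v : ℝ) := (hub.w_ge v).trans (hub.w_le v)
      have h6 : s * g v ^ 2 ≤ 2 * N * ∑ u ∈ T.filter (fun u => G.Adj v u), h u ^ 2 :=
        (mul_le_mul_of_nonneg_right h5 (sq_nonneg _)).trans h4
      rw [div_mul_eq_mul_div, le_div_iff₀ hs]
      linarith
    calc ∑ v ∈ Finset.univ.filter (fun v => G.Adj z v), g v ^ 2
        ≤ ∑ v ∈ Finset.univ.filter (fun v => G.Adj z v),
            2 * N / s * ∑ u ∈ T.filter (fun u => G.Adj v u), h u ^ 2 :=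
          Finset.sum_le_sum fun v _ => h3 v
      _ = 2 * N / s * ∑ u ∈ T, (dgr G (Finset.univ.filter (fun v => G.Adj z v)) u : ℝ) * h u ^ 2 := by
          rw [← Finset.mul_sum, starB_swap]
      _ ≤ 2 * N / s * ∑ u ∈ T, (1 / φ) * (w u * h u ^ 2) := by
          have : ∀ u, (dgr G (Finset.univ.filter (fun v => G.Adj z v)) u : ℝ) * h u ^ 2
              ≤ (1 / φ) * (w u * h u ^ 2) := by
            intro u
            have h7 : (dgr G (Finset.univ.filter (fun v => G.Adj z v)) u : ℝ)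
                ≤ (dgr G Finset.univ u : ℝ) := by
              exact_mod_cast starB_dgr_mono G _ u
            have h8 : (dgr G Finset.univ u : ℝ) ≤ w u / φ := by
              rw [le_div_iff₀ hφ]
              linarith [hub.w_deg u]
            calc (dgr G (Finset.univ.filter (fun v => G.Adj z v)) u : ℝ) * h u ^ 2
                ≤ (w u / φ) * h u ^ 2 := by
                  gcongr
                  exact h7.trans h8
              _ = (1 / φ) * (w u * h u ^ 2) := by ring
          exact mul_le_mul_of_nonneg_left (Finset.sum_le_sum fun u _ => this u) (by positivity)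
      _ = 2 * N * (Q / (φ * s)) := by
          rw [← Finset.mul_sum, ← hQ]
          field_simp
  calc enn G {z} Finset.univ g
      ≤ 2 * (2 * N * (Q / (φ * s))) + 2 * (2 * N * (Q / (φ * s))) := by
        refine hstar.trans ?_
        gcongr
    _ = 8 * N / (φ * s) * Q := by ring

/-- `Σ_z Star_z(g) ≤ 4 Σ_z deg(z) g(z)² ≤ 8N Σ_{v∈T} deg(v) h(v)² ≤ (8N/φ) Σ_T w h²` -/
theorem star_sum {ι : Type*} [Fintype ι] [DecidableEq ι] (G : SimpleGraph ι) (w : ι → ℝ) (s φ : ℝ)
    (hub : SHub G w s φ) (hs : 0 < s) (hφ : 0 < φ) (hφ1 : φ ≤ 1) (N : ℕ) (hN : 1 ≤ N) (T : Finset ι)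
    (hdeg : ∀ z, (dgr G Finset.univ z : ℝ) ≤ 2 * N * dgr G T z) (h : ι → ℝ) :
    enn G Finset.univ Finset.univ (avg G T h) ≤ 8 * N / φ * ∑ v ∈ T, w v * h v ^ 2 := by
  classical
  set g := avg G T h with hg
  have hw : ∀ v, 0 < w v := fun v => hs.trans_le (hub.w_ge v)
  set Q := ∑ v ∈ T, w v * h v ^ 2 with hQ
  have h1 : enn G Finset.univ Finset.univ g
      ≤ 4 * ∑ z, (dgr G Finset.univ z : ℝ) * g z ^ 2 := by
    unfold enn
    calc ∑ z, ∑ v ∈ Finset.univ.filter (fun v => G.Adj z v), (g z - g v) ^ 2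
        ≤ ∑ z, ∑ v ∈ Finset.univ.filter (fun v => G.Adj z v), (2 * g z ^ 2 + 2 * g v ^ 2) := by
          refine Finset.sum_le_sum fun z _ => Finset.sum_le_sum fun v _ => ?_
          nlinarith [sq_nonneg (g z + g v)]
      _ = ∑ z, (2 * ((dgr G Finset.univ z : ℝ) * g z ^ 2))
          + 2 * ∑ z, ∑ v ∈ Finset.univ.filter (fun v => G.Adj z v), g v ^ 2 := by
          rw [Finset.mul_sum, ← Finset.sum_add_distrib]
          refine Finset.sum_congr rfl fun z _ => ?_
          rw [Finset.sum_add_distrib, Finset.sum_const, nsmul_eq_mul, ← Finset.mul_sum]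
          simp only [dgr]
          ring
      _ = 4 * ∑ z, (dgr G Finset.univ z : ℝ) * g z ^ 2 := by
          rw [starB_swap, ← Finset.mul_sum]
          ring
  have h2 : ∑ z, (dgr G Finset.univ z : ℝ) * g z ^ 2 ≤ 2 * N * (Q / φ) := by
    calc ∑ z, (dgr G Finset.univ z : ℝ) * g z ^ 2
        ≤ ∑ z, 2 * N * ∑ v ∈ T.filter (fun v => G.Adj z v), h v ^ 2 :=
          Finset.sum_le_sum fun z _ => starB_deg_avg G N T hdeg h z
      _ = 2 * N * ∑ v ∈ T, (dgr G Finset.univ v : ℝ) * h v ^ 2 := by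
          rw [← Finset.mul_sum, starB_swap]
      _ ≤ 2 * N * (Q / φ) := by
          have : ∑ v ∈ T, (dgr G Finset.univ v : ℝ) * h v ^ 2 ≤ Q / φ := by
            rw [le_div_iff₀ hφ, hQ, Finset.sum_mul]
            refine Finset.sum_le_sum fun v _ => ?_
            have := mul_le_mul_of_nonneg_right (hub.w_deg v) (sq_nonneg (h v))
            linarith
          gcongr
  calc enn G Finset.univ Finset.univ g ≤ 4 * (2 * N * (Q / φ)) := by
        refine h1.trans ?_
        gcongr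
    _ = 8 * N / φ * Q := by ring

end Crest.Agent.EG
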