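import Crest.Agent.EG_Tail
import Crest.Agent.EG_StarB

set_option autoImplicit false

namespace Crest.Agent.EG

/-! TASK EG-Labels: the exceptional sets of labellings, all by `tail`.  `m` moment parameter. Throughout
`t = (8N/φ) √(8m/s)`, i.e. `8 m (8N/(φ s)) (8N/φ) = t²`. -/

/-- number of labellings for which two classes contain very different numbers of elements of a fixed set `Y`
(`K = δ = Unit`, `c lab z = 1` if `z ∈ Y`): difference `> √(8 m |Y|)`. -/
theorem bad_count {ι : Type*} [Fintype ι] [DecidableEq ι] (N : ℕ) (l l' : Fin N) (hne : l ≠ l')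
    (Y : Finset ι) (m : ℕ) (hm : 1 ≤ m) (Bad : Finset (ι → Fin N))
    (hBad : ∀ lab ∈ Bad, Real.sqrt (8 * m * Y.card) + 1 <
      |((Y ∩ cls lab l).card : ℝ) - ((Y ∩ cls lab l').card : ℝ)|) :
    (Bad.card : ℝ) ≤ N ^ Fintype.card ι * (1 / 4 ^ m) := by
  have hsum : ∀ (lab : ι → Fin N) (a : Fin N),
      ∑ z ∈ Finset.univ.filter (fun z => lab z = a), ∑ _k : Unit,
        (∑ _d : Unit, (if z ∈ Y then (1 : ℝ) else 0) * 1) ^ 2 = ((Y ∩ cls lab a).card : ℝ) := by
    intro lab a
    simp only [Finset.univ_unique, Finset.sum_singleton, mul_one]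
    have : ∀ z, (if z ∈ Y then (1 : ℝ) else 0) ^ 2 = if z ∈ Y then (1 : ℝ) else 0 := by
      intro z; split_ifs <;> norm_num
    simp only [this]
    rw [Finset.sum_ite, Finset.sum_const_zero, add_zero, Finset.sum_const, nsmul_eq_mul, mul_one]
    congr 2
    ext z
    simp [cls, and_comm]
  have h := tail (ι := ι) (δ := Unit) (K := Unit) N l l' hne
    (fun _ z _ _ => if z ∈ Y then (1 : ℝ) else 0) (fun _ _ _ => rfl) 1 Y.card zero_le_one
    (Nat.cast_nonneg _) ?_ ?_ (Real.sqrt (8 * m * Y.card) + 1) (by positivity) m hm ?_ Bad ?_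
  · simpa using h
  · intro lab z h
    simp only [Finset.univ_unique, Finset.sum_singleton]
    split_ifs
    · simp
    · simp; positivity
  · intro lab h
    simp only [Finset.univ_unique, Finset.sum_singleton]
    have : ∀ z, ((if z ∈ Y then (1 : ℝ) else 0) * h default) ^ 2 =
        if z ∈ Y then (h default) ^ 2 else 0 := by
      intro z; split_ifs <;> simp
    simp only [this]
    rw [Finset.sum_ite_mem, Finset.univ_inter, Finset.sum_const, nsmul_eq_mul]
  · have h0 : (0 : ℝ) ≤ 8 * m * Y.card := by positivity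
    have h1 := Real.sq_sqrt h0
    have h2 := Real.sqrt_nonneg (8 * m * (Y.card : ℝ))
    nlinarith
  · intro lab hlab
    refine ⟨fun _ => 1, ?_⟩
    rw [hsum, hsum]
    simpa using hBad lab hlab

section LabAux

open Classical in
/-- coefficients of `avg` in the normalized variables -/
noncomputable def labA {ι : Type*} [Fintype ι] (G : SimpleGraph ι) (w : ι → ℝ) (T : Finset ι)
    (z v : ι) : ℝ :=
  if v ∈ T ∧ G.Adj z v then 1 / (dgr G T z * Real.sqrt (w v)) else 0

theorem labA_sum {ι : Type*} [Fintype ι] [DecidableEq ι] (G : SimpleGraph ι) (w : ι → ℝ)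
    (T : Finset ι) (h : ι → ℝ) (z : ι) :
    ∑ v, labA G w T z v * h v = avg G T (fun v => h v / Real.sqrt (w v)) z := by
  classical
  rw [avg, Finset.sum_div, Finset.sum_filter]
  rw [← Finset.sum_subset (Finset.subset_univ T)]
  · refine Finset.sum_congr rfl fun v hv => ?_
    simp only [labA, hv, true_and]
    split_ifs
    · rw [div_div, mul_comm (Real.sqrt (w v)) _, one_div, div_eq_inv_mul]
    · simp
  · intro v _ hv
    simp [labA, hv]

open Classical in
/-- coefficients of the star forms -/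
noncomputable def labC {ι : Type*} [Fintype ι] (G : SimpleGraph ι) (w : ι → ℝ) (N : ℕ) (T P : Finset ι)
    (z k v : ι) : ℝ :=
  if (∀ z, (dgr G Finset.univ z : ℝ) ≤ 2 * N * dgr G T z) then
    if k ∈ P ∧ G.Adj z k then labA G w T z v - labA G w T k v else 0
  else 0

theorem labC_sum {ι : Type*} [Fintype ι] [DecidableEq ι] (G : SimpleGraph ι) (w : ι → ℝ) (N : ℕ)
    (T P : Finset ι) (hdeg : ∀ z, (dgr G Finset.univ z : ℝ) ≤ 2 * N * dgr G T z) (h : ι → ℝ) (z : ι) :
    ∑ k, (∑ v, labC G w N T P z k v * h v) ^ 2 =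
      enn G {z} P (avg G T (fun v => h v / Real.sqrt (w v))) := by
  classical
  simp only [enn, Finset.sum_singleton]
  rw [Finset.sum_filter]
  rw [← Finset.sum_subset (Finset.subset_univ P)]
  · refine Finset.sum_congr rfl fun k hk => ?_
    simp only [labC, hdeg, implies_true, if_true, hk, true_and]
    split_ifs with hadj
    · simp only [sub_mul, Finset.sum_sub_distrib, labA_sum]
    · simp
  · intro k _ hk
    simp [labC, hk]

theorem enn_mono_right {ι : Type*} [Fintype ι] (G : SimpleGraph ι) (U P P' : Finset ι) (hP : P ⊆ P')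
    (f : ι → ℝ) : enn G U P f ≤ enn G U P' f := by
  classical
  unfold enn
  refine Finset.sum_le_sum fun u _ => ?_
  refine Finset.sum_le_sum_of_subset_of_nonneg ?_ fun _ _ _ => sq_nonneg _
  intro v hv
  rw [Finset.mem_filter] at hv ⊢
  exact ⟨hP hv.1, hv.2⟩

theorem enn_sum_singleton {ι : Type*} [Fintype ι] (G : SimpleGraph ι) (U P : Finset ι)
    (f : ι → ℝ) : ∑ z ∈ U, enn G {z} P f = enn G U P f := by
  unfold enn
  simp

/-- common part of `bad_e1` and `bad_e2` -/
theorem bad_aux {ι : Type*} [Fintype ι] [DecidableEq ι] (G : SimpleGraph ι) (w : ι → ℝ) (s φ : ℝ)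
    (hub : SHub G w s φ) (hs : 0 < s) (hφ : 0 < φ) (hφ1 : φ ≤ 1) (N : ℕ) (hN : 1 ≤ N)
    (la lb : Fin N) (hab : la ≠ lb) (T P : (ι → Fin N) → Finset ι)
    (hT : ∀ lab lab' : ι → Fin N,
      (∀ z, lab z = lab' z ∨ ((lab z = la ∨ lab z = lb) ∧ (lab' z = la ∨ lab' z = lb))) →
      T lab = T lab')
    (hP : ∀ lab lab' : ι → Fin N,
      (∀ z, lab z = lab' z ∨ ((lab z = la ∨ lab z = lb) ∧ (lab' z = la ∨ lab' z = lb))) →
      P lab = P lab') (m : ℕ) (hm : 1 ≤ m)
    (t : ℝ) (ht : 0 < t) (ht2 : 8 * m * (8 * N / (φ * s) * (8 * N / φ)) ≤ t ^ 2)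
    (Bad : Finset (ι → Fin N))
    (hBad : ∀ lab ∈ Bad, (∀ z, (dgr G Finset.univ z : ℝ) ≤ 2 * N * dgr G (T lab) z) ∧
      ∃ h : ι → ℝ, enn G (cls lab lb) (P lab) (avg G (T lab) h) +
        t * ∑ v ∈ T lab, w v * h v ^ 2 < enn G (cls lab la) (P lab) (avg G (T lab) h)) :
    (Bad.card : ℝ) ≤ N ^ Fintype.card ι * (Fintype.card ι / 4 ^ m) := by
  classical
  have hwpos : ∀ v, 0 < w v := fun v => hs.trans_le (hub.w_ge v)
  have hnorm : ∀ (T : Finset ι) (h : ι → ℝ),
      ∑ v ∈ T, w v * (h v / Real.sqrt (w v)) ^ 2 ≤ ∑ v, h v ^ 2 := by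
    intro T h
    have : ∀ v, w v * (h v / Real.sqrt (w v)) ^ 2 = h v ^ 2 := by
      intro v
      rw [div_pow, Real.sq_sqrt (hwpos v).le]
      field_simp [(hwpos v).ne']
    simp only [this]
    exact Finset.sum_le_sum_of_subset_of_nonneg (Finset.subset_univ _) fun _ _ _ => sq_nonneg _
  refine tail (ι := ι) (δ := ι) (K := ι) N la lb hab
    (fun lab => labC G w N (T lab) (P lab)) ?_ (8 * N / (φ * s)) (8 * N / φ) (by positivity)
    (by positivity) ?_ ?_ t ht m hm ht2 Bad ?_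
  · intro lab lab' hl
    rw [hT lab lab' hl, hP lab lab' hl]
  · intro lab z h
    by_cases hdeg : ∀ z, (dgr G Finset.univ z : ℝ) ≤ 2 * N * dgr G (T lab) z
    · rw [labC_sum G w N (T lab) (P lab) hdeg]
      refine (enn_mono_right G _ _ _ (Finset.subset_univ _) _).trans ?_
      refine (star_bound G w s φ hub hs hφ hφ1 N hN (T lab) hdeg _ z).trans ?_
      exact mul_le_mul_of_nonneg_left (hnorm _ _) (by positivity)
    · have : ∀ k v, labC G w N (T lab) (P lab) z k v = 0 := by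
        intro k v
        simp only [labC, if_neg hdeg]
      simp only [this, zero_mul, Finset.sum_const_zero]
      simp only [ne_eq, OfNat.ofNat_ne_zero, not_false_eq_true, zero_pow, Finset.sum_const_zero]
      have : 0 ≤ ∑ d, h d ^ 2 := Finset.sum_nonneg fun _ _ => sq_nonneg _
      positivity
  · intro lab h
    by_cases hdeg : ∀ z, (dgr G Finset.univ z : ℝ) ≤ 2 * N * dgr G (T lab) z
    · simp only [labC_sum G w N (T lab) (P lab) hdeg]
      rw [enn_sum_singleton]
      refine (enn_mono_right G _ _ _ (Finset.subset_univ _) _).trans ?_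
      refine (star_sum G w s φ hub hs hφ hφ1 N hN (T lab) hdeg _).trans ?_
      exact mul_le_mul_of_nonneg_left (hnorm _ _) (by positivity)
    · have : ∀ z k v, labC G w N (T lab) (P lab) z k v = 0 := by
        intro z k v
        simp only [labC, if_neg hdeg]
      simp only [this, zero_mul, Finset.sum_const_zero]
      simp only [ne_eq, OfNat.ofNat_ne_zero, not_false_eq_true, zero_pow, Finset.sum_const_zero]
      have : 0 ≤ ∑ d, h d ^ 2 := Finset.sum_nonneg fun _ _ => sq_nonneg _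
      positivity
  · intro lab hlab
    obtain ⟨hdeg, h, hh⟩ := hBad lab hlab
    refine ⟨fun v => if v ∈ T lab then Real.sqrt (w v) * h v else 0, ?_⟩
    have e1 : ∑ d, (if d ∈ T lab then Real.sqrt (w d) * h d else 0) ^ 2 =
        ∑ v ∈ T lab, w v * h v ^ 2 := by
      rw [← Finset.sum_subset (Finset.subset_univ (T lab))]
      · refine Finset.sum_congr rfl fun v hv => ?_
        rw [if_pos hv, mul_pow, Real.sq_sqrt (hwpos v).le]
      · intro v _ hv
        rw [if_neg hv]; norm_num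
    have e2 : ∀ z, avg G (T lab) (fun v => (if v ∈ T lab then Real.sqrt (w v) * h v else 0) /
        Real.sqrt (w v)) z = avg G (T lab) h z := by
      intro z
      unfold avg
      congr 1
      refine Finset.sum_congr rfl fun v hv => ?_
      rw [Finset.mem_filter] at hv
      have := Real.sqrt_pos.2 (hwpos v)
      simp only [if_pos hv.1]
      field_simp [this.ne']
    have e2' : avg G (T lab) (fun v => (if v ∈ T lab then Real.sqrt (w v) * h v else 0) /
        Real.sqrt (w v)) = avg G (T lab) h := funext e2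
    have e3 : ∀ a : Fin N, Finset.univ.filter (fun z => lab z = a) = cls lab a := by
      intro a; ext z; simp [cls]
    simp only [labC_sum G w N (T lab) (P lab) hdeg]
    rw [e1, e2', e3, e3, enn_sum_singleton, enn_sum_singleton]
    refine lt_of_lt_of_le ?_ (le_abs_self _)
    linarith

end LabAux

/-- labellings with good `l1`-degrees violating `e1` for the label `l` (`δ = K = ι`,
`c lab z z' v = [z ~ z'] (a_z v - a_{z'} v)`, `a_z v = [v ∈ cls lab l1, v ~ z]/(dgr (cls lab l1) z · √(w v))` if `lab` has good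
degrees, `0` otherwise; `star_bound`, `star_sum`; for `h` use `h̃ v = √(w v) h v` on `cls lab l1`, `0` elsewhere). -/
theorem bad_e1 {ι : Type*} [Fintype ι] [DecidableEq ι] (G : SimpleGraph ι) (w : ι → ℝ) (s φ : ℝ)
    (hub : SHub G w s φ) (hs : 0 < s) (hφ : 0 < φ) (hφ1 : φ ≤ 1) (N : ℕ) (hN : 1 ≤ N)
    (l1 l3 l : Fin N) (h13 : l1 ≠ l3) (hl1 : l ≠ l1) (hl3 : l ≠ l3) (m : ℕ) (hm : 1 ≤ m)
    (t : ℝ) (ht : 0 < t) (ht2 : 8 * m * (8 * N / (φ * s) * (8 * N / φ)) ≤ t ^ 2)
    (Bad : Finset (ι → Fin N))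
    (hBad : ∀ lab ∈ Bad, (∀ z, (dgr G Finset.univ z : ℝ) ≤ 2 * N * dgr G (cls lab l1) z) ∧
      ∃ h : ι → ℝ, enn G (cls lab l3) Finset.univ (avg G (cls lab l1) h) +
        t * ∑ v ∈ cls lab l1, w v * h v ^ 2 < enn G (cls lab l) Finset.univ (avg G (cls lab l1) h)) :
    (Bad.card : ℝ) ≤ N ^ Fintype.card ι * (Fintype.card ι / 4 ^ m) := by
  refine bad_aux G w s φ hub hs hφ hφ1 N hN l l3 hl3 (fun lab => cls lab l1)
    (fun _ => Finset.univ) ?_ (fun _ _ _ => rfl) m hm t ht ht2 Bad hBad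
  intro lab lab' hl
  ext z
  simp only [cls, Finset.mem_filter, Finset.mem_univ, true_and]
  rcases hl z with h | ⟨h1 | h1, h2 | h2⟩
  · rw [h]
  · rw [h1, h2]
  · rw [h1, h2]; exact ⟨fun h => absurd h hl1, fun h => absurd h.symm h13⟩
  · rw [h1, h2]; exact ⟨fun h => absurd h.symm h13, fun h => absurd h hl1⟩
  · rw [h1, h2]

/-- same for `e2` (labels `l`, `l4` are switched; forms `X'_{z'} = Σ_{z ∈ cls lab l3, z ~ z'} (g z - g z')² ≤ Star_{z'}`). -/
theorem bad_e2 {ι : Type*} [Fintype ι] [DecidableEq ι] (G : SimpleGraph ι) (w : ι → ℝ) (s φ : ℝ)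
    (hub : SHub G w s φ) (hs : 0 < s) (hφ : 0 < φ) (hφ1 : φ ≤ 1) (N : ℕ) (hN : 1 ≤ N)
    (l1 l3 l4 l : Fin N) (h13 : l1 ≠ l3) (h14 : l1 ≠ l4) (h34 : l3 ≠ l4)
    (hl1 : l ≠ l1) (hl3 : l ≠ l3) (hl4 : l ≠ l4) (m : ℕ) (hm : 1 ≤ m)
    (t : ℝ) (ht : 0 < t) (ht2 : 8 * m * (8 * N / (φ * s) * (8 * N / φ)) ≤ t ^ 2)
    (Bad : Finset (ι → Fin N))
    (hBad : ∀ lab ∈ Bad, (∀ z, (dgr G Finset.univ z : ℝ) ≤ 2 * N * dgr G (cls lab l1) z) ∧
      ∃ h : ι → ℝ, enn G (cls lab l4) (cls lab l3) (avg G (cls lab l1) h) +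
        t * ∑ v ∈ cls lab l1, w v * h v ^ 2 < enn G (cls lab l) (cls lab l3) (avg G (cls lab l1) h)) :
    (Bad.card : ℝ) ≤ N ^ Fintype.card ι * (Fintype.card ι / 4 ^ m) := by
  refine bad_aux G w s φ hub hs hφ hφ1 N hN l l4 hl4 (fun lab => cls lab l1)
    (fun lab => cls lab l3) ?_ ?_ m hm t ht ht2 Bad hBad
  · intro lab lab' hl
    ext z
    simp only [cls, Finset.mem_filter, Finset.mem_univ, true_and]
    rcases hl z with h | ⟨h1 | h1, h2 | h2⟩
    · rw [h]
    · rw [h1, h2]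
    · rw [h1, h2]; exact ⟨fun h => absurd h hl1, fun h => absurd h.symm h14⟩
    · rw [h1, h2]; exact ⟨fun h => absurd h.symm h14, fun h => absurd h hl1⟩
    · rw [h1, h2]
  · intro lab lab' hl
    ext z
    simp only [cls, Finset.mem_filter, Finset.mem_univ, true_and]
    rcases hl z with h | ⟨h1 | h1, h2 | h2⟩
    · rw [h]
    · rw [h1, h2]
    · rw [h1, h2]; exact ⟨fun h => absurd h hl3, fun h => absurd h.symm h34⟩
    · rw [h1, h2]; exact ⟨fun h => absurd h.symm h34, fun h => absurd h hl3⟩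
    · rw [h1, h2]

end Crest.Agent.EG
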