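import Crest.Agent.EG_Concat
import Crest.Agent.EG_HubB

set_option autoImplicit false

namespace Crest.Agent.EG

variable {V : Type*} [DecidableEq V]

/-- stations of a skeleton through the oriented edges `o :: rest`, closing at `c` -/
def mtStp (o : V × V) : List (V × V) → V → List (V × V)
  | [], c => [(o.2, c)]
  | o' :: rest, c => (o.2, o'.1) :: mtStp o' rest c

omit [DecidableEq V] in
theorem mt_length_stp (o : V × V) (rest : List (V × V)) (c : V) :
    (mtStp o rest c).length = rest.length + 1 := by
  induction rest generalizing o with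
  | nil => simp [mtStp]
  | cons o' r ih => simp [mtStp, ih]

omit [DecidableEq V] in
theorem mt_stp_head (o : V × V) (rest : List (V × V)) (c : V) :
    ∃ z t, mtStp o rest c = (o.2, z) :: t := by
  cases rest with
  | nil => exact ⟨_, _, rfl⟩
  | cons o' r => exact ⟨_, _, rfl⟩

omit [DecidableEq V] in
theorem mt_skp_stp (o : V × V) (rest : List (V × V)) (c : V) (q : V × V) :
    skp (mtStp o rest c ++ [q]) = rest.map (fun o => s(o.1, o.2)) ++ [s(c, q.1)] := by
  induction rest generalizing o with
  | nil => simp [mtStp, skp]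
  | cons o' r ih =>
    obtain ⟨z, t, hz⟩ := mt_stp_head o' r c
    have h := ih o'
    rw [hz] at h
    simp only [mtStp, hz, List.cons_append, skp, List.map_cons] at h ⊢
    rw [h]

omit [DecidableEq V] in
theorem mt_skE_stp (o : V × V) (rest : List (V × V)) :
    skE (mtStp o rest o.1) = rest.map (fun o => s(o.1, o.2)) ++ [s(o.1, o.2)] := by
  obtain ⟨z, t, hz⟩ := mt_stp_head o rest o.1
  have h : (mtStp o rest o.1).take 1 = [(o.2, z)] := by rw [hz]; rfl
  unfold skE
  rw [h, mt_skp_stp]

omit [DecidableEq V] in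
theorem mt_flat_stp (o : V × V) (rest : List (V × V)) (c : V) :
    (mtStp o rest c).flatMap (fun p => [p.1, p.2]) =
      o.2 :: (rest.flatMap (fun p => [p.1, p.2]) ++ [c]) := by
  induction rest generalizing o with
  | nil => simp [mtStp]
  | cons o' r ih =>
    simp only [mtStp, List.flatMap_cons, ih, List.cons_append, List.nil_append]

/-- alternate orientation -/
def mtOrient : Bool → List (V × V) → List (V × V)
  | _, [] => []
  | b, e :: r => (if b then e else e.swap) :: mtOrient (!b) r

omit [DecidableEq V] in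
theorem mt_orient_map (b : Bool) (l : List (V × V)) :
    (mtOrient b l).map (fun o => s(o.1, o.2)) = l.map (fun o => s(o.1, o.2)) := by
  induction l generalizing b with
  | nil => simp [mtOrient]
  | cons e r ih =>
    simp only [mtOrient, List.map_cons, ih]
    cases b
    · simp [Sym2.eq_swap]
    · simp

omit [DecidableEq V] in
theorem mt_orient_flat (b : Bool) (l : List (V × V)) :
    ((mtOrient b l).flatMap (fun p => [p.1, p.2])).Perm (l.flatMap (fun p => [p.1, p.2])) := by
  induction l generalizing b with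
  | nil => simp [mtOrient]
  | cons e r ih =>
    simp only [mtOrient, List.flatMap_cons]
    apply List.Perm.append _ (ih _)
    cases b
    · simpa using List.Perm.swap _ _ _
    · simp

omit [DecidableEq V] in
theorem mt_length_orient (b : Bool) (l : List (V × V)) : (mtOrient b l).length = l.length := by
  induction l generalizing b with
  | nil => simp [mtOrient]
  | cons e r ih => simp [mtOrient, ih]

/-- stations lie in the cores -/
theorem mt_mem_stp (A B : Finset V) (b : Bool) (rest : List (V × V)) (o : V × V) (c : V)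
    (ho : o.2 ∈ (if b then B else A))
    (hr : ∀ e ∈ rest, e.1 ∈ A ∧ e.2 ∈ B)
    (hc : c ∈ (if (rest.length % 2 = 0) then (if b then B else A) else (if b then A else B))) :
    ∀ p ∈ mtStp o (mtOrient (!b) rest) c, (p.1 ∈ A ∧ p.2 ∈ A) ∨ (p.1 ∈ B ∧ p.2 ∈ B) := by
  induction rest generalizing o b with
  | nil =>
    intro p hp
    simp only [mtOrient, mtStp, List.mem_singleton] at hp
    subst hp
    simp only [List.length_nil, Nat.zero_mod, if_true] at hc
    cases b
    · simp only [Bool.false_eq_true, if_false] at ho hc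
      exact Or.inl ⟨ho, hc⟩
    · simp only [if_true] at ho hc
      exact Or.inr ⟨ho, hc⟩
  | cons e r ih =>
    intro p hp
    have he := hr e (by simp)
    simp only [mtOrient, mtStp, List.mem_cons] at hp
    rcases hp with rfl | hp
    · cases b
      · simp only [Bool.false_eq_true, if_false, Bool.not_false, if_true] at ho ⊢
        exact Or.inl ⟨ho, he.1⟩
      · simp only [Bool.not_true, Bool.false_eq_true, if_false, if_true, Prod.fst_swap] at ho ⊢
        exact Or.inr ⟨ho, he.2⟩
    · refine ih (!b) _ ?_ (fun e' he' => hr e' (by simp [he'])) ?_ p hp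
      · cases b
        · simpa using he.2
        · simpa using he.1
      · have hlen : (e :: r).length = r.length + 1 := rfl
        rw [hlen] at hc
        by_cases hpar : r.length % 2 = 0
        · have : ¬ (r.length + 1) % 2 = 0 := by omega
          simp only [this, if_false] at hc
          simp only [hpar, if_true]
          cases b <;> simpa using hc
        · have : (r.length + 1) % 2 = 0 := by omega
          simp only [this, if_true] at hc
          simp only [hpar, if_false]
          cases b <;> simpa using hc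

/-- one step: a matching with `g` edges between two cores -/
theorem mt_match_one (𝓒 : Finset (Finset V)) (A B : Finset V) (hA : A ∈ 𝓒) (hB : B ∈ 𝓒)
    (hAB : Disjoint A B) (g : ℕ) (hg : 2 ≤ g) (heven : Even g) (L : List (V × V))
    (hL : L.length = g) (hmem : ∀ e ∈ L, e.1 ∈ A ∧ e.2 ∈ B)
    (hpw : L.Pairwise (fun p q => p.1 ≠ q.1 ∧ p.2 ≠ q.2)) :
    ∃ K : List (V × V), ValidSk 𝓒 g K ∧
      (skE K).toFinset = (L.map (fun o => s(o.1, o.2))).toFinset := by
  classical
  obtain ⟨o, rest, rfl⟩ : ∃ o rest, L = o :: rest := by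
    cases L with
    | nil => simp at hL; omega
    | cons o rest => exact ⟨o, rest, rfl⟩
  have ho := hmem o (by simp)
  have hrest : ∀ e ∈ rest, e.1 ∈ A ∧ e.2 ∈ B := fun e he => hmem e (by simp [he])
  have hlen : rest.length + 1 = g := by simpa using hL
  have hne : ∀ x ∈ A, ∀ y ∈ B, x ≠ y := fun x hx y hy h =>
    (Finset.disjoint_left.mp hAB hx) (h ▸ hy)
  have hnd : ((o :: rest).flatMap (fun p => [p.1, p.2])).Nodup := by
    rw [List.nodup_flatMap]
    constructor
    · intro p hp
      have := hmem p hp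
      simp [hne _ this.1 _ this.2]
    · refine List.Pairwise.imp_of_mem ?_ hpw
      intro p q hp hq hpq
      have h1 := hmem p hp
      have h2 := hmem q hq
      simp only [Function.onFun, List.disjoint_left, List.mem_cons, List.not_mem_nil, or_false]
      rintro z (rfl | rfl) (h | h)
      · exact hpq.1 h
      · exact hne _ h1.1 _ h2.2 h
      · exact hne _ h2.1 _ h1.2 h.symm
      · exact hpq.2 h
  set K := mtStp o (mtOrient false rest) o.1 with hK
  have hKlen : K.length = g := by rw [hK, mt_length_stp, mt_length_orient, hlen]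
  have hKnd : (K.flatMap (fun p => [p.1, p.2])).Nodup := by
    have hperm : (K.flatMap (fun p => [p.1, p.2])).Perm
        ((o :: rest).flatMap (fun p => [p.1, p.2])) := by
      rw [hK, mt_flat_stp, List.flatMap_cons]
      have h1 : (o.2 :: ((mtOrient false rest).flatMap (fun p => [p.1, p.2]) ++ [o.1])).Perm
          (o.2 :: (o.1 :: (mtOrient false rest).flatMap (fun p => [p.1, p.2]))) :=
        List.Perm.cons _ (List.perm_append_singleton _ _)
      refine h1.trans ((List.Perm.swap _ _ _).trans ?_)
      simp only [List.cons_append, List.nil_append]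
      exact List.Perm.cons _ (List.Perm.cons _ (mt_orient_flat false rest))
    exact hperm.nodup_iff.mpr hnd
  have hcore := mt_mem_stp A B true rest o o.1 (by simpa using ho.2) hrest (by
    have : ¬ rest.length % 2 = 0 := by
      obtain ⟨k, hk⟩ := heven
      omega
    simp only [this, if_false, if_true]
    exact ho.1)
  simp only [Bool.not_true] at hcore
  refine ⟨K, ⟨?_, ?_, ?_, ?_, ?_⟩, ?_⟩
  · rw [hKlen]; exact hg
  · intro p hp
    rcases hcore p hp with h | h
    · exact Or.inr ⟨A, hA, h⟩
    · exact Or.inr ⟨B, hB, h⟩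
  · rw [List.nodup_flatMap] at hKnd
    refine hKnd.2.imp ?_
    intro p q hpq
    simp only [Function.onFun, List.disjoint_left, List.mem_cons, List.not_mem_nil, or_false] at hpq
    refine ⟨fun h => hpq (Or.inl rfl) (Or.inl h), fun h => hpq (Or.inl rfl) (Or.inr h),
      fun h => hpq (Or.inr rfl) (Or.inl h), fun h => hpq (Or.inr rfl) (Or.inr h)⟩
  · right
    obtain ⟨z, t, hz⟩ := mt_stp_head o (mtOrient false rest) o.1
    refine ⟨(o.2, z), by rw [hK, hz]; simp, ?_⟩
    rw [List.nodup_flatMap] at hKnd
    have := hKnd.1 (o.2, z) (by rw [hK, hz]; simp)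
    simpa using this
  · intro Z _
    exact (List.length_filter_le _ _).trans hKlen.le
  · rw [hK, mt_skE_stp, mt_orient_map]
    ext e
    simp only [List.toFinset_append, Finset.mem_union, List.mem_toFinset, List.mem_cons,
      List.not_mem_nil, or_false, List.map_cons, List.toFinset_cons, Finset.mem_insert]
    tauto

omit [DecidableEq V] in
theorem mt_dgin_le_one_eq {E : Finset (Sym2 V)} {Z : Finset V} {v y y' : V}
    (h : dgin E Z v ≤ 1) (hy : y ∈ Z) (hye : s(v, y) ∈ E) (hy' : y' ∈ Z) (hye' : s(v, y') ∈ E) :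
    y = y' := by
  classical
  unfold dgin at h
  refine Finset.card_le_one.mp h y ?_ y' ?_
  · exact Finset.mem_filter.mpr ⟨hy, hye⟩
  · exact Finset.mem_filter.mpr ⟨hy', hye'⟩

omit [DecidableEq V] in
theorem mt_dgin_mono {E F : Finset (Sym2 V)} (hEF : E ⊆ F) (Z : Finset V) (v : V) :
    dgin E Z v ≤ dgin F Z v := by
  classical
  unfold dgin
  refine Finset.card_le_card ?_
  intro y hy
  exact Finset.mem_filter.mpr ⟨(Finset.mem_filter.mp hy).1, hEF (Finset.mem_filter.mp hy).2⟩

/-- TASK EG-Match: elimination of large matchings between cores (`g` even).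
By strong induction on `R.card`: if for some `Z ≠ Z'` in `𝓒` at least `g` edges of `R` join `Z` and `Z'`, these edges form a matching (by
`hstar`); take `g` of them `x₁y₁, …, x_g y_g` (`x_i ∈ Z`, `y_i ∈ Z'`), skeleton
`[(y₁,y₂),(x₂,x₃),(y₃,y₄),…,(y_{g-1},y_g),(x_g,x₁)]`, with edges `s(y₂,x₂), s(x₃,y₃), …, s(y_g,x_g), s(x₁,y₁)`. Remove them. -/
theorem match_elim (𝓒 : Finset (Finset V)) (hdisj : (𝓒 : Set (Finset V)).PairwiseDisjoint id)
    (R : Finset (Sym2 V)) (hl : Loopless R) (hR : ∀ e ∈ R, ∀ Z ∈ 𝓒, ¬ ∀ x ∈ e, x ∈ Z)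
    (g : ℕ) (hg : 2 ≤ g) (heven : Even g) (hstar : ∀ Z ∈ 𝓒, ∀ u, u ∉ Z → dgin R Z u ≤ 1) :
    ∃ (R' : Finset (Sym2 V)) (𝒦 : Finset (List (V × V))), SkFam 𝓒 g R 𝒦 R' ∧
      (∀ Z ∈ 𝓒, ∀ Z' ∈ 𝓒, Z ≠ Z' → (btw R' Z Z').card < g) ∧
      (𝒦.card : ℝ) ≤ ((R.card : ℝ) - R'.card) / g := by
  classical
  induction' hn : R.card using Nat.strong_induction_on with n ih generalizing R
  by_cases hall : ∀ Z ∈ 𝓒, ∀ Z' ∈ 𝓒, Z ≠ Z' → (btw R Z Z').card < g
  · refine ⟨R, ∅, ⟨by simp, by simp, subset_rfl, by simp⟩, hall, ?_⟩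
    rw [hn]
    simp
  · push Not at hall
    obtain ⟨A, hA, B, hB, hne, hcard⟩ := hall
    have hAB : Disjoint A B := hdisj hA hB hne
    have hneAB : ∀ x ∈ A, ∀ y ∈ B, x ≠ y := fun x hx y hy h =>
      (Finset.disjoint_left.mp hAB hx) (h ▸ hy)
    set M : Finset (V × V) := (A ×ˢ B).filter (fun p => s(p.1, p.2) ∈ R) with hM
    have hMmem : ∀ p, p ∈ M ↔ (p.1 ∈ A ∧ p.2 ∈ B) ∧ s(p.1, p.2) ∈ R := by
      intro p; rw [hM]; simp
    have hinj : Set.InjOn (fun p : V × V => s(p.1, p.2)) M := by
      intro p hp q hq hpq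
      rw [Finset.mem_coe, hMmem] at hp hq
      simp only [Sym2.eq_iff] at hpq
      rcases hpq with h | h
      · exact Prod.ext h.1 h.2
      · exact absurd h.1 (hneAB _ hp.1.1 _ hq.1.2)
    have himg : btw R A B ⊆ M.image (fun p => s(p.1, p.2)) := by
      intro e he
      unfold btw at he
      rw [Finset.mem_filter] at he
      obtain ⟨heR, ⟨x, hxe, hxA⟩, y, hye, hyB⟩ := he
      have hxy : x ≠ y := hneAB x hxA y hyB
      have hes : e = s(x, y) := by
        have := (Sym2.mem_and_mem_iff hxy).mp ⟨hxe, hye⟩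
        exact this
      rw [Finset.mem_image]
      exact ⟨(x, y), by rw [hMmem]; exact ⟨⟨hxA, hyB⟩, hes ▸ heR⟩, hes.symm⟩
    have hMcard : g ≤ M.card := by
      refine hcard.trans ((Finset.card_le_card himg).trans Finset.card_image_le)
    obtain ⟨M', hM'sub, hM'card⟩ := Finset.exists_subset_card_eq hMcard
    have hstarA : ∀ p ∈ M, ∀ q ∈ M, p.1 = q.1 → p = q := by
      intro p hp q hq h
      rw [hMmem] at hp hq
      have h1 := hstar B hB p.1 (fun h' => hneAB _ hp.1.1 _ h' rfl)
      have h2 : p.2 = q.2 := mt_dgin_le_one_eq h1 hp.1.2 hp.2 hq.1.2 (by rw [h]; exact hq.2)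
      exact Prod.ext h h2
    have hstarB : ∀ p ∈ M, ∀ q ∈ M, p.2 = q.2 → p = q := by
      intro p hp q hq h
      rw [hMmem] at hp hq
      have h1 := hstar A hA p.2 (fun h' => hneAB _ h' _ hp.1.2 rfl)
      have h2 : p.1 = q.1 := mt_dgin_le_one_eq h1 hp.1.1 (by rw [Sym2.eq_swap]; exact hp.2)
        hq.1.1 (by rw [h, Sym2.eq_swap]; exact hq.2)
      exact Prod.ext h2 h
    have hLmem : ∀ e ∈ M'.toList, e ∈ M := fun e he => hM'sub (Finset.mem_toList.mp he)
    obtain ⟨K, hKv, hKe⟩ := mt_match_one 𝓒 A B hA hB hAB g hg heven M'.toList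
      (by rw [Finset.length_toList, hM'card])
      (fun e he => ((hMmem e).mp (hLmem e he)).1)
      (by
        refine List.Pairwise.imp_of_mem ?_ (Finset.nodup_toList M')
        intro p q hp hq hpq
        exact ⟨fun h => hpq (hstarA p (hLmem p hp) q (hLmem q hq) h),
          fun h => hpq (hstarB p (hLmem p hp) q (hLmem q hq) h)⟩)
    set F : Finset (Sym2 V) := M'.image (fun p => s(p.1, p.2)) with hF
    have hKF : (skE K).toFinset = F := by
      rw [hKe, hF]
      ext e
      simp
    have hFR : F ⊆ R := by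
      intro e he
      rw [hF, Finset.mem_image] at he
      obtain ⟨p, hp, rfl⟩ := he
      exact ((hMmem p).mp (hM'sub hp)).2
    have hFcard : F.card = g := by
      rw [hF, Finset.card_image_of_injOn (hinj.mono (by exact_mod_cast hM'sub)), hM'card]
    have hRF : (R \ F).card + g = R.card := by
      rw [Finset.card_sdiff_of_subset hFR, hFcard]
      have := Finset.card_le_card hFR
      omega
    obtain ⟨R', 𝒦, hfam, hlt, hcount⟩ := ih (R \ F).card (by omega) (R \ F)
      (fun e he => hl e (Finset.mem_sdiff.mp he).1)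
      (fun e he Z hZ => hR e (Finset.mem_sdiff.mp he).1 Z hZ)
      (fun Z hZ u hu => (mt_dgin_mono Finset.sdiff_subset Z u).trans (hstar Z hZ u hu)) rfl
    have hsubK : ∀ l ∈ 𝒦, (skE l).toFinset ⊆ R \ F := by
      intro l hl' e he
      have : e ∈ (R \ F) \ R' := by
        rw [hfam.cover, Finset.mem_biUnion]
        exact ⟨l, hl', he⟩
      exact (Finset.mem_sdiff.mp this).1
    refine ⟨R', insert K 𝒦, ⟨?_, ?_, ?_, ?_⟩, hlt, ?_⟩
    · intro l hl'
      rcases Finset.mem_insert.mp hl' with rfl | h
      · exact hKv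
      · exact hfam.valid l h
    · rw [Finset.coe_insert]
      refine hfam.disj.insert ?_
      intro l hl' _
      rw [hKF]
      refine Finset.disjoint_left.mpr ?_
      intro e he he'
      exact (Finset.mem_sdiff.mp (hsubK l hl' he')).2 he
    · exact hfam.sub.trans Finset.sdiff_subset
    · rw [Finset.biUnion_insert, hKF, ← hfam.cover]
      ext e
      simp only [Finset.mem_sdiff, Finset.mem_union]
      constructor
      · rintro ⟨h1, h2⟩
        by_cases heF : e ∈ F
        · exact Or.inl heF
        · exact Or.inr ⟨⟨h1, heF⟩, h2⟩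
      · rintro (h | h)
        · refine ⟨hFR h, fun h' => ?_⟩
          exact (Finset.mem_sdiff.mp (hfam.sub h')).2 h
        · exact ⟨h.1.1, h.2⟩
    · have h1 : ((insert K 𝒦).card : ℝ) ≤ 𝒦.card + 1 := by
        exact_mod_cast Finset.card_insert_le K 𝒦
      have h2 : ((R \ F).card : ℝ) + g = R.card := by exact_mod_cast hRF
      have hg0 : (0 : ℝ) < g := by
        have : 0 < g := by omega
        exact_mod_cast this
      rw [le_div_iff₀ hg0] at hcount ⊢
      have h3 : ((insert K 𝒦).card : ℝ) * g ≤ (𝒦.card + 1) * g :=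
        mul_le_mul_of_nonneg_right h1 hg0.le
      have h4 : (R.card : ℝ) = n := by exact_mod_cast hn
      linarith

end Crest.Agent.EG
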