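import Mathlib

set_option autoImplicit false

namespace Crest.Agent.EG

/-- numerical facts of one scale step: `B = 2^(2^k) < n ≤ B²`, `m = k/16`, `L = 2^(k+3)`, `P^(16m) = n` -/
structure Par (k n : ℕ) (P : ℝ) : Prop where
  L_big : (2 : ℝ) ^ 200 ≤ ((2 ^ (k + 3) : ℕ) : ℝ)
  P_big : ((2 ^ (k + 3) : ℕ) : ℝ) ^ 50 ≤ P
  n_L : 3 * (n : ℝ) ^ 2 ≤ 2 ^ (2 ^ (k + 3))
  /-- `s_i ≥ P^5` for `i ≤ 16m - 6` -/
  s_big : ∀ i, i + 6 ≤ 16 * (k / 16) → P ^ 5 ≤ (n : ℝ) * (3 * ((2 ^ (k + 3) : ℕ) : ℝ) / P) ^ i / P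
  /-- `D_{15m+1} ≤ B^(3/16)`, in the form `D_{15m+1} / B^(1/4) ≤ 2^(-m)` -/
  D_small : (n : ℝ) * (3 * ((2 ^ (k + 3) : ℕ) : ℝ) / P) ^ (15 * (k / 16) + 1) ≤
    2 ^ (2 ^ (k - 2)) / 2 ^ (k / 16)
  /-- `2^(15m+1)/P ≤ 2^(-m)` -/
  P_pow : (2 : ℝ) ^ (15 * (k / 16) + 1) / P ≤ 1 / 2 ^ (k / 16)
  /-- `8 M/B ≤ 2^(-m)`, `M = 2^(2^(k-2))`, `B = 2^(2^k)` -/
  M_small : 8 * (2 : ℝ) ^ (2 ^ (k - 2)) / 2 ^ (2 ^ k) ≤ 1 / 2 ^ (k / 16)

private theorem two_pow_big (j : ℕ) (hj : 30 ≤ j) : 1000 * (j + 10) * (j + 10) ≤ 2 ^ j := by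
  induction j, hj using Nat.le_induction with
  | base => norm_num
  | succ j hj ih =>
    rw [pow_succ]
    nlinarith

/-- TASK EG-Num. `P = n^(1/(16m))` (`Real.rpow`), `m = k/16`, `k ≥ 1000`. `P ≥ 2^(2^k/(16m)) ≥ 2^(2^k/k) ≥ L^50`.
`s_i = n (3L)^i P^(-i-1) ≥ P^(16m-i-1) ≥ P^5`. `D_{15m+1} = n P^(-15m-1) (3L)^(15m+1) ≤ P^(m-1) (3L)^(15m+1) ≤ n^(1/16) (3L)^(16 m) ≤ B^(1/8) 2^((k+5)k)
≤ B^(1/8) B^(1/16)/2^m ≤ B^(1/4)/2^m`. -/
theorem exists_par (k n : ℕ) (hk : 1000 ≤ k) (hn : 2 ^ (2 ^ k) < n) (hn' : n ≤ 2 ^ (2 ^ (k + 1))) :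
    ∃ P : ℝ, Par k n P := by
  have hm16 : 16 * (k / 16) ≤ k := Nat.mul_div_le k 16
  have hm1 : 62 ≤ k / 16 := by omega
  set m := k / 16 with hm
  have hne : 16 * m ≠ 0 := by omega
  have hnR : (2 : ℝ) ^ (2 ^ k) < (n : ℝ) := by exact_mod_cast hn
  have hnR' : (n : ℝ) ≤ (2 : ℝ) ^ (2 ^ (k + 1)) := by exact_mod_cast hn'
  have hn0 : (0 : ℝ) ≤ n := Nat.cast_nonneg n
  have hn0' : (0 : ℝ) < n := lt_of_le_of_lt (by positivity) hnR
  obtain ⟨P, hP0, hP⟩ : ∃ P : ℝ, 0 ≤ P ∧ P ^ (16 * m) = n :=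
    ⟨(n : ℝ) ^ (((16 * m : ℕ) : ℝ)⁻¹), Real.rpow_nonneg hn0 _, Real.rpow_inv_natCast_pow hn0 hne⟩
  -- L
  have hLcast : ((2 ^ (k + 3) : ℕ) : ℝ) = 2 ^ (k + 3) := by push_cast; ring
  have hbig := two_pow_big (k - 3) (by omega)
  have hk3 : k - 3 + 3 = k := by omega
  have h2k : 2 ^ k = 8 * 2 ^ (k - 3) := by
    conv_lhs => rw [← hk3]
    rw [pow_add]; ring
  have h2k1 : 2 ^ (k + 1) = 16 * 2 ^ (k - 3) := by
    rw [pow_succ, h2k]; ring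
  have h2k2 : 2 ^ (k - 2) = 2 * 2 ^ (k - 3) := by
    have : k - 2 = k - 3 + 1 := by omega
    rw [this, pow_succ]; ring
  have hbig' : 1000 * (k + 7) * (k + 7) ≤ 2 ^ (k - 3) := by
    have h1 : k - 3 + 10 = k + 7 := by omega
    rw [h1] at hbig; exact hbig
  have h1P : ((2 ^ (k + 3) : ℕ) : ℝ) ^ 50 ≤ P := by
    have h1 : (((2 ^ (k + 3) : ℕ) : ℝ) ^ 50) ^ (16 * m) ≤ P ^ (16 * m) := by
      rw [hP, hLcast, ← pow_mul, ← pow_mul]
      refine le_trans (pow_le_pow_right₀ (by norm_num) ?_) hnR.le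
      rw [h2k]
      nlinarith
    exact le_of_pow_le_pow_left₀ hne hP0 h1
  have hP1 : (1 : ℝ) ≤ P := by
    refine le_trans ?_ h1P
    rw [hLcast]
    exact one_le_pow₀ (one_le_pow₀ (by norm_num))
  have hPpos : 0 < P := by linarith
  refine ⟨P, ⟨?_, h1P, ?_, ?_, ?_, ?_, ?_⟩⟩
  · rw [hLcast]
    exact pow_le_pow_right₀ (by norm_num) (by omega)
  · have h1 : (n : ℝ) ^ 2 ≤ ((2 : ℝ) ^ (2 ^ (k + 1))) ^ 2 := pow_le_pow_left₀ hn0 hnR' 2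
    have h2 : 3 * (n : ℝ) ^ 2 ≤ 2 ^ 2 * ((2 : ℝ) ^ (2 ^ (k + 1))) ^ 2 := by nlinarith [sq_nonneg (n : ℝ)]
    refine h2.trans ?_
    rw [← pow_mul, ← pow_add]
    refine pow_le_pow_right₀ (by norm_num) ?_
    have h3 : 2 ^ (k + 3) = 4 * 2 ^ (k + 1) := by
      rw [show k + 3 = (k + 1) + 2 by ring, pow_add]; ring
    rw [h3]
    have h4 : 1 ≤ 2 ^ (k + 1) := Nat.one_le_two_pow
    omega
  · intro i hi
    rw [div_pow, ← hP]
    have h3L : (1 : ℝ) ≤ (3 * ((2 ^ (k + 3) : ℕ) : ℝ)) ^ i := by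
      refine one_le_pow₀ ?_
      rw [hLcast]
      have : (1 : ℝ) ≤ 2 ^ (k + 3) := one_le_pow₀ (by norm_num)
      linarith
    rw [mul_div_assoc', div_div, ← pow_succ, le_div_iff₀ (by positivity)]
    calc P ^ 5 * P ^ (i + 1) = P ^ (5 + (i + 1)) := (pow_add P 5 (i + 1)).symm
      _ ≤ P ^ (16 * m) := pow_le_pow_right₀ hP1 (by omega)
      _ = P ^ (16 * m) * 1 := by ring
      _ ≤ P ^ (16 * m) * (3 * ((2 ^ (k + 3) : ℕ) : ℝ)) ^ i :=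
          mul_le_mul_of_nonneg_left h3L (by positivity)
  · have hPm : P ^ m ≤ (2 : ℝ) ^ (2 ^ (k - 3)) := by
      have h1 : (P ^ m) ^ 16 ≤ ((2 : ℝ) ^ (2 ^ (k - 3))) ^ 16 := by
        rw [← pow_mul, ← pow_mul, mul_comm m 16, hP, mul_comm _ 16, ← h2k1]
        exact hnR'
      exact le_of_pow_le_pow_left₀ (by norm_num) (by positivity) h1
    rw [div_pow, le_div_iff₀ (by positivity), ← hP]
    have h4L : (3 * ((2 ^ (k + 3) : ℕ) : ℝ)) ^ (15 * m + 1) ≤ (2 : ℝ) ^ ((k + 5) * (16 * m)) := by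
      calc (3 * ((2 ^ (k + 3) : ℕ) : ℝ)) ^ (15 * m + 1) ≤ ((2 : ℝ) ^ (k + 5)) ^ (15 * m + 1) := by
            refine pow_le_pow_left₀ (by positivity) ?_ _
            rw [hLcast, show k + 5 = (k + 3) + 2 by ring, pow_add (2 : ℝ) (k + 3) 2]
            have : (0 : ℝ) < 2 ^ (k + 3) := by positivity
            nlinarith
        _ ≤ ((2 : ℝ) ^ (k + 5)) ^ (16 * m) :=
            pow_le_pow_right₀ (one_le_pow₀ (by norm_num)) (by omega)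
        _ = _ := by rw [← pow_mul]
    have hfrac : P ^ (16 * m) * ((3 * ((2 ^ (k + 3) : ℕ) : ℝ)) ^ (15 * m + 1) / P ^ (15 * m + 1)) ≤
        P ^ m * (3 * ((2 ^ (k + 3) : ℕ) : ℝ)) ^ (15 * m + 1) := by
      rw [mul_div_assoc', div_le_iff₀ (by positivity)]
      have : P ^ (16 * m) ≤ P ^ m * P ^ (15 * m + 1) := by
        rw [← pow_add]
        exact pow_le_pow_right₀ hP1 (by omega)
      calc P ^ (16 * m) * (3 * ((2 ^ (k + 3) : ℕ) : ℝ)) ^ (15 * m + 1)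
          ≤ (P ^ m * P ^ (15 * m + 1)) * (3 * ((2 ^ (k + 3) : ℕ) : ℝ)) ^ (15 * m + 1) :=
            mul_le_mul_of_nonneg_right this (by positivity)
        _ = _ := by ring
    calc P ^ (16 * m) * ((3 * ((2 ^ (k + 3) : ℕ) : ℝ)) ^ (15 * m + 1) / P ^ (15 * m + 1)) * 2 ^ m
        ≤ (P ^ m * (3 * ((2 ^ (k + 3) : ℕ) : ℝ)) ^ (15 * m + 1)) * 2 ^ m :=
          mul_le_mul_of_nonneg_right hfrac (by positivity)
      _ ≤ ((2 : ℝ) ^ (2 ^ (k - 3)) * (2 : ℝ) ^ ((k + 5) * (16 * m))) * 2 ^ m := by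
          refine mul_le_mul_of_nonneg_right ?_ (by positivity)
          exact mul_le_mul hPm h4L (by positivity) (by positivity)
      _ = (2 : ℝ) ^ (2 ^ (k - 3) + (k + 5) * (16 * m) + m) := by
          rw [← pow_add, ← pow_add]
      _ ≤ 2 ^ (2 ^ (k - 2)) := by
          refine pow_le_pow_right₀ (by norm_num) ?_
          rw [h2k2]
          nlinarith
  · rw [div_le_div_iff₀ hPpos (by positivity), one_mul, ← pow_add]
    refine le_trans ?_ h1P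
    rw [hLcast, ← pow_mul]
    exact pow_le_pow_right₀ (by norm_num) (by nlinarith)
  · rw [div_le_div_iff₀ (by positivity) (by positivity), one_mul]
    have : (8 : ℝ) = 2 ^ 3 := by norm_num
    rw [this, ← pow_add, ← pow_add]
    refine pow_le_pow_right₀ (by norm_num) ?_
    rw [h2k2, h2k]
    nlinarith

/-- TASK EG-Rec: bounded product. If `τ (k+1) ≤ τ k (1 + 2^18/2^(k/16))` the sequence is bounded. -/
theorem rec_bounded (τ : ℕ → ℝ) (hτ : ∀ k, 0 ≤ τ k)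
    (h : ∀ k, τ (k + 1) ≤ τ k * (1 + 2 ^ 18 / 2 ^ (k / 16))) : ∃ C : ℝ, ∀ k, τ k ≤ C := by
  have h16 : ∀ q : ℕ, ∑ j ∈ Finset.range (16 * q), (2 : ℝ) ^ 18 / 2 ^ (j / 16) ≤
      2 ^ 23 - 2 ^ 23 / 2 ^ q := by
    intro q
    induction q with
    | zero => simp
    | succ q ih =>
      rw [show 16 * (q + 1) = 16 * q + 16 by ring, Finset.sum_range_add]
      have h1 : ∑ x ∈ Finset.range 16, (2 : ℝ) ^ 18 / 2 ^ ((16 * q + x) / 16) = 2 ^ 22 / 2 ^ q := by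
        have h2 : ∀ x ∈ Finset.range 16, (2 : ℝ) ^ 18 / 2 ^ ((16 * q + x) / 16) = 2 ^ 18 / 2 ^ q := by
          intro x hx
          have hx' := Finset.mem_range.1 hx
          have : (16 * q + x) / 16 = q := by omega
          rw [this]
        rw [Finset.sum_congr rfl h2, Finset.sum_const, Finset.card_range]
        simp only [nsmul_eq_mul]
        push_cast
        ring
      rw [h1]
      have h3 : (2 : ℝ) ^ 23 / 2 ^ (q + 1) = 2 ^ 22 / 2 ^ q := by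
        rw [pow_succ (2 : ℝ) q]
        field_simp
      have h4 : (2 : ℝ) ^ 23 / 2 ^ q = 2 ^ 22 / 2 ^ q + 2 ^ 22 / 2 ^ q := by
        rw [← add_div]; norm_num
      rw [h3]
      rw [h4] at ih
      linarith
  have hS : ∀ k : ℕ, ∑ j ∈ Finset.range k, (2 : ℝ) ^ 18 / 2 ^ (j / 16) ≤ 2 ^ 23 := by
    intro k
    refine le_trans (Finset.sum_le_sum_of_subset_of_nonneg (t := Finset.range (16 * k)) ?_ ?_) ?_
    · intro x hx
      simp only [Finset.mem_range] at hx ⊢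
      omega
    · intro i _ _
      positivity
    · refine (h16 k).trans ?_
      have : (0 : ℝ) ≤ 2 ^ 23 / 2 ^ k := by positivity
      linarith
  have hexp : ∀ k : ℕ, τ k ≤ τ 0 * Real.exp (∑ j ∈ Finset.range k, (2 : ℝ) ^ 18 / 2 ^ (j / 16)) := by
    intro k
    induction k with
    | zero => simp
    | succ k ih =>
      refine (h k).trans ?_
      rw [Finset.sum_range_succ, Real.exp_add, ← mul_assoc]
      have h1 : (1 : ℝ) + 2 ^ 18 / 2 ^ (k / 16) ≤ Real.exp (2 ^ 18 / 2 ^ (k / 16)) := by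
        have := Real.add_one_le_exp ((2 : ℝ) ^ 18 / 2 ^ (k / 16))
        linarith
      have h0 : (0 : ℝ) ≤ 1 + 2 ^ 18 / 2 ^ (k / 16) := by positivity
      exact mul_le_mul ih h1 h0 (mul_nonneg (hτ 0) (Real.exp_pos _).le)
  refine ⟨τ 0 * Real.exp (2 ^ 23), fun k => (hexp k).trans ?_⟩
  exact mul_le_mul_of_nonneg_left (Real.exp_le_exp.2 (hS k)) (hτ 0)

end Crest.Agent.EG
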