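import Crest.Agent.EG_Sampling
import Crest.Agent.EG_Fedges
import Crest.Agent.EG_Close

set_option autoImplicit false

namespace Crest.Agent.EG

variable {V : Type*} [DecidableEq V]

/-- numerical facts used in `P1` -/
theorem P1_num (P s θ : ℝ) (L : ℕ)
    (hL : (2 : ℝ) ^ 200 ≤ L) (hP : (L : ℝ) ^ 50 ≤ P) (hs : P ^ 5 ≤ s)
    (hθ : θ = 1 / (2 ^ 102 * 6144 * L * P ^ 3)) :
    0 < P ∧ 1 ≤ P ∧ 0 < s ∧ 72 * (16384 : ℕ) ≤ s ∧ 0 < θ ∧ 8 * (16384 : ℕ) * θ ≤ 1 ∧
    24 * (16384 : ℕ) ≤ θ * (1 / P) * s ∧ 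
    6144 * L * θ ≤ (1 / (2 ^ 51 * P)) ^ 2 * (1 / P) ∧
    960 * L ≤ (1 / (2 ^ 51 * P)) ^ 2 * (1 / P) * s ∧
    9 ≤ 1 / (2 ^ 53 * P) * s ∧ 3 * θ ≤ 1 / (2 ^ 53 * P) := by
  have hL0 : (0 : ℝ) < L := lt_of_lt_of_le (by positivity) hL
  have hL1 : (1 : ℝ) ≤ L := le_trans (by norm_num) hL
  have hPL : (2:ℝ)^200 * L ≤ P := by
    calc (2:ℝ)^200 * L ≤ L * L := by gcongr
      _ = L ^ 2 := by ring
      _ ≤ L ^ 50 := pow_le_pow_right₀ hL1 (by norm_num)
      _ ≤ P := hP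
  have hP2 : (2:ℝ)^200 ≤ P := le_trans (by nlinarith) hPL
  have hP1 : (1 : ℝ) ≤ P := le_trans (by norm_num) hP2
  have hP0 : (0 : ℝ) < P := by linarith
  have hs0 : 0 < s := lt_of_lt_of_le (by positivity) hs
  have hθ0 : 0 < θ := by rw [hθ]; positivity
  -- P^5 = P^4 * P
  have hs1 : (2:ℝ)^200 * L * P ^ 4 ≤ s := by
    calc (2:ℝ)^200 * L * P ^ 4 ≤ P * P ^ 4 := by gcongr
      _ = P ^ 5 := by ring
      _ ≤ s := hs
  have hP4 : (1:ℝ) ≤ P ^ 4 := one_le_pow₀ hP1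
  have hP3 : (1:ℝ) ≤ P ^ 3 := one_le_pow₀ hP1
  have hP31 : P ≤ P ^ 3 := by
    calc P = P ^ 1 := by ring
      _ ≤ P ^ 3 := pow_le_pow_right₀ hP1 (by norm_num)
  have hP11 : P ≤ P ^ 4 := by
    calc P = P ^ 1 := by ring
      _ ≤ P ^ 4 := pow_le_pow_right₀ hP1 (by norm_num)
  have hP41 : P ^ 3 ≤ P ^ 4 := pow_le_pow_right₀ hP1 (by norm_num)
  have hLP : (1:ℝ) ≤ L * P ^ 3 := by nlinarith
  refine ⟨hP0, hP1, hs0, ?_, hθ0, ?_, ?_, ?_, ?_, ?_, ?_⟩
  · push_cast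
    calc (72 * 16384 : ℝ) ≤ 2 ^ 200 * 1 * 1 := by norm_num
      _ ≤ 2 ^ 200 * L * P ^ 4 := by gcongr
      _ ≤ s := hs1
  · push_cast
    rw [hθ, mul_one_div, div_le_one (by positivity)]
    calc (8 * 16384 : ℝ) ≤ 2 ^ 102 * 6144 * 1 := by norm_num
      _ ≤ 2 ^ 102 * 6144 * (L * P ^ 3) := by gcongr
      _ = 2 ^ 102 * 6144 * L * P ^ 3 := by ring
  · push_cast
    have : θ * (1 / P) * s = s / (2 ^ 102 * 6144 * L * P ^ 4) := by
      rw [hθ]; field_simp
    rw [this, le_div_iff₀ (by positivity)]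
    calc (24 * 16384 : ℝ) * (2 ^ 102 * 6144 * L * P ^ 4) = (24 * 16384 * 2 ^ 102 * 6144) * (L * P ^ 4) := by ring
      _ ≤ 2 ^ 200 * (L * P ^ 4) := by gcongr; norm_num
      _ = 2 ^ 200 * L * P ^ 4 := by ring
      _ ≤ s := hs1
  · rw [hθ]
    apply le_of_eq
    field_simp
  · have : (1 / (2 ^ 51 * P)) ^ 2 * (1 / P) * s = s / (2 ^ 102 * P ^ 3) := by
      field_simp
    rw [this, le_div_iff₀ (by positivity)]
    calc (960 * L : ℝ) * (2 ^ 102 * P ^ 3) = (960 * 2 ^ 102) * (L * P ^ 3) := by ring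
      _ ≤ 2 ^ 200 * (L * P ^ 4) := by gcongr; norm_num
      _ = 2 ^ 200 * L * P ^ 4 := by ring
      _ ≤ s := hs1
  · rw [one_div_mul_eq_div, le_div_iff₀ (by positivity)]
    calc (9 : ℝ) * (2 ^ 53 * P) = (9 * 2 ^ 53) * 1 * P := by ring
      _ ≤ 2 ^ 200 * L * P ^ 4 := by gcongr; norm_num
      _ ≤ s := hs1
  · rw [hθ, mul_one_div, div_le_div_iff₀ (by positivity) (by positivity)]
    have hnum : (3 * 2 ^ 53 : ℝ) ≤ 2 ^ 102 * 6144 := by norm_num
    calc (3 : ℝ) * (2 ^ 53 * P) = (3 * 2 ^ 53) * 1 * P := by ring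
      _ ≤ (2 ^ 102 * 6144) * L * P ^ 3 :=
        mul_le_mul (mul_le_mul hnum hL1 (by norm_num) (by norm_num)) hP31 hP0.le (by positivity)
      _ = 1 * (2 ^ 102 * 6144 * L * P ^ 3) := by ring

theorem P1_dg_eq (E : Finset (Sym2 V)) (v : V) : dg E v = (E.filter (fun e => v ∈ e)).card := by
  unfold dg
  congr!

/-- degree of the image family of edges at a vertex -/
theorem P1_dg_le (Y S : Finset V) (f : V → Fin 3 → V) (hf : ∀ x ∈ Y, ∀ i, f x i ∈ S)
    (v : V) (t : ℝ) (ht : 0 ≤ t)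
    (hload : v ∈ S → (((Y ×ˢ (Finset.univ : Finset (Fin 3))).filter
      (fun p => f p.1 p.2 = v)).card : ℝ) ≤ t) :
    (dg ((Y ×ˢ (Finset.univ : Finset (Fin 3))).image (fun p => s(p.1, f p.1 p.2))) v : ℝ) ≤ 3 + t := by
  classical
  have h1 : dg ((Y ×ˢ (Finset.univ : Finset (Fin 3))).image (fun p => s(p.1, f p.1 p.2))) v ≤
      3 + ((Y ×ˢ (Finset.univ : Finset (Fin 3))).filter (fun p => f p.1 p.2 = v)).card := by
    rw [P1_dg_eq]
    refine le_trans (Finset.card_le_card (t := (((Finset.univ : Finset (Fin 3)).image (fun i => s(v, f v i))) ∪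
          ((Y ×ˢ (Finset.univ : Finset (Fin 3))).filter (fun p => f p.1 p.2 = v)).image
            (fun p => s(p.1, f p.1 p.2)))) ?_) (le_trans (Finset.card_union_le _ _) ?_)
    · intro e he
      obtain ⟨he1, hv⟩ := Finset.mem_filter.mp he
      obtain ⟨p, hp, rfl⟩ := Finset.mem_image.mp he1
      rw [Sym2.mem_iff] at hv
      rw [Finset.mem_union]
      rcases hv with hv | hv
      · left
        rw [Finset.mem_image]
        exact ⟨p.2, Finset.mem_univ _, by rw [hv]⟩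
      · right
        rw [Finset.mem_image]
        exact ⟨p, by rw [Finset.mem_filter]; exact ⟨hp, hv.symm⟩, rfl⟩
    gcongr
    · exact le_trans Finset.card_image_le (by simp)
    · exact Finset.card_image_le
  by_cases hv : v ∈ S
  · have h2 := hload hv
    have h3 : (dg ((Y ×ˢ (Finset.univ : Finset (Fin 3))).image (fun p => s(p.1, f p.1 p.2))) v : ℝ) ≤
      3 + ((Y ×ˢ (Finset.univ : Finset (Fin 3))).filter (fun p => f p.1 p.2 = v)).card := by
      exact_mod_cast h1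
    linarith
  · have h4 : ((Y ×ˢ (Finset.univ : Finset (Fin 3))).filter (fun p => f p.1 p.2 = v)) = ∅ := by
      rw [Finset.filter_eq_empty_iff]
      intro p hp hpv
      rw [Finset.mem_product] at hp
      exact hv (hpv ▸ hf p.1 hp.1 p.2)
    rw [h4, Finset.card_empty] at h1
    have h3 : (dg ((Y ×ˢ (Finset.univ : Finset (Fin 3))).image (fun p => s(p.1, f p.1 p.2))) v : ℝ) ≤ 3 := by
      exact_mod_cast h1
    linarith

/-- degrees of a union of three edge sets -/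
theorem P1_dg_biUnion (F : Fin 3 → Finset (Sym2 V)) (v : V) (t : ℝ)
    (h : ∀ k, (dg (F k) v : ℝ) ≤ t) :
    (dg ((Finset.univ : Finset (Fin 3)).biUnion F) v : ℝ) ≤ 3 * t := by
  classical
  have h1 : dg ((Finset.univ : Finset (Fin 3)).biUnion F) v ≤ ∑ k, dg (F k) v := by
    simp only [P1_dg_eq]
    rw [Finset.filter_biUnion]
    exact Finset.card_biUnion_le
  have h2 : (dg ((Finset.univ : Finset (Fin 3)).biUnion F) v : ℝ) ≤ ∑ k, (dg (F k) v : ℝ) := by
    exact_mod_cast h1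
  calc (dg ((Finset.univ : Finset (Fin 3)).biUnion F) v : ℝ) ≤ ∑ k, (dg (F k) v : ℝ) := h2
    _ ≤ ∑ k : Fin 3, t := Finset.sum_le_sum (fun k _ => h k)
    _ = 3 * t := by simp

omit [DecidableEq V] in
/-- three pairwise disjoint sets: some set avoids both ends of an edge -/
theorem P1_avoid (S : Fin 3 → Finset V) (hdisj : ∀ k l, k ≠ l → Disjoint (S k) (S l)) (e : Sym2 V) :
    ∃ k : Fin 3, ∀ x ∈ e, x ∉ S k := by
  induction e using Sym2.ind with
  | _ x y =>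
    by_contra hcon
    push Not at hcon
    have key : ∀ k, x ∈ S k ∨ y ∈ S k := by
      intro k
      obtain ⟨z, hz, hzk⟩ := hcon k
      rw [Sym2.mem_iff] at hz
      rcases hz with rfl | rfl
      · exact Or.inl hzk
      · exact Or.inr hzk
    have hd : ∀ k l, k ≠ l → ∀ z, z ∈ S k → z ∈ S l → False := fun k l hkl z h1 h2 =>
      (Finset.disjoint_left.mp (hdisj k l hkl)) h1 h2
    have h01 : (0 : Fin 3) ≠ 1 := by decide
    have h02 : (0 : Fin 3) ≠ 2 := by decide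
    have h12 : (1 : Fin 3) ≠ 2 := by decide
    rcases key 0 with h0 | h0 <;> rcases key 1 with h1 | h1 <;> rcases key 2 with h2 | h2
    · exact hd 0 1 h01 _ h0 h1
    · exact hd 0 1 h01 _ h0 h1
    · exact hd 0 2 h02 _ h0 h2
    · exact hd 1 2 h12 _ h1 h2
    · exact hd 1 2 h12 _ h1 h2
    · exact hd 0 2 h02 _ h0 h2
    · exact hd 0 1 h01 _ h0 h1
    · exact hd 0 1 h01 _ h0 h1

/-- TASK EG-P1: decomposition of one hub.
`η = 1/(2^51 P)`, `φ = 1/P`, `θ = 1/(2^102 * 6144 * L * P^3)`, `N = 16384`. `sampling` gives `T0, S k`; `fedges` gives `f` (`F k` = image of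
`(x,i) ↦ s(x, f k x i)` over `(Z \ S k) × Fin 3`); `Da := inc D T0 \ ⋃ F k`, a hub with `η/2 = 1/(2^52 P)` by `hub_sdiff`
(`dg (⋃ F k) v ≤ 9 + θ w v ≤ (η/2)/... w v`, since as second vertex `v` lies in at most one `S k`; note `w v ≥ s`).
Given `Q ⊆ Da`: `D' = D \ Q`. No edge of `Q` lies in an `S k` or in `F k`. Let `I k = ind D' (S k)` (`= ind D (S k)`),
`G' = D' \ ⋃ F k \ ⋃ I k`. Each edge of
`G'` avoids some `S k`; let `H k` be the edges of `G'` with no end in `S k` (for the least such `k`), so `Supp (H k) (Z \ S k)`.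
`close` with `Y = Z \ S k`, `DS = ind D (S k)` gives `Q' k ⊆ ind D (S k)` with `cd (H k ∪ F k ∪ Q' k) ≤ 4|Z|`, and
`cd (I k \ Q' k) ≤ τ |S k|` by `IH`. Total `≤ 3 · 4|Z| + 3 τ |Z|/4096`. -/
theorem P1 (D : Finset (Sym2 V)) (Z : Finset V) (w : V → ℝ) (s P : ℝ) (L : ℕ)
    (hL : (2 : ℝ) ^ 200 ≤ L) (hP : (L : ℝ) ^ 50 ≤ P) (hs : P ^ 5 ≤ s)
    (hub : Hub D Z w s (1 / P) 1) (hZ2 : 2 ≤ Z.card) (hZL : Z.card ^ 2 ≤ 2 ^ L)
    (hwZ : ∑ v ∈ Z, w v ≤ 2 ^ L * s) (τ : ℝ) (hτ : 0 ≤ τ)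
    (IH : ∀ (S' : Finset V) (E' : Finset (Sym2 V)), Loopless E' → Supp E' S' → S'.card < Z.card →
      (cd E' : ℝ) ≤ τ * S'.card) :
    ∃ Da ⊆ D, Hub Da Z w s (1 / P) (1 / (2 ^ 52 * P)) ∧
      ∀ Q ⊆ Da, (cd (D \ Q) : ℝ) ≤ (12 + 3 / 4096 * τ) * Z.card := by
  classical
  obtain ⟨T0, S, hT0, hS, hT0S, hSS, hScard, hdeg, hubS, hubT⟩ :=
    sampling D Z w s P L hL hP hs hub hZ2 hZL
  obtain ⟨hP0, hP1, hs0, hs72, hθ0, hθ8, hθs, hθη, hLη, h9, h3θ⟩ :=
    P1_num P s (1 / (2 ^ 102 * 6144 * L * P ^ 3)) L hL hP hs rfl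
  generalize (1 / (2 ^ 102 * 6144 * L * P ^ 3) : ℝ) = θ at hθ0 hθ8 hθs hθη h3θ
  have hL1 : 1 ≤ L := by
    have : (1 : ℝ) ≤ L := le_trans (by norm_num) hL
    exact_mod_cast this
  have hφ0 : 0 < 1 / P := by positivity
  have hφ1 : 1 / P ≤ 1 := by rw [div_le_one hP0]; exact hP1
  obtain ⟨f, hfD, hfinj, hload⟩ := fedges D Z w s (1 / P) θ 16384 hub hZ2 hφ0 hφ1 (by norm_num)
    hs72 hθ0 hθ8 hθs S hS hSS hdeg
  -- the edge sets F k
  set F : Fin 3 → Finset (Sym2 V) := fun k =>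
    ((Z \ S k) ×ˢ (Finset.univ : Finset (Fin 3))).image (fun p => s(p.1, f k p.1 p.2)) with hFdef
  have hF_mem : ∀ k e, e ∈ F k ↔ ∃ x ∈ Z \ S k, ∃ i, e = s(x, f k x i) := by
    intro k e
    simp only [hFdef, Finset.mem_image, Finset.mem_product, Finset.mem_univ, and_true]
    constructor
    · rintro ⟨p, hp, rfl⟩
      exact ⟨p.1, hp, p.2, rfl⟩
    · rintro ⟨x, hx, i, rfl⟩
      exact ⟨(x, i), hx, rfl⟩
  have hFD : ∀ k, F k ⊆ D := by
    intro k e he
    obtain ⟨x, hx, i, rfl⟩ := (hF_mem k e).mp he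
    exact (hfD k x hx i).2
  -- degrees
  have hdgF : ∀ v ∈ Z, ∀ k, (dg (F k) v : ℝ) ≤ 3 + θ * w v := by
    intro v hv k
    have hwv : 0 ≤ θ * w v := by
      have := hub.w_ge v hv
      apply mul_nonneg hθ0.le
      linarith
    exact P1_dg_le (Z \ S k) (S k) (f k) (fun x hx i => (hfD k x hx i).1) v _ hwv
      (fun hvS => hload k v hvS)
  set U : Finset (Sym2 V) := (Finset.univ : Finset (Fin 3)).biUnion F with hUdef
  have hU_mem : ∀ e, e ∈ U ↔ ∃ k, e ∈ F k := by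
    intro e
    simp [hUdef]
  have hdgU : ∀ v ∈ Z, (dg U v : ℝ) ≤ (1 / (2 ^ 51 * P)) / 2 * w v := by
    intro v hv
    have h1 := P1_dg_biUnion F v _ (hdgF v hv)
    have hwv := hub.w_ge v hv
    have hw0 : 0 < w v := lt_of_lt_of_le hs0 hwv
    have h2 : 9 ≤ 1 / (2 ^ 53 * P) * w v := le_trans h9 (by gcongr)
    have h3 : 3 * θ * w v ≤ 1 / (2 ^ 53 * P) * w v := by gcongr
    have h4 : (1 / (2 ^ 51 * P)) / 2 * w v = 1 / (2 ^ 53 * P) * w v + 1 / (2 ^ 53 * P) * w v := by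
      field_simp
      norm_num
    rw [h4]
    linarith
  have hubDa := hub_sdiff hubT hφ0.le hdgU
  refine ⟨inc D T0 \ U, ?_, ?_, ?_⟩
  · intro e he
    rw [Finset.mem_sdiff, mem_inc] at he
    exact he.1.1
  · have : (1 / (2 ^ 51 * P)) / 2 = 1 / (2 ^ 52 * P) := by
      field_simp
    rw [this] at hubDa
    exact hubDa
  intro Q hQ
  have hQ1 : ∀ e ∈ Q, ∃ x ∈ e, x ∈ T0 := by
    intro e he
    have := hQ he
    rw [Finset.mem_sdiff, mem_inc] at this
    exact this.1.2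
  have hQ2 : ∀ e ∈ Q, ∀ k, e ∉ F k := by
    intro e he k hk
    have := hQ he
    rw [Finset.mem_sdiff] at this
    exact this.2 ((hU_mem e).mpr ⟨k, hk⟩)
  have hQI : ∀ e ∈ Q, ∀ k, e ∉ ind D (S k) := by
    intro e he k hk
    rw [mem_ind] at hk
    obtain ⟨x, hx, hxT⟩ := hQ1 e he
    exact (Finset.disjoint_left.mp (hT0S k)) hxT (hk.2 x hx)
  -- disjointness facts
  have hFI : ∀ k l e, e ∈ F k → e ∉ ind D (S l) := by
    intro k l e he hI
    obtain ⟨x, hx, i, rfl⟩ := (hF_mem k e).mp he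
    rw [mem_ind] at hI
    have hxl := hI.2 x (Sym2.mem_mk_left _ _)
    have hyl := hI.2 (f k x i) (Sym2.mem_mk_right _ _)
    have hyk := (hfD k x hx i).1
    by_cases hkl : k = l
    · subst hkl
      exact (Finset.mem_sdiff.mp hx).2 hxl
    · exact (Finset.disjoint_left.mp (hSS k l hkl)) hyk hyl
  have hFF : ∀ k l e, e ∈ F k → e ∈ F l → k = l := by
    intro k l e hk hl
    obtain ⟨x, hx, i, rfl⟩ := (hF_mem k e).mp hk
    obtain ⟨y, hy, j, hxy⟩ := (hF_mem l _).mp hl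
    exact (hfinj k l x hx y hy i j hxy).1
  have hII : ∀ k l e, e ∈ ind D (S k) → e ∈ ind D (S l) → k = l := by
    intro k l e hk hl
    rw [mem_ind] at hk hl
    by_contra hkl
    have hx : ∃ x, x ∈ e := by
      induction e using Sym2.ind with
      | _ x y => exact ⟨x, Sym2.mem_mk_left _ _⟩
    obtain ⟨x, hx⟩ := hx
    exact (Finset.disjoint_left.mp (hSS k l hkl)) (hk.2 x hx) (hl.2 x hx)
  choose κ hκ using P1_avoid S hSS
  set H : Fin 3 → Finset (Sym2 V) := fun k =>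
    (D \ Q).filter (fun e => e ∉ U ∧ (∀ l, e ∉ ind D (S l)) ∧ κ e = k) with hHdef
  have hH_mem : ∀ k e, e ∈ H k ↔ (e ∈ D ∧ e ∉ Q) ∧ e ∉ U ∧ (∀ l, e ∉ ind D (S l)) ∧ κ e = k := by
    intro k e
    simp only [hHdef, Finset.mem_filter, Finset.mem_sdiff]
  -- closing
  have hclose : ∀ k, ∃ Q' ⊆ ind D (S k), cd (H k ∪ F k ∪ Q') ≤ 4 * (Z \ S k).card := by
    intro k
    refine close (Z \ S k) (S k) Finset.sdiff_disjoint (ind D (S k)) w s (1 / P) (1 / (2 ^ 51 * P)) θ L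
      (hubS k) hs0 hφ0 hφ1 (by positivity) ?_ hL1 ?_ ?_ hθη hLη (H k) ?_ ?_ (f k) ?_ ?_ (hload k)
    · rw [div_le_one (by positivity)]
      nlinarith
    · refine le_trans (Finset.sum_le_sum_of_subset_of_nonneg (hS k) ?_) hwZ
      intro v hv _
      have := hub.w_ge v hv
      linarith
    · calc (Z \ S k).card ≤ Z.card := Finset.card_le_card Finset.sdiff_subset
        _ ≤ Z.card ^ 2 := by nlinarith
        _ ≤ 2 ^ L := hZL
    · intro e he
      exact hub.loopless e ((hH_mem k e).mp he).1.1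
    · intro e he x hx
      have h := (hH_mem k e).mp he
      rw [Finset.mem_sdiff]
      refine ⟨hub.supp e h.1.1 x hx, ?_⟩
      have := hκ e x hx
      rw [h.2.2.2] at this
      exact this
    · intro x hx i
      exact (hfD k x hx i).1
    · intro x hx i j hij
      have : s(x, f k x i) = s(x, f k x j) := by rw [hij]
      exact (hfinj k k x hx x hx i j this).2.2
  choose Q' hQ'sub hQ'cd using hclose
  -- the pieces
  set B : Fin 3 → Finset (Sym2 V) := fun k => (H k ∪ F k ∪ Q' k) ∪ (ind D (S k) \ Q' k) with hBdef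
  have hB_mem : ∀ k e, e ∈ B k ↔ e ∈ H k ∨ e ∈ F k ∨ e ∈ ind D (S k) := by
    intro k e
    simp only [hBdef, Finset.mem_union, Finset.mem_sdiff]
    constructor
    · rintro (((h | h) | h) | h)
      · exact Or.inl h
      · exact Or.inr (Or.inl h)
      · exact Or.inr (Or.inr (hQ'sub k h))
      · exact Or.inr (Or.inr h.1)
    · rintro (h | h | h)
      · exact Or.inl (Or.inl (Or.inl h))
      · exact Or.inl (Or.inl (Or.inr h))
      · by_cases hq : e ∈ Q' k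
        · exact Or.inl (Or.inr hq)
        · exact Or.inr ⟨h, hq⟩
  have hunion : (Finset.univ : Finset (Fin 3)).biUnion B = D \ Q := by
    ext e
    simp only [Finset.mem_biUnion, Finset.mem_univ, true_and, Finset.mem_sdiff]
    constructor
    · rintro ⟨k, hk⟩
      rcases (hB_mem k e).mp hk with h | h | h
      · exact ((hH_mem k e).mp h).1
      · exact ⟨hFD k h, fun hq => hQ2 e hq k h⟩
      · exact ⟨(mem_ind.mp h).1, fun hq => hQI e hq k h⟩
    · rintro ⟨hD, hq⟩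
      by_cases hU : e ∈ U
      · obtain ⟨k, hk⟩ := (hU_mem e).mp hU
        exact ⟨k, (hB_mem k e).mpr (Or.inr (Or.inl hk))⟩
      · by_cases hI : ∃ l, e ∈ ind D (S l)
        · obtain ⟨l, hl⟩ := hI
          exact ⟨l, (hB_mem l e).mpr (Or.inr (Or.inr hl))⟩
        · push Not at hI
          exact ⟨κ e, (hB_mem _ e).mpr (Or.inl ((hH_mem _ e).mpr ⟨⟨hD, hq⟩, hU, hI, rfl⟩))⟩
  have hBdisj : ((Finset.univ : Finset (Fin 3)) : Set (Fin 3)).PairwiseDisjoint B := by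
    intro k _ l _ hkl
    rw [Function.onFun, Finset.disjoint_left]
    intro e hek hel
    rcases (hB_mem k e).mp hek with h1 | h1 | h1 <;> rcases (hB_mem l e).mp hel with h2 | h2 | h2
    · exact hkl (((hH_mem k e).mp h1).2.2.2.symm.trans ((hH_mem l e).mp h2).2.2.2)
    · exact ((hH_mem k e).mp h1).2.1 ((hU_mem e).mpr ⟨l, h2⟩)
    · exact ((hH_mem k e).mp h1).2.2.1 l h2
    · exact ((hH_mem l e).mp h2).2.1 ((hU_mem e).mpr ⟨k, h1⟩)
    · exact hkl (hFF k l e h1 h2)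
    · exact hFI k l e h1 h2
    · exact ((hH_mem l e).mp h2).2.2.1 k h1
    · exact hFI l k e h2 h1
    · exact hkl (hII k l e h1 h2)
  have hcdB : ∀ k, (cd (B k) : ℝ) ≤ 4 * Z.card + τ * (Z.card / 4096) := by
    intro k
    have hd : Disjoint (H k ∪ F k ∪ Q' k) (ind D (S k) \ Q' k) := by
      rw [Finset.disjoint_left]
      intro e he hI
      rw [Finset.mem_sdiff] at hI
      rw [Finset.mem_union, Finset.mem_union] at he
      rcases he with (h | h) | h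
      · exact ((hH_mem k e).mp h).2.2.1 k hI.1
      · exact hFI k k e h hI.1
      · exact hI.2 h
    have h1 : cd (B k) ≤ cd (H k ∪ F k ∪ Q' k) + cd (ind D (S k) \ Q' k) := cd_union_le hd
    have hSlt : (S k).card < Z.card := by
      have := hScard k
      omega
    have h2 : (cd (ind D (S k) \ Q' k) : ℝ) ≤ τ * (S k).card := by
      refine IH (S k) _ ?_ ?_ hSlt
      · intro e he
        exact hub.loopless e (mem_ind.mp (Finset.mem_sdiff.mp he).1).1
      · intro e he x hx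
        exact (mem_ind.mp (Finset.mem_sdiff.mp he).1).2 x hx
    have h3 : cd (H k ∪ F k ∪ Q' k) ≤ 4 * Z.card :=
      le_trans (hQ'cd k) (by gcongr; exact Finset.sdiff_subset)
    have h4 : ((S k).card : ℝ) ≤ Z.card / 4096 := by
      rw [le_div_iff₀ (by norm_num)]
      have := hScard k
      have h5 : (4096 * (S k).card : ℝ) ≤ Z.card := by exact_mod_cast this
      linarith
    have h6 : (cd (B k) : ℝ) ≤ 4 * Z.card + cd (ind D (S k) \ Q' k) := by
      have : cd (B k) ≤ 4 * Z.card + cd (ind D (S k) \ Q' k) := by omega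
      exact_mod_cast this
    calc (cd (B k) : ℝ) ≤ 4 * Z.card + cd (ind D (S k) \ Q' k) := h6
      _ ≤ 4 * Z.card + τ * (S k).card := by linarith
      _ ≤ 4 * Z.card + τ * (Z.card / 4096) := by gcongr
  have hfin : cd (D \ Q) ≤ ∑ k : Fin 3, cd (B k) := by
    rw [← hunion]
    exact cd_biUnion_le _ B hBdisj
  have hfin' : (cd (D \ Q) : ℝ) ≤ ∑ k : Fin 3, (cd (B k) : ℝ) := by exact_mod_cast hfin
  calc (cd (D \ Q) : ℝ) ≤ ∑ k : Fin 3, (cd (B k) : ℝ) := hfin'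
    _ ≤ ∑ k : Fin 3, (4 * (Z.card : ℝ) + τ * (Z.card / 4096)) := Finset.sum_le_sum (fun k _ => hcdB k)
    _ = (12 + 3 / 4096 * τ) * Z.card := by
      rw [Finset.sum_const, Finset.card_univ, Fintype.card_fin]
      ring

end Crest.Agent.EG
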