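import Crest.Agent.EG_Union
import Crest.Agent.EG_Block
import Crest.Agent.EG_HubB

set_option autoImplicit false

namespace Crest.Agent.EG

section aux
variable {V : Type*}

theorem samp_card_le_dgin {E : Finset (Sym2 V)} {T A : Finset V} {v : V}
    (hA : ∀ y ∈ A, y ∈ T ∧ s(v, y) ∈ E) : A.card ≤ dgin E T v := by
  classical
  unfold dgin
  apply Finset.card_le_card
  intro y hy
  rw [Finset.mem_filter]
  exact hA y hy

theorem samp_dgin_mono {D : Finset (Sym2 V)} {T T' : Finset V} (h : T ⊆ T') (v : V) :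
    dgin D T v ≤ dgin D T' v := by
  classical
  unfold dgin
  exact Finset.card_le_card (Finset.filter_subset_filter _ h)

theorem samp_dgr' {Z : Finset V} {D : Finset (Sym2 V)} (G : SimpleGraph ↥Z)
    (hG : ∀ u v : ↥Z, G.Adj u v ↔ s(u.1, v.1) ∈ D) (T : Finset ↥Z) (v : ↥Z) :
    dgr G T v = dgin D (T.map (Function.Embedding.subtype _)) v.1 := by
  classical
  unfold dgr dgin
  rw [← Finset.card_map (Function.Embedding.subtype _)]
  congr 1
  ext x
  simp only [Finset.mem_map, Finset.mem_filter, Function.Embedding.coe_subtype]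
  constructor
  · rintro ⟨a, ⟨ha, hb⟩, rfl⟩
    exact ⟨⟨a, ha, rfl⟩, (hG _ _).1 hb⟩
  · rintro ⟨⟨a, ha, rfl⟩, hb⟩
    exact ⟨a, ⟨ha, (hG _ _).2 hb⟩, rfl⟩

end aux

variable {V : Type*} [DecidableEq V]

/-- a finset of the subtype, as a finset of `V` -/
def sampUp {Z : Finset V} (T : Finset ↥Z) : Finset V := T.map (Function.Embedding.subtype _)

theorem mem_sampUp {Z : Finset V} {T : Finset ↥Z} {v : V} :
    v ∈ sampUp T ↔ ∃ h : v ∈ Z, (⟨v, h⟩ : ↥Z) ∈ T := by
  unfold sampUp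
  simp

theorem sampUp_subset {Z : Finset V} (T : Finset ↥Z) : sampUp T ⊆ Z := by
  intro v hv
  rw [mem_sampUp] at hv
  exact hv.1

theorem sampUp_mono {Z : Finset V} {T T' : Finset ↥Z} (h : T ⊆ T') : sampUp T ⊆ sampUp T' := by
  intro v hv
  rw [mem_sampUp] at hv ⊢
  exact ⟨hv.1, h hv.2⟩

theorem sampUp_univ {Z : Finset V} : sampUp (Finset.univ : Finset ↥Z) = Z := by
  ext v
  rw [mem_sampUp]
  simp

theorem sampUp_compl {Z : Finset V} (T : Finset ↥Z) : sampUp Tᶜ = Z \ sampUp T := by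
  ext v
  simp only [Finset.mem_sdiff, mem_sampUp, Finset.mem_compl, not_exists]
  constructor
  · rintro ⟨h, h2⟩
    exact ⟨h, fun _ => h2⟩
  · rintro ⟨h, h2⟩
    exact ⟨h, h2 h⟩

theorem sampUp_sdiff {Z : Finset V} (W T : Finset ↥Z) : sampUp (W \ T) = sampUp W \ sampUp T := by
  ext v
  simp only [Finset.mem_sdiff, mem_sampUp, not_exists]
  constructor
  · rintro ⟨h, h2, h3⟩
    exact ⟨⟨h, h2⟩, fun _ => h3⟩
  · rintro ⟨⟨h, h2⟩, h3⟩
    exact ⟨h, h2, h3 h⟩

theorem sampUp_card {Z : Finset V} (T : Finset ↥Z) : (sampUp T).card = T.card := by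
  unfold sampUp
  rw [Finset.card_map]

theorem sampUp_sum {M : Type*} [AddCommMonoid M] {Z : Finset V} (T : Finset ↥Z) (f : V → M) :
    ∑ v ∈ sampUp T, f v = ∑ v ∈ T, f v.1 := by
  unfold sampUp
  rw [Finset.sum_map]
  rfl

theorem sampUp_disjoint {Z : Finset V} {T T' : Finset ↥Z} (h : Disjoint T T') :
    Disjoint (sampUp T) (sampUp T') := by
  rw [Finset.disjoint_left] at h ⊢
  intro v hv hv'
  rw [mem_sampUp] at hv hv'
  exact h hv.2 hv'.2

/-- the preimage in the subtype -/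
theorem sampUp_exists {Z U : Finset V} (h : U ⊆ Z) : ∃ T : Finset ↥Z, sampUp T = U := by
  refine ⟨Finset.univ.filter (fun v => v.1 ∈ U), ?_⟩
  ext v
  rw [mem_sampUp]
  simp only [Finset.mem_filter, Finset.mem_univ, true_and]
  exact ⟨fun h2 => h2.2, fun h2 => ⟨h h2, h2⟩⟩

theorem sampUp_subset_iff {Z : Finset V} {T T' : Finset ↥Z} :
    sampUp T ⊆ sampUp T' ↔ T ⊆ T' := by
  unfold sampUp
  exact Finset.map_subset_map

theorem samp_dgr {Z : Finset V} {D : Finset (Sym2 V)} (G : SimpleGraph ↥Z)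
    (hG : ∀ u v : ↥Z, G.Adj u v ↔ s(u.1, v.1) ∈ D) (T : Finset ↥Z) (v : ↥Z) :
    dgr G T v = dgin D (sampUp T) v.1 := samp_dgr' G hG T v

/-- the graph on the subtype -/
def sampG (Z : Finset V) (D : Finset (Sym2 V)) (hl : Loopless D) : SimpleGraph ↥Z where
  Adj u v := s(u.1, v.1) ∈ D
  symm := ⟨fun u v h => by rw [Sym2.eq_swap]; exact h⟩
  loopless := ⟨fun u h => hl _ h (by simp)⟩

theorem samp_adj (Z : Finset V) (D : Finset (Sym2 V)) (hl : Loopless D) (u v : ↥Z) :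
    (sampG Z D hl).Adj u v ↔ s(u.1, v.1) ∈ D := Iff.rfl

theorem samp_shub {D : Finset (Sym2 V)} {Z : Finset V} {w : V → ℝ} {s φ : ℝ}
    (hub : Hub D Z w s φ 1) (hs : 1 < s) (hZ : 2 ≤ Z.card) :
    SHub (sampG Z D hub.loopless) (fun v : ↥Z => w v.1) s φ := by
  have hd : ∀ v : ↥Z, dgr (sampG Z D hub.loopless) Finset.univ v = dg D v.1 := by
    intro v
    rw [samp_dgr _ (samp_adj Z D hub.loopless), sampUp_univ, ← dg_eq_dgin hub.loopless hub.supp]
  refine ⟨fun v => hub.w_ge v.1 v.2, fun v => ?_, fun v => ?_, fun U hU => ?_⟩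
  · rw [hd]; exact hub.w_deg v.1 v.2
  · rw [hd]; exact hub_w_le_dg hub hs hZ v.2
  · have h1 := hub.exp (sampUp U) (sampUp_subset U)
    have h2 : ∑ v ∈ Z, w v = ∑ v : ↥Z, w v.1 := by
      rw [← sampUp_sum Finset.univ w, sampUp_univ]
    rw [h2, sampUp_sum] at h1
    have h3 := h1 hU
    rw [one_mul] at h3
    refine h3.trans (le_of_eq ?_)
    rw [card_bd hub.loopless hub.supp (sampUp_subset U), sampUp_sum]
    push_cast
    refine Finset.sum_congr rfl fun v _ => ?_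
    rw [samp_dgr _ (samp_adj Z D hub.loopless), sampUp_compl]

theorem bl_inj {b b' : Fin 4} {j j' : Fin 3} (h : bl b j = bl b' j') : b = b' ∧ j = j' := by
  unfold bl at h
  rw [Fin.mk.injEq] at h
  have h1 := b.2
  have h2 := b'.2
  have h3 := j.2
  have h4 := j'.2
  constructor
  · apply Fin.ext; omega
  · apply Fin.ext; omega

theorem samp_cls_disjoint {ι : Type*} [Fintype ι] {N : ℕ} (lab : ι → Fin N) {l l' : Fin N}
    (h : l ≠ l') : Disjoint (cls lab l) (cls lab l') := by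
  classical
  rw [Finset.disjoint_left]
  intro v hv hv'
  unfold cls at hv hv'
  rw [Finset.mem_filter] at hv hv'
  exact h (hv.2.symm.trans hv'.2)

/-- the union of the three classes of a block -/
noncomputable def sampBlk {Z : Finset V} (lab : ↥Z → Fin 16384) (b : Fin 4) : Finset ↥Z :=
  cls lab (bl b 0) ∪ cls lab (bl b 1) ∪ cls lab (bl b 2)

theorem sampBlk_disjoint {Z : Finset V} (lab : ↥Z → Fin 16384) {b b' : Fin 4} (h : b ≠ b') :
    Disjoint (sampBlk lab b) (sampBlk lab b') := by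
  unfold sampBlk
  simp only [Finset.disjoint_union_left, Finset.disjoint_union_right]
  refine ⟨⟨⟨⟨?_, ?_⟩, ?_⟩, ⟨?_, ?_⟩, ?_⟩, ⟨?_, ?_⟩, ?_⟩ <;>
    exact samp_cls_disjoint lab fun h2 => h (bl_inj h2).1

/-- expansion of a block, transferred to `V` -/
theorem samp_block {D : Finset (Sym2 V)} {Z : Finset V} {w : V → ℝ} {s P : ℝ}
    (hub : Hub D Z w s (1 / P) 1) (hP : 1 ≤ P) (hs : 1 < s) (hZ : 2 ≤ Z.card)
    (lab : ↥Z → Fin 16384) (t : ℝ) (ht : 0 ≤ t) (htφ : t ≤ (1 / P) / (16 * (16384 : ℕ) ^ 2)) (b : Fin 4)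
    (hg : GoodLab (sampG Z D hub.loopless) (fun v : ↥Z => w v.1) 16384 lab t (bl b 0) (bl b 1) (bl b 2))
    (W U : Finset V) (hSW : sampUp (sampBlk lab b) ⊆ W) (hWZ : W ⊆ Z) (hUW : U ⊆ W)
    (hhalf : ∑ v ∈ U, w v ≤ (∑ v ∈ W, w v) / 2)
    (F : Finset (Sym2 V)) (hF : Loopless F) (hFs : Supp F W)
    (hF2 : ∀ u ∈ W, ∀ v ∈ W, (s(u, v) ∈ D ∧ (u ∈ sampUp (sampBlk lab b) ∨ v ∈ sampUp (sampBlk lab b))) →
      s(u, v) ∈ F) :
    1 / (2 ^ 51 * P) * ∑ v ∈ U, w v ≤ ((bd F U).card : ℝ) := by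
  classical
  obtain ⟨W', hW'⟩ := sampUp_exists hWZ
  obtain ⟨U', hU'⟩ := sampUp_exists (hUW.trans hWZ)
  have hP0 : 0 < P := lt_of_lt_of_le one_pos hP
  have hφ : (0 : ℝ) < 1 / P := by positivity
  have hφ1 : 1 / P ≤ 1 := by rw [div_le_one hP0]; exact hP
  have hne : ∀ j j' : Fin 3, j ≠ j' → bl b j ≠ bl b j' := fun j j' h h2 => h (bl_inj h2).2
  have key := block (sampG Z D hub.loopless) (fun v : ↥Z => w v.1) s (1 / P) (samp_shub hub hs hZ)
    (lt_trans one_pos hs) hφ hφ1 16384 (by norm_num) lab t ht htφ (bl b 0) (bl b 1) (bl b 2)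
    (hne 0 1 (by decide)) (hne 0 2 (by decide)) (hne 1 2 (by decide)) hg (sampBlk lab b) W' rfl
    (by rw [← sampUp_subset_iff, hW']; exact hSW) U' (by rw [← sampUp_subset_iff, hW', hU']; exact hUW)
    (by
      have h1 : ∑ v ∈ U', w v.1 = ∑ v ∈ U, w v := by rw [← hU', sampUp_sum]
      have h2 : ∑ v ∈ W', w v.1 = ∑ v ∈ W, w v := by rw [← hW', sampUp_sum]
      simp only [h1, h2]
      exact hhalf)
  have h1 : ∑ v ∈ U', w v.1 = ∑ v ∈ U, w v := by rw [← hU', sampUp_sum]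
  simp only [h1] at key
  have h2 : ((bd F U).card : ℝ) = ∑ u ∈ U', (dgin F (W \ U) u.1 : ℝ) := by
    rw [card_bd hF hFs hUW, ← hU', sampUp_sum]
    push_cast
    rfl
  have h3 : ∀ u ∈ U', (((W' \ U').filter (fun v => (sampG Z D hub.loopless).Adj u v ∧
      (u ∈ sampBlk lab b ∨ v ∈ sampBlk lab b))).card : ℝ) ≤ (dgin F (W \ U) u.1 : ℝ) := by
    intro u hu
    have huU : u.1 ∈ U := by
      rw [← hU', mem_sampUp]; exact ⟨u.2, hu⟩
    have hmem : ∀ v : ↥Z, v ∈ sampBlk lab b ↔ v.1 ∈ sampUp (sampBlk lab b) := by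
      intro v
      rw [mem_sampUp]
      exact ⟨fun h => ⟨v.2, h⟩, fun h => h.2⟩
    norm_cast
    rw [← hW', ← hU', ← sampUp_sdiff]
    rw [← sampUp_card]
    apply samp_card_le_dgin
    intro v hv
    rw [mem_sampUp] at hv
    obtain ⟨hvZ, hv⟩ := hv
    rw [Finset.mem_filter] at hv
    obtain ⟨hv1, hv2, hv3⟩ := hv
    refine ⟨by rw [mem_sampUp]; exact ⟨hvZ, hv1⟩, ?_⟩
    rw [samp_adj] at hv2
    rw [Finset.mem_sdiff] at hv1
    refine hF2 _ (hUW huU) _ ?_ ⟨hv2, ?_⟩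
    · rw [← hW', mem_sampUp]; exact ⟨hvZ, hv1.1⟩
    · rcases hv3 with hv3 | hv3
      · left; exact (hmem u).1 hv3
      · right; exact (hmem ⟨v, hvZ⟩).1 hv3
  have h4 : ∑ u ∈ U', (((W' \ U').filter (fun v => (sampG Z D hub.loopless).Adj u v ∧
      (u ∈ sampBlk lab b ∨ v ∈ sampBlk lab b))).card : ℝ) ≤ ((bd F U).card : ℝ) := by
    rw [h2]
    exact Finset.sum_le_sum h3
  have h5 : 1 / P * ∑ v ∈ U, w v ≤ 2 ^ 51 * ((bd F U).card : ℝ) := by
    refine key.trans ?_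
    have h6 : (288 : ℝ) * ((16384 : ℕ) : ℝ) ^ 3 ≤ 2 ^ 51 := by norm_num
    have h7 : (0 : ℝ) ≤ ((bd F U).card : ℝ) := by positivity
    calc _ ≤ (288 : ℝ) * ((16384 : ℕ) : ℝ) ^ 3 * ((bd F U).card : ℝ) :=
          mul_le_mul_of_nonneg_left h4 (by positivity)
      _ ≤ _ := mul_le_mul_of_nonneg_right h6 h7
  have h6 : 1 / (2 ^ 51 * P) * ∑ v ∈ U, w v = (1 / P * ∑ v ∈ U, w v) / 2 ^ 51 := by
    field_simp
  rw [h6, div_le_iff₀ (by positivity)]
  linarith

/-- TASK EG-Sampling: transfer `good_labelling` and `block` to a hub `(D, Z)`: `ι = ↥Z`, `G.Adj u v ↔ s(u,v) ∈ D`.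
`T0` = block 0, `S k` = block `k+1` (three label classes each, so `|S k| ≤ 3 · 4|Z|/(3·16384) = |Z|/4096`).
`Hub (ind D (S k))`: `block` with `W = S`; `Hub (inc D T0) Z`: `block` with `W = univ`; `288 · 16384³ ≤ 2^51`. -/
theorem sampling (D : Finset (Sym2 V)) (Z : Finset V) (w : V → ℝ) (s P : ℝ) (L : ℕ)
    (hL : (2 : ℝ) ^ 200 ≤ L) (hP : (L : ℝ) ^ 50 ≤ P) (hs : P ^ 5 ≤ s)
    (hub : Hub D Z w s (1 / P) 1) (hZ2 : 2 ≤ Z.card) (hZL : Z.card ^ 2 ≤ 2 ^ L) :
    ∃ (T0 : Finset V) (S : Fin 3 → Finset V), T0 ⊆ Z ∧ (∀ k, S k ⊆ Z) ∧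
      (∀ k, Disjoint T0 (S k)) ∧ (∀ k l, k ≠ l → Disjoint (S k) (S l)) ∧
      (∀ k, 4096 * (S k).card ≤ Z.card) ∧
      (∀ k, ∀ v ∈ Z, (dg D v : ℝ) ≤ 2 * (16384 : ℕ) * dgin D (S k) v) ∧
      (∀ k, Hub (ind D (S k)) (S k) w s (1 / P) (1 / (2 ^ 51 * P))) ∧
      Hub (inc D T0) Z w s (1 / P) (1 / (2 ^ 51 * P)) := by
  classical
  have hL2 : (2 : ℝ) ≤ L := le_trans (by norm_num) hL
  have hP2 : (2 : ℝ) ≤ P := by
    refine le_trans ?_ hP
    calc (2 : ℝ) ≤ L := hL2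
      _ = (L : ℝ) ^ 1 := (pow_one _).symm
      _ ≤ (L : ℝ) ^ 50 := pow_le_pow_right₀ (by linarith) (by norm_num)
  have hP1 : 1 ≤ P := by linarith
  have hP0 : 0 < P := by linarith
  have hs1 : 1 < s := by
    refine lt_of_lt_of_le ?_ hs
    calc (1 : ℝ) < 2 := by norm_num
      _ ≤ P := hP2
      _ = P ^ 1 := (pow_one _).symm
      _ ≤ P ^ 5 := pow_le_pow_right₀ hP1 (by norm_num)
  have hshub := samp_shub hub hs1 hZ2
  have hcard : Fintype.card ↥Z = Z.card := by simp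
  have hne : Nonempty ↥Z := by
    rw [← Fintype.card_pos_iff, hcard]; omega
  obtain ⟨lab, t, ht0, ht, hgood, hcls⟩ := good_labelling (sampG Z D hub.loopless)
    (fun v : ↥Z => w v.1) s P L hL hP hs hshub hne (by rw [hcard]; exact hZL)
  rw [hcard] at hcls
  have hφ : (0 : ℝ) ≤ 1 / P := by positivity
  have hbne : ∀ k l : Fin 3, k ≠ l → k.succ ≠ l.succ := fun k l h h2 => h (Fin.succ_injective _ h2)
  refine ⟨sampUp (sampBlk lab 0), fun k => sampUp (sampBlk lab k.succ), sampUp_subset _,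
    fun k => sampUp_subset _, fun k => ?_, fun k l hkl => ?_, fun k => ?_, fun k v hv => ?_,
    fun k => ?_, ?_⟩
  · exact sampUp_disjoint (sampBlk_disjoint lab (Fin.succ_ne_zero k).symm)
  · exact sampUp_disjoint (sampBlk_disjoint lab (hbne k l hkl))
  · rw [sampUp_card]
    have h1 : (sampBlk lab k.succ).card ≤ (cls lab (bl k.succ 0)).card +
        (cls lab (bl k.succ 1)).card + (cls lab (bl k.succ 2)).card := by
      unfold sampBlk
      refine (Finset.card_union_le _ _).trans ?_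
      exact Nat.add_le_add_right (Finset.card_union_le _ _) _
    have h2 := hcls (bl k.succ 0)
    have h3 := hcls (bl k.succ 1)
    have h4 := hcls (bl k.succ 2)
    omega
  · have h1 := (hgood k.succ).deg ⟨v, hv⟩
    rw [samp_dgr _ (samp_adj Z D hub.loopless), samp_dgr _ (samp_adj Z D hub.loopless), sampUp_univ,
      ← dg_eq_dgin hub.loopless hub.supp] at h1
    refine h1.trans ?_
    have h2 : dgin D (sampUp (cls lab (bl k.succ 0))) v ≤ dgin D (sampUp (sampBlk lab k.succ)) v := by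
      apply samp_dgin_mono
      apply sampUp_mono
      unfold sampBlk
      intro x hx
      rw [Finset.mem_union, Finset.mem_union]
      exact Or.inl (Or.inl hx)
    have h3 : (dgin D (sampUp (cls lab (bl k.succ 0))) v : ℝ) ≤
        dgin D (sampUp (sampBlk lab k.succ)) v := by exact_mod_cast h2
    exact mul_le_mul_of_nonneg_left h3 (by positivity)
  · have hl : Loopless (ind D (sampUp (sampBlk lab k.succ))) := fun e he =>
      hub.loopless e (mem_ind.1 he).1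
    have hsp : Supp (ind D (sampUp (sampBlk lab k.succ))) (sampUp (sampBlk lab k.succ)) :=
      fun e he => (mem_ind.1 he).2
    refine ⟨hl, hsp, fun v hv => hub.w_ge v (sampUp_subset _ hv), fun v hv => ?_, fun U hU hhalf => ?_⟩
    · refine le_trans ?_ (hub.w_deg v (sampUp_subset _ hv))
      apply mul_le_mul_of_nonneg_left _ hφ
      exact_mod_cast dg_mono (fun e he => (mem_ind.1 he).1) v
    · refine samp_block hub hP1 hs1 hZ2 lab t ht0 ht k.succ (hgood k.succ) _ U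
        (Finset.Subset.refl _) (sampUp_subset _) hU hhalf _ hl hsp ?_
      rintro u hu v hv ⟨huv, -⟩
      rw [mem_ind]
      refine ⟨huv, fun x hx => ?_⟩
      rw [Sym2.mem_iff] at hx
      rcases hx with rfl | rfl
      · exact hu
      · exact hv
  · have hl : Loopless (inc D (sampUp (sampBlk lab 0))) := fun e he =>
      hub.loopless e (mem_inc.1 he).1
    have hsp : Supp (inc D (sampUp (sampBlk lab 0))) Z :=
      fun e he => hub.supp e (mem_inc.1 he).1
    refine ⟨hl, hsp, fun v hv => hub.w_ge v hv, fun v hv => ?_, fun U hU hhalf => ?_⟩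
    · refine le_trans ?_ (hub.w_deg v hv)
      apply mul_le_mul_of_nonneg_left _ hφ
      exact_mod_cast dg_mono (fun e he => (mem_inc.1 he).1) v
    · refine samp_block hub hP1 hs1 hZ2 lab t ht0 ht 0 (hgood 0) Z U
        (sampUp_subset _) (Finset.Subset.refl _) hU hhalf _ hl hsp ?_
      rintro u hu v hv ⟨huv, h⟩
      rw [mem_inc]
      refine ⟨huv, ?_⟩
      rcases h with h | h
      · exact ⟨u, by simp, h⟩
      · exact ⟨v, by simp, h⟩

end Crest.Agent.EG
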