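import Crest.Agent.EG_List
import Crest.Agent.EG_HubB

set_option autoImplicit false

namespace Crest.Agent.EG

variable {V : Type*} [DecidableEq V]

namespace Sep

open Relation

/-- adjacency inside `C` -/
def R (H : Finset (Sym2 V)) (C : Finset V) (a b : V) : Prop := a ∈ C ∧ b ∈ C ∧ s(a, b) ∈ H

theorem R_symm {H : Finset (Sym2 V)} {C : Finset V} {a b : V} (h : R H C a b) : R H C b a :=
  ⟨h.2.1, h.1, by rw [Sym2.eq_swap]; exact h.2.2⟩

theorem rtg_symm {H : Finset (Sym2 V)} {C : Finset V} {a b : V} (h : ReflTransGen (R H C) a b) :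
    ReflTransGen (R H C) b a := by
  induction h with
  | refl => exact ReflTransGen.refl
  | tail _ h2 ih => exact ReflTransGen.head (R_symm h2) ih

open Classical in
/-- component of `a` in `H[C]` -/
noncomputable def comp (H : Finset (Sym2 V)) (C : Finset V) (a : V) : Finset V :=
  C.filter (fun b => ReflTransGen (R H C) a b)

theorem mem_comp {H : Finset (Sym2 V)} {C : Finset V} {a b : V} :
    b ∈ comp H C a ↔ b ∈ C ∧ ReflTransGen (R H C) a b := by
  simp [comp]

theorem comp_subset {H : Finset (Sym2 V)} {C : Finset V} {a : V} : comp H C a ⊆ C :=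
  fun _ hb => (mem_comp.1 hb).1

theorem comp_closed {H : Finset (Sym2 V)} {C : Finset V} {a z y : V} (hz : z ∈ comp H C a)
    (hy : y ∈ C) (h : s(z, y) ∈ H) : y ∈ comp H C a :=
  mem_comp.2 ⟨hy, (mem_comp.1 hz).2.tail ⟨(mem_comp.1 hz).1, hy, h⟩⟩

theorem comp_conn_aux {H : Finset (Sym2 V)} {C : Finset V} {a b : V} (ha : a ∈ C)
    (hb : ReflTransGen (R H C) a b) : ReflTransGen (R H (comp H C a)) a b := by
  induction hb with
  | refl => exact ReflTransGen.refl
  | tail h1 h2 ih =>
    exact ih.tail ⟨mem_comp.2 ⟨h2.1, h1⟩, mem_comp.2 ⟨h2.2.1, h1.tail h2⟩, h2.2.2⟩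

theorem comp_conn {H : Finset (Sym2 V)} {C : Finset V} {a : V} (ha : a ∈ C) {b b' : V}
    (hb : b ∈ comp H C a) (hb' : b' ∈ comp H C a) : ReflTransGen (R H (comp H C a)) b b' := by
  have h1 := comp_conn_aux ha (mem_comp.1 hb).2
  have h2 := comp_conn_aux ha (mem_comp.1 hb').2
  exact (rtg_symm h1).trans h2

/-- a union of small components of the right size -/
theorem exists_union {H : Finset (Sym2 V)} {W : Finset V} {K : ℕ}
    (hW : K ≤ 2 * W.card) (hc : ∀ a ∈ W, (comp H W a).card < K) :
    ∃ T ⊆ W, (∀ x ∈ T, ∀ y ∈ W, s(x, y) ∈ H → y ∈ T) ∧ K ≤ 2 * T.card ∧ 2 * T.card ≤ 3 * K := by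
  classical
  obtain ⟨T, hT, hmax⟩ := Finset.exists_max_image
    (W.powerset.filter (fun T => (∀ x ∈ T, ∀ y ∈ W, s(x, y) ∈ H → y ∈ T) ∧ 2 * T.card ≤ 3 * K))
    Finset.card ⟨∅, by simp⟩
  rw [Finset.mem_filter, Finset.mem_powerset] at hT
  obtain ⟨hTW, hcl, hT3⟩ := hT
  refine ⟨T, hTW, hcl, ?_, hT3⟩
  by_contra hlt
  push Not at hlt
  have h1 : T.card < W.card := by omega
  obtain ⟨a, haW, haT⟩ : ∃ a ∈ W, a ∉ T := by
    by_contra hcon
    push Not at hcon
    exact absurd (Finset.card_le_card (show W ⊆ T from hcon)) (by omega)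
  have h2 := hc a haW
  have haC : a ∈ comp H W a := mem_comp.2 ⟨haW, ReflTransGen.refl⟩
  have h3 : T ∪ comp H W a ∈ W.powerset.filter
      (fun T => (∀ x ∈ T, ∀ y ∈ W, s(x, y) ∈ H → y ∈ T) ∧ 2 * T.card ≤ 3 * K) := by
    rw [Finset.mem_filter, Finset.mem_powerset]
    refine ⟨Finset.union_subset hTW comp_subset, ?_, ?_⟩
    · intro x hx y hy h
      rw [Finset.mem_union] at hx ⊢
      rcases hx with hx | hx
      · exact Or.inl (hcl x hx y hy h)
      · exact Or.inr (comp_closed hx hy h)
    · have := Finset.card_union_le T (comp H W a)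
      omega
  have h4 := hmax _ h3
  have h5 : T.card < (T ∪ comp H W a).card := by
    apply Finset.card_lt_card
    refine ⟨Finset.subset_union_left, fun hsub => haT (hsub ?_)⟩
    exact Finset.mem_union_right _ haC
  omega

/-- walks from reachability -/
theorem walk_of_rtg {H : Finset (Sym2 V)} {C : Finset V} {a b : V} (ha : a ∈ C)
    (h : ReflTransGen (R H C) a b) :
    ∃ l : List V, l.head? = some a ∧ l.getLast? = some b ∧ (∀ x ∈ l, x ∈ C) ∧
      ∀ e ∈ pE l, e ∈ H := by
  induction h using ReflTransGen.head_induction_on with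
  | refl => exact ⟨[b], rfl, rfl, by simpa using ha, by simp [pE]⟩
  | head h1 h2 ih =>
    obtain ⟨l, hl1, hl2, hl3, hl4⟩ := ih h1.2.1
    cases l with
    | nil => simp at hl1
    | cons c l =>
      simp only [List.head?_cons, Option.some.injEq] at hl1
      subst hl1
      refine ⟨_ :: c :: l, rfl, ?_, ?_, ?_⟩
      · rw [List.getLast?_cons_cons]; exact hl2
      · intro x hx
        rcases List.mem_cons.1 hx with rfl | hx
        · exact ha
        · exact hl3 x hx
      · intro e he
        simp only [pE, List.mem_cons] at he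
        rcases he with rfl | he
        · exact h1.2.2
        · exact hl4 e he

theorem first_split (Q : V → Prop) (p : List V) :
    (∀ x ∈ p, ¬ Q x) ∨ ∃ (p1 : List V) (y : V) (p2 : List V), p = p1 ++ y :: p2 ∧
      (∀ x ∈ p1, ¬ Q x) ∧ Q y := by
  classical
  induction p with
  | nil => left; simp
  | cons a p ih =>
    by_cases ha : Q a
    · right; exact ⟨[], a, p, rfl, by simp, ha⟩
    · rcases ih with ih | ⟨p1, y, p2, h1, h2, h3⟩
      · left
        intro x hx
        rcases List.mem_cons.1 hx with rfl | hx
        · exact ha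
        · exact ih x hx
      · right
        refine ⟨a :: p1, y, p2, by rw [h1]; rfl, ?_, h3⟩
        intro x hx
        rcases List.mem_cons.1 hx with rfl | hx
        · exact ha
        · exact h2 x hx

/-- the state of the argument -/
structure St (S : Finset V) (H : Finset (Sym2 V)) (K : ℕ) (p : List V) (C : Finset V) : Prop where
  nodup : p.Nodup
  edges : ∀ e ∈ pE p, e ∈ H
  sub : C ⊆ S
  disj : ∀ x ∈ C, x ∉ p
  conn : ∀ a ∈ C, ∀ b ∈ C, ReflTransGen (R H C) a b
  nb : ∀ x ∈ C, ∀ y, s(x, y) ∈ H → y ∈ C ∨ y ∈ p
  last : ∀ v, p.getLast? = some v → ∃ x ∈ C, s(v, x) ∈ H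
  card : K ≤ C.card

/-- exit edge -/
theorem exists_exit {H : Finset (Sym2 V)} {C D : Finset V} {a x : V}
    (h : ReflTransGen (R H C) a x) (ha : a ∈ D) (hx : x ∉ D) :
    ∃ u ∈ D, ∃ w, w ∉ D ∧ R H C u w := by
  induction h with
  | refl => exact absurd ha hx
  | @tail b c h1 h2 ih =>
    by_cases hb : b ∈ D
    · exact ⟨b, hb, c, hx, h2⟩
    · exact ih hb

/-- few vertices of the path have neighbours in `C` -/
theorem St.few {S : Finset V} {H : Finset (Sym2 V)} {K M : ℕ} {p : List V} {C : Finset V}
    (st : St S H K p C) (hM : 3 ≤ M) (hcyc : ∀ D ⊆ H, IsCyc D → D.card < M) :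
    ∃ F : Finset V, F.card + 1 ≤ M ∧ ∀ y ∈ p, (∃ x ∈ C, s(x, y) ∈ H) → y ∈ F := by
  rcases first_split (fun y => ∃ x ∈ C, s(x, y) ∈ H) p with h | ⟨p1, y, p2, hp, h1, h2⟩
  · exact ⟨∅, by simp; omega, fun y hy hq => absurd hq (h y hy)⟩
  · have hF : ∀ z ∈ p, (∃ x ∈ C, s(x, z) ∈ H) → z ∈ (y :: p2).toFinset := by
      intro z hz hq
      rw [hp, List.mem_append] at hz
      rcases hz with hz | hz
      · exact absurd hq (h1 z hz)
      · exact List.mem_toFinset.2 hz
    refine ⟨(y :: p2).toFinset, ?_, hF⟩
    have hcard : (y :: p2).toFinset.card ≤ p2.length + 1 := List.toFinset_card_le _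
    rcases List.eq_nil_or_concat p2 with hnil | ⟨p3, v, hv⟩
    · subst hnil
      simp at hcard ⊢
      omega
    · -- the cycle
      obtain ⟨w, hwC, hw⟩ := h2
      have hlast : p.getLast? = some v := by
        rw [hp, hv, List.concat_eq_append, ← List.cons_append, ← List.append_assoc,
          List.getLast?_concat]
      obtain ⟨u, huC, hu⟩ := st.last v hlast
      obtain ⟨q0, hq1, hq2, hq3, hq4⟩ := walk_of_rtg huC (st.conn u huC w hwC)
      obtain ⟨q, hqn, hq1', hq2', -, hqm, hqe⟩ := exists_path_of_walk q0 u w hq1 hq2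
      have hqC : ∀ x ∈ q, x ∈ C := fun x hx => hq3 x (hqm x hx)
      have hyp2 : (y :: p2).getLast? = some v := by
        rw [hv, List.concat_eq_append, ← List.cons_append, List.getLast?_concat]
      have hsubl : ∀ x ∈ y :: p2, x ∈ p := fun x hx => by
        rw [hp]; exact List.mem_append_right _ hx
      have hnd : ((y :: p2) ++ q).Nodup := by
        rw [List.nodup_append]
        refine ⟨?_, hqn, ?_⟩
        · have := st.nodup
          rw [hp] at this
          exact (List.nodup_append.1 this).2.1
        · intro x hx z hz hxz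
          subst hxz
          exact st.disj x (hqC x hz) (hsubl x hx)
      have hq0 : q ≠ [] := by rintro rfl; simp at hq1'
      have hlen : 3 ≤ ((y :: p2) ++ q).length := by
        have h5 : 0 < q.length := List.length_pos_iff.2 hq0
        have h6 : 0 < p2.length := by rw [hv]; simp
        simp only [List.length_append, List.length_cons]
        omega
      have hedge1 : pE ((y :: p2) ++ q) = pE (y :: p2) ++ s(v, u) :: pE q :=
        pE_append _ _ _ _ hyp2 hq1'
      have hpe : ∀ e ∈ pE (y :: p2), e ∈ H := by
        intro e he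
        apply st.edges
        rw [hp, pE_append_cons]
        exact List.mem_append_right _ he
      have hcy : cycE ((y :: p2) ++ q) = pE ((y :: p2) ++ q) ++ [s(w, y)] := by
        apply cycE_eq
        · simp
        · rw [List.getLast?_append, hq2']; simp
      have hall : ∀ e ∈ cycE ((y :: p2) ++ q), e ∈ H := by
        intro e he
        rw [hcy, hedge1] at he
        simp only [List.mem_append, List.mem_cons, List.not_mem_nil, or_false] at he
        rcases he with (he | he | he) | he
        · exact hpe e he
        · rw [he]; exact hu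
        · exact hq4 e (hqe e he)
        · rw [he]; exact hw
      have hC1 : IsCyc (cycE ((y :: p2) ++ q)).toFinset := ⟨_, hnd, hlen, rfl⟩
      have hC2 := hcyc _ (fun e he => hall e (List.mem_toFinset.1 he)) hC1
      rw [List.toFinset_card_of_nodup (nodup_cycE hnd hlen), length_cycE] at hC2
      simp only [List.length_append, List.length_cons] at hC2
      have h5 : 0 < q.length := List.length_pos_iff.2 hq0
      omega

end Sep

open Crest.Agent.EG.Sep Relation in
/-- TASK EG-Sep: separator lemma for graphs without long cycles.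
Proof. Consider pairs `(p, C)`: `p` a path (nodup list of vertices of `S`, consecutive edges in `H`), `C ⊆ S` connected in
`H[C]`, disjoint from `p`, all `H`-neighbours of `C` lie in `C ∪ p`, and if `p ≠ []` the last vertex of `p` has an
`H`-neighbour in `C`.
If all connected components of `H` on `S` have fewer than `K` vertices, take a union `T` of components with
`K ≤ 2|T| ≤ 3K` (possible as `|S| ≥ K`; add components one by one), no outside neighbours. Otherwise a component `C` of size
`≥ K` gives a pair with `p = []`. Take a pair with `|C| ≥ K` minimal. Choose `x ∈ C` adjacent to the last vertex of `p` (any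
`x ∈ C` if `p = []`). The components of `H[C \ {x}]` are all adjacent to `x` (`C` connected) and `(p ++ [x], C')` is again a pair
for each such component `C'`, hence `|C'| < K`. Total size `|C| - 1 ≥ K - 1 ≥ K/2`; a union `T` of some of them has
`K ≤ 2 |T| ≤ 3 K`. The neighbours of `T` outside `T` lie in `{x} ∪ p`. If `v_i ∈ p = (v_1..v_t)` has a neighbour in `C`, then
`v_i, …, v_t`, then a path in `C` from a neighbour of `v_t` to a neighbour of `v_i`, is a cycle of length `≥ t - i + 2`
(if it has length at least 3), so `t - i + 2 < M` or `i = t`. Hence at most `M` neighbours in total. -/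
theorem separator (S : Finset V) (H : Finset (Sym2 V)) (hl : Loopless H) (hH : Supp H S) (M K : ℕ)
    (hM : 3 ≤ M) (hK : 2 ≤ K) (hS : K ≤ S.card)
    (hcyc : ∀ C ⊆ H, IsCyc C → C.card < M) :
    ∃ T ⊆ S, K ≤ 2 * T.card ∧ 2 * T.card ≤ 3 * K ∧
      ((S \ T).filter (fun y => ∃ x ∈ T, s(x, y) ∈ H)).card ≤ M := by
  classical
  by_cases hsm : ∀ a ∈ S, (comp H S a).card < K
  · obtain ⟨T, hTS, hcl, h1, h2⟩ := exists_union (by omega) hsm
    refine ⟨T, hTS, h1, h2, ?_⟩
    have : (S \ T).filter (fun y => ∃ x ∈ T, s(x, y) ∈ H) = ∅ := by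
      rw [Finset.filter_eq_empty_iff]
      rintro y hy ⟨x, hx, hxy⟩
      rw [Finset.mem_sdiff] at hy
      exact hy.2 (hcl x hx y hy.1 hxy)
    rw [this]
    simp
  · push Not at hsm
    obtain ⟨a, haS, haK⟩ := hsm
    have hex : ∃ n : ℕ, ∃ (p : List V) (C : Finset V), St S H K p C ∧ C.card = n := by
      refine ⟨_, [], comp H S a, ⟨List.nodup_nil, by simp [pE], comp_subset, by simp, ?_, ?_, by simp,
        haK⟩, rfl⟩
      · intro b hb b' hb'
        exact comp_conn haS hb hb'
      · intro x hx y hxy
        left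
        exact comp_closed hx (hH _ hxy y (Sym2.mem_mk_right _ _)) hxy
    obtain ⟨p, C, st, hCn⟩ := Nat.find_spec hex
    have hmin := fun n hn => Nat.find_min hex (m := n) hn
    rw [← hCn] at hmin
    -- choice of `x`
    obtain ⟨x, hxC, hxl⟩ : ∃ x ∈ C, ∀ v, p.getLast? = some v → s(v, x) ∈ H := by
      rcases hpl : p.getLast? with _ | v
      · obtain ⟨x, hx⟩ : C.Nonempty := Finset.card_pos.1 (by have := st.card; omega)
        exact ⟨x, hx, by simp⟩
      · obtain ⟨x, hx, hx2⟩ := st.last v hpl
        exact ⟨x, hx, by rintro v' ⟨⟩; exact hx2⟩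
    have hWC : C.erase x ⊆ C := Finset.erase_subset _ _
    have hWcard : (C.erase x).card = C.card - 1 := Finset.card_erase_of_mem hxC
    have hcomp : ∀ a ∈ C.erase x, (comp H (C.erase x) a).card < K := by
      intro a ha
      by_contra hge
      push Not at hge
      have hsub : comp H (C.erase x) a ⊆ C := comp_subset.trans hWC
      have hlt : (comp H (C.erase x) a).card < C.card := by
        refine lt_of_le_of_lt (Finset.card_le_card comp_subset) ?_
        rw [hWcard]
        have := st.card
        omega
      apply hmin _ hlt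
      refine ⟨p ++ [x], comp H (C.erase x) a, ⟨?_, ?_, hsub.trans st.sub, ?_, ?_, ?_, ?_, hge⟩, rfl⟩
      · rw [List.nodup_append]
        refine ⟨st.nodup, List.nodup_singleton x, ?_⟩
        intro y hy z hz hyz
        rw [List.mem_singleton] at hz
        subst hz; subst hyz
        exact st.disj _ hxC hy
      · intro e he
        rcases hpl : p.getLast? with _ | v
        · have hp0 : p = [] := List.getLast?_eq_none_iff.1 hpl
          rw [hp0] at he
          simp [pE] at he
        · rw [pE_append p [x] v x hpl rfl] at he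
          simp only [pE, List.mem_append, List.mem_cons, List.not_mem_nil, or_false] at he
          rcases he with he | he
          · exact st.edges e he
          · rw [he]; exact hxl v hpl
      · intro y hy hyp
        rw [List.mem_append, List.mem_singleton] at hyp
        rcases hyp with hyp | hyp
        · exact st.disj y (hsub hy) hyp
        · exact (Finset.mem_erase.1 (comp_subset hy)).1 hyp
      · intro b hb b' hb'
        exact comp_conn ha hb hb'
      · intro z hz y hzy
        rcases st.nb z (hsub hz) y hzy with h | h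
        · by_cases hyx : y = x
          · right; rw [hyx]; simp
          · left
            exact comp_closed hz (Finset.mem_erase.2 ⟨hyx, h⟩) hzy
        · right; exact List.mem_append_left _ h
      · intro v hv
        have hvx : v = x := by
          rw [List.getLast?_append] at hv
          simpa using hv.symm
        subst hvx
        have hpath := st.conn a (hWC ha) v hxC
        have hvn : v ∉ comp H (C.erase v) a := fun h =>
          (Finset.mem_erase.1 (comp_subset h)).1 rfl
        have haa : a ∈ comp H (C.erase v) a := mem_comp.2 ⟨ha, ReflTransGen.refl⟩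
        obtain ⟨u, hu, w, hw, huw⟩ := exists_exit hpath haa hvn
        by_cases hwv : w = v
        · subst hwv
          exact ⟨u, hu, by rw [Sym2.eq_swap]; exact huw.2.2⟩
        · exact absurd (comp_closed hu (Finset.mem_erase.2 ⟨hwv, huw.2.1⟩) huw.2.2) hw
    obtain ⟨T, hTW, hcl, h1, h2⟩ := exists_union (W := C.erase x)
      (by rw [hWcard]; have := st.card; omega) hcomp
    have hTC : T ⊆ C := hTW.trans hWC
    refine ⟨T, hTC.trans st.sub, h1, h2, ?_⟩
    obtain ⟨F, hF1, hF2⟩ := st.few hM hcyc
    have hsub : (S \ T).filter (fun y => ∃ x ∈ T, s(x, y) ∈ H) ⊆ insert x F := by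
      intro y hy
      rw [Finset.mem_filter, Finset.mem_sdiff] at hy
      obtain ⟨⟨hyS, hyT⟩, z, hz, hzy⟩ := hy
      rw [Finset.mem_insert]
      rcases st.nb z (hTC hz) y hzy with h | h
      · left
        by_contra hyx
        exact hyT (hcl z hz y (Finset.mem_erase.2 ⟨hyx, h⟩) hzy)
      · right
        exact hF2 y h ⟨z, hTC hz, hzy⟩
    exact (Finset.card_le_card hsub).trans ((Finset.card_insert_le _ _).trans hF1)

end Crest.Agent.EG
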