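import Crest.Agent.EG_Stars
import Crest.Agent.EG_Match
import Crest.Agent.EG_Group
import Crest.Agent.EG_Gamma

set_option autoImplicit false

namespace Crest.Agent.EG

variable {V : Type*} [DecidableEq V]

omit [DecidableEq V] in
theorem skel_dgin_mono {R R' : Finset (Sym2 V)} (h : R' ⊆ R) (Z : Finset V) (u : V) :
    dgin R' Z u ≤ dgin R Z u := by
  classical
  unfold dgin
  apply Finset.card_le_card
  intro y hy
  rw [Finset.mem_filter] at hy ⊢
  exact ⟨hy.1, h hy.2⟩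

theorem skel_loopless_image (𝓒 : Finset (Finset V)) (hdisj : (𝓒 : Set (Finset V)).PairwiseDisjoint id)
    (R : Finset (Sym2 V)) (hl : Loopless R) (hR : ∀ e ∈ R, ∀ Z ∈ 𝓒, ¬ ∀ x ∈ e, x ∈ Z)
    (π : V → V) (hπ1 : ∀ u, (∀ Z ∈ 𝓒, u ∉ Z) → π u = u) (hπ2 : ∀ Z ∈ 𝓒, ∀ u ∈ Z, π u ∈ Z) :
    Loopless (R.image (Sym2.map π)) := by
  intro e he
  obtain ⟨e', he', rfl⟩ := Finset.mem_image.1 he
  induction e' using Sym2.ind with
  | _ x y =>
    rw [Sym2.map_mk]
    show ¬ Sym2.IsDiag s(π x, π y)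
    rw [Sym2.mk_isDiag_iff]
    intro hxy
    have hne : x ≠ y := by
      intro h
      apply hl _ he'
      rw [Sym2.mk_isDiag_iff]
      exact h
    by_cases hx : ∃ Z ∈ 𝓒, x ∈ Z
    · obtain ⟨Z, hZ, hxZ⟩ := hx
      have h1 := hπ2 Z hZ x hxZ
      by_cases hy : ∃ Z' ∈ 𝓒, y ∈ Z'
      · obtain ⟨Z', hZ', hyZ'⟩ := hy
        have h2 := hπ2 Z' hZ' y hyZ'
        have hZZ : Z = Z' := by
          by_contra hne'
          have := hdisj hZ hZ' hne'
          exact Finset.disjoint_left.1 this h1 (hxy ▸ h2)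
        subst hZZ
        apply hR _ he' Z hZ
        intro z hz
        rcases Sym2.mem_iff.1 hz with rfl | rfl
        · exact hxZ
        · exact hyZ'
      · push Not at hy
        have h2 := hπ1 y hy
        rw [h2] at hxy
        exact hy Z hZ (hxy ▸ h1)
    · push Not at hx
      have h1 := hπ1 x hx
      by_cases hy : ∃ Z' ∈ 𝓒, y ∈ Z'
      · obtain ⟨Z', hZ', hyZ'⟩ := hy
        have h2 := hπ2 Z' hZ' y hyZ'
        rw [h1] at hxy
        exact hx Z' hZ' (hxy ▸ h2)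
      · push Not at hy
        have h2 := hπ1 y hy
        rw [h1, h2] at hxy
        exact hne hxy

theorem skel_supp_image (S : Finset V) (R : Finset (Sym2 V)) (hS : Supp R S) (π : V → V) :
    Supp (R.image (Sym2.map π)) (S.image π) := by
  intro e he x hx
  obtain ⟨e', he', rfl⟩ := Finset.mem_image.1 he
  obtain ⟨y, hy, rfl⟩ := Sym2.mem_map.1 hx
  exact Finset.mem_image_of_mem π (hS e' he' y hy)

theorem skel_card_image (S : Finset V) (𝓒 : Finset (Finset V))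
    (hdisj : (𝓒 : Set (Finset V)).PairwiseDisjoint id) (hsub : ∀ Z ∈ 𝓒, Z ⊆ S) (g : ℕ)
    (π : V → V) (hπ3 : ∀ Z ∈ 𝓒, (Z.image π).card ≤ g) :
    (S.image π).card + ∑ Z ∈ 𝓒, Z.card ≤ S.card + g * 𝓒.card := by
  have hU : 𝓒.biUnion id ⊆ S := by
    intro x hx
    obtain ⟨Z, hZ, hxZ⟩ := Finset.mem_biUnion.1 hx
    exact hsub Z hZ hxZ
  have h1 : S.image π ⊆ (S \ 𝓒.biUnion id).image π ∪ 𝓒.biUnion (fun Z => Z.image π) := by
    intro y hy
    obtain ⟨x, hx, rfl⟩ := Finset.mem_image.1 hy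
    by_cases hxU : x ∈ 𝓒.biUnion id
    · obtain ⟨Z, hZ, hxZ⟩ := Finset.mem_biUnion.1 hxU
      apply Finset.mem_union_right
      exact Finset.mem_biUnion.2 ⟨Z, hZ, Finset.mem_image_of_mem π hxZ⟩
    · apply Finset.mem_union_left
      exact Finset.mem_image_of_mem π (Finset.mem_sdiff.2 ⟨hx, hxU⟩)
  have h2 : (𝓒.biUnion id).card = ∑ Z ∈ 𝓒, Z.card := by
    rw [Finset.card_biUnion]
    · rfl
    · intro Z hZ Z' hZ' hne
      exact hdisj hZ hZ' hne
  have h3 : (S \ 𝓒.biUnion id).card + (𝓒.biUnion id).card = S.card :=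
    Finset.card_sdiff_add_card_eq_card hU
  have h4 : (𝓒.biUnion (fun Z => Z.image π)).card ≤ ∑ Z ∈ 𝓒, g :=
    (Finset.card_biUnion_le).trans (Finset.sum_le_sum hπ3)
  rw [Finset.sum_const, smul_eq_mul] at h4
  have h5 := (Finset.card_le_card h1).trans (Finset.card_union_le _ _)
  have h6 : ((S \ 𝓒.biUnion id).image π).card ≤ (S \ 𝓒.biUnion id).card := Finset.card_image_le
  have h7 : 𝓒.card * g = g * 𝓒.card := mul_comm _ _
  omega

/-- TASK EG-Skel: assembly of `stars_elim` (R → R¹), `match_elim` (R¹ → R²), `grouping` (R² → R³, the edges of `R² \ R³` are put in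
`R₁`), and the induction hypothesis `IH` for `Γ = image of R³`, on the vertex set `S.image π`,
`|S.image π| ≤ |S| - Σ|Z| + g |𝓒| < |S|`, lifted by `gamma_lift`. -/
theorem skel (S : Finset V) (𝓒 : Finset (Finset V)) (hdisj : (𝓒 : Set (Finset V)).PairwiseDisjoint id)
    (hsub : ∀ Z ∈ 𝓒, Z ⊆ S) (hne : 𝓒.Nonempty)
    (R : Finset (Sym2 V)) (hl : Loopless R) (hS : Supp R S) (hR : ∀ e ∈ R, ∀ Z ∈ 𝓒, ¬ ∀ x ∈ e, x ∈ Z)
    (g : ℕ) (hg : 2 ≤ g) (heven : Even g) (hcard : ∀ Z ∈ 𝓒, g < Z.card) (b : Finset V → ℝ)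
    (hb : ∀ Z ∈ 𝓒, ∀ v ∈ Z, (Z.card : ℝ) / 2 + 2 * dg R v ≤ b Z) (τ : ℝ) (hτ : 0 ≤ τ)
    (IH : ∀ (S' : Finset V) (E' : Finset (Sym2 V)), Loopless E' → Supp E' S' → S'.card < S.card →
      (cd E' : ℝ) ≤ τ * S'.card) :
    ∃ (R₁ : Finset (Sym2 V)) (𝒦 : Finset (List (V × V))), SkFam 𝓒 g R 𝒦 R₁ ∧
      (𝒦.card : ℝ) + R₁.card ≤ ∑ Z ∈ 𝓒, (b Z + 1) + 2 * R.card / g +
        τ * (S.card - ∑ Z ∈ 𝓒, (Z.card : ℝ) + g * 𝓒.card) := by
  have hZne : ∀ Z ∈ 𝓒, Z.Nonempty := by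
    intro Z hZ
    rw [← Finset.card_pos]
    have := hcard Z hZ
    omega
  obtain ⟨R1, K1, h1, hstar1, hc1⟩ := stars_elim 𝓒 hdisj hZne R hl hR g (by omega) b hb
  have hR1 := h1.sub
  obtain ⟨R2, K2, h2, hbtw2, hc2⟩ := match_elim 𝓒 hdisj R1 (fun e he => hl e (hR1 he))
    (fun e he => hR e (hR1 he)) g hg heven hstar1
  have hR2 := h2.sub
  obtain ⟨π, R3, hR3, hπ1, hπ2, hπ3, hinj, hc3⟩ := grouping 𝓒 hdisj S hsub R2
    (fun e he => hl e (hR1 (hR2 he))) (fun e he => hS e (hR1 (hR2 he)))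
    (fun e he => hR e (hR1 (hR2 he))) g (by omega) (fun Z hZ => (hcard Z hZ).le)
    (fun Z hZ u hu => (skel_dgin_mono hR2 Z u).trans (hstar1 Z hZ u hu))
    (fun Z hZ Z' hZ' hne => (hbtw2 Z hZ Z' hZ' hne).le)
  have hR3R : R3 ⊆ R := fun e he => hR1 (hR2 (hR3 he))
  obtain ⟨R4, K3, h3, hc4⟩ := gamma_lift 𝓒 hdisj R3 (fun e he => hl e (hR3R he))
    (fun e he => hR e (hR3R he)) g π hπ1 hπ2 hπ3 hinj
  have hcardS := skel_card_image S 𝓒 hdisj hsub g π hπ3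
  have hlt : g * 𝓒.card < ∑ Z ∈ 𝓒, Z.card := by
    have : ∑ Z ∈ 𝓒, g < ∑ Z ∈ 𝓒, Z.card := Finset.sum_lt_sum_of_nonempty hne hcard
    rwa [Finset.sum_const, smul_eq_mul, mul_comm] at this
  have hSlt : (S.image π).card < S.card := by omega
  have hIH := IH (S.image π) (R3.image (Sym2.map π))
    (skel_loopless_image 𝓒 hdisj R3 (fun e he => hl e (hR3R he)) (fun e he => hR e (hR3R he)) π hπ1 hπ2)
    (skel_supp_image S R3 (fun e he => hS e (hR3R he)) π) hSlt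
  have hdis : Disjoint R3 (R2 \ R3) := Finset.disjoint_sdiff
  have h3' := h3.add hdis
  rw [Finset.union_sdiff_of_subset hR3] at h3'
  refine ⟨R4 ∪ (R2 \ R3), K1 ∪ (K2 ∪ K3), h1.trans (h2.trans h3'), ?_⟩
  have e1 : ((K1 ∪ (K2 ∪ K3)).card : ℝ) ≤ K1.card + (K2.card + K3.card) := by
    have a1 := Finset.card_union_le K1 (K2 ∪ K3)
    have a2 := Finset.card_union_le K2 K3
    have : (K1 ∪ (K2 ∪ K3)).card ≤ K1.card + (K2.card + K3.card) := by omega
    exact_mod_cast this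
  have e2 : ((R4 ∪ (R2 \ R3)).card : ℝ) ≤ R4.card + ((R2.card : ℝ) - R3.card) := by
    have a1 := Finset.card_union_le R4 (R2 \ R3)
    have a2 := Finset.card_sdiff_add_card_eq_card hR3
    have a3 : (R4 ∪ (R2 \ R3)).card + R3.card ≤ R4.card + R2.card := by omega
    have a4 : ((R4 ∪ (R2 \ R3)).card : ℝ) + R3.card ≤ R4.card + R2.card := by exact_mod_cast a3
    linarith
  have e3 : (K3.card : ℝ) + R4.card ≤ τ * (S.image π).card := by
    have : ((K3.card + R4.card : ℕ) : ℝ) ≤ (cd (R3.image (Sym2.map π)) : ℝ) := by exact_mod_cast hc4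
    push_cast at this
    linarith
  have e4 : ((S.image π).card : ℝ) ≤ S.card - ∑ Z ∈ 𝓒, (Z.card : ℝ) + g * 𝓒.card := by
    have : ((S.image π).card : ℝ) + ∑ Z ∈ 𝓒, (Z.card : ℝ) ≤ S.card + g * 𝓒.card := by
      exact_mod_cast hcardS
    linarith
  have e5 := mul_le_mul_of_nonneg_left e4 hτ
  have hg0 : (0 : ℝ) < g := by
    have : 0 < g := by omega
    exact_mod_cast this
  have c1 : (R1.card : ℝ) ≤ R.card := by exact_mod_cast Finset.card_le_card hR1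
  have c2 : (R2.card : ℝ) ≤ R1.card := by exact_mod_cast Finset.card_le_card hR2
  have c0 : (0 : ℝ) ≤ R2.card := Nat.cast_nonneg _
  have e6 : ((R.card : ℝ) - R1.card) / (2 * g) + ((R1.card : ℝ) - R2.card) / g +
      R2.card / (2 * g) ≤ 2 * R.card / g := by
    have : 2 * (R.card : ℝ) / g - (((R.card : ℝ) - R1.card) / (2 * g) + ((R1.card : ℝ) - R2.card) / g +
      R2.card / (2 * g)) = (3 * R.card - R1.card + R2.card) / (2 * g) := by
      field_simp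
      ring
    have h : 0 ≤ (3 * (R.card : ℝ) - R1.card + R2.card) / (2 * g) := by
      apply div_nonneg <;> linarith
    linarith
  linarith

end Crest.Agent.EG
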