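import Crest.Agent.EG_Sep
import Crest.Agent.EG_Cd

set_option autoImplicit false

namespace Crest.Agent.EG

variable {V : Type*} [DecidableEq V]

/-- graphs without long cycles -/
theorem sparse_short (B M K : ℕ)
    (hM : 3 ≤ M) (hK : 2 ≤ K) (hB : 3 * K + 2 * M ≤ 2 * B) (τ : ℝ) (hτ : 0 ≤ τ)
    (IHB : ∀ (S' : Finset V) (E' : Finset (Sym2 V)), Loopless E' → Supp E' S' → S'.card ≤ B →
      (cd E' : ℝ) ≤ τ * S'.card) :
    ∀ (n : ℕ) (S : Finset V) (H : Finset (Sym2 V)), S.card = n → Loopless H → Supp H S →
      (∀ C ⊆ H, IsCyc C → C.card < M) → (cd H : ℝ) ≤ τ * (1 + 2 * M / K) * S.card := by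
  classical
  have hK0 : (0 : ℝ) < K := by
    have : 0 < K := by omega
    exact_mod_cast this
  have hM0 : (0 : ℝ) ≤ M := Nat.cast_nonneg M
  have hfrac : (0 : ℝ) ≤ 2 * M / K := by positivity
  intro n
  induction n using Nat.strong_induction_on with
  | _ n ih =>
    intro S H hn hl hs hcyc
    by_cases hSK : S.card < K
    · have h1 := IHB S H hl hs (by omega)
      have h2 : τ * (S.card : ℝ) ≤ τ * (1 + 2 * M / K) * S.card := by
        have : 0 ≤ τ * (2 * M / K) * (S.card : ℝ) := by positivity
        linarith [show τ * (1 + 2 * (M:ℝ) / K) * S.card = τ * (S.card : ℝ) + τ * (2 * M / K) * (S.card : ℝ) by ring]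
      exact h1.trans h2
    · push Not at hSK
      obtain ⟨T, hTS, hT1, hT2, hN⟩ := separator S H hl hs M K hM hK hSK hcyc
      set N := (S \ T).filter (fun y => ∃ x ∈ T, s(x, y) ∈ H) with hNdef
      have hincsupp : Supp (inc H T) (T ∪ N) := by
        intro e he x hx
        rw [mem_inc] at he
        obtain ⟨heH, y, hye, hyT⟩ := he
        rw [Finset.mem_union]
        by_cases hxT : x ∈ T
        · exact Or.inl hxT
        · right
          rw [hNdef, Finset.mem_filter, Finset.mem_sdiff]
          refine ⟨⟨hs e heH x hx, hxT⟩, y, hyT, ?_⟩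
          have hne : y ≠ x := fun h => hxT (h ▸ hyT)
          have : e = s(y, x) := ((Sym2.mem_and_mem_iff hne).mp ⟨hye, hx⟩)
          rw [← this]; exact heH
      have hcardTN : (T ∪ N).card ≤ T.card + M := (Finset.card_union_le _ _).trans (by omega)
      have h1 : (cd (inc H T) : ℝ) ≤ τ * (T ∪ N).card :=
        IHB (T ∪ N) (inc H T) (fun e he => hl e (mem_inc.mp he).1) hincsupp (by omega)
      have h2 : (cd (inc H T) : ℝ) ≤ τ * (1 + 2 * M / K) * T.card := by
        refine h1.trans ?_
        have h3 : ((T ∪ N).card : ℝ) ≤ T.card + M := by exact_mod_cast hcardTN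
        have h4 : (M : ℝ) ≤ 2 * M / K * T.card := by
          rw [div_mul_eq_mul_div, le_div_iff₀ hK0]
          have : (K : ℝ) ≤ 2 * T.card := by exact_mod_cast hT1
          nlinarith
        calc τ * ((T ∪ N).card : ℝ) ≤ τ * (T.card + M) := mul_le_mul_of_nonneg_left h3 hτ
          _ ≤ τ * (T.card + 2 * M / K * T.card) :=
              mul_le_mul_of_nonneg_left (by linarith) hτ
          _ = τ * (1 + 2 * M / K) * T.card := by ring
      have hTpos : 0 < T.card := by omega
      have hcardS : (S \ T).card + T.card = S.card := Finset.card_sdiff_add_card_eq_card hTS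
      have h5 : (cd (H \ inc H T) : ℝ) ≤ τ * (1 + 2 * M / K) * (S \ T).card := by
        apply ih (S \ T).card (by omega) (S \ T) (H \ inc H T) rfl
        · intro e he
          exact hl e (Finset.mem_sdiff.mp he).1
        · intro e he x hx
          rw [Finset.mem_sdiff, mem_inc] at he
          rw [Finset.mem_sdiff]
          exact ⟨hs e he.1 x hx, fun hxT => he.2 ⟨he.1, x, hx, hxT⟩⟩
        · intro C hC
          exact hcyc C (hC.trans Finset.sdiff_subset)
      have hsub : inc H T ⊆ H := fun e he => (mem_inc.mp he).1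
      have h6 : (cd H : ℝ) ≤ cd (inc H T) + cd (H \ inc H T) := by exact_mod_cast cd_split hsub
      have h7 : (S.card : ℝ) = (S \ T).card + T.card := by exact_mod_cast hcardS.symm
      rw [h7, mul_add]
      linarith

/-- TASK EG-Sparse. First remove greedily cycles of length `≥ M` (at most `|E|/M`). Then `H` has no cycle of length `≥ M`;
strong induction on `|S|`: if `|S| < K ≤ B` use `IHB`. Otherwise `separator` gives `T`, let `N` be its outside neighbours;
`inc H T` is supported on `T ∪ N`, `|T ∪ N| ≤ 3K/2 + M ≤ B`, so `cd (inc H T) ≤ τ (|T| + M) ≤ τ |T| (1 + 2M/K)`, and `H \ inc H T` is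
supported on `S \ T`. -/
theorem sparse (S : Finset V) (E : Finset (Sym2 V)) (hl : Loopless E) (hE : Supp E S) (B M K : ℕ)
    (hM : 3 ≤ M) (hK : 2 ≤ K) (hB : 3 * K + 2 * M ≤ 2 * B) (τ : ℝ) (hτ : 0 ≤ τ)
    (IHB : ∀ (S' : Finset V) (E' : Finset (Sym2 V)), Loopless E' → Supp E' S' → S'.card ≤ B →
      (cd E' : ℝ) ≤ τ * S'.card) :
    (cd E : ℝ) ≤ E.card / M + τ * (1 + 2 * M / K) * S.card := by
  classical
  have hM0 : (0 : ℝ) < M := by
    have : 0 < M := by omega
    exact_mod_cast this
  suffices h : ∀ (n : ℕ) (E : Finset (Sym2 V)), E.card = n → Loopless E → Supp E S →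
      (cd E : ℝ) ≤ E.card / M + τ * (1 + 2 * M / K) * S.card from h E.card E rfl hl hE
  intro n
  induction n using Nat.strong_induction_on with
  | _ n ih =>
    intro E hn hl hE
    by_cases hc : ∀ C ⊆ E, IsCyc C → C.card < M
    · have h1 := sparse_short B M K hM hK hB τ hτ IHB S.card S E rfl hl hE hc
      have h2 : (0 : ℝ) ≤ (E.card : ℝ) / M := by positivity
      linarith
    · push Not at hc
      obtain ⟨C, hCE, hC, hCM⟩ := hc
      have hcard : (E \ C).card + C.card = E.card := Finset.card_sdiff_add_card_eq_card hCE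
      have h1 := ih (E \ C).card (by omega) (E \ C) rfl
        (fun e he => hl e (Finset.mem_sdiff.mp he).1)
        (fun e he => hE e (Finset.mem_sdiff.mp he).1)
      have h2 : (cd E : ℝ) ≤ cd C + cd (E \ C) := by exact_mod_cast cd_split hCE
      have h3 : (cd C : ℝ) ≤ 1 := by exact_mod_cast cd_cyc hC
      have h4 : (1 : ℝ) ≤ (C.card : ℝ) / M := by
        rw [le_div_iff₀ hM0, one_mul]
        exact_mod_cast hCM
      have h5 : (E.card : ℝ) / M = ((E \ C).card : ℝ) / M + (C.card : ℝ) / M := by
        rw [← add_div]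
        congr 1
        exact_mod_cast hcard.symm
      linarith

end Crest.Agent.EG
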