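import Mathlib

set_option autoImplicit false

namespace Crest.Agent.EG

/-! Definitions for the spectral part: graphs on a finite type. -/

section
open Classical

variable {ι : Type*} [Fintype ι]

/-- number of neighbours of `v` in `T` -/
noncomputable def dgr (G : SimpleGraph ι) (T : Finset ι) (v : ι) : ℕ := (T.filter (fun u => G.Adj v u)).card

/-- energy: sum over ordered adjacent pairs in `U × T` -/
noncomputable def enn (G : SimpleGraph ι) (U T : Finset ι) (f : ι → ℝ) : ℝ :=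
  ∑ u ∈ U, ∑ v ∈ T.filter (fun v => G.Adj u v), (f u - f v) ^ 2

/-- average of `h` over the neighbours of `z` in `T` -/
noncomputable def avg (G : SimpleGraph ι) (T : Finset ι) (h : ι → ℝ) (z : ι) : ℝ :=
  (∑ v ∈ T.filter (fun v => G.Adj z v), h v) / dgr G T z

/-- label class -/
noncomputable def cls {N : ℕ} (lab : ι → Fin N) (l : Fin N) : Finset ι :=
  Finset.univ.filter (fun z => lab z = l)

end

/-- weighted expander on a finite type -/
structure SHub {ι : Type*} [Fintype ι] [DecidableEq ι] (G : SimpleGraph ι) (w : ι → ℝ) (s φ : ℝ) : Prop where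
  w_ge : ∀ v, s ≤ w v
  w_deg : ∀ v, φ * (dgr G Finset.univ v : ℝ) ≤ w v
  w_le : ∀ v, w v ≤ dgr G Finset.univ v
  exp : ∀ U : Finset ι, ∑ v ∈ U, w v ≤ (∑ v, w v) / 2 → ∑ v ∈ U, w v ≤ ∑ v ∈ U, (dgr G Uᶜ v : ℝ)

/-- good labelling for the triple of labels `(l1, l3, l4)` -/
structure GoodLab {ι : Type*} [Fintype ι] (G : SimpleGraph ι) (w : ι → ℝ) (N : ℕ) (lab : ι → Fin N)
    (t : ℝ) (l1 l3 l4 : Fin N) : Prop where
  deg : ∀ z, (dgr G Finset.univ z : ℝ) ≤ 2 * N * dgr G (cls lab l1) z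
  e1 : ∀ l, l ≠ l1 → ∀ h : ι → ℝ, enn G (cls lab l) Finset.univ (avg G (cls lab l1) h) ≤
    enn G (cls lab l3) Finset.univ (avg G (cls lab l1) h) + t * ∑ v ∈ cls lab l1, w v * h v ^ 2
  e2 : ∀ l, l ≠ l1 → l ≠ l3 → ∀ h : ι → ℝ,
    enn G (cls lab l) (cls lab l3) (avg G (cls lab l1) h) ≤
      enn G (cls lab l4) (cls lab l3) (avg G (cls lab l1) h) + t * ∑ v ∈ cls lab l1, w v * h v ^ 2

end Crest.Agent.EG
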