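import Crest.Agent.EG_Color

set_option autoImplicit false

namespace Crest.Agent.EG

variable {V : Type*} [DecidableEq V]

/-! ### skeleton of a class of cherries -/

/-- stations of a class of cherries `c :: l`, without the first one -/
def EGStar_tail (z : V) (c : V × V × V) : List (V × V × V) → List (V × V)
  | [] => [(c.2.2, z)]
  | d :: l => (c.2.2, d.2.1) :: (d.1, d.1) :: EGStar_tail z d l

/-- skeleton of a class of cherries -/
def EGStar_sk : List (V × V × V) → List (V × V)
  | [] => []
  | c :: l => (c.1, c.1) :: EGStar_tail c.2.1 c l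

omit [DecidableEq V] in
theorem EGStar_mem_skp (z u : V) (l : List (V × V × V)) : ∀ (c : V × V × V) (e : Sym2 V),
    e ∈ skp ((c.1, c.1) :: (EGStar_tail z c l ++ [(u, u)])) ↔
      (e = s(z, u) ∨ (∃ x ∈ c :: l, e = s(x.1, x.2.2)) ∨ ∃ x ∈ l, e = s(x.1, x.2.1)) := by
  induction l with
  | nil =>
    intro c e
    simp [EGStar_tail, skp]
    tauto
  | cons d l ih =>
    intro c e
    have h := ih d e
    simp only [EGStar_tail, List.cons_append, skp, List.mem_cons]
    rw [h]
    simp only [List.mem_cons, exists_eq_or_imp]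
    have h2 : s(d.2.1, d.1) = s(d.1, d.2.1) := Sym2.eq_swap
    rw [h2]
    generalize (e = s(c.1, c.2.2)) = A
    generalize (e = s(d.1, d.2.1)) = B
    generalize (e = s(z, u)) = C
    generalize (e = s(d.1, d.2.2)) = D
    generalize (∃ a ∈ l, e = s(a.1, a.2.2)) = E
    generalize (∃ a ∈ l, e = s(a.1, a.2.1)) = G
    tauto

omit [DecidableEq V] in
theorem EGStar_mem_skE (l : List (V × V × V)) (e : Sym2 V) :
    e ∈ skE (EGStar_sk l) ↔ ∃ x ∈ l, e = s(x.1, x.2.1) ∨ e = s(x.1, x.2.2) := by
  cases l with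
  | nil => simp [EGStar_sk, skE, skp]
  | cons c l =>
    have h := EGStar_mem_skp c.2.1 c.1 l c e
    simp only [EGStar_sk, skE, List.take_succ_cons, List.take_zero, List.cons_append]
    rw [h]
    simp only [List.mem_cons, exists_eq_or_imp]
    have h2 : s(c.2.1, c.1) = s(c.1, c.2.1) := Sym2.eq_swap
    rw [h2]
    constructor
    · rintro (h | (h | ⟨x, hx, h⟩) | ⟨x, hx, h⟩)
      · exact Or.inl (Or.inl h)
      · exact Or.inl (Or.inr h)
      · exact Or.inr ⟨x, hx, Or.inr h⟩
      · exact Or.inr ⟨x, hx, Or.inl h⟩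
    · rintro ((h | h) | ⟨x, hx, h | h⟩)
      · exact Or.inl h
      · exact Or.inr (Or.inl (Or.inl h))
      · exact Or.inr (Or.inr ⟨x, hx, h⟩)
      · exact Or.inr (Or.inl (Or.inr ⟨x, hx, h⟩))

omit [DecidableEq V] in
theorem EGStar_tail_length (z : V) (l : List (V × V × V)) : ∀ (c : V × V × V),
    (EGStar_tail z c l).length = 2 * l.length + 1 := by
  induction l with
  | nil => intro c; simp [EGStar_tail]
  | cons d l ih => intro c; simp only [EGStar_tail, List.length_cons, ih]; ring

omit [DecidableEq V] in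
theorem EGStar_tail_av (z x : V) (hz : x ≠ z) (l : List (V × V × V)) : ∀ (c : V × V × V),
    x ≠ c.2.2 → (∀ d ∈ l, x ≠ d.1 ∧ x ≠ d.2.1 ∧ x ≠ d.2.2) →
    ∀ p ∈ EGStar_tail z c l, x ≠ p.1 ∧ x ≠ p.2 := by
  induction l with
  | nil =>
    intro c hc _ p hp
    simp only [EGStar_tail, List.mem_singleton] at hp
    subst hp
    exact ⟨hc, hz⟩
  | cons d l ih =>
    intro c hc hl p hp
    simp only [EGStar_tail, List.mem_cons] at hp
    have hd := hl d (by simp)
    rcases hp with rfl | rfl | hp
    · exact ⟨hc, hd.2.1⟩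
    · exact ⟨hd.1, hd.1⟩
    · exact ih d hd.2.2 (fun d' hd' => hl d' (by simp [hd'])) p hp

omit [DecidableEq V] in
theorem EGStar_pairwise (z : V) (l : List (V × V × V)) : ∀ (c : V × V × V),
    (∀ d ∈ c :: l, d.1 ≠ d.2.1 ∧ d.1 ≠ d.2.2 ∧ d.2.1 ≠ d.2.2) →
    (c :: l).Pairwise (fun a b => (a.1 ≠ b.1 ∧ a.1 ≠ b.2.1 ∧ a.1 ≠ b.2.2) ∧
      (a.2.1 ≠ b.1 ∧ a.2.1 ≠ b.2.1 ∧ a.2.1 ≠ b.2.2) ∧
      (a.2.2 ≠ b.1 ∧ a.2.2 ≠ b.2.1 ∧ a.2.2 ≠ b.2.2)) →
    z ≠ c.1 → z ≠ c.2.2 → (∀ d ∈ l, z ≠ d.1 ∧ z ≠ d.2.1 ∧ z ≠ d.2.2) →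
    ((c.1, c.1) :: EGStar_tail z c l).Pairwise
      (fun p q => p.1 ≠ q.1 ∧ p.1 ≠ q.2 ∧ p.2 ≠ q.1 ∧ p.2 ≠ q.2) := by
  induction l with
  | nil =>
    intro c hc _ h1 h2 _
    have := hc c (by simp)
    simp only [EGStar_tail, List.pairwise_cons, List.mem_singleton, forall_eq, List.not_mem_nil,
      false_imp_iff, implies_true, List.Pairwise.nil, and_true]
    exact ⟨this.2.1, h1.symm, this.2.1, h1.symm⟩
  | cons d l ih =>
    intro c hc hp h1 h2 hz
    have hcc := hc c (by simp)
    have hcd := hc d (by simp)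
    rw [List.pairwise_cons] at hp
    obtain ⟨hpc, hpd⟩ := hp
    have hzd := hz d (by simp)
    have hpcd := hpc d (by simp)
    have hpd' := hpd
    rw [List.pairwise_cons] at hpd'
    have ih' := ih d (fun x hx => hc x (by simp only [List.mem_cons] at hx ⊢; tauto)) hpd hzd.1 hzd.2.2
      (fun x hx => hz x (by simp [hx]))
    rw [List.pairwise_cons]
    refine ⟨?_, ?_⟩
    · intro p hp
      have := EGStar_tail_av z c.1 h1.symm (d :: l) c hcc.2.1 (fun x hx => (hpc x hx).1) p hp
      exact ⟨this.1, this.2, this.1, this.2⟩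
    · simp only [EGStar_tail]
      rw [List.pairwise_cons]
      refine ⟨?_, ih'⟩
      intro p hp
      have A1 : c.2.2 ≠ p.1 ∧ c.2.2 ≠ p.2 := by
        simp only [List.mem_cons] at hp
        rcases hp with rfl | hp
        · exact ⟨hpcd.2.2.1, hpcd.2.2.1⟩
        · exact EGStar_tail_av z c.2.2 h2.symm l d hpcd.2.2.2.2
            (fun x hx => (hpc x (by simp [hx])).2.2) p hp
      have A2 : d.2.1 ≠ p.1 ∧ d.2.1 ≠ p.2 := by
        simp only [List.mem_cons] at hp
        rcases hp with rfl | hp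
        · exact ⟨hcd.1.symm, hcd.1.symm⟩
        · exact EGStar_tail_av z d.2.1 hzd.2.1.symm l d hcd.2.2
            (fun x hx => (hpd'.1 x hx).2.1) p hp
      exact ⟨A1.1, A1.2, A2.1, A2.2⟩

/-- at most `(c :: l).length` stations meet `Z'` if all cores `x.1` are outside `Z'` -/
theorem EGStar_count1 (Z' : Finset V) (z : V) (l : List (V × V × V)) : ∀ (c : V × V × V),
    (∀ x ∈ l, x.1 ∉ Z') →
    ((EGStar_tail z c l).filter (fun p => decide (p.1 ∈ Z' ∨ p.2 ∈ Z'))).length ≤ l.length + 1 := by
  induction l with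
  | nil =>
    intro c hc
    refine (List.length_filter_le _ _).trans ?_
    simp [EGStar_tail]
  | cons d l ih =>
    intro c hc
    have hd : d.1 ∉ Z' := hc d (by simp)
    have h := ih d (fun x hx => hc x (by simp [hx]))
    simp only [EGStar_tail, List.filter_cons, hd, or_self, decide_false, Bool.false_eq_true, if_false,
      List.length_cons]
    split_ifs
    · simp only [List.length_cons]; omega
    · omega

theorem EGStar_count2 (Z' : Finset V) (z : V) (hz : z ∉ Z') (l : List (V × V × V)) : ∀ (c : V × V × V),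
    c.2.2 ∉ Z' → (∀ x ∈ l, x.2.1 ∉ Z' ∧ x.2.2 ∉ Z') →
    ((EGStar_tail z c l).filter (fun p => decide (p.1 ∈ Z' ∨ p.2 ∈ Z'))).length ≤ l.length := by
  induction l with
  | nil =>
    intro c hc _
    simp [EGStar_tail, hc, hz]
  | cons d l ih =>
    intro c hc hl
    have hd := hl d (by simp)
    have h := ih d hd.2 (fun x hx => hl x (by simp [hx]))
    simp only [EGStar_tail, List.filter_cons, hd, hc, or_self, decide_false, Bool.false_eq_true, if_false,
      List.length_cons]
    split_ifs
    · simp only [List.length_cons]; omega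
    · omega

omit [DecidableEq V] in
theorem EGStar_station (Z : Finset V) (z : V) (hz : z ∈ Z) (l : List (V × V × V)) : ∀ (c : V × V × V),
    c.2.2 ∈ Z → (∀ x ∈ l, x.2.1 ∈ Z ∧ x.2.2 ∈ Z) →
    ∀ p ∈ EGStar_tail z c l, p.1 = p.2 ∨ (p.1 ∈ Z ∧ p.2 ∈ Z) := by
  induction l with
  | nil =>
    intro c hc _ p hp
    simp only [EGStar_tail, List.mem_singleton] at hp
    subst hp
    exact Or.inr ⟨hc, hz⟩
  | cons d l ih =>
    intro c hc hl p hp
    have hd := hl d (by simp)
    simp only [EGStar_tail, List.mem_cons] at hp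
    rcases hp with rfl | rfl | hp
    · exact Or.inr ⟨hc, hd.1⟩
    · exact Or.inl rfl
    · exact ih d hd.2 (fun x hx => hl x (by simp [hx])) p hp

/-- the skeleton of a class of pairwise vertex-disjoint cherries is valid -/
theorem EGStar_valid (𝓒 : Finset (Finset V)) (hdisj : (𝓒 : Set (Finset V)).PairwiseDisjoint id)
    (Z : Finset V) (hZ : Z ∈ 𝓒) (g : ℕ) (l : List (V × V × V)) (hne : l ≠ [])
    (hlen : l.length ≤ g)
    (hch : ∀ x ∈ l, x.1 ∉ Z ∧ x.2.1 ∈ Z ∧ x.2.2 ∈ Z ∧ x.2.1 ≠ x.2.2)
    (hpw : l.Pairwise (fun a b => (a.1 ≠ b.1 ∧ a.1 ≠ b.2.1 ∧ a.1 ≠ b.2.2) ∧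
      (a.2.1 ≠ b.1 ∧ a.2.1 ≠ b.2.1 ∧ a.2.1 ≠ b.2.2) ∧
      (a.2.2 ≠ b.1 ∧ a.2.2 ≠ b.2.1 ∧ a.2.2 ≠ b.2.2))) :
    ValidSk 𝓒 g (EGStar_sk l) := by
  cases l with
  | nil => exact absurd rfl hne
  | cons c l =>
    have hc := hch c (by simp)
    have hpc := (List.pairwise_cons.1 hpw).1
    refine ⟨?_, ?_, ?_, ?_, ?_⟩
    · simp only [EGStar_sk, List.length_cons, EGStar_tail_length]; omega
    · intro p hp
      simp only [EGStar_sk, List.mem_cons] at hp
      rcases hp with rfl | hp
      · exact Or.inl rfl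
      · rcases EGStar_station Z c.2.1 hc.2.1 l c hc.2.2.1
          (fun x hx => ⟨(hch x (by simp [hx])).2.1, (hch x (by simp [hx])).2.2.1⟩) p hp with h | h
        · exact Or.inl h
        · exact Or.inr ⟨Z, hZ, h⟩
    · apply EGStar_pairwise c.2.1 l c ?_ hpw ?_ ?_ ?_
      · intro d hd
        have := hch d hd
        exact ⟨fun h => this.1 (h ▸ this.2.1), fun h => this.1 (h ▸ this.2.2.1), this.2.2.2⟩
      · exact fun h => hc.1 (h ▸ hc.2.1)
      · exact hc.2.2.2
      · intro d hd
        exact (hpc d hd).2.1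
    · cases l with
      | nil =>
        right
        refine ⟨(c.2.2, c.2.1), by simp [EGStar_sk, EGStar_tail], ?_⟩
        exact hc.2.2.2.symm
      | cons d l =>
        left
        simp only [EGStar_sk, List.length_cons, EGStar_tail_length]; omega
    · intro Z' hZ'
      simp only [List.length_cons] at hlen
      by_cases hZZ : Z' = Z
      · subst hZZ
        have h := EGStar_count1 Z' c.2.1 l c (fun x hx => (hch x (by simp [hx])).1)
        simp only [EGStar_sk, List.filter_cons, hc.1, or_self, decide_false, Bool.false_eq_true, if_false]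
        omega
      · have hd : ∀ x ∈ Z, x ∉ Z' := by
          intro x hx hx'
          have := hdisj hZ hZ' (Ne.symm hZZ)
          exact (Finset.disjoint_left.1 this) hx hx'
        have h := EGStar_count2 Z' c.2.1 (hd _ hc.2.1) l c (hd _ hc.2.2.1)
          (fun x hx => ⟨hd _ (hch x (by simp [hx])).2.1, hd _ (hch x (by simp [hx])).2.2.1⟩)
        simp only [EGStar_sk, List.filter_cons]
        split_ifs
        · simp only [List.length_cons]; omega
        · omega

/-! ### existence of the cherries -/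

/-- the two edges of a cherry -/
def EGStar_ed (c : V × V × V) : Finset (Sym2 V) := {s(c.1, c.2.1), s(c.1, c.2.2)}

theorem EGStar_cherries (Z : Finset V) (n : ℕ) : ∀ (R : Finset (Sym2 V)), R.card = n →
    ∃ (R' : Finset (Sym2 V)) (X : Finset (V × V × V)),
      R' ⊆ R ∧ R \ R' = X.biUnion EGStar_ed ∧
      (X : Set (V × V × V)).PairwiseDisjoint EGStar_ed ∧
      (∀ x ∈ X, x.1 ∉ Z ∧ x.2.1 ∈ Z ∧ x.2.2 ∈ Z ∧ x.2.1 ≠ x.2.2) ∧
      (∀ u, u ∉ Z → dgin R' Z u ≤ 1) ∧ R.card = R'.card + 2 * X.card := by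
  induction n using Nat.strong_induction_on with
  | _ n ih =>
    intro R hR
    by_cases h : ∀ u, u ∉ Z → dgin R Z u ≤ 1
    · exact ⟨R, ∅, Finset.Subset.refl _, by simp, by simp, by simp, h, by simp⟩
    · push Not at h
      obtain ⟨u, hu, h1⟩ := h
      obtain ⟨z, hz, z', hz', hzz⟩ := Finset.one_lt_card.1 h1
      simp only [Finset.mem_filter] at hz hz'
      have hne : s(u, z) ≠ s(u, z') := by
        intro h
        apply hzz
        rw [Sym2.eq_iff] at h
        rcases h with h | h
        · exact h.2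
        · exact h.2.trans h.1
      have hsub : ({s(u, z), s(u, z')} : Finset (Sym2 V)) ⊆ R := by
        intro e he
        simp only [Finset.mem_insert, Finset.mem_singleton] at he
        rcases he with rfl | rfl
        · exact hz.2
        · exact hz'.2
      have hcard : (R \ {s(u, z), s(u, z')}).card + 2 = R.card := by
        have := Finset.card_sdiff_add_card_eq_card hsub
        rwa [Finset.card_pair hne] at this
      obtain ⟨R', X, h1', h2', h3', h4', h5', h6'⟩ := ih (R \ {s(u, z), s(u, z')}).card (by omega) _ rfl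
      have hXed : ∀ x ∈ X, EGStar_ed x ⊆ R \ {s(u, z), s(u, z')} := by
        intro x hx e he
        have : e ∈ (R \ {s(u, z), s(u, z')}) \ R' := by
          rw [h2']
          exact Finset.mem_biUnion.2 ⟨x, hx, he⟩
        exact (Finset.mem_sdiff.1 this).1
      have hnot : (u, z, z') ∉ X := by
        intro hx
        have := hXed _ hx (show s(u, z) ∈ EGStar_ed (u, z, z') by simp [EGStar_ed])
        simp at this
      refine ⟨R', insert (u, z, z') X, h1'.trans Finset.sdiff_subset, ?_, ?_, ?_, h5', ?_⟩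
      · rw [Finset.biUnion_insert, ← h2']
        ext e
        simp only [Finset.mem_sdiff, Finset.mem_union, EGStar_ed, Finset.mem_insert, Finset.mem_singleton]
        constructor
        · rintro ⟨he, he'⟩
          by_cases h : e = s(u, z) ∨ e = s(u, z')
          · exact Or.inl h
          · exact Or.inr ⟨⟨he, h⟩, he'⟩
        · rintro (h | h)
          · refine ⟨hsub (by simpa using h), fun he' => ?_⟩
            have := h1' he'
            simp only [Finset.mem_sdiff, Finset.mem_insert, Finset.mem_singleton] at this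
            exact this.2 h
          · exact ⟨h.1.1, h.2⟩
      · rw [Finset.coe_insert]
        apply Set.PairwiseDisjoint.insert_of_notMem h3' (by simpa using hnot)
        intro x hx
        rw [Finset.disjoint_left]
        intro e he he'
        have := hXed x hx he'
        simp only [Finset.mem_sdiff] at this
        exact this.2 he
      · intro x hx
        rw [Finset.mem_insert] at hx
        rcases hx with rfl | hx
        · exact ⟨hu, hz.1, hz'.1, hzz⟩
        · exact h4' x hx
      · rw [Finset.card_insert_of_notMem hnot]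
        omega

/-- TASK EG-Star: star elimination for one core `Z`.
For each `u ∉ Z` pair up the `R`-edges from `u` to `Z` into cherries `(u; z, z')` leaving at most one edge; `R'` = edges of `R` in no
cherry. Two cherries conflict if they share a vertex; a cherry `(u; z, z')` conflicts with less than
`|Z|/2 + dg R z + dg R z' ≤ b` others. `greedy_color` with `Δ = ⌊b⌋`: every nonempty colour class
`(u₁;z₁,z₁'),…,(u_m;z_m,z_m')`, `m ≤ g`, gives the skeleton `[(u₁,u₁),(z₁',z₂),(u₂,u₂),(z₂',z₃),…,(u_m,u_m),(z_m',z₁)]`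
with edges `s(u_i,z_i'), s(z_{i+1},u_{i+1})`. -/
theorem star_elim (𝓒 : Finset (Finset V)) (hdisj : (𝓒 : Set (Finset V)).PairwiseDisjoint id)
    (Z : Finset V) (hZ : Z ∈ 𝓒) (hne : Z.Nonempty)
    (R : Finset (Sym2 V)) (hl : Loopless R) (hR : ∀ e ∈ R, ∀ Z ∈ 𝓒, ¬ ∀ x ∈ e, x ∈ Z)
    (g : ℕ) (hg : 1 ≤ g) (b : ℝ) (hb : ∀ v ∈ Z, (Z.card : ℝ) / 2 + 2 * dg R v ≤ b) :
    ∃ (R' : Finset (Sym2 V)) (𝒦 : Finset (List (V × V))), SkFam 𝓒 g R 𝒦 R' ∧
      (∀ u, u ∉ Z → dgin R' Z u ≤ 1) ∧
      (𝒦.card : ℝ) ≤ b + 1 + ((R.card : ℝ) - R'.card) / (2 * g) := by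
  classical
  obtain ⟨R', X, hsub, hcov, hdis, hch, hdg, hcard⟩ := EGStar_cherries Z R.card R rfl
  have hb0 : 0 ≤ b := by
    obtain ⟨v, hv⟩ := hne
    have := hb v hv
    have h1 : (0 : ℝ) ≤ (Z.card : ℝ) / 2 + 2 * dg R v := by positivity
    linarith
  -- vertices of cherries
  set vs : V × V × V → Finset V := fun c => {c.1, c.2.1, c.2.2} with hvs
  have hXed : ∀ x ∈ X, EGStar_ed x ⊆ R := by
    intro x hx e he
    have : e ∈ R \ R' := by
      rw [hcov]
      exact Finset.mem_biUnion.2 ⟨x, hx, he⟩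
    exact (Finset.mem_sdiff.1 this).1
  -- number of cherries at `u`
  have hu : ∀ u, 2 * (X.filter (fun y => y.1 = u)).card ≤ Z.card := by
    intro u
    have h1 : ((X.filter (fun y => y.1 = u)).biUnion (fun y => ({y.2.1, y.2.2} : Finset V))).card ≤ Z.card := by
      apply Finset.card_le_card
      intro v hv
      simp only [Finset.mem_biUnion, Finset.mem_filter, Finset.mem_insert, Finset.mem_singleton] at hv
      obtain ⟨y, hy, hv⟩ := hv
      have := hch y hy.1
      rcases hv with rfl | rfl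
      · exact this.2.1
      · exact this.2.2.1
    rw [Finset.card_biUnion] at h1
    · have h2 : ∑ y ∈ X.filter (fun y => y.1 = u), ({y.2.1, y.2.2} : Finset V).card =
          ∑ y ∈ X.filter (fun y => y.1 = u), 2 := by
        apply Finset.sum_congr rfl
        intro y hy
        exact Finset.card_pair (hch y (Finset.mem_filter.1 hy).1).2.2.2
      rw [h2, Finset.sum_const, smul_eq_mul] at h1
      omega
    · intro x hx y hy hxy
      have hx : x ∈ X ∧ x.1 = u := by simpa using hx
      have hy : y ∈ X ∧ y.1 = u := by simpa using hy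
      have hd := hdis hx.1 hy.1 hxy
      rw [Function.onFun, Finset.disjoint_left] at hd
      show Disjoint ({x.2.1, x.2.2} : Finset V) {y.2.1, y.2.2}
      rw [Finset.disjoint_left]
      intro v hv hv'
      apply hd (a := s(u, v))
      · simp only [EGStar_ed, Finset.mem_insert, Finset.mem_singleton] at hv ⊢
        rcases hv with h | h
        · left; rw [hx.2, h]
        · right; rw [hx.2, h]
      · simp only [EGStar_ed, Finset.mem_insert, Finset.mem_singleton] at hv' ⊢
        rcases hv' with h | h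
        · left; rw [hy.2, h]
        · right; rw [hy.2, h]
  -- number of cherries through `z`
  have hz : ∀ z, (X.filter (fun y => y.2.1 = z ∨ y.2.2 = z)).card ≤ dg R z := by
    intro z
    unfold dg
    apply Finset.card_le_card_of_injOn (fun y => s(y.1, z))
    · intro y hy
      simp only [Finset.coe_filter, Set.mem_ofPred_eq] at hy ⊢
      refine ⟨hXed y hy.1 ?_, by simp⟩
      simp only [EGStar_ed, Finset.mem_insert, Finset.mem_singleton]
      rcases hy.2 with h | h
      · left; rw [h]
      · right; rw [h]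
    · intro x hx y hy hxy
      by_contra hne'
      have hx : x ∈ X ∧ (x.2.1 = z ∨ x.2.2 = z) := by simpa using hx
      have hy : y ∈ X ∧ (y.2.1 = z ∨ y.2.2 = z) := by simpa using hy
      have hd := hdis hx.1 hy.1 hne'
      rw [Function.onFun, Finset.disjoint_left] at hd
      apply hd (a := s(x.1, z))
      · simp only [EGStar_ed, Finset.mem_insert, Finset.mem_singleton]
        rcases hx.2 with h | h
        · left; rw [h]
        · right; rw [h]
      · have hxy' : s(x.1, z) = s(y.1, z) := hxy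
        rw [hxy']
        simp only [EGStar_ed, Finset.mem_insert, Finset.mem_singleton]
        rcases hy.2 with h | h
        · left; rw [h]
        · right; rw [h]
  obtain ⟨c, hc1, hc2, hc3⟩ := greedy_color X (fun x y => ¬ Disjoint (vs x) (vs y))
    (fun x y h h' => h h'.symm) ⌊b⌋₊ g hg (by
      intro x hx
      rw [Nat.le_floor_iff hb0]
      have hxc := hch x hx
      have h1 : X.filter (fun y => y ≠ x ∧ ¬ Disjoint (vs x) (vs y)) ⊆
          (X.filter (fun y => y.1 = x.1)) ∪ ((X.filter (fun y => y.2.1 = x.2.1 ∨ y.2.2 = x.2.1)) ∪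
            (X.filter (fun y => y.2.1 = x.2.2 ∨ y.2.2 = x.2.2))) := by
        intro y hy
        simp only [Finset.mem_filter, Finset.mem_union] at hy ⊢
        obtain ⟨hyX, -, hyd⟩ := hy
        rw [Finset.not_disjoint_iff] at hyd
        obtain ⟨v, hv, hv'⟩ := hyd
        have hyc := hch y hyX
        simp only [hvs, Finset.mem_insert, Finset.mem_singleton] at hv hv'
        rcases hv with rfl | rfl | rfl
        · rcases hv' with h | h | h
          · exact Or.inl ⟨hyX, h.symm⟩
          · exact absurd (h ▸ hyc.2.1) hxc.1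
          · exact absurd (h ▸ hyc.2.2.1) hxc.1
        · rcases hv' with h | h | h
          · exact absurd (h ▸ hxc.2.1) hyc.1
          · exact Or.inr (Or.inl ⟨hyX, Or.inl h.symm⟩)
          · exact Or.inr (Or.inl ⟨hyX, Or.inr h.symm⟩)
        · rcases hv' with h | h | h
          · exact absurd (h ▸ hxc.2.2.1) hyc.1
          · exact Or.inr (Or.inr ⟨hyX, Or.inl h.symm⟩)
          · exact Or.inr (Or.inr ⟨hyX, Or.inr h.symm⟩)
      have h2 := (Finset.card_le_card h1).trans ((Finset.card_union_le _ _).trans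
        (Nat.add_le_add_left (Finset.card_union_le _ _) _))
      have h3 := hu x.1
      have h4 := hz x.2.1
      have h5 := hz x.2.2
      have h6 := hb _ hxc.2.1
      have h7 := hb _ hxc.2.2.1
      have h2' : ((X.filter (fun y => y ≠ x ∧ ¬ Disjoint (vs x) (vs y))).card : ℝ) ≤
          (X.filter (fun y => y.1 = x.1)).card + (dg R x.2.1 + dg R x.2.2) := by
        exact_mod_cast h2.trans (by omega)
      have h3' : 2 * ((X.filter (fun y => y.1 = x.1)).card : ℝ) ≤ Z.card := by exact_mod_cast h3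
      linarith)
  -- colour classes
  set K := ⌊b⌋₊ + X.card / g + 1 with hK
  set cl : ℕ → Finset (V × V × V) := fun k => X.filter (fun x => c x = k) with hcl
  set F : ℕ → List (V × V) := fun k => EGStar_sk (cl k).toList with hF
  have hFe : ∀ k, (skE (F k)).toFinset = (cl k).biUnion EGStar_ed := by
    intro k
    ext e
    simp only [hF, List.mem_toFinset, EGStar_mem_skE, Finset.mem_toList, Finset.mem_biUnion, EGStar_ed,
      Finset.mem_insert, Finset.mem_singleton]
  refine ⟨R', ((Finset.range K).filter (fun k => (cl k).Nonempty)).image F, ⟨?_, ?_, hsub, ?_⟩, hdg, ?_⟩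
  · intro l hl'
    simp only [Finset.mem_image, Finset.mem_filter] at hl'
    obtain ⟨k, ⟨-, hk⟩, rfl⟩ := hl'
    apply EGStar_valid 𝓒 hdisj Z hZ g
    · intro h
      rw [Finset.toList_eq_nil] at h
      exact hk.ne_empty h
    · rw [Finset.length_toList]
      exact hc3 k
    · intro x hx
      rw [Finset.mem_toList] at hx
      exact hch x (Finset.mem_filter.1 hx).1
    · apply List.Nodup.pairwise_of_forall_ne (Finset.nodup_toList _)
      intro x hx y hy hxy
      rw [Finset.mem_toList] at hx hy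
      simp only [hcl, Finset.mem_filter] at hx hy
      have h := hc2 x hx.1 y hy.1 hxy (by rw [hx.2, hy.2])
      rw [not_not, Finset.disjoint_left] at h
      have h' : ∀ v w : V, v ∈ vs x → w ∈ vs y → v ≠ w := fun v w hv hw hvw => h hv (hvw ▸ hw)
      have m1 : ∀ t : V × V × V, t.1 ∈ vs t := fun t => by simp [hvs]
      have m2 : ∀ t : V × V × V, t.2.1 ∈ vs t := fun t => by simp [hvs]
      have m3 : ∀ t : V × V × V, t.2.2 ∈ vs t := fun t => by simp [hvs]
      exact ⟨⟨h' _ _ (m1 x) (m1 y), h' _ _ (m1 x) (m2 y), h' _ _ (m1 x) (m3 y)⟩,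
        ⟨h' _ _ (m2 x) (m1 y), h' _ _ (m2 x) (m2 y), h' _ _ (m2 x) (m3 y)⟩,
        ⟨h' _ _ (m3 x) (m1 y), h' _ _ (m3 x) (m2 y), h' _ _ (m3 x) (m3 y)⟩⟩
  · intro l hl' l' hl'' hne'
    simp only [Finset.coe_image, Set.mem_image, Finset.coe_filter, Set.mem_ofPred_eq] at hl' hl''
    obtain ⟨k, -, rfl⟩ := hl'
    obtain ⟨k', -, rfl⟩ := hl''
    have hkk : k ≠ k' := fun h => hne' (by rw [h])
    rw [Function.onFun, hFe, hFe, Finset.disjoint_biUnion_left]
    intro x hx
    rw [Finset.disjoint_biUnion_right]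
    intro y hy
    simp only [hcl, Finset.mem_filter] at hx hy
    apply hdis hx.1 hy.1
    rintro rfl
    exact hkk (hx.2.symm.trans hy.2)
  · rw [hcov]
    ext e
    simp only [Finset.mem_biUnion, Finset.mem_image, Finset.mem_filter, Finset.mem_range]
    constructor
    · rintro ⟨x, hx, he⟩
      refine ⟨F (c x), ⟨c x, ⟨hc1 x hx, ⟨x, by simp [hcl, hx]⟩⟩, rfl⟩, ?_⟩
      rw [hFe]
      exact Finset.mem_biUnion.2 ⟨x, by simp [hcl, hx], he⟩
    · rintro ⟨l, ⟨k, -, rfl⟩, he⟩
      rw [hFe] at he
      obtain ⟨x, hx, he⟩ := Finset.mem_biUnion.1 he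
      exact ⟨x, (Finset.mem_filter.1 hx).1, he⟩
  · have h1 : (((Finset.range K).filter (fun k => (cl k).Nonempty)).image F).card ≤ K := by
      refine Finset.card_image_le.trans ((Finset.card_filter_le _ _).trans ?_)
      rw [Finset.card_range]
    have h2 : ((((Finset.range K).filter (fun k => (cl k).Nonempty)).image F).card : ℝ) ≤ K := by
      exact_mod_cast h1
    refine h2.trans ?_
    rw [hK]
    push_cast
    have h3 : ((X.card / g : ℕ) : ℝ) ≤ (X.card : ℝ) / g := Nat.cast_div_le
    have h4 : (⌊b⌋₊ : ℝ) ≤ b := Nat.floor_le hb0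
    have h5 : ((R.card : ℝ) - R'.card) / (2 * g) = (X.card : ℝ) / g := by
      have : (R.card : ℝ) = R'.card + 2 * X.card := by exact_mod_cast hcard
      rw [this]
      have hg' : (g : ℝ) ≠ 0 := by
        have : 0 < g := hg
        positivity
      field_simp
      ring
    rw [h5]
    linarith

end Crest.Agent.EG
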