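import Crest.Agent.EG_Star

set_option autoImplicit false

namespace Crest.Agent.EG

variable {V : Type*} [DecidableEq V]

/-! TASK EG-Stars: composition of skeleton families; star elimination for all cores. -/

theorem SkFam.trans {𝓒 : Finset (Finset V)} {g : ℕ} {R R₁ R₂ : Finset (Sym2 V)}
    {𝒦 𝒦' : Finset (List (V × V))} (h : SkFam 𝓒 g R 𝒦 R₁) (h' : SkFam 𝓒 g R₁ 𝒦' R₂) :
    SkFam 𝓒 g R (𝒦 ∪ 𝒦') R₂ := by
  have key : ∀ l ∈ 𝒦, ∀ l' ∈ 𝒦', Disjoint (skE l).toFinset (skE l').toFinset := by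
    intro l hl l' hl'
    rw [Finset.disjoint_left]
    intro e he he'
    have h1 : e ∈ R \ R₁ := by
      rw [h.cover, Finset.mem_biUnion]; exact ⟨l, hl, he⟩
    have h2 : e ∈ R₁ \ R₂ := by
      rw [h'.cover, Finset.mem_biUnion]; exact ⟨l', hl', he'⟩
    exact (Finset.mem_sdiff.1 h1).2 (Finset.mem_sdiff.1 h2).1
  refine ⟨?_, ?_, h'.sub.trans h.sub, ?_⟩
  · intro l hl
    rcases Finset.mem_union.1 hl with hl | hl
    · exact h.valid l hl
    · exact h'.valid l hl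
  · intro l hl l' hl' hne
    have hl1 : l ∈ 𝒦 ∪ 𝒦' := hl
    have hl2 : l' ∈ 𝒦 ∪ 𝒦' := hl'
    rcases Finset.mem_union.1 hl1 with hl1 | hl1 <;> rcases Finset.mem_union.1 hl2 with hl2 | hl2
    · exact h.disj hl1 hl2 hne
    · exact key l hl1 l' hl2
    · exact (key l' hl2 l hl1).symm
    · exact h'.disj hl1 hl2 hne
  · rw [Finset.union_biUnion, ← h.cover, ← h'.cover]
    ext e
    have h1 := @h.sub e
    have h2 := @h'.sub e
    simp only [Finset.mem_sdiff, Finset.mem_union]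
    tauto

theorem SkFam.refl (𝓒 : Finset (Finset V)) (g : ℕ) (R : Finset (Sym2 V)) : SkFam 𝓒 g R ∅ R := by
  refine ⟨?_, ?_, Finset.Subset.refl _, ?_⟩
  · intro l hl; simp at hl
  · intro l hl; simp at hl
  · simp

/-- some of the edges may be kept apart -/
theorem SkFam.add {𝓒 : Finset (Finset V)} {g : ℕ} {R R₁ F : Finset (Sym2 V)}
    {𝒦 : Finset (List (V × V))} (h : SkFam 𝓒 g R 𝒦 R₁) (hF : Disjoint R F) :
    SkFam 𝓒 g (R ∪ F) 𝒦 (R₁ ∪ F) := by
  refine ⟨h.valid, h.disj, Finset.union_subset_union h.sub (Finset.Subset.refl _), ?_⟩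
  rw [← h.cover]
  ext e
  have h1 : e ∈ R → e ∉ F := fun hR hF' => (Finset.disjoint_left.1 hF) hR hF'
  simp only [Finset.mem_sdiff, Finset.mem_union]
  tauto

omit [DecidableEq V] in
theorem stars_dg_mono {E F : Finset (Sym2 V)} (h : E ⊆ F) (v : V) : dg E v ≤ dg F v := by
  classical
  unfold dg
  exact Finset.card_le_card (Finset.filter_subset_filter _ h)

omit [DecidableEq V] in
theorem stars_dgin_mono {E F : Finset (Sym2 V)} (h : E ⊆ F) (T : Finset V) (v : V) :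
    dgin E T v ≤ dgin F T v := by
  classical
  unfold dgin
  apply Finset.card_le_card
  intro y hy
  rw [Finset.mem_filter] at hy ⊢
  exact ⟨hy.1, h hy.2⟩

/-- Induction over the cores with `star_elim`, `SkFam.trans`; `dgin` and `dg` are monotone in the edge set. -/
theorem stars_elim (𝓒 : Finset (Finset V)) (hdisj : (𝓒 : Set (Finset V)).PairwiseDisjoint id)
    (hne : ∀ Z ∈ 𝓒, Z.Nonempty)
    (R : Finset (Sym2 V)) (hl : Loopless R) (hR : ∀ e ∈ R, ∀ Z ∈ 𝓒, ¬ ∀ x ∈ e, x ∈ Z)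
    (g : ℕ) (hg : 1 ≤ g) (b : Finset V → ℝ)
    (hb : ∀ Z ∈ 𝓒, ∀ v ∈ Z, (Z.card : ℝ) / 2 + 2 * dg R v ≤ b Z) :
    ∃ (R' : Finset (Sym2 V)) (𝒦 : Finset (List (V × V))), SkFam 𝓒 g R 𝒦 R' ∧
      (∀ Z ∈ 𝓒, ∀ u, u ∉ Z → dgin R' Z u ≤ 1) ∧
      (𝒦.card : ℝ) ≤ ∑ Z ∈ 𝓒, (b Z + 1) + ((R.card : ℝ) - R'.card) / (2 * g) := by
  have gen : ∀ T : Finset (Finset V), T ⊆ 𝓒 →
      ∃ (R' : Finset (Sym2 V)) (𝒦 : Finset (List (V × V))), SkFam 𝓒 g R 𝒦 R' ∧
      (∀ Z ∈ T, ∀ u, u ∉ Z → dgin R' Z u ≤ 1) ∧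
      (𝒦.card : ℝ) ≤ ∑ Z ∈ T, (b Z + 1) + ((R.card : ℝ) - R'.card) / (2 * g) := by
    intro T
    induction T using Finset.induction_on with
    | empty =>
      intro _
      refine ⟨R, ∅, SkFam.refl 𝓒 g R, ?_, ?_⟩
      · intro Z hZ; simp at hZ
      · simp
    | insert Z T hZT ih =>
      intro hT
      have hZ : Z ∈ 𝓒 := hT (Finset.mem_insert_self _ _)
      obtain ⟨R', 𝒦, hfam, hd, hc⟩ := ih (fun x hx => hT (Finset.mem_insert_of_mem hx))
      have hsub : R' ⊆ R := hfam.sub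
      obtain ⟨R'', 𝒦', hfam', hd', hc'⟩ := star_elim 𝓒 hdisj Z hZ (hne Z hZ) R'
        (fun e he => hl e (hsub he)) (fun e he => hR e (hsub he)) g hg (b Z) (by
          intro v hv
          have h1 := hb Z hZ v hv
          have h2 : (dg R' v : ℝ) ≤ dg R v := by exact_mod_cast stars_dg_mono hsub v
          linarith)
      refine ⟨R'', 𝒦 ∪ 𝒦', hfam.trans hfam', ?_, ?_⟩
      · intro Z' hZ' u hu
        rcases Finset.mem_insert.1 hZ' with rfl | hZ'
        · exact hd' u hu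
        · exact (stars_dgin_mono hfam'.sub Z' u).trans (hd Z' hZ' u hu)
      · rw [Finset.sum_insert hZT]
        have h1 : ((𝒦 ∪ 𝒦').card : ℝ) ≤ 𝒦.card + 𝒦'.card := by
          exact_mod_cast Finset.card_union_le _ _
        have h2 : ((R.card : ℝ) - R''.card) / (2 * g)
            = ((R.card : ℝ) - R'.card) / (2 * g) + ((R'.card : ℝ) - R''.card) / (2 * g) := by
          rw [← add_div]; congr 1; ring
        rw [h2]
        linarith
  exact gen 𝓒 (Finset.Subset.refl _)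

end Crest.Agent.EG
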