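import Crest.Agent.EG_CaseA
import Crest.Agent.EG_Sparse
import Crest.Agent.EG_Num

set_option autoImplicit false

namespace Crest.Agent.EG

variable {V : Type*} [DecidableEq V]

/-- TASK EG-Choice (pure real numbers): choice of the level. -/
theorem choice (a : ℕ → ℝ) (n P : ℝ) (m : ℕ) (hm : 20 ≤ m) (ha0 : ∀ i, 0 ≤ a i) (han : ∀ i, a i ≤ n)
    (hP : 0 < P) (hPm : (2 : ℝ) ^ (15 * m + 1) / P ≤ 1 / 2 ^ m) :
    (∃ j, j + 8 + 6 ≤ 16 * m ∧ n / P ≤ a j ∧ ∑ i ∈ Finset.range (j + 9), a i ≤ 512 * a j) ∨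
      ∑ i ∈ Finset.range (15 * m + 1), a i ≤ 2 ^ 14 / 2 ^ m * n := by
  have hn0 : 0 ≤ n := le_trans (ha0 0) (han 0)
  -- argmax
  obtain ⟨j, hj, hmax⟩ := Finset.exists_max_image (Finset.range (16 * m - 5)) (fun i => a i / 2 ^ i)
    ⟨0, by simp; omega⟩
  rw [Finset.mem_range] at hj
  have hle : ∀ i, i < 16 * m - 5 → a i ≤ a j / 2 ^ j * 2 ^ i := by
    intro i hi
    have h := hmax i (Finset.mem_range.mpr hi)
    have h2 : (0:ℝ) < 2 ^ i := by positivity
    calc a i = a i / 2 ^ i * 2 ^ i := by field_simp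
      _ ≤ a j / 2 ^ j * 2 ^ i := by gcongr
  have hgeo : ∀ M : ℕ, ∑ i ∈ Finset.range M, (2:ℝ) ^ i ≤ 2 ^ M := by
    intro M
    have := geom_sum_eq (by norm_num : (2:ℝ) ≠ 1) M
    rw [this]
    have : (0:ℝ) < 2 ^ M := by positivity
    norm_num
  have hsum : ∀ M, M ≤ 16 * m - 5 → ∑ i ∈ Finset.range M, a i ≤ a j / 2 ^ j * 2 ^ M := by
    intro M hM
    calc ∑ i ∈ Finset.range M, a i ≤ ∑ i ∈ Finset.range M, a j / 2 ^ j * 2 ^ i := by
          apply Finset.sum_le_sum
          intro i hi
          exact hle i (by rw [Finset.mem_range] at hi; omega)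
      _ = a j / 2 ^ j * ∑ i ∈ Finset.range M, 2 ^ i := by rw [Finset.mul_sum]
      _ ≤ a j / 2 ^ j * 2 ^ M := by
          apply mul_le_mul_of_nonneg_left (hgeo M)
          have := ha0 j
          positivity
  by_cases h1 : n / P ≤ a j
  · by_cases h2 : j + 14 ≤ 16 * m
    · left
      refine ⟨j, by omega, h1, ?_⟩
      refine le_trans (hsum (j + 9) (by omega)) ?_
      rw [pow_add]
      have : (0:ℝ) < 2 ^ j := by positivity
      field_simp
      norm_num
    · right
      refine le_trans (hsum (15 * m + 1) (by omega)) ?_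
      have h3 : (2:ℝ) ^ (15 * m + 1) / 2 ^ j ≤ 2 ^ 14 / 2 ^ m := by
        rw [div_le_div_iff₀ (by positivity) (by positivity), ← pow_add, ← pow_add]
        apply pow_le_pow_right₀ (by norm_num)
        omega
      calc a j / 2 ^ j * 2 ^ (15 * m + 1) = a j * ((2:ℝ) ^ (15 * m + 1) / 2 ^ j) := by ring
        _ ≤ n * (2 ^ 14 / 2 ^ m) := by
            apply mul_le_mul (han j) h3 (by positivity) hn0
        _ = 2 ^ 14 / 2 ^ m * n := by ring
  · right
    push Not at h1
    refine le_trans (hsum (15 * m + 1) (by omega)) ?_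
    have h3 : a j / 2 ^ j ≤ n / P := by
      calc a j / 2 ^ j ≤ a j / 1 := by
            apply div_le_div_of_nonneg_left (ha0 j) (by norm_num)
            exact one_le_pow₀ (by norm_num)
        _ = a j := by ring
        _ ≤ n / P := h1.le
    calc a j / 2 ^ j * 2 ^ (15 * m + 1) ≤ n / P * 2 ^ (15 * m + 1) := by gcongr
      _ = n * (2 ^ (15 * m + 1) / P) := by ring
      _ ≤ n * (1 / 2 ^ m) := by gcongr
      _ = 1 / 2 ^ m * n := by ring
      _ ≤ 2 ^ 14 / 2 ^ m * n := by
          gcongr
          norm_num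

theorem hubsz_nonneg (HH : Finset (Finset V)) : 0 ≤ hubsz HH := by
  unfold hubsz; positivity

theorem hubsz_le (S : Finset V) (HH : Finset (Finset V)) (hsub : ∀ Z ∈ HH, Z ⊆ S)
    (hd : (HH : Set (Finset V)).PairwiseDisjoint id) : hubsz HH ≤ S.card := by
  unfold hubsz
  have h : (HH.biUnion id).card = ∑ Z ∈ HH, Z.card := Finset.card_biUnion (by
    intro x hx y hy hxy
    exact hd hx hy hxy)
  have h2 : (HH.biUnion id).card ≤ S.card := by
    apply Finset.card_le_card
    intro v hv
    rw [Finset.mem_biUnion] at hv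
    obtain ⟨Z, hZ, hv⟩ := hv
    exact hsub Z hZ hv
  rw [h] at h2
  exact_mod_cast h2

/-- TASK EG-Step: one scale step. -/
theorem step (k : ℕ) (hk : 1000 ≤ k) (τ : ℝ) (hτ : 12000 ≤ τ)
    (h : ∀ (S : Finset V) (E : Finset (Sym2 V)), Loopless E → Supp E S → S.card ≤ 2 ^ (2 ^ k) →
      (cd E : ℝ) ≤ τ * S.card) :
    ∀ (S : Finset V) (E : Finset (Sym2 V)), Loopless E → Supp E S → S.card ≤ 2 ^ (2 ^ (k + 1)) →
      (cd E : ℝ) ≤ τ * (1 + 2 ^ 18 / 2 ^ (k / 16)) * S.card := by
  set m := k / 16 with hm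
  have hm62 : 62 ≤ m := by omega
  set τ' := τ * (1 + 2 ^ 18 / 2 ^ m) with hτ'
  have hfrac : (2:ℝ) ^ 18 / 2 ^ m ≤ 1 := by
    rw [div_le_one (by positivity)]
    exact pow_le_pow_right₀ (by norm_num) (by omega)
  have hfrac0 : (0:ℝ) ≤ 2 ^ 18 / 2 ^ m := by positivity
  have hττ' : τ ≤ τ' := by
    rw [hτ']; nlinarith
  have hτ'2 : τ' ≤ 2 * τ := by
    rw [hτ']; nlinarith
  suffices H : ∀ n : ℕ, ∀ (S : Finset V) (E : Finset (Sym2 V)), S.card = n → Loopless E → Supp E S →
      n ≤ 2 ^ (2 ^ (k + 1)) → (cd E : ℝ) ≤ τ' * S.card by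
    intro S E h1 h2 h3
    exact H S.card S E rfl h1 h2 h3
  intro n
  induction n using Nat.strong_induction_on with
  | _ n ih =>
    intro S E hSn hl hE hn
    by_cases hsmall : n ≤ 2 ^ (2 ^ k)
    · refine le_trans (h S E hl hE (by rw [hSn]; exact hsmall)) ?_
      gcongr
    · push Not at hsmall
      have IH : ∀ (S' : Finset V) (E' : Finset (Sym2 V)), Loopless E' → Supp E' S' → S'.card < S.card →
          (cd E' : ℝ) ≤ τ' * S'.card := by
        intro S' E' h1 h2 h3
        exact ih S'.card (by omega) S' E' rfl h1 h2 (by omega)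
      obtain ⟨P, hpar⟩ := exists_par k n hk hsmall hn
      set L : ℕ := 2 ^ (k + 3) with hL
      have hP0 : 0 < P := by
        have h1 := hpar.L_big
        have h2 := hpar.P_big
        have : (0:ℝ) < ((2 ^ (k + 3) : ℕ) : ℝ) ^ 50 := by positivity
        linarith
      have hn1 : 1 ≤ n := by
        have : 0 < 2 ^ (2 ^ k) := by positivity
        omega
      have hn1' : (1:ℝ) ≤ S.card := by rw [hSn]; exact_mod_cast hn1
      have hnL : 3 * (S.card : ℝ) ^ 2 ≤ 2 ^ L := by
        rw [hSn]; exact hpar.n_L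
      have hnL' : 3 * (S.card : ℝ) ≤ 2 ^ L := by nlinarith
      obtain ⟨R, HH, hR0, hlev, hR⟩ := levels S E hl hE P L hP0 (by rw [hL]; exact Nat.one_le_two_pow) (by omega) hnL'
      have hsbig : ∀ i, i + 6 ≤ 16 * m → P ^ 5 ≤ lvD S.card P L i / P := by
        intro i hi
        have := hpar.s_big i hi
        rw [hSn]
        unfold lvD
        exact this
      rcases choice (fun i => hubsz (HH i)) S.card P m (by omega) (fun i => hubsz_nonneg _)
        (fun i => hubsz_le S (HH i) (hlev i).hsub (hlev i).disj) hP0 hpar.P_pow with ⟨j, hj, hja, hjs⟩ | hB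
      · -- case A
        have := caseA S R HH P L hpar.L_big hpar.P_big hlev hR (by omega) hnL j
          (fun i hi => hsbig i (by omega)) τ' (by linarith) IH hja hjs
        rw [hR0] at this
        exact this
      · -- case B
        have hcost := hubs_cost S R HH P L hpar.L_big hpar.P_big hlev hR hnL (15 * m)
          (fun i hi => hsbig i (by omega)) τ' (by linarith) IH
        set B : ℕ := 2 ^ (2 ^ k) with hBdef
        set M : ℕ := 2 ^ (2 ^ (k - 2)) with hMdef
        set K : ℕ := 2 ^ (2 ^ k - 2) with hKdef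
        have hk2 : 4 ≤ 2 ^ k := by
          calc 4 = 2 ^ 2 := by norm_num
            _ ≤ 2 ^ k := Nat.pow_le_pow_right (by norm_num) (by omega)
        have hBK : B = 4 * K := by
          rw [hBdef, hKdef]
          have : 2 ^ k = (2 ^ k - 2) + 2 := by omega
          rw [this, pow_add]
          simp
          ring
        have hkk : 2 ^ (k - 2) + 2 ≤ 2 ^ k - 2 := by
          have h1 : 2 ^ k = 2 ^ (k - 2) * 4 := by
            have : k = (k - 2) + 2 := by omega
            conv_lhs => rw [this]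
            rw [pow_add]
            norm_num
          have h2 : 2 ^ 2 ≤ 2 ^ (k - 2) := Nat.pow_le_pow_right (by norm_num) (by omega)
          omega
        have hMK : 4 * M ≤ K := by
          rw [hMdef, hKdef]
          calc 4 * 2 ^ (2 ^ (k - 2)) = 2 ^ (2 ^ (k - 2) + 2) := by rw [pow_add]; ring
            _ ≤ 2 ^ (2 ^ k - 2) := Nat.pow_le_pow_right (by norm_num) hkk
        have hM3 : 3 ≤ M := by
          rw [hMdef]
          have h2 : 2 ^ 1 ≤ 2 ^ (k - 2) := Nat.pow_le_pow_right (by norm_num) (by omega)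
          calc 3 ≤ 2 ^ (2 ^ 1) := by norm_num
            _ ≤ 2 ^ (2 ^ (k - 2)) := Nat.pow_le_pow_right (by norm_num) h2
        have hsub : ∀ i, R i ⊆ R 0 := fun i => CaseA_sub S R HH P L hlev (Nat.zero_le i)
        have hsp := sparse S (R (15 * m + 1)) (hlev _).loopless (hlev _).supp B M K hM3 (by omega) (by omega) τ (by linarith)
          (fun S' E' h1 h2 h3 => h S' E' h1 h2 h3)
        -- the edges
        have hM0 : (0:ℝ) < M := by
          have : 0 < M := by omega
          exact_mod_cast this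
        have hRM : ((R (15 * m + 1)).card : ℝ) / M ≤ S.card / 2 ^ m := by
          have h1 := hR (15 * m + 1)
          have h2 := hpar.D_small
          have h3 : lvD S.card P L (15 * m + 1) ≤ (M : ℝ) / 2 ^ m := by
            rw [hSn]
            unfold lvD
            have : (M : ℝ) = 2 ^ (2 ^ (k - 2)) := by rw [hMdef]; push_cast; rfl
            rw [this]
            exact h2
          calc ((R (15 * m + 1)).card : ℝ) / M ≤ (S.card * (M / 2 ^ m)) / M := by
                gcongr
                exact le_trans h1 (by gcongr)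
            _ = S.card / 2 ^ m := by field_simp
        have hMKr : 2 * (M : ℝ) / K ≤ 1 / 2 ^ m := by
          have h2 := hpar.M_small
          have h3 : (M : ℝ) = 2 ^ (2 ^ (k - 2)) := by rw [hMdef]; push_cast; rfl
          have h4 : (2:ℝ) ^ (2 ^ k) = 4 * K := by
            have : ((B : ℕ) : ℝ) = ((4 * K : ℕ) : ℝ) := by rw [hBK]
            rw [hBdef] at this
            push_cast at this
            exact this
          rw [← h3, h4] at h2
          have hK0 : (0:ℝ) < K := by
            have : 0 < K := by omega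
            exact_mod_cast this
          calc 2 * (M : ℝ) / K = 8 * M / (4 * K) := by field_simp; ring
            _ ≤ 1 / 2 ^ m := h2
        have hsplit : (cd E : ℝ) ≤ cd (R 0 \ R (15 * m + 1)) + cd (R (15 * m + 1)) := by
          rw [← hR0]
          have := cd_split (hsub (15 * m + 1))
          have h2 : cd (R 0) ≤ cd (R 0 \ R (15 * m + 1)) + cd (R (15 * m + 1)) := by omega
          exact_mod_cast h2
        have hcoef : (0:ℝ) ≤ 12 + 3 / 4096 * τ' := by
          have : 0 ≤ τ' := by linarith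
          positivity
        have h2m : (0:ℝ) < 2 ^ m := by positivity
        set ε : ℝ := 1 / 2 ^ m with hε
        have hε0 : 0 < ε := by positivity
        have hn0 : (0:ℝ) ≤ S.card := by positivity
        have e1 : (2:ℝ) ^ 14 / 2 ^ m = 2 ^ 14 * ε := by rw [hε]; ring
        have e2 : (2:ℝ) ^ 18 / 2 ^ m = 2 ^ 18 * ε := by rw [hε]; ring
        have e3 : (S.card : ℝ) / 2 ^ m = ε * S.card := by rw [hε]; ring
        rw [e1] at hB
        rw [e3] at hRM
        have hc1 : (cd (R 0 \ R (15 * m + 1)) : ℝ) ≤ (12 + 3 / 4096 * τ') * (2 ^ 14 * ε * S.card) :=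
          le_trans hcost (mul_le_mul_of_nonneg_left hB hcoef)
        have hc2 : (cd (R (15 * m + 1)) : ℝ) ≤ ε * S.card + τ * (1 + ε) * S.card := by
          refine le_trans hsp ?_
          have : τ * (1 + 2 * (M:ℝ) / K) * S.card ≤ τ * (1 + ε) * S.card := by gcongr
          linarith
        have hfin : (12 + 3 / 4096 * τ') * (2 ^ 14 * ε * S.card) + (ε * S.card + τ * (1 + ε) * S.card) ≤
            τ * (1 + 2 ^ 18 * ε) * S.card := by
          have h5 : 0 ≤ ε * S.card := by positivity
          have h6 : (12 + 3 / 4096 * τ') * 2 ^ 14 + 1 + τ ≤ τ * 2 ^ 18 := by linarith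
          nlinarith
        rw [hτ', e2]
        linarith

end Crest.Agent.EG
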