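import Crest.Agent.EG_Khin

set_option autoImplicit false

namespace Crest.Agent.EG

open Matrix in
/-- the Gram matrix `Σ_k c_k c_kᵀ` -/
noncomputable def gramX {δ K : Type*} [Fintype K] (c : K → δ → ℝ) : Matrix δ δ ℝ :=
  fun d d' => ∑ k, c k d * c k d'

theorem gramX_symm {δ K : Type*} [Fintype K] (c : K → δ → ℝ) : (gramX c).IsSymm := by
  ext i j
  simp only [Matrix.transpose_apply, gramX]
  exact Finset.sum_congr rfl fun k _ => mul_comm _ _

theorem gramX_mulVec {δ K : Type*} [Fintype δ] [Fintype K] (c : K → δ → ℝ) (h : δ → ℝ) (d : δ) :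
    (gramX c).mulVec h d = ∑ k, c k d * ∑ d', c k d' * h d' := by
  simp only [Matrix.mulVec, dotProduct, gramX, Finset.sum_mul, Finset.mul_sum]
  rw [Finset.sum_comm]
  exact Finset.sum_congr rfl fun k _ => Finset.sum_congr rfl fun d' _ => by ring

theorem gramX_form2 {δ K : Type*} [Fintype δ] [Fintype K] (c : K → δ → ℝ) (u h : δ → ℝ) :
    u ⬝ᵥ (gramX c).mulVec h = ∑ k, (∑ d, c k d * u d) * ∑ d, c k d * h d := by
  simp only [dotProduct, gramX_mulVec, Finset.mul_sum, Finset.sum_mul]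
  rw [Finset.sum_comm]
  refine Finset.sum_congr rfl fun k _ => ?_
  rw [Finset.sum_comm]
  exact Finset.sum_congr rfl fun d' _ => Finset.sum_congr rfl fun d _ => by ring

theorem gramX_form {δ K : Type*} [Fintype δ] [Fintype K] (c : K → δ → ℝ) (h : δ → ℝ) :
    h ⬝ᵥ (gramX c).mulVec h = ∑ k, (∑ d, c k d * h d) ^ 2 := by
  rw [gramX_form2]
  exact Finset.sum_congr rfl fun k _ => (sq _).symm

theorem gramX_sq_le {δ K : Type*} [Fintype δ] [Fintype K] (c : K → δ → ℝ) (β : ℝ) (hβ0 : 0 ≤ β)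
    (hβ : ∀ h : δ → ℝ, ∑ k, (∑ d, c k d * h d) ^ 2 ≤ β * ∑ d, h d ^ 2) (h : δ → ℝ) :
    (gramX c).mulVec h ⬝ᵥ (gramX c).mulVec h ≤ β * ∑ k, (∑ d, c k d * h d) ^ 2 := by
  set u := (gramX c).mulVec h with hu
  have h1 : u ⬝ᵥ u = ∑ k, (∑ d, c k d * u d) * ∑ d, c k d * h d := by
    conv_lhs => rw [hu]
    rw [← hu, ← gramX_form2]
  have h2 : u ⬝ᵥ u = ∑ d, u d ^ 2 := by
    simp only [dotProduct, sq]
  have h3 : (u ⬝ᵥ u) ^ 2 ≤ (∑ k, (∑ d, c k d * u d) ^ 2) * ∑ k, (∑ d, c k d * h d) ^ 2 := by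
    rw [h1]
    exact Finset.sum_mul_sq_le_sq_mul_sq _ _ _
  have h4 := hβ u
  have h5 : 0 ≤ ∑ k, (∑ d, c k d * h d) ^ 2 := Finset.sum_nonneg fun _ _ => sq_nonneg _
  have h6 : 0 ≤ u ⬝ᵥ u := by
    rw [h2]; exact Finset.sum_nonneg fun _ _ => sq_nonneg _
  rcases h6.eq_or_lt with h7 | h7
  · rw [← h7]; positivity
  · have h8 : (u ⬝ᵥ u) ^ 2 ≤ β * (u ⬝ᵥ u) * ∑ k, (∑ d, c k d * h d) ^ 2 := by
      refine h3.trans ?_
      apply mul_le_mul_of_nonneg_right _ h5
      rw [h2]; exact h4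
    have h9 : (u ⬝ᵥ u) * (u ⬝ᵥ u) ≤ (u ⬝ᵥ u) * (β * ∑ k, (∑ d, c k d * h d) ^ 2) := by nlinarith
    exact le_of_mul_le_mul_left h9 h7

/-- trace of an even power of a symmetric matrix dominates the power of its numerical radius -/
theorem trace_pow_ge {δ : Type*} [Fintype δ] [DecidableEq δ] (Y : Matrix δ δ ℝ) (hY : Y.IsSymm)
    (m : ℕ) : 0 ≤ (Y ^ (2 * m)).trace ∧ ∀ (t : ℝ), 0 < t → (∃ h : δ → ℝ, t * ∑ d, h d ^ 2 < |h ⬝ᵥ Y.mulVec h|) →
      t ^ (2 * m) ≤ (Y ^ (2 * m)).trace := by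
  have hH : Y.IsHermitian := by
    rw [Matrix.IsHermitian, Matrix.conjTranspose_eq_transpose_of_trivial]
    exact hY
  set U : Matrix δ δ ℝ := (hH.eigenvectorUnitary : Matrix δ δ ℝ) with hU
  set D : Matrix δ δ ℝ := Matrix.diagonal hH.eigenvalues with hD
  have hUU : star U * U = 1 := Unitary.coe_star_mul_self hH.eigenvectorUnitary
  have hUU' : U * star U = 1 := Unitary.coe_mul_star_self hH.eigenvectorUnitary
  have hsp : Y = U * D * star U := by
    have := hH.spectral_theorem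
    rw [Unitary.conjStarAlgAut_apply] at this
    exact this
  have hpow : ∀ k : ℕ, Y ^ k = U * D ^ k * star U := by
    intro k
    induction k with
    | zero => simp [hUU']
    | succ k ih =>
      rw [pow_succ, ih]
      conv_lhs => rw [hsp]
      calc U * D ^ k * star U * (U * D * star U) = U * D ^ k * (star U * U) * D * star U := by
            simp only [Matrix.mul_assoc]
        _ = U * D ^ (k + 1) * star U := by
            rw [hUU, Matrix.mul_one, pow_succ]; simp only [Matrix.mul_assoc]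
  have htr : (Y ^ (2 * m)).trace = ∑ i, hH.eigenvalues i ^ (2 * m) := by
    rw [hpow, Matrix.trace_mul_cycle, hUU, Matrix.one_mul, hD, Matrix.diagonal_pow,
      Matrix.trace_diagonal]
    rfl
  have hnn : ∀ i, 0 ≤ hH.eigenvalues i ^ (2 * m) := fun i => by
    rw [pow_mul]; positivity
  refine ⟨?_, ?_⟩
  · rw [htr]; exact Finset.sum_nonneg fun i _ => hnn i
  · rintro t ht ⟨h, hh⟩
    -- some eigenvalue is large
    have hex : ∃ i, t < |hH.eigenvalues i| := by
      by_contra hcon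
      push Not at hcon
      apply absurd hh
      rw [not_lt]
      set g : δ → ℝ := (star U).mulVec h with hg
      have e1 : h ⬝ᵥ Y.mulVec h = ∑ i, hH.eigenvalues i * g i ^ 2 := by
        have : Y.mulVec h = U.mulVec (D.mulVec g) := by
          rw [hg]
          conv_lhs => rw [hsp]
          simp only [Matrix.mulVec_mulVec, Matrix.mul_assoc]
        rw [this, Matrix.dotProduct_mulVec]
        have e2 : Matrix.vecMul h U = g := by
          rw [hg, Matrix.star_eq_conjTranspose, Matrix.conjTranspose_eq_transpose_of_trivial,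
            Matrix.mulVec_transpose]
        rw [e2, hD]
        simp only [dotProduct, Matrix.mulVec_diagonal]
        exact Finset.sum_congr rfl fun i _ => by ring
      have e3 : ∑ i, g i ^ 2 = ∑ d, h d ^ 2 := by
        have e4 : g ⬝ᵥ g = h ⬝ᵥ h := by
          conv_lhs => rw [hg]
          rw [Matrix.dotProduct_mulVec, Matrix.star_eq_conjTranspose,
            Matrix.conjTranspose_eq_transpose_of_trivial, Matrix.vecMul_transpose,
            Matrix.mulVec_mulVec]
          rw [← Matrix.conjTranspose_eq_transpose_of_trivial, ← Matrix.star_eq_conjTranspose, hUU',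
            Matrix.one_mulVec]
        simp only [dotProduct] at e4
        simpa only [sq] using e4
      rw [e1, ← e3, Finset.mul_sum]
      refine (Finset.abs_sum_le_sum_abs _ _).trans (Finset.sum_le_sum fun i _ => ?_)
      rw [abs_mul, abs_of_nonneg (sq_nonneg (g i))]
      exact mul_le_mul_of_nonneg_right (hcon i) (sq_nonneg _)
    obtain ⟨i, hi⟩ := hex
    rw [htr]
    calc t ^ (2 * m) ≤ |hH.eigenvalues i| ^ (2 * m) := pow_le_pow_left₀ ht.le hi.le _
      _ = hH.eigenvalues i ^ (2 * m) := by rw [pow_mul, sq_abs, ← pow_mul]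
      _ ≤ ∑ i, hH.eigenvalues i ^ (2 * m) :=
        Finset.single_le_sum (f := fun i => hH.eigenvalues i ^ (2 * m)) (fun i _ => hnn i)
          (Finset.mem_univ i)

/-- TASK EG-Tail: tail bound for the comparison of two label classes of a uniformly random labelling.
For each labelling `lab : ι → Fin N` and `z : ι` let `q_z(h) = Σ_k (Σ_d c lab z k d * h d)^2`, a PSD form with matrix
`X_z = Σ_k c_k c_kᵀ`, `0 ≤ X_z ≤ β`, `Σ_z X_z ≤ B`, so `Σ_z X_z² ≤ β B` (`|X_z h|² ≤ β q_z(h)`).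
The forms do not change when labels are switched between `l` and `l'`.
Proof: for `ε : ι → Bool` let `flip ε lab` switch `l ↔ l'` at the `z` with `ε z = false` and `lab z ∈ {l,l'}`; this is a bijection of
`ι → Fin N` for each `ε`. With `A_z = s_z X_z`, `s_z = 1, -1, 0` if `lab z = l`, `= l'`, otherwise,
`Y(flip ε lab) = Σ ε_z A_z(lab)` where `Y(lab) = Σ_z A_z(lab)`. So
`Σ_lab tr Y(lab)^{2m} = 2^{-|ι|} Σ_lab Σ_ε tr (Σ ε_z A_z(lab))^{2m} ≤ N^{|ι|} (2m βB)^m |δ|` by `khintchine`. If `lab` is bad for `h` then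
`|hᵀ Y h| > t |h|²`, so some eigenvalue has absolute value `> t` and `tr Y^{2m} ≥ t^{2m}`; and
`(2mβB)^m / t^{2m} ≤ 4^{-m}`. -/
theorem tail {ι δ K : Type*} [Fintype ι] [DecidableEq ι] [Fintype δ] [DecidableEq δ] [Fintype K]
    (N : ℕ) (l l' : Fin N) (hne : l ≠ l') (c : (ι → Fin N) → ι → K → δ → ℝ)
    (hflip : ∀ lab lab' : ι → Fin N,
      (∀ z, lab z = lab' z ∨ ((lab z = l ∨ lab z = l') ∧ (lab' z = l ∨ lab' z = l'))) →
      c lab = c lab')
    (β B : ℝ) (hβ0 : 0 ≤ β) (hB0 : 0 ≤ B)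
    (hβ : ∀ lab z (h : δ → ℝ), ∑ k, (∑ d, c lab z k d * h d) ^ 2 ≤ β * ∑ d, h d ^ 2)
    (hB : ∀ lab (h : δ → ℝ), ∑ z, ∑ k, (∑ d, c lab z k d * h d) ^ 2 ≤ B * ∑ d, h d ^ 2)
    (t : ℝ) (ht : 0 < t) (m : ℕ) (hm : 1 ≤ m) (ht2 : 8 * m * (β * B) ≤ t ^ 2)
    (Bad : Finset (ι → Fin N))
    (hBad : ∀ lab ∈ Bad, ∃ h : δ → ℝ, t * ∑ d, h d ^ 2 <
      |∑ z ∈ Finset.univ.filter (fun z => lab z = l), ∑ k, (∑ d, c lab z k d * h d) ^ 2 -
        ∑ z ∈ Finset.univ.filter (fun z => lab z = l'), ∑ k, (∑ d, c lab z k d * h d) ^ 2|) :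
    (Bad.card : ℝ) ≤ N ^ Fintype.card ι * (Fintype.card δ / 4 ^ m) := by
  classical
  -- signs and matrices
  set sg : (ι → Fin N) → ι → ℝ := fun lab z => if lab z = l then 1 else if lab z = l' then -1 else 0
    with hsg
  set A : (ι → Fin N) → ι → Matrix δ δ ℝ := fun lab z => sg lab z • gramX (c lab z) with hA
  set Y : (ι → Fin N) → Matrix δ δ ℝ := fun lab => ∑ z, A lab z with hYdef
  have hAsymm : ∀ lab z, (A lab z).IsSymm := fun lab z => (gramX_symm _).smul _
  have hYsymm : ∀ lab, (Y lab).IsSymm := fun lab => by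
    rw [hYdef, Matrix.IsSymm, Matrix.transpose_sum]
    exact Finset.sum_congr rfl fun z _ => hAsymm lab z
  have hv : ∀ lab (h : δ → ℝ), ∑ z, (A lab z).mulVec h ⬝ᵥ (A lab z).mulVec h ≤
      (β * B) * ∑ d, h d ^ 2 := by
    intro lab h
    have h1 : ∀ z, (A lab z).mulVec h ⬝ᵥ (A lab z).mulVec h ≤
        β * ∑ k, (∑ d, c lab z k d * h d) ^ 2 := by
      intro z
      have h2 : (A lab z).mulVec h ⬝ᵥ (A lab z).mulVec h =
          (sg lab z) ^ 2 * ((gramX (c lab z)).mulVec h ⬝ᵥ (gramX (c lab z)).mulVec h) := by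
        simp only [hA, Matrix.smul_mulVec, smul_dotProduct, dotProduct_smul, smul_eq_mul]
        ring
      have h3 : (sg lab z) ^ 2 ≤ 1 := by
        simp only [hsg]
        split_ifs <;> norm_num
      have h4 : 0 ≤ (gramX (c lab z)).mulVec h ⬝ᵥ (gramX (c lab z)).mulVec h := by
        simp only [dotProduct]
        exact Finset.sum_nonneg fun i _ => mul_self_nonneg _
      have h5 := gramX_sq_le (c lab z) β hβ0 (hβ lab z) h
      rw [h2]
      nlinarith
    calc ∑ z, (A lab z).mulVec h ⬝ᵥ (A lab z).mulVec h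
        ≤ ∑ z, β * ∑ k, (∑ d, c lab z k d * h d) ^ 2 := Finset.sum_le_sum fun z _ => h1 z
      _ = β * ∑ z, ∑ k, (∑ d, c lab z k d * h d) ^ 2 := by rw [Finset.mul_sum]
      _ ≤ β * (B * ∑ d, h d ^ 2) := mul_le_mul_of_nonneg_left (hB lab h) hβ0
      _ = (β * B) * ∑ d, h d ^ 2 := by ring
  -- flips
  set fl : (ι → Bool) → (ι → Fin N) → (ι → Fin N) :=
    fun ε lab z => if ε z then lab z else Equiv.swap l l' (lab z) with hfl
  have hfl_inv : ∀ ε lab, fl ε (fl ε lab) = lab := by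
    intro ε lab
    funext z
    simp only [hfl]
    by_cases hz : ε z = true
    · simp [hz]
    · simp [hz]
  have hflc : ∀ ε lab, c (fl ε lab) = c lab := by
    intro ε lab
    apply hflip
    intro z
    simp only [hfl]
    by_cases hz : ε z = true
    · left; simp [hz]
    · simp only [hz, Bool.false_eq_true, if_false]
      by_cases h1 : lab z = l
      · right
        rw [h1, Equiv.swap_apply_left]
        exact ⟨Or.inr rfl, Or.inl rfl⟩
      · by_cases h2 : lab z = l'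
        · right
          rw [h2, Equiv.swap_apply_right]
          exact ⟨Or.inl rfl, Or.inr rfl⟩
        · left
          rw [Equiv.swap_apply_of_ne_of_ne h1 h2]
  have hflsg : ∀ ε lab z, sg (fl ε lab) z = (if ε z then (1 : ℝ) else -1) * sg lab z := by
    intro ε lab z
    simp only [hsg, hfl]
    by_cases hz : ε z = true
    · simp [hz]
    · simp only [hz, Bool.false_eq_true, if_false]
      by_cases h1 : lab z = l
      · rw [h1, Equiv.swap_apply_left]
        simp [hne.symm]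
      · by_cases h2 : lab z = l'
        · rw [h2, Equiv.swap_apply_right]
          simp [hne.symm]
        · rw [Equiv.swap_apply_of_ne_of_ne h1 h2]
          simp [h1, h2]
  have hflY : ∀ ε lab, Y (fl ε lab) = ∑ z, (if ε z then (1 : ℝ) else -1) • A lab z := by
    intro ε lab
    simp only [hYdef, hA]
    refine Finset.sum_congr rfl fun z _ => ?_
    rw [hflsg, hflc, smul_smul]
  -- the moment bound
  have hmom : ∑ lab, ((Y lab) ^ (2 * m)).trace ≤
      N ^ Fintype.card ι * ((2 * m : ℝ) ^ m * (β * B) ^ m * Fintype.card δ) := by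
    have h1 : ∀ ε : ι → Bool, ∑ lab, ((Y lab) ^ (2 * m)).trace =
        ∑ lab, ((∑ z, (if ε z then (1 : ℝ) else -1) • A lab z) ^ (2 * m)).trace := by
      intro ε
      rw [← Equiv.sum_comp (⟨fl ε, fl ε, hfl_inv ε, hfl_inv ε⟩ : (ι → Fin N) ≃ (ι → Fin N))
        (fun lab => ((Y lab) ^ (2 * m)).trace)]
      refine Finset.sum_congr rfl fun lab _ => ?_
      simp only [Equiv.coe_fn_mk, hflY]
    have h2 : (2 : ℝ) ^ Fintype.card ι * ∑ lab, ((Y lab) ^ (2 * m)).trace =
        ∑ lab, ∑ ε : ι → Bool, ((∑ z, (if ε z then (1 : ℝ) else -1) • A lab z) ^ (2 * m)).trace := by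
      rw [Finset.sum_comm]
      rw [← Finset.sum_congr rfl fun ε _ => h1 ε]
      rw [Finset.sum_const, Finset.card_univ, Fintype.card_fun, Fintype.card_bool, nsmul_eq_mul]
      push_cast
      ring
    have h3 : ∑ lab, ∑ ε : ι → Bool,
        ((∑ z, (if ε z then (1 : ℝ) else -1) • A lab z) ^ (2 * m)).trace ≤
        ∑ lab : ι → Fin N, 2 ^ Fintype.card ι * ((2 * m : ℝ) ^ m * (β * B) ^ m * Fintype.card δ) :=
      Finset.sum_le_sum fun lab _ =>
        khintchine (A lab) (hAsymm lab) (β * B) (mul_nonneg hβ0 hB0) (hv lab) m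
    rw [Finset.sum_const, Finset.card_univ, Fintype.card_fun, Fintype.card_fin, nsmul_eq_mul] at h3
    push_cast at h3
    have h4 : (0 : ℝ) < 2 ^ Fintype.card ι := by positivity
    have h5 : (2 : ℝ) ^ Fintype.card ι * ∑ lab, ((Y lab) ^ (2 * m)).trace ≤
        2 ^ Fintype.card ι *
          (N ^ Fintype.card ι * ((2 * m : ℝ) ^ m * (β * B) ^ m * Fintype.card δ)) := by
      rw [h2]
      refine h3.trans (le_of_eq ?_)
      ring
    exact le_of_mul_le_mul_left h5 h4
  -- bad labellings have large trace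
  have hform : ∀ lab (h : δ → ℝ), h ⬝ᵥ (Y lab).mulVec h =
      ∑ z ∈ Finset.univ.filter (fun z => lab z = l), ∑ k, (∑ d, c lab z k d * h d) ^ 2 -
        ∑ z ∈ Finset.univ.filter (fun z => lab z = l'), ∑ k, (∑ d, c lab z k d * h d) ^ 2 := by
    intro lab h
    have h1 : h ⬝ᵥ (Y lab).mulVec h =
        ∑ z, sg lab z * ∑ k, (∑ d, c lab z k d * h d) ^ 2 := by
      simp only [hYdef, hA, Matrix.sum_mulVec, dotProduct_sum, Matrix.smul_mulVec,
        dotProduct_smul, gramX_form, smul_eq_mul]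
    rw [h1, Finset.sum_filter, Finset.sum_filter, ← Finset.sum_sub_distrib]
    refine Finset.sum_congr rfl fun z _ => ?_
    simp only [hsg]
    by_cases h2 : lab z = l
    · have h3 : ¬ (lab z = l') := by rw [h2]; exact hne
      rw [if_pos h2, if_pos h2, if_neg h3]; ring
    · by_cases h3 : lab z = l'
      · rw [if_neg h2, if_pos h3, if_neg h2, if_pos h3]; ring
      · rw [if_neg h2, if_neg h3, if_neg h2, if_neg h3]; ring
  have hbad : (Bad.card : ℝ) * t ^ (2 * m) ≤ ∑ lab, ((Y lab) ^ (2 * m)).trace := by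
    calc (Bad.card : ℝ) * t ^ (2 * m) = ∑ lab ∈ Bad, t ^ (2 * m) := by
          rw [Finset.sum_const, nsmul_eq_mul]
      _ ≤ ∑ lab ∈ Bad, ((Y lab) ^ (2 * m)).trace := by
          refine Finset.sum_le_sum fun lab hlab => ?_
          apply (trace_pow_ge (Y lab) (hYsymm lab) m).2 t ht
          obtain ⟨h, hh⟩ := hBad lab hlab
          exact ⟨h, by rw [hform]; exact hh⟩
      _ ≤ ∑ lab, ((Y lab) ^ (2 * m)).trace :=
          Finset.sum_le_sum_of_subset_of_nonneg (Finset.subset_univ _)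
            fun lab _ _ => (trace_pow_ge (Y lab) (hYsymm lab) m).1
  have hnum : (2 * m : ℝ) ^ m * (β * B) ^ m ≤ t ^ (2 * m) / 4 ^ m := by
    rw [← mul_pow, pow_mul, ← div_pow]
    apply pow_le_pow_left₀
    · have := mul_nonneg hβ0 hB0
      positivity
    · linarith
  have htp : 0 < t ^ (2 * m) := by positivity
  have hfin : (Bad.card : ℝ) * t ^ (2 * m) ≤
      (N ^ Fintype.card ι * (Fintype.card δ / 4 ^ m)) * t ^ (2 * m) := by
    refine (hbad.trans hmom).trans ?_
    have h1 : (0 : ℝ) ≤ (N : ℝ) ^ Fintype.card ι := by positivity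
    have h2 : (0 : ℝ) ≤ (Fintype.card δ : ℝ) := by positivity
    calc (N : ℝ) ^ Fintype.card ι * ((2 * m : ℝ) ^ m * (β * B) ^ m * Fintype.card δ)
        ≤ (N : ℝ) ^ Fintype.card ι * (t ^ (2 * m) / 4 ^ m * Fintype.card δ) := by
          apply mul_le_mul_of_nonneg_left _ h1
          exact mul_le_mul_of_nonneg_right hnum h2
      _ = (N ^ Fintype.card ι * (Fintype.card δ / 4 ^ m)) * t ^ (2 * m) := by ring
  exact le_of_mul_le_mul_right hfin htp

end Crest.Agent.EG
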