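import Crest.Agent.EG_Labels

set_option autoImplicit false

namespace Crest.Agent.EG

/-- label `3 b + j` of block `b < 4`, `j < 3` -/
def bl (b : Fin 4) (j : Fin 3) : Fin 16384 := ⟨3 * b.1 + j.1, by omega⟩

theorem gl_bl_ne (b : Fin 4) (j j' : Fin 3) (h : j ≠ j') : bl b j ≠ bl b j' := by
  intro he
  apply h
  have := congrArg Fin.val he
  simp only [bl] at this
  apply Fin.ext
  omega

/-- the counting step: if every labelling is bad for a member of a family of bad sets then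
the sizes add up. -/
theorem gl_sum {ι : Type*} [Fintype ι] [DecidableEq ι] (N : ℕ)
    (S : Type*) [Fintype S] (Bad : S → Finset (ι → Fin N)) (c : ℝ)
    (hc : ∀ i, ((Bad i).card : ℝ) ≤ N ^ Fintype.card ι * c)
    (hN : 0 < N) (hlt : Fintype.card S * c < 1) : ∃ lab : ι → Fin N, ∀ i, lab ∉ Bad i := by
  classical
  by_contra hcon
  push Not at hcon
  have h1 : (Finset.univ : Finset (ι → Fin N)) ⊆ Finset.univ.biUnion Bad := by
    intro lab _
    obtain ⟨i, hi⟩ := hcon lab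
    exact Finset.mem_biUnion.2 ⟨i, Finset.mem_univ _, hi⟩
  have h2 := (Finset.card_le_card h1).trans Finset.card_biUnion_le
  rw [Finset.card_univ, Fintype.card_fun, Fintype.card_fin] at h2
  have h3 : ((N ^ Fintype.card ι : ℕ) : ℝ) ≤ ((∑ i, (Bad i).card : ℕ) : ℝ) := by exact_mod_cast h2
  push_cast at h3
  have h4 : ∑ i, ((Bad i).card : ℝ) ≤ ∑ _i : S, (N : ℝ) ^ Fintype.card ι * c :=
    Finset.sum_le_sum fun i _ => hc i
  rw [Finset.sum_const, Finset.card_univ, nsmul_eq_mul] at h4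
  have hpos : (0 : ℝ) < (N : ℝ) ^ Fintype.card ι := by positivity
  nlinarith

theorem gl_cls_sum {ι : Type*} [Fintype ι] [DecidableEq ι] {N : ℕ} (lab : ι → Fin N)
    (Y : Finset ι) : ∑ l, (Y ∩ cls lab l).card = Y.card := by
  classical
  rw [Finset.card_eq_sum_card_fiberwise (f := lab) (t := Finset.univ) (fun _ _ => Finset.mem_coe.2 (Finset.mem_univ _))]
  refine Finset.sum_congr rfl fun l _ => ?_
  congr 1
  ext z
  simp [cls]

/-- balance: lower bound -/
theorem gl_low {ι : Type*} [Fintype ι] [DecidableEq ι] {N : ℕ} (lab : ι → Fin N)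
    (Y : Finset ι) (L : ℕ) (hL : 128 * (N : ℝ) ^ 2 * L ≤ Y.card) (h1 : 1 ≤ (L : ℝ)) (hN : 1 ≤ (N : ℝ))
    (hbal : ∀ l l' : Fin N, l ≠ l' → |((Y ∩ cls lab l).card : ℝ) - ((Y ∩ cls lab l').card : ℝ)| ≤
      Real.sqrt (8 * L * Y.card) + 1) (l : Fin N) :
    (Y.card : ℝ) ≤ 2 * N * (Y ∩ cls lab l).card := by
  have hd0 : (0 : ℝ) ≤ Y.card := by positivity
  set d : ℝ := (Y.card : ℝ) with hd
  have hd1 : 1 ≤ d := by nlinarith
  have hsq : 2 * N * (Real.sqrt (8 * L * d) + 1) ≤ d := by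
    have e1 : (1 : ℝ) ≤ Real.sqrt (8 * L * d) := by
      rw [Real.one_le_sqrt]; nlinarith
    have e2 : 4 * N * Real.sqrt (8 * L * d) ≤ d := by
      have : Real.sqrt (8 * L * d) ≤ d / (4 * N) := by
        rw [Real.sqrt_le_left (by positivity), div_pow, le_div_iff₀ (by positivity)]
        nlinarith
      rw [le_div_iff₀ (by positivity)] at this
      linarith
    nlinarith
  have hsum : (∑ l', ((Y ∩ cls lab l').card : ℝ)) = d := by
    rw [hd, ← gl_cls_sum lab Y]; push_cast; rfl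
  have hle : ∀ l' : Fin N, ((Y ∩ cls lab l').card : ℝ) ≤
      (Y ∩ cls lab l).card + (Real.sqrt (8 * L * d) + 1) := by
    intro l'
    by_cases h : l' = l
    · subst h
      have := Real.sqrt_nonneg (8 * L * d)
      linarith
    · have := (abs_le.1 (hbal l' l h)).2
      linarith
  have h2 : (∑ l', ((Y ∩ cls lab l').card : ℝ)) ≤
      ∑ _l' : Fin N, (((Y ∩ cls lab l).card : ℝ) + (Real.sqrt (8 * L * d) + 1)) :=
    Finset.sum_le_sum fun l' _ => hle l'
  rw [hsum, Finset.sum_const, Finset.card_univ, Fintype.card_fin, nsmul_eq_mul] at h2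
  nlinarith

/-- balance: upper bound -/
theorem gl_up {ι : Type*} [Fintype ι] [DecidableEq ι] {N : ℕ} (lab : ι → Fin N)
    (Y : Finset ι) (L : ℕ) (hL : 288 * (N : ℝ) ^ 2 * L ≤ Y.card) (h1 : 1 ≤ (L : ℝ)) (hN : 1 ≤ (N : ℝ))
    (hbal : ∀ l l' : Fin N, l ≠ l' → |((Y ∩ cls lab l).card : ℝ) - ((Y ∩ cls lab l').card : ℝ)| ≤
      Real.sqrt (8 * L * Y.card) + 1) (l : Fin N) :
    3 * N * ((Y ∩ cls lab l).card : ℝ) ≤ 4 * (Y.card : ℝ) := by
  have hd0 : (0 : ℝ) ≤ Y.card := by positivity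
  set d : ℝ := (Y.card : ℝ) with hd
  have hd1 : 1 ≤ d := by nlinarith
  have hsq : 3 * N * (Real.sqrt (8 * L * d) + 1) ≤ d := by
    have e1 : (1 : ℝ) ≤ Real.sqrt (8 * L * d) := by
      rw [Real.one_le_sqrt]; nlinarith
    have e2 : 6 * N * Real.sqrt (8 * L * d) ≤ d := by
      have : Real.sqrt (8 * L * d) ≤ d / (6 * N) := by
        rw [Real.sqrt_le_left (by positivity), div_pow, le_div_iff₀ (by positivity)]
        nlinarith
      rw [le_div_iff₀ (by positivity)] at this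
      linarith
    nlinarith
  have hsum : (∑ l', ((Y ∩ cls lab l').card : ℝ)) = d := by
    rw [hd, ← gl_cls_sum lab Y]; push_cast; rfl
  have hle : ∀ l' : Fin N, ((Y ∩ cls lab l).card : ℝ) - (Real.sqrt (8 * L * d) + 1) ≤
      (Y ∩ cls lab l').card := by
    intro l'
    by_cases h : l' = l
    · subst h
      have := Real.sqrt_nonneg (8 * L * d)
      linarith
    · have := (abs_le.1 (hbal l' l h)).1
      linarith
  have h2 : ∑ _l' : Fin N, (((Y ∩ cls lab l).card : ℝ) - (Real.sqrt (8 * L * d) + 1)) ≤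
      (∑ l', ((Y ∩ cls lab l').card : ℝ)) :=
    Finset.sum_le_sum fun l' _ => hle l'
  rw [hsum, Finset.sum_const, Finset.card_univ, Fintype.card_fin, nsmul_eq_mul] at h2
  nlinarith

theorem gl_enn_nonneg {ι : Type*} [Fintype ι] (G : SimpleGraph ι) (U T : Finset ι) (f : ι → ℝ) :
    0 ≤ enn G U T f :=
  Finset.sum_nonneg fun _ _ => Finset.sum_nonneg fun _ _ => sq_nonneg _

/-- TASK EG-Union: existence of a good labelling by the union bound (`N = 16384`, `m = L`, `t = (8N/φ) √(8L/s)`).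
Bad events: `bad_count` for `Y = univ` and `Y = neighbourhood of z`, all pairs of labels; `bad_e1`, `bad_e2` for the 4 blocks and all
labels. Total fraction `≤ (N² (|ι|+1) + 4 N |ι| + 4 N |ι|)/4^L · 1 < 1` as `|ι|² ≤ 2^L`. Counting balance: if
`|dgr (cls l) z - dgr (cls l') z| ≤ √(8 L deg z) + 1` for all `l, l'` then `N dgr (cls l) z ≥ deg z - N(√(8L deg z) + 1) ≥ deg z/2`, since
`deg z ≥ s ≥ P^5` is huge; similarly `N |cls l| ≤ |ι| + N (√(8L|ι|)+1) ≤ 4/3 |ι|`. -/
theorem good_labelling {ι : Type*} [Fintype ι] [DecidableEq ι] (G : SimpleGraph ι) (w : ι → ℝ) (s P : ℝ) (L : ℕ)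
    (hL : (2 : ℝ) ^ 200 ≤ L) (hP : (L : ℝ) ^ 50 ≤ P) (hs : P ^ 5 ≤ s) (hub : SHub G w s (1 / P))
    (hne : Nonempty ι) (hι : (Fintype.card ι) ^ 2 ≤ 2 ^ L) :
    ∃ (lab : ι → Fin 16384) (t : ℝ), 0 ≤ t ∧ t ≤ (1 / P) / (16 * (16384 : ℕ) ^ 2) ∧
      (∀ b, GoodLab G w 16384 lab t (bl b 0) (bl b 1) (bl b 2)) ∧
      (∀ l, 3 * 16384 * (cls lab l).card ≤ 4 * Fintype.card ι) := by
  classical
  -- numerics
  have hL1 : (1 : ℝ) ≤ L := le_trans (by norm_num) hL
  have hL0 : (0 : ℝ) < L := by linarith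
  have hP0 : (0 : ℝ) < P := lt_of_lt_of_le (by positivity) hP
  have hLP : (2 : ℝ) ^ 101 * L ≤ P := by
    have : (2 : ℝ) ^ 101 * L ≤ (L : ℝ) ^ 50 := by
      have e1 : (2 : ℝ) ^ 101 ≤ (L : ℝ) ^ 49 := by
        calc (2 : ℝ) ^ 101 ≤ (2 : ℝ) ^ 200 := by norm_num
          _ ≤ (L : ℝ) := hL
          _ = (L : ℝ) ^ 1 := (pow_one _).symm
          _ ≤ (L : ℝ) ^ 49 := pow_le_pow_right₀ hL1 (by norm_num)
      calc (2 : ℝ) ^ 101 * L ≤ (L : ℝ) ^ 49 * L := mul_le_mul_of_nonneg_right e1 hL0.le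
        _ = (L : ℝ) ^ 50 := by ring
    exact this.trans hP
  have hP1 : (1 : ℝ) ≤ P := by
    have : (1 : ℝ) ≤ 2 ^ 101 * L := by nlinarith
    linarith
  have hPs : P ≤ s := by
    calc P = P ^ 1 := (pow_one _).symm
      _ ≤ P ^ 5 := pow_le_pow_right₀ hP1 (by norm_num)
      _ ≤ s := hs
  have hs0 : (0 : ℝ) < s := by linarith
  have hds : ∀ z, s ≤ dgr G Finset.univ z := fun z => (hub.w_ge z).trans (hub.w_le z)
  have hφ : (0 : ℝ) < 1 / P := by positivity
  have hφ1 : 1 / P ≤ 1 := by rw [div_le_one hP0]; exact hP1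
  -- the parameter t
  set t : ℝ := 8 * 16384 * P * Real.sqrt (8 * L / s) with ht
  have ht0 : 0 < t := by positivity
  have ht2 : 8 * (L : ℝ) * (8 * (16384 : ℕ) / ((1 / P) * s) * (8 * (16384 : ℕ) / (1 / P))) ≤ t ^ 2 := by
    rw [ht, mul_pow, Real.sq_sqrt (by positivity)]
    apply le_of_eq
    push_cast
    field_simp
  have ht3 : t ≤ (1 / P) / (16 * (16384 : ℕ) ^ 2) := by
    have e1 : Real.sqrt (8 * L / s) ≤ 1 / (P ^ 2 * 2 ^ 49) := by
      rw [Real.sqrt_le_left (by positivity), div_pow, div_le_div_iff₀ hs0 (by positivity)]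
      have : 8 * (L : ℝ) * (P ^ 2 * 2 ^ 49) ^ 2 = (2 ^ 101 * L) * P ^ 4 := by ring
      rw [this]
      calc (2 ^ 101 * L) * P ^ 4 ≤ P * P ^ 4 := mul_le_mul_of_nonneg_right hLP (by positivity)
        _ = P ^ 5 := by ring
        _ ≤ s := hs
        _ = 1 ^ 2 * s := by ring
    calc t ≤ 8 * 16384 * P * (1 / (P ^ 2 * 2 ^ 49)) := by
          rw [ht]; exact mul_le_mul_of_nonneg_left e1 (by positivity)
      _ = (1 / P) / (16 * (16384 : ℕ) ^ 2) := by
          push_cast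
          field_simp
          norm_num
  -- the family of bad sets
  let nb : ι → Finset ι := fun z => Finset.univ.filter (fun u => G.Adj z u)
  let Yf : Option ι → Finset ι := fun o => match o with
    | none => Finset.univ
    | some z => nb z
  let Bad1 : Option ι × Fin 16384 × Fin 16384 → Finset (ι → Fin 16384) := fun p =>
    Finset.univ.filter (fun lab => p.2.1 ≠ p.2.2 ∧ Real.sqrt (8 * L * (Yf p.1).card) + 1 <
      |((Yf p.1 ∩ cls lab p.2.1).card : ℝ) - ((Yf p.1 ∩ cls lab p.2.2).card : ℝ)|)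
  let Bad2 : Fin 4 × Fin 16384 → Finset (ι → Fin 16384) := fun p =>
    Finset.univ.filter (fun lab => p.2 ≠ bl p.1 0 ∧ p.2 ≠ bl p.1 1 ∧
      (∀ z, (dgr G Finset.univ z : ℝ) ≤ 2 * (16384 : ℕ) * dgr G (cls lab (bl p.1 0)) z) ∧
      ∃ h : ι → ℝ, enn G (cls lab (bl p.1 1)) Finset.univ (avg G (cls lab (bl p.1 0)) h) +
        t * ∑ v ∈ cls lab (bl p.1 0), w v * h v ^ 2 <
        enn G (cls lab p.2) Finset.univ (avg G (cls lab (bl p.1 0)) h))
  let Bad3 : Fin 4 × Fin 16384 → Finset (ι → Fin 16384) := fun p =>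
    Finset.univ.filter (fun lab => p.2 ≠ bl p.1 0 ∧ p.2 ≠ bl p.1 1 ∧ p.2 ≠ bl p.1 2 ∧
      (∀ z, (dgr G Finset.univ z : ℝ) ≤ 2 * (16384 : ℕ) * dgr G (cls lab (bl p.1 0)) z) ∧
      ∃ h : ι → ℝ, enn G (cls lab (bl p.1 2)) (cls lab (bl p.1 1)) (avg G (cls lab (bl p.1 0)) h) +
        t * ∑ v ∈ cls lab (bl p.1 0), w v * h v ^ 2 <
        enn G (cls lab p.2) (cls lab (bl p.1 1)) (avg G (cls lab (bl p.1 0)) h))
  have hLn : 1 ≤ L := by exact_mod_cast hL1
  have hcard1 : 1 ≤ Fintype.card ι := Fintype.card_pos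
  have hcard1' : (1 : ℝ) ≤ Fintype.card ι := by exact_mod_cast hcard1
  have hB1 : ∀ p, ((Bad1 p).card : ℝ) ≤ (16384 : ℕ) ^ Fintype.card ι * (Fintype.card ι / 4 ^ L) := by
    intro p
    by_cases hp : p.2.1 = p.2.2
    · have : Bad1 p = ∅ := by
        apply Finset.filter_false_of_mem
        intro lab _ h
        exact h.1 hp
      rw [this]
      simp only [Finset.card_empty, Nat.cast_zero]
      positivity
    · refine (bad_count 16384 p.2.1 p.2.2 hp (Yf p.1) L hLn (Bad1 p) ?_).trans ?_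
      · intro lab hlab
        exact (Finset.mem_filter.1 hlab).2.2
      · refine mul_le_mul_of_nonneg_left ?_ (by positivity)
        exact div_le_div_of_nonneg_right hcard1' (by positivity)
  have hB2 : ∀ p, ((Bad2 p).card : ℝ) ≤ (16384 : ℕ) ^ Fintype.card ι * (Fintype.card ι / 4 ^ L) := by
    intro p
    by_cases hp : p.2 ≠ bl p.1 0 ∧ p.2 ≠ bl p.1 1
    · refine bad_e1 G w s (1 / P) hub hs0 hφ hφ1 16384 (by norm_num) (bl p.1 0) (bl p.1 1) p.2
        (gl_bl_ne _ _ _ (by decide)) hp.1 hp.2 L hLn t ht0 ht2 (Bad2 p) ?_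
      intro lab hlab
      exact (Finset.mem_filter.1 hlab).2.2.2
    · have : Bad2 p = ∅ := by
        apply Finset.filter_false_of_mem
        intro lab _ h
        exact hp ⟨h.1, h.2.1⟩
      rw [this]
      simp only [Finset.card_empty, Nat.cast_zero]
      positivity
  have hB3 : ∀ p, ((Bad3 p).card : ℝ) ≤ (16384 : ℕ) ^ Fintype.card ι * (Fintype.card ι / 4 ^ L) := by
    intro p
    by_cases hp : p.2 ≠ bl p.1 0 ∧ p.2 ≠ bl p.1 1 ∧ p.2 ≠ bl p.1 2
    · refine bad_e2 G w s (1 / P) hub hs0 hφ hφ1 16384 (by norm_num) (bl p.1 0) (bl p.1 1) (bl p.1 2)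
        p.2 (gl_bl_ne _ _ _ (by decide)) (gl_bl_ne _ _ _ (by decide)) (gl_bl_ne _ _ _ (by decide))
        hp.1 hp.2.1 hp.2.2 L hLn t ht0 ht2 (Bad3 p) ?_
      intro lab hlab
      exact (Finset.mem_filter.1 hlab).2.2.2.2
    · have : Bad3 p = ∅ := by
        apply Finset.filter_false_of_mem
        intro lab _ h
        exact hp ⟨h.1, h.2.1, h.2.2.1⟩
      rw [this]
      simp only [Finset.card_empty, Nat.cast_zero]
      positivity
  let S := (Option ι × Fin 16384 × Fin 16384) ⊕ ((Fin 4 × Fin 16384) ⊕ (Fin 4 × Fin 16384))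
  let Bad : S → Finset (ι → Fin 16384) := fun i => Sum.elim Bad1 (Sum.elim Bad2 Bad3) i
  have hBad : ∀ i, ((Bad i).card : ℝ) ≤ (16384 : ℕ) ^ Fintype.card ι * (Fintype.card ι / 4 ^ L) := by
    rintro (i | i | i)
    · exact hB1 i
    · exact hB2 i
    · exact hB3 i
  have hSlt : (Fintype.card S : ℝ) * (Fintype.card ι / 4 ^ L) < 1 := by
    have hS : Fintype.card S = (Fintype.card ι + 1) * (16384 * 16384) + (4 * 16384 + 4 * 16384) := by
      simp only [S, Fintype.card_sum, Fintype.card_prod, Fintype.card_option, Fintype.card_fin]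
    have hS2 : (Fintype.card S : ℝ) ≤ 2 ^ 30 * Fintype.card ι := by
      rw [hS]; push_cast
      nlinarith
    have hι' : (Fintype.card ι : ℝ) ^ 2 ≤ 2 ^ L := by exact_mod_cast hι
    have h4 : (4 : ℝ) ^ L = 2 ^ L * 2 ^ L := by
      rw [← mul_pow]; norm_num
    have h2L : (2 : ℝ) ^ 30 < 2 ^ L := by
      apply pow_lt_pow_right₀ (by norm_num)
      have : (30 : ℝ) < L := lt_of_lt_of_le (by norm_num) hL
      exact_mod_cast this
    rw [mul_div_assoc', div_lt_one (by positivity), h4]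
    calc (Fintype.card S : ℝ) * Fintype.card ι ≤ 2 ^ 30 * Fintype.card ι * Fintype.card ι :=
          mul_le_mul_of_nonneg_right hS2 (by positivity)
      _ = 2 ^ 30 * (Fintype.card ι : ℝ) ^ 2 := by ring
      _ ≤ 2 ^ 30 * 2 ^ L := mul_le_mul_of_nonneg_left hι' (by positivity)
      _ < 2 ^ L * 2 ^ L := mul_lt_mul_of_pos_right h2L (by positivity)
  obtain ⟨lab, hlab⟩ := gl_sum 16384 S Bad (Fintype.card ι / 4 ^ L) hBad (by norm_num) hSlt
  have hbal : ∀ (o : Option ι) (l l' : Fin 16384), l ≠ l' →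
      |((Yf o ∩ cls lab l).card : ℝ) - ((Yf o ∩ cls lab l').card : ℝ)| ≤
      Real.sqrt (8 * L * (Yf o).card) + 1 := by
    intro o l l' hll
    by_contra hcon
    push Not at hcon
    exact hlab (Sum.inl (o, l, l')) (Finset.mem_filter.2 ⟨Finset.mem_univ _, hll, hcon⟩)
  have hnb : ∀ z (T : Finset ι), (nb z ∩ T).card = dgr G T z := by
    intro z T
    simp only [dgr, nb]
    congr 1
    ext u
    simp [and_comm]
  have hnb2 : ∀ z, (nb z).card = dgr G Finset.univ z := by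
    intro z
    rw [← hnb z Finset.univ, Finset.inter_univ]
  have hbig : ∀ x : ℝ, s ≤ x → 288 * ((16384 : ℕ) : ℝ) ^ 2 * L ≤ x := by
    intro x hx
    have : 288 * ((16384 : ℕ) : ℝ) ^ 2 * L ≤ 2 ^ 101 * L :=
      mul_le_mul_of_nonneg_right (by norm_num) hL0.le
    linarith
  have hdeg : ∀ (l : Fin 16384) z, (dgr G Finset.univ z : ℝ) ≤ 2 * (16384 : ℕ) * dgr G (cls lab l) z := by
    intro l z
    have := gl_low lab (nb z) L (by
      have e1 := hbig _ (hds z)
      rw [hnb2]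
      have e2 : 128 * ((16384 : ℕ) : ℝ) ^ 2 * L ≤ 288 * ((16384 : ℕ) : ℝ) ^ 2 * L :=
        mul_le_mul_of_nonneg_right (by norm_num) hL0.le
      linarith) hL1 (by norm_num) (hbal (some z)) l
    rw [hnb2, hnb] at this
    exact this
  refine ⟨lab, t, ht0.le, ht3, ?_, ?_⟩
  · intro b
    refine ⟨hdeg _, ?_, ?_⟩
    · intro l hl1 h
      by_cases hl3 : l = bl b 1
      · subst hl3
        have : 0 ≤ t * ∑ v ∈ cls lab (bl b 0), w v * h v ^ 2 := by
          refine mul_nonneg ht0.le (Finset.sum_nonneg fun v _ => ?_)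
          exact mul_nonneg (hs0.le.trans (hub.w_ge v)) (sq_nonneg _)
        linarith
      · by_contra hcon
        push Not at hcon
        exact hlab (Sum.inr (Sum.inl (b, l))) (Finset.mem_filter.2
          ⟨Finset.mem_univ _, hl1, hl3, hdeg _, h, hcon⟩)
    · intro l hl1 hl3 h
      by_cases hl4 : l = bl b 2
      · subst hl4
        have : 0 ≤ t * ∑ v ∈ cls lab (bl b 0), w v * h v ^ 2 := by
          refine mul_nonneg ht0.le (Finset.sum_nonneg fun v _ => ?_)
          exact mul_nonneg (hs0.le.trans (hub.w_ge v)) (sq_nonneg _)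
        linarith
      · by_contra hcon
        push Not at hcon
        exact hlab (Sum.inr (Sum.inr (b, l))) (Finset.mem_filter.2
          ⟨Finset.mem_univ _, hl1, hl3, hl4, hdeg _, h, hcon⟩)
  · intro l
    obtain ⟨z0⟩ := hne
    have hsι : s ≤ (Finset.univ : Finset ι).card := by
      refine (hds z0).trans ?_
      have : dgr G Finset.univ z0 ≤ (Finset.univ : Finset ι).card := Finset.card_filter_le _ _
      exact_mod_cast this
    have := gl_up lab Finset.univ L (hbig _ hsι) hL1 (by norm_num) (hbal none) l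
    rw [Finset.univ_inter, Finset.card_univ] at this
    exact_mod_cast this

end Crest.Agent.EG
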