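import Crest.Agent.GL_Flag

/-!
S0483 (blueprint GL), task 7: the matrix `B`.
-/

set_option autoImplicit false

namespace Crest.Agent.GL

open Finset Matrix

private theorem glb_pascal (n : ℕ) (f : ℕ → ℝ) :
    ∑ j ∈ range (n + 1 + 1), ((n + 1).choose j : ℝ) * f j =
      ∑ j ∈ range (n + 1), (n.choose j : ℝ) * (f j + f (j + 1)) := by
  rw [sum_range_succ']
  have h1 : ∀ j, (((n + 1).choose (j + 1) : ℕ) : ℝ) * f (j + 1) =
      (n.choose j : ℝ) * f (j + 1) + (n.choose (j + 1) : ℝ) * f (j + 1) := by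
    intro j
    rw [Nat.choose_succ_succ, Nat.cast_add, add_mul]
  rw [sum_congr rfl fun j _ => h1 j, sum_add_distrib]
  have h2 : ∑ j ∈ range (n + 1), (n.choose (j + 1) : ℝ) * f (j + 1) + ((n + 1).choose 0 : ℝ) * f 0 =
      ∑ j ∈ range (n + 1), (n.choose j : ℝ) * f j := by
    have h3 := sum_range_succ' (fun j => (n.choose j : ℝ) * f j) (n + 1)
    have h4 := sum_range_succ (fun j => (n.choose j : ℝ) * f j) (n + 1)
    rw [Nat.choose_succ_self, Nat.cast_zero, zero_mul, add_zero] at h4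
    rw [← h4, h3, Nat.choose_zero_right, Nat.choose_zero_right]
  rw [add_assoc, h2, ← sum_add_distrib]
  refine sum_congr rfl fun j _ => ?_
  ring

/-- `∑ C(n,j) (n - 2j)² = n 2^n` -/
theorem sum_choose_sq (n : ℕ) :
    ∑ j ∈ range (n + 1), (n.choose j : ℝ) * ((n : ℝ) - 2 * (j : ℝ)) ^ 2 = (n : ℝ) * 2 ^ n := by
  induction n with
  | zero => simp
  | succ n ih =>
    rw [glb_pascal n (fun j => (((n + 1 : ℕ) : ℝ) - 2 * (j : ℝ)) ^ 2)]
    have h1 : ∀ j : ℕ, (n.choose j : ℝ) * ((((n + 1 : ℕ) : ℝ) - 2 * (j : ℝ)) ^ 2 +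
        (((n + 1 : ℕ) : ℝ) - 2 * ((j + 1 : ℕ) : ℝ)) ^ 2) =
        2 * ((n.choose j : ℝ) * ((n : ℝ) - 2 * (j : ℝ)) ^ 2) + 2 * (n.choose j : ℝ) := by
      intro j
      push_cast
      ring
    rw [sum_congr rfl fun j _ => h1 j, sum_add_distrib, ← mul_sum, ← mul_sum, ih]
    have h2 : ∑ j ∈ range (n + 1), (n.choose j : ℝ) = 2 ^ n := by
      have := Nat.sum_range_choose n
      exact_mod_cast this
    rw [h2]
    push_cast
    ring

variable {n : ℕ} {u : Cube n → ℝ} {P : ℕ → Matrix (Cube n) (Cube n) ℝ}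

theorem IsFlag.E_symm (hP : IsFlag u P) (j : ℕ) : (EE P j)ᵀ = EE P j := by
  unfold EE
  rw [transpose_sub, hP.symm, hP.symm]

private theorem glb_mul (hP : IsFlag u P) (k l : ℕ) : P k * P l = P (min k l) := by
  rcases le_total k l with h | h
  · rw [min_eq_left h, hP.mono' h]
  · rw [min_eq_right h, hP.mono h]

theorem IsFlag.E_orth (hP : IsFlag u P) (a b : ℕ) :
    EE P a * EE P b = if a = b then EE P a else 0 := by
  unfold EE
  rw [mul_sub, sub_mul, sub_mul, glb_mul hP, glb_mul hP, glb_mul hP, glb_mul hP]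
  rcases lt_trichotomy a b with h | rfl | h
  · rw [if_neg h.ne, min_eq_left (by omega : a + 1 ≤ b + 1), min_eq_left (by omega : a ≤ b + 1),
      min_eq_left (by omega : a + 1 ≤ b), min_eq_left h.le, sub_self]
  · rw [if_pos rfl, min_self, min_self, min_eq_left (by omega : a ≤ a + 1),
      min_eq_right (by omega : a ≤ a + 1), sub_self, sub_zero]
  · rw [if_neg h.ne', min_eq_right (by omega : b + 1 ≤ a + 1), min_eq_right (by omega : b + 1 ≤ a),
      min_eq_right (by omega : b ≤ a + 1), min_eq_right h.le]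
    abel

theorem IsFlag.E_sum (hP : IsFlag u P) (hu : ∀ x, 0 < u x) :
    ∑ j ∈ range (n + 1), EE P j = 1 := by
  unfold EE
  rw [Finset.sum_range_sub P, hP.zero, hP.top hu le_rfl, sub_zero]

theorem IsFlag.E_trace (hP : IsFlag u P) (j : ℕ) : (EE P j).trace = n.choose j := by
  unfold EE
  rw [trace_sub, hP.trace, hP.trace]
  unfold ms
  rw [sum_range_succ, Nat.cast_add, add_sub_cancel_left]

/-- TASK GL-7 (Abel summation). -/
theorem IsFlag.B_eq (hP : IsFlag u P) (hu : ∀ x, 0 < u x) :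
    BB n P = ∑ j ∈ range (n + 1), ((n : ℝ) - 2 * (j : ℝ)) • EE P j := by
  have key : ∀ N : ℕ, ∑ j ∈ range N, ((n : ℝ) - 2 * (j : ℝ)) • EE P j =
      ((n : ℝ) - 2 * (N : ℝ)) • P N + (2 : ℝ) • ∑ k ∈ range N, P (k + 1) := by
    intro N
    induction N with
    | zero => simp [hP.zero]
    | succ N ih =>
      rw [sum_range_succ, ih, sum_range_succ]
      unfold EE
      push_cast
      module
  rw [key (n + 1), hP.top hu le_rfl, sum_range_succ, hP.top hu le_rfl]
  unfold BB
  push_cast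
  module

theorem IsFlag.B_symm (hP : IsFlag u P) : (BB n P)ᵀ = BB n P := by
  unfold BB
  rw [transpose_add, transpose_smul, transpose_smul, transpose_one, transpose_sum]
  simp only [hP.symm]

/-- `tr B² = n 2^n`, i.e. `∑_{x,y} B_{xy}² = n 2^n`. -/
theorem IsFlag.B_sq (hP : IsFlag u P) (hu : ∀ x, 0 < u x) :
    ∑ x, ∑ y, (BB n P x y) ^ 2 = (n : ℝ) * 2 ^ n := by
  have h1 : ∑ x, ∑ y, (BB n P x y) ^ 2 = (BB n P * BB n P).trace := by
    unfold Matrix.trace
    refine sum_congr rfl fun x _ => ?_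
    rw [diag_apply, mul_apply]
    refine sum_congr rfl fun y _ => ?_
    have h2 : BB n P y x = BB n P x y := by
      have := congrFun (congrFun hP.B_symm x) y
      rwa [transpose_apply] at this
    rw [h2, sq]
  have h3 : BB n P * BB n P = ∑ j ∈ range (n + 1), ((n : ℝ) - 2 * (j : ℝ)) ^ 2 • EE P j := by
    rw [hP.B_eq hu, Finset.sum_mul]
    refine sum_congr rfl fun a ha => ?_
    rw [Finset.mul_sum, Finset.sum_eq_single a]
    · rw [smul_mul_smul_comm, hP.E_orth, if_pos rfl, sq]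
    · intro b _ hb
      rw [smul_mul_smul_comm, hP.E_orth, if_neg (Ne.symm hb), smul_zero]
    · intro h
      exact absurd ha h
  rw [h1, h3, trace_sum, ← sum_choose_sq n]
  refine sum_congr rfl fun j _ => ?_
  rw [trace_smul, hP.E_trace, smul_eq_mul, mul_comm]

end Crest.Agent.GL
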