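import Mathlib

/-!
S0483 (blueprint GL), task 6: the commutator estimate.
-/

set_option autoImplicit false

namespace Crest.Agent.GL

open Finset Matrix

private def SS {Q : Type} (n : ℕ) (E : ℕ → Matrix Q Q ℝ) (c : ℕ → ℝ) :
    Matrix Q Q ℝ := ∑ j ∈ range (n + 1), c j • E j

private def tt (j : ℕ) : ℝ := if j % 4 < 2 then 1 else -1
private def rr (j : ℕ) : ℝ := if (j + 3) % 4 < 2 then 1 else -1
private def jj (j : ℕ) : ℝ := if j % 2 < 1 then 1 else -1

private theorem tt_sq (j : ℕ) : tt j * tt j = 1 := by unfold tt; split_ifs <;> norm_num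
private theorem rr_sq (j : ℕ) : rr j * rr j = 1 := by unfold rr; split_ifs <;> norm_num
private theorem jj_sq (j : ℕ) : jj j * jj j = 1 := by unfold jj; split_ifs <;> norm_num

private theorem E_mul_SS {Q : Type} [Fintype Q] [DecidableEq Q] (n : ℕ) (E : ℕ → Matrix Q Q ℝ)
    (horth : ∀ a ∈ range (n + 1), ∀ b ∈ range (n + 1), E a * E b = if a = b then E a else 0)
    (c : ℕ → ℝ) (a : ℕ) (ha : a ∈ range (n + 1)) : E a * SS n E c = c a • E a := by
  unfold SS
  rw [Finset.mul_sum, Finset.sum_eq_single a]
  · rw [mul_smul_comm, horth a ha a ha, if_pos rfl]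
  · intro b hb hba
    rw [mul_smul_comm, horth a ha b hb, if_neg (Ne.symm hba), smul_zero]
  · intro h; exact absurd ha h

private theorem SS_mul_E {Q : Type} [Fintype Q] [DecidableEq Q] (n : ℕ) (E : ℕ → Matrix Q Q ℝ)
    (horth : ∀ a ∈ range (n + 1), ∀ b ∈ range (n + 1), E a * E b = if a = b then E a else 0)
    (c : ℕ → ℝ) (a : ℕ) (ha : a ∈ range (n + 1)) : SS n E c * E a = c a • E a := by
  unfold SS
  rw [Finset.sum_mul, Finset.sum_eq_single a]
  · rw [smul_mul_assoc, horth a ha a ha, if_pos rfl]
  · intro b hb hba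
    rw [smul_mul_assoc, horth b hb a ha, if_neg hba, smul_zero]
  · intro h; exact absurd ha h

private theorem SS_symm {Q : Type} [Fintype Q] [DecidableEq Q] (n : ℕ) (E : ℕ → Matrix Q Q ℝ)
    (hsym : ∀ j, (E j)ᵀ = E j) (c : ℕ → ℝ) : (SS n E c)ᵀ = SS n E c := by
  unfold SS
  rw [Matrix.transpose_sum]
  refine Finset.sum_congr rfl fun j _ => ?_
  rw [Matrix.transpose_smul, hsym]

private theorem SS_sq {Q : Type} [Fintype Q] [DecidableEq Q] (n : ℕ) (E : ℕ → Matrix Q Q ℝ)
    (horth : ∀ a ∈ range (n + 1), ∀ b ∈ range (n + 1), E a * E b = if a = b then E a else 0)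
    (hsum : ∑ j ∈ range (n + 1), E j = 1) (c : ℕ → ℝ) (hc : ∀ j, c j * c j = 1) :
    SS n E c * SS n E c = 1 := by
  calc SS n E c * SS n E c = ∑ j ∈ range (n + 1), (c j • E j) * SS n E c := by
        rw [← Finset.sum_mul]; rfl
    _ = ∑ j ∈ range (n + 1), E j := by
        refine Finset.sum_congr rfl fun j hj => ?_
        rw [smul_mul_assoc, E_mul_SS n E horth c j hj, smul_smul, hc, one_smul]
    _ = 1 := hsum

private theorem mat_ext {Q : Type} [Fintype Q] [DecidableEq Q] (n : ℕ) (E : ℕ → Matrix Q Q ℝ)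
    (hsum : ∑ j ∈ range (n + 1), E j = 1) (Y Z : Matrix Q Q ℝ)
    (h : ∀ a ∈ range (n + 1), ∀ b ∈ range (n + 1), E a * Y * E b = E a * Z * E b) : Y = Z := by
  have key : ∀ M : Matrix Q Q ℝ, M = ∑ a ∈ range (n + 1), ∑ b ∈ range (n + 1), E a * M * E b := by
    intro M
    calc M = (∑ a ∈ range (n + 1), E a) * M * (∑ b ∈ range (n + 1), E b) := by
          rw [hsum, one_mul, mul_one]
      _ = ∑ a ∈ range (n + 1), ∑ b ∈ range (n + 1), E a * M * E b := by
          rw [Finset.sum_mul, Finset.sum_mul]
          refine Finset.sum_congr rfl fun a _ => ?_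
          rw [Finset.mul_sum]
  rw [key Y, key Z]
  exact Finset.sum_congr rfl fun a ha => Finset.sum_congr rfl fun b hb => h a ha b hb

private theorem col_sq {Q : Type} [Fintype Q] [DecidableEq Q] (A : Matrix Q Q ℝ) (x : Q) :
    ∑ y, (A y x) ^ 2 = (Aᵀ * A) x x := by
  rw [Matrix.mul_apply]
  refine Finset.sum_congr rfl fun y _ => ?_
  rw [Matrix.transpose_apply, sq]

/-- TASK GL-6. Let `E 0, ..., E n` be a resolution of the identity into real symmetric orthogonal
idempotents, `X` a real symmetric involution which is tridiagonal with respect to it and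
`B = ∑ (n - 2j) E j`.  Then every column of `[B, X]` has norm `≤ 2`.
Proof: put `J = ∑ (-1)^j E j`, `T = ∑ t j E j`, `R = ∑ r j E j`, `t j = 1` if `j % 4 < 2` else `-1`,
`r j = t (j-1)` (`= 1` if `(j+3) % 4 < 2` else `-1`); these are symmetric involutions, hence
isometries.  Compare `E a _ E b`: `E a (B X - X B) E b = -2 (a - b) E a X E b` vanishes unless
`|a - b| = 1` and `R (B X - X B) = -(X - J X J) T` since `r (b+1) = t b` and `-r (b-1) = t b`
(`t (b-2) = - t b`).  So `‖(BX - XB) v‖ = ‖R (BX - XB) v‖ ≤ ‖X T v‖ + ‖J X J T v‖ = 2 ‖v‖`; take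
`v = e_x`.  (Matrices `Y, Z` with `E a Y E b = E a Z E b` for all `a, b ≤ n` are equal.) -/
theorem comm_bound {Q : Type} [Fintype Q] [DecidableEq Q] (n : ℕ) (E : ℕ → Matrix Q Q ℝ)
    (hsym : ∀ j, (E j)ᵀ = E j)
    (horth : ∀ a ∈ range (n + 1), ∀ b ∈ range (n + 1), E a * E b = if a = b then E a else 0)
    (hsum : ∑ j ∈ range (n + 1), E j = 1) (X : Matrix Q Q ℝ) (hX : Xᵀ = X) (hX2 : X * X = 1)
    (htri : ∀ a ∈ range (n + 1), ∀ b ∈ range (n + 1), (a + 1 < b ∨ b + 1 < a) →
      E a * X * E b = 0)
    (B : Matrix Q Q ℝ) (hB : B = ∑ j ∈ range (n + 1), ((n : ℝ) - 2 * (j : ℝ)) • E j) (x : Q) :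
    ∑ y, ((B * X - X * B) y x) ^ 2 ≤ 4 := by
  obtain ⟨c, hc⟩ : ∃ c : ℕ → ℝ, c = fun j : ℕ => ((n : ℝ) - 2 * (j : ℝ)) := ⟨_, rfl⟩
  have hBS : B = SS n E c := by rw [hB, hc]; rfl
  obtain ⟨T, hT⟩ : ∃ T, T = SS n E tt := ⟨_, rfl⟩
  obtain ⟨R, hR⟩ : ∃ R, R = SS n E rr := ⟨_, rfl⟩
  obtain ⟨J, hJ⟩ : ∃ J, J = SS n E jj := ⟨_, rfl⟩
  have hTs : Tᵀ = T := by rw [hT]; exact SS_symm n E hsym _
  have hRs : Rᵀ = R := by rw [hR]; exact SS_symm n E hsym _
  have hJs : Jᵀ = J := by rw [hJ]; exact SS_symm n E hsym _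
  have hT2 : T * T = 1 := by rw [hT]; exact SS_sq n E horth hsum _ tt_sq
  have hR2 : R * R = 1 := by rw [hR]; exact SS_sq n E horth hsum _ rr_sq
  have hJ2 : J * J = 1 := by rw [hJ]; exact SS_sq n E horth hsum _ jj_sq
  have key : R * (B * X - X * B) = J * X * J * T - X * T := by
    apply mat_ext n E hsum
    intro a ha b hb
    have eR : E a * R = rr a • E a := by rw [hR]; exact E_mul_SS n E horth _ a ha
    have eB : E a * B = c a • E a := by rw [hBS]; exact E_mul_SS n E horth _ a ha
    have eJ : E a * J = jj a • E a := by rw [hJ]; exact E_mul_SS n E horth _ a ha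
    have fB : B * E b = c b • E b := by rw [hBS]; exact SS_mul_E n E horth _ b hb
    have fT : T * E b = tt b • E b := by rw [hT]; exact SS_mul_E n E horth _ b hb
    have fJ : J * E b = jj b • E b := by rw [hJ]; exact SS_mul_E n E horth _ b hb
    have l1 : E a * (R * (B * X - X * B)) * E b =
        (rr a * (c a - c b)) • (E a * X * E b) := by
      calc E a * (R * (B * X - X * B)) * E b = (E a * R) * (B * X - X * B) * E b := by
            rw [← mul_assoc]
        _ = rr a • ((E a * B) * X * E b - E a * X * (B * E b)) := by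
            rw [eR]
            simp only [smul_mul_assoc, mul_sub, sub_mul, mul_assoc, smul_sub]
        _ = (rr a * (c a - c b)) • (E a * X * E b) := by
            rw [eB, fB]
            simp only [smul_mul_assoc, mul_smul_comm]
            rw [← sub_smul, smul_smul]
    have l2 : E a * (J * X * J * T - X * T) * E b =
        ((jj a * jj b - 1) * tt b) • (E a * X * E b) := by
      calc E a * (J * X * J * T - X * T) * E b =
            (E a * J) * X * (J * (T * E b)) - E a * X * (T * E b) := by
            simp only [mul_sub, sub_mul, mul_assoc]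
        _ = ((jj a * jj b - 1) * tt b) • (E a * X * E b) := by
            rw [eJ, fT, mul_smul_comm, fJ]
            simp only [smul_mul_assoc, mul_smul_comm]
            rw [smul_smul, smul_smul, ← sub_smul]
            congr 1
            ring
    rw [l1, l2]
    by_cases hab : a + 1 < b ∨ b + 1 < a
    · rw [htri a ha b hb hab, smul_zero, smul_zero]
    · congr 1
      push Not at hab
      obtain ⟨h1, h2⟩ := hab
      have h3 : a = b ∨ a = b + 1 ∨ b = a + 1 := by omega
      rcases h3 with h | h | h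
      · subst h
        rw [jj_sq]
        ring
      · subst h
        have e1 : rr (b + 1) = tt b := by
          unfold rr tt
          have : (b + 1 + 3) % 4 = b % 4 := by omega
          rw [this]
        have e2 : jj (b + 1) * jj b = -1 := by
          unfold jj
          rcases Nat.mod_two_eq_zero_or_one b with hb' | hb'
          · have : (b + 1) % 2 = 1 := by omega
            rw [this, hb']; norm_num
          · have : (b + 1) % 2 = 0 := by omega
            rw [this, hb']; norm_num
        rw [e1, e2, hc]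
        push_cast
        ring
      · subst h
        have e1 : rr a = -tt (a + 1) := by
          unfold rr tt
          have h4 : a % 4 < 4 := Nat.mod_lt _ (by norm_num)
          by_cases h5 : (a + 3) % 4 < 2
          · rw [if_pos h5, if_neg (by omega)]; norm_num
          · rw [if_neg h5, if_pos (by omega)]
        have e2 : jj a * jj (a + 1) = -1 := by
          unfold jj
          rcases Nat.mod_two_eq_zero_or_one a with hb' | hb'
          · have : (a + 1) % 2 = 1 := by omega
            rw [this, hb']; norm_num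
          · have : (a + 1) % 2 = 0 := by omega
            rw [this, hb']; norm_num
        rw [e1, e2, hc]
        push_cast
        ring
  -- column norms
  obtain ⟨C, hC⟩ : ∃ C, C = B * X - X * B := ⟨_, rfl⟩
  rw [← hC] at key ⊢
  have s1 : ∑ y, (C y x) ^ 2 = ∑ y, ((R * C) y x) ^ 2 := by
    rw [col_sq, col_sq, Matrix.transpose_mul, hRs, mul_assoc, ← mul_assoc R R C, hR2, one_mul]
  have sU : ∑ y, ((J * X * J * T) y x) ^ 2 = 1 := by
    rw [col_sq]
    simp only [Matrix.transpose_mul, hTs, hJs, hX]
    have : T * (J * (X * J)) * (J * X * J * T) = 1 := by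
      calc T * (J * (X * J)) * (J * X * J * T) = T * J * X * (J * J) * X * J * T := by
            simp only [mul_assoc]
        _ = T * J * (X * X) * J * T := by rw [hJ2, mul_one]; simp only [mul_assoc]
        _ = T * (J * J) * T := by rw [hX2, mul_one]; simp only [mul_assoc]
        _ = 1 := by rw [hJ2, mul_one, hT2]
    rw [this, Matrix.one_apply_eq]
  have sV : ∑ y, ((X * T) y x) ^ 2 = 1 := by
    rw [col_sq]
    simp only [Matrix.transpose_mul, hTs, hX]
    have : T * X * (X * T) = 1 := by
      calc T * X * (X * T) = T * (X * X) * T := by simp only [mul_assoc]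
        _ = 1 := by rw [hX2, mul_one, hT2]
    rw [this, Matrix.one_apply_eq]
  rw [s1, key]
  calc ∑ y, ((J * X * J * T - X * T) y x) ^ 2 ≤
        ∑ y, (2 * ((J * X * J * T) y x) ^ 2 + 2 * ((X * T) y x) ^ 2) := by
        refine Finset.sum_le_sum fun y _ => ?_
        rw [Matrix.sub_apply]
        nlinarith [sq_nonneg ((J * X * J * T) y x + (X * T) y x)]
    _ = 4 := by
        rw [Finset.sum_add_distrib, ← Finset.mul_sum, ← Finset.mul_sum, sU, sV]
        norm_num

end Crest.Agent.GL
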