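import Mathlib

/-!
# S0483 (weak Gotsman--Linial): definitions

Paper proof: notes rid=S0483 (helper7, 11:58Z).  STRICT degree convention: `W n k` is the space of
functions on the cube of degree `< k` (so `W n 0 = 0`, `W n (n+1) = everything`), `ms n k` its
dimension.
-/

set_option autoImplicit false

namespace Crest.Agent.GL

open Finset Matrix

/-- the cube -/
abbrev Cube (n : ℕ) : Type := Fin n → Bool

/-- the sign of a bit -/
def sg (b : Bool) : ℝ := if b then 1 else -1

/-- the characters -/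
def chr {n : ℕ} (S : Finset (Fin n)) (x : Cube n) : ℝ := ∏ j ∈ S, (if x j then (1 : ℝ) else -1)

/-- functions of degree `< k` -/
def W (n k : ℕ) : Submodule ℝ (Cube n → ℝ) :=
  Submodule.span ℝ {f | ∃ S : Finset (Fin n), S.card < k ∧ f = chr S}

/-- `ms n k = ∑_{j < k} C(n,j)`, the dimension of `W n k` -/
def ms (n k : ℕ) : ℕ := ∑ j ∈ range k, n.choose j

/-- the flag of projections attached to a nonvanishing weight `u`: `P k` is the orthogonal projection
onto `u · W n k`. -/
structure IsFlag {n : ℕ} (u : Cube n → ℝ) (P : ℕ → Matrix (Cube n) (Cube n) ℝ) : Prop where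
  symm : ∀ k, (P k)ᵀ = P k
  idem : ∀ k, P k * P k = P k
  mem : ∀ k (v : Cube n → ℝ), P k *ᵥ v = v ↔ ∃ g ∈ W n k, v = fun x => u x * g x
  trace : ∀ k, (P k).trace = ms n k

/-- `B = -n + 2 ∑_{k=1}^{n} P k` -/
noncomputable def BB (n : ℕ) (P : ℕ → Matrix (Cube n) (Cube n) ℝ) : Matrix (Cube n) (Cube n) ℝ :=
  (-(n : ℝ)) • (1 : Matrix (Cube n) (Cube n) ℝ) + (2 : ℝ) • ∑ k ∈ range n, P (k + 1)

/-- `E j = P (j+1) - P j` -/
noncomputable def EE {n : ℕ} (P : ℕ → Matrix (Cube n) (Cube n) ℝ) (j : ℕ) :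
    Matrix (Cube n) (Cube n) ℝ := P (j + 1) - P j

/-- multiplication by the coordinate `x_i` -/
def XX {n : ℕ} (i : Fin n) : Matrix (Cube n) (Cube n) ℝ := Matrix.diagonal fun x => sg (x i)

/-- the point with coordinate `i` flipped -/
def fl {n : ℕ} (x : Cube n) (i : Fin n) : Cube n := Function.update x i (!(x i))

/-- `g k = m_k - m_{k-d}` (strict convention) -/
def gg (n d k : ℕ) : ℝ := (ms n k : ℝ) - (ms n (k - d) : ℝ)

/-- the bound for `t(k,l)` -/
noncomputable def bd (n d k l : ℕ) : ℝ :=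
  if k + d ≤ l then 0 else if k < l then gg n d k else min (gg n d k) (gg n d l)

end Crest.Agent.GL
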