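import Crest.Agent.GL_Num

/-!
S0483 (blueprint GL), task 12: the sum of the bounds.
-/

set_option autoImplicit false

namespace Crest.Agent.GL

open Finset Matrix

/-- TASK GL-12. Split `l ≤ k` (`far_sum`, `sum_gg_abs`), `k < l < k + d` (at most `d - 1` values of
`l`, each `g k`; `sum_gg`), `l ≥ k + d` (zero). -/
theorem sum_bd (n d : ℕ) (hd : 1 ≤ d) :
    ∑ k ∈ range n, ∑ l ∈ range n, bd n d (k + 1) (l + 1) ≤
      d * 2 ^ n * Real.sqrt n + 2 * d ^ 2 * 2 ^ n := by
  have h1 : ∀ k ∈ range n, ∑ l ∈ range n, bd n d (k + 1) (l + 1) ≤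
      (∑ l ∈ range (k + 1), min (gg n d (k + 1)) (gg n d (l + 1))) + d * gg n d (k + 1) := by
    intro k hk
    have hk' : k < n := mem_range.1 hk
    have hpt : ∀ l ∈ range n, bd n d (k + 1) (l + 1) ≤
        (if l ∈ range (k + 1) then min (gg n d (k + 1)) (gg n d (l + 1)) else 0) +
          (if l ∈ Ico k (k + d) then gg n d (k + 1) else 0) := by
      intro l _
      have hg := gg_nonneg n d (k + 1)
      unfold bd
      by_cases hlk : l ≤ k
      · have e1 : ¬ (k + 1 + d ≤ l + 1) := by omega
        have e2 : ¬ (k + 1 < l + 1) := by omega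
        have e3 : l ∈ range (k + 1) := mem_range.2 (by omega)
        rw [if_neg e1, if_neg e2, if_pos e3]
        have : 0 ≤ (if l ∈ Ico k (k + d) then gg n d (k + 1) else 0) := by
          split_ifs
          · exact hg
          · exact le_rfl
        linarith
      · have e3 : ¬ l ∈ range (k + 1) := by
          rw [mem_range]; omega
        rw [if_neg e3]
        by_cases hl : k + d ≤ l
        · have e1 : k + 1 + d ≤ l + 1 := by omega
          rw [if_pos e1]
          have : 0 ≤ (if l ∈ Ico k (k + d) then gg n d (k + 1) else 0) := by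
            split_ifs
            · exact hg
            · exact le_rfl
          linarith
        · have e1 : ¬ (k + 1 + d ≤ l + 1) := by omega
          have e2 : k + 1 < l + 1 := by omega
          have e4 : l ∈ Ico k (k + d) := mem_Ico.2 ⟨by omega, by omega⟩
          rw [if_neg e1, if_pos e2, if_pos e4]
          linarith
    refine (sum_le_sum hpt).trans ?_
    rw [sum_add_distrib]
    refine add_le_add ?_ ?_
    · rw [← sum_filter]
      refine le_of_eq (sum_congr ?_ fun _ _ => rfl)
      ext l
      simp only [mem_filter, mem_range]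
      omega
    · rw [← sum_filter, sum_const, nsmul_eq_mul]
      refine mul_le_mul_of_nonneg_right ?_ (gg_nonneg n d (k + 1))
      have : (filter (fun l => l ∈ Ico k (k + d)) (range n)).card ≤ (Ico k (k + d)).card := by
        refine card_le_card ?_
        intro l hl
        exact (mem_filter.1 hl).2
      rw [Nat.card_Ico] at this
      have h2 : (filter (fun l => l ∈ Ico k (k + d)) (range n)).card ≤ d := by omega
      exact_mod_cast h2
  refine (sum_le_sum h1).trans ?_
  rw [sum_add_distrib]
  have h2 := far_sum n (fun j => gg n d (j + 1)) (fun j => gg_nonneg n d (j + 1))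
  have h3 := sum_gg_abs n d
  have h4 := sum_gg n d
  have h5 : ∑ k ∈ range n, (d : ℝ) * gg n d (k + 1) ≤ d * (d * 2 ^ n) := by
    rw [← mul_sum]
    exact mul_le_mul_of_nonneg_left h4 (Nat.cast_nonneg d)
  have h6 : ∑ k ∈ range n, ∑ l ∈ range (k + 1), min (gg n d (k + 1)) (gg n d (l + 1)) ≤
      d * 2 ^ n * Real.sqrt n + d ^ 2 * 2 ^ n := h2.trans h3
  nlinarith [h5, h6]

end Crest.Agent.GL
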