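import Crest.Agent.GL_Defs

/-!
S0483 (blueprint GL), task 10: two nested flags of projections.
-/

set_option autoImplicit false

namespace Crest.Agent.GL

open Finset Matrix

/-- `0 ≤ tr (P Q)` and `tr (P Q) ≤ tr P` for real symmetric idempotents (`tr (P Q) = ‖P Q‖²_HS`,
`tr P - tr (P Q) = tr (P (1 - Q))`). -/
theorem trace_mul_nonneg {Q' : Type} [Fintype Q'] [DecidableEq Q'] (P Q : Matrix Q' Q' ℝ)
    (hP : Pᵀ = P) (hP2 : P * P = P) (hQ : Qᵀ = Q) (hQ2 : Q * Q = Q) : 0 ≤ (P * Q).trace := by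
  have h1 : (P * Q).trace = ((Q * P)ᵀ * (Q * P)).trace := by
    rw [Matrix.transpose_mul, hP, hQ]
    calc (P * Q).trace = (P * P * (Q * Q)).trace := by rw [hP2, hQ2]
      _ = (P * (P * (Q * Q))).trace := by rw [Matrix.mul_assoc]
      _ = (P * (Q * Q) * P).trace := by rw [Matrix.trace_mul_comm]
      _ = (P * Q * (Q * P)).trace := by simp only [Matrix.mul_assoc]
  rw [h1, Matrix.trace]
  refine Finset.sum_nonneg fun x _ => ?_
  rw [Matrix.diag_apply, Matrix.mul_apply]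
  refine Finset.sum_nonneg fun y _ => ?_
  rw [Matrix.transpose_apply]
  exact mul_self_nonneg _

private theorem trace_mul_le {Q' : Type} [Fintype Q'] [DecidableEq Q'] (P Q : Matrix Q' Q' ℝ)
    (hP : Pᵀ = P) (hP2 : P * P = P) (hQ : Qᵀ = Q) (hQ2 : Q * Q = Q) :
    (P * Q).trace ≤ Q.trace := by
  have h1 := trace_mul_nonneg (1 - P) Q (by rw [Matrix.transpose_sub, hP, Matrix.transpose_one])
    (by rw [Matrix.sub_mul, Matrix.mul_sub, Matrix.mul_sub, hP2]; simp) hQ hQ2
  rw [Matrix.sub_mul, Matrix.one_mul, Matrix.trace_sub] at h1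
  linarith

private theorem sub_idem {Q' : Type} [Fintype Q'] [DecidableEq Q'] {P Q : Matrix Q' Q' ℝ}
    (hP : Pᵀ = P) (hP2 : P * P = P) (hQ : Qᵀ = Q) (hQ2 : Q * Q = Q) (h : Q * P = P) :
    (Q - P)ᵀ = Q - P ∧ (Q - P) * (Q - P) = Q - P := by
  have h' : P * Q = P := by
    have h2 := congrArg Matrix.transpose h
    rwa [Matrix.transpose_mul, hP, hQ] at h2
  refine ⟨by rw [Matrix.transpose_sub, hP, hQ], ?_⟩
  rw [Matrix.sub_mul, Matrix.mul_sub, Matrix.mul_sub, hP2, hQ2, h, h']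
  simp

/-- TASK GL-10.  `P`, `Q` increasing families of symmetric idempotents with the same traces and
`P k ≤ Q l` for `l ≥ k + d`.  Then `‖∑_{k=1}^n (P k - Q k)‖²_HS ≤ 2 ∑_{k,l} bd`.
Proof: the left side is `∑_{k,l} (2 tr-min - tr (P k Q l) - tr (Q k P l)) = 2 ∑_{k,l} t k l`,
`t k l = m (min k l) - tr (P k Q l)`, and `t k l ≤ bd k l`:
* `l ≥ k + d`: `P k Q l = P k`;
* `l ≤ k`: `t k l = tr ((1 - P k) Q l)`; `Q l = (Q l - P (l-d)) + P (l-d)` and
  `(1 - P k) P (l-d) = 0`, so `t k l ≤ tr (Q l - P (l-d)) = g l` (if `l < d` then `P 0 = 0`); and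
  `t k l ≤ t k k ≤ g k` as `Q l ≤ Q k`;
* `k < l < k + d`: `t k l = tr (P k (1 - Q l)) ≤ tr (P k (1 - Q k)) = t k k ≤ g k`. -/
theorem two_flags {Q' : Type} [Fintype Q'] [DecidableEq Q'] (n d : ℕ)
    (P Q : ℕ → Matrix Q' Q' ℝ)
    (hPs : ∀ k, (P k)ᵀ = P k) (hPi : ∀ k, P k * P k = P k)
    (hQs : ∀ k, (Q k)ᵀ = Q k) (hQi : ∀ k, Q k * Q k = Q k)
    (hPm : ∀ k l, k ≤ l → P l * P k = P k) (hQm : ∀ k l, k ≤ l → Q l * Q k = Q k)
    (hP0 : P 0 = 0)
    (hPt : ∀ k ≤ n, (P k).trace = ms n k) (hQt : ∀ k ≤ n, (Q k).trace = ms n k)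
    (hPQ : ∀ k l, k + d ≤ l → l ≤ n → Q l * P k = P k) :
    ∑ x, ∑ y, ((∑ k ∈ range n, (P (k + 1) - Q (k + 1))) x y) ^ 2 ≤
      2 * ∑ k ∈ range n, ∑ l ∈ range n, bd n d (k + 1) (l + 1) := by
  -- basic facts
  have hQP : ∀ l ≤ n, Q l * P (l - d) = P (l - d) := by
    intro l hl
    rcases le_or_gt d l with h | h
    · exact hPQ (l - d) l (by omega) hl
    · rw [Nat.sub_eq_zero_of_le h.le, hP0, Matrix.mul_zero]
  -- key bound with `g l`
  have hkey : ∀ k l, l ≤ k → l ≤ n → (Q l).trace - (P k * Q l).trace ≤ gg n d l := by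
    intro k l hlk hln
    obtain ⟨hs, hi⟩ := sub_idem (hPs (l - d)) (hPi (l - d)) (hQs l) (hQi l) (hQP l hln)
    have h1 := trace_mul_nonneg (P k) (Q l - P (l - d)) (hPs k) (hPi k) hs hi
    rw [Matrix.mul_sub, Matrix.trace_sub, hPm (l - d) k (by omega)] at h1
    have h2 : (P (l - d)).trace = ms n (l - d) := hPt _ (by omega)
    have h3 : (Q l).trace = ms n l := hQt _ hln
    unfold gg
    rw [h2] at h1
    rw [h3]
    linarith
  -- `tr (P a (Q k - Q l)) ≥ 0`
  have hmono : ∀ a k l, l ≤ k → (P a * Q l).trace ≤ (P a * Q k).trace := by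
    intro a k l hlk
    obtain ⟨hs, hi⟩ := sub_idem (hQs l) (hQi l) (hQs k) (hQi k) (hQm l k hlk)
    have h1 := trace_mul_nonneg (P a) (Q k - Q l) (hPs a) (hPi a) hs hi
    rw [Matrix.mul_sub, Matrix.trace_sub] at h1
    linarith
  -- `tr ((1 - P k) (Q k - Q l)) ≥ 0`
  have hmono' : ∀ k l, l ≤ k →
      (Q l).trace - (P k * Q l).trace ≤ (Q k).trace - (P k * Q k).trace := by
    intro k l hlk
    obtain ⟨hs, hi⟩ := sub_idem (hQs l) (hQi l) (hQs k) (hQi k) (hQm l k hlk)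
    have h1 := trace_mul_le (P k) (Q k - Q l) (hPs k) (hPi k) hs hi
    rw [Matrix.mul_sub, Matrix.trace_sub, Matrix.trace_sub] at h1
    linarith
  have hbd : ∀ k l, k ≤ n → l ≤ n → (ms n (min k l) : ℝ) - (P k * Q l).trace ≤ bd n d k l := by
    intro k l hk hl
    have hPk : (P k).trace = ms n k := hPt k hk
    have hQk : (Q k).trace = ms n k := hQt k hk
    have hQl : (Q l).trace = ms n l := hQt l hl
    unfold bd
    split_ifs with h1 h2
    · rw [min_eq_left (by omega), Matrix.trace_mul_comm, hPQ k l h1 hl, hPk, sub_self]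
    · rw [min_eq_left h2.le]
      have h3 := hkey k k le_rfl hk
      have h4 := hmono k l k h2.le
      rw [hQk] at h3
      linarith
    · push Not at h2
      rw [min_eq_right h2, le_min_iff]
      have h3 := hkey k k le_rfl hk
      have h4 := hmono' k l h2
      have h5 := hkey k l h2 hl
      rw [hQl] at h4 h5
      exact ⟨by linarith, h5⟩
  -- the Hilbert--Schmidt norm as a double sum of traces
  set T : Matrix Q' Q' ℝ := ∑ k ∈ range n, (P (k + 1) - Q (k + 1)) with hT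
  have hTs : Tᵀ = T := by
    rw [hT, Matrix.transpose_sum]
    refine Finset.sum_congr rfl fun k _ => ?_
    rw [Matrix.transpose_sub, hPs, hQs]
  have h1 : ∑ x, ∑ y, (T x y) ^ 2 = (T * T).trace := by
    rw [Matrix.trace]
    refine Finset.sum_congr rfl fun x _ => ?_
    rw [Matrix.diag_apply, Matrix.mul_apply]
    refine Finset.sum_congr rfl fun y _ => ?_
    have h2 : T y x = T x y := by
      conv_lhs => rw [← hTs, Matrix.transpose_apply]
    rw [h2, sq]
  have hPP : ∀ k l, k ≤ n → l ≤ n → (P k * P l).trace = ms n (min k l) := by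
    intro k l hk hl
    rcases le_total k l with h | h
    · rw [Matrix.trace_mul_comm, hPm k l h, min_eq_left h, hPt k hk]
    · rw [hPm l k h, min_eq_right h, hPt l hl]
  have hQQ : ∀ k l, k ≤ n → l ≤ n → (Q k * Q l).trace = ms n (min k l) := by
    intro k l hk hl
    rcases le_total k l with h | h
    · rw [Matrix.trace_mul_comm, hQm k l h, min_eq_left h, hQt k hk]
    · rw [hQm l k h, min_eq_right h, hQt l hl]
  have h2 : (T * T).trace = ∑ k ∈ range n, ∑ l ∈ range n,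
      ((ms n (min (k + 1) (l + 1)) : ℝ) - (P (k + 1) * Q (l + 1)).trace +
        ((ms n (min (k + 1) (l + 1)) : ℝ) - (P (l + 1) * Q (k + 1)).trace)) := by
    rw [hT, Finset.sum_mul, Matrix.trace_sum]
    refine Finset.sum_congr rfl fun k hk => ?_
    rw [Finset.mul_sum, Matrix.trace_sum]
    refine Finset.sum_congr rfl fun l hl => ?_
    rw [mem_range] at hk hl
    rw [Matrix.sub_mul, Matrix.mul_sub, Matrix.mul_sub, Matrix.trace_sub, Matrix.trace_sub,
      Matrix.trace_sub, hPP (k + 1) (l + 1) hk hl, hQQ (k + 1) (l + 1) hk hl,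
      Matrix.trace_mul_comm (Q (k + 1)) (P (l + 1))]
    ring
  rw [h1, h2]
  have h3 : ∑ k ∈ range n, ∑ l ∈ range n,
      ((ms n (min (k + 1) (l + 1)) : ℝ) - (P (k + 1) * Q (l + 1)).trace +
        ((ms n (min (k + 1) (l + 1)) : ℝ) - (P (l + 1) * Q (k + 1)).trace)) =
      2 * ∑ k ∈ range n, ∑ l ∈ range n,
        ((ms n (min (k + 1) (l + 1)) : ℝ) - (P (k + 1) * Q (l + 1)).trace) := by
    simp only [Finset.sum_add_distrib]
    rw [two_mul]
    congr 1
    rw [Finset.sum_comm]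
    refine Finset.sum_congr rfl fun l _ => Finset.sum_congr rfl fun k _ => ?_
    rw [min_comm]
  rw [h3]
  refine mul_le_mul_of_nonneg_left ?_ zero_le_two
  refine Finset.sum_le_sum fun k hk => Finset.sum_le_sum fun l hl => ?_
  rw [mem_range] at hk hl
  exact hbd (k + 1) (l + 1) hk hl

end Crest.Agent.GL
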