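import Crest.Agent.GL_Key
import Crest.Agent.GL_Two
import Crest.Agent.GL_Num2

/-!
S0483 (blueprint GL), task 13: upper bound for `Δ`.
-/

set_option autoImplicit false

namespace Crest.Agent.GL

open Finset Matrix

variable {n : ℕ} {u : Cube n → ℝ} {P : ℕ → Matrix (Cube n) (Cube n) ℝ}

/-- `∑_{even} B² = ¼ ‖B + M B M‖²` for `M = diag c`, `c = ± 1`. -/
theorem even_sum (B : Matrix (Cube n) (Cube n) ℝ) (c : Cube n → ℝ) (hc : ∀ x, c x = 1 ∨ c x = -1) :
    ∑ x : Cube n, ∑ y ∈ univ.filter (fun y : Cube n => c y = c x), (B y x) ^ 2 =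
      (1 / 4) * ∑ x, ∑ y, ((B + Matrix.diagonal c * B * Matrix.diagonal c) y x) ^ 2 := by
  rw [Finset.mul_sum]
  refine Finset.sum_congr rfl fun x _ => ?_
  rw [Finset.mul_sum, Finset.sum_filter]
  refine Finset.sum_congr rfl fun y _ => ?_
  rw [Matrix.add_apply, Matrix.mul_diagonal, Matrix.diagonal_mul]
  rcases hc x with hx | hx <;> rcases hc y with hy | hy <;> rw [hx, hy] <;> norm_num <;> ring

private theorem ms_compl (n k : ℕ) (hk : k ≤ n + 1) : ms n k + ms n (n + 1 - k) = 2 ^ n := by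
  rw [← Nat.sum_range_choose n]
  unfold ms
  have h1 : ∑ j ∈ range (n + 1 - k), n.choose j = ∑ j ∈ range (n + 1 - k), n.choose (k + j) := by
    rw [← Finset.sum_range_reflect]
    refine Finset.sum_congr rfl fun j hj => ?_
    rw [mem_range] at hj
    rw [← Nat.choose_symm (by omega : k + j ≤ n)]
    congr 1
    omega
  rw [h1]
  have h2 : n + 1 = k + (n + 1 - k) := by omega
  conv_rhs => rw [h2, Finset.sum_range_add]

/-- TASK GL-13. With `M = diag (s χ)`, `Q l = M (1 - P (n+1-l)) M` for `1 ≤ l ≤ n + 1` (`Q 0 = 0`):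
`B + M B M = 2 ∑_{k=1}^n (P k - Q k)`; `two_flags` (`tr (Q l) = 2^n - ms n (n+1-l) = ms n l`;
`Q l P k = P k` for `l ≥ k + d` from `IsFlag.key`: `P (n+1-l) M P k = 0`), `sum_bd`, `even_sum`:
`2 ∑_{even} B² = ½ ‖B + M B M‖² = 2 ‖∑ (P k - Q k)‖² ≤ 4 ∑ bd`. -/
theorem IsFlag.delta_le (hP : IsFlag u P) (hu : ∀ x, 0 < u x) (s : Cube n → ℝ)
    (hs : ∀ x, s x = 1 ∨ s x = -1) (d : ℕ) (hd : 1 ≤ d)
    (hp : (fun x => s x * (u x) ^ 2) ∈ W n (d + 1)) :
    2 * ∑ x : Cube n, ∑ y ∈ univ.filter (fun y : Cube n => s y * chr univ y = s x * chr univ x),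
        (BB n P y x) ^ 2 ≤
      4 * (d * 2 ^ n * Real.sqrt n + 2 * d ^ 2 * 2 ^ n) := by
  classical
  set c : Cube n → ℝ := fun x => s x * chr univ x with hcdef
  have hchr : ∀ x : Cube n, chr univ x = 1 ∨ chr univ x = -1 := by
    intro x
    unfold chr
    induction (univ : Finset (Fin n)) using Finset.induction_on with
    | empty => left; simp
    | insert a t ha ih =>
      rw [Finset.prod_insert ha]
      rcases ih with h | h <;> rw [h] <;> split_ifs <;> norm_num
  have hc : ∀ x, c x = 1 ∨ c x = -1 := by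
    intro x
    show s x * chr univ x = 1 ∨ s x * chr univ x = -1
    rcases hs x with h1 | h1 <;> rcases hchr x with h2 | h2 <;> rw [h1, h2] <;> norm_num
  set M : Matrix (Cube n) (Cube n) ℝ := Matrix.diagonal c with hM
  have hMM : M * M = 1 := by
    rw [hM, Matrix.diagonal_mul_diagonal, ← Matrix.diagonal_one]
    congr 1
    ext x
    rcases hc x with h | h <;> rw [h] <;> norm_num
  have hMt : Mᵀ = M := Matrix.diagonal_transpose c
  have hMl : ∀ X : Matrix (Cube n) (Cube n) ℝ, M * (M * X) = X := by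
    intro X
    rw [← Matrix.mul_assoc, hMM, Matrix.one_mul]
  set Q : ℕ → Matrix (Cube n) (Cube n) ℝ := fun l => M * (1 - P (n + 1 - l)) * M with hQ
  have hkey := two_flags n d P Q hP.symm hP.idem ?_ ?_ (fun k l h => hP.mono h) ?_ hP.zero
    (fun k _ => hP.trace k) ?_ ?_
  · have hB : BB n P + M * BB n P * M = (2 : ℝ) • ∑ k ∈ range n, (P (k + 1) - Q (k + 1)) := by
      have h1 : ∑ k ∈ range n, Q (k + 1) =
          (n : ℝ) • (1 : Matrix (Cube n) (Cube n) ℝ) - M * (∑ k ∈ range n, P (k + 1)) * M := by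
        rw [← Finset.sum_range_reflect (fun k => P (k + 1)), Finset.mul_sum, Finset.sum_mul]
        have h2 : (n : ℝ) • (1 : Matrix (Cube n) (Cube n) ℝ) =
            ∑ _k ∈ range n, (1 : Matrix (Cube n) (Cube n) ℝ) := by
          rw [Finset.sum_const, Finset.card_range, Nat.cast_smul_eq_nsmul]
        rw [h2, ← Finset.sum_sub_distrib]
        refine Finset.sum_congr rfl fun k hk => ?_
        rw [mem_range] at hk
        simp only [hQ]
        have h3 : n + 1 - (k + 1) = n - 1 - k + 1 := by omega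
        rw [h3, Matrix.mul_sub, Matrix.sub_mul, Matrix.mul_one, hMM]
      rw [Finset.sum_sub_distrib, h1]
      unfold BB
      rw [Matrix.mul_add, Matrix.add_mul, Matrix.mul_smul, Matrix.mul_smul, Matrix.smul_mul,
        Matrix.smul_mul, Matrix.mul_one, hMM]
      module
    have h2 := even_sum (BB n P) c hc
    rw [h2, hB]
    have h3 : ∑ x, ∑ y, (((2 : ℝ) • ∑ k ∈ range n, (P (k + 1) - Q (k + 1))) y x) ^ 2 =
        4 * ∑ x, ∑ y, ((∑ k ∈ range n, (P (k + 1) - Q (k + 1))) x y) ^ 2 := by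
      rw [Finset.sum_comm, Finset.mul_sum]
      refine Finset.sum_congr rfl fun x _ => ?_
      rw [Finset.mul_sum]
      refine Finset.sum_congr rfl fun y _ => ?_
      rw [Matrix.smul_apply, smul_eq_mul]
      ring
    rw [h3]
    have h4 := sum_bd n d hd
    linarith
  · intro k
    simp only [hQ]
    rw [Matrix.transpose_mul, Matrix.transpose_mul, Matrix.transpose_sub, hMt, hP.symm,
      Matrix.transpose_one, Matrix.mul_assoc]
  · intro k
    simp only [hQ]
    simp only [Matrix.mul_assoc, hMl]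
    rw [← Matrix.mul_assoc (1 - P (n + 1 - k)) (1 - P (n + 1 - k))]
    have : (1 - P (n + 1 - k)) * (1 - P (n + 1 - k)) = 1 - P (n + 1 - k) := by
      rw [Matrix.sub_mul, Matrix.mul_sub, Matrix.mul_sub, hP.idem]
      simp
    rw [this]
  · intro k l hkl
    simp only [hQ]
    simp only [Matrix.mul_assoc, hMl]
    rw [← Matrix.mul_assoc (1 - P (n + 1 - l)) (1 - P (n + 1 - k))]
    have : (1 - P (n + 1 - l)) * (1 - P (n + 1 - k)) = 1 - P (n + 1 - k) := by
      rw [Matrix.sub_mul, Matrix.mul_sub, Matrix.mul_sub, hP.mono' (by omega)]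
      simp
    rw [this]
  · intro k hk
    simp only [hQ]
    rw [Matrix.trace_mul_comm, hMl, Matrix.trace_sub, hP.trace, Matrix.trace_one]
    have h1 := ms_compl n k (by omega)
    have h2 : (ms n k : ℝ) + ms n (n + 1 - k) = 2 ^ n := by exact_mod_cast h1
    have h3 : (Fintype.card (Cube n) : ℝ) = 2 ^ n := by simp [Cube]
    rw [h3]
    linarith
  · intro k l hkl hl
    have h1 := hP.key s d hp (k := k) (l := n + 1 - l) (by omega)
    simp only [hQ]
    have h2 : P (n + 1 - l) * M * P k = 0 := h1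
    rw [Matrix.mul_sub, Matrix.sub_mul, Matrix.sub_mul, Matrix.mul_one, hMM, Matrix.one_mul]
    rw [Matrix.mul_assoc M, Matrix.mul_assoc M, h2, Matrix.mul_zero, sub_zero]

end Crest.Agent.GL
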