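import Crest.Agent.GL_Defs

/-!
S0483 (blueprint GL), task 2: dimensions.
-/

set_option autoImplicit false

namespace Crest.Agent.GL

open Finset Matrix

private theorem chr_univ {n : ℕ} (S : Finset (Fin n)) (x : Cube n) :
    chr S x = ∏ j, (if j ∈ S then (if x j then (1 : ℝ) else -1) else 1) := by
  unfold chr
  rw [Finset.prod_ite_mem, Finset.univ_inter]

private theorem sgn_sq (b : Bool) : (if b then (1 : ℝ) else -1) * (if b then (1 : ℝ) else -1) = 1 := by
  cases b <;> simp

private theorem chr_flip {n : ℕ} (S : Finset (Fin n)) (i : Fin n) (hi : i ∈ S) (x : Cube n) :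
    chr S (Function.update x i (!(x i))) = - chr S x := by
  unfold chr
  rw [← Finset.mul_prod_erase S _ hi, ← Finset.mul_prod_erase S (fun j => if x j then (1 : ℝ) else -1) hi]
  have h1 : ∏ j ∈ S.erase i, (if (Function.update x i (!(x i))) j then (1 : ℝ) else -1) =
      ∏ j ∈ S.erase i, (if x j then (1 : ℝ) else -1) := by
    refine Finset.prod_congr rfl fun j hj => ?_
    rw [Function.update_of_ne (Finset.ne_of_mem_erase hj)]
  rw [h1, Function.update_self]
  cases x i <;> simp

/-- orthogonality of characters -/
theorem sum_chr {n : ℕ} (S : Finset (Fin n)) (hS : S.Nonempty) : ∑ x : Cube n, chr S x = 0 := by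
  obtain ⟨i, hi⟩ := hS
  have hinv : Function.Involutive (fun x : Cube n => Function.update x i (!(x i))) := by
    intro x
    funext j
    by_cases hj : j = i
    · subst hj; simp
    · simp [Function.update_of_ne hj]
  have h1 : ∑ x : Cube n, chr S (Function.update x i (!(x i))) = ∑ x : Cube n, chr S x :=
    Equiv.sum_comp (hinv.toPerm _) (fun x => chr S x)
  have h2 : ∑ x : Cube n, chr S (Function.update x i (!(x i))) = - ∑ x : Cube n, chr S x := by
    rw [← Finset.sum_neg_distrib]
    exact Finset.sum_congr rfl fun x _ => chr_flip S i hi x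
  linarith

theorem chr_mul {n : ℕ} (S T : Finset (Fin n)) (x : Cube n) :
    chr S x * chr T x = chr (symmDiff S T) x := by
  rw [chr_univ, chr_univ, chr_univ, ← Finset.prod_mul_distrib]
  refine Finset.prod_congr rfl fun j _ => ?_
  by_cases h1 : j ∈ S <;> by_cases h2 : j ∈ T <;> simp only [Finset.mem_symmDiff, h1, h2] <;>
    cases x j <;> norm_num

private theorem chr_empty {n : ℕ} (x : Cube n) : chr (∅ : Finset (Fin n)) x = 1 := by
  simp [chr]

/-- TASK GL-2. The characters are linearly independent (orthogonality: `∑_x chr S x * chr T x` is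
`0` for `S ≠ T` and `2^n` for `S = T`). -/
theorem chr_linearIndependent (n : ℕ) :
    LinearIndependent ℝ (fun S : Finset (Fin n) => (chr S : Cube n → ℝ)) := by
  classical
  rw [Fintype.linearIndependent_iff]
  intro g hg T
  have h1 : ∀ x : Cube n, ∑ S, g S * chr S x = 0 := by
    intro x
    have := congrFun hg x
    simpa [Finset.sum_apply] using this
  have h2 : ∑ x : Cube n, (∑ S, g S * chr S x) * chr T x = 0 := by
    refine Finset.sum_eq_zero fun x _ => ?_
    rw [h1, zero_mul]
  have h3 : ∑ x : Cube n, (∑ S, g S * chr S x) * chr T x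
      = ∑ S, g S * ∑ x : Cube n, chr (symmDiff S T) x := by
    simp_rw [Finset.sum_mul]
    rw [Finset.sum_comm]
    refine Finset.sum_congr rfl fun S _ => ?_
    rw [Finset.mul_sum]
    refine Finset.sum_congr rfl fun x _ => ?_
    rw [← chr_mul, mul_assoc]
  rw [h3, Finset.sum_eq_single T] at h2
  · rw [symmDiff_self] at h2
    have h4 : ∑ x : Cube n, chr (⊥ : Finset (Fin n)) x = 2 ^ n := by
      rw [Finset.bot_eq_empty]
      simp [chr_empty]
    rw [h4] at h2
    have : (2 : ℝ) ^ n ≠ 0 := by positivity
    exact (mul_eq_zero.mp h2).resolve_right this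
  · intro S _ hS
    rw [sum_chr, mul_zero]
    rw [Finset.nonempty_iff_ne_empty]
    intro h
    exact hS (symmDiff_eq_bot.mp h)
  · intro h
    exact absurd (Finset.mem_univ T) h

theorem W_mono {n k l : ℕ} (h : k ≤ l) : W n k ≤ W n l := by
  unfold W
  apply Submodule.span_mono
  rintro f ⟨S, hS, rfl⟩
  exact ⟨S, lt_of_lt_of_le hS h, rfl⟩

private theorem W_eq_range (n k : ℕ) : W n k =
    Submodule.span ℝ (Set.range fun S : {S : Finset (Fin n) // S.card < k} =>
      (chr S.1 : Cube n → ℝ)) := by
  unfold W
  congr 1
  ext f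
  constructor
  · rintro ⟨S, hS, rfl⟩
    exact ⟨⟨S, hS⟩, rfl⟩
  · rintro ⟨⟨S, hS⟩, rfl⟩
    exact ⟨S, hS, rfl⟩

/-- (number of subsets of size `< k`; `finrank_span_eq_card` for the restricted family) -/
theorem finrank_W (n k : ℕ) : Module.finrank ℝ (W n k) = ms n k := by
  classical
  rw [W_eq_range]
  have hli : LinearIndependent ℝ (fun S : {S : Finset (Fin n) // S.card < k} =>
      (chr S.1 : Cube n → ℝ)) :=
    (chr_linearIndependent n).comp (Subtype.val) Subtype.val_injective
  rw [finrank_span_eq_card hli, Fintype.card_subtype]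
  unfold ms
  rw [Finset.card_eq_sum_card_fiberwise (f := Finset.card) (t := range k)]
  · refine Finset.sum_congr rfl fun j hj => ?_
    have : (Finset.filter (fun S : Finset (Fin n) => S.card = j)
        (Finset.filter (fun S : Finset (Fin n) => S.card < k) univ)) =
        Finset.powersetCard j univ := by
      ext S
      simp only [Finset.mem_filter, Finset.mem_univ, true_and, Finset.mem_powersetCard,
        Finset.subset_univ]
      rw [Finset.mem_range] at hj
      constructor
      · rintro ⟨_, h⟩; exact h
      · intro h; exact ⟨by omega, h⟩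
    rw [this, Finset.card_powersetCard, Finset.card_univ, Fintype.card_fin]
  · intro S hS
    simpa using hS

/-- (all characters; `2^n` linearly independent functions in a space of dimension `2^n`) -/
theorem W_top {n k : ℕ} (h : n + 1 ≤ k) : W n k = ⊤ := by
  apply Submodule.eq_top_of_finrank_eq
  rw [finrank_W]
  unfold ms
  have h1 : ∑ j ∈ range k, n.choose j = ∑ j ∈ range (n + 1), n.choose j := by
    symm
    apply Finset.sum_subset
    · intro j hj; rw [Finset.mem_range] at hj ⊢; omega
    · intro j _ hj
      rw [Finset.mem_range] at hj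
      exact Nat.choose_eq_zero_of_lt (by omega)
  rw [h1, Nat.sum_range_choose]
  simp

end Crest.Agent.GL
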