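import Crest.Agent.GL_Proj
import Crest.Agent.GL_Dim

/-!
S0483 (blueprint GL), task 3: existence of the flag of projections and its first properties.
-/

set_option autoImplicit false

namespace Crest.Agent.GL

open Finset Matrix

/-- TASK GL-3. (`exists_proj` for the image of `W n k` under the linear automorphism `g ↦ u g`.) -/
theorem exists_flag {n : ℕ} (u : Cube n → ℝ) (hu : ∀ x, 0 < u x) :
    ∃ P : ℕ → Matrix (Cube n) (Cube n) ℝ, IsFlag u P := by
  let e : (Cube n → ℝ) →ₗ[ℝ] (Cube n → ℝ) :=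
    { toFun := fun g => fun x => u x * g x
      map_add' := fun g h => by ext x; simp [mul_add]
      map_smul' := fun c g => by ext x; simp [mul_left_comm] }
  have he : Function.Injective e := by
    intro g h hgh
    ext x
    have h1 : u x * g x = u x * h x := congrFun hgh x
    exact mul_left_cancel₀ (hu x).ne' h1
  have hex : ∀ k, ∃ P : Matrix (Cube n) (Cube n) ℝ, Pᵀ = P ∧ P * P = P ∧
      (∀ v : Cube n → ℝ, P *ᵥ v = v ↔ v ∈ (W n k).map e) ∧
      P.trace = (Module.finrank ℝ ((W n k).map e) : ℝ) := fun k => exists_proj _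
  choose P h1 h2 h3 h4 using hex
  refine ⟨P, h1, h2, ?_, ?_⟩
  · intro k v
    rw [h3 k v, Submodule.mem_map]
    constructor
    · rintro ⟨g, hg, rfl⟩
      exact ⟨g, hg, rfl⟩
    · rintro ⟨g, hg, rfl⟩
      exact ⟨g, hg, rfl⟩
  · intro k
    rw [h4 k, ← finrank_W n k]
    congr 1
    exact (Submodule.equivMapOfInjective e he (W n k)).finrank_eq.symm

variable {n : ℕ} {u : Cube n → ℝ} {P : ℕ → Matrix (Cube n) (Cube n) ℝ}

private theorem IsFlag.fix (hP : IsFlag u P) (k : ℕ) (v : Cube n → ℝ) :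
    P k *ᵥ (P k *ᵥ v) = P k *ᵥ v := by
  rw [Matrix.mulVec_mulVec, hP.idem k]

/-- If the range of `P k` is fixed by `P l` then `P l * P k = P k` (apply to basis vectors). -/
theorem IsFlag.mono (hP : IsFlag u P) {k l : ℕ} (h : k ≤ l) : P l * P k = P k := by
  apply Matrix.ext_of_mulVec_single
  intro i
  rw [← Matrix.mulVec_mulVec]
  obtain ⟨g, hg, hge⟩ := (hP.mem k _).1 (hP.fix k (Pi.single i 1))
  exact (hP.mem l _).2 ⟨g, W_mono h hg, hge⟩

theorem IsFlag.mono' (hP : IsFlag u P) {k l : ℕ} (h : k ≤ l) : P k * P l = P k := by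
  have h1 := congrArg Matrix.transpose (hP.mono h)
  rw [Matrix.transpose_mul, hP.symm, hP.symm] at h1
  exact h1

theorem IsFlag.zero (hP : IsFlag u P) : P 0 = 0 := by
  apply Matrix.ext_of_mulVec_single
  intro i
  rw [Matrix.zero_mulVec]
  obtain ⟨g, hg, hge⟩ := (hP.mem 0 _).1 (hP.fix 0 (Pi.single i 1))
  have hW : W n 0 = ⊥ := by
    unfold W
    rw [Submodule.span_eq_bot]
    rintro f ⟨S, hS, rfl⟩
    exact absurd hS (Nat.not_lt_zero _)
  rw [hW, Submodule.mem_bot] at hg
  rw [hge, hg]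
  ext x
  simp

theorem IsFlag.top (hP : IsFlag u P) (hu : ∀ x, 0 < u x) {k : ℕ} (hk : n + 1 ≤ k) : P k = 1 := by
  apply Matrix.ext_of_mulVec_single
  intro i
  rw [Matrix.one_mulVec]
  rw [hP.mem k]
  refine ⟨fun x => (Pi.single i (1 : ℝ) : Cube n → ℝ) x / u x, ?_, ?_⟩
  · rw [W_top hk]; trivial
  · ext x
    have := (hu x).ne'
    field_simp

end Crest.Agent.GL
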