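import Crest.Agent.GL_Flag

/-!
S0483 (blueprint GL), task 5: the key orthogonality.
-/

set_option autoImplicit false

namespace Crest.Agent.GL

open Finset Matrix

/-- product of functions of degree `< k + 1` and `< l` has degree `< k + l` -/
theorem mul_mem_W' {n k l : ℕ} {g h : Cube n → ℝ} (hg : g ∈ W n (k + 1)) (hh : h ∈ W n l) :
    (fun x => g x * h x) ∈ W n (k + l) := by
  have key : ∀ S : Finset (Fin n), S.card < k + 1 → ∀ h : Cube n → ℝ, h ∈ W n l →
      (fun x => chr S x * h x) ∈ W n (k + l) := by
    intro S hS h hh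
    unfold W at hh
    induction hh using Submodule.span_induction with
    | mem f hf =>
      obtain ⟨T, hT, rfl⟩ := hf
      have e : (fun x => chr S x * chr T x) = chr (symmDiff S T) := by
        funext x; exact chr_mul S T x
      rw [e]
      refine Submodule.subset_span ⟨symmDiff S T, ?_, rfl⟩
      have h1 : (symmDiff S T).card ≤ S.card + T.card := by
        have h2 : symmDiff S T ⊆ S ∪ T := by
          intro j hj
          rw [Finset.mem_symmDiff] at hj
          rw [Finset.mem_union]
          tauto
        exact (Finset.card_le_card h2).trans (Finset.card_union_le _ _)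
      omega
    | zero =>
      have e : (fun x => chr S x * (0 : Cube n → ℝ) x) = 0 := by funext x; simp
      rw [e]; exact Submodule.zero_mem _
    | add a b _ _ ha hb =>
      have e : (fun x => chr S x * (a + b) x) = (fun x => chr S x * a x) + fun x => chr S x * b x := by
        funext x; simp [mul_add]
      rw [e]; exact Submodule.add_mem _ ha hb
    | smul c a _ ha =>
      have e : (fun x => chr S x * (c • a) x) = c • fun x => chr S x * a x := by
        funext x; simp [mul_left_comm]
      rw [e]; exact Submodule.smul_mem _ _ ha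
  unfold W at hg
  induction hg using Submodule.span_induction with
  | mem f hf =>
    obtain ⟨S, hS, rfl⟩ := hf
    exact key S hS h hh
  | zero =>
    have e : (fun x => (0 : Cube n → ℝ) x * h x) = 0 := by funext x; simp
    rw [e]; exact Submodule.zero_mem _
  | add a b _ _ ha hb =>
    have e : (fun x => (a + b) x * h x) = (fun x => a x * h x) + fun x => b x * h x := by
      funext x; simp [add_mul]
    rw [e]; exact Submodule.add_mem _ ha hb
  | smul c a _ ha =>
    have e : (fun x => (c • a) x * h x) = c • fun x => a x * h x := by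
      funext x; simp [mul_assoc]
    rw [e]; exact Submodule.smul_mem _ _ ha

/-- a function of degree `< n` is orthogonal to the product of all coordinates -/
theorem sum_chr_univ_mul {n : ℕ} {g : Cube n → ℝ} (hg : g ∈ W n n) :
    ∑ x, chr univ x * g x = 0 := by
  unfold W at hg
  induction hg using Submodule.span_induction with
  | mem f hf =>
    obtain ⟨S, hS, rfl⟩ := hf
    have e : ∀ x : Cube n, chr univ x * chr S x = chr (symmDiff univ S) x := fun x =>
      chr_mul univ S x
    rw [Finset.sum_congr rfl fun x _ => e x]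
    apply sum_chr
    rw [Finset.nonempty_iff_ne_empty]
    intro h0
    have h1 : (univ : Finset (Fin n)) = S := symmDiff_eq_bot.mp h0
    rw [← h1, Finset.card_univ, Fintype.card_fin] at hS
    exact lt_irrefl _ hS
  | zero => simp
  | add a b _ _ ha hb =>
    have e : ∀ x : Cube n, chr univ x * (a + b) x = chr univ x * a x + chr univ x * b x := by
      intro x; simp [mul_add]
    rw [Finset.sum_congr rfl fun x _ => e x, Finset.sum_add_distrib, ha, hb, add_zero]
  | smul c a _ ha =>
    have e : ∀ x : Cube n, chr univ x * (c • a) x = c * (chr univ x * a x) := by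
      intro x; simp [mul_left_comm]
    rw [Finset.sum_congr rfl fun x _ => e x, ← Finset.mul_sum, ha, mul_zero]

/-- TASK GL-5. Let `s u² = p` have degree `≤ d` (`p ∈ W n (d+1)`), `M = diag (s χ)`. Then
`P l M P k = 0` for `k + l + d ≤ n + 1`. (`⟨u h, s χ u g⟩ = ∑ χ p g h`, `h ∈ W n l`, `g ∈ W n k`,
`deg (p g h) ≤ d + (k-1) + (l-1) ≤ n - 1`; the cases `k = 0`, `l = 0` are trivial (`IsFlag.zero`).
The entry `(P l M P k) x y = ⟨P l e_x, M P k e_y⟩`.) -/
theorem IsFlag.key {n : ℕ} {u : Cube n → ℝ} {P : ℕ → Matrix (Cube n) (Cube n) ℝ}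
    (hP : IsFlag u P) (s : Cube n → ℝ) (d : ℕ) (hp : (fun x => s x * (u x) ^ 2) ∈ W n (d + 1))
    {k l : ℕ} (h : k + l + d ≤ n + 1) :
    P l * Matrix.diagonal (fun x => s x * chr univ x) * P k = 0 := by
  rcases Nat.eq_zero_or_pos k with hk | hk
  · subst hk
    rw [hP.zero, Matrix.mul_zero]
  have hcol : ∀ (m : ℕ) (y : Cube n), ∃ g ∈ W n m, ∀ z, P m z y = u z * g z := by
    intro m y
    have hfix : P m *ᵥ (P m *ᵥ (Pi.single y 1)) = P m *ᵥ (Pi.single y 1) := by
      rw [Matrix.mulVec_mulVec, hP.idem m]
    obtain ⟨g, hg, hge⟩ := (hP.mem m _).1 hfix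
    refine ⟨g, hg, fun z => ?_⟩
    have h1 := congrFun hge z
    rw [Matrix.mulVec_single_one] at h1
    exact h1
  ext x y
  obtain ⟨g, hg, hge⟩ := hcol k y
  obtain ⟨f, hf, hfe⟩ := hcol l x
  rw [Matrix.mul_assoc, Matrix.mul_apply, Matrix.zero_apply]
  have hterm : ∀ z, P l x z * (Matrix.diagonal (fun x => s x * chr univ x) * P k) z y =
      chr univ z * ((s z * (u z) ^ 2) * g z * f z) := by
    intro z
    have h1 : P l x z = P l z x := by
      have h2 := congrFun (congrFun (hP.symm l) z) x
      rw [Matrix.transpose_apply] at h2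
      exact h2
    rw [h1, hfe z, Matrix.diagonal_mul, hge z]
    ring
  rw [Finset.sum_congr rfl fun z _ => hterm z]
  have h3 : (fun z => (s z * (u z) ^ 2) * g z) ∈ W n (d + k) := mul_mem_W' hp hg
  obtain ⟨k', rfl⟩ : ∃ k', k = k' + 1 := ⟨k - 1, by omega⟩
  have h4 : (fun z => ((s z * (u z) ^ 2) * g z) * f z) ∈ W n ((d + k') + l) :=
    mul_mem_W' (by rw [← add_assoc] at h3; exact h3) hf
  exact sum_chr_univ_mul (W_mono (by omega) h4)

end Crest.Agent.GL
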