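import Crest.Agent.GL_Defs

/-!
S0483 (blueprint GL), task 11: numerical estimates.
-/

set_option autoImplicit false

namespace Crest.Agent.GL

open Finset Matrix

/-- TASK GL-11a. For `l ≤ k` bound the minimum by `G l` if `l + k ≤ n` and by `G k` otherwise;
a given `j` is used at most `(n - 2j + 1)_+ + (2j - n)_+ ≤ |2j - n| + 1` times. -/
theorem far_sum (n : ℕ) (G : ℕ → ℝ) (hG : ∀ j, 0 ≤ G j) :
    ∑ k ∈ range n, ∑ l ∈ range (k + 1), min (G k) (G l) ≤
      ∑ j ∈ range n, G j * (|2 * (j : ℝ) - n| + 1) := by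
  have h1 : ∑ k ∈ range n, ∑ l ∈ range (k + 1), min (G k) (G l) ≤
      ∑ k ∈ range n, ∑ l ∈ range n, ((if l ≤ k ∧ l + k ≤ n then G l else 0) +
        (if l ≤ k ∧ n < l + k then G k else 0)) := by
    refine sum_le_sum fun k hk => ?_
    have hk' := mem_range.1 hk
    have e : ∑ l ∈ range (k + 1), min (G k) (G l) =
        ∑ l ∈ range n, if l ≤ k then min (G k) (G l) else 0 := by
      rw [← sum_filter]
      refine sum_congr ?_ fun _ _ => rfl
      ext l
      simp only [mem_filter, mem_range]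
      omega
    rw [e]
    refine sum_le_sum fun l _ => ?_
    by_cases hlk : l ≤ k
    · by_cases hn : l + k ≤ n
      · rw [if_pos hlk, if_pos ⟨hlk, hn⟩, if_neg (by omega), add_zero]
        exact min_le_right _ _
      · rw [if_pos hlk, if_neg (by omega), if_pos ⟨hlk, by omega⟩, zero_add]
        exact min_le_left _ _
    · rw [if_neg hlk, if_neg (by omega), if_neg (by omega), add_zero]
  refine h1.trans ?_
  simp only [sum_add_distrib]
  rw [sum_comm, ← sum_add_distrib]
  refine sum_le_sum fun j hj => ?_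
  have hj' := mem_range.1 hj
  rw [← sum_filter, ← sum_filter, sum_const, sum_const, nsmul_eq_mul, nsmul_eq_mul, ← add_mul,
    mul_comm]
  refine mul_le_mul_of_nonneg_left ?_ (hG j)
  have c1 : ((range n).filter fun k => j ≤ k ∧ j + k ≤ n).card ≤ n - j + 1 - j := by
    rw [← Nat.card_Icc]
    refine card_le_card fun k hk => ?_
    simp only [mem_filter, mem_range, mem_Icc] at hk ⊢
    omega
  have c2 : ((range n).filter fun l => l ≤ j ∧ n < l + j).card ≤ j - (n - j) := by
    rw [← Nat.card_Ioc]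
    refine card_le_card fun k hk => ?_
    simp only [mem_filter, mem_range, mem_Ioc] at hk ⊢
    omega
  have c3 : ((((range n).filter fun k => j ≤ k ∧ j + k ≤ n).card : ℕ) : ℝ) +
      ((((range n).filter fun l => l ≤ j ∧ n < l + j).card : ℕ) : ℝ) ≤
      (((n - j + 1 - j) + (j - (n - j)) : ℕ) : ℝ) := by
    exact_mod_cast add_le_add c1 c2
  refine c3.trans ?_
  rcases Nat.le_total (2 * j) n with h | h
  · have e : (n - j + 1 - j) + (j - (n - j)) = n + 1 - 2 * j := by omega
    rw [e, Nat.cast_sub (by omega)]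
    push_cast
    have := neg_abs_le (2 * (j : ℝ) - n)
    linarith
  · have e : (n - j + 1 - j) + (j - (n - j)) ≤ 2 * j + 1 - n := by omega
    have e' : (((n - j + 1 - j) + (j - (n - j)) : ℕ) : ℝ) ≤ ((2 * j + 1 - n : ℕ) : ℝ) := by
      exact_mod_cast e
    refine e'.trans ?_
    rw [Nat.cast_sub (by omega)]
    push_cast
    have := le_abs_self (2 * (j : ℝ) - n)
    linarith

private theorem sum_sq (n : ℕ) :
    ∑ j ∈ range (n + 1), (n.choose j : ℝ) * (2 * (j : ℝ) - n) ^ 2 = (n : ℝ) * 2 ^ n := by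
  induction n with
  | zero => simp
  | succ n ih =>
    have h := Finset.sum_choose_succ_mul (fun i _ => (2 * (i : ℝ) - ((n + 1 : ℕ) : ℝ)) ^ 2) n
    rw [h, ← sum_add_distrib]
    have h2 : ∀ i ∈ range (n + 1), (n.choose i : ℝ) * (2 * (i : ℝ) - ((n + 1 : ℕ) : ℝ)) ^ 2 +
        (n.choose i : ℝ) * (2 * ((i + 1 : ℕ) : ℝ) - ((n + 1 : ℕ) : ℝ)) ^ 2 =
        2 * ((n.choose i : ℝ) * (2 * (i : ℝ) - n) ^ 2) + 2 * (n.choose i : ℝ) := by
      intro i _
      push_cast
      ring
    rw [sum_congr rfl h2, sum_add_distrib, ← mul_sum, ← mul_sum, ih, ← Nat.cast_sum,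
      Nat.sum_range_choose]
    push_cast
    ring

/-- TASK GL-11b. `∑ C(n,j) |2j - n| ≤ 2^n √n` (Cauchy--Schwarz, `∑ C(n,j) (2j-n)² = n 2^n`). -/
theorem sum_abs (n : ℕ) :
    ∑ j ∈ range (n + 1), (n.choose j : ℝ) * |2 * (j : ℝ) - n| ≤ 2 ^ n * Real.sqrt n := by
  have h := Finset.sum_sq_le_sum_mul_sum_of_sq_le_mul (range (n + 1))
    (r := fun j => (n.choose j : ℝ) * |2 * (j : ℝ) - n|)
    (f := fun j => (n.choose j : ℝ)) (g := fun j => (n.choose j : ℝ) * (2 * (j : ℝ) - n) ^ 2)
    (fun j _ => Nat.cast_nonneg _) (fun j _ => by positivity)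
    (fun j _ => by
      refine le_of_eq ?_
      rw [mul_pow, sq_abs]
      ring)
  rw [sum_sq, ← Nat.cast_sum, Nat.sum_range_choose] at h
  push_cast at h
  refine (pow_le_pow_iff_left₀ (sum_nonneg fun j _ => by positivity) (by positivity) two_ne_zero).1 ?_
  refine h.trans (le_of_eq ?_)
  rw [mul_pow, Real.sq_sqrt (Nat.cast_nonneg n)]
  ring

private theorem ms_succ (n k : ℕ) : ms n (k + 1) = ms n k + n.choose k := by
  unfold ms
  rw [sum_range_succ]

/-- `g (j+1) = ∑_{i < d, i ≤ j} C(n, j - i)` -/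
theorem gg_eq (n d j : ℕ) :
    gg n d (j + 1) = ∑ i ∈ range d, if i ≤ j then (n.choose (j - i) : ℝ) else 0 := by
  induction d with
  | zero => simp [gg]
  | succ d ih =>
    rw [sum_range_succ, ← ih]
    unfold gg
    split_ifs with h
    · have e1 : j + 1 - d = (j - d) + 1 := by omega
      have e2 : j + 1 - (d + 1) = j - d := by omega
      rw [e1, e2, ms_succ n (j - d)]
      push_cast
      ring
    · have e1 : j + 1 - d = 0 := by omega
      have e2 : j + 1 - (d + 1) = 0 := by omega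
      rw [e1, e2, add_zero]

theorem gg_nonneg (n d k : ℕ) : 0 ≤ gg n d k := by
  unfold gg ms
  rw [sub_nonneg]
  norm_cast
  refine sum_le_sum_of_subset ?_
  exact range_subset_range.2 (Nat.sub_le _ _)

private theorem shift_sum (n i : ℕ) (h : ℕ → ℝ) (hh : ∀ m, 0 ≤ h m) :
    ∑ j ∈ range n, (if i ≤ j then h (j - i) else 0) ≤ ∑ m ∈ range (n + 1), h m := by
  rcases Nat.le_total i n with hi | hi
  · obtain ⟨r, rfl⟩ := Nat.exists_eq_add_of_le hi
    rw [sum_range_add]
    have e1 : ∑ x ∈ range i, (if i ≤ x then h (x - i) else 0) = 0 := by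
      refine sum_eq_zero fun x hx => ?_
      have := mem_range.1 hx
      rw [if_neg (by omega)]
    have e2 : ∑ x ∈ range r, (if i ≤ i + x then h (i + x - i) else 0) = ∑ x ∈ range r, h x := by
      refine sum_congr rfl fun x _ => ?_
      rw [if_pos (by omega), Nat.add_sub_cancel_left]
    rw [e1, e2, zero_add]
    exact sum_le_sum_of_subset_of_nonneg (range_subset_range.2 (by omega)) fun m _ _ => hh m
  · have e1 : ∑ j ∈ range n, (if i ≤ j then h (j - i) else 0) = 0 := by
      refine sum_eq_zero fun x hx => ?_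
      have := mem_range.1 hx
      rw [if_neg (by omega)]
    rw [e1]
    exact sum_nonneg fun m _ => hh m

theorem sum_gg (n d : ℕ) : ∑ j ∈ range n, gg n d (j + 1) ≤ d * 2 ^ n := by
  simp only [gg_eq]
  rw [sum_comm]
  have h : ∀ i ∈ range d, ∑ j ∈ range n, (if i ≤ j then (n.choose (j - i) : ℝ) else 0) ≤
      (2 : ℝ) ^ n := by
    intro i _
    refine (shift_sum n i (fun m => (n.choose m : ℝ)) fun m => Nat.cast_nonneg _).trans ?_
    rw [← Nat.cast_sum, Nat.sum_range_choose]
    push_cast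
    exact le_rfl
  refine (sum_le_sum h).trans ?_
  rw [sum_const, card_range, nsmul_eq_mul]

/-- `∑_j g_j (|2j-n|+1) ≤ ∑_{i<d} ∑_m C(n,m) (|2m-n| + 2i + 1) ≤ d 2^n √n + d² 2^n` -/
theorem sum_gg_abs (n d : ℕ) :
    ∑ j ∈ range n, gg n d (j + 1) * (|2 * (j : ℝ) - n| + 1) ≤
      d * 2 ^ n * Real.sqrt n + d ^ 2 * 2 ^ n := by
  simp only [gg_eq, sum_mul]
  rw [sum_comm]
  have h : ∀ i ∈ range d, ∑ j ∈ range n, (if i ≤ j then (n.choose (j - i) : ℝ) else 0) *
      (|2 * (j : ℝ) - n| + 1) ≤ (2 : ℝ) ^ n * Real.sqrt n + (2 * (i : ℝ) + 1) * 2 ^ n := by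
    intro i _
    have h1 : ∑ j ∈ range n, (if i ≤ j then (n.choose (j - i) : ℝ) else 0) *
        (|2 * (j : ℝ) - n| + 1) ≤ ∑ j ∈ range n, (if i ≤ j then
          (fun m : ℕ => (n.choose m : ℝ) * (|2 * (m : ℝ) - n| + (2 * (i : ℝ) + 1))) (j - i)
            else 0) := by
      refine sum_le_sum fun j _ => ?_
      split_ifs with hij
      · refine mul_le_mul_of_nonneg_left ?_ (Nat.cast_nonneg _)
        rw [Nat.cast_sub hij]
        have e : 2 * (j : ℝ) - n = (2 * ((j : ℝ) - i) - n) + 2 * i := by ring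
        rw [e]
        have h2 := abs_add_le (2 * ((j : ℝ) - i) - n) (2 * (i : ℝ))
        rw [abs_of_nonneg (by positivity : (0 : ℝ) ≤ 2 * i)] at h2
        linarith
      · rw [zero_mul]
    refine h1.trans ((shift_sum n i
      (fun m : ℕ => (n.choose m : ℝ) * (|2 * (m : ℝ) - n| + (2 * (i : ℝ) + 1)))
      fun m => by positivity).trans ?_)
    have e : ∑ m ∈ range (n + 1), (n.choose m : ℝ) * (|2 * (m : ℝ) - n| + (2 * (i : ℝ) + 1)) =
        ∑ m ∈ range (n + 1), (n.choose m : ℝ) * |2 * (m : ℝ) - n| +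
          (2 * (i : ℝ) + 1) * 2 ^ n := by
      have e2 : (2 : ℝ) ^ n = ∑ m ∈ range (n + 1), (n.choose m : ℝ) := by
        rw [← Nat.cast_sum, Nat.sum_range_choose]
        push_cast
        rfl
      rw [e2, mul_sum, ← sum_add_distrib]
      exact sum_congr rfl fun m _ => by ring
    rw [e]
    have := sum_abs n
    linarith
  refine (sum_le_sum h).trans (le_of_eq ?_)
  rw [sum_add_distrib, sum_const, card_range, nsmul_eq_mul, ← sum_mul]
  have e : ∑ i ∈ range d, (2 * (i : ℝ) + 1) = (d : ℝ) ^ 2 := by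
    clear h
    induction d with
    | zero => simp
    | succ d ih =>
      rw [sum_range_succ, ih]
      push_cast
      ring
  rw [e]
  ring

end Crest.Agent.GL
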