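import Mathlib

/-!
S0483 (blueprint GL), task 1: orthogonal projections as real symmetric matrices.
-/

set_option autoImplicit false

namespace Crest.Agent.GL

open Finset Matrix

/-- TASK GL-1. Every subspace of `Q → ℝ` is the range (= space of fixed vectors) of a real symmetric
idempotent matrix whose trace is the dimension.  (Matrix of `Submodule.starProjection` in
`EuclideanSpace ℝ Q`, or `LinearMap.IsSymmetricProjection`; the trace of an idempotent is its rank:
`LinearMap.IsProj.trace`.) -/
theorem exists_proj {Q : Type} [Fintype Q] [DecidableEq Q] (F : Submodule ℝ (Q → ℝ)) :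
    ∃ P : Matrix Q Q ℝ, Pᵀ = P ∧ P * P = P ∧ (∀ v : Q → ℝ, P *ᵥ v = v ↔ v ∈ F) ∧
      P.trace = (Module.finrank ℝ F : ℝ) := by
  classical
  let e : EuclideanSpace ℝ Q ≃ₗ[ℝ] (Q → ℝ) := WithLp.linearEquiv 2 ℝ (Q → ℝ)
  let F' : Submodule ℝ (EuclideanSpace ℝ Q) := F.comap e.toLinearMap
  let T : EuclideanSpace ℝ Q →ₗ[ℝ] EuclideanSpace ℝ Q := (F'.starProjection).toLinearMap
  let f : (Q → ℝ) →ₗ[ℝ] (Q → ℝ) := e.toLinearMap ∘ₗ T ∘ₗ e.symm.toLinearMap
  have hf : ∀ v, f v = e (F'.starProjection (e.symm v)) := fun v => rfl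
  have hmem : ∀ v, f v ∈ F := by
    intro v
    have h1 : F'.starProjection (e.symm v) ∈ F' := Submodule.starProjection_apply_mem _ _
    exact h1
  have hfix : ∀ v, f v = v ↔ v ∈ F := by
    intro v
    rw [hf]
    constructor
    · intro h
      rw [← h]
      exact hmem v
    · intro h
      have h1 : e.symm v ∈ F' := by
        show e (e.symm v) ∈ F
        rw [LinearEquiv.apply_symm_apply]
        exact h
      rw [Submodule.starProjection_eq_self_iff.2 h1, LinearEquiv.apply_symm_apply]
  have hproj : LinearMap.IsProj F f := ⟨hmem, fun x hx => (hfix x).2 hx⟩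
  have hmv : ∀ v, (LinearMap.toMatrix' f) *ᵥ v = f v := by
    intro v
    rw [← Matrix.toLin'_apply, Matrix.toLin'_toMatrix']
  refine ⟨LinearMap.toMatrix' f, ?_, ?_, ?_, ?_⟩
  · ext i j
    rw [Matrix.transpose_apply, LinearMap.toMatrix'_apply, LinearMap.toMatrix'_apply]
    have key : ∀ i j : Q, f (Pi.single j 1) i =
        inner ℝ (EuclideanSpace.single i (1 : ℝ))
          (F'.starProjection (EuclideanSpace.single j (1 : ℝ))) := by
      intro i j
      rw [hf, EuclideanSpace.inner_single_left]
      have : e.symm (Pi.single j (1 : ℝ)) = EuclideanSpace.single j 1 := rfl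
      rw [this]
      simp [e]
    rw [key, key]
    have h1 : inner ℝ (F'.starProjection (EuclideanSpace.single j (1 : ℝ)))
        (EuclideanSpace.single i (1 : ℝ)) = inner ℝ (EuclideanSpace.single j (1 : ℝ))
        (F'.starProjection (EuclideanSpace.single i (1 : ℝ))) :=
      F'.starProjection_isSymmetric _ _
    rw [← h1, real_inner_comm]
  · rw [← LinearMap.toMatrix'_comp]
    have h1 : f ∘ₗ f = f := LinearMap.ext fun v => (hfix (f v)).2 (hmem v)
    rw [h1]
  · intro v
    rw [hmv]
    exact hfix v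
  · rw [← hproj.trace, LinearMap.trace_eq_matrix_trace ℝ (Pi.basisFun ℝ Q)]
    rfl

end Crest.Agent.GL
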