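import Crest.Agent.GL_X
import Crest.Agent.GL_B
import Crest.Agent.GL_Comm

/-!
S0483 (blueprint GL), task 8: row inequalities for `B`.
-/

set_option autoImplicit false

namespace Crest.Agent.GL

open Finset Matrix

variable {n : ℕ} {u : Cube n → ℝ} {P : ℕ → Matrix (Cube n) (Cube n) ℝ}

private theorem sg_sq (b : Bool) : sg b * sg b = 1 := by
  cases b <;> simp [sg]

/-- TASK GL-8. (`comm_bound` with `X = XX i`: `(B X - X B) y x = B y x (sg (x i) - sg (y i))`.) -/
theorem IsFlag.row (hP : IsFlag u P) (hu : ∀ x, 0 < u x) (i : Fin n) (x : Cube n) :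
    ∑ y ∈ univ.filter (fun y : Cube n => y i ≠ x i), (BB n P y x) ^ 2 ≤ 1 := by
  have hX : (XX i : Matrix (Cube n) (Cube n) ℝ)ᵀ = XX i := by
    unfold XX
    exact Matrix.diagonal_transpose _
  have hX2 : (XX i : Matrix (Cube n) (Cube n) ℝ) * XX i = 1 := by
    unfold XX
    rw [Matrix.diagonal_mul_diagonal, ← Matrix.diagonal_one]
    congr 1
    funext y
    exact sg_sq _
  have h := comm_bound n (EE P) hP.E_symm (fun a _ b _ => hP.E_orth a b) (hP.E_sum hu) (XX i) hX
    hX2 (fun a _ b _ hab => hP.tri i hab) (BB n P) (hP.B_eq hu) x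
  have hval : ∀ y, ((BB n P * XX i - XX i * BB n P : Matrix (Cube n) (Cube n) ℝ) y x) =
      BB n P y x * (sg (x i) - sg (y i)) := by
    intro y
    unfold XX
    rw [Matrix.sub_apply, Matrix.mul_diagonal, Matrix.diagonal_mul]
    ring
  have h2 : ∑ y ∈ univ.filter (fun y : Cube n => y i ≠ x i), 4 * (BB n P y x) ^ 2 ≤ 4 := by
    refine le_trans ?_ h
    refine le_trans (le_of_eq ?_) (sum_le_sum_of_subset_of_nonneg
      (f := fun y => ((BB n P * XX i - XX i * BB n P : Matrix (Cube n) (Cube n) ℝ) y x) ^ 2)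
      (filter_subset (fun y : Cube n => y i ≠ x i) univ)
      (fun y _ _ => sq_nonneg _))
    refine sum_congr rfl fun y hy => ?_
    have hne := (mem_filter.1 hy).2
    rw [hval]
    have hs : (sg (x i) - sg (y i)) ^ 2 = 4 := by
      cases hx : x i <;> cases hy' : y i
      · exact absurd (hy'.trans hx.symm) hne
      · simp only [sg]; norm_num
      · simp only [sg]; norm_num
      · exact absurd (hy'.trans hx.symm) hne
    rw [mul_pow, hs]
    ring
  rw [← mul_sum] at h2
  linarith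

theorem IsFlag.edge (hP : IsFlag u P) (hu : ∀ x, 0 < u x) (i : Fin n) (x : Cube n) :
    (BB n P (fl x i) x) ^ 2 ≤ 1 := by
  refine le_trans ?_ (hP.row hu i x)
  refine single_le_sum (f := fun y => (BB n P y x) ^ 2) (fun y _ => sq_nonneg _) ?_
  rw [mem_filter]
  refine ⟨mem_univ _, ?_⟩
  unfold fl
  rw [Function.update_self]
  cases x i <;> simp

/-- (sum of `row` over `i` and `x`; `∑_i [y i ≠ x i] = hammingDist y x`) -/
theorem IsFlag.dist_sum (hP : IsFlag u P) (hu : ∀ x, 0 < u x) :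
    ∑ x : Cube n, ∑ y : Cube n, (hammingDist y x : ℝ) * (BB n P y x) ^ 2 ≤ n * 2 ^ n := by
  have h1 : ∀ x : Cube n, ∑ y : Cube n, (hammingDist y x : ℝ) * (BB n P y x) ^ 2 ≤ n := by
    intro x
    have h2 : ∑ y : Cube n, (hammingDist y x : ℝ) * (BB n P y x) ^ 2 =
        ∑ i : Fin n, ∑ y ∈ univ.filter (fun y : Cube n => y i ≠ x i), (BB n P y x) ^ 2 := by
      simp only [sum_filter]
      rw [sum_comm]
      refine sum_congr rfl fun y _ => ?_
      rw [← sum_filter, sum_const, nsmul_eq_mul]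
      rfl
    rw [h2]
    calc ∑ i : Fin n, ∑ y ∈ univ.filter (fun y : Cube n => y i ≠ x i), (BB n P y x) ^ 2
        ≤ ∑ _i : Fin n, (1 : ℝ) := sum_le_sum fun i _ => hP.row hu i x
      _ = n := by simp
  calc ∑ x : Cube n, ∑ y : Cube n, (hammingDist y x : ℝ) * (BB n P y x) ^ 2
      ≤ ∑ _x : Cube n, (n : ℝ) := sum_le_sum fun x _ => h1 x
    _ = n * 2 ^ n := by
      rw [sum_const, nsmul_eq_mul, card_univ, Fintype.card_fun, Fintype.card_bool, Fintype.card_fin]
      push_cast
      ring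

end Crest.Agent.GL
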