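import Crest.Agent.GL_Defs

/-!
S0483 (blueprint GL), task 9: the number of sensitive edges is at most `Δ`.
-/

set_option autoImplicit false

namespace Crest.Agent.GL

open Finset Matrix

private theorem fl_inj {n : ℕ} (x : Cube n) : Function.Injective (fl x) := by
  intro i j h
  by_contra hij
  have h1 := congrFun h i
  rw [fl, fl, Function.update_self, Function.update_of_ne hij] at h1
  exact absurd h1 (by cases x i <;> decide)

private theorem dist_eq_one_iff {n : ℕ} (y x : Cube n) :
    hammingDist y x = 1 ↔ ∃ i, fl x i = y := by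
  constructor
  · intro h
    unfold hammingDist at h
    obtain ⟨i, hi⟩ := Finset.card_eq_one.1 h
    refine ⟨i, funext fun j => ?_⟩
    have hj : j ∈ univ.filter (fun k => y k ≠ x k) ↔ j ∈ ({i} : Finset (Fin n)) := by rw [hi]
    rw [mem_filter, mem_singleton] at hj
    rw [fl]
    by_cases hji : j = i
    · rw [hji, Function.update_self]
      have h2 := (hj.2 hji).2
      rw [hji] at h2
      revert h2
      cases y i <;> cases x i <;> decide
    · rw [Function.update_of_ne hji]
      by_contra hne
      exact hji (hj.1 ⟨mem_univ _, fun h' => hne h'.symm⟩)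
  · rintro ⟨i, rfl⟩
    unfold hammingDist
    rw [Finset.card_eq_one]
    refine ⟨i, ?_⟩
    ext j
    rw [mem_filter, mem_singleton, fl]
    by_cases hji : j = i
    · rw [hji, Function.update_self]
      simp
    · rw [Function.update_of_ne hji]
      simp [hji]

private theorem sum_dist_one {n : ℕ} (x : Cube n) (f : Cube n → ℝ) :
    ∑ y ∈ univ.filter (fun y : Cube n => hammingDist y x = 1), f y = ∑ i, f (fl x i) := by
  have h : univ.filter (fun y : Cube n => hammingDist y x = 1) = univ.image (fl x) := by
    ext y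
    rw [mem_filter, mem_image, dist_eq_one_iff]
    simp
  rw [h, Finset.sum_image fun i _ j _ hij => fl_inj x hij]

private theorem chr_fl {n : ℕ} (x : Cube n) (i : Fin n) : chr univ (fl x i) = - chr univ x := by
  unfold chr
  rw [← Finset.mul_prod_erase univ _ (mem_univ i),
    ← Finset.mul_prod_erase univ (fun j => if x j then (1 : ℝ) else -1) (mem_univ i)]
  have h1 : ∏ j ∈ univ.erase i, (if fl x i j then (1 : ℝ) else -1) =
      ∏ j ∈ univ.erase i, (if x j then (1 : ℝ) else -1) := by
    refine Finset.prod_congr rfl fun j hj => ?_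
    rw [fl, Function.update_of_ne (Finset.ne_of_mem_erase hj)]
  rw [h1, fl, Function.update_self, ← neg_mul]
  congr 1
  cases x i <;> simp

private theorem chr_ne_zero {n : ℕ} (x : Cube n) : chr univ x ≠ 0 := by
  unfold chr
  refine Finset.prod_ne_zero_iff.2 fun j _ => ?_
  split_ifs <;> norm_num

/-- TASK GL-9.  Pure bookkeeping: let `B` be a matrix with `∑ B² = n 2^n`,
`∑ dist B² ≤ n 2^n` and `B² ≤ 1` on edges, let `s : Cube n → {±1}`, and call a pair `(y, x)` even if
`s y χ y = s x χ x`.  Then the number of sensitive pairs `(i, x)` (`s (fl x i) ≠ s x`) is at most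
`2 ∑_{even} B²`.
Proof: subtracting, `∑_{dist ≥ 2} B² ≤ ∑_{dist = 0} B²` (`dist - 1 ≥ 1` for `dist ≥ 2`).
Split `n 2^n = ∑ B²` into even pairs; odd pairs at distance `≥ 2` (at most the diagonal part, which is
even); odd pairs at distance `1` = non-sensitive edges, at most `1` each, i.e. at most
`n 2^n - #sens` (`χ (fl x i) = - χ x`). (`dist = 1` pairs are `(fl x i, x)`.) -/
theorem sens_le {n : ℕ} (B : Matrix (Cube n) (Cube n) ℝ) (s : Cube n → ℝ)
    (hs : ∀ x, s x = 1 ∨ s x = -1)
    (h1 : ∑ x, ∑ y, (B y x) ^ 2 = n * 2 ^ n)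
    (h2 : ∑ x : Cube n, ∑ y : Cube n, (hammingDist y x : ℝ) * (B y x) ^ 2 ≤ n * 2 ^ n)
    (h3 : ∀ (i : Fin n) (x : Cube n), (B (fl x i) x) ^ 2 ≤ 1) :
    ∑ i : Fin n, ((univ.filter (fun x : Cube n => s (fl x i) ≠ s x)).card : ℝ) ≤
      2 * ∑ x : Cube n, ∑ y ∈ univ.filter (fun y : Cube n => s y * chr univ y = s x * chr univ x),
        (B y x) ^ 2 := by
  classical
  -- termwise inequality
  have key : ∀ x y : Cube n, (2 - (hammingDist y x : ℝ)) * (B y x) ^ 2 ≤
      2 * (if s y * chr univ y = s x * chr univ x then (B y x) ^ 2 else 0) +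
        (if hammingDist y x = 1 then
          (if s y * chr univ y = s x * chr univ x then 0 else (B y x) ^ 2) else 0) := by
    intro x y
    have hb : 0 ≤ (B y x) ^ 2 := sq_nonneg _
    rcases Nat.lt_or_ge (hammingDist y x) 2 with hd | hd
    · interval_cases hd' : hammingDist y x
      · have hyx : y = x := hammingDist_eq_zero.1 hd'
        subst hyx
        simp
      · by_cases he : s y * chr univ y = s x * chr univ x
        · simp only [if_pos he, if_true]
          push_cast
          linarith
        · simp only [if_neg he, if_true]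
          push_cast
          linarith
    · have hd' : (2 : ℝ) ≤ (hammingDist y x : ℝ) := by exact_mod_cast hd
      have h4 : (2 - (hammingDist y x : ℝ)) * (B y x) ^ 2 ≤ 0 :=
        mul_nonpos_of_nonpos_of_nonneg (by linarith) hb
      refine h4.trans (add_nonneg (mul_nonneg zero_le_two ?_) ?_)
      · split_ifs
        · exact hb
        · exact le_refl _
      · split_ifs
        · exact le_refl _
        · exact hb
        · exact le_refl _
  have hsum : ∑ x : Cube n, ∑ y : Cube n, (2 - (hammingDist y x : ℝ)) * (B y x) ^ 2 ≤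
      2 * (∑ x : Cube n, ∑ y : Cube n,
        (if s y * chr univ y = s x * chr univ x then (B y x) ^ 2 else 0)) +
      ∑ x : Cube n, ∑ y : Cube n, (if hammingDist y x = 1 then
          (if s y * chr univ y = s x * chr univ x then 0 else (B y x) ^ 2) else 0) := by
    rw [Finset.mul_sum, ← Finset.sum_add_distrib]
    refine Finset.sum_le_sum fun x _ => ?_
    rw [Finset.mul_sum, ← Finset.sum_add_distrib]
    exact Finset.sum_le_sum fun y _ => key x y
  have hlow : (n : ℝ) * 2 ^ n ≤
      ∑ x : Cube n, ∑ y : Cube n, (2 - (hammingDist y x : ℝ)) * (B y x) ^ 2 := by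
    have e : ∑ x : Cube n, ∑ y : Cube n, (2 - (hammingDist y x : ℝ)) * (B y x) ^ 2 =
        2 * (∑ x : Cube n, ∑ y, (B y x) ^ 2) -
          ∑ x : Cube n, ∑ y : Cube n, (hammingDist y x : ℝ) * (B y x) ^ 2 := by
      rw [Finset.mul_sum, ← Finset.sum_sub_distrib]
      refine Finset.sum_congr rfl fun x _ => ?_
      rw [Finset.mul_sum, ← Finset.sum_sub_distrib]
      exact Finset.sum_congr rfl fun y _ => by ring
    rw [e, h1]
    linarith
  -- distance one
  have hone : ∀ x : Cube n, ∑ y : Cube n, (if hammingDist y x = 1 then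
      (if s y * chr univ y = s x * chr univ x then 0 else (B y x) ^ 2) else 0) ≤
      ∑ i : Fin n, (1 - (if s (fl x i) ≠ s x then (1 : ℝ) else 0)) := by
    intro x
    rw [← Finset.sum_filter, sum_dist_one x
      (fun y => if s y * chr univ y = s x * chr univ x then 0 else (B y x) ^ 2)]
    refine Finset.sum_le_sum fun i _ => ?_
    have hc := chr_ne_zero x
    by_cases he : s (fl x i) ≠ s x
    · have h5 : s (fl x i) * chr univ (fl x i) = s x * chr univ x := by
        rw [chr_fl]
        have h6 : s (fl x i) = - s x := by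
          rcases hs (fl x i) with h | h <;> rcases hs x with h' | h' <;> rw [h, h'] at he ⊢
          · exact absurd rfl he
          · norm_num
          · exact absurd rfl he
        rw [h6]
        ring
      rw [if_pos h5, if_pos he]
      norm_num
    · rw [if_neg he, sub_zero]
      split_ifs
      · exact zero_le_one
      · exact h3 i x
  have hfin : ∑ x : Cube n, ∑ i : Fin n, (1 - (if s (fl x i) ≠ s x then (1 : ℝ) else 0)) =
      n * 2 ^ n - ∑ i : Fin n, ((univ.filter (fun x : Cube n => s (fl x i) ≠ s x)).card : ℝ) := by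
    have e : ∀ i : Fin n, ((univ.filter (fun x : Cube n => s (fl x i) ≠ s x)).card : ℝ) =
        ∑ x : Cube n, (if s (fl x i) ≠ s x then (1 : ℝ) else 0) := by
      intro i
      rw [← Finset.sum_filter, Finset.sum_const, nsmul_eq_mul, mul_one]
    simp only [e, Finset.sum_sub_distrib]
    rw [Finset.sum_comm (f := fun (x : Cube n) (i : Fin n) =>
      (if s (fl x i) ≠ s x then (1 : ℝ) else 0))]
    congr 1
    simp
    ring
  have hE : ∑ x : Cube n, ∑ y : Cube n,
        (if s y * chr univ y = s x * chr univ x then (B y x) ^ 2 else 0) =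
      ∑ x : Cube n, ∑ y ∈ univ.filter (fun y : Cube n => s y * chr univ y = s x * chr univ x),
        (B y x) ^ 2 :=
    Finset.sum_congr rfl fun x _ => (Finset.sum_filter _ _).symm
  have hone' := Finset.sum_le_sum fun x (_ : x ∈ (univ : Finset (Cube n))) => hone x
  rw [hfin] at hone'
  rw [hE] at hsum
  linarith

end Crest.Agent.GL
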