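import Crest.Agent.GL_Flag

/-!
S0483 (blueprint GL), task 4: coordinates raise the degree by one.
-/

set_option autoImplicit false

namespace Crest.Agent.GL

open Finset Matrix

/-- TASK GL-4. -/
theorem mul_mem_W {n k : ℕ} (i : Fin n) {g : Cube n → ℝ} (hg : g ∈ W n k) :
    (fun x => sg (x i) * g x) ∈ W n (k + 1) := by
  classical
  unfold W at hg
  induction hg using Submodule.span_induction with
  | mem f hf =>
    obtain ⟨S, hS, rfl⟩ := hf
    apply Submodule.subset_span
    by_cases hi : i ∈ S
    · refine ⟨S.erase i, lt_of_le_of_lt (Finset.card_le_card (Finset.erase_subset i S)) (by omega),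
        ?_⟩
      funext x
      have h1 : chr S x = sg (x i) * chr (S.erase i) x := by
        unfold chr sg
        rw [Finset.mul_prod_erase S (fun j => if x j then (1 : ℝ) else -1) hi]
      have h2 : sg (x i) * sg (x i) = 1 := by
        unfold sg
        split_ifs <;> norm_num
      rw [h1, ← mul_assoc, h2, one_mul]
    · refine ⟨insert i S, by rw [Finset.card_insert_of_notMem hi]; omega, ?_⟩
      funext x
      unfold chr sg
      rw [Finset.prod_insert hi]
  | zero =>
    have : (fun x : Cube n => sg (x i) * (0 : Cube n → ℝ) x) = 0 := by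
      funext x
      simp
    rw [this]
    exact zero_mem _
  | add f g _ _ hf hg =>
    have : (fun x : Cube n => sg (x i) * (f + g) x) =
        (fun x => sg (x i) * f x) + fun x => sg (x i) * g x := by
      funext x
      simp [mul_add]
    rw [this]
    exact add_mem hf hg
  | smul c f _ hf =>
    have : (fun x : Cube n => sg (x i) * (c • f) x) = c • fun x => sg (x i) * f x := by
      funext x
      simp only [Pi.smul_apply, smul_eq_mul]
      ring
    rw [this]
    exact Submodule.smul_mem _ _ hf

private theorem glx_ext {n : ℕ} {A B : Matrix (Cube n) (Cube n) ℝ}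
    (h : ∀ v, A *ᵥ v = B *ᵥ v) : A = B := by
  apply Matrix.toLin'.injective
  refine LinearMap.ext fun v => ?_
  rw [Matrix.toLin'_apply, Matrix.toLin'_apply]
  exact h v

variable {n : ℕ} {u : Cube n → ℝ} {P : ℕ → Matrix (Cube n) (Cube n) ℝ}

theorem IsFlag.X_step (hP : IsFlag u P) (i : Fin n) (k : ℕ) :
    P (k + 1) * (XX i * P k) = XX i * P k := by
  apply glx_ext
  intro v
  rw [← Matrix.mulVec_mulVec, hP.mem (k + 1)]
  have h1 : P k *ᵥ (P k *ᵥ v) = P k *ᵥ v := by
    rw [Matrix.mulVec_mulVec, hP.idem]
  rw [hP.mem k] at h1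
  obtain ⟨g, hg, hv⟩ := h1
  refine ⟨fun x => sg (x i) * g x, mul_mem_W i hg, ?_⟩
  rw [← Matrix.mulVec_mulVec, hv]
  funext x
  unfold XX
  rw [Matrix.mulVec_diagonal]
  ring

private theorem glx_step' (hP : IsFlag u P) (i : Fin n) (k : ℕ) :
    P k * XX i * P (k + 1) = P k * XX i := by
  have h := congrArg Matrix.transpose (hP.X_step i k)
  have hX : (XX i : Matrix (Cube n) (Cube n) ℝ)ᵀ = XX i := by
    unfold XX
    exact Matrix.diagonal_transpose _
  rw [Matrix.transpose_mul, Matrix.transpose_mul, hP.symm, hP.symm, hX] at h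
  exact h

/-- Tridiagonality: `E a * X * E b = 0` for `|a - b| > 1`. (`E b = P (b+1) E b`,
`X E b = P (b+2) X E b`, and `E a P (b+2) = 0` for `b + 2 ≤ a`; transpose for the other case.) -/
theorem IsFlag.tri (hP : IsFlag u P) (i : Fin n) {a b : ℕ} (h : a + 1 < b ∨ b + 1 < a) :
    EE P a * XX i * EE P b = 0 := by
  rcases h with h | h
  · have h1 : EE P a = EE P a * P (a + 1) := by
      unfold EE
      rw [sub_mul, hP.idem, hP.mono' (Nat.le_succ a)]
    have h2 : P (a + 2) * EE P b = 0 := by
      unfold EE
      rw [mul_sub, hP.mono' (by omega : a + 2 ≤ b + 1), hP.mono' (by omega : a + 2 ≤ b), sub_self]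
    have h3 := glx_step' hP i (a + 1)
    calc EE P a * XX i * EE P b = EE P a * (P (a + 1) * XX i) * EE P b := by
          rw [← mul_assoc (EE P a), ← h1]
      _ = EE P a * (P (a + 1) * XX i * P (a + 1 + 1)) * EE P b := by rw [h3]
      _ = EE P a * (P (a + 1) * XX i) * (P (a + 2) * EE P b) := by simp only [mul_assoc]
      _ = 0 := by rw [h2, mul_zero]
  · have h1 : EE P b = P (b + 1) * EE P b := by
      unfold EE
      rw [mul_sub, hP.idem, hP.mono (Nat.le_succ b)]
    have h2 : EE P a * P (b + 2) = 0 := by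
      unfold EE
      rw [sub_mul, hP.mono (by omega : b + 2 ≤ a + 1), hP.mono (by omega : b + 2 ≤ a), sub_self]
    have h3 := hP.X_step i (b + 1)
    calc EE P a * XX i * EE P b = EE P a * (XX i * P (b + 1)) * EE P b := by
          rw [mul_assoc, mul_assoc, mul_assoc (XX i), ← h1]
      _ = EE P a * (P (b + 1 + 1) * (XX i * P (b + 1))) * EE P b := by rw [h3]
      _ = (EE P a * P (b + 2)) * (XX i * P (b + 1)) * EE P b := by simp only [mul_assoc]
      _ = 0 := by rw [h2, zero_mul, zero_mul]

end Crest.Agent.GL
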