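import Mathlib
import Crest.Prelude.Def_SpinChain

/-!
HG (Haldane gap, S0545 + S0546): physical definitions and interfaces.

All partition functions are real parts of traces `Tr (A * exp (-β H))` of complex matrices in the
`S^z` product basis of the Prelude (`Fin n → Fin 3`, index `k` carries `m = 1 - k`).
-/

set_option autoImplicit false

namespace Crest.Agent.HG
open Matrix Crest.MathPhysics.SpinChain

/-- Heisenberg ring with `n` sites whose last bond (between site `n-1` and site `0`) has the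
couplings `s 0, s 1, s 2` for `S^xS^x`, `S^yS^y`, `S^zS^z`; all other bonds have coupling one. -/
noncomputable def ringH (s : Fin 3 → ℝ) (n : ℕ) : Matrix (Fin n → Fin 3) (Fin n → Fin 3) ℂ :=
  ∑ j : Fin n, ∑ a : Fin 3, (((if (j : ℕ) + 1 = n then s a else 1 : ℝ)) : ℂ) •
    (onSite (spinOp a) j * onSite (spinOp a) (finRotate n j))

/-- Untwisted and π-twisted (around z) couplings. -/
def sOne : Fin 3 → ℝ := fun _ => 1
def sPi : Fin 3 → ℝ := ![-1, -1, 1]

/-- Open chain with `n+1` spin-one sites and end fields `-h (S^z_0 + s S^z_n)`. -/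
noncomputable def openS (s : ℝ) (n : ℕ) (h : ℝ) :
    Matrix (Fin (n + 1) → Fin 3) (Fin (n + 1) → Fin 3) ℂ :=
  (∑ j : Fin n, bond (Fin.castSucc j) (Fin.succ j)) -
    (h : ℂ) • (onSite spinZ (0 : Fin (n + 1)) + (s : ℂ) • onSite spinZ (Fin.last n))

/-- single-site π-rotation about axis `a` (0,1,2 = x,y,z): `exp(iπ S^a) = 1 - 2 (S^a)^2`. -/
noncomputable def R1 (a : Fin 3) : Matrix (Fin 3) (Fin 3) ℂ := 1 - (2 : ℂ) • (spinOp a * spinOp a)

/-- global π-rotation about axis `a`. -/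
noncomputable def RN {ι : Type*} [Fintype ι] (a : Fin 3) : Matrix (ι → Fin 3) (ι → Fin 3) ℂ :=
  Matrix.of fun σ τ => ∏ j, R1 a (σ j) (τ j)

/-- `Zt A H β = Re Tr (A exp(-β H))`. -/
noncomputable def Zt {κ : Type*} [Fintype κ] [DecidableEq κ] (A H : Matrix κ κ ℂ) (β : ℝ) : ℝ :=
  (Matrix.trace (A * NormedSpace.exp (-(β : ℂ) • H))).re

/-! ### ring functions (even `L ≥ 4` only are used) -/
noncomputable def P (L : ℕ) (β : ℝ) : ℝ := Zt 1 (ringH sOne L) β
noncomputable def Q (L : ℕ) (β : ℝ) : ℝ := Zt (RN 2) (ringH sOne L) β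
noncomputable def Z2 (L : ℕ) (β : ℝ) : ℝ := Zt 1 (ringH sPi L) β
noncomputable def ZZ (L : ℕ) (β : ℝ) : ℝ := Zt (RN 2) (ringH sPi L) β
/-- minus sign: `X ≥ 0`. -/
noncomputable def X (L : ℕ) (β : ℝ) : ℝ := - Zt (RN 0) (ringH sPi L) β

/-- sector functions of the space transfer matrix `K` (`0` = D2-trivial sector, `1,2,3` = x,y,z). -/
noncomputable def mK (χ : Fin 4) (L : ℕ) (β : ℝ) : ℝ :=
  if χ = 0 then (P L β + 3 * Z2 L β) / 4 else (P L β - Z2 L β) / 4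
/-- sector functions of the time-twisted space transfer matrix `K_Z`. -/
noncomputable def mZ (χ : Fin 4) (L : ℕ) (β : ℝ) : ℝ :=
  if χ = 0 then ((Q L β + ZZ L β) / 2 - X L β) / 2
  else if χ = 3 then ((Q L β + ZZ L β) / 2 + X L β) / 2
  else (Q L β - ZZ L β) / 4

/-! ### open chain with end fields `h = 3/5`, `N ≥ 2` sites. `V s`: `s = 1` both fields up (this is
the chain of S0546), `s = -1` opposite fields. -/
noncomputable def Vo (s : ℝ) (N : ℕ) (β : ℝ) : ℝ := Zt 1 (openS s (N - 1) (3 / 5)) β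
noncomputable def VoZ (s : ℝ) (N : ℕ) (β : ℝ) : ℝ := Zt (RN 2) (openS s (N - 1) (3 / 5)) β

noncomputable def Ao (N : ℕ) (β : ℝ) : ℝ := (Vo 1 N β + Vo (-1) N β) / 2
noncomputable def Bo (N : ℕ) (β : ℝ) : ℝ := (Vo (-1) N β - Vo 1 N β) / 2
noncomputable def AoZ (N : ℕ) (β : ℝ) : ℝ := (VoZ 1 N β + VoZ (-1) N β) / 2
noncomputable def BoZ (N : ℕ) (β : ℝ) : ℝ := (VoZ (-1) N β - VoZ 1 N β) / 2

/-! ### half-chain: `N ≥ 1` spin-one sites, a spin-1/2 at each end, end couplings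
`Jz s^z S^z + Jp (s^x S^x + s^y S^y)`, `Jz = 77/100`, `Jp = √2 * 55/100`. -/

/-- spin-1/2 matrices (index 0 = up, 1 = down). -/
noncomputable def halfOp : Fin 3 → Matrix (Fin 2) (Fin 2) ℂ :=
  ![!![0, 1 / 2; 1 / 2, 0], !![0, -Complex.I / 2; Complex.I / 2, 0], !![1 / 2, 0; 0, -1 / 2]]

noncomputable def Jend : Fin 3 → ℝ := ![Real.sqrt 2 * (55 / 100), Real.sqrt 2 * (55 / 100), 77 / 100]

/-- generic chain `left end (Fin d) – (n+1) spin-one sites – right end (Fin d')`;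
`e a`, `e' a` are the (scaled) end operators coupled to `S^a` of the neighbouring spin-one site,
`F`, `F'` one-site terms on the ends. -/
noncomputable def endChain {d d' : ℕ} (e : Fin 3 → Matrix (Fin d) (Fin d) ℂ)
    (F : Matrix (Fin d) (Fin d) ℂ) (e' : Fin 3 → Matrix (Fin d') (Fin d') ℂ)
    (F' : Matrix (Fin d') (Fin d') ℂ) (n : ℕ) :
    Matrix (Fin d × (Fin (n + 1) → Fin 3) × Fin d') (Fin d × (Fin (n + 1) → Fin 3) × Fin d') ℂ :=
  Matrix.of fun σ τ =>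
    (if σ.2 = τ.2 then F σ.1 τ.1 else 0) +
    (if σ.1 = τ.1 ∧ σ.2.1 = τ.2.1 then F' σ.2.2 τ.2.2 else 0) +
    (if σ.1 = τ.1 ∧ σ.2.2 = τ.2.2 then
      (∑ j : Fin n, bond (Fin.castSucc j) (Fin.succ j)) σ.2.1 τ.2.1 else 0) +
    (if σ.2.2 = τ.2.2 then ∑ a, e a σ.1 τ.1 * onSite (spinOp a) (0 : Fin (n + 1)) σ.2.1 τ.2.1
      else 0) +
    (if σ.1 = τ.1 then
      ∑ a, onSite (spinOp a) (Fin.last n) σ.2.1 τ.2.1 * e' a σ.2.2 τ.2.2 else 0)

/-- the half-chain Hamiltonian with `N = n+1` spin-one sites. -/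
noncomputable def halfH (n : ℕ) :
    Matrix (Fin 2 × (Fin (n + 1) → Fin 3) × Fin 2) (Fin 2 × (Fin (n + 1) → Fin 3) × Fin 2) ℂ :=
  endChain (fun a => ((Jend a : ℝ) : ℂ) • halfOp a) 0 (fun a => ((Jend a : ℝ) : ℂ) • halfOp a) 0 n

/-- `(-1)^M`, `M` = total magnetisation of the half chain (an integer):
`σ.1,σ.2.2 ∈ {up,down}`, `M = Σ_j (1 - σ_j) + (1 - σ.1 - σ.2.2)`. -/
noncomputable def halfR (n : ℕ) :
    Matrix (Fin 2 × (Fin (n + 1) → Fin 3) × Fin 2) (Fin 2 × (Fin (n + 1) → Fin 3) × Fin 2) ℂ :=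
  Matrix.diagonal fun σ =>
    (-1 : ℂ) ^ ((∑ j, (1 + (σ.2.1 j : ℕ))) + (1 + (σ.1 : ℕ) + (σ.2.2 : ℕ)))

/-- half-chain partition functions, `N ≥ 1` spin-one sites. -/
noncomputable def Vh (N : ℕ) (β : ℝ) : ℝ := Zt 1 (halfH (N - 1)) β
noncomputable def Wh (N : ℕ) (β : ℝ) : ℝ := Zt (halfR (N - 1)) (halfH (N - 1)) β

/-! ### Interface of part B (spectral representation of the space channel) -/

/-- Representation for the untwisted space transfer matrix at inverse temperature `β`.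
`κ χ` = eigenvalues in D2 sector `χ` (0 trivial, 1,2,3 = x,y,z), sorted by absolute value;
`u`, `α`, `b` = squared overlaps of the half-chain vector (sector 0), the real part (sector 0) and
the imaginary part (sector 3 = z) of the open-chain vector. -/
def RepK (β : ℝ) : Prop :=
  ∃ (κ : Fin 4 → ℕ → ℝ) (u α b : ℕ → ℝ),
    (∀ χ, Antitone fun i => |κ χ i|) ∧ (∀ i, 0 ≤ u i ∧ 0 ≤ α i ∧ 0 ≤ b i) ∧
    (∀ χ L, Even L → 4 ≤ L → HasSum (fun i => |κ χ i| ^ L) (mK χ L β)) ∧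
    (∀ N, 2 ≤ N → HasSum (fun i => u i * κ 0 i ^ (N - 2)) (Vh N β)) ∧
    (∀ N, 4 ≤ N → HasSum (fun i => α i * κ 0 i ^ (N - 2)) (Ao N β)) ∧
    (∀ N, 4 ≤ N → HasSum (fun i => b i * κ 3 i ^ (N - 2)) (Bo N β))

/-- Representation for the time-twisted (`R_z`) space transfer matrix. Here the half-chain vector
and the imaginary part of the open-chain vector lie in sector 3, the real part in sector 0. -/
def RepZ (β : ℝ) : Prop :=
  ∃ (κ : Fin 4 → ℕ → ℝ) (u α b : ℕ → ℝ),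
    (∀ χ, Antitone fun i => |κ χ i|) ∧ (∀ i, 0 ≤ u i ∧ 0 ≤ α i ∧ 0 ≤ b i) ∧
    (∀ χ L, Even L → 4 ≤ L → HasSum (fun i => |κ χ i| ^ L) (mZ χ L β)) ∧
    (∀ N, 2 ≤ N → HasSum (fun i => u i * κ 3 i ^ (N - 2)) (Wh N β)) ∧
    (∀ N, 4 ≤ N → HasSum (fun i => α i * κ 0 i ^ (N - 2)) (AoZ N β)) ∧
    (∀ N, 4 ≤ N → HasSum (fun i => b i * κ 3 i ^ (N - 2)) (BoZ N β))

/-! ### Interface of the time channel -/

/-- finite sums of exponentials (with multiplicity) -/
def ExpSum (f : ℝ → ℝ) : Prop :=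
  ∃ (m : ℕ) (E : Fin m → ℝ), ∀ β, f β = ∑ j, Real.exp (-(β * E j))

/-- ring: D2-trivial sector and one of the three non-trivial sectors -/
def TimeRing (L : ℕ) : Prop :=
  ExpSum (fun β => (P L β + 3 * Q L β) / 4) ∧ ExpSum (fun β => (P L β - Q L β) / 4)

/-- open chain with opposite fields: even and odd magnetisation; both fields up: all states -/
def TimeOpen (N : ℕ) : Prop :=
  ExpSum (fun β => (Vo (-1) N β + VoZ (-1) N β) / 2) ∧
  ExpSum (fun β => (Vo (-1) N β - VoZ (-1) N β) / 2) ∧ ExpSum (fun β => Vo 1 N β)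

end Crest.Agent.HG
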