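import Mathlib
import Crest.Agent.HG_Defs

/-!
HGB_Defs (Haldane gap blueprint, part B = space/time channel, helper71): definitions.

PICTURE.  Labels `Fin 4`: `0` = identity, `a.succ` = the matrix `i S^a`.  One Trotter slice of a chain
is a sum over label configurations on the BONDS; a site between two bonds with labels `c`, `c'`
carries `Bsite c c' = (M_c M_c' + M_c' M_c)/2`; a non-zero label on a bond has weight `τ` (written as
`√τ·√τ`, one factor for each of the two sites).  With `n` slices, a bond carries a function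
`Fin n → Fin 4` and `Kc V n τ` is the space transfer matrix (one site, `V` = twist in time
direction), `vc V e F n τ` the end vector.
-/

set_option autoImplicit false

namespace Crest.Agent.HGB
open Matrix Crest.MathPhysics.SpinChain Crest.Agent.HG

/-- tensor product of the one-site matrices `A j`. -/
def tens {ι κ : Type*} [Fintype ι] (A : ι → Matrix κ κ ℂ) : Matrix (ι → κ) (ι → κ) ℂ :=
  Matrix.of fun σ τ => ∏ j, A j (σ j) (τ j)

/-- label matrices `M_0 = 1`, `M_{a+1} = i S^a`. -/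
noncomputable def Mlab (c : Fin 4) : Matrix (Fin 3) (Fin 3) ℂ :=
  Fin.cases (motive := fun _ => Matrix (Fin 3) (Fin 3) ℂ) 1 (fun a => Complex.I • spinOp a) c

/-- site matrix (symmetrised product). -/
noncomputable def Bsite (c c' : Fin 4) : Matrix (Fin 3) (Fin 3) ℂ :=
  (1 / 2 : ℂ) • (Mlab c * Mlab c' + Mlab c' * Mlab c)

/-- end matrices: `1 - τ F` for label `0`, `i e_a` for label `a+1`. -/
noncomputable def Eend {d : ℕ} (e : Fin 3 → Matrix (Fin d) (Fin d) ℂ) (F : Matrix (Fin d) (Fin d) ℂ)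
    (τ : ℝ) (c : Fin 4) : Matrix (Fin d) (Fin d) ℂ :=
  Fin.cases (motive := fun _ => Matrix (Fin d) (Fin d) ℂ) (1 - (τ : ℂ) • F)
    (fun a => Complex.I • e a) c

/-- weight of one leg. -/
noncomputable def wt (τ : ℝ) (c : Fin 4) : ℝ := if c = 0 then 1 else Real.sqrt τ

/-- weight of one bond. -/
noncomputable def wb (τ : ℝ) (c : Fin 4) : ℝ := if c = 0 then 1 else τ

/-- complex space transfer matrix, `n` slices. -/
noncomputable def Kc (V : Matrix (Fin 3) (Fin 3) ℂ) (n : ℕ) (τ : ℝ) :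
    Matrix (Fin n → Fin 4) (Fin n → Fin 4) ℂ :=
  Matrix.of fun a b => (∏ t, ((wt τ (a t) : ℝ) : ℂ) * ((wt τ (b t) : ℝ) : ℂ)) *
    Matrix.trace (V * (List.ofFn fun t => Bsite (a t) (b t)).prod)

/-- complex end vector, `n` slices. -/
noncomputable def vc {d : ℕ} (V : Matrix (Fin d) (Fin d) ℂ) (e : Fin 3 → Matrix (Fin d) (Fin d) ℂ)
    (F : Matrix (Fin d) (Fin d) ℂ) (n : ℕ) (τ : ℝ) (a : Fin n → Fin 4) : ℂ :=
  (∏ t, ((wt τ (a t) : ℝ) : ℂ)) * Matrix.trace (V * (List.ofFn fun t => Eend e F τ (a t)).prod)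

/-- sign of a label: `1` for `0`, `s a` for `a+1`. -/
noncomputable def chi (s : Fin 3 → ℝ) (c : Fin 4) : ℝ :=
  Fin.cases (motive := fun _ => ℝ) 1 s c

/-- `D_g`: product of the signs over the slices. -/
noncomputable def Dg (s : Fin 3 → ℝ) {n : ℕ} (a : Fin n → Fin 4) : ℝ := ∏ t, chi s (a t)

/-- rotation signs about axis `g`: `+1` on `g`, `-1` on the other two. -/
noncomputable def sg (g : Fin 3) (a : Fin 3) : ℝ := if a = g then 1 else -1

/-- indicator of the D2 sector `χ` (`0` trivial, `g+1` = axis `g`). -/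
noncomputable def ind (χ : Fin 4) {n : ℕ} (a : Fin n → Fin 4) : ℝ :=
  (1 + ∑ g : Fin 3, (if χ = 0 ∨ χ = g.succ then 1 else -1) * Dg (sg g) a) / 4

/-- one Trotter slice of the ring with couplings `s` on the last bond. -/
noncomputable def Xring (s : Fin 3 → ℝ) (L : ℕ) (τ : ℝ) :
    Matrix (Fin L → Fin 3) (Fin L → Fin 3) ℂ :=
  ∑ c : Fin L → Fin 4, ((∏ j, (wb τ (c j) * (if (j : ℕ) + 1 = L then chi s (c j) else 1)) : ℝ) : ℂ) •
    tens (fun j => Bsite (c ((finRotate L).symm j)) (c j))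

open scoped Kronecker in
/-- one Trotter slice of the chain `left end – N spin-one sites – right end`. -/
noncomputable def Xpath {d d' : ℕ} (e : Fin 3 → Matrix (Fin d) (Fin d) ℂ)
    (F : Matrix (Fin d) (Fin d) ℂ) (e' : Fin 3 → Matrix (Fin d') (Fin d') ℂ)
    (F' : Matrix (Fin d') (Fin d') ℂ) (N : ℕ) (τ : ℝ) :
    Matrix (Fin d × (Fin N → Fin 3) × Fin d') (Fin d × (Fin N → Fin 3) × Fin d') ℂ :=
  ∑ c : Fin (N + 1) → Fin 4, ((∏ j, wb τ (c j) : ℝ) : ℂ) •
    (Eend e F τ (c 0) ⊗ₖ (tens (fun j : Fin N => Bsite (c j.castSucc) (c j.succ)) ⊗ₖ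
      Eend e' F' τ (c (Fin.last N))))

/-- real space transfer matrix. -/
noncomputable def Kr (V : Matrix (Fin 3) (Fin 3) ℂ) (n : ℕ) (τ : ℝ) :
    Matrix (Fin n → Fin 4) (Fin n → Fin 4) ℝ := Matrix.of fun a b => (Kc V n τ a b).re

/-- half-chain end operators. -/
noncomputable def eHalf (a : Fin 3) : Matrix (Fin 2) (Fin 2) ℂ := ((Jend a : ℝ) : ℂ) • halfOp a

/-- half-chain twist `i σ_z`. -/
noncomputable def Vhz : Matrix (Fin 2) (Fin 2) ℂ := !![Complex.I, 0; 0, -Complex.I]

/-- field term of the open chain end. -/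
noncomputable def Fz (h : ℝ) : Matrix (Fin 3) (Fin 3) ℂ := (-(h : ℂ)) • spinZ

end Crest.Agent.HGB
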