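import Mathlib
import Crest.Agent.HGB_Defs

/-!
HGB_Bound (S0545/S0546 part B): the end vectors have uniformly bounded Euclidean norm.

Proof: with a submultiplicative norm on `d × d` matrices (`Matrix.linftyOpNormedRing` as a local
instance; `d = 0` trivial), `|Tr (V P)| ≤ c_d ‖V‖ ‖P‖`, `‖Eend e F τ 0‖ ≤ 1 + τ f` (`f = ‖F‖`),
`wt τ a.succ * ‖Eend e F τ a.succ‖ ≤ √τ r` (`r = max ‖e a‖`).  So
`‖vc … a‖² ≤ D ∏ t, g (a t)`, `g 0 = (1+τf)²`, `g (a+1) = τ r²`, and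
`∑ a, ∏ t, g (a t) = (∑ c, g c)^n ≤ ((1+τf)² + 3 τ r²)^n ≤ exp (n τ (2f + 3r²))`
(`Finset.prod_univ_sum`/`Fintype.sum_pow`, `1 + x ≤ exp x`), with `n τ = β` (`n = 0`: one term).
-/

set_option autoImplicit false

namespace Crest.Agent.HGB
open Matrix Crest.MathPhysics.SpinChain Crest.Agent.HG

attribute [local instance] Matrix.linftyOpNormedRing Matrix.linftyOpNormedAlgebra

private theorem norm_entry_le_linfty {d : ℕ} (A : Matrix (Fin d) (Fin d) ℂ) (i j : Fin d) :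
    ‖A i j‖ ≤ ‖A‖ := by
  have h1 : ‖A i j‖₊ ≤ ∑ k, ‖A i k‖₊ :=
    Finset.single_le_sum (f := fun k => ‖A i k‖₊) (fun _ _ => zero_le) (Finset.mem_univ j)
  have h2 : (∑ k, ‖A i k‖₊) ≤ ‖A‖₊ := by
    rw [Matrix.linfty_opNNNorm_def]
    exact Finset.le_sup (f := fun i => ∑ k, ‖A i k‖₊) (Finset.mem_univ i)
  exact_mod_cast h1.trans h2

private theorem norm_trace_le_linfty {d : ℕ} (A : Matrix (Fin d) (Fin d) ℂ) :
    ‖Matrix.trace A‖ ≤ d * ‖A‖ := by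
  unfold Matrix.trace
  refine (norm_sum_le _ _).trans ?_
  refine (Finset.sum_le_sum fun i _ => norm_entry_le_linfty A i i).trans ?_
  simp

private theorem norm_ofFn_prod_le {d : ℕ} [NeZero d] (n : ℕ)
    (f : Fin n → Matrix (Fin d) (Fin d) ℂ) :
    ‖(List.ofFn f).prod‖ ≤ ∏ t, ‖f t‖ := by
  have : Nonempty (Fin d) := ⟨0⟩
  have h := List.norm_prod_le (List.ofFn f)
  rwa [List.map_ofFn, List.prod_ofFn] at h

private theorem norm_vc_le {d : ℕ} [NeZero d] (V : Matrix (Fin d) (Fin d) ℂ)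
    (e : Fin 3 → Matrix (Fin d) (Fin d) ℂ) (F : Matrix (Fin d) (Fin d) ℂ) (n : ℕ) (τ : ℝ)
    (a : Fin n → Fin 4) :
    ‖vc V e F n τ a‖ ≤ (d * ‖V‖) * ∏ t, (wt τ (a t) * ‖Eend e F τ (a t)‖) := by
  have hw : ∀ c, 0 ≤ wt τ c := by
    intro c
    unfold wt
    split_ifs
    · exact zero_le_one
    · exact Real.sqrt_nonneg _
  unfold vc
  rw [norm_mul, Finset.prod_mul_distrib, norm_prod]
  have h1 : ∏ t, ‖((wt τ (a t) : ℝ) : ℂ)‖ = ∏ t, wt τ (a t) := by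
    refine Finset.prod_congr rfl fun t _ => ?_
    rw [Complex.norm_real, Real.norm_of_nonneg (hw _)]
  rw [h1]
  have h2 : ‖Matrix.trace (V * (List.ofFn fun t => Eend e F τ (a t)).prod)‖ ≤
      d * (‖V‖ * ∏ t, ‖Eend e F τ (a t)‖) := by
    refine (norm_trace_le_linfty _).trans ?_
    refine mul_le_mul_of_nonneg_left ?_ (Nat.cast_nonneg _)
    refine (norm_mul_le _ _).trans ?_
    exact mul_le_mul_of_nonneg_left (norm_ofFn_prod_le n _) (norm_nonneg _)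
  calc (∏ t, wt τ (a t)) * ‖Matrix.trace (V * (List.ofFn fun t => Eend e F τ (a t)).prod)‖
      ≤ (∏ t, wt τ (a t)) * (d * (‖V‖ * ∏ t, ‖Eend e F τ (a t)‖)) :=
        mul_le_mul_of_nonneg_left h2 (Finset.prod_nonneg fun _ _ => hw _)
    _ = _ := by ring

private theorem sum_g_le {d : ℕ} [NeZero d]
    (e : Fin 3 → Matrix (Fin d) (Fin d) ℂ) (F : Matrix (Fin d) (Fin d) ℂ) {τ : ℝ} (hτ : 0 ≤ τ) :
    ∑ c : Fin 4, (wt τ c * ‖Eend e F τ c‖) ^ 2 ≤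
      Real.exp (τ * (2 * ‖F‖ + ∑ a, ‖e a‖ ^ 2)) := by
  have : Nonempty (Fin d) := ⟨0⟩
  rw [Fin.sum_univ_succ]
  have h0 : (wt τ 0 * ‖Eend e F τ 0‖) ^ 2 ≤ Real.exp (τ * (2 * ‖F‖)) := by
    have h1 : wt τ 0 = 1 := by simp [wt]
    have h2 : Eend e F τ 0 = 1 - (τ : ℂ) • F := rfl
    have h3 : ‖Eend e F τ 0‖ ≤ Real.exp (τ * ‖F‖) := by
      rw [h2]
      refine (norm_sub_le _ _).trans ?_
      rw [norm_one, norm_smul, Complex.norm_real, Real.norm_of_nonneg hτ, add_comm]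
      exact Real.add_one_le_exp _
    rw [h1, one_mul]
    refine (pow_le_pow_left₀ (norm_nonneg _) h3 2).trans_eq ?_
    rw [← Real.exp_nat_mul]
    congr 1
    push_cast
    ring
  have hs : ∀ a : Fin 3, (wt τ a.succ * ‖Eend e F τ a.succ‖) ^ 2 = τ * ‖e a‖ ^ 2 := by
    intro a
    have h1 : wt τ a.succ = Real.sqrt τ := by simp [wt]
    have h2 : Eend e F τ a.succ = Complex.I • e a := rfl
    rw [h1, h2, norm_smul, Complex.norm_I, one_mul, mul_pow, Real.sq_sqrt hτ]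
  simp only [hs]
  rw [← Finset.mul_sum]
  set R := ∑ a, ‖e a‖ ^ 2 with hR
  have hR0 : 0 ≤ τ * R := mul_nonneg hτ (Finset.sum_nonneg fun _ _ => by positivity)
  have hF0 : 0 ≤ τ * (2 * ‖F‖) := by positivity
  rw [mul_add, Real.exp_add]
  have h4 : τ * R + 1 ≤ Real.exp (τ * R) := Real.add_one_le_exp _
  have h5 : 1 ≤ Real.exp (τ * (2 * ‖F‖)) := Real.one_le_exp hF0
  nlinarith [mul_nonneg (sub_nonneg.2 h5) hR0,
    mul_le_mul_of_nonneg_left h4 (Real.exp_pos (τ * (2 * ‖F‖))).le]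

theorem vc_bound {d : ℕ} (V : Matrix (Fin d) (Fin d) ℂ) (e : Fin 3 → Matrix (Fin d) (Fin d) ℂ)
    (F : Matrix (Fin d) (Fin d) ℂ) {β : ℝ} (hβ : 0 ≤ β) :
    ∃ C : ℝ, ∀ n : ℕ, ∑ a : Fin n → Fin 4, ‖vc V e F n (β / n) a‖ ^ 2 ≤ C := by
  rcases Nat.eq_zero_or_pos d with hd | hd
  · subst hd
    refine ⟨0, fun n => le_of_eq ?_⟩
    refine Finset.sum_eq_zero fun a _ => ?_
    simp [vc, Matrix.trace]
  have : NeZero d := ⟨hd.ne'⟩
  refine ⟨(d * ‖V‖) ^ 2 * Real.exp (β * (2 * ‖F‖ + ∑ a, ‖e a‖ ^ 2)), fun n => ?_⟩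
  have hτ : 0 ≤ β / n := div_nonneg hβ (Nat.cast_nonneg _)
  have hR : 0 ≤ 2 * ‖F‖ + ∑ a, ‖e a‖ ^ 2 := by positivity
  calc ∑ a : Fin n → Fin 4, ‖vc V e F n (β / n) a‖ ^ 2
      ≤ ∑ a : Fin n → Fin 4, (d * ‖V‖) ^ 2 *
          ∏ t, (wt (β / n) (a t) * ‖Eend e F (β / n) (a t)‖) ^ 2 := by
        refine Finset.sum_le_sum fun a _ => ?_
        rw [Finset.prod_pow, ← mul_pow]
        exact pow_le_pow_left₀ (norm_nonneg _) (norm_vc_le V e F n _ a) 2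
    _ = (d * ‖V‖) ^ 2 * (∑ c : Fin 4, (wt (β / n) c * ‖Eend e F (β / n) c‖) ^ 2) ^ n := by
        rw [← Finset.mul_sum, Fintype.sum_pow]
    _ ≤ (d * ‖V‖) ^ 2 * (Real.exp (β / n * (2 * ‖F‖ + ∑ a, ‖e a‖ ^ 2))) ^ n := by
        refine mul_le_mul_of_nonneg_left ?_ (by positivity)
        exact pow_le_pow_left₀ (Finset.sum_nonneg fun _ _ => by positivity) (sum_g_le e F hτ) n
    _ ≤ _ := by
        refine mul_le_mul_of_nonneg_left ?_ (by positivity)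
        rw [← Real.exp_nat_mul]
        refine Real.exp_le_exp.2 ?_
        rcases Nat.eq_zero_or_pos n with hn | hn
        · subst hn
          rw [Nat.cast_zero, zero_mul]
          exact mul_nonneg hβ hR
        · have hn' : (n : ℝ) ≠ 0 := by exact_mod_cast hn.ne'
          refine le_of_eq ?_
          field_simp

end Crest.Agent.HGB
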