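import Mathlib
import Crest.Agent.HGB_Defs

/-!
HGB_Conj (S0545/S0546 part B): traces of products under similarity transformations and complex
conjugation.

`trace_conj_prod`: if `W * U = 1` (square matrices, hence `U * W = 1`), `U V W = z • V` and
`U (A t) W = w t • B t` for all `t`, then `z * … `: insert `W U = 1` between all the factors
(induction on the list: `U * (List.ofFn A).prod * W = (∏ w t) • (List.ofFn B).prod`), and use the
cyclicity of the trace.
`conj_trace_prod`: entrywise conjugation is a ring homomorphism on matrices (`RingHom.mapMatrix`),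
`trace (M.map conj) = conj (trace M)`.
-/

set_option autoImplicit false

namespace Crest.Agent.HGB
open Matrix

private theorem conj_prod_aux {κ : Type*} [Fintype κ] [DecidableEq κ] (U W : Matrix κ κ ℂ)
    (hUW : U * W = 1) (hWU : W * U = 1) {n : ℕ}
    (A B : Fin n → Matrix κ κ ℂ) (w : Fin n → ℂ) (h : ∀ t, U * A t * W = w t • B t) :
    U * (List.ofFn A).prod * W = (∏ t, w t) • (List.ofFn B).prod := by
  induction n with
  | zero => simp [hUW]
  | succ n ih =>
    rw [List.ofFn_succ, List.ofFn_succ, List.prod_cons, List.prod_cons, Fin.prod_univ_succ]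
    have e1 : U * (A 0 * (List.ofFn fun i => A i.succ).prod) * W =
        (U * A 0 * W) * (U * (List.ofFn fun i => A i.succ).prod * W) := by
      calc U * (A 0 * (List.ofFn fun i => A i.succ).prod) * W
          = U * A 0 * 1 * (List.ofFn fun i => A i.succ).prod * W := by
            rw [mul_one, ← mul_assoc]
        _ = U * A 0 * (W * U) * (List.ofFn fun i => A i.succ).prod * W := by rw [hWU]
        _ = _ := by simp only [mul_assoc]
    rw [e1, h 0, ih (fun i => A i.succ) (fun i => B i.succ) (fun i => w i.succ)
      (fun t => h t.succ)]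
    rw [smul_mul_smul_comm]

theorem trace_conj_prod {κ : Type*} [Fintype κ] [DecidableEq κ] (U W V : Matrix κ κ ℂ)
    (hUW : U * W = 1) (hWU : W * U = 1) (z : ℂ) (hV : U * V * W = z • V) {n : ℕ}
    (A B : Fin n → Matrix κ κ ℂ) (w : Fin n → ℂ) (h : ∀ t, U * A t * W = w t • B t) :
    Matrix.trace (V * (List.ofFn A).prod) =
      z * (∏ t, w t) * Matrix.trace (V * (List.ofFn B).prod) := by
  have e1 := conj_prod_aux U W hUW hWU A B w h
  have e2 : Matrix.trace (V * (List.ofFn A).prod) =
      Matrix.trace ((U * V * W) * (U * (List.ofFn A).prod * W)) := by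
    have e3 : (U * V * W) * (U * (List.ofFn A).prod * W) = U * ((V * (List.ofFn A).prod) * W) := by
      calc (U * V * W) * (U * (List.ofFn A).prod * W)
          = U * V * (W * U) * (List.ofFn A).prod * W := by simp only [mul_assoc]
        _ = U * ((V * (List.ofFn A).prod) * W) := by rw [hWU, mul_one]; simp only [mul_assoc]
    rw [e3, Matrix.trace_mul_comm U, mul_assoc _ W U, hWU, mul_one]
  rw [e2, hV, e1, smul_mul_smul_comm, Matrix.trace_smul, smul_eq_mul]

theorem conj_trace_prod {κ : Type*} [Fintype κ] [DecidableEq κ] (V : Matrix κ κ ℂ) {n : ℕ}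
    (A : Fin n → Matrix κ κ ℂ) :
    starRingEnd ℂ (Matrix.trace (V * (List.ofFn A).prod)) =
      Matrix.trace (V.map (starRingEnd ℂ) *
        (List.ofFn fun t => (A t).map (starRingEnd ℂ)).prod) := by
  have e1 : ∀ M : Matrix κ κ ℂ, starRingEnd ℂ (Matrix.trace M) =
      Matrix.trace ((starRingEnd ℂ).mapMatrix M) := by
    intro M
    simp [Matrix.trace, map_sum]
  rw [e1, map_mul, map_list_prod, List.map_ofFn]
  rfl

end Crest.Agent.HGB
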