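import Mathlib
import Crest.Agent.HGB_Defs

/-!
HGB_Site (S0545/S0546 part B): identities of the one-site matrices (3×3 and 2×2 explicit matrices).

Hints: first get explicit forms: with `r = ((Real.sqrt 2 : ℝ) : ℂ)`, `r * r = 2`,
`spinX = (r/2) • !![0,1,0;1,0,1;0,1,0]`, `spinY = …`, `spinZ = diag(1,0,-1)`, then
`R1 0 = !![0,0,-1;0,-1,0;-1,0,0]`, `R1 1 = !![0,0,1;0,-1,0;1,0,0]`, `R1 2 = !![-1,0,0;0,1,0;0,0,-1]`.
Everything else is `fin_cases`/`ext i j; fin_cases i; fin_cases j; simp …` computations.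
Numerically checked (helper71), including the explicit cyclic matrix
`U = !![-I/2, -1/r, I/2; -I/r, 0, -I/r; -I/2, 1/r, I/2]`, `W = Uᴴ` with `U S^x W = S^y`,
`U S^y W = S^z`, `U S^z W = S^x`, and `U = diag(I,1,-I)`, `W = diag(-I,1,I)` with
`U S^x W = - S^y`, `U S^y W = S^x`, `U S^z W = S^z`.
-/

set_option autoImplicit false

namespace Crest.Agent.HGB
open Matrix Crest.MathPhysics.SpinChain Crest.Agent.HG


/-- `√2` as a complex number. -/
noncomputable def r2 : ℂ := ((Real.sqrt 2 : ℝ) : ℂ)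

theorem r2_sq : r2 * r2 = 2 := by
  unfold r2
  rw [← Complex.ofReal_mul, Real.mul_self_sqrt (by norm_num)]
  norm_num

theorem conj_two : (starRingEnd ℂ) 2 = 2 := map_ofNat (starRingEnd ℂ) 2

theorem star_r2 : (starRingEnd ℂ) r2 = r2 := Complex.conj_ofReal _

theorem spinPlus_eq : spinPlus = !![0, r2, 0; 0, 0, r2; 0, 0, 0] := by
  ext i j
  fin_cases i <;> fin_cases j <;> simp [spinPlus, r2]

theorem spinMinus_eq : spinMinus = !![0, 0, 0; r2, 0, 0; 0, r2, 0] := by
  unfold spinMinus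
  rw [spinPlus_eq]
  ext i j
  fin_cases i <;> fin_cases j <;> simp [Matrix.conjTranspose_apply, star_r2]

theorem spinX_eq : spinX = !![0, r2 / 2, 0; r2 / 2, 0, r2 / 2; 0, r2 / 2, 0] := by
  unfold spinX
  rw [spinPlus_eq, spinMinus_eq]
  ext i j
  fin_cases i <;> fin_cases j <;> simp <;> ring

theorem spinY_eq : spinY = !![0, -(Complex.I * r2 / 2), 0; Complex.I * r2 / 2, 0,
    -(Complex.I * r2 / 2); 0, Complex.I * r2 / 2, 0] := by
  have h : (1 / (2 * Complex.I) : ℂ) = -Complex.I / 2 := by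
    rw [div_eq_div_iff (by simp) (by norm_num)]
    ring_nf
    simp
  unfold spinY
  rw [spinPlus_eq, spinMinus_eq, h]
  ext i j
  fin_cases i <;> fin_cases j <;> simp <;> ring

theorem spinZ_eq : spinZ = !![1, 0, 0; 0, 0, 0; 0, 0, -1] := by
  unfold spinZ
  ext i j
  fin_cases i <;> fin_cases j <;> simp [magneticNumber] <;> norm_num

theorem spinOp_zero : spinOp 0 = spinX := rfl
theorem spinOp_one : spinOp 1 = spinY := rfl
theorem spinOp_two : spinOp 2 = spinZ := rfl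

theorem R1_zero_eq : R1 0 = !![0, 0, -1; 0, -1, 0; -1, 0, 0] := by
  have h := r2_sq
  unfold R1
  rw [spinOp_zero, spinX_eq]
  ext i j
  fin_cases i <;> fin_cases j <;>
    simp [Matrix.mul_apply, Fin.sum_univ_three] <;> grind

theorem R1_one_eq : R1 1 = !![0, 0, 1; 0, -1, 0; 1, 0, 0] := by
  have h := r2_sq
  have hI := Complex.I_mul_I
  unfold R1
  rw [spinOp_one, spinY_eq]
  ext i j
  fin_cases i <;> fin_cases j <;>
    simp [Matrix.mul_apply, Fin.sum_univ_three] <;> grind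

theorem R1_two_eq : R1 2 = !![-1, 0, 0; 0, 1, 0; 0, 0, -1] := by
  unfold R1
  rw [spinOp_two, spinZ_eq]
  ext i j
  fin_cases i <;> fin_cases j <;>
    simp [Matrix.mul_apply, Fin.sum_univ_three] <;> norm_num

theorem R1_mul_self (g : Fin 3) : R1 g * R1 g = 1 := by
  fin_cases g
  · show R1 0 * R1 0 = 1
    rw [R1_zero_eq]
    ext i j
    fin_cases i <;> fin_cases j <;> simp [Matrix.mul_apply, Fin.sum_univ_three]
  · show R1 1 * R1 1 = 1
    rw [R1_one_eq]
    ext i j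
    fin_cases i <;> fin_cases j <;> simp [Matrix.mul_apply, Fin.sum_univ_three]
  · show R1 2 * R1 2 = 1
    rw [R1_two_eq]
    ext i j
    fin_cases i <;> fin_cases j <;> simp [Matrix.mul_apply, Fin.sum_univ_three]

theorem R1_comm (g k : Fin 3) : R1 g * R1 k = R1 k * R1 g := by
  have h01 : R1 0 * R1 1 = R1 1 * R1 0 := by
    rw [R1_zero_eq, R1_one_eq]
    ext i j
    fin_cases i <;> fin_cases j <;> simp [Matrix.mul_apply, Fin.sum_univ_three]
  have h02 : R1 0 * R1 2 = R1 2 * R1 0 := by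
    rw [R1_zero_eq, R1_two_eq]
    ext i j
    fin_cases i <;> fin_cases j <;> simp [Matrix.mul_apply, Fin.sum_univ_three]
  have h12 : R1 1 * R1 2 = R1 2 * R1 1 := by
    rw [R1_one_eq, R1_two_eq]
    ext i j
    fin_cases i <;> fin_cases j <;> simp [Matrix.mul_apply, Fin.sum_univ_three]
  fin_cases g <;> fin_cases k
  · rfl
  · exact h01
  · exact h02
  · exact h01.symm
  · rfl
  · exact h12
  · exact h02.symm
  · exact h12.symm
  · rfl

theorem R1_zero_mul_one : R1 0 * R1 1 = R1 2 := by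
  rw [R1_zero_eq, R1_one_eq, R1_two_eq]
  ext i j
  fin_cases i <;> fin_cases j <;> simp [Matrix.mul_apply, Fin.sum_univ_three]

theorem R1_conjTranspose (g : Fin 3) : (R1 g)ᴴ = R1 g := by
  fin_cases g
  · show (R1 0)ᴴ = R1 0
    rw [R1_zero_eq]
    ext i j
    fin_cases i <;> fin_cases j <;> simp [Matrix.conjTranspose_apply]
  · show (R1 1)ᴴ = R1 1
    rw [R1_one_eq]
    ext i j
    fin_cases i <;> fin_cases j <;> simp [Matrix.conjTranspose_apply]
  · show (R1 2)ᴴ = R1 2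
    rw [R1_two_eq]
    ext i j
    fin_cases i <;> fin_cases j <;> simp [Matrix.conjTranspose_apply]

theorem spinOp_conjTranspose (a : Fin 3) : (spinOp a)ᴴ = spinOp a := by
  fin_cases a
  · show (spinX)ᴴ = spinX
    rw [spinX_eq]
    ext i j
    fin_cases i <;> fin_cases j <;> simp [Matrix.conjTranspose_apply, star_r2]
  · show (spinY)ᴴ = spinY
    rw [spinY_eq]
    ext i j
    fin_cases i <;> fin_cases j <;> simp [Matrix.conjTranspose_apply, star_r2] <;> ring
  · show (spinZ)ᴴ = spinZ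
    rw [spinZ_eq]
    ext i j
    fin_cases i <;> fin_cases j <;> simp [Matrix.conjTranspose_apply]

/-- rotation by π about axis `g`. -/
theorem R1_conj_spinOp (g a : Fin 3) :
    R1 g * spinOp a * R1 g = ((sg g a : ℝ) : ℂ) • spinOp a := by
  fin_cases g <;> fin_cases a
  · show R1 0 * spinX * R1 0 = ((sg 0 0 : ℝ) : ℂ) • spinX
    rw [R1_zero_eq, spinX_eq]
    ext i j
    fin_cases i <;> fin_cases j <;> simp [Matrix.mul_apply, Fin.sum_univ_three, sg]
  · show R1 0 * spinY * R1 0 = ((sg 0 1 : ℝ) : ℂ) • spinY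
    rw [R1_zero_eq, spinY_eq]
    ext i j
    fin_cases i <;> fin_cases j <;> simp [Matrix.mul_apply, Fin.sum_univ_three, sg]
  · show R1 0 * spinZ * R1 0 = ((sg 0 2 : ℝ) : ℂ) • spinZ
    rw [R1_zero_eq, spinZ_eq]
    ext i j
    fin_cases i <;> fin_cases j <;> simp [Matrix.mul_apply, Fin.sum_univ_three, sg]
  · show R1 1 * spinX * R1 1 = ((sg 1 0 : ℝ) : ℂ) • spinX
    rw [R1_one_eq, spinX_eq]
    ext i j
    fin_cases i <;> fin_cases j <;> simp [Matrix.mul_apply, Fin.sum_univ_three, sg]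
  · show R1 1 * spinY * R1 1 = ((sg 1 1 : ℝ) : ℂ) • spinY
    rw [R1_one_eq, spinY_eq]
    ext i j
    fin_cases i <;> fin_cases j <;> simp [Matrix.mul_apply, Fin.sum_univ_three, sg]
  · show R1 1 * spinZ * R1 1 = ((sg 1 2 : ℝ) : ℂ) • spinZ
    rw [R1_one_eq, spinZ_eq]
    ext i j
    fin_cases i <;> fin_cases j <;> simp [Matrix.mul_apply, Fin.sum_univ_three, sg]
  · show R1 2 * spinX * R1 2 = ((sg 2 0 : ℝ) : ℂ) • spinX
    rw [R1_two_eq, spinX_eq]
    ext i j
    fin_cases i <;> fin_cases j <;> simp [Matrix.mul_apply, Fin.sum_univ_three, sg]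
  · show R1 2 * spinY * R1 2 = ((sg 2 1 : ℝ) : ℂ) • spinY
    rw [R1_two_eq, spinY_eq]
    ext i j
    fin_cases i <;> fin_cases j <;> simp [Matrix.mul_apply, Fin.sum_univ_three, sg]
  · show R1 2 * spinZ * R1 2 = ((sg 2 2 : ℝ) : ℂ) • spinZ
    rw [R1_two_eq, spinZ_eq]
    ext i j
    fin_cases i <;> fin_cases j <;> simp [Matrix.mul_apply, Fin.sum_univ_three, sg]

/-- complex conjugation (entrywise) of `i S^a` is the rotation by π about y. -/
theorem map_conj_I_spinOp (a : Fin 3) :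
    (Complex.I • spinOp a).map (starRingEnd ℂ) = R1 1 * (Complex.I • spinOp a) * R1 1 := by
  fin_cases a
  · show (Complex.I • spinX).map (starRingEnd ℂ) = R1 1 * (Complex.I • spinX) * R1 1
    rw [R1_one_eq, spinX_eq]
    ext i j
    fin_cases i <;> fin_cases j <;>
      simp [Matrix.mul_apply, Fin.sum_univ_three, star_r2, conj_two]
  · show (Complex.I • spinY).map (starRingEnd ℂ) = R1 1 * (Complex.I • spinY) * R1 1
    rw [R1_one_eq, spinY_eq]
    ext i j
    fin_cases i <;> fin_cases j <;>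
      simp [Matrix.mul_apply, Fin.sum_univ_three, star_r2, conj_two] <;> ring
  · show (Complex.I • spinZ).map (starRingEnd ℂ) = R1 1 * (Complex.I • spinZ) * R1 1
    rw [R1_one_eq, spinZ_eq]
    ext i j
    fin_cases i <;> fin_cases j <;> simp [Matrix.mul_apply, Fin.sum_univ_three]

theorem map_conj_R1 (g : Fin 3) : (R1 g).map (starRingEnd ℂ) = R1 g := by
  fin_cases g
  · show (R1 0).map (starRingEnd ℂ) = R1 0
    rw [R1_zero_eq]
    ext i j
    fin_cases i <;> fin_cases j <;> simp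
  · show (R1 1).map (starRingEnd ℂ) = R1 1
    rw [R1_one_eq]
    ext i j
    fin_cases i <;> fin_cases j <;> simp
  · show (R1 2).map (starRingEnd ℂ) = R1 2
    rw [R1_two_eq]
    ext i j
    fin_cases i <;> fin_cases j <;> simp

/-- cyclic rotation x → y → z → x. -/
theorem exists_cyc : ∃ U W : Matrix (Fin 3) (Fin 3) ℂ, U * W = 1 ∧ W * U = 1 ∧
    U * spinOp 0 * W = spinOp 1 ∧ U * spinOp 1 * W = spinOp 2 ∧ U * spinOp 2 * W = spinOp 0 := by
  have h := r2_sq
  have hI := Complex.I_mul_I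
  rw [spinOp_zero, spinOp_one, spinOp_two, spinX_eq, spinY_eq, spinZ_eq]
  refine ⟨!![-Complex.I / 2, -(r2 / 2), Complex.I / 2; -(Complex.I * r2 / 2), 0,
      -(Complex.I * r2 / 2); -Complex.I / 2, r2 / 2, Complex.I / 2],
    !![Complex.I / 2, Complex.I * r2 / 2, Complex.I / 2; -(r2 / 2), 0, r2 / 2;
      -Complex.I / 2, Complex.I * r2 / 2, -Complex.I / 2], ?_, ?_, ?_, ?_, ?_⟩
  · ext i j
    fin_cases i <;> fin_cases j <;> simp [Matrix.mul_apply, Fin.sum_univ_three] <;> grind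
  · ext i j
    fin_cases i <;> fin_cases j <;> simp [Matrix.mul_apply, Fin.sum_univ_three] <;> grind
  · ext i j
    fin_cases i <;> fin_cases j <;> simp [Matrix.mul_apply, Fin.sum_univ_three] <;> grind
  · ext i j
    fin_cases i <;> fin_cases j <;> simp [Matrix.mul_apply, Fin.sum_univ_three] <;> grind
  · ext i j
    fin_cases i <;> fin_cases j <;> simp [Matrix.mul_apply, Fin.sum_univ_three] <;> grind

/-- rotation by π/2 about z. -/
theorem exists_quarter : ∃ U W : Matrix (Fin 3) (Fin 3) ℂ, U * W = 1 ∧ W * U = 1 ∧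
    U * spinOp 0 * W = -spinOp 1 ∧ U * spinOp 1 * W = spinOp 0 ∧ U * spinOp 2 * W = spinOp 2 := by
  have h := r2_sq
  have hI := Complex.I_mul_I
  rw [spinOp_zero, spinOp_one, spinOp_two, spinX_eq, spinY_eq, spinZ_eq]
  refine ⟨!![Complex.I, 0, 0; 0, 1, 0; 0, 0, -Complex.I],
    !![-Complex.I, 0, 0; 0, 1, 0; 0, 0, Complex.I], ?_, ?_, ?_, ?_, ?_⟩
  · ext i j
    fin_cases i <;> fin_cases j <;> simp [Matrix.mul_apply, Fin.sum_univ_three] 
  · ext i j
    fin_cases i <;> fin_cases j <;> simp [Matrix.mul_apply, Fin.sum_univ_three] 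
  · ext i j
    fin_cases i <;> fin_cases j <;> simp [Matrix.mul_apply, Fin.sum_univ_three] <;> grind
  · ext i j
    fin_cases i <;> fin_cases j <;> simp [Matrix.mul_apply, Fin.sum_univ_three] <;> grind
  · ext i j
    fin_cases i <;> fin_cases j <;> simp [Matrix.mul_apply, Fin.sum_univ_three] <;> grind

/-! spin one half: `Ph g = i σ_g = 2 i s_g`. -/

noncomputable def Ph (g : Fin 3) : Matrix (Fin 2) (Fin 2) ℂ := (2 * Complex.I) • halfOp g

theorem Ph_zero_eq : Ph 0 = !![0, Complex.I; Complex.I, 0] := by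
  unfold Ph halfOp
  ext i j
  fin_cases i <;> fin_cases j <;> simp <;> ring

theorem Ph_one_eq : Ph 1 = !![0, 1; -1, 0] := by
  have hI := Complex.I_mul_I
  unfold Ph halfOp
  ext i j
  fin_cases i <;> fin_cases j <;> simp <;> grind

theorem Ph_two_eq : Ph 2 = !![Complex.I, 0; 0, -Complex.I] := by
  unfold Ph halfOp
  ext i j
  fin_cases i <;> fin_cases j <;> simp <;> ring

theorem Ph_mul_self (g : Fin 3) : Ph g * Ph g = -1 := by
  fin_cases g
  · show Ph 0 * Ph 0 = -1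
    rw [Ph_zero_eq]
    ext i j
    fin_cases i <;> fin_cases j <;> simp [Matrix.mul_apply, Fin.sum_univ_two]
  · show Ph 1 * Ph 1 = -1
    rw [Ph_one_eq]
    ext i j
    fin_cases i <;> fin_cases j <;> simp [Matrix.mul_apply, Fin.sum_univ_two]
  · show Ph 2 * Ph 2 = -1
    rw [Ph_two_eq]
    ext i j
    fin_cases i <;> fin_cases j <;> simp [Matrix.mul_apply, Fin.sum_univ_two]

theorem Ph_conj_half (g a : Fin 3) :
    Ph g * halfOp a * (-(Ph g)) = ((sg g a : ℝ) : ℂ) • halfOp a := by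
  have hI := Complex.I_mul_I
  fin_cases g <;> fin_cases a
  · show Ph 0 * halfOp 0 * (-(Ph 0)) = ((sg 0 0 : ℝ) : ℂ) • halfOp 0
    rw [Ph_zero_eq]
    ext i j
    fin_cases i <;> fin_cases j <;>
      simp [Matrix.mul_apply, Fin.sum_univ_two, sg, halfOp] <;> grind
  · show Ph 0 * halfOp 1 * (-(Ph 0)) = ((sg 0 1 : ℝ) : ℂ) • halfOp 1
    rw [Ph_zero_eq]
    ext i j
    fin_cases i <;> fin_cases j <;>
      simp [Matrix.mul_apply, Fin.sum_univ_two, sg, halfOp] <;> grind
  · show Ph 0 * halfOp 2 * (-(Ph 0)) = ((sg 0 2 : ℝ) : ℂ) • halfOp 2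
    rw [Ph_zero_eq]
    ext i j
    fin_cases i <;> fin_cases j <;>
      simp [Matrix.mul_apply, Fin.sum_univ_two, sg, halfOp] <;> grind
  · show Ph 1 * halfOp 0 * (-(Ph 1)) = ((sg 1 0 : ℝ) : ℂ) • halfOp 0
    rw [Ph_one_eq]
    ext i j
    fin_cases i <;> fin_cases j <;>
      simp [Matrix.mul_apply, Fin.sum_univ_two, sg, halfOp] <;> grind
  · show Ph 1 * halfOp 1 * (-(Ph 1)) = ((sg 1 1 : ℝ) : ℂ) • halfOp 1
    rw [Ph_one_eq]
    ext i j
    fin_cases i <;> fin_cases j <;>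
      simp [Matrix.mul_apply, Fin.sum_univ_two, sg, halfOp] <;> grind
  · show Ph 1 * halfOp 2 * (-(Ph 1)) = ((sg 1 2 : ℝ) : ℂ) • halfOp 2
    rw [Ph_one_eq]
    ext i j
    fin_cases i <;> fin_cases j <;>
      simp [Matrix.mul_apply, Fin.sum_univ_two, sg, halfOp] <;> grind
  · show Ph 2 * halfOp 0 * (-(Ph 2)) = ((sg 2 0 : ℝ) : ℂ) • halfOp 0
    rw [Ph_two_eq]
    ext i j
    fin_cases i <;> fin_cases j <;>
      simp [Matrix.mul_apply, Fin.sum_univ_two, sg, halfOp] <;> grind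
  · show Ph 2 * halfOp 1 * (-(Ph 2)) = ((sg 2 1 : ℝ) : ℂ) • halfOp 1
    rw [Ph_two_eq]
    ext i j
    fin_cases i <;> fin_cases j <;>
      simp [Matrix.mul_apply, Fin.sum_univ_two, sg, halfOp] <;> grind
  · show Ph 2 * halfOp 2 * (-(Ph 2)) = ((sg 2 2 : ℝ) : ℂ) • halfOp 2
    rw [Ph_two_eq]
    ext i j
    fin_cases i <;> fin_cases j <;>
      simp [Matrix.mul_apply, Fin.sum_univ_two, sg, halfOp] <;> grind

theorem map_conj_I_half (a : Fin 3) :
    (Complex.I • halfOp a).map (starRingEnd ℂ) = Ph 1 * (Complex.I • halfOp a) * (-(Ph 1)) := by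
  fin_cases a
  · show (Complex.I • halfOp 0).map (starRingEnd ℂ) = Ph 1 * (Complex.I • halfOp 0) * (-(Ph 1))
    rw [Ph_one_eq]
    ext i j
    fin_cases i <;> fin_cases j <;>
      simp [Matrix.mul_apply, Fin.sum_univ_two, halfOp, conj_two]
  · show (Complex.I • halfOp 1).map (starRingEnd ℂ) = Ph 1 * (Complex.I • halfOp 1) * (-(Ph 1))
    rw [Ph_one_eq]
    ext i j
    fin_cases i <;> fin_cases j <;>
      simp [Matrix.mul_apply, Fin.sum_univ_two, halfOp, conj_two]
  · show (Complex.I • halfOp 2).map (starRingEnd ℂ) = Ph 1 * (Complex.I • halfOp 2) * (-(Ph 1))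
    rw [Ph_one_eq]
    ext i j
    fin_cases i <;> fin_cases j <;>
      simp [Matrix.mul_apply, Fin.sum_univ_two, halfOp, conj_two] <;> ring

theorem Vhz_eq_Ph : Vhz = Ph 2 := by
  rw [Ph_two_eq]; rfl

theorem map_conj_Vhz : Vhz.map (starRingEnd ℂ) = Ph 1 * Vhz * (-(Ph 1)) := by
  rw [Ph_one_eq]
  unfold Vhz
  ext i j
  fin_cases i <;> fin_cases j <;> simp [Matrix.mul_apply, Fin.sum_univ_two]

/-- `i σ_g` commutes (`g = z`) or anticommutes (`g = x, y`) with `Vhz`. -/
theorem Ph_conj_Vhz (g : Fin 3) : Ph g * Vhz * (-(Ph g)) = ((sg g 2 : ℝ) : ℂ) • Vhz := by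
  have h : Vhz = (2 * Complex.I) • halfOp 2 := Vhz_eq_Ph
  rw [h, mul_smul_comm, smul_mul_assoc, Ph_conj_half, smul_comm]

end Crest.Agent.HGB
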