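import Mathlib
import Crest.Agent.HGB_Site
import Crest.Agent.HGB_Conj

/-!
HGB_D2 (S0545/S0546 part B): D2 symmetry of the space transfer matrix and of the end vectors.

All by `trace_conj_prod`: `U = W = R1 g` for spin one (`R1 g * Bsite c c' * R1 g =
(chi (sg g) c * chi (sg g) c') • Bsite c c'` from `R1_conj_spinOp`), `U = Ph g`, `W = -Ph g` for the
spin-1/2 ends; `Dg (sg g) a = ∏ t, chi (sg g) (a t)`.
For the open chain ends: `R_z (1 - τ Fz h) R_z = 1 - τ Fz h`, `R_x (1 - τ Fz h) R_x = 1 - τ Fz (-h)`.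
-/

set_option autoImplicit false

namespace Crest.Agent.HGB
open Matrix Crest.MathPhysics.SpinChain Crest.Agent.HG

private theorem d2_R1_V (V : Matrix (Fin 3) (Fin 3) ℂ) (hV : V = 1 ∨ V = R1 2) (g : Fin 3) :
    R1 g * V * R1 g = (1 : ℂ) • V := by
  rcases hV with rfl | rfl
  · rw [Matrix.mul_one, R1_mul_self, one_smul]
  · rw [R1_comm g 2, Matrix.mul_assoc, R1_mul_self, Matrix.mul_one, one_smul]

private theorem d2_R1_Mlab (g : Fin 3) (c : Fin 4) :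
    R1 g * Mlab c * R1 g = ((chi (sg g) c : ℝ) : ℂ) • Mlab c := by
  refine Fin.cases ?_ (fun a => ?_) c
  · change R1 g * (1 : Matrix (Fin 3) (Fin 3) ℂ) * R1 g = (((1 : ℝ)) : ℂ) • (1 : Matrix (Fin 3) (Fin 3) ℂ)
    rw [Matrix.mul_one, R1_mul_self, Complex.ofReal_one, one_smul]
  · change R1 g * (Complex.I • spinOp a) * R1 g = ((sg g a : ℝ) : ℂ) • (Complex.I • spinOp a)
    rw [Matrix.mul_smul, Matrix.smul_mul, R1_conj_spinOp, smul_comm]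

private theorem d2_R1_mul (g : Fin 3) (x y : Matrix (Fin 3) (Fin 3) ℂ) :
    R1 g * (x * y) * R1 g = (R1 g * x * R1 g) * (R1 g * y * R1 g) := by
  calc R1 g * (x * y) * R1 g = R1 g * x * 1 * y * R1 g := by
        rw [Matrix.mul_one]; simp only [Matrix.mul_assoc]
    _ = R1 g * x * (R1 g * R1 g) * y * R1 g := by rw [R1_mul_self]
    _ = _ := by simp only [Matrix.mul_assoc]

private theorem d2_R1_Bsite (g : Fin 3) (c c' : Fin 4) :
    R1 g * Bsite c c' * R1 g = (((chi (sg g) c : ℝ) : ℂ) * ((chi (sg g) c' : ℝ) : ℂ)) • Bsite c c' := by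
  unfold Bsite
  rw [Matrix.mul_smul, Matrix.smul_mul, Matrix.mul_add, Matrix.add_mul, d2_R1_mul, d2_R1_mul,
    d2_R1_Mlab, d2_R1_Mlab, Matrix.smul_mul, Matrix.mul_smul, Matrix.smul_mul, Matrix.mul_smul,
    smul_smul, smul_smul, mul_comm ((chi (sg g) c' : ℝ) : ℂ) ((chi (sg g) c : ℝ) : ℂ), ← smul_add,
    smul_comm]

private theorem d2_Dg (s : Fin 3 → ℝ) {n : ℕ} (a : Fin n → Fin 4) :
    ∏ t, ((chi s (a t) : ℝ) : ℂ) = ((Dg s a : ℝ) : ℂ) := by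
  unfold Dg
  rw [Complex.ofReal_prod]

private theorem d2_Ph_inv (g : Fin 3) : Ph g * (-(Ph g)) = 1 := by
  rw [Matrix.mul_neg, Ph_mul_self, neg_neg]

private theorem d2_Ph_inv' (g : Fin 3) : (-(Ph g)) * Ph g = 1 := by
  rw [Matrix.neg_mul, Ph_mul_self, neg_neg]

private theorem d2_Ph_Eend (g : Fin 3) (τ : ℝ) (c : Fin 4) :
    Ph g * Eend eHalf 0 τ c * (-(Ph g)) = ((chi (sg g) c : ℝ) : ℂ) • Eend eHalf 0 τ c := by
  refine Fin.cases ?_ (fun a => ?_) c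
  · change Ph g * (1 - (τ : ℂ) • (0 : Matrix (Fin 2) (Fin 2) ℂ)) * (-(Ph g))
      = (((1 : ℝ)) : ℂ) • (1 - (τ : ℂ) • (0 : Matrix (Fin 2) (Fin 2) ℂ))
    rw [smul_zero, sub_zero, Matrix.mul_one, d2_Ph_inv, Complex.ofReal_one, one_smul]
  · change Ph g * (Complex.I • (((Jend a : ℝ) : ℂ) • halfOp a)) * (-(Ph g))
      = ((sg g a : ℝ) : ℂ) • (Complex.I • (((Jend a : ℝ) : ℂ) • halfOp a))
    rw [Matrix.mul_smul, Matrix.smul_mul, Matrix.mul_smul, Matrix.smul_mul, Ph_conj_half,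
      smul_comm ((Jend a : ℝ) : ℂ), smul_comm Complex.I]

private theorem d2_R1_Fz (g : Fin 3) (h : ℝ) :
    R1 g * Fz h * R1 g = Fz (sg g 2 * h) := by
  unfold Fz
  have h1 : R1 g * spinZ * R1 g = ((sg g 2 : ℝ) : ℂ) • spinZ := R1_conj_spinOp g 2
  rw [Matrix.mul_smul, Matrix.smul_mul, h1, smul_smul]
  congr 1
  push_cast
  ring

private theorem d2_R1_Eend (g : Fin 3) (h τ : ℝ) (c : Fin 4) :
    R1 g * Eend spinOp (Fz h) τ c * R1 g
      = ((chi (sg g) c : ℝ) : ℂ) • Eend spinOp (Fz (sg g 2 * h)) τ c := by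
  refine Fin.cases ?_ (fun a => ?_) c
  · change R1 g * (1 - (τ : ℂ) • Fz h) * R1 g
      = (((1 : ℝ)) : ℂ) • (1 - (τ : ℂ) • Fz (sg g 2 * h))
    rw [Matrix.mul_sub, Matrix.sub_mul, Matrix.mul_one, R1_mul_self, Matrix.mul_smul,
      Matrix.smul_mul, d2_R1_Fz, Complex.ofReal_one, one_smul]
  · change R1 g * (Complex.I • spinOp a) * R1 g = ((sg g a : ℝ) : ℂ) • (Complex.I • spinOp a)
    rw [Matrix.mul_smul, Matrix.smul_mul, R1_conj_spinOp, smul_comm]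

private theorem d2_open (V : Matrix (Fin 3) (Fin 3) ℂ) (hV : V = 1 ∨ V = R1 2) (h : ℝ) (g : Fin 3)
    (n : ℕ) (τ : ℝ) (a : Fin n → Fin 4) :
    vc V spinOp (Fz h) n τ a
      = ((Dg (sg g) a : ℝ) : ℂ) * vc V spinOp (Fz (sg g 2 * h)) n τ a := by
  have hT := trace_conj_prod (R1 g) (R1 g) V (R1_mul_self g) (R1_mul_self g) 1 (d2_R1_V V hV g)
    (fun t => Eend spinOp (Fz h) τ (a t)) (fun t => Eend spinOp (Fz (sg g 2 * h)) τ (a t))
    (fun t => ((chi (sg g) (a t) : ℝ) : ℂ)) (fun t => d2_R1_Eend g h τ (a t))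
  rw [d2_Dg] at hT
  unfold vc
  rw [hT]
  ring

theorem Kc_D2 (V : Matrix (Fin 3) (Fin 3) ℂ) (hV : V = 1 ∨ V = R1 2) (g : Fin 3) (n : ℕ) (τ : ℝ)
    (a b : Fin n → Fin 4) :
    Kc V n τ a b = ((Dg (sg g) a * Dg (sg g) b : ℝ) : ℂ) * Kc V n τ a b := by
  have hT := trace_conj_prod (R1 g) (R1 g) V (R1_mul_self g) (R1_mul_self g) 1 (d2_R1_V V hV g)
    (fun t => Bsite (a t) (b t)) (fun t => Bsite (a t) (b t))
    (fun t => ((chi (sg g) (a t) : ℝ) : ℂ) * ((chi (sg g) (b t) : ℝ) : ℂ))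
    (fun t => d2_R1_Bsite g (a t) (b t))
  rw [Finset.prod_mul_distrib, d2_Dg, d2_Dg] at hT
  unfold Kc
  simp only [Matrix.of_apply]
  conv_lhs => rw [hT]
  push_cast
  ring

theorem half_D2_one (g : Fin 3) (n : ℕ) (τ : ℝ) (a : Fin n → Fin 4) :
    vc 1 eHalf 0 n τ a = ((Dg (sg g) a : ℝ) : ℂ) * vc 1 eHalf 0 n τ a := by
  have hT := trace_conj_prod (Ph g) (-(Ph g)) (1 : Matrix (Fin 2) (Fin 2) ℂ) (d2_Ph_inv g)
    (d2_Ph_inv' g) 1 (by rw [Matrix.mul_one, d2_Ph_inv, one_smul])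
    (fun t => Eend eHalf 0 τ (a t)) (fun t => Eend eHalf 0 τ (a t))
    (fun t => ((chi (sg g) (a t) : ℝ) : ℂ)) (fun t => d2_Ph_Eend g τ (a t))
  rw [d2_Dg] at hT
  unfold vc
  conv_lhs => rw [hT]
  ring

theorem half_D2_z (g : Fin 3) (n : ℕ) (τ : ℝ) (a : Fin n → Fin 4) :
    vc Vhz eHalf 0 n τ a = ((sg g 2 * Dg (sg g) a : ℝ) : ℂ) * vc Vhz eHalf 0 n τ a := by
  have hT := trace_conj_prod (Ph g) (-(Ph g)) Vhz (d2_Ph_inv g)
    (d2_Ph_inv' g) ((sg g 2 : ℝ) : ℂ) (Ph_conj_Vhz g)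
    (fun t => Eend eHalf 0 τ (a t)) (fun t => Eend eHalf 0 τ (a t))
    (fun t => ((chi (sg g) (a t) : ℝ) : ℂ)) (fun t => d2_Ph_Eend g τ (a t))
  rw [d2_Dg] at hT
  unfold vc
  conv_lhs => rw [hT]
  push_cast
  ring

theorem open_D2_z (V : Matrix (Fin 3) (Fin 3) ℂ) (hV : V = 1 ∨ V = R1 2) (h : ℝ) (n : ℕ) (τ : ℝ)
    (a : Fin n → Fin 4) :
    vc V spinOp (Fz h) n τ a = ((Dg (sg 2) a : ℝ) : ℂ) * vc V spinOp (Fz h) n τ a := by
  have h1 := d2_open V hV h 2 n τ a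
  have h2 : sg 2 2 * h = h := by
    unfold sg
    simp
  rw [h2] at h1
  exact h1

theorem open_D2_xy (V : Matrix (Fin 3) (Fin 3) ℂ) (hV : V = 1 ∨ V = R1 2) (h : ℝ) (g : Fin 3)
    (hg : g ≠ 2) (n : ℕ) (τ : ℝ) (a : Fin n → Fin 4) :
    vc V spinOp (Fz h) n τ a = ((Dg (sg g) a : ℝ) : ℂ) * vc V spinOp (Fz (-h)) n τ a := by
  have h1 := d2_open V hV h g n τ a
  have h2 : sg g 2 * h = -h := by
    unfold sg
    rw [if_neg (Ne.symm hg)]
    ring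
  rw [h2] at h1
  exact h1

end Crest.Agent.HGB
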