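import Mathlib
import Crest.Agent.HG_Defs

/-!
HGB_ExpSum (S0545/S0546 part B): `Tr (Pr exp(-βH))` is a finite sum of exponentials with
non-negative integer multiplicities when `Pr` is an orthogonal projection commuting with `H`.

One proof: spectral theorem `H = ∑_E E Π_E` (distinct eigenvalues, `Π_E` = sum of the rank one
projections of the eigenvector basis with eigenvalue `E`; `Π_E` is a polynomial in `H`, hence commutes
with `Pr`), so `Tr(Pr exp(-βH)) = ∑_E exp(-βE) Tr(Pr Π_E)` and `Pr Π_E` is idempotent, so its trace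
is a natural number (`LinearMap.IsProj.trace`-like lemma: trace of an idempotent = rank).  `ExpSum`
is closed under finite sums, contains `0` and `β ↦ exp(-βE)`.
Another: `Pr` and `H` restricted to the range of `Pr` …; or the eigenvector basis of `H + c • Pr` with
`c` larger than the spread of the spectrum of `H`.
-/

set_option autoImplicit false

namespace Crest.Agent.HGB
open Matrix Crest.Agent.HG

theorem ExpSum.add {f g : ℝ → ℝ} (hf : ExpSum f) (hg : ExpSum g) :
    ExpSum (fun β => f β + g β) := by
  obtain ⟨m, E, hE⟩ := hf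
  obtain ⟨m', E', hE'⟩ := hg
  refine ⟨m + m', Fin.append E E', fun β => ?_⟩
  simp only [hE, hE', Fin.sum_univ_add, Fin.append_left, Fin.append_right]

private theorem es_zero : ExpSum (fun _ => 0) := ⟨0, fun i => i.elim0, fun β => by simp⟩

private theorem es_sum {ι : Type*} (s : Finset ι) (f : ι → ℝ → ℝ) (h : ∀ i ∈ s, ExpSum (f i)) :
    ExpSum (fun β => ∑ i ∈ s, f i β) := by
  classical
  induction s using Finset.induction_on with
  | empty => simpa using es_zero
  | insert a s ha ih =>
    simp only [Finset.sum_insert ha]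
    exact ExpSum.add (h a (Finset.mem_insert_self _ _)) (ih fun i hi => h i (Finset.mem_insert_of_mem hi))

private theorem es_trace {κ : Type*} [Fintype κ] [DecidableEq κ] (P : Matrix κ κ ℂ) (h : P * P = P) :
    ∃ n : ℕ, Matrix.trace P = (n : ℂ) := by
  have h1 : IsIdempotentElem (Matrix.toLin' P) := by
    show Matrix.toLin' P * Matrix.toLin' P = Matrix.toLin' P
    rw [Module.End.mul_eq_comp, ← Matrix.toLin'_mul, h]
  have h2 : LinearMap.IsProj (LinearMap.range (Matrix.toLin' P)) (Matrix.toLin' P) :=
    LinearMap.IsIdempotentElem.isProj_range _ h1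
  refine ⟨Module.finrank ℂ (LinearMap.range (Matrix.toLin' P)), ?_⟩
  rw [← h2.trace, Matrix.trace_toLin'_eq]

theorem expSum_proj {κ : Type*} [Fintype κ] [DecidableEq κ] (H Pr : Matrix κ κ ℂ)
    (hH : H.IsHermitian) (hP : Pr.IsHermitian) (hPP : Pr * Pr = Pr) (hc : Pr * H = H * Pr) :
    ExpSum (fun β => Zt Pr H β) := by
  obtain ⟨U, hU1⟩ : ∃ U : Matrix κ κ ℂ, U = hH.eigenvectorUnitary := ⟨_, rfl⟩
  have hUs : star U * U = 1 := by rw [hU1]; exact Unitary.coe_star_mul_self _
  have hsU : U * star U = 1 := by rw [hU1]; exact Unitary.coe_mul_star_self _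
  obtain ⟨lam, hlam⟩ : ∃ lam : κ → ℝ, lam = hH.eigenvalues := ⟨_, rfl⟩
  have hspec : H = U * diagonal (fun i => ((lam i : ℝ) : ℂ)) * star U := by
    have := hH.spectral_theorem
    rw [Unitary.conjStarAlgAut_apply] at this
    rw [hU1, hlam]
    exact this
  have hinv : U⁻¹ = star U := Matrix.inv_eq_right_inv hsU
  have hUu : IsUnit U := by
    rw [isUnit_iff_exists]
    exact ⟨star U, hsU, hUs⟩
  -- the projection in the eigenbasis
  obtain ⟨Q, hQ⟩ : ∃ Q : Matrix κ κ ℂ, Q = star U * Pr * U := ⟨_, rfl⟩
  have hQQ : Q * Q = Q := by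
    rw [hQ]
    calc star U * Pr * U * (star U * Pr * U) = star U * Pr * (U * star U) * Pr * U := by noncomm_ring
      _ = star U * (Pr * Pr) * U := by rw [hsU]; noncomm_ring
      _ = star U * Pr * U := by rw [hPP]
  have hQD : Q * diagonal (fun i => ((lam i : ℝ) : ℂ)) = diagonal (fun i => ((lam i : ℝ) : ℂ)) * Q := by
    have h1 : diagonal (fun i => ((lam i : ℝ) : ℂ)) = star U * H * U := by
      rw [hspec]
      calc diagonal (fun i => ((lam i : ℝ) : ℂ)) = 1 * diagonal (fun i => ((lam i : ℝ) : ℂ)) * 1 := by
            rw [one_mul, mul_one]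
        _ = (star U * U) * diagonal (fun i => ((lam i : ℝ) : ℂ)) * (star U * U) := by rw [hUs]
        _ = star U * (U * diagonal (fun i => ((lam i : ℝ) : ℂ)) * star U) * U := by noncomm_ring
    rw [h1, hQ]
    calc star U * Pr * U * (star U * H * U) = star U * Pr * (U * star U) * H * U := by noncomm_ring
      _ = star U * (Pr * H) * U := by rw [hsU]; noncomm_ring
      _ = star U * (H * Pr) * U := by rw [hc]
      _ = star U * H * 1 * Pr * U := by noncomm_ring
      _ = star U * H * (U * star U) * Pr * U := by rw [hsU]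
      _ = star U * H * U * (star U * Pr * U) := by noncomm_ring
  have hQ0 : ∀ i j, lam i ≠ lam j → Q i j = 0 := by
    intro i j hij
    have h1 := congrFun (congrFun hQD i) j
    rw [Matrix.mul_diagonal, Matrix.diagonal_mul] at h1
    have h2 : (((lam i : ℝ) : ℂ) - ((lam j : ℝ) : ℂ)) * Q i j = 0 := by linear_combination -h1
    rcases mul_eq_zero.mp h2 with h3 | h3
    · exfalso
      apply hij
      have := sub_eq_zero.mp h3
      exact_mod_cast this
    · exact h3
  -- trace formula
  have htr : ∀ β : ℝ, Matrix.trace (Pr * NormedSpace.exp (-(β : ℂ) • H)) =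
      ∑ i, Q i i * ((Real.exp (-(β * lam i)) : ℝ) : ℂ) := by
    intro β
    have h1 : -(β : ℂ) • H = U * diagonal (fun i => -(β : ℂ) * ((lam i : ℝ) : ℂ)) * U⁻¹ := by
      rw [hinv]
      conv_lhs => rw [hspec]
      have h2 : diagonal (fun i => -(β : ℂ) * ((lam i : ℝ) : ℂ)) = -(β : ℂ) • diagonal (fun i => ((lam i : ℝ) : ℂ)) := by
        ext i j
        by_cases hij : i = j
        · subst hij; simp
        · simp [Matrix.diagonal_apply_ne _ hij]
      rw [h2, Matrix.mul_smul, Matrix.smul_mul]
    rw [h1, Matrix.exp_conj U _ hUu, Matrix.exp_diagonal, hinv]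
    have h3 : Pr * (U * diagonal (NormedSpace.exp (fun i => -(β : ℂ) * ((lam i : ℝ) : ℂ))) * star U) =
        (Pr * U * diagonal (NormedSpace.exp (fun i => -(β : ℂ) * ((lam i : ℝ) : ℂ)))) * star U := by
      noncomm_ring
    rw [h3, Matrix.trace_mul_comm]
    have h4 : star U * (Pr * U * diagonal (NormedSpace.exp (fun i => -(β : ℂ) * ((lam i : ℝ) : ℂ)))) =
        Q * diagonal (NormedSpace.exp (fun i => -(β : ℂ) * ((lam i : ℝ) : ℂ))) := by
      rw [hQ]; noncomm_ring
    rw [h4, Matrix.trace]
    apply Finset.sum_congr rfl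
    intro i _
    rw [Matrix.diag_apply, Matrix.mul_diagonal, Pi.coe_exp, ← Complex.exp_eq_exp_ℂ, Complex.ofReal_exp]
    push_cast
    rw [neg_mul]
  -- multiplicities
  have hmult : ∀ e : ℝ, ∃ n : ℕ, ∑ i ∈ Finset.univ.filter (fun i => lam i = e), Q i i = (n : ℂ) := by
    intro e
    have h1 := es_trace (Q * diagonal (fun i => if lam i = e then (1:ℂ) else 0)) (by
      have hcomm : diagonal (fun i => if lam i = e then (1:ℂ) else 0) * Q =
          Q * diagonal (fun i => if lam i = e then (1:ℂ) else 0) := by
        ext i j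
        rw [Matrix.mul_diagonal, Matrix.diagonal_mul]
        by_cases hij : lam i = lam j
        · rw [hij]; ring
        · rw [hQ0 i j hij]; ring
      have hdd : diagonal (fun i => if lam i = e then (1:ℂ) else 0) * diagonal (fun i => if lam i = e then (1:ℂ) else 0) =
          diagonal (fun i => if lam i = e then (1:ℂ) else 0) := by
        rw [Matrix.diagonal_mul_diagonal]
        congr 1
        funext i
        split_ifs <;> simp
      calc Q * diagonal (fun i => if lam i = e then (1:ℂ) else 0) * (Q * diagonal (fun i => if lam i = e then (1:ℂ) else 0))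
          = Q * (diagonal (fun i => if lam i = e then (1:ℂ) else 0) * Q) * diagonal (fun i => if lam i = e then (1:ℂ) else 0) := by
            noncomm_ring
        _ = (Q * Q) * (diagonal (fun i => if lam i = e then (1:ℂ) else 0) * diagonal (fun i => if lam i = e then (1:ℂ) else 0)) := by
            rw [hcomm]; noncomm_ring
        _ = _ := by rw [hQQ, hdd])
    obtain ⟨n, hn⟩ := h1
    refine ⟨n, ?_⟩
    rw [← hn, Matrix.trace, Finset.sum_filter]
    apply Finset.sum_congr rfl
    intro i _
    rw [Matrix.diag_apply, Matrix.mul_diagonal]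
    split_ifs <;> simp
  choose mult hmult' using hmult
  have hfinal : (fun β => Zt Pr H β) = fun β => ∑ e ∈ Finset.univ.image lam, (mult e : ℝ) * Real.exp (-(β * e)) := by
    funext β
    unfold Zt
    rw [htr β]
    have h1 : ∑ i, Q i i * ((Real.exp (-(β * lam i)) : ℝ) : ℂ) =
        ∑ e ∈ Finset.univ.image lam, ((mult e : ℂ)) * ((Real.exp (-(β * e)) : ℝ) : ℂ) := by
      rw [← Finset.sum_fiberwise_of_maps_to (s := Finset.univ) (t := Finset.univ.image lam) (g := lam)
        (fun i _ => Finset.mem_image_of_mem _ (Finset.mem_univ _))]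
      apply Finset.sum_congr rfl
      intro e _
      rw [← hmult' e, Finset.sum_mul]
      apply Finset.sum_congr rfl
      intro i hi
      rw [Finset.mem_filter] at hi
      rw [hi.2]
    rw [h1, Complex.re_sum]
    apply Finset.sum_congr rfl
    intro e _
    rw [← Complex.ofReal_natCast, ← Complex.ofReal_mul, Complex.ofReal_re]
  rw [hfinal]
  apply es_sum
  intro e _
  refine ⟨mult e, fun _ => e, fun β => ?_⟩
  simp

end Crest.Agent.HGB
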