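import Mathlib
import Crest.Agent.HGB_Defs

/-!
HGB_Split (S0545/S0546 part B): first order expansion of a sum over label configurations.

Proof: induction on `m`, splitting the first coordinate (`Fin.consEquiv`, `Fin.prod_univ_succ`,
`Fin.sum_univ_succ` for the label in `Fin 4`).  For the auxiliary zeroth order bound
`‖∑ c, (∏ j, wb τ (c j)) * Y c - Y 0‖ ≤ 4^m * B * τ` the same induction (or: every `c ≠ 0` has
weight `≤ τ`).  Then with `S(Y)` = the sum: `S(Y) = S(Y(cons 0 ·)) + τ ∑ a, S(Y(cons a.succ ·))`, first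
part by the induction hypothesis, second part by the zeroth order bound;
`4^m B τ² + 3 τ·4^m B τ = 4^(m+1) B τ²`.
-/

set_option autoImplicit false

namespace Crest.Agent.HGB

private theorem split_rec {m : ℕ} (Y : (Fin (m + 1) → Fin 4) → ℂ) (τ : ℝ) :
    ∑ c : Fin (m + 1) → Fin 4, ((∏ j, wb τ (c j) : ℝ) : ℂ) * Y c =
      (∑ c : Fin m → Fin 4, ((∏ j, wb τ (c j) : ℝ) : ℂ) * Y (Fin.cons 0 c)) +
      (τ : ℂ) * ∑ a : Fin 3, ∑ c : Fin m → Fin 4,
        ((∏ j, wb τ (c j) : ℝ) : ℂ) * Y (Fin.cons a.succ c) := by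
  rw [← (Fin.consEquiv (fun _ : Fin (m + 1) => Fin 4)).sum_comp, Fintype.sum_prod_type,
    Fin.sum_univ_succ]
  congr 1
  · refine Finset.sum_congr rfl fun c _ => ?_
    simp only [Fin.consEquiv, Equiv.coe_fn_mk]
    rw [Fin.prod_univ_succ]
    simp [wb]
  · rw [Finset.mul_sum]
    refine Finset.sum_congr rfl fun a _ => ?_
    rw [Finset.mul_sum]
    refine Finset.sum_congr rfl fun c _ => ?_
    simp only [Fin.consEquiv, Equiv.coe_fn_mk]
    rw [Fin.prod_univ_succ]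
    simp [wb, Fin.succ_ne_zero]
    ring

private theorem cons_zero_zero {m : ℕ} :
    (Fin.cons (0 : Fin 4) (fun _ : Fin m => (0 : Fin 4)) : Fin (m + 1) → Fin 4) = fun _ => 0 := by
  funext i
  refine Fin.cases ?_ (fun j => ?_) i <;> simp

theorem split_zero {m : ℕ} (Y : (Fin m → Fin 4) → ℂ) (B : ℝ) (hB : ∀ c, ‖Y c‖ ≤ B) (τ : ℝ)
    (h0 : 0 ≤ τ) (h1 : τ ≤ 1) :
    ‖∑ c : Fin m → Fin 4, ((∏ j, wb τ (c j) : ℝ) : ℂ) * Y c - Y (fun _ => 0)‖ ≤ 4 ^ m * B * τ := by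
  have hB0 : 0 ≤ B := (norm_nonneg _).trans (hB (fun _ => 0))
  have hwb : ∀ a, 0 ≤ wb τ a ∧ wb τ a ≤ 1 := by
    intro a
    unfold wb
    split_ifs
    · exact ⟨zero_le_one, le_refl _⟩
    · exact ⟨h0, h1⟩
  have hw : ∀ c : Fin m → Fin 4, c ≠ (fun _ => 0) → 0 ≤ ∏ j, wb τ (c j) ∧ ∏ j, wb τ (c j) ≤ τ := by
    intro c hc
    refine ⟨Finset.prod_nonneg fun j _ => (hwb _).1, ?_⟩
    obtain ⟨j, hj⟩ : ∃ j, c j ≠ 0 := by
      by_contra hcon
      push Not at hcon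
      exact hc (funext hcon)
    rw [← Finset.mul_prod_erase Finset.univ _ (Finset.mem_univ j)]
    have hj2 : wb τ (c j) = τ := by unfold wb; rw [if_neg hj]
    rw [hj2]
    have h3 : ∏ x ∈ Finset.univ.erase j, wb τ (c x) ≤ 1 :=
      Finset.prod_le_one (fun i _ => (hwb _).1) (fun i _ => (hwb _).2)
    calc τ * ∏ x ∈ Finset.univ.erase j, wb τ (c x) ≤ τ * 1 := mul_le_mul_of_nonneg_left h3 h0
      _ = τ := mul_one τ
  have hz : ((∏ j : Fin m, wb τ ((fun _ => (0 : Fin 4)) j) : ℝ) : ℂ) * Y (fun _ => 0) = Y (fun _ => 0) := by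
    simp [wb]
  rw [← Finset.add_sum_erase Finset.univ _ (Finset.mem_univ (fun _ : Fin m => (0 : Fin 4))), hz,
    add_sub_cancel_left]
  refine (norm_sum_le _ _).trans ?_
  have hterm : ∀ c ∈ Finset.univ.erase (fun _ : Fin m => (0 : Fin 4)),
      ‖((∏ j, wb τ (c j) : ℝ) : ℂ) * Y c‖ ≤ B * τ := by
    intro c hc
    have hc' := hw c (Finset.ne_of_mem_erase hc)
    rw [norm_mul, Complex.norm_real, Real.norm_eq_abs, abs_of_nonneg hc'.1]
    calc (∏ j, wb τ (c j)) * ‖Y c‖ ≤ τ * B := mul_le_mul hc'.2 (hB c) (norm_nonneg _) h0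
      _ = B * τ := mul_comm _ _
  refine (Finset.sum_le_sum hterm).trans ?_
  rw [Finset.sum_const, nsmul_eq_mul]
  have hcard : ((Finset.univ.erase (fun _ : Fin m => (0 : Fin 4))).card : ℝ) ≤ 4 ^ m := by
    have h4 : (Finset.univ.erase (fun _ : Fin m => (0 : Fin 4))).card ≤ 4 ^ m := by
      refine (Finset.card_le_card (Finset.erase_subset _ _)).trans ?_
      rw [Finset.card_univ, Fintype.card_fun, Fintype.card_fin, Fintype.card_fin]
    exact_mod_cast h4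
  rw [mul_assoc]
  exact mul_le_mul_of_nonneg_right hcard (mul_nonneg hB0 h0)

theorem split_one {m : ℕ} (Y : (Fin m → Fin 4) → ℂ) (B : ℝ) (hB : ∀ c, ‖Y c‖ ≤ B) (τ : ℝ)
    (h0 : 0 ≤ τ) (h1 : τ ≤ 1) :
    ‖∑ c : Fin m → Fin 4, ((∏ j, wb τ (c j) : ℝ) : ℂ) * Y c -
        (Y (fun _ => 0) + (τ : ℂ) * ∑ j : Fin m, ∑ a : Fin 3,
          Y (Function.update (fun _ => (0 : Fin 4)) j a.succ))‖ ≤ 4 ^ m * B * τ ^ 2 := by
  induction m with
  | zero =>
    have hB0 : 0 ≤ B := (norm_nonneg _).trans (hB (fun _ => 0))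
    have h2 : ∑ c : Fin 0 → Fin 4, ((∏ j, wb τ (c j) : ℝ) : ℂ) * Y c = Y (fun _ => 0) := by
      rw [Fintype.sum_unique]
      simp only [Finset.univ_eq_empty, Finset.prod_empty, Complex.ofReal_one, one_mul]
      congr 1
      exact Subsingleton.elim _ _
    rw [h2]
    simp only [Finset.univ_eq_empty, Finset.sum_empty, mul_zero, add_zero, sub_self, norm_zero]
    positivity
  | succ m ih =>
    have hB0 : 0 ≤ B := (norm_nonneg _).trans (hB (fun _ => 0))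
    rw [split_rec]
    have e1 : ∑ j : Fin (m + 1), ∑ a : Fin 3, Y (Function.update (fun _ => (0 : Fin 4)) j a.succ)
        = ∑ a : Fin 3, Y (Fin.cons a.succ (fun _ => 0)) +
          ∑ j : Fin m, ∑ a : Fin 3,
            Y (Fin.cons 0 (Function.update (fun _ => (0 : Fin 4)) j a.succ)) := by
      rw [Fin.sum_univ_succ]
      congr 1
      · refine Finset.sum_congr rfl fun a _ => ?_
        congr 1
        rw [← cons_zero_zero, Fin.update_cons_zero]
      · refine Finset.sum_congr rfl fun j _ => Finset.sum_congr rfl fun a _ => ?_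
        congr 1
        rw [← cons_zero_zero, ← Fin.cons_update]
    rw [e1]
    have e2 : Y (fun _ => 0) = Y (Fin.cons 0 (fun _ => 0)) := by rw [cons_zero_zero]
    rw [e2]
    have k1 := ih (fun c => Y (Fin.cons 0 c)) (fun c => hB _)
    have k2 : ∀ a : Fin 3, ‖∑ c : Fin m → Fin 4, ((∏ j, wb τ (c j) : ℝ) : ℂ) * Y (Fin.cons a.succ c) -
        Y (Fin.cons a.succ (fun _ => 0))‖ ≤ 4 ^ m * B * τ :=
      fun a => split_zero (fun c => Y (Fin.cons a.succ c)) B (fun c => hB _) τ h0 h1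
    have e3 : (∑ c : Fin m → Fin 4, ((∏ j, wb τ (c j) : ℝ) : ℂ) * Y (Fin.cons 0 c)) +
        (τ : ℂ) * (∑ a : Fin 3, ∑ c : Fin m → Fin 4,
          ((∏ j, wb τ (c j) : ℝ) : ℂ) * Y (Fin.cons a.succ c)) -
        (Y (Fin.cons 0 (fun _ => 0)) + (τ : ℂ) * (∑ a : Fin 3, Y (Fin.cons a.succ (fun _ => 0)) +
          ∑ j : Fin m, ∑ a : Fin 3,
            Y (Fin.cons 0 (Function.update (fun _ => (0 : Fin 4)) j a.succ)))) =
        ((∑ c : Fin m → Fin 4, ((∏ j, wb τ (c j) : ℝ) : ℂ) * Y (Fin.cons 0 c)) -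
          (Y (Fin.cons 0 (fun _ => 0)) + (τ : ℂ) * ∑ j : Fin m, ∑ a : Fin 3,
            Y (Fin.cons 0 (Function.update (fun _ => (0 : Fin 4)) j a.succ)))) +
        (τ : ℂ) * ∑ a : Fin 3, (∑ c : Fin m → Fin 4,
          ((∏ j, wb τ (c j) : ℝ) : ℂ) * Y (Fin.cons a.succ c) - Y (Fin.cons a.succ (fun _ => 0))) := by
      rw [Finset.sum_sub_distrib]
      ring
    rw [e3]
    refine (norm_add_le _ _).trans ?_
    have k3 : ‖(τ : ℂ) * ∑ a : Fin 3, (∑ c : Fin m → Fin 4,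
          ((∏ j, wb τ (c j) : ℝ) : ℂ) * Y (Fin.cons a.succ c) - Y (Fin.cons a.succ (fun _ => 0)))‖
        ≤ τ * (3 * (4 ^ m * B * τ)) := by
      rw [norm_mul, Complex.norm_real, Real.norm_eq_abs, abs_of_nonneg h0]
      refine mul_le_mul_of_nonneg_left ?_ h0
      refine (norm_sum_le _ _).trans ?_
      refine (Finset.sum_le_sum fun a _ => k2 a).trans ?_
      rw [Finset.sum_const, Finset.card_univ, Fintype.card_fin, nsmul_eq_mul]
      norm_num
    calc _ ≤ 4 ^ m * B * τ ^ 2 + τ * (3 * (4 ^ m * B * τ)) := add_le_add k1 k3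
      _ = 4 ^ (m + 1) * B * τ ^ 2 := by ring

end Crest.Agent.HGB
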