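import Mathlib
import Crest.Agent.HGB_Defs

/-!
HGB_Tens (S0545/S0546 part B): elementary lemmas on `tens` (tensor products of one-site matrices).

Hints: everything is entrywise; the main tool is `Finset.prod_univ_sum` / `Fintype.piFinset_univ`
(`∏ j, ∑ k, f j k = ∑ σ, ∏ j, f j (σ j)`).
-/

set_option autoImplicit false

namespace Crest.Agent.HGB
open Matrix Crest.MathPhysics.SpinChain Crest.Agent.HG

variable {ι κ : Type*} [Fintype ι] [DecidableEq ι] [Fintype κ] [DecidableEq κ]

theorem tens_mul (A B : ι → Matrix κ κ ℂ) : tens A * tens B = tens (fun j => A j * B j) := by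
  ext σ τ
  simp only [tens, Matrix.mul_apply, Matrix.of_apply]
  rw [Finset.prod_univ_sum, Fintype.piFinset_univ]
  refine Finset.sum_congr rfl (fun ρ _ => ?_)
  rw [← Finset.prod_mul_distrib]

theorem tens_one : tens (fun _ : ι => (1 : Matrix κ κ ℂ)) = 1 := by
  ext σ τ
  simp only [tens, Matrix.of_apply, Matrix.one_apply]
  rw [Finset.prod_ite_zero]
  simp only [Finset.mem_univ, forall_const, Finset.prod_const_one, funext_iff]

theorem tens_ofFn {n : ℕ} (A : Fin n → ι → Matrix κ κ ℂ) :
    (List.ofFn fun t => tens (A t)).prod = tens (fun j => (List.ofFn fun t => A t j).prod) := by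
  induction n with
  | zero =>
    simp only [List.ofFn_zero, List.prod_nil]
    exact tens_one.symm
  | succ n ih =>
    simp only [List.ofFn_succ, List.prod_cons]
    rw [ih (fun t => A t.succ), tens_mul]

theorem trace_tens (A : ι → Matrix κ κ ℂ) : (tens A).trace = ∏ j, (A j).trace := by
  simp only [Matrix.trace, Matrix.diag, tens, Matrix.of_apply]
  rw [Finset.prod_univ_sum, Fintype.piFinset_univ]

/-- one-site matrix as a tensor product. -/
theorem onSite_eq_tens (A : Matrix (Fin 3) (Fin 3) ℂ) (j : ι) :
    onSite A j = tens (Function.update (fun _ : ι => (1 : Matrix (Fin 3) (Fin 3) ℂ)) j A) := by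
  ext σ τ
  simp only [tens, onSite, Matrix.of_apply]
  rw [← Finset.mul_prod_erase Finset.univ _ (Finset.mem_univ j), Function.update_self]
  have h1 : ∏ k ∈ Finset.univ.erase j,
      (Function.update (fun _ : ι => (1 : Matrix (Fin 3) (Fin 3) ℂ)) j A k) (σ k) (τ k) =
      ∏ k ∈ Finset.univ.erase j, (if σ k = τ k then (1:ℂ) else 0) := by
    refine Finset.prod_congr rfl (fun k hk => ?_)
    rw [Function.update_of_ne (Finset.ne_of_mem_erase hk), Matrix.one_apply]
  rw [h1, Finset.prod_ite_zero]
  have h2 : (∀ i ∈ Finset.univ.erase j, σ i = τ i) ↔ (∀ k, k ≠ j → σ k = τ k) := by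
    constructor
    · intro h k hk
      exact h k (Finset.mem_erase.mpr ⟨hk, Finset.mem_univ _⟩)
    · intro h k hk
      exact h k (Finset.ne_of_mem_erase hk)
  by_cases h : ∀ k, k ≠ j → σ k = τ k
  · rw [if_pos h, if_pos (h2.mpr h)]; simp
  · rw [if_neg h, if_neg (fun h' => h (h2.mp h'))]; simp

theorem onSite_mul_onSite (A B : Matrix (Fin 3) (Fin 3) ℂ) {j k : ι} (h : j ≠ k) :
    onSite A j * onSite B k =
      tens (Function.update (Function.update (fun _ : ι => (1 : Matrix (Fin 3) (Fin 3) ℂ)) j A) k B) := by
  rw [onSite_eq_tens, onSite_eq_tens, tens_mul]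
  congr 1
  funext i
  by_cases hk : i = k
  · subst hk
    rw [Function.update_self, Function.update_self, Function.update_of_ne h.symm, one_mul]
  · rw [Function.update_of_ne hk, Function.update_of_ne hk, mul_one]

theorem onSite_mul_same (A B : Matrix (Fin 3) (Fin 3) ℂ) (j : ι) :
    onSite A j * onSite B j = onSite (A * B) j := by
  rw [onSite_eq_tens, onSite_eq_tens, onSite_eq_tens, tens_mul]
  congr 1
  funext i
  by_cases hk : i = j
  · subst hk
    rw [Function.update_self, Function.update_self, Function.update_self]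
  · rw [Function.update_of_ne hk, Function.update_of_ne hk, Function.update_of_ne hk, mul_one]

/-- conjugation of a one-site matrix by a product matrix. -/
theorem tens_conj_onSite (U W A : Matrix (Fin 3) (Fin 3) ℂ) (h : U * W = 1) (j : ι) :
    tens (fun _ : ι => U) * onSite A j * tens (fun _ : ι => W) = onSite (U * A * W) j := by
  rw [onSite_eq_tens, onSite_eq_tens, tens_mul, tens_mul]
  congr 1
  funext i
  by_cases hk : i = j
  · subst hk
    rw [Function.update_self, Function.update_self]
  · rw [Function.update_of_ne hk, Function.update_of_ne hk, mul_one, h]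

theorem onSite_smul (z : ℂ) (A : Matrix (Fin 3) (Fin 3) ℂ) (j : ι) :
    onSite (z • A) j = z • onSite A j := by
  ext σ τ
  simp only [onSite, Matrix.of_apply, Matrix.smul_apply, smul_eq_mul]
  split_ifs <;> simp

theorem RN_eq_tens (a : Fin 3) : (RN a : Matrix (ι → Fin 3) (ι → Fin 3) ℂ) = tens (fun _ => R1 a) := by
  rfl

end Crest.Agent.HGB
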