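import Mathlib
import Crest.Agent.HGB_Tens
import Crest.Agent.HGB_Split

/-!
HGB_ExpandPath (S0545/S0546 part B): one Trotter slice of the open chain is `1 - τ H + O(τ²)`
(entrywise), `N = n+1 ≥ 1` spin-one sites between the ends.

Proof: fix the entry and apply `split_one` (with `τ`-dependent `Y`, but `B` uniform in `0 ≤ τ ≤ 1`) to
`Y_τ c = (Eend e F τ (c 0) ⊗ₖ (tens (fun j => Bsite (c j.castSucc) (c j.succ)) ⊗ₖ Eend e' F' τ (c last)))`.
`Y_τ 0 = (1-τF) ⊗ 1 ⊗ (1-τF') = 1 - τ (F⊗1⊗1 + 1⊗1⊗F') + O(τ²)`.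
`τ Y_τ (update 0 j a.succ)`: `j = 0`: `τ (i e_a) ⊗ (i S^a on site 0) ⊗ (1 - τF')`;
`j = last`: `τ (1-τF) ⊗ (i S^a on the last site) ⊗ (i e'_a)`; `0 < j = k.succ = k'.castSucc < last`:
`τ (1-τF) ⊗ (i S^a on sites j-1 and j) ⊗ (1-τF')`; replace `1-τF` by `1`, error `O(τ²)`.
`Bsite 0 0 = 1`, `Bsite 0 a.succ = Bsite a.succ 0 = i S^a`, `i·i = -1`.
The entries of `endChain` are spelled out in HG_Defs.
-/

set_option autoImplicit false

namespace Crest.Agent.HGB
open Matrix Crest.MathPhysics.SpinChain Crest.Agent.HG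

theorem xp_Bsite_zero_zero : Bsite 0 0 = 1 := by
  have h : Mlab 0 = 1 := rfl
  rw [Bsite, h, mul_one, ← two_smul ℂ, smul_smul]
  norm_num

theorem xp_Bsite_succ_zero (a : Fin 3) : Bsite a.succ 0 = Complex.I • spinOp a := by
  have h : Mlab 0 = 1 := rfl
  have h2 : Mlab a.succ = Complex.I • spinOp a := rfl
  rw [Bsite, h, h2, mul_one, one_mul, ← two_smul ℂ, smul_smul]
  norm_num

theorem xp_Bsite_zero_succ (a : Fin 3) : Bsite 0 a.succ = Complex.I • spinOp a := by
  have h : Mlab 0 = 1 := rfl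
  have h2 : Mlab a.succ = Complex.I • spinOp a := rfl
  rw [Bsite, h, h2, mul_one, one_mul, ← two_smul ℂ, smul_smul]
  norm_num

theorem xp_tens_path_zero (n : ℕ) :
    tens (fun _ : Fin (n + 1) => Bsite 0 0) = 1 := by
  simp only [xp_Bsite_zero_zero]
  exact tens_one

theorem xp_tens_path_first (n : ℕ) (a : Fin 3) :
    tens (fun j : Fin (n + 1) =>
      Bsite (Function.update (fun _ => (0 : Fin 4)) (0 : Fin (n + 2)) a.succ j.castSucc)
        (Function.update (fun _ => (0 : Fin 4)) (0 : Fin (n + 2)) a.succ j.succ)) =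
    Complex.I • onSite (spinOp a) (0 : Fin (n + 1)) := by
  rw [← onSite_smul, onSite_eq_tens]
  congr 1
  funext j
  rw [Function.update_of_ne (Fin.succ_ne_zero j)]
  by_cases hj : j = 0
  · subst hj
    rw [Fin.castSucc_zero, Function.update_self, Function.update_self, xp_Bsite_succ_zero]
  · rw [Function.update_of_ne (by rwa [Ne, Fin.castSucc_eq_zero_iff]), Function.update_of_ne hj,
      xp_Bsite_zero_zero]

theorem xp_tens_path_last (n : ℕ) (a : Fin 3) :
    tens (fun j : Fin (n + 1) =>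
      Bsite (Function.update (fun _ => (0 : Fin 4)) (Fin.last (n + 1)) a.succ j.castSucc)
        (Function.update (fun _ => (0 : Fin 4)) (Fin.last (n + 1)) a.succ j.succ)) =
    Complex.I • onSite (spinOp a) (Fin.last n) := by
  rw [← onSite_smul, onSite_eq_tens]
  congr 1
  funext j
  rw [Function.update_of_ne (Fin.castSucc_lt_last j).ne]
  by_cases hj : j = Fin.last n
  · subst hj
    rw [Fin.succ_last, Function.update_self, Function.update_self, xp_Bsite_zero_succ]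
  · rw [Function.update_of_ne (by rwa [Ne, ← Fin.succ_last, Fin.succ_inj]),
      Function.update_of_ne hj, xp_Bsite_zero_zero]

theorem xp_tens_path_mid (n : ℕ) (j : Fin n) (a : Fin 3) :
    tens (fun k : Fin (n + 1) =>
      Bsite (Function.update (fun _ => (0 : Fin 4)) j.castSucc.succ a.succ k.castSucc)
        (Function.update (fun _ => (0 : Fin 4)) j.castSucc.succ a.succ k.succ)) =
    -(onSite (spinOp a) j.castSucc * onSite (spinOp a) j.succ) := by
  have hne : j.castSucc ≠ j.succ := (Fin.castSucc_lt_succ).ne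
  have h1 : -(onSite (spinOp a) j.castSucc * onSite (spinOp a) j.succ) =
      onSite (Complex.I • spinOp a) j.castSucc * onSite (Complex.I • spinOp a) j.succ := by
    rw [onSite_smul, onSite_smul, smul_mul_smul_comm, Complex.I_mul_I, neg_one_smul]
  rw [h1, onSite_mul_onSite _ _ hne]
  congr 1
  funext k
  by_cases hk : k = j.succ
  · subst hk
    rw [Function.update_self, ← Fin.succ_castSucc, Function.update_self,
      Function.update_of_ne (by rw [Ne, Fin.succ_inj]; exact hne.symm), xp_Bsite_succ_zero]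
  · rw [Function.update_of_ne (a := k) hk]
    rw [Function.update_of_ne (a := k.castSucc) (by
      rw [Ne, Fin.succ_castSucc, Fin.castSucc_inj]; exact hk)]
    by_cases hk2 : k = j.castSucc
    · subst hk2
      rw [Function.update_self, Function.update_self, xp_Bsite_zero_succ]
    · rw [Function.update_of_ne (a := k) hk2, Function.update_of_ne (by
        rw [Ne, Fin.succ_inj]; exact hk2), xp_Bsite_zero_zero]

theorem xp_Eend_bound {d : ℕ} (e : Fin 3 → Matrix (Fin d) (Fin d) ℂ) (F : Matrix (Fin d) (Fin d) ℂ)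
    {τ : ℝ} (h0 : 0 ≤ τ) (h1 : τ ≤ 1) (c : Fin 4) (i k : Fin d) :
    ‖Eend e F τ c i k‖ ≤ 1 + ‖F i k‖ + ∑ a, ‖e a i k‖ := by
  have hs : 0 ≤ ∑ a, ‖e a i k‖ := Finset.sum_nonneg fun _ _ => norm_nonneg _
  refine Fin.cases ?_ (fun a => ?_) c
  · have : Eend e F τ 0 i k = (1 : Matrix (Fin d) (Fin d) ℂ) i k - (τ : ℂ) * F i k := by
      simp [Eend]
    rw [this]
    refine (norm_sub_le _ _).trans ?_
    have h2 : ‖(1 : Matrix (Fin d) (Fin d) ℂ) i k‖ ≤ 1 := by
      rw [Matrix.one_apply]; split_ifs <;> simp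
    have h3 : ‖(τ : ℂ) * F i k‖ ≤ ‖F i k‖ := by
      rw [norm_mul, Complex.norm_real, Real.norm_of_nonneg h0]
      exact mul_le_of_le_one_left (norm_nonneg _) h1
    linarith
  · have : Eend e F τ a.succ i k = Complex.I * e a i k := by
      simp [Eend]
    rw [this, norm_mul, Complex.norm_I, one_mul]
    have h5 : ‖e a i k‖ ≤ ∑ a, ‖e a i k‖ :=
      Finset.single_le_sum (f := fun a => ‖e a i k‖) (fun _ _ => norm_nonneg _)
        (Finset.mem_univ a)
    have h4 := norm_nonneg (F i k)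
    linarith

theorem path_expand {d d' : ℕ} (e : Fin 3 → Matrix (Fin d) (Fin d) ℂ)
    (F : Matrix (Fin d) (Fin d) ℂ) (e' : Fin 3 → Matrix (Fin d') (Fin d') ℂ)
    (F' : Matrix (Fin d') (Fin d') ℂ) (n : ℕ) :
    ∃ C : ℝ, ∀ τ : ℝ, 0 ≤ τ → τ ≤ 1 → ∀ σ ρ,
      ‖(Xpath e F e' F' (n + 1) τ - (1 - (τ : ℂ) • endChain e F e' F' n)) σ ρ‖ ≤ C * τ ^ 2 := by
  have key : ∀ σ ρ, ∃ C : ℝ, 0 ≤ C ∧ ∀ τ : ℝ, 0 ≤ τ → τ ≤ 1 →
      ‖(Xpath e F e' F' (n + 1) τ - (1 - (τ : ℂ) • endChain e F e' F' n)) σ ρ‖ ≤ C * τ ^ 2 := by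
    rintro ⟨s1, s2, s3⟩ ⟨r1, r2, r3⟩
    set T : (Fin (n + 2) → Fin 4) → ℂ := fun c =>
      tens (fun j : Fin (n + 1) => Bsite (c j.castSucc) (c j.succ)) s2 r2 with hT
    set Y : ℝ → (Fin (n + 2) → Fin 4) → ℂ := fun τ c =>
      Eend e F τ (c 0) s1 r1 * (T c * Eend e' F' τ (c (Fin.last (n + 1))) s3 r3) with hY
    set d1 : ℂ := (1 : Matrix (Fin d) (Fin d) ℂ) s1 r1 with hd1
    set d2 : ℂ := (1 : Matrix (Fin (n + 1) → Fin 3) (Fin (n + 1) → Fin 3) ℂ) s2 r2 with hd2
    set d3 : ℂ := (1 : Matrix (Fin d') (Fin d') ℂ) s3 r3 with hd3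
    set Bd : ℂ := (∑ j : Fin n, bond (Fin.castSucc j) (Fin.succ j) :
      Matrix (Fin (n + 1) → Fin 3) (Fin (n + 1) → Fin 3) ℂ) s2 r2 with hBd
    set P : ℂ := ∑ a, e a s1 r1 * onSite (spinOp a) (0 : Fin (n + 1)) s2 r2 with hP
    set P' : ℂ := ∑ a, onSite (spinOp a) (Fin.last n) s2 r2 * e' a s3 r3 with hP'
    set f : ℂ := F s1 r1 with hf
    set f' : ℂ := F' s3 r3 with hf'
    have hX : ∀ τ : ℝ, Xpath e F e' F' (n + 1) τ (s1, s2, s3) (r1, r2, r3) =
        ∑ c : Fin (n + 2) → Fin 4, ((∏ j, wb τ (c j) : ℝ) : ℂ) * Y τ c := by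
      intro τ
      rw [Xpath, Matrix.sum_apply]
      rfl
    have hH : endChain e F e' F' n (s1, s2, s3) (r1, r2, r3) =
        d2 * d3 * f + d1 * d2 * f' + d1 * d3 * Bd + d3 * P + d1 * P' := by
      simp only [endChain, Matrix.of_apply, Prod.mk.injEq, hd1, hd2, hd3, Matrix.one_apply]
      by_cases q1 : s1 = r1 <;> by_cases q2 : s2 = r2 <;> by_cases q3 : s3 = r3 <;>
        simp [q1, q2, q3, hf, hf', hP, hP', hBd]
    have h1m : (1 : Matrix (Fin d × (Fin (n + 1) → Fin 3) × Fin d')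
        (Fin d × (Fin (n + 1) → Fin 3) × Fin d') ℂ) (s1, s2, s3) (r1, r2, r3) = d1 * (d2 * d3) := by
      simp only [Matrix.one_apply, Prod.mk.injEq, hd1, hd2, hd3]
      by_cases q1 : s1 = r1 <;> by_cases q2 : s2 = r2 <;> by_cases q3 : s3 = r3 <;>
        simp [q1, q2, q3]
    have hE0 : ∀ τ : ℝ, Eend e F τ 0 s1 r1 = d1 - τ * f := by
      intro τ; simp [Eend, hd1, hf]
    have hE0' : ∀ τ : ℝ, Eend e' F' τ 0 s3 r3 = d3 - τ * f' := by
      intro τ; simp [Eend, hd3, hf']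
    have hEa : ∀ (τ : ℝ) (a : Fin 3), Eend e F τ a.succ s1 r1 = Complex.I * e a s1 r1 := by
      intro τ a; simp [Eend]
    have hEa' : ∀ (τ : ℝ) (a : Fin 3), Eend e' F' τ a.succ s3 r3 = Complex.I * e' a s3 r3 := by
      intro τ a; simp [Eend]
    have hY0 : ∀ τ : ℝ, Y τ (fun _ => 0) = (d1 - τ * f) * (d2 * (d3 - τ * f')) := by
      intro τ
      simp only [hY, hT]
      rw [hE0, hE0', xp_tens_path_zero]
    have hlast : Fin.last (n + 1) ≠ (0 : Fin (n + 2)) := (Fin.last_pos).ne'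
    have hYf : ∀ τ : ℝ, ∑ a : Fin 3, Y τ (Function.update (fun _ => (0 : Fin 4)) 0 a.succ) =
        -P * (d3 - τ * f') := by
      intro τ
      rw [hP, ← Finset.sum_neg_distrib, Finset.sum_mul]
      refine Finset.sum_congr rfl fun a _ => ?_
      simp only [hY, hT]
      rw [Function.update_self, Function.update_of_ne hlast, hEa, hE0', xp_tens_path_first,
        Matrix.smul_apply, smul_eq_mul]
      linear_combination (e a s1 r1 * onSite (spinOp a) (0 : Fin (n + 1)) s2 r2 *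
        (d3 - τ * f')) * Complex.I_mul_I
    have hYl : ∀ τ : ℝ, ∑ a : Fin 3,
        Y τ (Function.update (fun _ => (0 : Fin 4)) (Fin.last (n + 1)) a.succ) =
        -(d1 - τ * f) * P' := by
      intro τ
      rw [hP', Finset.mul_sum]
      refine Finset.sum_congr rfl fun a _ => ?_
      simp only [hY, hT]
      rw [Function.update_self, Function.update_of_ne hlast.symm, hEa', hE0, xp_tens_path_last,
        Matrix.smul_apply, smul_eq_mul]
      linear_combination (e' a s3 r3 * onSite (spinOp a) (Fin.last n) s2 r2 *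
        (d1 - τ * f)) * Complex.I_mul_I
    have hYm : ∀ τ : ℝ, ∑ j : Fin n, ∑ a : Fin 3,
        Y τ (Function.update (fun _ => (0 : Fin 4)) j.castSucc.succ a.succ) =
        -((d1 - τ * f) * Bd * (d3 - τ * f')) := by
      intro τ
      have hB2 : Bd = ∑ j : Fin n, ∑ a : Fin 3,
          (onSite (spinOp a) j.castSucc * onSite (spinOp a) j.succ :
            Matrix (Fin (n + 1) → Fin 3) (Fin (n + 1) → Fin 3) ℂ) s2 r2 := by
        rw [hBd, Matrix.sum_apply]
        refine Finset.sum_congr rfl fun j _ => ?_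
        rw [bond, Matrix.sum_apply]
      rw [hB2, Finset.mul_sum, Finset.sum_mul, ← Finset.sum_neg_distrib]
      refine Finset.sum_congr rfl fun j _ => ?_
      rw [Finset.mul_sum, Finset.sum_mul, ← Finset.sum_neg_distrib]
      refine Finset.sum_congr rfl fun a _ => ?_
      simp only [hY, hT]
      rw [Function.update_of_ne (Fin.succ_ne_zero _).symm, Function.update_of_ne (by
          rw [Ne, ← Fin.succ_last, Fin.succ_inj]; exact (Fin.castSucc_lt_last j).ne'), hE0, hE0',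
        xp_tens_path_mid, Matrix.neg_apply]
      ring
    obtain ⟨B, hB⟩ : ∃ B : ℝ, ∀ τ : ℝ, 0 ≤ τ → τ ≤ 1 → ∀ c, ‖Y τ c‖ ≤ B := by
      refine ⟨(1 + ‖F s1 r1‖ + ∑ a, ‖e a s1 r1‖) *
        ((∑ c, ‖T c‖) * (1 + ‖F' s3 r3‖ + ∑ a, ‖e' a s3 r3‖)), fun τ h0 h1 c => ?_⟩
      have b1 := xp_Eend_bound e F h0 h1 (c 0) s1 r1
      have b3 := xp_Eend_bound e' F' h0 h1 (c (Fin.last (n + 1))) s3 r3
      have b2 : ‖T c‖ ≤ ∑ c, ‖T c‖ :=
        Finset.single_le_sum (f := fun c => ‖T c‖) (fun _ _ => norm_nonneg _) (Finset.mem_univ c)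
      simp only [hY]
      rw [norm_mul, norm_mul]
      have n1 := norm_nonneg (Eend e F τ (c 0) s1 r1)
      have n2 := norm_nonneg (T c)
      have n3 := norm_nonneg (Eend e' F' τ (c (Fin.last (n + 1))) s3 r3)
      exact mul_le_mul b1 (mul_le_mul b2 b3 n3 (n2.trans b2)) (mul_nonneg n2 n3) (n1.trans b1)
    set α : ℂ := f * d2 * f' + P * f' + f * P' + f * Bd * d3 + d1 * Bd * f' with hα
    set βc : ℂ := - (f * Bd * f') with hβ
    have hB0 : 0 ≤ B := (norm_nonneg _).trans (hB 0 le_rfl zero_le_one (fun _ => 0))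
    refine ⟨4 ^ (n + 2) * B + (‖α‖ + ‖βc‖), by positivity, fun τ h0 h1 => ?_⟩
    have hsp := split_one (Y τ) B (hB τ h0 h1) τ h0 h1
    have hsum : ∑ j : Fin (n + 2), ∑ a : Fin 3,
        Y τ (Function.update (fun _ => (0 : Fin 4)) j a.succ) =
        -P * (d3 - τ * f') + (-((d1 - τ * f) * Bd * (d3 - τ * f')) + -(d1 - τ * f) * P') := by
      rw [Fin.sum_univ_succ, hYf, Fin.sum_univ_castSucc (n := n), hYm, Fin.succ_last, hYl]
    rw [hsum, hY0, ← hX] at hsp
    have hfin : (Xpath e F e' F' (n + 1) τ - (1 - (τ : ℂ) • endChain e F e' F' n))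
        (s1, s2, s3) (r1, r2, r3) =
        (Xpath e F e' F' (n + 1) τ (s1, s2, s3) (r1, r2, r3) -
          ((d1 - τ * f) * (d2 * (d3 - τ * f')) + (τ : ℂ) * (-P * (d3 - τ * f') +
            (-((d1 - τ * f) * Bd * (d3 - τ * f')) + -(d1 - τ * f) * P')))) +
        (τ : ℂ) ^ 2 * (α + τ * βc) := by
      rw [Matrix.sub_apply, Matrix.sub_apply, Matrix.smul_apply, h1m, hH, smul_eq_mul, hα, hβ]
      ring
    rw [hfin]
    refine (norm_add_le _ _).trans ?_
    have h5 : ‖(τ : ℂ) ^ 2 * (α + τ * βc)‖ ≤ (‖α‖ + ‖βc‖) * τ ^ 2 := by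
      rw [norm_mul, norm_pow, Complex.norm_real, Real.norm_of_nonneg h0, mul_comm]
      refine mul_le_mul_of_nonneg_right ((norm_add_le _ _).trans ?_) (sq_nonneg τ)
      rw [norm_mul, Complex.norm_real, Real.norm_of_nonneg h0]
      have := mul_le_of_le_one_left (norm_nonneg βc) h1
      linarith
    rw [add_mul]
    exact add_le_add hsp h5
  choose C hC0 hC using key
  refine ⟨∑ σ, ∑ ρ, C σ ρ, fun τ h0 h1 σ ρ => (hC σ ρ τ h0 h1).trans ?_⟩
  refine mul_le_mul_of_nonneg_right ?_ (sq_nonneg τ)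
  exact (Finset.single_le_sum (f := fun ρ => C σ ρ) (fun ρ _ => hC0 σ ρ)
    (Finset.mem_univ ρ)).trans (Finset.single_le_sum (f := fun σ => ∑ ρ, C σ ρ)
    (fun σ _ => Finset.sum_nonneg fun ρ _ => hC0 σ ρ) (Finset.mem_univ σ))

end Crest.Agent.HGB
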