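import Mathlib
import Crest.Agent.HGB_Tens
import Crest.Agent.HGB_Split

/-!
HGB_ExpandRing (S0545/S0546 part B): one Trotter slice of the ring is `1 - τ H + O(τ²)` (entrywise).

Proof: fix the entry `(σ, ρ)` and apply `split_one` to
`Y c = (∏ j, (if j+1 = L then chi s (c j) else 1)) * tens (fun j => Bsite (c (rot⁻¹ j)) (c j)) σ ρ`
(`B` = max over the finitely many `c`, `σ`, `ρ`).  `Y 0 = (1 : Matrix …) σ ρ` (`Bsite 0 0 = 1`,
`tens_one`).  For `c = update 0 j a.succ` and `L ≥ 2` (so `finRotate L j ≠ j`) the tensor is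
`update (update 1 j (i S^a)) (finRotate L j) (i S^a)` because `Bsite 0 a.succ = Bsite a.succ 0 = i S^a`,
so by `onSite_mul_onSite` it is `- onSite S^a j * onSite S^a (finRotate L j)`, and the sign factor is
`(if j+1 = L then s a else 1)`.
-/

set_option autoImplicit false

namespace Crest.Agent.HGB
open Matrix Crest.MathPhysics.SpinChain Crest.Agent.HG

private theorem er_Bsite00 : Bsite 0 0 = 1 := by
  simp only [Bsite, Mlab, Fin.cases_zero, Matrix.mul_one]
  rw [← two_smul ℂ (1 : Matrix (Fin 3) (Fin 3) ℂ), smul_smul]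
  norm_num

private theorem er_Bsite0s (a : Fin 3) : Bsite 0 a.succ = Complex.I • spinOp a := by
  simp only [Bsite, Mlab, Fin.cases_zero, Fin.cases_succ, Matrix.mul_one, Matrix.one_mul]
  rw [← two_smul ℂ (Complex.I • spinOp a), smul_smul]
  norm_num

private theorem er_Bsites0 (a : Fin 3) : Bsite a.succ 0 = Complex.I • spinOp a := by
  simp only [Bsite, Mlab, Fin.cases_zero, Fin.cases_succ, Matrix.mul_one, Matrix.one_mul]
  rw [← two_smul ℂ (Complex.I • spinOp a), smul_smul]
  norm_num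

private theorem er_chi0 (s : Fin 3 → ℝ) : chi s 0 = 1 := by
  simp [chi]

private theorem er_chis (s : Fin 3 → ℝ) (a : Fin 3) : chi s a.succ = s a := by
  simp [chi]

private noncomputable def erY (s : Fin 3 → ℝ) (L : ℕ) (σ ρ : Fin L → Fin 3) (c : Fin L → Fin 4) : ℂ :=
  ((∏ j : Fin L, (if (j : ℕ) + 1 = L then chi s (c j) else 1) : ℝ) : ℂ) *
    tens (fun j => Bsite (c ((finRotate L).symm j)) (c j)) σ ρ

private theorem er_Xring (s : Fin 3 → ℝ) (L : ℕ) (τ : ℝ) (σ ρ : Fin L → Fin 3) :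
    Xring s L τ σ ρ = ∑ c : Fin L → Fin 4, ((∏ j, wb τ (c j) : ℝ) : ℂ) * erY s L σ ρ c := by
  unfold Xring erY
  rw [Matrix.sum_apply]
  refine Finset.sum_congr rfl fun c _ => ?_
  rw [Matrix.smul_apply, smul_eq_mul, Finset.prod_mul_distrib]
  push_cast
  ring

private theorem er_Y0 (s : Fin 3 → ℝ) (L : ℕ) (σ ρ : Fin L → Fin 3) :
    erY s L σ ρ (fun _ => 0) = (1 : Matrix (Fin L → Fin 3) (Fin L → Fin 3) ℂ) σ ρ := by
  unfold erY
  simp only [er_chi0, ite_self, Finset.prod_const_one, Complex.ofReal_one, one_mul, er_Bsite00,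
    tens_one]

private theorem er_rot_ne {L : ℕ} (hL : 2 ≤ L) (j : Fin L) : j ≠ finRotate L j := by
  obtain ⟨m, rfl⟩ : ∃ m, L = m + 2 := ⟨L - 2, by omega⟩
  intro h
  have h2 := congrArg Fin.val h
  rw [coe_finRotate] at h2
  split_ifs at h2 with h3
  · rw [h3] at h2
    simp at h2
  · omega

private theorem er_Y1 (s : Fin 3 → ℝ) {L : ℕ} (hL : 2 ≤ L) (σ ρ : Fin L → Fin 3) (j : Fin L)
    (a : Fin 3) :
    erY s L σ ρ (Function.update (fun _ => (0 : Fin 4)) j a.succ) =
      -((((if (j : ℕ) + 1 = L then s a else 1 : ℝ)) : ℂ) *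
        (onSite (spinOp a) j * onSite (spinOp a) (finRotate L j)) σ ρ) := by
  unfold erY
  have h1 : (∏ j' : Fin L, (if (j' : ℕ) + 1 = L then
      chi s (Function.update (fun _ => (0 : Fin 4)) j a.succ j') else 1)) =
      (if (j : ℕ) + 1 = L then s a else 1) := by
    rw [Finset.prod_eq_single j]
    · simp [er_chis]
    · intro b _ hb
      simp [Function.update_of_ne hb, er_chi0]
    · simp
  rw [h1]
  have hne := er_rot_ne hL j
  have h2 : (fun j' => Bsite (Function.update (fun _ => (0 : Fin 4)) j a.succ ((finRotate L).symm j'))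
      (Function.update (fun _ => (0 : Fin 4)) j a.succ j')) =
      Function.update (Function.update (fun _ : Fin L => (1 : Matrix (Fin 3) (Fin 3) ℂ)) j
        (Complex.I • spinOp a)) (finRotate L j) (Complex.I • spinOp a) := by
    funext j'
    by_cases h3 : j' = finRotate L j
    · subst h3
      rw [Equiv.symm_apply_apply, Function.update_self, Function.update_self,
        Function.update_of_ne (Ne.symm hne), er_Bsites0]
    · rw [Function.update_of_ne h3]
      have h5 : (finRotate L).symm j' ≠ j := by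
        intro h
        apply h3
        rw [← h, Equiv.apply_symm_apply]
      rw [Function.update_of_ne h5]
      by_cases h4 : j' = j
      · subst h4
        rw [Function.update_self, Function.update_self, er_Bsite0s]
      · rw [Function.update_of_ne h4, Function.update_of_ne h4, er_Bsite00]
  rw [h2, ← onSite_mul_onSite _ _ hne, onSite_smul, onSite_smul, Matrix.smul_mul, Matrix.mul_smul,
    smul_smul, Complex.I_mul_I, Matrix.smul_apply, smul_eq_mul]
  ring

theorem ring_expand (s : Fin 3 → ℝ) {L : ℕ} (hL : 2 ≤ L) :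
    ∃ C : ℝ, ∀ τ : ℝ, 0 ≤ τ → τ ≤ 1 → ∀ σ ρ,
      ‖(Xring s L τ - (1 - (τ : ℂ) • ringH s L)) σ ρ‖ ≤ C * τ ^ 2 := by
  refine ⟨4 ^ L * (∑ σ : Fin L → Fin 3, ∑ ρ : Fin L → Fin 3, ∑ c : Fin L → Fin 4,
    ‖erY s L σ ρ c‖), ?_⟩
  intro τ h0 h1 σ ρ
  have hB : ∀ c, ‖erY s L σ ρ c‖ ≤ ∑ σ : Fin L → Fin 3, ∑ ρ : Fin L → Fin 3,
      ∑ c : Fin L → Fin 4, ‖erY s L σ ρ c‖ := by
    intro c
    calc ‖erY s L σ ρ c‖ ≤ ∑ c : Fin L → Fin 4, ‖erY s L σ ρ c‖ :=
          Finset.single_le_sum (f := fun c => ‖erY s L σ ρ c‖) (fun _ _ => norm_nonneg _)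
            (Finset.mem_univ c)
      _ ≤ ∑ ρ : Fin L → Fin 3, ∑ c : Fin L → Fin 4, ‖erY s L σ ρ c‖ :=
          Finset.single_le_sum (f := fun ρ => ∑ c : Fin L → Fin 4, ‖erY s L σ ρ c‖)
            (fun _ _ => Finset.sum_nonneg fun _ _ => norm_nonneg _) (Finset.mem_univ ρ)
      _ ≤ _ :=
          Finset.single_le_sum (f := fun σ => ∑ ρ : Fin L → Fin 3, ∑ c : Fin L → Fin 4,
            ‖erY s L σ ρ c‖)
            (fun _ _ => Finset.sum_nonneg fun _ _ => Finset.sum_nonneg fun _ _ => norm_nonneg _)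
            (Finset.mem_univ σ)
  have key := split_one (erY s L σ ρ) _ hB τ h0 h1
  have heq : (Xring s L τ - (1 - (τ : ℂ) • ringH s L)) σ ρ =
      ∑ c : Fin L → Fin 4, ((∏ j, wb τ (c j) : ℝ) : ℂ) * erY s L σ ρ c -
        (erY s L σ ρ (fun _ => 0) + (τ : ℂ) * ∑ j : Fin L, ∑ a : Fin 3,
          erY s L σ ρ (Function.update (fun _ => (0 : Fin 4)) j a.succ)) := by
    rw [Matrix.sub_apply, Matrix.sub_apply, Matrix.smul_apply, smul_eq_mul, er_Xring, er_Y0]
    have h3 : (∑ j : Fin L, ∑ a : Fin 3,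
          erY s L σ ρ (Function.update (fun _ => (0 : Fin 4)) j a.succ)) = - ringH s L σ ρ := by
      unfold ringH
      rw [Matrix.sum_apply, ← Finset.sum_neg_distrib]
      refine Finset.sum_congr rfl fun j _ => ?_
      rw [Matrix.sum_apply, ← Finset.sum_neg_distrib]
      refine Finset.sum_congr rfl fun a _ => ?_
      rw [er_Y1 s hL, Matrix.smul_apply, smul_eq_mul]
    rw [h3]
    ring
  rw [heq]
  exact key

end Crest.Agent.HGB
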