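import Mathlib
import Crest.Agent.HGB_Site
import Crest.Agent.HGB_Tens

/-!
HGB_Half (S0545/S0546 part B): the half-chain partition functions in the form used by `path_lim`.

`halfH m = endChain eHalf 0 eHalf 0 m` (definitional), `1 ⊗ (tens 1 ⊗ 1) = 1` (`tens_one`,
`Matrix.one_kronecker_one`), and `halfR m = Vhz ⊗ (tens (R1 2) ⊗ Vhz)`: entrywise, all matrices are
diagonal, `R1 2 = diag((-1)^(1+k))`, `Vhz = diag(i (-1)^k)`, `i·i = -1`.
-/

set_option autoImplicit false

namespace Crest.Agent.HGB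
open Matrix Crest.MathPhysics.SpinChain Crest.Agent.HG
open scoped Kronecker

theorem Vh_eq (m : ℕ) (β : ℝ) : Vh (m + 1) β =
    (Matrix.trace (((1 : Matrix (Fin 2) (Fin 2) ℂ) ⊗ₖ
      (tens (fun _ : Fin (m + 1) => (1 : Matrix (Fin 3) (Fin 3) ℂ)) ⊗ₖ
        (1 : Matrix (Fin 2) (Fin 2) ℂ))) *
        NormedSpace.exp (-(β : ℂ) • endChain eHalf 0 eHalf 0 m))).re := by
  rw [tens_one, Matrix.one_kronecker_one, Matrix.one_kronecker_one]
  rfl

private theorem half_R1 (a b : Fin 3) :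
    R1 2 a b = if a = b then (-1 : ℂ) ^ (1 + (a : ℕ)) else 0 := by
  rw [R1_two_eq]
  fin_cases a <;> fin_cases b <;> simp
  norm_num

private theorem half_Vhz (a b : Fin 2) :
    Vhz a b = if a = b then Complex.I * (-1 : ℂ) ^ (a : ℕ) else 0 := by
  unfold Vhz
  fin_cases a <;> fin_cases b <;> simp

private theorem halfR_eq (m : ℕ) :
    halfR m = Vhz ⊗ₖ (tens (fun _ : Fin (m + 1) => R1 2) ⊗ₖ Vhz) := by
  ext ⟨s1, s2, s3⟩ ⟨t1, t2, t3⟩
  rw [Matrix.kroneckerMap_apply, Matrix.kroneckerMap_apply]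
  simp only [halfR, tens, Matrix.of_apply, Matrix.diagonal_apply, half_R1, half_Vhz,
    Prod.mk.injEq]
  rw [Finset.prod_ite_zero]
  by_cases h1 : s1 = t1
  · by_cases h3 : s3 = t3
    · by_cases h2 : s2 = t2
      · subst h1 h2 h3
        simp only [and_self, if_true, implies_true]
        rw [Finset.prod_pow_eq_pow_sum, pow_add, pow_add, pow_add, pow_one]
        ring_nf
        rw [Complex.I_sq]
        ring
      · have h2' : ¬ ∀ i ∈ (Finset.univ : Finset (Fin (m + 1))), s2 i = t2 i := by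
          intro hc
          exact h2 (funext fun i => hc i (Finset.mem_univ i))
        rw [if_neg (by tauto), if_neg h2']
        simp
    · rw [if_neg (by tauto), if_neg h3]
      simp
  · rw [if_neg (by tauto), if_neg h1]
    simp

theorem Wh_eq (m : ℕ) (β : ℝ) : Wh (m + 1) β =
    (Matrix.trace ((Vhz ⊗ₖ (tens (fun _ : Fin (m + 1) => R1 2) ⊗ₖ Vhz)) *
        NormedSpace.exp (-(β : ℂ) • endChain eHalf 0 eHalf 0 m))).re := by
  rw [← halfR_eq]
  rfl

end Crest.Agent.HGB
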