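import Mathlib
import Crest.Agent.HGB_Defs

/-!
HGB_Ind (S0545/S0546 part B): sector indicators.  Elementary: `chi (sg g) c = ±1`,
`chi (sg 0) c * chi (sg 1) c * chi (sg 2) c = 1`.
-/

set_option autoImplicit false

namespace Crest.Agent.HGB

private lemma hgbInd_chi_sq (g : Fin 3) (c : Fin 4) : chi (sg g) c * chi (sg g) c = 1 := by
  refine Fin.cases ?_ (fun a => ?_) c
  · simp [chi]
  · simp only [chi, Fin.cases_succ, sg]
    split_ifs <;> norm_num

private lemma hgbInd_chi_prod (c : Fin 4) :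
    chi (sg 0) c * chi (sg 1) c * chi (sg 2) c = 1 := by
  refine Fin.cases ?_ (fun a => ?_) c
  · simp [chi]
  · simp only [chi, Fin.cases_succ, sg]
    fin_cases a <;> simp [Fin.ext_iff]

theorem Dg_sq (g : Fin 3) {n : ℕ} (a : Fin n → Fin 4) : Dg (sg g) a * Dg (sg g) a = 1 := by
  unfold Dg
  rw [← Finset.prod_mul_distrib]
  exact Finset.prod_eq_one (fun t _ => hgbInd_chi_sq g (a t))

theorem Dg_prod {n : ℕ} (a : Fin n → Fin 4) : Dg (sg 0) a * Dg (sg 1) a * Dg (sg 2) a = 1 := by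
  unfold Dg
  rw [← Finset.prod_mul_distrib, ← Finset.prod_mul_distrib]
  exact Finset.prod_eq_one (fun t _ => hgbInd_chi_prod (a t))

private lemma hgbInd_cases {n : ℕ} (a : Fin n → Fin 4) :
    (Dg (sg 0) a = 1 ∧ Dg (sg 1) a = 1 ∧ Dg (sg 2) a = 1) ∨
    (Dg (sg 0) a = 1 ∧ Dg (sg 1) a = -1 ∧ Dg (sg 2) a = -1) ∨
    (Dg (sg 0) a = -1 ∧ Dg (sg 1) a = 1 ∧ Dg (sg 2) a = -1) ∨
    (Dg (sg 0) a = -1 ∧ Dg (sg 1) a = -1 ∧ Dg (sg 2) a = 1) := by
  have h0 := mul_self_eq_one_iff.1 (Dg_sq 0 a)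
  have h1 := mul_self_eq_one_iff.1 (Dg_sq 1 a)
  have h2 := mul_self_eq_one_iff.1 (Dg_sq 2 a)
  have h3 := Dg_prod a
  rcases h0 with h0 | h0 <;> rcases h1 with h1 | h1 <;> rcases h2 with h2 | h2 <;>
    rw [h0, h1, h2] at h3 <;> first | (exfalso; norm_num at h3; done) | (rw [h0, h1, h2]; norm_num)

theorem ind_sq (χ : Fin 4) {n : ℕ} (a : Fin n → Fin 4) : ind χ a * ind χ a = ind χ a := by
  unfold ind
  rw [Fin.sum_univ_three]
  rcases hgbInd_cases a with ⟨h0, h1, h2⟩ | ⟨h0, h1, h2⟩ | ⟨h0, h1, h2⟩ | ⟨h0, h1, h2⟩ <;>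
    rw [h0, h1, h2] <;> fin_cases χ <;> norm_num [Fin.ext_iff]

/-- vectors in the sector. -/
theorem ind_mul_of (χ : Fin 4) {n : ℕ} (a : Fin n → Fin 4) (x : ℝ)
    (h : ∀ g : Fin 3, (if χ = 0 ∨ χ = g.succ then 1 else -1) * Dg (sg g) a * x = x) :
    ind χ a * x = x := by
  unfold ind
  rw [Fin.sum_univ_three]
  have h0 := h 0
  have h1 := h 1
  have h2 := h 2
  linear_combination (h0 + h1 + h2) / 4

/-- two configurations with the same signs have the same indicators. -/
theorem ind_congr (χ : Fin 4) {n : ℕ} (a b : Fin n → Fin 4) (h : ∀ g : Fin 3, Dg (sg g) a = Dg (sg g) b) :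
    ind χ a = ind χ b := by
  unfold ind
  simp only [h]

private lemma hgbInd_comm (χ : Fin 4) {n : ℕ} (K : Matrix (Fin n → Fin 4) (Fin n → Fin 4) ℝ)
    (hK : ∀ (g : Fin 3) a b, K a b = Dg (sg g) a * Dg (sg g) b * K a b)
    (a b : Fin n → Fin 4) : ind χ a * K a b = K a b * ind χ b := by
  by_cases hz : K a b = 0
  · rw [hz]; ring
  · have : ind χ a = ind χ b := by
      apply ind_congr
      intro g
      have h1 : Dg (sg g) a * Dg (sg g) b = 1 := by
        have := hK g a b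
        have h2 : (Dg (sg g) a * Dg (sg g) b) * K a b = 1 * K a b := by rw [one_mul]; exact this.symm
        exact mul_right_cancel₀ hz h2
      have h3 := Dg_sq g b
      calc Dg (sg g) a = Dg (sg g) a * (Dg (sg g) b * Dg (sg g) b) := by rw [h3, mul_one]
        _ = (Dg (sg g) a * Dg (sg g) b) * Dg (sg g) b := by ring
        _ = Dg (sg g) b := by rw [h1, one_mul]
    rw [this, mul_comm]

private lemma hgbInd_of (χ : Fin 4) {n : ℕ} (K : Matrix (Fin n → Fin 4) (Fin n → Fin 4) ℝ) :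
    (Matrix.of fun a b => ind χ a * K a b * ind χ b) =
      Matrix.diagonal (ind χ) * K * Matrix.diagonal (ind χ) := by
  ext a b
  rw [Matrix.mul_diagonal, Matrix.diagonal_mul, Matrix.of_apply]

/-- powers of a matrix compressed to a sector. -/
theorem ind_pow (χ : Fin 4) {n : ℕ} (K : Matrix (Fin n → Fin 4) (Fin n → Fin 4) ℝ)
    (hK : ∀ (g : Fin 3) a b, K a b = Dg (sg g) a * Dg (sg g) b * K a b) (j : ℕ) (hj : 1 ≤ j)
    (a b : Fin n → Fin 4) :
    ((Matrix.of fun a b => ind χ a * K a b * ind χ b) ^ j) a b = ind χ a * (K ^ j) a b * ind χ b := by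
  have hc : Matrix.diagonal (ind χ) * K = K * Matrix.diagonal (ind χ) := by
    ext a b
    rw [Matrix.mul_diagonal, Matrix.diagonal_mul]
    exact hgbInd_comm χ K hK a b
  have hd : (Matrix.diagonal (ind χ) : Matrix (Fin n → Fin 4) (Fin n → Fin 4) ℝ) *
      Matrix.diagonal (ind χ) = Matrix.diagonal (ind χ) := by
    rw [Matrix.diagonal_mul_diagonal]
    congr 1
    funext a
    exact ind_sq χ a
  have key : (Matrix.of fun a b => ind χ a * K a b * ind χ b) ^ j =
      Matrix.diagonal (ind χ) * K ^ j * Matrix.diagonal (ind χ) := by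
    rw [hgbInd_of]
    obtain ⟨k, rfl⟩ : ∃ k, j = k + 1 := ⟨j - 1, by omega⟩
    clear hj
    induction k with
    | zero => simp
    | succ k ih =>
      rw [pow_succ, ih, pow_succ K (k + 1)]
      calc Matrix.diagonal (ind χ) * K ^ (k + 1) * Matrix.diagonal (ind χ) *
            (Matrix.diagonal (ind χ) * K * Matrix.diagonal (ind χ))
          = Matrix.diagonal (ind χ) * K ^ (k + 1) *
              ((Matrix.diagonal (ind χ) * Matrix.diagonal (ind χ)) * K) *
              Matrix.diagonal (ind χ) := by simp only [Matrix.mul_assoc]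
        _ = Matrix.diagonal (ind χ) * K ^ (k + 1) * (K * Matrix.diagonal (ind χ)) *
              Matrix.diagonal (ind χ) := by rw [hd, hc]
        _ = Matrix.diagonal (ind χ) * (K ^ (k + 1) * K) *
              (Matrix.diagonal (ind χ) * Matrix.diagonal (ind χ)) := by
              simp only [Matrix.mul_assoc]
        _ = Matrix.diagonal (ind χ) * (K ^ (k + 1) * K) * Matrix.diagonal (ind χ) := by rw [hd]
  rw [key, Matrix.mul_diagonal, Matrix.diagonal_mul]

/-- the trace in a sector. -/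
theorem ind_trace (χ : Fin 4) {n : ℕ} (K : Matrix (Fin n → Fin 4) (Fin n → Fin 4) ℝ)
    (hK : ∀ (g : Fin 3) a b, K a b = Dg (sg g) a * Dg (sg g) b * K a b) (j : ℕ) (hj : 1 ≤ j) :
    ((Matrix.of fun a b => ind χ a * K a b * ind χ b) ^ j).trace =
      (∑ a, (K ^ j) a a + ∑ g : Fin 3, (if χ = 0 ∨ χ = g.succ then 1 else -1) *
        ∑ a, Dg (sg g) a * (K ^ j) a a) / 4 := by
  have h1 : ((Matrix.of fun a b => ind χ a * K a b * ind χ b) ^ j).trace =
      ∑ a, ind χ a * (K ^ j) a a := by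
    unfold Matrix.trace
    refine Finset.sum_congr rfl (fun a _ => ?_)
    rw [Matrix.diag_apply, ind_pow χ K hK j hj]
    calc ind χ a * (K ^ j) a a * ind χ a = (ind χ a * ind χ a) * (K ^ j) a a := by ring
      _ = ind χ a * (K ^ j) a a := by rw [ind_sq]
  rw [h1, Fin.sum_univ_three]
  have h2 : ∀ a : Fin n → Fin 4, ind χ a * (K ^ j) a a =
      (1 / 4) * (K ^ j) a a +
      (1 / 4) * (if χ = 0 ∨ χ = (0 : Fin 3).succ then 1 else -1) * (Dg (sg 0) a * (K ^ j) a a) +
      (1 / 4) * (if χ = 0 ∨ χ = (1 : Fin 3).succ then 1 else -1) * (Dg (sg 1) a * (K ^ j) a a) +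
      (1 / 4) * (if χ = 0 ∨ χ = (2 : Fin 3).succ then 1 else -1) * (Dg (sg 2) a * (K ^ j) a a) := by
    intro a
    unfold ind
    rw [Fin.sum_univ_three]
    ring
  simp only [h2, Finset.sum_add_distrib, ← Finset.mul_sum]
  ring

end Crest.Agent.HGB
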