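import Mathlib

/-!
HGB_Walk (S0545/S0546 part B): expansions of powers of sums and of powers of matrices.

Hints: `pow_sum_eq`: induction on `n`, `Fin.consEquiv`/`Fin.insertNthEquiv` (or `Fin.consPiProd`)
`(Fin (n+1) → ι) ≃ ι × (Fin n → ι)`, `List.ofFn_succ`, `Finset.mul_sum`.
`walk_sum`: induction on `m`, peel off the LAST coordinate (`Fin.snocEquiv`) or the first.
`cyc_sum`: rewrite the product over `Fin (m+1)` with `Fin.prod_univ_succ`; the factor `j = 0` is
`A (c last) (c 0)`, the factor `j = i.succ` is `A (c i.castSucc) (c i.succ)`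
(`(finRotate (m+1)).symm 0 = Fin.last m`, `(finRotate (m+1)).symm i.succ = i.castSucc`), then apply
`walk_sum` with `f y x = g x * A x y`.
-/

set_option autoImplicit false

namespace Crest.Agent.HGB

theorem pow_sum_eq {R ι : Type*} [Semiring R] [Fintype ι] (f : ι → R) (n : ℕ) :
    (∑ c, f c) ^ n = ∑ C : Fin n → ι, (List.ofFn fun t => f (C t)).prod := by
  induction n with
  | zero => simp
  | succ n ih =>
    rw [pow_succ', ih, Finset.sum_mul_sum,
      ← Fintype.sum_equiv (Fin.consEquiv (fun _ : Fin (n + 1) => ι))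
        (fun x => f x.1 * (List.ofFn fun t => f (x.2 t)).prod)
        (fun C => (List.ofFn fun t => f (C t)).prod) ?_, Fintype.sum_prod_type]
    rintro ⟨a, C⟩
    rw [List.ofFn_succ, List.prod_cons]
    simp [Fin.consEquiv]

theorem walk_sum {ι : Type*} [Fintype ι] [DecidableEq ι] (A : Matrix ι ι ℂ) (m : ℕ)
    (f : ι → ι → ℂ) :
    ∑ c : Fin (m + 1) → ι, f (c 0) (c (Fin.last m)) * ∏ j : Fin m, A (c j.castSucc) (c j.succ) =
      ∑ y, ∑ x, f y x * (A ^ m) y x := by
  induction m generalizing f with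
  | zero =>
    have h1 : ∀ y : ι, ∑ x, f y x * (A ^ 0) y x = f y y := by
      intro y
      simp [Matrix.one_apply]
    rw [Finset.sum_congr rfl fun y _ => h1 y]
    rw [← Fintype.sum_equiv (Equiv.funUnique (Fin 1) ι).symm (fun x => f x x) _ ?_]
    intro x
    simp [Equiv.funUnique]
  | succ m ih =>
    have h1 : ∀ y : ι, ∑ x, f y x * (A ^ (m + 1)) y x =
        ∑ z, (∑ x, f y x * A z x) * (A ^ m) y z := by
      intro y
      simp only [pow_succ, Matrix.mul_apply, Finset.mul_sum, Finset.sum_mul]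
      rw [Finset.sum_comm]
      refine Finset.sum_congr rfl fun z _ => Finset.sum_congr rfl fun x _ => ?_
      ring
    rw [Finset.sum_congr rfl fun y _ => h1 y, ← ih (fun y z => ∑ x, f y x * A z x)]
    rw [← Fintype.sum_equiv (Fin.snocEquiv (fun _ : Fin (m + 2) => ι))
        (fun x => f (x.2 0) x.1 * ((∏ j : Fin m, A (x.2 j.castSucc) (x.2 j.succ)) *
          A (x.2 (Fin.last m)) x.1)) _ ?_, Fintype.sum_prod_type, Finset.sum_comm]
    · refine Finset.sum_congr rfl fun c _ => ?_
      rw [Finset.sum_mul]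
      refine Finset.sum_congr rfl fun x _ => ?_
      ring
    · rintro ⟨a, C⟩
      simp only [Fin.snocEquiv, Equiv.coe_fn_mk, Fin.snoc_last]
      rw [Fin.prod_univ_castSucc]
      have h0 : (Fin.snoc C a : Fin (m + 2) → ι) 0 = C 0 := by
        rw [← Fin.castSucc_zero, Fin.snoc_castSucc]
      rw [h0]
      congr 2
      · refine Finset.prod_congr rfl fun j _ => ?_
        rw [Fin.snoc_castSucc, Fin.succ_castSucc, Fin.snoc_castSucc]
      · rw [Fin.snoc_castSucc, Fin.succ_last, Fin.snoc_last]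

theorem cyc_sum {ι : Type*} [Fintype ι] [DecidableEq ι] (A : Matrix ι ι ℂ) (m : ℕ) (g : ι → ℂ) :
    ∑ c : Fin (m + 1) → ι, g (c (Fin.last m)) *
        ∏ j : Fin (m + 1), A (c ((finRotate (m + 1)).symm j)) (c j) =
      ∑ x, g x * (A ^ (m + 1)) x x := by
  have h1 : ∀ c : Fin (m + 1) → ι, g (c (Fin.last m)) *
        ∏ j : Fin (m + 1), A (c ((finRotate (m + 1)).symm j)) (c j) =
      (fun y x => g x * A x y) (c 0) (c (Fin.last m)) *
        ∏ j : Fin m, A (c j.castSucc) (c j.succ) := by
    intro c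
    rw [Fin.prod_univ_succ]
    have e0 : (finRotate (m + 1)).symm 0 = Fin.last m := by
      rw [Equiv.symm_apply_eq, finRotate_last]
    have e1 : ∀ i : Fin m, (finRotate (m + 1)).symm i.succ = i.castSucc := by
      intro i
      rw [Equiv.symm_apply_eq, finRotate_succ_apply, Fin.coeSucc_eq_succ]
    rw [e0]
    simp only [e1]
    ring
  rw [Finset.sum_congr rfl fun c _ => h1 c, walk_sum A m (fun y x => g x * A x y),
    Finset.sum_comm]
  refine Finset.sum_congr rfl fun x _ => ?_
  rw [pow_succ', Matrix.mul_apply, Finset.mul_sum]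
  refine Finset.sum_congr rfl fun y _ => ?_
  ring

end Crest.Agent.HGB
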