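import Mathlib
import Crest.Agent.HGB_Tens
import Crest.Agent.HGB_Walk

/-!
HGB_InterPath (S0545/S0546 part B): the trace of the `n`-th power of a Trotter slice of the open chain
is a matrix element of the `N`-th power of the space transfer matrix.

Proof: as for the ring (see HGB_InterRing), `Xpath ^ n = ∑ C : Fin n → (Fin (N+1) → Fin 4), …` by
`pow_sum_eq`; `(List.ofFn fun t => A t ⊗ₖ (B t ⊗ₖ C t)).prod = (List.ofFn A).prod ⊗ₖ (…)`
(`Matrix.mul_kronecker_mul`, `Matrix.one_kronecker_one`), `tens_ofFn`, `Matrix.trace_kronecker`,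
`trace_tens`. Swap to `a : Fin (N+1) → Fin n → Fin 4`, `a j t = C t j`, write
`wb τ c = wt τ c * wt τ c` and distribute: bond `j` (label `a j`) gives one factor `wt` to its left
object and one to its right object. Result
`∑ a, vc Vl … (a 0) * vc Vr … (a last) * ∏ j : Fin N, Kc V n τ (a j.castSucc) (a j.succ)`;
apply `walk_sum`.
-/

set_option autoImplicit false

namespace Crest.Agent.HGB
open Matrix Crest.MathPhysics.SpinChain Crest.Agent.HG
open scoped Kronecker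

private theorem ip_smul_prod {R : Type*} [Ring R] [Algebra ℂ R] {n : ℕ} (z : Fin n → ℂ)
    (A : Fin n → R) :
    (List.ofFn fun t => z t • A t).prod = (∏ t, z t) • (List.ofFn fun t => A t).prod := by
  induction n with
  | zero => simp
  | succ n ih =>
    rw [List.ofFn_succ, List.ofFn_succ, List.prod_cons, List.prod_cons, Fin.prod_univ_succ, ih,
      smul_mul_smul_comm]

private theorem ip_wb_eq (τ : ℝ) (hτ : 0 ≤ τ) (c : Fin 4) : wb τ c = wt τ c * wt τ c := by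
  unfold wb wt
  split_ifs
  · simp
  · rw [Real.mul_self_sqrt hτ]

private theorem ip_kron_prod {l m : Type*} [Fintype l] [DecidableEq l] [Fintype m] [DecidableEq m]
    {n : ℕ} (A : Fin n → Matrix l l ℂ) (B : Fin n → Matrix m m ℂ) :
    (List.ofFn fun t => A t ⊗ₖ B t).prod =
      (List.ofFn fun t => A t).prod ⊗ₖ (List.ofFn fun t => B t).prod := by
  induction n with
  | zero =>
    simp only [List.ofFn_zero, List.prod_nil]
    exact Matrix.one_kronecker_one.symm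
  | succ n ih =>
    simp only [List.ofFn_succ, List.prod_cons]
    rw [ih (fun t => A t.succ) (fun t => B t.succ), Matrix.mul_kronecker_mul]

theorem path_inter {d d' : ℕ} (Vl : Matrix (Fin d) (Fin d) ℂ) (V : Matrix (Fin 3) (Fin 3) ℂ)
    (Vr : Matrix (Fin d') (Fin d') ℂ) (e : Fin 3 → Matrix (Fin d) (Fin d) ℂ)
    (F : Matrix (Fin d) (Fin d) ℂ) (e' : Fin 3 → Matrix (Fin d') (Fin d') ℂ)
    (F' : Matrix (Fin d') (Fin d') ℂ) (N n : ℕ) (τ : ℝ) (hτ : 0 ≤ τ) :
    Matrix.trace ((Vl ⊗ₖ (tens (fun _ : Fin N => V) ⊗ₖ Vr)) * Xpath e F e' F' N τ ^ n) =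
      ∑ a : Fin n → Fin 4, ∑ b : Fin n → Fin 4,
        vc Vl e F n τ a * (Kc V n τ ^ N) a b * vc Vr e' F' n τ b := by
  have hR : ∑ a : Fin n → Fin 4, ∑ b : Fin n → Fin 4,
        vc Vl e F n τ a * (Kc V n τ ^ N) a b * vc Vr e' F' n τ b =
      ∑ y : Fin n → Fin 4, ∑ x : Fin n → Fin 4,
        (fun y x => vc Vl e F n τ y * vc Vr e' F' n τ x) y x * (Kc V n τ ^ N) y x := by
    refine Finset.sum_congr rfl fun y _ => Finset.sum_congr rfl fun x _ => ?_
    ring
  rw [hR, ← walk_sum (Kc V n τ) N (fun y x => vc Vl e F n τ y * vc Vr e' F' n τ x)]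
  unfold Xpath
  rw [pow_sum_eq, Finset.mul_sum, Matrix.trace_sum]
  rw [← Equiv.sum_comp (Equiv.piComm (fun (_ : Fin (N + 1)) (_ : Fin n) => Fin 4))]
  apply Finset.sum_congr rfl
  intro a _
  have e1 : ∀ t : Fin n, Equiv.piComm (fun (_ : Fin (N + 1)) (_ : Fin n) => Fin 4) a t =
      fun j => a j t := fun t => rfl
  simp only [e1]
  rw [ip_smul_prod, Matrix.mul_smul, Matrix.trace_smul, smul_eq_mul,
    ip_kron_prod (fun t => Eend e F τ (a 0 t))
      (fun t => tens (fun j : Fin N => Bsite (a j.castSucc t) (a j.succ t)) ⊗ₖ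
        Eend e' F' τ (a (Fin.last N) t)),
    ip_kron_prod (fun t => tens (fun j : Fin N => Bsite (a j.castSucc t) (a j.succ t)))
      (fun t => Eend e' F' τ (a (Fin.last N) t)),
    tens_ofFn, ← Matrix.mul_kronecker_mul, ← Matrix.mul_kronecker_mul, Matrix.trace_kronecker,
    Matrix.trace_kronecker, tens_mul, trace_tens]
  have hK : ∏ j : Fin N, Kc V n τ (a j.castSucc) (a j.succ) =
      (∏ j : Fin N, ∏ t, ((wt τ (a j.castSucc t) : ℝ) : ℂ)) *
      (∏ j : Fin N, ∏ t, ((wt τ (a j.succ t) : ℝ) : ℂ)) *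
      ∏ j : Fin N, Matrix.trace (V * (List.ofFn fun t =>
        Bsite (a j.castSucc t) (a j.succ t)).prod) := by
    rw [← Finset.prod_mul_distrib, ← Finset.prod_mul_distrib]
    apply Finset.prod_congr rfl
    intro j _
    rw [← Finset.prod_mul_distrib]
    rfl
  have h1 : (∏ j : Fin (N + 1), ∏ t, ((wt τ (a j t) : ℝ) : ℂ)) =
      (∏ t, ((wt τ (a 0 t) : ℝ) : ℂ)) * ∏ j : Fin N, ∏ t, ((wt τ (a j.succ t) : ℝ) : ℂ) :=
    Fin.prod_univ_succ _
  have h2 : (∏ j : Fin (N + 1), ∏ t, ((wt τ (a j t) : ℝ) : ℂ)) =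
      (∏ j : Fin N, ∏ t, ((wt τ (a j.castSucc t) : ℝ) : ℂ)) *
        ∏ t, ((wt τ (a (Fin.last N) t) : ℝ) : ℂ) :=
    Fin.prod_univ_castSucc _
  have hw : (∏ t : Fin n, (((∏ j : Fin (N + 1), wb τ (a j t) : ℝ)) : ℂ)) =
      ((∏ t, ((wt τ (a 0 t) : ℝ) : ℂ)) * ∏ j : Fin N, ∏ t, ((wt τ (a j.succ t) : ℝ) : ℂ)) *
      ((∏ j : Fin N, ∏ t, ((wt τ (a j.castSucc t) : ℝ) : ℂ)) *
        ∏ t, ((wt τ (a (Fin.last N) t) : ℝ) : ℂ)) := by
    rw [← h1, ← h2, ← Complex.ofReal_prod, Finset.prod_comm]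
    simp only [ip_wb_eq τ hτ, Finset.prod_mul_distrib]
    push_cast
    ring
  rw [hw, hK]
  unfold vc
  ring

end Crest.Agent.HGB
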