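import Mathlib
import Crest.Agent.HGB_Tens
import Crest.Agent.HGB_Walk

/-!
HGB_InterRing (S0545/S0546 part B): the trace of the `n`-th power of a Trotter slice of the ring is a
trace of the `L`-th power of the space transfer matrix.

Proof: `Xring s L τ ^ n = ∑ C : Fin n → (Fin L → Fin 4), …` by `pow_sum_eq` (pull the scalars out of
`(List.ofFn …).prod`: `∏ t` of the weights, induction or `List.prod_ofFn`-style lemma), the product of
the `tens` by `tens_ofFn`, then `tens (fun _ => V) * tens … = tens …` and `trace_tens` give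
`∑ C, (∏ t, ∏ j, w (C t j)) * ∏ j, trace (V * (List.ofFn fun t => Bsite (C t (rot⁻¹ j)) (C t j)).prod)`.
Swap `C` to `a : Fin L → Fin n → Fin 4`, `a j t = C t j` (`Equiv.piComm`, `Equiv.sum_comp`), swap the
products of the weights (`Finset.prod_comm`), and write `wb τ c = wt τ c * wt τ c` (`0 ≤ τ`,
`Real.mul_self_sqrt`), one factor for site `j` (right leg), one for site `rot j` (left leg, reindex the
product over `j` by `finRotate L`). The result is `∑ a, Dg s (a last) * ∏ j, Kc V n τ (a (rot⁻¹ j)) (a j)`;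
apply `cyc_sum`.
-/

set_option autoImplicit false

namespace Crest.Agent.HGB
open Matrix Crest.MathPhysics.SpinChain Crest.Agent.HG

private theorem ofFn_smul_prod {R : Type*} [Ring R] [Algebra ℂ R] {n : ℕ} (z : Fin n → ℂ)
    (A : Fin n → R) :
    (List.ofFn fun t => z t • A t).prod = (∏ t, z t) • (List.ofFn fun t => A t).prod := by
  induction n with
  | zero => simp
  | succ n ih =>
    rw [List.ofFn_succ, List.ofFn_succ, List.prod_cons, List.prod_cons, Fin.prod_univ_succ, ih,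
      smul_mul_smul_comm]

private theorem wb_eq (τ : ℝ) (hτ : 0 ≤ τ) (c : Fin 4) : wb τ c = wt τ c * wt τ c := by
  unfold wb wt
  split_ifs
  · simp
  · rw [Real.mul_self_sqrt hτ]

theorem ring_inter (V : Matrix (Fin 3) (Fin 3) ℂ) (s : Fin 3 → ℝ) (m n : ℕ) (τ : ℝ) (hτ : 0 ≤ τ) :
    Matrix.trace (tens (fun _ : Fin (m + 1) => V) * Xring s (m + 1) τ ^ n) =
      ∑ a : Fin n → Fin 4, ((Dg s a : ℝ) : ℂ) * (Kc V n τ ^ (m + 1)) a a := by
  rw [← cyc_sum (Kc V n τ) m (fun a => ((Dg s a : ℝ) : ℂ))]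
  unfold Xring
  rw [pow_sum_eq, Finset.mul_sum, Matrix.trace_sum]
  -- swap the summation variable
  rw [← Equiv.sum_comp (Equiv.piComm (fun (_ : Fin (m + 1)) (_ : Fin n) => Fin 4))]
  apply Finset.sum_congr rfl
  intro a _
  have e1 : ∀ t : Fin n, Equiv.piComm (fun (_ : Fin (m + 1)) (_ : Fin n) => Fin 4) a t =
      fun j => a j t := fun t => rfl
  simp only [e1]
  rw [ofFn_smul_prod, Matrix.mul_smul, Matrix.trace_smul, tens_ofFn, tens_mul, trace_tens,
    smul_eq_mul]
  have hK : ∏ j : Fin (m + 1), Kc V n τ (a ((finRotate (m + 1)).symm j)) (a j) =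
      (∏ j : Fin (m + 1), ∏ t, ((wt τ (a ((finRotate (m + 1)).symm j) t) : ℝ) : ℂ)) *
      (∏ j : Fin (m + 1), ∏ t, ((wt τ (a j t) : ℝ) : ℂ)) *
      ∏ j : Fin (m + 1), Matrix.trace (V * (List.ofFn fun t =>
        Bsite (a ((finRotate (m + 1)).symm j) t) (a j t)).prod) := by
    rw [← Finset.prod_mul_distrib, ← Finset.prod_mul_distrib]
    apply Finset.prod_congr rfl
    intro j _
    rw [← Finset.prod_mul_distrib]
    rfl
  have hrot : (∏ j : Fin (m + 1), ∏ t, ((wt τ (a ((finRotate (m + 1)).symm j) t) : ℝ) : ℂ)) =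
      ∏ j : Fin (m + 1), ∏ t, ((wt τ (a j t) : ℝ) : ℂ) :=
    Equiv.prod_comp (finRotate (m + 1)).symm (fun j => ∏ t, ((wt τ (a j t) : ℝ) : ℂ))
  have hD : ∏ j : Fin (m + 1), ∏ t : Fin n,
      (if (j : ℕ) + 1 = m + 1 then chi s (a j t) else 1) = Dg s (a (Fin.last m)) := by
    rw [Finset.prod_eq_single (Fin.last m)]
    · unfold Dg
      simp
    · intro j _ hj
      apply Finset.prod_eq_one
      intro t _
      rw [if_neg]
      intro h
      apply hj
      ext
      simp only [Fin.val_last]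
      omega
    · intro h
      exact absurd (Finset.mem_univ _) h
  have hw : (∏ t : Fin n, (((∏ j : Fin (m + 1), (wb τ (a j t) *
      (if (j : ℕ) + 1 = m + 1 then chi s (a j t) else 1)) : ℝ)) : ℂ)) =
      ((Dg s (a (Fin.last m)) : ℝ) : ℂ) *
      ((∏ j : Fin (m + 1), ∏ t, ((wt τ (a j t) : ℝ) : ℂ)) *
      (∏ j : Fin (m + 1), ∏ t, ((wt τ (a j t) : ℝ) : ℂ))) := by
    rw [← hD, ← Complex.ofReal_prod, Finset.prod_comm]
    simp only [Finset.prod_mul_distrib, wb_eq τ hτ]
    push_cast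
    ring
  rw [hw, hK, hrot]
  ring

end Crest.Agent.HGB
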