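import Mathlib

/-!
HGB_Trotter (S0545/S0546 part B): Euler/Trotter limit for complex matrices.

Proof: in a normed algebra structure (e.g. `Matrix.linftyOpNormedRing`/`linftyOpNormedAlgebra` as local
instances; the topology is the product topology, so `Tendsto` and `NormedSpace.exp` are the same),
`A := -(β:ℂ)•H`, `‖X_n - exp((1/n)•A)‖ ≤ C'/n²` (entrywise bound ⇒ norm bound; and
`‖exp(A/n) - 1 - A/n‖ ≤ C/n²`, e.g. `NormedSpace.exp` power series bound or
`Real`-type estimate `‖exp x - 1 - x‖ ≤ ‖x‖² exp ‖x‖`), both have norm `≤ 1 + c/n ≤ exp (c/n)`, and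
`‖X^n - Y^n‖ ≤ n * M^(n-1) * ‖X - Y‖` for `‖X‖, ‖Y‖ ≤ M` (telescoping), `M^(n-1) ≤ exp c`.
`exp(A/n)^n = exp A` (`NormedSpace.exp_nsmul` or `Matrix.exp_nsmul`).
-/

set_option autoImplicit false

open Filter Topology

namespace Crest.Agent.HGB

section banach
variable {E : Type*} [NormedRing E] [NormedAlgebra ℝ E] [NormOneClass E]

omit [NormedAlgebra ℝ E] in
private theorem trot_tele (x y : E) (M : ℝ) (hM : 1 ≤ M) (hx : ‖x‖ ≤ M) (hy : ‖y‖ ≤ M) (n : ℕ) :
    ‖x ^ n - y ^ n‖ ≤ n * M ^ n * ‖x - y‖ := by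
  induction n with
  | zero => simp
  | succ n ih =>
    have h1 : x ^ (n + 1) - y ^ (n + 1) = x ^ n * (x - y) + (x ^ n - y ^ n) * y := by
      rw [pow_succ, pow_succ]; noncomm_ring
    have h2 : ‖x ^ n‖ ≤ M ^ n := (norm_pow_le x n).trans (pow_le_pow_left₀ (norm_nonneg _) hx n)
    have hd := norm_nonneg (x - y)
    have hM0 : 0 ≤ M := by linarith
    have hMn : 0 ≤ M ^ n := pow_nonneg hM0 n
    rw [h1]
    calc ‖x ^ n * (x - y) + (x ^ n - y ^ n) * y‖ ≤ ‖x ^ n‖ * ‖x - y‖ + ‖x ^ n - y ^ n‖ * ‖y‖ :=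
          (norm_add_le _ _).trans (add_le_add (norm_mul_le _ _) (norm_mul_le _ _))
      _ ≤ M ^ n * ‖x - y‖ + (n * M ^ n * ‖x - y‖) * M := by
          refine add_le_add (mul_le_mul_of_nonneg_right h2 hd) ?_
          exact mul_le_mul ih hy (norm_nonneg _) (by positivity)
      _ ≤ M ^ (n + 1) * ‖x - y‖ + (n * M ^ n * ‖x - y‖) * M := by
          have h3 : M ^ n ≤ M ^ (n + 1) := pow_le_pow_right₀ hM (Nat.le_succ n)
          have := mul_le_mul_of_nonneg_right h3 hd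
          linarith
      _ = ((n + 1 : ℕ) : ℝ) * M ^ (n + 1) * ‖x - y‖ := by
          push_cast
          ring

private theorem trot_norm (x : E) (n : ℕ) (hn : 1 ≤ n) (c : ℝ) (h : ‖(n : ℝ) • (x - 1)‖ ≤ c) :
    ‖x‖ ≤ 1 + c / n := by
  have hn0 : (0 : ℝ) < n := by exact_mod_cast hn
  rw [norm_smul, Real.norm_of_nonneg hn0.le] at h
  have h1 : ‖x - 1‖ ≤ c / n := by
    rw [le_div_iff₀ hn0, mul_comm]
    exact h
  calc ‖x‖ = ‖1 + (x - 1)‖ := by rw [add_sub_cancel]
    _ ≤ ‖(1 : E)‖ + ‖x - 1‖ := norm_add_le _ _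
    _ ≤ 1 + c / n := by rw [norm_one]; linarith

private theorem trot_diff (X Y : ℕ → E) (A : E)
    (hX : Tendsto (fun n : ℕ => (n : ℝ) • (X n - 1)) atTop (𝓝 A))
    (hY : Tendsto (fun n : ℕ => (n : ℝ) • (Y n - 1)) atTop (𝓝 A)) :
    Tendsto (fun n : ℕ => X n ^ n - Y n ^ n) atTop (𝓝 0) := by
  set c : ℝ := ‖A‖ + 1 with hc
  have hc0 : 0 ≤ c := by positivity
  have eX : ∀ᶠ n : ℕ in atTop, ‖(n : ℝ) • (X n - 1)‖ ≤ c :=
    (hX.norm.eventually_le_const (by linarith))
  have eY : ∀ᶠ n : ℕ in atTop, ‖(n : ℝ) • (Y n - 1)‖ ≤ c :=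
    (hY.norm.eventually_le_const (by linarith))
  have hlim : Tendsto (fun n : ℕ => Real.exp c * ‖(n : ℝ) • (X n - 1) - (n : ℝ) • (Y n - 1)‖) atTop
      (𝓝 0) := by
    have := ((hX.sub hY).norm).const_mul (Real.exp c)
    simpa using this
  refine squeeze_zero_norm' ?_ hlim
  filter_upwards [eX, eY, eventually_ge_atTop 1] with n h1 h2 hn
  have hn0 : (0 : ℝ) < n := by exact_mod_cast hn
  have hM : 1 ≤ 1 + c / n := by
    have : 0 ≤ c / n := by positivity
    linarith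
  have h3 := trot_tele (X n) (Y n) (1 + c / n) hM (trot_norm _ n hn c h1) (trot_norm _ n hn c h2) n
  have h4 : (1 + c / n) ^ n ≤ Real.exp c := by
    have h5 : 1 + c / n ≤ Real.exp (c / n) := by
      have := Real.add_one_le_exp (c / n)
      linarith
    calc (1 + c / n) ^ n ≤ (Real.exp (c / n)) ^ n := pow_le_pow_left₀ (by linarith) h5 n
      _ = Real.exp c := by
        rw [← Real.exp_nat_mul]
        congr 1
        field_simp
  have h6 : ‖(n : ℝ) • (X n - 1) - (n : ℝ) • (Y n - 1)‖ = n * ‖X n - Y n‖ := by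
    rw [← smul_sub, norm_smul, Real.norm_of_nonneg hn0.le]
    congr 2
    abel
  rw [h6]
  refine h3.trans ?_
  have := mul_le_mul_of_nonneg_right h4 (mul_nonneg hn0.le (norm_nonneg (X n - Y n)))
  linarith

private theorem trot_banach [CompleteSpace E] (X : ℕ → E) (A : E)
    (hX : Tendsto (fun n : ℕ => (n : ℝ) • (X n - 1)) atTop (𝓝 A)) :
    Tendsto (fun n : ℕ => X n ^ n) atTop (𝓝 (NormedSpace.exp A)) := by
  let Y : ℕ → E := fun n => NormedSpace.exp ((n : ℝ)⁻¹ • A)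
  have hY : Tendsto (fun n : ℕ => (n : ℝ) • (Y n - 1)) atTop (𝓝 A) := by
    have h1 := (hasDerivAt_exp_smul_const (𝕂 := ℝ) A 0).tendsto_slope_zero
    simp only [zero_add, zero_smul, NormedSpace.exp_zero, one_mul] at h1
    have h2 : Tendsto (fun n : ℕ => ((n : ℝ))⁻¹) atTop (𝓝[≠] 0) := by
      rw [tendsto_nhdsWithin_iff]
      refine ⟨tendsto_inv_atTop_nhds_zero_nat, ?_⟩
      filter_upwards [eventually_ge_atTop 1] with n hn
      have : (0 : ℝ) < (n : ℝ) := by exact_mod_cast hn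
      simp only [Set.mem_compl_iff, Set.mem_singleton_iff]
      positivity
    have h3 := h1.comp h2
    refine h3.congr ?_
    intro n
    show ((n : ℝ)⁻¹)⁻¹ • (NormedSpace.exp ((n : ℝ)⁻¹ • A) - 1) = (n : ℝ) • (Y n - 1)
    rw [inv_inv]
  have h4 := trot_diff X Y A hX hY
  have h5 : ∀ᶠ n : ℕ in atTop, (X n ^ n - Y n ^ n) + NormedSpace.exp A = X n ^ n := by
    filter_upwards [eventually_ge_atTop 1] with n hn
    have hn0 : (n : ℝ) ≠ 0 := by
      have : (0 : ℝ) < (n : ℝ) := by exact_mod_cast hn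
      exact this.ne'
    have h6 : Y n ^ n = NormedSpace.exp A := by
      show NormedSpace.exp ((n : ℝ)⁻¹ • A) ^ n = _
      let +nondep : NormedAlgebra ℚ E := .restrictScalars ℚ ℝ E
      rw [← NormedSpace.exp_nsmul]
      congr 1
      rw [← Nat.cast_smul_eq_nsmul ℝ n, smul_smul, mul_inv_cancel₀ hn0, one_smul]
    rw [h6, sub_add_cancel]
  have h7 := (h4.add_const (NormedSpace.exp A)).congr' h5
  rwa [zero_add] at h7

end banach

set_option backward.isDefEq.respectTransparency false in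
open scoped Matrix.Norms.Operator in
private theorem trot_matrix {κ : Type*} [Fintype κ] [DecidableEq κ] [Nonempty κ]
    (X : ℕ → Matrix κ κ ℂ) (A : Matrix κ κ ℂ)
    (hX : Tendsto (fun n : ℕ => (n : ℝ) • (X n - 1)) atTop (𝓝 A)) :
    Tendsto (fun n : ℕ => X n ^ n) atTop (𝓝 (NormedSpace.exp A)) := by
  exact trot_banach X A hX

theorem trotter_lim {κ : Type*} [Fintype κ] [DecidableEq κ] (X : ℕ → Matrix κ κ ℂ)
    (H : Matrix κ κ ℂ) (β C : ℝ)
    (hX : ∀ᶠ n : ℕ in atTop, ∀ i j,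
      ‖(X n - (1 - ((β / n : ℝ) : ℂ) • H)) i j‖ ≤ C / (n : ℝ) ^ 2) :
    Tendsto (fun n : ℕ => X n ^ n) atTop (𝓝 (NormedSpace.exp (-(β : ℂ) • H))) := by
  rcases isEmpty_or_nonempty κ with hκ | hκ
  · have h1 : ∀ B D : Matrix κ κ ℂ, B = D := fun B D => Subsingleton.elim B D
    have h2 : (fun n : ℕ => X n ^ n) = fun _ => NormedSpace.exp (-(β : ℂ) • H) :=
      funext fun n => h1 _ _
    rw [h2]
    exact tendsto_const_nhds
  · apply trot_matrix
    refine tendsto_pi_nhds.mpr fun i => tendsto_pi_nhds.mpr fun j => ?_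
    have h1 : Tendsto (fun n : ℕ => (n : ℝ) • ((X n - (1 - ((β / n : ℝ) : ℂ) • H)) i j)) atTop (𝓝 0) := by
      have h2 : Tendsto (fun n : ℕ => C / (n : ℝ)) atTop (𝓝 0) :=
        tendsto_const_div_atTop_nhds_zero_nat C
      refine squeeze_zero_norm' ?_ h2
      filter_upwards [hX, eventually_ge_atTop 1] with n h3 hn
      have hn0 : (0 : ℝ) < n := by exact_mod_cast hn
      rw [norm_smul, Real.norm_of_nonneg hn0.le]
      calc (n : ℝ) * ‖(X n - (1 - ((β / n : ℝ) : ℂ) • H)) i j‖ ≤ n * (C / (n : ℝ) ^ 2) :=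
            mul_le_mul_of_nonneg_left (h3 i j) hn0.le
        _ = C / n := by field_simp
    have h4 := h1.add_const ((-(β : ℂ) • H) i j)
    rw [zero_add] at h4
    refine h4.congr' ?_
    filter_upwards [eventually_ge_atTop 1] with n hn
    have hn0 : (n : ℂ) ≠ 0 := by
      have : (0 : ℝ) < (n : ℝ) := by exact_mod_cast hn
      exact_mod_cast this.ne'
    simp only [Matrix.sub_apply, Matrix.smul_apply, smul_eq_mul, Complex.real_smul]
    push_cast
    field_simp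
    ring

end Crest.Agent.HGB
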