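import Mathlib
import Crest.Agent.HGB_InterRing
import Crest.Agent.HGB_InterPath
import Crest.Agent.HGB_ExpandRing
import Crest.Agent.HGB_ExpandPath
import Crest.Agent.HGB_Trotter

/-!
HGB_Lim (S0545/S0546 part B): limits of the space channel expressions (assembly, sorry-free given the
imports).
-/

set_option autoImplicit false

open Filter Topology

namespace Crest.Agent.HGB
open Matrix Crest.MathPhysics.SpinChain Crest.Agent.HG
open scoped Kronecker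

theorem expand_eventually {κ : Type*} [Fintype κ] [DecidableEq κ] (X : ℝ → Matrix κ κ ℂ)
    (H : Matrix κ κ ℂ) (C : ℝ)
    (hC : ∀ τ : ℝ, 0 ≤ τ → τ ≤ 1 → ∀ i j, ‖(X τ - (1 - (τ : ℂ) • H)) i j‖ ≤ C * τ ^ 2)
    {β : ℝ} (hβ : 0 < β) :
    ∀ᶠ n : ℕ in atTop, ∀ i j,
      ‖(X (β / n) - (1 - ((β / n : ℝ) : ℂ) • H)) i j‖ ≤ (C * β ^ 2) / (n : ℝ) ^ 2 := by
  obtain ⟨N, hN⟩ := exists_nat_ge β
  filter_upwards [eventually_ge_atTop (max N 1)] with n hn i j
  have hn1 : 1 ≤ n := le_trans (le_max_right _ _) hn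
  have hnN : N ≤ n := le_trans (le_max_left _ _) hn
  have hn0 : (0 : ℝ) < n := by exact_mod_cast hn1
  have h1 : β / n ≤ 1 := by
    rw [div_le_one hn0]
    exact le_trans hN (by exact_mod_cast hnN)
  have h0 : 0 ≤ β / n := by positivity
  have := hC (β / n) h0 h1 i j
  rw [div_pow, mul_div_assoc'] at this
  exact this

theorem tendsto_trace_mul {κ : Type*} [Fintype κ] [DecidableEq κ] (A : Matrix κ κ ℂ)
    (Y : ℕ → Matrix κ κ ℂ) (E : Matrix κ κ ℂ) (h : Tendsto Y atTop (𝓝 E)) :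
    Tendsto (fun n => Matrix.trace (A * Y n)) atTop (𝓝 (Matrix.trace (A * E))) := by
  have hc : Continuous fun M : Matrix κ κ ℂ => Matrix.trace (A * M) := by
    fun_prop
  exact (hc.tendsto E).comp h

theorem ring_lim (V : Matrix (Fin 3) (Fin 3) ℂ) (s : Fin 3 → ℝ) {L : ℕ} (hL : 2 ≤ L) {β : ℝ}
    (hβ : 0 < β) :
    Tendsto (fun n : ℕ => ∑ a : Fin n → Fin 4, ((Dg s a : ℝ) : ℂ) * (Kc V n (β / n) ^ L) a a) atTop
      (𝓝 (Matrix.trace (tens (fun _ : Fin L => V) *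
        NormedSpace.exp (-(β : ℂ) • ringH s L)))) := by
  obtain ⟨C, hC⟩ := ring_expand s hL
  have h1 := trotter_lim (fun n : ℕ => Xring s L (β / n)) (ringH s L) β (C * β ^ 2)
    (expand_eventually (fun τ => Xring s L τ) (ringH s L) C hC hβ)
  have h2 := tendsto_trace_mul (tens (fun _ : Fin L => V)) _ _ h1
  refine h2.congr fun n => ?_
  obtain ⟨m, rfl⟩ : ∃ m, L = m + 1 := ⟨L - 1, by omega⟩
  exact ring_inter V s m n (β / n) (by positivity)

theorem path_lim {d d' : ℕ} (Vl : Matrix (Fin d) (Fin d) ℂ) (V : Matrix (Fin 3) (Fin 3) ℂ)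
    (Vr : Matrix (Fin d') (Fin d') ℂ) (e : Fin 3 → Matrix (Fin d) (Fin d) ℂ)
    (F : Matrix (Fin d) (Fin d) ℂ) (e' : Fin 3 → Matrix (Fin d') (Fin d') ℂ)
    (F' : Matrix (Fin d') (Fin d') ℂ) (m : ℕ) {β : ℝ} (hβ : 0 < β) :
    Tendsto (fun n : ℕ => ∑ a : Fin n → Fin 4, ∑ b : Fin n → Fin 4,
        vc Vl e F n (β / n) a * (Kc V n (β / n) ^ (m + 1)) a b * vc Vr e' F' n (β / n) b) atTop
      (𝓝 (Matrix.trace ((Vl ⊗ₖ (tens (fun _ : Fin (m + 1) => V) ⊗ₖ Vr)) *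
        NormedSpace.exp (-(β : ℂ) • endChain e F e' F' m)))) := by
  obtain ⟨C, hC⟩ := path_expand e F e' F' m
  have h1 := trotter_lim (fun n : ℕ => Xpath e F e' F' (m + 1) (β / n)) (endChain e F e' F' m) β
    (C * β ^ 2) (expand_eventually (fun τ => Xpath e F e' F' (m + 1) τ) _ C hC hβ)
  have h2 := tendsto_trace_mul (Vl ⊗ₖ (tens (fun _ : Fin (m + 1) => V) ⊗ₖ Vr)) _ _ h1
  refine h2.congr fun n => ?_
  exact path_inter Vl V Vr e F e' F' (m + 1) n (β / n) (by positivity)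

end Crest.Agent.HGB
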