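import Mathlib

/-!
HGB_Limit (Haldane gap blueprint, part B, helper71): abstract limit representation of the traces
and matrix elements of powers of real symmetric matrices.
-/

set_option autoImplicit false

open Filter Topology

namespace Crest.Agent.HGB

/-- spectral data of a real symmetric matrix, eigenvalues sorted by decreasing absolute value and
extended by `0` to `ℕ`. -/
theorem exists_spectral_data {ι : Type*} [Fintype ι] [DecidableEq ι] {m : ℕ}
    (K : Matrix ι ι ℝ) (hK : K.IsSymm) (v : Fin m → ι → ℝ) :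
    ∃ (N : ℕ) (κ : ℕ → ℝ) (u : Fin m → ℕ → ℝ),
      (Antitone fun i => |κ i|) ∧ (∀ i, N ≤ i → κ i = 0) ∧ (∀ a i, N ≤ i → u a i = 0) ∧
      (∀ L, ∑ i ∈ Finset.range N, κ i ^ L = (K ^ L).trace) ∧
      (∀ a b j, ∑ i ∈ Finset.range N, u a i * u b i * κ i ^ j =
        v a ⬝ᵥ (K ^ j).mulVec (v b)) := by
  classical
  have hH : K.IsHermitian := by
    unfold Matrix.IsHermitian
    rw [Matrix.conjTranspose_eq_transpose_of_trivial]; exact hK
  set U : Matrix ι ι ℝ := (hH.eigenvectorUnitary : Matrix ι ι ℝ) with hU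
  set lam : ι → ℝ := hH.eigenvalues with hlam
  have hUU : star U * U = 1 := by rw [hU]; exact Unitary.coe_star_mul_self _
  have hUU' : U * star U = 1 := by rw [hU]; exact Unitary.coe_mul_star_self _
  have hspec : K = U * Matrix.diagonal lam * star U := by
    have h := hH.spectral_theorem
    rw [Unitary.conjStarAlgAut_apply] at h
    have h2 : (RCLike.ofReal ∘ hH.eigenvalues : ι → ℝ) = lam := by
      funext i; simp [hlam]
    rw [h2] at h
    exact h
  have hpow : ∀ j : ℕ, K ^ j = U * Matrix.diagonal (fun i => lam i ^ j) * star U := by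
    intro j
    induction j with
    | zero => simp [hUU']
    | succ j ih =>
      rw [pow_succ, ih]
      conv_lhs => rw [hspec]
      calc U * Matrix.diagonal (fun i => lam i ^ j) * star U * (U * Matrix.diagonal lam * star U)
          = U * Matrix.diagonal (fun i => lam i ^ j) * (star U * U) * Matrix.diagonal lam * star U
              := by simp only [Matrix.mul_assoc]
        _ = U * (Matrix.diagonal (fun i => lam i ^ j) * Matrix.diagonal lam) * star U := by
            rw [hUU]; simp only [Matrix.mul_assoc, Matrix.one_mul]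
        _ = _ := by rw [Matrix.diagonal_mul_diagonal]; simp [pow_succ]
  -- sorting
  set N := Fintype.card ι with hN
  let e0 : Fin N ≃ ι := (Fintype.equivFin ι).symm
  let f : Fin N → ℝ := fun i => - |lam (e0 i)|
  let e : Fin N ≃ ι := (Tuple.sort f).trans e0
  have hmono : Monotone (fun i => - |lam (e i)|) := Tuple.monotone_sort f
  let κ : ℕ → ℝ := fun i => if h : i < N then lam (e ⟨i, h⟩) else 0
  let w : Fin m → ι → ℝ := fun a => (star U).mulVec (v a)
  let u : Fin m → ℕ → ℝ := fun a i => if h : i < N then w a (e ⟨i, h⟩) else 0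
  refine ⟨N, κ, u, ?_, ?_, ?_, ?_, ?_⟩
  · intro i j hij
    by_cases hj : j < N
    · have hi : i < N := lt_of_le_of_lt hij hj
      have := hmono (show (⟨i, hi⟩ : Fin N) ≤ ⟨j, hj⟩ from hij)
      simp only [κ, hi, hj, dif_pos]
      simpa using this
    · simp only [κ, hj, dif_neg, not_false_eq_true, abs_zero]
      exact abs_nonneg _
  · intro i hi
    simp only [κ, not_lt.mpr hi, dif_neg, not_false_eq_true]
  · intro a i hi
    simp only [u, not_lt.mpr hi, dif_neg, not_false_eq_true]
  · intro L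
    rw [hpow L, Matrix.trace_mul_cycle, hUU, Matrix.one_mul, Matrix.trace_diagonal]
    rw [← e.sum_comp, Finset.sum_range]
    refine Finset.sum_congr rfl fun i _ => ?_
    simp [κ]
  · intro a b j
    have h1 : v a ⬝ᵥ (K ^ j).mulVec (v b) = ∑ i, w a i * w b i * lam i ^ j := by
      rw [hpow j, ← Matrix.mulVec_mulVec, ← Matrix.mulVec_mulVec, Matrix.dotProduct_mulVec]
      have h2 : Matrix.vecMul (v a) U = w a := by
        simp only [w]
        rw [Matrix.star_eq_conjTranspose, Matrix.conjTranspose_eq_transpose_of_trivial,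
          Matrix.mulVec_transpose]
      rw [h2]
      simp only [dotProduct, Matrix.mulVec_diagonal]
      refine Finset.sum_congr rfl fun i _ => ?_
      simp only [w]; ring
    rw [h1, ← e.sum_comp, Finset.sum_range]
    refine Finset.sum_congr rfl fun i _ => ?_
    simp [κ, u]

/-- a bounded real sequence converges along the hyperfilter. -/
theorem exists_ulim (f : ℕ → ℝ) (C : ℝ) (h : ∀ n, |f n| ≤ C) :
    ∃ x, Tendsto f (hyperfilter ℕ : Filter ℕ) (𝓝 x) := by
  have hc : IsCompact (Set.Icc (-C) C) := isCompact_Icc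
  have hmem : (Set.Icc (-C) C) ∈ Ultrafilter.map f (hyperfilter ℕ) := by
    rw [Ultrafilter.mem_map]
    refine Filter.univ_mem' fun n => ?_
    exact abs_le.mp (h n)
  obtain ⟨x, -, hx⟩ := hc.ultrafilter_le_nhds (Ultrafilter.map f (hyperfilter ℕ))
    (le_principal_iff.mpr hmem)
  exact ⟨x, hx⟩

theorem hyper_le : (hyperfilter ℕ : Filter ℕ) ≤ atTop := by
  rw [← Nat.cofinite_eq_atTop]; exact hyperfilter_le_cofinite

theorem bdd_of_tendsto {f : ℕ → ℝ} {a : ℝ} (h : Tendsto f atTop (𝓝 a)) :
    ∃ C, 0 ≤ C ∧ ∀ n, f n ≤ C := by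
  obtain ⟨C, hC⟩ := h.bddAbove_range
  refine ⟨max C 0, le_max_right _ _, fun n => le_trans (hC ⟨n, rfl⟩) (le_max_left _ _)⟩

/-- Limit representation. -/
theorem limit_repr {m : ℕ} {ι : ℕ → Type} [∀ n, Fintype (ι n)] [∀ n, DecidableEq (ι n)]
    (K : ∀ n, Matrix (ι n) (ι n) ℝ) (hK : ∀ n, (K n).IsSymm) (v : ∀ n, Fin m → ι n → ℝ)
    (T : ℕ → ℝ) (M : Fin m → Fin m → ℕ → ℝ)
    (hT : ∀ L, 2 ≤ L → Tendsto (fun n => (K n ^ L).trace) atTop (𝓝 (T L)))
    (hB : ∀ a, ∃ C, ∀ n, v n a ⬝ᵥ v n a ≤ C)
    (hM : ∀ a b j, 1 ≤ j → Tendsto (fun n => v n a ⬝ᵥ (K n ^ j).mulVec (v n b)) atTop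
      (𝓝 (M a b j))) :
    ∃ (κ : ℕ → ℝ) (u : Fin m → ℕ → ℝ),
      (Antitone fun i => |κ i|) ∧
      (∀ I, ∑ i ∈ Finset.range I, κ i ^ 2 ≤ T 2) ∧
      (∀ L, 3 ≤ L → HasSum (fun i => κ i ^ L) (T L)) ∧
      (∀ a, Summable fun i => u a i ^ 2) ∧
      (∀ a b j, 1 ≤ j → HasSum (fun i => u a i * u b i * κ i ^ j) (M a b j)) := by
  classical
  choose N κn un hanti hκ0 hu0 htr hmat using
    fun n => exists_spectral_data (K n) (hK n) (v n)
  -- HasSum versions
  have hs1 : ∀ n L, 1 ≤ L → HasSum (fun i => κn n i ^ L) ((K n ^ L).trace) := by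
    intro n L hL
    rw [← htr n L]
    apply hasSum_sum_of_ne_finset_zero
    intro i hi
    rw [Finset.mem_range, not_lt] at hi
    rw [hκ0 n i hi, zero_pow (by omega)]
  have hs2 : ∀ n a b j, HasSum (fun i => un n a i * un n b i * κn n i ^ j)
      (v n a ⬝ᵥ (K n ^ j).mulVec (v n b)) := by
    intro n a b j
    rw [← hmat n a b j]
    apply hasSum_sum_of_ne_finset_zero
    intro i hi
    rw [Finset.mem_range, not_lt] at hi
    rw [hu0 n a i hi]; ring
  obtain ⟨C, hC0, hC⟩ := bdd_of_tendsto (hT 2 le_rfl)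
  have hCa : ∀ a, ∃ C, 0 ≤ C ∧ ∀ n, v n a ⬝ᵥ (K n ^ 0).mulVec (v n a) ≤ C := by
    intro a
    obtain ⟨C, hC⟩ := hB a
    refine ⟨max C 0, le_max_right _ _, fun n => ?_⟩
    rw [pow_zero, Matrix.one_mulVec]
    exact le_trans (hC n) (le_max_left _ _)
  choose Ca hCa0 hCa using hCa
  have hpart : ∀ n I, ∑ i ∈ Finset.range I, κn n i ^ 2 ≤ (K n ^ 2).trace := by
    intro n I
    exact sum_le_hasSum _ (fun i _ => sq_nonneg _) (hs1 n 2 (by norm_num))
  have hpartu : ∀ n a I, ∑ i ∈ Finset.range I, un n a i ^ 2 ≤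
      v n a ⬝ᵥ (K n ^ 0).mulVec (v n a) := by
    intro n a I
    have h := hs2 n a a 0
    have h' : HasSum (fun i => un n a i ^ 2) (v n a ⬝ᵥ (K n ^ 0).mulVec (v n a)) := by
      refine h.congr_fun ?_ |> fun h => h
      intro i; ring
    exact sum_le_hasSum _ (fun i _ => sq_nonneg _) h'
  -- individual bounds
  have hκb : ∀ n I, |κn n I| ^ 2 * (I + 1) ≤ C := by
    intro n I
    have h1 : ∑ i ∈ Finset.range (I + 1), |κn n I| ^ 2 ≤
        ∑ i ∈ Finset.range (I + 1), κn n i ^ 2 := by
      refine Finset.sum_le_sum fun i hi => ?_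
      rw [← sq_abs (κn n i)]
      have : |κn n I| ≤ |κn n i| := hanti n (Nat.lt_succ_iff.mp (Finset.mem_range.mp hi))
      gcongr
    rw [Finset.sum_const, Finset.card_range, nsmul_eq_mul] at h1
    have := hpart n (I + 1)
    have := hC n
    push_cast at h1
    linarith
  have hκb2 : ∀ n I, |κn n I| ≤ Real.sqrt (C / (I + 1)) := by
    intro n I
    apply Real.le_sqrt_of_sq_le
    rw [le_div_iff₀ (by positivity)]
    exact hκb n I
  have hκlim : ∀ i, ∃ x, Tendsto (fun n => κn n i) (hyperfilter ℕ : Filter ℕ) (𝓝 x) :=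
    fun i => exists_ulim _ _ (fun n => hκb2 n i)
  choose κ hκ using hκlim
  have hub : ∀ a n i, |un n a i| ≤ Real.sqrt (Ca a) := by
    intro a n i
    apply Real.abs_le_sqrt
    have h1 := hpartu n a (i + 1)
    have h2 : un n a i ^ 2 ≤ ∑ j ∈ Finset.range (i + 1), un n a j ^ 2 :=
      Finset.single_le_sum (f := fun j => un n a j ^ 2) (fun j _ => sq_nonneg _)
        (Finset.mem_range.mpr (Nat.lt_succ_self i))
    exact le_trans h2 (le_trans h1 (hCa a n))
  have hulim : ∀ a i, ∃ x, Tendsto (fun n => un n a i) (hyperfilter ℕ : Filter ℕ) (𝓝 x) :=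
    fun a i => exists_ulim _ _ (fun n => hub a n i)
  choose u hu using hulim
  -- limiting partial sums
  have hκ2 : ∀ I, ∑ i ∈ Finset.range I, κ i ^ 2 ≤ T 2 := by
    intro I
    refine le_of_tendsto_of_tendsto (tendsto_finsetSum _ fun i _ => (hκ i).pow 2)
      ((hT 2 le_rfl).mono_left hyper_le) (Eventually.of_forall fun n => hpart n I)
  have hu2 : ∀ a I, ∑ i ∈ Finset.range I, u a i ^ 2 ≤ Ca a := by
    intro a I
    refine le_of_tendsto (tendsto_finsetSum _ fun i _ => (hu a i).pow 2)
      (Eventually.of_forall fun n => le_trans (hpartu n a I) (hCa a n))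
  have hsumκ : Summable fun i => κ i ^ 2 :=
    summable_of_sum_range_le (fun i => sq_nonneg _) hκ2
  have hsumu : ∀ a, Summable fun i => u a i ^ 2 := fun a =>
    summable_of_sum_range_le (fun i => sq_nonneg _) (hu2 a)
  have hantiκ : Antitone fun i => |κ i| := by
    intro i j hij
    exact le_of_tendsto_of_tendsto (hκ j).abs (hκ i).abs
      (Eventually.of_forall fun n => hanti n hij)
  have hsq0 : Tendsto (fun I : ℕ => Real.sqrt (C / (I + 1))) atTop (𝓝 0) := by
    have h1 : Tendsto (fun I : ℕ => C / ((I : ℝ) + 1)) atTop (𝓝 0) :=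
      tendsto_const_div_atTop_nhds_zero_nat C |>.comp (tendsto_add_atTop_nat 1) |>.congr
        (by intro I; simp)
    have h2 := (Real.continuous_sqrt.tendsto 0).comp h1
    rw [Real.sqrt_zero] at h2
    exact h2
  refine ⟨κ, u, hantiκ, hκ2, ?_, hsumu, ?_⟩
  · intro L hL
    obtain ⟨l, rfl⟩ : ∃ l, L = l + 3 := ⟨L - 3, by omega⟩
    have htail : ∀ n I, |(K n ^ (l + 3)).trace - ∑ i ∈ Finset.range I, κn n i ^ (l + 3)| ≤
        Real.sqrt (C / (I + 1)) ^ (l + 1) * C := by
      intro n I
      have h1 : HasSum (fun i => κn n (i + I) ^ (l + 3))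
          ((K n ^ (l + 3)).trace - ∑ i ∈ Finset.range I, κn n i ^ (l + 3)) :=
        (hasSum_nat_add_iff' I).mpr (hs1 n (l + 3) (by omega))
      have h2 : HasSum (fun i => Real.sqrt (C / (I + 1)) ^ (l + 1) * κn n (i + I) ^ 2)
          (Real.sqrt (C / (I + 1)) ^ (l + 1) *
            ((K n ^ 2).trace - ∑ i ∈ Finset.range I, κn n i ^ 2)) :=
        ((hasSum_nat_add_iff' I).mpr (hs1 n 2 (by omega))).mul_left _
      have h3 := h1.norm_le_of_bounded h2 (fun i => by
        rw [Real.norm_eq_abs, abs_pow, show l + 3 = (l + 1) + 2 by ring, pow_add, sq_abs]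
        have h4 : |κn n (i + I)| ≤ Real.sqrt (C / (I + 1)) :=
          le_trans (hanti n (Nat.le_add_left I i)) (hκb2 n I)
        gcongr)
      rw [Real.norm_eq_abs] at h3
      refine le_trans h3 ?_
      have h5 : (K n ^ 2).trace - ∑ i ∈ Finset.range I, κn n i ^ 2 ≤ C := by
        have := Finset.sum_nonneg (s := Finset.range I) (fun i _ => sq_nonneg (κn n i))
        have := hC n
        linarith
      gcongr
    have hlim : ∀ I : ℕ, |T (l + 3) - ∑ i ∈ Finset.range I, κ i ^ (l + 3)| ≤
        Real.sqrt (C / (I + 1)) ^ (l + 1) * C := by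
      intro I
      refine le_of_tendsto ((((hT (l + 3) (by omega)).mono_left hyper_le).sub
        (tendsto_finsetSum _ fun i _ => (hκ i).pow (l + 3))).abs)
        (Eventually.of_forall fun n => htail n I)
    have hsum : Summable fun i => κ i ^ (l + 3) := by
      refine Summable.of_norm_bounded (g := fun i => |κ 0| ^ (l + 1) * κ i ^ 2)
        (hsumκ.mul_left _) (fun i => ?_)
      rw [Real.norm_eq_abs, abs_pow, show l + 3 = (l + 1) + 2 by ring, pow_add, sq_abs]
      have h4 : |κ i| ≤ |κ 0| := hantiκ (Nat.zero_le i)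
      gcongr
    rw [hsum.hasSum_iff_tendsto_nat]
    have h0 : Tendsto (fun I : ℕ => Real.sqrt (C / (I + 1)) ^ (l + 1) * C) atTop (𝓝 0) := by
      have := (hsq0.pow (l + 1)).mul_const C
      simpa using this
    rw [tendsto_iff_norm_sub_tendsto_zero]
    refine squeeze_zero (fun _ => norm_nonneg _) (fun I => ?_) h0
    rw [Real.norm_eq_abs, abs_sub_comm]
    exact hlim I
  · intro a b j hj
    obtain ⟨l, rfl⟩ : ∃ l, j = l + 1 := ⟨j - 1, by omega⟩
    have huab : ∀ x y : ℝ, |x * y| ≤ (x ^ 2 + y ^ 2) / 2 := by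
      intro x y
      rw [abs_mul]
      nlinarith [sq_nonneg (|x| - |y|), sq_abs x, sq_abs y]
    have hs3 : ∀ n a, HasSum (fun i => un n a i ^ 2)
        (v n a ⬝ᵥ (K n ^ 0).mulVec (v n a)) := by
      intro n a
      have h := hs2 n a a 0
      have he : (fun i => un n a i * un n a i * κn n i ^ 0) = fun i => un n a i ^ 2 := by
        funext i; ring
      rw [he] at h; exact h
    have htail : ∀ n I, |v n a ⬝ᵥ (K n ^ (l + 1)).mulVec (v n b) -
        ∑ i ∈ Finset.range I, un n a i * un n b i * κn n i ^ (l + 1)| ≤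
        Real.sqrt (C / (I + 1)) ^ (l + 1) * ((Ca a + Ca b) / 2) := by
      intro n I
      have h1 := (hasSum_nat_add_iff' I).mpr (hs2 n a b (l + 1))
      have h2 := ((((hasSum_nat_add_iff' I).mpr (hs3 n a)).add
        ((hasSum_nat_add_iff' I).mpr (hs3 n b))).div_const 2).mul_left
          (Real.sqrt (C / (I + 1)) ^ (l + 1))
      have h3 := h1.norm_le_of_bounded h2 (fun i => by
        rw [Real.norm_eq_abs, abs_mul, abs_pow]
        have h4 : |κn n (i + I)| ≤ Real.sqrt (C / (I + 1)) :=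
          le_trans (hanti n (Nat.le_add_left I i)) (hκb2 n I)
        have h5 := huab (un n a (i + I)) (un n b (i + I))
        rw [mul_comm]
        gcongr)
      rw [Real.norm_eq_abs] at h3
      refine le_trans h3 ?_
      have h6 := hCa a n
      have h7 := hCa b n
      have h8 := Finset.sum_nonneg (s := Finset.range I) (fun i _ => sq_nonneg (un n a i))
      have h9 := Finset.sum_nonneg (s := Finset.range I) (fun i _ => sq_nonneg (un n b i))
      gcongr
      · linarith
      · linarith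
    have hlim : ∀ I : ℕ, |M a b (l + 1) - ∑ i ∈ Finset.range I, u a i * u b i * κ i ^ (l + 1)| ≤
        Real.sqrt (C / (I + 1)) ^ (l + 1) * ((Ca a + Ca b) / 2) := by
      intro I
      refine le_of_tendsto ((((hM a b (l + 1) (by omega)).mono_left hyper_le).sub
        (tendsto_finsetSum _ fun i _ => ((hu a i).mul (hu b i)).mul ((hκ i).pow (l + 1)))).abs)
        (Eventually.of_forall fun n => htail n I)
    have hsum : Summable fun i => u a i * u b i * κ i ^ (l + 1) := by
      refine Summable.of_norm_bounded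
        (g := fun i => |κ 0| ^ (l + 1) * ((u a i ^ 2 + u b i ^ 2) / 2))
        ((((hsumu a).add (hsumu b)).div_const 2).mul_left _) (fun i => ?_)
      rw [Real.norm_eq_abs, abs_mul, abs_pow, mul_comm]
      have h4 : |κ i| ≤ |κ 0| := hantiκ (Nat.zero_le i)
      have h5 := huab (u a i) (u b i)
      gcongr
    rw [hsum.hasSum_iff_tendsto_nat]
    have h0 : Tendsto (fun I : ℕ => Real.sqrt (C / (I + 1)) ^ (l + 1) * ((Ca a + Ca b) / 2))
        atTop (𝓝 0) := by
      have := (hsq0.pow (l + 1)).mul_const ((Ca a + Ca b) / 2)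
      simpa using this
    rw [tendsto_iff_norm_sub_tendsto_zero]
    refine squeeze_zero (fun _ => norm_nonneg _) (fun I => ?_) h0
    rw [Real.norm_eq_abs, abs_sub_comm]
    exact hlim I

end Crest.Agent.HGB
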