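import Mathlib
import Crest.Agent.HG_Defs

/-!
HGB_Zt (S0545/S0546 part B): invariance of `Zt` (= Re Tr (A exp(-βH))) under similarity and reindexing.

Hints: `Matrix.exp_conj` (for a unit `U`; build the unit from `U * W = 1`, `W * U = 1`) or the
similarity as a continuous algebra automorphism; cyclicity `Matrix.trace_mul_comm`.
Reindexing: `Matrix.reindexAlgEquiv` is a continuous algebra isomorphism, `NormedSpace.map_exp`-type
lemma (or `Matrix.exp_reindex`-like, or compare the power series entrywise), and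
`Matrix.trace` is invariant (`Equiv.sum_comp`).
-/

set_option autoImplicit false

namespace Crest.Agent.HGB
open Matrix Crest.Agent.HG

theorem Zt_conj {κ : Type*} [Fintype κ] [DecidableEq κ] (A H U W : Matrix κ κ ℂ)
    (hUW : U * W = 1) (β : ℝ) : Zt (U * A * W) (U * H * W) β = Zt A H β := by
  have hW : U⁻¹ = W := Matrix.inv_eq_right_inv hUW
  have hWU : W * U = 1 := mul_eq_one_comm.1 hUW
  have hU : IsUnit U := ⟨⟨U, W, hUW, hWU⟩, rfl⟩
  have h1 : (-(β : ℂ)) • (U * H * W) = U * ((-(β : ℂ)) • H) * U⁻¹ := by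
    rw [hW, Matrix.mul_smul, Matrix.smul_mul]
  unfold Zt
  rw [h1, Matrix.exp_conj U _ hU, hW]
  have h2 : U * A * W * (U * NormedSpace.exp ((-(β : ℂ)) • H) * W) =
      U * (A * NormedSpace.exp ((-(β : ℂ)) • H)) * W := by
    calc U * A * W * (U * NormedSpace.exp ((-(β : ℂ)) • H) * W)
        = U * A * (W * U) * NormedSpace.exp ((-(β : ℂ)) • H) * W := by
          simp only [Matrix.mul_assoc]
      _ = U * (A * NormedSpace.exp ((-(β : ℂ)) • H)) * W := by
          rw [hWU, Matrix.mul_one]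
          simp only [Matrix.mul_assoc]
  rw [h2, Matrix.trace_mul_comm, ← Matrix.mul_assoc, hWU, Matrix.one_mul]

theorem exp_reindex {κ κ' : Type*} [Fintype κ] [DecidableEq κ] [Fintype κ'] [DecidableEq κ']
    (e : κ ≃ κ') (A : Matrix κ κ ℂ) :
    NormedSpace.exp (Matrix.reindex e e A) = Matrix.reindex e e (NormedSpace.exp A) := by
  have h1 : ∀ B : Matrix κ κ ℂ, NormedSpace.exp B = ∑' n : ℕ, ((n.factorial : ℂ)⁻¹) • B ^ n := by
    intro B
    rw [NormedSpace.exp_eq_tsum ℂ]
  have h2 : ∀ B : Matrix κ' κ' ℂ, NormedSpace.exp B = ∑' n : ℕ, ((n.factorial : ℂ)⁻¹) • B ^ n := by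
    intro B
    rw [NormedSpace.exp_eq_tsum ℂ]
  rw [h1, h2]
  have h3 := ContinuousLinearEquiv.map_tsum (L := SummationFilter.unconditional ℕ)
    (Matrix.reindexLinearEquiv ℂ ℂ e e).toContinuousLinearEquiv
    (f := fun n : ℕ => ((n.factorial : ℂ)⁻¹) • A ^ n)
  refine Eq.trans ?_ h3.symm
  refine tsum_congr fun n => ?_
  show ((n.factorial : ℂ)⁻¹) • (Matrix.reindex e e A) ^ n =
    Matrix.reindexAlgEquiv ℂ ℂ e (((n.factorial : ℂ)⁻¹) • A ^ n)
  rw [map_smul, map_pow]
  rfl

theorem Zt_reindex {κ κ' : Type*} [Fintype κ] [DecidableEq κ] [Fintype κ'] [DecidableEq κ']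
    (e : κ ≃ κ') (A H : Matrix κ κ ℂ) (β : ℝ) :
    Zt (Matrix.reindex e e A) (Matrix.reindex e e H) β = Zt A H β := by
  unfold Zt
  have h1 : (-(β : ℂ)) • Matrix.reindex e e H = Matrix.reindex e e ((-(β : ℂ)) • H) := by
    ext i j
    simp
  rw [h1, exp_reindex]
  have h2 : Matrix.reindex e e A * Matrix.reindex e e (NormedSpace.exp ((-(β : ℂ)) • H)) =
      Matrix.reindex e e (A * NormedSpace.exp ((-(β : ℂ)) • H)) := by
    rw [← Matrix.coe_reindexAlgEquiv (R := ℂ), ← map_mul]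
  rw [h2]
  congr 1
  simp only [Matrix.trace, Matrix.diag, Matrix.reindex_apply, Matrix.submatrix_apply]
  exact Equiv.sum_comp e.symm (fun i => (A * NormedSpace.exp ((-(β : ℂ)) • H)) i i)

end Crest.Agent.HGB
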