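import Mathlib
import Crest.Agent.HGB_Site
import Crest.Agent.HGB_Tens
import Crest.Agent.HGB_Zt

/-!
HGB_Open (S0545/S0546 part B): the open chain with end fields, `m+3` sites, seen as a chain with
`m+1` bulk sites whose first and last sites are the "ends" (`d = 3`, `e = spinOp`, `F = Fz h`).

`openS_reindex`: `e : (Fin (m+3) → Fin 3) ≃ Fin 3 × (Fin (m+1) → Fin 3) × Fin 3`,
`σ ↦ (σ 0, (fun j => σ j.castSucc.succ), σ (last))` (inverse `Fin.cons a (Fin.snoc f b)`), e.g.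
`(Fin.consEquiv ..).symm` and `(Fin.snocEquiv ..).symm`; entrywise with the definition of
`endChain` (spelled out in HG_Defs) and `openS`: split off the first and the last bond
(`Fin.sum_univ_succ`, `Fin.sum_univ_castSucc`); a bond is `∑ a, onSite S^a j * onSite S^a k` and
its entries are (for `j ≠ k`, `onSite_mul_onSite`/`tens` entries are products over the sites).
Then `Vo`, `VoZ` by `Zt_reindex` (`RN 2 = tens (R1 2)`, `1 = tens 1`).
-/

set_option autoImplicit false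

namespace Crest.Agent.HGB
open Matrix Crest.MathPhysics.SpinChain Crest.Agent.HG
open scoped Kronecker

/-- splitting off the first and the last site -/
private def ocE (m : ℕ) : (Fin (m + 2 + 1) → Fin 3) ≃ Fin 3 × (Fin (m + 1) → Fin 3) × Fin 3 where
  toFun σ := (σ 0, (fun j => σ j.castSucc.succ), σ (Fin.last (m + 1)).succ)
  invFun x := Fin.cons x.1 (Fin.snoc (α := fun _ => Fin 3) x.2.1 x.2.2)
  left_inv σ := by
    funext i
    refine Fin.cases ?_ (fun i => ?_) i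
    · rfl
    · refine Fin.lastCases ?_ (fun i => ?_) i
      · simp only [Fin.cons_succ, Fin.snoc_last]
      · simp only [Fin.cons_succ, Fin.snoc_castSucc]
  right_inv x := by
    obtain ⟨a, f, b⟩ := x
    simp only [Fin.cons_zero, Fin.cons_succ, Fin.snoc_castSucc, Fin.snoc_last]

private theorem oc_tens (m : ℕ) (A : Fin (m + 2 + 1) → Matrix (Fin 3) (Fin 3) ℂ) :
    Matrix.reindex (ocE m) (ocE m) (tens A) =
      A 0 ⊗ₖ (tens (fun j : Fin (m + 1) => A j.castSucc.succ) ⊗ₖ A (Fin.last (m + 1)).succ) := by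
  ext ⟨a, f, b⟩ ⟨a', f', b'⟩
  simp only [Matrix.reindex_apply, Matrix.submatrix_apply, Matrix.kroneckerMap_apply, tens,
    Matrix.of_apply, ocE, Equiv.coe_fn_symm_mk]
  rw [Fin.prod_univ_succ, Fin.prod_univ_castSucc]
  simp only [Fin.cons_zero, Fin.cons_succ, Fin.snoc_castSucc, Fin.snoc_last]

private theorem oc_cs_inj (m : ℕ) :
    Function.Injective (fun j : Fin (m + 1) => (j.castSucc.succ : Fin (m + 2 + 1))) := by
  intro i j hij
  simpa using hij

private theorem oc_ne0 (m : ℕ) (j : Fin (m + 1)) : (j.castSucc.succ : Fin (m + 2 + 1)) ≠ 0 :=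
  Fin.succ_ne_zero _

private theorem oc_nel (m : ℕ) (j : Fin (m + 1)) :
    (j.castSucc.succ : Fin (m + 2 + 1)) ≠ (Fin.last (m + 1)).succ := by
  intro h
  have := Fin.succ_injective _ h
  exact (Fin.castSucc_lt_last j).ne this

private theorem oc_first (m : ℕ) (A : Matrix (Fin 3) (Fin 3) ℂ) :
    Matrix.reindex (ocE m) (ocE m) (onSite A (0 : Fin (m + 2 + 1))) =
      A ⊗ₖ ((1 : Matrix (Fin (m + 1) → Fin 3) (Fin (m + 1) → Fin 3) ℂ) ⊗ₖ
        (1 : Matrix (Fin 3) (Fin 3) ℂ)) := by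
  rw [onSite_eq_tens, oc_tens, Function.update_self, Function.update_comp_eq_of_forall_ne' _ _
    (oc_ne0 m), Function.update_of_ne (Fin.succ_ne_zero _), tens_one]

private theorem oc_last (m : ℕ) (A : Matrix (Fin 3) (Fin 3) ℂ) :
    Matrix.reindex (ocE m) (ocE m) (onSite A (Fin.last (m + 1)).succ) =
      (1 : Matrix (Fin 3) (Fin 3) ℂ) ⊗ₖ
        ((1 : Matrix (Fin (m + 1) → Fin 3) (Fin (m + 1) → Fin 3) ℂ) ⊗ₖ A) := by
  rw [onSite_eq_tens, oc_tens, Function.update_self, Function.update_comp_eq_of_forall_ne' _ _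
    (oc_nel m), Function.update_of_ne (Fin.succ_ne_zero _).symm, tens_one]

private theorem oc_firstbond (m : ℕ) (A B : Matrix (Fin 3) (Fin 3) ℂ) :
    Matrix.reindex (ocE m) (ocE m) (onSite A (0 : Fin (m + 2 + 1)) *
      onSite B ((0 : Fin (m + 1)).castSucc.succ)) =
      A ⊗ₖ (onSite B (0 : Fin (m + 1)) ⊗ₖ (1 : Matrix (Fin 3) (Fin 3) ℂ)) := by
  rw [onSite_mul_onSite A B (oc_ne0 m 0).symm, oc_tens,
    Function.update_of_ne (oc_ne0 m 0).symm, Function.update_self,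
    Function.update_of_ne (oc_nel m 0).symm, Function.update_of_ne (Fin.succ_ne_zero _),
    Function.update_comp_eq_of_injective' _ (oc_cs_inj m), onSite_eq_tens,
    Function.update_comp_eq_of_forall_ne' _ _ (oc_ne0 m)]

private theorem oc_lastbond (m : ℕ) (A B : Matrix (Fin 3) (Fin 3) ℂ) :
    Matrix.reindex (ocE m) (ocE m) (onSite A ((Fin.last m).castSucc.succ : Fin (m + 2 + 1)) *
      onSite B (Fin.last (m + 1)).succ) =
      (1 : Matrix (Fin 3) (Fin 3) ℂ) ⊗ₖ (onSite A (Fin.last m) ⊗ₖ B) := by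
  rw [onSite_mul_onSite A B (oc_nel m _), oc_tens,
    Function.update_of_ne (Fin.succ_ne_zero _).symm, Function.update_self,
    Function.update_of_ne (oc_ne0 m _).symm,
    Function.update_comp_eq_of_forall_ne' _ _ (oc_nel m),
    Function.update_comp_eq_of_injective' _ (oc_cs_inj m), onSite_eq_tens]

private theorem oc_midbond (m : ℕ) (A B : Matrix (Fin 3) (Fin 3) ℂ) (i j : Fin (m + 1))
    (hij : i ≠ j) :
    Matrix.reindex (ocE m) (ocE m) (onSite A (i.castSucc.succ : Fin (m + 2 + 1)) *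
      onSite B j.castSucc.succ) =
      (1 : Matrix (Fin 3) (Fin 3) ℂ) ⊗ₖ ((onSite A i * onSite B j) ⊗ₖ
        (1 : Matrix (Fin 3) (Fin 3) ℂ)) := by
  rw [onSite_mul_onSite A B (fun h => hij (oc_cs_inj m h)), oc_tens,
    Function.update_of_ne (oc_ne0 m _).symm, Function.update_of_ne (oc_ne0 m _).symm,
    Function.update_of_ne (oc_nel m _).symm, Function.update_of_ne (oc_nel m _).symm,
    Function.update_comp_eq_of_injective' _ (oc_cs_inj m),
    Function.update_comp_eq_of_injective' _ (oc_cs_inj m), onSite_mul_onSite A B hij]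

private theorem oc_endChain {d d' : ℕ} (e : Fin 3 → Matrix (Fin d) (Fin d) ℂ)
    (F : Matrix (Fin d) (Fin d) ℂ) (e' : Fin 3 → Matrix (Fin d') (Fin d') ℂ)
    (F' : Matrix (Fin d') (Fin d') ℂ) (n : ℕ) :
    endChain e F e' F' n =
      F ⊗ₖ ((1 : Matrix (Fin (n + 1) → Fin 3) (Fin (n + 1) → Fin 3) ℂ) ⊗ₖ
        (1 : Matrix (Fin d') (Fin d') ℂ)) +
      (1 : Matrix (Fin d) (Fin d) ℂ) ⊗ₖ
        ((1 : Matrix (Fin (n + 1) → Fin 3) (Fin (n + 1) → Fin 3) ℂ) ⊗ₖ F') +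
      (1 : Matrix (Fin d) (Fin d) ℂ) ⊗ₖ
        ((∑ j : Fin n, bond (Fin.castSucc j) (Fin.succ j)) ⊗ₖ (1 : Matrix (Fin d') (Fin d') ℂ)) +
      ∑ a, e a ⊗ₖ (onSite (spinOp a) (0 : Fin (n + 1)) ⊗ₖ (1 : Matrix (Fin d') (Fin d') ℂ)) +
      ∑ a, (1 : Matrix (Fin d) (Fin d) ℂ) ⊗ₖ (onSite (spinOp a) (Fin.last n) ⊗ₖ e' a) := by
  ext ⟨a, f, b⟩ ⟨a', f', b'⟩
  simp only [endChain, Matrix.of_apply, Matrix.add_apply, Matrix.kroneckerMap_apply,
    Matrix.sum_apply, Matrix.one_apply, Prod.mk.injEq]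
  congr 1
  · congr 1
    · congr 1
      · congr 1
        · split_ifs <;> simp_all
        · split_ifs <;> simp_all
      · split_ifs <;> simp_all
    · split_ifs <;> simp_all
  · split_ifs <;> simp_all

theorem openS_reindex (m : ℕ) :
    ∃ e : (Fin (m + 2 + 1) → Fin 3) ≃ Fin 3 × (Fin (m + 1) → Fin 3) × Fin 3,
      (∀ s h : ℝ, Matrix.reindex e e (openS s (m + 2) h) =
        endChain spinOp (Fz h) spinOp (Fz (h * s)) m) ∧
      ∀ A : Matrix (Fin 3) (Fin 3) ℂ,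
        Matrix.reindex e e (tens (fun _ : Fin (m + 2 + 1) => A)) =
          A ⊗ₖ (tens (fun _ : Fin (m + 1) => A) ⊗ₖ A) := by
  refine ⟨ocE m, fun s h => ?_, fun A => oc_tens m _⟩
  have hsum : ∀ {ι : Type} (t : Finset ι)
      (M : ι → Matrix (Fin (m + 2 + 1) → Fin 3) (Fin (m + 2 + 1) → Fin 3) ℂ),
      Matrix.reindex (ocE m) (ocE m) (∑ i ∈ t, M i) =
        ∑ i ∈ t, Matrix.reindex (ocE m) (ocE m) (M i) := by
    intro ι t M
    ext x y
    simp only [Matrix.reindex_apply, Matrix.submatrix_apply, Matrix.sum_apply]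
  have hsub : ∀ M M' : Matrix (Fin (m + 2 + 1) → Fin 3) (Fin (m + 2 + 1) → Fin 3) ℂ,
      Matrix.reindex (ocE m) (ocE m) (M - M') =
        Matrix.reindex (ocE m) (ocE m) M - Matrix.reindex (ocE m) (ocE m) M' := fun _ _ => rfl
  have hadd : ∀ M M' : Matrix (Fin (m + 2 + 1) → Fin 3) (Fin (m + 2 + 1) → Fin 3) ℂ,
      Matrix.reindex (ocE m) (ocE m) (M + M') =
        Matrix.reindex (ocE m) (ocE m) M + Matrix.reindex (ocE m) (ocE m) M' := fun _ _ => rfl
  have hsmul : ∀ (z : ℂ) (M : Matrix (Fin (m + 2 + 1) → Fin 3) (Fin (m + 2 + 1) → Fin 3) ℂ),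
      Matrix.reindex (ocE m) (ocE m) (z • M) =
        z • Matrix.reindex (ocE m) (ocE m) M := fun _ _ => rfl
  have hlast : Fin.last (m + 2) = (Fin.last (m + 1)).succ := rfl
  have hb0 : Matrix.reindex (ocE m) (ocE m)
      (bond (Fin.castSucc (0 : Fin (m + 2))) (Fin.succ (0 : Fin (m + 2)))) =
      ∑ a, spinOp a ⊗ₖ (onSite (spinOp a) (0 : Fin (m + 1)) ⊗ₖ
        (1 : Matrix (Fin 3) (Fin 3) ℂ)) := by
    have c1 : (Fin.castSucc (0 : Fin (m + 2)) : Fin (m + 2 + 1)) = 0 := rfl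
    have c2 : (Fin.succ (0 : Fin (m + 2)) : Fin (m + 2 + 1)) = (0 : Fin (m + 1)).castSucc.succ := by
      ext; simp
    rw [c1, c2]
    unfold bond
    rw [hsum]
    exact Finset.sum_congr rfl fun a _ => oc_firstbond m _ _
  have hbl : Matrix.reindex (ocE m) (ocE m)
      (bond (Fin.castSucc (Fin.last m).succ) (Fin.succ (Fin.last m).succ)) =
      ∑ a, (1 : Matrix (Fin 3) (Fin 3) ℂ) ⊗ₖ (onSite (spinOp a) (Fin.last m) ⊗ₖ spinOp a) := by
    have c1 : (Fin.castSucc (Fin.last m).succ : Fin (m + 2 + 1)) = (Fin.last m).castSucc.succ := by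
      ext; simp
    have c2 : (Fin.succ (Fin.last m).succ : Fin (m + 2 + 1)) = (Fin.last (m + 1)).succ := by
      ext; simp
    rw [c1, c2]
    unfold bond
    rw [hsum]
    exact Finset.sum_congr rfl fun a _ => oc_lastbond m _ _
  have hbm : ∀ k : Fin m, Matrix.reindex (ocE m) (ocE m)
      (bond (Fin.castSucc (k.castSucc).succ) (Fin.succ (k.castSucc).succ)) =
      (1 : Matrix (Fin 3) (Fin 3) ℂ) ⊗ₖ (bond (Fin.castSucc k) (Fin.succ k) ⊗ₖ
        (1 : Matrix (Fin 3) (Fin 3) ℂ)) := by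
    intro k
    have hne : (k.castSucc : Fin (m + 1)) ≠ k.succ := by
      intro h
      have := congrArg Fin.val h
      simp at this
    have c1 : (Fin.castSucc (k.castSucc).succ : Fin (m + 2 + 1)) =
        (k.castSucc).castSucc.succ := by
      ext; simp
    have c2 : (Fin.succ (k.castSucc).succ : Fin (m + 2 + 1)) = (k.succ).castSucc.succ := by
      ext; simp
    rw [c1, c2]
    have e1 : ∀ a : Fin 3, Matrix.reindex (ocE m) (ocE m)
        (onSite (spinOp a) (k.castSucc).castSucc.succ *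
          onSite (spinOp a) (k.succ).castSucc.succ) =
        (1 : Matrix (Fin 3) (Fin 3) ℂ) ⊗ₖ ((onSite (spinOp a) k.castSucc *
          onSite (spinOp a) k.succ) ⊗ₖ (1 : Matrix (Fin 3) (Fin 3) ℂ)) := fun a =>
      oc_midbond m _ _ _ _ hne
    unfold bond
    rw [hsum]
    simp only [e1]
    ext ⟨a, f, b⟩ ⟨a', f', b'⟩
    simp only [Matrix.sum_apply, Matrix.kroneckerMap_apply, Finset.mul_sum, Finset.sum_mul]
  unfold openS
  rw [hsub, hsum, Fin.sum_univ_succ, Fin.sum_univ_castSucc, hb0, hbl, hsmul, hadd, hsmul, hlast,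
    oc_first, oc_last, oc_endChain]
  simp only [hbm]
  have e2 : (∑ k : Fin m, (1 : Matrix (Fin 3) (Fin 3) ℂ) ⊗ₖ
      (bond (Fin.castSucc k) (Fin.succ k) ⊗ₖ (1 : Matrix (Fin 3) (Fin 3) ℂ))) =
      (1 : Matrix (Fin 3) (Fin 3) ℂ) ⊗ₖ ((∑ k : Fin m, bond (Fin.castSucc k) (Fin.succ k)) ⊗ₖ
        (1 : Matrix (Fin 3) (Fin 3) ℂ)) := by
    ext ⟨a, f, b⟩ ⟨a', f', b'⟩
    simp only [Matrix.sum_apply, Matrix.kroneckerMap_apply, Finset.mul_sum, Finset.sum_mul]
  rw [e2]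
  unfold Fz
  ext x y
  simp only [Matrix.add_apply, Matrix.sub_apply, Matrix.smul_apply, Matrix.kroneckerMap_apply,
    smul_eq_mul]
  push_cast
  ring

theorem Vo_eq (s : ℝ) (m : ℕ) (β : ℝ) : Vo s (m + 3) β =
    (Matrix.trace (((1 : Matrix (Fin 3) (Fin 3) ℂ) ⊗ₖ
      (tens (fun _ : Fin (m + 1) => (1 : Matrix (Fin 3) (Fin 3) ℂ)) ⊗ₖ
        (1 : Matrix (Fin 3) (Fin 3) ℂ))) *
        NormedSpace.exp (-(β : ℂ) •
          endChain spinOp (Fz (3 / 5)) spinOp (Fz (3 / 5 * s)) m))).re := by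
  obtain ⟨e, he1, he2⟩ := openS_reindex m
  have h := Zt_reindex e (1 : Matrix (Fin (m + 2 + 1) → Fin 3) (Fin (m + 2 + 1) → Fin 3) ℂ)
    (openS s (m + 2) (3 / 5)) β
  have h1 : (1 : Matrix (Fin (m + 2 + 1) → Fin 3) (Fin (m + 2 + 1) → Fin 3) ℂ) =
      tens (fun _ => 1) := tens_one.symm
  rw [he1, h1, he2, ← h1] at h
  exact h.symm

theorem VoZ_eq (s : ℝ) (m : ℕ) (β : ℝ) : VoZ s (m + 3) β =
    (Matrix.trace ((R1 2 ⊗ₖ (tens (fun _ : Fin (m + 1) => R1 2) ⊗ₖ R1 2)) *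
        NormedSpace.exp (-(β : ℂ) •
          endChain spinOp (Fz (3 / 5)) spinOp (Fz (3 / 5 * s)) m))).re := by
  obtain ⟨e, he1, he2⟩ := openS_reindex m
  have h := Zt_reindex e (RN 2 : Matrix (Fin (m + 2 + 1) → Fin 3) (Fin (m + 2 + 1) → Fin 3) ℂ)
    (openS s (m + 2) (3 / 5)) β
  rw [RN_eq_tens, he1, he2, ← RN_eq_tens] at h
  exact h.symm

end Crest.Agent.HGB
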