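import Mathlib
import Crest.Agent.HGB_Site
import Crest.Agent.HGB_Conj

/-!
HGB_Real (S0545/S0546 part B): reality and symmetry of the space transfer matrix and of the end
vectors.

`Kr_symm`: `Bsite c c' = Bsite c' c`.
`Kc_real`: conjugate the trace with `conj_trace_prod`; `(Bsite c c').map conj = R_y Bsite c c' R_y`
(`map_conj_I_spinOp`, `R_y R_y = 1`), `V.map conj = V`, `R_y V R_y = V` (`R1_comm`), and
`trace_conj_prod` with `U = W = R1 1`.  So `conj (Kc …) = Kc …`.
`half_real`: the same with `U = Ph 1`, `W = -Ph 1`; `eHalf a` is a REAL multiple of `halfOp a`,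
`F = 0`.
`open_conj`: `(1 - τ • Fz h).map conj = 1 - τ • Fz h = R_y (1 - τ • Fz (-h)) R_y`.
-/

set_option autoImplicit false

namespace Crest.Agent.HGB
open Matrix Crest.MathPhysics.SpinChain Crest.Agent.HG

private theorem real_Bsite_symm (c c' : Fin 4) : Bsite c c' = Bsite c' c := by
  unfold Bsite
  rw [add_comm]

private theorem real_map_mul {κ : Type*} [Fintype κ] [DecidableEq κ] (A B : Matrix κ κ ℂ) :
    (A * B).map (starRingEnd ℂ) = A.map (starRingEnd ℂ) * B.map (starRingEnd ℂ) := by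
  ext i j
  simp [Matrix.mul_apply]

private theorem real_map_one {κ : Type*} [Fintype κ] [DecidableEq κ] :
    (1 : Matrix κ κ ℂ).map (starRingEnd ℂ) = 1 := by
  simp

private theorem real_map_smul {κ : Type*} [Fintype κ] [DecidableEq κ] (r : ℂ) (A : Matrix κ κ ℂ) :
    (r • A).map (starRingEnd ℂ) = (starRingEnd ℂ r) • A.map (starRingEnd ℂ) := by
  ext i j
  simp [Matrix.map_apply]

private theorem real_map_add {κ : Type*} [Fintype κ] [DecidableEq κ] (A B : Matrix κ κ ℂ) :
    (A + B).map (starRingEnd ℂ) = A.map (starRingEnd ℂ) + B.map (starRingEnd ℂ) := by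
  ext i j
  simp [Matrix.map_apply]

private theorem real_map_sub {κ : Type*} [Fintype κ] [DecidableEq κ] (A B : Matrix κ κ ℂ) :
    (A - B).map (starRingEnd ℂ) = A.map (starRingEnd ℂ) - B.map (starRingEnd ℂ) := by
  ext i j
  simp [Matrix.map_apply]

private theorem real_Mlab (c : Fin 4) : (Mlab c).map (starRingEnd ℂ) = R1 1 * Mlab c * R1 1 := by
  refine Fin.cases ?_ (fun a => ?_) c
  · unfold Mlab
    simp only [Fin.cases_zero]
    rw [real_map_one, mul_one, R1_mul_self]
  · unfold Mlab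
    simp only [Fin.cases_succ]
    exact map_conj_I_spinOp a

private theorem real_Bsite (c c' : Fin 4) : (Bsite c c').map (starRingEnd ℂ) = R1 1 * Bsite c c' * R1 1 := by
  have h := R1_mul_self 1
  have h2 : ∀ A B : Matrix (Fin 3) (Fin 3) ℂ, R1 1 * A * R1 1 * (R1 1 * B * R1 1) = R1 1 * (A * B) * R1 1 := by
    intro A B
    calc R1 1 * A * R1 1 * (R1 1 * B * R1 1) = R1 1 * A * (R1 1 * R1 1) * B * R1 1 := by noncomm_ring
      _ = R1 1 * (A * B) * R1 1 := by rw [h]; noncomm_ring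
  unfold Bsite
  rw [real_map_smul, real_map_add, real_map_mul, real_map_mul, real_Mlab, real_Mlab, h2, h2]
  have h3 : (starRingEnd ℂ) (1 / 2 : ℂ) = 1 / 2 := by
    rw [map_div₀, map_one]
    congr 1
    exact Complex.conj_ofNat 2
  rw [h3, mul_smul_comm, smul_mul_assoc, mul_add, add_mul]

private theorem real_R_back (A : Matrix (Fin 3) (Fin 3) ℂ) : R1 1 * (R1 1 * A * R1 1) * R1 1 = A := by
  calc R1 1 * (R1 1 * A * R1 1) * R1 1 = (R1 1 * R1 1) * A * (R1 1 * R1 1) := by noncomm_ring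
    _ = A := by rw [R1_mul_self, one_mul, mul_one]

private theorem real_V (V : Matrix (Fin 3) (Fin 3) ℂ) (hV : V = 1 ∨ V = R1 2) :
    V.map (starRingEnd ℂ) = V ∧ R1 1 * V * R1 1 = V := by
  rcases hV with rfl | rfl
  · exact ⟨real_map_one, by rw [mul_one, R1_mul_self]⟩
  · refine ⟨map_conj_R1 2, ?_⟩
    rw [R1_comm 1 2, mul_assoc, R1_mul_self, mul_one]

private theorem real_trace3 (V : Matrix (Fin 3) (Fin 3) ℂ) (hV : V = 1 ∨ V = R1 2) {n : ℕ}
    (A B : Fin n → Matrix (Fin 3) (Fin 3) ℂ) (h : ∀ t, (A t).map (starRingEnd ℂ) = R1 1 * B t * R1 1) :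
    starRingEnd ℂ (Matrix.trace (V * (List.ofFn A).prod)) = Matrix.trace (V * (List.ofFn B).prod) := by
  obtain ⟨h1, h2⟩ := real_V V hV
  rw [conj_trace_prod, h1]
  have h3 := trace_conj_prod (R1 1) (R1 1) V (R1_mul_self 1) (R1_mul_self 1) 1 (by rw [h2, one_smul])
    (fun t => (A t).map (starRingEnd ℂ)) B (fun _ => 1) (fun t => by
      rw [h t, real_R_back, one_smul])
  rw [h3]
  simp

theorem Kr_symm (V : Matrix (Fin 3) (Fin 3) ℂ) (n : ℕ) (τ : ℝ) : (Kr V n τ).IsSymm := by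
  ext a b
  simp only [Matrix.transpose_apply, Kr, Kc, Matrix.of_apply]
  congr 2
  · apply Finset.prod_congr rfl
    intro t _
    rw [mul_comm]
  · congr 3
    congr 1
    funext t
    exact real_Bsite_symm _ _

theorem Kc_real (V : Matrix (Fin 3) (Fin 3) ℂ) (hV : V = 1 ∨ V = R1 2) (n : ℕ) (τ : ℝ)
    (a b : Fin n → Fin 4) : Kc V n τ a b = ((Kr V n τ a b : ℝ) : ℂ) := by
  have h : starRingEnd ℂ (Kc V n τ a b) = Kc V n τ a b := by
    simp only [Kc, Matrix.of_apply]
    rw [map_mul, real_trace3 V hV (fun t => Bsite (a t) (b t)) (fun t => Bsite (a t) (b t))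
      (fun t => real_Bsite _ _), map_prod]
    congr 1
    apply Finset.prod_congr rfl
    intro t _
    rw [map_mul, Complex.conj_ofReal, Complex.conj_ofReal]
  exact (Complex.conj_eq_iff_re.mp h).symm

theorem half_real (V : Matrix (Fin 2) (Fin 2) ℂ) (hV : V = 1 ∨ V = Vhz) (n : ℕ) (τ : ℝ)
    (a : Fin n → Fin 4) : starRingEnd ℂ (vc V eHalf 0 n τ a) = vc V eHalf 0 n τ a := by
  have hE : ∀ c : Fin 4, (Eend eHalf 0 τ c).map (starRingEnd ℂ) = Ph 1 * Eend eHalf 0 τ c * (-(Ph 1)) := by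
    intro c
    refine Fin.cases ?_ (fun k => ?_) c
    · simp only [Eend, Fin.cases_zero]
      rw [smul_zero, sub_zero, real_map_one, mul_one, mul_neg, Ph_mul_self, neg_neg]
    · simp only [Eend, Fin.cases_succ, eHalf]
      rw [smul_comm, real_map_smul, map_conj_I_half, Complex.conj_ofReal]
      simp only [mul_smul_comm, smul_mul_assoc]
  have hPP : Ph 1 * (-(Ph 1)) = 1 := by rw [mul_neg, Ph_mul_self, neg_neg]
  have hPP' : (-(Ph 1)) * Ph 1 = 1 := by rw [neg_mul, Ph_mul_self, neg_neg]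
  have hback : ∀ A : Matrix (Fin 2) (Fin 2) ℂ, Ph 1 * (Ph 1 * A * (-(Ph 1))) * (-(Ph 1)) = A := by
    intro A
    calc Ph 1 * (Ph 1 * A * (-(Ph 1))) * (-(Ph 1)) = (Ph 1 * Ph 1) * A * (Ph 1 * Ph 1) := by noncomm_ring
      _ = A := by rw [Ph_mul_self]; noncomm_ring
  obtain ⟨z, hz, hV1, hV2⟩ : ∃ z : ℂ, z * z = 1 ∧ V.map (starRingEnd ℂ) = z • V ∧ Ph 1 * V * (-(Ph 1)) = z • V := by
    rcases hV with rfl | rfl
    · exact ⟨1, by ring, by rw [real_map_one, one_smul], by rw [mul_one, hPP, one_smul]⟩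
    · have h1 := Ph_conj_Vhz 1
      have h2 : ((sg 1 2 : ℝ) : ℂ) = -1 := by
        unfold sg
        simp
      rw [h2] at h1
      exact ⟨-1, by ring, by rw [map_conj_Vhz, h1], h1⟩
  have h3 := trace_conj_prod (Ph 1) (-(Ph 1)) V hPP hPP' z hV2
    (fun t => (Eend eHalf 0 τ (a t)).map (starRingEnd ℂ)) (fun t => Eend eHalf 0 τ (a t)) (fun _ => 1) (fun t => by
      rw [hE, hback, one_smul])
  unfold vc
  rw [map_mul, map_prod, conj_trace_prod, hV1, smul_mul_assoc, Matrix.trace_smul, h3]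
  congr 1
  · apply Finset.prod_congr rfl
    intro t _
    rw [Complex.conj_ofReal]
  · simp only [Finset.prod_const_one, mul_one, smul_eq_mul]
    rw [← mul_assoc, hz, one_mul]

theorem open_conj (V : Matrix (Fin 3) (Fin 3) ℂ) (hV : V = 1 ∨ V = R1 2) (h : ℝ) (n : ℕ) (τ : ℝ)
    (a : Fin n → Fin 4) :
    starRingEnd ℂ (vc V spinOp (Fz h) n τ a) = vc V spinOp (Fz (-h)) n τ a := by
  have hF : ∀ h : ℝ, R1 1 * Fz h * R1 1 = Fz (-h) := by
    intro h
    have h1 := R1_conj_spinOp 1 2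
    have h2 : ((sg 1 2 : ℝ) : ℂ) = -1 := by
      unfold sg
      simp
    have h3 : spinOp 2 = spinZ := rfl
    rw [h2, h3] at h1
    unfold Fz
    rw [mul_smul_comm, smul_mul_assoc, h1, smul_smul]
    congr 1
    push_cast
    ring
  have hZ : spinZ.map (starRingEnd ℂ) = spinZ := by
    ext i j
    simp only [spinZ, Matrix.map_apply, Matrix.diagonal_apply]
    split_ifs with hij
    · simp
    · simp
  have hE : ∀ c : Fin 4, (Eend spinOp (Fz h) τ c).map (starRingEnd ℂ) = R1 1 * Eend spinOp (Fz (-h)) τ c * R1 1 := by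
    intro c
    refine Fin.cases ?_ (fun k => ?_) c
    · simp only [Eend, Fin.cases_zero]
      rw [real_map_sub, real_map_one, mul_sub, sub_mul, mul_one, R1_mul_self, mul_smul_comm, smul_mul_assoc, hF,
        neg_neg, real_map_smul, Complex.conj_ofReal]
      congr 2
      unfold Fz
      rw [real_map_smul, hZ, map_neg, Complex.conj_ofReal]
    · simp only [Eend, Fin.cases_succ]
      exact map_conj_I_spinOp k
  unfold vc
  rw [map_mul, map_prod, real_trace3 V hV (fun t => Eend spinOp (Fz h) τ (a t)) (fun t => Eend spinOp (Fz (-h)) τ (a t))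
    (fun t => hE _)]
  congr 1
  apply Finset.prod_congr rfl
  intro t _
  rw [Complex.conj_ofReal]

end Crest.Agent.HGB
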