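import Mathlib
import Crest.Agent.HGB_Site
import Crest.Agent.HGB_Tens
import Crest.Agent.HGB_Zt

/-!
HGB_Sym (S0545/S0546 part B): spin rotation symmetry of the (twisted) ring partition functions.

`ringH_conj`: conjugation by `tens U` permutes the spin axes: `tens_conj_onSite`, insert
`tens W * tens U = 1` between the two one-site matrices (`tens_mul`, `tens_one`).
With `exists_cyc` (`p a = a + 1`, `ε = 1`): `sg g ∘ p.symm = sg (g+1)`, `U (R1 a) W = R1 (a+1)`;
with `exists_quarter` (`p = swap 0 1`, `ε = (-1,1,1)`): `sg 2 ∘ p.symm = sg 2`,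
`U (R1 1) W = R1 0`.  Then `Zt_conj` with `U := tens U`.
`sPi = sg 2`; so (RN 2, sg 0) → (RN 0, sg 1) → (RN 1, sg 2) → (RN 0, sg 2) = definition of `-X`;
(RN 2, sg 1) → (RN 0, sg 2).
-/

set_option autoImplicit false

namespace Crest.Agent.HGB
open Matrix Crest.MathPhysics.SpinChain Crest.Agent.HG

theorem ringH_conj (U W : Matrix (Fin 3) (Fin 3) ℂ) (hUW : U * W = 1) (hWU : W * U = 1)
    (p : Equiv.Perm (Fin 3)) (ε : Fin 3 → ℂ) (hε : ∀ a, ε a * ε a = 1)
    (h : ∀ a, U * spinOp a * W = ε a • spinOp (p a)) (s : Fin 3 → ℝ) (L : ℕ) :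
    tens (fun _ : Fin L => U) * ringH s L * tens (fun _ : Fin L => W) = ringH (s ∘ p.symm) L := by
  have hT : tens (fun _ : Fin L => W) * tens (fun _ : Fin L => U) = 1 := by
    rw [tens_mul]
    simp only [hWU]
    exact tens_one
  have hterm : ∀ (j k : Fin L) (a : Fin 3),
      tens (fun _ : Fin L => U) * (onSite (spinOp a) j * onSite (spinOp a) k) *
        tens (fun _ : Fin L => W) = onSite (spinOp (p a)) j * onSite (spinOp (p a)) k := by
    intro j k a
    have e1 : tens (fun _ : Fin L => U) * (onSite (spinOp a) j * onSite (spinOp a) k) *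
        tens (fun _ : Fin L => W) =
        (tens (fun _ : Fin L => U) * onSite (spinOp a) j * tens (fun _ : Fin L => W)) *
        (tens (fun _ : Fin L => U) * onSite (spinOp a) k * tens (fun _ : Fin L => W)) := by
      calc _ = tens (fun _ : Fin L => U) * onSite (spinOp a) j *
            (1 * onSite (spinOp a) k * tens (fun _ : Fin L => W)) := by
              rw [one_mul]; simp only [Matrix.mul_assoc]
        _ = _ := by rw [← hT]; simp only [Matrix.mul_assoc]
    rw [e1, tens_conj_onSite U W _ hUW j, tens_conj_onSite U W _ hUW k, h a, onSite_smul,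
      onSite_smul, Matrix.smul_mul, Matrix.mul_smul, smul_smul, hε a, one_smul]
  unfold ringH
  rw [Finset.mul_sum, Finset.sum_mul]
  refine Finset.sum_congr rfl (fun j _ => ?_)
  rw [Finset.mul_sum, Finset.sum_mul]
  rw [← Equiv.sum_comp p (fun a => (((if (j : ℕ) + 1 = L then (s ∘ p.symm) a else 1 : ℝ)) : ℂ) •
    (onSite (spinOp a) j * onSite (spinOp a) (finRotate L j)))]
  refine Finset.sum_congr rfl (fun a _ => ?_)
  rw [Matrix.mul_smul, Matrix.smul_mul, hterm]
  simp only [Function.comp_apply, Equiv.symm_apply_apply]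

theorem sPi_eq : sPi = sg 2 := by
  funext a
  fin_cases a <;> simp [sPi, sg]

/-- conjugation of `R1`. -/
theorem R1_conj (U W : Matrix (Fin 3) (Fin 3) ℂ) (hUW : U * W = 1) (hWU : W * U = 1)
    (p : Equiv.Perm (Fin 3)) (ε : Fin 3 → ℂ) (hε : ∀ a, ε a * ε a = 1)
    (h : ∀ a, U * spinOp a * W = ε a • spinOp (p a)) (a : Fin 3) :
    U * R1 a * W = R1 (p a) := by
  have e1 : U * (spinOp a * spinOp a) * W = spinOp (p a) * spinOp (p a) := by
    calc U * (spinOp a * spinOp a) * W = U * spinOp a * (1 * spinOp a * W) := by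
          rw [one_mul]; simp only [Matrix.mul_assoc]
      _ = (U * spinOp a * W) * (U * spinOp a * W) := by
          rw [← hWU]; simp only [Matrix.mul_assoc]
      _ = _ := by
          rw [h a, Matrix.smul_mul, Matrix.mul_smul, smul_smul, hε a, one_smul]
  unfold R1
  rw [Matrix.mul_sub, Matrix.sub_mul, Matrix.mul_one, hUW, Matrix.mul_smul, Matrix.smul_mul, e1]

theorem RN_conj (U W : Matrix (Fin 3) (Fin 3) ℂ) (hUW : U * W = 1) (hWU : W * U = 1)
    (p : Equiv.Perm (Fin 3)) (ε : Fin 3 → ℂ) (hε : ∀ a, ε a * ε a = 1)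
    (h : ∀ a, U * spinOp a * W = ε a • spinOp (p a)) (a : Fin 3) (L : ℕ) :
    tens (fun _ : Fin L => U) * (RN a : Matrix (Fin L → Fin 3) (Fin L → Fin 3) ℂ) *
      tens (fun _ : Fin L => W) = RN (p a) := by
  rw [RN_eq_tens, RN_eq_tens, tens_mul, tens_mul]
  simp only [R1_conj U W hUW hWU p ε hε h a]

theorem Zt_sym (U W : Matrix (Fin 3) (Fin 3) ℂ) (hUW : U * W = 1) (hWU : W * U = 1)
    (p : Equiv.Perm (Fin 3)) (ε : Fin 3 → ℂ) (hε : ∀ a, ε a * ε a = 1)
    (h : ∀ a, U * spinOp a * W = ε a • spinOp (p a)) (a : Fin 3) (s : Fin 3 → ℝ) (L : ℕ)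
    (β : ℝ) :
    Zt (RN (p a)) (ringH (s ∘ p.symm) L) β = Zt (RN a) (ringH s L) β := by
  have hT : tens (fun _ : Fin L => U) * tens (fun _ : Fin L => W) = 1 := by
    rw [tens_mul]
    simp only [hUW]
    exact tens_one
  rw [← ringH_conj U W hUW hWU p ε hε h s L, ← RN_conj U W hUW hWU p ε hε h a L]
  exact Zt_conj _ _ _ _ hT β

theorem Zt_sym_one (U W : Matrix (Fin 3) (Fin 3) ℂ) (hUW : U * W = 1) (hWU : W * U = 1)
    (p : Equiv.Perm (Fin 3)) (ε : Fin 3 → ℂ) (hε : ∀ a, ε a * ε a = 1)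
    (h : ∀ a, U * spinOp a * W = ε a • spinOp (p a)) (s : Fin 3 → ℝ) (L : ℕ)
    (β : ℝ) :
    Zt 1 (ringH (s ∘ p.symm) L) β = Zt 1 (ringH s L) β := by
  have hT : tens (fun _ : Fin L => U) * tens (fun _ : Fin L => W) = 1 := by
    rw [tens_mul]
    simp only [hUW]
    exact tens_one
  have h1 : tens (fun _ : Fin L => U) * (1 : Matrix (Fin L → Fin 3) (Fin L → Fin 3) ℂ) *
      tens (fun _ : Fin L => W) = 1 := by
    rw [Matrix.mul_one, hT]
  rw [← ringH_conj U W hUW hWU p ε hε h s L]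
  conv_lhs => rw [← h1]
  exact Zt_conj _ _ _ _ hT β

/-- the cyclic shift of the three axes -/
def cyc3 : Equiv.Perm (Fin 3) := finRotate 3

theorem cyc_sym (a : Fin 3) (s : Fin 3 → ℝ) (L : ℕ) (β : ℝ) :
    Zt (RN (cyc3 a)) (ringH (s ∘ cyc3.symm) L) β = Zt (RN a) (ringH s L) β := by
  obtain ⟨U, W, hUW, hWU, h0, h1, h2⟩ := exists_cyc
  refine Zt_sym U W hUW hWU cyc3 (fun _ => 1) (fun _ => one_mul 1) ?_ a s L β
  intro b
  fin_cases b
  · simpa [cyc3] using h0
  · simpa [cyc3] using h1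
  · simpa [cyc3] using h2

theorem cyc_sym_one (s : Fin 3 → ℝ) (L : ℕ) (β : ℝ) :
    Zt 1 (ringH (s ∘ cyc3.symm) L) β = Zt 1 (ringH s L) β := by
  obtain ⟨U, W, hUW, hWU, h0, h1, h2⟩ := exists_cyc
  refine Zt_sym_one U W hUW hWU cyc3 (fun _ => 1) (fun _ => one_mul 1) ?_ s L β
  intro b
  fin_cases b
  · simpa [cyc3] using h0
  · simpa [cyc3] using h1
  · simpa [cyc3] using h2

theorem quarter_sym (a : Fin 3) (s : Fin 3 → ℝ) (L : ℕ) (β : ℝ) :
    Zt (RN (Equiv.swap 0 1 a)) (ringH (s ∘ (Equiv.swap (0 : Fin 3) 1).symm) L) β =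
      Zt (RN a) (ringH s L) β := by
  obtain ⟨U, W, hUW, hWU, h0, h1, h2⟩ := exists_quarter
  refine Zt_sym U W hUW hWU (Equiv.swap 0 1) ![-1, 1, 1] ?_ ?_ a s L β
  · intro b
    fin_cases b <;> simp
  · intro b
    fin_cases b
    · simpa using h0
    · simpa using h1
    · simpa [Equiv.swap_apply_def] using h2

theorem cyc3_symm_zero : cyc3.symm 0 = 2 := by decide
theorem cyc3_symm_one : cyc3.symm 1 = 0 := by decide
theorem cyc3_symm_two : cyc3.symm 2 = 1 := by decide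
theorem cyc3_zero : cyc3 0 = 1 := by decide
theorem cyc3_one : cyc3 1 = 2 := by decide
theorem cyc3_two : cyc3 2 = 0 := by decide

theorem sg_cyc (g : Fin 3) : sg g ∘ cyc3.symm = sg (cyc3 g) := by
  funext a
  simp only [sg, Function.comp_apply, Equiv.symm_apply_eq]

theorem sg2_swap : sg 2 ∘ (Equiv.swap (0 : Fin 3) 1).symm = sg 2 := by
  funext a
  fin_cases a <;> simp [sg, Equiv.swap_apply_def]

theorem Zt_one_sg (g : Fin 3) (L : ℕ) (β : ℝ) : Zt 1 (ringH (sg g) L) β = Z2 L β := by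
  have h1 : Zt 1 (ringH (sg 1) L) β = Zt 1 (ringH (sg 0) L) β := by
    have := cyc_sym_one (sg 0) L β
    rwa [sg_cyc, cyc3_zero] at this
  have h2 : Zt 1 (ringH (sg 2) L) β = Zt 1 (ringH (sg 1) L) β := by
    have := cyc_sym_one (sg 1) L β
    rwa [sg_cyc, cyc3_one] at this
  unfold Z2
  rw [sPi_eq]
  fin_cases g
  · exact (h2.trans h1).symm
  · exact h2.symm
  · rfl

theorem Zt_R2_sg2 (L : ℕ) (β : ℝ) : Zt (RN 2) (ringH (sg 2) L) β = ZZ L β := by
  unfold ZZ
  rw [sPi_eq]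

theorem Zt_R2_sg (g : Fin 3) (hg : g ≠ 2) (L : ℕ) (β : ℝ) :
    Zt (RN 2) (ringH (sg g) L) β = - X L β := by
  unfold X
  rw [sPi_eq, neg_neg]
  have h1 : Zt (RN 0) (ringH (sg 2) L) β = Zt (RN 2) (ringH (sg 1) L) β := by
    have := cyc_sym 2 (sg 1) L β
    rwa [sg_cyc, cyc3_one, cyc3_two] at this
  have h2 : Zt (RN 0) (ringH (sg 1) L) β = Zt (RN 2) (ringH (sg 0) L) β := by
    have := cyc_sym 2 (sg 0) L β
    rwa [sg_cyc, cyc3_zero, cyc3_two] at this
  have h3 : Zt (RN 1) (ringH (sg 2) L) β = Zt (RN 0) (ringH (sg 1) L) β := by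
    have := cyc_sym 0 (sg 1) L β
    rwa [sg_cyc, cyc3_one, cyc3_zero] at this
  have h4 : Zt (RN 0) (ringH (sg 2) L) β = Zt (RN 1) (ringH (sg 2) L) β := by
    have := quarter_sym 1 (sg 2) L β
    rwa [sg2_swap, Equiv.swap_apply_right] at this
  fin_cases g
  · exact (h4.trans (h3.trans h2)).symm
  · exact h1.symm
  · exact absurd rfl hg

theorem Zt_R_one (a : Fin 3) (L : ℕ) (β : ℝ) : Zt (RN a) (ringH sOne L) β = Q L β := by
  have hs : sOne ∘ cyc3.symm = sOne := by
    funext b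
    rfl
  have h0 : Zt (RN 1) (ringH sOne L) β = Zt (RN 0) (ringH sOne L) β := by
    have := cyc_sym 0 sOne L β
    rwa [hs, cyc3_zero] at this
  have h1 : Zt (RN 2) (ringH sOne L) β = Zt (RN 1) (ringH sOne L) β := by
    have := cyc_sym 1 sOne L β
    rwa [hs, cyc3_one] at this
  unfold Q
  fin_cases a
  · exact (h1.trans h0).symm
  · exact h1.symm
  · rfl

end Crest.Agent.HGB
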