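import Mathlib
import Crest.Agent.HGB_Limit
import Crest.Agent.HGB_Lim
import Crest.Agent.HGB_Real
import Crest.Agent.HGB_D2
import Crest.Agent.HGB_Ind
import Crest.Agent.HGB_Sym
import Crest.Agent.HGB_Half
import Crest.Agent.HGB_Open
import Crest.Agent.HGB_Bound

/-!
HGB_Rep (S0545/S0546 part B): assembly of `RepK` and `RepZ`.
-/

set_option autoImplicit false

open Filter Topology

namespace Crest.Agent.HGB
open Matrix Crest.MathPhysics.SpinChain Crest.Agent.HG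
open scoped Kronecker

/-- complex powers are real powers. -/
theorem Kc_pow_real (V : Matrix (Fin 3) (Fin 3) ℂ) (hV : V = 1 ∨ V = R1 2) (n : ℕ) (τ : ℝ) (j : ℕ)
    (a b : Fin n → Fin 4) : (Kc V n τ ^ j) a b = (((Kr V n τ ^ j) a b : ℝ) : ℂ) := by
  have h1 : Kc V n τ = (Kr V n τ).map Complex.ofRealHom := by
    ext a b
    rw [Matrix.map_apply]
    exact Kc_real V hV n τ a b
  rw [h1]
  have h2 := map_pow (Complex.ofRealHom.mapMatrix) (Kr V n τ) j
  have h3 := congrFun (congrFun h2 a) b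
  simpa using h3.symm

theorem Kr_D2 (V : Matrix (Fin 3) (Fin 3) ℂ) (hV : V = 1 ∨ V = R1 2) (n : ℕ) (τ : ℝ)
    (g : Fin 3) (a b : Fin n → Fin 4) :
    Kr V n τ a b = Dg (sg g) a * Dg (sg g) b * Kr V n τ a b := by
  have h := Kc_D2 V hV g n τ a b
  rw [Kc_real V hV] at h
  exact_mod_cast h

/-- sector traces. -/
noncomputable def TV (V : Matrix (Fin 3) (Fin 3) ℂ) (χ : Fin 4) (L : ℕ) (β : ℝ) : ℝ :=
  (Zt (tens (fun _ => V)) (ringH sOne L) β + ∑ g : Fin 3, (if χ = 0 ∨ χ = g.succ then 1 else -1) *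
    Zt (tens (fun _ => V)) (ringH (sg g) L) β) / 4

theorem real_ring_lim (V : Matrix (Fin 3) (Fin 3) ℂ) (hV : V = 1 ∨ V = R1 2) (s : Fin 3 → ℝ)
    {L : ℕ} (hL : 2 ≤ L) {β : ℝ} (hβ : 0 < β) :
    Tendsto (fun n : ℕ => ∑ a : Fin n → Fin 4, Dg s a * (Kr V n (β / n) ^ L) a a) atTop
      (𝓝 (Zt (tens (fun _ => V)) (ringH s L) β)) := by
  have h := (Complex.continuous_re.tendsto _).comp (ring_lim V s hL hβ)
  refine h.congr fun n => ?_
  simp only [Function.comp]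
  rw [Complex.re_sum]
  refine Finset.sum_congr rfl fun a _ => ?_
  rw [Kc_pow_real V hV, ← Complex.ofReal_mul, Complex.ofReal_re]

theorem Dg_sOne {n : ℕ} (a : Fin n → Fin 4) : Dg sOne a = 1 := by
  unfold Dg
  refine Finset.prod_eq_one fun t _ => ?_
  unfold chi sOne
  refine Fin.cases ?_ (fun i => ?_) (a t)
  · rfl
  · rfl

theorem sector_trace (V : Matrix (Fin 3) (Fin 3) ℂ) (hV : V = 1 ∨ V = R1 2) (χ : Fin 4)
    {L : ℕ} (hL : 2 ≤ L) {β : ℝ} (hβ : 0 < β) :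
    Tendsto (fun n : ℕ => ((Matrix.of fun a b : Fin n → Fin 4 =>
      ind χ a * Kr V n (β / n) a b * ind χ b) ^ L).trace) atTop (𝓝 (TV V χ L β)) := by
  have h0 := real_ring_lim V hV sOne hL hβ
  have hg : ∀ g : Fin 3, Tendsto (fun n : ℕ => (if χ = 0 ∨ χ = g.succ then (1 : ℝ) else -1) *
      ∑ a : Fin n → Fin 4, Dg (sg g) a * (Kr V n (β / n) ^ L) a a) atTop
      (𝓝 ((if χ = 0 ∨ χ = g.succ then (1 : ℝ) else -1) *
        Zt (tens (fun _ => V)) (ringH (sg g) L) β)) := fun g =>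
    (real_ring_lim V hV (sg g) hL hβ).const_mul _
  have hsum := tendsto_finsetSum (Finset.univ : Finset (Fin 3)) fun g _ => hg g
  have h1 := (h0.add hsum).div_const 4
  refine h1.congr fun n => ?_
  rw [ind_trace χ (Kr V n (β / n)) (fun g a b => Kr_D2 V hV n _ g a b) L (by omega)]
  simp only [Dg_sOne, one_mul]

/-- representation in one sector. -/
theorem sector_rep (V : Matrix (Fin 3) (Fin 3) ℂ) (hV : V = 1 ∨ V = R1 2) (χ : Fin 4)
    {β : ℝ} (hβ : 0 < β) {m : ℕ} (v : ∀ n : ℕ, Fin m → (Fin n → Fin 4) → ℝ)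
    (hv : ∀ n a c, ind χ c * v n a c = v n a c)
    (hB : ∀ a, ∃ C, ∀ n, v n a ⬝ᵥ v n a ≤ C)
    (hM : ∀ a b j, 1 ≤ j → ∃ l, Tendsto
      (fun n : ℕ => v n a ⬝ᵥ (Kr V n (β / n) ^ j).mulVec (v n b)) atTop (𝓝 l)) :
    ∃ (κ : ℕ → ℝ) (u : Fin m → ℕ → ℝ), (Antitone fun i => |κ i|) ∧
      (∀ L, 3 ≤ L → HasSum (fun i => κ i ^ L) (TV V χ L β)) ∧
      (∀ a b j l, 1 ≤ j → Tendsto
        (fun n : ℕ => v n a ⬝ᵥ (Kr V n (β / n) ^ j).mulVec (v n b)) atTop (𝓝 l) →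
        HasSum (fun i => u a i * u b i * κ i ^ j) l) := by
  classical
  let K : ∀ n : ℕ, Matrix (Fin n → Fin 4) (Fin n → Fin 4) ℝ := fun n =>
    Matrix.of fun a b => ind χ a * Kr V n (β / n) a b * ind χ b
  have hK : ∀ n, (K n).IsSymm := by
    intro n
    ext a b
    have h := congrFun (congrFun (Kr_symm V n (β / n)) a) b
    simp only [Matrix.transpose_apply] at h
    simp only [K, Matrix.transpose_apply, Matrix.of_apply]
    rw [h]; ring
  let M : Fin m → Fin m → ℕ → ℝ := fun a b j =>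
    if h : 1 ≤ j then Classical.choose (hM a b j h) else 0
  have hpow : ∀ n a b j, 1 ≤ j → v n a ⬝ᵥ (K n ^ j).mulVec (v n b) =
      v n a ⬝ᵥ (Kr V n (β / n) ^ j).mulVec (v n b) := by
    intro n a b j hj
    simp only [dotProduct, Matrix.mulVec]
    refine Finset.sum_congr rfl fun x _ => ?_
    rw [← hv n a x]
    have : ∑ i, (K n ^ j) x i * v n b i =
        ind χ x * ∑ i, (Kr V n (β / n) ^ j) x i * v n b i := by
      rw [Finset.mul_sum]
      refine Finset.sum_congr rfl fun y _ => ?_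
      rw [ind_pow χ (Kr V n (β / n)) (fun g a b => Kr_D2 V hV n _ g a b) j hj x y]
      conv_rhs => rw [← hv n b y]
      ring
    rw [this]
    have h2 := ind_sq χ x
    calc ind χ x * v n a x * (ind χ x * ∑ i, (Kr V n (β / n) ^ j) x i * v n b i)
        = (ind χ x * ind χ x) * v n a x * ∑ i, (Kr V n (β / n) ^ j) x i * v n b i := by ring
      _ = _ := by rw [h2]
  have hMt : ∀ a b j, 1 ≤ j → Tendsto (fun n : ℕ => v n a ⬝ᵥ (K n ^ j).mulVec (v n b)) atTop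
      (𝓝 (M a b j)) := by
    intro a b j hj
    have h := Classical.choose_spec (hM a b j hj)
    have hM' : M a b j = Classical.choose (hM a b j hj) := by simp only [M, dif_pos hj]
    rw [hM']
    exact h.congr fun n => (hpow n a b j hj).symm
  obtain ⟨κ, u, h1, -, h3, -, h5⟩ := limit_repr K hK v (fun L => TV V χ L β) M
    (fun L hL => sector_trace V hV χ hL hβ) hB hMt
  refine ⟨κ, u, h1, h3, ?_⟩
  intro a b j l hj hl
  have huniq : l = M a b j := by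
    refine tendsto_nhds_unique (hl.congr fun n => (hpow n a b j hj).symm) (hMt a b j hj)
  rw [huniq]
  exact h5 a b j hj

/-! ### identification of the sector traces -/

theorem tens_one' (L : ℕ) :
    (tens (fun _ : Fin L => (1 : Matrix (Fin 3) (Fin 3) ℂ))) = 1 := tens_one

theorem TV_one (χ : Fin 4) (L : ℕ) (β : ℝ) : TV 1 χ L β = mK χ L β := by
  unfold TV mK
  rw [tens_one']
  simp only [Zt_one_sg]
  have hP : Zt 1 (ringH sOne L) β = P L β := rfl
  rw [hP, Fin.sum_univ_three]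
  fin_cases χ
  · simp; ring
  · simp [Fin.ext_iff]; ring
  · simp [Fin.ext_iff]; ring
  · simp [Fin.ext_iff]; ring

theorem TV_R (χ : Fin 4) (L : ℕ) (β : ℝ) : TV (R1 2) χ L β = mZ χ L β := by
  unfold TV mZ
  have h0 : tens (fun _ : Fin L => R1 2) = RN 2 := (RN_eq_tens 2).symm
  rw [h0, Fin.sum_univ_three, Zt_R_one, Zt_R2_sg 0 (by decide), Zt_R2_sg 1 (by decide), Zt_R2_sg2]
  fin_cases χ
  · simp; ring
  · simp [Fin.ext_iff]; ring
  · simp [Fin.ext_iff]; ring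
  · simp [Fin.ext_iff]; ring

/-! ### end vectors -/

/-- real part of a matrix element limit -/
theorem path_re {d d' : ℕ} (Vl : Matrix (Fin d) (Fin d) ℂ) (V : Matrix (Fin 3) (Fin 3) ℂ)
    (hV : V = 1 ∨ V = R1 2)
    (Vr : Matrix (Fin d') (Fin d') ℂ) (e : Fin 3 → Matrix (Fin d) (Fin d) ℂ)
    (F : Matrix (Fin d) (Fin d) ℂ) (e' : Fin 3 → Matrix (Fin d') (Fin d') ℂ)
    (F' : Matrix (Fin d') (Fin d') ℂ) (m : ℕ) {β : ℝ} (hβ : 0 < β) :
    Tendsto (fun n : ℕ => ∑ a : Fin n → Fin 4, ∑ b : Fin n → Fin 4,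
        (Kr V n (β / n) ^ (m + 1)) a b *
        (vc Vl e F n (β / n) a * vc Vr e' F' n (β / n) b).re) atTop
      (𝓝 (Matrix.trace ((Vl ⊗ₖ (tens (fun _ : Fin (m + 1) => V) ⊗ₖ Vr)) *
        NormedSpace.exp (-(β : ℂ) • endChain e F e' F' m))).re) := by
  have h := (Complex.continuous_re.tendsto _).comp (path_lim Vl V Vr e F e' F' m hβ)
  refine h.congr fun n => ?_
  simp only [Function.comp]
  rw [Complex.re_sum]
  refine Finset.sum_congr rfl fun a _ => ?_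
  rw [Complex.re_sum]
  refine Finset.sum_congr rfl fun b _ => ?_
  rw [Kc_pow_real V hV, mul_right_comm, mul_comm, Complex.re_ofReal_mul]

theorem path_im {d d' : ℕ} (Vl : Matrix (Fin d) (Fin d) ℂ) (V : Matrix (Fin 3) (Fin 3) ℂ)
    (hV : V = 1 ∨ V = R1 2)
    (Vr : Matrix (Fin d') (Fin d') ℂ) (e : Fin 3 → Matrix (Fin d) (Fin d) ℂ)
    (F : Matrix (Fin d) (Fin d) ℂ) (e' : Fin 3 → Matrix (Fin d') (Fin d') ℂ)
    (F' : Matrix (Fin d') (Fin d') ℂ) (m : ℕ) {β : ℝ} (hβ : 0 < β) :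
    Tendsto (fun n : ℕ => ∑ a : Fin n → Fin 4, ∑ b : Fin n → Fin 4,
        (Kr V n (β / n) ^ (m + 1)) a b *
        (vc Vl e F n (β / n) a * vc Vr e' F' n (β / n) b).im) atTop
      (𝓝 (Matrix.trace ((Vl ⊗ₖ (tens (fun _ : Fin (m + 1) => V) ⊗ₖ Vr)) *
        NormedSpace.exp (-(β : ℂ) • endChain e F e' F' m))).im) := by
  have h := (Complex.continuous_im.tendsto _).comp (path_lim Vl V Vr e F e' F' m hβ)
  refine h.congr fun n => ?_
  simp only [Function.comp]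
  rw [Complex.im_sum]
  refine Finset.sum_congr rfl fun a _ => ?_
  rw [Complex.im_sum]
  refine Finset.sum_congr rfl fun b _ => ?_
  rw [Kc_pow_real V hV, mul_right_comm, mul_comm, Complex.im_ofReal_mul]

/-- half-chain vector (real) -/
noncomputable def uh (V : Matrix (Fin 2) (Fin 2) ℂ) (β : ℝ) (n : ℕ) (a : Fin n → Fin 4) : ℝ :=
  (vc V eHalf 0 n (β / n) a).re

/-- open chain vector, real and imaginary part -/
noncomputable def ro (V : Matrix (Fin 3) (Fin 3) ℂ) (β : ℝ) (n : ℕ) (a : Fin n → Fin 4) : ℝ :=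
  (vc V spinOp (Fz (3 / 5)) n (β / n) a).re
noncomputable def io (V : Matrix (Fin 3) (Fin 3) ℂ) (β : ℝ) (n : ℕ) (a : Fin n → Fin 4) : ℝ :=
  (vc V spinOp (Fz (3 / 5)) n (β / n) a).im

theorem uh_eq {V : Matrix (Fin 2) (Fin 2) ℂ} (hV : V = 1 ∨ V = Vhz) (β : ℝ) (n : ℕ)
    (a : Fin n → Fin 4) : vc V eHalf 0 n (β / n) a = ((uh V β n a : ℝ) : ℂ) := by
  have h := half_real V hV n (β / n) a
  rw [Complex.conj_eq_iff_real] at h
  obtain ⟨r, hr⟩ := h
  unfold uh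
  rw [hr, Complex.ofReal_re]

theorem dot_mulVec {n : ℕ} (K : Matrix (Fin n → Fin 4) (Fin n → Fin 4) ℝ)
    (v w : (Fin n → Fin 4) → ℝ) : v ⬝ᵥ K.mulVec w = ∑ a, ∑ b, K a b * (v a * w b) := by
  simp only [dotProduct, Matrix.mulVec, Finset.mul_sum]
  exact Finset.sum_congr rfl fun a _ => Finset.sum_congr rfl fun b _ => by ring

theorem vc_neg (V : Matrix (Fin 3) (Fin 3) ℂ) (hV : V = 1 ∨ V = R1 2) (h : ℝ) (n : ℕ) (τ : ℝ)
    (a : Fin n → Fin 4) :
    vc V spinOp (Fz (-h)) n τ a = starRingEnd ℂ (vc V spinOp (Fz h) n τ a) :=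
  (open_conj V hV h n τ a).symm

/-! ### bounds -/

theorem uh_bound (V : Matrix (Fin 2) (Fin 2) ℂ) {β : ℝ} (hβ : 0 < β) :
    ∃ C, ∀ n, uh V β n ⬝ᵥ uh V β n ≤ C := by
  obtain ⟨C, hC⟩ := vc_bound V eHalf 0 hβ.le
  refine ⟨C, fun n => le_trans (Finset.sum_le_sum fun a _ => ?_) (hC n)⟩
  rw [← sq, ← sq_abs (uh V β n a)]
  exact pow_le_pow_left₀ (abs_nonneg _) (Complex.abs_re_le_norm _) 2

theorem ro_bound (V : Matrix (Fin 3) (Fin 3) ℂ) {β : ℝ} (hβ : 0 < β) :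
    ∃ C, ∀ n, ro V β n ⬝ᵥ ro V β n ≤ C := by
  obtain ⟨C, hC⟩ := vc_bound V spinOp (Fz (3 / 5)) hβ.le
  refine ⟨C, fun n => le_trans (Finset.sum_le_sum fun a _ => ?_) (hC n)⟩
  rw [← sq, ← sq_abs (ro V β n a)]
  exact pow_le_pow_left₀ (abs_nonneg _) (Complex.abs_re_le_norm _) 2

theorem io_bound (V : Matrix (Fin 3) (Fin 3) ℂ) {β : ℝ} (hβ : 0 < β) :
    ∃ C, ∀ n, io V β n ⬝ᵥ io V β n ≤ C := by
  obtain ⟨C, hC⟩ := vc_bound V spinOp (Fz (3 / 5)) hβ.le
  refine ⟨C, fun n => le_trans (Finset.sum_le_sum fun a _ => ?_) (hC n)⟩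
  rw [← sq, ← sq_abs (io V β n a)]
  exact pow_le_pow_left₀ (abs_nonneg _) (Complex.abs_im_le_norm _) 2

/-! ### sectors -/

theorem uh_sector_one (β : ℝ) (n : ℕ) (a : Fin n → Fin 4) : ind 0 a * uh 1 β n a = uh 1 β n a := by
  refine ind_mul_of 0 a _ fun g => ?_
  have h := half_D2_one g n (β / n) a
  rw [uh_eq (Or.inl rfl)] at h
  have h' : uh 1 β n a = Dg (sg g) a * uh 1 β n a := by exact_mod_cast h
  rw [if_pos (Or.inl rfl), one_mul]
  exact h'.symm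

theorem uh_sector_z (β : ℝ) (n : ℕ) (a : Fin n → Fin 4) :
    ind 3 a * uh Vhz β n a = uh Vhz β n a := by
  refine ind_mul_of 3 a _ fun g => ?_
  have h := half_D2_z g n (β / n) a
  rw [uh_eq (Or.inr rfl)] at h
  have h' : uh Vhz β n a = sg g 2 * Dg (sg g) a * uh Vhz β n a := by exact_mod_cast h
  have h2 : (if (3 : Fin 4) = 0 ∨ (3 : Fin 4) = g.succ then (1 : ℝ) else -1) = sg g 2 := by
    unfold sg
    fin_cases g <;> simp [Fin.ext_iff]
  rw [h2]
  exact h'.symm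

theorem ro_io_D2 (V : Matrix (Fin 3) (Fin 3) ℂ) (hV : V = 1 ∨ V = R1 2) (β : ℝ) (g : Fin 3)
    (n : ℕ) (a : Fin n → Fin 4) :
    Dg (sg g) a * ro V β n a = ro V β n a ∧
    (if g = 2 then 1 else -1) * Dg (sg g) a * io V β n a = io V β n a := by
  by_cases hg : g = 2
  · subst hg
    have h := open_D2_z V hV (3 / 5) n (β / n) a
    constructor
    · have h1 := congrArg Complex.re h
      rw [Complex.re_ofReal_mul] at h1
      exact h1.symm
    · have h1 := congrArg Complex.im h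
      rw [Complex.im_ofReal_mul] at h1
      rw [if_pos rfl, one_mul]
      exact h1.symm
  · have h := open_D2_xy V hV (3 / 5) g hg n (β / n) a
    rw [vc_neg V hV] at h
    constructor
    · have h1 := congrArg Complex.re h
      rw [Complex.re_ofReal_mul, Complex.conj_re] at h1
      exact h1.symm
    · have h1 := congrArg Complex.im h
      rw [Complex.im_ofReal_mul, Complex.conj_im] at h1
      rw [if_neg hg]
      have h2 : io V β n a = Dg (sg g) a * -io V β n a := h1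
      linarith

theorem ro_sector (V : Matrix (Fin 3) (Fin 3) ℂ) (hV : V = 1 ∨ V = R1 2) (β : ℝ) (n : ℕ)
    (a : Fin n → Fin 4) : ind 0 a * ro V β n a = ro V β n a := by
  refine ind_mul_of 0 a _ fun g => ?_
  rw [if_pos (Or.inl rfl), one_mul]
  exact (ro_io_D2 V hV β g n a).1

theorem io_sector (V : Matrix (Fin 3) (Fin 3) ℂ) (hV : V = 1 ∨ V = R1 2) (β : ℝ) (n : ℕ)
    (a : Fin n → Fin 4) : ind 3 a * io V β n a = io V β n a := by
  refine ind_mul_of 3 a _ fun g => ?_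
  have h2 : (if (3 : Fin 4) = 0 ∨ (3 : Fin 4) = g.succ then (1 : ℝ) else -1) =
      if g = 2 then 1 else -1 := by
    fin_cases g <;> simp [Fin.ext_iff]
  rw [h2]
  exact (ro_io_D2 V hV β g n a).2

/-! ### limits of the bilinear forms -/

section lims
variable (V : Matrix (Fin 3) (Fin 3) ℂ) (hV : V = 1 ∨ V = R1 2) (W : Matrix (Fin 2) (Fin 2) ℂ)
  (hW : W = 1 ∨ W = Vhz) (m : ℕ) {β : ℝ} (hβ : 0 < β)
include hV hβ

include hW in
theorem uu_lim : Tendsto (fun n : ℕ => uh W β n ⬝ᵥ (Kr V n (β / n) ^ (m + 1)).mulVec (uh W β n))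
    atTop (𝓝 (Matrix.trace ((W ⊗ₖ (tens (fun _ : Fin (m + 1) => V) ⊗ₖ W)) *
        NormedSpace.exp (-(β : ℂ) • endChain eHalf 0 eHalf 0 m))).re) := by
  refine (path_re W V hV W eHalf 0 eHalf 0 m hβ).congr fun n => ?_
  rw [dot_mulVec]
  refine Finset.sum_congr rfl fun a _ => Finset.sum_congr rfl fun b _ => ?_
  rw [uh_eq hW, uh_eq hW, ← Complex.ofReal_mul, Complex.ofReal_re]

include hW in
theorem ur_lim : ∃ l, Tendsto
    (fun n : ℕ => uh W β n ⬝ᵥ (Kr V n (β / n) ^ (m + 1)).mulVec (ro V β n)) atTop (𝓝 l) := by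
  refine ⟨_, (path_re W V hV V eHalf 0 spinOp (Fz (3 / 5)) m hβ).congr fun n => ?_⟩
  rw [dot_mulVec]
  refine Finset.sum_congr rfl fun a _ => Finset.sum_congr rfl fun b _ => ?_
  rw [uh_eq hW, Complex.re_ofReal_mul]
  rfl

include hW in
theorem ui_lim : ∃ l, Tendsto
    (fun n : ℕ => uh W β n ⬝ᵥ (Kr V n (β / n) ^ (m + 1)).mulVec (io V β n)) atTop (𝓝 l) := by
  refine ⟨_, (path_im W V hV V eHalf 0 spinOp (Fz (3 / 5)) m hβ).congr fun n => ?_⟩
  rw [dot_mulVec]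
  refine Finset.sum_congr rfl fun a _ => Finset.sum_congr rfl fun b _ => ?_
  rw [uh_eq hW, Complex.im_ofReal_mul]
  rfl

include hW in
theorem ru_lim : ∃ l, Tendsto
    (fun n : ℕ => ro V β n ⬝ᵥ (Kr V n (β / n) ^ (m + 1)).mulVec (uh W β n)) atTop (𝓝 l) := by
  refine ⟨_, (path_re V V hV W spinOp (Fz (3 / 5)) eHalf 0 m hβ).congr fun n => ?_⟩
  rw [dot_mulVec]
  refine Finset.sum_congr rfl fun a _ => Finset.sum_congr rfl fun b _ => ?_
  rw [uh_eq hW, Complex.re_mul_ofReal]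
  rfl

include hW in
theorem iu_lim : ∃ l, Tendsto
    (fun n : ℕ => io V β n ⬝ᵥ (Kr V n (β / n) ^ (m + 1)).mulVec (uh W β n)) atTop (𝓝 l) := by
  refine ⟨_, (path_im V V hV W spinOp (Fz (3 / 5)) eHalf 0 m hβ).congr fun n => ?_⟩
  rw [dot_mulVec]
  refine Finset.sum_congr rfl fun a _ => Finset.sum_congr rfl fun b _ => ?_
  rw [uh_eq hW, Complex.im_mul_ofReal]
  rfl

/-- the open chain partition functions as `path_lim` limits -/
noncomputable def OV (V : Matrix (Fin 3) (Fin 3) ℂ) (s : ℝ) (m : ℕ) (β : ℝ) : ℝ :=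
  (Matrix.trace ((V ⊗ₖ (tens (fun _ : Fin (m + 1) => V) ⊗ₖ V)) *
        NormedSpace.exp (-(β : ℂ) •
          endChain spinOp (Fz (3 / 5)) spinOp (Fz (3 / 5 * s)) m))).re

theorem plus_lim : Tendsto (fun n : ℕ =>
    ro V β n ⬝ᵥ (Kr V n (β / n) ^ (m + 1)).mulVec (ro V β n) -
    io V β n ⬝ᵥ (Kr V n (β / n) ^ (m + 1)).mulVec (io V β n)) atTop (𝓝 (OV V 1 m β)) := by
  refine (path_re V V hV V spinOp (Fz (3 / 5)) spinOp (Fz (3 / 5 * 1)) m hβ).congr fun n => ?_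
  rw [dot_mulVec, dot_mulVec, ← Finset.sum_sub_distrib]
  refine Finset.sum_congr rfl fun a _ => ?_
  rw [← Finset.sum_sub_distrib]
  refine Finset.sum_congr rfl fun b _ => ?_
  rw [mul_one, Complex.mul_re]
  unfold ro io
  ring

theorem minus_lim : Tendsto (fun n : ℕ =>
    ro V β n ⬝ᵥ (Kr V n (β / n) ^ (m + 1)).mulVec (ro V β n) +
    io V β n ⬝ᵥ (Kr V n (β / n) ^ (m + 1)).mulVec (io V β n)) atTop (𝓝 (OV V (-1) m β)) := by
  refine (path_re V V hV V spinOp (Fz (3 / 5)) spinOp (Fz (3 / 5 * (-1))) m hβ).congr fun n => ?_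
  rw [dot_mulVec, dot_mulVec, ← Finset.sum_add_distrib]
  refine Finset.sum_congr rfl fun a _ => ?_
  rw [← Finset.sum_add_distrib]
  refine Finset.sum_congr rfl fun b _ => ?_
  rw [show (3 / 5 * (-1) : ℝ) = -(3 / 5) by ring, vc_neg V hV, Complex.mul_re, Complex.conj_re,
    Complex.conj_im]
  unfold ro io
  ring

theorem rr_lim : Tendsto (fun n : ℕ =>
    ro V β n ⬝ᵥ (Kr V n (β / n) ^ (m + 1)).mulVec (ro V β n)) atTop
      (𝓝 ((OV V 1 m β + OV V (-1) m β) / 2)) := by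
  refine (((plus_lim V hV m hβ).add (minus_lim V hV m hβ)).div_const 2).congr fun n => ?_
  ring

theorem ii_lim : Tendsto (fun n : ℕ =>
    io V β n ⬝ᵥ (Kr V n (β / n) ^ (m + 1)).mulVec (io V β n)) atTop
      (𝓝 ((OV V (-1) m β - OV V 1 m β) / 2)) := by
  refine (((minus_lim V hV m hβ).sub (plus_lim V hV m hβ)).div_const 2).congr fun n => ?_
  ring

end lims

/-- representation in the sector `χ` carrying the half-chain vector and the real part. -/
theorem rep_ur (V : Matrix (Fin 3) (Fin 3) ℂ) (hV : V = 1 ∨ V = R1 2)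
    (W : Matrix (Fin 2) (Fin 2) ℂ) (hW : W = 1 ∨ W = Vhz) (χ : Fin 4) {β : ℝ} (hβ : 0 < β)
    (x : ∀ n : ℕ, (Fin n → Fin 4) → ℝ)
    (hx : x = ro V β ∨ x = io V β)
    (hu : ∀ n (c : Fin n → Fin 4), ind χ c * uh W β n c = uh W β n c)
    (hxs : ∀ n (c : Fin n → Fin 4), ind χ c * x n c = x n c) :
    ∃ (κ : ℕ → ℝ) (u α : ℕ → ℝ), (Antitone fun i => |κ i|) ∧ (∀ i, 0 ≤ u i ∧ 0 ≤ α i) ∧
      (∀ L, 3 ≤ L → HasSum (fun i => κ i ^ L) (TV V χ L β)) ∧
      (∀ N, 2 ≤ N → HasSum (fun i => u i * κ i ^ (N - 2))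
        (Matrix.trace ((W ⊗ₖ (tens (fun _ : Fin (N - 1 + 1) => V) ⊗ₖ W)) *
        NormedSpace.exp (-(β : ℂ) • endChain eHalf 0 eHalf 0 (N - 1)))).re) ∧
      (∀ m l, Tendsto (fun n : ℕ => x n ⬝ᵥ (Kr V n (β / n) ^ (m + 1)).mulVec (x n)) atTop (𝓝 l) →
        HasSum (fun i => α i * κ i ^ (m + 1)) l) := by
  obtain ⟨κ, w, h1, h2, h3⟩ := sector_rep V hV χ hβ
    (v := fun n => ![uh W β n, x n])
    (by
      intro n a c
      fin_cases a
      · exact hu n c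
      · exact hxs n c)
    (by
      intro a
      fin_cases a
      · exact uh_bound W hβ
      · rcases hx with rfl | rfl
        · exact ro_bound V hβ
        · exact io_bound V hβ)
    (by
      intro a b j hj
      obtain ⟨m, rfl⟩ : ∃ m, j = m + 1 := ⟨j - 1, by omega⟩
      fin_cases a <;> fin_cases b
      · exact ⟨_, uu_lim V hV W hW m hβ⟩
      · rcases hx with rfl | rfl
        · exact ur_lim V hV W hW m hβ
        · exact ui_lim V hV W hW m hβ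
      · rcases hx with rfl | rfl
        · exact ru_lim V hV W hW m hβ
        · exact iu_lim V hV W hW m hβ
      · rcases hx with rfl | rfl
        · exact ⟨_, rr_lim V hV m hβ⟩
        · exact ⟨_, ii_lim V hV m hβ⟩)
  refine ⟨κ, fun i => w 0 i ^ 2 * κ i ^ 2, fun i => w 1 i ^ 2, h1,
    fun i => ⟨by positivity, by positivity⟩, h2, ?_, ?_⟩
  · intro N hN
    have h := h3 0 0 (N - 1 + 1) _ (by omega) (uu_lim V hV W hW (N - 1) hβ)
    have he : (fun i => w 0 i ^ 2 * κ i ^ 2 * κ i ^ (N - 2)) =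
        fun i => w 0 i * w 0 i * κ i ^ (N - 1 + 1) := by
      funext i
      rw [mul_assoc, ← pow_add, show 2 + (N - 2) = N - 1 + 1 from by omega]
      ring
    simp only [he]
    exact h
  · intro m l hl
    have h := h3 1 1 (m + 1) l (by omega) hl
    have he : (fun i => w 1 i ^ 2 * κ i ^ (m + 1)) = fun i => w 1 i * w 1 i * κ i ^ (m + 1) := by
      funext i; ring
    rw [he]; exact h

theorem OV_one (s : ℝ) (m : ℕ) (β : ℝ) : OV 1 s m β = Vo s (m + 3) β := by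
  rw [Vo_eq]; rfl

theorem OV_R (s : ℝ) (m : ℕ) (β : ℝ) : OV (R1 2) s m β = VoZ s (m + 3) β := by
  rw [VoZ_eq]; rfl

theorem even_abs {κ : ℕ → ℝ} {L : ℕ} {T : ℝ} (hL : Even L) (h : HasSum (fun i => κ i ^ L) T) :
    HasSum (fun i => |κ i| ^ L) T := by
  have he : (fun i => |κ i| ^ L) = fun i => κ i ^ L := by
    funext i; exact hL.pow_abs (κ i)
  rw [he]; exact h

theorem repK {β : ℝ} (hβ : 0 < β) : RepK β := by
  obtain ⟨κ0, u, α, a1, a2, a3, a4, a5⟩ := rep_ur 1 (Or.inl rfl) 1 (Or.inl rfl) 0 hβ (ro 1 β)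
    (Or.inl rfl) (fun n c => uh_sector_one β n c) (fun n c => ro_sector 1 (Or.inl rfl) β n c)
  obtain ⟨κ3, w, b1, b2, b3⟩ := sector_rep 1 (Or.inl rfl) 3 hβ (m := 1)
    (v := fun n _ => io 1 β n) (fun n a c => io_sector 1 (Or.inl rfl) β n c)
    (fun _ => io_bound 1 hβ)
    (by
      intro a b j hj
      obtain ⟨m, rfl⟩ : ∃ m, j = m + 1 := ⟨j - 1, by omega⟩
      exact ⟨_, ii_lim 1 (Or.inl rfl) m hβ⟩)
  obtain ⟨κ1, -, c1, c2, -⟩ := sector_rep 1 (Or.inl rfl) 1 hβ (m := 0)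
    (v := fun n a => Fin.elim0 a) (fun n a => Fin.elim0 a) (fun a => Fin.elim0 a)
    (fun a => Fin.elim0 a)
  obtain ⟨κ2, -, d1, d2, -⟩ := sector_rep 1 (Or.inl rfl) 2 hβ (m := 0)
    (v := fun n a => Fin.elim0 a) (fun n a => Fin.elim0 a) (fun a => Fin.elim0 a)
    (fun a => Fin.elim0 a)
  refine ⟨![κ0, κ1, κ2, κ3], u, α, fun i => w 0 i ^ 2, ?_, ?_, ?_, ?_, ?_, ?_⟩
  · intro χ
    fin_cases χ
    · exact a1
    · exact c1
    · exact d1
    · exact b1
  · intro i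
    exact ⟨(a2 i).1, (a2 i).2, by positivity⟩
  · intro χ L hL hL4
    rw [← TV_one]
    refine even_abs hL ?_
    fin_cases χ
    · exact a3 L (by omega)
    · exact c2 L (by omega)
    · exact d2 L (by omega)
    · exact b2 L (by omega)
  · intro N hN
    have h := a4 N hN
    rw [← Vh_eq, show N - 1 + 1 = N by omega] at h
    exact h
  · intro N hN
    obtain ⟨m, rfl⟩ : ∃ m, N = m + 3 := ⟨N - 3, by omega⟩
    have h := a5 m _ (rr_lim 1 (Or.inl rfl) m hβ)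
    rw [OV_one, OV_one] at h
    exact h
  · intro N hN
    obtain ⟨m, rfl⟩ : ∃ m, N = m + 3 := ⟨N - 3, by omega⟩
    have h := b3 0 0 (m + 1) _ (by omega) (ii_lim 1 (Or.inl rfl) m hβ)
    rw [OV_one, OV_one] at h
    have he : (fun i => w 0 i ^ 2 * κ3 i ^ (m + 1)) = fun i => w 0 i * w 0 i * κ3 i ^ (m + 1) := by
      funext i; ring
    show HasSum (fun i => w 0 i ^ 2 * κ3 i ^ (m + 1)) (Bo (m + 3) β)
    rw [he]
    exact h

theorem repZ {β : ℝ} (hβ : 0 < β) : RepZ β := by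
  obtain ⟨κ3, u, b, a1, a2, a3, a4, a5⟩ := rep_ur (R1 2) (Or.inr rfl) Vhz (Or.inr rfl) 3 hβ
    (io (R1 2) β) (Or.inr rfl) (fun n c => uh_sector_z β n c)
    (fun n c => io_sector (R1 2) (Or.inr rfl) β n c)
  obtain ⟨κ0, w, b1, b2, b3⟩ := sector_rep (R1 2) (Or.inr rfl) 0 hβ (m := 1)
    (v := fun n _ => ro (R1 2) β n) (fun n a c => ro_sector (R1 2) (Or.inr rfl) β n c)
    (fun _ => ro_bound (R1 2) hβ)
    (by
      intro a b j hj
      obtain ⟨m, rfl⟩ : ∃ m, j = m + 1 := ⟨j - 1, by omega⟩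
      exact ⟨_, rr_lim (R1 2) (Or.inr rfl) m hβ⟩)
  obtain ⟨κ1, -, c1, c2, -⟩ := sector_rep (R1 2) (Or.inr rfl) 1 hβ (m := 0)
    (v := fun n a => Fin.elim0 a) (fun n a => Fin.elim0 a) (fun a => Fin.elim0 a)
    (fun a => Fin.elim0 a)
  obtain ⟨κ2, -, d1, d2, -⟩ := sector_rep (R1 2) (Or.inr rfl) 2 hβ (m := 0)
    (v := fun n a => Fin.elim0 a) (fun n a => Fin.elim0 a) (fun a => Fin.elim0 a)
    (fun a => Fin.elim0 a)
  refine ⟨![κ0, κ1, κ2, κ3], u, fun i => w 0 i ^ 2, b, ?_, ?_, ?_, ?_, ?_, ?_⟩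
  · intro χ
    fin_cases χ
    · exact b1
    · exact c1
    · exact d1
    · exact a1
  · intro i
    exact ⟨(a2 i).1, by positivity, (a2 i).2⟩
  · intro χ L hL hL4
    rw [← TV_R]
    refine even_abs hL ?_
    fin_cases χ
    · exact b2 L (by omega)
    · exact c2 L (by omega)
    · exact d2 L (by omega)
    · exact a3 L (by omega)
  · intro N hN
    have h := a4 N hN
    rw [← Wh_eq, show N - 1 + 1 = N by omega] at h
    exact h
  · intro N hN
    obtain ⟨m, rfl⟩ : ∃ m, N = m + 3 := ⟨N - 3, by omega⟩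
    have h := b3 0 0 (m + 1) _ (by omega) (rr_lim (R1 2) (Or.inr rfl) m hβ)
    rw [OV_R, OV_R] at h
    have he : (fun i => w 0 i ^ 2 * κ0 i ^ (m + 1)) = fun i => w 0 i * w 0 i * κ0 i ^ (m + 1) := by
      funext i; ring
    show HasSum (fun i => w 0 i ^ 2 * κ0 i ^ (m + 1)) (AoZ (m + 3) β)
    rw [he]
    exact h
  · intro N hN
    obtain ⟨m, rfl⟩ : ∃ m, N = m + 3 := ⟨N - 3, by omega⟩
    have h := a5 m _ (ii_lim (R1 2) (Or.inr rfl) m hβ)
    rw [OV_R, OV_R] at h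
    exact h

end Crest.Agent.HGB
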