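import Mathlib
import Crest.Agent.HGB_Rep

/-!
HGB_QPos (S0545/S0546 part B): `1 ≤ Q 4 β`, from `K_Z(0,0) = Tr R_z = -1` for the all-zero label
string.
-/

set_option autoImplicit false

open Filter Topology

namespace Crest.Agent.HGB
open Matrix Crest.MathPhysics.SpinChain Crest.Agent.HG

theorem Kr_zero_zero (n : ℕ) (τ : ℝ) : Kr (R1 2) n τ (fun _ => 0) (fun _ => 0) = -1 := by
  have hB : Bsite 0 0 = 1 := by
    unfold Bsite
    have h1 : Mlab 0 = 1 := rfl
    rw [h1, Matrix.one_mul, ← two_smul ℂ (1 : Matrix (Fin 3) (Fin 3) ℂ), smul_smul]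
    norm_num
  have hp : ∀ k : ℕ, (List.ofFn fun _ : Fin k => (1 : Matrix (Fin 3) (Fin 3) ℂ)).prod = 1 := by
    intro k
    rw [List.ofFn_const, List.prod_replicate, one_pow]
  unfold Kr Kc
  simp only [Matrix.of_apply, hB, hp, wt, if_true, Complex.ofReal_one, mul_one,
    Finset.prod_const_one, one_mul]
  rw [R1_two_eq]
  simp [Matrix.trace, Fin.sum_univ_three]

theorem trace_pow_four_ge {ι : Type*} [Fintype ι] [DecidableEq ι] (K : Matrix ι ι ℝ)
    (hK : K.IsSymm) (i : ι) : K i i ^ 4 ≤ (K ^ 4).trace := by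
  have hs : ∀ a b, K a b = K b a := fun a b => by
    have := congrFun (congrFun hK b) a
    simpa using this
  have hs2 : ∀ a b, (K ^ 2) a b = (K ^ 2) b a := by
    intro a b
    rw [pow_two, Matrix.mul_apply, Matrix.mul_apply]
    exact Finset.sum_congr rfl fun c _ => by rw [hs a c, hs c b]; ring
  have h1 : K i i ^ 2 ≤ (K ^ 2) i i := by
    rw [pow_two K, Matrix.mul_apply]
    have : ∀ c, K i c * K c i = K i c ^ 2 := fun c => by rw [hs c i]; ring
    simp only [this]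
    exact Finset.single_le_sum (f := fun c => K i c ^ 2) (fun c _ => sq_nonneg _)
      (Finset.mem_univ i)
  have h2 : ((K ^ 2) i i) ^ 2 ≤ (K ^ 4).trace := by
    have h4 : K ^ 4 = K ^ 2 * K ^ 2 := by rw [← pow_add]
    rw [h4, Matrix.trace]
    simp only [Matrix.diag_apply, Matrix.mul_apply]
    have h5 : ((K ^ 2) i i) ^ 2 ≤ ∑ c, (K ^ 2) i c * (K ^ 2) c i := by
      have : ∀ c, (K ^ 2) i c * (K ^ 2) c i = (K ^ 2) i c ^ 2 := fun c => by rw [hs2 c i]; ring
      simp only [this]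
      exact Finset.single_le_sum (f := fun c => (K ^ 2) i c ^ 2) (fun c _ => sq_nonneg _)
        (Finset.mem_univ i)
    refine le_trans h5 ?_
    refine Finset.single_le_sum (f := fun a => ∑ c, (K ^ 2) a c * (K ^ 2) c a) (fun a _ => ?_)
      (Finset.mem_univ i)
    exact Finset.sum_nonneg fun c _ => by rw [hs2 c a]; exact mul_self_nonneg _
  calc K i i ^ 4 = (K i i ^ 2) ^ 2 := by ring
    _ ≤ ((K ^ 2) i i) ^ 2 := pow_le_pow_left₀ (sq_nonneg _) h1 2
    _ ≤ _ := h2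

theorem Q_four_ge_one {β : ℝ} (hβ : 0 < β) : 1 ≤ Q 4 β := by
  have h := real_ring_lim (R1 2) (Or.inr rfl) sOne (L := 4) (by norm_num) hβ
  have h0 : tens (fun _ : Fin 4 => R1 2) = RN 2 := (RN_eq_tens 2).symm
  rw [h0, Zt_R_one] at h
  refine ge_of_tendsto' h fun n => ?_
  simp only [Dg_sOne, one_mul]
  have h1 := trace_pow_four_ge (Kr (R1 2) n (β / n)) (Kr_symm _ _ _) (fun _ => 0)
  rw [Kr_zero_zero] at h1
  calc (1 : ℝ) = (-1) ^ 4 := by norm_num
    _ ≤ _ := h1

theorem Q_pos {β : ℝ} (hβ : 0 < β) : 0 < Q 4 β := lt_of_lt_of_le one_pos (Q_four_ge_one hβ)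

end Crest.Agent.HGB
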