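import Mathlib
import Crest.Agent.HGB_ExpSum
import Crest.Agent.HGB_Sym

/-!
HGB_Time (S0545/S0546 part B): the time channel.

`RN a` is Hermitian, `RN a * RN a = 1`, `RN 0 * RN 1 = RN 2`, all commute (`tens_mul` and the
`R1` lemmas of HGB_Site), and `RN a` commutes with `ringH sOne L`, `RN 2` with `openS s n h`
(`tens_conj_onSite`, `R1_conj_spinOp`).  Hermitian: `onSite` of a Hermitian matrix is Hermitian and the
two factors of a bond commute (or are equal).
`(P+3Q)/4 = Zt ((1 + RN 0 + RN 1 + RN 2)/4) H`, `(P-Q)/4 = Zt ((1 + RN 2 - RN 0 - RN 1)/4) H` by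
`Zt_R_one`; open chain: `(1 ± RN 2)/2`.  Apply `expSum_proj`.
-/

set_option autoImplicit false

namespace Crest.Agent.HGB
open Matrix Crest.MathPhysics.SpinChain Crest.Agent.HG

/-! ### helper lemmas -/

theorem time_tens_conjTranspose {ι κ : Type*} [Fintype ι] (A : ι → Matrix κ κ ℂ) :
    (tens A)ᴴ = tens (fun j => (A j)ᴴ) := by
  ext σ τ
  simp only [tens, Matrix.conjTranspose_apply, Matrix.of_apply]
  rw [star_prod]

theorem time_onSite_conjTranspose {ι : Type*} [Fintype ι] [DecidableEq ι]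
    (A : Matrix (Fin 3) (Fin 3) ℂ) (j : ι) : (onSite A j)ᴴ = onSite Aᴴ j := by
  rw [onSite_eq_tens, onSite_eq_tens, time_tens_conjTranspose]
  congr 1
  funext i
  by_cases hk : i = j
  · subst hk
    rw [Function.update_self, Function.update_self]
  · rw [Function.update_of_ne hk, Function.update_of_ne hk, Matrix.conjTranspose_one]

theorem time_onSite_comm {ι : Type*} [Fintype ι] [DecidableEq ι]
    (A : Matrix (Fin 3) (Fin 3) ℂ) (j k : ι) :
    onSite A j * onSite A k = onSite A k * onSite A j := by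
  by_cases h : j = k
  · subst h; rfl
  · rw [onSite_mul_onSite A A h, onSite_mul_onSite A A (Ne.symm h), Function.update_comm h]

theorem time_pair_isHermitian {ι : Type*} [Fintype ι] [DecidableEq ι] (a : Fin 3) (j k : ι) :
    (onSite (spinOp a) j * onSite (spinOp a) k).IsHermitian := by
  unfold Matrix.IsHermitian
  rw [Matrix.conjTranspose_mul, time_onSite_conjTranspose, time_onSite_conjTranspose,
    spinOp_conjTranspose, time_onSite_comm]

theorem time_real_smul_isHermitian {κ : Type*} (r : ℝ) {A : Matrix κ κ ℂ}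
    (hA : A.IsHermitian) : ((r : ℂ) • A).IsHermitian := by
  unfold Matrix.IsHermitian at *
  rw [Matrix.conjTranspose_smul, hA]
  congr 1
  exact Complex.conj_ofReal r

theorem time_sum_isHermitian {κ ι : Type*} (s : Finset ι) (A : ι → Matrix κ κ ℂ)
    (hA : ∀ i ∈ s, (A i).IsHermitian) : (∑ i ∈ s, A i).IsHermitian := by
  unfold Matrix.IsHermitian at *
  rw [Matrix.conjTranspose_sum]
  exact Finset.sum_congr rfl hA

theorem ringH_isHermitian (s : Fin 3 → ℝ) (L : ℕ) : (ringH s L).IsHermitian := by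
  unfold ringH
  refine time_sum_isHermitian _ _ (fun j _ => time_sum_isHermitian _ _ (fun a _ => ?_))
  exact time_real_smul_isHermitian _ (time_pair_isHermitian a j _)

theorem time_bond_isHermitian {ι : Type*} [Fintype ι] [DecidableEq ι] (j k : ι) :
    (bond j k).IsHermitian := by
  unfold bond
  exact time_sum_isHermitian _ _ (fun a _ => time_pair_isHermitian a j k)

theorem time_onSite_spinZ_isHermitian {ι : Type*} [Fintype ι] [DecidableEq ι] (j : ι) :
    (onSite spinZ j).IsHermitian := by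
  unfold Matrix.IsHermitian
  rw [time_onSite_conjTranspose]
  have := spinOp_conjTranspose 2
  simp only [spinOp] at this
  congr 1

theorem openS_isHermitian (s : ℝ) (n : ℕ) (h : ℝ) : (openS s n h).IsHermitian := by
  unfold openS
  refine Matrix.IsHermitian.sub ?_ ?_
  · exact time_sum_isHermitian _ _ (fun j _ => time_bond_isHermitian _ _)
  · refine time_real_smul_isHermitian _ (Matrix.IsHermitian.add ?_ ?_)
    · exact time_onSite_spinZ_isHermitian _
    · exact time_real_smul_isHermitian _ (time_onSite_spinZ_isHermitian _)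

theorem time_RN_mul_self {ι : Type*} [Fintype ι] [DecidableEq ι] (a : Fin 3) :
    (RN a : Matrix (ι → Fin 3) (ι → Fin 3) ℂ) * RN a = 1 := by
  rw [RN_eq_tens, tens_mul]
  simp only [R1_mul_self]
  exact tens_one

theorem time_RN_comm {ι : Type*} [Fintype ι] [DecidableEq ι] (a b : Fin 3) :
    (RN a : Matrix (ι → Fin 3) (ι → Fin 3) ℂ) * RN b = RN b * RN a := by
  rw [RN_eq_tens, RN_eq_tens, tens_mul, tens_mul]
  congr 1
  funext j
  exact R1_comm a b

theorem time_RN_zero_mul_one {ι : Type*} [Fintype ι] [DecidableEq ι] :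
    (RN 0 : Matrix (ι → Fin 3) (ι → Fin 3) ℂ) * RN 1 = RN 2 := by
  rw [RN_eq_tens, RN_eq_tens, RN_eq_tens, tens_mul]
  congr 1
  funext j
  exact R1_zero_mul_one

theorem time_RN_isHermitian {ι : Type*} [Fintype ι] [DecidableEq ι] (a : Fin 3) :
    (RN a : Matrix (ι → Fin 3) (ι → Fin 3) ℂ).IsHermitian := by
  unfold Matrix.IsHermitian
  rw [RN_eq_tens, time_tens_conjTranspose]
  congr 1
  funext j
  exact R1_conjTranspose a

theorem time_sg_sq (g a : Fin 3) : sg g a * sg g a = 1 := by
  unfold sg; split_ifs <;> norm_num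

theorem time_RN_onSite {ι : Type*} [Fintype ι] [DecidableEq ι] (g a : Fin 3) (j : ι) :
    (RN g : Matrix (ι → Fin 3) (ι → Fin 3) ℂ) * onSite (spinOp a) j * RN g =
      ((sg g a : ℝ) : ℂ) • onSite (spinOp a) j := by
  rw [RN_eq_tens, tens_conj_onSite _ _ _ (R1_mul_self g), R1_conj_spinOp, onSite_smul]

theorem time_comm_of_conj {κ : Type*} [Fintype κ] [DecidableEq κ] {R A : Matrix κ κ ℂ}
    (hR : R * R = 1) (h : R * A * R = A) : R * A = A * R := by
  calc R * A = R * A * (R * R) := by rw [hR, mul_one]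
    _ = (R * A * R) * R := by simp only [mul_assoc]
    _ = A * R := by rw [h]

theorem time_RN_comm_pair {ι : Type*} [Fintype ι] [DecidableEq ι] (g a : Fin 3) (j k : ι) :
    (RN g : Matrix (ι → Fin 3) (ι → Fin 3) ℂ) * (onSite (spinOp a) j * onSite (spinOp a) k) =
      (onSite (spinOp a) j * onSite (spinOp a) k) * RN g := by
  refine time_comm_of_conj (time_RN_mul_self g) ?_
  have e : (RN g : Matrix (ι → Fin 3) (ι → Fin 3) ℂ) *
      (onSite (spinOp a) j * onSite (spinOp a) k) * RN g =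
      (RN g * onSite (spinOp a) j * RN g) * (RN g * onSite (spinOp a) k * RN g) := by
    have h1 := time_RN_mul_self (ι := ι) g
    calc (RN g : Matrix (ι → Fin 3) (ι → Fin 3) ℂ) *
        (onSite (spinOp a) j * onSite (spinOp a) k) * RN g
        = RN g * onSite (spinOp a) j * 1 * (onSite (spinOp a) k * RN g) := by
          rw [mul_one]; simp only [mul_assoc]
      _ = _ := by rw [← h1]; simp only [mul_assoc]
  rw [e, time_RN_onSite, time_RN_onSite, Matrix.smul_mul, Matrix.mul_smul, smul_smul]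
  rw [← Complex.ofReal_mul, time_sg_sq, Complex.ofReal_one, one_smul]

theorem RN_comm_ringH (a : Fin 3) (s : Fin 3 → ℝ) (L : ℕ) :
    (RN a : Matrix (Fin L → Fin 3) (Fin L → Fin 3) ℂ) * ringH s L = ringH s L * RN a := by
  unfold ringH
  rw [Finset.mul_sum, Finset.sum_mul]
  refine Finset.sum_congr rfl (fun j _ => ?_)
  rw [Finset.mul_sum, Finset.sum_mul]
  refine Finset.sum_congr rfl (fun b _ => ?_)
  rw [Matrix.mul_smul, Matrix.smul_mul, time_RN_comm_pair]

theorem time_RN_comm_spinZ {ι : Type*} [Fintype ι] [DecidableEq ι] (j : ι) :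
    (RN 2 : Matrix (ι → Fin 3) (ι → Fin 3) ℂ) * onSite spinZ j = onSite spinZ j * RN 2 := by
  refine time_comm_of_conj (time_RN_mul_self 2) ?_
  have := time_RN_onSite (ι := ι) 2 2 j
  simpa [sg, spinOp] using this

theorem RN_comm_openS (s : ℝ) (n : ℕ) (h : ℝ) :
    (RN 2 : Matrix (Fin (n + 1) → Fin 3) (Fin (n + 1) → Fin 3) ℂ) * openS s n h =
      openS s n h * RN 2 := by
  unfold openS bond
  rw [mul_sub, sub_mul, Finset.mul_sum, Finset.sum_mul]
  congr 1
  · refine Finset.sum_congr rfl (fun j _ => ?_)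
    rw [Finset.mul_sum, Finset.sum_mul]
    refine Finset.sum_congr rfl (fun b _ => ?_)
    rw [time_RN_comm_pair]
  · rw [Matrix.mul_smul, Matrix.smul_mul, mul_add, add_mul, Matrix.mul_smul, Matrix.smul_mul,
      time_RN_comm_spinZ, time_RN_comm_spinZ]

theorem time_Zt_add {κ : Type*} [Fintype κ] [DecidableEq κ] (A B H : Matrix κ κ ℂ) (β : ℝ) :
    Zt (A + B) H β = Zt A H β + Zt B H β := by
  unfold Zt
  rw [add_mul, Matrix.trace_add, Complex.add_re]

theorem time_Zt_sub {κ : Type*} [Fintype κ] [DecidableEq κ] (A B H : Matrix κ κ ℂ) (β : ℝ) :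
    Zt (A - B) H β = Zt A H β - Zt B H β := by
  unfold Zt
  rw [sub_mul, Matrix.trace_sub, Complex.sub_re]

theorem time_Zt_smul {κ : Type*} [Fintype κ] [DecidableEq κ] (r : ℝ) (A H : Matrix κ κ ℂ) (β : ℝ) :
    Zt ((r : ℂ) • A) H β = r * Zt A H β := by
  unfold Zt
  rw [Matrix.smul_mul, Matrix.trace_smul, smul_eq_mul, Complex.re_ofReal_mul]

theorem time_ring (L : ℕ) : TimeRing L := by
  have hH := ringH_isHermitian sOne L
  have h00 := time_RN_mul_self (ι := Fin L) 0
  have h11 := time_RN_mul_self (ι := Fin L) 1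
  have h22 := time_RN_mul_self (ι := Fin L) 2
  have h01 := time_RN_zero_mul_one (ι := Fin L)
  have h10 : (RN 1 : Matrix (Fin L → Fin 3) (Fin L → Fin 3) ℂ) * RN 0 = RN 2 := by
    rw [time_RN_comm, h01]
  have h02 : (RN 0 : Matrix (Fin L → Fin 3) (Fin L → Fin 3) ℂ) * RN 2 = RN 1 := by
    rw [← h01, ← mul_assoc, h00, one_mul]
  have h20 : (RN 2 : Matrix (Fin L → Fin 3) (Fin L → Fin 3) ℂ) * RN 0 = RN 1 := by
    rw [time_RN_comm, h02]
  have h12 : (RN 1 : Matrix (Fin L → Fin 3) (Fin L → Fin 3) ℂ) * RN 2 = RN 0 := by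
    rw [← h10, ← mul_assoc, h11, one_mul]
  have h21 : (RN 2 : Matrix (Fin L → Fin 3) (Fin L → Fin 3) ℂ) * RN 1 = RN 0 := by
    rw [time_RN_comm, h12]
  have hq : ((1 / 4 : ℝ) : ℂ) * ((1 / 4 : ℝ) : ℂ) * 4 = ((1 / 4 : ℝ) : ℂ) := by
    push_cast; norm_num
  refine ⟨?_, ?_⟩
  · have := expSum_proj (ringH sOne L)
      (((1 / 4 : ℝ) : ℂ) • (1 + RN 0 + RN 1 + RN 2 : Matrix (Fin L → Fin 3) (Fin L → Fin 3) ℂ)) hH
      ?_ ?_ ?_
    · convert this using 2 with β
      rw [time_Zt_smul, time_Zt_add, time_Zt_add, time_Zt_add, Zt_R_one, Zt_R_one, Zt_R_one]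
      unfold P
      ring
    · exact time_real_smul_isHermitian _ (((Matrix.isHermitian_one.add
        (time_RN_isHermitian 0)).add (time_RN_isHermitian 1)).add (time_RN_isHermitian 2))
    · rw [Matrix.smul_mul, Matrix.mul_smul, smul_smul]
      have : (1 + RN 0 + RN 1 + RN 2 : Matrix (Fin L → Fin 3) (Fin L → Fin 3) ℂ) *
          (1 + RN 0 + RN 1 + RN 2) = (4 : ℂ) • (1 + RN 0 + RN 1 + RN 2) := by
        simp only [mul_add, add_mul, one_mul, mul_one, h00, h11, h22, h01, h10, h02, h20, h12, h21]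
        have h4 : (4 : ℂ) = 1 + 1 + 1 + 1 := by norm_num
        rw [h4]
        simp only [add_smul, one_smul]
        abel
      rw [this, smul_smul, hq]
    · rw [Matrix.smul_mul, Matrix.mul_smul]
      simp only [mul_add, add_mul, one_mul, mul_one, RN_comm_ringH]
  · have := expSum_proj (ringH sOne L)
      (((1 / 4 : ℝ) : ℂ) • (1 + RN 2 - RN 0 - RN 1 : Matrix (Fin L → Fin 3) (Fin L → Fin 3) ℂ)) hH
      ?_ ?_ ?_
    · convert this using 2 with β
      rw [time_Zt_smul, time_Zt_sub, time_Zt_sub, time_Zt_add, Zt_R_one, Zt_R_one, Zt_R_one]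
      unfold P
      ring
    · exact time_real_smul_isHermitian _ (((Matrix.isHermitian_one.add
        (time_RN_isHermitian 2)).sub (time_RN_isHermitian 0)).sub (time_RN_isHermitian 1))
    · rw [Matrix.smul_mul, Matrix.mul_smul, smul_smul]
      have : (1 + RN 2 - RN 0 - RN 1 : Matrix (Fin L → Fin 3) (Fin L → Fin 3) ℂ) *
          (1 + RN 2 - RN 0 - RN 1) = (4 : ℂ) • (1 + RN 2 - RN 0 - RN 1) := by
        simp only [mul_add, add_mul, mul_sub, sub_mul, one_mul, mul_one, h00, h11, h22, h01, h10,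
          h02, h20, h12, h21]
        have h4 : (4 : ℂ) = 1 + 1 + 1 + 1 := by norm_num
        rw [h4]
        simp only [add_smul, one_smul]
        abel
      rw [this, smul_smul, hq]
    · rw [Matrix.smul_mul, Matrix.mul_smul]
      simp only [mul_add, add_mul, mul_sub, sub_mul, one_mul, mul_one, RN_comm_ringH]

theorem time_open (N : ℕ) : TimeOpen N := by
  have h22 := time_RN_mul_self (ι := Fin (N - 1 + 1)) 2
  have hq : ((1 / 2 : ℝ) : ℂ) * ((1 / 2 : ℝ) : ℂ) * 2 = ((1 / 2 : ℝ) : ℂ) := by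
    push_cast; norm_num
  have h2 : (2 : ℂ) = 1 + 1 := by norm_num
  refine ⟨?_, ?_, ?_⟩
  · have := expSum_proj (openS (-1) (N - 1) (3 / 5))
      (((1 / 2 : ℝ) : ℂ) • (1 + RN 2 : Matrix (Fin (N - 1 + 1) → Fin 3) (Fin (N - 1 + 1) → Fin 3) ℂ))
      (openS_isHermitian _ _ _) ?_ ?_ ?_
    · convert this using 2 with β
      rw [time_Zt_smul, time_Zt_add]
      unfold Vo VoZ
      ring
    · exact time_real_smul_isHermitian _ (Matrix.isHermitian_one.add (time_RN_isHermitian 2))
    · rw [Matrix.smul_mul, Matrix.mul_smul, smul_smul]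
      have : (1 + RN 2 : Matrix (Fin (N - 1 + 1) → Fin 3) (Fin (N - 1 + 1) → Fin 3) ℂ) *
          (1 + RN 2) = (2 : ℂ) • (1 + RN 2) := by
        simp only [mul_add, add_mul, one_mul, mul_one, h22]
        rw [h2]
        simp only [add_smul, one_smul, smul_add]
        abel
      rw [this, smul_smul, hq]
    · rw [Matrix.smul_mul, Matrix.mul_smul]
      simp only [mul_add, add_mul, one_mul, mul_one, RN_comm_openS]
  · have := expSum_proj (openS (-1) (N - 1) (3 / 5))
      (((1 / 2 : ℝ) : ℂ) • (1 - RN 2 : Matrix (Fin (N - 1 + 1) → Fin 3) (Fin (N - 1 + 1) → Fin 3) ℂ))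
      (openS_isHermitian _ _ _) ?_ ?_ ?_
    · convert this using 2 with β
      rw [time_Zt_smul, time_Zt_sub]
      unfold Vo VoZ
      ring
    · exact time_real_smul_isHermitian _ (Matrix.isHermitian_one.sub (time_RN_isHermitian 2))
    · rw [Matrix.smul_mul, Matrix.mul_smul, smul_smul]
      have : (1 - RN 2 : Matrix (Fin (N - 1 + 1) → Fin 3) (Fin (N - 1 + 1) → Fin 3) ℂ) *
          (1 - RN 2) = (2 : ℂ) • (1 - RN 2) := by
        simp only [mul_sub, sub_mul, one_mul, mul_one, h22]
        rw [h2]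
        simp only [add_smul, one_smul, smul_sub]
        abel
      rw [this, smul_smul, hq]
    · rw [Matrix.smul_mul, Matrix.mul_smul]
      simp only [mul_sub, sub_mul, one_mul, mul_one, RN_comm_openS]
  · have := expSum_proj (openS 1 (N - 1) (3 / 5)) 1 (openS_isHermitian _ _ _)
      Matrix.isHermitian_one (one_mul 1) (by rw [one_mul, mul_one])
    exact this

end Crest.Agent.HGB
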