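import Mathlib
import Crest.Agent.HGC_BdLocal

/-!
HGC_BdEnt (S0545/S0546 part C, helper71): matrix elements of two-site terms.
-/

set_option autoImplicit false

namespace Crest.Agent.HGC
open Matrix Crest.MathPhysics.SpinChain Crest.Agent.HG Crest.Agent.HGB
open scoped ComplexOrder

/-- sign of the π-rotation about z, up to an overall sign. -/
noncomputable def rho (a : Fin 3) : ℝ := if a = 1 then -1 else 1

/-- couplings: untwisted or twisted. -/
noncomputable def tw (b : Bool) : Fin 3 → ℝ := if b then sPi else sOne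

noncomputable def rh (b : Bool) (a : Fin 3) : ℝ := if b then rho a else 1

theorem rh_sq (b : Bool) (a : Fin 3) : rh b a * rh b a = 1 := by
  unfold rh rho
  split_ifs <;> norm_num

theorem rh_ne (b : Bool) (a : Fin 3) : rh b a = 1 ∨ rh b a = -1 := by
  unfold rh rho
  split_ifs <;> simp

/-- exchange part -/
def xyInt (a b c d : Fin 3) : ℤ :=
  if ((c : ℕ) = a + 1 ∧ (b : ℕ) = d + 1) ∨ ((a : ℕ) = c + 1 ∧ (d : ℕ) = b + 1) then 1 else 0

def zInt (a b c d : Fin 3) : ℤ := if a = c ∧ b = d then mInt a * mInt b else 0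

theorem bInt_eq (a b c d : Fin 3) : bInt a b c d = zInt a b c d + xyInt a b c d := by
  revert a b c d; decide

theorem pair_xy (a b c d : Fin 3) :
    spinOp 0 a c * spinOp 0 b d + spinOp 1 a c * spinOp 1 b d = ((xyInt a b c d : ℤ) : ℂ) := by
  have h := r2_sq
  have hI := Complex.I_mul_I
  rw [spinOp_zero, spinOp_one, spinX_eq, spinY_eq]
  fin_cases a <;> fin_cases c <;> fin_cases b <;> fin_cases d <;>
    simp [xyInt] <;> grind

theorem pair_z (a b c d : Fin 3) :
    spinOp 2 a c * spinOp 2 b d = ((zInt a b c d : ℤ) : ℂ) := by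
  rw [spinOp_two, spinZ_eq]
  fin_cases a <;> fin_cases c <;> fin_cases b <;> fin_cases d <;>
    simp [zInt, mInt]

theorem rho_xy (a b c d : Fin 3) :
    rho a * rho c * ((xyInt a b c d : ℤ) : ℝ) = - ((xyInt a b c d : ℤ) : ℝ) := by
  unfold rho
  fin_cases a <;> fin_cases c <;> fin_cases b <;> fin_cases d <;> simp [xyInt]

theorem rho_xy' (a b c d : Fin 3) :
    rho b * rho d * ((xyInt a b c d : ℤ) : ℝ) = - ((xyInt a b c d : ℤ) : ℝ) := by
  unfold rho
  fin_cases a <;> fin_cases c <;> fin_cases b <;> fin_cases d <;> simp [xyInt]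

theorem rho_z (a b c d : Fin 3) :
    rho a * rho c * ((zInt a b c d : ℤ) : ℝ) = ((zInt a b c d : ℤ) : ℝ) := by
  unfold rho
  fin_cases a <;> fin_cases c <;> fin_cases b <;> fin_cases d <;> simp [zInt]

theorem rho_z' (a b c d : Fin 3) :
    rho b * rho d * ((zInt a b c d : ℤ) : ℝ) = ((zInt a b c d : ℤ) : ℝ) := by
  unfold rho
  fin_cases a <;> fin_cases c <;> fin_cases b <;> fin_cases d <;> simp [zInt]

theorem pair_sum (t : Bool) (a b c d : Fin 3) :
    ∑ α, ((tw t α : ℝ) : ℂ) * (spinOp α a c * spinOp α b d) =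
      ((rh t a * rh t c * ((bInt a b c d : ℤ) : ℝ) : ℝ) : ℂ) := by
  rw [Fin.sum_univ_three]
  have h1 := pair_xy a b c d
  have h2 := pair_z a b c d
  have h3 := rho_xy a b c d
  have h4 := rho_z a b c d
  rw [bInt_eq]
  cases t
  · simp only [tw, rh, sOne, if_neg, Bool.false_eq_true, not_false_eq_true]
    push_cast
    rw [← h1, ← h2]; ring
  · simp only [tw, rh, sPi, if_true]
    have h5 : rho a * rho c * (((zInt a b c d + xyInt a b c d : ℤ)) : ℝ) =
        ((zInt a b c d : ℤ) : ℝ) - ((xyInt a b c d : ℤ) : ℝ) := by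
      push_cast
      rw [mul_add, h3, h4]; ring
    rw [h5]
    push_cast
    rw [← h1, ← h2]
    simp
    ring

theorem pair_sum' (t : Bool) (a b c d : Fin 3) :
    ∑ α, ((tw t α : ℝ) : ℂ) * (spinOp α a c * spinOp α b d) =
      ((rh t b * rh t d * ((bInt a b c d : ℤ) : ℝ) : ℝ) : ℂ) := by
  rw [pair_sum, bInt_eq]
  congr 1
  cases t
  · simp [rh]
  · have h3 := rho_xy a b c d
    have h4 := rho_z a b c d
    have h5 := rho_xy' a b c d
    have h6 := rho_z' a b c d
    simp only [rh, if_true]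
    push_cast
    rw [mul_add, mul_add, h3, h4, h5, h6]

section sites
variable {ι : Type*} [Fintype ι] [DecidableEq ι]

theorem two_site (A C : Matrix (Fin 3) (Fin 3) ℂ) {j k : ι} (h : j ≠ k) (σ τ : ι → Fin 3) :
    (onSite A j * onSite C k) σ τ =
      if (∀ i, i ≠ j → i ≠ k → σ i = τ i) then A (σ j) (τ j) * C (σ k) (τ k) else 0 := by
  rw [onSite_mul_onSite A C h]
  unfold tens
  simp only [Matrix.of_apply]
  split_ifs with hc
  · rw [Finset.prod_eq_mul j k h]
    · rw [Function.update_of_ne h, Function.update_self, Function.update_self]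
    · intro c _ hcc
      rw [Function.update_of_ne hcc.2, Function.update_of_ne hcc.1, Matrix.one_apply,
        if_pos (hc c hcc.1 hcc.2)]
    · intro hh; exact absurd (Finset.mem_univ _) hh
    · intro hh; exact absurd (Finset.mem_univ _) hh
  · push Not at hc
    obtain ⟨i, h1, h2, h3⟩ := hc
    refine Finset.prod_eq_zero (Finset.mem_univ i) ?_
    rw [Function.update_of_ne h2, Function.update_of_ne h1, Matrix.one_apply, if_neg h3]

/-- two-site coupling term. -/
noncomputable def bnd (t : Fin 3 → ℝ) (j k : ι) : Matrix (ι → Fin 3) (ι → Fin 3) ℂ :=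
  ∑ a : Fin 3, ((t a : ℝ) : ℂ) • (onSite (spinOp a) j * onSite (spinOp a) k)

theorem bnd_apply (t : Bool) {j k : ι} (h : j ≠ k) (σ τ : ι → Fin 3) :
    bnd (tw t) j k σ τ = if (∀ i, i ≠ j → i ≠ k → σ i = τ i) then
      ((rh t (σ j) * rh t (τ j) * ((bInt (σ j) (σ k) (τ j) (τ k) : ℤ) : ℝ) : ℝ) : ℂ) else 0 := by
  unfold bnd
  rw [Matrix.sum_apply]
  simp only [Matrix.smul_apply, two_site _ _ h, smul_eq_mul]
  split_ifs with hc
  · exact pair_sum t _ _ _ _
  · simp

theorem bnd_apply' (t : Bool) {j k : ι} (h : j ≠ k) (σ τ : ι → Fin 3) :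
    bnd (tw t) j k σ τ = if (∀ i, i ≠ j → i ≠ k → σ i = τ i) then
      ((rh t (σ k) * rh t (τ k) * ((bInt (σ j) (σ k) (τ j) (τ k) : ℤ) : ℝ) : ℝ) : ℂ) else 0 := by
  unfold bnd
  rw [Matrix.sum_apply]
  simp only [Matrix.smul_apply, two_site _ _ h, smul_eq_mul]
  split_ifs with hc
  · exact pair_sum' t _ _ _ _
  · simp

/-- three-site lower bound. -/
theorem three_psd (t1 t2 : Bool) {j k l : ι} (hjk : j ≠ k) (hkl : k ≠ l) (hjl : j ≠ l) :
    (bnd (tw t1) j k + bnd (tw t2) k l + (3 : ℂ) • (1 : Matrix (ι → Fin 3) (ι → Fin 3) ℂ)).PosSemidef := by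
  classical
  have hE : bnd (tw t1) j k + bnd (tw t2) k l + (3 : ℂ) • (1 : Matrix (ι → Fin 3) (ι → Fin 3) ℂ) =
      Matrix.of fun σ τ : ι → Fin 3 =>
        if (fun i => if i = j ∨ i = k ∨ i = l then (0 : Fin 3) else σ i) =
            (fun i => if i = j ∨ i = k ∨ i = l then (0 : Fin 3) else τ i) then
          ((rh t1 (σ j) * rh t2 (σ l) : ℝ) : ℂ) * ((rh t1 (τ j) * rh t2 (τ l) : ℝ) : ℂ) *
            (Matrix.of fun x y => ((W3 x y : ℤ) : ℂ)) (σ j, σ k, σ l) (τ j, τ k, τ l) else 0 := by
    ext σ τ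
    rw [Matrix.add_apply, Matrix.add_apply, bnd_apply t1 hjk, bnd_apply' t2 hkl, Matrix.smul_apply,
      Matrix.one_apply]
    simp only [Matrix.of_apply]
    by_cases hq : (fun i => if i = j ∨ i = k ∨ i = l then (0 : Fin 3) else σ i) =
            (fun i => if i = j ∨ i = k ∨ i = l then (0 : Fin 3) else τ i)
    · rw [if_pos hq]
      have hq' : ∀ i, i ≠ j → i ≠ k → i ≠ l → σ i = τ i := by
        intro i h1 h2 h3
        have := congrFun hq i
        simpa [h1, h2, h3] using this
      have e1 : (∀ i, i ≠ j → i ≠ k → σ i = τ i) ↔ σ l = τ l := by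
        constructor
        · intro hh; exact hh l hjl.symm hkl.symm
        · intro hh i h1 h2
          by_cases h3 : i = l
          · rw [h3]; exact hh
          · exact hq' i h1 h2 h3
      have e2 : (∀ i, i ≠ k → i ≠ l → σ i = τ i) ↔ σ j = τ j := by
        constructor
        · intro hh; exact hh j hjk hjl
        · intro hh i h1 h2
          by_cases h3 : i = j
          · rw [h3]; exact hh
          · exact hq' i h3 h1 h2
      have e3 : σ = τ ↔ (σ j = τ j ∧ σ k = τ k ∧ σ l = τ l) := by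
        constructor
        · rintro rfl; exact ⟨rfl, rfl, rfl⟩
        · rintro ⟨h1, h2, h3⟩
          funext i
          by_cases i1 : i = j
          · rw [i1]; exact h1
          by_cases i2 : i = k
          · rw [i2]; exact h2
          by_cases i3 : i = l
          · rw [i3]; exact h3
          exact hq' i i1 i2 i3
      simp only [e1, e2, e3, W3, Prod.mk.injEq]
      have s1 := rh_sq t1 (τ j)
      have s2 := rh_sq t2 (τ l)
      by_cases c1 : σ l = τ l
      · by_cases c2 : σ j = τ j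
        · by_cases c3 : σ k = τ k
          · simp only [c1, c2, c3, if_true, and_self]
            have s1' : ((rh t1 (τ j) : ℝ) : ℂ) * ((rh t1 (τ j) : ℝ) : ℂ) = 1 := by
              rw [← Complex.ofReal_mul, s1]; simp
            have s2' : ((rh t2 (τ l) : ℝ) : ℂ) * ((rh t2 (τ l) : ℝ) : ℂ) = 1 := by
              rw [← Complex.ofReal_mul, s2]; simp
            push_cast
            simp only [smul_eq_mul, mul_one]
            linear_combination (-((rh t2 (τ l) : ℝ) : ℂ) * ((rh t2 (τ l) : ℝ) : ℂ) *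
                (((bInt (τ k) (τ l) (τ k) (τ l) : ℤ) : ℂ) + 3)) * s1' -
              (((bInt (τ j) (τ k) (τ j) (τ k) : ℤ) : ℂ) * (((rh t1 (τ j) : ℝ) : ℂ) * ((rh t1 (τ j) : ℝ) : ℂ)) + 3) * s2'
          · simp only [c1, c2, c3, if_true, and_false, false_and, if_false]
            have s1' : ((rh t1 (τ j) : ℝ) : ℂ) * ((rh t1 (τ j) : ℝ) : ℂ) = 1 := by
              rw [← Complex.ofReal_mul, s1]; simp
            have s2' : ((rh t2 (τ l) : ℝ) : ℂ) * ((rh t2 (τ l) : ℝ) : ℂ) = 1 := by
              rw [← Complex.ofReal_mul, s2]; simp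
            push_cast
            simp only [smul_zero]
            linear_combination (-((rh t2 (τ l) : ℝ) : ℂ) * ((rh t2 (τ l) : ℝ) : ℂ) *
                (((bInt (σ k) (τ l) (τ k) (τ l) : ℤ) : ℂ))) * s1' -
              (((bInt (τ j) (σ k) (τ j) (τ k) : ℤ) : ℂ) * (((rh t1 (τ j) : ℝ) : ℂ) * ((rh t1 (τ j) : ℝ) : ℂ))) * s2'
        · simp only [c1, c2, if_true, false_and, if_false]
          have s2' : ((rh t2 (τ l) : ℝ) : ℂ) * ((rh t2 (τ l) : ℝ) : ℂ) = 1 := by
            rw [← Complex.ofReal_mul, s2]; simp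
          push_cast
          simp only [smul_zero]
          linear_combination (-(((bInt (σ j) (σ k) (τ j) (τ k) : ℤ) : ℂ) *
            ((rh t1 (σ j) : ℝ) : ℂ) * ((rh t1 (τ j) : ℝ) : ℂ))) * s2'
      · by_cases c2 : σ j = τ j
        · simp only [c1, c2, if_true, and_false, if_false]
          have s1' : ((rh t1 (τ j) : ℝ) : ℂ) * ((rh t1 (τ j) : ℝ) : ℂ) = 1 := by
            rw [← Complex.ofReal_mul, s1]; simp
          push_cast
          simp only [smul_zero]
          linear_combination (-(((bInt (σ k) (σ l) (τ k) (τ l) : ℤ) : ℂ) *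
            ((rh t2 (σ l) : ℝ) : ℂ) * ((rh t2 (τ l) : ℝ) : ℂ))) * s1'
        · simp [c1, c2]
    · rw [if_neg hq]
      have n1 : ¬ (∀ i, i ≠ j → i ≠ k → σ i = τ i) := by
        intro hh
        apply hq
        funext i
        by_cases hi : i = j ∨ i = k ∨ i = l
        · simp [hi]
        · push Not at hi
          simp [hi.1, hi.2.1, hi.2.2, hh i hi.1 hi.2.1]
      have n2 : ¬ (∀ i, i ≠ k → i ≠ l → σ i = τ i) := by
        intro hh
        apply hq
        funext i
        by_cases hi : i = j ∨ i = k ∨ i = l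
        · simp [hi]
        · push Not at hi
          simp [hi.1, hi.2.1, hi.2.2, hh i hi.2.1 hi.2.2]
      have n3 : ¬ σ = τ := by
        rintro rfl; exact hq rfl
      rw [if_neg n1, if_neg n2, if_neg n3]
      simp
  rw [hE]
  exact psd_local (fun σ : ι → Fin 3 => (σ j, σ k, σ l))
    (fun σ : ι → Fin 3 => fun i => if i = j ∨ i = k ∨ i = l then (0 : Fin 3) else σ i)
    (fun σ => rh t1 (σ j) * rh t2 (σ l)) _ W3_psd

end sites

end Crest.Agent.HGC
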