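import Mathlib
import Crest.Agent.HGC_BdEnt

/-!
HGC_BdTwo (S0545/S0546 part C, helper71): two-site and one-site bounds.
-/

set_option autoImplicit false

namespace Crest.Agent.HGC
open Matrix Crest.MathPhysics.SpinChain Crest.Agent.HG Crest.Agent.HGB
open scoped ComplexOrder

section sites
variable {ι : Type*} [Fintype ι] [DecidableEq ι]

/-- mask equality for two sites. -/
theorem mask2 {j k : ι} (σ τ : ι → Fin 3) :
    ((fun i => if i = j ∨ i = k then (0 : Fin 3) else σ i) =
      (fun i => if i = j ∨ i = k then (0 : Fin 3) else τ i)) ↔ ∀ i, i ≠ j → i ≠ k → σ i = τ i := by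
  constructor
  · intro hq i h1 h2
    have := congrFun hq i
    simpa [h1, h2] using this
  · intro hh
    funext i
    by_cases hi : i = j ∨ i = k
    · simp [hi]
    · push Not at hi
      simp [hi.1, hi.2, hh i hi.1 hi.2]

theorem eq_of_mask2 {j k : ι} (σ τ : ι → Fin 3) (hq : ∀ i, i ≠ j → i ≠ k → σ i = τ i) :
    σ = τ ↔ (σ j = τ j ∧ σ k = τ k) := by
  constructor
  · rintro rfl; exact ⟨rfl, rfl⟩
  · rintro ⟨h1, h2⟩
    funext i
    by_cases i1 : i = j
    · rw [i1]; exact h1
    by_cases i2 : i = k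
    · rw [i2]; exact h2
    exact hq i i1 i2

theorem two_psd_upper (t : Bool) {j k : ι} (hjk : j ≠ k) :
    ((1 : Matrix (ι → Fin 3) (ι → Fin 3) ℂ) - bnd (tw t) j k).PosSemidef := by
  classical
  have hE : (1 : Matrix (ι → Fin 3) (ι → Fin 3) ℂ) - bnd (tw t) j k =
      Matrix.of fun σ τ : ι → Fin 3 =>
        if (fun i => if i = j ∨ i = k then (0 : Fin 3) else σ i) =
            (fun i => if i = j ∨ i = k then (0 : Fin 3) else τ i) then
          ((rh t (σ j) : ℝ) : ℂ) * ((rh t (τ j) : ℝ) : ℂ) *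
            (Matrix.of fun x y => ((W1 x y : ℤ) : ℂ)) (σ j, σ k) (τ j, τ k) else 0 := by
    ext σ τ
    rw [Matrix.sub_apply, bnd_apply t hjk, Matrix.one_apply]
    simp only [Matrix.of_apply, mask2]
    by_cases hq : ∀ i, i ≠ j → i ≠ k → σ i = τ i
    · rw [if_pos hq, if_pos hq]
      simp only [W1, Prod.mk.injEq, eq_of_mask2 σ τ hq]
      by_cases c : σ j = τ j ∧ σ k = τ k
      · have s1' : ((rh t (τ j) : ℝ) : ℂ) * ((rh t (τ j) : ℝ) : ℂ) = 1 := by
          rw [← Complex.ofReal_mul, rh_sq]; simp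
        rw [if_pos c, if_pos c, c.1, c.2]
        push_cast
        linear_combination (-1 : ℂ) * s1'
      · rw [if_neg c, if_neg c]
        push_cast
        ring
    · rw [if_neg hq, if_neg hq, if_neg]
      · simp
      · rintro rfl; exact hq fun _ _ _ => rfl
  rw [hE]
  exact psd_local (fun σ : ι → Fin 3 => (σ j, σ k))
    (fun σ : ι → Fin 3 => fun i => if i = j ∨ i = k then (0 : Fin 3) else σ i)
    (fun σ => rh t (σ j)) _ W1_psd

/-- optional spin flip. -/
def fl (e : Bool) (a : Fin 3) : Fin 3 := if e then a.rev else a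

def eps (e : Bool) : ℤ := if e then -1 else 1

theorem fl_m (e : Bool) (a : Fin 3) : mInt (fl e a) = eps e * mInt a := by
  revert e a; decide

theorem fl_b (e : Bool) (a b c d : Fin 3) : bInt (fl e a) (fl e b) (fl e c) (fl e d) = bInt a b c d := by
  revert e a b c d; decide

theorem fl_inj (e : Bool) (a c : Fin 3) : fl e a = fl e c ↔ a = c := by
  revert e a c; decide

theorem b_swap (a b c d : Fin 3) : bInt a b c d = bInt b a d c := by
  revert a b c d; decide

theorem onSiteZ_apply (j : ι) (σ τ : ι → Fin 3) :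
    onSite spinZ j σ τ = if σ = τ then ((mInt (σ j) : ℤ) : ℂ) else 0 := by
  unfold onSite spinZ
  simp only [Matrix.of_apply, Matrix.diagonal_apply]
  by_cases h : σ = τ
  · subst h
    simp [mInt, magneticNumber]
  · rw [if_neg h]
    split_ifs with h1 h2
    · exfalso; apply h
      funext i
      by_cases hi : i = j
      · rw [hi]; exact h2
      · exact h1 i hi
    · rfl
    · rfl

theorem open_end_psd (e : Bool) {j k : ι} (hjk : j ≠ k) :
    ((1 / 2 : ℂ) • bnd sOne j k - ((3 / 5 : ℂ) * ((eps e : ℤ) : ℂ)) • onSite spinZ j +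
      (33 / 25 : ℂ) • (1 : Matrix (ι → Fin 3) (ι → Fin 3) ℂ)).PosSemidef := by
  classical
  have hE : ((1 / 2 : ℂ) • bnd sOne j k - ((3 / 5 : ℂ) * ((eps e : ℤ) : ℂ)) • onSite spinZ j +
      (33 / 25 : ℂ) • (1 : Matrix (ι → Fin 3) (ι → Fin 3) ℂ)) =
      (1 / 100 : ℂ) • Matrix.of fun σ τ : ι → Fin 3 =>
        if (fun i => if i = j ∨ i = k then (0 : Fin 3) else σ i) =
            (fun i => if i = j ∨ i = k then (0 : Fin 3) else τ i) then
          (((fun _ => (1 : ℝ)) σ : ℝ) : ℂ) * (((fun _ => (1 : ℝ)) τ : ℝ) : ℂ) *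
            (Matrix.of fun x y => ((WO x y : ℤ) : ℂ)) (fl e (σ j), fl e (σ k))
              (fl e (τ j), fl e (τ k)) else 0 := by
    have h1 : (sOne : Fin 3 → ℝ) = tw false := by simp [tw]
    rw [h1]
    ext σ τ
    rw [Matrix.add_apply, Matrix.sub_apply, Matrix.smul_apply, Matrix.smul_apply,
      Matrix.smul_apply, Matrix.smul_apply, bnd_apply false hjk, Matrix.one_apply, onSiteZ_apply]
    simp only [Matrix.of_apply, mask2, smul_eq_mul]
    by_cases hq : ∀ i, i ≠ j → i ≠ k → σ i = τ i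
    · rw [if_pos hq, if_pos hq]
      simp only [WO, Prod.mk.injEq, fl_inj, fl_m, fl_b, rh, eq_of_mask2 σ τ hq]
      by_cases c : σ j = τ j ∧ σ k = τ k
      · rw [if_pos c, if_pos c, if_pos c]
        push_cast
        simp
        ring
      · rw [if_neg c, if_neg c, if_neg c]
        push_cast
        simp
        ring
    · have n : ¬ σ = τ := by rintro rfl; exact hq fun _ _ _ => rfl
      rw [if_neg hq, if_neg hq, if_neg n, if_neg n]
      simp
  rw [hE]
  refine Matrix.PosSemidef.smul ?_ (by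
    rw [show (1 / 100 : ℂ) = ((1 / 100 : ℝ) : ℂ) by push_cast; rfl]
    exact Complex.zero_le_real.mpr (by norm_num))
  exact psd_local (fun σ : ι → Fin 3 => (fl e (σ j), fl e (σ k)))
    (fun σ : ι → Fin 3 => fun i => if i = j ∨ i = k then (0 : Fin 3) else σ i)
    (fun _ => (1 : ℝ)) _ WO_psd

/-- one-site field bound. -/
theorem field_psd (e : Bool) (j : ι) :
    ((1 : Matrix (ι → Fin 3) (ι → Fin 3) ℂ) + ((eps e : ℤ) : ℂ) • onSite spinZ j).PosSemidef := by
  classical
  have hE : ((1 : Matrix (ι → Fin 3) (ι → Fin 3) ℂ) + ((eps e : ℤ) : ℂ) • onSite spinZ j) =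
      Matrix.diagonal fun σ : ι → Fin 3 => (((1 + eps e * mInt (σ j) : ℤ) : ℝ) : ℂ) := by
    ext σ τ
    rw [Matrix.add_apply, Matrix.smul_apply, onSiteZ_apply, Matrix.one_apply,
      Matrix.diagonal_apply]
    by_cases c : σ = τ
    · rw [if_pos c, if_pos c, if_pos c]; push_cast; simp
    · rw [if_neg c, if_neg c, if_neg c]; simp
  rw [hE, Matrix.posSemidef_diagonal_iff]
  intro σ
  have h : (0 : ℤ) ≤ 1 + eps e * mInt (σ j) := by
    clear hE
    generalize σ j = a
    revert e a; decide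
  exact_mod_cast h

theorem bnd_comm (t : Bool) {j k : ι} (hjk : j ≠ k) : bnd (tw t) j k = bnd (tw t) k j := by
  ext σ τ
  rw [bnd_apply t hjk, bnd_apply' t hjk.symm, b_swap]
  congr 1
  apply propext
  exact ⟨fun h i h1 h2 => h i h2 h1, fun h i h1 h2 => h i h2 h1⟩

end sites

end Crest.Agent.HGC
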