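import Mathlib
import Crest.Agent.HGC_BdTwo

/-!
HGC_BdRing (S0545/S0546 part C, helper71): `-(3/2) L ≤ ringH ≤ L`, untwisted and π-twisted.
-/

set_option autoImplicit false

namespace Crest.Agent.HGC
open Matrix Crest.MathPhysics.SpinChain Crest.Agent.HG Crest.Agent.HGB
open scoped ComplexOrder

/-- bond flag. -/
def bf (t : Bool) (L : ℕ) (j : Fin L) : Bool := t && decide ((j : ℕ) + 1 = L)

theorem ringH_eq (t : Bool) (L : ℕ) :
    ringH (tw t) L = ∑ j : Fin L, bnd (tw (bf t L j)) j (finRotate L j) := by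
  unfold ringH bnd
  refine Finset.sum_congr rfl fun j _ => Finset.sum_congr rfl fun a _ => ?_
  congr 2
  unfold tw bf
  by_cases h : (j : ℕ) + 1 = L
  · cases t <;> simp [h, sOne]
  · cases t <;> simp [h, sOne]

theorem psd_sum {κ ι : Type*} [Fintype ι] (f : ι → Matrix κ κ ℂ) (h : ∀ i, (f i).PosSemidef) :
    (∑ i, f i).PosSemidef :=
  Matrix.posSemidef_sum _ fun i _ => h i

theorem psd_half {κ : Type*} {A : Matrix κ κ ℂ} (h : A.PosSemidef) :
    ((1 / 2 : ℂ) • A).PosSemidef := by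
  refine Matrix.PosSemidef.smul h ?_
  rw [show (1 / 2 : ℂ) = ((1 / 2 : ℝ) : ℂ) by push_cast; rfl]
  exact Complex.zero_le_real.mpr (by norm_num)

theorem psd_nonneg_smul {κ : Type*} {A : Matrix κ κ ℂ} (h : A.PosSemidef) (r : ℝ) (hr : 0 ≤ r) :
    (((r : ℝ) : ℂ) • A).PosSemidef :=
  Matrix.PosSemidef.smul h (Complex.zero_le_real.mpr hr)

theorem rot_ne {L : ℕ} (hL : 2 ≤ L) (j : Fin L) : j ≠ finRotate L j := by
  obtain ⟨m, rfl⟩ : ∃ m, L = m + 2 := ⟨L - 2, by omega⟩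
  intro h
  have h2 : (j : ℕ) = ((finRotate (m + 2) j : Fin (m + 2)) : ℕ) := congrArg _ h
  by_cases hj : j = Fin.last (m + 1)
  · rw [hj, finRotate_last] at h2
    simp at h2
  · rw [coe_finRotate_of_ne_last hj] at h2
    omega

theorem rot_rot_ne {L : ℕ} (hL : 3 ≤ L) (j : Fin L) : j ≠ finRotate L (finRotate L j) := by
  obtain ⟨m, rfl⟩ : ∃ m, L = m + 3 := ⟨L - 3, by omega⟩
  intro h
  have h2 : (j : ℕ) = ((finRotate (m + 3) (finRotate (m + 3) j) : Fin (m + 3)) : ℕ) :=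
    congrArg _ h
  by_cases hj : j = Fin.last (m + 2)
  · rw [hj, finRotate_last] at h2
    have h0 : (0 : Fin (m + 3)) ≠ Fin.last (m + 2) := by
      intro h'; have := congrArg Fin.val h'; simp at this
    rw [coe_finRotate_of_ne_last h0] at h2
    have e1 : ((Fin.last (m + 2) : Fin (m + 3)) : ℕ) = m + 2 := rfl
    have e2 : ((0 : Fin (m + 3)) : ℕ) = 0 := rfl
    rw [e1, e2] at h2
    omega
  · by_cases hj2 : finRotate (m + 3) j = Fin.last (m + 2)
    · rw [hj2, finRotate_last] at h2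
      have h3 : ((finRotate (m + 3) j : Fin (m + 3)) : ℕ) = m + 2 := by rw [hj2]; rfl
      rw [coe_finRotate_of_ne_last hj] at h3
      have e2 : ((0 : Fin (m + 3)) : ℕ) = 0 := rfl
      rw [e2] at h2
      omega
    · rw [coe_finRotate_of_ne_last hj2, coe_finRotate_of_ne_last hj] at h2
      omega

theorem ring_lower (t : Bool) {L : ℕ} (hL : 3 ≤ L) :
    (ringH (tw t) L + (((3 / 2 * L : ℝ)) : ℂ) • (1 : Matrix (Fin L → Fin 3) (Fin L → Fin 3) ℂ)).PosSemidef := by
  have h1 : ringH (tw t) L + (((3 / 2 * L : ℝ)) : ℂ) • (1 : Matrix (Fin L → Fin 3) (Fin L → Fin 3) ℂ) =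
      (1 / 2 : ℂ) • ∑ j : Fin L, (bnd (tw (bf t L j)) j (finRotate L j) +
        bnd (tw (bf t L (finRotate L j))) (finRotate L j) (finRotate L (finRotate L j)) +
          (3 : ℂ) • (1 : Matrix (Fin L → Fin 3) (Fin L → Fin 3) ℂ)) := by
    rw [Finset.sum_add_distrib, Finset.sum_add_distrib,
      Equiv.sum_comp (finRotate L) (fun j => bnd (tw (bf t L j)) j (finRotate L j)), ← ringH_eq,
      Finset.sum_const, Finset.card_univ, Fintype.card_fin, ← Nat.cast_smul_eq_nsmul ℂ]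
    push_cast
    module
  rw [h1]
  refine psd_half (psd_sum _ fun j => ?_)
  exact three_psd _ _ (rot_ne (by omega) j) (rot_ne (by omega) _) (rot_rot_ne hL j)

theorem ring_upper (t : Bool) {L : ℕ} (hL : 2 ≤ L) :
    (((L : ℝ) : ℂ) • (1 : Matrix (Fin L → Fin 3) (Fin L → Fin 3) ℂ) - ringH (tw t) L).PosSemidef := by
  have h1 : ((L : ℝ) : ℂ) • (1 : Matrix (Fin L → Fin 3) (Fin L → Fin 3) ℂ) - ringH (tw t) L =
      ∑ j : Fin L, (1 - bnd (tw (bf t L j)) j (finRotate L j)) := by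
    rw [Finset.sum_sub_distrib, ← ringH_eq, Finset.sum_const, Finset.card_univ, Fintype.card_fin]
    congr 1
    rw [← Nat.cast_smul_eq_nsmul ℂ]
    push_cast
    rfl
  rw [h1]
  exact psd_sum _ fun j => two_psd_upper _ (rot_ne hL j)

end Crest.Agent.HGC
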