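import Mathlib
import Crest.Agent.HGC_BdRing

/-!
HGC_BdOpen (S0545/S0546 part C, helper71): operator bounds for the open chain with end fields 3/5.
-/

set_option autoImplicit false

namespace Crest.Agent.HGC
open Matrix Crest.MathPhysics.SpinChain Crest.Agent.HG Crest.Agent.HGB
open scoped ComplexOrder

theorem bond_eq_bnd {ι : Type*} [Fintype ι] [DecidableEq ι] (j k : ι) : bond j k = bnd sOne j k := by
  unfold bond bnd sOne
  simp

theorem sOne_tw : (sOne : Fin 3 → ℝ) = tw false := by simp [tw]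

/-- sum of the bonds of the open chain, averaged. -/
theorem bulk_sum (m : ℕ) :
    ∑ j : Fin (m + 1), bnd sOne (Fin.castSucc j) (Fin.succ j) =
      (1 / 2 : ℂ) • bnd sOne (Fin.castSucc (0 : Fin (m + 1))) (Fin.succ 0) +
      (1 / 2 : ℂ) • bnd sOne (Fin.castSucc (Fin.last m)) (Fin.succ (Fin.last m)) +
      (1 / 2 : ℂ) • ∑ j : Fin m, (bnd sOne (Fin.castSucc (Fin.castSucc j)) (Fin.succ (Fin.castSucc j)) +
        bnd sOne (Fin.castSucc (Fin.succ j)) (Fin.succ (Fin.succ j))) := by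
  have h1 := Fin.sum_univ_castSucc (n := m) (fun j : Fin (m + 1) =>
    bnd sOne (Fin.castSucc j) (Fin.succ j))
  have h2 := Fin.sum_univ_succ (n := m) (fun j : Fin (m + 1) =>
    bnd sOne (Fin.castSucc j) (Fin.succ j))
  have h3 : ∑ j : Fin (m + 1), bnd sOne (Fin.castSucc j) (Fin.succ j) =
      (1 / 2 : ℂ) • (∑ j : Fin (m + 1), bnd sOne (Fin.castSucc j) (Fin.succ j)) +
      (1 / 2 : ℂ) • (∑ j : Fin (m + 1), bnd sOne (Fin.castSucc j) (Fin.succ j)) := by module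
  rw [h3]
  conv_lhs => rw [h1]
  conv_lhs => enter [2]; rw [← h1, h2]
  rw [Finset.sum_add_distrib]
  module

theorem bulk_psd (m : ℕ) :
    ((1 / 2 : ℂ) • ∑ j : Fin m, (bnd sOne (Fin.castSucc (Fin.castSucc j)) (Fin.succ (Fin.castSucc j)) +
        bnd sOne (Fin.castSucc (Fin.succ j)) (Fin.succ (Fin.succ j))) +
        ((3 / 2 * m : ℝ) : ℂ) • (1 : Matrix (Fin (m + 1 + 1) → Fin 3) (Fin (m + 1 + 1) → Fin 3) ℂ)).PosSemidef := by
  have h1 : ((1 / 2 : ℂ) • ∑ j : Fin m, (bnd sOne (Fin.castSucc (Fin.castSucc j)) (Fin.succ (Fin.castSucc j)) +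
        bnd sOne (Fin.castSucc (Fin.succ j)) (Fin.succ (Fin.succ j))) +
        ((3 / 2 * m : ℝ) : ℂ) • (1 : Matrix (Fin (m + 1 + 1) → Fin 3) (Fin (m + 1 + 1) → Fin 3) ℂ)) =
      (1 / 2 : ℂ) • ∑ j : Fin m, (bnd (tw false) (Fin.castSucc (Fin.castSucc j)) (Fin.succ (Fin.castSucc j)) +
        bnd (tw false) (Fin.succ (Fin.castSucc j)) (Fin.succ (Fin.succ j)) +
        (3 : ℂ) • (1 : Matrix (Fin (m + 1 + 1) → Fin 3) (Fin (m + 1 + 1) → Fin 3) ℂ)) := by
    rw [sOne_tw]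
    rw [Finset.sum_add_distrib (g := fun _ => (3 : ℂ) • (1 : Matrix (Fin (m + 1 + 1) → Fin 3) (Fin (m + 1 + 1) → Fin 3) ℂ)),
      Finset.sum_const, Finset.card_univ, Fintype.card_fin, ← Nat.cast_smul_eq_nsmul ℂ]
    simp only [Fin.succ_castSucc]
    push_cast
    module
  rw [h1]
  refine psd_half (psd_sum _ fun j => ?_)
  refine three_psd _ _ ?_ ?_ ?_
  · intro h; have := congrArg Fin.val h; simp at this
  · intro h; have := congrArg Fin.val h; simp at this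
  · intro h; have := congrArg Fin.val h; simp at this; omega

theorem open_lower (e : Bool) (m : ℕ) :
    (openS ((eps e : ℤ) : ℝ) (m + 1) (3 / 5) + ((3 / 2 * m + 66 / 25 : ℝ) : ℂ) •
      (1 : Matrix (Fin (m + 1 + 1) → Fin 3) (Fin (m + 1 + 1) → Fin 3) ℂ)).PosSemidef := by
  have hl : Fin.castSucc (0 : Fin (m + 1)) ≠ Fin.succ 0 := by
    intro h; have := congrArg Fin.val h; simp at this
  have hr : Fin.succ (Fin.last m) ≠ Fin.castSucc (Fin.last m) := by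
    intro h; have := congrArg Fin.val h; simp at this
  have h1 : openS ((eps e : ℤ) : ℝ) (m + 1) (3 / 5) + ((3 / 2 * m + 66 / 25 : ℝ) : ℂ) •
      (1 : Matrix (Fin (m + 1 + 1) → Fin 3) (Fin (m + 1 + 1) → Fin 3) ℂ) =
      ((1 / 2 : ℂ) • bnd sOne (Fin.castSucc (0 : Fin (m + 1))) (Fin.succ 0) -
        ((3 / 5 : ℂ) * ((eps false : ℤ) : ℂ)) • onSite spinZ (Fin.castSucc (0 : Fin (m + 1))) +
        (33 / 25 : ℂ) • (1 : Matrix (Fin (m + 1 + 1) → Fin 3) (Fin (m + 1 + 1) → Fin 3) ℂ)) +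
      ((1 / 2 : ℂ) • bnd sOne (Fin.succ (Fin.last m)) (Fin.castSucc (Fin.last m)) -
        ((3 / 5 : ℂ) * ((eps e : ℤ) : ℂ)) • onSite spinZ (Fin.succ (Fin.last m)) +
        (33 / 25 : ℂ) • (1 : Matrix (Fin (m + 1 + 1) → Fin 3) (Fin (m + 1 + 1) → Fin 3) ℂ)) +
      ((1 / 2 : ℂ) • ∑ j : Fin m, (bnd sOne (Fin.castSucc (Fin.castSucc j)) (Fin.succ (Fin.castSucc j)) +
        bnd sOne (Fin.castSucc (Fin.succ j)) (Fin.succ (Fin.succ j))) +
        ((3 / 2 * m : ℝ) : ℂ) • (1 : Matrix (Fin (m + 1 + 1) → Fin 3) (Fin (m + 1 + 1) → Fin 3) ℂ)) := by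
    unfold openS
    simp only [bond_eq_bnd]
    rw [bulk_sum]
    have hc : bnd sOne (Fin.succ (Fin.last m)) (Fin.castSucc (Fin.last m)) =
        bnd sOne (Fin.castSucc (Fin.last m)) (Fin.succ (Fin.last m)) := by
      rw [sOne_tw]; exact bnd_comm false hr
    rw [hc]
    have e0 : Fin.castSucc (0 : Fin (m + 1)) = (0 : Fin (m + 1 + 1)) := rfl
    have e1 : Fin.succ (Fin.last m) = Fin.last (m + 1) := rfl
    rw [e0, e1]
    have e2 : ((eps false : ℤ) : ℂ) = 1 := by simp [eps]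
    rw [e2]
    push_cast
    module
  rw [h1]
  exact ((open_end_psd false hl).add (open_end_psd e hr)).add (bulk_psd m)

theorem open_upper (e : Bool) (m : ℕ) :
    (((m + 1 + 6 / 5 : ℝ) : ℂ) •
      (1 : Matrix (Fin (m + 1 + 1) → Fin 3) (Fin (m + 1 + 1) → Fin 3) ℂ) -
      openS ((eps e : ℤ) : ℝ) (m + 1) (3 / 5)).PosSemidef := by
  have h1 : ((m + 1 + 6 / 5 : ℝ) : ℂ) •
      (1 : Matrix (Fin (m + 1 + 1) → Fin 3) (Fin (m + 1 + 1) → Fin 3) ℂ) -
      openS ((eps e : ℤ) : ℝ) (m + 1) (3 / 5) =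
      ∑ j : Fin (m + 1), (1 - bnd (tw false) (Fin.castSucc j) (Fin.succ j)) +
      ((3 / 5 : ℝ) : ℂ) • ((1 : Matrix (Fin (m + 1 + 1) → Fin 3) (Fin (m + 1 + 1) → Fin 3) ℂ) +
        ((eps false : ℤ) : ℂ) • onSite spinZ 0) +
      ((3 / 5 : ℝ) : ℂ) • ((1 : Matrix (Fin (m + 1 + 1) → Fin 3) (Fin (m + 1 + 1) → Fin 3) ℂ) +
        ((eps e : ℤ) : ℂ) • onSite spinZ (Fin.last (m + 1))) := by
    unfold openS
    simp only [bond_eq_bnd, ← sOne_tw]
    rw [Finset.sum_sub_distrib, Finset.sum_const, Finset.card_univ, Fintype.card_fin,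
      ← Nat.cast_smul_eq_nsmul ℂ]
    have e2 : ((eps false : ℤ) : ℂ) = 1 := by simp [eps]
    rw [e2]
    push_cast
    module
  rw [h1]
  refine ((psd_sum _ fun j => two_psd_upper false ?_).add
    (psd_nonneg_smul (field_psd false 0) _ (by norm_num))).add
    (psd_nonneg_smul (field_psd e _) _ (by norm_num))
  intro h; have := congrArg Fin.val h; simp at this

end Crest.Agent.HGC
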