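import Mathlib
import Crest.Agent.HGC_BdOpen

/-!
HGC_BdHalf (S0545/S0546 part C, helper71): operator bounds for the half-chain.
-/

set_option autoImplicit false

namespace Crest.Agent.HGC
open Matrix Crest.MathPhysics.SpinChain Crest.Agent.HG Crest.Agent.HGB
open scoped ComplexOrder

/-- end bond entries. -/
theorem pair_half (s t : Fin 2) (a c : Fin 3) :
    ∑ α, (((Jend α : ℝ) : ℂ) • halfOp α) s t * spinOp α a c = ((tInt s a t c : ℤ) : ℂ) / 200 := by
  have h := r2_sq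
  have hI := Complex.I_mul_I
  have hr : ((Real.sqrt 2 : ℝ) : ℂ) = r2 := rfl
  rw [Fin.sum_univ_three, spinOp_zero, spinOp_one, spinOp_two, spinX_eq, spinY_eq, spinZ_eq]
  fin_cases s <;> fin_cases t <;> fin_cases a <;> fin_cases c <;>
    simp [Jend, halfOp, tInt, mInt, hr] <;> grind

section half
variable {ι : Type*} [Fintype ι] [DecidableEq ι]

/-- operators on the spin-one sites. -/
def liftM (M : Matrix (ι → Fin 3) (ι → Fin 3) ℂ) :
    Matrix (Fin 2 × (ι → Fin 3) × Fin 2) (Fin 2 × (ι → Fin 3) × Fin 2) ℂ :=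
  Matrix.of fun σ τ => if σ.1 = τ.1 ∧ σ.2.2 = τ.2.2 then M σ.2.1 τ.2.1 else 0

theorem liftM_add (A B : Matrix (ι → Fin 3) (ι → Fin 3) ℂ) : liftM (A + B) = liftM A + liftM B := by
  ext σ τ
  simp only [liftM, Matrix.add_apply, Matrix.of_apply]
  split_ifs <;> simp

theorem liftM_sub (A B : Matrix (ι → Fin 3) (ι → Fin 3) ℂ) : liftM (A - B) = liftM A - liftM B := by
  ext σ τ
  simp only [liftM, Matrix.sub_apply, Matrix.of_apply]
  split_ifs <;> simp

theorem liftM_smul (z : ℂ) (A : Matrix (ι → Fin 3) (ι → Fin 3) ℂ) : liftM (z • A) = z • liftM A := by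
  ext σ τ
  simp only [liftM, Matrix.smul_apply, Matrix.of_apply]
  split_ifs <;> simp

theorem liftM_one : liftM (1 : Matrix (ι → Fin 3) (ι → Fin 3) ℂ) = 1 := by
  ext σ τ
  obtain ⟨a, x, b⟩ := σ
  obtain ⟨a', x', b'⟩ := τ
  simp only [liftM, Matrix.of_apply, Matrix.one_apply, Prod.mk.injEq]
  by_cases h1 : a = a' <;> by_cases h2 : b = b' <;> by_cases h3 : x = x' <;> simp [h1, h2, h3]

theorem liftM_psd {P : Matrix (ι → Fin 3) (ι → Fin 3) ℂ} (hP : P.PosSemidef) :
    (liftM P).PosSemidef := by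
  classical
  have h1 : liftM P = ∑ ab : Fin 2 × Fin 2,
      (Matrix.diagonal fun σ : Fin 2 × (ι → Fin 3) × Fin 2 =>
        if σ.1 = ab.1 ∧ σ.2.2 = ab.2 then (1 : ℂ) else 0)ᴴ *
      (P.submatrix (fun σ : Fin 2 × (ι → Fin 3) × Fin 2 => σ.2.1)
        (fun σ : Fin 2 × (ι → Fin 3) × Fin 2 => σ.2.1)) *
      (Matrix.diagonal fun σ : Fin 2 × (ι → Fin 3) × Fin 2 =>
        if σ.1 = ab.1 ∧ σ.2.2 = ab.2 then (1 : ℂ) else 0) := by
    ext σ τ
    rw [Matrix.sum_apply]
    simp only [Matrix.diagonal_conjTranspose, Matrix.mul_diagonal, Matrix.diagonal_mul,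
      Matrix.submatrix_apply, Pi.star_apply]
    rw [Finset.sum_eq_single (σ.1, σ.2.2)]
    · simp only [liftM, Matrix.of_apply, and_self, if_true]
      by_cases h : σ.1 = τ.1 ∧ σ.2.2 = τ.2.2
      · rw [if_pos h, if_pos ⟨h.1.symm, h.2.symm⟩]; simp
      · rw [if_neg h, if_neg fun h' => h ⟨h'.1.symm, h'.2.symm⟩]; simp
    · intro ab _ hne
      rw [if_neg]
      · simp
      · rintro ⟨h2, h3⟩; exact hne (by rw [h2, h3])
    · intro h; exact absurd (Finset.mem_univ _) h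
  rw [h1]
  refine psd_sum _ fun ab => ?_
  exact (hP.submatrix _).conjTranspose_mul_mul_same _

/-- end bond. -/
noncomputable def TE (x y : Fin 2 × (ι → Fin 3) × Fin 2 → Fin 2) (j : ι) :
    Matrix (Fin 2 × (ι → Fin 3) × Fin 2) (Fin 2 × (ι → Fin 3) × Fin 2) ℂ :=
  Matrix.of fun σ τ => if y σ = y τ ∧ (∀ i, i ≠ j → σ.2.1 i = τ.2.1 i) then
    ((tInt (x σ) (σ.2.1 j) (x τ) (τ.2.1 j) : ℤ) : ℂ) / 200 else 0

/-- `x`, `y` are the two end coordinates in some order. -/
def XY (x y : Fin 2 × (ι → Fin 3) × Fin 2 → Fin 2) : Prop :=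
  ∀ σ τ, (σ.1 = τ.1 ∧ σ.2.2 = τ.2.2) ↔ (x σ = x τ ∧ y σ = y τ)

omit [Fintype ι] [DecidableEq ι] in
theorem eq_iff_XY {x y : Fin 2 × (ι → Fin 3) × Fin 2 → Fin 2} (h : XY x y)
    (σ τ : Fin 2 × (ι → Fin 3) × Fin 2) : σ = τ ↔ (x σ = x τ ∧ y σ = y τ) ∧ σ.2.1 = τ.2.1 := by
  rw [← h]
  obtain ⟨a, s, b⟩ := σ
  obtain ⟨a', s', b'⟩ := τ
  simp only [Prod.mk.injEq]
  tauto

theorem half_end_psd {x y : Fin 2 × (ι → Fin 3) × Fin 2 → Fin 2} (h : XY x y) {j k : ι}
    (hjk : j ≠ k) :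
    ((1 / 2 : ℂ) • liftM (bnd sOne j k) + TE x y j + (299 / 200 : ℂ) • 1).PosSemidef := by
  classical
  have hE : ((1 / 2 : ℂ) • liftM (bnd sOne j k) + TE x y j + (299 / 200 : ℂ) • 1) =
      (1 / 200 : ℂ) • Matrix.of fun σ τ : Fin 2 × (ι → Fin 3) × Fin 2 =>
        if ((fun i => if i = j ∨ i = k then (0 : Fin 3) else σ.2.1 i), y σ) =
            ((fun i => if i = j ∨ i = k then (0 : Fin 3) else τ.2.1 i), y τ) then
          (((fun _ => (1 : ℝ)) σ : ℝ) : ℂ) * (((fun _ => (1 : ℝ)) τ : ℝ) : ℂ) *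
            (Matrix.of fun x y => ((WH x y : ℤ) : ℂ)) (x σ, σ.2.1 j, σ.2.1 k)
              (x τ, τ.2.1 j, τ.2.1 k) else 0 := by
    rw [sOne_tw]
    ext σ τ
    rw [Matrix.add_apply, Matrix.add_apply, Matrix.smul_apply, Matrix.smul_apply,
      Matrix.smul_apply, Matrix.one_apply]
    simp only [liftM, TE, Matrix.of_apply, bnd_apply false hjk, Prod.mk.injEq, mask2, smul_eq_mul,
      h σ τ, rh, if_false, Bool.false_eq_true]
    by_cases hq : ∀ i, i ≠ j → i ≠ k → σ.2.1 i = τ.2.1 i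
    · by_cases hy : y σ = y τ
      · have e1 : (∀ i, i ≠ j → σ.2.1 i = τ.2.1 i) ↔ σ.2.1 k = τ.2.1 k := by
          constructor
          · intro hh; exact hh k hjk.symm
          · intro hh i h1
            by_cases h3 : i = k
            · rw [h3]; exact hh
            · exact hq i h1 h3
        have e2 : σ = τ ↔ x σ = x τ ∧ σ.2.1 j = τ.2.1 j ∧ σ.2.1 k = τ.2.1 k := by
          rw [eq_iff_XY h, eq_of_mask2 σ.2.1 τ.2.1 hq]
          tauto
        have hq1 := eq_true hq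
        simp only [e1, e2, hq1, hy, WH, Prod.mk.injEq, if_true, and_true, true_and]
        by_cases c1 : x σ = x τ <;> by_cases c2 : σ.2.1 j = τ.2.1 j <;>
          by_cases c3 : σ.2.1 k = τ.2.1 k <;> simp [c1, c2, c3] <;> ring
      · have n1 : ¬ (x σ = x τ ∧ y σ = y τ) := fun hh => hy hh.2
        have n2 : ¬ σ = τ := by rintro rfl; exact hy rfl
        simp [hy, n2]
    · have n1 : ¬ (∀ i, i ≠ j → σ.2.1 i = τ.2.1 i) := fun hh => hq fun i h1 _ => hh i h1
      have n2 : ¬ σ = τ := by rintro rfl; exact hq fun _ _ _ => rfl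
      simp only [if_neg hq, n1, n2, hq, false_and, and_false, if_false]
      simp
  rw [hE]
  refine Matrix.PosSemidef.smul ?_ (by
    rw [show (1 / 200 : ℂ) = ((1 / 200 : ℝ) : ℂ) by push_cast; rfl]
    exact Complex.zero_le_real.mpr (by norm_num))
  exact psd_local (fun σ : Fin 2 × (ι → Fin 3) × Fin 2 => (x σ, σ.2.1 j, σ.2.1 k))
    (fun σ : Fin 2 × (ι → Fin 3) × Fin 2 =>
      ((fun i => if i = j ∨ i = k then (0 : Fin 3) else σ.2.1 i), y σ))
    (fun _ => (1 : ℝ)) _ WH_psd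

theorem half_end_upper {x y : Fin 2 × (ι → Fin 3) × Fin 2 → Fin 2} (h : XY x y) (j : ι) :
    ((79 / 200 : ℂ) • 1 - TE x y j).PosSemidef := by
  classical
  have hE : ((79 / 200 : ℂ) • 1 - TE x y j) =
      (1 / 200 : ℂ) • Matrix.of fun σ τ : Fin 2 × (ι → Fin 3) × Fin 2 =>
        if ((fun i => if i = j then (0 : Fin 3) else σ.2.1 i), y σ) =
            ((fun i => if i = j then (0 : Fin 3) else τ.2.1 i), y τ) then
          (((fun _ => (1 : ℝ)) σ : ℝ) : ℂ) * (((fun _ => (1 : ℝ)) τ : ℝ) : ℂ) *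
            (Matrix.of fun x y => ((WT x y : ℤ) : ℂ)) (x σ, σ.2.1 j) (x τ, τ.2.1 j) else 0 := by
    ext σ τ
    rw [Matrix.sub_apply, Matrix.smul_apply, Matrix.smul_apply, Matrix.one_apply]
    have em : ((fun i => if i = j then (0 : Fin 3) else σ.2.1 i) =
        fun i => if i = j then (0 : Fin 3) else τ.2.1 i) ↔ ∀ i, i ≠ j → σ.2.1 i = τ.2.1 i := by
      constructor
      · intro hq i h1
        have := congrFun hq i
        simpa [h1] using this
      · intro hh
        funext i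
        by_cases hi : i = j
        · simp [hi]
        · simp [hi, hh i hi]
    simp only [TE, Matrix.of_apply, Prod.mk.injEq, em, smul_eq_mul]
    by_cases hq : ∀ i, i ≠ j → σ.2.1 i = τ.2.1 i
    · by_cases hy : y σ = y τ
      · have e2 : σ = τ ↔ x σ = x τ ∧ σ.2.1 j = τ.2.1 j := by
          rw [eq_iff_XY h]
          constructor
          · rintro ⟨⟨h1, h2⟩, h3⟩; exact ⟨h1, congrFun h3 j⟩
          · rintro ⟨h1, h2⟩
            refine ⟨⟨h1, hy⟩, funext fun i => ?_⟩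
            by_cases hi : i = j
            · rw [hi]; exact h2
            · exact hq i hi
        have hq1 := eq_true hq
        simp only [e2, hq1, hy, WT, Prod.mk.injEq, if_true, and_true, true_and]
        by_cases c1 : x σ = x τ <;> by_cases c2 : σ.2.1 j = τ.2.1 j <;>
          simp [c1, c2] <;> ring
      · have n2 : ¬ σ = τ := by rintro rfl; exact hy rfl
        simp [hy, n2]
    · have n2 : ¬ σ = τ := by rintro rfl; exact hq fun _ _ => rfl
      simp only [hq, n2, false_and, and_false, if_false]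
      simp
  rw [hE]
  refine Matrix.PosSemidef.smul ?_ (by
    rw [show (1 / 200 : ℂ) = ((1 / 200 : ℝ) : ℂ) by push_cast; rfl]
    exact Complex.zero_le_real.mpr (by norm_num))
  exact psd_local (fun σ : Fin 2 × (ι → Fin 3) × Fin 2 => (x σ, σ.2.1 j))
    (fun σ : Fin 2 × (ι → Fin 3) × Fin 2 =>
      ((fun i => if i = j then (0 : Fin 3) else σ.2.1 i), y σ))
    (fun _ => (1 : ℝ)) _ WT_psd

end half

theorem halfH_eq (m : ℕ) : halfH m =
    liftM (∑ j : Fin m, bnd sOne (Fin.castSucc j) (Fin.succ j)) +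
      TE (fun σ => σ.1) (fun σ => σ.2.2) (0 : Fin (m + 1)) +
      TE (fun σ => σ.2.2) (fun σ => σ.1) (Fin.last m) := by
  ext σ τ
  rw [Matrix.add_apply, Matrix.add_apply]
  unfold halfH endChain liftM TE
  simp only [Matrix.of_apply, Matrix.zero_apply, ite_self, zero_add, bond_eq_bnd]
  have hon : ∀ (A : Matrix (Fin 3) (Fin 3) ℂ) (j : Fin (m + 1)) (s t : Fin (m + 1) → Fin 3),
      onSite A j s t = if (∀ i, i ≠ j → s i = t i) then A (s j) (t j) else 0 := by
    intro A j s t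
    unfold onSite
    simp only [Matrix.of_apply]
    by_cases h : ∀ i, i ≠ j → s i = t i
    · rw [if_pos h, if_pos h]
    · rw [if_neg h, if_neg h]
  congr 1
  · congr 1
    by_cases h1 : σ.2.2 = τ.2.2
    · rw [if_pos h1]
      by_cases h2 : ∀ i, i ≠ (0 : Fin (m + 1)) → σ.2.1 i = τ.2.1 i
      · rw [if_pos ⟨h1, h2⟩, ← pair_half]
        refine Finset.sum_congr rfl fun a _ => ?_
        rw [hon, if_pos h2]
      · rw [if_neg fun h => h2 h.2]
        refine Finset.sum_eq_zero fun a _ => ?_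
        rw [hon, if_neg h2, mul_zero]
    · rw [if_neg h1, if_neg fun h => h1 h.1]
  · by_cases h1 : σ.1 = τ.1
    · rw [if_pos h1]
      by_cases h2 : ∀ i, i ≠ (Fin.last m) → σ.2.1 i = τ.2.1 i
      · rw [if_pos ⟨h1, h2⟩, ← pair_half]
        refine Finset.sum_congr rfl fun a _ => ?_
        rw [hon, if_pos h2, mul_comm]
      · rw [if_neg fun h => h2 h.2]
        refine Finset.sum_eq_zero fun a _ => ?_
        rw [hon, if_neg h2, zero_mul]
    · rw [if_neg h1, if_neg fun h => h1 h.1]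

theorem XY_lr {ι : Type*} : XY (ι := ι) (fun σ => σ.1) (fun σ => σ.2.2) := fun σ τ => Iff.rfl
theorem XY_rl {ι : Type*} : XY (ι := ι) (fun σ => σ.2.2) (fun σ => σ.1) :=
  fun σ τ => and_comm

theorem half_lower (m : ℕ) :
    (halfH (m + 1) + ((3 / 2 * m + 299 / 100 : ℝ) : ℂ) • 1).PosSemidef := by
  have hl : Fin.castSucc (0 : Fin (m + 1)) ≠ Fin.succ 0 := by
    intro h; have := congrArg Fin.val h; simp at this
  have hr : Fin.succ (Fin.last m) ≠ Fin.castSucc (Fin.last m) := by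
    intro h; have := congrArg Fin.val h; simp at this
  have h1 : halfH (m + 1) + ((3 / 2 * m + 299 / 100 : ℝ) : ℂ) • 1 =
      ((1 / 2 : ℂ) • liftM (bnd sOne (Fin.castSucc (0 : Fin (m + 1))) (Fin.succ 0)) +
        TE (fun σ => σ.1) (fun σ => σ.2.2) (Fin.castSucc (0 : Fin (m + 1))) +
        (299 / 200 : ℂ) • 1) +
      ((1 / 2 : ℂ) • liftM (bnd sOne (Fin.succ (Fin.last m)) (Fin.castSucc (Fin.last m))) +
        TE (fun σ => σ.2.2) (fun σ => σ.1) (Fin.succ (Fin.last m)) +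
        (299 / 200 : ℂ) • 1) +
      liftM ((1 / 2 : ℂ) • ∑ j : Fin m, (bnd sOne (Fin.castSucc (Fin.castSucc j)) (Fin.succ (Fin.castSucc j)) +
        bnd sOne (Fin.castSucc (Fin.succ j)) (Fin.succ (Fin.succ j))) +
        ((3 / 2 * m : ℝ) : ℂ) • (1 : Matrix (Fin (m + 1 + 1) → Fin 3) (Fin (m + 1 + 1) → Fin 3) ℂ)) := by
    have hc : bnd sOne (Fin.succ (Fin.last m)) (Fin.castSucc (Fin.last m)) =
        bnd sOne (Fin.castSucc (Fin.last m)) (Fin.succ (Fin.last m)) := by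
      rw [sOne_tw]; exact bnd_comm false hr
    have e0 : Fin.castSucc (0 : Fin (m + 1)) = (0 : Fin (m + 1 + 1)) := rfl
    have e1 : Fin.succ (Fin.last m) = Fin.last (m + 1) := rfl
    rw [halfH_eq, bulk_sum, hc]
    simp only [liftM_add, liftM_smul, liftM_one]
    rw [e0, e1]
    push_cast
    module
  rw [h1]
  exact ((half_end_psd XY_lr hl).add (half_end_psd XY_rl hr)).add (liftM_psd (bulk_psd m))

theorem half_upper (m : ℕ) :
    (((m + 1 + 79 / 100 : ℝ) : ℂ) • 1 - halfH (m + 1)).PosSemidef := by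
  have h1 : ((m + 1 + 79 / 100 : ℝ) : ℂ) • 1 - halfH (m + 1) =
      liftM (∑ j : Fin (m + 1), (1 - bnd (tw false) (Fin.castSucc j) (Fin.succ j))) +
      ((79 / 200 : ℂ) • 1 - TE (fun σ => σ.1) (fun σ => σ.2.2) (0 : Fin (m + 1 + 1))) +
      ((79 / 200 : ℂ) • 1 - TE (fun σ => σ.2.2) (fun σ => σ.1) (Fin.last (m + 1))) := by
    rw [halfH_eq, ← sOne_tw, Finset.sum_sub_distrib, Finset.sum_const, Finset.card_univ,
      Fintype.card_fin, ← Nat.cast_smul_eq_nsmul ℂ, liftM_sub, liftM_smul, liftM_one]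
    push_cast
    module
  rw [h1]
  refine ((liftM_psd (psd_sum _ fun j => two_psd_upper false ?_)).add
    (half_end_upper XY_lr _)).add (half_end_upper XY_rl _)
  intro h; have := congrArg Fin.val h; simp at this

end Crest.Agent.HGC
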