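import Crest.Agent.HGD_Dat

/-! HGD: kernel checks of the matrix product state data (generated by a program). -/

set_option autoImplicit false
set_option maxRecDepth 100000

namespace Crest.Agent.HGD.Ker

theorem ok0 : okSite s0 b0 b1 = true := by decide +kernel
theorem ok1 : okSite s1 b1 b2 = true := by decide +kernel
theorem ok2 : okSite s2 b2 b3 = true := by decide +kernel
theorem ok3 : okSite s3 b3 b4 = true := by decide +kernel
theorem ok4 : okSite s4 b4 b5 = true := by decide +kernel
theorem en0 : Nat.ble (sc 2747724619959) (enS s0 s1 b0 b2) = true := by decide +kernel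
theorem en1 : Nat.ble (sc 2588173032831) (enS s1 s2 b1 b3) = true := by decide +kernel
theorem en2 : Nat.ble (sc 2645973089892) (enS s2 s3 b2 b4) = true := by decide +kernel
theorem en3 : Nat.ble (sc 2630286176874) (enS s3 s4 b3 b5) = true := by decide +kernel
theorem en4 : Nat.ble (sc 2639628147109) (enS s4 s5 b4 b6) = true := by decide +kernel

end Crest.Agent.HGD.Ker
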