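import Crest.Agent.HGD_Dat

/-! HGD: kernel checks of the matrix product state data (generated by a program). -/

set_option autoImplicit false
set_option maxRecDepth 100000

namespace Crest.Agent.HGD.Ker

theorem ok5 : okSite s5 b5 b6 = true := by decide +kernel
theorem ok6 : okSite s6 b6 b7 = true := by decide +kernel
theorem ok7 : okSite s7 b7 b8 = true := by decide +kernel
theorem ok8 : okSite s8 b8 b9 = true := by decide +kernel
theorem ok9 : okSite s9 b9 b10 = true := by decide +kernel
theorem en5 : Nat.ble (sc 2637450643551) (enS s5 s6 b5 b7) = true := by decide +kernel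
theorem en6 : Nat.ble (sc 2639597102716) (enS s6 s7 b6 b8) = true := by decide +kernel
theorem en7 : Nat.ble (sc 2639352896821) (enS s7 s8 b7 b9) = true := by decide +kernel
theorem en8 : Nat.ble (sc 2639965828676) (enS s8 s9 b8 b10) = true := by decide +kernel
theorem en9 : Nat.ble (sc 2639999473024) (enS s9 s10 b9 b11) = true := by decide +kernel

end Crest.Agent.HGD.Ker
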