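import Crest.Agent.HGD_Dat

/-! HGD: kernel checks of the matrix product state data (generated by a program). -/

set_option autoImplicit false
set_option maxRecDepth 100000

namespace Crest.Agent.HGD.Ker

theorem ok10 : okSite s10 b10 b11 = true := by decide +kernel
theorem ok11 : okSite s11 b11 b12 = true := by decide +kernel
theorem ok12 : okSite s12 b12 b13 = true := by decide +kernel
theorem ok13 : okSite s13 b13 b14 = true := by decide +kernel
theorem ok14 : okSite s14 b14 b15 = true := by decide +kernel
theorem en10 : Nat.ble (sc 2640204428932) (enS s10 s11 b10 b12) = true := by decide +kernel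
theorem en11 : Nat.ble (sc 2640253977165) (enS s11 s12 b11 b13) = true := by decide +kernel
theorem en12 : Nat.ble (sc 2640330126830) (enS s12 s13 b12 b14) = true := by decide +kernel
theorem en13 : Nat.ble (sc 2640363432934) (enS s13 s14 b13 b15) = true := by decide +kernel
theorem en14 : Nat.ble (sc 2640392140656) (enS s14 s15 b14 b16) = true := by decide +kernel

end Crest.Agent.HGD.Ker
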