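import Crest.Agent.HGD_Dat

/-! HGD: kernel checks of the matrix product state data (generated by a program). -/

set_option autoImplicit false
set_option maxRecDepth 100000

namespace Crest.Agent.HGD.Ker

theorem ok15 : okSite s15 b15 b16 = true := by decide +kernel
theorem ok16 : okSite s16 b16 b17 = true := by decide +kernel
theorem ok17 : okSite s17 b17 b18 = true := by decide +kernel
theorem ok18 : okSite s18 b18 b19 = true := by decide +kernel
theorem ok19 : okSite s19 b19 b20 = true := by decide +kernel
theorem en15 : Nat.ble (sc 2640413335960) (enS s15 s16 b15 b17) = true := by decide +kernel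
theorem en16 : Nat.ble (sc 2640420536883) (enS s16 s17 b16 b18) = true := by decide +kernel
theorem en17 : Nat.ble (sc 2640437389008) (enS s17 s18 b17 b19) = true := by decide +kernel
theorem en18 : Nat.ble (sc 2640429074448) (enS s18 s19 b18 b20) = true := by decide +kernel
theorem en19 : Nat.ble (sc 2640450838616) (enS s19 s20 b19 b21) = true := by decide +kernel

end Crest.Agent.HGD.Ker
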