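import Crest.Agent.HGD_Dat

/-! HGD: kernel checks of the matrix product state data (generated by a program). -/

set_option autoImplicit false
set_option maxRecDepth 100000

namespace Crest.Agent.HGD.Ker

theorem ok20 : okSite s20 b20 b21 = true := by decide +kernel
theorem ok21 : okSite s21 b21 b22 = true := by decide +kernel
theorem ok22 : okSite s22 b22 b22 = true := by decide +kernel
theorem ok23 : okSite s23 b22 b23 = true := by decide +kernel
theorem ok24 : okSite s24 b23 b24 = true := by decide +kernel
theorem en20 : Nat.ble (sc 2640414955416) (enS s20 s21 b20 b22) = true := by decide +kernel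
theorem en21 : Nat.ble (sc 2640486215345) (enS s21 s22 b21 b22) = true := by decide +kernel
theorem en22 : Nat.ble (sc 2640486215338) (enS s22 s23 b22 b23) = true := by decide +kernel
theorem en23 : Nat.ble (sc 2640414955453) (enS s23 s24 b22 b24) = true := by decide +kernel
theorem en24 : Nat.ble (sc 2640450838582) (enS s24 s25 b23 b25) = true := by decide +kernel
theorem enb : Nat.ble (sc 2640456852743) (enS s22 s22 b22 b22) = true := by decide +kernel

end Crest.Agent.HGD.Ker
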