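import Crest.Agent.HGD_Dat

/-! HGD: kernel checks of the matrix product state data (generated by a program). -/

set_option autoImplicit false
set_option maxRecDepth 100000

namespace Crest.Agent.HGD.Ker

theorem ok25 : okSite s25 b24 b25 = true := by decide +kernel
theorem ok26 : okSite s26 b25 b26 = true := by decide +kernel
theorem ok27 : okSite s27 b26 b27 = true := by decide +kernel
theorem ok28 : okSite s28 b27 b28 = true := by decide +kernel
theorem ok29 : okSite s29 b28 b29 = true := by decide +kernel
theorem en25 : Nat.ble (sc 2640429074455) (enS s25 s26 b24 b26) = true := by decide +kernel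
theorem en26 : Nat.ble (sc 2640437389008) (enS s26 s27 b25 b27) = true := by decide +kernel
theorem en27 : Nat.ble (sc 2640420536886) (enS s27 s28 b26 b28) = true := by decide +kernel
theorem en28 : Nat.ble (sc 2640413335960) (enS s28 s29 b27 b29) = true := by decide +kernel
theorem en29 : Nat.ble (sc 2640392140658) (enS s29 s30 b28 b30) = true := by decide +kernel

end Crest.Agent.HGD.Ker
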