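import Crest.Agent.HGD_Dat

/-! HGD: kernel checks of the matrix product state data (generated by a program). -/

set_option autoImplicit false
set_option maxRecDepth 100000

namespace Crest.Agent.HGD.Ker

theorem ok30 : okSite s30 b29 b30 = true := by decide +kernel
theorem ok31 : okSite s31 b30 b31 = true := by decide +kernel
theorem ok32 : okSite s32 b31 b32 = true := by decide +kernel
theorem ok33 : okSite s33 b32 b33 = true := by decide +kernel
theorem ok34 : okSite s34 b33 b34 = true := by decide +kernel
theorem en30 : Nat.ble (sc 2640363432933) (enS s30 s31 b29 b31) = true := by decide +kernel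
theorem en31 : Nat.ble (sc 2640330126831) (enS s31 s32 b30 b32) = true := by decide +kernel
theorem en32 : Nat.ble (sc 2640253977165) (enS s32 s33 b31 b33) = true := by decide +kernel
theorem en33 : Nat.ble (sc 2640204428933) (enS s33 s34 b32 b34) = true := by decide +kernel
theorem en34 : Nat.ble (sc 2639999473024) (enS s34 s35 b33 b35) = true := by decide +kernel

end Crest.Agent.HGD.Ker
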