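import Crest.Agent.HGD_Dat

/-! HGD: kernel checks of the matrix product state data (generated by a program). -/

set_option autoImplicit false
set_option maxRecDepth 100000

namespace Crest.Agent.HGD.Ker

theorem ok35 : okSite s35 b34 b35 = true := by decide +kernel
theorem ok36 : okSite s36 b35 b36 = true := by decide +kernel
theorem ok37 : okSite s37 b36 b37 = true := by decide +kernel
theorem ok38 : okSite s38 b37 b38 = true := by decide +kernel
theorem ok39 : okSite s39 b38 b39 = true := by decide +kernel
theorem en35 : Nat.ble (sc 2639965828676) (enS s35 s36 b34 b36) = true := by decide +kernel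
theorem en36 : Nat.ble (sc 2639352896822) (enS s36 s37 b35 b37) = true := by decide +kernel
theorem en37 : Nat.ble (sc 2639597102716) (enS s37 s38 b36 b38) = true := by decide +kernel
theorem en38 : Nat.ble (sc 2637450643551) (enS s38 s39 b37 b39) = true := by decide +kernel
theorem en39 : Nat.ble (sc 2639628147108) (enS s39 s40 b38 b40) = true := by decide +kernel

end Crest.Agent.HGD.Ker
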