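import Crest.Agent.HGD_Dat

/-! HGD: kernel checks of the matrix product state data (generated by a program). -/

set_option autoImplicit false
set_option maxRecDepth 100000

namespace Crest.Agent.HGD.Ker

theorem ok40 : okSite s40 b39 b40 = true := by decide +kernel
theorem ok41 : okSite s41 b40 b41 = true := by decide +kernel
theorem ok42 : okSite s42 b41 b42 = true := by decide +kernel
theorem ok43 : okSite s43 b42 b43 = true := by decide +kernel
theorem ok44 : okSite s44 b43 b44 = true := by decide +kernel
theorem en40 : Nat.ble (sc 2630286176874) (enS s40 s41 b39 b41) = true := by decide +kernel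
theorem en41 : Nat.ble (sc 2645973089890) (enS s41 s42 b40 b42) = true := by decide +kernel
theorem en42 : Nat.ble (sc 2588173032831) (enS s42 s43 b41 b43) = true := by decide +kernel
theorem en43 : Nat.ble (sc 2747724619957) (enS s43 s44 b42 b44) = true := by decide +kernel

end Crest.Agent.HGD.Ker
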