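import Mathlib

/-!
# HGD (Haldane gap, part D): kernel evaluator for matrix product states

Integer matrices are lists of sparse rows `Row = (offset, entries)`. All functions are written with
recursors so that the kernel evaluates them fast. No proofs here.
-/

set_option autoImplicit false

namespace Crest.Agent.HGD.Ker

noncomputable section

/-- `m - n` as an integer -/
def snn (m n : ℕ) : ℤ :=
  Bool.rec (Int.negSucc (Nat.sub (Nat.sub n m) 1)) (Int.ofNat (Nat.sub m n)) (Nat.ble n m)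

/-- integer addition -/
def iadd (a b : ℤ) : ℤ :=
  Int.rec (fun m => Int.rec (fun n => Int.ofNat (Nat.add m n)) (fun n => snn m (Nat.succ n)) b)
    (fun m => Int.rec (fun n => snn n (Nat.succ m))
      (fun n => Int.negSucc (Nat.succ (Nat.add m n))) b) a

/-- digit width of the data -/
def wd : ℕ := 112

abbrev Row := ℕ × List ℤ

/-- `n` signed digits (offset `2^111`) -/
def decVals (n : ℕ) : ℕ → List ℤ :=
  Nat.rec (fun _ => []) (fun _ ih P =>
    snn (Nat.mod P (Nat.pow 2 wd)) (Nat.pow 2 (Nat.sub wd 1)) :: ih (Nat.div P (Nat.pow 2 wd))) n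

/-- `n` sparse rows: offset (8 bits), length (8 bits), entries -/
def decRows (n : ℕ) : ℕ → List Row :=
  Nat.rec (fun _ => []) (fun _ ih P =>
    (Nat.mod P 256, decVals (Nat.mod (Nat.div P 256) 256) (Nat.div P 65536)) ::
      ih (Nat.div P (Nat.mul 65536 (Nat.pow 2 (Nat.mul wd (Nat.mod (Nat.div P 256) 256)))))) n

/-- `n` unsigned digits -/
def decNats (n : ℕ) : ℕ → List ℕ :=
  Nat.rec (fun _ => []) (fun _ ih P => Nat.mod P (Nat.pow 2 wd) :: ih (Nat.div P (Nat.pow 2 wd))) n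

def dropR {α : Type} (k : ℕ) : List α → List α :=
  Nat.rec (fun l => l) (fun _ ih l => List.rec [] (fun _ t _ => ih t) l) k

def zerosApp (k : ℕ) (l : List ℤ) : List ℤ := Nat.rec l (fun _ ih => (0 : ℤ) :: ih) k

def smul (c : ℤ) (u : List ℤ) : List ℤ := List.rec [] (fun x _ ih => Int.mul c x :: ih) u

/-- `c * u + v` -/
def axpy (c : ℤ) (u : List ℤ) : List ℤ → List ℤ :=
  List.rec (fun v => v) (fun x xs ih v =>
    List.rec (smul c (x :: xs)) (fun y ys _ => iadd (Int.mul c x) y :: ih ys) v) u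

/-- `c * x + y` for sparse rows -/
def axpyR (c : ℤ) (x y : Row) : Row :=
  Prod.rec (fun k u => Prod.rec (fun k' v =>
    List.rec (k', v) (fun _ _ _ =>
      List.rec (k, smul c u) (fun _ _ _ =>
        Bool.rec
          (Bool.rec (k', axpy c (zerosApp (Nat.sub k k') u) v)
            (k, axpy c u (zerosApp (Nat.sub k' k) v)) (Nat.ble k k'))
          (k, axpy c u v) (Nat.beq k k')) v) u) y) x

/-- `∑ c, u c * rows c` (zero coefficients are skipped) -/
def combGo (u : List ℤ) : List Row → Row :=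
  List.rec (fun _ => (0, [])) (fun x _ ih rows => List.rec (0, [])
    (fun r rs _ => Bool.rec (axpyR x r (ih rs)) (ih rs) (Nat.beq (Int.natAbs x) 0)) rows) u

def comb (x : Row) (rows : List Row) : Row := Prod.rec (fun k u => combGo u (dropR k rows)) x

/-- `∑ r * x^2` -/
def wsq (u : List ℤ) : List ℕ → ℕ :=
  List.rec (fun _ => 0) (fun x _ ih v => List.rec 0 (fun y ys _ =>
    Nat.add (Nat.mul y (Nat.pow (Int.natAbs x) 2)) (ih ys)) v) u

def wsqR (x : Row) (r : List ℕ) : ℕ := Prod.rec (fun k u => wsq u (dropR k r)) x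

def rsub (x y : Row) : Row := axpyR (Int.negSucc 0) y x

/-- contribution of one row to the bond energy `1 - S.S` -/
def enRow (a0 a1 a2 : Row) (B0 B1 B2 : List Row) (r : List ℕ) : ℕ :=
  Nat.add (wsqR (rsub (comb a0 B1) (comb a1 B0)) r)
  (Nat.add (wsqR (rsub (comb a0 B2) (comb a2 B0)) r)
  (Nat.add (wsqR (rsub (comb a1 B2) (comb a2 B1)) r)
    (wsqR (rsub (axpyR 1 (comb a0 B2) (comb a2 B0)) (comb a1 B1)) r)))

def energy (A0 A1 A2 : List Row) (B0 B1 B2 : List Row) (l r : List ℕ) : ℕ :=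
  List.rec (fun _ _ _ => 0) (fun a0 _ ih A1 A2 l => List.rec 0 (fun a1 A1 _ =>
    List.rec 0 (fun a2 A2 _ => List.rec 0 (fun x l _ =>
      Nat.add (Nat.mul x (enRow a0 a1 a2 B0 B1 B2 r)) (ih A1 A2 l)) l) A2) A1) A0 A1 A2 l

/-! ### checks -/

/-- entry `i` of a list (0 if absent) -/
def nthZ (i : ℕ) (u : List ℤ) : ℤ := List.rec 0 (fun x _ _ => x) (dropR i u)
def nthN (i : ℕ) (u : List ℕ) : ℕ := List.rec 0 (fun x _ _ => x) (dropR i u)

/-- entry `i` of a sparse row -/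
def rgetK (x : Row) (i : ℕ) : ℤ :=
  Prod.rec (fun k u => Bool.rec 0 (nthZ (Nat.sub i k) u) (Nat.ble k i)) x

/-- weights `l_a * A a b` -/
def colw (b : ℕ) (A : List Row) : List ℕ → List ℤ :=
  List.rec (fun _ => []) (fun a _ ih l => List.rec [] (fun x xs _ =>
    Int.mul (Int.ofNat x) (rgetK a b) :: ih xs) l) A

/-- row `b` of `∑ s, (A s)ᵀ diag(l) (A s)` -/
def gramRow (b : ℕ) (A0 A1 A2 : List Row) (l : List ℕ) : Row :=
  axpyR 1 (combGo (colw b A0 l) A0) (axpyR 1 (combGo (colw b A1 l) A1) (combGo (colw b A2 l) A2))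

def absSum (u : List ℤ) : ℕ := List.rec 0 (fun x _ ih => Nat.add (Int.natAbs x) ih) u

/-- `(Δ-1) s2 l'_b ≤ Δ (2 G_bb - ∑|G_bb'|)` and `Δ ∑|G_bb'| ≤ (Δ+1) s2 l'_b` -/
def condL (Δ s2 : ℕ) (G : Row) (b : ℕ) (l' : List ℕ) : Bool :=
  and (Nat.ble (Nat.add (Nat.mul (Nat.mul (Nat.sub Δ 1) s2) (nthN b l'))
        (Nat.mul Δ (absSum (Prod.snd G)))) (Nat.mul (Nat.mul 2 Δ) (Int.toNat (rgetK G b))))
    (Nat.ble (Nat.mul Δ (absSum (Prod.snd G))) (Nat.mul (Nat.mul (Nat.succ Δ) s2) (nthN b l')))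

def dot3 (u : List ℤ) : List ℤ → List ℕ → ℤ :=
  List.rec (fun _ _ => 0) (fun x _ ih v r => List.rec 0 (fun y ys _ => List.rec 0 (fun z zs _ =>
    iadd (Int.mul (Int.mul x y) (Int.ofNat z)) (ih ys zs)) r) v) u

/-- `∑ i, x i * y i * r i` -/
def rdot (x y : Row) (r : List ℕ) : ℤ :=
  Prod.rec (fun k u => Prod.rec (fun k' v =>
    Bool.rec (dot3 u (dropR (Nat.sub k k') v) (dropR k r))
      (dot3 (dropR (Nat.sub k' k) u) v (dropR k' r)) (Nat.ble k k')) y) x

/-- `∑ over rows a' of |∑ s, x_s . A s a'|` -/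
def absSumR (x0 x1 x2 : Row) (r : List ℕ) (A0 : List Row) : List Row → List Row → ℕ :=
  List.rec (fun _ _ => 0) (fun a0 _ ih A1 A2 => List.rec 0 (fun a1 A1 _ => List.rec 0 (fun a2 A2 _ =>
    Nat.add (Int.natAbs (iadd (rdot x0 a0 r) (iadd (rdot x1 a1 r) (rdot x2 a2 r)))) (ih A1 A2))
      A2) A1) A0

/-- `(Δ-1) s2 r_a ≤ Δ (2 G_aa - ∑|G_aa'|)` for the row `a` with sparse rows `x0 x1 x2` -/
def condR (Δ s2 : ℕ) (x0 x1 x2 : Row) (ra : ℕ) (r' : List ℕ) (A0 A1 A2 : List Row) : Bool :=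
  Nat.ble (Nat.add (Nat.mul (Nat.mul (Nat.sub Δ 1) s2) ra)
      (Nat.mul Δ (absSumR x0 x1 x2 r' A0 A1 A2)))
    (Nat.mul (Nat.mul 2 Δ)
      (Int.toNat (iadd (rdot x0 x0 r') (iadd (rdot x1 x1 r') (rdot x2 x2 r')))))

/-- all rows; `X0 X1 X2` run through the rows, `A0 A1 A2` are the full matrices -/
def allR (Δ s2 : ℕ) (r' : List ℕ) (A0 A1 A2 : List Row) (X0 : List Row) :
    List Row → List Row → List ℕ → Bool :=
  List.rec (fun _ _ _ => true) (fun x0 _ ih X1 X2 r => List.rec false (fun x1 X1 _ =>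
    List.rec false (fun x2 X2 _ => List.rec false (fun ra r _ =>
      and (condR Δ s2 x0 x1 x2 ra r' A0 A1 A2) (ih X1 X2 r)) r) X2) X1) X0

def allL (Δ s2 : ℕ) (A0 A1 A2 : List Row) (l l' : List ℕ) (n : ℕ) : Bool :=
  Nat.rec true (fun b ih => and (condL Δ s2 (gramRow b A0 A1 A2 l) b l') ih) n

/-- the check of one site: tensor `A`, bond vectors `l r` (left bond), `l' r'` (right bond) -/
def siteOK (D Δ s2 : ℕ) (A0 A1 A2 : List Row) (l r l' r' : List ℕ) : Bool :=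
  and (allL Δ s2 A0 A1 A2 l l' D) (allR Δ s2 r' A0 A1 A2 A0 A1 A2 r)

/-- `∑ a, l a * (c0 * |A0 a|² + c1 * |A1 a|² + c2 * |A2 a|²)` with weights `r` -/
def diagE (c0 c1 c2 : ℕ) (A0 A1 A2 : List Row) (l r : List ℕ) : ℕ :=
  List.rec (fun _ _ _ => 0) (fun a0 _ ih A1 A2 l => List.rec 0 (fun a1 A1 _ =>
    List.rec 0 (fun a2 A2 _ => List.rec 0 (fun x l _ =>
      Nat.add (Nat.mul x (Nat.add (Nat.mul c0 (wsqR a0 r)) (Nat.add (Nat.mul c1 (wsqR a1 r))
        (Nat.mul c2 (wsqR a2 r))))) (ih A1 A2 l)) l) A2) A1) A0 A1 A2 l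

end

end Crest.Agent.HGD.Ker
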