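import Crest.Agent.HG_Defs
import Crest.Agent.HGD_Ker

/-!
# HGD (Haldane gap, part D): matrix product states, definitions

`M : ℕ → Ten D` is a sequence of site tensors (real `D × D` matrices `M j s`, `s : Fin 3`). The
states are `psi M n a b σ = (M 0 (σ 0) * M 1 (σ 1) * ... * M (n-1) (σ (n-1))) a b`. Expectation values
are weighted sums over `a, b` (weights `l a * r b`). `T`, `TO` are the transfer maps, `W4`, `TW` the
"sum of squares" form of `1 - S·S`: in the `S^z` basis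
`1 - S·S = ∑_{m<m'} |mm'-m'm⟩⟨mm'-m'm| + |s⟩⟨s|`, `|s⟩ = |02⟩ - |11⟩ + |20⟩`.
-/

set_option autoImplicit false

namespace Crest.Agent.HGD

open Matrix Crest.MathPhysics.SpinChain Crest.Agent.HG

abbrev RM (D : ℕ) := Matrix (Fin D) (Fin D) ℝ
abbrev Ten (D : ℕ) := Fin 3 → RM D

variable {D : ℕ}

/-- transfer map (from left to right) -/
def T (A : Ten D) (X : RM D) : RM D := ∑ s, (A s)ᵀ * X * A s

/-- transfer map with an operator inserted -/
def TO (A : Ten D) (O : Matrix (Fin 3) (Fin 3) ℝ) (X : RM D) : RM D :=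
  ∑ s, ∑ t, O s t • ((A s)ᵀ * X * A t)

/-- transfer map from right to left -/
def Tdag (A : Ten D) (Y : RM D) : RM D := ∑ s, A s * Y * (A s)ᵀ

def W4 (A B : Ten D) : Fin 4 → RM D :=
  ![A 0 * B 1 - A 1 * B 0, A 0 * B 2 - A 2 * B 0, A 1 * B 2 - A 2 * B 1,
    A 0 * B 2 - A 1 * B 1 + A 2 * B 0]

/-- two-site transfer map with `1 - S·S` inserted -/
def TW (A B : Ten D) (X : RM D) : RM D := ∑ k, (W4 A B k)ᵀ * X * W4 A B k

/-- `k` transfer maps, starting with site `m` -/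
def Tc (M : ℕ → Ten D) (m : ℕ) : ℕ → RM D → RM D
  | 0, X => X
  | k + 1, X => T (M (m + k)) (Tc M m k X)

/-- `n` transfer maps with operators -/
def TcO (M : ℕ → Ten D) (O : ℕ → Matrix (Fin 3) (Fin 3) ℝ) : ℕ → RM D → RM D
  | 0, X => X
  | n + 1, X => TO (M n) (O n) (TcO M O n X)

/-- `M 0 (σ 0) * ... * M (n-1) (σ (n-1))` -/
def prodM (M : ℕ → Ten D) : (n : ℕ) → (Fin n → Fin 3) → RM D
  | 0, _ => 1
  | n + 1, σ => prodM M n (fun i => σ i.castSucc) * M n (σ (Fin.last n))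

/-- the pure matrix product states -/
noncomputable def psi (M : ℕ → Ten D) (n : ℕ) (a b : Fin D) : (Fin n → Fin 3) → ℂ :=
  fun σ => ((prodM M n σ a b : ℝ) : ℂ)

/-- `S·S = ∑ κ, opL κ ⊗ opR κ` (real form: zz, +-, -+). -/
def opL : Fin 3 → Matrix (Fin 3) (Fin 3) ℝ :=
  ![!![1, 0, 0; 0, 0, 0; 0, 0, -1], !![0, 1, 0; 0, 0, 1; 0, 0, 0], !![0, 0, 0; 1, 0, 0; 0, 1, 0]]
def opR : Fin 3 → Matrix (Fin 3) (Fin 3) ℝ :=
  ![!![1, 0, 0; 0, 0, 0; 0, 0, -1], !![0, 0, 0; 1, 0, 0; 0, 1, 0], !![0, 1, 0; 0, 0, 1; 0, 0, 0]]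

/-- the conditions on the bounds `l j`, `r j` (diagonal matrices on bond `j`) of a chain of `N`
sites: `(1-δ) l_{j+1} ≤ T_j(l_j) ≤ (1+δ) l_{j+1}`, `(1-δ) r_j ≤ T†_j(r_{j+1})`. -/
structure Chain (N : ℕ) (M : ℕ → Ten D) (l r : ℕ → Fin D → ℝ) (δ : ℝ) : Prop where
  hl : ∀ j a, 0 ≤ l j a
  hr : ∀ j a, 0 ≤ r j a
  low : ∀ j, j < N → (T (M j) (diagonal (l j)) - (1 - δ) • diagonal (l (j + 1))).PosSemidef
  upp : ∀ j, j < N → ((1 + δ) • diagonal (l (j + 1)) - T (M j) (diagonal (l j))).PosSemidef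
  dual : ∀ j, j < N → (Tdag (M j) (diagonal (r (j + 1))) - (1 - δ) • diagonal (r j)).PosSemidef

end Crest.Agent.HGD
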