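import Crest.Agent.HGD_Defs

/-!
# HGD, task HGD-Psd: estimates in the positive semidefinite order

Everything follows from: `trace (A * B) ≥ 0` for PSD `A, B`; `T`, `TW` are linear and map PSD matrices
to PSD matrices; `trace (Y' * T A X) = trace (Tdag A Y' * X)`.
-/

set_option autoImplicit false

namespace Crest.Agent.HGD

open Matrix

variable {D : ℕ}

open scoped MatrixOrder in
theorem pa_exists_tr_mul {B : RM D} (hB : B.PosSemidef) : ∃ C : RM D, B = Cᵀ * C := by
  have h0 : 0 ≤ B := Matrix.nonneg_iff_posSemidef.2 hB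
  refine ⟨CFC.sqrt B, ?_⟩
  have h1 : CFC.sqrt B * CFC.sqrt B = B := CFC.sqrt_mul_sqrt_self B h0
  have h2 : (CFC.sqrt B).PosSemidef := Matrix.nonneg_iff_posSemidef.1 (CFC.sqrt_nonneg B)
  have h3 : (CFC.sqrt B)ᵀ = CFC.sqrt B := by
    have := h2.isHermitian
    rwa [IsHermitian, conjTranspose_eq_transpose_of_trivial] at this
  rw [h3, h1]

theorem pa_psd_tr_mul_mul {X : RM D} (hX : X.PosSemidef) (A : RM D) : (Aᵀ * X * A).PosSemidef := by
  have := hX.conjTranspose_mul_mul_same A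
  rwa [conjTranspose_eq_transpose_of_trivial] at this

theorem pa_psd_mul_mul_tr {X : RM D} (hX : X.PosSemidef) (A : RM D) : (A * X * Aᵀ).PosSemidef := by
  have := hX.mul_mul_conjTranspose_same A
  rwa [conjTranspose_eq_transpose_of_trivial] at this

theorem pa_psd_diag {d : Fin D → ℝ} (h : ∀ a, 0 ≤ d a) : (diagonal d : RM D).PosSemidef :=
  PosSemidef.diagonal h

theorem trace_mul_nonneg {A B : RM D} (hA : A.PosSemidef) (hB : B.PosSemidef) :
    0 ≤ trace (A * B) := by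
  obtain ⟨C, rfl⟩ := pa_exists_tr_mul hB
  have h1 : trace (A * (Cᵀ * C)) = trace (C * A * Cᵀ) := by
    rw [← Matrix.mul_assoc, trace_mul_comm, Matrix.mul_assoc]
  rw [h1]
  exact (pa_psd_mul_mul_tr hA C).trace_nonneg

theorem T_sub (A : Ten D) (X Y : RM D) : T A (X - Y) = T A X - T A Y := by
  simp only [T, Matrix.mul_sub, Matrix.sub_mul, Finset.sum_sub_distrib]

theorem T_smul (A : Ten D) (c : ℝ) (X : RM D) : T A (c • X) = c • T A X := by
  simp only [T, Matrix.mul_smul, Matrix.smul_mul, Finset.smul_sum]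

theorem TW_sub (A B : Ten D) (X Y : RM D) : TW A B (X - Y) = TW A B X - TW A B Y := by
  simp only [TW, Matrix.mul_sub, Matrix.sub_mul, Finset.sum_sub_distrib]

theorem TW_smul (A B : Ten D) (c : ℝ) (X : RM D) : TW A B (c • X) = c • TW A B X := by
  simp only [TW, Matrix.mul_smul, Matrix.smul_mul, Finset.smul_sum]

theorem T_psd (A : Ten D) {X : RM D} (hX : X.PosSemidef) : (T A X).PosSemidef := by
  unfold T
  exact posSemidef_sum _ fun s _ => pa_psd_tr_mul_mul hX _

theorem TW_psd (A B : Ten D) {X : RM D} (hX : X.PosSemidef) : (TW A B X).PosSemidef := by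
  unfold TW
  exact posSemidef_sum _ fun s _ => pa_psd_tr_mul_mul hX _

theorem Tc_psd (M : ℕ → Ten D) (m k : ℕ) {X : RM D} (hX : X.PosSemidef) :
    (Tc M m k X).PosSemidef := by
  induction k with
  | zero => exact hX
  | succ k ih => exact T_psd _ ih

theorem pa_TO_diag (A : Ten D) (c : Fin 3 → ℝ) (X : RM D) :
    TO A (diagonal c) X = ∑ s, c s • ((A s)ᵀ * X * A s) := by
  unfold TO
  refine Finset.sum_congr rfl fun s _ => ?_
  rw [Finset.sum_eq_single s]
  · rw [diagonal_apply_eq]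
  · intro t _ hts
    rw [diagonal_apply_ne _ (Ne.symm hts), zero_smul]
  · intro h
    exact absurd (Finset.mem_univ s) h

theorem pa_TO_diag_sub (A : Ten D) (c : Fin 3 → ℝ) (X Y : RM D) :
    TO A (diagonal c) (X - Y) = TO A (diagonal c) X - TO A (diagonal c) Y := by
  simp only [pa_TO_diag, Matrix.mul_sub, Matrix.sub_mul, smul_sub, Finset.sum_sub_distrib]

theorem pa_TO_diag_smul (A : Ten D) (c : Fin 3 → ℝ) (a : ℝ) (X : RM D) :
    TO A (diagonal c) (a • X) = a • TO A (diagonal c) X := by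
  simp only [pa_TO_diag, Matrix.mul_smul, Matrix.smul_mul, Finset.smul_sum]
  refine Finset.sum_congr rfl fun s _ => ?_
  rw [smul_comm]

theorem pa_TO_diag_psd (A : Ten D) (c : Fin 3 → ℝ) (hc : ∀ s, 0 ≤ c s) {X : RM D}
    (hX : X.PosSemidef) : (TO A (diagonal c) X).PosSemidef := by
  rw [pa_TO_diag]
  exact posSemidef_sum _ fun s _ => (pa_psd_tr_mul_mul hX _).smul (hc s)

/-- duality -/
theorem pa_trace_T (A : Ten D) (X Y : RM D) : trace (Y * T A X) = trace (Tdag A Y * X) := by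
  unfold T Tdag
  rw [Finset.mul_sum, Finset.sum_mul, trace_sum, trace_sum]
  refine Finset.sum_congr rfl fun s _ => ?_
  rw [← Matrix.mul_assoc, trace_mul_comm, ← Matrix.mul_assoc, ← Matrix.mul_assoc]

/-- monotonicity of the trace pairing in the second factor -/
theorem pa_trace_mono_right {Y A B : RM D} (hY : Y.PosSemidef) (h : (A - B).PosSemidef) :
    trace (Y * B) ≤ trace (Y * A) := by
  have h1 := trace_mul_nonneg hY h
  rw [Matrix.mul_sub, trace_sub] at h1
  linarith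

variable {N : ℕ} {M : ℕ → Ten D} {l r : ℕ → Fin D → ℝ} {δ : ℝ}

theorem Tc_lower (h : Chain N M l r δ) (hδ0 : 0 ≤ δ) (hδ1 : δ ≤ 1) (j : ℕ) (hj : j ≤ N) :
    (Tc M 0 j (diagonal (l 0)) - (1 - δ) ^ j • diagonal (l j)).PosSemidef := by
  induction j with
  | zero => simp [Tc, PosSemidef.zero]
  | succ j ih =>
    have h1 := T_psd (M j) (ih (by omega))
    have h2 := (h.low j (by omega)).smul (pow_nonneg (sub_nonneg.2 hδ1) j)
    have h3 := h1.add h2
    rw [T_sub, T_smul, smul_sub, smul_smul, ← pow_succ] at h3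
    have h4 : Tc M 0 (j + 1) (diagonal (l 0)) = T (M j) (Tc M 0 j (diagonal (l 0))) := by
      rw [Tc, Nat.zero_add]
    rw [h4]
    convert h3 using 1
    abel

theorem Tc_upper (h : Chain N M l r δ) (hδ0 : 0 ≤ δ) (j : ℕ) (hj : j ≤ N) :
    ((1 + δ) ^ j • diagonal (l j) - Tc M 0 j (diagonal (l 0))).PosSemidef := by
  induction j with
  | zero => simp [Tc, PosSemidef.zero]
  | succ j ih =>
    have h1 := T_psd (M j) (ih (by omega))
    have h2 := (h.upp j (by omega)).smul (pow_nonneg (by linarith : (0 : ℝ) ≤ 1 + δ) j)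
    have h3 := h1.add h2
    rw [T_sub, T_smul, smul_sub, smul_smul, ← pow_succ] at h3
    have h4 : Tc M 0 (j + 1) (diagonal (l 0)) = T (M j) (Tc M 0 j (diagonal (l 0))) := by
      rw [Tc, Nat.zero_add]
    rw [h4]
    convert h3 using 1
    abel

theorem dual_lower (h : Chain N M l r δ) (hδ0 : 0 ≤ δ) (hδ1 : δ ≤ 1) (m k : ℕ) (hm : m + k ≤ N)
    {Y : RM D} (hY : Y.PosSemidef) :
    (1 - δ) ^ k * trace (diagonal (r m) * Y) ≤ trace (diagonal (r (m + k)) * Tc M m k Y) := by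
  induction k with
  | zero => simp [Tc]
  | succ k ih =>
    have h0 := ih (by omega)
    have hZ := Tc_psd M m k hY
    have h1 := h.dual (m + k) (by omega)
    have h2 := trace_mul_nonneg h1 hZ
    rw [Matrix.sub_mul, trace_sub, Matrix.smul_mul, trace_smul, ← pa_trace_T, smul_eq_mul] at h2
    have h4 : Tc M m (k + 1) Y = T (M (m + k)) (Tc M m k Y) := rfl
    rw [h4, ← Nat.add_assoc]
    have h5 := mul_le_mul_of_nonneg_left h0 (sub_nonneg.2 hδ1)
    calc (1 - δ) ^ (k + 1) * trace (diagonal (r m) * Y)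
        = (1 - δ) * ((1 - δ) ^ k * trace (diagonal (r m) * Y)) := by ring
      _ ≤ (1 - δ) * trace (diagonal (r (m + k)) * Tc M m k Y) := h5
      _ ≤ _ := by linarith

theorem pa_trace_diag_diag (u v : Fin D → ℝ) :
    trace ((diagonal u : RM D) * diagonal v) = ∑ a, v a * u a := by
  rw [diagonal_mul_diagonal, trace_diagonal]
  exact Finset.sum_congr rfl fun a _ => mul_comm _ _

theorem norm_upper (h : Chain N M l r δ) (hδ0 : 0 ≤ δ) :
    trace (diagonal (r N) * Tc M 0 N (diagonal (l 0))) ≤ (1 + δ) ^ N * ∑ a, l N a * r N a := by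
  have h1 := pa_trace_mono_right (pa_psd_diag (h.hr N)) (Tc_upper h hδ0 N le_rfl)
  rw [Matrix.mul_smul, trace_smul, smul_eq_mul, pa_trace_diag_diag] at h1
  exact h1

theorem norm_lower (h : Chain N M l r δ) (hδ0 : 0 ≤ δ) (hδ1 : δ ≤ 1) :
    (1 - δ) ^ N * ∑ a, l N a * r N a ≤ trace (diagonal (r N) * Tc M 0 N (diagonal (l 0))) := by
  have h1 := pa_trace_mono_right (pa_psd_diag (h.hr N)) (Tc_lower h hδ0 hδ1 N le_rfl)
  rw [Matrix.mul_smul, trace_smul, smul_eq_mul, pa_trace_diag_diag] at h1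
  exact h1

/-- a positive two-site observable at sites `j, j+1` -/
theorem bond_lower (h : Chain N M l r δ) (hδ0 : 0 ≤ δ) (hδ1 : δ ≤ 1) (j : ℕ) (hj : j + 2 ≤ N) :
    (1 - δ) ^ N * trace (diagonal (r (j + 2)) * TW (M j) (M (j + 1)) (diagonal (l j))) ≤
      trace (diagonal (r N) * Tc M (j + 2) (N - (j + 2))
        (TW (M j) (M (j + 1)) (Tc M 0 j (diagonal (l 0))))) := by
  have hl0 : (Tc M 0 j (diagonal (l 0))).PosSemidef := Tc_psd M 0 j (pa_psd_diag (h.hl 0))
  have hY : (TW (M j) (M (j + 1)) (Tc M 0 j (diagonal (l 0)))).PosSemidef := TW_psd _ _ hl0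
  have h1 := dual_lower h hδ0 hδ1 (j + 2) (N - (j + 2)) (by omega) hY
  have hN : j + 2 + (N - (j + 2)) = N := by omega
  rw [hN] at h1
  have h2 := pa_trace_mono_right (pa_psd_diag (h.hr (j + 2)))
    (by
      have := TW_psd (M j) (M (j + 1)) (Tc_lower h hδ0 hδ1 j (by omega))
      rwa [TW_sub, TW_smul] at this)
  rw [Matrix.mul_smul, trace_smul, smul_eq_mul] at h2
  set t := trace (diagonal (r (j + 2)) * TW (M j) (M (j + 1)) (diagonal (l j))) with ht
  have ht0 : 0 ≤ t := trace_mul_nonneg (pa_psd_diag (h.hr _)) (TW_psd _ _ (pa_psd_diag (h.hl _)))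
  have hd0 : 0 ≤ 1 - δ := sub_nonneg.2 hδ1
  have hd1 : 1 - δ ≤ 1 := by linarith
  have h3 : (1 - δ) ^ N ≤ (1 - δ) ^ (N - (j + 2)) * (1 - δ) ^ j := by
    rw [← pow_add]
    exact pow_le_pow_of_le_one hd0 hd1 (by omega)
  calc (1 - δ) ^ N * t ≤ (1 - δ) ^ (N - (j + 2)) * (1 - δ) ^ j * t :=
        mul_le_mul_of_nonneg_right h3 ht0
    _ = (1 - δ) ^ (N - (j + 2)) * ((1 - δ) ^ j * t) := by ring
    _ ≤ (1 - δ) ^ (N - (j + 2)) * trace (diagonal (r (j + 2)) *
          TW (M j) (M (j + 1)) (Tc M 0 j (diagonal (l 0)))) :=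
        mul_le_mul_of_nonneg_left h2 (pow_nonneg hd0 _)
    _ ≤ _ := h1

/-- a one-site observable with nonnegative diagonal matrix `c` at the first site -/
theorem first_lower (h : Chain N M l r δ) (hδ0 : 0 ≤ δ) (hδ1 : δ ≤ 1) (hN : 1 ≤ N)
    (c : Fin 3 → ℝ) (hc : ∀ s, 0 ≤ c s) :
    (1 - δ) ^ N * trace (diagonal (r 1) * TO (M 0) (diagonal c) (diagonal (l 0))) ≤
      trace (diagonal (r N) * Tc M 1 (N - 1) (TO (M 0) (diagonal c) (diagonal (l 0)))) := by
  have hY : (TO (M 0) (diagonal c) (diagonal (l 0))).PosSemidef :=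
    pa_TO_diag_psd _ _ hc (pa_psd_diag (h.hl 0))
  have h1 := dual_lower h hδ0 hδ1 1 (N - 1) (by omega) hY
  have hN' : 1 + (N - 1) = N := by omega
  rw [hN'] at h1
  have ht0 := trace_mul_nonneg (pa_psd_diag (h.hr 1)) hY
  have hd0 : 0 ≤ 1 - δ := sub_nonneg.2 hδ1
  have hd1 : 1 - δ ≤ 1 := by linarith
  exact (mul_le_mul_of_nonneg_right (pow_le_pow_of_le_one hd0 hd1 (Nat.sub_le N 1)) ht0).trans h1

/-- a one-site observable with nonnegative diagonal matrix `c` at the last site -/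
theorem last_lower (h : Chain N M l r δ) (hδ0 : 0 ≤ δ) (hδ1 : δ ≤ 1) (hN : 1 ≤ N)
    (c : Fin 3 → ℝ) (hc : ∀ s, 0 ≤ c s) :
    (1 - δ) ^ N * trace (diagonal (r N) * TO (M (N - 1)) (diagonal c) (diagonal (l (N - 1)))) ≤
      trace (diagonal (r N) * TO (M (N - 1)) (diagonal c) (Tc M 0 (N - 1) (diagonal (l 0)))) := by
  have h2 := pa_trace_mono_right (pa_psd_diag (h.hr N))
    (by
      have := pa_TO_diag_psd (M (N - 1)) c hc (Tc_lower h hδ0 hδ1 (N - 1) (by omega))
      rwa [pa_TO_diag_sub, pa_TO_diag_smul] at this)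
  rw [Matrix.mul_smul, trace_smul, smul_eq_mul] at h2
  have ht0 := trace_mul_nonneg (pa_psd_diag (h.hr N))
    (pa_TO_diag_psd (M (N - 1)) c hc (pa_psd_diag (h.hl (N - 1))))
  have hd0 : 0 ≤ 1 - δ := sub_nonneg.2 hδ1
  have hd1 : 1 - δ ≤ 1 := by linarith
  exact (mul_le_mul_of_nonneg_right (pow_le_pow_of_le_one hd0 hd1 (Nat.sub_le N 1)) ht0).trans h2

end Crest.Agent.HGD
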