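import Crest.Agent.HGD_Mps
import Crest.Agent.HGD_Psd

/-!
# HGD, task HGD-Main: variational energy bounds

With `w(ψ) = ∑ a b, l 0 a * r (n+1) b * (...)`: by `mix_bond`, `two_site`, `Tc_add`, `mix_norm`
`w(⟨1 - bond_j⟩) = trace (diag r_N * Tc (TW (..)))` which is bounded below by `bond_lower`; for the
fields `-h S^z_0 = h - h (1 + S^z_0)`, `h S^z_n = h - h (1 - S^z_n)`, with
`1 + S^z = diagonal ![2,1,0]`, `1 - S^z = diagonal ![0,1,2]`. Hence
`w(⟨H⟩ - E⟨1⟩) = (n + 2h - E) w(1) - ∑ w(1-bond) - h (...)` is `≤ 0`, whereas `w(1) > 0`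
(`norm_lower`); so one of the `psi M (n+1) a b` is nonzero and satisfies the bound.
-/

set_option autoImplicit false

namespace Crest.Agent.HGD

open Matrix Crest.MathPhysics.SpinChain Crest.Agent.HG

variable {D : ℕ}

private noncomputable def qf {ι : Type*} [Fintype ι] (ψ : ι → ℂ) (K : Matrix ι ι ℂ) : ℝ :=
  (star ψ ⬝ᵥ K.mulVec ψ).re

private theorem qf_add {ι : Type*} [Fintype ι] (ψ : ι → ℂ) (K L : Matrix ι ι ℂ) :
    qf ψ (K + L) = qf ψ K + qf ψ L := by
  unfold qf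
  rw [Matrix.add_mulVec, dotProduct_add, Complex.add_re]

private theorem qf_sub {ι : Type*} [Fintype ι] (ψ : ι → ℂ) (K L : Matrix ι ι ℂ) :
    qf ψ (K - L) = qf ψ K - qf ψ L := by
  unfold qf
  rw [Matrix.sub_mulVec, dotProduct_sub, Complex.sub_re]

private theorem qf_smul {ι : Type*} [Fintype ι] (ψ : ι → ℂ) (c : ℝ) (K : Matrix ι ι ℂ) :
    qf ψ ((c : ℂ) • K) = c * qf ψ K := by
  unfold qf
  rw [Matrix.smul_mulVec, dotProduct_smul, smul_eq_mul, Complex.re_ofReal_mul]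

private theorem qf_zero {ι : Type*} [Fintype ι] (ψ : ι → ℂ) :
    qf ψ (0 : Matrix ι ι ℂ) = 0 := by
  unfold qf
  rw [Matrix.zero_mulVec, dotProduct_zero, Complex.zero_re]

private theorem qf_sum {ι κ : Type*} [Fintype ι] (ψ : ι → ℂ) (s : Finset κ)
    (K : κ → Matrix ι ι ℂ) : qf ψ (∑ j ∈ s, K j) = ∑ j ∈ s, qf ψ (K j) := by
  classical
  induction s using Finset.induction_on with
  | empty => simp [qf_zero]
  | insert a s ha ih => rw [Finset.sum_insert ha, Finset.sum_insert ha, qf_add, ih]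

/-- the variational selection argument -/
private theorem select {ι κ : Type*} [Fintype ι] [Fintype κ] (ω : κ → ℝ) (hω : ∀ i, 0 ≤ ω i)
    (ψ : κ → ι → ℂ) (K : Matrix ι ι ℂ) (E : ℝ)
    (h1 : ∑ i, ω i * (qf (ψ i) K - E * (star (ψ i) ⬝ᵥ ψ i).re) ≤ 0)
    (h2 : 0 < ∑ i, ω i * (star (ψ i) ⬝ᵥ ψ i).re) :
    ∃ i, ψ i ≠ 0 ∧ qf (ψ i) K ≤ E * (star (ψ i) ⬝ᵥ ψ i).re := by
  by_contra hcon
  push Not at hcon
  have hterm : ∀ i, 0 ≤ ω i * (qf (ψ i) K - E * (star (ψ i) ⬝ᵥ ψ i).re) := by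
    intro i
    by_cases h0 : ψ i = 0
    · have e1 : qf (ψ i) K = 0 := by
        unfold qf
        rw [h0, Matrix.mulVec_zero, dotProduct_zero, Complex.zero_re]
      have e2 : (star (ψ i) ⬝ᵥ ψ i).re = 0 := by
        rw [h0, dotProduct_zero, Complex.zero_re]
      rw [e1, e2]
      simp
    · have := hcon i h0
      exact mul_nonneg (hω i) (by linarith)
  have hzero : ∀ i, ω i * (qf (ψ i) K - E * (star (ψ i) ⬝ᵥ ψ i).re) = 0 := by
    intro i
    have h3 := Finset.single_le_sum (f := fun i => ω i * (qf (ψ i) K - E * (star (ψ i) ⬝ᵥ ψ i).re))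
      (fun j _ => hterm j) (Finset.mem_univ i)
    have h4 := hterm i
    linarith
  have hall : ∀ i, ω i * (star (ψ i) ⬝ᵥ ψ i).re = 0 := by
    intro i
    by_cases h0 : ψ i = 0
    · rw [h0, dotProduct_zero, Complex.zero_re, mul_zero]
    · have h3 := hcon i h0
      rcases mul_eq_zero.1 (hzero i) with h4 | h4
      · rw [h4, zero_mul]
      · linarith
  rw [Finset.sum_congr rfl (fun i _ => hall i)] at h2
  simp at h2

private theorem Tc_sub' (M : ℕ → Ten D) (m k : ℕ) (X Y : RM D) :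
    Tc M m k (X - Y) = Tc M m k X - Tc M m k Y := by
  induction k with
  | zero => rfl
  | succ k ih => rw [Tc, Tc, Tc, ih, T_sub]

private theorem TO_add' (A : Ten D) (O P : Matrix (Fin 3) (Fin 3) ℝ) (X : RM D) :
    TO A (O + P) X = TO A O X + TO A P X := by
  unfold TO
  simp only [Matrix.add_apply, add_smul, Finset.sum_add_distrib]

private theorem TO_sub' (A : Ten D) (O P : Matrix (Fin 3) (Fin 3) ℝ) (X : RM D) :
    TO A (O - P) X = TO A O X - TO A P X := by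
  unfold TO
  simp only [Matrix.sub_apply, sub_smul, Finset.sum_sub_distrib]

private theorem diagP : (diagonal ![2, 1, 0] : Matrix (Fin 3) (Fin 3) ℝ) = 1 + opL 0 := by
  ext i j
  fin_cases i <;> fin_cases j <;> simp [opL, Matrix.one_apply, diagonal] <;> norm_num

private theorem diagM : (diagonal ![0, 1, 2] : Matrix (Fin 3) (Fin 3) ℝ) = 1 - opL 0 := by
  ext i j
  fin_cases i <;> fin_cases j <;> simp [opL, Matrix.one_apply, diagonal] <;> norm_num

theorem open_bound (n : ℕ) (hn : 1 ≤ n) {M : ℕ → Ten D} {l r : ℕ → Fin D → ℝ} {δ h E : ℝ}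
    (hC : Chain (n + 1) M l r δ) (hδ0 : 0 ≤ δ) (hδ1 : δ < 1) (hh : 0 ≤ h) (e f0 fN : ℝ)
    (he : e ≤ ∑ j ∈ Finset.range n,
      trace (diagonal (r (j + 2)) * TW (M j) (M (j + 1)) (diagonal (l j))))
    (hf0 : f0 ≤ trace (diagonal (r 1) * TO (M 0) (diagonal ![2, 1, 0]) (diagonal (l 0))))
    (hfN : fN ≤ trace (diagonal (r (n + 1)) * TO (M n) (diagonal ![0, 1, 2]) (diagonal (l n))))
    (hpos : 0 < ∑ a, l (n + 1) a * r (n + 1) a) (hE0 : 0 ≤ n + 2 * h - E)
    (hE : (n + 2 * h - E) * ((1 + δ) ^ (n + 1) * ∑ a, l (n + 1) a * r (n + 1) a) ≤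
      (1 - δ) ^ (n + 1) * (e + h * (f0 + fN))) :
    ∃ ψ : (Fin (n + 1) → Fin 3) → ℂ, ψ ≠ 0 ∧
      (star ψ ⬝ᵥ (openS (-1) n h).mulVec ψ).re ≤ E * (star ψ ⬝ᵥ ψ).re := by
  classical
  set w1 := trace (diagonal (r (n + 1)) * Tc M 0 (n + 1) (diagonal (l 0))) with hw1
  have hδ1' : δ ≤ 1 := hδ1.le
  have hpow : 0 ≤ (1 - δ) ^ (n + 1) := pow_nonneg (by linarith) _
  have hpow' : 0 < (1 - δ) ^ (n + 1) := pow_pos (by linarith) _
  have hup := norm_upper hC hδ0
  have hlo := norm_lower hC hδ0 hδ1'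
  -- bonds
  have hB : ∀ j : Fin n, ∑ a, ∑ b, l 0 a * r (n + 1) b *
      qf (psi M (n + 1) a b) (bond (Fin.castSucc j) (Fin.succ j)) ≤
      w1 - (1 - δ) ^ (n + 1) * trace (diagonal (r (j + 2)) *
        TW (M j) (M (j + 1)) (diagonal (l j))) := by
    intro j
    have hj : (j : ℕ) + 2 ≤ n + 1 := by have := j.2; omega
    have h1 := mix_bond M n j (l 0) (r (n + 1))
    have h2 := bond_lower hC hδ0 hδ1' j hj
    have e0 : n + 1 - ((j : ℕ) + 2) = n - 1 - j := by omega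
    rw [e0] at h2
    have e1 : Tc M 0 (n + 1) (diagonal (l 0)) =
        Tc M (j + 2) (n - 1 - j) (T (M (j + 1)) (T (M j) (Tc M 0 j (diagonal (l 0))))) := by
      have e2 : n + 1 = ((j : ℕ) + 2) + (n - 1 - j) := by have := j.2; omega
      rw [e2, Tc_add]
      have e3 : 0 + ((j : ℕ) + 2) = j + 2 := by omega
      rw [e3]
      congr 1
      show T (M (0 + (j + 1))) (T (M (0 + j)) (Tc M 0 j (diagonal (l 0)))) = _
      rw [Nat.zero_add, Nat.zero_add]
    unfold qf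
    rw [h1, hw1]
    rw [← two_site (M j) (M (j + 1)) (Tc M 0 j (diagonal (l 0))), Tc_sub', Matrix.mul_sub,
      trace_sub] at h2
    rw [e1]
    linarith
  -- fields
  have hF : ∑ a, ∑ b, l 0 a * r (n + 1) b *
      qf (psi M (n + 1) a b) (onSite spinZ (0 : Fin (n + 1))) ≥
      (1 - δ) ^ (n + 1) * f0 - w1 := by
    have h1 := mix_first M n (l 0) (r (n + 1))
    have h2 := first_lower hC hδ0 hδ1' (by omega) (![2, 1, 0]) (by
      intro s; fin_cases s <;> simp)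
    have e0 : n + 1 - 1 = n := by omega
    rw [e0] at h2
    have e1 : Tc M 0 (n + 1) (diagonal (l 0)) = Tc M 1 n (T (M 0) (diagonal (l 0))) := by
      have e2 : n + 1 = 1 + n := by omega
      rw [e2, Tc_add]
      rfl
    unfold qf
    rw [h1, hw1, e1]
    have h3 : Tc M 1 n (TO (M 0) (opL 0) (diagonal (l 0))) =
        Tc M 1 n (TO (M 0) (diagonal ![2, 1, 0]) (diagonal (l 0))) -
          Tc M 1 n (T (M 0) (diagonal (l 0))) := by
      rw [← Tc_sub', diagP, TO_add', TO_one]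
      congr 1
      abel
    rw [h3, Matrix.mul_sub, trace_sub]
    have h4 := mul_le_mul_of_nonneg_left hf0 hpow
    linarith
  have hG : ∑ a, ∑ b, l 0 a * r (n + 1) b *
      qf (psi M (n + 1) a b) (onSite spinZ (Fin.last n)) ≤
      w1 - (1 - δ) ^ (n + 1) * fN := by
    have h1 := mix_last M n (l 0) (r (n + 1))
    have h2 := last_lower hC hδ0 hδ1' (by omega) (![0, 1, 2]) (by
      intro s; fin_cases s <;> simp)
    have e0 : n + 1 - 1 = n := by omega
    rw [e0] at h2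
    have e1 : Tc M 0 (n + 1) (diagonal (l 0)) = T (M n) (Tc M 0 n (diagonal (l 0))) := by
      show T (M (0 + n)) (Tc M 0 n (diagonal (l 0))) = _
      rw [Nat.zero_add]
    unfold qf
    rw [h1, hw1, e1]
    have h3 : TO (M n) (opL 0) (Tc M 0 n (diagonal (l 0))) =
        T (M n) (Tc M 0 n (diagonal (l 0))) -
          TO (M n) (diagonal ![0, 1, 2]) (Tc M 0 n (diagonal (l 0))) := by
      rw [diagM, TO_sub', TO_one]
      abel
    rw [h3, Matrix.mul_sub, trace_sub]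
    have h4 := mul_le_mul_of_nonneg_left hfN hpow
    linarith
  have hN : ∑ a, ∑ b, l 0 a * r (n + 1) b * (star (psi M (n + 1) a b) ⬝ᵥ psi M (n + 1) a b).re =
      w1 := mix_norm M (n + 1) (l 0) (r (n + 1))
  have hw1pos : 0 < w1 := lt_of_lt_of_le (mul_pos hpow' hpos) hlo
  -- the Hamiltonian
  have hH : ∀ ψ : (Fin (n + 1) → Fin 3) → ℂ, qf ψ (openS (-1) n h) =
      (∑ j : Fin n, qf ψ (bond (Fin.castSucc j) (Fin.succ j))) -
        h * qf ψ (onSite spinZ (0 : Fin (n + 1))) + h * qf ψ (onSite spinZ (Fin.last n)) := by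
    intro ψ
    unfold openS
    rw [qf_sub, qf_sum, qf_smul, qf_add, qf_smul]
    ring
  have hsum : ∑ i : Fin D × Fin D, (l 0 i.1 * r (n + 1) i.2) *
      (qf (psi M (n + 1) i.1 i.2) (openS (-1) n h) -
        E * (star (psi M (n + 1) i.1 i.2) ⬝ᵥ psi M (n + 1) i.1 i.2).re) ≤ 0 := by
    rw [Fintype.sum_prod_type]
    have e1 : ∑ a, ∑ b, (l 0 a * r (n + 1) b) *
        (qf (psi M (n + 1) a b) (openS (-1) n h) -
          E * (star (psi M (n + 1) a b) ⬝ᵥ psi M (n + 1) a b).re) =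
        (∑ j : Fin n, ∑ a, ∑ b, l 0 a * r (n + 1) b *
          qf (psi M (n + 1) a b) (bond (Fin.castSucc j) (Fin.succ j))) -
        h * (∑ a, ∑ b, l 0 a * r (n + 1) b *
          qf (psi M (n + 1) a b) (onSite spinZ (0 : Fin (n + 1)))) +
        h * (∑ a, ∑ b, l 0 a * r (n + 1) b *
          qf (psi M (n + 1) a b) (onSite spinZ (Fin.last n))) -
        E * (∑ a, ∑ b, l 0 a * r (n + 1) b *
          (star (psi M (n + 1) a b) ⬝ᵥ psi M (n + 1) a b).re) := by
      rw [Finset.sum_comm (s := (Finset.univ : Finset (Fin n)))]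
      simp only [Finset.mul_sum]
      rw [← Finset.sum_sub_distrib, ← Finset.sum_add_distrib, ← Finset.sum_sub_distrib]
      refine Finset.sum_congr rfl (fun a _ => ?_)
      rw [Finset.sum_comm (s := (Finset.univ : Finset (Fin n)))]
      rw [← Finset.sum_sub_distrib, ← Finset.sum_add_distrib, ← Finset.sum_sub_distrib]
      refine Finset.sum_congr rfl (fun b _ => ?_)
      rw [hH, ← Finset.mul_sum]
      ring
    rw [e1, hN]
    have h1 : ∑ j : Fin n, ∑ a, ∑ b, l 0 a * r (n + 1) b *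
        qf (psi M (n + 1) a b) (bond (Fin.castSucc j) (Fin.succ j)) ≤
        n * w1 - (1 - δ) ^ (n + 1) * e := by
      have h2 : ∑ j : Fin n, ∑ a, ∑ b, l 0 a * r (n + 1) b *
          qf (psi M (n + 1) a b) (bond (Fin.castSucc j) (Fin.succ j)) ≤
          ∑ j : Fin n, (w1 - (1 - δ) ^ (n + 1) * trace (diagonal (r (j + 2)) *
            TW (M j) (M (j + 1)) (diagonal (l j)))) := Finset.sum_le_sum (fun j _ => hB j)
      have h3 : ∑ j : Fin n, (w1 - (1 - δ) ^ (n + 1) * trace (diagonal (r (j + 2)) *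
            TW (M j) (M (j + 1)) (diagonal (l j)))) = n * w1 - (1 - δ) ^ (n + 1) *
            ∑ j ∈ Finset.range n, trace (diagonal (r (j + 2)) *
              TW (M j) (M (j + 1)) (diagonal (l j))) := by
        rw [Finset.sum_sub_distrib, Finset.sum_const, Finset.card_univ, Fintype.card_fin,
          nsmul_eq_mul, ← Finset.mul_sum, Finset.sum_range]
      have h4 := mul_le_mul_of_nonneg_left he hpow
      linarith
    have h5 := mul_le_mul_of_nonneg_left hF hh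
    have h6 := mul_le_mul_of_nonneg_left hG hh
    have h7 := mul_le_mul_of_nonneg_left hup hE0
    have e2 : (1 - δ) ^ (n + 1) * (e + h * (f0 + fN)) =
        (1 - δ) ^ (n + 1) * e + h * ((1 - δ) ^ (n + 1) * f0) + h * ((1 - δ) ^ (n + 1) * fN) := by
      ring
    rw [e2] at hE
    have e3 : h * ((1 - δ) ^ (n + 1) * f0 - w1) = h * ((1 - δ) ^ (n + 1) * f0) - h * w1 := by ring
    have e4 : h * (w1 - (1 - δ) ^ (n + 1) * fN) = h * w1 - h * ((1 - δ) ^ (n + 1) * fN) := by ring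
    rw [e3] at h5
    rw [e4] at h6
    have e5 : (n + 2 * h - E) * w1 = n * w1 + 2 * (h * w1) - E * w1 := by ring
    rw [← hw1, e5] at h7
    linarith
  have hsum2 : 0 < ∑ i : Fin D × Fin D, (l 0 i.1 * r (n + 1) i.2) *
      (star (psi M (n + 1) i.1 i.2) ⬝ᵥ psi M (n + 1) i.1 i.2).re := by
    rw [Fintype.sum_prod_type, hN]
    exact hw1pos
  obtain ⟨i, hi1, hi2⟩ := select (fun i : Fin D × Fin D => l 0 i.1 * r (n + 1) i.2)
    (fun i => mul_nonneg (hC.hl 0 i.1) (hC.hr (n + 1) i.2))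
    (fun i => psi M (n + 1) i.1 i.2) (openS (-1) n h) E hsum hsum2
  exact ⟨_, hi1, hi2⟩

theorem ring_bound (n : ℕ) (hn : 1 ≤ n) {M : ℕ → Ten D} {l r : ℕ → Fin D → ℝ} {δ E : ℝ}
    (hC : Chain (n + 1) M l r δ) (hδ0 : 0 ≤ δ) (hδ1 : δ < 1) (e : ℝ)
    (he : e ≤ ∑ j ∈ Finset.range n,
      trace (diagonal (r (j + 2)) * TW (M j) (M (j + 1)) (diagonal (l j))))
    (hpos : 0 < ∑ a, l (n + 1) a * r (n + 1) a) (hE0 : 0 ≤ n - E)
    (hE : (n - E) * ((1 + δ) ^ (n + 1) * ∑ a, l (n + 1) a * r (n + 1) a) ≤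
      (1 - δ) ^ (n + 1) * e) :
    ∃ ψ : (Fin (n + 1) → Fin 3) → ℂ, ψ ≠ 0 ∧
      (star ψ ⬝ᵥ (ringH sOne (n + 1)).mulVec ψ).re ≤ (E + 1) * (star ψ ⬝ᵥ ψ).re := by
  obtain ⟨ψ, h1, h2⟩ := open_bound n hn hC hδ0 hδ1 (h := 0) le_rfl e
    (trace (diagonal (r 1) * TO (M 0) (diagonal ![2, 1, 0]) (diagonal (l 0))))
    (trace (diagonal (r (n + 1)) * TO (M n) (diagonal ![0, 1, 2]) (diagonal (l n))))
    he le_rfl le_rfl hpos (by simpa using hE0) (by simpa using hE)
  refine ⟨ψ, h1, ?_⟩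
  have h3 : openS (-1) n 0 = ∑ j : Fin n, bond (Fin.castSucc j) (Fin.succ j) := by
    unfold openS
    simp
  rw [h3] at h2
  have h4 : (Fin.last n) ≠ (0 : Fin (n + 1)) := by
    intro h
    have := congrArg Fin.val h
    simp at this
    omega
  have h5 := ev_bond_le h4 ψ
  rw [ringH_succ n hn, Matrix.add_mulVec, dotProduct_add, Complex.add_re]
  linarith

end Crest.Agent.HGD
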