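import Crest.Agent.HG_Defs

/-!
HG constants: variational energy per site and surface energy.
-/

namespace Crest.Agent.HG

/-- upper bound of the ground energy per site (true value -1.4014840...) -/
noncomputable def ev : ℝ := -(1401481 / 1000000)
/-- upper bound of the surface energy of the open chain with opposite end fields 3/5 -/
noncomputable def fv : ℝ := 403 / 1000

end Crest.Agent.HG
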