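import Crest.Agent.HGD_Seq
import Crest.Agent.HGD_Main
import Crest.Agent.HG_Ev
import Crest.Agent.HGD_Chk1
import Crest.Agent.HGD_Chk2
import Crest.Agent.HGD_Chk3
import Crest.Agent.HGD_Chk4
import Crest.Agent.HGD_Chk5
import Crest.Agent.HGD_Chk6
import Crest.Agent.HGD_Chk7
import Crest.Agent.HGD_Chk8
import Crest.Agent.HGD_Chk9

/-!
# HGD (Haldane gap, part D): the trial states (`TrialRing`, `TrialOpen 104`, `TrialOpen 132` of
`HG_Final`)
-/

set_option autoImplicit false

namespace Crest.Agent.HGD.Ker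

open Matrix Finset Crest.Agent.HG Crest.MathPhysics.SpinChain

noncomputable section

theorem g0 : Good s0 b0 b1 := ⟨rfl, by decide, by decide, ok0⟩
theorem g1 : Good s1 b1 b2 := ⟨rfl, by decide, by decide, ok1⟩
theorem g2 : Good s2 b2 b3 := ⟨rfl, by decide, by decide, ok2⟩
theorem g3 : Good s3 b3 b4 := ⟨rfl, by decide, by decide, ok3⟩
theorem g4 : Good s4 b4 b5 := ⟨rfl, by decide, by decide, ok4⟩
theorem g5 : Good s5 b5 b6 := ⟨rfl, by decide, by decide, ok5⟩
theorem g6 : Good s6 b6 b7 := ⟨rfl, by decide, by decide, ok6⟩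
theorem g7 : Good s7 b7 b8 := ⟨rfl, by decide, by decide, ok7⟩
theorem g8 : Good s8 b8 b9 := ⟨rfl, by decide, by decide, ok8⟩
theorem g9 : Good s9 b9 b10 := ⟨rfl, by decide, by decide, ok9⟩
theorem g10 : Good s10 b10 b11 := ⟨rfl, by decide, by decide, ok10⟩
theorem g11 : Good s11 b11 b12 := ⟨rfl, by decide, by decide, ok11⟩
theorem g12 : Good s12 b12 b13 := ⟨rfl, by decide, by decide, ok12⟩
theorem g13 : Good s13 b13 b14 := ⟨rfl, by decide, by decide, ok13⟩
theorem g14 : Good s14 b14 b15 := ⟨rfl, by decide, by decide, ok14⟩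
theorem g15 : Good s15 b15 b16 := ⟨rfl, by decide, by decide, ok15⟩
theorem g16 : Good s16 b16 b17 := ⟨rfl, by decide, by decide, ok16⟩
theorem g17 : Good s17 b17 b18 := ⟨rfl, by decide, by decide, ok17⟩
theorem g18 : Good s18 b18 b19 := ⟨rfl, by decide, by decide, ok18⟩
theorem g19 : Good s19 b19 b20 := ⟨rfl, by decide, by decide, ok19⟩
theorem g20 : Good s20 b20 b21 := ⟨rfl, by decide, by decide, ok20⟩
theorem g21 : Good s21 b21 b22 := ⟨rfl, by decide, by decide, ok21⟩
theorem g22 : Good s22 b22 b22 := ⟨rfl, by decide, by decide, ok22⟩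
theorem g23 : Good s23 b22 b23 := ⟨rfl, by decide, by decide, ok23⟩
theorem g24 : Good s24 b23 b24 := ⟨rfl, by decide, by decide, ok24⟩
theorem g25 : Good s25 b24 b25 := ⟨rfl, by decide, by decide, ok25⟩
theorem g26 : Good s26 b25 b26 := ⟨rfl, by decide, by decide, ok26⟩
theorem g27 : Good s27 b26 b27 := ⟨rfl, by decide, by decide, ok27⟩
theorem g28 : Good s28 b27 b28 := ⟨rfl, by decide, by decide, ok28⟩
theorem g29 : Good s29 b28 b29 := ⟨rfl, by decide, by decide, ok29⟩
theorem g30 : Good s30 b29 b30 := ⟨rfl, by decide, by decide, ok30⟩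
theorem g31 : Good s31 b30 b31 := ⟨rfl, by decide, by decide, ok31⟩
theorem g32 : Good s32 b31 b32 := ⟨rfl, by decide, by decide, ok32⟩
theorem g33 : Good s33 b32 b33 := ⟨rfl, by decide, by decide, ok33⟩
theorem g34 : Good s34 b33 b34 := ⟨rfl, by decide, by decide, ok34⟩
theorem g35 : Good s35 b34 b35 := ⟨rfl, by decide, by decide, ok35⟩
theorem g36 : Good s36 b35 b36 := ⟨rfl, by decide, by decide, ok36⟩
theorem g37 : Good s37 b36 b37 := ⟨rfl, by decide, by decide, ok37⟩
theorem g38 : Good s38 b37 b38 := ⟨rfl, by decide, by decide, ok38⟩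
theorem g39 : Good s39 b38 b39 := ⟨rfl, by decide, by decide, ok39⟩
theorem g40 : Good s40 b39 b40 := ⟨rfl, by decide, by decide, ok40⟩
theorem g41 : Good s41 b40 b41 := ⟨rfl, by decide, by decide, ok41⟩
theorem g42 : Good s42 b41 b42 := ⟨rfl, by decide, by decide, ok42⟩
theorem g43 : Good s43 b42 b43 := ⟨rfl, by decide, by decide, ok43⟩
theorem g44 : Good s44 b43 b44 := ⟨rfl, by decide, by decide, ok44⟩

def siteL : List SD := [s0, s1, s2, s3, s4, s5, s6, s7, s8, s9, s10, s11, s12, s13, s14, s15, s16, s17, s18, s19, s20, s21, s22, s23, s24, s25, s26, s27, s28, s29, s30, s31, s32, s33, s34, s35, s36, s37, s38, s39, s40, s41, s42, s43, s44]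
def bondL : List BD := [b0, b1, b2, b3, b4, b5, b6, b7, b8, b9, b10, b11, b12, b13, b14, b15, b16, b17, b18, b19, b20, b21, b22, b23, b24, b25, b26, b27, b28, b29, b30, b31, b32, b33, b34, b35, b36, b37, b38, b39, b40, b41, b42, b43, b44]
def cL : List ℕ := [2747724619959, 2588173032831, 2645973089892, 2630286176874, 2639628147109, 2637450643551, 2639597102716, 2639352896821, 2639965828676, 2639999473024, 2640204428932, 2640253977165, 2640330126830, 2640363432934, 2640392140656, 2640413335960, 2640420536883, 2640437389008, 2640429074448, 2640450838616, 2640414955416, 2640486215345, 2640486215338, 2640414955453, 2640450838582, 2640429074455, 2640437389008, 2640420536886, 2640413335960, 2640392140658, 2640363432933, 2640330126831, 2640253977165, 2640204428933, 2639999473024, 2639965828676, 2639352896822, 2639597102716, 2637450643551, 2639628147108, 2630286176874, 2645973089890, 2588173032831, 2747724619957]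
def site (k : ℕ) : SD := siteL.getD k s22
def bnd (k : ℕ) : BD := bondL.getD k b22
def cE (k : ℕ) : ℕ := cL.getD k 0
def cB : ℕ := 2640456852743
def lbI (k : ℕ) : ℕ := if k ≤ 22 then k else k - 1
def rbI (k : ℕ) : ℕ := if k < 22 then k + 1 else k

theorem site_0 : site 0 = s0 := rfl
theorem bnd_0 : bnd 0 = b0 := rfl
theorem site_1 : site 1 = s1 := rfl
theorem bnd_1 : bnd 1 = b1 := rfl
theorem site_2 : site 2 = s2 := rfl
theorem bnd_2 : bnd 2 = b2 := rfl
theorem site_3 : site 3 = s3 := rfl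
theorem bnd_3 : bnd 3 = b3 := rfl
theorem site_4 : site 4 = s4 := rfl
theorem bnd_4 : bnd 4 = b4 := rfl
theorem site_5 : site 5 = s5 := rfl
theorem bnd_5 : bnd 5 = b5 := rfl
theorem site_6 : site 6 = s6 := rfl
theorem bnd_6 : bnd 6 = b6 := rfl
theorem site_7 : site 7 = s7 := rfl
theorem bnd_7 : bnd 7 = b7 := rfl
theorem site_8 : site 8 = s8 := rfl
theorem bnd_8 : bnd 8 = b8 := rfl
theorem site_9 : site 9 = s9 := rfl
theorem bnd_9 : bnd 9 = b9 := rfl
theorem site_10 : site 10 = s10 := rfl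
theorem bnd_10 : bnd 10 = b10 := rfl
theorem site_11 : site 11 = s11 := rfl
theorem bnd_11 : bnd 11 = b11 := rfl
theorem site_12 : site 12 = s12 := rfl
theorem bnd_12 : bnd 12 = b12 := rfl
theorem site_13 : site 13 = s13 := rfl
theorem bnd_13 : bnd 13 = b13 := rfl
theorem site_14 : site 14 = s14 := rfl
theorem bnd_14 : bnd 14 = b14 := rfl
theorem site_15 : site 15 = s15 := rfl
theorem bnd_15 : bnd 15 = b15 := rfl
theorem site_16 : site 16 = s16 := rfl
theorem bnd_16 : bnd 16 = b16 := rfl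
theorem site_17 : site 17 = s17 := rfl
theorem bnd_17 : bnd 17 = b17 := rfl
theorem site_18 : site 18 = s18 := rfl
theorem bnd_18 : bnd 18 = b18 := rfl
theorem site_19 : site 19 = s19 := rfl
theorem bnd_19 : bnd 19 = b19 := rfl
theorem site_20 : site 20 = s20 := rfl
theorem bnd_20 : bnd 20 = b20 := rfl
theorem site_21 : site 21 = s21 := rfl
theorem bnd_21 : bnd 21 = b21 := rfl
theorem site_22 : site 22 = s22 := rfl
theorem bnd_22 : bnd 22 = b22 := rfl
theorem site_23 : site 23 = s23 := rfl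
theorem bnd_23 : bnd 23 = b23 := rfl
theorem site_24 : site 24 = s24 := rfl
theorem bnd_24 : bnd 24 = b24 := rfl
theorem site_25 : site 25 = s25 := rfl
theorem bnd_25 : bnd 25 = b25 := rfl
theorem site_26 : site 26 = s26 := rfl
theorem bnd_26 : bnd 26 = b26 := rfl
theorem site_27 : site 27 = s27 := rfl
theorem bnd_27 : bnd 27 = b27 := rfl
theorem site_28 : site 28 = s28 := rfl
theorem bnd_28 : bnd 28 = b28 := rfl
theorem site_29 : site 29 = s29 := rfl
theorem bnd_29 : bnd 29 = b29 := rfl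
theorem site_30 : site 30 = s30 := rfl
theorem bnd_30 : bnd 30 = b30 := rfl
theorem site_31 : site 31 = s31 := rfl
theorem bnd_31 : bnd 31 = b31 := rfl
theorem site_32 : site 32 = s32 := rfl
theorem bnd_32 : bnd 32 = b32 := rfl
theorem site_33 : site 33 = s33 := rfl
theorem bnd_33 : bnd 33 = b33 := rfl
theorem site_34 : site 34 = s34 := rfl
theorem bnd_34 : bnd 34 = b34 := rfl
theorem site_35 : site 35 = s35 := rfl
theorem bnd_35 : bnd 35 = b35 := rfl
theorem site_36 : site 36 = s36 := rfl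
theorem bnd_36 : bnd 36 = b36 := rfl
theorem site_37 : site 37 = s37 := rfl
theorem bnd_37 : bnd 37 = b37 := rfl
theorem site_38 : site 38 = s38 := rfl
theorem bnd_38 : bnd 38 = b38 := rfl
theorem site_39 : site 39 = s39 := rfl
theorem bnd_39 : bnd 39 = b39 := rfl
theorem site_40 : site 40 = s40 := rfl
theorem bnd_40 : bnd 40 = b40 := rfl
theorem site_41 : site 41 = s41 := rfl
theorem bnd_41 : bnd 41 = b41 := rfl
theorem site_42 : site 42 = s42 := rfl
theorem bnd_42 : bnd 42 = b42 := rfl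
theorem site_43 : site 43 = s43 := rfl
theorem bnd_43 : bnd 43 = b43 := rfl
theorem site_44 : site 44 = s44 := rfl
theorem bnd_44 : bnd 44 = b44 := rfl
theorem cE_0 : cE 0 = 2747724619959 := rfl
theorem cE_1 : cE 1 = 2588173032831 := rfl
theorem cE_2 : cE 2 = 2645973089892 := rfl
theorem cE_3 : cE 3 = 2630286176874 := rfl
theorem cE_4 : cE 4 = 2639628147109 := rfl
theorem cE_5 : cE 5 = 2637450643551 := rfl
theorem cE_6 : cE 6 = 2639597102716 := rfl
theorem cE_7 : cE 7 = 2639352896821 := rfl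
theorem cE_8 : cE 8 = 2639965828676 := rfl
theorem cE_9 : cE 9 = 2639999473024 := rfl
theorem cE_10 : cE 10 = 2640204428932 := rfl
theorem cE_11 : cE 11 = 2640253977165 := rfl
theorem cE_12 : cE 12 = 2640330126830 := rfl
theorem cE_13 : cE 13 = 2640363432934 := rfl
theorem cE_14 : cE 14 = 2640392140656 := rfl
theorem cE_15 : cE 15 = 2640413335960 := rfl
theorem cE_16 : cE 16 = 2640420536883 := rfl
theorem cE_17 : cE 17 = 2640437389008 := rfl
theorem cE_18 : cE 18 = 2640429074448 := rfl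
theorem cE_19 : cE 19 = 2640450838616 := rfl
theorem cE_20 : cE 20 = 2640414955416 := rfl
theorem cE_21 : cE 21 = 2640486215345 := rfl
theorem cE_22 : cE 22 = 2640486215338 := rfl
theorem cE_23 : cE 23 = 2640414955453 := rfl
theorem cE_24 : cE 24 = 2640450838582 := rfl
theorem cE_25 : cE 25 = 2640429074455 := rfl
theorem cE_26 : cE 26 = 2640437389008 := rfl
theorem cE_27 : cE 27 = 2640420536886 := rfl
theorem cE_28 : cE 28 = 2640413335960 := rfl
theorem cE_29 : cE 29 = 2640392140658 := rfl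
theorem cE_30 : cE 30 = 2640363432933 := rfl
theorem cE_31 : cE 31 = 2640330126831 := rfl
theorem cE_32 : cE 32 = 2640253977165 := rfl
theorem cE_33 : cE 33 = 2640204428933 := rfl
theorem cE_34 : cE 34 = 2639999473024 := rfl
theorem cE_35 : cE 35 = 2639965828676 := rfl
theorem cE_36 : cE 36 = 2639352896822 := rfl
theorem cE_37 : cE 37 = 2639597102716 := rfl
theorem cE_38 : cE 38 = 2637450643551 := rfl
theorem cE_39 : cE 39 = 2639628147108 := rfl
theorem cE_40 : cE 40 = 2630286176874 := rfl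
theorem cE_41 : cE 41 = 2645973089890 := rfl
theorem cE_42 : cE 42 = 2588173032831 := rfl
theorem cE_43 : cE 43 = 2747724619957 := rfl

theorem good (k : ℕ) (hk : k < 45) : Good (site k) (bnd (lbI k)) (bnd (rbI k)) := by
  interval_cases k
  · rw [site_0, show lbI 0 = 0 from rfl, show rbI 0 = 1 from rfl, bnd_0, bnd_1]; exact g0
  · rw [site_1, show lbI 1 = 1 from rfl, show rbI 1 = 2 from rfl, bnd_1, bnd_2]; exact g1
  · rw [site_2, show lbI 2 = 2 from rfl, show rbI 2 = 3 from rfl, bnd_2, bnd_3]; exact g2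
  · rw [site_3, show lbI 3 = 3 from rfl, show rbI 3 = 4 from rfl, bnd_3, bnd_4]; exact g3
  · rw [site_4, show lbI 4 = 4 from rfl, show rbI 4 = 5 from rfl, bnd_4, bnd_5]; exact g4
  · rw [site_5, show lbI 5 = 5 from rfl, show rbI 5 = 6 from rfl, bnd_5, bnd_6]; exact g5
  · rw [site_6, show lbI 6 = 6 from rfl, show rbI 6 = 7 from rfl, bnd_6, bnd_7]; exact g6
  · rw [site_7, show lbI 7 = 7 from rfl, show rbI 7 = 8 from rfl, bnd_7, bnd_8]; exact g7
  · rw [site_8, show lbI 8 = 8 from rfl, show rbI 8 = 9 from rfl, bnd_8, bnd_9]; exact g8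
  · rw [site_9, show lbI 9 = 9 from rfl, show rbI 9 = 10 from rfl, bnd_9, bnd_10]; exact g9
  · rw [site_10, show lbI 10 = 10 from rfl, show rbI 10 = 11 from rfl, bnd_10, bnd_11]; exact g10
  · rw [site_11, show lbI 11 = 11 from rfl, show rbI 11 = 12 from rfl, bnd_11, bnd_12]; exact g11
  · rw [site_12, show lbI 12 = 12 from rfl, show rbI 12 = 13 from rfl, bnd_12, bnd_13]; exact g12
  · rw [site_13, show lbI 13 = 13 from rfl, show rbI 13 = 14 from rfl, bnd_13, bnd_14]; exact g13
  · rw [site_14, show lbI 14 = 14 from rfl, show rbI 14 = 15 from rfl, bnd_14, bnd_15]; exact g14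
  · rw [site_15, show lbI 15 = 15 from rfl, show rbI 15 = 16 from rfl, bnd_15, bnd_16]; exact g15
  · rw [site_16, show lbI 16 = 16 from rfl, show rbI 16 = 17 from rfl, bnd_16, bnd_17]; exact g16
  · rw [site_17, show lbI 17 = 17 from rfl, show rbI 17 = 18 from rfl, bnd_17, bnd_18]; exact g17
  · rw [site_18, show lbI 18 = 18 from rfl, show rbI 18 = 19 from rfl, bnd_18, bnd_19]; exact g18
  · rw [site_19, show lbI 19 = 19 from rfl, show rbI 19 = 20 from rfl, bnd_19, bnd_20]; exact g19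
  · rw [site_20, show lbI 20 = 20 from rfl, show rbI 20 = 21 from rfl, bnd_20, bnd_21]; exact g20
  · rw [site_21, show lbI 21 = 21 from rfl, show rbI 21 = 22 from rfl, bnd_21, bnd_22]; exact g21
  · rw [site_22, show lbI 22 = 22 from rfl, show rbI 22 = 22 from rfl, bnd_22]; exact g22
  · rw [site_23, show lbI 23 = 22 from rfl, show rbI 23 = 23 from rfl, bnd_22, bnd_23]; exact g23
  · rw [site_24, show lbI 24 = 23 from rfl, show rbI 24 = 24 from rfl, bnd_23, bnd_24]; exact g24
  · rw [site_25, show lbI 25 = 24 from rfl, show rbI 25 = 25 from rfl, bnd_24, bnd_25]; exact g25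
  · rw [site_26, show lbI 26 = 25 from rfl, show rbI 26 = 26 from rfl, bnd_25, bnd_26]; exact g26
  · rw [site_27, show lbI 27 = 26 from rfl, show rbI 27 = 27 from rfl, bnd_26, bnd_27]; exact g27
  · rw [site_28, show lbI 28 = 27 from rfl, show rbI 28 = 28 from rfl, bnd_27, bnd_28]; exact g28
  · rw [site_29, show lbI 29 = 28 from rfl, show rbI 29 = 29 from rfl, bnd_28, bnd_29]; exact g29
  · rw [site_30, show lbI 30 = 29 from rfl, show rbI 30 = 30 from rfl, bnd_29, bnd_30]; exact g30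
  · rw [site_31, show lbI 31 = 30 from rfl, show rbI 31 = 31 from rfl, bnd_30, bnd_31]; exact g31
  · rw [site_32, show lbI 32 = 31 from rfl, show rbI 32 = 32 from rfl, bnd_31, bnd_32]; exact g32
  · rw [site_33, show lbI 33 = 32 from rfl, show rbI 33 = 33 from rfl, bnd_32, bnd_33]; exact g33
  · rw [site_34, show lbI 34 = 33 from rfl, show rbI 34 = 34 from rfl, bnd_33, bnd_34]; exact g34
  · rw [site_35, show lbI 35 = 34 from rfl, show rbI 35 = 35 from rfl, bnd_34, bnd_35]; exact g35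
  · rw [site_36, show lbI 36 = 35 from rfl, show rbI 36 = 36 from rfl, bnd_35, bnd_36]; exact g36
  · rw [site_37, show lbI 37 = 36 from rfl, show rbI 37 = 37 from rfl, bnd_36, bnd_37]; exact g37
  · rw [site_38, show lbI 38 = 37 from rfl, show rbI 38 = 38 from rfl, bnd_37, bnd_38]; exact g38
  · rw [site_39, show lbI 39 = 38 from rfl, show rbI 39 = 39 from rfl, bnd_38, bnd_39]; exact g39
  · rw [site_40, show lbI 40 = 39 from rfl, show rbI 40 = 40 from rfl, bnd_39, bnd_40]; exact g40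
  · rw [site_41, show lbI 41 = 40 from rfl, show rbI 41 = 41 from rfl, bnd_40, bnd_41]; exact g41
  · rw [site_42, show lbI 42 = 41 from rfl, show rbI 42 = 42 from rfl, bnd_41, bnd_42]; exact g42
  · rw [site_43, show lbI 43 = 42 from rfl, show rbI 43 = 43 from rfl, bnd_42, bnd_43]; exact g43
  · rw [site_44, show lbI 44 = 43 from rfl, show rbI 44 = 44 from rfl, bnd_43, bnd_44]; exact g44

/-- two-site energy -/
def FE (k k' : ℕ) : ℝ := trace (diagonal (rv (bnd (rbI k'))) *
  TW (ten (site k)) (ten (site k')) (diagonal (lv (bnd (lbI k)))))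

theorem FE_bulk : (cB : ℝ) * 2 ^ 60 ≤ FE 22 22 := by
  have h := en_real g22.hd g22.h24 g22.h24 g22.h24' enb
  unfold FE
  rw [show lbI 22 = 22 from rfl, show rbI 22 = 22 from rfl, bnd_22, site_22]
  exact h

theorem FE_le (k : ℕ) (hk : k < 44) : (cE k : ℝ) * 2 ^ 60 ≤ FE k (k + 1) := by
  interval_cases k
  · have h := en_real g0.hd g0.h24 g1.h24 g1.h24' en0
    unfold FE
    rw [cE_0, show lbI 0 = 0 from rfl, show rbI (0 + 1) = 2 from rfl, bnd_0, bnd_2, site_0, show 0 + 1 = 1 from rfl, site_1]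
    exact h
  · have h := en_real g1.hd g1.h24 g2.h24 g2.h24' en1
    unfold FE
    rw [cE_1, show lbI 1 = 1 from rfl, show rbI (1 + 1) = 3 from rfl, bnd_1, bnd_3, site_1, show 1 + 1 = 2 from rfl, site_2]
    exact h
  · have h := en_real g2.hd g2.h24 g3.h24 g3.h24' en2
    unfold FE
    rw [cE_2, show lbI 2 = 2 from rfl, show rbI (2 + 1) = 4 from rfl, bnd_2, bnd_4, site_2, show 2 + 1 = 3 from rfl, site_3]
    exact h
  · have h := en_real g3.hd g3.h24 g4.h24 g4.h24' en3
    unfold FE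
    rw [cE_3, show lbI 3 = 3 from rfl, show rbI (3 + 1) = 5 from rfl, bnd_3, bnd_5, site_3, show 3 + 1 = 4 from rfl, site_4]
    exact h
  · have h := en_real g4.hd g4.h24 g5.h24 g5.h24' en4
    unfold FE
    rw [cE_4, show lbI 4 = 4 from rfl, show rbI (4 + 1) = 6 from rfl, bnd_4, bnd_6, site_4, show 4 + 1 = 5 from rfl, site_5]
    exact h
  · have h := en_real g5.hd g5.h24 g6.h24 g6.h24' en5
    unfold FE
    rw [cE_5, show lbI 5 = 5 from rfl, show rbI (5 + 1) = 7 from rfl, bnd_5, bnd_7, site_5, show 5 + 1 = 6 from rfl, site_6]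
    exact h
  · have h := en_real g6.hd g6.h24 g7.h24 g7.h24' en6
    unfold FE
    rw [cE_6, show lbI 6 = 6 from rfl, show rbI (6 + 1) = 8 from rfl, bnd_6, bnd_8, site_6, show 6 + 1 = 7 from rfl, site_7]
    exact h
  · have h := en_real g7.hd g7.h24 g8.h24 g8.h24' en7
    unfold FE
    rw [cE_7, show lbI 7 = 7 from rfl, show rbI (7 + 1) = 9 from rfl, bnd_7, bnd_9, site_7, show 7 + 1 = 8 from rfl, site_8]
    exact h
  · have h := en_real g8.hd g8.h24 g9.h24 g9.h24' en8
    unfold FE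
    rw [cE_8, show lbI 8 = 8 from rfl, show rbI (8 + 1) = 10 from rfl, bnd_8, bnd_10, site_8, show 8 + 1 = 9 from rfl, site_9]
    exact h
  · have h := en_real g9.hd g9.h24 g10.h24 g10.h24' en9
    unfold FE
    rw [cE_9, show lbI 9 = 9 from rfl, show rbI (9 + 1) = 11 from rfl, bnd_9, bnd_11, site_9, show 9 + 1 = 10 from rfl, site_10]
    exact h
  · have h := en_real g10.hd g10.h24 g11.h24 g11.h24' en10
    unfold FE
    rw [cE_10, show lbI 10 = 10 from rfl, show rbI (10 + 1) = 12 from rfl, bnd_10, bnd_12, site_10, show 10 + 1 = 11 from rfl, site_11]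
    exact h
  · have h := en_real g11.hd g11.h24 g12.h24 g12.h24' en11
    unfold FE
    rw [cE_11, show lbI 11 = 11 from rfl, show rbI (11 + 1) = 13 from rfl, bnd_11, bnd_13, site_11, show 11 + 1 = 12 from rfl, site_12]
    exact h
  · have h := en_real g12.hd g12.h24 g13.h24 g13.h24' en12
    unfold FE
    rw [cE_12, show lbI 12 = 12 from rfl, show rbI (12 + 1) = 14 from rfl, bnd_12, bnd_14, site_12, show 12 + 1 = 13 from rfl, site_13]
    exact h
  · have h := en_real g13.hd g13.h24 g14.h24 g14.h24' en13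
    unfold FE
    rw [cE_13, show lbI 13 = 13 from rfl, show rbI (13 + 1) = 15 from rfl, bnd_13, bnd_15, site_13, show 13 + 1 = 14 from rfl, site_14]
    exact h
  · have h := en_real g14.hd g14.h24 g15.h24 g15.h24' en14
    unfold FE
    rw [cE_14, show lbI 14 = 14 from rfl, show rbI (14 + 1) = 16 from rfl, bnd_14, bnd_16, site_14, show 14 + 1 = 15 from rfl, site_15]
    exact h
  · have h := en_real g15.hd g15.h24 g16.h24 g16.h24' en15
    unfold FE
    rw [cE_15, show lbI 15 = 15 from rfl, show rbI (15 + 1) = 17 from rfl, bnd_15, bnd_17, site_15, show 15 + 1 = 16 from rfl, site_16]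
    exact h
  · have h := en_real g16.hd g16.h24 g17.h24 g17.h24' en16
    unfold FE
    rw [cE_16, show lbI 16 = 16 from rfl, show rbI (16 + 1) = 18 from rfl, bnd_16, bnd_18, site_16, show 16 + 1 = 17 from rfl, site_17]
    exact h
  · have h := en_real g17.hd g17.h24 g18.h24 g18.h24' en17
    unfold FE
    rw [cE_17, show lbI 17 = 17 from rfl, show rbI (17 + 1) = 19 from rfl, bnd_17, bnd_19, site_17, show 17 + 1 = 18 from rfl, site_18]
    exact h
  · have h := en_real g18.hd g18.h24 g19.h24 g19.h24' en18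
    unfold FE
    rw [cE_18, show lbI 18 = 18 from rfl, show rbI (18 + 1) = 20 from rfl, bnd_18, bnd_20, site_18, show 18 + 1 = 19 from rfl, site_19]
    exact h
  · have h := en_real g19.hd g19.h24 g20.h24 g20.h24' en19
    unfold FE
    rw [cE_19, show lbI 19 = 19 from rfl, show rbI (19 + 1) = 21 from rfl, bnd_19, bnd_21, site_19, show 19 + 1 = 20 from rfl, site_20]
    exact h
  · have h := en_real g20.hd g20.h24 g21.h24 g21.h24' en20
    unfold FE
    rw [cE_20, show lbI 20 = 20 from rfl, show rbI (20 + 1) = 22 from rfl, bnd_20, bnd_22, site_20, show 20 + 1 = 21 from rfl, site_21]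
    exact h
  · have h := en_real g21.hd g21.h24 g22.h24 g22.h24' en21
    unfold FE
    rw [cE_21, show lbI 21 = 21 from rfl, show rbI (21 + 1) = 22 from rfl, bnd_21, bnd_22, site_21, show 21 + 1 = 22 from rfl, site_22]
    exact h
  · have h := en_real g22.hd g22.h24 g23.h24 g23.h24' en22
    unfold FE
    rw [cE_22, show lbI 22 = 22 from rfl, show rbI (22 + 1) = 23 from rfl, bnd_22, bnd_23, site_22, show 22 + 1 = 23 from rfl, site_23]
    exact h
  · have h := en_real g23.hd g23.h24 g24.h24 g24.h24' en23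
    unfold FE
    rw [cE_23, show lbI 23 = 22 from rfl, show rbI (23 + 1) = 24 from rfl, bnd_22, bnd_24, site_23, show 23 + 1 = 24 from rfl, site_24]
    exact h
  · have h := en_real g24.hd g24.h24 g25.h24 g25.h24' en24
    unfold FE
    rw [cE_24, show lbI 24 = 23 from rfl, show rbI (24 + 1) = 25 from rfl, bnd_23, bnd_25, site_24, show 24 + 1 = 25 from rfl, site_25]
    exact h
  · have h := en_real g25.hd g25.h24 g26.h24 g26.h24' en25
    unfold FE
    rw [cE_25, show lbI 25 = 24 from rfl, show rbI (25 + 1) = 26 from rfl, bnd_24, bnd_26, site_25, show 25 + 1 = 26 from rfl, site_26]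
    exact h
  · have h := en_real g26.hd g26.h24 g27.h24 g27.h24' en26
    unfold FE
    rw [cE_26, show lbI 26 = 25 from rfl, show rbI (26 + 1) = 27 from rfl, bnd_25, bnd_27, site_26, show 26 + 1 = 27 from rfl, site_27]
    exact h
  · have h := en_real g27.hd g27.h24 g28.h24 g28.h24' en27
    unfold FE
    rw [cE_27, show lbI 27 = 26 from rfl, show rbI (27 + 1) = 28 from rfl, bnd_26, bnd_28, site_27, show 27 + 1 = 28 from rfl, site_28]
    exact h
  · have h := en_real g28.hd g28.h24 g29.h24 g29.h24' en28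
    unfold FE
    rw [cE_28, show lbI 28 = 27 from rfl, show rbI (28 + 1) = 29 from rfl, bnd_27, bnd_29, site_28, show 28 + 1 = 29 from rfl, site_29]
    exact h
  · have h := en_real g29.hd g29.h24 g30.h24 g30.h24' en29
    unfold FE
    rw [cE_29, show lbI 29 = 28 from rfl, show rbI (29 + 1) = 30 from rfl, bnd_28, bnd_30, site_29, show 29 + 1 = 30 from rfl, site_30]
    exact h
  · have h := en_real g30.hd g30.h24 g31.h24 g31.h24' en30
    unfold FE
    rw [cE_30, show lbI 30 = 29 from rfl, show rbI (30 + 1) = 31 from rfl, bnd_29, bnd_31, site_30, show 30 + 1 = 31 from rfl, site_31]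
    exact h
  · have h := en_real g31.hd g31.h24 g32.h24 g32.h24' en31
    unfold FE
    rw [cE_31, show lbI 31 = 30 from rfl, show rbI (31 + 1) = 32 from rfl, bnd_30, bnd_32, site_31, show 31 + 1 = 32 from rfl, site_32]
    exact h
  · have h := en_real g32.hd g32.h24 g33.h24 g33.h24' en32
    unfold FE
    rw [cE_32, show lbI 32 = 31 from rfl, show rbI (32 + 1) = 33 from rfl, bnd_31, bnd_33, site_32, show 32 + 1 = 33 from rfl, site_33]
    exact h
  · have h := en_real g33.hd g33.h24 g34.h24 g34.h24' en33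
    unfold FE
    rw [cE_33, show lbI 33 = 32 from rfl, show rbI (33 + 1) = 34 from rfl, bnd_32, bnd_34, site_33, show 33 + 1 = 34 from rfl, site_34]
    exact h
  · have h := en_real g34.hd g34.h24 g35.h24 g35.h24' en34
    unfold FE
    rw [cE_34, show lbI 34 = 33 from rfl, show rbI (34 + 1) = 35 from rfl, bnd_33, bnd_35, site_34, show 34 + 1 = 35 from rfl, site_35]
    exact h
  · have h := en_real g35.hd g35.h24 g36.h24 g36.h24' en35
    unfold FE
    rw [cE_35, show lbI 35 = 34 from rfl, show rbI (35 + 1) = 36 from rfl, bnd_34, bnd_36, site_35, show 35 + 1 = 36 from rfl, site_36]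
    exact h
  · have h := en_real g36.hd g36.h24 g37.h24 g37.h24' en36
    unfold FE
    rw [cE_36, show lbI 36 = 35 from rfl, show rbI (36 + 1) = 37 from rfl, bnd_35, bnd_37, site_36, show 36 + 1 = 37 from rfl, site_37]
    exact h
  · have h := en_real g37.hd g37.h24 g38.h24 g38.h24' en37
    unfold FE
    rw [cE_37, show lbI 37 = 36 from rfl, show rbI (37 + 1) = 38 from rfl, bnd_36, bnd_38, site_37, show 37 + 1 = 38 from rfl, site_38]
    exact h
  · have h := en_real g38.hd g38.h24 g39.h24 g39.h24' en38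
    unfold FE
    rw [cE_38, show lbI 38 = 37 from rfl, show rbI (38 + 1) = 39 from rfl, bnd_37, bnd_39, site_38, show 38 + 1 = 39 from rfl, site_39]
    exact h
  · have h := en_real g39.hd g39.h24 g40.h24 g40.h24' en39
    unfold FE
    rw [cE_39, show lbI 39 = 38 from rfl, show rbI (39 + 1) = 40 from rfl, bnd_38, bnd_40, site_39, show 39 + 1 = 40 from rfl, site_40]
    exact h
  · have h := en_real g40.hd g40.h24 g41.h24 g41.h24' en40
    unfold FE
    rw [cE_40, show lbI 40 = 39 from rfl, show rbI (40 + 1) = 41 from rfl, bnd_39, bnd_41, site_40, show 40 + 1 = 41 from rfl, site_41]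
    exact h
  · have h := en_real g41.hd g41.h24 g42.h24 g42.h24' en41
    unfold FE
    rw [cE_41, show lbI 41 = 40 from rfl, show rbI (41 + 1) = 42 from rfl, bnd_40, bnd_42, site_41, show 41 + 1 = 42 from rfl, site_42]
    exact h
  · have h := en_real g42.hd g42.h24 g43.h24 g43.h24' en42
    unfold FE
    rw [cE_42, show lbI 42 = 41 from rfl, show rbI (42 + 1) = 43 from rfl, bnd_41, bnd_43, site_42, show 42 + 1 = 43 from rfl, site_43]
    exact h
  · have h := en_real g43.hd g43.h24 g44.h24 g44.h24' en43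
    unfold FE
    rw [cE_43, show lbI 43 = 42 from rfl, show rbI (43 + 1) = 44 from rfl, bnd_42, bnd_44, site_43, show 43 + 1 = 44 from rfl, site_44]
    exact h

/-- the site and bond types of a chain of `N` sites -/
def tau (N j : ℕ) : ℕ := if j < 22 then j else if j < N - 22 then 22 else j - (N - 45)
def bet (N j : ℕ) : ℕ := if j < 22 then j else if j ≤ N - 22 then 22 else j - (N - 44)

theorem tau_lt {N j : ℕ} (hN : 46 ≤ N) (hj : j < N) : tau N j < 45 := by
  unfold tau; split_ifs <;> omega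

theorem bet_eq {N j : ℕ} (hN : 46 ≤ N) (hj : j < N) : bet N j = lbI (tau N j) := by
  unfold bet lbI tau; split_ifs <;> omega

theorem bet_succ {N j : ℕ} (hN : 46 ≤ N) (hj : j < N) : bet N (j + 1) = rbI (tau N j) := by
  unfold bet rbI tau; split_ifs <;> omega

def Mq (N : ℕ) : ℕ → Ten 24 := fun j => ten (site (tau N j))
def lq (N : ℕ) : ℕ → Fin 24 → ℝ := fun j => lv (bnd (bet N j))
def rq (N : ℕ) : ℕ → Fin 24 → ℝ := fun j => rv (bnd (bet N j))

theorem chainq {N : ℕ} (hN : 46 ≤ N) : Chain N (Mq N) (lq N) (rq N) dl where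
  hl := fun _ _ => lvec_nonneg _ _ _
  hr := fun _ _ => lvec_nonneg _ _ _
  low := fun j hj => by
    have h := (good (tau N j) (tau_lt hN hj)).low
    rw [← bet_eq hN hj, ← bet_succ hN hj] at h
    exact h
  upp := fun j hj => by
    have h := (good (tau N j) (tau_lt hN hj)).upp
    rw [← bet_eq hN hj, ← bet_succ hN hj] at h
    exact h
  dual := fun j hj => by
    have h := (good (tau N j) (tau_lt hN hj)).dual
    rw [← bet_eq hN hj, ← bet_succ hN hj] at h
    exact h

/-- lower bounds of the bond energies -/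
def cc (N j : ℕ) : ℕ := if j < 22 then cE j else if j < N - 23 then cB else cE (j - (N - 45))

theorem cc_le {N j : ℕ} (hN : 46 ≤ N) (hj : j + 1 < N) :
    (cc N j : ℝ) * 2 ^ 60 ≤ trace (diagonal (rq N (j + 2)) *
      TW (Mq N j) (Mq N (j + 1)) (diagonal (lq N j))) := by
  have h : trace (diagonal (rq N (j + 2)) * TW (Mq N j) (Mq N (j + 1)) (diagonal (lq N j))) =
      FE (tau N j) (tau N (j + 1)) := by
    unfold FE rq lq Mq
    rw [bet_eq hN (by omega : j < N), show j + 2 = (j + 1) + 1 from rfl, bet_succ hN hj]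
  rw [h]
  unfold cc
  by_cases h1 : j < 22
  · rw [if_pos h1, show tau N j = j by unfold tau; rw [if_pos h1],
      show tau N (j + 1) = j + 1 by unfold tau; split_ifs <;> omega]
    exact FE_le j (by omega)
  · rw [if_neg h1]
    by_cases h2 : j < N - 23
    · rw [if_pos h2, show tau N j = 22 by unfold tau; split_ifs <;> omega,
        show tau N (j + 1) = 22 by unfold tau; split_ifs <;> omega]
      exact FE_bulk
    · rw [if_neg h2, show tau N j = j - (N - 45) by unfold tau; split_ifs <;> omega,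
        show tau N (j + 1) = (j - (N - 45)) + 1 by unfold tau; split_ifs <;> omega]
      exact FE_le _ (by omega)

theorem sum_cc_le {n : ℕ} (hN : 46 ≤ n + 1) :
    ((∑ j ∈ range n, cc (n + 1) j : ℕ) : ℝ) * 2 ^ 60 ≤ ∑ j ∈ range n,
      trace (diagonal (rq (n + 1) (j + 2)) *
        TW (Mq (n + 1) j) (Mq (n + 1) (j + 1)) (diagonal (lq (n + 1) j))) := by
  rw [Nat.cast_sum, Finset.sum_mul]
  apply Finset.sum_le_sum
  intro j hj
  exact cc_le hN (by rw [Finset.mem_range] at hj; omega)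

theorem sum104 : ∑ j ∈ range 103, cc 104 j = 272052449239134 := by decide +kernel
theorem sum132 : ∑ j ∈ range 131, cc 132 j = 345985241115938 := by decide +kernel

theorem diag0 : Nat.ble (sd 1943373948877)
    (diagE 2 1 0 s0.A0 s0.A1 s0.A2 b0.l b1.rl) = true := by decide +kernel
theorem diagN : Nat.ble (sd 1943373948871)
    (diagE 0 1 2 s44.A0 s44.A1 s44.A2 b43.l b44.rl) = true := by decide +kernel
theorem dot44 : dotLR b44 = 2 ^ 100 := by decide +kernel
theorem dot22 : dotLR b22 = 2 ^ 100 + 1 := by decide +kernel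

theorem delta_ok (N : ℕ) (A R e : ℝ) (he : 0 ≤ e) (hN : (N : ℝ) * dl ≤ 1)
    (h : A * R ≤ (1 - 2 * (N * dl)) * e) :
    A * ((1 + dl) ^ N * R) ≤ (1 - dl) ^ N * e := by
  have hd0 : (0 : ℝ) ≤ dl := by unfold dl; positivity
  have hd1 : dl ≤ 1 := by unfold dl; norm_num
  have h1 : 1 + ((2 * N : ℕ) : ℝ) * (-dl) ≤ (1 + (-dl)) ^ (2 * N) :=
    one_add_mul_le_pow (by linarith) _
  have h2 : (1 - 2 * (N * dl)) ≤ (1 - dl) ^ (2 * N) := by
    have : (1 : ℝ) + (-dl) = 1 - dl := by ring
    rw [this] at h1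
    push_cast at h1
    linarith
  have h3 : 0 ≤ (1 + dl) ^ N := by positivity
  have h4 : 0 ≤ (1 - dl) ^ N := pow_nonneg (by linarith) _
  have h5 : ((1 - dl) * (1 + dl)) ^ N ≤ 1 := by
    apply pow_le_one₀
    · exact mul_nonneg (by linarith) (by linarith)
    · nlinarith
  calc A * ((1 + dl) ^ N * R) = (1 + dl) ^ N * (A * R) := by ring
    _ ≤ (1 + dl) ^ N * ((1 - 2 * (N * dl)) * e) := mul_le_mul_of_nonneg_left h h3
    _ ≤ (1 + dl) ^ N * ((1 - dl) ^ (2 * N) * e) := by
        apply mul_le_mul_of_nonneg_left _ h3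
        exact mul_le_mul_of_nonneg_right h2 he
    _ = (1 - dl) ^ N * e * ((1 - dl) * (1 + dl)) ^ N := by
        rw [mul_pow, two_mul, pow_add]; ring
    _ ≤ (1 - dl) ^ N * e * 1 := mul_le_mul_of_nonneg_left h5 (mul_nonneg h4 he)
    _ = _ := mul_one _

theorem first_bound {n : ℕ} (hN : 46 ≤ n + 1) :
    (1943373948877 : ℝ) * 2 ^ 60 ≤ trace (diagonal (rq (n + 1) 1) *
      TO (Mq (n + 1) 0) (diagonal ![2, 1, 0]) (diagonal (lq (n + 1) 0))) := by
  have h := diagE_real (S := s0) (B := b0) (B2 := b1) (c := 1943373948877) (c0 := 2) (c1 := 1) (c2 := 0)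
    g0.hd g0.h24 g0.h24' diag0
  push_cast at h
  have e1 : rq (n + 1) 1 = rv b1 := rfl
  have e2 : Mq (n + 1) 0 = ten s0 := rfl
  have e3 : lq (n + 1) 0 = lv b0 := rfl
  rw [e1, e2, e3]
  exact h

theorem last_bound {n : ℕ} (hN : 46 ≤ n + 1) :
    (1943373948871 : ℝ) * 2 ^ 60 ≤ trace (diagonal (rq (n + 1) (n + 1)) *
      TO (Mq (n + 1) n) (diagonal ![0, 1, 2]) (diagonal (lq (n + 1) n))) := by
  have h := diagE_real (S := s44) (B := b43) (B2 := b44) (c := 1943373948871) (c0 := 0) (c1 := 1) (c2 := 2)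
    g44.hd g44.h24 g44.h24' diagN
  push_cast at h
  have e0 : bet (n + 1) (n + 1) = 44 := by unfold bet; split_ifs <;> omega
  have e0' : bet (n + 1) n = 43 := by unfold bet; split_ifs <;> omega
  have e0'' : tau (n + 1) n = 44 := by unfold tau; split_ifs <;> omega
  have e1 : rq (n + 1) (n + 1) = rv b44 := by unfold rq; rw [e0]; rfl
  have e2 : Mq (n + 1) n = ten s44 := by unfold Mq; rw [e0'']; rfl
  have e3 : lq (n + 1) n = lv b43 := by unfold lq; rw [e0']; rfl
  rw [e1, e2, e3]
  exact h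

theorem dot_last {n : ℕ} (hN : 46 ≤ n + 1) :
    ∑ a, lq (n + 1) (n + 1) a * rq (n + 1) (n + 1) a = 2 ^ 100 := by
  have e0 : bet (n + 1) (n + 1) = 44 := by unfold bet; split_ifs <;> omega
  have e1 : rq (n + 1) (n + 1) = rv b44 := by unfold rq; rw [e0]; rfl
  have e2 : lq (n + 1) (n + 1) = lv b44 := by unfold lq; rw [e0]; rfl
  rw [e1, e2, ← dotLR_real, dot44]
  norm_num

theorem trial_open_aux {n S : ℕ} (hN : 46 ≤ n + 1) (hn : n ≤ 1000)
    (hS : ∑ j ∈ range n, cc (n + 1) j = S) (E : ℝ) (hE0 : 0 ≤ n + 2 * (3 / 5 : ℝ) - E)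
    (hE : (n + 2 * (3 / 5 : ℝ) - E) * 2 ^ 40 ≤
      (1 - 1 / 10 ^ 11) * (S + 3 / 5 * (1943373948877 + 1943373948871 : ℝ))) :
    ∃ ψ : (Fin (n + 1) → Fin 3) → ℂ, ψ ≠ 0 ∧
      (star ψ ⬝ᵥ (openS (-1) n (3 / 5)).mulVec ψ).re ≤ E * (star ψ ⬝ᵥ ψ).re := by
  have hsum := sum_cc_le hN
  rw [hS] at hsum
  have hn' : (n : ℝ) ≤ 1000 := by exact_mod_cast hn
  have hS0 : (0 : ℝ) ≤ S := Nat.cast_nonneg _
  refine open_bound n (by omega) (chainq hN) (by unfold dl; positivity)
    (by unfold dl; norm_num) (by norm_num) (S * 2 ^ 60) (1943373948877 * 2 ^ 60) (1943373948871 * 2 ^ 60) hsum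
    (first_bound hN) (last_bound hN) ?_ hE0 ?_
  · rw [dot_last hN]; positivity
  · rw [dot_last hN]
    apply delta_ok
    · positivity
    · unfold dl; push_cast; nlinarith
    · have h1 : (n + 2 * (3 / 5 : ℝ) - E) * 2 ^ 100 ≤
          (1 - 1 / 10 ^ 11) * ((S + 3 / 5 * (1943373948877 + 1943373948871 : ℝ)) * 2 ^ 60) := by
        have := mul_le_mul_of_nonneg_right hE (by positivity : (0 : ℝ) ≤ 2 ^ 60)
        calc (n + 2 * (3 / 5 : ℝ) - E) * 2 ^ 100 = (n + 2 * (3 / 5 : ℝ) - E) * 2 ^ 40 * 2 ^ 60 := by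
              ring
          _ ≤ _ := this
          _ = _ := by ring
      refine h1.trans ?_
      have h2 : (1 - 1 / 10 ^ 11 : ℝ) ≤ 1 - 2 * (((n + 1 : ℕ) : ℝ) * dl) := by
        unfold dl
        push_cast
        nlinarith
      have h3 : (0 : ℝ) ≤ (S + 3 / 5 * (1943373948877 + 1943373948871 : ℝ)) * 2 ^ 60 := by positivity
      calc _ ≤ (1 - 2 * (((n + 1 : ℕ) : ℝ) * dl)) * ((S + 3 / 5 * (1943373948877 + 1943373948871 : ℝ)) * 2 ^ 60) :=
            mul_le_mul_of_nonneg_right h2 h3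
        _ = _ := by ring

theorem trialOpen104 : ∃ ψ : (Fin (104 - 1 + 1) → Fin 3) → ℂ, ψ ≠ 0 ∧
    (star ψ ⬝ᵥ (openS (-1) (104 - 1) (3 / 5)).mulVec ψ).re ≤
      ((104 : ℕ) * ev + fv) * (star ψ ⬝ᵥ ψ).re := by
  refine trial_open_aux (n := 103) (by norm_num) (by norm_num) sum104 _ ?_ ?_
  · unfold ev fv; norm_num
  · unfold ev fv; norm_num

theorem trialOpen132 : ∃ ψ : (Fin (132 - 1 + 1) → Fin 3) → ℂ, ψ ≠ 0 ∧
    (star ψ ⬝ᵥ (openS (-1) (132 - 1) (3 / 5)).mulVec ψ).re ≤
      ((132 : ℕ) * ev + fv) * (star ψ ⬝ᵥ ψ).re := by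
  refine trial_open_aux (n := 131) (by norm_num) (by norm_num) sum132 _ ?_ ?_
  · unfold ev fv; norm_num
  · unfold ev fv; norm_num

/-! ### the ring -/

theorem chain_bulk (N : ℕ) :
    Chain N (fun _ => ten s22) (fun _ => lv b22) (fun _ => rv b22) dl where
  hl := fun _ _ => lvec_nonneg _ _ _
  hr := fun _ _ => lvec_nonneg _ _ _
  low := fun _ _ => g22.low
  upp := fun _ _ => g22.upp
  dual := fun _ _ => g22.dual

theorem trialRing_aux (n : ℕ) (hn : n = 9999999) :
    ∃ ψ : (Fin (n + 1) → Fin 3) → ℂ, ψ ≠ 0 ∧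
      (star ψ ⬝ᵥ (ringH sOne (n + 1)).mulVec ψ).re ≤
        (((n + 1 : ℕ) : ℝ) * ev - 1 + 1) * (star ψ ⬝ᵥ ψ).re := by
  have hnR : (n : ℝ) = 9999999 := by rw [hn]; norm_num
  have hb : (2640456852743 : ℝ) * 2 ^ 60 ≤ trace (diagonal (rv b22) * TW (ten s22) (ten s22) (diagonal (lv b22))) :=
    en_real (c := 2640456852743) g22.hd g22.h24 g22.h24 g22.h24' enb
  have hdot : ∑ a, lv b22 a * rv b22 a = 2 ^ 100 + 1 := by
    rw [← dotLR_real, dot22]; norm_num
  refine ring_bound n (by omega) (chain_bulk (n + 1)) (by unfold dl; positivity)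
    (by unfold dl; norm_num) (n * (2640456852743 * 2 ^ 60)) ?_ ?_ ?_ ?_
  · rw [Finset.sum_const, Finset.card_range, nsmul_eq_mul]
    exact mul_le_mul_of_nonneg_left hb (Nat.cast_nonneg _)
  · rw [hdot]; positivity
  · push_cast; rw [hnR]; unfold ev; norm_num
  · rw [hdot]
    apply delta_ok
    · positivity
    · push_cast; rw [hnR]; unfold dl; norm_num
    · push_cast; rw [hnR]; unfold dl ev; norm_num

theorem trialRing : ∃ L' : ℕ, Even L' ∧ 1000000 ≤ L' ∧ ∃ ψ : (Fin L' → Fin 3) → ℂ, ψ ≠ 0 ∧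
    (star ψ ⬝ᵥ (ringH sOne L').mulVec ψ).re ≤ (L' * ev) * (star ψ ⬝ᵥ ψ).re := by
  obtain ⟨n, hn⟩ : ∃ n : ℕ, n = 9999999 := ⟨_, rfl⟩
  obtain ⟨ψ, h0, h1⟩ := trialRing_aux n hn
  refine ⟨n + 1, ⟨5000000, by omega⟩, by omega, ψ, h0, ?_⟩
  rw [sub_add_cancel] at h1
  exact h1

end

end Crest.Agent.HGD.Ker
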