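import Crest.Agent.HGD_KerE

/-!
# HGD, task HGD-KerC: soundness of the check `siteOK`

`psd_of_diagdom`: `xᵀ G x ≥ ∑_i G_ii x_i² - ∑_{i≠j} |G_ij| (x_i² + x_j²)/2 ≥ 0`.
`condL Δ s2 (gramRow b ..) b l'` says `(Δ-1) s2 l'_b + Δ ∑_b' |G_bb'| ≤ 2 Δ G_bb` and
`Δ ∑_b' |G_bb'| ≤ (Δ+1) s2 l'_b` for `G = ∑ s, (A s)ᵀ diag(l) (A s)` (`rget (gramRow b ..) b' = G b b'`
by `rget_axpyR`, `rget_combGo`, `colw_getD`); `condR` is the same for `∑ s, A s diag(r') (A s)ᵀ`.
-/

set_option autoImplicit false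

namespace Crest.Agent.HGD.Ker

open Matrix Finset

theorem psd_of_diagdom {D : ℕ} (G : RM D) (hG : Gᵀ = G)
    (h : ∀ i, ∑ j, |G i j| ≤ 2 * G i i) : G.PosSemidef := by
  have hGs : ∀ i j, G i j = G j i := fun i j => by
    conv_lhs => rw [← hG]
    rfl
  refine Matrix.PosSemidef.of_dotProduct_mulVec_nonneg ?_ ?_
  · show Gᴴ = G
    rw [Matrix.conjTranspose_eq_transpose_of_trivial]
    exact hG
  · intro x
    have hd : ∀ i, 0 ≤ G i i := by
      intro i
      have h1 : 0 ≤ ∑ j, |G i j| := Finset.sum_nonneg fun j _ => abs_nonneg _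
      linarith [h i]
    have hterm : ∀ i j, -(|G i j| * x i ^ 2 / 2) - (|G j i| * x j ^ 2 / 2) + (if i = j then 2 * G i i * x i ^ 2 else 0) ≤
        x i * (G i j * x j) := by
      intro i j
      by_cases hij : i = j
      · subst hij
        rw [if_pos rfl, abs_of_nonneg (hd i)]
        linarith
      · rw [if_neg hij, ← hGs i j]
        have h1 : |x i * (G i j * x j)| ≤ |G i j| * (x i ^ 2 / 2) + |G i j| * (x j ^ 2 / 2) := by
          have : |x i * (G i j * x j)| = |G i j| * (|x i| * |x j|) := by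
            rw [abs_mul, abs_mul]; ring
          rw [this, ← mul_add]
          apply mul_le_mul_of_nonneg_left _ (abs_nonneg _)
          nlinarith [sq_nonneg (|x i| - |x j|), sq_abs (x i), sq_abs (x j)]
        have h2 := neg_abs_le (x i * (G i j * x j))
        linarith
    have hsum : star x ⬝ᵥ (G *ᵥ x) = ∑ i, ∑ j, x i * (G i j * x j) := by
      simp only [dotProduct, Matrix.mulVec, Pi.star_apply, star_trivial, Finset.mul_sum]
    rw [hsum]
    have h1 : ∑ i, ∑ j, (-(|G i j| * x i ^ 2 / 2) - (|G j i| * x j ^ 2 / 2) + (if i = j then 2 * G i i * x i ^ 2 else 0)) ≤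
        ∑ i, ∑ j, x i * (G i j * x j) :=
      Finset.sum_le_sum fun i _ => Finset.sum_le_sum fun j _ => hterm i j
    refine le_trans ?_ h1
    have h2 : ∑ i, ∑ j, (-(|G i j| * x i ^ 2 / 2) - (|G j i| * x j ^ 2 / 2) + (if i = j then 2 * G i i * x i ^ 2 else 0)) =
        ∑ i, (2 * G i i - ∑ j, |G i j|) * x i ^ 2 := by
      simp only [Finset.sum_add_distrib, Finset.sum_sub_distrib, Finset.sum_neg_distrib]
      have e1 : ∑ i, ∑ j, |G j i| * x j ^ 2 / 2 = ∑ i, ∑ j, |G i j| * x i ^ 2 / 2 := Finset.sum_comm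
      have e2 : ∀ i, ∑ j, (if i = j then 2 * G i i * x i ^ 2 else 0) = 2 * G i i * x i ^ 2 := by
        intro i
        rw [Finset.sum_ite_eq]
        simp
      rw [e1, Finset.sum_congr rfl (fun i _ => e2 i), ← Finset.sum_neg_distrib, ← Finset.sum_sub_distrib,
        ← Finset.sum_add_distrib]
      apply Finset.sum_congr rfl
      intro i _
      have e3 : ∑ j, |G i j| * x i ^ 2 / 2 = (∑ j, |G i j|) * x i ^ 2 / 2 := by
        rw [Finset.sum_mul, Finset.sum_div]
      rw [e3]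
      ring
    rw [h2]
    apply Finset.sum_nonneg
    intro i _
    apply mul_nonneg _ (sq_nonneg _)
    linarith [h i]

private theorem kerC_low {D : ℕ} (H : RM D) (hH : Hᵀ = H) (c : Fin D → ℝ) (hc : ∀ b, 0 ≤ c b)
    (h : ∀ b, c b + ∑ b', |H b b'| ≤ 2 * H b b) : (H - diagonal c).PosSemidef := by
  apply psd_of_diagdom
  · rw [Matrix.transpose_sub, hH, Matrix.diagonal_transpose]
  · intro b
    have e1 : ∑ b', |(H - diagonal c) b b'| = |H b b - c b| + ∑ b' ∈ Finset.univ.erase b, |H b b'| := by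
      rw [← Finset.add_sum_erase Finset.univ _ (Finset.mem_univ b)]
      congr 1
      · rw [Matrix.sub_apply, Matrix.diagonal_apply_eq]
      · apply Finset.sum_congr rfl
        intro b' hb'
        rw [Matrix.sub_apply, Matrix.diagonal_apply_ne _ (Finset.ne_of_mem_erase hb').symm, sub_zero]
    have e2 : ∑ b', |H b b'| = |H b b| + ∑ b' ∈ Finset.univ.erase b, |H b b'| :=
      (Finset.add_sum_erase Finset.univ (fun b' => |H b b'|) (Finset.mem_univ b)).symm
    have h0 := h b
    have hcb := hc b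
    rw [e1, Matrix.sub_apply, Matrix.diagonal_apply_eq]
    rw [e2] at h0
    have h3 : 0 ≤ ∑ b' ∈ Finset.univ.erase b, |H b b'| := Finset.sum_nonneg fun j _ => abs_nonneg _
    have h4 := abs_nonneg (H b b)
    have h5 := le_abs_self (H b b)
    have h6 : 0 ≤ H b b - c b := by linarith
    rw [abs_of_nonneg h6]
    linarith

private theorem kerC_upp {D : ℕ} (H : RM D) (hH : Hᵀ = H) (c : Fin D → ℝ)
    (h : ∀ b, ∑ b', |H b b'| ≤ c b) : (diagonal c - H).PosSemidef := by
  apply psd_of_diagdom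
  · rw [Matrix.transpose_sub, hH, Matrix.diagonal_transpose]
  · intro b
    have e1 : ∑ b', |(diagonal c - H) b b'| = |c b - H b b| + ∑ b' ∈ Finset.univ.erase b, |H b b'| := by
      rw [← Finset.add_sum_erase Finset.univ _ (Finset.mem_univ b)]
      congr 1
      · rw [Matrix.sub_apply, Matrix.diagonal_apply_eq]
      · apply Finset.sum_congr rfl
        intro b' hb'
        rw [Matrix.sub_apply, Matrix.diagonal_apply_ne _ (Finset.ne_of_mem_erase hb').symm, zero_sub, abs_neg]
    have e2 : ∑ b', |H b b'| = |H b b| + ∑ b' ∈ Finset.univ.erase b, |H b b'| :=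
      (Finset.add_sum_erase Finset.univ (fun b' => |H b b'|) (Finset.mem_univ b)).symm
    have h0 := h b
    rw [e1, Matrix.sub_apply, Matrix.diagonal_apply_eq]
    rw [e2] at h0
    have h3 : 0 ≤ ∑ b' ∈ Finset.univ.erase b, |H b b'| := Finset.sum_nonneg fun j _ => abs_nonneg _
    have h5 := le_abs_self (H b b)
    have h6 : 0 ≤ c b - H b b := by linarith
    rw [abs_of_nonneg h6]
    linarith

/-! ### the checks -/

private theorem kerC_allL {Δ s2 : ℕ} {A0 A1 A2 : List Row} {l l' : List ℕ} : ∀ n : ℕ,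
    allL Δ s2 A0 A1 A2 l l' n = true → ∀ b, b < n → condL Δ s2 (gramRow b A0 A1 A2 l) b l' = true := by
  intro n
  induction n with
  | zero => intro _ b hb; omega
  | succ n ih =>
    intro h b hb
    have e : allL Δ s2 A0 A1 A2 l l' (n + 1) =
      and (condL Δ s2 (gramRow n A0 A1 A2 l) n l') (allL Δ s2 A0 A1 A2 l l' n) := rfl
    rw [e, Bool.and_eq_true] at h
    rcases Nat.lt_succ_iff_lt_or_eq.mp hb with h1 | h1
    · exact ih h.2 b h1
    · rw [h1]; exact h.1

private theorem kerC_condL {Δ s2 : ℕ} {G : Row} {b : ℕ} {l' : List ℕ} (h : condL Δ s2 G b l' = true) :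
    (Δ - 1) * s2 * l'.getD b 0 + Δ * absSum G.2 ≤ 2 * Δ * Int.toNat (rget G b) ∧
    Δ * absSum G.2 ≤ (Δ + 1) * s2 * l'.getD b 0 := by
  have e : condL Δ s2 G b l' = and (Nat.ble ((Δ - 1) * s2 * nthN b l' + Δ * absSum G.2)
      (2 * Δ * Int.toNat (rgetK G b))) (Nat.ble (Δ * absSum G.2) ((Δ + 1) * s2 * nthN b l')) := rfl
  rw [e, Bool.and_eq_true] at h
  have h1 := Nat.le_of_ble_eq_true h.1
  have h2 := Nat.le_of_ble_eq_true h.2
  rw [nthN_eq, rgetK_eq] at h1
  rw [nthN_eq] at h2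
  exact ⟨h1, h2⟩

private theorem kerC_absSumR (x0 x1 x2 : Row) (r : List ℕ) : ∀ (A0 A1 A2 : List Row) (d : ℕ),
    A0.length = d → A1.length = d → A2.length = d →
    absSumR x0 x1 x2 r A0 A1 A2 = ∑ a ∈ range d, Int.natAbs (rdot x0 (A0.getD a (0, [])) r +
      (rdot x1 (A1.getD a (0, [])) r + rdot x2 (A2.getD a (0, [])) r)) := by
  intro A0
  induction A0 with
  | nil =>
    intro A1 A2 d h0 h1 h2
    have : d = 0 := by rw [← h0]; rfl
    subst this
    rfl
  | cons a0 A0 ih =>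
    intro A1 A2 d h0 h1 h2
    rw [List.length_cons] at h0
    obtain ⟨d', rfl⟩ : ∃ d', d = d' + 1 := ⟨A0.length, h0.symm⟩
    match A1, h1 with
    | a1 :: A1, h1 =>
      match A2, h2 with
      | a2 :: A2, h2 =>
        rw [List.length_cons] at h1 h2
        have e : absSumR x0 x1 x2 r (a0 :: A0) (a1 :: A1) (a2 :: A2) =
          Int.natAbs (iadd (rdot x0 a0 r) (iadd (rdot x1 a1 r) (rdot x2 a2 r))) + absSumR x0 x1 x2 r A0 A1 A2 := rfl
        rw [e, ih A1 A2 d' (by omega) (by omega) (by omega), Finset.sum_range_succ', add_comm, iadd_eq, iadd_eq]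
        rfl

private theorem kerC_allR {Δ s2 : ℕ} {A0 A1 A2 : List Row} {r' : List ℕ} : ∀ (X0 X1 X2 : List Row) (r : List ℕ) (d : ℕ),
    X0.length = d → X1.length = d → X2.length = d → r.length = d →
    allR Δ s2 r' A0 A1 A2 X0 X1 X2 r = true → ∀ a, a < d →
      condR Δ s2 (X0.getD a (0, [])) (X1.getD a (0, [])) (X2.getD a (0, [])) (r.getD a 0) r' A0 A1 A2 = true := by
  intro X0
  induction X0 with
  | nil =>
    intro X1 X2 r d h0 h1 h2 hr h a ha
    have : d = 0 := by rw [← h0]; rfl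
    omega
  | cons a0 X0 ih =>
    intro X1 X2 r d h0 h1 h2 hr h a ha
    rw [List.length_cons] at h0
    obtain ⟨d', rfl⟩ : ∃ d', d = d' + 1 := ⟨X0.length, h0.symm⟩
    match X1, h1, h with
    | a1 :: X1, h1, h =>
      match X2, h2, h with
      | a2 :: X2, h2, h =>
        match r, hr, h with
        | x :: r, hr, h =>
          rw [List.length_cons] at h1 h2 hr
          have e : allR Δ s2 r' A0 A1 A2 (a0 :: X0) (a1 :: X1) (a2 :: X2) (x :: r) =
            and (condR Δ s2 a0 a1 a2 x r' A0 A1 A2) (allR Δ s2 r' A0 A1 A2 X0 X1 X2 r) := rfl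
          rw [e, Bool.and_eq_true] at h
          cases a with
          | zero => exact h.1
          | succ a => exact ih X1 X2 r d' (by omega) (by omega) (by omega) (by omega) h.2 a (by omega)

private theorem kerC_G {D d : ℕ} (hd : d ≤ D) {A0 A1 A2 : List Row} {l : List ℕ}
    (h0 : A0.length = d) (h1 : A1.length = d) (h2 : A2.length = d) (hl : l.length = d) (b b' : Fin D) :
    T (iten D A0 A1 A2) (diagonal (lvec D l)) b b' = (rget (gramRow b A0 A1 A2 l) b' : ℝ) := by
  have hone : ∀ A : List Row, A.length = d → ((imat D A)ᵀ * diagonal (lvec D l) * imat D A) b b' =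
      (rget (combGo (colw b A l) A) b' : ℝ) := by
    intro A hA
    rw [rget_combGo _ _ _ D (by omega), Matrix.mul_apply]
    push_cast
    rw [Finset.sum_range]
    apply Finset.sum_congr rfl
    intro k _
    rw [Matrix.mul_diagonal, Matrix.transpose_apply, colw_getD b A l k (by omega)]
    push_cast
    have e1 : imat D A k b = (rget (A.getD k (0, [])) b : ℝ) := rfl
    have e2 : imat D A k b' = (rget (A.getD k (0, [])) b' : ℝ) := rfl
    have e3 : lvec D l k = (l.getD k 0 : ℝ) := rfl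
    rw [e1, e2, e3]
    ring
  unfold T gramRow
  rw [rget_axpyR, rget_axpyR, Fin.sum_univ_three, Matrix.add_apply, Matrix.add_apply]
  push_cast
  rw [← hone A0 h0, ← hone A1 h1, ← hone A2 h2]
  simp only [iten, Matrix.cons_val_zero, Matrix.cons_val_one, Matrix.cons_val]
  ring

private theorem kerC_T_symm {D : ℕ} (A : Ten D) (v : Fin D → ℝ) : (T A (diagonal v))ᵀ = T A (diagonal v) := by
  unfold T
  rw [Matrix.transpose_sum]
  apply Finset.sum_congr rfl
  intro s _
  rw [Matrix.transpose_mul, Matrix.transpose_mul, Matrix.transpose_transpose, Matrix.diagonal_transpose,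
    Matrix.mul_assoc]

private theorem kerC_T_diag_nonneg {D : ℕ} (A : Ten D) (v : Fin D → ℝ) (hv : ∀ a, 0 ≤ v a) (b : Fin D) :
    0 ≤ T A (diagonal v) b b := by
  unfold T
  rw [Matrix.sum_apply]
  apply Finset.sum_nonneg
  intro s _
  rw [Matrix.mul_apply]
  apply Finset.sum_nonneg
  intro k _
  rw [Matrix.mul_diagonal, Matrix.transpose_apply]
  have := hv k
  have h2 : A s k b * v k * A s k b = v k * (A s k b) ^ 2 := by ring
  rw [h2]
  positivity

private theorem kerC_absSum_real {D : ℕ} (x : Row) : ∑ b' : Fin D, |(rget x b' : ℝ)| ≤ (absSum x.2 : ℝ) := by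
  have h := absSum_le x D
  have h2 : ((∑ i ∈ range D, |rget x i| : ℤ) : ℝ) ≤ ((absSum x.2 : ℤ) : ℝ) := by exact_mod_cast h
  rw [Int.cast_natCast] at h2
  refine le_trans (le_of_eq ?_) h2
  push_cast
  rw [Finset.sum_range]

private theorem kerC_toNat {z : ℤ} (h : (0:ℝ) ≤ (z : ℝ)) : ((Int.toNat z : ℕ) : ℝ) = (z : ℝ) := by
  have h' : 0 ≤ z := by exact_mod_cast h
  have := Int.toNat_of_nonneg h'
  exact_mod_cast this

theorem siteOK_low {D d : ℕ} (hd : d ≤ D) {Δ s2 : ℕ} (hΔ : 1 ≤ Δ) {A0 A1 A2 : List Row}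
    {l r l' r' : List ℕ}
    (h0 : A0.length = d) (h1 : A1.length = d) (h2 : A2.length = d) (hl : l.length = d)
    (h : siteOK D Δ s2 A0 A1 A2 l r l' r' = true) :
    ((Δ : ℝ) • T (iten D A0 A1 A2) (diagonal (lvec D l)) -
      (((Δ : ℝ) - 1) * s2) • diagonal (lvec D l')).PosSemidef := by
  have hall : allL Δ s2 A0 A1 A2 l l' D = true := by
    have e : siteOK D Δ s2 A0 A1 A2 l r l' r' = and (allL Δ s2 A0 A1 A2 l l' D) (allR Δ s2 r' A0 A1 A2 A0 A1 A2 r) := rfl
    rw [e, Bool.and_eq_true] at h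
    exact h.1
  have hΔ' : (1:ℝ) ≤ (Δ:ℝ) := by exact_mod_cast hΔ
  have e0 : (((Δ : ℝ) - 1) * s2) • diagonal (lvec D l') = diagonal (fun b => (((Δ : ℝ) - 1) * s2) * lvec D l' b) := by
    rw [← Matrix.diagonal_smul]
    rfl
  rw [e0]
  apply kerC_low
  · rw [Matrix.transpose_smul, kerC_T_symm]
  · intro b
    have := lvec_nonneg D l' b
    have h3 : 0 ≤ (Δ:ℝ) - 1 := by linarith
    positivity
  · intro b
    have hb := (kerC_condL (kerC_allL D hall b b.2)).1
    have hdiag := kerC_T_diag_nonneg (iten D A0 A1 A2) (lvec D l) (lvec_nonneg D l) b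
    rw [kerC_G hd h0 h1 h2 hl b b] at hdiag
    have hb' : ((Δ:ℝ) - 1) * s2 * (l'.getD b 0 : ℝ) + Δ * (absSum (gramRow b A0 A1 A2 l).2 : ℝ) ≤
        2 * Δ * (rget (gramRow b A0 A1 A2 l) b : ℝ) := by
      rw [← kerC_toNat hdiag]
      have : (((Δ - 1) * s2 * l'.getD b 0 + Δ * absSum (gramRow b A0 A1 A2 l).2 : ℕ) : ℝ) ≤
        ((2 * Δ * Int.toNat (rget (gramRow b A0 A1 A2 l) b) : ℕ) : ℝ) := by exact_mod_cast hb
      push_cast [Nat.cast_sub hΔ] at this
      exact this
    have hsum : ∑ b', |((Δ : ℝ) • T (iten D A0 A1 A2) (diagonal (lvec D l))) b b'| ≤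
        Δ * (absSum (gramRow b A0 A1 A2 l).2 : ℝ) := by
      have e1 : ∀ b', |((Δ : ℝ) • T (iten D A0 A1 A2) (diagonal (lvec D l))) b b'| =
          Δ * |(rget (gramRow b A0 A1 A2 l) b' : ℝ)| := by
        intro b'
        rw [Matrix.smul_apply, smul_eq_mul, abs_mul, kerC_G hd h0 h1 h2 hl b b', abs_of_nonneg (by linarith : (0:ℝ) ≤ Δ)]
      rw [Finset.sum_congr rfl (fun b' _ => e1 b'), ← Finset.mul_sum]
      exact mul_le_mul_of_nonneg_left (kerC_absSum_real _) (by linarith)
    rw [Matrix.smul_apply, smul_eq_mul, kerC_G hd h0 h1 h2 hl b b]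
    have e2 : lvec D l' b = (l'.getD b 0 : ℝ) := rfl
    rw [e2]
    linarith

theorem siteOK_upp {D d : ℕ} (hd : d ≤ D) {Δ s2 : ℕ} (hΔ : 1 ≤ Δ) {A0 A1 A2 : List Row}
    {l r l' r' : List ℕ}
    (h0 : A0.length = d) (h1 : A1.length = d) (h2 : A2.length = d) (hl : l.length = d)
    (h : siteOK D Δ s2 A0 A1 A2 l r l' r' = true) :
    ((((Δ : ℝ) + 1) * s2) • diagonal (lvec D l') -
      (Δ : ℝ) • T (iten D A0 A1 A2) (diagonal (lvec D l))).PosSemidef := by
  have hall : allL Δ s2 A0 A1 A2 l l' D = true := by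
    have e : siteOK D Δ s2 A0 A1 A2 l r l' r' = and (allL Δ s2 A0 A1 A2 l l' D) (allR Δ s2 r' A0 A1 A2 A0 A1 A2 r) := rfl
    rw [e, Bool.and_eq_true] at h
    exact h.1
  have hΔ' : (1:ℝ) ≤ (Δ:ℝ) := by exact_mod_cast hΔ
  have e0 : ((((Δ : ℝ) + 1) * s2) • diagonal (lvec D l')) = diagonal (fun b => (((Δ : ℝ) + 1) * s2) * lvec D l' b) := by
    rw [← Matrix.diagonal_smul]
    rfl
  rw [e0]
  apply kerC_upp
  · rw [Matrix.transpose_smul, kerC_T_symm]
  · intro b
    have hb := (kerC_condL (kerC_allL D hall b b.2)).2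
    have hb' : (Δ:ℝ) * (absSum (gramRow b A0 A1 A2 l).2 : ℝ) ≤ ((Δ:ℝ) + 1) * s2 * (l'.getD b 0 : ℝ) := by
      exact_mod_cast hb
    have hsum : ∑ b', |((Δ : ℝ) • T (iten D A0 A1 A2) (diagonal (lvec D l))) b b'| ≤
        Δ * (absSum (gramRow b A0 A1 A2 l).2 : ℝ) := by
      have e1 : ∀ b', |((Δ : ℝ) • T (iten D A0 A1 A2) (diagonal (lvec D l))) b b'| =
          Δ * |(rget (gramRow b A0 A1 A2 l) b' : ℝ)| := by
        intro b'
        rw [Matrix.smul_apply, smul_eq_mul, abs_mul, kerC_G hd h0 h1 h2 hl b b', abs_of_nonneg (by linarith : (0:ℝ) ≤ Δ)]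
      rw [Finset.sum_congr rfl (fun b' _ => e1 b'), ← Finset.mul_sum]
      exact mul_le_mul_of_nonneg_left (kerC_absSum_real _) (by linarith)
    have e2 : lvec D l' b = (l'.getD b 0 : ℝ) := rfl
    rw [e2]
    linarith

theorem siteOK_dual {D d : ℕ} (hd : d ≤ D) {Δ s2 : ℕ} (hΔ : 1 ≤ Δ) {A0 A1 A2 : List Row}
    {l r l' r' : List ℕ}
    (h0 : A0.length = d) (h1 : A1.length = d) (h2 : A2.length = d) (hr : r.length = d)
    (hr' : r'.length ≤ D)
    (h : siteOK D Δ s2 A0 A1 A2 l r l' r' = true) :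
    ((Δ : ℝ) • Tdag (iten D A0 A1 A2) (diagonal (lvec D r')) -
      (((Δ : ℝ) - 1) * s2) • diagonal (lvec D r)).PosSemidef := by
  have hall : allR Δ s2 r' A0 A1 A2 A0 A1 A2 r = true := by
    have e : siteOK D Δ s2 A0 A1 A2 l r l' r' = and (allL Δ s2 A0 A1 A2 l l' D) (allR Δ s2 r' A0 A1 A2 A0 A1 A2 r) := rfl
    rw [e, Bool.and_eq_true] at h
    exact h.2
  have hΔ' : (1:ℝ) ≤ (Δ:ℝ) := by exact_mod_cast hΔ
  -- entries of the dual Gram matrix
  have hG : ∀ a a' : Fin D, Tdag (iten D A0 A1 A2) (diagonal (lvec D r')) a a' =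
      ((rdot (A0.getD a (0, [])) (A0.getD a' (0, [])) r' + (rdot (A1.getD a (0, [])) (A1.getD a' (0, [])) r' +
        rdot (A2.getD a (0, [])) (A2.getD a' (0, [])) r') : ℤ) : ℝ) := by
    intro a a'
    have hone : ∀ A : List Row, (imat D A * diagonal (lvec D r') * (imat D A)ᵀ) a a' =
        (rdot (A.getD a (0, [])) (A.getD a' (0, [])) r' : ℝ) := by
      intro A
      rw [rdot_eq _ _ _ D hr', Matrix.mul_apply]
      push_cast
      rw [Finset.sum_range]
      apply Finset.sum_congr rfl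
      intro k _
      rw [Matrix.mul_diagonal, Matrix.transpose_apply]
      have e1 : imat D A a k = (rget (A.getD a (0, [])) k : ℝ) := rfl
      have e2 : imat D A a' k = (rget (A.getD a' (0, [])) k : ℝ) := rfl
      have e3 : lvec D r' k = (r'.getD k 0 : ℝ) := rfl
      rw [e1, e2, e3]
      ring
    unfold Tdag
    rw [Fin.sum_univ_three, Matrix.add_apply, Matrix.add_apply]
    push_cast
    rw [← hone A0, ← hone A1, ← hone A2]
    simp only [iten, Matrix.cons_val_zero, Matrix.cons_val_one, Matrix.cons_val]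
    ring
  have hsymm : (Tdag (iten D A0 A1 A2) (diagonal (lvec D r')))ᵀ = Tdag (iten D A0 A1 A2) (diagonal (lvec D r')) := by
    unfold Tdag
    rw [Matrix.transpose_sum]
    apply Finset.sum_congr rfl
    intro s _
    rw [Matrix.transpose_mul, Matrix.transpose_mul, Matrix.transpose_transpose, Matrix.diagonal_transpose,
      Matrix.mul_assoc]
  have hdiag : ∀ a, 0 ≤ Tdag (iten D A0 A1 A2) (diagonal (lvec D r')) a a := by
    intro a
    unfold Tdag
    rw [Matrix.sum_apply]
    apply Finset.sum_nonneg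
    intro s _
    rw [Matrix.mul_apply]
    apply Finset.sum_nonneg
    intro k _
    rw [Matrix.mul_diagonal, Matrix.transpose_apply]
    have h5 := lvec_nonneg D r' k
    have h6 : iten D A0 A1 A2 s a k * lvec D r' k * iten D A0 A1 A2 s a k =
        lvec D r' k * (iten D A0 A1 A2 s a k) ^ 2 := by ring
    rw [h6]
    positivity
  have hzero : ∀ (A : List Row), A.length = d → ∀ a : ℕ, d ≤ a → A.getD a (0, []) = (0, []) := by
    intro A hA a ha
    rw [List.getD_eq_default]
    omega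
  have hrz : ∀ x : Row, rdot x (0, []) r' = 0 := by
    intro x
    rw [rdot_eq _ _ _ D hr']
    apply Finset.sum_eq_zero
    intro i _
    rw [rget_nil]
    ring
  have hrz' : ∀ x : Row, rdot (0, []) x r' = 0 := by
    intro x
    rw [rdot_eq _ _ _ D hr']
    apply Finset.sum_eq_zero
    intro i _
    rw [rget_nil]
    ring
  have e0 : (((Δ : ℝ) - 1) * s2) • diagonal (lvec D r) = diagonal (fun b => (((Δ : ℝ) - 1) * s2) * lvec D r b) := by
    rw [← Matrix.diagonal_smul]
    rfl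
  rw [e0]
  apply kerC_low
  · rw [Matrix.transpose_smul, hsymm]
  · intro b
    have := lvec_nonneg D r b
    have h3 : 0 ≤ (Δ:ℝ) - 1 := by linarith
    positivity
  · intro a
    by_cases had : (a : ℕ) < d
    · have hc := kerC_allR A0 A1 A2 r d h0 h1 h2 hr hall a had
      have ec : condR Δ s2 (A0.getD a (0, [])) (A1.getD a (0, [])) (A2.getD a (0, [])) (r.getD a 0) r' A0 A1 A2 =
        Nat.ble ((Δ - 1) * s2 * r.getD a 0 + Δ * absSumR (A0.getD a (0, [])) (A1.getD a (0, [])) (A2.getD a (0, [])) r' A0 A1 A2)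
          (2 * Δ * Int.toNat (iadd (rdot (A0.getD a (0, [])) (A0.getD a (0, [])) r')
            (iadd (rdot (A1.getD a (0, [])) (A1.getD a (0, [])) r') (rdot (A2.getD a (0, [])) (A2.getD a (0, [])) r')))) := rfl
      rw [ec] at hc
      have hb := Nat.le_of_ble_eq_true hc
      rw [iadd_eq, iadd_eq, kerC_absSumR _ _ _ r' A0 A1 A2 d h0 h1 h2] at hb
      have hda := hdiag a
      rw [hG a a] at hda
      have hb' : ((Δ:ℝ) - 1) * s2 * (r.getD a 0 : ℝ) + Δ * ((∑ a' ∈ range d, Int.natAbs (rdot (A0.getD a (0, [])) (A0.getD a' (0, [])) r' +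
          (rdot (A1.getD a (0, [])) (A1.getD a' (0, [])) r' + rdot (A2.getD a (0, [])) (A2.getD a' (0, [])) r')) : ℕ) : ℝ) ≤
          2 * Δ * ((rdot (A0.getD a (0, [])) (A0.getD a (0, [])) r' + (rdot (A1.getD a (0, [])) (A1.getD a (0, [])) r' +
        rdot (A2.getD a (0, [])) (A2.getD a (0, [])) r') : ℤ) : ℝ) := by
        rw [← kerC_toNat hda]
        have h7 : (((Δ - 1) * s2 * r.getD a 0 + Δ * ∑ a' ∈ range d, Int.natAbs (rdot (A0.getD a (0, [])) (A0.getD a' (0, [])) r' +
          (rdot (A1.getD a (0, [])) (A1.getD a' (0, [])) r' + rdot (A2.getD a (0, [])) (A2.getD a' (0, [])) r')) : ℕ) : ℝ) ≤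
          ((2 * Δ * Int.toNat (rdot (A0.getD a (0, [])) (A0.getD a (0, [])) r' + (rdot (A1.getD a (0, [])) (A1.getD a (0, [])) r' +
        rdot (A2.getD a (0, [])) (A2.getD a (0, [])) r')) : ℕ) : ℝ) := Nat.cast_le.mpr hb
        rw [Nat.cast_add, Nat.cast_mul, Nat.cast_mul, Nat.cast_sub hΔ, Nat.cast_mul, Nat.cast_mul, Nat.cast_mul] at h7
        simp only [Nat.cast_one, Nat.cast_ofNat] at h7
        exact h7
      have hsum : ∑ a', |((Δ : ℝ) • Tdag (iten D A0 A1 A2) (diagonal (lvec D r'))) a a'| ≤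
          Δ * ((∑ a' ∈ range d, Int.natAbs (rdot (A0.getD a (0, [])) (A0.getD a' (0, [])) r' +
          (rdot (A1.getD a (0, [])) (A1.getD a' (0, [])) r' + rdot (A2.getD a (0, [])) (A2.getD a' (0, [])) r')) : ℕ) : ℝ) := by
        have e1 : ∀ a' : Fin D, |((Δ : ℝ) • Tdag (iten D A0 A1 A2) (diagonal (lvec D r'))) a a'| =
            Δ * ((Int.natAbs (rdot (A0.getD a (0, [])) (A0.getD a' (0, [])) r' +
          (rdot (A1.getD a (0, [])) (A1.getD a' (0, [])) r' + rdot (A2.getD a (0, [])) (A2.getD a' (0, [])) r')) : ℕ) : ℝ) := by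
          intro a'
          rw [Matrix.smul_apply, smul_eq_mul, abs_mul, hG a a', abs_of_nonneg (by linarith : (0:ℝ) ≤ Δ), ← Int.cast_abs,
            Int.abs_eq_natAbs, Int.cast_natCast]
        rw [Finset.sum_congr rfl (fun a' _ => e1 a'), ← Finset.mul_sum]
        apply mul_le_mul_of_nonneg_left _ (by linarith)
        rw [Nat.cast_sum]
        have e4 : ∑ i : Fin D, ((Int.natAbs (rdot (A0.getD a (0, [])) (A0.getD i (0, [])) r' +
          (rdot (A1.getD a (0, [])) (A1.getD i (0, [])) r' + rdot (A2.getD a (0, [])) (A2.getD i (0, [])) r')) : ℕ) : ℝ) =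
          ∑ i ∈ range D, ((Int.natAbs (rdot (A0.getD a (0, [])) (A0.getD i (0, [])) r' +
          (rdot (A1.getD a (0, [])) (A1.getD i (0, [])) r' + rdot (A2.getD a (0, [])) (A2.getD i (0, [])) r')) : ℕ) : ℝ) := by
          rw [Finset.sum_range]
        rw [e4]
        apply le_of_eq
        symm
        apply Finset.sum_subset
        · intro x hx
          rw [Finset.mem_range] at hx ⊢
          omega
        · intro x _ hx
          rw [Finset.mem_range] at hx
          rw [hzero A0 h0 x (by omega), hzero A1 h1 x (by omega), hzero A2 h2 x (by omega), hrz, hrz, hrz]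
          simp
      rw [Matrix.smul_apply, smul_eq_mul, hG a a]
      have e2 : lvec D r a = (r.getD a 0 : ℝ) := rfl
      rw [e2]
      linarith
    · push Not at had
      have hz : ∀ a' : Fin D, Tdag (iten D A0 A1 A2) (diagonal (lvec D r')) a a' = 0 := by
        intro a'
        rw [hG a a', hzero A0 h0 a had, hzero A1 h1 a had, hzero A2 h2 a had, hrz', hrz', hrz']
        simp
      have hr0 : lvec D r a = 0 := by
        have : r.getD a 0 = 0 := by
          rw [List.getD_eq_default]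
          omega
        show ((r.getD a 0 : ℕ) : ℝ) = 0
        rw [this]; simp
      simp only [Matrix.smul_apply, hz, hr0]
      simp

end Crest.Agent.HGD.Ker
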