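import Crest.Agent.HGD_KerL
import Crest.Agent.HGD_Defs

/-!
# HGD, task HGD-KerE: soundness of `energy` and `diagE`
-/

set_option autoImplicit false

namespace Crest.Agent.HGD.Ker

open Matrix Finset

/-- the `D × D` matrix with sparse rows `A` -/
def imat (D : ℕ) (A : List Row) : RM D := Matrix.of fun i j => (rget (A.getD i (0, [])) j : ℝ)

def iten (D : ℕ) (A0 A1 A2 : List Row) : Ten D := ![imat D A0, imat D A1, imat D A2]

def lvec (D : ℕ) (l : List ℕ) : Fin D → ℝ := fun a => (l.getD a 0 : ℝ)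

theorem lvec_nonneg (D : ℕ) (l : List ℕ) (a : Fin D) : 0 ≤ lvec D l a := by
  unfold lvec; positivity

private theorem kerE_trace {D : ℕ} (r l : Fin D → ℝ) (W : RM D) :
    trace (diagonal r * (Wᵀ * diagonal l * W)) = ∑ a, l a * ∑ b, r b * W a b ^ 2 := by
  have h1 : trace (diagonal r * (Wᵀ * diagonal l * W)) = ∑ b, r b * ∑ a, W a b * l a * W a b := by
    unfold Matrix.trace
    apply Finset.sum_congr rfl
    intro b _
    rw [Matrix.diag_apply, Matrix.diagonal_mul, Matrix.mul_apply]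
    congr 1
    apply Finset.sum_congr rfl
    intro a _
    rw [Matrix.mul_diagonal, Matrix.transpose_apply]
  rw [h1]
  simp only [Finset.mul_sum]
  rw [Finset.sum_comm]
  apply Finset.sum_congr rfl
  intro a _
  apply Finset.sum_congr rfl
  intro b _
  ring

private theorem kerE_energy_sum (B0 B1 B2 : List Row) (r : List ℕ) : ∀ (A0 A1 A2 : List Row) (l : List ℕ) (d : ℕ),
    A0.length = d → A1.length = d → A2.length = d → l.length = d →
    energy A0 A1 A2 B0 B1 B2 l r = ∑ a ∈ range d, l.getD a 0 *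
      enRow (A0.getD a (0, [])) (A1.getD a (0, [])) (A2.getD a (0, [])) B0 B1 B2 r := by
  intro A0
  induction A0 with
  | nil =>
    intro A1 A2 l d h0 h1 h2 hl
    have : d = 0 := by rw [← h0]; rfl
    subst this
    rfl
  | cons a0 A0 ih =>
    intro A1 A2 l d h0 h1 h2 hl
    rw [List.length_cons] at h0
    obtain ⟨d', rfl⟩ : ∃ d', d = d' + 1 := ⟨A0.length, h0.symm⟩
    match A1, h1 with
    | a1 :: A1, h1 =>
      match A2, h2 with
      | a2 :: A2, h2 =>
        match l, hl with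
        | x :: l, hl =>
          rw [List.length_cons] at h1 h2 hl
          have e : energy (a0 :: A0) (a1 :: A1) (a2 :: A2) B0 B1 B2 (x :: l) r =
            x * enRow a0 a1 a2 B0 B1 B2 r + energy A0 A1 A2 B0 B1 B2 l r := rfl
          rw [e, ih A1 A2 l d' (by omega) (by omega) (by omega) (by omega), Finset.sum_range_succ', add_comm]
          rfl

private theorem kerE_diagE_sum (c0 c1 c2 : ℕ) (r : List ℕ) : ∀ (A0 A1 A2 : List Row) (l : List ℕ) (d : ℕ),
    A0.length = d → A1.length = d → A2.length = d → l.length = d →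
    diagE c0 c1 c2 A0 A1 A2 l r = ∑ a ∈ range d, l.getD a 0 *
      (c0 * wsqR (A0.getD a (0, [])) r + (c1 * wsqR (A1.getD a (0, [])) r + c2 * wsqR (A2.getD a (0, [])) r)) := by
  intro A0
  induction A0 with
  | nil =>
    intro A1 A2 l d h0 h1 h2 hl
    have : d = 0 := by rw [← h0]; rfl
    subst this
    rfl
  | cons a0 A0 ih =>
    intro A1 A2 l d h0 h1 h2 hl
    rw [List.length_cons] at h0
    obtain ⟨d', rfl⟩ : ∃ d', d = d' + 1 := ⟨A0.length, h0.symm⟩
    match A1, h1 with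
    | a1 :: A1, h1 =>
      match A2, h2 with
      | a2 :: A2, h2 =>
        match l, hl with
        | x :: l, hl =>
          rw [List.length_cons] at h1 h2 hl
          have e : diagE c0 c1 c2 (a0 :: A0) (a1 :: A1) (a2 :: A2) (x :: l) r =
            x * (c0 * wsqR a0 r + (c1 * wsqR a1 r + c2 * wsqR a2 r)) + diagE c0 c1 c2 A0 A1 A2 l r := rfl
          rw [e, ih A1 A2 l d' (by omega) (by omega) (by omega) (by omega), Finset.sum_range_succ', add_comm]
          rfl

private theorem kerE_extend {d D : ℕ} (hd : d ≤ D) (l : List ℕ) (hl : l.length = d) (f : ℕ → ℝ) :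
    ∑ a ∈ range d, (l.getD a 0 : ℝ) * f a = ∑ a : Fin D, lvec D l a * f a := by
  have h1 : ∑ a : Fin D, lvec D l a * f a = ∑ a ∈ range D, (l.getD a 0 : ℝ) * f a := by
    rw [Finset.sum_range]
    rfl
  rw [h1]
  apply Finset.sum_subset
  · intro x hx
    rw [Finset.mem_range] at hx ⊢
    omega
  · intro x _ hx
    rw [Finset.mem_range] at hx
    have : l.getD x 0 = 0 := by
      rw [List.getD_eq_default]
      omega
    rw [this]
    simp

private theorem kerE_wsqR {D : ℕ} (x : Row) (r : List ℕ) (hr : r.length ≤ D) :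
    (wsqR x r : ℝ) = ∑ b : Fin D, lvec D r b * (rget x b : ℝ) ^ 2 := by
  have h := wsqR_eq x r D hr
  have h2 : ((wsqR x r : ℤ) : ℝ) = ((∑ i ∈ range D, (r.getD i 0 : ℤ) * rget x i ^ 2 : ℤ) : ℝ) := by rw [h]
  rw [Int.cast_natCast] at h2
  rw [h2]
  push_cast
  rw [Finset.sum_range]
  rfl

private theorem kerE_comb {D : ℕ} (A B : List Row) (hB : B.length ≤ D) (a b : Fin D) :
    (imat D A * imat D B) a b = (rget (comb (A.getD a (0, [])) B) b : ℝ) := by
  rw [Matrix.mul_apply, rget_comb _ _ _ D hB]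
  push_cast
  rw [Finset.sum_range]
  rfl

theorem energy_eq {D d : ℕ} (hd : d ≤ D) {A0 A1 A2 B0 B1 B2 : List Row} {l r : List ℕ}
    (h0 : A0.length = d) (h1 : A1.length = d) (h2 : A2.length = d) (hl : l.length = d)
    (hr : r.length ≤ D) (hB0 : B0.length ≤ D) (hB1 : B1.length ≤ D) (hB2 : B2.length ≤ D) :
    (energy A0 A1 A2 B0 B1 B2 l r : ℝ) =
      trace (diagonal (lvec D r) * TW (iten D A0 A1 A2) (iten D B0 B1 B2) (diagonal (lvec D l))) := by
  have hW : ∀ k, trace (diagonal (lvec D r) * ((W4 (iten D A0 A1 A2) (iten D B0 B1 B2) k)ᵀ * diagonal (lvec D l) *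
      W4 (iten D A0 A1 A2) (iten D B0 B1 B2) k)) =
      ∑ a, lvec D l a * ∑ b, lvec D r b * (W4 (iten D A0 A1 A2) (iten D B0 B1 B2) k) a b ^ 2 :=
    fun k => kerE_trace _ _ _
  unfold TW
  rw [Finset.mul_sum, Matrix.trace_sum, Finset.sum_congr rfl (fun k _ => hW k), Finset.sum_comm]
  rw [kerE_energy_sum B0 B1 B2 r A0 A1 A2 l d h0 h1 h2 hl]
  push_cast
  rw [kerE_extend hd l hl (fun a => (enRow (A0.getD a (0, [])) (A1.getD a (0, [])) (A2.getD a (0, [])) B0 B1 B2 r : ℝ))]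
  apply Finset.sum_congr rfl
  intro a _
  rw [← Finset.mul_sum]
  congr 1
  have e : enRow (A0.getD a (0, [])) (A1.getD a (0, [])) (A2.getD a (0, [])) B0 B1 B2 r =
    wsqR (rsub (comb (A0.getD a (0, [])) B1) (comb (A1.getD a (0, [])) B0)) r +
    (wsqR (rsub (comb (A0.getD a (0, [])) B2) (comb (A2.getD a (0, [])) B0)) r +
    (wsqR (rsub (comb (A1.getD a (0, [])) B2) (comb (A2.getD a (0, [])) B1)) r +
      wsqR (rsub (axpyR 1 (comb (A0.getD a (0, [])) B2) (comb (A2.getD a (0, [])) B0))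
        (comb (A1.getD a (0, [])) B1)) r)) := rfl
  rw [e]
  push_cast
  rw [kerE_wsqR _ r hr, kerE_wsqR _ r hr, kerE_wsqR _ r hr, kerE_wsqR _ r hr, Fin.sum_univ_four]
  have g0 : ∀ b, (W4 (iten D A0 A1 A2) (iten D B0 B1 B2) 0) a b =
      (rget (rsub (comb (A0.getD a (0, [])) B1) (comb (A1.getD a (0, [])) B0)) b : ℝ) := by
    intro b
    rw [rget_rsub]
    push_cast
    rw [← kerE_comb A0 B1 hB1 a b, ← kerE_comb A1 B0 hB0 a b]
    rfl
  have g1 : ∀ b, (W4 (iten D A0 A1 A2) (iten D B0 B1 B2) 1) a b =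
      (rget (rsub (comb (A0.getD a (0, [])) B2) (comb (A2.getD a (0, [])) B0)) b : ℝ) := by
    intro b
    rw [rget_rsub]
    push_cast
    rw [← kerE_comb A0 B2 hB2 a b, ← kerE_comb A2 B0 hB0 a b]
    rfl
  have g2 : ∀ b, (W4 (iten D A0 A1 A2) (iten D B0 B1 B2) 2) a b =
      (rget (rsub (comb (A1.getD a (0, [])) B2) (comb (A2.getD a (0, [])) B1)) b : ℝ) := by
    intro b
    rw [rget_rsub]
    push_cast
    rw [← kerE_comb A1 B2 hB2 a b, ← kerE_comb A2 B1 hB1 a b]
    rfl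
  have g3 : ∀ b, (W4 (iten D A0 A1 A2) (iten D B0 B1 B2) 3) a b =
      (rget (rsub (axpyR 1 (comb (A0.getD a (0, [])) B2) (comb (A2.getD a (0, [])) B0))
        (comb (A1.getD a (0, [])) B1)) b : ℝ) := by
    intro b
    rw [rget_rsub, rget_axpyR]
    push_cast
    rw [← kerE_comb A0 B2 hB2 a b, ← kerE_comb A2 B0 hB0 a b, ← kerE_comb A1 B1 hB1 a b]
    have : (W4 (iten D A0 A1 A2) (iten D B0 B1 B2) 3) a b =
      (imat D A0 * imat D B2 - imat D A1 * imat D B1 + imat D A2 * imat D B0) a b := rfl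
    rw [this, Matrix.add_apply, Matrix.sub_apply]
    ring
  simp only [g0, g1, g2, g3]
  ring

theorem diagE_eq {D d : ℕ} (hd : d ≤ D) (c0 c1 c2 : ℕ) {A0 A1 A2 : List Row} {l r : List ℕ}
    (h0 : A0.length = d) (h1 : A1.length = d) (h2 : A2.length = d) (hl : l.length = d)
    (hr : r.length ≤ D) :
    (diagE c0 c1 c2 A0 A1 A2 l r : ℝ) =
      trace (diagonal (lvec D r) *
        TO (iten D A0 A1 A2) (diagonal ![(c0 : ℝ), c1, c2]) (diagonal (lvec D l))) := by
  have hTO : TO (iten D A0 A1 A2) (diagonal ![(c0 : ℝ), c1, c2]) (diagonal (lvec D l)) =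
      (c0 : ℝ) • ((imat D A0)ᵀ * diagonal (lvec D l) * imat D A0) +
      (c1 : ℝ) • ((imat D A1)ᵀ * diagonal (lvec D l) * imat D A1) +
      (c2 : ℝ) • ((imat D A2)ᵀ * diagonal (lvec D l) * imat D A2) := by
    unfold TO
    simp [Fin.sum_univ_three, iten, Matrix.diagonal_apply]
  rw [hTO]
  rw [Matrix.mul_add, Matrix.mul_add, Matrix.mul_smul, Matrix.mul_smul, Matrix.mul_smul, Matrix.trace_add,
    Matrix.trace_add, Matrix.trace_smul, Matrix.trace_smul, Matrix.trace_smul, kerE_trace, kerE_trace, kerE_trace]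
  rw [kerE_diagE_sum c0 c1 c2 r A0 A1 A2 l d h0 h1 h2 hl]
  push_cast
  rw [kerE_extend hd l hl (fun a => ((c0:ℝ) * (wsqR (A0.getD a (0, [])) r : ℝ) +
    ((c1:ℝ) * (wsqR (A1.getD a (0, [])) r : ℝ) + (c2:ℝ) * (wsqR (A2.getD a (0, [])) r : ℝ))))]
  simp only [smul_eq_mul]
  rw [Finset.mul_sum, Finset.mul_sum, Finset.mul_sum, ← Finset.sum_add_distrib, ← Finset.sum_add_distrib]
  apply Finset.sum_congr rfl
  intro a _
  rw [kerE_wsqR _ r hr, kerE_wsqR _ r hr, kerE_wsqR _ r hr]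
  have g : ∀ (A : List Row) (b : Fin D), imat D A a b = (rget (A.getD a (0, [])) b : ℝ) := fun _ _ => rfl
  simp only [g]
  ring

end Crest.Agent.HGD.Ker
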