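import Crest.Agent.HGD_Ker

/-!
# HGD, task HGD-KerL: specifications of the list functions of `HGD_Ker`

Every function unfolds by `rfl` on constructors (they are direct recursor applications), e.g.
`axpy c (x :: xs) (y :: ys) = iadd (Int.mul c x) y :: axpy c xs ys := rfl`.
-/

set_option autoImplicit false

namespace Crest.Agent.HGD.Ker

open Finset

/-- entry `i` of a sparse row -/
def rget (x : Row) (i : ℕ) : ℤ := if i < x.1 then 0 else x.2.getD (i - x.1) 0

theorem snn_eq (m n : ℕ) : snn m n = (m : ℤ) - n := by
  unfold snn
  rcases h : Nat.ble n m with _ | _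
  · have h1 : ¬ n ≤ m := by
      intro h2
      rw [Nat.ble_eq_true_of_le h2] at h
      exact absurd h (by decide)
    show Int.negSucc (Nat.sub (Nat.sub n m) 1) = _
    rw [Int.negSucc_eq]
    have e1 : Nat.sub (Nat.sub n m) 1 = n - m - 1 := rfl
    rw [e1]
    omega
  · have h1 : n ≤ m := Nat.le_of_ble_eq_true h
    show Int.ofNat (Nat.sub m n) = _
    have e1 : Nat.sub m n = m - n := rfl
    rw [e1]
    show ((m - n : ℕ) : ℤ) = _
    omega

theorem iadd_eq (a b : ℤ) : iadd a b = a + b := by
  cases a with
  | ofNat m =>
    cases b with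
    | ofNat n => rfl
    | negSucc n =>
      show snn m (Nat.succ n) = _
      rw [snn_eq]
      show (m : ℤ) - ((n + 1 : ℕ) : ℤ) = (m : ℤ) + Int.negSucc n
      rw [Int.negSucc_eq]; push_cast; ring
  | negSucc m =>
    cases b with
    | ofNat n =>
      show snn n (Nat.succ m) = _
      rw [snn_eq]
      show (n : ℤ) - ((m + 1 : ℕ) : ℤ) = Int.negSucc m + (n : ℤ)
      rw [Int.negSucc_eq]; push_cast; ring
    | negSucc n =>
      show Int.negSucc (Nat.succ (Nat.add m n)) = _
      rw [Int.negSucc_eq, Int.negSucc_eq, Int.negSucc_eq]
      show -(((m + n + 1 : ℕ) : ℤ) + 1) = _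
      push_cast; ring

theorem dropR_eq {α : Type} (k : ℕ) (l : List α) : dropR k l = l.drop k := by
  induction k generalizing l with
  | zero => rfl
  | succ k ih =>
    cases l with
    | nil => rfl
    | cons x t => exact ih t

private theorem head_drop {α : Type} (z : α) (i : ℕ) (u : List α) :
    (List.rec z (fun x _ _ => x) (dropR i u) : α) = u.getD i z := by
  rw [dropR_eq]
  induction i generalizing u with
  | zero => cases u <;> rfl
  | succ i ih =>
    cases u with
    | nil => rfl
    | cons x t => exact ih t

private theorem nthZ_eq (i : ℕ) (u : List ℤ) : nthZ i u = u.getD i 0 := head_drop 0 i u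

theorem rgetK_eq (x : Row) (i : ℕ) : rgetK x i = rget x i := by
  obtain ⟨k, u⟩ := x
  show (Bool.rec 0 (nthZ (Nat.sub i k) u) (Nat.ble k i) : ℤ) = if i < k then 0 else u.getD (i - k) 0
  rcases h : Nat.ble k i with _ | _
  · have h1 : ¬ k ≤ i := by
      intro h2
      rw [Nat.ble_eq_true_of_le h2] at h
      exact absurd h (by decide)
    rw [if_pos (by omega)]
  · have h1 : k ≤ i := Nat.le_of_ble_eq_true h
    rw [if_neg (by omega)]
    exact nthZ_eq _ _

theorem rget_nil (k i : ℕ) : rget (k, []) i = 0 := by
  unfold rget
  split_ifs <;> simp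

private theorem getD_smul (c : ℤ) (u : List ℤ) (i : ℕ) :
    (smul c u).getD i 0 = c * u.getD i 0 := by
  induction u generalizing i with
  | nil => simp [smul]
  | cons x t ih =>
    have h : smul c (x :: t) = (c * x) :: smul c t := rfl
    rw [h]
    cases i with
    | zero => simp
    | succ i => simpa using ih i

private theorem getD_axpy (c : ℤ) (u v : List ℤ) (i : ℕ) :
    (axpy c u v).getD i 0 = c * u.getD i 0 + v.getD i 0 := by
  induction u generalizing v i with
  | nil => simp [axpy]
  | cons x t ih =>
    cases v with
    | nil =>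
      have h : axpy c (x :: t) [] = smul c (x :: t) := rfl
      rw [h, getD_smul]
      simp
    | cons y ys =>
      have h : axpy c (x :: t) (y :: ys) = iadd (Int.mul c x) y :: axpy c t ys := rfl
      rw [h, iadd_eq]
      cases i with
      | zero => simp
      | succ i => simpa using ih ys i

private theorem getD_zerosApp (k : ℕ) (u : List ℤ) (i : ℕ) :
    (zerosApp k u).getD i 0 = if i < k then 0 else u.getD (i - k) 0 := by
  induction k generalizing i with
  | zero => simp [zerosApp]
  | succ k ih =>
    have h : zerosApp (k + 1) u = 0 :: zerosApp k u := rfl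
    rw [h]
    cases i with
    | zero => simp
    | succ i =>
      rw [List.getD_cons_succ, ih]
      by_cases hi : i < k
      · rw [if_pos hi, if_pos (by omega)]
      · rw [if_neg hi, if_neg (by omega)]
        congr 1
        omega

theorem rget_axpyR (c : ℤ) (x y : Row) (i : ℕ) :
    rget (axpyR c x y) i = c * rget x i + rget y i := by
  obtain ⟨k, u⟩ := x
  obtain ⟨k', v⟩ := y
  cases u with
  | nil =>
    show rget (k', v) i = _
    rw [rget_nil]; ring
  | cons a u =>
    cases v with
    | nil =>
      show rget (k, smul c (a :: u)) i = _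
      rw [rget_nil]
      unfold rget
      simp only [getD_smul]
      split_ifs <;> ring
    | cons b v =>
      have hdef : axpyR c (k, a :: u) (k', b :: v) =
        (Bool.rec
          (Bool.rec (k', axpy c (zerosApp (Nat.sub k k') (a :: u)) (b :: v))
            (k, axpy c (a :: u) (zerosApp (Nat.sub k' k) (b :: v))) (Nat.ble k k'))
          (k, axpy c (a :: u) (b :: v)) (Nat.beq k k') : Row) := rfl
      rw [hdef]
      rcases h : Nat.beq k k' with _ | _
      · rcases h2 : Nat.ble k k' with _ | _
        · have h1 : ¬ k ≤ k' := by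
            intro h3
            rw [Nat.ble_eq_true_of_le h3] at h2
            exact absurd h2 (by decide)
          show rget (k', axpy c (zerosApp (Nat.sub k k') (a :: u)) (b :: v)) i = _
          have e1 : Nat.sub k k' = k - k' := rfl
          unfold rget
          simp only [getD_axpy, getD_zerosApp, e1]
          by_cases c1 : i < k'
          · rw [if_pos c1, if_pos (by omega), if_pos c1]; ring
          · rw [if_neg c1, if_neg c1]
            by_cases c2 : i < k
            · rw [if_pos (by omega), if_pos c2]
            · rw [if_neg (by omega), if_neg c2]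
              have : i - k' - (k - k') = i - k := by omega
              rw [this]
        · have h1 : k ≤ k' := Nat.le_of_ble_eq_true h2
          show rget (k, axpy c (a :: u) (zerosApp (Nat.sub k' k) (b :: v))) i = _
          have e1 : Nat.sub k' k = k' - k := rfl
          unfold rget
          simp only [getD_axpy, getD_zerosApp, e1]
          by_cases c1 : i < k
          · rw [if_pos c1, if_pos c1, if_pos (by omega)]; ring
          · rw [if_neg c1, if_neg c1]
            by_cases c2 : i < k'
            · rw [if_pos (by omega), if_pos c2]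
            · rw [if_neg (by omega), if_neg c2]
              have : i - k - (k' - k) = i - k' := by omega
              rw [this]
      · have h1 : k = k' := Nat.eq_of_beq_eq_true h
        subst h1
        show rget (k, axpy c (a :: u) (b :: v)) i = _
        unfold rget
        simp only [getD_axpy]
        split_ifs <;> ring

private theorem sum_range_getD {β : Type} [AddCommMonoid β] (f g : ℕ → β) (n : ℕ)
    (h : ∀ k < n, f k = g k) : ∑ k ∈ range n, f k = ∑ k ∈ range n, g k :=
  Finset.sum_congr rfl fun k hk => h k (Finset.mem_range.mp hk)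

theorem rget_combGo (u : List ℤ) (rows : List Row) (i n : ℕ) (hn : rows.length ≤ n) :
    rget (combGo u rows) i = ∑ k ∈ range n, u.getD k 0 * rget (rows.getD k (0, [])) i := by
  induction u generalizing rows n with
  | nil =>
    show rget (0, []) i = _
    rw [rget_nil]
    simp
  | cons x t ih =>
    cases rows with
    | nil =>
      show rget (0, []) i = _
      rw [rget_nil]
      simp [rget_nil]
    | cons r rs =>
      obtain ⟨m, rfl⟩ : ∃ m, n = m + 1 := ⟨n - 1, by simp at hn; omega⟩
      have hn' : rs.length ≤ m := by simpa using hn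
      rw [Finset.sum_range_succ']
      simp only [List.getD_cons_succ, List.getD_cons_zero]
      rw [← ih rs m hn']
      have hdef : combGo (x :: t) (r :: rs) =
        (Bool.rec (axpyR x r (combGo t rs)) (combGo t rs) (Nat.beq (Int.natAbs x) 0) : Row) := rfl
      rw [hdef]
      rcases h : Nat.beq (Int.natAbs x) 0 with _ | _
      · show rget (axpyR x r (combGo t rs)) i = _
        rw [rget_axpyR]; ring
      · have h1 : Int.natAbs x = 0 := Nat.eq_of_beq_eq_true h
        have h2 : x = 0 := Int.natAbs_eq_zero.mp h1
        show rget (combGo t rs) i = _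
        rw [h2]; ring

private theorem getD_drop {α : Type} (z : α) (k i : ℕ) (l : List α) :
    (l.drop k).getD i z = l.getD (k + i) z := by
  rw [List.getD_eq_getElem?_getD, List.getD_eq_getElem?_getD, List.getElem?_drop]

theorem rget_comb (x : Row) (rows : List Row) (i n : ℕ) (hn : rows.length ≤ n) :
    rget (comb x rows) i = ∑ k ∈ range n, rget x k * rget (rows.getD k (0, [])) i := by
  obtain ⟨k, u⟩ := x
  show rget (combGo u (dropR k rows)) i = _
  rw [dropR_eq]
  by_cases hk : n ≤ k
  · have h0 : rows.drop k = [] := List.drop_eq_nil_of_le (by omega)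
    rw [h0, rget_combGo u [] i 0 (by simp)]
    symm
    rw [Finset.sum_range_zero]
    refine Finset.sum_eq_zero fun j hj => ?_
    rw [Finset.mem_range] at hj
    unfold rget
    rw [if_pos (show j < k by omega)]
    ring
  · rw [rget_combGo u (rows.drop k) i (n - k) (by simp; omega)]
    obtain ⟨m, rfl⟩ : ∃ m, n = k + m := ⟨n - k, by omega⟩
    rw [Finset.sum_range_add, Nat.add_sub_cancel_left]
    rw [Finset.sum_eq_zero (s := range k)]
    · rw [zero_add]
      refine Finset.sum_congr rfl fun j _ => ?_
      rw [getD_drop]
      congr 1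
      unfold rget
      rw [if_neg (show ¬ (k + j < k) by omega)]
      congr 1
      show j = k + j - k
      omega
    · intro j hj
      rw [Finset.mem_range] at hj
      unfold rget
      rw [if_pos hj]
      ring

private theorem wsq_eq (u : List ℤ) (r : List ℕ) (n : ℕ) (hn : r.length ≤ n) :
    (wsq u r : ℤ) = ∑ i ∈ range n, (r.getD i 0 : ℤ) * (u.getD i 0) ^ 2 := by
  induction u generalizing r n with
  | nil => show ((0 : ℕ) : ℤ) = _; simp
  | cons x t ih =>
    cases r with
    | nil => show ((0 : ℕ) : ℤ) = _; simp
    | cons y ys =>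
      obtain ⟨m, rfl⟩ : ∃ m, n = m + 1 := ⟨n - 1, by simp at hn; omega⟩
      have hn' : ys.length ≤ m := by simpa using hn
      rw [Finset.sum_range_succ']
      simp only [List.getD_cons_succ, List.getD_cons_zero]
      rw [← ih ys m hn']
      show ((y * (Int.natAbs x) ^ 2 + wsq t ys : ℕ) : ℤ) = _
      push_cast
      rw [sq_abs]
      ring

/-- sums over a shifted row -/
private theorem sum_shift (k n : ℕ) (f g : ℕ → ℤ) (h0 : ∀ j < k, f j = 0)
    (h1 : ∀ j, f (k + j) = g j) : ∑ j ∈ range n, f j = ∑ j ∈ range (n - k), g j := by
  by_cases hk : n ≤ k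
  · rw [Nat.sub_eq_zero_of_le hk, Finset.sum_range_zero]
    exact Finset.sum_eq_zero fun j hj => h0 j (by rw [Finset.mem_range] at hj; omega)
  · obtain ⟨m, rfl⟩ : ∃ m, n = k + m := ⟨n - k, by omega⟩
    rw [Finset.sum_range_add, Nat.add_sub_cancel_left,
      Finset.sum_eq_zero (s := range k) fun j hj => h0 j (Finset.mem_range.mp hj), zero_add]
    exact Finset.sum_congr rfl fun j _ => h1 j

private theorem rget_lt (k : ℕ) (u : List ℤ) (j : ℕ) (h : j < k) : rget (k, u) j = 0 := by
  unfold rget; rw [if_pos h]

private theorem rget_add (k : ℕ) (u : List ℤ) (j : ℕ) : rget (k, u) (k + j) = u.getD j 0 := by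
  unfold rget
  rw [if_neg (show ¬ (k + j < k) by omega)]
  congr 1
  show k + j - k = j
  omega

theorem wsqR_eq (x : Row) (r : List ℕ) (n : ℕ) (hn : r.length ≤ n) :
    (wsqR x r : ℤ) = ∑ i ∈ range n, (r.getD i 0 : ℤ) * rget x i ^ 2 := by
  obtain ⟨k, u⟩ := x
  show ((wsq u (dropR k r) : ℕ) : ℤ) = _
  rw [dropR_eq, wsq_eq u (r.drop k) (n - k) (by simp; omega)]
  symm
  apply sum_shift
  · intro j hj; rw [rget_lt k u j hj]; ring
  · intro j; rw [rget_add, getD_drop]

theorem rget_rsub (x y : Row) (i : ℕ) : rget (rsub x y) i = rget x i - rget y i := by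
  unfold rsub
  rw [rget_axpyR]
  have : Int.negSucc 0 = -1 := rfl
  rw [this]; ring

private theorem dot3_eq (u v : List ℤ) (r : List ℕ) (n : ℕ) (hn : r.length ≤ n) :
    dot3 u v r = ∑ i ∈ range n, u.getD i 0 * v.getD i 0 * (r.getD i 0 : ℤ) := by
  induction u generalizing v r n with
  | nil => show (0 : ℤ) = _; simp
  | cons x t ih =>
    cases v with
    | nil => show (0 : ℤ) = _; simp
    | cons y ys =>
      cases r with
      | nil => show (0 : ℤ) = _; simp
      | cons z zs =>
        obtain ⟨m, rfl⟩ : ∃ m, n = m + 1 := ⟨n - 1, by simp at hn; omega⟩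
        have hn' : zs.length ≤ m := by simpa using hn
        rw [Finset.sum_range_succ']
        simp only [List.getD_cons_succ, List.getD_cons_zero]
        rw [← ih ys zs m hn']
        show iadd (Int.mul (Int.mul x y) (Int.ofNat z)) (dot3 t ys zs) = _
        rw [iadd_eq, add_comm]
        rfl

theorem rdot_eq (x y : Row) (r : List ℕ) (n : ℕ) (hn : r.length ≤ n) :
    rdot x y r = ∑ i ∈ range n, rget x i * rget y i * (r.getD i 0 : ℤ) := by
  obtain ⟨k, u⟩ := x
  obtain ⟨k', v⟩ := y
  have hdef : rdot (k, u) (k', v) r =
    (Bool.rec (dot3 u (dropR (Nat.sub k k') v) (dropR k r))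
      (dot3 (dropR (Nat.sub k' k) u) v (dropR k' r)) (Nat.ble k k') : ℤ) := rfl
  rw [hdef]
  rcases h2 : Nat.ble k k' with _ | _
  · have h1 : ¬ k ≤ k' := by
      intro h3
      rw [Nat.ble_eq_true_of_le h3] at h2
      exact absurd h2 (by decide)
    show dot3 u (dropR (Nat.sub k k') v) (dropR k r) = _
    have e1 : Nat.sub k k' = k - k' := rfl
    rw [e1, dropR_eq, dropR_eq, dot3_eq _ _ _ (n - k) (by simp; omega)]
    symm
    apply sum_shift
    · intro j hj; rw [rget_lt k u j hj]; ring
    · intro j
      rw [rget_add, getD_drop, getD_drop]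
      have : k + j = k' + (k - k' + j) := by omega
      rw [this, rget_add]
  · have h1 : k ≤ k' := Nat.le_of_ble_eq_true h2
    show dot3 (dropR (Nat.sub k' k) u) v (dropR k' r) = _
    have e1 : Nat.sub k' k = k' - k := rfl
    rw [e1, dropR_eq, dropR_eq, dot3_eq _ _ _ (n - k') (by simp; omega)]
    symm
    apply sum_shift
    · intro j hj; rw [rget_lt k' v j hj]; ring
    · intro j
      rw [rget_add, getD_drop, getD_drop]
      have : k' + j = k + (k' - k + j) := by omega
      rw [this, rget_add]

private theorem absSum_eq (u : List ℤ) (n : ℕ) :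
    ∑ i ∈ range n, |u.getD i 0| ≤ (absSum u : ℤ) := by
  induction u generalizing n with
  | nil => simp [absSum]
  | cons x t ih =>
    cases n with
    | zero => simp
    | succ m =>
      rw [Finset.sum_range_succ']
      simp only [List.getD_cons_succ, List.getD_cons_zero]
      have h : (absSum (x :: t) : ℤ) = |x| + (absSum t : ℤ) := by
        show ((Int.natAbs x + absSum t : ℕ) : ℤ) = _
        push_cast; rfl
      rw [h]
      have := ih m
      linarith

/-- sum of the absolute values of some entries of a row -/
theorem absSum_le (x : Row) (n : ℕ) :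
    ∑ i ∈ range n, |rget x i| ≤ (absSum x.2 : ℤ) := by
  obtain ⟨k, u⟩ := x
  rw [sum_shift k n (fun j => |rget (k, u) j|) (fun j => |u.getD j 0|)]
  · exact absSum_eq u _
  · intro j hj
    show |rget (k, u) j| = 0
    rw [rget_lt k u j hj]; rfl
  · intro j
    show |rget (k, u) (k + j)| = |u.getD j 0|
    rw [rget_add]

theorem nthN_eq (i : ℕ) (u : List ℕ) : nthN i u = u.getD i 0 := head_drop 0 i u

theorem colw_getD (b : ℕ) (A : List Row) (l : List ℕ) (k : ℕ) (h : A.length = l.length) :
    (colw b A l).getD k 0 = (l.getD k 0 : ℤ) * rget (A.getD k (0, [])) b := by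
  induction A generalizing l k with
  | nil =>
    show (([] : List ℤ)).getD k 0 = _
    simp [rget_nil]
  | cons a A ih =>
    cases l with
    | nil => simp at h
    | cons x xs =>
      have hdef : colw b (a :: A) (x :: xs) = Int.mul (Int.ofNat x) (rgetK a b) :: colw b A xs := rfl
      rw [hdef]
      cases k with
      | zero =>
        simp only [List.getD_cons_zero]
        rw [rgetK_eq]
        rfl
      | succ k =>
        simp only [List.getD_cons_succ]
        exact ih xs k (by simpa using h)

theorem length_decRows (n P : ℕ) : (decRows n P).length = n := by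
  induction n generalizing P with
  | zero => rfl
  | succ n ih =>
    show (_ :: decRows n _ : List Row).length = n + 1
    rw [List.length_cons, ih]

theorem length_decNats (n P : ℕ) : (decNats n P).length = n := by
  induction n generalizing P with
  | zero => rfl
  | succ n ih =>
    show (_ :: decNats n _ : List ℕ).length = n + 1
    rw [List.length_cons, ih]

end Crest.Agent.HGD.Ker
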