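import Crest.Agent.HGD_Op

/-!
# HGD, task HGD-Mps: expectation values in matrix product states

`sum_prodM`: induction on `n` (split off the last site with `Fin.snocEquiv`/`Fin.snoc`,
`Fin.prod_univ_castSucc`). `two_site`: expand over `Fin 3` (`Fin.sum_univ_three`, entries of
`opL`/`opR`), then `noncomm_ring`/`abel`. `mix_bond`: by `bond_apply`,
`bond (castSucc j) (succ j) σ τ = ∑ κ, ∏ i, O κ i (σ i) (τ i)` with `O κ i = opL κ` at `i = j`,
`opR κ` at `i = j+1`, `1` otherwise; then `mix_real`, `sum_prodM`, and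
`TcO M O n X = Tc M (j+2) _ (TO _ (opR κ) (TO _ (opL κ) (Tc M 0 j X)))`.
-/

set_option autoImplicit false

namespace Crest.Agent.HGD

open Matrix Crest.MathPhysics.SpinChain Crest.Agent.HG

variable {D : ℕ}

theorem sum_prodM (M : ℕ → Ten D) (O : ℕ → Matrix (Fin 3) (Fin 3) ℝ) (n : ℕ) (X : RM D) :
    ∑ σ : Fin n → Fin 3, ∑ τ : Fin n → Fin 3,
      (∏ i : Fin n, O i (σ i) (τ i)) • ((prodM M n σ)ᵀ * X * prodM M n τ) = TcO M O n X := by
  induction n with
  | zero =>
    simp [prodM, TcO]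
  | succ n ih =>
    have h1 : ∀ f : (Fin (n + 1) → Fin 3) → RM D, ∑ σ : Fin (n + 1) → Fin 3, f σ =
        ∑ s : Fin 3, ∑ σ : Fin n → Fin 3, f (Fin.snoc σ s) := by
      intro f
      rw [← (Fin.snocEquiv (fun _ => Fin 3)).sum_comp f, Fintype.sum_prod_type]
      rfl
    rw [h1]
    have h2 : ∀ (s : Fin 3) (σ : Fin n → Fin 3), prodM M (n + 1) (Fin.snoc σ s : Fin (n + 1) → Fin 3) =
        prodM M n σ * M n s := by
      intro s σ
      show prodM M n (fun i => (Fin.snoc σ s : Fin (n + 1) → Fin 3) i.castSucc) *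
        M n ((Fin.snoc σ s : Fin (n + 1) → Fin 3) (Fin.last n)) = _
      simp only [Fin.snoc_castSucc, Fin.snoc_last]
    have h3 : ∀ (s t : Fin 3) (σ τ : Fin n → Fin 3),
        ∏ i : Fin (n + 1), O i ((Fin.snoc σ s : Fin (n + 1) → Fin 3) i) ((Fin.snoc τ t : Fin (n + 1) → Fin 3) i) =
        O n s t * ∏ i : Fin n, O i (σ i) (τ i) := by
      intro s t σ τ
      rw [Fin.prod_univ_castSucc]
      simp only [Fin.snoc_castSucc, Fin.snoc_last, Fin.val_castSucc, Fin.val_last]
      ring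
    have h4 : TcO M O (n + 1) X = TO (M n) (O n) (TcO M O n X) := rfl
    rw [h4, ← ih]
    unfold TO
    apply Finset.sum_congr rfl
    intro s _
    rw [Finset.sum_congr rfl (fun σ _ => h1 _), Finset.sum_comm]
    apply Finset.sum_congr rfl
    intro t _
    rw [Finset.mul_sum, Finset.sum_mul, Finset.smul_sum]
    apply Finset.sum_congr rfl
    intro σ _
    rw [Finset.mul_sum, Finset.sum_mul, Finset.smul_sum]
    apply Finset.sum_congr rfl
    intro τ _
    rw [h2, h2, h3, Matrix.transpose_mul, mul_smul, Matrix.mul_smul, Matrix.smul_mul]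
    congr 2
    noncomm_ring

theorem mix_real (M : ℕ → Ten D) (n : ℕ) (K : Matrix (Fin n → Fin 3) (Fin n → Fin 3) ℝ)
    (l r : Fin D → ℝ) :
    ∑ a, ∑ b, l a * r b * (star (psi M n a b) ⬝ᵥ
      (K.map (fun x : ℝ => (x : ℂ))).mulVec (psi M n a b)).re =
    trace (diagonal r * ∑ σ, ∑ τ, K σ τ • ((prodM M n σ)ᵀ * diagonal l * prodM M n τ)) := by
  have h1 : ∀ a b, (star (psi M n a b) ⬝ᵥ (K.map (fun x : ℝ => (x : ℂ))).mulVec (psi M n a b)).re =
      ∑ σ, ∑ τ, prodM M n σ a b * (K σ τ * prodM M n τ a b) := by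
    intro a b
    simp only [dotProduct, Matrix.mulVec, Pi.star_apply, psi, Matrix.map_apply, Complex.star_def, Complex.conj_ofReal]
    rw [Complex.re_sum]
    apply Finset.sum_congr rfl
    intro σ _
    rw [Complex.re_ofReal_mul, Complex.re_sum, Finset.mul_sum]
    apply Finset.sum_congr rfl
    intro τ _
    rw [← Complex.ofReal_mul, Complex.ofReal_re]
  have h2 : ∀ b, (∑ σ, ∑ τ, K σ τ • ((prodM M n σ)ᵀ * diagonal l * prodM M n τ)) b b =
      ∑ σ, ∑ τ, ∑ a, K σ τ * (prodM M n σ a b * l a * prodM M n τ a b) := by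
    intro b
    rw [Matrix.sum_apply]
    apply Finset.sum_congr rfl
    intro σ _
    rw [Matrix.sum_apply]
    apply Finset.sum_congr rfl
    intro τ _
    rw [Matrix.smul_apply, smul_eq_mul, Matrix.mul_apply, Finset.mul_sum]
    apply Finset.sum_congr rfl
    intro a _
    rw [Matrix.mul_diagonal, Matrix.transpose_apply]
  unfold Matrix.trace
  have h3 : ∀ b, (diagonal r * ∑ σ, ∑ τ, K σ τ • ((prodM M n σ)ᵀ * diagonal l * prodM M n τ)).diag b =
      ∑ a, ∑ σ, ∑ τ, r b * (K σ τ * (prodM M n σ a b * l a * prodM M n τ a b)) := by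
    intro b
    rw [Matrix.diag_apply, Matrix.diagonal_mul, h2 b, Finset.mul_sum]
    rw [Finset.sum_comm]
    apply Finset.sum_congr rfl
    intro σ _
    rw [Finset.mul_sum, Finset.sum_comm]
    apply Finset.sum_congr rfl
    intro τ _
    rw [Finset.mul_sum]
  rw [Finset.sum_congr rfl (fun b _ => h3 b)]
  conv_rhs => rw [Finset.sum_comm]
  apply Finset.sum_congr rfl
  intro a _
  apply Finset.sum_congr rfl
  intro b _
  rw [h1 a b, Finset.mul_sum]
  apply Finset.sum_congr rfl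
  intro σ _
  rw [Finset.mul_sum]
  apply Finset.sum_congr rfl
  intro τ _
  ring

theorem TO_one (A : Ten D) (X : RM D) : TO A 1 X = T A X := by
  unfold TO T
  apply Finset.sum_congr rfl
  intro s _
  rw [Finset.sum_eq_single s]
  · rw [Matrix.one_apply_eq, one_smul]
  · intro t _ hts
    rw [Matrix.one_apply_ne hts.symm, zero_smul]
  · intro h
    exact absurd (Finset.mem_univ _) h

theorem Tc_add (M : ℕ → Ten D) (m j k : ℕ) (X : RM D) :
    Tc M m (j + k) X = Tc M (m + j) k (Tc M m j X) := by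
  induction k with
  | zero => rfl
  | succ k ih =>
    show T (M (m + (j + k))) (Tc M m (j + k) X) = T (M (m + j + k)) (Tc M (m + j) k (Tc M m j X))
    rw [ih, add_assoc]

private theorem mps_TcO_tail (M : ℕ → Ten D) (O : ℕ → Matrix (Fin 3) (Fin 3) ℝ) (p : ℕ)
    (hO : ∀ i, p ≤ i → O i = 1) (k : ℕ) (X : RM D) : TcO M O (p + k) X = Tc M p k (TcO M O p X) := by
  induction k with
  | zero => rfl
  | succ k ih =>
    show TO (M (p + k)) (O (p + k)) (TcO M O (p + k) X) = T (M (p + k)) (Tc M p k (TcO M O p X))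
    rw [ih, hO (p + k) (by omega), TO_one]

private theorem mps_TcO_head (M : ℕ → Ten D) (O : ℕ → Matrix (Fin 3) (Fin 3) ℝ) (k : ℕ)
    (hO : ∀ i, i < k → O i = 1) (X : RM D) : TcO M O k X = Tc M 0 k X := by
  induction k with
  | zero => rfl
  | succ k ih =>
    show TO (M k) (O k) (TcO M O k X) = T (M (0 + k)) (Tc M 0 k X)
    rw [ih (fun i hi => hO i (by omega)), hO k (by omega), TO_one, zero_add]

private theorem mps_T_sum {ι : Type*} (s : Finset ι) (A : Ten D) (X : ι → RM D) :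
    T A (∑ i ∈ s, X i) = ∑ i ∈ s, T A (X i) := by
  unfold T
  rw [Finset.sum_comm]
  apply Finset.sum_congr rfl
  intro t _
  rw [Finset.mul_sum, Finset.sum_mul]

private theorem mps_Tc_sum {ι : Type*} (s : Finset ι) (M : ℕ → Ten D) (m k : ℕ) (X : ι → RM D) :
    Tc M m k (∑ i ∈ s, X i) = ∑ i ∈ s, Tc M m k (X i) := by
  induction k with
  | zero => rfl
  | succ k ih =>
    show T (M (m + k)) (Tc M m k (∑ i ∈ s, X i)) = _
    rw [ih, mps_T_sum]
    rfl

theorem mix_norm (M : ℕ → Ten D) (n : ℕ) (l r : Fin D → ℝ) :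
    ∑ a, ∑ b, l a * r b * (star (psi M n a b) ⬝ᵥ psi M n a b).re =
      trace (diagonal r * Tc M 0 n (diagonal l)) := by
  have h := mix_real M n 1 l r
  have h1 : ((1 : Matrix (Fin n → Fin 3) (Fin n → Fin 3) ℝ).map (fun x : ℝ => (x : ℂ))) = 1 := by
    ext σ τ
    rw [Matrix.map_apply, Matrix.one_apply, Matrix.one_apply]
    split_ifs <;> simp
  rw [h1] at h
  simp only [Matrix.one_mulVec] at h
  rw [h, ← mps_TcO_head M (fun _ => 1) n (fun _ _ => rfl) (diagonal l), ← sum_prodM M (fun _ => 1) n (diagonal l)]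
  congr 2
  apply Finset.sum_congr rfl
  intro σ _
  apply Finset.sum_congr rfl
  intro τ _
  congr 1
  simp only [Matrix.one_apply]
  rw [Finset.prod_boole]
  simp only [Finset.mem_univ, true_implies]
  by_cases h : σ = τ
  · subst h; simp
  · rw [if_neg h, if_neg]
    intro h'
    exact h (funext h')

private theorem mps_mix (M : ℕ → Ten D) (n : ℕ) {κ : Type} [Fintype κ] (H : Matrix (Fin n → Fin 3) (Fin n → Fin 3) ℂ)
    (O : κ → ℕ → Matrix (Fin 3) (Fin 3) ℝ)
    (hH : ∀ σ τ, H σ τ = ((∑ k, ∏ i : Fin n, O k i (σ i) (τ i) : ℝ) : ℂ)) (l r : Fin D → ℝ) :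
    ∑ a, ∑ b, l a * r b * (star (psi M n a b) ⬝ᵥ H.mulVec (psi M n a b)).re =
    trace (diagonal r * ∑ k, TcO M (O k) n (diagonal l)) := by
  have h1 : H = (Matrix.of (fun σ τ => ∑ k, ∏ i : Fin n, O k i (σ i) (τ i)) :
      Matrix (Fin n → Fin 3) (Fin n → Fin 3) ℝ).map (fun x : ℝ => (x : ℂ)) := by
    ext σ τ
    rw [hH, Matrix.map_apply, Matrix.of_apply]
  rw [h1, mix_real]
  congr 2
  simp only [Matrix.of_apply, Finset.sum_smul]
  have h2 : ∀ k, TcO M (O k) n (diagonal l) = ∑ σ : Fin n → Fin 3, ∑ τ : Fin n → Fin 3,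
      (∏ i : Fin n, O k i (σ i) (τ i)) • ((prodM M n σ)ᵀ * diagonal l * prodM M n τ) :=
    fun k => (sum_prodM M (O k) n (diagonal l)).symm
  rw [Finset.sum_congr rfl (fun k _ => h2 k)]
  conv_rhs => rw [Finset.sum_comm]
  apply Finset.sum_congr rfl
  intro σ _
  rw [Finset.sum_comm]

private theorem mps_prod_one {n : ℕ} (j : Fin n) (A : Matrix (Fin 3) (Fin 3) ℝ) (σ τ : Fin n → Fin 3) :
    ∏ i : Fin n, (if (i : ℕ) = j then A else 1 : Matrix (Fin 3) (Fin 3) ℝ) (σ i) (τ i) =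
      A (σ j) (τ j) * (if ∀ i, i ≠ j → σ i = τ i then 1 else 0) := by
  rw [← Finset.mul_prod_erase Finset.univ _ (Finset.mem_univ j), if_pos rfl]
  congr 1
  have h1 : ∀ i ∈ Finset.univ.erase j, (if (i : ℕ) = j then A else 1 : Matrix (Fin 3) (Fin 3) ℝ) (σ i) (τ i) =
      if σ i = τ i then 1 else 0 := by
    intro i hi
    have : ¬ ((i : ℕ) = j) := fun h => (Finset.ne_of_mem_erase hi) (Fin.ext h)
    rw [if_neg this, Matrix.one_apply]
  rw [Finset.prod_congr rfl h1, Finset.prod_boole]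
  congr 1
  simp only [Finset.mem_erase, Finset.mem_univ, and_true]

private theorem mps_prod_two {n : ℕ} (j k : Fin n) (hjk : j ≠ k) (A B : Matrix (Fin 3) (Fin 3) ℝ) (σ τ : Fin n → Fin 3) :
    ∏ i : Fin n, (if (i : ℕ) = j then A else if (i : ℕ) = k then B else 1 : Matrix (Fin 3) (Fin 3) ℝ) (σ i) (τ i) =
      A (σ j) (τ j) * B (σ k) (τ k) * (if ∀ i, i ≠ j → i ≠ k → σ i = τ i then 1 else 0) := by
  have hk : k ∈ Finset.univ.erase j := Finset.mem_erase.mpr ⟨hjk.symm, Finset.mem_univ _⟩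
  have hkj : ¬ ((k : ℕ) = j) := fun h => hjk (Fin.ext h.symm)
  rw [← Finset.mul_prod_erase Finset.univ _ (Finset.mem_univ j), if_pos rfl,
    ← Finset.mul_prod_erase (Finset.univ.erase j) _ hk, if_neg hkj, if_pos rfl, ← mul_assoc]
  congr 1
  have h1 : ∀ i ∈ (Finset.univ.erase j).erase k,
      (if (i : ℕ) = j then A else if (i : ℕ) = k then B else 1 : Matrix (Fin 3) (Fin 3) ℝ) (σ i) (τ i) =
      if σ i = τ i then 1 else 0 := by
    intro i hi
    rw [Finset.mem_erase, Finset.mem_erase] at hi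
    have h2 : ¬ ((i : ℕ) = j) := fun h => hi.2.1 (Fin.ext h)
    have h3 : ¬ ((i : ℕ) = k) := fun h => hi.1 (Fin.ext h)
    rw [if_neg h2, if_neg h3, Matrix.one_apply]
  rw [Finset.prod_congr rfl h1, Finset.prod_boole]
  congr 1
  simp only [Finset.mem_erase, Finset.mem_univ, and_true, eq_iff_iff]
  constructor
  · intro h i h2 h3
    exact h i ⟨h3, h2⟩
  · intro h i h2
    exact h i h2.2 h2.1

theorem mix_bond (M : ℕ → Ten D) (n : ℕ) (j : Fin n) (l r : Fin D → ℝ) :
    ∑ a, ∑ b, l a * r b * (star (psi M (n + 1) a b) ⬝ᵥ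
      (bond (Fin.castSucc j) (Fin.succ j)).mulVec (psi M (n + 1) a b)).re =
    trace (diagonal r * Tc M (j + 2) (n - 1 - j)
      (∑ κ, TO (M (j + 1)) (opR κ) (TO (M j) (opL κ) (Tc M 0 j (diagonal l))))) := by
  have hne : Fin.castSucc j ≠ Fin.succ j := by
    intro h
    have := congrArg Fin.val h
    simp at this
  have h := mps_mix M (n + 1) (κ := Fin 3) (bond (Fin.castSucc j) (Fin.succ j))
    (fun κ i => if i = ((Fin.castSucc j : Fin (n + 1)) : ℕ) then opL κ else
      if i = ((Fin.succ j : Fin (n + 1)) : ℕ) then opR κ else 1) (by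
      intro σ τ
      rw [bond_apply hne σ τ]
      congr 1
      rw [Finset.sum_mul]
      apply Finset.sum_congr rfl
      intro κ _
      rw [mps_prod_two (Fin.castSucc j) (Fin.succ j) hne (opL κ) (opR κ) σ τ]
      congr!) l r
  rw [h]
  congr 2
  rw [mps_Tc_sum]
  apply Finset.sum_congr rfl
  intro κ _
  have hj := j.2
  have hO : (fun i : ℕ => if i = ((Fin.castSucc j : Fin (n + 1)) : ℕ) then opL κ else
      if i = ((Fin.succ j : Fin (n + 1)) : ℕ) then opR κ else 1) =
      (fun i : ℕ => if i = (j : ℕ) then opL κ else if i = (j : ℕ) + 1 then opR κ else 1) := by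
    funext i
    rw [Fin.val_castSucc, Fin.val_succ]
  rw [hO]
  have e1 : n + 1 = (j + 2) + (n - 1 - j) := by omega
  rw [e1, mps_TcO_tail M _ (j + 2) (fun i hi => by
    have h1 : ¬ (i = (j : ℕ)) := by omega
    have h2 : ¬ (i = (j : ℕ) + 1) := by omega
    simp only [h1, h2, if_false])]
  congr 1
  have e2 : TcO M (fun i : ℕ => if i = (j : ℕ) then opL κ else if i = (j : ℕ) + 1 then opR κ else 1) (j + 2) (diagonal l) =
      TO (M (j + 1)) (if ((j : ℕ) + 1) = (j : ℕ) then opL κ else if ((j : ℕ) + 1) = (j : ℕ) + 1 then opR κ else 1)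
      (TO (M j) (if (j : ℕ) = (j : ℕ) then opL κ else if (j : ℕ) = (j : ℕ) + 1 then opR κ else 1)
      (TcO M (fun i : ℕ => if i = (j : ℕ) then opL κ else if i = (j : ℕ) + 1 then opR κ else 1) j (diagonal l))) := rfl
  rw [e2]
  have h1 : ¬ (((j : ℕ) + 1) = (j : ℕ)) := by omega
  rw [if_neg h1, if_pos rfl, if_pos rfl]
  congr 2
  apply mps_TcO_head
  intro i hi
  have h4 : ¬ (i = (j : ℕ)) := by omega
  have h5 : ¬ (i = (j : ℕ) + 1) := by omega
  simp only [h4, h5, if_false]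

theorem mix_first (M : ℕ → Ten D) (n : ℕ) (l r : Fin D → ℝ) :
    ∑ a, ∑ b, l a * r b * (star (psi M (n + 1) a b) ⬝ᵥ
      (onSite spinZ (0 : Fin (n + 1))).mulVec (psi M (n + 1) a b)).re =
    trace (diagonal r * Tc M 1 n (TO (M 0) (opL 0) (diagonal l))) := by
  have h := mps_mix M (n + 1) (κ := Unit) (onSite spinZ (0 : Fin (n + 1)))
    (fun _ i => if i = ((0 : Fin (n + 1)) : ℕ) then opL 0 else 1) (by
      intro σ τ
      rw [spinZ_apply, Fintype.sum_unique]
      congr 1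
      rw [mps_prod_one (0 : Fin (n + 1)) (opL 0) σ τ]
      congr!) l r
  rw [h, Fintype.sum_unique]
  congr 2
  have hO : (fun i : ℕ => if i = ((0 : Fin (n + 1)) : ℕ) then opL 0 else 1) =
      (fun i : ℕ => if i = 0 then opL 0 else (1 : Matrix (Fin 3) (Fin 3) ℝ)) := by
    funext i
    rw [Fin.val_zero]
  rw [hO]
  have e1 : n + 1 = 1 + n := by omega
  rw [e1, mps_TcO_tail M _ 1 (fun i hi => by
    have h1 : ¬ (i = 0) := by omega
    simp only [h1, if_false])]
  rfl

theorem mix_last (M : ℕ → Ten D) (n : ℕ) (l r : Fin D → ℝ) :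
    ∑ a, ∑ b, l a * r b * (star (psi M (n + 1) a b) ⬝ᵥ
      (onSite spinZ (Fin.last n)).mulVec (psi M (n + 1) a b)).re =
    trace (diagonal r * TO (M n) (opL 0) (Tc M 0 n (diagonal l))) := by
  have h := mps_mix M (n + 1) (κ := Unit) (onSite spinZ (Fin.last n))
    (fun _ i => if i = ((Fin.last n : Fin (n + 1)) : ℕ) then opL 0 else 1) (by
      intro σ τ
      rw [spinZ_apply, Fintype.sum_unique]
      congr 1
      rw [mps_prod_one (Fin.last n) (opL 0) σ τ]
      congr!) l r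
  rw [h, Fintype.sum_unique]
  congr 2
  show TO (M n) (if n = ((Fin.last n : Fin (n + 1)) : ℕ) then opL 0 else 1) (TcO M _ n (diagonal l)) = _
  rw [if_pos (by rw [Fin.val_last])]
  congr 1
  apply mps_TcO_head
  intro i hi
  have h1 : ¬ (i = ((Fin.last n : Fin (n + 1)) : ℕ)) := by
    rw [Fin.val_last]; omega
  simp only [h1, if_false]

theorem two_site (A B : Ten D) (X : RM D) :
    T B (T A X) - ∑ κ, TO B (opR κ) (TO A (opL κ) X) = TW A B X := by
  unfold T TO TW W4
  simp only [Fin.sum_univ_three, Fin.sum_univ_four, opL, opR, Matrix.of_apply, Matrix.cons_val_zero,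
    Matrix.cons_val_one, Matrix.cons_val, zero_smul, one_smul, neg_smul, add_zero, zero_add,
    Matrix.transpose_sub, Matrix.transpose_add, Matrix.transpose_mul]
  noncomm_ring

end Crest.Agent.HGD
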