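import Crest.Agent.HGD_Defs

/-!
# HGD, task HGD-Op: operator identities

`bond_apply`: `onSite A j * onSite B k` for `j ≠ k` has the entry
`A (σ j) (τ j) * B (σ k) (τ k)` if `σ = τ` off `{j, k}` (the intermediate configuration is unique),
0 otherwise; then `spin_pair` (81 cases, only needs `√2 * √2 = 2`).
`ev_bond_le`: `1 - S·S ≥ 0`: with `a = ψ`, group the configurations by their values off `{j,k}`;
for real or complex `ψ`:
`⟨ψ,ψ⟩ - ⟨ψ|S·S|ψ⟩ = (1/2) ∑ σ, |ψ σ - ψ (σ ∘ swap j k)|² + ∑_{σ j = 1, σ k = 1} |ψ(0,2) - ψ(1,1) + ψ(2,0)|²`.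
(Alternative proof: the 9 × 9 matrix `1 - S·S` is `∑ w wᵀ` for 4 explicit integer vectors `w`, hence
`onSite`-embedded: `1 - bond j k = ∑_w (E_w)ᴴ E_w` is PosSemidef.)
-/

set_option autoImplicit false

namespace Crest.Agent.HGD

open Matrix Crest.MathPhysics.SpinChain Crest.Agent.HG
open scoped ComplexOrder

theorem op_spinPlus (s t : Fin 3) :
    spinPlus s t = ((Real.sqrt 2 : ℝ) : ℂ) * ((opL 1 s t : ℝ) : ℂ) := by
  fin_cases s <;> fin_cases t <;> simp [spinPlus, opL]

theorem op_spinMinus (s t : Fin 3) :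
    spinMinus s t = ((Real.sqrt 2 : ℝ) : ℂ) * ((opL 2 s t : ℝ) : ℂ) := by
  fin_cases s <;> fin_cases t <;> simp [spinMinus, spinPlus, opL]

theorem op_spinZ (s t : Fin 3) : spinZ s t = ((opL 0 s t : ℝ) : ℂ) := by
  fin_cases s <;> fin_cases t <;> simp [spinZ, magneticNumber, opL] <;> norm_num

theorem opR_eq : (opR 0 = opL 0) ∧ (opR 1 = opL 2) ∧ (opR 2 = opL 1) := by
  refine ⟨?_, ?_, ?_⟩ <;> simp [opR, opL]

theorem spin_pair (s s' t t' : Fin 3) :
    ∑ a, spinOp a s s' * spinOp a t t' = ((∑ κ, opL κ s s' * opR κ t t' : ℝ) : ℂ) := by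
  have h2 : ((Real.sqrt 2 : ℝ) : ℂ) * ((Real.sqrt 2 : ℝ) : ℂ) = 2 := by
    rw [← Complex.ofReal_mul, Real.mul_self_sqrt (by norm_num)]; norm_num
  have hI : Complex.I * Complex.I = -1 := Complex.I_mul_I
  have hI0 : Complex.I ≠ 0 := Complex.I_ne_zero
  obtain ⟨hR0, hR1, hR2⟩ := opR_eq
  rw [Fin.sum_univ_three, Fin.sum_univ_three, hR0, hR1, hR2]
  have e0 : spinOp 0 = spinX := rfl
  have e1 : spinOp 1 = spinY := rfl
  have e2 : spinOp 2 = spinZ := rfl
  rw [e0, e1, e2]
  have hX : ∀ a b, spinX a b = (1 / 2 : ℂ) * (spinPlus a b + spinMinus a b) := fun a b => by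
    simp [spinX]
  have hY : ∀ a b, spinY a b = (-(Complex.I / 2) : ℂ) * (spinPlus a b - spinMinus a b) := fun a b => by
    have : (1 / (2 * Complex.I) : ℂ) = -(Complex.I / 2) := by
      field_simp
      rw [pow_two, hI]
      norm_num
    simp only [spinY, Matrix.smul_apply, Matrix.sub_apply, smul_eq_mul, this]
  rw [hX, hX, hY, hY, op_spinZ, op_spinZ, op_spinPlus, op_spinPlus, op_spinMinus, op_spinMinus]
  push_cast
  set p := ((opL 1 s s' : ℝ) : ℂ)
  set m := ((opL 2 s s' : ℝ) : ℂ)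
  set p' := ((opL 1 t t' : ℝ) : ℂ)
  set m' := ((opL 2 t t' : ℝ) : ℂ)
  set r := ((Real.sqrt 2 : ℝ) : ℂ)
  have : (1 / 2 * (r * p + r * m) * (1 / 2 * (r * p' + r * m')) +
      -(Complex.I / 2) * (r * p - r * m) * (-(Complex.I / 2) * (r * p' - r * m')) : ℂ) =
      p * m' + m * p' := by
    have : (1 / 2 * (r * p + r * m) * (1 / 2 * (r * p' + r * m')) +
      -(Complex.I / 2) * (r * p - r * m) * (-(Complex.I / 2) * (r * p' - r * m')) : ℂ) =
      (r * r) * ((p + m) * (p' + m') + (Complex.I * Complex.I) * ((p - m) * (p' - m'))) / 4 := by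
      ring
    rw [this, h2, hI]; ring
  rw [this]; ring

theorem onSite_mul_onSite_apply {ι : Type*} [Fintype ι] [DecidableEq ι] {j k : ι} (hjk : j ≠ k)
    (A B : Matrix (Fin 3) (Fin 3) ℂ) (σ τ : ι → Fin 3) :
    (onSite A j * onSite B k) σ τ = A (σ j) (τ j) * B (σ k) (τ k) *
      (if ∀ i, i ≠ j → i ≠ k → σ i = τ i then 1 else 0) := by
  rw [Matrix.mul_apply]
  rw [Finset.sum_eq_single (Function.update σ j (τ j))]
  · have h1 : ∀ i, i ≠ j → σ i = Function.update σ j (τ j) i := fun i hi => by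
      rw [Function.update_of_ne hi]
    simp only [onSite, Matrix.of_apply]
    rw [if_pos h1, Function.update_self, Function.update_of_ne hjk.symm]
    by_cases h : ∀ i, i ≠ j → i ≠ k → σ i = τ i
    · rw [if_pos h, if_pos]
      · ring
      · intro i hi
        by_cases hij : i = j
        · subst hij; rw [Function.update_self]
        · rw [Function.update_of_ne hij]; exact h i hij hi
    · rw [if_neg h, if_neg]
      · ring
      · intro h'
        apply h
        intro i hij hik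
        have := h' i hik
        rwa [Function.update_of_ne hij] at this
  · intro ρ _ hρ
    simp only [onSite, Matrix.of_apply]
    by_cases h1 : ∀ i, i ≠ j → σ i = ρ i
    · by_cases h2 : ∀ i, i ≠ k → ρ i = τ i
      · exfalso
        apply hρ
        funext i
        by_cases hij : i = j
        · subst hij; rw [Function.update_self, h2 i hjk]
        · rw [Function.update_of_ne hij, h1 i hij]
      · rw [if_neg h2, mul_zero]
    · rw [if_neg h1, zero_mul]
  · intro h; exact absurd (Finset.mem_univ _) h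

theorem bond_apply {ι : Type*} [Fintype ι] [DecidableEq ι] {j k : ι} (hjk : j ≠ k)
    (σ τ : ι → Fin 3) :
    bond j k σ τ = (((∑ κ, opL κ (σ j) (τ j) * opR κ (σ k) (τ k)) *
      (if ∀ i, i ≠ j → i ≠ k → σ i = τ i then 1 else 0) : ℝ) : ℂ) := by
  unfold bond
  rw [Matrix.sum_apply]
  simp only [onSite_mul_onSite_apply hjk]
  rw [← Finset.sum_mul, spin_pair]
  push_cast
  split_ifs <;> simp

theorem spinZ_apply {ι : Type*} [Fintype ι] [DecidableEq ι] (j : ι) (σ τ : ι → Fin 3) :
    onSite spinZ j σ τ = ((opL 0 (σ j) (τ j) *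
      (if ∀ i, i ≠ j → σ i = τ i then 1 else 0) : ℝ) : ℂ) := by
  simp only [onSite, Matrix.of_apply, op_spinZ]
  split_ifs <;> simp

/-- the four vectors with `1 - S·S = ∑ w wᵀ`. -/
def opW : Fin 4 → Matrix (Fin 3) (Fin 3) ℝ :=
  ![!![0, 1, 0; -1, 0, 0; 0, 0, 0], !![0, 0, 1; 0, 0, 0; -1, 0, 0],
    !![0, 0, 0; 0, 0, 1; 0, -1, 0], !![0, 0, 1; 0, -1, 0; 1, 0, 0]]

theorem opW_sum (s s' t t' : Fin 3) :
    (if s = s' ∧ t = t' then (1 : ℝ) else 0) - ∑ κ, opL κ s s' * opR κ t t' =
      ∑ w, opW w s t * opW w s' t' := by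
  rw [Fin.sum_univ_three, Fin.sum_univ_four]
  fin_cases s <;> fin_cases s' <;> fin_cases t <;> fin_cases t' <;>
    simp [opL, opR, opW]

/-- the embedded functional. -/
noncomputable def opK {ι : Type*} [DecidableEq ι] [Fintype ι] (j k : ι) (w : Fin 4) :
    Matrix (ι → Fin 3) (ι → Fin 3) ℂ :=
  Matrix.of fun ρ σ => if ρ = Function.update (Function.update σ j 0) k 0 then
    ((opW w (σ j) (σ k) : ℝ) : ℂ) else 0

theorem opK_sq {ι : Type*} [DecidableEq ι] [Fintype ι] {j k : ι} (hjk : j ≠ k) (w : Fin 4)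
    (σ τ : ι → Fin 3) :
    ((opK j k w)ᴴ * opK j k w) σ τ =
      (((opW w (σ j) (σ k) * opW w (τ j) (τ k)) *
        (if ∀ i, i ≠ j → i ≠ k → σ i = τ i then 1 else 0) : ℝ) : ℂ) := by
  rw [Matrix.mul_apply]
  simp only [Matrix.conjTranspose_apply, opK, Matrix.of_apply]
  rw [Finset.sum_eq_single (Function.update (Function.update σ j 0) k 0)]
  · rw [if_pos rfl]
    by_cases h : ∀ i, i ≠ j → i ≠ k → σ i = τ i
    · rw [if_pos h, if_pos]
      · simp
      · funext i
        by_cases hk : i = k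
        · subst hk; simp
        · rw [Function.update_of_ne hk, Function.update_of_ne hk]
          by_cases hj : i = j
          · subst hj; simp
          · rw [Function.update_of_ne hj, Function.update_of_ne hj, h i hj hk]
    · rw [if_neg h, if_neg]
      · simp
      · intro h'
        apply h
        intro i hj hk
        have := congrFun h' i
        rwa [Function.update_of_ne hk, Function.update_of_ne hk, Function.update_of_ne hj,
          Function.update_of_ne hj] at this
  · intro ρ _ hρ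
    rw [if_neg hρ]; simp
  · intro h; exact absurd (Finset.mem_univ _) h

theorem one_sub_bond {ι : Type*} [Fintype ι] [DecidableEq ι] {j k : ι} (hjk : j ≠ k) :
    (1 : Matrix (ι → Fin 3) (ι → Fin 3) ℂ) - bond j k = ∑ w, (opK j k w)ᴴ * opK j k w := by
  ext σ τ
  rw [Matrix.sub_apply, Matrix.sum_apply, bond_apply hjk]
  simp only [opK_sq hjk]
  rw [← Complex.ofReal_sum, ← Finset.sum_mul, ← opW_sum]
  by_cases h : ∀ i, i ≠ j → i ≠ k → σ i = τ i
  · simp only [if_pos h, mul_one]
    by_cases h2 : σ j = τ j ∧ σ k = τ k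
    · have : σ = τ := by
        funext i
        by_cases hj : i = j
        · subst hj; exact h2.1
        · by_cases hk : i = k
          · subst hk; exact h2.2
          · exact h i hj hk
      rw [if_pos h2, this, Matrix.one_apply_eq]; push_cast; ring
    · have : σ ≠ τ := fun e => h2 (by subst e; exact ⟨rfl, rfl⟩)
      rw [if_neg h2, Matrix.one_apply_ne this]; push_cast; ring
  · have : σ ≠ τ := fun e => h (fun i _ _ => by rw [e])
    simp only [if_neg h, mul_zero, Matrix.one_apply_ne this]; push_cast; ring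

theorem ev_bond_le {ι : Type*} [Fintype ι] [DecidableEq ι] {j k : ι} (hjk : j ≠ k)
    (ψ : (ι → Fin 3) → ℂ) :
    (star ψ ⬝ᵥ (bond j k).mulVec ψ).re ≤ (star ψ ⬝ᵥ ψ).re := by
  have h : 0 ≤ (star ψ ⬝ᵥ ((1 : Matrix (ι → Fin 3) (ι → Fin 3) ℂ) - bond j k).mulVec ψ).re := by
    rw [one_sub_bond hjk, Matrix.sum_mulVec, dotProduct_sum, Complex.re_sum]
    refine Finset.sum_nonneg fun w _ => ?_
    have hp := (Matrix.posSemidef_conjTranspose_mul_self (opK j k w)).dotProduct_mulVec_nonneg ψ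
    exact (Complex.le_def.1 hp).1
  rw [Matrix.sub_mulVec, dotProduct_sub, Matrix.one_mulVec, Complex.sub_re] at h
  linarith

theorem ringH_eq_bond (n : ℕ) :
    ringH sOne n = ∑ j : Fin n, bond j (finRotate n j) := by
  unfold ringH bond
  refine Finset.sum_congr rfl fun j _ => Finset.sum_congr rfl fun a _ => ?_
  have : ((if (j : ℕ) + 1 = n then sOne a else 1 : ℝ)) = 1 := by
    split_ifs <;> rfl
  rw [this, Complex.ofReal_one, one_smul]

theorem ringH_succ (n : ℕ) (hn : 1 ≤ n) :
    ringH sOne (n + 1) = (∑ j : Fin n, bond (Fin.castSucc j) (Fin.succ j)) +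
      bond (Fin.last n) 0 := by
  rw [ringH_eq_bond, Fin.sum_univ_castSucc]
  have h1 : ∀ j : Fin n, finRotate (n + 1) (Fin.castSucc j) = Fin.succ j := fun j =>
    finRotate_of_lt j.2
  have h2 : finRotate (n + 1) (Fin.last n) = 0 := finRotate_last
  rw [h2]
  congr 1
  refine Finset.sum_congr rfl fun j _ => ?_
  rw [h1]

end Crest.Agent.HGD
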