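import Crest.Agent.HGD_KerC
import Crest.Agent.HGD_Dat

/-!
# HGD (Haldane gap, part D): from the checked data to the hypotheses of `open_bound`, `ring_bound`
-/

set_option autoImplicit false

namespace Crest.Agent.HGD.Ker

open Matrix Finset

noncomputable section

/-- the site tensor (88 fractional bits) -/
def ten (S : SD) : Ten 24 := fun s => ((1 : ℝ) / 2 ^ 88) • iten 24 S.A0 S.A1 S.A2 s

def lv (B : BD) : Fin 24 → ℝ := lvec 24 B.l
def rv (B : BD) : Fin 24 → ℝ := lvec 24 B.rl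

/-- the error parameter -/
def dl : ℝ := 1 / 10 ^ 15

theorem length_onesL (n : ℕ) : (onesL n).length = n := by
  induction n with
  | zero => rfl
  | succ n ih => exact congrArg Nat.succ ih

theorem T_ten (S : SD) (X : RM 24) :
    T (ten S) X = ((1 : ℝ) / 2 ^ 176) • T (iten 24 S.A0 S.A1 S.A2) X := by
  unfold T ten
  rw [Finset.smul_sum]
  apply Finset.sum_congr rfl
  intro s _
  rw [Matrix.transpose_smul, Matrix.smul_mul, Matrix.smul_mul, Matrix.mul_smul, smul_smul]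
  congr 1
  norm_num

theorem Tdag_ten (S : SD) (X : RM 24) :
    Tdag (ten S) X = ((1 : ℝ) / 2 ^ 176) • Tdag (iten 24 S.A0 S.A1 S.A2) X := by
  unfold Tdag ten
  rw [Finset.smul_sum]
  apply Finset.sum_congr rfl
  intro s _
  rw [Matrix.transpose_smul, Matrix.smul_mul, Matrix.smul_mul, Matrix.mul_smul, smul_smul]
  congr 1
  norm_num

theorem TO_ten (S : SD) (O : Matrix (Fin 3) (Fin 3) ℝ) (X : RM 24) :
    TO (ten S) O X = ((1 : ℝ) / 2 ^ 176) • TO (iten 24 S.A0 S.A1 S.A2) O X := by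
  unfold TO ten
  rw [Finset.smul_sum]
  apply Finset.sum_congr rfl
  intro s _
  rw [Finset.smul_sum]
  apply Finset.sum_congr rfl
  intro t _
  rw [Matrix.transpose_smul, Matrix.smul_mul, Matrix.smul_mul, Matrix.mul_smul, smul_smul,
    smul_smul, smul_smul]
  congr 1
  ring

theorem W4_smul (c : ℝ) (A B : Ten 24) (k : Fin 4) :
    W4 (fun s => c • A s) (fun s => c • B s) k = (c * c) • W4 A B k := by
  have h : ∀ s t, (c • A s) * (c • B t) = (c * c) • (A s * B t) := by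
    intro s t
    rw [Matrix.smul_mul, Matrix.mul_smul, smul_smul]
  fin_cases k <;> simp only [W4, h] <;> simp [smul_sub, smul_add]

theorem TW_ten (S S' : SD) (X : RM 24) :
    TW (ten S) (ten S') X = ((1 : ℝ) / 2 ^ 352) •
      TW (iten 24 S.A0 S.A1 S.A2) (iten 24 S'.A0 S'.A1 S'.A2) X := by
  unfold TW
  rw [Finset.smul_sum]
  apply Finset.sum_congr rfl
  intro k _
  have h : W4 (ten S) (ten S') k = (((1 : ℝ) / 2 ^ 88) * ((1 : ℝ) / 2 ^ 88)) •
      W4 (iten 24 S.A0 S.A1 S.A2) (iten 24 S'.A0 S'.A1 S'.A2) k := W4_smul _ _ _ _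
  have h' : ∀ x : ℝ, (1 / x ^ 88 * (1 / x ^ 88)) * (1 / x ^ 88 * (1 / x ^ 88)) = 1 / x ^ 352 := by
    intro x
    ring
  rw [h, Matrix.transpose_smul, Matrix.smul_mul, Matrix.smul_mul, Matrix.mul_smul, smul_smul, h']

/-- everything that is known about a site -/
structure Good (S : SD) (B B' : BD) : Prop where
  hd : S.d = B.d
  h24 : S.d ≤ 24
  h24' : B'.d ≤ 24
  ok : okSite S B B' = true

theorem Good.low {S : SD} {B B' : BD} (h : Good S B B') :
    (T (ten S) (diagonal (lv B)) - (1 - dl) • diagonal (lv B')).PosSemidef := by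
  have h1 := siteOK_low (D := 24) (d := S.d) h.h24 (Δ := Dl) (s2 := Nat.pow 2 176)
    (by unfold Dl; norm_num) (A0 := S.A0) (A1 := S.A1) (A2 := S.A2) (l := B.l) (r := B.rl)
    (l' := B'.l) (r' := B'.rl) (length_decRows _ _) (length_decRows _ _) (length_decRows _ _)
    ((length_onesL _).trans h.hd.symm) h.ok
  have h2 := h1.smul (a := (1 : ℝ) / (10 ^ 15 * 2 ^ 176)) (by positivity)
  rw [T_ten]
  convert h2 using 1
  unfold lv dl
  rw [smul_sub, smul_smul, smul_smul]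
  congr 2
  · unfold Dl; norm_num
  · unfold Dl; norm_num

theorem Good.upp {S : SD} {B B' : BD} (h : Good S B B') :
    ((1 + dl) • diagonal (lv B') - T (ten S) (diagonal (lv B))).PosSemidef := by
  have h1 := siteOK_upp (D := 24) (d := S.d) h.h24 (Δ := Dl) (s2 := Nat.pow 2 176)
    (by unfold Dl; norm_num) (A0 := S.A0) (A1 := S.A1) (A2 := S.A2) (l := B.l) (r := B.rl)
    (l' := B'.l) (r' := B'.rl) (length_decRows _ _) (length_decRows _ _) (length_decRows _ _)
    ((length_onesL _).trans h.hd.symm) h.ok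
  have h2 := h1.smul (a := (1 : ℝ) / (10 ^ 15 * 2 ^ 176)) (by positivity)
  rw [T_ten]
  convert h2 using 1
  unfold lv dl
  rw [smul_sub, smul_smul, smul_smul]
  congr 2
  · unfold Dl; norm_num
  · unfold Dl; norm_num

theorem Good.dual {S : SD} {B B' : BD} (h : Good S B B') :
    (Tdag (ten S) (diagonal (rv B')) - (1 - dl) • diagonal (rv B)).PosSemidef := by
  have h1 := siteOK_dual (D := 24) (d := S.d) h.h24 (Δ := Dl) (s2 := Nat.pow 2 176)
    (by unfold Dl; norm_num) (A0 := S.A0) (A1 := S.A1) (A2 := S.A2) (l := B.l) (r := B.rl)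
    (l' := B'.l) (r' := B'.rl) (length_decRows _ _) (length_decRows _ _) (length_decRows _ _)
    ((length_decNats _ _).trans h.hd.symm) ((length_decNats _ _).le.trans h.h24') h.ok
  have h2 := h1.smul (a := (1 : ℝ) / (10 ^ 15 * 2 ^ 176)) (by positivity)
  rw [Tdag_ten]
  convert h2 using 1
  unfold rv dl
  rw [smul_sub, smul_smul, smul_smul]
  congr 2
  · unfold Dl; norm_num
  · unfold Dl; norm_num

/-- energy of a bond from the kernel computation -/
theorem en_real {S S' : SD} {B B2 : BD} {c : ℕ} (hS : S.d = B.d) (h1 : S.d ≤ 24) (h2 : S'.d ≤ 24)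
    (h3 : B2.d ≤ 24) (h : Nat.ble (sc c) (enS S S' B B2) = true) :
    (c : ℝ) * 2 ^ 60 ≤ trace (diagonal (rv B2) * TW (ten S) (ten S') (diagonal (lv B))) := by
  have h0 : c * 2 ^ 412 ≤ enS S S' B B2 := Nat.le_of_ble_eq_true h
  have h4 : ((c * 2 ^ 412 : ℕ) : ℝ) ≤ (enS S S' B B2 : ℝ) := Nat.cast_le.mpr h0
  have h5 := energy_eq (D := 24) (d := S.d) h1 (A0 := S.A0) (A1 := S.A1) (A2 := S.A2)
    (B0 := S'.A0) (B1 := S'.A1) (B2 := S'.A2) (l := B.l) (r := B2.rl) (length_decRows _ _)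
    (length_decRows _ _) (length_decRows _ _) ((length_onesL _).trans hS.symm)
    ((length_decNats _ _).le.trans h3) ((length_decRows _ _).le.trans h2)
    ((length_decRows _ _).le.trans h2) ((length_decRows _ _).le.trans h2)
  unfold enS at h4
  rw [h5] at h4
  rw [TW_ten, Matrix.mul_smul, Matrix.trace_smul, smul_eq_mul]
  unfold rv lv
  rw [Nat.cast_mul, Nat.cast_pow, Nat.cast_ofNat] at h4
  have h6 : (c : ℝ) * 2 ^ 60 = (1 / 2 ^ 352) * ((c : ℝ) * 2 ^ 412) := by
    rw [show (2 : ℝ) ^ 412 = 2 ^ 352 * 2 ^ 60 by rw [← pow_add]]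
    field_simp
  rw [h6]
  exact mul_le_mul_of_nonneg_left h4 (by positivity)

/-- the end fields -/
theorem diagE_real {S : SD} {B B2 : BD} {c c0 c1 c2 : ℕ} (hS : S.d = B.d) (h1 : S.d ≤ 24)
    (h3 : B2.d ≤ 24)
    (h : Nat.ble (sd c)
      (diagE c0 c1 c2 S.A0 S.A1 S.A2 B.l B2.rl) = true) :
    (c : ℝ) * 2 ^ 60 ≤ trace (diagonal (rv B2) *
      TO (ten S) (diagonal ![(c0 : ℝ), c1, c2]) (diagonal (lv B))) := by
  have h0 : c * 2 ^ 236 ≤ diagE c0 c1 c2 S.A0 S.A1 S.A2 B.l B2.rl := Nat.le_of_ble_eq_true h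
  have h4 : ((c * 2 ^ 236 : ℕ) : ℝ) ≤ (diagE c0 c1 c2 S.A0 S.A1 S.A2 B.l B2.rl : ℝ) :=
    Nat.cast_le.mpr h0
  have h5 := diagE_eq (D := 24) (d := S.d) h1 c0 c1 c2 (A0 := S.A0) (A1 := S.A1) (A2 := S.A2)
    (l := B.l) (r := B2.rl) (length_decRows _ _)
    (length_decRows _ _) (length_decRows _ _) ((length_onesL _).trans hS.symm)
    ((length_decNats _ _).le.trans h3)
  rw [h5] at h4
  rw [TO_ten, Matrix.mul_smul, Matrix.trace_smul, smul_eq_mul]
  unfold rv lv
  rw [Nat.cast_mul, Nat.cast_pow, Nat.cast_ofNat] at h4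
  have h6 : (c : ℝ) * 2 ^ 60 = (1 / 2 ^ 176) * ((c : ℝ) * 2 ^ 236) := by
    rw [show (2 : ℝ) ^ 236 = 2 ^ 176 * 2 ^ 60 by rw [← pow_add]]
    field_simp
  rw [h6]
  exact mul_le_mul_of_nonneg_left h4 (by positivity)

theorem dotLR_real (B : BD) : ((dotLR B : ℕ) : ℝ) = ∑ a, lv B a * rv B a := by
  have h : ∀ n : ℕ, ((Nat.rec 0 (fun a ih => Nat.add (Nat.mul (nthN a B.l) (nthN a B.rl)) ih) n
      : ℕ) : ℝ) = ∑ a ∈ range n, ((B.l.getD a 0 : ℕ) : ℝ) * ((B.rl.getD a 0 : ℕ) : ℝ) := by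
    intro n
    induction n with
    | zero => simp
    | succ n ih =>
      rw [Finset.sum_range_succ, ← ih]
      change ((Nat.add (Nat.mul (nthN n B.l) (nthN n B.rl)) _ : ℕ) : ℝ) = _
      rw [nthN_eq, nthN_eq, Nat.add_eq, Nat.mul_eq]
      push_cast
      ring
  unfold dotLR
  rw [h 24, Finset.sum_range]
  rfl

end

end Crest.Agent.HGD.Ker
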