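import Crest.Agent.HG_CM

/-! HG part C: compact encoding of the readouts. -/

set_option autoImplicit false

namespace Crest.Agent.HGR
open Crest.Agent.HG

/-- `n` triples of 72-bit numbers, lowest first. -/
noncomputable def decE (n : Nat) : Nat → List (List Nat) :=
  @Nat.rec (fun _ => Nat → List (List Nat)) (fun _ => [])
    (fun _ ih x => List.cons
      [Nat.land x 4722366482869645213695, Nat.land (Nat.shiftRight x 72) 4722366482869645213695,
        Nat.land (Nat.shiftRight x 144) 4722366482869645213695]
      (ih (Nat.shiftRight x 216))) n

end Crest.Agent.HGR
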