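import Crest.Agent.HGR_Base

/-! HG part C: partial sums of the readouts. -/

set_option autoImplicit false

namespace Crest.Agent.HGR
open Crest.Agent.HG

/-- `tot` with a start value -/
noncomputable def foldT (a : List Run) (T : List (List Nat)) : List (List Nat) :=
  @List.rec Run (fun _ => List (List Nat)) T (fun r _ ih => addLL r.wt r.e ih) a

theorem foldT_cons (r : Run) (a : List Run) (T : List (List Nat)) :
    foldT (r :: a) T = addLL r.wt r.e (foldT a T) := rfl

theorem tot_eq_foldT (K : Nat) (a : List Run) :
    tot K a = foldT a (List.replicate K [0, 0, 0]) := rfl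

theorem tot_append (K : Nat) (a b : List Run) : tot K (a ++ b) = foldT a (tot K b) := by
  induction a with
  | nil => rfl
  | cons r a ih =>
    rw [foldT_cons, ← ih]
    rfl

theorem side_append (a b : List Run) (f : Run → Bool) (ha : a.all f = true)
    (hb : b.all f = true) : (a ++ b).all f = true := by
  rw [List.all_append, ha, hb]; rfl

end Crest.Agent.HGR
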