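/-!
HG part C (kernel numerics of traces): the packed machine, all definitions are evaluated by the
kernel.  No imports: the numeric files must stay light.
-/

set_option autoImplicit false

namespace Crest.Agent.HG
local notation "ℕ" => Nat

/-! ## 1. kernel functions (only `Nat` operations with GMP acceleration) -/
section Kernel
noncomputable section

/-- mixed radix weights: `cwt d k = ∏_{l<k} d l`. -/
def cwt (d : ℕ → ℕ) (k : ℕ) : ℕ := @Nat.rec (fun _ => ℕ) 1 (fun k ih => Nat.mul ih (d k)) k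

/-- `∑_{a ∈ l} x <<< (w a wt)`. -/
def kSh (w wt x : ℕ) (l : List ℕ) : ℕ :=
  @List.rec ℕ (fun _ => ℕ) 0
    (fun a _ ih => Nat.add (Nat.shiftLeft x (Nat.mul w (Nat.mul a wt))) ih) l

/-- generating number of a product weight: `∏_{k<n} ∑_{a ∈ f k} 2^(w a wt_k)`. -/
def kGen (w : ℕ) (d : ℕ → ℕ) (f : ℕ → List ℕ) (n : ℕ) : ℕ :=
  @Nat.rec (fun _ => ℕ) 1 (fun k ih => kSh w (cwt d k) ih (f k)) n

/-- all digits allowed, except list `A` at site `i` and list `A'` at site `j`. -/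
def kSel (d : ℕ → ℕ) (i : ℕ) (A : List ℕ) (j : ℕ) (A' : List ℕ) (k : ℕ) : List ℕ :=
  cond (Nat.beq k i) A (cond (Nat.beq k j) A' (List.range (d k)))

/-- a machine.  `posH`, `negH`: (coefficient, hops `(i,j)`, `i < j`); `posD`: (coefficient, shift,
number of bits, product weights `(i, A, j, A')`); `negc`: coefficient of the identity. -/
structure Mach where
  n : ℕ
  d : ℕ → ℕ
  w : ℕ
  sh : ℕ
  r : ℕ
  S : ℕ
  posH : List (ℕ × List (ℕ × ℕ))
  posD : List (ℕ × ℕ × ℕ × List (ℕ × List ℕ × ℕ × List ℕ))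
  negH : List (ℕ × List (ℕ × ℕ))
  negc : ℕ

namespace Mach
variable (M : Mach)

/-- number of states -/
def D : ℕ := cwt M.d M.n
def full : ℕ := Nat.sub (Nat.pow 2 M.w) 1
def ones : ℕ := kGen M.w M.d (fun k => List.range (M.d k)) M.n
/-- mask of the sources of the hop `(i,j)`: `σ_i ≥ 1`, `σ_j + 1 < d_j`. -/
def mu (i j : ℕ) : ℕ :=
  Nat.mul M.full (kGen M.w M.d
    (kSel M.d i (List.tail (List.range (M.d i))) j (List.range (Nat.sub (M.d j) 1))) M.n)
/-- shift of the hop `(i,j)` in bits -/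
def ht (i j : ℕ) : ℕ := Nat.mul M.w (Nat.sub (cwt M.d j) (cwt M.d i))
def md (i j : ℕ) : ℕ := Nat.shiftLeft (M.mu i j) (M.ht i j)

/-- `∑_{hops} (x & mu) << t + (x & md) >> t` -/
def exch (x : ℕ) (l : List (ℕ × ℕ)) : ℕ :=
  @List.rec (ℕ × ℕ) (fun _ => ℕ) 0 (fun t _ ih =>
    Nat.add (Nat.add (Nat.shiftLeft (Nat.land x (M.mu t.1 t.2)) (M.ht t.1 t.2))
      (Nat.shiftRight (Nat.land x (M.md t.1 t.2)) (M.ht t.1 t.2))) ih) l
/-- `∑_{groups} coef * exch` -/
def exchG (x : ℕ) (l : List (ℕ × List (ℕ × ℕ))) : ℕ :=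
  @List.rec (ℕ × List (ℕ × ℕ)) (fun _ => ℕ) 0
    (fun t _ ih => Nat.add (Nat.mul t.1 (M.exch x t.2)) ih) l
/-- packed diagonal function of a list of product weights -/
def dgN (l : List (ℕ × List ℕ × ℕ × List ℕ)) : ℕ :=
  @List.rec (ℕ × List ℕ × ℕ × List ℕ) (fun _ => ℕ) 0
    (fun t _ ih => Nat.add (kGen M.w M.d (kSel M.d t.1 t.2.1 t.2.2.1 t.2.2.2) M.n) ih) l
/-- mask of the states whose diagonal function has bit `b` set -/
def bm (l : List (ℕ × List ℕ × ℕ × List ℕ)) (b : ℕ) : ℕ :=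
  Nat.mul (Nat.land (Nat.shiftRight (M.dgN l) b) M.ones) M.full
/-- `∑_{b<nb} 2^b (x & bm (sft+b))` (Horner, from bit `s` on, `nb` bits) -/
def dgA (x : ℕ) (l : List (ℕ × List ℕ × ℕ × List ℕ)) (nb : ℕ) : ℕ → ℕ :=
  @Nat.rec (fun _ => ℕ → ℕ) (fun _ => 0)
    (fun _ ih s => Nat.add (Nat.land x (M.bm l s)) (Nat.mul 2 (ih (Nat.succ s)))) nb
def diagG (x : ℕ) (l : List (ℕ × ℕ × ℕ × List (ℕ × List ℕ × ℕ × List ℕ))) : ℕ :=
  @List.rec (ℕ × ℕ × ℕ × List (ℕ × List ℕ × ℕ × List ℕ)) (fun _ => ℕ) 0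
    (fun t _ ih => Nat.add (Nat.mul t.1 (M.dgA x t.2.2.2 t.2.2.1 t.2.1)) ih) l

def pos (x : ℕ) : ℕ := Nat.add (M.exchG x M.posH) (M.diagG x M.posD)
def neg (x : ℕ) : ℕ := Nat.add (M.exchG x M.negH) (Nat.mul M.negc x)
/-- offset `2^r` on every digit -/
def offP : ℕ := Nat.mul (Nat.pow 2 M.r) M.ones
def offC : ℕ :=
  Nat.sub (Nat.add (Nat.shiftLeft M.offP (Nat.succ M.sh)) (M.neg M.offP)) (M.pos M.offP)
def raw (x : ℕ) : ℕ := Nat.sub (Nat.add (M.pos x) M.offC) (M.neg x)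
def mk0 : ℕ := Nat.mul M.ones (Nat.sub (Nat.pow 2 (Nat.sub M.w M.sh)) 1)
def mk1 : ℕ := Nat.mul M.ones (Nat.sub (Nat.pow 2 (Nat.sub M.w (Nat.succ M.sh))) 1)

/-- packed indicator of a list of indices -/
def pts (l : List ℕ) : ℕ :=
  @List.rec ℕ (fun _ => ℕ) 0 (fun a _ ih => Nat.add (Nat.shiftLeft 1 (Nat.mul M.w a)) ih) l
/-- all readouts agree: sum of the digits at the positions of `l`, for each `l` in the list. -/
def rdOK (x : ℕ) (ms : List ℕ) : List ℕ → Bool :=
  @List.rec ℕ (fun _ => List ℕ → Bool) (fun _ => true)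
    (fun m _ ih e => @List.rec ℕ (fun _ => Bool) true
      (fun v es _ => and (Nat.beq (Nat.mod (Nat.land x m) M.full) v) (ih es)) e) ms
def loop (ms : List ℕ) (e : List (List ℕ)) : ℕ → ℕ → Bool :=
  @List.rec (List ℕ) (fun _ => ℕ → ℕ → Bool) (fun _ _ => true)
    (fun m _ ih xp x => and (M.rdOK x ms m)
      (ih x (Nat.sub (Nat.land (Nat.shiftRight (M.raw x) M.sh) M.mk0) xp))) e
def x0 (starts : List ℕ) : ℕ := Nat.add M.offP (Nat.mul M.S (M.pts starts))
def x1 (starts : List ℕ) : ℕ :=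
  Nat.land (Nat.shiftRight (M.raw (M.x0 starts)) (Nat.succ M.sh)) M.mk1
/-- the kernel check of one run: `starts` = start indices, `reads` = lists of read positions,
`e` = expected readouts (for `k = 1, 2, …`). -/
def run (starts : List ℕ) (reads : List (List ℕ)) (e : List (List ℕ)) : Bool :=
  M.loop (@List.rec (List ℕ) (fun _ => List ℕ) []
      (fun l _ ih => List.cons (Nat.mul M.full (M.pts l)) ih) reads) e (M.x0 starts) (M.x1 starts)

/-- digit sum of an index -/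
def qsum (i : ℕ) : ℕ :=
  @Nat.rec (fun _ => ℕ) 0
    (fun k ih => Nat.add ih (Nat.mod (Nat.div i (cwt M.d k)) (M.d k))) M.n
/-- spin flip of an index -/
def flI (i : ℕ) : ℕ := Nat.sub (Nat.sub M.D 1) i
/-- permutation of the sites, on indices: `σ ↦ σ ∘ π` (for an involution `π`) -/
def pmI (π : ℕ → ℕ) (i : ℕ) : ℕ :=
  @Nat.rec (fun _ => ℕ) 0
    (fun k ih => Nat.add ih (Nat.mul (Nat.mod (Nat.div i (cwt M.d k)) (M.d k)) (cwt M.d (π k)))) M.n

end Mach

/-- data of one run: orbit weight, starts of even / odd digit sum, read positions for the flip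
readout, expected readouts for `k = 1, 2, …` (each a list of three numbers). -/
structure Run where
  wt : ℕ
  ev : List ℕ
  od : List ℕ
  fx : List ℕ
  e : List (List ℕ)

namespace Mach
variable (M : Mach)

/-- the kernel check of a run -/
def ok (r : Run) : Bool := M.run (r.ev ++ r.od) [r.ev, r.od, r.fx] r.e

/-- cheap side conditions: parities, digit sums strictly increasing in `ev` and in `od`, indices in
range, flip readout positions (`ux`: used or not), number and lengths of expected values. -/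
def incr : List ℕ → Bool
  | [] => true
  | a :: l => (match l with | [] => true | b :: _ => Nat.blt (M.qsum a) (M.qsum b)) && incr l
def side (ux : Bool) (K : ℕ) (r : Run) : Bool :=
  r.ev.all (fun s => Nat.blt s M.D && Nat.beq (Nat.mod (M.qsum s) 2) 0) &&
  r.od.all (fun s => Nat.blt s M.D && Nat.beq (Nat.mod (M.qsum s) 2) 1) &&
  M.incr r.ev && M.incr r.od &&
  Nat.beq r.e.length K && r.e.all (fun l => Nat.beq l.length 3) &&
  (match ux with
   | true => (r.fx == ((r.ev ++ r.od).filter (fun s => Nat.beq (M.qsum s) M.n)).map M.flI)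
   | false => (r.fx == []))

end Mach

/-- coverage number of a list of starts: `∑_s ∑_{g ∈ G} 8^(g s)`. -/
def covS (G : List (ℕ → ℕ)) (l : List ℕ) : ℕ :=
  @List.rec ℕ (fun _ => ℕ) 0 (fun s _ ih => Nat.add
    (@List.rec (ℕ → ℕ) (fun _ => ℕ) 0
      (fun g _ ih2 => Nat.add (Nat.shiftLeft 1 (Nat.mul 3 (g s))) ih2) G) ih) l
def cov (G : List (ℕ → ℕ)) (rs : List Run) : ℕ :=
  @List.rec Run (fun _ => ℕ) 0 (fun r _ ih =>
    Nat.add (Nat.mul r.wt (Nat.add (covS G r.ev) (covS G r.od))) ih) rs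
/-- weighted number of starts -/
def cnt (rs : List Run) : ℕ :=
  @List.rec Run (fun _ => ℕ) 0 (fun r _ ih =>
    Nat.add (Nat.mul r.wt (Nat.add r.ev.length r.od.length)) ih) rs
def cntE (rs : List Run) : ℕ :=
  @List.rec Run (fun _ => ℕ) 0 (fun r _ ih => Nat.add (Nat.mul r.wt r.ev.length) ih) rs
def cntX (rs : List Run) : ℕ :=
  @List.rec Run (fun _ => ℕ) 0 (fun r _ ih => Nat.add (Nat.mul r.wt r.fx.length) ih) rs

/-- weighted sum of the expected readouts: `tot rs k j = ∑_r wt_r * e_r[k][j]`, as lists. -/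
def addL (c : ℕ) (a b : List ℕ) : List ℕ := List.zipWith (fun x y => Nat.add (Nat.mul c x) y) a b
def addLL (c : ℕ) (a b : List (List ℕ)) : List (List ℕ) := List.zipWith (addL c) a b
def tot (K : ℕ) (rs : List Run) : List (List ℕ) :=
  @List.rec Run (fun _ => List (List ℕ)) (List.replicate K [0, 0, 0])
    (fun r _ ih => addLL r.wt r.e ih) rs

/-! ## 2. the machines -/
/-- bonds `(0,1), …, (m-1,m)` -/
def chainB (m : ℕ) : List (ℕ × ℕ) := (List.range m).map (fun j => (j, Nat.succ j))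
/-- product weights of `2 (1 + m_i m_j)`, two spin-one sites -/
def pq3 (b : ℕ × ℕ) : List (ℕ × List ℕ × ℕ × List ℕ) :=
  [(b.1, [0, 0, 1], b.2, [0, 0, 1]), (b.1, [1, 2, 2], b.2, [1, 2, 2])]
/-- product weights of `2 (1 + m_i s_j)`, spin-one site `i`, spin-half site `j` (`s = ±1`) -/
def pq2 (b : ℕ × ℕ) : List (ℕ × List ℕ × ℕ × List ℕ) :=
  [(b.1, [0, 0, 1], b.2, [0, 0]), (b.1, [1, 2, 2], b.2, [1, 1])]

/-- ring with `L` sites: `K = 25 (H - c)`, `negc = 25 L + 25 c`. `tw`: last bond twisted. -/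
def ringM (L : ℕ) (tw : Bool) (r negc : ℕ) : Mach where
  n := L
  d := fun _ => 3
  w := r + 9
  sh := 7
  r := r
  S := 2 ^ r - 2 ^ (r - 4)
  posH := [(25, cond tw (chainB (L - 1)) (chainB (L - 1) ++ [(0, L - 1)]))]
  posD := [(25, 1, 5, (chainB (L - 1) ++ [(0, L - 1)]).flatMap pq3)]
  negH := cond tw [(25, [(0, L - 1)])] []
  negc := negc

/-- open chain with `N` sites and end fields `-(3/5)(m_0 + s m_{N-1})`, `s = 1` if `up` and `-1`
otherwise: `K = 25 (H - c)`, `negc = 25 (N-1) + 30 + 25 c`. -/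
def openM (N : ℕ) (up : Bool) (r negc : ℕ) : Mach where
  n := N
  d := fun _ => 3
  w := r + 9
  sh := 7
  r := r
  S := 2 ^ r - 2 ^ (r - 4)
  posH := [(25, chainB (N - 1))]
  posD := [(25, 1, 4, (chainB (N - 1)).flatMap pq3),
    (15, 0, 3, [(0, [1, 2, 2], 0, []), (N - 1, cond up [1, 2, 2] [0, 0, 1], N - 1, [])])]
  negH := []
  negc := negc

/-- half-chain with `N` spin-one sites (sites `0..N-1`), spins one-half at site `N` (left end,
coupled to site `0`) and site `N+1` (right end, coupled to site `N-1`): `K = 200 (H - c)`,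
`negc = 200 (N-1) + 154 + 200 c`. -/
def halfM (N r negc : ℕ) : Mach where
  n := N + 2
  d := fun k => cond (Nat.blt k N) 3 2
  w := r + 12
  sh := 10
  r := r
  S := 2 ^ r - 2 ^ (r - 4)
  posH := [(200, chainB (N - 1)), (110, [(0, N), (N - 1, N + 1)])]
  posD := [(200, 1, 4, (chainB (N - 1)).flatMap pq3),
    (77, 1, 3, pq2 (0, N) ++ pq2 (N - 1, N + 1))]
  negH := []
  negc := negc

end
end Kernel
end Crest.Agent.HG
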