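import Mathlib
import Crest.Agent.HG_Defs
import Crest.Agent.HG_CM

/-!
HG part C (kernel numerics of traces): mathematical definitions.
-/

set_option autoImplicit false

namespace Crest.Agent.HG
open Matrix

/-! ### Chebyshev -/
/-- scalar Chebyshev polynomials `T_k(x)` -/
noncomputable def ct (x : ℝ) : ℕ → ℝ
  | 0 => 1
  | 1 => x
  | (k + 2) => 2 * x * ct x (k + 1) - ct x k

/-- matrix Chebyshev polynomials `T_k(A)` -/
noncomputable def TA {κ : Type} [Fintype κ] [DecidableEq κ] (A : Matrix κ κ ℝ) :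
    ℕ → Matrix κ κ ℝ
  | 0 => 1
  | 1 => A
  | (k + 2) => (2 : ℝ) • (A * TA A (k + 1)) - TA A k

/-- the following lemmas only make sure that the equation lemmas of `ct`, `TA` are generated here
(otherwise several modules generate them, with different proofs). -/
theorem ct_eqn_gen (x : ℝ) (k : ℕ) : ct x 0 = 1 ∧ ct x 1 = x ∧
    ct x (k + 2) = 2 * x * ct x (k + 1) - ct x k := by
  refine ⟨by rw [ct], by rw [ct], by rw [ct]⟩
theorem ct_eqn_gen' (x : ℝ) : ct x 1 = x := by unfold ct; rfl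
theorem ct_eqn_gen'' (x : ℝ) : ct x 1 = x := by simp only [ct]
theorem TA_eqn_gen {κ : Type} [Fintype κ] [DecidableEq κ] (A : Matrix κ κ ℝ) (k : ℕ) :
    TA A 0 = 1 ∧ TA A 1 = A ∧ TA A (k + 2) = (2 : ℝ) • (A * TA A (k + 1)) - TA A k := by
  refine ⟨by rw [TA], by rw [TA], by rw [TA]⟩
theorem TA_eqn_gen' {κ : Type} [Fintype κ] [DecidableEq κ] (A : Matrix κ κ ℝ) : TA A 1 = A := by
  unfold TA; rfl
theorem TA_eqn_gen'' {κ : Type} [Fintype κ] [DecidableEq κ] (A : Matrix κ κ ℝ) : TA A 1 = A := by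
  simp only [TA]

/-! ### coordinates of a chain with `n` sites of dimensions `d 0, d 1, …` -/
structure Coord (κ : Type) (n : ℕ) (d : ℕ → ℕ) where
  dg : κ → ℕ → ℕ
  st : (ℕ → ℕ) → κ
  dg_lt : ∀ σ k, k < n → dg σ k < d k
  dg_ge : ∀ σ k, n ≤ k → dg σ k = 0
  st_dg : ∀ σ, st (dg σ) = σ
  dg_st : ∀ f : ℕ → ℕ, (∀ k, k < n → f k < d k) → ∀ k, k < n → dg (st f) k = f k

namespace Coord
variable {κ : Type} {n : ℕ} {d : ℕ → ℕ}

/-- the index of a state, `< cwt d n` -/
def idx (C : Coord κ n d) (σ : κ) : ℕ := ∑ k ∈ Finset.range n, C.dg σ k * cwt d k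
/-- the state with a given index -/
def ofIdx (C : Coord κ n d) (i : ℕ) : κ := C.st fun k => i / cwt d k % d k
/-- digit sum (conserved) -/
def Q (C : Coord κ n d) (σ : κ) : ℕ := ∑ k ∈ Finset.range n, C.dg σ k
/-- spin flip -/
def fl (C : Coord κ n d) (σ : κ) : κ := C.st fun k => d k - 1 - C.dg σ k
/-- permutation of the sites -/
def pm (C : Coord κ n d) (π : ℕ → ℕ) (σ : κ) : κ := C.st fun k => C.dg σ (π k)

open Classical in
/-- the exchange (hop) matrix of the bond `(i,j)`: entry one for every allowed exchange. -/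
noncomputable def hop (C : Coord κ n d) (i j : ℕ) : Matrix κ κ ℤ := Matrix.of fun σ τ =>
  if (∀ k, k ≠ i → k ≠ j → C.dg σ k = C.dg τ k) ∧
    ((C.dg σ i + 1 = C.dg τ i ∧ C.dg σ j = C.dg τ j + 1) ∨
      (C.dg σ i = C.dg τ i + 1 ∧ C.dg σ j + 1 = C.dg τ j)) then 1 else 0
end Coord

/-! ### the integer matrix of a machine -/
namespace Mach
variable {κ : Type} [DecidableEq κ] (M : Mach)

/-- the diagonal function of a list of product weights -/
def G (C : Coord κ M.n M.d) (l : List (ℕ × List ℕ × ℕ × List ℕ)) (σ : κ) : ℕ :=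
  (l.map fun t => t.2.1.count (C.dg σ t.1) *
    (if t.1 = t.2.2.1 then 1 else t.2.2.2.count (C.dg σ t.2.2.1))).sum

/-- sum of the hops of a list of groups -/
noncomputable def hops (C : Coord κ M.n M.d) (l : List (ℕ × List (ℕ × ℕ))) : Matrix κ κ ℤ :=
  (l.map fun t => (t.1 : ℤ) • (t.2.map fun p => C.hop p.1 p.2).sum).sum

/-- the integer matrix `K` of the machine (`2 A = K / 2^sh`) -/
noncomputable def K (C : Coord κ M.n M.d) : Matrix κ κ ℤ :=
  M.hops C M.posH - M.hops C M.negH + Matrix.diagonal fun σ =>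
    (M.posD.map fun t => (t.1 : ℤ) *
      ((M.G C t.2.2.2 σ / 2 ^ t.2.1 % 2 ^ t.2.2.1 : ℕ) : ℤ)).sum - (M.negc : ℤ)

/-- the contraction `A = K / 2^(sh+1)` -/
noncomputable def A (C : Coord κ M.n M.d) : Matrix κ κ ℝ :=
  ((2 : ℝ) ^ (M.sh + 1))⁻¹ • (M.K C).map (fun z : ℤ => (z : ℝ))

/-- well-formedness of a machine -/
structure WF : Prop where
  d2 : ∀ k, k < M.n → 2 ≤ M.d k
  hw : M.r + M.sh + 2 ≤ M.w
  hS : M.S < 2 ^ M.r
  hop : ∀ t ∈ M.posH ++ M.negH, ∀ p ∈ t.2, p.1 < p.2 ∧ p.2 < M.n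
  hD : ∀ t ∈ M.posD, ∀ u ∈ t.2.2.2, u.1 < M.n ∧ u.2.2.1 < M.n ∧
    (∀ a ∈ u.2.1, a < M.d u.1) ∧ (∀ a ∈ u.2.2.2, a < M.d u.2.2.1)
  hG : ∀ t ∈ M.posD, (t.2.2.2.map fun u => u.2.1.length * (u.2.2.2.length + 1)).sum < 2 ^ M.w
  hb : ∀ t ∈ M.posD, t.2.1 + t.2.2.1 ≤ M.w
end Mach

/-! ### the coordinates of the three families -/
/-- ring / open chain: `κ = Fin n → Fin 3` -/
def coordF (n : ℕ) : Coord (Fin n → Fin 3) n (fun _ => 3) where
  dg σ k := if h : k < n then (σ ⟨k, h⟩ : ℕ) else 0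
  st f := fun k => ⟨f k % 3, Nat.mod_lt _ (by norm_num)⟩
  dg_lt σ k h := by simp only [h, dif_pos]; exact (σ ⟨k, h⟩).2
  dg_ge σ k h := by simp [Nat.not_lt.2 h]
  st_dg σ := by
    funext k
    apply Fin.ext
    simp only [k.2, dif_pos]
    exact Nat.mod_eq_of_lt (σ k).2
  dg_st f hf k hk := by
    simp only [hk, dif_pos]
    exact Nat.mod_eq_of_lt (hf k hk)

/-- half-chain with `N = m+1` spin-one sites: sites `0..m` spin one, site `m+1` left end,
site `m+2` right end. -/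
def coordH (m : ℕ) : Coord (Fin 2 × (Fin (m + 1) → Fin 3) × Fin 2) (m + 1 + 2)
    (fun k => cond (Nat.blt k (m + 1)) 3 2) where
  dg σ k := if h : k < m + 1 then (σ.2.1 ⟨k, h⟩ : ℕ) else if k = m + 1 then (σ.1 : ℕ) else
    if k = m + 2 then (σ.2.2 : ℕ) else 0
  st f := (⟨f (m + 1) % 2, Nat.mod_lt _ (by norm_num)⟩,
    fun k => ⟨f k % 3, Nat.mod_lt _ (by norm_num)⟩, ⟨f (m + 2) % 2, Nat.mod_lt _ (by norm_num)⟩)
  dg_lt σ k h := by
    by_cases h1 : k < m + 1
    · have : Nat.blt k (m + 1) = true := by simpa using h1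
      simp only [h1, dif_pos, this, cond_true]
      exact (σ.2.1 ⟨k, h1⟩).2
    · have h2 : Nat.blt k (m + 1) = false := by
        rw [Bool.eq_false_iff, ne_eq, Nat.blt_eq]; exact h1
      simp only [h1, h2, dif_neg, not_false_eq_true, cond_false]
      by_cases h3 : k = m + 1
      · simp only [h3, if_pos]; exact σ.1.2
      · have h4 : k = m + 2 := by omega
        subst h4
        simp only [h3, if_neg, not_false_eq_true, if_pos]
        exact σ.2.2.2
  dg_ge σ k h := by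
    have h1 : ¬ k < m + 1 := by omega
    have h2 : ¬ k = m + 1 := by omega
    have h3 : ¬ k = m + 2 := by omega
    simp [h1, h2, h3]
  st_dg σ := by
    obtain ⟨a, s, b⟩ := σ
    refine Prod.ext ?_ (Prod.ext ?_ ?_)
    · apply Fin.ext
      simp [Nat.mod_eq_of_lt a.2]
    · funext k
      apply Fin.ext
      simp only [k.2, dif_pos]
      exact Nat.mod_eq_of_lt (s k).2
    · apply Fin.ext
      simp [Nat.mod_eq_of_lt b.2]
  dg_st f hf k hk := by
    by_cases h1 : k < m + 1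
    · have h0 := hf k hk
      have h2 : Nat.blt k (m + 1) = true := by simpa using h1
      simp only [h2, cond_true] at h0
      simp only [h1, dif_pos]
      exact Nat.mod_eq_of_lt h0
    · have h0 := hf k hk
      have h2 : Nat.blt k (m + 1) = false := by
        rw [Bool.eq_false_iff, ne_eq, Nat.blt_eq]; exact h1
      simp only [h2, cond_false] at h0
      simp only [h1, dif_neg, not_false_eq_true]
      by_cases h3 : k = m + 1
      · subst h3; simp only [if_pos]; exact Nat.mod_eq_of_lt h0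
      · have h4 : k = m + 2 := by omega
        subst h4
        simp only [h3, if_neg, not_false_eq_true, if_pos]
        exact Nat.mod_eq_of_lt h0

end Crest.Agent.HG
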