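import Mathlib
import Crest.Agent.HG_CC

/-!
HG task CV1: flip / reversal invariances of the integer matrices `K` of the machines.
-/

set_option autoImplicit false

namespace Crest.Agent.HG
open Matrix

/- ================= CV1: invariances ================= -/
/-- site reversal -/
def rvF (n : ℕ) (k : ℕ) : ℕ := Nat.sub (Nat.sub n 1) k
/-- reversal of the half-chain with `N` spin-one sites; exchanges the end sites `N`, `N+1` -/
def rvH (N : ℕ) (k : ℕ) : ℕ :=
  cond (Nat.blt k N) (Nat.sub (Nat.sub N 1) k) (cond (Nat.beq k N) (Nat.succ N) N)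

/-! ### coordinates -/
section coord
variable {κ : Type} {n : ℕ} {d : ℕ → ℕ} (C : Coord κ n d)

private theorem cv1_ext {σ τ : κ} (h : ∀ k, k < n → C.dg σ k = C.dg τ k) : σ = τ := by
  have : C.dg σ = C.dg τ := by
    funext k
    by_cases hk : k < n
    · exact h k hk
    · rw [C.dg_ge σ k (not_lt.1 hk), C.dg_ge τ k (not_lt.1 hk)]
  rw [← C.st_dg σ, ← C.st_dg τ, this]

private theorem cv1_dg_fl (σ : κ) {k : ℕ} (hk : k < n) :
    C.dg (C.fl σ) k = d k - 1 - C.dg σ k := by
  unfold Coord.fl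
  refine C.dg_st _ (fun k hk => ?_) k hk
  have := C.dg_lt σ k hk
  omega

private theorem cv1_fl_inj : Function.Injective C.fl := by
  intro σ τ h
  refine cv1_ext C fun k hk => ?_
  have h1 := cv1_dg_fl C σ hk
  have h2 := cv1_dg_fl C τ hk
  rw [h] at h1
  have h3 := C.dg_lt σ k hk
  have h4 := C.dg_lt τ k hk
  omega

/-- hypotheses on a permutation of the sites -/
private structure PermOK (n : ℕ) (d : ℕ → ℕ) (π : ℕ → ℕ) : Prop where
  lt : ∀ k, k < n → π k < n
  inv : ∀ k, k < n → π (π k) = k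
  dd : ∀ k, k < n → d (π k) = d k

variable {π : ℕ → ℕ}

private theorem cv1_dg_pm (hπ : PermOK n d π) (σ : κ) {k : ℕ} (hk : k < n) :
    C.dg (C.pm π σ) k = C.dg σ (π k) := by
  unfold Coord.pm
  refine C.dg_st _ (fun k hk => ?_) k hk
  rw [← hπ.dd k hk]
  exact C.dg_lt σ (π k) (hπ.lt k hk)

private theorem cv1_pm_inj (hπ : PermOK n d π) : Function.Injective (C.pm π) := by
  intro σ τ h
  refine cv1_ext C fun k hk => ?_
  have h1 := cv1_dg_pm C hπ σ (hπ.lt k hk)
  have h2 := cv1_dg_pm C hπ τ (hπ.lt k hk)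
  rw [h] at h1
  rw [hπ.inv k hk] at h1 h2
  rw [← h1, ← h2]

/-- the hop condition -/
private def hopP (i j : ℕ) (σ τ : κ) : Prop :=
  (∀ k, k ≠ i → k ≠ j → C.dg σ k = C.dg τ k) ∧
    ((C.dg σ i + 1 = C.dg τ i ∧ C.dg σ j = C.dg τ j + 1) ∨
      (C.dg σ i = C.dg τ i + 1 ∧ C.dg σ j + 1 = C.dg τ j))

private theorem cv1_hop_congr {i j i' j' : ℕ} {σ τ σ' τ' : κ}
    (h : hopP C i j σ τ ↔ hopP C i' j' σ' τ') : C.hop i j σ τ = C.hop i' j' σ' τ' := by
  classical
  unfold Coord.hop
  simp only [Matrix.of_apply]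
  unfold hopP at h
  by_cases h1 : (∀ k, k ≠ i → k ≠ j → C.dg σ k = C.dg τ k) ∧
    ((C.dg σ i + 1 = C.dg τ i ∧ C.dg σ j = C.dg τ j + 1) ∨
      (C.dg σ i = C.dg τ i + 1 ∧ C.dg σ j + 1 = C.dg τ j))
  · rw [if_pos h1, if_pos (h.1 h1)]
  · rw [if_neg h1, if_neg (fun h2 => h1 (h.2 h2))]

private theorem cv1_hop_symm (i j : ℕ) (σ τ : κ) : C.hop i j σ τ = C.hop j i σ τ := by
  apply cv1_hop_congr
  unfold hopP
  constructor
  · rintro ⟨h1, h2⟩
    exact ⟨fun k hk hk' => h1 k hk' hk, by tauto⟩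
  · rintro ⟨h1, h2⟩
    exact ⟨fun k hk hk' => h1 k hk' hk, by tauto⟩

private theorem cv1_hop_fl {i j : ℕ} (hi : i < n) (hj : j < n) (σ τ : κ) :
    C.hop i j (C.fl σ) (C.fl τ) = C.hop i j σ τ := by
  apply cv1_hop_congr
  unfold hopP
  have e1 := cv1_dg_fl C σ hi
  have e2 := cv1_dg_fl C σ hj
  have e3 := cv1_dg_fl C τ hi
  have e4 := cv1_dg_fl C τ hj
  have b1 := C.dg_lt σ i hi
  have b2 := C.dg_lt σ j hj
  have b3 := C.dg_lt τ i hi
  have b4 := C.dg_lt τ j hj
  have hk : ∀ k, (C.dg (C.fl σ) k = C.dg (C.fl τ) k ↔ C.dg σ k = C.dg τ k) := by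
    intro k
    by_cases hk : k < n
    · rw [cv1_dg_fl C σ hk, cv1_dg_fl C τ hk]
      have h3 := C.dg_lt σ k hk
      have h4 := C.dg_lt τ k hk
      omega
    · rw [C.dg_ge _ k (not_lt.1 hk), C.dg_ge _ k (not_lt.1 hk), C.dg_ge _ k (not_lt.1 hk),
        C.dg_ge _ k (not_lt.1 hk)]
  refine and_congr ?_ ?_
  · exact forall_congr' fun k => forall_congr' fun _ => forall_congr' fun _ => hk k
  · rw [e1, e2, e3, e4]
    omega

private theorem cv1_hop_pm (hπ : PermOK n d π) {i j : ℕ} (hi : i < n) (hj : j < n) (σ τ : κ) :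
    C.hop i j (C.pm π σ) (C.pm π τ) = C.hop (π i) (π j) σ τ := by
  apply cv1_hop_congr
  unfold hopP
  rw [cv1_dg_pm C hπ σ hi, cv1_dg_pm C hπ σ hj, cv1_dg_pm C hπ τ hi, cv1_dg_pm C hπ τ hj]
  refine and_congr ?_ Iff.rfl
  constructor
  · intro h k hki hkj
    by_cases hk : k < n
    · have h1 := h (π k) (fun he => hki (by rw [← he, hπ.inv k hk]))
        (fun he => hkj (by rw [← he, hπ.inv k hk]))
      rwa [cv1_dg_pm C hπ σ (hπ.lt k hk), cv1_dg_pm C hπ τ (hπ.lt k hk), hπ.inv k hk] at h1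
    · rw [C.dg_ge _ k (not_lt.1 hk), C.dg_ge _ k (not_lt.1 hk)]
  · intro h k hki hkj
    by_cases hk : k < n
    · rw [cv1_dg_pm C hπ σ hk, cv1_dg_pm C hπ τ hk]
      exact h (π k) (fun he => hki (by rw [← hπ.inv k hk, he, hπ.inv i hi]))
        (fun he => hkj (by rw [← hπ.inv k hk, he, hπ.inv j hj]))
    · rw [C.dg_ge _ k (not_lt.1 hk), C.dg_ge _ k (not_lt.1 hk)]

end coord

/-! ### sums over lists -/
private theorem cv1_list_apply {κ : Type} (l : List (Matrix κ κ ℤ)) (σ τ : κ) :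
    l.sum σ τ = (l.map fun A => A σ τ).sum := by
  induction l with
  | nil => simp
  | cons a l ih => simp [ih]

private theorem cv1_hops {κ : Type} (M : Mach) (C : Coord κ M.n M.d)
    (l : List (ℕ × List (ℕ × ℕ))) (σ τ : κ) :
    M.hops C l σ τ = (l.map fun t => (t.1 : ℤ) * (t.2.map fun p => C.hop p.1 p.2 σ τ).sum).sum := by
  unfold Mach.hops
  rw [cv1_list_apply, List.map_map]
  congr 1
  refine List.map_congr_left fun t _ => ?_
  simp only [Function.comp_apply, Matrix.smul_apply, smul_eq_mul]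
  rw [cv1_list_apply, List.map_map]
  rfl

private theorem cv1_K {κ : Type} [DecidableEq κ] (M : Mach) (C : Coord κ M.n M.d) {F : κ → κ}
    (hF : Function.Injective F) (σ τ : κ)
    (h1 : M.hops C M.posH (F σ) (F τ) = M.hops C M.posH σ τ)
    (h2 : M.hops C M.negH (F σ) (F τ) = M.hops C M.negH σ τ)
    (h3 : ∀ t ∈ M.posD, M.G C t.2.2.2 (F σ) = M.G C t.2.2.2 σ) :
    M.K C (F σ) (F τ) = M.K C σ τ := by
  unfold Mach.K
  rw [Matrix.add_apply, Matrix.add_apply, Matrix.sub_apply, Matrix.sub_apply, h1, h2]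
  congr 1
  by_cases h : σ = τ
  · subst h
    rw [Matrix.diagonal_apply_eq, Matrix.diagonal_apply_eq]
    congr 2
    refine List.map_congr_left fun t ht => ?_
    rw [h3 t ht]
  · rw [Matrix.diagonal_apply_ne _ h, Matrix.diagonal_apply_ne _ (fun he => h (hF he))]

private theorem cv1_chain {α : Type} [AddCommMonoid α] (f : ℕ × ℕ → α) (m : ℕ) :
    ((chainB m).map f).sum = ∑ j ∈ Finset.range m, f (j, j + 1) := by
  unfold chainB
  induction m with
  | zero => simp
  | succ m ih =>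
    rw [List.range_succ, List.map_append, List.map_append, List.sum_append, ih,
      Finset.sum_range_succ]
    simp

private theorem cv1_chain_rv {α : Type} [AddCommMonoid α] (f : ℕ × ℕ → α)
    (hf : ∀ a b, f (a, b) = f (b, a)) (m : ℕ) :
    ∑ j ∈ Finset.range m, f (m - j, m - (j + 1)) = ∑ j ∈ Finset.range m, f (j, j + 1) := by
  rw [← Finset.sum_range_reflect (fun j => f (j, j + 1)) m]
  refine Finset.sum_congr rfl fun j hj => ?_
  rw [Finset.mem_range] at hj
  rw [hf]
  congr 2 <;> omega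

private def g3 (a b : ℕ) : ℕ :=
  [0, 0, 1].count a * [0, 0, 1].count b + [1, 2, 2].count a * [1, 2, 2].count b

private def g2 (a b : ℕ) : ℕ :=
  [0, 0, 1].count a * [0, 0].count b + [1, 2, 2].count a * [1, 1].count b

private theorem g3_symm (a b : ℕ) : g3 a b = g3 b a := by
  unfold g3
  ring

private theorem cnt_fl {a : ℕ} (ha : a < 3) :
    [0, 0, 1].count (3 - 1 - a) = [1, 2, 2].count a ∧
      [1, 2, 2].count (3 - 1 - a) = [0, 0, 1].count a := by
  interval_cases a <;> decide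

private theorem cnt_fl2 {a : ℕ} (ha : a < 2) :
    [0, 0].count (2 - 1 - a) = [1, 1].count a ∧
      [1, 1].count (2 - 1 - a) = [0, 0].count a := by
  interval_cases a <;> decide

private theorem g3_fl {a b : ℕ} (ha : a < 3) (hb : b < 3) :
    g3 (3 - 1 - a) (3 - 1 - b) = g3 a b := by
  unfold g3
  rw [(cnt_fl ha).1, (cnt_fl ha).2, (cnt_fl hb).1, (cnt_fl hb).2]
  ring

private theorem g2_fl {a b : ℕ} (ha : a < 3) (hb : b < 2) :
    g2 (3 - 1 - a) (2 - 1 - b) = g2 a b := by
  unfold g2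
  rw [(cnt_fl ha).1, (cnt_fl ha).2, (cnt_fl2 hb).1, (cnt_fl2 hb).2]
  ring

private theorem cv1_G_append {κ : Type} (M : Mach) (C : Coord κ M.n M.d)
    (l l' : List (ℕ × List ℕ × ℕ × List ℕ)) (σ : κ) :
    M.G C (l ++ l') σ = M.G C l σ + M.G C l' σ := by
  unfold Mach.G
  rw [List.map_append, List.sum_append]

private theorem cv1_G_pq3 {κ : Type} (M : Mach) (C : Coord κ M.n M.d) (l : List (ℕ × ℕ))
    (hl : ∀ b ∈ l, b.1 ≠ b.2) (σ : κ) :
    M.G C (l.flatMap pq3) σ = (l.map fun b => g3 (C.dg σ b.1) (C.dg σ b.2)).sum := by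
  induction l with
  | nil => simp [Mach.G]
  | cons b l ih =>
    rw [List.flatMap_cons, cv1_G_append, ih (fun b hb => hl b (List.mem_cons_of_mem _ hb)),
      List.map_cons, List.sum_cons]
    congr 1
    unfold Mach.G pq3 g3
    have := hl b List.mem_cons_self
    simp only [List.map_cons, List.map_nil, List.sum_cons, List.sum_nil, add_zero, if_neg this]

private theorem cv1_G_pq2 {κ : Type} (M : Mach) (C : Coord κ M.n M.d) {i j : ℕ} (h : i ≠ j)
    (σ : κ) : M.G C (pq2 (i, j)) σ = g2 (C.dg σ i) (C.dg σ j) := by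
  unfold Mach.G pq2 g2
  simp only [List.map_cons, List.map_nil, List.sum_cons, List.sum_nil, add_zero, if_neg h]

private theorem cv1_chain_ne (m : ℕ) : ∀ b ∈ chainB m, b.1 ≠ b.2 := by
  intro b hb
  unfold chainB at hb
  rw [List.mem_map] at hb
  obtain ⟨j, -, rfl⟩ := hb
  simp

private theorem cv1_G_chain {κ : Type} (M : Mach) (C : Coord κ M.n M.d) (m : ℕ) (σ : κ) :
    M.G C ((chainB m).flatMap pq3) σ =
      ∑ j ∈ Finset.range m, g3 (C.dg σ j) (C.dg σ (j + 1)) := by
  rw [cv1_G_pq3 M C _ (cv1_chain_ne m), cv1_chain]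

/-! ### ring and open chain -/
private theorem cv1_permF (m : ℕ) : PermOK (m + 1) (fun _ => 3) (rvF (m + 1)) := by
  have e : ∀ k, rvF (m + 1) k = m - k := fun k => rfl
  refine ⟨fun k hk => ?_, fun k hk => ?_, fun k hk => rfl⟩
  · rw [e]; omega
  · rw [e, e]; omega

section ring
variable (m : ℕ) (tw : Bool) (r negc : ℕ)

private theorem ring_posH (C : Coord (Fin (m + 1) → Fin 3) (m + 1) (fun _ => 3))
    (σ τ : Fin (m + 1) → Fin 3) :
    (ringM (m + 1) tw r negc).hops C (ringM (m + 1) tw r negc).posH σ τ =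
      25 * ((∑ j ∈ Finset.range m, C.hop j (j + 1) σ τ) +
        if tw = true then 0 else C.hop 0 m σ τ) := by
  rw [cv1_hops (ringM (m + 1) tw r negc) C]
  cases tw
  · show (List.map _ [(25, chainB m ++ [(0, m)])]).sum = _
    simp only [List.map_cons, List.map_nil, List.sum_cons, List.sum_nil, List.map_append,
      List.sum_append, cv1_chain]
    simp
    rfl
  · show (List.map _ [(25, chainB m)]).sum = _
    simp only [List.map_cons, List.map_nil, List.sum_cons, List.sum_nil, cv1_chain]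
    simp
    rfl

private theorem ring_negH (C : Coord (Fin (m + 1) → Fin 3) (m + 1) (fun _ => 3))
    (σ τ : Fin (m + 1) → Fin 3) :
    (ringM (m + 1) tw r negc).hops C (ringM (m + 1) tw r negc).negH σ τ =
      if tw = true then 25 * C.hop 0 m σ τ else 0 := by
  rw [cv1_hops (ringM (m + 1) tw r negc) C]
  cases tw
  · show (List.map _ []).sum = _
    simp
  · show (List.map _ [(25, [(0, m)])]).sum = _
    simp
    rfl

private theorem ring_G (hm : 2 ≤ m) (C : Coord (Fin (m + 1) → Fin 3) (m + 1) (fun _ => 3))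
    (σ : Fin (m + 1) → Fin 3) :
    (ringM (m + 1) tw r negc).G C ((chainB m ++ [(0, m)]).flatMap pq3) σ =
      (∑ j ∈ Finset.range m, g3 (C.dg σ j) (C.dg σ (j + 1))) + g3 (C.dg σ 0) (C.dg σ m) := by
  rw [List.flatMap_append, cv1_G_append (ringM (m + 1) tw r negc) C,
    cv1_G_chain (ringM (m + 1) tw r negc) C,
    cv1_G_pq3 (ringM (m + 1) tw r negc) C [(0, m)] (by
      intro b hb
      rw [List.mem_singleton] at hb
      subst hb
      show (0 : ℕ) ≠ m
      omega)]
  simp

end ring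

theorem ring_fl (L : ℕ) (hL : 3 ≤ L) (tw : Bool) (r negc : ℕ) (σ τ : Fin L → Fin 3) :
    (ringM L tw r negc).K (coordF L) ((coordF L).fl σ) ((coordF L).fl τ) =
      (ringM L tw r negc).K (coordF L) σ τ := by
  obtain ⟨m, rfl⟩ : ∃ m, L = m + 1 := ⟨L - 1, by omega⟩
  set C := coordF (m + 1) with hC
  have hhop : ∀ i j, i < m + 1 → j < m + 1 → C.hop i j (C.fl σ) (C.fl τ) = C.hop i j σ τ :=
    fun i j hi hj => cv1_hop_fl C hi hj σ τ
  have hsum : ∑ j ∈ Finset.range m, C.hop j (j + 1) (C.fl σ) (C.fl τ) =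
      ∑ j ∈ Finset.range m, C.hop j (j + 1) σ τ := by
    refine Finset.sum_congr rfl fun j hj => ?_
    rw [Finset.mem_range] at hj
    exact hhop _ _ (by omega) (by omega)
  refine cv1_K (ringM (m + 1) tw r negc) C (cv1_fl_inj C) σ τ ?_ ?_ ?_
  · rw [ring_posH m tw r negc C, ring_posH m tw r negc C, hsum, hhop 0 m (by omega) (by omega)]
  · rw [ring_negH m tw r negc C, ring_negH m tw r negc C, hhop 0 m (by omega) (by omega)]
  · intro t ht
    have ht' : t = (25, 1, 5, (chainB m ++ [(0, m)]).flatMap pq3) := by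
      simpa [ringM] using ht
    rw [ht']
    show (ringM (m + 1) tw r negc).G C ((chainB m ++ [(0, m)]).flatMap pq3) (C.fl σ) =
      (ringM (m + 1) tw r negc).G C ((chainB m ++ [(0, m)]).flatMap pq3) σ
    rw [ring_G m tw r negc (by omega) C, ring_G m tw r negc (by omega) C]
    have hg : ∀ i j, i < m + 1 → j < m + 1 →
        g3 (C.dg (C.fl σ) i) (C.dg (C.fl σ) j) = g3 (C.dg σ i) (C.dg σ j) := by
      intro i j hi hj
      rw [cv1_dg_fl C σ hi, cv1_dg_fl C σ hj]
      exact g3_fl (C.dg_lt σ i hi) (C.dg_lt σ j hj)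
    rw [hg 0 m (by omega) (by omega)]
    congr 1
    refine Finset.sum_congr rfl fun j hj => ?_
    rw [Finset.mem_range] at hj
    exact hg _ _ (by omega) (by omega)

theorem ring_rv (L : ℕ) (hL : 3 ≤ L) (tw : Bool) (r negc : ℕ) (σ τ : Fin L → Fin 3) :
    (ringM L tw r negc).K (coordF L) ((coordF L).pm (rvF L) σ) ((coordF L).pm (rvF L) τ) =
      (ringM L tw r negc).K (coordF L) σ τ := by
  obtain ⟨m, rfl⟩ : ∃ m, L = m + 1 := ⟨L - 1, by omega⟩
  set C := coordF (m + 1) with hC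
  have hπ := cv1_permF m
  have e : ∀ k, rvF (m + 1) k = m - k := fun k => rfl
  have hhop : ∀ i j, i < m + 1 → j < m + 1 →
      C.hop i j (C.pm (rvF (m + 1)) σ) (C.pm (rvF (m + 1)) τ) = C.hop (m - i) (m - j) σ τ :=
    fun i j hi hj => cv1_hop_pm C hπ hi hj σ τ
  have hsum : ∑ j ∈ Finset.range m,
      C.hop j (j + 1) (C.pm (rvF (m + 1)) σ) (C.pm (rvF (m + 1)) τ) =
      ∑ j ∈ Finset.range m, C.hop j (j + 1) σ τ := by
    rw [← cv1_chain_rv (fun b => C.hop b.1 b.2 σ τ) (fun a b => cv1_hop_symm C a b σ τ) m]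
    refine Finset.sum_congr rfl fun j hj => ?_
    rw [Finset.mem_range] at hj
    exact hhop _ _ (by omega) (by omega)
  have h0m : C.hop 0 m (C.pm (rvF (m + 1)) σ) (C.pm (rvF (m + 1)) τ) = C.hop 0 m σ τ := by
    rw [hhop 0 m (by omega) (by omega), Nat.sub_zero, Nat.sub_self, cv1_hop_symm]
  refine cv1_K (ringM (m + 1) tw r negc) C (cv1_pm_inj C hπ) σ τ ?_ ?_ ?_
  · rw [ring_posH m tw r negc C, ring_posH m tw r negc C, hsum, h0m]
  · rw [ring_negH m tw r negc C, ring_negH m tw r negc C, h0m]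
  · intro t ht
    have ht' : t = (25, 1, 5, (chainB m ++ [(0, m)]).flatMap pq3) := by
      simpa [ringM] using ht
    rw [ht']
    show (ringM (m + 1) tw r negc).G C ((chainB m ++ [(0, m)]).flatMap pq3)
        (C.pm (rvF (m + 1)) σ) =
      (ringM (m + 1) tw r negc).G C ((chainB m ++ [(0, m)]).flatMap pq3) σ
    rw [ring_G m tw r negc (by omega) C, ring_G m tw r negc (by omega) C]
    have hg : ∀ i j, i < m + 1 → j < m + 1 →
        g3 (C.dg (C.pm (rvF (m + 1)) σ) i) (C.dg (C.pm (rvF (m + 1)) σ) j) =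
          g3 (C.dg σ (m - i)) (C.dg σ (m - j)) := by
      intro i j hi hj
      rw [cv1_dg_pm C hπ σ hi, cv1_dg_pm C hπ σ hj, e, e]
    rw [hg 0 m (by omega) (by omega), Nat.sub_zero, Nat.sub_self, g3_symm (C.dg σ m)]
    congr 1
    rw [← cv1_chain_rv (fun b => g3 (C.dg σ b.1) (C.dg σ b.2)) (fun a b => g3_symm _ _) m]
    refine Finset.sum_congr rfl fun j hj => ?_
    rw [Finset.mem_range] at hj
    exact hg _ _ (by omega) (by omega)

section openc
variable (m : ℕ) (up : Bool) (r negc : ℕ)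

private theorem open_posH (C : Coord (Fin (m + 1) → Fin 3) (m + 1) (fun _ => 3))
    (σ τ : Fin (m + 1) → Fin 3) :
    (openM (m + 1) up r negc).hops C (openM (m + 1) up r negc).posH σ τ =
      25 * (∑ j ∈ Finset.range m, C.hop j (j + 1) σ τ) := by
  rw [cv1_hops (openM (m + 1) up r negc) C]
  show (List.map _ [(25, chainB m)]).sum = _
  simp only [List.map_cons, List.map_nil, List.sum_cons, List.sum_nil, cv1_chain]
  simp
  rfl

private theorem open_negH (C : Coord (Fin (m + 1) → Fin 3) (m + 1) (fun _ => 3))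
    (σ τ : Fin (m + 1) → Fin 3) :
    (openM (m + 1) up r negc).hops C (openM (m + 1) up r negc).negH σ τ = 0 := by
  rw [cv1_hops (openM (m + 1) up r negc) C]
  show (List.map _ []).sum = _
  simp

private theorem open_G2 (C : Coord (Fin (m + 1) → Fin 3) (m + 1) (fun _ => 3))
    (σ : Fin (m + 1) → Fin 3) :
    (openM (m + 1) up r negc).G C [(0, [1, 2, 2], 0, []),
      (m, cond up [1, 2, 2] [0, 0, 1], m, [])] σ =
      [1, 2, 2].count (C.dg σ 0) + (cond up [1, 2, 2] [0, 0, 1]).count (C.dg σ m) := by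
  unfold Mach.G
  simp

end openc

theorem openU_rv (m : ℕ) (hm : 1 ≤ m) (r negc : ℕ) (σ τ : Fin (m + 1) → Fin 3) :
    (openM (m + 1) true r negc).K (coordF (m + 1)) ((coordF (m + 1)).pm (rvF (m + 1)) σ)
      ((coordF (m + 1)).pm (rvF (m + 1)) τ) =
      (openM (m + 1) true r negc).K (coordF (m + 1)) σ τ := by
  set C := coordF (m + 1) with hC
  have hπ := cv1_permF m
  have e : ∀ k, rvF (m + 1) k = m - k := fun k => rfl
  have hhop : ∀ i j, i < m + 1 → j < m + 1 →
      C.hop i j (C.pm (rvF (m + 1)) σ) (C.pm (rvF (m + 1)) τ) = C.hop (m - i) (m - j) σ τ :=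
    fun i j hi hj => cv1_hop_pm C hπ hi hj σ τ
  have hsum : ∑ j ∈ Finset.range m,
      C.hop j (j + 1) (C.pm (rvF (m + 1)) σ) (C.pm (rvF (m + 1)) τ) =
      ∑ j ∈ Finset.range m, C.hop j (j + 1) σ τ := by
    rw [← cv1_chain_rv (fun b => C.hop b.1 b.2 σ τ) (fun a b => cv1_hop_symm C a b σ τ) m]
    refine Finset.sum_congr rfl fun j hj => ?_
    rw [Finset.mem_range] at hj
    exact hhop _ _ (by omega) (by omega)
  refine cv1_K (openM (m + 1) true r negc) C (cv1_pm_inj C hπ) σ τ ?_ ?_ ?_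
  · rw [open_posH m true r negc C, open_posH m true r negc C, hsum]
  · rw [open_negH m true r negc C, open_negH m true r negc C]
  · intro t ht
    have ht' : t = (25, 1, 4, (chainB m).flatMap pq3) ∨
        t = (15, 0, 3, [(0, [1, 2, 2], 0, []), (m, cond true [1, 2, 2] [0, 0, 1], m, [])]) := by
      simpa [openM] using ht
    rcases ht' with ht' | ht'
    · rw [ht']
      show (openM (m + 1) true r negc).G C ((chainB m).flatMap pq3) (C.pm (rvF (m + 1)) σ) =
        (openM (m + 1) true r negc).G C ((chainB m).flatMap pq3) σ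
      rw [cv1_G_chain (openM (m + 1) true r negc) C, cv1_G_chain (openM (m + 1) true r negc) C]
      rw [← cv1_chain_rv (fun b => g3 (C.dg σ b.1) (C.dg σ b.2)) (fun a b => g3_symm _ _) m]
      refine Finset.sum_congr rfl fun j hj => ?_
      rw [Finset.mem_range] at hj
      rw [cv1_dg_pm C hπ σ (show j < m + 1 by omega),
        cv1_dg_pm C hπ σ (show j + 1 < m + 1 by omega), e, e]
    · rw [ht']
      show (openM (m + 1) true r negc).G C [(0, [1, 2, 2], 0, []),
          (m, cond true [1, 2, 2] [0, 0, 1], m, [])] (C.pm (rvF (m + 1)) σ) =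
        (openM (m + 1) true r negc).G C [(0, [1, 2, 2], 0, []),
          (m, cond true [1, 2, 2] [0, 0, 1], m, [])] σ
      rw [open_G2 m true r negc C, open_G2 m true r negc C,
        cv1_dg_pm C hπ σ (show 0 < m + 1 by omega), cv1_dg_pm C hπ σ (show m < m + 1 by omega),
        e, e, Nat.sub_zero, Nat.sub_self]
      exact add_comm _ _

theorem openD_flrv (m : ℕ) (hm : 1 ≤ m) (r negc : ℕ) (σ τ : Fin (m + 1) → Fin 3) :
    (openM (m + 1) false r negc).K (coordF (m + 1))
      ((coordF (m + 1)).fl ((coordF (m + 1)).pm (rvF (m + 1)) σ))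
      ((coordF (m + 1)).fl ((coordF (m + 1)).pm (rvF (m + 1)) τ)) =
      (openM (m + 1) false r negc).K (coordF (m + 1)) σ τ := by
  set C := coordF (m + 1) with hC
  have hπ := cv1_permF m
  have e : ∀ k, rvF (m + 1) k = m - k := fun k => rfl
  have hhop : ∀ i j, i < m + 1 → j < m + 1 →
      C.hop i j (C.fl (C.pm (rvF (m + 1)) σ)) (C.fl (C.pm (rvF (m + 1)) τ)) =
        C.hop (m - i) (m - j) σ τ :=
    fun i j hi hj => (cv1_hop_fl C hi hj _ _).trans (cv1_hop_pm C hπ hi hj σ τ)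
  have hsum : ∑ j ∈ Finset.range m,
      C.hop j (j + 1) (C.fl (C.pm (rvF (m + 1)) σ)) (C.fl (C.pm (rvF (m + 1)) τ)) =
      ∑ j ∈ Finset.range m, C.hop j (j + 1) σ τ := by
    rw [← cv1_chain_rv (fun b => C.hop b.1 b.2 σ τ) (fun a b => cv1_hop_symm C a b σ τ) m]
    refine Finset.sum_congr rfl fun j hj => ?_
    rw [Finset.mem_range] at hj
    exact hhop _ _ (by omega) (by omega)
  have hdg : ∀ k, k < m + 1 →
      C.dg (C.fl (C.pm (rvF (m + 1)) σ)) k = 3 - 1 - C.dg σ (m - k) := by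
    intro k hk
    rw [cv1_dg_fl C _ hk, cv1_dg_pm C hπ σ hk, e]
  refine cv1_K (openM (m + 1) false r negc) C (F := fun σ => C.fl (C.pm (rvF (m + 1)) σ))
    ((cv1_fl_inj C).comp (cv1_pm_inj C hπ)) σ τ ?_ ?_ ?_
  · rw [open_posH m false r negc C, open_posH m false r negc C, hsum]
  · rw [open_negH m false r negc C, open_negH m false r negc C]
  · intro t ht
    have ht' : t = (25, 1, 4, (chainB m).flatMap pq3) ∨
        t = (15, 0, 3, [(0, [1, 2, 2], 0, []), (m, cond false [1, 2, 2] [0, 0, 1], m, [])]) := by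
      simpa [openM] using ht
    rcases ht' with ht' | ht'
    · rw [ht']
      show (openM (m + 1) false r negc).G C ((chainB m).flatMap pq3)
          (C.fl (C.pm (rvF (m + 1)) σ)) =
        (openM (m + 1) false r negc).G C ((chainB m).flatMap pq3) σ
      rw [cv1_G_chain (openM (m + 1) false r negc) C, cv1_G_chain (openM (m + 1) false r negc) C]
      rw [← cv1_chain_rv (fun b => g3 (C.dg σ b.1) (C.dg σ b.2)) (fun a b => g3_symm _ _) m]
      refine Finset.sum_congr rfl fun j hj => ?_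
      rw [Finset.mem_range] at hj
      rw [hdg j (by omega), hdg (j + 1) (by omega)]
      exact g3_fl (C.dg_lt σ _ (by omega)) (C.dg_lt σ _ (by omega))
    · rw [ht']
      show (openM (m + 1) false r negc).G C [(0, [1, 2, 2], 0, []),
          (m, cond false [1, 2, 2] [0, 0, 1], m, [])] (C.fl (C.pm (rvF (m + 1)) σ)) =
        (openM (m + 1) false r negc).G C [(0, [1, 2, 2], 0, []),
          (m, cond false [1, 2, 2] [0, 0, 1], m, [])] σ
      rw [open_G2 m false r negc C, open_G2 m false r negc C, hdg 0 (by omega),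
        hdg m (by omega), Nat.sub_zero, Nat.sub_self]
      simp only [cond_false]
      rw [(cnt_fl (C.dg_lt σ m (by omega))).2, (cnt_fl (C.dg_lt σ 0 (by omega))).1]
      exact add_comm _ _

section half
variable (m : ℕ) (r negc : ℕ)

private theorem half_d (k : ℕ) (hk : k < m + 1) :
    (cond (Nat.blt k (m + 1)) 3 2 : ℕ) = 3 := by
  have : Nat.blt k (m + 1) = true := by simpa using hk
  rw [this]; rfl

private theorem half_d' (k : ℕ) (hk : ¬ k < m + 1) :
    (cond (Nat.blt k (m + 1)) 3 2 : ℕ) = 2 := by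
  have : Nat.blt k (m + 1) = false := by
    rw [Bool.eq_false_iff, ne_eq, Nat.blt_eq]; exact hk
  rw [this]; rfl

private theorem half_posH
    (C : Coord (Fin 2 × (Fin (m + 1) → Fin 3) × Fin 2) (m + 1 + 2)
      (fun k => cond (Nat.blt k (m + 1)) 3 2))
    (σ τ : Fin 2 × (Fin (m + 1) → Fin 3) × Fin 2) :
    (halfM (m + 1) r negc).hops C (halfM (m + 1) r negc).posH σ τ =
      200 * (∑ j ∈ Finset.range m, C.hop j (j + 1) σ τ) +
        110 * (C.hop 0 (m + 1) σ τ + C.hop m (m + 1 + 1) σ τ) := by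
  rw [cv1_hops (halfM (m + 1) r negc) C]
  show (List.map _ [(200, chainB m), (110, [(0, m + 1), (m, m + 1 + 1)])]).sum = _
  simp only [List.map_cons, List.map_nil, List.sum_cons, List.sum_nil, cv1_chain]
  simp
  rfl

private theorem half_negH
    (C : Coord (Fin 2 × (Fin (m + 1) → Fin 3) × Fin 2) (m + 1 + 2)
      (fun k => cond (Nat.blt k (m + 1)) 3 2))
    (σ τ : Fin 2 × (Fin (m + 1) → Fin 3) × Fin 2) :
    (halfM (m + 1) r negc).hops C (halfM (m + 1) r negc).negH σ τ = 0 := by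
  rw [cv1_hops (halfM (m + 1) r negc) C]
  show (List.map _ []).sum = _
  simp

private theorem half_G2
    (C : Coord (Fin 2 × (Fin (m + 1) → Fin 3) × Fin 2) (m + 1 + 2)
      (fun k => cond (Nat.blt k (m + 1)) 3 2))
    (σ : Fin 2 × (Fin (m + 1) → Fin 3) × Fin 2) :
    (halfM (m + 1) r negc).G C (pq2 (0, m + 1) ++ pq2 (m, m + 1 + 1)) σ =
      g2 (C.dg σ 0) (C.dg σ (m + 1)) + g2 (C.dg σ m) (C.dg σ (m + 1 + 1)) := by
  rw [cv1_G_append (halfM (m + 1) r negc) C, cv1_G_pq2 (halfM (m + 1) r negc) C (by omega),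
    cv1_G_pq2 (halfM (m + 1) r negc) C (by omega)]

private theorem cv1_permH : PermOK (m + 1 + 2) (fun k => cond (Nat.blt k (m + 1)) 3 2)
    (rvH (m + 1)) := by
  have e1 : ∀ k, k < m + 1 → rvH (m + 1) k = m - k := by
    intro k hk
    have : Nat.blt k (m + 1) = true := by simpa using hk
    unfold rvH
    rw [this]; rfl
  have e2 : rvH (m + 1) (m + 1) = m + 1 + 1 := by
    have : Nat.blt (m + 1) (m + 1) = false := by
      rw [Bool.eq_false_iff, ne_eq, Nat.blt_eq]; omega
    unfold rvH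
    rw [this, Nat.beq_refl]; rfl
  have e3 : rvH (m + 1) (m + 1 + 1) = m + 1 := by
    have : Nat.blt (m + 1 + 1) (m + 1) = false := by
      rw [Bool.eq_false_iff, ne_eq, Nat.blt_eq]; omega
    have h2 : Nat.beq (m + 1 + 1) (m + 1) = false := by
      rw [Bool.eq_false_iff, ne_eq, Nat.beq_eq]; omega
    unfold rvH
    rw [this, h2]; rfl
  have hc : ∀ k, k < m + 1 + 2 → k < m + 1 ∨ k = m + 1 ∨ k = m + 1 + 1 := by intro k hk; omega
  refine ⟨fun k hk => ?_, fun k hk => ?_, fun k hk => ?_⟩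
  · rcases hc k hk with h | rfl | rfl
    · rw [e1 k h]; omega
    · rw [e2]; omega
    · rw [e3]; omega
  · rcases hc k hk with h | rfl | rfl
    · rw [e1 k h, e1 _ (by omega)]; omega
    · rw [e2, e3]
    · rw [e3, e2]
  · rcases hc k hk with h | rfl | rfl
    · simp only [e1 k h]
      rw [half_d m _ (by omega), half_d m _ h]
    · simp only [e2]
      rw [half_d' m _ (by omega), half_d' m _ (by omega)]
    · simp only [e3]
      rw [half_d' m _ (by omega), half_d' m _ (by omega)]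

private theorem rvH1 (k : ℕ) (hk : k < m + 1) : rvH (m + 1) k = m - k := by
  have : Nat.blt k (m + 1) = true := by simpa using hk
  unfold rvH
  rw [this]; rfl

private theorem rvH2 : rvH (m + 1) (m + 1) = m + 1 + 1 := by
  have : Nat.blt (m + 1) (m + 1) = false := by
    rw [Bool.eq_false_iff, ne_eq, Nat.blt_eq]; omega
  unfold rvH
  rw [this, Nat.beq_refl]; rfl

private theorem rvH3 : rvH (m + 1) (m + 1 + 1) = m + 1 := by
  have : Nat.blt (m + 1 + 1) (m + 1) = false := by
    rw [Bool.eq_false_iff, ne_eq, Nat.blt_eq]; omega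
  have h2 : Nat.beq (m + 1 + 1) (m + 1) = false := by
    rw [Bool.eq_false_iff, ne_eq, Nat.beq_eq]; omega
  unfold rvH
  rw [this, h2]; rfl

end half

theorem half_fl (m : ℕ) (hm : 1 ≤ m) (r negc : ℕ)
    (σ τ : Fin 2 × (Fin (m + 1) → Fin 3) × Fin 2) :
    (halfM (m + 1) r negc).K (coordH m) ((coordH m).fl σ) ((coordH m).fl τ) =
      (halfM (m + 1) r negc).K (coordH m) σ τ := by
  set C := coordH m with hC
  have hhop : ∀ i j, i < m + 1 + 2 → j < m + 1 + 2 →
      C.hop i j (C.fl σ) (C.fl τ) = C.hop i j σ τ :=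
    fun i j hi hj => cv1_hop_fl C hi hj σ τ
  have hsum : ∑ j ∈ Finset.range m, C.hop j (j + 1) (C.fl σ) (C.fl τ) =
      ∑ j ∈ Finset.range m, C.hop j (j + 1) σ τ := by
    refine Finset.sum_congr rfl fun j hj => ?_
    rw [Finset.mem_range] at hj
    exact hhop _ _ (by omega) (by omega)
  have hdg : ∀ k, k < m + 1 → C.dg (C.fl σ) k = 3 - 1 - C.dg σ k := by
    intro k hk
    rw [cv1_dg_fl C σ (show k < m + 1 + 2 by omega), half_d m k hk]
  have hdg' : ∀ k, m + 1 ≤ k → k < m + 1 + 2 → C.dg (C.fl σ) k = 2 - 1 - C.dg σ k := by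
    intro k hk hk'
    rw [cv1_dg_fl C σ hk', half_d' m k (by omega)]
  have hlt : ∀ k, k < m + 1 → C.dg σ k < 3 := by
    intro k hk
    have := C.dg_lt σ k (by omega)
    rwa [half_d m k hk] at this
  have hlt' : ∀ k, m + 1 ≤ k → k < m + 1 + 2 → C.dg σ k < 2 := by
    intro k hk hk'
    have := C.dg_lt σ k hk'
    rwa [half_d' m k (by omega)] at this
  refine cv1_K (halfM (m + 1) r negc) C (cv1_fl_inj C) σ τ ?_ ?_ ?_
  · rw [half_posH m r negc C, half_posH m r negc C, hsum, hhop 0 (m + 1) (by omega) (by omega),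
      hhop m (m + 1 + 1) (by omega) (by omega)]
  · rw [half_negH m r negc C, half_negH m r negc C]
  · intro t ht
    have ht' : t = (200, 1, 4, (chainB m).flatMap pq3) ∨
        t = (77, 1, 3, pq2 (0, m + 1) ++ pq2 (m, m + 1 + 1)) := by
      simpa [halfM] using ht
    rcases ht' with ht' | ht'
    · rw [ht']
      show (halfM (m + 1) r negc).G C ((chainB m).flatMap pq3) (C.fl σ) =
        (halfM (m + 1) r negc).G C ((chainB m).flatMap pq3) σ
      rw [cv1_G_chain (halfM (m + 1) r negc) C, cv1_G_chain (halfM (m + 1) r negc) C]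
      refine Finset.sum_congr rfl fun j hj => ?_
      rw [Finset.mem_range] at hj
      rw [hdg j (by omega), hdg (j + 1) (by omega)]
      exact g3_fl (hlt _ (by omega)) (hlt _ (by omega))
    · rw [ht']
      show (halfM (m + 1) r negc).G C (pq2 (0, m + 1) ++ pq2 (m, m + 1 + 1)) (C.fl σ) =
        (halfM (m + 1) r negc).G C (pq2 (0, m + 1) ++ pq2 (m, m + 1 + 1)) σ
      rw [half_G2 m r negc C, half_G2 m r negc C, hdg 0 (by omega), hdg m (by omega),
        hdg' (m + 1) (by omega) (by omega), hdg' (m + 1 + 1) (by omega) (by omega),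
        g2_fl (hlt _ (by omega)) (hlt' _ (by omega) (by omega)),
        g2_fl (hlt _ (by omega)) (hlt' _ (by omega) (by omega))]

theorem half_rv (m : ℕ) (hm : 1 ≤ m) (r negc : ℕ)
    (σ τ : Fin 2 × (Fin (m + 1) → Fin 3) × Fin 2) :
    (halfM (m + 1) r negc).K (coordH m) ((coordH m).pm (rvH (m + 1)) σ)
      ((coordH m).pm (rvH (m + 1)) τ) =
      (halfM (m + 1) r negc).K (coordH m) σ τ := by
  set C := coordH m with hC
  have hπ := cv1_permH m
  have hhop : ∀ i j, i < m + 1 + 2 → j < m + 1 + 2 →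
      C.hop i j (C.pm (rvH (m + 1)) σ) (C.pm (rvH (m + 1)) τ) =
        C.hop (rvH (m + 1) i) (rvH (m + 1) j) σ τ :=
    fun i j hi hj => cv1_hop_pm C hπ hi hj σ τ
  have hsum : ∑ j ∈ Finset.range m,
      C.hop j (j + 1) (C.pm (rvH (m + 1)) σ) (C.pm (rvH (m + 1)) τ) =
      ∑ j ∈ Finset.range m, C.hop j (j + 1) σ τ := by
    rw [← cv1_chain_rv (fun b => C.hop b.1 b.2 σ τ) (fun a b => cv1_hop_symm C a b σ τ) m]
    refine Finset.sum_congr rfl fun j hj => ?_
    rw [Finset.mem_range] at hj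
    rw [hhop _ _ (by omega) (by omega), rvH1 m j (by omega), rvH1 m (j + 1) (by omega)]
  refine cv1_K (halfM (m + 1) r negc) C (cv1_pm_inj C hπ) σ τ ?_ ?_ ?_
  · rw [half_posH m r negc C, half_posH m r negc C, hsum, hhop 0 (m + 1) (by omega) (by omega),
      hhop m (m + 1 + 1) (by omega) (by omega), rvH1 m 0 (by omega), rvH1 m m (by omega), rvH2,
      rvH3, Nat.sub_zero, Nat.sub_self]
    ring
  · rw [half_negH m r negc C, half_negH m r negc C]
  · intro t ht
    have ht' : t = (200, 1, 4, (chainB m).flatMap pq3) ∨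
        t = (77, 1, 3, pq2 (0, m + 1) ++ pq2 (m, m + 1 + 1)) := by
      simpa [halfM] using ht
    rcases ht' with ht' | ht'
    · rw [ht']
      show (halfM (m + 1) r negc).G C ((chainB m).flatMap pq3) (C.pm (rvH (m + 1)) σ) =
        (halfM (m + 1) r negc).G C ((chainB m).flatMap pq3) σ
      rw [cv1_G_chain (halfM (m + 1) r negc) C, cv1_G_chain (halfM (m + 1) r negc) C]
      rw [← cv1_chain_rv (fun b => g3 (C.dg σ b.1) (C.dg σ b.2)) (fun a b => g3_symm _ _) m]
      refine Finset.sum_congr rfl fun j hj => ?_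
      rw [Finset.mem_range] at hj
      rw [cv1_dg_pm C hπ σ (show j < m + 1 + 2 by omega),
        cv1_dg_pm C hπ σ (show j + 1 < m + 1 + 2 by omega), rvH1 m j (by omega),
        rvH1 m (j + 1) (by omega)]
    · rw [ht']
      show (halfM (m + 1) r negc).G C (pq2 (0, m + 1) ++ pq2 (m, m + 1 + 1))
          (C.pm (rvH (m + 1)) σ) =
        (halfM (m + 1) r negc).G C (pq2 (0, m + 1) ++ pq2 (m, m + 1 + 1)) σ
      rw [half_G2 m r negc C, half_G2 m r negc C, cv1_dg_pm C hπ σ (show 0 < m + 1 + 2 by omega),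
        cv1_dg_pm C hπ σ (show m < m + 1 + 2 by omega),
        cv1_dg_pm C hπ σ (show m + 1 < m + 1 + 2 by omega),
        cv1_dg_pm C hπ σ (show m + 1 + 1 < m + 1 + 2 by omega), rvH1 m 0 (by omega),
        rvH1 m m (by omega), rvH2, rvH3, Nat.sub_zero, Nat.sub_self]
      exact add_comm _ _

end Crest.Agent.HG
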