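import Crest.Agent.HGR_d7s0
import Crest.Agent.HGR_d7t0
import Crest.Agent.HG_CV1

/-! HG part C: all runs of the machine `openM 7 false 58 182`. -/

set_option maxRecDepth 100000
set_option Elab.async false
set_option linter.all false

namespace Crest.Agent.HGR
open Crest.Agent.HG
noncomputable section

def d7 : List Run := d7_00 ++ (d7_01 ++ (d7_02))
theorem d7_ok : ∀ r ∈ d7, (openM 7 false 58 182).ok r = true :=
  List.forall_mem_append.2 ⟨d7_00_ok, List.forall_mem_append.2 ⟨d7_01_ok, d7_02_ok⟩⟩
theorem d7_side : d7.all (fun r => (openM 7 false 58 182).side false 80 r) = true :=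
  side_append _ _ _ d7_00_side
  (side_append _ _ _ d7_01_side
  (d7_02_side))
/-- symmetry group on indices -/
def d7_G : List (Nat → Nat) := [fun i => i, fun i => (openM 7 false 58 182).flI ((openM 7 false 58 182).pmI (rvF 7) i)]
theorem d7_cov : cov d7_G d7 =
    d7_G.length * kGen 3 (openM 7 false 58 182).d (fun k => List.range ((openM 7 false 58 182).d k)) (openM 7 false 58 182).n := by decide +kernel
theorem d7_cnt : cnt d7 = (openM 7 false 58 182).D := by decide +kernel
theorem d7_cntE : cntE d7 = 1094 := by decide +kernel
theorem d7_cntX : cntX d7 = 0 := by decide +kernel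
theorem d7_C : (openM 7 false 58 182).pos (openM 7 false 58 182).offP ≤
    Nat.shiftLeft (openM 7 false 58 182).offP ((openM 7 false 58 182).sh + 1) + (openM 7 false 58 182).neg (openM 7 false 58 182).offP := by decide +kernel
def d7_T : List (List Nat) := d7_T00
theorem d7_tot : tot 80 d7 = d7_T := by
  unfold d7 d7_T
  rw [tot_append, tot_append, tot_eq_foldT, d7_t02, d7_t01, d7_t00]
end
end Crest.Agent.HGR
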