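import Crest.Agent.HGR_d8_04
import Crest.Agent.HGR_d8_05
import Crest.Agent.HGR_d8_06
import Crest.Agent.HGR_d8_07
import Crest.Agent.HGR_Fold

set_option maxRecDepth 100000
set_option Elab.async false
set_option linter.all false
namespace Crest.Agent.HGR
open Crest.Agent.HG
noncomputable section

theorem d8_04_side : d8_04.all (fun r => (openM 8 false 58 170).side false 80 r) = true := by decide +kernel

theorem d8_05_side : d8_05.all (fun r => (openM 8 false 58 170).side false 80 r) = true := by decide +kernel

theorem d8_06_side : d8_06.all (fun r => (openM 8 false 58 170).side false 80 r) = true := by decide +kernel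

theorem d8_07_side : d8_07.all (fun r => (openM 8 false 58 170).side false 80 r) = true := by decide +kernel

end
end Crest.Agent.HGR
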