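import Crest.Agent.HGR_d8s0
import Crest.Agent.HGR_d8s1
import Crest.Agent.HGR_d8s2
import Crest.Agent.HGR_d8t0
import Crest.Agent.HGR_d8t1
import Crest.Agent.HG_CV1

/-! HG part C: all runs of the machine `openM 8 false 58 170`. -/

set_option maxRecDepth 100000
set_option Elab.async false
set_option linter.all false

namespace Crest.Agent.HGR
open Crest.Agent.HG
noncomputable section

def d8 : List Run := d8_00 ++ (d8_01 ++ (d8_02 ++ (d8_03 ++ (d8_04 ++ (d8_05 ++ (d8_06 ++ (d8_07 ++ (d8_08 ++ (d8_09)))))))))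
theorem d8_ok : ∀ r ∈ d8, (openM 8 false 58 170).ok r = true :=
  List.forall_mem_append.2 ⟨d8_00_ok, List.forall_mem_append.2 ⟨d8_01_ok, List.forall_mem_append.2 ⟨d8_02_ok, List.forall_mem_append.2 ⟨d8_03_ok, List.forall_mem_append.2 ⟨d8_04_ok, List.forall_mem_append.2 ⟨d8_05_ok, List.forall_mem_append.2 ⟨d8_06_ok, List.forall_mem_append.2 ⟨d8_07_ok, List.forall_mem_append.2 ⟨d8_08_ok, d8_09_ok⟩⟩⟩⟩⟩⟩⟩⟩⟩
theorem d8_side : d8.all (fun r => (openM 8 false 58 170).side false 80 r) = true :=
  side_append _ _ _ d8_00_side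
  (side_append _ _ _ d8_01_side
  (side_append _ _ _ d8_02_side
  (side_append _ _ _ d8_03_side
  (side_append _ _ _ d8_04_side
  (side_append _ _ _ d8_05_side
  (side_append _ _ _ d8_06_side
  (side_append _ _ _ d8_07_side
  (side_append _ _ _ d8_08_side
  (d8_09_side)))))))))
/-- symmetry group on indices -/
def d8_G : List (Nat → Nat) := [fun i => i, fun i => (openM 8 false 58 170).flI ((openM 8 false 58 170).pmI (rvF 8) i)]
theorem d8_cov : cov d8_G d8 =
    d8_G.length * kGen 3 (openM 8 false 58 170).d (fun k => List.range ((openM 8 false 58 170).d k)) (openM 8 false 58 170).n := by decide +kernel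
theorem d8_cnt : cnt d8 = (openM 8 false 58 170).D := by decide +kernel
theorem d8_cntE : cntE d8 = 3281 := by decide +kernel
theorem d8_cntX : cntX d8 = 0 := by decide +kernel
theorem d8_C : (openM 8 false 58 170).pos (openM 8 false 58 170).offP ≤
    Nat.shiftLeft (openM 8 false 58 170).offP ((openM 8 false 58 170).sh + 1) + (openM 8 false 58 170).neg (openM 8 false 58 170).offP := by decide +kernel
def d8_T : List (List Nat) := d8_T00
theorem d8_tot : tot 80 d8 = d8_T := by
  unfold d8 d8_T
  rw [tot_append, tot_append, tot_append, tot_append, tot_append, tot_append, tot_append, tot_append, tot_append, tot_eq_foldT, d8_t09, d8_t08, d8_t07, d8_t06, d8_t05, d8_t04, d8_t03, d8_t02, d8_t01, d8_t00]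
end
end Crest.Agent.HGR
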