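import Crest.Agent.HGR_h6s0
import Crest.Agent.HGR_h6t0
import Crest.Agent.HG_CV1

/-! HG part C: all runs of the machine `halfM 6 58 1404`. -/

set_option maxRecDepth 100000
set_option Elab.async false
set_option linter.all false

namespace Crest.Agent.HGR
open Crest.Agent.HG
noncomputable section

def h6 : List Run := h6_00 ++ (h6_01)
theorem h6_ok : ∀ r ∈ h6, (halfM 6 58 1404).ok r = true :=
  List.forall_mem_append.2 ⟨h6_00_ok, h6_01_ok⟩
theorem h6_side : h6.all (fun r => (halfM 6 58 1404).side false 80 r) = true :=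
  side_append _ _ _ h6_00_side
  (h6_01_side)
/-- symmetry group on indices -/
def h6_G : List (Nat → Nat) := [fun i => i, fun i => (halfM 6 58 1404).flI i, fun i => (halfM 6 58 1404).pmI (rvH 6) i,
  fun i => (halfM 6 58 1404).flI ((halfM 6 58 1404).pmI (rvH 6) i)]
theorem h6_cov : cov h6_G h6 =
    h6_G.length * kGen 3 (halfM 6 58 1404).d (fun k => List.range ((halfM 6 58 1404).d k)) (halfM 6 58 1404).n := by decide +kernel
theorem h6_cnt : cnt h6 = (halfM 6 58 1404).D := by decide +kernel
theorem h6_cntE : cntE h6 = 1458 := by decide +kernel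
theorem h6_cntX : cntX h6 = 0 := by decide +kernel
theorem h6_C : (halfM 6 58 1404).pos (halfM 6 58 1404).offP ≤
    Nat.shiftLeft (halfM 6 58 1404).offP ((halfM 6 58 1404).sh + 1) + (halfM 6 58 1404).neg (halfM 6 58 1404).offP := by decide +kernel
def h6_T : List (List Nat) := h6_T00
theorem h6_tot : tot 80 h6 = h6_T := by
  unfold h6 h6_T
  rw [tot_append, tot_eq_foldT, h6_t01, h6_t00]
end
end Crest.Agent.HGR
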