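import Crest.Agent.HGR_h7s0
import Crest.Agent.HGR_h7s1
import Crest.Agent.HGR_h7t0
import Crest.Agent.HG_CV1

/-! HG part C: all runs of the machine `halfM 7 58 1304`. -/

set_option maxRecDepth 100000
set_option Elab.async false
set_option linter.all false

namespace Crest.Agent.HGR
open Crest.Agent.HG
noncomputable section

def h7 : List Run := h7_00 ++ (h7_01 ++ (h7_02 ++ (h7_03 ++ (h7_04 ++ (h7_05 ++ (h7_06 ++ (h7_07)))))))
theorem h7_ok : ∀ r ∈ h7, (halfM 7 58 1304).ok r = true :=
  List.forall_mem_append.2 ⟨h7_00_ok, List.forall_mem_append.2 ⟨h7_01_ok, List.forall_mem_append.2 ⟨h7_02_ok, List.forall_mem_append.2 ⟨h7_03_ok, List.forall_mem_append.2 ⟨h7_04_ok, List.forall_mem_append.2 ⟨h7_05_ok, List.forall_mem_append.2 ⟨h7_06_ok, h7_07_ok⟩⟩⟩⟩⟩⟩⟩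
theorem h7_side : h7.all (fun r => (halfM 7 58 1304).side false 80 r) = true :=
  side_append _ _ _ h7_00_side
  (side_append _ _ _ h7_01_side
  (side_append _ _ _ h7_02_side
  (side_append _ _ _ h7_03_side
  (side_append _ _ _ h7_04_side
  (side_append _ _ _ h7_05_side
  (side_append _ _ _ h7_06_side
  (h7_07_side)))))))
/-- symmetry group on indices -/
def h7_G : List (Nat → Nat) := [fun i => i, fun i => (halfM 7 58 1304).flI i, fun i => (halfM 7 58 1304).pmI (rvH 7) i,
  fun i => (halfM 7 58 1304).flI ((halfM 7 58 1304).pmI (rvH 7) i)]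
theorem h7_cov : cov h7_G h7 =
    h7_G.length * kGen 3 (halfM 7 58 1304).d (fun k => List.range ((halfM 7 58 1304).d k)) (halfM 7 58 1304).n := by decide +kernel
theorem h7_cnt : cnt h7 = (halfM 7 58 1304).D := by decide +kernel
theorem h7_cntE : cntE h7 = 4374 := by decide +kernel
theorem h7_cntX : cntX h7 = 0 := by decide +kernel
theorem h7_C : (halfM 7 58 1304).pos (halfM 7 58 1304).offP ≤
    Nat.shiftLeft (halfM 7 58 1304).offP ((halfM 7 58 1304).sh + 1) + (halfM 7 58 1304).neg (halfM 7 58 1304).offP := by decide +kernel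
def h7_T : List (List Nat) := h7_T00
theorem h7_tot : tot 80 h7 = h7_T := by
  unfold h7 h7_T
  rw [tot_append, tot_append, tot_append, tot_append, tot_append, tot_append, tot_append, tot_eq_foldT, h7_t07, h7_t06, h7_t05, h7_t04, h7_t03, h7_t02, h7_t01, h7_t00]
end
end Crest.Agent.HGR
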