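import Crest.Agent.HGR_h8_08
import Crest.Agent.HGR_h8_09
import Crest.Agent.HGR_h8_10
import Crest.Agent.HGR_h8_11
import Crest.Agent.HGR_Fold

set_option maxRecDepth 100000
set_option Elab.async false
set_option linter.all false
namespace Crest.Agent.HGR
open Crest.Agent.HG
noncomputable section

theorem h8_08_side : h8_08.all (fun r => (halfM 8 58 1204).side false 80 r) = true := by decide +kernel

theorem h8_09_side : h8_09.all (fun r => (halfM 8 58 1204).side false 80 r) = true := by decide +kernel

theorem h8_10_side : h8_10.all (fun r => (halfM 8 58 1204).side false 80 r) = true := by decide +kernel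

theorem h8_11_side : h8_11.all (fun r => (halfM 8 58 1204).side false 80 r) = true := by decide +kernel

end
end Crest.Agent.HGR
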