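import Crest.Agent.HGR_h8s0
import Crest.Agent.HGR_h8s1
import Crest.Agent.HGR_h8s2
import Crest.Agent.HGR_h8s3
import Crest.Agent.HGR_h8s4
import Crest.Agent.HGR_h8s5
import Crest.Agent.HGR_h8s6
import Crest.Agent.HGR_h8s7
import Crest.Agent.HGR_h8t0
import Crest.Agent.HGR_h8t1
import Crest.Agent.HGR_h8t2
import Crest.Agent.HGR_h8t3
import Crest.Agent.HG_CV1

/-! HG part C: all runs of the machine `halfM 8 58 1204`. -/

set_option maxRecDepth 100000
set_option Elab.async false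
set_option linter.all false

namespace Crest.Agent.HGR
open Crest.Agent.HG
noncomputable section

def h8 : List Run := h8_00 ++ (h8_01 ++ (h8_02 ++ (h8_03 ++ (h8_04 ++ (h8_05 ++ (h8_06 ++ (h8_07 ++ (h8_08 ++ (h8_09 ++ (h8_10 ++ (h8_11 ++ (h8_12 ++ (h8_13 ++ (h8_14 ++ (h8_15 ++ (h8_16 ++ (h8_17 ++ (h8_18 ++ (h8_19 ++ (h8_20 ++ (h8_21 ++ (h8_22 ++ (h8_23 ++ (h8_24 ++ (h8_25 ++ (h8_26 ++ (h8_27 ++ (h8_28))))))))))))))))))))))))))))
theorem h8_ok : ∀ r ∈ h8, (halfM 8 58 1204).ok r = true :=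
  List.forall_mem_append.2 ⟨h8_00_ok, List.forall_mem_append.2 ⟨h8_01_ok, List.forall_mem_append.2 ⟨h8_02_ok, List.forall_mem_append.2 ⟨h8_03_ok, List.forall_mem_append.2 ⟨h8_04_ok, List.forall_mem_append.2 ⟨h8_05_ok, List.forall_mem_append.2 ⟨h8_06_ok, List.forall_mem_append.2 ⟨h8_07_ok, List.forall_mem_append.2 ⟨h8_08_ok, List.forall_mem_append.2 ⟨h8_09_ok, List.forall_mem_append.2 ⟨h8_10_ok, List.forall_mem_append.2 ⟨h8_11_ok, List.forall_mem_append.2 ⟨h8_12_ok, List.forall_mem_append.2 ⟨h8_13_ok, List.forall_mem_append.2 ⟨h8_14_ok, List.forall_mem_append.2 ⟨h8_15_ok, List.forall_mem_append.2 ⟨h8_16_ok, List.forall_mem_append.2 ⟨h8_17_ok, List.forall_mem_append.2 ⟨h8_18_ok, List.forall_mem_append.2 ⟨h8_19_ok, List.forall_mem_append.2 ⟨h8_20_ok, List.forall_mem_append.2 ⟨h8_21_ok, List.forall_mem_append.2 ⟨h8_22_ok, List.forall_mem_append.2 ⟨h8_23_ok, List.forall_mem_append.2 ⟨h8_24_ok, List.forall_mem_append.2 ⟨h8_25_ok, List.forall_mem_append.2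 ⟨h8_26_ok, List.forall_mem_append.2 ⟨h8_27_ok, h8_28_ok⟩⟩⟩⟩⟩⟩⟩⟩⟩⟩⟩⟩⟩⟩⟩⟩⟩⟩⟩⟩⟩⟩⟩⟩⟩⟩⟩⟩
theorem h8_side : h8.all (fun r => (halfM 8 58 1204).side false 80 r) = true :=
  side_append _ _ _ h8_00_side
  (side_append _ _ _ h8_01_side
  (side_append _ _ _ h8_02_side
  (side_append _ _ _ h8_03_side
  (side_append _ _ _ h8_04_side
  (side_append _ _ _ h8_05_side
  (side_append _ _ _ h8_06_side
  (side_append _ _ _ h8_07_side
  (side_append _ _ _ h8_08_side
  (side_append _ _ _ h8_09_side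
  (side_append _ _ _ h8_10_side
  (side_append _ _ _ h8_11_side
  (side_append _ _ _ h8_12_side
  (side_append _ _ _ h8_13_side
  (side_append _ _ _ h8_14_side
  (side_append _ _ _ h8_15_side
  (side_append _ _ _ h8_16_side
  (side_append _ _ _ h8_17_side
  (side_append _ _ _ h8_18_side
  (side_append _ _ _ h8_19_side
  (side_append _ _ _ h8_20_side
  (side_append _ _ _ h8_21_side
  (side_append _ _ _ h8_22_side
  (side_append _ _ _ h8_23_side
  (side_append _ _ _ h8_24_side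
  (side_append _ _ _ h8_25_side
  (side_append _ _ _ h8_26_side
  (side_append _ _ _ h8_27_side
  (h8_28_side))))))))))))))))))))))))))))
/-- symmetry group on indices -/
def h8_G : List (Nat → Nat) := [fun i => i, fun i => (halfM 8 58 1204).flI i, fun i => (halfM 8 58 1204).pmI (rvH 8) i,
  fun i => (halfM 8 58 1204).flI ((halfM 8 58 1204).pmI (rvH 8) i)]
theorem h8_cov : cov h8_G h8 =
    h8_G.length * kGen 3 (halfM 8 58 1204).d (fun k => List.range ((halfM 8 58 1204).d k)) (halfM 8 58 1204).n := by decide +kernel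
theorem h8_cnt : cnt h8 = (halfM 8 58 1204).D := by decide +kernel
theorem h8_cntE : cntE h8 = 13122 := by decide +kernel
theorem h8_cntX : cntX h8 = 0 := by decide +kernel
theorem h8_C : (halfM 8 58 1204).pos (halfM 8 58 1204).offP ≤
    Nat.shiftLeft (halfM 8 58 1204).offP ((halfM 8 58 1204).sh + 1) + (halfM 8 58 1204).neg (halfM 8 58 1204).offP := by decide +kernel
def h8_T : List (List Nat) := h8_T00
theorem h8_tot : tot 80 h8 = h8_T := by
  unfold h8 h8_T
  rw [tot_append, tot_append, tot_append, tot_append, tot_append, tot_append, tot_append, tot_append, tot_append, tot_append, tot_append, tot_append, tot_append, tot_append, tot_append, tot_append, tot_append, tot_append, tot_append, tot_append, tot_append, tot_append, tot_append, tot_append, tot_append, tot_append, tot_append, tot_append, tot_eq_foldT, h8_t28, h8_t27, h8_t26, h8_t25, h8_t24, h8_t23, h8_t22, h8_t21, h8_t20, h8_t19, h8_t18, h8_t17, h8_t16, h8_t15, h8_t14, h8_t13, h8_t12,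 h8_t11, h8_t10, h8_t09, h8_t08, h8_t07, h8_t06, h8_t05, h8_t04, h8_t03, h8_t02, h8_t01, h8_t00]
end
end Crest.Agent.HGR
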