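import Crest.Agent.HGR_r8s0
import Crest.Agent.HGR_r8s1
import Crest.Agent.HGR_r8t0
import Crest.Agent.HG_CV1

/-! HG part C: all runs of the machine `ringM 8 false 56 156`. -/

set_option maxRecDepth 100000
set_option Elab.async false
set_option linter.all false

namespace Crest.Agent.HGR
open Crest.Agent.HG
noncomputable section

def r8 : List Run := r8_00 ++ (r8_01 ++ (r8_02 ++ (r8_03 ++ (r8_04 ++ (r8_05)))))
theorem r8_ok : ∀ r ∈ r8, (ringM 8 false 56 156).ok r = true :=
  List.forall_mem_append.2 ⟨r8_00_ok, List.forall_mem_append.2 ⟨r8_01_ok, List.forall_mem_append.2 ⟨r8_02_ok, List.forall_mem_append.2 ⟨r8_03_ok, List.forall_mem_append.2 ⟨r8_04_ok, r8_05_ok⟩⟩⟩⟩⟩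
theorem r8_side : r8.all (fun r => (ringM 8 false 56 156).side false 80 r) = true :=
  side_append _ _ _ r8_00_side
  (side_append _ _ _ r8_01_side
  (side_append _ _ _ r8_02_side
  (side_append _ _ _ r8_03_side
  (side_append _ _ _ r8_04_side
  (r8_05_side)))))
/-- symmetry group on indices -/
def r8_G : List (Nat → Nat) := [fun i => i, fun i => (ringM 8 false 56 156).flI i, fun i => (ringM 8 false 56 156).pmI (rvF 8) i,
  fun i => (ringM 8 false 56 156).flI ((ringM 8 false 56 156).pmI (rvF 8) i)]
theorem r8_cov : cov r8_G r8 =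
    r8_G.length * kGen 3 (ringM 8 false 56 156).d (fun k => List.range ((ringM 8 false 56 156).d k)) (ringM 8 false 56 156).n := by decide +kernel
theorem r8_cnt : cnt r8 = (ringM 8 false 56 156).D := by decide +kernel
theorem r8_cntE : cntE r8 = 3281 := by decide +kernel
theorem r8_cntX : cntX r8 = 0 := by decide +kernel
theorem r8_C : (ringM 8 false 56 156).pos (ringM 8 false 56 156).offP ≤
    Nat.shiftLeft (ringM 8 false 56 156).offP ((ringM 8 false 56 156).sh + 1) + (ringM 8 false 56 156).neg (ringM 8 false 56 156).offP := by decide +kernel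
def r8_T : List (List Nat) := r8_T00
theorem r8_tot : tot 80 r8 = r8_T := by
  unfold r8 r8_T
  rw [tot_append, tot_append, tot_append, tot_append, tot_append, tot_eq_foldT, r8_t05, r8_t04, r8_t03, r8_t02, r8_t01, r8_t00]
end
end Crest.Agent.HGR
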