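import Crest.Agent.HGR_r8_00
import Crest.Agent.HGR_r8_01
import Crest.Agent.HGR_r8_02
import Crest.Agent.HGR_r8_03
import Crest.Agent.HGR_Fold

set_option maxRecDepth 100000
set_option Elab.async false
set_option linter.all false
namespace Crest.Agent.HGR
open Crest.Agent.HG
noncomputable section

theorem r8_00_side : r8_00.all (fun r => (ringM 8 false 56 156).side false 80 r) = true := by decide +kernel

theorem r8_01_side : r8_01.all (fun r => (ringM 8 false 56 156).side false 80 r) = true := by decide +kernel

theorem r8_02_side : r8_02.all (fun r => (ringM 8 false 56 156).side false 80 r) = true := by decide +kernel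

theorem r8_03_side : r8_03.all (fun r => (ringM 8 false 56 156).side false 80 r) = true := by decide +kernel

end
end Crest.Agent.HGR
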