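import Crest.Agent.HGR_u7s0
import Crest.Agent.HGR_u7t0
import Crest.Agent.HG_CV1

/-! HG part C: all runs of the machine `openM 7 true 58 182`. -/

set_option maxRecDepth 100000
set_option Elab.async false
set_option linter.all false

namespace Crest.Agent.HGR
open Crest.Agent.HG
noncomputable section

def u7 : List Run := u7_00 ++ (u7_01 ++ (u7_02))
theorem u7_ok : ∀ r ∈ u7, (openM 7 true 58 182).ok r = true :=
  List.forall_mem_append.2 ⟨u7_00_ok, List.forall_mem_append.2 ⟨u7_01_ok, u7_02_ok⟩⟩
theorem u7_side : u7.all (fun r => (openM 7 true 58 182).side false 80 r) = true :=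
  side_append _ _ _ u7_00_side
  (side_append _ _ _ u7_01_side
  (u7_02_side))
/-- symmetry group on indices -/
def u7_G : List (Nat → Nat) := [fun i => i, fun i => (openM 7 true 58 182).pmI (rvF 7) i]
theorem u7_cov : cov u7_G u7 =
    u7_G.length * kGen 3 (openM 7 true 58 182).d (fun k => List.range ((openM 7 true 58 182).d k)) (openM 7 true 58 182).n := by decide +kernel
theorem u7_cnt : cnt u7 = (openM 7 true 58 182).D := by decide +kernel
theorem u7_cntE : cntE u7 = 1094 := by decide +kernel
theorem u7_cntX : cntX u7 = 0 := by decide +kernel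
theorem u7_C : (openM 7 true 58 182).pos (openM 7 true 58 182).offP ≤
    Nat.shiftLeft (openM 7 true 58 182).offP ((openM 7 true 58 182).sh + 1) + (openM 7 true 58 182).neg (openM 7 true 58 182).offP := by decide +kernel
def u7_T : List (List Nat) := u7_T00
theorem u7_tot : tot 80 u7 = u7_T := by
  unfold u7 u7_T
  rw [tot_append, tot_append, tot_eq_foldT, u7_t02, u7_t01, u7_t00]
end
end Crest.Agent.HGR
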