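import Crest.Agent.HGR_u8s0
import Crest.Agent.HGR_u8s1
import Crest.Agent.HGR_u8s2
import Crest.Agent.HGR_u8t0
import Crest.Agent.HGR_u8t1
import Crest.Agent.HG_CV1

/-! HG part C: all runs of the machine `openM 8 true 58 170`. -/

set_option maxRecDepth 100000
set_option Elab.async false
set_option linter.all false

namespace Crest.Agent.HGR
open Crest.Agent.HG
noncomputable section

def u8 : List Run := u8_00 ++ (u8_01 ++ (u8_02 ++ (u8_03 ++ (u8_04 ++ (u8_05 ++ (u8_06 ++ (u8_07 ++ (u8_08 ++ (u8_09)))))))))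
theorem u8_ok : ∀ r ∈ u8, (openM 8 true 58 170).ok r = true :=
  List.forall_mem_append.2 ⟨u8_00_ok, List.forall_mem_append.2 ⟨u8_01_ok, List.forall_mem_append.2 ⟨u8_02_ok, List.forall_mem_append.2 ⟨u8_03_ok, List.forall_mem_append.2 ⟨u8_04_ok, List.forall_mem_append.2 ⟨u8_05_ok, List.forall_mem_append.2 ⟨u8_06_ok, List.forall_mem_append.2 ⟨u8_07_ok, List.forall_mem_append.2 ⟨u8_08_ok, u8_09_ok⟩⟩⟩⟩⟩⟩⟩⟩⟩
theorem u8_side : u8.all (fun r => (openM 8 true 58 170).side false 80 r) = true :=
  side_append _ _ _ u8_00_side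
  (side_append _ _ _ u8_01_side
  (side_append _ _ _ u8_02_side
  (side_append _ _ _ u8_03_side
  (side_append _ _ _ u8_04_side
  (side_append _ _ _ u8_05_side
  (side_append _ _ _ u8_06_side
  (side_append _ _ _ u8_07_side
  (side_append _ _ _ u8_08_side
  (u8_09_side)))))))))
/-- symmetry group on indices -/
def u8_G : List (Nat → Nat) := [fun i => i, fun i => (openM 8 true 58 170).pmI (rvF 8) i]
theorem u8_cov : cov u8_G u8 =
    u8_G.length * kGen 3 (openM 8 true 58 170).d (fun k => List.range ((openM 8 true 58 170).d k)) (openM 8 true 58 170).n := by decide +kernel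
theorem u8_cnt : cnt u8 = (openM 8 true 58 170).D := by decide +kernel
theorem u8_cntE : cntE u8 = 3281 := by decide +kernel
theorem u8_cntX : cntX u8 = 0 := by decide +kernel
theorem u8_C : (openM 8 true 58 170).pos (openM 8 true 58 170).offP ≤
    Nat.shiftLeft (openM 8 true 58 170).offP ((openM 8 true 58 170).sh + 1) + (openM 8 true 58 170).neg (openM 8 true 58 170).offP := by decide +kernel
def u8_T : List (List Nat) := u8_T00
theorem u8_tot : tot 80 u8 = u8_T := by
  unfold u8 u8_T
  rw [tot_append, tot_append, tot_append, tot_append, tot_append, tot_append, tot_append, tot_append, tot_append, tot_eq_foldT, u8_t09, u8_t08, u8_t07, u8_t06, u8_t05, u8_t04, u8_t03, u8_t02, u8_t01, u8_t00]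
end
end Crest.Agent.HGR
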