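import Crest.Agent.HG_ADefs

/-!
HG task A1: crossing lemma and finite exponential sums (`PS`).
-/

set_option autoImplicit false

namespace Crest.Agent.HG

/-- Crossing lemma: the a-priori bound `x ≤ Y` excludes the larger root of `Y x² - 2x + Y = 0`;
`xb` is any rational with `Y xb² - 2 xb + Y ≤ 0`, `xb ≤ 1`. (If `x > xb` then by convexity of
`f(z) = Y z² - 2 z + Y`, `f(xb) ≤ 0`, `f(1) < 0` gives `f(x) < 0` as `xb < x < 1`; but the
hypothesis `hc` says `f(x) ≥ 0`.) -/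
theorem crossing {x Y xb : ℝ} (hx : 0 ≤ x) (hxY : x ≤ Y) (hY : Y < 1)
    (hc : (1 + x) ^ 2 ≤ (1 + Y) * (1 + x ^ 2)) (hxb : Y * xb ^ 2 - 2 * xb + Y ≤ 0)
    (hxb1 : xb ≤ 1) : x ≤ xb := by
  by_contra hlt
  push Not at hlt
  have hx1 : x < 1 := lt_of_le_of_lt hxY hY
  have hY0 : 0 ≤ Y := le_trans hx hxY
  have hf : 0 ≤ Y * x ^ 2 - 2 * x + Y := by nlinarith
  have h1 : (1 - xb) * (Y * x ^ 2 - 2 * x + Y) =
      (1 - x) * (Y * xb ^ 2 - 2 * xb + Y) + (x - xb) * (2 * Y - 2) -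
        Y * ((x - xb) * (1 - x) * (1 - xb)) := by ring
  have h2 : 0 ≤ (1 - xb) * (Y * x ^ 2 - 2 * x + Y) := mul_nonneg (by linarith) hf
  have h3 : (1 - x) * (Y * xb ^ 2 - 2 * xb + Y) ≤ 0 :=
    mul_nonpos_of_nonneg_of_nonpos (by linarith) hxb
  have h4 : (x - xb) * (2 * Y - 2) < 0 := mul_neg_of_pos_of_neg (by linarith) (by linarith)
  have h5 : 0 ≤ Y * ((x - xb) * (1 - x) * (1 - xb)) :=
    mul_nonneg hY0 (mul_nonneg (mul_nonneg (by linarith) (by linarith)) (by linarith))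
  linarith

theorem PS.nonneg {x : ℝ → ℝ} (h : PS x) (β : ℝ) : 0 ≤ x β := by
  obtain ⟨m, e, -, h2⟩ := h
  rw [h2]
  exact Finset.sum_nonneg (fun j _ => (Real.exp_pos _).le)

theorem PS.anti {x : ℝ → ℝ} (h : PS x) {β β' : ℝ} (hb : β ≤ β') : x β' ≤ x β := by
  obtain ⟨m, e, h1, h2⟩ := h
  rw [h2, h2]
  refine Finset.sum_le_sum (fun j _ => Real.exp_le_exp.2 ?_)
  have := mul_le_mul_of_nonneg_right hb (h1 j)
  linarith

/-- `x(cβ) ≤ x(β)^c` for `c ≥ 1` (`Σ z_j^c ≤ (Σ z_j)^c`). -/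
theorem PS.rpow {x : ℝ → ℝ} (h : PS x) {c : ℝ} (hc : 1 ≤ c) (β : ℝ) : x (c * β) ≤ x β ^ c := by
  obtain ⟨m, e, h1, h2⟩ := h
  rw [h2, h2]
  set S := ∑ j, Real.exp (-(β * e j)) with hS
  have hS0 : 0 ≤ S := Finset.sum_nonneg (fun j _ => (Real.exp_pos _).le)
  rcases hS0.eq_or_lt with h0 | hpos
  · have hm : ∀ j : Fin m, False := by
      intro j
      have h3 : Real.exp (-(β * e j)) ≤ S :=
        Finset.single_le_sum (f := fun j => Real.exp (-(β * e j)))
          (fun i _ => (Real.exp_pos _).le) (Finset.mem_univ j)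
      have := Real.exp_pos (-(β * e j))
      linarith
    rw [Finset.sum_eq_zero (fun j _ => (hm j).elim), ← h0, Real.zero_rpow (by linarith)]
  · have hbd : ∀ j, Real.exp (-(c * β * e j)) ≤ S ^ (c - 1) * Real.exp (-(β * e j)) := by
      intro j
      have h3 : Real.exp (-(β * e j)) ≤ S :=
        Finset.single_le_sum (f := fun j => Real.exp (-(β * e j)))
          (fun i _ => (Real.exp_pos _).le) (Finset.mem_univ j)
      have h4 : Real.exp (-(c * β * e j)) =
          Real.exp (-(β * e j)) ^ (c - 1) * Real.exp (-(β * e j)) := by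
        rw [← Real.rpow_add_one (ne_of_gt (Real.exp_pos _)), ← Real.exp_mul]
        congr 1
        ring
      rw [h4]
      exact mul_le_mul_of_nonneg_right
        (Real.rpow_le_rpow (Real.exp_pos _).le h3 (by linarith)) (Real.exp_pos _).le
    calc ∑ j, Real.exp (-(c * β * e j)) ≤ ∑ j, S ^ (c - 1) * Real.exp (-(β * e j)) :=
          Finset.sum_le_sum (fun j _ => hbd j)
      _ = S ^ (c - 1) * S := by rw [← Finset.mul_sum]
      _ = S ^ c := by
        rw [← Real.rpow_add_one (ne_of_gt hpos)]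
        congr 1
        ring

theorem PS.two {x : ℝ → ℝ} (h : PS x) (β : ℝ) : x (2 * β) ≤ x β ^ 2 := by
  have h1 := h.rpow (c := 2) (by norm_num) β
  rwa [Real.rpow_two] at h1

theorem PS.add {x y : ℝ → ℝ} (hx : PS x) (hy : PS y) : PS (fun β => x β + y β) := by
  obtain ⟨m, e, h1, h2⟩ := hx
  obtain ⟨m', e', h1', h2'⟩ := hy
  refine ⟨m + m', Fin.append e e', ?_, ?_⟩
  · intro j
    refine Fin.addCases (fun i => ?_) (fun i => ?_) j
    · rw [Fin.append_left]; exact h1 i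
    · rw [Fin.append_right]; exact h1' i
  · intro β
    show x β + y β = _
    rw [Fin.sum_univ_add, h2, h2']
    simp only [Fin.append_left, Fin.append_right]

theorem PS.three {x : ℝ → ℝ} (hx : PS x) : PS (fun β => 3 * x β) := by
  have h := hx.add (hx.add hx)
  have e : (fun β => 3 * x β) = fun β => x β + (x β + x β) := by
    funext β; ring
  rw [e]
  exact h

/-- both crossing inequalities for `f β = exp(-βE)(1+x β)`, with `ρ = f(β)²/f(2β)`. -/
theorem PS.cross {x : ℝ → ℝ} (hx : PS x) {E β ρ : ℝ} (hβ : 0 < β)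
    (h : (Real.exp (-(β * E)) * (1 + x β)) ^ 2 ≤
      ρ * (Real.exp (-(2 * β * E)) * (1 + x (2 * β)))) :
    1 + x β ≤ ρ ∧ (1 + x β) ^ 2 ≤ ρ * (1 + x β ^ 2) := by
  have hx0 := hx.nonneg β
  have hx20 := hx.nonneg (2 * β)
  have hx2 := hx.two β
  have hx1 := hx.anti (by linarith : β ≤ 2 * β)
  have e1 : Real.exp (-(2 * β * E)) = Real.exp (-(β * E)) ^ 2 := by
    rw [← Real.exp_nat_mul]
    congr 1
    push_cast
    ring
  have hE : 0 < Real.exp (-(β * E)) := Real.exp_pos _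
  have h3 : (1 + x β) ^ 2 ≤ ρ * (1 + x (2 * β)) := by
    rw [e1] at h
    have h4 : Real.exp (-(β * E)) ^ 2 * (1 + x β) ^ 2 ≤
        Real.exp (-(β * E)) ^ 2 * (ρ * (1 + x (2 * β))) := by
      calc Real.exp (-(β * E)) ^ 2 * (1 + x β) ^ 2 = (Real.exp (-(β * E)) * (1 + x β)) ^ 2 := by
            ring
        _ ≤ ρ * (Real.exp (-(β * E)) ^ 2 * (1 + x (2 * β))) := h
        _ = Real.exp (-(β * E)) ^ 2 * (ρ * (1 + x (2 * β))) := by ring
    exact le_of_mul_le_mul_left h4 (by positivity)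
  have hρ0 : 0 < ρ := by
    by_contra hn
    push Not at hn
    have : ρ * (1 + x (2 * β)) ≤ 0 := mul_nonpos_of_nonpos_of_nonneg hn (by linarith)
    have h5 : 0 < (1 + x β) ^ 2 := by positivity
    linarith
  constructor
  · have h6 : (1 + x β) * (1 + x β) ≤ ρ * (1 + x β) := by
      calc (1 + x β) * (1 + x β) = (1 + x β) ^ 2 := by ring
        _ ≤ ρ * (1 + x (2 * β)) := h3
        _ ≤ ρ * (1 + x β) := mul_le_mul_of_nonneg_left (by linarith) hρ0.le
    exact le_of_mul_le_mul_right h6 (by linarith)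
  · exact le_trans h3 (mul_le_mul_of_nonneg_left (by linarith) hρ0.le)

end Crest.Agent.HG
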