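import Crest.Agent.HG_Defs

/-!
HG task A10: sorted eigenvalue sequences with given power sums, tail bounds, top-atom bound,
majorization.
-/

set_option autoImplicit false

namespace Crest.Agent.HG

/-- `|κ|` is antitone with power sums `f L` (even `L ≥ 4`). -/
structure SSeq (κ : ℕ → ℝ) (f : ℕ → ℝ) : Prop where
  anti : Antitone fun i => |κ i|
  sum : ∀ L, Even L → 4 ≤ L → HasSum (fun i => |κ i| ^ L) (f L)

variable {κ f : ℕ → ℝ}

private theorem a10_pow_sum {g : ℕ → ℝ} {s t Z : ℝ} {p : ℕ} (hp : 1 ≤ p) (hg : ∀ i, 0 ≤ g i) (h : HasSum g s)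
    (h' : HasSum (fun i => g i ^ p) t) (hZ : s ≤ Z) : t ≤ Z ^ p := by
  have hs0 : 0 ≤ s := h.nonneg hg
  have h1 : HasSum (fun i => g i * s ^ (p - 1)) (s * s ^ (p - 1)) := h.mul_right _
  have h2 : t ≤ s * s ^ (p - 1) := by
    refine hasSum_le (fun i => ?_) h' h1
    have e : g i ^ p = g i * g i ^ (p - 1) := by
      rw [← pow_succ']
      congr 1
      omega
    rw [e]
    exact mul_le_mul_of_nonneg_left (pow_le_pow_left₀ (hg i) (le_hasSum h i (fun j _ => hg j)) _) (hg i)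
  have e : s * s ^ (p - 1) = s ^ p := by
    rw [← pow_succ']
    congr 1
    omega
  rw [e] at h2
  exact le_trans h2 (pow_le_pow_left₀ hs0 hZ p)

private theorem a10_shift {g : ℕ → ℝ} {s : ℝ} (h : HasSum g s) : HasSum (fun i => g (i + 1)) (s - g 0) := by
  have := (hasSum_nat_add_iff' (f := g) (g := s) 1).mpr h
  simpa using this

private theorem a10_maj {a b x p0 : ℝ} {p : ℕ} (ha : 0 ≤ a) (hax : a ≤ x) (hxb : x ≤ b) (hp0 : p0 = a + b - x) :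
    x ^ p + p0 ^ p ≤ a ^ p + b ^ p := by
  rcases eq_or_lt_of_le (le_trans hax hxb) with hab | hab
  · have h1 : x = a := by linarith
    have h2 : p0 = b := by linarith
    rw [h1, h2]
  · have hba : 0 < b - a := by linarith
    have hcv := convexOn_pow (𝕜 := ℝ) p
    have ha' : a ∈ Set.Ici (0:ℝ) := ha
    have hb' : b ∈ Set.Ici (0:ℝ) := show (0:ℝ) ≤ b by linarith
    have g1 : 0 ≤ (b - x) / (b - a) := div_nonneg (by linarith) hba.le
    have g2 : 0 ≤ (x - a) / (b - a) := div_nonneg (by linarith) hba.le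
    have e1 := hcv.2 ha' hb' g1 g2 (by field_simp; ring)
    have e2 := hcv.2 ha' hb' g2 g1 (by field_simp; ring)
    have f1 : ((b - x) / (b - a)) • a + ((x - a) / (b - a)) • b = x := by
      simp only [smul_eq_mul]; field_simp; ring
    have f2 : ((x - a) / (b - a)) • a + ((b - x) / (b - a)) • b = p0 := by
      rw [hp0]
      simp only [smul_eq_mul]; field_simp; ring
    rw [f1] at e1
    rw [f2] at e2
    simp only [smul_eq_mul] at e1 e2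
    have f3 : (b - x) / (b - a) * a ^ p + (x - a) / (b - a) * b ^ p + ((x - a) / (b - a) * a ^ p + (b - x) / (b - a) * b ^ p) = a ^ p + b ^ p := by
      field_simp; ring
    linarith

/-- `Σ_{i≥1} |κ_i|^8 = f 8 - |κ_0|^8 ≤ F - lo^8 ≤ s^8`. -/
theorem SSeq.rest (h : SSeq κ f) {lo s F : ℝ} (hlo0 : 0 ≤ lo) (hlo : lo ≤ |κ 0|) (hF : f 8 ≤ F)
    (hs0 : 0 ≤ s) (hs : F - lo ^ 8 ≤ s ^ 8) (i : ℕ) (hi : 1 ≤ i) : |κ i| ≤ s := by
  have h8 := a10_shift (h.sum 8 ⟨4, rfl⟩ (by norm_num))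
  obtain ⟨j, rfl⟩ := Nat.exists_eq_add_of_le' hi
  have h1 : |κ (j + 1)| ^ 8 ≤ f 8 - |κ 0| ^ 8 := le_hasSum h8 j (fun i _ => by positivity)
  have h2 : lo ^ 8 ≤ |κ 0| ^ 8 := pow_le_pow_left₀ hlo0 hlo 8
  have h3 : |κ (j + 1)| ^ 8 ≤ s ^ 8 := by linarith
  exact le_of_pow_le_pow_left₀ (by norm_num) hs0 h3

/-- top eigenvalue plus rest: `Σ_{i≥1} z_i^p ≤ (Σ_{i≥1} z_i)^p` with `z = |κ|^8`. -/
theorem SSeq.top_rest (h : SSeq κ f) {lo up F : ℝ} (hlo0 : 0 ≤ lo) (hlo : lo ≤ |κ 0|)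
    (hup : |κ 0| ≤ up) (hF : f 8 ≤ F) {p : ℕ} (hp : 1 ≤ p) :
    f (8 * p) ≤ up ^ (8 * p) + (F - lo ^ 8) ^ p := by
  have h8 := a10_shift (h.sum 8 ⟨4, rfl⟩ (by norm_num))
  have h8p := a10_shift (h.sum (8 * p) ⟨4 * p, by ring⟩ (by omega))
  have h2 : lo ^ 8 ≤ |κ 0| ^ 8 := pow_le_pow_left₀ hlo0 hlo 8
  have h3 : (fun i => |κ (i + 1)| ^ (8 * p)) = fun i => (|κ (i + 1)| ^ 8) ^ p := by
    funext i; rw [pow_mul]
  rw [h3] at h8p
  have h4 := a10_pow_sum hp (fun i => by positivity) h8 h8p (Z := F - lo ^ 8) (by linarith)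
  have h5 : |κ 0| ^ (8 * p) ≤ up ^ (8 * p) := pow_le_pow_left₀ (abs_nonneg _) hup _
  linarith

/-- for even `L ≥ 56` (not nec. a multiple of 8) when the rest is at most one. -/
theorem SSeq.top_rest' (h : SSeq κ f) {lo up F : ℝ} (hlo0 : 0 ≤ lo) (hlo : lo ≤ |κ 0|)
    (hup : |κ 0| ≤ up) (hF : f 8 ≤ F) (h1 : F - lo ^ 8 ≤ 1) {L : ℕ} (hL : Even L) (hL56 : 56 ≤ L) :
    f L ≤ up ^ L + (F - lo ^ 8) ^ 7 := by
  have h8 := a10_shift (h.sum 8 ⟨4, rfl⟩ (by norm_num))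
  have h56 := a10_shift (h.sum 56 ⟨28, rfl⟩ (by norm_num))
  have hLs := a10_shift (h.sum L hL (by omega))
  have h2 : lo ^ 8 ≤ |κ 0| ^ 8 := pow_le_pow_left₀ hlo0 hlo 8
  have h3 : (fun i => |κ (i + 1)| ^ 56) = fun i => (|κ (i + 1)| ^ 8) ^ 7 := by
    funext i; rw [← pow_mul]
  rw [h3] at h56
  have h4 := a10_pow_sum (by norm_num) (fun i => by positivity) h8 h56 (Z := F - lo ^ 8) (by linarith)
  have h5 : |κ 0| ^ L ≤ up ^ L := pow_le_pow_left₀ (abs_nonneg _) hup _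
  have h6 : f L - |κ 0| ^ L ≤ f 56 - |κ 0| ^ 56 := by
    refine hasSum_le (fun i => ?_) hLs h56
    rw [← pow_mul]
    apply pow_le_pow_of_le_one (abs_nonneg _) _ hL56
    have h7 : |κ (i + 1)| ^ 8 ≤ f 8 - |κ 0| ^ 8 := le_hasSum h8 i (fun i _ => by positivity)
    have h8' : |κ (i + 1)| ^ 8 ≤ 1 ^ 8 := by
      rw [one_pow]; linarith
    exact le_of_pow_le_pow_left₀ (by norm_num) zero_le_one h8'
  linarith

/-- top-atom bound: with `z_i = κ_i²`: `Σ z_i² (z_i - a)² = f 8 - 2 a f 6 + a² f 4 ≤ G`. -/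
theorem SSeq.atom (h : SSeq κ f) {a G z : ℝ} (ha : 0 ≤ a) (haz : a ≤ z)
    (hG : f 8 - 2 * a * f 6 + a ^ 2 * f 4 ≤ G) (hz : G ≤ (z * (z - a)) ^ 2) (i : ℕ) :
    κ i ^ 2 ≤ z := by
  have h8 := h.sum 8 ⟨4, rfl⟩ (by norm_num)
  have h6 := h.sum 6 ⟨3, rfl⟩ (by norm_num)
  have h4 := h.sum 4 ⟨2, rfl⟩ (by norm_num)
  have hs := (h8.sub (h6.mul_left (2 * a))).add (h4.mul_left (a ^ 2))
  have hterm : ∀ i, |κ i| ^ 8 - 2 * a * |κ i| ^ 6 + a ^ 2 * |κ i| ^ 4 = (κ i ^ 2 * (κ i ^ 2 - a)) ^ 2 := by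
    intro i
    have : κ i ^ 2 = |κ i| ^ 2 := (sq_abs _).symm
    rw [this]
    ring
  have h1 : (κ i ^ 2 * (κ i ^ 2 - a)) ^ 2 ≤ f 8 - 2 * a * f 6 + a ^ 2 * f 4 := by
    rw [← hterm i]
    exact le_hasSum hs i (fun j _ => by rw [hterm j]; positivity)
  by_contra hcon
  push Not at hcon
  have h2 : z * (z - a) < κ i ^ 2 * (κ i ^ 2 - a) := by
    have : 0 ≤ z := le_trans ha haz
    nlinarith
  have h3 : 0 ≤ z * (z - a) := mul_nonneg (le_trans ha haz) (by linarith)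
  have h4 : (z * (z - a)) ^ 2 < (κ i ^ 2 * (κ i ^ 2 - a)) ^ 2 := pow_lt_pow_left₀ h2 h3 (by norm_num)
  linarith

/-- majorization: `z_i := |κ_i|^8 ≤ Y`, `Σ z_i ≤ F`, `Y ≤ F ≤ 2Y` give `Σ z_i^p ≤ Y^p+(F-Y)^p`.
PROOF: let `z_0` be the largest. If `z_0 ≥ F - Y`: `Σ_{i≥1} z_i^p ≤ (F-z_0)^p` and
`x^p + (F-x)^p` is convex on `[F-Y, Y]`, equal to the bound at both ends. Otherwise
`Σ z_i^p ≤ z_0^(p-1) F ≤ (F-Y)^(p-1) F ≤ (F-Y)^p + Y^p`. -/
theorem SSeq.maj (h : SSeq κ f) {Y F : ℝ} (hY : ∀ i, |κ i| ^ 8 ≤ Y) (hF : f 8 ≤ F) (hYF : Y ≤ F)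
    (hF2 : F ≤ 2 * Y) {p : ℕ} (hp : 1 ≤ p) : f (8 * p) ≤ Y ^ p + (F - Y) ^ p := by
  have hs8 := h.sum 8 ⟨4, rfl⟩ (by norm_num)
  have hs8p := h.sum (8 * p) ⟨4 * p, by ring⟩ (by omega)
  have h3 : (fun i => |κ i| ^ (8 * p)) = fun i => (|κ i| ^ 8) ^ p := by
    funext i; rw [pow_mul]
  rw [h3] at hs8p
  have hFY : 0 ≤ F - Y := by linarith
  by_cases hc : F - Y ≤ |κ 0| ^ 8
  · have h8' := a10_shift hs8
    have h8p' := a10_shift hs8p
    have h4 := a10_pow_sum hp (fun i => by positivity) h8' h8p' (Z := F - |κ 0| ^ 8) (by linarith)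
    have h5 := a10_maj (p := p) (a := F - Y) (b := Y) (x := |κ 0| ^ 8) (p0 := F - |κ 0| ^ 8) hFY hc (hY 0) (by ring)
    linarith
  · push Not at hc
    have h1 : HasSum (fun i => |κ i| ^ 8 * (F - Y) ^ (p - 1)) (f 8 * (F - Y) ^ (p - 1)) := hs8.mul_right _
    have h2 : f (8 * p) ≤ f 8 * (F - Y) ^ (p - 1) := by
      refine hasSum_le (fun i => ?_) hs8p h1
      have e : (|κ i| ^ 8) ^ p = |κ i| ^ 8 * (|κ i| ^ 8) ^ (p - 1) := by
        rw [← pow_succ']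
        congr 1
        omega
      rw [e]
      have h6 : |κ i| ≤ |κ 0| := h.anti (Nat.zero_le i)
      have h7 : |κ i| ^ 8 ≤ |κ 0| ^ 8 := pow_le_pow_left₀ (abs_nonneg _) h6 8
      exact mul_le_mul_of_nonneg_left (pow_le_pow_left₀ (by positivity) (by linarith) _) (by positivity)
    have h4 : f 8 * (F - Y) ^ (p - 1) ≤ F * (F - Y) ^ (p - 1) := mul_le_mul_of_nonneg_right hF (by positivity)
    have h5 : (F - Y) ^ (p - 1) ≤ Y ^ (p - 1) := pow_le_pow_left₀ hFY (by linarith) _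
    have e1 : (F - Y) ^ p = (F - Y) ^ (p - 1) * (F - Y) := by
      rw [← pow_succ]
      congr 1
      omega
    have e2 : Y ^ p = Y ^ (p - 1) * Y := by
      rw [← pow_succ]
      congr 1
      omega
    have hY0 : 0 ≤ Y := by linarith
    have h6 : (F - Y) ^ (p - 1) * Y ≤ Y ^ (p - 1) * Y := mul_le_mul_of_nonneg_right h5 hY0
    rw [e1, e2]
    have e3 : F * (F - Y) ^ (p - 1) = (F - Y) ^ (p - 1) * (F - Y) + (F - Y) ^ (p - 1) * Y := by ring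
    linarith

/-- same for even `L ≥ 56` when `Y ≤ 1`. -/
theorem SSeq.maj' (h : SSeq κ f) {Y F : ℝ} (hY : ∀ i, |κ i| ^ 8 ≤ Y) (hF : f 8 ≤ F) (hYF : Y ≤ F)
    (hF2 : F ≤ 2 * Y) (hY1 : Y ≤ 1) {L : ℕ} (hL : Even L) (hL56 : 56 ≤ L) :
    f L ≤ Y ^ 7 + (F - Y) ^ 7 := by
  have h56 := h.sum 56 ⟨28, rfl⟩ (by norm_num)
  have hLs := h.sum L hL (by omega)
  have h1 : f L ≤ f 56 := by
    refine hasSum_le (fun i => ?_) hLs h56
    apply pow_le_pow_of_le_one (abs_nonneg _) _ hL56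
    have h8' : |κ i| ^ 8 ≤ 1 ^ 8 := by
      rw [one_pow]; exact le_trans (hY i) hY1
    exact le_of_pow_le_pow_left₀ (by norm_num) zero_le_one h8'
  exact le_trans h1 (h.maj hY hF hYF hF2 (p := 7) (by norm_num))

end Crest.Agent.HG
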