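import Crest.Agent.HG_A10

/-!
HG task A10b: Temple inequality, moment lower bound, Christoffel bound, open chain bounds.
`Qf q0 q1 q2 m k = ∫ q(x)² x^k dμ` for `q = q0 + q1 x + q2 x²`, moments `m k = Σ w_i κ_i^k`.
-/

set_option autoImplicit false

namespace Crest.Agent.HG

def Qf (q0 q1 q2 : ℝ) (m : ℕ → ℝ) (k : ℕ) : ℝ :=
  q0 ^ 2 * m k + 2 * q0 * q1 * m (k + 1) + (q1 ^ 2 + 2 * q0 * q2) * m (k + 2) +
    2 * q1 * q2 * m (k + 3) + q2 ^ 2 * m (k + 4)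

variable {κ w m : ℕ → ℝ}

private theorem Qf_hasSum (q0 q1 q2 : ℝ) (k : ℕ)
    (hm : ∀ j, k ≤ j → j ≤ k + 4 → HasSum (fun i => w i * κ i ^ j) (m j)) :
    HasSum (fun i => w i * (q0 + q1 * κ i + q2 * κ i ^ 2) ^ 2 * κ i ^ k) (Qf q0 q1 q2 m k) := by
  have h0 := (hm k (by omega) (by omega)).mul_left (q0 ^ 2)
  have h1 := (hm (k + 1) (by omega) (by omega)).mul_left (2 * q0 * q1)
  have h2 := (hm (k + 2) (by omega) (by omega)).mul_left (q1 ^ 2 + 2 * q0 * q2)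
  have h3 := (hm (k + 3) (by omega) (by omega)).mul_left (2 * q1 * q2)
  have h4 := (hm (k + 4) (by omega) (by omega)).mul_left (q2 ^ 2)
  have h := (((h0.add h1).add h2).add h3).add h4
  unfold Qf
  have e : (fun i => w i * (q0 + q1 * κ i + q2 * κ i ^ 2) ^ 2 * κ i ^ k) =
      fun b => q0 ^ 2 * (w b * κ b ^ k) + 2 * q0 * q1 * (w b * κ b ^ (k + 1)) +
        (q1 ^ 2 + 2 * q0 * q2) * (w b * κ b ^ (k + 2)) + 2 * q1 * q2 * (w b * κ b ^ (k + 3)) +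
        q2 ^ 2 * (w b * κ b ^ (k + 4)) := by
    funext i
    ring
  rw [e]
  exact h

/-- `Σ w q(κ)²(κ - lo) ≥ 0` and `Σ w q² > 0`, so some `κ_i ≥ lo`. -/
theorem moment_lower (hanti : Antitone fun i => |κ i|) (hw : ∀ i, 0 ≤ w i)
    (hm : ∀ k, k ≤ 5 → HasSum (fun i => w i * κ i ^ k) (m k)) {q0 q1 q2 lo : ℝ}
    (h0 : 0 < Qf q0 q1 q2 m 0) (h1 : lo * Qf q0 q1 q2 m 0 ≤ Qf q0 q1 q2 m 1) : lo ≤ |κ 0| := by
  have s0 := Qf_hasSum (κ := κ) (w := w) (m := m) q0 q1 q2 0 (fun j _ hj => hm j (by omega))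
  have s1 := Qf_hasSum (κ := κ) (w := w) (m := m) q0 q1 q2 1 (fun j _ hj => hm j (by omega))
  have hle : Qf q0 q1 q2 m 1 ≤ |κ 0| * Qf q0 q1 q2 m 0 := by
    refine hasSum_le (fun i => ?_) s1 (s0.mul_left (|κ 0|))
    have hi : κ i ≤ |κ 0| := (le_abs_self _).trans (hanti (Nat.zero_le i))
    have hq : 0 ≤ w i * (q0 + q1 * κ i + q2 * κ i ^ 2) ^ 2 := mul_nonneg (hw i) (sq_nonneg _)
    calc w i * (q0 + q1 * κ i + q2 * κ i ^ 2) ^ 2 * κ i ^ 1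
        = (w i * (q0 + q1 * κ i + q2 * κ i ^ 2) ^ 2) * κ i := by rw [pow_one]
      _ ≤ (w i * (q0 + q1 * κ i + q2 * κ i ^ 2) ^ 2) * |κ 0| := mul_le_mul_of_nonneg_left hi hq
      _ = _ := by rw [pow_zero, mul_one, mul_comm]
  have : lo * Qf q0 q1 q2 m 0 ≤ |κ 0| * Qf q0 q1 q2 m 0 := h1.trans hle
  exact le_of_mul_le_mul_right this h0

/-- Temple: `Σ w q²(κ-s)(κ-κ_0) ≥ 0` since for `i ≥ 1`: `κ_i ≤ s`, `κ_i ≤ κ_0`. The first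
hypothesis `s m 0 < m 1` excludes `κ_0 ≤ 0`. -/
theorem temple_upper (hanti : Antitone fun i => |κ i|) (hw : ∀ i, 0 ≤ w i)
    (hm : ∀ k, k ≤ 6 → HasSum (fun i => w i * κ i ^ k) (m k)) {s : ℝ} (hs : 0 ≤ s)
    (hrest : ∀ i, 1 ≤ i → |κ i| ≤ s) (hpos : s * m 0 < m 1) {q0 q1 q2 μ : ℝ}
    (hD : 0 < Qf q0 q1 q2 m 1 - s * Qf q0 q1 q2 m 0)
    (hN : Qf q0 q1 q2 m 2 - s * Qf q0 q1 q2 m 1 ≤
      μ * (Qf q0 q1 q2 m 1 - s * Qf q0 q1 q2 m 0)) : 0 < κ 0 ∧ κ 0 ≤ μ := by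
  have hk : 0 < κ 0 := by
    by_contra hcon
    push Not at hcon
    have : m 1 ≤ s * m 0 := by
      refine hasSum_le (fun i => ?_) (hm 1 (by omega)) ((hm 0 (by omega)).mul_left s)
      have hi : κ i ≤ s := by
        rcases Nat.eq_zero_or_pos i with rfl | hi
        · exact hcon.trans hs
        · exact (le_abs_self _).trans (hrest i hi)
      calc w i * κ i ^ 1 = w i * κ i := by rw [pow_one]
        _ ≤ w i * s := mul_le_mul_of_nonneg_left hi (hw i)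
        _ = _ := by rw [pow_zero, mul_one, mul_comm]
    linarith
  refine ⟨hk, ?_⟩
  have s0 := Qf_hasSum (κ := κ) (w := w) (m := m) q0 q1 q2 0 (fun j _ hj => hm j (by omega))
  have s1 := Qf_hasSum (κ := κ) (w := w) (m := m) q0 q1 q2 1 (fun j _ hj => hm j (by omega))
  have s2 := Qf_hasSum (κ := κ) (w := w) (m := m) q0 q1 q2 2 (fun j _ hj => hm j (by omega))
  have hS := (s2.sub (s1.mul_left s)).sub ((s1.sub (s0.mul_left s)).mul_left (κ 0))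
  have hnn : 0 ≤ Qf q0 q1 q2 m 2 - s * Qf q0 q1 q2 m 1 -
      κ 0 * (Qf q0 q1 q2 m 1 - s * Qf q0 q1 q2 m 0) := by
    refine hasSum_le (fun i => ?_) hasSum_zero hS
    have e : w i * (q0 + q1 * κ i + q2 * κ i ^ 2) ^ 2 * κ i ^ 2 -
        s * (w i * (q0 + q1 * κ i + q2 * κ i ^ 2) ^ 2 * κ i ^ 1) -
        κ 0 * (w i * (q0 + q1 * κ i + q2 * κ i ^ 2) ^ 2 * κ i ^ 1 -
          s * (w i * (q0 + q1 * κ i + q2 * κ i ^ 2) ^ 2 * κ i ^ 0)) =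
        (w i * (q0 + q1 * κ i + q2 * κ i ^ 2) ^ 2) * ((s - κ i) * (κ 0 - κ i)) := by ring
    rw [e]
    refine mul_nonneg (mul_nonneg (hw i) (sq_nonneg _)) ?_
    rcases Nat.eq_zero_or_pos i with rfl | hi
    · rw [sub_self, mul_zero]
    · refine mul_nonneg (sub_nonneg.2 ((le_abs_self _).trans (hrest i hi))) (sub_nonneg.2 ?_)
      have := hanti (Nat.zero_le i)
      simp only at this
      rw [abs_of_pos hk] at this
      exact (le_abs_self _).trans this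
  have : κ 0 * (Qf q0 q1 q2 m 1 - s * Qf q0 q1 q2 m 0) ≤
      μ * (Qf q0 q1 q2 m 1 - s * Qf q0 q1 q2 m 0) := by linarith
  exact le_of_mul_le_mul_right this hD

/-- Christoffel: `w_0 κ_0² q(κ_0)² ≤ Σ w κ² q² = Qf m 2`. -/
theorem christoffel (hw : ∀ i, 0 ≤ w i)
    (hm : ∀ k, 2 ≤ k → k ≤ 6 → HasSum (fun i => w i * κ i ^ k) (m k)) {q0 q1 q2 δ N : ℝ}
    (hδ : 0 < δ) (hq : δ ≤ q0 + q1 * κ 0 + q2 * κ 0 ^ 2) (hN : Qf q0 q1 q2 m 2 ≤ N) :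
    w 0 * κ 0 ^ 2 ≤ N / δ ^ 2 := by
  have s2 := Qf_hasSum (κ := κ) (w := w) (m := m) q0 q1 q2 2 (fun j hj hj' => hm j hj (by omega))
  have h1 := le_hasSum s2 0 (fun i _ =>
    mul_nonneg (mul_nonneg (hw i) (sq_nonneg _)) (sq_nonneg _))
  rw [le_div_iff₀ (by positivity)]
  refine le_trans ?_ (h1.trans hN)
  have h2 : δ ^ 2 ≤ (q0 + q1 * κ 0 + q2 * κ 0 ^ 2) ^ 2 := pow_le_pow_left₀ hδ.le hq 2
  calc w 0 * κ 0 ^ 2 * δ ^ 2 ≤ w 0 * κ 0 ^ 2 * (q0 + q1 * κ 0 + q2 * κ 0 ^ 2) ^ 2 :=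
        mul_le_mul_of_nonneg_left h2 (mul_nonneg (hw 0) (sq_nonneg _))
    _ = _ := by ring

private theorem even_pow_split {n : ℕ} (hn : Even n) (hn8 : 8 ≤ n) (x : ℝ) :
    x ^ (n - 2) = x ^ 6 * |x| ^ (n - 8) := by
  have he : Even (n - 8) := by
    rw [Nat.even_sub hn8]
    exact ⟨fun _ => by decide, fun _ => hn⟩
  rw [he.pow_abs, ← pow_add]
  congr 1
  omega

/-- `Σ w κ^(n-2) ≤ w_0κ_0² κ_0^(n-4) + s^(n-8) Σ_{i≥1} w κ^6`. -/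
theorem open_bound (hw : ∀ i, 0 ≤ w i) {n : ℕ} (hn : Even n) (hn8 : 8 ≤ n)
    {m6 mn W up s : ℝ} (h6 : HasSum (fun i => w i * κ i ^ 6) m6)
    (hmn : HasSum (fun i => w i * κ i ^ (n - 2)) mn) (hs : 0 ≤ s)
    (hrest : ∀ i, 1 ≤ i → |κ i| ≤ s) (hk0 : 0 ≤ κ 0) (hup : κ 0 ≤ up)
    (hW : w 0 * κ 0 ^ 2 ≤ W) : mn ≤ W * up ^ (n - 4) + m6 * s ^ (n - 8) := by
  have hW0 : 0 ≤ W := (mul_nonneg (hw 0) (sq_nonneg _)).trans hW
  have hsing : HasSum (fun i : ℕ => if i = 0 then W * up ^ (n - 4) else 0) (W * up ^ (n - 4)) :=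
    hasSum_ite_eq 0 _
  refine hasSum_le (fun i => ?_) hmn (hsing.add (h6.mul_right (s ^ (n - 8))))
  have h6i : 0 ≤ w i * κ i ^ 6 := mul_nonneg (hw i) (by positivity)
  rcases Nat.eq_zero_or_pos i with rfl | hi
  · rw [if_pos rfl]
    have e : w 0 * κ 0 ^ (n - 2) = w 0 * κ 0 ^ 2 * κ 0 ^ (n - 4) := by
      rw [mul_assoc, ← pow_add]
      congr 2
      omega
    rw [e]
    have h1 : w 0 * κ 0 ^ 2 * κ 0 ^ (n - 4) ≤ W * up ^ (n - 4) :=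
      mul_le_mul hW (pow_le_pow_left₀ hk0 hup _) (pow_nonneg hk0 _) hW0
    have h2 : 0 ≤ w 0 * κ 0 ^ 6 * s ^ (n - 8) := mul_nonneg h6i (pow_nonneg hs _)
    linarith
  · rw [if_neg (by omega), zero_add, even_pow_split hn hn8, ← mul_assoc]
    exact mul_le_mul_of_nonneg_left (pow_le_pow_left₀ (abs_nonneg _) (hrest i hi) _) h6i

theorem open_bound' (hw : ∀ i, 0 ≤ w i) {n : ℕ} (hn : Even n) (hn8 : 8 ≤ n) {m6 mn z : ℝ}
    (h6 : HasSum (fun i => w i * κ i ^ 6) m6) (hmn : HasSum (fun i => w i * κ i ^ (n - 2)) mn)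
    (hz : ∀ i, κ i ^ 2 ≤ z) : mn ≤ m6 * z ^ ((n - 8) / 2) := by
  refine hasSum_le (fun i => ?_) hmn (h6.mul_right (z ^ ((n - 8) / 2)))
  have h6i : 0 ≤ w i * κ i ^ 6 := mul_nonneg (hw i) (by positivity)
  have e : w i * κ i ^ (n - 2) = w i * κ i ^ 6 * (κ i ^ 2) ^ ((n - 8) / 2) := by
    rw [mul_assoc, ← pow_mul, ← pow_add]
    congr 2
    obtain ⟨k, hk⟩ := hn
    omega
  rw [e]
  exact mul_le_mul_of_nonneg_left (pow_le_pow_left₀ (sq_nonneg _) (hz i) _) h6i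

end Crest.Agent.HG
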