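import Crest.Agent.HG_A10

/-!
HG task A10c: normalised representations (`κ → κ e^{-7β/5}`, weights `× e^{-14β/5}`).
-/

set_option autoImplicit false

namespace Crest.Agent.HG

private theorem a10c_exp (β : ℝ) (N : ℕ) :
    Real.exp (-(7 / 5 * β)) ^ N = Real.exp (-(7 / 5 * β * N)) := by
  rw [← Real.exp_nat_mul]
  congr 1
  ring

private theorem a10c_sseq {κ : ℕ → ℝ} {f : ℕ → ℝ} (β : ℝ) (ha : Antitone fun i => |κ i|)
    (hs : ∀ L, Even L → 4 ≤ L → HasSum (fun i => |κ i| ^ L) (f L)) :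
    SSeq (fun i => κ i * Real.exp (-(7 / 5 * β)))
      (fun L => f L * Real.exp (-(7 / 5 * β * L))) where
  anti := by
    intro i j hij
    show |κ j * _| ≤ |κ i * _|
    rw [abs_mul, abs_mul]
    exact mul_le_mul_of_nonneg_right (ha hij) (abs_nonneg _)
  sum := by
    intro L hL hL4
    have h := (hs L hL hL4).mul_right (Real.exp (-(7 / 5 * β * L)))
    have h2 : (fun i => |κ i * Real.exp (-(7 / 5 * β))| ^ L) =
        fun i => |κ i| ^ L * Real.exp (-(7 / 5 * β * L)) := by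
      funext i
      rw [abs_mul, mul_pow, abs_of_pos (Real.exp_pos _), a10c_exp]
    show HasSum (fun i => |κ i * Real.exp (-(7 / 5 * β))| ^ L) _
    rw [h2]
    exact h

private theorem a10c_wsum {κ u : ℕ → ℝ} {v : ℝ} (β : ℝ) {N : ℕ} (hN : 2 ≤ N)
    (h : HasSum (fun i => u i * κ i ^ (N - 2)) v) :
    HasSum (fun i => (u i * Real.exp (-(7 / 5 * β)) ^ 2) *
      (κ i * Real.exp (-(7 / 5 * β))) ^ (N - 2)) (v * Real.exp (-(7 / 5 * β * N))) := by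
  have h1 := h.mul_right (Real.exp (-(7 / 5 * β * N)))
  have h2 : (fun i => (u i * Real.exp (-(7 / 5 * β)) ^ 2) *
      (κ i * Real.exp (-(7 / 5 * β))) ^ (N - 2)) =
      fun i => u i * κ i ^ (N - 2) * Real.exp (-(7 / 5 * β * N)) := by
    funext i
    have h3 : N = 2 + (N - 2) := by omega
    rw [← a10c_exp]
    conv_rhs => rw [h3, pow_add, ← h3]
    rw [mul_pow]
    ring
  rw [h2]
  exact h1

theorem RepK.norm {β : ℝ} (h : RepK β) :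
    ∃ (κ : Fin 4 → ℕ → ℝ) (u α b : ℕ → ℝ),
    (∀ χ, SSeq (κ χ) (fun L => mK χ L β * Real.exp (-(7 / 5 * β * L)))) ∧
    (∀ i, 0 ≤ u i ∧ 0 ≤ α i ∧ 0 ≤ b i) ∧
    (∀ N : ℕ, 2 ≤ N → HasSum (fun i => u i * κ 0 i ^ (N - 2))
      (Vh N β * Real.exp (-(7 / 5 * β * N)))) ∧
    (∀ N : ℕ, 4 ≤ N → HasSum (fun i => α i * κ 0 i ^ (N - 2))
      (Ao N β * Real.exp (-(7 / 5 * β * N)))) ∧
    (∀ N : ℕ, 4 ≤ N → HasSum (fun i => b i * κ 3 i ^ (N - 2))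
      (Bo N β * Real.exp (-(7 / 5 * β * N)))) := by
  obtain ⟨κ, u, α, b, h1, h2, h3, h4, h5, h6⟩ := h
  have hc : 0 ≤ Real.exp (-(7 / 5 * β)) ^ 2 := by positivity
  refine ⟨fun χ i => κ χ i * Real.exp (-(7 / 5 * β)), fun i => u i * Real.exp (-(7 / 5 * β)) ^ 2,
    fun i => α i * Real.exp (-(7 / 5 * β)) ^ 2, fun i => b i * Real.exp (-(7 / 5 * β)) ^ 2,
    fun χ => a10c_sseq β (h1 χ) (fun L hL hL4 => h3 χ L hL hL4),
    fun i => ⟨mul_nonneg (h2 i).1 hc, mul_nonneg (h2 i).2.1 hc, mul_nonneg (h2 i).2.2 hc⟩,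
    fun N hN => a10c_wsum β hN (h4 N hN), fun N hN => a10c_wsum β (by omega) (h5 N hN),
    fun N hN => a10c_wsum β (by omega) (h6 N hN)⟩

theorem RepZ.norm {β : ℝ} (h : RepZ β) :
    ∃ (κ : Fin 4 → ℕ → ℝ) (u α b : ℕ → ℝ),
    (∀ χ, SSeq (κ χ) (fun L => mZ χ L β * Real.exp (-(7 / 5 * β * L)))) ∧
    (∀ i, 0 ≤ u i ∧ 0 ≤ α i ∧ 0 ≤ b i) ∧
    (∀ N : ℕ, 2 ≤ N → HasSum (fun i => u i * κ 3 i ^ (N - 2))
      (Wh N β * Real.exp (-(7 / 5 * β * N)))) ∧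
    (∀ N : ℕ, 4 ≤ N → HasSum (fun i => α i * κ 0 i ^ (N - 2))
      (AoZ N β * Real.exp (-(7 / 5 * β * N)))) ∧
    (∀ N : ℕ, 4 ≤ N → HasSum (fun i => b i * κ 3 i ^ (N - 2))
      (BoZ N β * Real.exp (-(7 / 5 * β * N)))) := by
  obtain ⟨κ, u, α, b, h1, h2, h3, h4, h5, h6⟩ := h
  have hc : 0 ≤ Real.exp (-(7 / 5 * β)) ^ 2 := by positivity
  refine ⟨fun χ i => κ χ i * Real.exp (-(7 / 5 * β)), fun i => u i * Real.exp (-(7 / 5 * β)) ^ 2,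
    fun i => α i * Real.exp (-(7 / 5 * β)) ^ 2, fun i => b i * Real.exp (-(7 / 5 * β)) ^ 2,
    fun χ => a10c_sseq β (h1 χ) (fun L hL hL4 => h3 χ L hL hL4),
    fun i => ⟨mul_nonneg (h2 i).1 hc, mul_nonneg (h2 i).2.1 hc, mul_nonneg (h2 i).2.2 hc⟩,
    fun N hN => a10c_wsum β hN (h4 N hN), fun N hN => a10c_wsum β (by omega) (h5 N hN),
    fun N hN => a10c_wsum β (by omega) (h6 N hN)⟩

end Crest.Agent.HG
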