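import Crest.Agent.HG_ADefs

/-!
HG task A2: consequences of the space representation `SpW`. `S L = p L / lam^L - 1 = Σ r_i^L`,
`η n = u n / lam^(n-2) - w = Σ ω_i r_i^(n-2)`.
-/

set_option autoImplicit false

namespace Crest.Agent.HG

section
variable {p u : ℕ → ℝ} {lam w : ℝ}

theorem SpW.S_nonneg (h : SpW p u lam w) {L : ℕ} (hL : Even L) (hL4 : 4 ≤ L) :
    0 ≤ p L / lam ^ L - 1 := by
  obtain ⟨r, ω, hr, h1, -⟩ := h
  exact (h1 L hL hL4).nonneg (fun i => pow_nonneg (hr i).1 _)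

theorem SpW.S_anti (h : SpW p u lam w) {L L' : ℕ} (hL : Even L) (hL4 : 4 ≤ L) (hL' : Even L')
    (hLL : L ≤ L') : p L' / lam ^ L' - 1 ≤ p L / lam ^ L - 1 := by
  obtain ⟨r, ω, hr, h1, -⟩ := h
  exact hasSum_le (fun i => pow_le_pow_of_le_one (hr i).1 (hr i).2.1 hLL)
    (h1 L' hL' (le_trans hL4 hLL)) (h1 L hL hL4)

/-- `S(L') ≤ S(L)^(L'/L)` (from `Σ z_i^c ≤ (Σ z_i)^c`, `c ≥ 1`). -/
theorem SpW.S_rpow (h : SpW p u lam w) {L L' : ℕ} (hL : Even L) (hL4 : 4 ≤ L) (hL' : Even L')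
    (hLL : L ≤ L') :
    p L' / lam ^ L' - 1 ≤ (p L / lam ^ L - 1) ^ ((L' : ℝ) / (L : ℝ)) := by
  obtain ⟨r, ω, hr, h1, -⟩ := h
  have hs := h1 L hL hL4
  have hs' := h1 L' hL' (le_trans hL4 hLL)
  have hLpos : (0 : ℝ) < (L : ℝ) := by
    have : 0 < L := by omega
    exact_mod_cast this
  have hc : (1 : ℝ) ≤ (L' : ℝ) / (L : ℝ) := by
    rw [le_div_iff₀ hLpos, one_mul]
    exact_mod_cast hLL
  set S := p L / lam ^ L - 1 with hS
  have hS0 : 0 ≤ S := hs.nonneg (fun i => pow_nonneg (hr i).1 _)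
  have hle : ∀ i, r i ^ L ≤ S := fun i =>
    le_hasSum hs i (fun j _ => pow_nonneg (hr j).1 _)
  have hz : ∀ i, r i ^ L' = (r i ^ L) ^ ((L' : ℝ) / (L : ℝ)) := by
    intro i
    rw [← Real.rpow_natCast (r i) L, ← Real.rpow_mul (hr i).1, mul_div_cancel₀ _ (ne_of_gt hLpos),
      Real.rpow_natCast]
  rcases hS0.eq_or_lt with h0 | hpos
  · have hr0 : ∀ i, r i ^ L' = 0 := by
      intro i
      have h2 : r i ^ L = 0 := le_antisymm (h0 ▸ hle i) (pow_nonneg (hr i).1 _)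
      rw [hz i, h2, Real.zero_rpow (by linarith)]
    have h3 : p L' / lam ^ L' - 1 = 0 := by
      have h4 : HasSum (fun i => r i ^ L') 0 := by
        simp only [hr0]
        exact hasSum_zero
      exact hs'.unique h4
    rw [h3, ← h0, Real.zero_rpow (by linarith)]
  · have hbd : ∀ i, r i ^ L' ≤ S ^ ((L' : ℝ) / (L : ℝ) - 1) * r i ^ L := by
      intro i
      rw [hz i]
      have hzi : 0 ≤ r i ^ L := pow_nonneg (hr i).1 _
      rcases hzi.eq_or_lt with h2 | h2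
      · rw [← h2, Real.zero_rpow (by linarith), mul_zero]
      · have h3 : (r i ^ L) ^ ((L' : ℝ) / (L : ℝ)) =
            (r i ^ L) ^ ((L' : ℝ) / (L : ℝ) - 1) * r i ^ L := by
          rw [← Real.rpow_add_one (ne_of_gt h2)]
          congr 1
          ring
        rw [h3]
        exact mul_le_mul_of_nonneg_right (Real.rpow_le_rpow hzi (hle i) (by linarith)) hzi
    have h5 := hasSum_le hbd hs' (hs.mul_left (S ^ ((L' : ℝ) / (L : ℝ) - 1)))
    have h6 : S ^ ((L' : ℝ) / (L : ℝ) - 1) * S = S ^ ((L' : ℝ) / (L : ℝ)) := by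
      rw [← Real.rpow_add_one (ne_of_gt hpos)]
      congr 1
      ring
    rw [h6] at h5
    exact h5

theorem SpW.S_double (h : SpW p u lam w) {L : ℕ} (hL : Even L) (hL4 : 4 ≤ L) :
    p (2 * L) / lam ^ (2 * L) - 1 ≤ (p L / lam ^ L - 1) ^ 2 := by
  obtain ⟨r, ω, hr, h1, -⟩ := h
  have hs := h1 L hL hL4
  have hs' := h1 (2 * L) (hL.mul_left 2) (by omega)
  have hle : ∀ i, r i ^ L ≤ p L / lam ^ L - 1 := fun i =>
    le_hasSum hs i (fun j _ => pow_nonneg (hr j).1 _)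
  have hbd : ∀ i, r i ^ (2 * L) ≤ (p L / lam ^ L - 1) * r i ^ L := by
    intro i
    rw [two_mul, pow_add]
    exact mul_le_mul_of_nonneg_right (hle i) (pow_nonneg (hr i).1 _)
  have h5 := hasSum_le hbd hs' (hs.mul_left _)
  rw [sq]
  exact h5

theorem SpW.p_add (h : SpW p u lam w) (hlam : 0 < lam) {L M : ℕ} (hL : Even L) (hL4 : 4 ≤ L)
    (hM : Even M) : p (L + M) ≤ p L * lam ^ M := by
  have h1 := h.S_anti hL hL4 (hL.add hM) (Nat.le_add_right L M)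
  have h2 : p (L + M) / lam ^ (L + M) ≤ p L / lam ^ L := by linarith
  rw [div_le_div_iff₀ (pow_pos hlam _) (pow_pos hlam _), pow_add] at h2
  have h3 : 0 < lam ^ L := pow_pos hlam _
  have h4 : p (L + M) * lam ^ L ≤ (p L * lam ^ M) * lam ^ L := by
    calc p (L + M) * lam ^ L ≤ p L * (lam ^ L * lam ^ M) := h2
      _ = (p L * lam ^ M) * lam ^ L := by ring
  exact le_of_mul_le_mul_right h4 h3

theorem SpW.lam_le (h : SpW p u lam w) (hlam : 0 < lam) {L : ℕ} (hL : Even L) (hL4 : 4 ≤ L) :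
    lam ^ L ≤ p L := by
  have h1 := h.S_nonneg hL hL4
  have h2 : 1 ≤ p L / lam ^ L := by linarith
  rw [le_div_iff₀ (pow_pos hlam _), one_mul] at h2
  exact h2

/-- `1+S ≤ p(L)²/p(2L)` and `(1+S)² ≤ (p(L)²/p(2L)) (1+S²)`. -/
theorem SpW.cross (h : SpW p u lam w) (hlam : 0 < lam) {L : ℕ} (hL : Even L) (hL4 : 4 ≤ L)
    {ρ : ℝ} (hρ : p L ^ 2 ≤ ρ * p (2 * L)) :
    1 + (p L / lam ^ L - 1) ≤ ρ ∧
    (1 + (p L / lam ^ L - 1)) ^ 2 ≤ ρ * (1 + (p L / lam ^ L - 1) ^ 2) := by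
  have hS0 := h.S_nonneg hL hL4
  have hS2 := h.S_double hL hL4
  have hS1 := h.S_anti hL hL4 (hL.mul_left 2) (by omega : L ≤ 2 * L)
  have hS20 := h.S_nonneg (hL.mul_left 2) (by omega : 4 ≤ 2 * L)
  set S := p L / lam ^ L - 1 with hS
  set T := p (2 * L) / lam ^ (2 * L) - 1 with hT
  have hlL : 0 < lam ^ L := pow_pos hlam _
  have hl2 : 0 < lam ^ (2 * L) := pow_pos hlam _
  have e1 : p L = lam ^ L * (1 + S) := by
    rw [hS]; field_simp; ring
  have e2 : p (2 * L) = lam ^ (2 * L) * (1 + T) := by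
    rw [hT]; field_simp; ring
  have e3 : lam ^ (2 * L) = (lam ^ L) ^ 2 := by rw [← pow_mul, mul_comm]
  have h3 : (1 + S) ^ 2 ≤ ρ * (1 + T) := by
    rw [e1, e2, e3] at hρ
    have h4 : (lam ^ L) ^ 2 * (1 + S) ^ 2 ≤ (lam ^ L) ^ 2 * (ρ * (1 + T)) := by
      calc (lam ^ L) ^ 2 * (1 + S) ^ 2 = (lam ^ L * (1 + S)) ^ 2 := by ring
        _ ≤ ρ * ((lam ^ L) ^ 2 * (1 + T)) := hρ
        _ = (lam ^ L) ^ 2 * (ρ * (1 + T)) := by ring
    exact le_of_mul_le_mul_left h4 (by positivity)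
  have hρ0 : 0 < ρ := by
    by_contra hn
    push Not at hn
    have : ρ * (1 + T) ≤ 0 := mul_nonpos_of_nonpos_of_nonneg hn (by linarith)
    have h5 : 0 < (1 + S) ^ 2 := by positivity
    linarith
  constructor
  · have h6 : (1 + S) * (1 + S) ≤ ρ * (1 + S) := by
      calc (1 + S) * (1 + S) = (1 + S) ^ 2 := by ring
        _ ≤ ρ * (1 + T) := h3
        _ ≤ ρ * (1 + S) := mul_le_mul_of_nonneg_left (by linarith) hρ0.le
    exact le_of_mul_le_mul_right h6 (by linarith)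
  · exact le_trans h3 (mul_le_mul_of_nonneg_left (by linarith) hρ0.le)

theorem SpW.eta_nonneg (h : SpW p u lam w) {n : ℕ} (hn : Even n) (hn4 : 4 ≤ n) :
    0 ≤ u n / lam ^ (n - 2) - w := by
  obtain ⟨r, ω, hr, -, h2⟩ := h
  exact (h2 n hn hn4).nonneg (fun i => mul_nonneg (hr i).2.2 (pow_nonneg (hr i).1 _))

theorem SpW.eta_anti (h : SpW p u lam w) {n n' : ℕ} (hn : Even n) (hn4 : 4 ≤ n) (hn' : Even n')
    (hnn : n ≤ n') : u n' / lam ^ (n' - 2) - w ≤ u n / lam ^ (n - 2) - w := by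
  obtain ⟨r, ω, hr, -, h2⟩ := h
  exact hasSum_le (fun i => mul_le_mul_of_nonneg_left
    (pow_le_pow_of_le_one (hr i).1 (hr i).2.1 (Nat.sub_le_sub_right hnn 2)) (hr i).2.2)
    (h2 n' hn' (le_trans hn4 hnn)) (h2 n hn hn4)

/-- `η(n+M) ≤ S(M) η(n)` since `r_i^M ≤ S(M)`. -/
theorem SpW.eta_add (h : SpW p u lam w) {n M : ℕ} (hn : Even n) (hn4 : 4 ≤ n) (hM : Even M)
    (hM4 : 4 ≤ M) :
    u (n + M) / lam ^ (n + M - 2) - w ≤ (p M / lam ^ M - 1) * (u n / lam ^ (n - 2) - w) := by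
  obtain ⟨r, ω, hr, h1, h2⟩ := h
  have hsM := h1 M hM hM4
  have hle : ∀ i, r i ^ M ≤ p M / lam ^ M - 1 := fun i =>
    le_hasSum hsM i (fun j _ => pow_nonneg (hr j).1 _)
  have hbd : ∀ i, ω i * r i ^ (n + M - 2) ≤ (p M / lam ^ M - 1) * (ω i * r i ^ (n - 2)) := by
    intro i
    have e : n + M - 2 = (n - 2) + M := by omega
    rw [e, pow_add]
    have h3 : 0 ≤ ω i * r i ^ (n - 2) := mul_nonneg (hr i).2.2 (pow_nonneg (hr i).1 _)
    calc ω i * (r i ^ (n - 2) * r i ^ M) = (r i ^ M) * (ω i * r i ^ (n - 2)) := by ring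
      _ ≤ (p M / lam ^ M - 1) * (ω i * r i ^ (n - 2)) := mul_le_mul_of_nonneg_right (hle i) h3
  exact hasSum_le hbd (h2 (n + M) (hn.add hM) (by omega)) ((h2 n hn hn4).mul_left _)

/-- `u(n+M) ≤ u(n) lam^M`. -/
theorem SpW.u_add (h : SpW p u lam w) (hlam : 0 < lam) {n M : ℕ} (hn : Even n) (hn4 : 4 ≤ n)
    (hM : Even M) : u (n + M) ≤ u n * lam ^ M := by
  have h1 := h.eta_anti hn hn4 (hn.add hM) (Nat.le_add_right n M)
  have h2 : u (n + M) / lam ^ (n + M - 2) ≤ u n / lam ^ (n - 2) := by linarith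
  have e : n + M - 2 = (n - 2) + M := by omega
  rw [e, div_le_div_iff₀ (pow_pos hlam _) (pow_pos hlam _), pow_add] at h2
  have h3 : 0 < lam ^ (n - 2) := pow_pos hlam _
  have h4 : u (n + M) * lam ^ (n - 2) ≤ (u n * lam ^ M) * lam ^ (n - 2) := by
    calc u (n + M) * lam ^ (n - 2) ≤ u n * (lam ^ (n - 2) * lam ^ M) := h2
      _ = (u n * lam ^ M) * lam ^ (n - 2) := by ring
  exact le_of_mul_le_mul_right h4 h3

end

end Crest.Agent.HG
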