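import Crest.Agent.HG_A1
import Crest.Agent.HG_A2

/-!
HG task A3: one step of the bulk iteration (doubling of `L` and `β`).

Notation at the step: `a,b` at `(2L,β)`, `S,R` at `(L,2β)`.

PROOF (all `a,b,t,S,R ≥ 0`, `1+a-b ≥ 0` because `qf ≥ 0` by `hR`: `qf L = lamZ^L (1+R)`).

(T) Put `D = E(4L) - 2E(2L)`, `T0(M,β) = (P+3Q)(M,β)/4 = e^{-βE(M)}(1+a(M,β))`.
 * `P(4L) ≤ P(2L)²`, `Q(4L) ≤ Q(2L)²` (as `1+S(4L) ≤ 1+S(2L)² ≤ (1+S(2L))²`), so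
   `T0(4L,β) ≤ e^{-2βE(2L)} ((1+a)²+3b²)` [identity `(u+3b)²+3(u-b)² = 4u²+12b²`].
 * `P(4L,2β) ≥ P(2L,2β)²/(1+S(2L,2β))²`, `S(2L,2β) ≤ S(L,2β)² ≤ σ²`, same for `Q`, so
   `T0(4L,2β) ≥ e^{-4βE(2L)} ((1+a₂)²+3b₂²)/(1+σ²)² ≥ e^{-4βE(2L)}/(1+σ²)²`.
 * `PS.cross` for `x = a(4L,·)` with `ρ = (((1+A)²+3B²)(1+σ²))² ≤ 1+y`, then `crossing`: `a(4L,β) ≤ x'`.
 * from the lower bound: `e^{2βD} ≤ (1+σ²)²(1+a(4L,2β)) ≤ (1+σ²)²(1+x'²) ≤ u²`;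
   `1+a+3b (4L,β) = P(4L,β)e^{βE(4L)} ≤ (1+A+3B)² e^{βD} ≤ (1+A+3B)² u`.
(S) Put `D' = E(2L) - 2E(L)`. From `P(2L,2β) ≥ P(L,2β)²/(1+S(L,2β))²`:
   `e^{2βD'} ≤ (1+σ)² (1+t(2L,2β))/(1+t(L,2β))²`, with `t = a+3b`,
   `t(2L,2β) ≤ a(2L,β)²+3b(2L,β)² ≤ A²+3B²`. Squaring and `1+t(L,4β) ≤ (1+t(L,2β))²`:
   `P(L,4β)² ≤ ((1+σ)²(1+A²+3B²))² P(2L,4β)`; same for `Q` with the additional factor
   `1/(1-B⁴)` because `1+a-b (2L,4β) ≥ 1-B⁴` (`b(2L,4β) ≤ b(2L,β)⁴`) and `0 ≤ 1+a-b ≤ 1+t`.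
   Then `SpW.cross` and `crossing`: `S(L,4β), R(L,4β) ≤ x1`.
-/

set_option autoImplicit false

namespace Crest.Agent.HG

private theorem a3_sub2 {p u : ℕ → ℝ} {lam w : ℝ} (h : SpW p u lam w) (hlam : 0 < lam) {L : ℕ}
    (hL : Even L) (hL4 : 4 ≤ L) : p (2 * L) ≤ p L ^ 2 := by
  have h0 := h.S_nonneg hL hL4
  have h2 := h.S_double hL hL4
  have h3 : p (2 * L) / lam ^ (2 * L) ≤ (p L / lam ^ L) ^ 2 := by nlinarith
  have h4 : (p L / lam ^ L) ^ 2 = p L ^ 2 / lam ^ (2 * L) := by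
    rw [div_pow, ← pow_mul, mul_comm L 2]
  rw [h4] at h3
  exact (div_le_div_iff_of_pos_right (pow_pos hlam _)).1 h3

private theorem a3_sup2 {p u : ℕ → ℝ} {lam w : ℝ} (h : SpW p u lam w) (hlam : 0 < lam) {L : ℕ}
    (hL : Even L) (hL4 : 4 ≤ L) {σ : ℝ} (hσ : p L / lam ^ L - 1 ≤ σ) :
    p L ^ 2 ≤ (1 + σ) ^ 2 * p (2 * L) := by
  have h0 := h.S_nonneg hL hL4
  have h1 := h.lam_le hlam (hL.mul_left 2) (by omega : 4 ≤ 2 * L)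
  have hl : 0 < lam ^ L := pow_pos hlam _
  have e1 : p L = lam ^ L * (1 + (p L / lam ^ L - 1)) := by
    field_simp
    ring
  set S := p L / lam ^ L - 1 with hS
  have h2 : (1 + S) ^ 2 ≤ (1 + σ) ^ 2 := by
    apply pow_le_pow_left₀ (by linarith)
    linarith
  calc p L ^ 2 = lam ^ (2 * L) * (1 + S) ^ 2 := by
        rw [e1, mul_pow, ← pow_mul, mul_comm L 2]
    _ ≤ lam ^ (2 * L) * (1 + σ) ^ 2 := mul_le_mul_of_nonneg_left h2 (pow_pos hlam _).le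
    _ ≤ p (2 * L) * (1 + σ) ^ 2 := mul_le_mul_of_nonneg_right h1 (sq_nonneg _)
    _ = (1 + σ) ^ 2 * p (2 * L) := mul_comm _ _

theorem bulk_step {pf qf : ℕ → ℝ → ℝ} (s : BulkSys pf qf) {L : ℕ} (hL : Even L) (hL4 : 4 ≤ L)
    {β A B σ y x' u z x1 : ℝ} (hβ : 0 < β)
    (hA : s.a (2 * L) β ≤ A) (hB : s.b (2 * L) β ≤ B) (hS : s.S L (2 * β) ≤ σ)
    (hR : s.R L (2 * β) ≤ σ) (hy1 : y < 1) (hg : (((1 + A) ^ 2 + 3 * B ^ 2) * (1 + σ ^ 2)) ^ 2 ≤ 1 + y)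
    (hx : y * x' ^ 2 - 2 * x' + y ≤ 0) (hx1 : x' ≤ 1)
    (hu0 : 0 ≤ u) (hu : (1 + σ ^ 2) ^ 2 * (1 + x' ^ 2) ≤ u ^ 2)
    (hB1 : B < 1) (hz1 : z < 1)
    (hg1 : ((1 + σ) ^ 2 * (1 + A ^ 2 + 3 * B ^ 2)) ^ 2 ≤ (1 + z) * (1 - B ^ 4))
    (hxz : z * x1 ^ 2 - 2 * x1 + z ≤ 0) (hx11 : x1 ≤ 1) :
    s.a (4 * L) β ≤ x' ∧ 1 + s.a (4 * L) β + 3 * s.b (4 * L) β ≤ u * (1 + A + 3 * B) ^ 2 ∧
    s.S L (4 * β) ≤ x1 ∧ s.R L (4 * β) ≤ x1 := by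
  have hL2 : Even (2 * L) := hL.mul_left 2
  have hL24 : 4 ≤ 2 * L := by omega
  have hL44 : 4 * L = 2 * (2 * L) := by ring
  have hL4e : Even (2 * (2 * L)) := hL2.mul_left 2
  have hL444 : 4 ≤ 2 * (2 * L) := by omega
  have hβ2 : 0 < 2 * β := by linarith
  have hβ4 : 0 < 2 * (2 * β) := by linarith
  have hβ44 : 4 * β = 2 * (2 * β) := by ring
  rw [hL44, hβ44]
  -- the PS functions
  have pa1 := s.ha L hL hL4
  have pb1 := s.hb L hL hL4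
  have pa2 := s.ha (2 * L) hL2 hL24
  have pb2 := s.hb (2 * L) hL2 hL24
  have pa4 := s.ha (2 * (2 * L)) hL4e hL444
  have pb4 := s.hb (2 * (2 * L)) hL4e hL444
  have ha0 := pa2.nonneg β
  have hb0 := pb2.nonneg β
  have hA0 : 0 ≤ A := le_trans ha0 hA
  have hB0 : 0 ≤ B := le_trans hb0 hB
  have hSn : 0 ≤ s.S L (2 * β) := (s.hS (2 * β) hβ2).S_nonneg hL hL4
  have hRn : 0 ≤ s.R L (2 * β) := (s.hR (2 * β) hβ2).S_nonneg hL hL4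
  have hσ0 : 0 ≤ σ := le_trans hSn hS
  -- (T) upper
  have hP4 := a3_sub2 (s.hS β hβ) (s.hlam β hβ) hL2 hL24
  have hQ4 := a3_sub2 (s.hR β hβ) (s.hlamZ β hβ) hL2 hL24
  -- (T) lower
  have hS2 : s.S (2 * L) (2 * β) ≤ σ ^ 2 := by
    have h1 := (s.hS (2 * β) hβ2).S_double hL hL4
    calc s.S (2 * L) (2 * β) ≤ s.S L (2 * β) ^ 2 := h1
      _ ≤ σ ^ 2 := pow_le_pow_left₀ hSn hS 2
  have hR2 : s.R (2 * L) (2 * β) ≤ σ ^ 2 := by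
    have h1 := (s.hR (2 * β) hβ2).S_double hL hL4
    calc s.R (2 * L) (2 * β) ≤ s.R L (2 * β) ^ 2 := h1
      _ ≤ σ ^ 2 := pow_le_pow_left₀ hRn hR 2
  have hPl := a3_sup2 (s.hS (2 * β) hβ2) (s.hlam (2 * β) hβ2) hL2 hL24 hS2
  have hQl := a3_sup2 (s.hR (2 * β) hβ2) (s.hlamZ (2 * β) hβ2) hL2 hL24 hR2
  beta_reduce at hP4 hQ4 hPl hQl
  rw [s.hP _ hL4e hL444, s.hP _ hL2 hL24] at hP4 hPl
  rw [s.hQ _ hL4e hL444, s.hQ _ hL2 hL24] at hQ4 hQl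
  -- exponentials
  set e2 := Real.exp (-(β * s.E (2 * L))) with he2
  set e4 := Real.exp (-(β * s.E (2 * (2 * L)))) with he4
  set e1 := Real.exp (-(β * s.E L)) with he1
  have he2p : 0 < e2 := Real.exp_pos _
  have he4p : 0 < e4 := Real.exp_pos _
  have he1p : 0 < e1 := Real.exp_pos _
  have ee2 : Real.exp (-(2 * β * s.E (2 * L))) = e2 ^ 2 := by
    rw [he2, ← Real.exp_nat_mul]; congr 1; push_cast; ring
  have ee4 : Real.exp (-(2 * β * s.E (2 * (2 * L)))) = e4 ^ 2 := by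
    rw [he4, ← Real.exp_nat_mul]; congr 1; push_cast; ring
  have ee1 : Real.exp (-(2 * β * s.E L)) = e1 ^ 2 := by
    rw [he1, ← Real.exp_nat_mul]; congr 1; push_cast; ring
  have ee24 : Real.exp (-(2 * (2 * β) * s.E (2 * L))) = e2 ^ 4 := by
    rw [he2, ← Real.exp_nat_mul]; congr 1; push_cast; ring
  have ee14 : Real.exp (-(2 * (2 * β) * s.E L)) = e1 ^ 4 := by
    rw [he1, ← Real.exp_nat_mul]; congr 1; push_cast; ring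
  rw [ee2, ee4] at hPl hQl
  set a := s.a (2 * L) β with hadef
  set b := s.b (2 * L) β with hbdef
  set x := s.a (2 * (2 * L)) β with hxdef
  set bb := s.b (2 * (2 * L)) β with hbbdef
  set x2 := s.a (2 * (2 * L)) (2 * β) with hx2def
  set bb2 := s.b (2 * (2 * L)) (2 * β) with hbb2def
  set a2 := s.a (2 * L) (2 * β) with ha2def
  set b2 := s.b (2 * L) (2 * β) with hb2def
  have hx0 : 0 ≤ x := pa4.nonneg β
  have hbb0 : 0 ≤ bb := pb4.nonneg β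
  have hx20 : 0 ≤ x2 := pa4.nonneg (2 * β)
  have hbb20 : 0 ≤ bb2 := pb4.nonneg (2 * β)
  have ha20 : 0 ≤ a2 := pa2.nonneg (2 * β)
  have hb20 : 0 ≤ b2 := pb2.nonneg (2 * β)
  -- T0 upper
  have hT0 : e4 * (1 + x) ≤ e2 ^ 2 * ((1 + A) ^ 2 + 3 * B ^ 2) := by
    have h1 : e4 * (1 + x) ≤ e2 ^ 2 * ((1 + a) ^ 2 + 3 * b ^ 2) := by linarith only [hP4, hQ4]
    refine le_trans h1 (mul_le_mul_of_nonneg_left ?_ (sq_nonneg _))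
    have h2 : (1 + a) ^ 2 ≤ (1 + A) ^ 2 := pow_le_pow_left₀ (by linarith) (by linarith) 2
    have h3 : b ^ 2 ≤ B ^ 2 := pow_le_pow_left₀ hb0 hB 2
    linarith
  -- T0 lower
  have hT0l : e2 ^ 4 ≤ (1 + σ ^ 2) ^ 2 * (e4 ^ 2 * (1 + x2)) := by
    have h1 : e2 ^ 4 * ((1 + a2) ^ 2 + 3 * b2 ^ 2) ≤ (1 + σ ^ 2) ^ 2 * (e4 ^ 2 * (1 + x2)) := by
      linarith only [hPl, hQl]
    have h2 : (1 : ℝ) ≤ (1 + a2) ^ 2 + 3 * b2 ^ 2 := by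
      linarith only [sq_nonneg b2, sq_nonneg a2, ha20]
    have h3 : e2 ^ 4 * 1 ≤ e2 ^ 4 * ((1 + a2) ^ 2 + 3 * b2 ^ 2) :=
      mul_le_mul_of_nonneg_left h2 (by positivity)
    linarith
  have hcrossT : (Real.exp (-(β * s.E (2 * (2 * L)))) * (1 + s.a (2 * (2 * L)) β)) ^ 2 ≤
      (1 + y) * (Real.exp (-(2 * β * s.E (2 * (2 * L)))) * (1 + s.a (2 * (2 * L)) (2 * β))) := by
    rw [ee4]
    calc (e4 * (1 + x)) ^ 2 ≤ (e2 ^ 2 * ((1 + A) ^ 2 + 3 * B ^ 2)) ^ 2 :=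
          pow_le_pow_left₀ (by positivity) hT0 2
      _ = e2 ^ 4 * ((1 + A) ^ 2 + 3 * B ^ 2) ^ 2 := by ring
      _ ≤ ((1 + σ ^ 2) ^ 2 * (e4 ^ 2 * (1 + x2))) * ((1 + A) ^ 2 + 3 * B ^ 2) ^ 2 :=
          mul_le_mul_of_nonneg_right hT0l (by positivity)
      _ = (((1 + A) ^ 2 + 3 * B ^ 2) * (1 + σ ^ 2)) ^ 2 * (e4 ^ 2 * (1 + x2)) := by ring
      _ ≤ (1 + y) * (e4 ^ 2 * (1 + x2)) := mul_le_mul_of_nonneg_right hg (by positivity)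
  obtain ⟨hc1, hc2⟩ := pa4.cross hβ hcrossT
  have hxx : x ≤ x' := crossing hx0 (by linarith) hy1 hc2 hx hx1
  have hx'0 : 0 ≤ x' := le_trans hx0 hxx
  have hx2x : x2 ≤ x' ^ 2 := le_trans (pa4.two β) (pow_le_pow_left₀ hx0 hxx 2)
  have hexp : e2 ^ 2 ≤ u * e4 := by
    have h1 : (e2 ^ 2) ^ 2 ≤ (u * e4) ^ 2 := by
      calc (e2 ^ 2) ^ 2 = e2 ^ 4 := by ring
        _ ≤ (1 + σ ^ 2) ^ 2 * (e4 ^ 2 * (1 + x2)) := hT0l
        _ ≤ (1 + σ ^ 2) ^ 2 * (e4 ^ 2 * (1 + x' ^ 2)) := by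
            apply mul_le_mul_of_nonneg_left _ (by positivity)
            apply mul_le_mul_of_nonneg_left _ (by positivity)
            linarith
        _ = ((1 + σ ^ 2) ^ 2 * (1 + x' ^ 2)) * e4 ^ 2 := by ring
        _ ≤ u ^ 2 * e4 ^ 2 := mul_le_mul_of_nonneg_right hu (by positivity)
        _ = (u * e4) ^ 2 := by ring
    exact (pow_le_pow_iff_left₀ (sq_nonneg _) (mul_nonneg hu0 he4p.le) two_ne_zero).1 h1
  have hTb : 1 + x + 3 * bb ≤ u * (1 + A + 3 * B) ^ 2 := by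
    have h1 : e4 * (1 + x + 3 * bb) ≤ e4 * (u * (1 + A + 3 * B) ^ 2) := by
      calc e4 * (1 + x + 3 * bb) ≤ (e2 * (1 + a + 3 * b)) ^ 2 := hP4
        _ = e2 ^ 2 * (1 + a + 3 * b) ^ 2 := by ring
        _ ≤ e2 ^ 2 * (1 + A + 3 * B) ^ 2 := by
            apply mul_le_mul_of_nonneg_left _ (by positivity)
            apply pow_le_pow_left₀ (by linarith)
            linarith
        _ ≤ (u * e4) * (1 + A + 3 * B) ^ 2 := mul_le_mul_of_nonneg_right hexp (by positivity)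
        _ = e4 * (u * (1 + A + 3 * B) ^ 2) := by ring
    exact le_of_mul_le_mul_left h1 he4p
  -- (S)
  have hPs := a3_sup2 (s.hS (2 * β) hβ2) (s.hlam (2 * β) hβ2) hL hL4 hS
  beta_reduce at hPs
  rw [s.hP _ hL hL4, s.hP _ hL2 hL24, ee1, ee2] at hPs
  have pt1 : PS (fun β => s.a L β + 3 * s.b L β) := pa1.add pb1.three
  have ht1 := pt1.two (2 * β)
  have ht10 := pt1.nonneg (2 * β)
  have ht140 := pt1.nonneg (2 * (2 * β))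
  beta_reduce at ht1 ht10 ht140
  set t2 := s.a L (2 * β) + 3 * s.b L (2 * β) with ht2def
  set t4 := s.a L (2 * (2 * β)) + 3 * s.b L (2 * (2 * β)) with ht4def
  have hPs' : (e1 ^ 2 * (1 + t2)) ^ 2 ≤ (1 + σ) ^ 2 * (e2 ^ 2 * (1 + a2 + 3 * b2)) := by
    have : (1 : ℝ) + t2 = 1 + s.a L (2 * β) + 3 * s.b L (2 * β) := by rw [ht2def]; ring
    rw [this]
    exact hPs
  have ha2A : a2 ≤ A ^ 2 := le_trans (pa2.two β) (pow_le_pow_left₀ ha0 hA 2)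
  have hb2B : b2 ≤ B ^ 2 := le_trans (pb2.two β) (pow_le_pow_left₀ hb0 hB 2)
  set G := (1 + σ) ^ 2 * (1 + A ^ 2 + 3 * B ^ 2) with hG
  have hG0 : 0 ≤ G := by positivity
  have hG1 : e1 ^ 4 * (1 + t2) ^ 2 ≤ G * e2 ^ 2 := by
    calc e1 ^ 4 * (1 + t2) ^ 2 = (e1 ^ 2 * (1 + t2)) ^ 2 := by ring
      _ ≤ (1 + σ) ^ 2 * (e2 ^ 2 * (1 + a2 + 3 * b2)) := hPs'
      _ ≤ (1 + σ) ^ 2 * (e2 ^ 2 * (1 + A ^ 2 + 3 * B ^ 2)) := by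
          apply mul_le_mul_of_nonneg_left _ (by positivity)
          apply mul_le_mul_of_nonneg_left _ (by positivity)
          linarith
      _ = G * e2 ^ 2 := by rw [hG]; ring
  have hG2 : (e1 ^ 4 * (1 + t4)) ^ 2 ≤ G ^ 2 * e2 ^ 4 := by
    have h1 : e1 ^ 4 * (1 + t4) ≤ e1 ^ 4 * (1 + t2) ^ 2 := by
      apply mul_le_mul_of_nonneg_left _ (by positivity)
      linarith only [ht1, ht10]
    calc (e1 ^ 4 * (1 + t4)) ^ 2 ≤ (G * e2 ^ 2) ^ 2 :=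
          pow_le_pow_left₀ (mul_nonneg (by positivity) (by linarith)) (le_trans h1 hG1) 2
      _ = G ^ 2 * e2 ^ 4 := by ring
  have hB4 : 0 < 1 - B ^ 4 := by
    have : B ^ 4 < 1 := pow_lt_one₀ hB0 hB1 (by norm_num)
    linarith
  have hz0 : 0 ≤ 1 + z := by
    by_contra hn
    push Not at hn
    have h1 : (1 + z) * (1 - B ^ 4) < 0 := mul_neg_of_neg_of_pos hn hB4
    have h2 : 0 ≤ G ^ 2 := sq_nonneg _
    linarith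
  have hz1' : G ^ 2 ≤ 1 + z := by
    have h1 : (1 + z) * (1 - B ^ 4) ≤ (1 + z) * 1 := by
      apply mul_le_mul_of_nonneg_left _ hz0
      have : 0 ≤ B ^ 4 := by positivity
      linarith
    linarith
  have ha4n := pa2.nonneg (2 * (2 * β))
  have hb4n := pb2.nonneg (2 * (2 * β))
  have hb4B : s.b (2 * L) (2 * (2 * β)) ≤ B ^ 4 := by
    calc s.b (2 * L) (2 * (2 * β)) ≤ b2 ^ 2 := pb2.two (2 * β)
      _ ≤ (B ^ 2) ^ 2 := pow_le_pow_left₀ hb20 hb2B 2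
      _ = B ^ 4 := by ring
  have hcP : pf L (2 * (2 * β)) ^ 2 ≤ (1 + z) * pf (2 * L) (2 * (2 * β)) := by
    rw [s.hP _ hL hL4, s.hP _ hL2 hL24, ee14, ee24]
    have h1 : (1 : ℝ) + s.a L (2 * (2 * β)) + 3 * s.b L (2 * (2 * β)) = 1 + t4 := by
      rw [ht4def]; ring
    rw [h1]
    calc (e1 ^ 4 * (1 + t4)) ^ 2 ≤ G ^ 2 * e2 ^ 4 := hG2
      _ ≤ (1 + z) * e2 ^ 4 := mul_le_mul_of_nonneg_right hz1' (by positivity)
      _ ≤ (1 + z) * (e2 ^ 4 * (1 + s.a (2 * L) (2 * (2 * β)) +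
            3 * s.b (2 * L) (2 * (2 * β)))) := by
          apply mul_le_mul_of_nonneg_left _ hz0
          have h2 : 0 < e2 ^ 4 := by positivity
          linarith only [mul_nonneg h2.le ha4n, mul_nonneg h2.le hb4n]
  have hcQ : qf L (2 * (2 * β)) ^ 2 ≤ (1 + z) * qf (2 * L) (2 * (2 * β)) := by
    have hq0 := (s.hR _ hβ4).lam_le (s.hlamZ _ hβ4) hL hL4
    have hq1 : 0 < qf L (2 * (2 * β)) := lt_of_lt_of_le (pow_pos (s.hlamZ _ hβ4) _) hq0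
    rw [s.hQ _ hL hL4, ee14] at hq1
    have hu1 : 0 < 1 + s.a L (2 * (2 * β)) - s.b L (2 * (2 * β)) :=
      (mul_pos_iff_of_pos_left (by positivity)).1 hq1
    rw [s.hQ _ hL hL4, s.hQ _ hL2 hL24, ee14, ee24]
    have hb1n := pb1.nonneg (2 * (2 * β))
    have h1 : (e1 ^ 4 * (1 + s.a L (2 * (2 * β)) - s.b L (2 * (2 * β)))) ^ 2 ≤ G ^ 2 * e2 ^ 4 := by
      refine le_trans (pow_le_pow_left₀ (by positivity) ?_ 2) hG2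
      apply mul_le_mul_of_nonneg_left _ (by positivity)
      rw [ht4def]
      linarith
    have h2 : G ^ 2 * e2 ^ 4 ≤ ((1 + z) * (1 - B ^ 4)) * e2 ^ 4 :=
      mul_le_mul_of_nonneg_right hg1 (by positivity)
    have h3 : ((1 + z) * (1 - B ^ 4)) * e2 ^ 4 ≤
        (1 + z) * (e2 ^ 4 * (1 + s.a (2 * L) (2 * (2 * β)) - s.b (2 * L) (2 * (2 * β)))) := by
      rw [mul_assoc]
      apply mul_le_mul_of_nonneg_left _ hz0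
      rw [mul_comm]
      apply mul_le_mul_of_nonneg_left _ (by positivity)
      linarith
    exact le_trans h1 (le_trans h2 h3)
  obtain ⟨hs1, hs2⟩ := (s.hS _ hβ4).cross (s.hlam _ hβ4) hL hL4 hcP
  obtain ⟨hr1, hr2⟩ := (s.hR _ hβ4).cross (s.hlamZ _ hβ4) hL hL4 hcQ
  have hs0 := (s.hS _ hβ4).S_nonneg hL hL4
  have hr0 := (s.hR _ hβ4).S_nonneg hL hL4
  refine ⟨hxx, hTb, ?_, ?_⟩
  · have h1 : pf L (2 * (2 * β)) / s.lam (2 * (2 * β)) ^ L - 1 ≤ z := by linarith only [hs1]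
    exact crossing hs0 h1 hz1 hs2 hxz hx11
  · have h1 : qf L (2 * (2 * β)) / s.lamZ (2 * (2 * β)) ^ L - 1 ≤ z := by linarith only [hr1]
    exact crossing hr0 h1 hz1 hr2 hxz hx11

/-- next state: everything squared. -/
theorem bulk_next {pf qf : ℕ → ℝ → ℝ} (s : BulkSys pf qf) {L : ℕ} (hL : Even L) (hL4 : 4 ≤ L)
    {β A B σ y x' u z x1 B' : ℝ} (hβ : 0 < β)
    (hA : s.a (2 * L) β ≤ A) (hB : s.b (2 * L) β ≤ B) (hS : s.S L (2 * β) ≤ σ)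
    (hR : s.R L (2 * β) ≤ σ) (hy1 : y < 1) (hg : (((1 + A) ^ 2 + 3 * B ^ 2) * (1 + σ ^ 2)) ^ 2 ≤ 1 + y)
    (hx : y * x' ^ 2 - 2 * x' + y ≤ 0) (hx1 : x' ≤ 1)
    (hu0 : 0 ≤ u) (hu : (1 + σ ^ 2) ^ 2 * (1 + x' ^ 2) ≤ u ^ 2)
    (hB1 : B < 1) (hz1 : z < 1)
    (hg1 : ((1 + σ) ^ 2 * (1 + A ^ 2 + 3 * B ^ 2)) ^ 2 ≤ (1 + z) * (1 - B ^ 4))
    (hxz : z * x1 ^ 2 - 2 * x1 + z ≤ 0) (hx11 : x1 ≤ 1)
    (hB' : u * (1 + A + 3 * B) ^ 2 - 1 ≤ 3 * B') :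
    s.a (2 * (2 * L)) (2 * β) ≤ x' ^ 2 ∧ s.b (2 * (2 * L)) (2 * β) ≤ B' ^ 2 ∧
    s.S (2 * L) (2 * (2 * β)) ≤ x1 ^ 2 ∧ s.R (2 * L) (2 * (2 * β)) ≤ x1 ^ 2 := by
  obtain ⟨h1, h2, h3, h4⟩ := bulk_step s hL hL4 hβ hA hB hS hR hy1 hg hx hx1 hu0 hu hB1 hz1 hg1
    hxz hx11
  have hL44 : 4 * L = 2 * (2 * L) := by ring
  have hβ44 : 4 * β = 2 * (2 * β) := by ring
  rw [hL44] at h1 h2
  rw [hβ44] at h3 h4
  have hL2 : Even (2 * L) := hL.mul_left 2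
  have hL4e : Even (2 * (2 * L)) := hL2.mul_left 2
  have hL444 : 4 ≤ 2 * (2 * L) := by omega
  have hβ4 : 0 < 2 * (2 * β) := by linarith
  have pa4 := s.ha (2 * (2 * L)) hL4e hL444
  have pb4 := s.hb (2 * (2 * L)) hL4e hL444
  have hx0 := pa4.nonneg β
  have hb0 := pb4.nonneg β
  refine ⟨?_, ?_, ?_, ?_⟩
  · exact le_trans (pa4.two β) (pow_le_pow_left₀ hx0 h1 2)
  · refine le_trans (pb4.two β) (pow_le_pow_left₀ hb0 ?_ 2)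
    linarith
  · have h5 := (s.hS _ hβ4).S_double hL hL4
    have h6 := (s.hS _ hβ4).S_nonneg hL hL4
    exact le_trans h5 (pow_le_pow_left₀ h6 h3 2)
  · have h5 := (s.hR _ hβ4).S_double hL hL4
    have h6 := (s.hR _ hβ4).S_nonneg hL hL4
    exact le_trans h5 (pow_le_pow_left₀ h6 h4 2)

end Crest.Agent.HG
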