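import Crest.Agent.HG_A1
import Crest.Agent.HG_A2

/-!
HG task A4: monotonicity of `E(L)/L` and interpolation of the time-excess `t` in `L`.
-/

set_option autoImplicit false

namespace Crest.Agent.HG
open Filter

/-- `E(L)/L` is nondecreasing over even `L`. PROOF: for `β > 0`,
`e^{-βE(L')} ≤ P(L',β) ≤ P(L,β)^{L'/L}` (`ℓ^p`-norms: `P(L')/lam^{L'} = 1+Σ r^{L'} ≤ (1+Σ r^L)^{L'/L}`)
`= (e^{-βE(L)}(1+t(L,β)))^{L'/L} ≤ (e^{-βE(L)}(1+t(L,0)))^{L'/L}`; take logarithms, divide by `β`,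
`β → ∞`. -/
theorem E_mono {pf qf : ℕ → ℝ → ℝ} (s : BulkSys pf qf) {L L' : ℕ} (hL : Even L) (hL4 : 4 ≤ L)
    (hL' : Even L') (hLL : L ≤ L') : s.E L * L' ≤ s.E L' * L := by
  have hLpos : (0 : ℝ) < (L : ℝ) := by
    have : 0 < L := by omega
    exact_mod_cast this
  have hL4' : 4 ≤ L' := le_trans hL4 hLL
  set c : ℝ := (L' : ℝ) / (L : ℝ) with hc
  have hc1 : 1 ≤ c := by
    rw [hc, le_div_iff₀ hLpos, one_mul]
    exact_mod_cast hLL
  have ht0 : 0 ≤ s.a L 0 + 3 * s.b L 0 :=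
    add_nonneg ((s.ha L hL hL4).nonneg 0) (mul_nonneg (by norm_num) ((s.hb L hL hL4).nonneg 0))
  -- main inequality for every β > 0
  have key : ∀ β : ℝ, 0 < β → β * (c * s.E L - s.E L') ≤ c * Real.log (1 + (s.a L 0 + 3 * s.b L 0)) := by
    intro β hβ
    have hlam := s.hlam β hβ
    have hS := s.hS β hβ
    have hr := hS.S_rpow hL hL4 hL' hLL
    have hS0 := hS.S_nonneg hL hL4
    have hp' : pf L' β = s.lam β ^ L' * (1 + (pf L' β / s.lam β ^ L' - 1)) := by
      have : s.lam β ^ L' ≠ 0 := (pow_pos hlam _).ne'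
      field_simp
      ring
    have hp : pf L β = s.lam β ^ L * (1 + (pf L β / s.lam β ^ L - 1)) := by
      have : s.lam β ^ L ≠ 0 := (pow_pos hlam _).ne'
      field_simp
      ring
    set S := pf L β / s.lam β ^ L - 1 with hSd
    set S' := pf L' β / s.lam β ^ L' - 1 with hSd'
    have h1 : 1 + S' ≤ (1 + S) ^ c := by
      have h2 : (1 : ℝ) ^ c + S ^ c ≤ (1 + S) ^ c :=
        Real.add_rpow_le_rpow_add (by norm_num) hS0 hc1
      rw [Real.one_rpow] at h2
      linarith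
    have hcL : (s.lam β ^ L) ^ c = s.lam β ^ L' := by
      rw [← Real.rpow_natCast, ← Real.rpow_mul hlam.le, hc, mul_div_cancel₀ _ (ne_of_gt hLpos),
        Real.rpow_natCast]
    have h3 : pf L' β ≤ (pf L β) ^ c := by
      rw [hp', hp, Real.mul_rpow (pow_pos hlam _).le (by linarith), hcL]
      exact mul_le_mul_of_nonneg_left h1 (pow_pos hlam _).le
    have h4 : Real.exp (-(β * s.E L')) ≤ pf L' β := by
      rw [s.hP L' hL' hL4' β]
      have ha := (s.ha L' hL' hL4').nonneg β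
      have hb := (s.hb L' hL' hL4').nonneg β
      exact le_mul_of_one_le_right (Real.exp_pos _).le (by linarith)
    have h5 : pf L β ≤ Real.exp (-(β * s.E L)) * (1 + (s.a L 0 + 3 * s.b L 0)) := by
      rw [s.hP L hL hL4 β]
      have ha := (s.ha L hL hL4).anti hβ.le
      have hb := (s.hb L hL hL4).anti hβ.le
      exact mul_le_mul_of_nonneg_left (by linarith) (Real.exp_pos _).le
    have hpL : 0 < pf L β := by
      rw [hp]
      exact mul_pos (pow_pos hlam _) (by linarith)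
    have h6 : Real.exp (-(β * s.E L')) ≤
        (Real.exp (-(β * s.E L)) * (1 + (s.a L 0 + 3 * s.b L 0))) ^ c :=
      le_trans h4 (le_trans h3 (Real.rpow_le_rpow hpL.le h5 (by linarith)))
    have h7 := Real.log_le_log (Real.exp_pos _) h6
    rw [Real.log_exp, Real.log_rpow (mul_pos (Real.exp_pos _) (by linarith)),
      Real.log_mul (Real.exp_pos _).ne' (by linarith), Real.log_exp] at h7
    linarith
  have h8 : c * s.E L - s.E L' ≤ 0 := by
    by_contra hn
    push Not at hn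
    have hK : 0 ≤ c * Real.log (1 + (s.a L 0 + 3 * s.b L 0)) :=
      mul_nonneg (by linarith) (Real.log_nonneg (by linarith))
    have h9 := key ((c * Real.log (1 + (s.a L 0 + 3 * s.b L 0)) + 1) / (c * s.E L - s.E L'))
      (div_pos (by linarith) hn)
    rw [div_mul_cancel₀ _ hn.ne'] at h9
    linarith
  have h10 : s.E L * L' = (c * s.E L) * L := by
    rw [hc]
    field_simp
  rw [h10]
  exact mul_le_mul_of_nonneg_right (by linarith) hLpos.le

/-- `1+t(L,β) ≤ (1+S(L,β)) (1+t(L2,β))` for even `L ≤ L2`. PROOF: `ζ := lam e^{βE(L2)/L2}`;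
`1+t(L) = lam^L(1+S(L)) e^{βE(L)} ≤ ζ^L (1+S(L))` by `E_mono`, and
`ζ^{L2} ≤ P(L2) e^{βE(L2)} = 1+t(L2)`; distinguish `ζ ≤ 1` and `ζ > 1`. -/
theorem t_interp {pf qf : ℕ → ℝ → ℝ} (s : BulkSys pf qf) {L L2 : ℕ} (hL : Even L) (hL4 : 4 ≤ L)
    (hL2 : Even L2) (hLL : L ≤ L2) {β : ℝ} (hβ : 0 < β) :
    1 + s.t L β ≤ (1 + s.S L β) * (1 + s.t L2 β) := by
  have hLpos : (0 : ℝ) < (L : ℝ) := by
    have : 0 < L := by omega
    exact_mod_cast this
  have hL24 : 4 ≤ L2 := le_trans hL4 hLL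
  have hL2pos : (0 : ℝ) < (L2 : ℝ) := by
    have : 0 < L2 := by omega
    exact_mod_cast this
  have hlam := s.hlam β hβ
  have hS := s.hS β hβ
  have hS0 : 0 ≤ s.S L β := hS.S_nonneg hL hL4
  have hlam2 := hS.lam_le hlam hL2 hL24
  have ht20 : 0 ≤ s.t L2 β := by
    unfold BulkSys.t
    exact add_nonneg ((s.ha L2 hL2 hL24).nonneg β)
      (mul_nonneg (by norm_num) ((s.hb L2 hL2 hL24).nonneg β))
  have hE := E_mono s hL hL4 hL2 hLL
  set ζ := s.lam β * Real.exp (β * s.E L2 / L2) with hζ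
  have hζ0 : 0 < ζ := mul_pos hlam (Real.exp_pos _)
  -- ζ^L2 ≤ 1 + t(L2)
  have h1 : ζ ^ L2 ≤ 1 + s.t L2 β := by
    rw [hζ, mul_pow, ← Real.exp_nat_mul]
    have e1 : (L2 : ℝ) * (β * s.E L2 / L2) = β * s.E L2 := by field_simp
    rw [e1]
    calc s.lam β ^ L2 * Real.exp (β * s.E L2) ≤ pf L2 β * Real.exp (β * s.E L2) :=
          mul_le_mul_of_nonneg_right hlam2 (Real.exp_pos _).le
      _ = 1 + s.t L2 β := by
        rw [s.hP L2 hL2 hL24 β]
        have e2 : Real.exp (-(β * s.E L2)) * Real.exp (β * s.E L2) = 1 := by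
          rw [← Real.exp_add]; simp
        unfold BulkSys.t
        calc Real.exp (-(β * s.E L2)) * (1 + s.a L2 β + 3 * s.b L2 β) * Real.exp (β * s.E L2)
            = (Real.exp (-(β * s.E L2)) * Real.exp (β * s.E L2)) *
              (1 + s.a L2 β + 3 * s.b L2 β) := by ring
          _ = 1 + (s.a L2 β + 3 * s.b L2 β) := by rw [e2]; ring
  -- 1 + t(L) ≤ ζ^L (1+S)
  have h2 : 1 + s.t L β ≤ ζ ^ L * (1 + s.S L β) := by
    have e3 : 1 + s.t L β = pf L β * Real.exp (β * s.E L) := by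
      rw [s.hP L hL hL4 β]
      have e2 : Real.exp (-(β * s.E L)) * Real.exp (β * s.E L) = 1 := by
        rw [← Real.exp_add]; simp
      unfold BulkSys.t
      calc 1 + (s.a L β + 3 * s.b L β) = 1 * (1 + s.a L β + 3 * s.b L β) := by ring
        _ = Real.exp (-(β * s.E L)) * (1 + s.a L β + 3 * s.b L β) * Real.exp (β * s.E L) := by
          rw [← e2]; ring
    have e4 : pf L β = s.lam β ^ L * (1 + s.S L β) := by
      unfold BulkSys.S
      have : s.lam β ^ L ≠ 0 := (pow_pos hlam _).ne'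
      field_simp
      ring
    have e5 : β * s.E L ≤ (L : ℝ) * (β * s.E L2 / L2) := by
      have : (L : ℝ) * (β * s.E L2 / L2) = β * (s.E L2 * L) / L2 := by ring
      rw [this, le_div_iff₀ hL2pos]
      calc β * s.E L * L2 = β * (s.E L * L2) := by ring
        _ ≤ β * (s.E L2 * L) := mul_le_mul_of_nonneg_left hE hβ.le
    rw [e3, e4, hζ, mul_pow, ← Real.exp_nat_mul]
    have h6 : Real.exp (β * s.E L) ≤ Real.exp ((L : ℝ) * (β * s.E L2 / L2)) :=
      Real.exp_le_exp.2 e5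
    calc s.lam β ^ L * (1 + s.S L β) * Real.exp (β * s.E L)
        ≤ s.lam β ^ L * (1 + s.S L β) * Real.exp ((L : ℝ) * (β * s.E L2 / L2)) :=
          mul_le_mul_of_nonneg_left h6 (mul_nonneg (pow_pos hlam _).le (by linarith))
      _ = s.lam β ^ L * Real.exp ((L : ℝ) * (β * s.E L2 / L2)) * (1 + s.S L β) := by ring
  have h3 : ζ ^ L ≤ 1 + s.t L2 β := by
    rcases le_total ζ 1 with hle | hge
    · exact le_trans (pow_le_one₀ hζ0.le hle) (by linarith)
    · exact le_trans (pow_le_pow_right₀ hge hLL) h1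
  calc 1 + s.t L β ≤ ζ ^ L * (1 + s.S L β) := h2
    _ ≤ (1 + s.t L2 β) * (1 + s.S L β) := mul_le_mul_of_nonneg_right h3 (by linarith)
    _ = (1 + s.S L β) * (1 + s.t L2 β) := by ring

end Crest.Agent.HG
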