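import Crest.Agent.HG_A1
import Crest.Agent.HG_A2

/-!
HG task A4b: relation `lam(2β) ≤ lam(β)²` and a lower bound of `lam`.
-/

set_option autoImplicit false

namespace Crest.Agent.HG
open Filter

/-- `λ(2β) ≤ λ(β)²`. PROOF: for all even `L ≥ 4`: `lam(2β)^L ≤ P(L,2β) ≤ P(L,β)² =
lam(β)^{2L}(1+S(L,β))² ≤ lam(β)^{2L}(1+S(4,β))²`; take `L`-th roots, `L → ∞`.
(`P(L,2β) ≤ P(L,β)²`: `e^{-2βE}(1+t(2β)) ≤ e^{-2βE}(1+t(β))²`.) -/
theorem lam_two {pf qf : ℕ → ℝ → ℝ} (s : BulkSys pf qf) {β : ℝ} (hβ : 0 < β) :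
    s.lam (2 * β) ≤ s.lam β ^ 2 := by
  have hl1 := s.hlam β hβ
  have hl2 := s.hlam (2 * β) (by linarith)
  set K := (1 + s.S 4 β) ^ 2 with hK
  have hS4 : 0 ≤ s.S 4 β := (s.hS β hβ).S_nonneg (by decide) le_rfl
  have key : ∀ k : ℕ, (s.lam (2 * β) / s.lam β ^ 2) ^ (4 + 2 * k) ≤ K := by
    intro k
    have hL : Even (4 + 2 * k) := (by decide : Even 4).add (even_two_mul k)
    have hL4 : 4 ≤ 4 + 2 * k := by omega
    set L := 4 + 2 * k with hLd
    have h1 := (s.hS (2 * β) (by linarith)).lam_le hl2 hL hL4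
    have h2 : pf L (2 * β) ≤ pf L β ^ 2 := by
      rw [s.hP L hL hL4, s.hP L hL hL4]
      have e1 : Real.exp (-(2 * β * s.E L)) = Real.exp (-(β * s.E L)) ^ 2 := by
        rw [← Real.exp_nat_mul]
        congr 1
        push_cast
        ring
      have ha := (s.ha L hL hL4).nonneg β
      have hb := (s.hb L hL hL4).nonneg β
      have ha2 := (s.ha L hL hL4).two β
      have hb2 := (s.hb L hL hL4).two β
      rw [e1, mul_pow]
      refine mul_le_mul_of_nonneg_left ?_ (by positivity)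
      nlinarith [mul_nonneg ha hb]
    have hSL : s.S L β ≤ s.S 4 β := (s.hS β hβ).S_anti (by decide) le_rfl hL hL4
    have hSL0 : 0 ≤ s.S L β := (s.hS β hβ).S_nonneg hL hL4
    have e4 : pf L β = s.lam β ^ L * (1 + s.S L β) := by
      unfold BulkSys.S
      have : s.lam β ^ L ≠ 0 := (pow_pos hl1 _).ne'
      field_simp
      ring
    have h3 : s.lam (2 * β) ^ L ≤ (s.lam β ^ 2) ^ L * K := by
      calc s.lam (2 * β) ^ L ≤ pf L (2 * β) := h1
        _ ≤ pf L β ^ 2 := h2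
        _ = (s.lam β ^ 2) ^ L * (1 + s.S L β) ^ 2 := by
          rw [e4, mul_pow, ← pow_mul, ← pow_mul, mul_comm L 2]
        _ ≤ (s.lam β ^ 2) ^ L * K := by
          refine mul_le_mul_of_nonneg_left ?_ (by positivity)
          rw [hK]
          exact pow_le_pow_left₀ (by linarith) (by linarith) 2
    rw [div_pow, div_le_iff₀ (by positivity)]
    linarith
  by_contra hn
  push Not at hn
  have hr : 1 < s.lam (2 * β) / s.lam β ^ 2 := by
    rw [lt_div_iff₀ (by positivity), one_mul]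
    exact hn
  obtain ⟨m, hm⟩ := pow_unbounded_of_one_lt K hr
  have h5 : (s.lam (2 * β) / s.lam β ^ 2) ^ m ≤ (s.lam (2 * β) / s.lam β ^ 2) ^ (4 + 2 * m) :=
    pow_le_pow_right₀ hr.le (by omega)
  have := key m
  linarith

/-- lower bound of `lam` by the energy of any longer ring: for even `4 ≤ M`,
`exp(-β E(M)) ≤ lam^M (1+S(M))` (trivial from `hP`), and `E(L)/L ≤ E(M)/M`. -/
theorem lam_lower {pf qf : ℕ → ℝ → ℝ} (s : BulkSys pf qf) {M : ℕ} (hM : Even M) (hM4 : 4 ≤ M)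
    {β : ℝ} (hβ : 0 < β) : Real.exp (-(β * s.E M)) ≤ s.lam β ^ M * (1 + s.S M β) := by
  rw [show s.lam β ^ M * (1 + s.S M β) = pf M β by
    unfold BulkSys.S
    have : s.lam β ^ M ≠ 0 := (pow_pos (s.hlam β hβ) _).ne'
    field_simp
    ring]
  rw [s.hP M hM hM4 β]
  have ha := (s.ha M hM hM4).nonneg β
  have hb := (s.hb M hM hM4).nonneg β
  exact le_mul_of_one_le_right (Real.exp_pos _).le (by linarith)

end Crest.Agent.HG
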