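import Crest.Agent.HG_A3

/-!
HG task A5: numerical bulk iteration. `BState s L β A B σ` at scale `k`: `L = 52·2^k`, `β = 10·2^k`.
The constants were generated by a script (each row satisfies the rational inequalities of
`bulk_step` with `y,x',u,z,x1,B'` given in the comment):

k : A, B, σ | y, x', u, z, x1, B'
0 : 27/500, 41/400, 9/100 | 204/625, 839/5000, 5111/5000, 5107/10000, 2747/10000, 2983/10000
1 : 88/3125, 8899/100000, 7547/100000 | 1817/10000, 4581/50000, 100991/100000, 1011/2500,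
    2113/10000, 1157/5000
2 : 1679/200000, 1071/20000, 893/20000 | 2789/50000, 349/12500, 100239/100000, 2117/10000,
    1071/10000, 617/5000
3 : 1949/2500000, 1523/100000, 287/25000 | 2391/500000, 299/125000, 50007/50000, 2409/50000,
    2411/100000, 397/12500
4 : 2861/500000000, 1009/1000000, 5813/10000000 | 371/12500000, 297/20000000, 100001/100000,
    1167/500000, 73/62500, 2029/1000000
5 : 1103/5000000000000, 4117/1000000000, 273/200000000
-/

set_option autoImplicit false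

namespace Crest.Agent.HG

/-- state of the bulk iteration -/
def BState {pf qf : ℕ → ℝ → ℝ} (s : BulkSys pf qf) (L : ℕ) (β A B σ : ℝ) : Prop :=
  s.a (2 * L) β ≤ A ∧ s.b (2 * L) β ≤ B ∧ s.S L (2 * β) ≤ σ ∧ s.R L (2 * β) ≤ σ

/-- generic step -/
private theorem a5_step {pf qf : ℕ → ℝ → ℝ} (s : BulkSys pf qf) {L : ℕ} (hL : Even L) (hL4 : 4 ≤ L)
    {β A B σ : ℝ} (y x' u z x1 B' : ℝ) {A2 B2 σ2 : ℝ} (hβ : 0 < β)
    (h : BState s L β A B σ) (hy1 : y < 1)
    (hg : (((1 + A) ^ 2 + 3 * B ^ 2) * (1 + σ ^ 2)) ^ 2 ≤ 1 + y)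
    (hx : y * x' ^ 2 - 2 * x' + y ≤ 0) (hx1 : x' ≤ 1)
    (hu0 : 0 ≤ u) (hu : (1 + σ ^ 2) ^ 2 * (1 + x' ^ 2) ≤ u ^ 2)
    (hB1 : B < 1) (hz1 : z < 1)
    (hg1 : ((1 + σ) ^ 2 * (1 + A ^ 2 + 3 * B ^ 2)) ^ 2 ≤ (1 + z) * (1 - B ^ 4))
    (hxz : z * x1 ^ 2 - 2 * x1 + z ≤ 0) (hx11 : x1 ≤ 1)
    (hB' : u * (1 + A + 3 * B) ^ 2 - 1 ≤ 3 * B')
    (h1 : x' ^ 2 ≤ A2) (h2 : B' ^ 2 ≤ B2) (h3 : x1 ^ 2 ≤ σ2) :
    BState s (2 * L) (2 * β) A2 B2 σ2 ∧ (s.S L (4 * β) ≤ x1 ∧ s.R L (4 * β) ≤ x1) := by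
  obtain ⟨hA, hB, hS, hR⟩ := h
  have e1 := bulk_next s hL hL4 hβ hA hB hS hR hy1 hg hx hx1 hu0 hu hB1 hz1 hg1 hxz hx11 hB'
  have e2 := bulk_step s hL hL4 hβ hA hB hS hR hy1 hg hx hx1 hu0 hu hB1 hz1 hg1 hxz hx11
  exact ⟨⟨le_trans e1.1 h1, le_trans e1.2.1 h2, le_trans e1.2.2.1 h3, le_trans e1.2.2.2 h3⟩,
    e2.2.2.1, e2.2.2.2⟩

/-- explicit part: states at scales 0..5 and the space excesses at `(L_k, 4 β_k)`, k = 0..4. -/
theorem bulk_table {pf qf : ℕ → ℝ → ℝ} (s : BulkSys pf qf)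
    (h0 : BState s 52 10 (27 / 500) (41 / 400) (9 / 100)) :
    BState s 104 20 (88 / 3125) (8899 / 100000) (7547 / 100000) ∧
    BState s 208 40 (1679 / 200000) (1071 / 20000) (893 / 20000) ∧
    BState s 416 80 (1949 / 2500000) (1523 / 100000) (287 / 25000) ∧
    BState s 832 160 (2861 / 500000000) (1009 / 1000000) (5813 / 10000000) ∧
    BState s 1664 320 (1103 / 5000000000000) (4117 / 1000000000) (273 / 200000000) ∧
    (s.S 52 40 ≤ 2747 / 10000 ∧ s.R 52 40 ≤ 2747 / 10000) ∧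
    (s.S 104 80 ≤ 2113 / 10000 ∧ s.R 104 80 ≤ 2113 / 10000) ∧
    (s.S 208 160 ≤ 1071 / 10000 ∧ s.R 208 160 ≤ 1071 / 10000) ∧
    (s.S 416 320 ≤ 2411 / 100000 ∧ s.R 416 320 ≤ 2411 / 100000) ∧
    (s.S 832 640 ≤ 73 / 62500 ∧ s.R 832 640 ≤ 73 / 62500) := by
  obtain ⟨h1, g0⟩ := a5_step s (L := 52) (by decide) (by norm_num) (204/625) (839/5000) (5111/5000) (5107/10000) (2747/10000) (2983/10000)
    (A2 := 88 / 3125) (B2 := 8899 / 100000) (σ2 := 7547 / 100000) (by norm_num) h0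
    (by norm_num) (by norm_num) (by norm_num) (by norm_num) (by norm_num) (by norm_num) (by norm_num)
    (by norm_num) (by norm_num) (by norm_num) (by norm_num) (by norm_num) (by norm_num) (by norm_num)
    (by norm_num)
  norm_num at h1 g0
  obtain ⟨h2, g1⟩ := a5_step s (L := 104) (by decide) (by norm_num) (1817/10000) (4581/50000) (100991/100000) (1011/2500) (2113/10000) (1157/5000)
    (A2 := 1679 / 200000) (B2 := 1071 / 20000) (σ2 := 893 / 20000) (by norm_num) h1
    (by norm_num) (by norm_num) (by norm_num) (by norm_num) (by norm_num) (by norm_num) (by norm_num)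
    (by norm_num) (by norm_num) (by norm_num) (by norm_num) (by norm_num) (by norm_num) (by norm_num)
    (by norm_num)
  norm_num at h2 g1
  obtain ⟨h3, g2⟩ := a5_step s (L := 208) (by decide) (by norm_num) (2789/50000) (349/12500) (100239/100000) (2117/10000) (1071/10000) (617/5000)
    (A2 := 1949 / 2500000) (B2 := 1523 / 100000) (σ2 := 287 / 25000) (by norm_num) h2
    (by norm_num) (by norm_num) (by norm_num) (by norm_num) (by norm_num) (by norm_num) (by norm_num)
    (by norm_num) (by norm_num) (by norm_num) (by norm_num) (by norm_num) (by norm_num) (by norm_num)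
    (by norm_num)
  norm_num at h3 g2
  obtain ⟨h4, g3⟩ := a5_step s (L := 416) (by decide) (by norm_num) (2391/500000) (299/125000) (50007/50000) (2409/50000) (2411/100000) (397/12500)
    (A2 := 2861 / 500000000) (B2 := 1009 / 1000000) (σ2 := 5813 / 10000000) (by norm_num) h3
    (by norm_num) (by norm_num) (by norm_num) (by norm_num) (by norm_num) (by norm_num) (by norm_num)
    (by norm_num) (by norm_num) (by norm_num) (by norm_num) (by norm_num) (by norm_num) (by norm_num)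
    (by norm_num)
  norm_num at h4 g3
  obtain ⟨h5, g4⟩ := a5_step s (L := 832) (by decide) (by norm_num) (371/12500000) (297/20000000) (100001/100000) (1167/500000) (73/62500) (2029/1000000)
    (A2 := 1103 / 5000000000000) (B2 := 4117 / 1000000000) (σ2 := 273 / 200000000) (by norm_num) h4
    (by norm_num) (by norm_num) (by norm_num) (by norm_num) (by norm_num) (by norm_num) (by norm_num)
    (by norm_num) (by norm_num) (by norm_num) (by norm_num) (by norm_num) (by norm_num) (by norm_num)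
    (by norm_num)
  norm_num at h5 g4
  exact ⟨h1, h2, h3, h4, h5, g0, g1, g2, g3, g4⟩

end Crest.Agent.HG
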