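import Crest.Agent.HG_A5

/-!
HG task A5b: tail of the bulk iteration.
-/

set_option autoImplicit false

namespace Crest.Agent.HG

private theorem A5b_g3 {δ : ℝ} (h0 : 0 ≤ δ) (h1 : δ ≤ 1 / 8192) :
    (((1 + δ) ^ 2 + 3 * δ ^ 2) * (1 + δ ^ 2)) ^ 2 ≤ 1 + 9 / 2 * δ := by
  have hd2 : δ ^ 2 ≤ δ / 8192 := by nlinarith
  have g1 : (1 + δ) ^ 2 + 3 * δ ^ 2 ≤ 1 + 201 / 100 * δ := by linarith
  have g2 : ((1 + δ) ^ 2 + 3 * δ ^ 2) * (1 + δ ^ 2) ≤ 1 + 21 / 10 * δ := by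
    calc ((1 + δ) ^ 2 + 3 * δ ^ 2) * (1 + δ ^ 2)
        ≤ (1 + 201 / 100 * δ) * (1 + δ / 8192) :=
          mul_le_mul g1 (by linarith) (by positivity) (by positivity)
      _ ≤ 1 + 21 / 10 * δ := by linarith
  calc (((1 + δ) ^ 2 + 3 * δ ^ 2) * (1 + δ ^ 2)) ^ 2 ≤ (1 + 21 / 10 * δ) ^ 2 :=
        pow_le_pow_left₀ (by positivity) g2 2
    _ ≤ 1 + 9 / 2 * δ := by linarith

private theorem A5b_c1 {δ : ℝ} (h0 : 0 ≤ δ) (h1 : δ ≤ 1 / 8192) :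
    9 / 2 * δ * (23 / 10 * δ) ^ 2 - 2 * (23 / 10 * δ) + 9 / 2 * δ ≤ 0 := by
  have hd2 : δ ^ 2 ≤ δ / 8192 := by nlinarith
  have hd3 : δ ^ 3 ≤ δ / 8192 := by
    calc δ ^ 3 = δ ^ 2 * δ := by ring
      _ ≤ δ ^ 2 * 1 := by gcongr; linarith
      _ ≤ δ / 8192 := by linarith
  have : 9 / 2 * δ * (23 / 10 * δ) ^ 2 - 2 * (23 / 10 * δ) + 9 / 2 * δ =
      4761 / 200 * δ ^ 3 - δ / 10 := by ring
  rw [this]; linarith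

private theorem A5b_c2 {δ : ℝ} (h0 : 0 ≤ δ) (h1 : δ ≤ 1 / 8192) :
    (1 + δ ^ 2) ^ 2 * (1 + (23 / 10 * δ) ^ 2) ≤ (1 + δ / 100) ^ 2 := by
  have hd2 : δ ^ 2 ≤ δ / 8192 := by nlinarith
  have hd20 : 0 ≤ δ ^ 2 := by positivity
  set t := δ ^ 2 with ht
  have ht1 : t ≤ 1 / 8192 := by linarith
  have e1 : (1 + t) ^ 2 ≤ 1 + 3 * t := by nlinarith
  have e2 : 1 + (23 / 10 * δ) ^ 2 ≤ 1 + 6 * t := by rw [ht]; nlinarith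
  calc (1 + t) ^ 2 * (1 + (23 / 10 * δ) ^ 2)
      ≤ (1 + 3 * t) * (1 + 6 * t) := mul_le_mul e1 e2 (by positivity) (by positivity)
    _ ≤ 1 + 10 * t := by nlinarith
    _ ≤ 1 + δ / 50 := by linarith
    _ ≤ (1 + δ / 100) ^ 2 := by linarith [sq_nonneg (δ / 100)]

private theorem A5b_c3 {δ : ℝ} (h0 : 0 ≤ δ) (h1 : δ ≤ 1 / 8192) :
    ((1 + δ) ^ 2 * (1 + δ ^ 2 + 3 * δ ^ 2)) ^ 2 ≤ (1 + 9 / 2 * δ) * (1 - δ ^ 4) := by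
  have hd2 : δ ^ 2 ≤ δ / 8192 := by nlinarith
  have hd4 : δ ^ 4 ≤ δ / 8192 := by
    calc δ ^ 4 = δ ^ 2 * (δ * δ) := by ring
      _ ≤ δ ^ 2 * (1 * 1) := by gcongr <;> linarith
      _ ≤ δ / 8192 := by linarith
  have e1 : (1 + δ) ^ 2 * (1 + δ ^ 2 + 3 * δ ^ 2) ≤ 1 + 21 / 10 * δ := by
    have e2 : (1 + δ) ^ 2 ≤ 1 + 201 / 100 * δ := by linarith
    have e3 : 1 + δ ^ 2 + 3 * δ ^ 2 ≤ 1 + 4 * (δ / 8192) := by linarith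
    calc (1 + δ) ^ 2 * (1 + δ ^ 2 + 3 * δ ^ 2)
        ≤ (1 + 201 / 100 * δ) * (1 + 4 * (δ / 8192)) :=
          mul_le_mul e2 e3 (by positivity) (by positivity)
      _ ≤ 1 + 21 / 10 * δ := by linarith
  have e4 : 1 - δ / 8192 ≤ 1 - δ ^ 4 := by linarith
  calc ((1 + δ) ^ 2 * (1 + δ ^ 2 + 3 * δ ^ 2)) ^ 2 ≤ (1 + 21 / 10 * δ) ^ 2 :=
        pow_le_pow_left₀ (by positivity) e1 2
    _ ≤ (1 + 9 / 2 * δ) * (1 - δ / 8192) := by linarith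
    _ ≤ (1 + 9 / 2 * δ) * (1 - δ ^ 4) := mul_le_mul_of_nonneg_left e4 (by positivity)

private theorem A5b_c4 {δ : ℝ} (h0 : 0 ≤ δ) (h1 : δ ≤ 1 / 8192) :
    (1 + δ / 100) * (1 + δ + 3 * δ) ^ 2 - 1 ≤ 3 * (11 / 4 * δ) := by
  have hd2 : δ ^ 2 ≤ δ / 8192 := by nlinarith
  have e1 : (1 + δ + 3 * δ) ^ 2 ≤ 1 + 81 / 10 * δ := by linarith
  calc (1 + δ / 100) * (1 + δ + 3 * δ) ^ 2 - 1 ≤ (1 + δ / 100) * (1 + 81 / 10 * δ) - 1 := by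
        gcongr
    _ ≤ 3 * (11 / 4 * δ) := by linarith

/-- tail step: for `δ ≤ 2^-13`: `8 δ²`. (use `y = 4.5 δ`, `x' = 2.3 δ`, `u = 1 + δ/100`,
`z = 4.5 δ`, `x1 = 2.3 δ`, `B' = 2.75 δ` or similar; all inequalities are polynomial in `δ`.) -/
theorem bulk_tail {pf qf : ℕ → ℝ → ℝ} (s : BulkSys pf qf) {L : ℕ} (hL : Even L) (hL4 : 4 ≤ L)
    {β δ : ℝ} (hβ : 0 < β) (hδ0 : 0 ≤ δ) (hδ : δ ≤ 1 / 2 ^ 13) (h : BState s L β δ δ δ) :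
    BState s (2 * L) (2 * β) (8 * δ ^ 2) (8 * δ ^ 2) (8 * δ ^ 2) ∧
    s.S L (4 * β) ≤ 3 * δ ∧ s.R L (4 * β) ≤ 3 * δ := by
  obtain ⟨hA, hB, hS, hR⟩ := h
  have hδ' : δ ≤ 1 / 8192 := by norm_num at hδ ⊢; exact hδ
  have g3 := A5b_g3 hδ0 hδ'
  have c1 := A5b_c1 hδ0 hδ'
  have c2 := A5b_c2 hδ0 hδ'
  have c3 := A5b_c3 hδ0 hδ'
  have c4 := A5b_c4 hδ0 hδ'
  have hd20 : 0 ≤ δ ^ 2 := by positivity
  have hn := bulk_next s hL hL4 hβ hA hB hS hR (y := 9 / 2 * δ) (x' := 23 / 10 * δ)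
    (u := 1 + δ / 100) (z := 9 / 2 * δ) (x1 := 23 / 10 * δ) (B' := 11 / 4 * δ)
    (by linarith) g3 c1 (by linarith) (by linarith) c2 (by linarith) (by linarith) c3 c1
    (by linarith) c4
  have hs := bulk_step s hL hL4 hβ hA hB hS hR (y := 9 / 2 * δ) (x' := 23 / 10 * δ)
    (u := 1 + δ / 100) (z := 9 / 2 * δ) (x1 := 23 / 10 * δ)
    (by linarith) g3 c1 (by linarith) (by linarith) c2 (by linarith) (by linarith) c3 c1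
    (by linarith)
  obtain ⟨n1, n2, n3, n4⟩ := hn
  obtain ⟨_, _, s3, s4⟩ := hs
  have f1 : (23 / 10 * δ) ^ 2 ≤ 8 * δ ^ 2 := by
    have : (23 / 10 * δ) ^ 2 = 529 / 100 * δ ^ 2 := by ring
    linarith
  have f2 : (11 / 4 * δ) ^ 2 ≤ 8 * δ ^ 2 := by
    have : (11 / 4 * δ) ^ 2 = 121 / 16 * δ ^ 2 := by ring
    linarith
  exact ⟨⟨n1.trans f1, n2.trans f2, n3.trans f1, n4.trans f1⟩, by linarith, by linarith⟩

/-- the tail sequence `δ_j = 2^(-(13·2^j) - 3)` at scale `k = 5 + j`. -/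
noncomputable def dl (j : ℕ) : ℝ := (1 / 2) ^ (13 * 2 ^ j + 3)

theorem dl_pos (j : ℕ) : 0 < dl j := by unfold dl; positivity

theorem dl_le (j : ℕ) : dl j ≤ 1 / 2 ^ 13 := by
  unfold dl
  have h : 13 ≤ 13 * 2 ^ j + 3 := by
    have : 1 ≤ 2 ^ j := Nat.one_le_two_pow
    omega
  calc (1 / 2 : ℝ) ^ (13 * 2 ^ j + 3) ≤ (1 / 2) ^ 13 :=
        pow_le_pow_of_le_one (by norm_num) (by norm_num) h
    _ = 1 / 2 ^ 13 := by norm_num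

theorem dl_succ (j : ℕ) : dl (j + 1) = 8 * dl j ^ 2 := by
  unfold dl
  rw [← pow_mul]
  have h : (13 * 2 ^ j + 3) * 2 = (13 * 2 ^ (j + 1) + 3) + 3 := by ring
  rw [h, pow_add (1 / 2 : ℝ) (13 * 2 ^ (j + 1) + 3) 3]
  ring

theorem bulk_tail_aux {pf qf : ℕ → ℝ → ℝ} (s : BulkSys pf qf)
    (h0 : BState s 52 10 (27 / 500) (41 / 400) (9 / 100)) (j : ℕ) :
    BState s (1664 * 2 ^ j) (320 * 2 ^ j) (dl j) (dl j) (dl j) := by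
  induction j with
  | zero =>
    obtain ⟨_, _, _, _, h5, _⟩ := bulk_table s h0
    obtain ⟨a1, a2, a3, a4⟩ := h5
    have hd : dl 0 = 1 / 65536 := by unfold dl; norm_num
    rw [hd, pow_zero, pow_zero, mul_one, mul_one]
    refine ⟨a1.trans (by norm_num), a2.trans (by norm_num), a3.trans (by norm_num),
      a4.trans (by norm_num)⟩
  | succ j ih =>
    have hev : Even (1664 * 2 ^ j) := ⟨832 * 2 ^ j, by ring⟩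
    have h4 : 4 ≤ 1664 * 2 ^ j := by
      have : 1 ≤ 2 ^ j := Nat.one_le_two_pow
      omega
    have h := (bulk_tail s hev h4 (β := 320 * 2 ^ j) (by positivity) (dl_pos j).le (dl_le j) ih).1
    rw [dl_succ]
    have e1 : 1664 * 2 ^ (j + 1) = 2 * (1664 * 2 ^ j) := by ring
    have e2 : (320 : ℝ) * 2 ^ (j + 1) = 2 * (320 * 2 ^ j) := by ring
    rw [e1, e2]
    exact h

theorem bulk_tail_all {pf qf : ℕ → ℝ → ℝ} (s : BulkSys pf qf)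
    (h0 : BState s 52 10 (27 / 500) (41 / 400) (9 / 100)) (j : ℕ) :
    BState s (1664 * 2 ^ j) (320 * 2 ^ j) (dl j) (dl j) (dl j) ∧
    s.S (1664 * 2 ^ j) (4 * (320 * 2 ^ j)) ≤ 3 * dl j ∧
    s.R (1664 * 2 ^ j) (4 * (320 * 2 ^ j)) ≤ 3 * dl j := by
  have ih := bulk_tail_aux s h0 j
  have hev : Even (1664 * 2 ^ j) := ⟨832 * 2 ^ j, by ring⟩
  have h4 : 4 ≤ 1664 * 2 ^ j := by
    have : 1 ≤ 2 ^ j := Nat.one_le_two_pow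
    omega
  exact ⟨ih, (bulk_tail s hev h4 (β := 320 * 2 ^ j) (by positivity) (dl_pos j).le (dl_le j) ih).2⟩

end Crest.Agent.HG
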