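import Crest.Agent.HG_A4
import Crest.Agent.HG_A5b

/-!
HG task A6: final bulk estimate. For `104·2^(k-1) ≤ L ≤ 104·2^k` (k ≥ 1, `β_k = 10·2^k`):
`1 + t(L,β_k) ≤ (1 + S(L,β_k)) (1 + t(104·2^k, β_k))` (`t_interp`),
`S(L,β_k) ≤ S(52·2^k, β_k)` (`SpW.S_anti`) `≤ S(52·2^(k-1), β_k)²` (`SpW.S_double`)
`= S(L_{k-1}, 2β_{k-1})² ≤ σ_{k-1}²`, and `t(104·2^k,β_k) ≤ A_k + 3B_k`.
Values of the right side: k=1: .31, k=2: .18, k=3: .049, k=4: .0032, k=5: 2e-5, k=5+j: ≤ 6 dl j.
Required: rate1 `4/105 log(80/79) ≤ .00048` (L ≥ 60): `t < exp(-10·2^k·.00048)`;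
rate2 `log 20/784 ≤ .003822` for `L ≥ 2304` (then k ≥ 5): `t < exp(-10·2^k·.003822)`.
-/

set_option autoImplicit false

namespace Crest.Agent.HG

private lemma fin_core {pf qf : ℕ → ℝ → ℝ} (s : BulkSys pf qf) {L0 L : ℕ} {β A B σ : ℝ}
    (hβ : 0 < β) (hL0 : Even L0) (hL04 : 4 ≤ L0) (hL : Even L) (h1 : L0 ≤ L) (h2 : L ≤ 2 * L0)
    (hA : s.a (2 * L0) β ≤ A) (hB : s.b (2 * L0) β ≤ B) (hS : s.S L0 β ≤ σ) :
    1 + s.t L β ≤ (1 + σ) * (1 + A + 3 * B) := by
  have hL4 : 4 ≤ L := le_trans hL04 h1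
  have hE : Even (2 * L0) := even_two_mul _
  have ha := (s.ha (2 * L0) hE (by omega)).nonneg β
  have hb := (s.hb (2 * L0) hE (by omega)).nonneg β
  have hi := t_interp s hL hL4 hE h2 hβ
  have hSa : s.S L β ≤ s.S L0 β := (s.hS β hβ).S_anti hL0 hL04 hL h1
  have hS0 : 0 ≤ s.S L β := (s.hS β hβ).S_nonneg hL hL4
  have ht : s.t (2 * L0) β ≤ A + 3 * B := by
    unfold BulkSys.t
    linarith
  have ht0 : 0 ≤ s.t (2 * L0) β := by
    unfold BulkSys.t
    linarith
  refine le_trans hi ?_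
  apply mul_le_mul
  · linarith
  · linarith
  · linarith
  · linarith

private lemma fin_S {pf qf : ℕ → ℝ → ℝ} (s : BulkSys pf qf) {L : ℕ} {β σ : ℝ}
    (hβ : 0 < β) (hL : Even L) (hL4 : 4 ≤ L) (hS : s.S L β ≤ σ) :
    s.S (2 * L) β ≤ σ ^ 2 := by
  have h1 : s.S (2 * L) β ≤ (s.S L β) ^ 2 := (s.hS β hβ).S_double hL hL4
  have h0 : 0 ≤ s.S L β := (s.hS β hβ).S_nonneg hL hL4
  exact le_trans h1 (pow_le_pow_left₀ h0 hS 2)

private lemma fdl_nonneg (j : ℕ) : 0 < dl j := by unfold dl; positivity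

private lemma fdl_le (j : ℕ) : dl j ≤ 1 / 8 := by
  unfold dl
  rw [pow_add]
  have : ((1 : ℝ) / 2) ^ (13 * 2 ^ j) ≤ 1 := pow_le_one₀ (by norm_num) (by norm_num)
  have h3 : ((1 : ℝ) / 2) ^ 3 = 1 / 8 := by norm_num
  rw [h3]
  linarith

private lemma fdl_succ (j : ℕ) : dl j ^ 2 = dl (j + 1) / 8 := by
  unfold dl
  rw [← pow_mul]
  have h : (13 * 2 ^ j + 3) * 2 = (13 * 2 ^ (j + 1) + 3) + 3 := by rw [pow_succ]; ring
  rw [h, pow_add]
  norm_num
  ring

private lemma tail_S {pf qf : ℕ → ℝ → ℝ} (s : BulkSys pf qf)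
    (h0 : BState s 52 10 (27 / 500) (41 / 400) (9 / 100)) (j : ℕ) :
    s.S (1664 * 2 ^ j) (320 * 2 ^ j) ≤ dl j / 8 := by
  rcases j with _ | j
  · have h := (bulk_table s h0).2.2.2.1
    have h1 : s.S 832 (2 * 160) ≤ 5813 / 10000000 := h.2.2.1
    have h2 := fin_S s (L := 832) (β := 2 * 160) (by norm_num) (by decide) (by norm_num) h1
    have h3 : dl 0 = 1 / 65536 := by unfold dl; norm_num
    rw [h3]
    have e1 : (1664 * 2 ^ 0 : ℕ) = 2 * 832 := by norm_num
    have e2 : ((320 : ℝ) * 2 ^ 0) = 2 * 160 := by norm_num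
    rw [e1, e2]
    refine le_trans h2 ?_
    norm_num
  · have h := (bulk_tail_all s h0 j).1
    have h1 : s.S (1664 * 2 ^ j) (2 * (320 * 2 ^ j)) ≤ dl j := h.2.2.1
    have hev : Even (1664 * 2 ^ j) := (by decide : Even 1664).mul_right _
    have hpos : 1 ≤ 2 ^ j := Nat.one_le_two_pow
    have h2 := fin_S s (L := 1664 * 2 ^ j) (β := 2 * (320 * 2 ^ j)) (by positivity) hev (by omega) h1
    rw [fdl_succ] at h2
    have e1 : (1664 * 2 ^ (j + 1) : ℕ) = 2 * (1664 * 2 ^ j) := by rw [pow_succ]; ring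
    have e2 : ((320 : ℝ) * 2 ^ (j + 1)) = 2 * (320 * 2 ^ j) := by rw [pow_succ]; ring
    rw [e1, e2]
    exact h2

/-- tail part for both rates: any rate `r ≤ 3/784` -/
private lemma tail_final {pf qf : ℕ → ℝ → ℝ} (s : BulkSys pf qf)
    (h0 : BState s 52 10 (27 / 500) (41 / 400) (9 / 100)) (L : ℕ) (hL : Even L) (hL2 : 1664 ≤ L)
    (r : ℝ) (hr : r ≤ 3 / 784) :
    ∃ β : ℝ, 0 < β ∧ s.t L β < Real.exp (-(β * r)) := by
  set j := Nat.log 2 (L / 1664) with hj
  have hdiv : L / 1664 ≠ 0 := by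
    have : 1 ≤ L / 1664 := (Nat.le_div_iff_mul_le (by norm_num)).2 (by omega)
    omega
  have hlo : 2 ^ j ≤ L / 1664 := Nat.pow_log_le_self 2 hdiv
  have hhi : L / 1664 < 2 ^ (j + 1) := Nat.lt_pow_succ_log_self (by norm_num) _
  have h1 : 1664 * 2 ^ j ≤ L := by
    have := (Nat.le_div_iff_mul_le (by norm_num : 0 < 1664)).1 hlo
    omega
  have h2 : L ≤ 2 * (1664 * 2 ^ j) := by
    have := (Nat.div_lt_iff_lt_mul (by norm_num : 0 < 1664)).1 hhi
    rw [pow_succ] at this
    omega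
  have hev : Even (1664 * 2 ^ j) := (by decide : Even 1664).mul_right _
  have hpos : 1 ≤ 2 ^ j := Nat.one_le_two_pow
  have hst := (bulk_tail_all s h0 j).1
  have hβ : (0 : ℝ) < 320 * 2 ^ j := by positivity
  have hc := fin_core s hβ hev (by omega) hL h1 h2 hst.1 hst.2.1 (tail_S s h0 j)
  refine ⟨320 * 2 ^ j, hβ, ?_⟩
  have hd0 := fdl_nonneg j
  have hd1 := fdl_le j
  have ht : s.t L (320 * 2 ^ j) ≤ 6 * dl j := by nlinarith
  have hlt : 6 * dl j < ((1 : ℝ) / 2) ^ (13 * 2 ^ j) := by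
    unfold dl
    rw [pow_add]
    have h3 : ((1 : ℝ) / 2) ^ 3 = 1 / 8 := by norm_num
    rw [h3]
    have : (0 : ℝ) < (1 / 2) ^ (13 * 2 ^ j) := by positivity
    linarith
  have hle : ((1 : ℝ) / 2) ^ (13 * 2 ^ j) ≤ ((1 : ℝ) / 2) ^ (2 * 2 ^ j) :=
    pow_le_pow_of_le_one (by norm_num) (by norm_num) (by omega)
  have hexp : ((1 : ℝ) / 2) ^ (2 * 2 ^ j) ≤ Real.exp (-(320 * 2 ^ j * r)) := by
    have hlog : ((1 : ℝ) / 2) ^ (2 * 2 ^ j) = Real.exp (-(2 * 2 ^ j * Real.log 2)) := by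
      have h4 : ((1 : ℝ) / 2) = Real.exp (-Real.log 2) := by
        rw [Real.exp_neg, Real.exp_log (by norm_num)]
        norm_num
      rw [h4, ← Real.exp_nat_mul]
      congr 1
      push_cast
      ring
    rw [hlog]
    apply Real.exp_le_exp.2
    have h5 := Real.log_two_gt_d9
    have h6 : (0 : ℝ) < 2 ^ j := by positivity
    have h7 : 320 * (2 : ℝ) ^ j * r ≤ 2 * 2 ^ j * Real.log 2 := by
      have h8 : 320 * r ≤ 2 * Real.log 2 := by
        have : 320 * r ≤ 320 * (3 / 784) := by linarith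
        have h9 : (320 : ℝ) * (3 / 784) ≤ 2 * 0.6931471803 := by norm_num
        linarith
      nlinarith
    linarith
  linarith

private lemma rate1_le : 4 / 105 * Real.log (80 / 79) ≤ 4 / 8295 := by
  have h : Real.log (80 / 79) ≤ 80 / 79 - 1 := Real.log_le_sub_one_of_pos (by norm_num)
  linarith

private lemma small_final {t β c : ℝ} (hβ : 0 < β) (ht : t ≤ c) (hc : c < 1 - β * (4 / 8295)) :
    t < Real.exp (-(β * (4 / 105 * Real.log (80 / 79)))) := by
  have h1 := Real.add_one_le_exp (-(β * (4 / 105 * Real.log (80 / 79))))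
  have h2 := mul_le_mul_of_nonneg_left rate1_le hβ.le
  linarith

theorem bulk_final1 {pf qf : ℕ → ℝ → ℝ} (s : BulkSys pf qf)
    (h0 : BState s 52 10 (27 / 500) (41 / 400) (9 / 100))
    (h60 : ∀ L, Even L → 60 ≤ L → L ≤ 104 → s.t L 10 ≤ 1 / 2) (L : ℕ) (hL : Even L) (hL60 : 60 ≤ L) :
    ∃ β : ℝ, 0 < β ∧ s.t L β < Real.exp (-(β * (4 / 105 * Real.log (80 / 79)))) := by
  obtain ⟨b1, b2, b3, b4, -⟩ := bulk_table s h0
  by_cases c0 : L ≤ 104
  · exact ⟨10, by norm_num, small_final (by norm_num) (h60 L hL hL60 c0) (by norm_num)⟩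
  by_cases c1 : L ≤ 208
  · have hS := fin_S s (L := 52) (β := 2 * 10) (by norm_num) (by decide) (by norm_num) h0.2.2.1
    have hc := fin_core s (L0 := 2 * 52) (β := 2 * 10) (by norm_num) (by decide) (by norm_num) hL
      (by omega) (by omega)
      (A := 88 / 3125) (B := 8899 / 100000) (by
        have := b1.1
        norm_num at this ⊢
        exact this) (by
        have := b1.2.1
        norm_num at this ⊢
        exact this) hS
    refine ⟨2 * 10, by norm_num, small_final (by norm_num) (c := 1 / 2) ?_ (by norm_num)⟩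
    norm_num at hc ⊢
    linarith
  by_cases c2 : L ≤ 416
  · have hS := fin_S s (L := 104) (β := 2 * 20) (by norm_num) (by decide) (by norm_num) b1.2.2.1
    have hc := fin_core s (L0 := 2 * 104) (β := 2 * 20) (by norm_num) (by decide) (by norm_num) hL
      (by omega) (by omega)
      (A := 1679 / 200000) (B := 1071 / 20000) (by
        have := b2.1
        norm_num at this ⊢
        exact this) (by
        have := b2.2.1
        norm_num at this ⊢
        exact this) hS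
    refine ⟨2 * 20, by norm_num, small_final (by norm_num) (c := 1 / 2) ?_ (by norm_num)⟩
    norm_num at hc ⊢
    linarith
  by_cases c3 : L ≤ 832
  · have hS := fin_S s (L := 208) (β := 2 * 40) (by norm_num) (by decide) (by norm_num) b2.2.2.1
    have hc := fin_core s (L0 := 2 * 208) (β := 2 * 40) (by norm_num) (by decide) (by norm_num) hL
      (by omega) (by omega)
      (A := 1949 / 2500000) (B := 1523 / 100000) (by
        have := b3.1
        norm_num at this ⊢
        exact this) (by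
        have := b3.2.1
        norm_num at this ⊢
        exact this) hS
    refine ⟨2 * 40, by norm_num, small_final (by norm_num) (c := 1 / 2) ?_ (by norm_num)⟩
    norm_num at hc ⊢
    linarith
  by_cases c4 : L ≤ 1664
  · have hS := fin_S s (L := 416) (β := 2 * 80) (by norm_num) (by decide) (by norm_num) b3.2.2.1
    have hc := fin_core s (L0 := 2 * 416) (β := 2 * 80) (by norm_num) (by decide) (by norm_num) hL
      (by omega) (by omega)
      (A := 2861 / 500000000) (B := 1009 / 1000000) (by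
        have := b4.1
        norm_num at this ⊢
        exact this) (by
        have := b4.2.1
        norm_num at this ⊢
        exact this) hS
    refine ⟨2 * 80, by norm_num, small_final (by norm_num) (c := 1 / 2) ?_ (by norm_num)⟩
    norm_num at hc ⊢
    linarith
  · refine tail_final s h0 L hL (by omega) _ (le_trans rate1_le (by norm_num))

theorem bulk_final2 {pf qf : ℕ → ℝ → ℝ} (s : BulkSys pf qf)
    (h0 : BState s 52 10 (27 / 500) (41 / 400) (9 / 100)) (L : ℕ) (hL : Even L)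
    (hL2 : 2304 ≤ L) :
    ∃ β : ℝ, 0 < β ∧ s.t L β < Real.exp (-(β * (Real.log 20 / 784))) := by
  refine tail_final s h0 L hL (by omega) _ ?_
  have h20 : Real.log 20 ≤ 3 := by
    rw [Real.log_le_iff_le_exp (by norm_num)]
    have h1 : Real.exp 3 = Real.exp 1 ^ 3 := by rw [← Real.exp_nat_mul]; norm_num
    rw [h1]
    have h2 := Real.exp_one_gt_d9
    have h3 : (2.7182818283 : ℝ) ^ 3 ≤ Real.exp 1 ^ 3 := pow_le_pow_left₀ (by norm_num) h2.le 3
    refine le_trans ?_ h3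
    norm_num
  linarith

end Crest.Agent.HG
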