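import Crest.Agent.HG_A1
import Crest.Agent.HG_A2

/-!
HG task A7: one step of the boundary iteration (open chain `n → n+M`, `β → 2β`).

PROOF. Write `N = n+M`, `D = E_N - E_n - E(M)` (`E_n = En n`, `E(M)` ring). All excesses ≥ 0;
`uz ≥ 0`, `qf ≥ 0` from the space representation.
 * `u0(N,β) := (U+UZ)(N,β)/2 = e^{-βE_N}(1+c(N,β))`. By `SpW.u_add`, `SpW.lam_le`:
   `u0(N,β) ≤ (U_n lam^M + UZ_n lamZ^M)/2 ≤ (U_n P(M)+UZ_n Q(M))/2 =
   e^{-β(E_n+E(M))} ((1+c)(1+a+b)+2bd) ≤ e^{-β(E_n+E(M))} G`, `G=(1+C)(1+A+B)+2B(q-C)`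
   (`c ≤ C`, `c+d ≤ q`, `1+A-B ≥ 0`).
 * at `2β`: `U_N = lam^(N-2)(w+η_N) ≥ lam^(N-2) w ≥ lam^M U_n/(1+h)`,
   `lam^M = P(M)/(1+S(M)) ≥ P(M)/(1+σ)`; same for Z; so
   `u0(N,2β) ≥ e^{-2β(E_n+E(M))} ((1+c)(1+a+b)+2bd)/((1+σ)(1+h)) ≥ e^{-2β(E_n+E(M))}/((1+σ)(1+h))`.
 * `PS.cross` with `ρ = G²(1+σ)(1+h) ≤ 1+y` and `crossing`: `c(N,β) ≤ x`, so `c(N,2β) ≤ x²`.
 * `e^{2βD} ≤ (1+σ)(1+h)(1+c(N,2β)) ≤ v²`. Hence `1+c+d (N,β) = U_N e^{βE_N} ≤
   U_n P(M) e^{βE_N} ≤ (1+q)(1+A+3B) v ≤ 1+T`, and `(c+d)(N,2β) ≤ T²` (`PS.two` for `c+d`).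
 * at `4β`: with `S=S(M,4β)`, `η_n := eta n / w`:
   `U_n(4β) lam^M = U_n P(M)/(1+S)`, `U_N(4β) ≥ e^{-4βE_N}`, so
   `(w+eta_n)/(w+eta_N) = U_n lam^M/U_N ≤ e^{4βD}(1+q⁴)(1+A⁴+3B⁴)/(1+S) ≤ (1+κ)/(1+S)`;
   for Z: `UZ_N ≥ e^{-4βE_N}(1-d(N,4β)) ≥ e^{-4βE_N}(1-T⁴)`.
   `eta_N ≤ S eta_n` (`SpW.eta_add`). So `w+eta_n ≤ (1+κ)/(1+S) (w + S eta_n)`, i.e.
   `eta_n (1 - κS) ≤ w (κ - S)`  [since `1+S-(1+κ)S = 1-κS`]. As `0 ≤ S ≤ σ4` and the condition
   `κ - S ≤ hb (1-κS)` is affine in `S` and true at both ends `0`, `σ4`: `eta_n ≤ hb w` and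
   `eta_N ≤ σ4 hb w`. `w(4β) > 0`: otherwise `eta_n = 0` and `U_n(4β) = 0`, impossible.
-/

set_option autoImplicit false

namespace Crest.Agent.HG

/-- state of the boundary iteration -/
def BdState {pf qf : ℕ → ℝ → ℝ} (s : BdSys pf qf) (n : ℕ) (β C q h : ℝ) : Prop :=
  s.c n β ≤ C ∧ s.c n β + s.d n β ≤ q ∧ 0 < s.w (2 * β) ∧ 0 < s.wZ (2 * β) ∧
  s.eta n (2 * β) ≤ h * s.w (2 * β) ∧ s.etaZ n (2 * β) ≤ h * s.wZ (2 * β)

section
variable {p u : ℕ → ℝ} {lam w : ℝ}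

/-- lower bound for `u (n+M)` -/
private theorem A7_low (h : SpW p u lam w) (hlam : 0 < lam) {n M : ℕ} (hn : Even n) (hn4 : 4 ≤ n)
    (hM : Even M) (hM4 : 4 ≤ M) {σ hh : ℝ} (hw : 0 < w)
    (hS : p M / lam ^ M - 1 ≤ σ) (heta : u n / lam ^ (n - 2) - w ≤ hh * w) :
    u n * p M ≤ ((1 + σ) * (1 + hh)) * u (n + M) ∧ 0 ≤ hh ∧ 0 ≤ σ := by
  have e1 := h.S_nonneg hM hM4
  have e2 := h.eta_nonneg hn hn4
  have e3 := h.eta_nonneg (hn.add hM) (by omega : 4 ≤ n + M)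
  set S := p M / lam ^ M - 1 with hSdef
  set η := u n / lam ^ (n - 2) - w with hηdef
  set ηN := u (n + M) / lam ^ (n + M - 2) - w with hηNdef
  have hl1 : 0 < lam ^ M := pow_pos hlam _
  have hl2 : 0 < lam ^ (n - 2) := pow_pos hlam _
  have hl3 : lam ^ (n + M - 2) = lam ^ (n - 2) * lam ^ M := by
    rw [← pow_add]; congr 1; omega
  have hp : p M = lam ^ M * (1 + S) := by rw [hSdef]; field_simp; ring
  have hu : u n = lam ^ (n - 2) * (w + η) := by rw [hηdef]; field_simp; ring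
  have huN : u (n + M) = lam ^ (n - 2) * lam ^ M * (w + ηN) := by
    rw [hηNdef, hl3]; field_simp; ring
  have hh0 : 0 ≤ hh := by
    by_contra hcon
    push Not at hcon
    have : hh * w < 0 := mul_neg_of_neg_of_pos hcon hw
    linarith
  have hσ0 : 0 ≤ σ := le_trans e1 hS
  refine ⟨?_, hh0, hσ0⟩
  rw [hp, hu, huN]
  have k1 : (1 + S) * (w + η) ≤ ((1 + σ) * (1 + hh)) * (w + ηN) := by
    have a1 : w + η ≤ (1 + hh) * w := by linarith
    have a2 : (1 + S) * (w + η) ≤ (1 + σ) * ((1 + hh) * w) := by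
      apply mul_le_mul (by linarith) a1 (by linarith) (by linarith)
    have a3 : (1 + σ) * ((1 + hh) * w) ≤ (1 + σ) * (1 + hh) * (w + ηN) := by
      have : 0 ≤ (1 + σ) * (1 + hh) * ηN := by positivity
      nlinarith
    linarith
  have k2 : 0 < lam ^ (n - 2) * lam ^ M := by positivity
  calc lam ^ (n - 2) * (w + η) * (lam ^ M * (1 + S))
      = (lam ^ (n - 2) * lam ^ M) * ((1 + S) * (w + η)) := by ring
    _ ≤ (lam ^ (n - 2) * lam ^ M) * (((1 + σ) * (1 + hh)) * (w + ηN)) :=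
        mul_le_mul_of_nonneg_left k1 k2.le
    _ = _ := by ring

/-- upper bound `u (n+M) ≤ u n * p M` -/
private theorem A7_up (h : SpW p u lam w) (hlam : 0 < lam) {n M : ℕ} (hn : Even n) (hn4 : 4 ≤ n)
    (hM : Even M) (hM4 : 4 ≤ M) (hw : 0 ≤ w) : u (n + M) ≤ u n * p M ∧ 0 ≤ u n ∧ 0 < p M := by
  have e2 := h.eta_nonneg hn hn4
  have h1 := h.u_add hlam hn hn4 hM
  have h2 := h.lam_le hlam hM hM4
  have hl2 : 0 < lam ^ (n - 2) := pow_pos hlam _
  have hl1 : 0 < lam ^ M := pow_pos hlam _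
  have hu : 0 ≤ u n := by
    have : 0 ≤ u n / lam ^ (n - 2) := by linarith
    have h3 := mul_nonneg this hl2.le
    rwa [div_mul_cancel₀ _ hl2.ne'] at h3
  exact ⟨h1.trans (mul_le_mul_of_nonneg_left h2 hu), hu, lt_of_lt_of_le hl1 h2⟩

/-- the final estimate for `eta` -/
private theorem A7_eta (h : SpW p u lam w) (hlam : 0 < lam) {n M : ℕ} (hn : Even n) (hn4 : 4 ≤ n)
    (hM : Even M) (hM4 : 4 ≤ M) {σ4 κ hb : ℝ} (hw : 0 ≤ w)
    (hS : p M / lam ^ M - 1 ≤ σ4) (hun : 0 < u n) (hk0 : 0 ≤ 1 + κ)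
    (hk : u n * p M ≤ (1 + κ) * u (n + M)) (hκσ : κ * σ4 < 1) (hb1 : κ ≤ hb)
    (hb2 : κ - σ4 ≤ hb * (1 - κ * σ4)) :
    0 < w ∧ u (n + M) / lam ^ (n + M - 2) - w ≤ σ4 * hb * w := by
  have e1 := h.S_nonneg hM hM4
  have e2 := h.eta_nonneg hn hn4
  have e3 := h.eta_add hn hn4 hM hM4
  set S := p M / lam ^ M - 1 with hSdef
  set η := u n / lam ^ (n - 2) - w with hηdef
  set ηN := u (n + M) / lam ^ (n + M - 2) - w with hηNdef
  have hl1 : 0 < lam ^ M := pow_pos hlam _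
  have hl2 : 0 < lam ^ (n - 2) := pow_pos hlam _
  have hl3 : lam ^ (n + M - 2) = lam ^ (n - 2) * lam ^ M := by
    rw [← pow_add]; congr 1; omega
  have hp : p M = lam ^ M * (1 + S) := by rw [hSdef]; field_simp; ring
  have hu : u n = lam ^ (n - 2) * (w + η) := by rw [hηdef]; field_simp; ring
  have huN : u (n + M) = lam ^ (n - 2) * lam ^ M * (w + ηN) := by
    rw [hηNdef, hl3]; field_simp; ring
  have k2 : 0 < lam ^ (n - 2) * lam ^ M := by positivity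
  have k1 : (1 + S) * (w + η) ≤ (1 + κ) * (w + ηN) := by
    rw [hp, hu, huN] at hk
    have : (lam ^ (n - 2) * lam ^ M) * ((1 + S) * (w + η)) ≤
        (lam ^ (n - 2) * lam ^ M) * ((1 + κ) * (w + ηN)) := by
      calc (lam ^ (n - 2) * lam ^ M) * ((1 + S) * (w + η))
          = lam ^ (n - 2) * (w + η) * (lam ^ M * (1 + S)) := by ring
        _ ≤ _ := hk
        _ = _ := by ring
    exact le_of_mul_le_mul_left this k2
  have k3 : (1 + κ) * (w + ηN) ≤ (1 + κ) * (w + S * η) :=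
    mul_le_mul_of_nonneg_left (by linarith) hk0
  have k4 : η * (1 - κ * S) ≤ w * (κ - S) := by nlinarith
  have k5 : 0 < 1 - κ * S := by
    rcases le_or_gt 0 κ with hκ | hκ
    · have : κ * S ≤ κ * σ4 := mul_le_mul_of_nonneg_left hS hκ
      linarith
    · have : κ * S ≤ 0 := mul_nonpos_of_nonpos_of_nonneg hκ.le e1
      linarith
  have k6 : κ - S ≤ hb * (1 - κ * S) := by
    rcases eq_or_lt_of_le (e1.trans hS) with h0 | h0
    · have : S = 0 := le_antisymm (by rw [h0]; exact hS) e1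
      rw [this]; linarith
    · -- affine interpolation: S = θ σ4
      have i1 : 0 ≤ (σ4 - S) * (hb - κ) := mul_nonneg (by linarith) (by linarith)
      have i2 : 0 ≤ S * (hb * (1 - κ * σ4) - (κ - σ4)) := mul_nonneg e1 (by linarith)
      have i3 : 0 ≤ σ4 * (hb * (1 - κ * S) - (κ - S)) := by
        have : σ4 * (hb * (1 - κ * S) - (κ - S)) =
          (σ4 - S) * (hb - κ) + S * (hb * (1 - κ * σ4) - (κ - σ4)) := by ring
        rw [this]; linarith
      have i4 : 0 ≤ hb * (1 - κ * S) - (κ - S) := by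
        by_contra hcon
        push Not at hcon
        have := mul_neg_of_pos_of_neg h0 hcon
        linarith
      linarith
  have k7 : η ≤ hb * w := by
    have : η * (1 - κ * S) ≤ (hb * w) * (1 - κ * S) := by
      have := mul_le_mul_of_nonneg_left k6 hw
      nlinarith
    exact le_of_mul_le_mul_right this k5
  have k8 : 0 < w := by
    rcases eq_or_lt_of_le hw with h0 | h0
    · exfalso
      rw [← h0] at k7 hu
      have : η = 0 := le_antisymm (by simpa using k7) e2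
      rw [this] at hu
      simp at hu
      linarith
    · exact h0
  refine ⟨k8, ?_⟩
  have k9 : 0 ≤ hb * w := e2.trans k7
  calc ηN ≤ S * η := e3
    _ ≤ S * (hb * w) := mul_le_mul_of_nonneg_left k7 e1
    _ ≤ σ4 * (hb * w) := mul_le_mul_of_nonneg_right hS k9
    _ = _ := by ring

end

set_option maxHeartbeats 1000000 in
theorem bd_step {pf qf : ℕ → ℝ → ℝ} (s : BdSys pf qf) {n M : ℕ} (hn : Even n) (hn4 : 4 ≤ n)
    (hM : Even M) (hM4 : 4 ≤ M) {β C q h A B σ σ4 y x v T κ hb : ℝ} (hβ : 0 < β)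
    (hst : BdState s n β C q h) (hA : s.a M β ≤ A) (hB : s.b M β ≤ B)
    (hS : s.S M (2 * β) ≤ σ) (hR : s.R M (2 * β) ≤ σ)
    (hS4 : s.S M (4 * β) ≤ σ4) (hR4 : s.R M (4 * β) ≤ σ4) (hB1 : B ≤ 1)
    (hy1 : y < 1)
    (hy : ((1 + C) * (1 + A + B) + 2 * B * (q - C)) ^ 2 * ((1 + σ) * (1 + h)) ≤ 1 + y)
    (hx : y * x ^ 2 - 2 * x + y ≤ 0) (hx1 : x ≤ 1) (hv0 : 0 ≤ v)
    (hv : (1 + σ) * (1 + h) * (1 + x ^ 2) ≤ v ^ 2) (hT : v * ((1 + q) * (1 + A + 3 * B)) ≤ 1 + T)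
    (hT1 : T < 1) (hκ : v ^ 4 * ((1 + q ^ 4) * (1 + A ^ 4 + 3 * B ^ 4)) ≤ (1 + κ) * (1 - T ^ 4))
    (hκσ : κ * σ4 < 1) (hb1 : κ ≤ hb) (hb2 : κ - σ4 ≤ hb * (1 - κ * σ4)) :
    BdState s (n + M) (2 * β) (x ^ 2) (T ^ 2) (σ4 * hb) := by
  obtain ⟨hc1, hcd1, hw2, hwZ2, he2, heZ2⟩ := hst
  have h2β : 0 < 2 * β := by linarith
  have h4β : 0 < 4 * β := by linarith
  have hN : Even (n + M) := hn.add hM
  have hN4 : 4 ≤ n + M := by omega
  -- nonnegativity
  have a0 : ∀ β', 0 ≤ s.a M β' := fun β' => (s.ha M hM hM4).nonneg β'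
  have b0 : ∀ β', 0 ≤ s.b M β' := fun β' => (s.hb M hM hM4).nonneg β'
  have c0 : ∀ β', 0 ≤ s.c n β' := fun β' => (s.hc n hn hn4).nonneg β'
  have d0 : ∀ β', 0 ≤ s.d n β' := fun β' => (s.hd n hn hn4).nonneg β'
  have cN0 : ∀ β', 0 ≤ s.c (n + M) β' := fun β' => (s.hc _ hN hN4).nonneg β'
  have dN0 : ∀ β', 0 ≤ s.d (n + M) β' := fun β' => (s.hd _ hN hN4).nonneg β'
  have hA0 : 0 ≤ A := (a0 β).trans hA
  have hB0 : 0 ≤ B := (b0 β).trans hB
  have hC0 : 0 ≤ C := (c0 β).trans hc1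
  have hq0 : 0 ≤ q := (add_nonneg (c0 β) (d0 β)).trans hcd1
  set En := s.En n with hEn
  set EN := s.En (n + M) with hEN
  set EM := s.E M with hEM
  -- step 1
  obtain ⟨up1, up2, up3⟩ := A7_up (s.hS β hβ) (s.hlam β hβ) hn hn4 hM hM4 (s.hw β hβ)
  obtain ⟨uq1, uq2, uq3⟩ := A7_up (s.hR β hβ) (s.hlamZ β hβ) hn hn4 hM hM4 (s.hwZ β hβ)
  obtain ⟨lo1, hh0, hσ0⟩ := A7_low (s.hS (2 * β) h2β) (s.hlam _ h2β) hn hn4 hM hM4 hw2 hS he2
  obtain ⟨lo2, _, _⟩ := A7_low (s.hR (2 * β) h2β) (s.hlamZ _ h2β) hn hn4 hM hM4 hwZ2 hR heZ2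
  set G := (1 + C) * (1 + A + B) + 2 * B * (q - C) with hG
  have hG1 : (1 + s.c n β) * (1 + s.a M β + s.b M β) + 2 * s.b M β * s.d n β ≤ G := by
    have g1 : (1 + s.c n β) * (1 + s.a M β + s.b M β) ≤ (1 + s.c n β) * (1 + A + B) :=
      mul_le_mul_of_nonneg_left (by linarith only [hA, hB]) (by linarith only [c0 β])
    have g2 : 2 * s.b M β * s.d n β ≤ 2 * B * (q - s.c n β) := by
      apply mul_le_mul (by linarith only [hB]) (by linarith only [hcd1]) (d0 β)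
        (by linarith only [hB0])
    have g3 : (1 + s.c n β) * (1 + A + B) + 2 * B * (q - s.c n β) ≤ G := by
      have k0 : 0 ≤ (C - s.c n β) * (1 + A - B) :=
        mul_nonneg (by linarith only [hc1]) (by linarith only [hA0, hB1])
      have k1 : G - ((1 + s.c n β) * (1 + A + B) + 2 * B * (q - s.c n β)) =
          (C - s.c n β) * (1 + A - B) := by rw [hG]; ring
      linarith only [k0, k1]
    linarith only [g1, g2, g3]
  -- exponential notations
  have hexp : ∀ t r : ℝ, Real.exp (-(t * r)) > 0 := fun t r => Real.exp_pos _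
  have hupper : Real.exp (-(β * EN)) * (1 + s.c (n + M) β) ≤ Real.exp (-(β * (En + EM))) * G := by
    have e1 := s.hU _ hN hN4 β
    have e2 := s.hUZ _ hN hN4 β
    have e3 := s.hU _ hn hn4 β
    have e4 := s.hUZ _ hn hn4 β
    have e5 := s.hP _ hM hM4 β
    have e6 := s.hQ _ hM hM4 β
    have hsplit : Real.exp (-(β * (En + EM))) = Real.exp (-(β * En)) * Real.exp (-(β * EM)) := by
      rw [← Real.exp_add]; congr 1; ring
    have e7 : Real.exp (-(β * EN)) * (1 + s.c (n + M) β) =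
        (s.uf (n + M) β + s.uz (n + M) β) / 2 := by
      rw [e1, e2]; ring
    have e8 : (s.uf n β * pf M β + s.uz n β * qf M β) / 2 =
        Real.exp (-(β * (En + EM))) *
          ((1 + s.c n β) * (1 + s.a M β + s.b M β) + 2 * s.b M β * s.d n β) := by
      rw [e3, e4, e5, e6, hsplit]; ring
    rw [e7]
    calc (s.uf (n + M) β + s.uz (n + M) β) / 2 ≤ (s.uf n β * pf M β + s.uz n β * qf M β) / 2 := by
          linarith only [up1, uq1]
      _ = _ := e8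
      _ ≤ _ := mul_le_mul_of_nonneg_left hG1 (Real.exp_pos _).le
  -- step 2 : lower bound at 2β
  have hlower : Real.exp (-(2 * β * (En + EM))) ≤
      ((1 + σ) * (1 + h)) * (Real.exp (-(2 * β * EN)) * (1 + s.c (n + M) (2 * β))) := by
    have e1 := s.hU _ hN hN4 (2 * β)
    have e2 := s.hUZ _ hN hN4 (2 * β)
    have e3 := s.hU _ hn hn4 (2 * β)
    have e4 := s.hUZ _ hn hn4 (2 * β)
    have e5 := s.hP _ hM hM4 (2 * β)
    have e6 := s.hQ _ hM hM4 (2 * β)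
    have hsplit : Real.exp (-(2 * β * (En + EM))) =
        Real.exp (-(2 * β * En)) * Real.exp (-(2 * β * EM)) := by
      rw [← Real.exp_add]; congr 1; ring
    have e7 : Real.exp (-(2 * β * EN)) * (1 + s.c (n + M) (2 * β)) =
        (s.uf (n + M) (2 * β) + s.uz (n + M) (2 * β)) / 2 := by
      rw [e1, e2]; ring
    have e8 : (s.uf n (2 * β) * pf M (2 * β) + s.uz n (2 * β) * qf M (2 * β)) / 2 =
        Real.exp (-(2 * β * (En + EM))) *
          ((1 + s.c n (2 * β)) * (1 + s.a M (2 * β) + s.b M (2 * β)) +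
            2 * s.b M (2 * β) * s.d n (2 * β)) := by
      rw [e3, e4, e5, e6, hsplit]; ring
    have e9 : 1 ≤ (1 + s.c n (2 * β)) * (1 + s.a M (2 * β) + s.b M (2 * β)) +
            2 * s.b M (2 * β) * s.d n (2 * β) := by
      have f1 := a0 (2 * β)
      have f2 := b0 (2 * β)
      have f3 := c0 (2 * β)
      have f4 := d0 (2 * β)
      have f5 : 0 ≤ s.c n (2 * β) * (1 + s.a M (2 * β) + s.b M (2 * β)) := by positivity
      have f6 : 0 ≤ 2 * s.b M (2 * β) * s.d n (2 * β) := by positivity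
      have f7 : (1 + s.c n (2 * β)) * (1 + s.a M (2 * β) + s.b M (2 * β)) =
        1 + s.a M (2 * β) + s.b M (2 * β) +
          s.c n (2 * β) * (1 + s.a M (2 * β) + s.b M (2 * β)) := by ring
      linarith only [f1, f2, f5, f6, f7]
    rw [e7]
    calc Real.exp (-(2 * β * (En + EM))) ≤ Real.exp (-(2 * β * (En + EM))) *
          ((1 + s.c n (2 * β)) * (1 + s.a M (2 * β) + s.b M (2 * β)) +
            2 * s.b M (2 * β) * s.d n (2 * β)) :=
          le_mul_of_one_le_right (Real.exp_pos _).le e9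
      _ = (s.uf n (2 * β) * pf M (2 * β) + s.uz n (2 * β) * qf M (2 * β)) / 2 := e8.symm
      _ ≤ _ := by linarith only [lo1, lo2]
  have hρ0 : 0 ≤ (1 + σ) * (1 + h) := by positivity
  -- step 3: crossing
  have hcross := (s.hc _ hN hN4).cross (E := EN) (β := β) (ρ := 1 + y) hβ (by
    have g1 : (Real.exp (-(β * EN)) * (1 + s.c (n + M) β)) ^ 2 ≤
        (Real.exp (-(β * (En + EM))) * G) ^ 2 := by
      apply pow_le_pow_left₀ _ hupper
      have := cN0 β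
      positivity
    have g2 : (Real.exp (-(β * (En + EM))) * G) ^ 2 = Real.exp (-(2 * β * (En + EM))) * G ^ 2 := by
      rw [mul_pow, ← Real.exp_nat_mul]; congr 2; push_cast; ring
    have g3 : Real.exp (-(2 * β * (En + EM))) * G ^ 2 ≤
        ((1 + σ) * (1 + h)) * (Real.exp (-(2 * β * EN)) * (1 + s.c (n + M) (2 * β))) * G ^ 2 :=
      mul_le_mul_of_nonneg_right hlower (sq_nonneg _)
    have g4 : ((1 + σ) * (1 + h)) * (Real.exp (-(2 * β * EN)) * (1 + s.c (n + M) (2 * β))) * G ^ 2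
        = (G ^ 2 * ((1 + σ) * (1 + h))) *
          (Real.exp (-(2 * β * EN)) * (1 + s.c (n + M) (2 * β))) := by ring
    have g5 : (G ^ 2 * ((1 + σ) * (1 + h))) *
          (Real.exp (-(2 * β * EN)) * (1 + s.c (n + M) (2 * β))) ≤
          (1 + y) * (Real.exp (-(2 * β * EN)) * (1 + s.c (n + M) (2 * β))) := by
      apply mul_le_mul_of_nonneg_right hy
      have := cN0 (2 * β)
      positivity
    calc _ ≤ _ := g1
      _ = _ := g2
      _ ≤ _ := g3
      _ = _ := g4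
      _ ≤ _ := g5)
  have hcN : s.c (n + M) β ≤ x :=
    crossing (cN0 β) (by linarith [hcross.1]) hy1 hcross.2 hx hx1
  have hx0 : 0 ≤ x := (cN0 β).trans hcN
  have hcN2 : s.c (n + M) (2 * β) ≤ x ^ 2 :=
    ((s.hc _ hN hN4).two β).trans (pow_le_pow_left₀ (cN0 β) hcN 2)
  -- step 4: energy difference
  set D := EN - En - EM with hD
  have hDv : Real.exp (β * D) ≤ v := by
    have g1 : Real.exp (2 * β * D) ≤ v ^ 2 := by
      have g2 : Real.exp (2 * β * D) = Real.exp (-(2 * β * (En + EM))) * Real.exp (2 * β * EN) := by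
        rw [← Real.exp_add]; congr 1; rw [hD]; ring
      have g3 : Real.exp (-(2 * β * EN)) * Real.exp (2 * β * EN) = 1 := by
        rw [← Real.exp_add]; simp
      rw [g2]
      calc Real.exp (-(2 * β * (En + EM))) * Real.exp (2 * β * EN) ≤
          ((1 + σ) * (1 + h)) * (Real.exp (-(2 * β * EN)) * (1 + s.c (n + M) (2 * β))) *
            Real.exp (2 * β * EN) := mul_le_mul_of_nonneg_right hlower (Real.exp_pos _).le
        _ = ((1 + σ) * (1 + h)) * (1 + s.c (n + M) (2 * β)) *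
            (Real.exp (-(2 * β * EN)) * Real.exp (2 * β * EN)) := by ring
        _ = ((1 + σ) * (1 + h)) * (1 + s.c (n + M) (2 * β)) := by rw [g3, mul_one]
        _ ≤ ((1 + σ) * (1 + h)) * (1 + x ^ 2) :=
            mul_le_mul_of_nonneg_left (by linarith) hρ0
        _ ≤ v ^ 2 := hv
    have g4 : Real.exp (2 * β * D) = Real.exp (β * D) ^ 2 := by
      rw [← Real.exp_nat_mul]; congr 1; push_cast; ring
    rw [g4] at g1
    exact (pow_le_pow_iff_left₀ (Real.exp_pos _).le hv0 (by norm_num)).1 g1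
  have hcdN : s.c (n + M) β + s.d (n + M) β ≤ T := by
    have e1 := s.hU _ hN hN4 β
    have e3 := s.hU _ hn hn4 β
    have e5 := s.hP _ hM hM4 β
    rw [e1, e3, e5] at up1
    have g1 : Real.exp (-(β * EN)) * Real.exp (β * EN) = 1 := by
      rw [← Real.exp_add]; simp
    have g2 : Real.exp (-(β * En)) * Real.exp (-(β * EM)) * Real.exp (β * EN) =
        Real.exp (β * D) := by
      rw [← Real.exp_add, ← Real.exp_add]; congr 1; rw [hD]; ring
    have g3 : 1 + s.c (n + M) β + s.d (n + M) β ≤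
        Real.exp (β * D) * ((1 + s.c n β + s.d n β) * (1 + s.a M β + 3 * s.b M β)) := by
      have := mul_le_mul_of_nonneg_right up1 (Real.exp_pos (β * EN)).le
      calc 1 + s.c (n + M) β + s.d (n + M) β
          = (1 + s.c (n + M) β + s.d (n + M) β) *
            (Real.exp (-(β * EN)) * Real.exp (β * EN)) := by rw [g1, mul_one]
        _ = Real.exp (-(β * EN)) * (1 + s.c (n + M) β + s.d (n + M) β) * Real.exp (β * EN) := by
            ring
        _ ≤ _ := this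
        _ = (Real.exp (-(β * En)) * Real.exp (-(β * EM)) * Real.exp (β * EN)) *
            ((1 + s.c n β + s.d n β) * (1 + s.a M β + 3 * s.b M β)) := by ring
        _ = _ := by rw [g2]
    have g4 : (1 + s.c n β + s.d n β) * (1 + s.a M β + 3 * s.b M β) ≤
        (1 + q) * (1 + A + 3 * B) := by
      apply mul_le_mul (by linarith) (by linarith) (by linarith [a0 β, b0 β]) (by linarith)
    have g5 : 0 ≤ (1 + s.c n β + s.d n β) * (1 + s.a M β + 3 * s.b M β) := by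
      have := a0 β
      have := b0 β
      have := c0 β
      have := d0 β
      positivity
    have g6 : Real.exp (β * D) * ((1 + s.c n β + s.d n β) * (1 + s.a M β + 3 * s.b M β)) ≤
        v * ((1 + q) * (1 + A + 3 * B)) := mul_le_mul hDv g4 g5 hv0
    linarith
  have hT0 : 0 ≤ T := (add_nonneg (cN0 β) (dN0 β)).trans hcdN
  have psN : PS (fun β => s.c (n + M) β + s.d (n + M) β) :=
    (s.hc _ hN hN4).add (s.hd _ hN hN4)
  have psn : PS (fun β => s.c n β + s.d n β) := (s.hc _ hn hn4).add (s.hd _ hn hn4)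
  have hcdN2 : s.c (n + M) (2 * β) + s.d (n + M) (2 * β) ≤ T ^ 2 :=
    (psN.two β).trans (pow_le_pow_left₀ (psN.nonneg β) hcdN 2)
  have two4 : ∀ {f : ℝ → ℝ} {K : ℝ}, PS f → f β ≤ K → f (4 * β) ≤ K ^ 4 := by
    intro f K hf hK
    have e1 : (4 : ℝ) * β = 2 * (2 * β) := by ring
    rw [e1]
    calc f (2 * (2 * β)) ≤ f (2 * β) ^ 2 := hf.two _
      _ ≤ (f β ^ 2) ^ 2 := pow_le_pow_left₀ (hf.nonneg _) (hf.two β) 2
      _ ≤ (K ^ 2) ^ 2 := pow_le_pow_left₀ (sq_nonneg _) (pow_le_pow_left₀ (hf.nonneg _) hK 2) 2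
      _ = K ^ 4 := by ring
  have hcdN4 : s.c (n + M) (4 * β) + s.d (n + M) (4 * β) ≤ T ^ 4 := two4 psN hcdN
  have hcdn4 : s.c n (4 * β) + s.d n (4 * β) ≤ q ^ 4 := two4 psn hcd1
  have ha4 : s.a M (4 * β) ≤ A ^ 4 := two4 (s.ha M hM hM4) hA
  have hb4 : s.b M (4 * β) ≤ B ^ 4 := two4 (s.hb M hM hM4) hB
  -- step 5
  have hT4 : 0 < 1 - T ^ 4 := by
    have : T ^ 4 < 1 := pow_lt_one₀ hT0 hT1 (by norm_num)
    linarith
  have hκ0 : 0 ≤ 1 + κ := by
    have g1 : 0 ≤ v ^ 4 * ((1 + q ^ 4) * (1 + A ^ 4 + 3 * B ^ 4)) := by positivity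
    have g2 : 0 ≤ (1 + κ) * (1 - T ^ 4) := g1.trans hκ
    by_contra hcon
    push Not at hcon
    have := mul_neg_of_neg_of_pos hcon hT4
    linarith
  have hexp4 : Real.exp (-(4 * β * En)) * Real.exp (-(4 * β * EM)) ≤
      v ^ 4 * Real.exp (-(4 * β * EN)) := by
    have g1 : Real.exp (-(4 * β * En)) * Real.exp (-(4 * β * EM)) =
        Real.exp (β * D) ^ 4 * Real.exp (-(4 * β * EN)) := by
      rw [← Real.exp_nat_mul, ← Real.exp_add, ← Real.exp_add]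
      congr 1; rw [hD]; push_cast; ring
    rw [g1]
    exact mul_le_mul_of_nonneg_right (pow_le_pow_left₀ (Real.exp_pos _).le hDv 4)
      (Real.exp_pos _).le
  have key : ∀ X Y Z : ℝ, X ≤ 1 + q ^ 4 → 0 ≤ Y → Y ≤ 1 + A ^ 4 + 3 * B ^ 4 → 1 - T ^ 4 ≤ Z →
      (Real.exp (-(4 * β * En)) * X) * (Real.exp (-(4 * β * EM)) * Y) ≤
        (1 + κ) * (Real.exp (-(4 * β * EN)) * Z) := by
    intro X Y Z hX hY0 hY hZ
    have g0 : 0 ≤ 1 + q ^ 4 := by positivity
    calc (Real.exp (-(4 * β * En)) * X) * (Real.exp (-(4 * β * EM)) * Y)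
        = (Real.exp (-(4 * β * En)) * Real.exp (-(4 * β * EM))) * (X * Y) := by ring
      _ ≤ (Real.exp (-(4 * β * En)) * Real.exp (-(4 * β * EM))) *
          ((1 + q ^ 4) * (1 + A ^ 4 + 3 * B ^ 4)) := by
          apply mul_le_mul_of_nonneg_left _ (by positivity)
          exact (mul_le_mul_of_nonneg_right hX hY0).trans (mul_le_mul_of_nonneg_left hY g0)
      _ ≤ (v ^ 4 * Real.exp (-(4 * β * EN))) * ((1 + q ^ 4) * (1 + A ^ 4 + 3 * B ^ 4)) :=
          mul_le_mul_of_nonneg_right hexp4 (by positivity)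
      _ = (v ^ 4 * ((1 + q ^ 4) * (1 + A ^ 4 + 3 * B ^ 4))) * Real.exp (-(4 * β * EN)) := by ring
      _ ≤ ((1 + κ) * (1 - T ^ 4)) * Real.exp (-(4 * β * EN)) :=
          mul_le_mul_of_nonneg_right hκ (Real.exp_pos _).le
      _ = (1 + κ) * (Real.exp (-(4 * β * EN)) * (1 - T ^ 4)) := by ring
      _ ≤ (1 + κ) * (Real.exp (-(4 * β * EN)) * Z) := by
          apply mul_le_mul_of_nonneg_left _ hκ0
          exact mul_le_mul_of_nonneg_left hZ (Real.exp_pos _).le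
  obtain ⟨uq1', uq2', uq3'⟩ :=
    A7_up (s.hR (4 * β) h4β) (s.hlamZ _ h4β) hn hn4 hM hM4 (s.hwZ _ h4β)
  have f1 := a0 (4 * β)
  have f2 := b0 (4 * β)
  have f3 := c0 (4 * β)
  have f4 := d0 (4 * β)
  have f5 := cN0 (4 * β)
  have f6 := dN0 (4 * β)
  have fin1 := A7_eta (σ4 := σ4) (κ := κ) (hb := hb) (s.hS (4 * β) h4β) (s.hlam _ h4β)
    hn hn4 hM hM4 (s.hw _ h4β) hS4
    (by
      rw [s.hU _ hn hn4]
      have : 0 < 1 + s.c n (4 * β) + s.d n (4 * β) := by linarith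
      positivity) hκ0
    (by
      rw [s.hU _ hn hn4, s.hU _ hN hN4, s.hP _ hM hM4]
      exact key _ _ _ (by linarith) (by linarith) (by linarith)
        (by have : 0 ≤ T ^ 4 := by positivity
            linarith)) hκσ hb1 hb2
  have hQpos : 0 ≤ 1 + s.a M (4 * β) - s.b M (4 * β) := by
    have g1 := s.hQ _ hM hM4 (4 * β)
    rw [g1] at uq3'
    exact (pos_of_mul_pos_right uq3' (Real.exp_pos _).le).le
  have hZlow : (1 + κ) * 0 ≤ 0 ∧ 1 - T ^ 4 ≤
      1 + s.c (n + M) (4 * β) - s.d (n + M) (4 * β) := ⟨by simp, by linarith⟩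
  have hUZn : 0 < s.uz n (4 * β) := by
    have g1 : 0 < s.uz (n + M) (4 * β) := by
      rw [s.hUZ _ hN hN4]
      have : 0 < 1 + s.c (n + M) (4 * β) - s.d (n + M) (4 * β) := by linarith [hZlow.2]
      positivity
    rcases eq_or_lt_of_le uq2' with h0 | h0
    · rw [← h0] at uq1'
      simp at uq1'
      linarith
    · exact h0
  have fin2 := A7_eta (σ4 := σ4) (κ := κ) (hb := hb) (s.hR (4 * β) h4β) (s.hlamZ _ h4β)
    hn hn4 hM hM4 (s.hwZ _ h4β) hR4 hUZn hκ0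
    (by
      rw [s.hUZ _ hn hn4, s.hUZ _ hN hN4, s.hQ _ hM hM4]
      exact key _ _ _ (by linarith) hQpos (by linarith) hZlow.2) hκσ hb1 hb2
  have e4 : (2 : ℝ) * (2 * β) = 4 * β := by ring
  refine ⟨hcN2, hcdN2, ?_, ?_, ?_, ?_⟩
  · rw [e4]; exact fin1.1
  · rw [e4]; exact fin2.1
  · rw [e4]; exact fin1.2
  · rw [e4]; exact fin2.2

end Crest.Agent.HG
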