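import Crest.Agent.HG_A4b
import Crest.Agent.HG_A7

/-!
HG task A7b: final crossing for odd `N`.
-/

set_option autoImplicit false

namespace Crest.Agent.HG

/-- final crossing for an odd number `N` of sites, `n < N ≤ 2n`.
PROOF. `Y_N(β) ≤ lam^(N-2)(w+eta_{N-1}) ≤ U_n lam^(N-n)` at `β` (`SpW.eta_anti`, `n ≤ N-1`);
at `2β`: `η_{N-1} ≤ h w < w`, so `σ = 1` (as `Y_N > 0`) and
`Y_N(2β) ≥ lam^(N-2) w (1-h) ≥ U_n lam^(N-n) (1-h)/(1+h)`. With `lam(2β) ≤ lam(β)²` (`lam_two`)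
and `N-n ≤ n`: `(lam(β)²/lam(2β))^(N-n) ≤ (lam(β)²/lam(2β))^n ≤ P(n,β)²(1+S(n,2β))/P(n,2β) ≤
(1+t(n,β))²(1+σ)`. So `Y_N(β)² ≤ ρ Y_N(2β)` with `ρ = ((1+q)(1+A+3B))²(1+σ)(1+h)/(1-h) ≤ 1+y`;
`PS.cross`, `crossing`. -/
theorem bd_odd {pf qf : ℕ → ℝ → ℝ} (s : BdSys pf qf) {n N : ℕ} (hn : Even n) (hn4 : 4 ≤ n)
    (hN : Odd N) (hnN : n < N) (hN2 : N ≤ 2 * n) {β C q h A B σ y x : ℝ} (hβ : 0 < β)
    (hst : BdState s n β C q h) (hA : s.a n β ≤ A) (hB : s.b n β ≤ B) (hS : s.S n (2 * β) ≤ σ)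
    (hh : h < 1) (hy1 : y < 1)
    (hy : ((1 + q) * (1 + A + 3 * B)) ^ 2 * ((1 + σ) * (1 + h)) ≤ (1 + y) * (1 - h))
    (hx : y * x ^ 2 - 2 * x + y ≤ 0) (hx1 : x ≤ 1) : s.y N β ≤ x := by
  have hβ2 : 0 < 2 * β := by linarith
  have hN5 : 5 ≤ N := by omega
  have hNe : Even (N - 1) := by
    obtain ⟨k, hk⟩ := hN
    exact ⟨k, by omega⟩
  obtain ⟨hC, hq, hw2, -, heta, -⟩ := hst
  set l1 := s.lam β with hl1
  set l2 := s.lam (2 * β) with hl2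
  have hl1p : 0 < l1 := s.hlam β hβ
  have hl2p : 0 < l2 := s.hlam (2 * β) hβ2
  set m := N - n with hm
  have hm1 : N - 2 = (n - 2) + m := by omega
  have hmn : m ≤ n := by omega
  have hS1 := s.hS β hβ
  have hS2 := s.hS (2 * β) hβ2
  -- step 1 : upper bound at β
  obtain ⟨σ1, hσ1, hY1⟩ := s.hYs β hβ
  have hY1' := hY1 N hN hN5
  have hea1 := hS1.eta_anti hn hn4 hNe (by omega : n ≤ N - 1)
  have hw1 : 0 ≤ s.w β := s.hw β hβ
  have hyp1 : 0 ≤ s.y N β := (s.hy N hN hN5).nonneg β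
  have hyp2 : 0 ≤ s.y N (2 * β) := (s.hy N hN hN5).nonneg (2 * β)
  have hup : s.yf N β ≤ s.uf n β * l1 ^ m := by
    have h1 : s.yf N β / l1 ^ (N - 2) ≤ s.uf n β / l1 ^ (n - 2) := by
      have h2 := (abs_le.mp hY1').2
      have h3 : σ1 * s.w β ≤ s.w β := by
        rcases hσ1 with h | h <;> rw [h] <;> linarith
      have h4 : s.uf (N - 1) β / l1 ^ (N - 1 - 2) ≤ s.uf n β / l1 ^ (n - 2) := by linarith
      show s.yf N β / l1 ^ (N - 2) ≤ s.uf n β / l1 ^ (n - 2)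
      linarith
    rw [hm1, div_le_div_iff₀ (pow_pos hl1p _) (pow_pos hl1p _), pow_add] at h1
    have h3 : 0 < l1 ^ (n - 2) := pow_pos hl1p _
    have h4 : s.yf N β * l1 ^ (n - 2) ≤ (s.uf n β * l1 ^ m) * l1 ^ (n - 2) := by
      calc s.yf N β * l1 ^ (n - 2) ≤ s.uf n β * (l1 ^ (n - 2) * l1 ^ m) := h1
        _ = (s.uf n β * l1 ^ m) * l1 ^ (n - 2) := by ring
    exact le_of_mul_le_mul_right h4 h3
  -- step 2 : lower bound at 2β
  obtain ⟨σ2, hσ2, hY2⟩ := s.hYs (2 * β) hβ2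
  have hY2' := hY2 N hN hN5
  have hea2 := hS2.eta_anti hn hn4 hNe (by omega : n ≤ N - 1)
  have heta0 := hS2.eta_nonneg hn hn4
  have hetadef : s.uf n (2 * β) / l2 ^ (n - 2) - s.w (2 * β) ≤ h * s.w (2 * β) := heta
  have hh0 : 0 ≤ h := by
    by_contra hneg
    push Not at hneg
    have : h * s.w (2 * β) < 0 := mul_neg_of_neg_of_pos hneg hw2
    have h5 : (0:ℝ) ≤ s.uf n (2 * β) / l2 ^ (n - 2) - s.w (2 * β) := heta0
    linarith
  have hYpos : 0 < s.yf N (2 * β) := by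
    rw [s.hY N hN hN5 (2 * β)]
    have := Real.exp_pos (-(2 * β * s.Ey N))
    positivity
  have hle2 : s.uf (N - 1) (2 * β) / l2 ^ (N - 1 - 2) - s.w (2 * β) ≤ h * s.w (2 * β) := by
    have h5 : s.uf (N - 1) (2 * β) / l2 ^ (N - 1 - 2) - s.w (2 * β) ≤
      s.uf n (2 * β) / l2 ^ (n - 2) - s.w (2 * β) := hea2
    linarith
  have hlow1 : s.w (2 * β) * (1 - h) ≤ s.yf N (2 * β) / l2 ^ (N - 2) := by
    have h2 := abs_le.mp (hY2'.trans hle2)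
    rcases hσ2 with h3 | h3
    · rw [h3, one_mul] at h2
      linarith [h2.1]
    · exfalso
      rw [h3] at h2
      have h4 : 0 < s.yf N (2 * β) / l2 ^ (N - 2) := div_pos hYpos (pow_pos hl2p _)
      have h5 : h * s.w (2 * β) < s.w (2 * β) := by nlinarith
      linarith [h2.2]
  have hlow2 : s.uf n (2 * β) ≤ s.w (2 * β) * (1 + h) * l2 ^ (n - 2) := by
    have h2 : s.uf n (2 * β) / l2 ^ (n - 2) ≤ s.w (2 * β) * (1 + h) := by linarith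
    rwa [div_le_iff₀ (pow_pos hl2p _)] at h2
  have hlow : s.uf n (2 * β) * l2 ^ m * (1 - h) ≤ s.yf N (2 * β) * (1 + h) := by
    rw [le_div_iff₀ (pow_pos hl2p _), hm1, pow_add] at hlow1
    have h1h : 0 ≤ 1 - h := by linarith
    have h3 : 0 < l2 ^ m := pow_pos hl2p _
    calc s.uf n (2 * β) * l2 ^ m * (1 - h)
        ≤ (s.w (2 * β) * (1 + h) * l2 ^ (n - 2)) * l2 ^ m * (1 - h) := by gcongr
      _ = (s.w (2 * β) * (1 - h) * (l2 ^ (n - 2) * l2 ^ m)) * (1 + h) := by ring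
      _ ≤ s.yf N (2 * β) * (1 + h) := by
        apply mul_le_mul_of_nonneg_right hlow1 (by linarith)
  -- step 3 : U
  have hc0 := (s.hc n hn hn4).nonneg β
  have hd0 := (s.hd n hn hn4).nonneg β
  have hc0' := (s.hc n hn hn4).nonneg (2 * β)
  have hd0' := (s.hd n hn hn4).nonneg (2 * β)
  have hU1 : s.uf n β ^ 2 ≤ (1 + q) ^ 2 * s.uf n (2 * β) := by
    rw [s.hU n hn hn4 β, s.hU n hn hn4 (2 * β)]
    have e1 : Real.exp (-(2 * β * s.En n)) = Real.exp (-(β * s.En n)) ^ 2 := by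
      rw [← Real.exp_nat_mul]; congr 1; push_cast; ring
    rw [e1]
    have hE := Real.exp_pos (-(β * s.En n))
    set X := Real.exp (-(β * s.En n))
    have h6 : (1 + s.c n β + s.d n β) ^ 2 ≤ (1 + q) ^ 2 := by
      apply pow_le_pow_left₀ (by linarith) (by linarith)
    have h7 : (0:ℝ) ≤ (1 + q) ^ 2 := by positivity
    calc (X * (1 + s.c n β + s.d n β)) ^ 2 = X ^ 2 * (1 + s.c n β + s.d n β) ^ 2 := by ring
      _ ≤ X ^ 2 * (1 + q) ^ 2 := by gcongr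
      _ = (1 + q) ^ 2 * (X ^ 2 * 1) := by ring
      _ ≤ (1 + q) ^ 2 * (X ^ 2 * (1 + s.c n (2 * β) + s.d n (2 * β))) := by
        gcongr
        linarith
  have hU0 : 0 < s.uf n (2 * β) := by
    rw [s.hU n hn hn4 (2 * β)]
    have := Real.exp_pos (-(2 * β * s.En n))
    have h8 : 0 < 1 + s.c n (2 * β) + s.d n (2 * β) := by linarith
    positivity
  have hU0' : 0 < s.uf n β := by
    rw [s.hU n hn hn4 β]
    have := Real.exp_pos (-(β * s.En n))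
    have h8 : 0 < 1 + s.c n β + s.d n β := by linarith
    positivity
  -- step 4 : lam
  have ha0 := (s.ha n hn hn4).nonneg β
  have hb0 := (s.hb n hn hn4).nonneg β
  have ha0' := (s.ha n hn hn4).nonneg (2 * β)
  have hb0' := (s.hb n hn hn4).nonneg (2 * β)
  have hSn : pf n (2 * β) / l2 ^ n - 1 ≤ σ := hS
  have hSn0 := hS2.S_nonneg hn hn4
  have hσ0 : 0 ≤ σ := by
    have : (0:ℝ) ≤ pf n (2 * β) / l2 ^ n - 1 := hSn0
    linarith
  have hK : (l1 ^ 2) ^ n ≤ ((1 + A + 3 * B) ^ 2 * (1 + σ)) * l2 ^ n := by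
    have h1 := hS1.lam_le hl1p hn hn4
    have h1' : l1 ^ n ≤ pf n β := h1
    have h2 : pf n (2 * β) ≤ (1 + σ) * l2 ^ n := by
      have h3 : pf n (2 * β) / l2 ^ n ≤ 1 + σ := by linarith
      rwa [div_le_iff₀ (pow_pos hl2p _)] at h3
    have h4 : pf n β ^ 2 ≤ (1 + A + 3 * B) ^ 2 * pf n (2 * β) := by
      rw [s.hP n hn hn4 β, s.hP n hn hn4 (2 * β)]
      have e1 : Real.exp (-(2 * β * s.E n)) = Real.exp (-(β * s.E n)) ^ 2 := by
        rw [← Real.exp_nat_mul]; congr 1; push_cast; ring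
      rw [e1]
      have hE := Real.exp_pos (-(β * s.E n))
      set X := Real.exp (-(β * s.E n))
      have h6 : (1 + s.a n β + 3 * s.b n β) ^ 2 ≤ (1 + A + 3 * B) ^ 2 := by
        apply pow_le_pow_left₀ (by linarith) (by linarith)
      calc (X * (1 + s.a n β + 3 * s.b n β)) ^ 2 = X ^ 2 * (1 + s.a n β + 3 * s.b n β) ^ 2 := by ring
        _ ≤ X ^ 2 * (1 + A + 3 * B) ^ 2 := by gcongr
        _ = (1 + A + 3 * B) ^ 2 * (X ^ 2 * 1) := by ring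
        _ ≤ (1 + A + 3 * B) ^ 2 * (X ^ 2 * (1 + s.a n (2 * β) + 3 * s.b n (2 * β))) := by
          gcongr
          linarith
    calc (l1 ^ 2) ^ n = (l1 ^ n) ^ 2 := by ring
      _ ≤ pf n β ^ 2 := by
        apply pow_le_pow_left₀ (pow_pos hl1p _).le h1'
      _ ≤ (1 + A + 3 * B) ^ 2 * pf n (2 * β) := h4
      _ ≤ (1 + A + 3 * B) ^ 2 * ((1 + σ) * l2 ^ n) := by gcongr
      _ = ((1 + A + 3 * B) ^ 2 * (1 + σ)) * l2 ^ n := by ring
  have hl12 : l2 ≤ l1 ^ 2 := lam_two s.toBulkSys hβ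
  have hKm : (l1 ^ 2) ^ m ≤ ((1 + A + 3 * B) ^ 2 * (1 + σ)) * l2 ^ m := by
    set K := (1 + A + 3 * B) ^ 2 * (1 + σ)
    have hr1 : 1 ≤ l1 ^ 2 / l2 := by
      rw [le_div_iff₀ hl2p, one_mul]; exact hl12
    have h1 : (l1 ^ 2 / l2) ^ m ≤ (l1 ^ 2 / l2) ^ n := pow_le_pow_right₀ hr1 hmn
    have h2 : (l1 ^ 2 / l2) ^ n ≤ K := by
      rw [div_pow, div_le_iff₀ (pow_pos hl2p _)]; exact hK
    have h3 := h1.trans h2
    rwa [div_pow, div_le_iff₀ (pow_pos hl2p _)] at h3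
  -- step 5
  have h1h : 0 < 1 - h := by linarith
  set ρ := ((1 + q) * (1 + A + 3 * B)) ^ 2 * ((1 + σ) * (1 + h)) / (1 - h) with hρ
  have hρy : ρ ≤ 1 + y := by
    rw [hρ, div_le_iff₀ h1h]; exact hy
  have hmain : s.yf N β ^ 2 ≤ ρ * s.yf N (2 * β) := by
    have hyf0 : 0 ≤ s.yf N β := by
      rw [s.hY N hN hN5 β]
      have := Real.exp_pos (-(β * s.Ey N))
      positivity
    have h1 : s.yf N β ^ 2 ≤ (s.uf n β * l1 ^ m) ^ 2 := pow_le_pow_left₀ hyf0 hup 2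
    have h2 : (s.uf n β * l1 ^ m) ^ 2 = s.uf n β ^ 2 * (l1 ^ 2) ^ m := by ring
    have h3 : s.uf n β ^ 2 * (l1 ^ 2) ^ m ≤
        ((1 + q) ^ 2 * s.uf n (2 * β)) * (((1 + A + 3 * B) ^ 2 * (1 + σ)) * l2 ^ m) := by
      gcongr
    have h4 : ((1 + q) ^ 2 * s.uf n (2 * β)) * (((1 + A + 3 * B) ^ 2 * (1 + σ)) * l2 ^ m) * (1 - h) ≤
        ((1 + q) * (1 + A + 3 * B)) ^ 2 * ((1 + σ) * (1 + h)) * s.yf N (2 * β) := by
      calc ((1 + q) ^ 2 * s.uf n (2 * β)) * (((1 + A + 3 * B) ^ 2 * (1 + σ)) * l2 ^ m) * (1 - h)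
          = (((1 + q) * (1 + A + 3 * B)) ^ 2 * (1 + σ)) * (s.uf n (2 * β) * l2 ^ m * (1 - h)) := by ring
        _ ≤ (((1 + q) * (1 + A + 3 * B)) ^ 2 * (1 + σ)) * (s.yf N (2 * β) * (1 + h)) := by
          gcongr
        _ = ((1 + q) * (1 + A + 3 * B)) ^ 2 * ((1 + σ) * (1 + h)) * s.yf N (2 * β) := by ring
    have h5 : ((1 + q) ^ 2 * s.uf n (2 * β)) * (((1 + A + 3 * B) ^ 2 * (1 + σ)) * l2 ^ m) ≤
        ρ * s.yf N (2 * β) := by
      rw [hρ, div_mul_eq_mul_div, le_div_iff₀ h1h]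
      exact h4
    linarith [h1, h2, h3, h5]
  have hcr := PS.cross (s.hy N hN hN5) (E := s.Ey N) (ρ := ρ) hβ (by
    rw [← s.hY N hN hN5 β, ← s.hY N hN hN5 (2 * β)]
    exact hmain)
  refine crossing hyp1 (by linarith [hcr.1]) hy1 ?_ hx hx1
  refine hcr.2.trans ?_
  have : 0 ≤ 1 + s.y N β ^ 2 := by positivity
  exact mul_le_mul_of_nonneg_right hρy this
end Crest.Agent.HG
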