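import Crest.Agent.HG_A5b
import Crest.Agent.HG_A7

/-!
HG task A8: numerical boundary iteration (scales `n_k = 104·2^k`, `β = 20·2^k`).
Inputs from the bulk at scale `k`: `a(n_k,20·2^k) = a(2L_k,2β_k) ≤ a(2L_k,β_k)² ≤ A_k²` (`PS.two`),
same for `b`; `S,R(n_k, 40·2^k) = S,R(L_{k+1},2β_{k+1}) ≤ σ_{k+1}`;
`S,R(n_k, 80·2^k) = S,R(L_{k+1},4β_{k+1}) ≤ x1_{k+1}`  (`bulk_table`, `bulk_tail_all`).

Rows for `bd_step` (script generated, each row satisfies the rational hypotheses exactly):
k=0 C q h = 1/25 7/50 7/25 | A=(27/500)^2 B=(41/400)^2 σ=7547/100000 σ4=2113/10000 |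
    y x v T κ hb = 5353/10000 1451/5000 12217/10000 4407/10000 329/250 1531/1000
k=1 C q h = 4211/50000 1943/10000 809/2500 | A=(88/3125)^2 B=(8899/100000)^2 σ=893/20000
    σ4=1071/10000 | y x v T κ hb = 412/625 3763/10000 125639/100000 2687/5000 1723/1000 991/500
k=2 C q h = 1417/10000 361/1250 2123/10000 | A=(1679/200000)^2 B=(1071/20000)^2 σ=287/25000
    σ4=2411/100000 | y x v T κ hb = 3051/5000 681/2000 58489/50000 5207/10000 259/250 519/500
k=3 C q h = 29/250 339/1250 2503/100000 | A=(1949/2500000)^2 B=(1523/100000)^2 σ=5813/10000000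
    σ4=73/62500 | y x v T κ hb = 1391/5000 71/500 10229/10000 3013/10000 1099/10000 1099/10000
k=4 C q h = 2017/100000 9079/100000 321/2500000 | A=(2861/500000000)^2 B=(1009/1000000)^2
    σ=273/200000000 σ4=3/65536 | y x v T κ hb = 4089/100000 1023/50000 25007/25000 911/10000
    629/500000 1259/1000000
k=5 C q h = 4187/10000000 83/10000 1441/25000000000 | A=(1103/5000000000000)^2
    B=(4117/1000000000)^2 σ=1/536870912 σ4=3/536870912 | y x v T κ hb = 8377/10000000
    4189/10000000 100001/100000 8311/1000000 2001/50000000 2001/50000000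
k=6 C q h = 351/2000000000 1727/25000000 2237/10000000000000000
-/

set_option autoImplicit false

namespace Crest.Agent.HG

theorem BdState.mono {pf qf : ℕ → ℝ → ℝ} {s : BdSys pf qf} {n n' : ℕ} {β β' C C' q q' h h' : ℝ}
    (hs : BdState s n β C q h) (hn : n' = n) (hβ : β' = β) (hC : C ≤ C') (hq : q ≤ q')
    (hh : h ≤ h') : BdState s n' β' C' q' h' := by
  subst hn hβ
  obtain ⟨h1, h2, h3, h4, h5, h6⟩ := hs
  exact ⟨h1.trans hC, h2.trans hq, h3, h4, h5.trans (mul_le_mul_of_nonneg_right hh h3.le),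
    h6.trans (mul_le_mul_of_nonneg_right hh h4.le)⟩

/-- one row of the table. -/
theorem bd_row {pf qf : ℕ → ℝ → ℝ} (s : BdSys pf qf) {n : ℕ} (hn : Even n) (hn4 : 4 ≤ n)
    {β β0 C q h A B σ σ4 : ℝ} (y x v T κ hb : ℝ) {C' q' h' β' : ℝ} {n' : ℕ} (hβ : 0 < β)
    (hst : BdState s n β C q h) (hA : s.a n β0 ≤ A) (hB : s.b n β0 ≤ B) (hβ0 : β = 2 * β0)
    (hS : s.S n (2 * β) ≤ σ) (hR : s.R n (2 * β) ≤ σ)
    (hS4 : s.S n (4 * β) ≤ σ4) (hR4 : s.R n (4 * β) ≤ σ4) (hB1 : B ^ 2 ≤ 1)
    (hy1 : y < 1)
    (hy : ((1 + C) * (1 + A ^ 2 + B ^ 2) + 2 * B ^ 2 * (q - C)) ^ 2 *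
      ((1 + σ) * (1 + h)) ≤ 1 + y)
    (hx : y * x ^ 2 - 2 * x + y ≤ 0) (hx1 : x ≤ 1) (hv0 : 0 ≤ v)
    (hv : (1 + σ) * (1 + h) * (1 + x ^ 2) ≤ v ^ 2)
    (hT : v * ((1 + q) * (1 + A ^ 2 + 3 * B ^ 2)) ≤ 1 + T)
    (hT1 : T < 1)
    (hκ : v ^ 4 * ((1 + q ^ 4) * (1 + (A ^ 2) ^ 4 + 3 * (B ^ 2) ^ 4)) ≤ (1 + κ) * (1 - T ^ 4))
    (hκσ : κ * σ4 < 1) (hb1 : κ ≤ hb) (hb2 : κ - σ4 ≤ hb * (1 - κ * σ4))
    (hn' : n' = n + n) (hβ' : β' = 2 * β) (hC' : x ^ 2 ≤ C') (hq' : T ^ 2 ≤ q')
    (hh' : σ4 * hb ≤ h') : BdState s n' β' C' q' h' := by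
  have hA2 : s.a n β ≤ A ^ 2 := by
    have h1 := (s.ha n hn hn4).two β0
    rw [hβ0]
    exact h1.trans (pow_le_pow_left₀ ((s.ha n hn hn4).nonneg β0) hA 2)
  have hB2 : s.b n β ≤ B ^ 2 := by
    have h1 := (s.hb n hn hn4).two β0
    rw [hβ0]
    exact h1.trans (pow_le_pow_left₀ ((s.hb n hn hn4).nonneg β0) hB 2)
  exact (bd_step s hn hn4 hn hn4 hβ hst hA2 hB2 hS hR hS4 hR4 hB1 hy1 hy hx hx1 hv0 hv hT hT1
    hκ hκσ hb1 hb2).mono hn' hβ' hC' hq' hh'

theorem bd_table {pf qf : ℕ → ℝ → ℝ} (s : BdSys pf qf)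
    (h0 : BState s.toBulkSys 52 10 (27 / 500) (41 / 400) (9 / 100))
    (hb : BdState s 104 20 (1 / 25) (7 / 50) (7 / 25)) :
    BdState s 1664 320 (2017 / 100000) (9079 / 100000) (321 / 2500000) ∧
    BdState s 3328 640 (4187 / 10000000) (83 / 10000) (1441 / 25000000000) ∧
    BdState s 6656 1280 (351 / 2000000000) (1727 / 25000000) (2237 / 10000000000000000) := by
  obtain ⟨b1, b2, b3, b4, b5, -, c1, c2, c3, c4⟩ := bulk_table s.toBulkSys h0
  have t0 := bulk_tail_all s.toBulkSys h0 0
  have t1 := bulk_tail_all s.toBulkSys h0 1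
  have e0 : dl 0 = 1 / 65536 := by norm_num [dl]
  have e1 : dl 1 = 1 / 536870912 := by norm_num [dl]
  rw [e0] at t0
  rw [e1] at t1
  obtain ⟨-, c5⟩ := t0
  obtain ⟨b6, c6⟩ := t1
  norm_num at c5 b6 c6
  have hg0 := hb
  have hg1 : BdState s 208 40 (4211 / 50000) (1943 / 10000) (809 / 2500) :=
    bd_row s (n := 104) (by decide) (by norm_num) (5353 / 10000) (1451 / 5000) (12217 / 10000) (4407 / 10000) (329 / 250) (1531 / 1000)
      (by norm_num) hg0 h0.1 h0.2.1 (by norm_num)
      (by have := b1.2.2.1; norm_num at this ⊢; exact this)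
      (by have := b1.2.2.2; norm_num at this ⊢; exact this)
      (by have := c1.1; norm_num at this ⊢; exact this)
      (by have := c1.2; norm_num at this ⊢; exact this)
      (by norm_num) (by norm_num) (by norm_num) (by norm_num) (by norm_num) (by norm_num)
      (by norm_num) (by norm_num) (by norm_num) (by norm_num) (by norm_num) (by norm_num)
      (by norm_num) (by norm_num) (by norm_num) (by norm_num) (by norm_num) (by norm_num)
  have hg2 : BdState s 416 80 (1417 / 10000) (361 / 1250) (2123 / 10000) :=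
    bd_row s (n := 208) (by decide) (by norm_num) (412 / 625) (3763 / 10000) (125639 / 100000) (2687 / 5000) (1723 / 1000) (991 / 500)
      (by norm_num) hg1 b1.1 b1.2.1 (by norm_num)
      (by have := b2.2.2.1; norm_num at this ⊢; exact this)
      (by have := b2.2.2.2; norm_num at this ⊢; exact this)
      (by have := c2.1; norm_num at this ⊢; exact this)
      (by have := c2.2; norm_num at this ⊢; exact this)
      (by norm_num) (by norm_num) (by norm_num) (by norm_num) (by norm_num) (by norm_num)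
      (by norm_num) (by norm_num) (by norm_num) (by norm_num) (by norm_num) (by norm_num)
      (by norm_num) (by norm_num) (by norm_num) (by norm_num) (by norm_num) (by norm_num)
  have hg3 : BdState s 832 160 (29 / 250) (339 / 1250) (2503 / 100000) :=
    bd_row s (n := 416) (by decide) (by norm_num) (3051 / 5000) (681 / 2000) (58489 / 50000) (5207 / 10000) (259 / 250) (519 / 500)
      (by norm_num) hg2 b2.1 b2.2.1 (by norm_num)
      (by have := b3.2.2.1; norm_num at this ⊢; exact this)
      (by have := b3.2.2.2; norm_num at this ⊢; exact this)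
      (by have := c3.1; norm_num at this ⊢; exact this)
      (by have := c3.2; norm_num at this ⊢; exact this)
      (by norm_num) (by norm_num) (by norm_num) (by norm_num) (by norm_num) (by norm_num)
      (by norm_num) (by norm_num) (by norm_num) (by norm_num) (by norm_num) (by norm_num)
      (by norm_num) (by norm_num) (by norm_num) (by norm_num) (by norm_num) (by norm_num)
  have hg4 : BdState s 1664 320 (2017 / 100000) (9079 / 100000) (321 / 2500000) :=
    bd_row s (n := 832) (by decide) (by norm_num) (1391 / 5000) (71 / 500) (10229 / 10000) (3013 / 10000) (1099 / 10000) (1099 / 10000)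
      (by norm_num) hg3 b3.1 b3.2.1 (by norm_num)
      (by have := b4.2.2.1; norm_num at this ⊢; exact this)
      (by have := b4.2.2.2; norm_num at this ⊢; exact this)
      (by have := c4.1; norm_num at this ⊢; exact this)
      (by have := c4.2; norm_num at this ⊢; exact this)
      (by norm_num) (by norm_num) (by norm_num) (by norm_num) (by norm_num) (by norm_num)
      (by norm_num) (by norm_num) (by norm_num) (by norm_num) (by norm_num) (by norm_num)
      (by norm_num) (by norm_num) (by norm_num) (by norm_num) (by norm_num) (by norm_num)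
  have hg5 : BdState s 3328 640 (4187 / 10000000) (83 / 10000) (1441 / 25000000000) :=
    bd_row s (n := 1664) (by decide) (by norm_num) (4089 / 100000) (1023 / 50000) (25007 / 25000) (911 / 10000) (629 / 500000) (1259 / 1000000)
      (by norm_num) hg4 b4.1 b4.2.1 (by norm_num)
      (by have := b5.2.2.1; norm_num at this ⊢; exact this)
      (by have := b5.2.2.2; norm_num at this ⊢; exact this)
      (by have := c5.1; norm_num at this ⊢; exact this)
      (by have := c5.2; norm_num at this ⊢; exact this)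
      (by norm_num) (by norm_num) (by norm_num) (by norm_num) (by norm_num) (by norm_num)
      (by norm_num) (by norm_num) (by norm_num) (by norm_num) (by norm_num) (by norm_num)
      (by norm_num) (by norm_num) (by norm_num) (by norm_num) (by norm_num) (by norm_num)
  have hg6 : BdState s 6656 1280 (351 / 2000000000) (1727 / 25000000) (2237 / 10000000000000000) :=
    bd_row s (n := 3328) (by decide) (by norm_num) (8377 / 10000000) (4189 / 10000000) (100001 / 100000) (8311 / 1000000) (2001 / 50000000) (2001 / 50000000)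
      (by norm_num) hg5 b5.1 b5.2.1 (by norm_num)
      (by have := b6.2.2.1; norm_num at this ⊢; exact this)
      (by have := b6.2.2.2; norm_num at this ⊢; exact this)
      (by have := c6.1; norm_num at this ⊢; exact this)
      (by have := c6.2; norm_num at this ⊢; exact this)
      (by norm_num) (by norm_num) (by norm_num) (by norm_num) (by norm_num) (by norm_num)
      (by norm_num) (by norm_num) (by norm_num) (by norm_num) (by norm_num) (by norm_num)
      (by norm_num) (by norm_num) (by norm_num) (by norm_num) (by norm_num) (by norm_num)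
  exact ⟨hg4, hg5, hg6⟩

end Crest.Agent.HG
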