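import Crest.Agent.HG_A8

/-!
HG task A8b: tail of the boundary iteration.
-/

set_option autoImplicit false

namespace Crest.Agent.HG

/-- tail sequence at scale `k = 6 + j` -/
noncomputable def el (j : ℕ) : ℝ := (1 / 4) * (32 / 100000) ^ (2 ^ j)

theorem el_pos (j : ℕ) : 0 < el j := by unfold el; positivity

theorem el_le (j : ℕ) : el j ≤ 8 / 100000 := by
  unfold el
  have h : (32 / 100000 : ℝ) ^ (2 ^ j) ≤ (32 / 100000) ^ 1 :=
    pow_le_pow_of_le_one (by norm_num) (by norm_num) Nat.one_le_two_pow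
  rw [pow_one] at h
  linarith

theorem el_succ (j : ℕ) : el (j + 1) = 4 * el j ^ 2 := by
  unfold el
  rw [pow_succ 2 j, pow_mul]
  ring

theorem dl_succ_le_el (j : ℕ) : dl (j + 1) ≤ el j / 1000 := by
  unfold dl el
  have h1 : (1 / 2 : ℝ) ^ (13 * 2 ^ (j + 1) + 3) = (1 / 8) * ((1 / 2) ^ 26) ^ (2 ^ j) := by
    rw [pow_add, ← pow_mul]
    have : 13 * 2 ^ (j + 1) = 26 * 2 ^ j := by ring
    rw [this]
    ring
  rw [h1]
  have h2 : ((1 / 2 : ℝ) ^ 26) ^ (2 ^ j) ≤ ((32 / 100000) * (1 / 2000)) ^ (2 ^ j) :=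
    pow_le_pow_left₀ (by positivity) (by norm_num) _
  rw [mul_pow] at h2
  have h3 : (1 / 2000 : ℝ) ^ (2 ^ j) ≤ (1 / 2000) ^ 1 :=
    pow_le_pow_of_le_one (by norm_num) (by norm_num) Nat.one_le_two_pow
  rw [pow_one] at h3
  have h4 : (0 : ℝ) ≤ (32 / 100000) ^ (2 ^ j) := by positivity
  have h5 : (32 / 100000 : ℝ) ^ (2 ^ j) * (1 / 2000) ^ (2 ^ j) ≤
      (32 / 100000) ^ (2 ^ j) * (1 / 2000) := mul_le_mul_of_nonneg_left h3 h4
  linarith

theorem dl_anti (j : ℕ) : dl (j + 1) ≤ dl j := by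
  unfold dl
  apply pow_le_pow_of_le_one (by norm_num) (by norm_num)
  have : 2 ^ j ≤ 2 ^ (j + 1) := Nat.pow_le_pow_right (by norm_num) (by omega)
  omega

theorem BdState.monob {pf qf : ℕ → ℝ → ℝ} {s : BdSys pf qf} {n : ℕ} {β C q h C' q' h' : ℝ}
    (hs : BdState s n β C q h) (hC : C ≤ C') (hq : q ≤ q') (hh : h ≤ h') :
    BdState s n β C' q' h' := by
  obtain ⟨a1, a2, a3, a4, a5, a6⟩ := hs
  exact ⟨a1.trans hC, a2.trans hq, a3, a4, a5.trans (mul_le_mul_of_nonneg_right hh a3.le),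
    a6.trans (mul_le_mul_of_nonneg_right hh a4.le)⟩

section ineq
variable {e A g : ℝ}

/-- `G² (1+σ)(1+h) ≤ 1 + y`, `y = 16/5 e` -/
private theorem A8b_1 (h0 : 0 < e) (h1 : e ≤ 8 / 100000) (hA0 : 0 ≤ A) (hA : A ≤ e / 1000)
    (hg0 : 0 ≤ g) (hg : g ≤ e / 1000) :
    ((1 + e) * (1 + A + A) + 2 * A * (e - e)) ^ 2 * ((1 + g) * (1 + e)) ≤ 1 + 16 / 5 * e := by
  have hd2 : e ^ 2 ≤ e / 12500 := by nlinarith
  have k1 : (1 + e) * (1 + A + A) + 2 * A * (e - e) ≤ 1 + 101 / 100 * e := by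
    have : (1 + e) * (1 + A + A) ≤ (1 + e) * (1 + 2 * (e / 1000)) :=
      mul_le_mul_of_nonneg_left (by linarith) (by positivity)
    linarith
  have k0 : 0 ≤ (1 + e) * (1 + A + A) + 2 * A * (e - e) := by
    have : 0 ≤ (1 + e) * (1 + A + A) := by positivity
    linarith
  have k2 : ((1 + e) * (1 + A + A) + 2 * A * (e - e)) ^ 2 ≤ 1 + 203 / 100 * e := by
    calc ((1 + e) * (1 + A + A) + 2 * A * (e - e)) ^ 2 ≤ (1 + 101 / 100 * e) ^ 2 :=
          pow_le_pow_left₀ k0 k1 2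
      _ ≤ 1 + 203 / 100 * e := by linarith
  have k3 : (1 + g) * (1 + e) ≤ 1 + 101 / 100 * e := by
    have : (1 + g) * (1 + e) ≤ (1 + e / 1000) * (1 + e) := by gcongr
    linarith
  calc ((1 + e) * (1 + A + A) + 2 * A * (e - e)) ^ 2 * ((1 + g) * (1 + e))
      ≤ (1 + 203 / 100 * e) * (1 + 101 / 100 * e) :=
        mul_le_mul k2 k3 (by positivity) (by positivity)
    _ ≤ 1 + 16 / 5 * e := by linarith

/-- crossing, `x = 17/10 e` -/
private theorem A8b_2 (h0 : 0 < e) (h1 : e ≤ 8 / 100000) :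
    16 / 5 * e * (17 / 10 * e) ^ 2 - 2 * (17 / 10 * e) + 16 / 5 * e ≤ 0 := by
  have hd3 : e ^ 3 ≤ e / 12500 := by
    have h2 : e ^ 2 ≤ 1 / 12500 := by nlinarith
    calc e ^ 3 = e ^ 2 * e := by ring
      _ ≤ 1 / 12500 * e := by gcongr
      _ = e / 12500 := by ring
  have : 16 / 5 * e * (17 / 10 * e) ^ 2 - 2 * (17 / 10 * e) + 16 / 5 * e =
      1156 / 125 * e ^ 3 - e / 5 := by ring
  rw [this]; linarith

/-- `v = 1 + 11/20 e` -/
private theorem A8b_3 (h0 : 0 < e) (h1 : e ≤ 8 / 100000) (_hg0 : 0 ≤ g) (hg : g ≤ e / 1000) :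
    (1 + g) * (1 + e) * (1 + (17 / 10 * e) ^ 2) ≤ (1 + 11 / 20 * e) ^ 2 := by
  have hd2 : e ^ 2 ≤ e / 12500 := by nlinarith
  have k3 : (1 + g) * (1 + e) ≤ 1 + 101 / 100 * e := by
    have : (1 + g) * (1 + e) ≤ (1 + e / 1000) * (1 + e) := by gcongr
    linarith
  have k4 : 1 + (17 / 10 * e) ^ 2 ≤ 1 + e / 1000 := by linarith
  calc (1 + g) * (1 + e) * (1 + (17 / 10 * e) ^ 2) ≤ (1 + 101 / 100 * e) * (1 + e / 1000) :=
        mul_le_mul k3 k4 (by positivity) (by positivity)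
    _ ≤ 1 + 11 / 10 * e := by linarith
    _ ≤ (1 + 11 / 20 * e) ^ 2 := by linarith [sq_nonneg (11 / 20 * e)]

/-- `T = 8/5 e` -/
private theorem A8b_4 (h0 : 0 < e) (h1 : e ≤ 8 / 100000) (_hA0 : 0 ≤ A) (hA : A ≤ e / 1000) :
    (1 + 11 / 20 * e) * ((1 + e) * (1 + A + 3 * A)) ≤ 1 + 8 / 5 * e := by
  have hd2 : e ^ 2 ≤ e / 12500 := by nlinarith
  have k1 : (1 + e) * (1 + A + 3 * A) ≤ 1 + 101 / 100 * e := by
    have : (1 + e) * (1 + A + 3 * A) ≤ (1 + e) * (1 + 4 * (e / 1000)) :=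
      mul_le_mul_of_nonneg_left (by linarith) (by positivity)
    linarith
  calc (1 + 11 / 20 * e) * ((1 + e) * (1 + A + 3 * A)) ≤
        (1 + 11 / 20 * e) * (1 + 101 / 100 * e) := by gcongr
    _ ≤ 1 + 8 / 5 * e := by linarith

/-- `κ = 3 e` -/
private theorem A8b_5 (h0 : 0 < e) (h1 : e ≤ 8 / 100000) (hA0 : 0 ≤ A) (hA : A ≤ e / 1000) :
    (1 + 11 / 20 * e) ^ 4 * ((1 + e ^ 4) * (1 + A ^ 4 + 3 * A ^ 4)) ≤
      (1 + 3 * e) * (1 - (8 / 5 * e) ^ 4) := by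
  have hd2 : e ^ 2 ≤ e / 12500 := by nlinarith
  have he1 : e ≤ 1 := by linarith
  have hd4 : e ^ 4 ≤ e / 12500 := by
    calc e ^ 4 = e ^ 2 * (e * e) := by ring
      _ ≤ e ^ 2 * (1 * 1) := by gcongr
      _ ≤ e / 12500 := by linarith
  have hA4 : A ^ 4 ≤ e ^ 4 := pow_le_pow_left₀ hA0 (by linarith) 4
  have k1 : (1 + 11 / 20 * e) ^ 2 ≤ 1 + 111 / 100 * e := by linarith
  have k2 : (1 + 11 / 20 * e) ^ 4 ≤ 1 + 223 / 100 * e := by
    calc (1 + 11 / 20 * e) ^ 4 = ((1 + 11 / 20 * e) ^ 2) ^ 2 := by ring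
      _ ≤ (1 + 111 / 100 * e) ^ 2 := pow_le_pow_left₀ (by positivity) k1 2
      _ ≤ 1 + 223 / 100 * e := by linarith
  have k3 : (1 + e ^ 4) * (1 + A ^ 4 + 3 * A ^ 4) ≤ 1 + e / 100 := by
    calc (1 + e ^ 4) * (1 + A ^ 4 + 3 * A ^ 4) ≤
          (1 + e / 12500) * (1 + 4 * (e / 12500)) :=
          mul_le_mul (by linarith) (by linarith) (by positivity) (by positivity)
      _ ≤ 1 + e / 100 := by linarith
  have k4 : 1 - e / 100 ≤ 1 - (8 / 5 * e) ^ 4 := by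
    have : (8 / 5 * e) ^ 4 = 4096 / 625 * e ^ 4 := by ring
    rw [this]; linarith
  calc (1 + 11 / 20 * e) ^ 4 * ((1 + e ^ 4) * (1 + A ^ 4 + 3 * A ^ 4)) ≤
        (1 + 223 / 100 * e) * (1 + e / 100) :=
        mul_le_mul k2 k3 (by positivity) (by positivity)
    _ ≤ (1 + 3 * e) * (1 - e / 100) := by linarith
    _ ≤ (1 + 3 * e) * (1 - (8 / 5 * e) ^ 4) := mul_le_mul_of_nonneg_left k4 (by positivity)

end ineq

/-- tail of the boundary iteration: `c ≤ q ≤ e`, `h ≤ e` and bulk quantities `≤ δ` with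
`δ` much smaller give the next state with `4 e²`. Use `bulk_tail_all` (index `j+1`, `j+2`). -/
theorem bd_tail {pf qf : ℕ → ℝ → ℝ} (s : BdSys pf qf)
    (h0 : BState s.toBulkSys 52 10 (27 / 500) (41 / 400) (9 / 100))
    (hb : BdState s 104 20 (1 / 25) (7 / 50) (7 / 25)) (j : ℕ) :
    BdState s (6656 * 2 ^ j) (1280 * 2 ^ j) (el j) (el j) (el j) := by
  induction j with
  | zero =>
    have h := (bd_table s h0 hb).2.2
    have he : el 0 = 8 / 100000 := by unfold el; norm_num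
    rw [he, pow_zero, pow_zero, mul_one, mul_one]
    exact h.monob (by norm_num) (by norm_num) (by norm_num)
  | succ j ih =>
    have he0 := el_pos j
    have he1 := el_le j
    have hev : Even (6656 * 2 ^ j) := ⟨3328 * 2 ^ j, by ring⟩
    have h4 : 4 ≤ 6656 * 2 ^ j := by
      have : 1 ≤ 2 ^ j := Nat.one_le_two_pow
      omega
    have hA0 := (dl_pos (j + 1)).le
    have hA := dl_succ_le_el j
    have hg0 := (dl_pos (j + 2)).le
    have hg : dl (j + 2) ≤ el j / 1000 := (dl_anti (j + 1)).trans hA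
    obtain ⟨⟨p1, p2, _, _⟩, _, _⟩ := bulk_tail_all s.toBulkSys h0 (j + 1)
    obtain ⟨⟨_, _, q3, q4⟩, q5, q6⟩ := bulk_tail_all s.toBulkSys h0 (j + 2)
    have e1 : 2 * (1664 * 2 ^ (j + 1)) = 6656 * 2 ^ j := by ring
    have e2 : (2 : ℝ) * (320 * 2 ^ (j + 1)) = 1280 * 2 ^ j := by ring
    have e3 : 1664 * 2 ^ (j + 2) = 6656 * 2 ^ j := by ring
    have e4 : (2 : ℝ) * (320 * 2 ^ (j + 2)) = 2 * (1280 * 2 ^ j) := by ring
    have e5 : (4 : ℝ) * (320 * 2 ^ (j + 2)) = 4 * (1280 * 2 ^ j) := by ring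
    rw [e1] at p1 p2
    rw [e3, e4] at q3 q4
    rw [e3, e5] at q5 q6
    have hle : (320 : ℝ) * 2 ^ (j + 1) ≤ 1280 * 2 ^ j := by
      have : (0 : ℝ) < 2 ^ j := by positivity
      rw [pow_succ]; linarith
    have r1 : s.a (6656 * 2 ^ j) (1280 * 2 ^ j) ≤ dl (j + 1) :=
      ((s.ha _ hev h4).anti hle).trans p1
    have r2 : s.b (6656 * 2 ^ j) (1280 * 2 ^ j) ≤ dl (j + 1) :=
      ((s.hb _ hev h4).anti hle).trans p2
    have h9 : 9 * el j ^ 2 ≤ 1 := by nlinarith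
    have h9g := mul_le_mul_of_nonneg_right h9 hg0
    have h9e : 3 * el j * (3 * dl (j + 2)) < 1 := by nlinarith
    have hstep := bd_step s hev h4 hev h4 (β := 1280 * 2 ^ j) (C := el j) (q := el j) (h := el j)
      (A := dl (j + 1)) (B := dl (j + 1)) (σ := dl (j + 2)) (σ4 := 3 * dl (j + 2))
      (y := 16 / 5 * el j) (x := 17 / 10 * el j) (v := 1 + 11 / 20 * el j) (T := 8 / 5 * el j)
      (κ := 3 * el j) (hb := 3 * el j) (by positivity) ih r1 r2 q3 q4 q5 q6 (by linarith)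
      (by linarith) (A8b_1 he0 he1 hA0 hA hg0 hg) (A8b_2 he0 he1) (by linarith) (by linarith)
      (A8b_3 he0 he1 hg0 hg) (A8b_4 he0 he1 hA0 hA) (by linarith)
      (A8b_5 he0 he1 hA0 hA) h9e le_rfl (by linarith)
    have e6 : 6656 * 2 ^ (j + 1) = 6656 * 2 ^ j + 6656 * 2 ^ j := by ring
    have e7 : (1280 : ℝ) * 2 ^ (j + 1) = 2 * (1280 * 2 ^ j) := by ring
    rw [e6, e7, el_succ]
    refine hstep.monob ?_ ?_ ?_
    · nlinarith
    · nlinarith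
    · nlinarith

end Crest.Agent.HG
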