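import Crest.Agent.HG_A7b
import Crest.Agent.HG_A8b

/-!
HG task A8c: final estimate for odd `N ≥ 1921`.
-/

set_option autoImplicit false

namespace Crest.Agent.HG

private theorem A8c_sq {x : ℝ → ℝ} (h : PS x) {β β' A : ℝ} (hb : β' = 2 * β) (hA : x β ≤ A) :
    x β' ≤ A ^ 2 := by
  rw [hb]
  exact (h.two β).trans (pow_le_pow_left₀ (h.nonneg β) hA 2)

private theorem A8c_exp : (32 / 100000 : ℝ) ≤ Real.exp (-(1280 * (Real.log 10 / 392))) := by
  have hl : 0 < Real.log 10 := Real.log_pos (by norm_num)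
  have h1 : Real.log 3125 = -Real.log (32 / 100000) := by
    rw [← Real.log_inv]; norm_num
  have h2 : 17 * Real.log 10 ≤ 5 * Real.log 3125 := by
    have e1 : 17 * Real.log 10 = Real.log ((10 : ℝ) ^ 17) := by
      rw [Real.log_pow]; norm_num
    have e2 : 5 * Real.log 3125 = Real.log ((3125 : ℝ) ^ 5) := by
      rw [Real.log_pow]; norm_num
    rw [e1, e2]
    exact Real.log_le_log (by norm_num) (by norm_num)
  rw [← Real.log_le_iff_le_exp (by norm_num)]
  linarith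

private theorem A8c_pow (j : ℕ) : (3 : ℝ) * el j < Real.exp (-(1280 * 2 ^ j * (Real.log 10 / 392))) := by
  have h1 : Real.exp (-(1280 * 2 ^ j * (Real.log 10 / 392))) =
      Real.exp (-(1280 * (Real.log 10 / 392))) ^ (2 ^ j) := by
    rw [← Real.exp_nat_mul]
    congr 1
    push_cast
    ring
  rw [h1]
  have h2 : (32 / 100000 : ℝ) ^ (2 ^ j) ≤ Real.exp (-(1280 * (Real.log 10 / 392))) ^ (2 ^ j) :=
    pow_le_pow_left₀ (by norm_num) A8c_exp _
  have h3 : (0 : ℝ) < (32 / 100000) ^ (2 ^ j) := by positivity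
  unfold el
  linarith

private theorem A8c_el (j : ℕ) : 0 < el j ∧ el j ≤ 8 / 100000 := by
  unfold el
  constructor
  · positivity
  · have : (32 / 100000 : ℝ) ^ (2 ^ j) ≤ 32 / 100000 :=
      pow_le_of_le_one (by norm_num) (by norm_num) (by positivity)
    linarith

private theorem A8c_dl (j : ℕ) : 0 ≤ dl (j + 1) ∧ dl (j + 1) ≤ el j / 100 ∧ dl (j + 2) ≤ el j / 100 := by
  have key : ∀ i, j ≤ i → dl (i + 1) ≤ el j / 100 := by
    intro i hi
    unfold dl el
    have h1 : (1 / 2 : ℝ) ^ (13 * 2 ^ (i + 1) + 3) ≤ (1 / 2) ^ (13 * 2 ^ (j + 1) + 3) := by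
      apply pow_le_pow_of_le_one (by norm_num) (by norm_num)
      have : 2 ^ (j + 1) ≤ 2 ^ (i + 1) := Nat.pow_le_pow_right (by norm_num) (by omega)
      omega
    refine h1.trans ?_
    have h2 : (1 / 2 : ℝ) ^ (13 * 2 ^ (j + 1) + 3) = (1 / 8) * (1 / 2 ^ 26) ^ (2 ^ j) := by
      rw [pow_add, pow_succ 2 j, show 13 * (2 ^ j * 2) = 26 * 2 ^ j by ring, pow_mul]
      norm_num
      ring
    rw [h2]
    have h3 : (1 / 2 ^ 26 : ℝ) ^ (2 ^ j) ≤ (1 / 1000 * (32 / 100000)) ^ (2 ^ j) :=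
      pow_le_pow_left₀ (by norm_num) (by norm_num) _
    rw [mul_pow] at h3
    have h4 : (1 / 1000 : ℝ) ^ (2 ^ j) ≤ 1 / 1000 :=
      pow_le_of_le_one (by norm_num) (by norm_num) (by positivity)
    have h5 : (0 : ℝ) < (32 / 100000) ^ (2 ^ j) := by positivity
    nlinarith
  refine ⟨?_, key j le_rfl, key (j + 1) (by omega)⟩
  unfold dl
  positivity

private theorem A8c_num {e A B σ : ℝ} (he : 0 < e) (he1 : e ≤ 8 / 100000) (hA0 : 0 ≤ A) (hB0 : 0 ≤ B)
    (hA : A ≤ e / 100) (hB : B ≤ e / 100) (hσ : σ ≤ e / 100) :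
    ((1 + e) * (1 + A + 3 * B)) ^ 2 * ((1 + σ) * (1 + e)) ≤ (1 + 5 * e) * (1 - e) := by
  have h1 : 1 + A + 3 * B ≤ 1 + e / 25 := by linarith
  have h0 : 0 ≤ 1 + A + 3 * B := by linarith
  have h2 : ((1 + e) * (1 + A + 3 * B)) ^ 2 ≤ ((1 + e) * (1 + e / 25)) ^ 2 := by
    apply pow_le_pow_left₀ (by positivity)
    gcongr
  have h3 : (1 + σ) * (1 + e) ≤ (1 + e / 100) * (1 + e) := by
    apply mul_le_mul_of_nonneg_right <;> linarith
  have h4 : ((1 + e) * (1 + A + 3 * B)) ^ 2 * ((1 + σ) * (1 + e)) ≤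
      ((1 + e) * (1 + e / 25)) ^ 2 * ((1 + e / 100) * (1 + e)) := by
    calc ((1 + e) * (1 + A + 3 * B)) ^ 2 * ((1 + σ) * (1 + e)) ≤
        ((1 + e) * (1 + A + 3 * B)) ^ 2 * ((1 + e / 100) * (1 + e)) := by
          apply mul_le_mul_of_nonneg_left h3 (by positivity)
      _ ≤ _ := by
          apply mul_le_mul_of_nonneg_right h2 (by positivity)
  refine h4.trans ?_
  -- polynomial inequality in `e`
  have e2 : e ^ 2 ≤ 8 / 100000 * e := by nlinarith
  have e3 : e ^ 3 ≤ (8 / 100000) * (8 / 100000 * e) := by nlinarith [sq_nonneg e]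
  have e4 : e ^ 4 ≤ (8 / 100000) ^ 3 * e := by
    have : e ^ 4 = e * e ^ 3 := by ring
    have h : e ^ 3 ≤ (8 / 100000) ^ 3 := pow_le_pow_left₀ he.le he1 3
    nlinarith
  have e5 : e ^ 5 ≤ (8 / 100000) ^ 4 * e := by
    have : e ^ 5 = e * e ^ 4 := by ring
    have h : e ^ 4 ≤ (8 / 100000) ^ 4 := pow_le_pow_left₀ he.le he1 4
    nlinarith
  have e6 : e ^ 6 ≤ (8 / 100000) ^ 5 * e := by
    have : e ^ 6 = e * e ^ 5 := by ring
    have h : e ^ 5 ≤ (8 / 100000) ^ 5 := pow_le_pow_left₀ he.le he1 5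
    nlinarith
  have : ((1 + e) * (1 + e / 25)) ^ 2 * ((1 + e / 100) * (1 + e)) =
      1 + (3 + 2 / 25 + 1 / 100) * e + (3 + 1/625 + 6 / 25 + 3/100 + 2/2500) * e ^ 2 +
      (1 + 3/625 + 6/25 + 3/100 + 6/2500 + 1/62500) * e ^ 3 +
      (2/25 + 3/625 + 1/100 + 6/2500 + 3/62500) * e ^ 4 +
      (1/625 + 2/2500 + 3/62500) * e ^ 5 + 1/62500 * e ^ 6 := by ring
  rw [this]
  have e20 : 0 ≤ e ^ 2 := by positivity
  nlinarith

/-- final: for odd `N ≥ 1921` choose `k ≥ 4` with `104·2^k < N ≤ 104·2^(k+1)` and use `bd_odd`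
(k=4: `y=1902/10000, x=960/10000`; k=5: `x ≤ 9/1000`; k=6+j: `x ≤ 2 el j`). -/
theorem bd_final {pf qf : ℕ → ℝ → ℝ} (s : BdSys pf qf)
    (h0 : BState s.toBulkSys 52 10 (27 / 500) (41 / 400) (9 / 100))
    (hb : BdState s 104 20 (1 / 25) (7 / 50) (7 / 25)) (N : ℕ) (hN : Odd N) (hN2 : 1921 ≤ N) :
    ∃ β : ℝ, 0 < β ∧ s.y N β < Real.exp (-(β * (Real.log 10 / 392))) := by
  obtain ⟨t1, t2, t3, t4, t5, _⟩ := bulk_table s.toBulkSys h0
  obtain ⟨b4, b5, b6⟩ := bd_table s h0 hb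
  have hl : 0 < Real.log 10 := Real.log_pos (by norm_num)
  rcases le_or_gt N 3328 with h1 | h1
  · refine ⟨320, by norm_num, ?_⟩
    have e1 : Even 1664 := ⟨832, rfl⟩
    have ha : s.a 1664 320 ≤ (2861 / 500000000) ^ 2 :=
      A8c_sq (s.ha 1664 e1 (by norm_num)) (β := 160) (by norm_num) t4.1
    have hb' : s.b 1664 320 ≤ (1009 / 1000000) ^ 2 :=
      A8c_sq (s.hb 1664 e1 (by norm_num)) (β := 160) (by norm_num) t4.2.1
    have h2 := bd_odd s e1 (by norm_num) hN (by omega) (by omega) (by norm_num : (0:ℝ) < 320) b4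
      ha hb' t5.2.2.1 (by norm_num) (y := 1902 / 10000) (x := 960 / 10000) (by norm_num)
      (by norm_num) (by norm_num) (by norm_num)
    refine lt_of_le_of_lt h2 ?_
    have h3 : Real.exp (-Real.log 10) ≤ Real.exp (-(320 * (Real.log 10 / 392))) := by
      apply Real.exp_le_exp.2
      linarith
    rw [Real.exp_neg, Real.exp_log (by norm_num)] at h3
    refine lt_of_lt_of_le ?_ h3
    norm_num
  rcases le_or_gt N 6656 with h2 | h2
  · refine ⟨640, by norm_num, ?_⟩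
    have e1 : Even 3328 := ⟨1664, rfl⟩
    have ha : s.a 3328 640 ≤ (1103 / 5000000000000) ^ 2 :=
      A8c_sq (s.ha 3328 e1 (by norm_num)) (β := 320) (by norm_num) t5.1
    have hb' : s.b 3328 640 ≤ (4117 / 1000000000) ^ 2 :=
      A8c_sq (s.hb 3328 e1 (by norm_num)) (β := 320) (by norm_num) t5.2.1
    have hs : s.S 3328 (2 * 640) ≤ (1 / 2) ^ 29 := by
      have h := (bulk_tail_all s.toBulkSys h0 1).1.2.2.1
      unfold dl at h
      norm_num at h ⊢
      exact h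
    have h3 := bd_odd s e1 (by norm_num) hN (by omega) (by omega) (by norm_num : (0:ℝ) < 640) b5
      ha hb' hs (by norm_num) (y := 1668 / 100000) (x := 9 / 1000) (by norm_num)
      (by norm_num) (by norm_num) (by norm_num)
    refine lt_of_le_of_lt h3 ?_
    have h4 : Real.exp (-(2 * Real.log 10)) ≤ Real.exp (-(640 * (Real.log 10 / 392))) := by
      apply Real.exp_le_exp.2
      linarith
    have h5 : Real.exp (-(2 * Real.log 10)) = 1 / 100 := by
      rw [Real.exp_neg, two_mul, Real.exp_add, Real.exp_log (by norm_num)]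
      norm_num
    rw [h5] at h4
    refine lt_of_lt_of_le ?_ h4
    norm_num
  · -- choose j
    have hex : ∃ j : ℕ, N ≤ 2 * (6656 * 2 ^ j) := by
      refine ⟨N, ?_⟩
      have : N < 2 ^ N := Nat.lt_two_pow_self
      omega
    classical
    obtain ⟨j, hj1, hj2⟩ : ∃ j : ℕ, 6656 * 2 ^ j < N ∧ N ≤ 2 * (6656 * 2 ^ j) := by
      refine ⟨Nat.find hex, ?_, Nat.find_spec hex⟩
      rcases Nat.eq_zero_or_pos (Nat.find hex) with h | h
      · rw [h]; simpa using h2
      · have h3 := Nat.find_min hex (m := Nat.find hex - 1) (by omega)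
        have h4 : 2 ^ Nat.find hex = 2 * 2 ^ (Nat.find hex - 1) := by
          rw [← pow_succ']
          congr 1
          omega
        rw [h4]
        omega
    refine ⟨1280 * 2 ^ j, by positivity, ?_⟩
    have hst := bd_tail s h0 hb j
    have hB1 := (bulk_tail_all s.toBulkSys h0 (j + 1)).1
    have hB2 := (bulk_tail_all s.toBulkSys h0 (j + 2)).1
    obtain ⟨d0, d1, d2⟩ := A8c_dl j
    obtain ⟨he0, he1⟩ := A8c_el j
    have e1 : Even (6656 * 2 ^ j) := (by decide : Even 6656).mul_right _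
    have hn4 : 4 ≤ 6656 * 2 ^ j := by
      have : 0 < 2 ^ j := by positivity
      omega
    have hn1 : 2 * (1664 * 2 ^ (j + 1)) = 6656 * 2 ^ j := by rw [pow_succ]; ring
    have hn2 : 1664 * 2 ^ (j + 2) = 6656 * 2 ^ j := by rw [pow_succ, pow_succ]; ring
    have hd1 : dl (j + 1) ≤ 1 := by linarith
    have ha : s.a (6656 * 2 ^ j) (1280 * 2 ^ j) ≤ dl (j + 1) ^ 2 := by
      refine A8c_sq (s.ha _ e1 hn4) (β := 320 * 2 ^ (j + 1)) (by rw [pow_succ]; ring) ?_
      have := hB1.1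
      rwa [hn1] at this
    have hb' : s.b (6656 * 2 ^ j) (1280 * 2 ^ j) ≤ dl (j + 1) ^ 2 := by
      refine A8c_sq (s.hb _ e1 hn4) (β := 320 * 2 ^ (j + 1)) (by rw [pow_succ]; ring) ?_
      have := hB1.2.1
      rwa [hn1] at this
    have hs : s.S (6656 * 2 ^ j) (2 * (1280 * 2 ^ j)) ≤ dl (j + 2) := by
      have h := hB2.2.2.1
      rw [hn2] at h
      have e : (2 : ℝ) * (320 * 2 ^ (j + 2)) = 2 * (1280 * 2 ^ j) := by
        rw [pow_succ, pow_succ]; ring
      rwa [e] at h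
    have hdd : dl (j + 1) ^ 2 ≤ el j / 100 := by nlinarith
    have h3 := bd_odd s e1 hn4 hN hj1 hj2 (by positivity : (0:ℝ) < 1280 * 2 ^ j) hst
      ha hb' hs (by linarith) (y := 5 * el j) (x := 3 * el j) (by linarith)
      (A8c_num he0 he1 (by positivity) (by positivity) hdd hdd d2)
      (by nlinarith [sq_nonneg (el j), mul_pos he0 he0]) (by linarith)
    exact lt_of_le_of_lt h3 (A8c_pow j)

end Crest.Agent.HG
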