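import Crest.Agent.HG_Defs

/-!
HG part A (analysis): abstract structures. `pf L β` plays the role of the ring partition function,
`qf L β` of the `R_z`-twisted one, `uf`, `uz` of the open chain with opposite end fields, `yf` of
the open chain with parallel end fields (odd number of sites).
-/

set_option autoImplicit false

namespace Crest.Agent.HG

/-- `x` is a finite sum of decaying exponentials. -/
def PS (x : ℝ → ℝ) : Prop :=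
  ∃ (m : ℕ) (e : Fin m → ℝ), (∀ j, 0 ≤ e j) ∧ ∀ β, x β = ∑ j, Real.exp (-(β * e j))

/-- space representation: `p L = lam^L (1 + Σ r_i^L)`, `u n = lam^(n-2) (w + Σ ω_i r_i^(n-2))`
for even `L, n ≥ 4`, with the same `r_i ∈ [0,1]`, `ω_i ≥ 0`. -/
def SpW (p u : ℕ → ℝ) (lam w : ℝ) : Prop :=
  ∃ r ω : ℕ → ℝ, (∀ i, 0 ≤ r i ∧ r i ≤ 1 ∧ 0 ≤ ω i) ∧
    (∀ L, Even L → 4 ≤ L → HasSum (fun i => r i ^ L) (p L / lam ^ L - 1)) ∧
    (∀ n, Even n → 4 ≤ n → HasSum (fun i => ω i * r i ^ (n - 2)) (u n / lam ^ (n - 2) - w))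

/-- the bulk (ring) system. -/
structure BulkSys (pf qf : ℕ → ℝ → ℝ) where
  E : ℕ → ℝ
  a : ℕ → ℝ → ℝ
  b : ℕ → ℝ → ℝ
  lam : ℝ → ℝ
  lamZ : ℝ → ℝ
  uf : ℕ → ℝ → ℝ
  uz : ℕ → ℝ → ℝ
  w : ℝ → ℝ
  wZ : ℝ → ℝ
  ha : ∀ L, Even L → 4 ≤ L → PS (a L)
  hb : ∀ L, Even L → 4 ≤ L → PS (b L)
  hP : ∀ L, Even L → 4 ≤ L → ∀ β, pf L β = Real.exp (-(β * E L)) * (1 + a L β + 3 * b L β)
  hQ : ∀ L, Even L → 4 ≤ L → ∀ β, qf L β = Real.exp (-(β * E L)) * (1 + a L β - b L β)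
  hlam : ∀ β, 0 < β → 0 < lam β
  hlamZ : ∀ β, 0 < β → 0 < lamZ β
  hw : ∀ β, 0 < β → 0 ≤ w β
  hwZ : ∀ β, 0 < β → 0 ≤ wZ β
  hS : ∀ β, 0 < β → SpW (fun L => pf L β) (fun n => uf n β) (lam β) (w β)
  hR : ∀ β, 0 < β → SpW (fun L => qf L β) (fun n => uz n β) (lamZ β) (wZ β)

namespace BulkSys
variable {pf qf : ℕ → ℝ → ℝ} (s : BulkSys pf qf)

/-- total time-excess `P = e^{-βE} (1+t)` -/
def t (L : ℕ) (β : ℝ) : ℝ := s.a L β + 3 * s.b L β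
/-- space excess of `P` -/
noncomputable def S (L : ℕ) (β : ℝ) : ℝ := pf L β / s.lam β ^ L - 1
/-- space excess of `Q` -/
noncomputable def R (L : ℕ) (β : ℝ) : ℝ := qf L β / s.lamZ β ^ L - 1
/-- non-top weight of the open chain -/
noncomputable def eta (n : ℕ) (β : ℝ) : ℝ := s.uf n β / s.lam β ^ (n - 2) - s.w β
noncomputable def etaZ (n : ℕ) (β : ℝ) : ℝ := s.uz n β / s.lamZ β ^ (n - 2) - s.wZ β
end BulkSys

/-- the boundary (open chain) system on top of a bulk system. -/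
structure BdSys (pf qf : ℕ → ℝ → ℝ) extends BulkSys pf qf where
  En : ℕ → ℝ
  c : ℕ → ℝ → ℝ
  d : ℕ → ℝ → ℝ
  Ey : ℕ → ℝ
  y : ℕ → ℝ → ℝ
  yf : ℕ → ℝ → ℝ
  hc : ∀ n, Even n → 4 ≤ n → PS (c n)
  hd : ∀ n, Even n → 4 ≤ n → PS (d n)
  hU : ∀ n, Even n → 4 ≤ n → ∀ β, uf n β = Real.exp (-(β * En n)) * (1 + c n β + d n β)
  hUZ : ∀ n, Even n → 4 ≤ n → ∀ β, uz n β = Real.exp (-(β * En n)) * (1 + c n β - d n β)
  hy : ∀ n, Odd n → 5 ≤ n → PS (y n)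
  hY : ∀ n, Odd n → 5 ≤ n → ∀ β, yf n β = Real.exp (-(β * Ey n)) * (1 + y n β)
  hYs : ∀ β, 0 < β → ∃ σ : ℝ, (σ = 1 ∨ σ = -1) ∧ ∀ n, Odd n → 5 ≤ n →
    |yf n β / lam β ^ (n - 2) - σ * w β| ≤ uf (n - 1) β / lam β ^ (n - 1 - 2) - w β

end Crest.Agent.HG
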