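import Crest.Agent.HG_A4
import Crest.Agent.HG_A4b
import Crest.Agent.HG_A5
import Crest.Agent.HG_Ev

/-!
HG task Base1b (only base_S here): see below for the whole base computation.

Notation `P*(L,β) = P(L,β) exp(β L ev)` etc. (`ub*` theorems: `P*(40,7) ≤ 1.3667`,
`Q*(40,7) ≤ .9243`, `P*(104,7) ≤ 2.1587`, `Q*(104,7) ≤ .7772`, `P*(40,10) ≤ 1.3547`,
`P*(104,10) ≤ 1.298`). `T0 = (P+3Q)/4 = e^{-βE}(1+a)`; `E(L) ≤ L ev` by `hE`.
 * `a(104,7) ≤ T0*(104,7) - 1 ≤ .12258` (as `E ≤ 104 ev`), `a(104,10) ≤ .12258^(10/7) ≤ .054`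
   (`PS.rpow`; `.12258^10 ≤ .054^7`); `b(104,10) ≤ (P*(104,10)-1)/3 ≤ .0994`.
 * `exp(-7(E(40)-40ev)) ≤ T0*(40,7) ≤ τ = 1.0349`, so `exp(-20(E(40)-40ev)) ≤ τ^(20/7) ≤ 1.1031`;
   `a(40,20) ≤ (τ-1)^(20/7) ≤ 1e-4`; `b(40,20) ≤ b(40,10)² ≤ (.3547/3)² ≤ .014`.
   So `P(40,20) ≤ 1.1497 exp(-800 ev)`, `Q(40,20) ≤ exp(-20E(40))(1+a) ≤ 1.1033 exp(-800 ev)`.
 * S: `SpW.cross` at `L=40, β=20` with `P(80,20) ≥ exp(-20E(80)) ≥ exp(-1600 ev)`: `1+S(40,20) ≤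
   1.1497² < 2`. `lam_lower` with `M = 10^6`: `exp(-20·10^6 ev) ≤ lam(20)^(10^6)·(1+S(10^6,20)) ≤ 2 lam^(10^6)`
   (`S_anti`), so `(lam/exp(-20ev))^40 ≥ (1/2)^(40/10^6) ≥ 1 - 1/20000`. Hence
   `S(40,20) = P(40,20)/lam^40 - 1 ≤ .15` and `S(52,20) ≤ .15^(52/40) ≤ .09` (`S_rpow`;
   `.15^13 ≤ .09^10`).
 * R: `SpW.cross`: `1+R(40,20) ≤ Q(40,20)²/Q(80,20) ≤ 1.1033²/(1-b(80,20)) ≤ 1.2522`
   (`b(80,10) ≤ t(80,10)/3 ≤ 1/6`, `b(80,20) ≤ 1/36`); `lamZ(20)^104 (1+R(104,20)) = Q(104,20) ≥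
   exp(-2080 ev)(1-b(104,20))`, `b(104,20) ≤ .0994² ≤ .0099`, `R(104,20) ≤ R(40,20)^(2.6) ≤ .2522^2.6 ≤ .0278`.
   So `1+R(40,20) = Q(40,20)/lamZ^40 ≤ 1.1033 ((1.0278)/(.9901))^(40/104) ≤ 1.1195`, `R(52,20) ≤
   .1195^1.3 ≤ .065 ≤ .09`.
 * `t(L,10) ≤ P*(L,10) - 1 ≤ 1/2` for even `60 ≤ L ≤ 104` (`ubP_L_10`).
-/

set_option autoImplicit false

namespace Crest.Agent.HG

/-- abstract version of `base_S` -/
private theorem b1b_core {pf qf : ℕ → ℝ → ℝ} (s : BulkSys pf qf) (e : ℝ)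
    (hE : ∀ L : ℕ, Even L → 4 ≤ L → L ≤ 1000000 → s.E L ≤ L * e)
    (hP : pf 40 20 ≤ 11497 / 10000 * Real.exp (-(20 * (40 * e)))) : s.S 52 20 ≤ 9 / 100 := by
  have h20 : (0 : ℝ) < 20 := by norm_num
  have hlam := s.hlam 20 h20
  have hS := s.hS 20 h20
  -- lower bound of P(80,20)
  have hP80 : Real.exp (-(20 * (80 * e))) ≤ pf 80 20 := by
    rw [s.hP 80 (by decide) (by norm_num) 20]
    have ha := (s.ha 80 (by decide) (by norm_num)).nonneg 20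
    have hb := (s.hb 80 (by decide) (by norm_num)).nonneg 20
    have hE80 := hE 80 (by decide) (by norm_num) (by norm_num)
    have h1 : Real.exp (-(20 * (80 * e))) ≤ Real.exp (-(20 * s.E 80)) := by
      apply Real.exp_le_exp.2
      push_cast at hE80
      linarith
    exact le_trans h1 (le_mul_of_one_le_right (Real.exp_pos _).le (by linarith))
  have hP40 : 0 ≤ pf 40 20 := by
    rw [s.hP 40 (by decide) (by norm_num) 20]
    have ha := (s.ha 40 (by decide) (by norm_num)).nonneg 20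
    have hb := (s.hb 40 (by decide) (by norm_num)).nonneg 20
    exact mul_nonneg (Real.exp_pos _).le (by linarith)
  have hexp : Real.exp (-(20 * (80 * e))) = Real.exp (-(20 * (40 * e))) ^ 2 := by
    rw [← Real.exp_nat_mul]
    congr 1
    push_cast
    ring
  have hρ : pf 40 20 ^ 2 ≤ (11497 / 10000) ^ 2 * pf (2 * 40) 20 := by
    calc pf 40 20 ^ 2 ≤ (11497 / 10000 * Real.exp (-(20 * (40 * e)))) ^ 2 :=
          pow_le_pow_left₀ hP40 hP 2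
      _ = (11497 / 10000) ^ 2 * Real.exp (-(20 * (80 * e))) := by rw [hexp]; ring
      _ ≤ (11497 / 10000) ^ 2 * pf (2 * 40) 20 :=
          mul_le_mul_of_nonneg_left hP80 (by norm_num)
  have hcr := (hS.cross hlam (L := 40) (by decide) (by norm_num) hρ).1
  have hS40n : 0 ≤ pf 40 20 / s.lam 20 ^ 40 - 1 :=
    hS.S_nonneg (L := 40) (by decide) (by norm_num)
  have hS40 : pf 40 20 / s.lam 20 ^ 40 - 1 ≤ 1 := by
    have : ((11497 / 10000 : ℝ)) ^ 2 ≤ 2 := by norm_num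
    linarith
  -- lower bound of lam
  obtain ⟨k, hk⟩ : ∃ k : ℕ, k = 25000 := ⟨_, rfl⟩
  have hM : Even (40 * k) := (by decide : Even 40).mul_right k
  have hM4 : 4 ≤ 40 * k := by omega
  have hM6 : 40 * k ≤ 1000000 := by omega
  have hlow := lam_lower s hM hM4 h20
  have hEM := hE (40 * k) hM hM4 hM6
  have hSM : s.S (40 * k) 20 ≤ 1 := by
    have := hS.S_anti (L := 40) (L' := 40 * k) (by decide) (by norm_num) hM (by omega)
    exact le_trans this hS40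
  set w := Real.exp (-(20 * e)) with hw
  have hw0 : 0 < w := Real.exp_pos _
  have hwM : w ^ (40 * k) ≤ Real.exp (-(20 * s.E (40 * k))) := by
    rw [hw, ← Real.exp_nat_mul]
    apply Real.exp_le_exp.2
    linarith
  have hlamM : 0 < s.lam 20 ^ (40 * k) := pow_pos hlam _
  have h2 : w ^ (40 * k) ≤ 2 * s.lam 20 ^ (40 * k) := by
    calc w ^ (40 * k) ≤ s.lam 20 ^ (40 * k) * (1 + s.S (40 * k) 20) := le_trans hwM hlow
      _ ≤ s.lam 20 ^ (40 * k) * 2 := mul_le_mul_of_nonneg_left (by linarith) hlamM.le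
      _ = 2 * s.lam 20 ^ (40 * k) := by ring
  have h3 : 19999 / 20000 * w ^ 40 ≤ s.lam 20 ^ 40 := by
    by_contra hn
    push Not at hn
    have h4 : (s.lam 20 ^ 40) ^ k ≤ (19999 / 20000 * w ^ 40) ^ k :=
      pow_le_pow_left₀ (pow_nonneg hlam.le _) hn.le _
    rw [mul_pow, ← pow_mul, ← pow_mul] at h4
    have hw1 : 0 < w ^ (40 * k) := pow_pos hw0 _
    have h5 : (2 : ℝ) + 1 / 4 ≤ (1 + 1 / 20000 : ℝ) ^ k := by
      have h51 := one_add_mul_le_pow (a := (1 / 20000 : ℝ)) (by norm_num) k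
      have h52 : (k : ℝ) = 25000 := by rw [hk]; norm_num
      rw [h52] at h51
      linarith
    have h6 : ((19999 / 20000 : ℝ)) ^ k * (1 + 1 / 20000 : ℝ) ^ k ≤ 1 := by
      rw [← mul_pow]
      exact pow_le_one₀ (by norm_num) (by norm_num)
    have hc0 : (0 : ℝ) ≤ (19999 / 20000 : ℝ) ^ k := by positivity
    have h7 : (19999 / 20000 : ℝ) ^ k * (2 + 1 / 4) ≤ 1 :=
      le_trans (mul_le_mul_of_nonneg_left h5 hc0) h6
    generalize (19999 / 20000 : ℝ) ^ k = c at h4 h7 hc0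
    generalize w ^ (40 * k) = W at h4 hw1 h2
    generalize s.lam 20 ^ (40 * k) = Λ at h4 h2
    nlinarith
  have hS40b : pf 40 20 / s.lam 20 ^ 40 - 1 ≤ 15 / 100 := by
    have hl40 : 0 < s.lam 20 ^ 40 := pow_pos hlam _
    have e2 : Real.exp (-(20 * (40 * e))) = w ^ 40 := by
      rw [hw, ← Real.exp_nat_mul]
      congr 1
      push_cast
      ring
    rw [e2] at hP
    have hw40 : 0 < w ^ 40 := pow_pos hw0 _
    rw [sub_le_iff_le_add, div_le_iff₀ hl40]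
    linarith
  have hr := hS.S_rpow (L := 40) (L' := 52) (by decide) (by norm_num) (by decide) (by norm_num)
  have h8 : (pf 40 20 / s.lam 20 ^ 40 - 1) ^ (((52 : ℕ) : ℝ) / ((40 : ℕ) : ℝ)) ≤
      (15 / 100 : ℝ) ^ (((52 : ℕ) : ℝ) / ((40 : ℕ) : ℝ)) :=
    Real.rpow_le_rpow hS40n hS40b (by positivity)
  have h9 : (15 / 100 : ℝ) ^ (((52 : ℕ) : ℝ) / ((40 : ℕ) : ℝ)) ≤ 9 / 100 := by
    have h10 : ((15 / 100 : ℝ) ^ (((52 : ℕ) : ℝ) / ((40 : ℕ) : ℝ))) ^ 10 ≤ (9 / 100 : ℝ) ^ 10 := by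
      rw [← Real.rpow_natCast, ← Real.rpow_mul (by norm_num)]
      have e3 : ((52 : ℕ) : ℝ) / ((40 : ℕ) : ℝ) * ((10 : ℕ) : ℝ) = ((13 : ℕ) : ℝ) := by norm_num
      rw [e3, Real.rpow_natCast]
      norm_num
    exact le_of_pow_le_pow_left₀ (by norm_num) (by norm_num) h10
  exact le_trans hr (le_trans h8 h9)

theorem base_S (s : BulkSys P Q)
    (hE : ∀ L : ℕ, Even L → 4 ≤ L → L ≤ 1000000 → s.E L ≤ L * ev)
    (hP : P 40 20 ≤ 11497 / 10000 * Real.exp (-(20 * (40 * ev)))) : s.S 52 20 ≤ 9 / 100 :=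
  b1b_core s ev hE hP

end Crest.Agent.HG
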