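import Crest.Agent.HG_A4
import Crest.Agent.HG_A4b
import Crest.Agent.HG_A5
import Crest.Agent.HG_Ev

/-!
HG task Base1c (only base_R here): see below for the whole base computation.

Notation `P*(L,β) = P(L,β) exp(β L ev)` etc. (`ub*` theorems: `P*(40,7) ≤ 1.3667`,
`Q*(40,7) ≤ .9243`, `P*(104,7) ≤ 2.1587`, `Q*(104,7) ≤ .7772`, `P*(40,10) ≤ 1.3547`,
`P*(104,10) ≤ 1.298`). `T0 = (P+3Q)/4 = e^{-βE}(1+a)`; `E(L) ≤ L ev` by `hE`.
 * `a(104,7) ≤ T0*(104,7) - 1 ≤ .12258` (as `E ≤ 104 ev`), `a(104,10) ≤ .12258^(10/7) ≤ .054`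
   (`PS.rpow`; `.12258^10 ≤ .054^7`); `b(104,10) ≤ (P*(104,10)-1)/3 ≤ .0994`.
 * `exp(-7(E(40)-40ev)) ≤ T0*(40,7) ≤ τ = 1.0349`, so `exp(-20(E(40)-40ev)) ≤ τ^(20/7) ≤ 1.1031`;
   `a(40,20) ≤ (τ-1)^(20/7) ≤ 1e-4`; `b(40,20) ≤ b(40,10)² ≤ (.3547/3)² ≤ .014`.
   So `P(40,20) ≤ 1.1497 exp(-800 ev)`, `Q(40,20) ≤ exp(-20E(40))(1+a) ≤ 1.1033 exp(-800 ev)`.
 * S: `SpW.cross` at `L=40, β=20` with `P(80,20) ≥ exp(-20E(80)) ≥ exp(-1600 ev)`: `1+S(40,20) ≤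
   1.1497² < 2`. `lam_lower` with `M = 10^6`: `exp(-20·10^6 ev) ≤ lam(20)^(10^6)·(1+S(10^6,20)) ≤ 2 lam^(10^6)`
   (`S_anti`), so `(lam/exp(-20ev))^40 ≥ (1/2)^(40/10^6) ≥ 1 - 1/20000`. Hence
   `S(40,20) = P(40,20)/lam^40 - 1 ≤ .15` and `S(52,20) ≤ .15^(52/40) ≤ .09` (`S_rpow`;
   `.15^13 ≤ .09^10`).
 * R: `SpW.cross`: `1+R(40,20) ≤ Q(40,20)²/Q(80,20) ≤ 1.1033²/(1-b(80,20)) ≤ 1.2522`
   (`b(80,10) ≤ t(80,10)/3 ≤ 1/6`, `b(80,20) ≤ 1/36`); `lamZ(20)^104 (1+R(104,20)) = Q(104,20) ≥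
   exp(-2080 ev)(1-b(104,20))`, `b(104,20) ≤ .0994² ≤ .0099`, `R(104,20) ≤ R(40,20)^(2.6) ≤ .2522^2.6 ≤ .0278`.
   So `1+R(40,20) = Q(40,20)/lamZ^40 ≤ 1.1033 ((1.0278)/(.9901))^(40/104) ≤ 1.1195`, `R(52,20) ≤
   .1195^1.3 ≤ .065 ≤ .09`.
 * `t(L,10) ≤ P*(L,10) - 1 ≤ 1/2` for even `60 ≤ L ≤ 104` (`ubP_L_10`).
-/

set_option autoImplicit false

namespace Crest.Agent.HG

private theorem b1c_rpow {a b : ℝ} {L L' m n : ℕ} (ha : 0 ≤ a) (hb : 0 ≤ b) (hn : n ≠ 0)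
    (hL : L ≠ 0) (hm : L' * n = L * m) (h : a ^ m ≤ b ^ n) : a ^ ((L' : ℝ) / (L : ℝ)) ≤ b := by
  have hL0 : (L : ℝ) ≠ 0 := by exact_mod_cast hL
  have e1 : (a ^ ((L' : ℝ) / (L : ℝ))) ^ n = a ^ m := by
    rw [← Real.rpow_natCast, ← Real.rpow_mul ha, ← Real.rpow_natCast a m]
    congr 1
    have : (L' : ℝ) * n = L * m := by exact_mod_cast hm
    field_simp
    linarith
  refine le_of_pow_le_pow_left₀ hn hb ?_
  rw [e1]
  exact h

theorem base_R (s : BulkSys P Q)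
    (hE : ∀ L : ℕ, Even L → 4 ≤ L → L ≤ 1000000 → s.E L ≤ L * ev)
    (hQ : Q 40 20 ≤ 11033 / 10000 * Real.exp (-(20 * (40 * ev))))
    (hb : s.b 104 10 ≤ 994 / 10000) (hb80 : s.t 80 10 ≤ 1 / 2) : s.R 52 20 ≤ 9 / 100 := by
  have h20 : (0 : ℝ) < 20 := by norm_num
  have hlam := s.hlamZ 20 h20
  have hR := s.hR 20 h20
  set e : ℝ := Real.exp (-(20 * ev)) with he
  have he0 : 0 < e := Real.exp_pos _
  have hek : ∀ k : ℕ, Real.exp (-(20 * (k * ev))) = e ^ k := by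
    intro k
    rw [he, ← Real.exp_nat_mul]
    congr 1
    ring
  -- lower bounds of Q
  have hQlow : ∀ L : ℕ, Even L → 4 ≤ L → L ≤ 1000000 → ∀ β₀ : ℝ, s.b L 20 ≤ β₀ → β₀ ≤ 1 →
      e ^ L * (1 - β₀) ≤ Q L 20 := by
    intro L hL hL4 hL6 β₀ hb1 hb2
    rw [s.hQ L hL hL4 20]
    have h1 := hE L hL hL4 hL6
    have h2 : e ^ L ≤ Real.exp (-(20 * s.E L)) := by
      rw [← hek]
      apply Real.exp_le_exp.mpr
      linarith
    have ha := (s.ha L hL hL4).nonneg 20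
    have h3 : 1 - β₀ ≤ 1 + s.a L 20 - s.b L 20 := by linarith
    exact mul_le_mul h2 h3 (by linarith) (Real.exp_pos _).le
  have hb80' : s.b 80 20 ≤ 1 / 36 := by
    have h1 := (s.hb 80 (by decide) (by norm_num)).two 10
    have h2 := (s.hb 80 (by decide) (by norm_num)).nonneg 10
    have h3 := (s.ha 80 (by decide) (by norm_num)).nonneg 10
    have h4 : s.b 80 10 ≤ 1 / 6 := by
      unfold BulkSys.t at hb80
      linarith
    norm_num at h1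
    nlinarith
  have hb104' : s.b 104 20 ≤ 99 / 10000 := by
    have h1 := (s.hb 104 (by decide) (by norm_num)).two 10
    have h2 := (s.hb 104 (by decide) (by norm_num)).nonneg 10
    norm_num at h1
    nlinarith
  have hq80 := hQlow 80 (by decide) (by norm_num) (by norm_num) (1 / 36) hb80' (by norm_num)
  have hq104 := hQlow 104 (by decide) (by norm_num) (by norm_num) (99 / 10000) hb104' (by norm_num)
  have hq40 : Q 40 20 ≤ 11033 / 10000 * e ^ 40 := by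
    have := hek 40
    push_cast at this
    rw [← this]
    exact hQ
  have hR40 : s.R 40 20 = Q 40 20 / s.lamZ 20 ^ 40 - 1 := rfl
  have hR52 : s.R 52 20 = Q 52 20 / s.lamZ 20 ^ 52 - 1 := rfl
  have hR104 : s.R 104 20 = Q 104 20 / s.lamZ 20 ^ 104 - 1 := rfl
  have hR40n : 0 ≤ s.R 40 20 := hR.S_nonneg (L := 40) (by decide) (by norm_num)
  have hR104n : 0 ≤ s.R 104 20 := hR.S_nonneg (L := 104) (by decide) (by norm_num)
  have hq40n : 0 ≤ Q 40 20 := by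
    have hl : 0 < s.lamZ 20 ^ 40 := pow_pos hlam _
    have h1 : 0 ≤ Q 40 20 / s.lamZ 20 ^ 40 := by
      rw [hR40] at hR40n
      linarith
    by_contra hn
    push Not at hn
    have := div_neg_of_neg_of_pos hn hl
    linarith
  -- first bound of R 40
  have hc1 : s.R 40 20 ≤ 2521 / 10000 := by
    have h1 := (hR.cross hlam (L := 40) (by decide) (by norm_num) (ρ := 12521 / 10000) (by
      show Q 40 20 ^ 2 ≤ 12521 / 10000 * Q (2 * 40) 20
      have h2 : Q 40 20 ^ 2 ≤ (11033 / 10000 * e ^ 40) ^ 2 := pow_le_pow_left₀ hq40n hq40 2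
      have h3 : (11033 / 10000 * e ^ 40) ^ 2 = (11033 / 10000) ^ 2 * e ^ 80 := by ring
      have h4 : 0 < e ^ 80 := pow_pos he0 _
      norm_num at hq80 h3 h2 ⊢
      rw [h3] at h2
      nlinarith)).1
    rw [hR40]
    linarith
  have hc2 : s.R 104 20 ≤ 28 / 1000 := by
    have h1 := hR.S_rpow (L := 40) (L' := 104) (by decide) (by norm_num) (by decide) (by norm_num)
    refine (show s.R 104 20 ≤ (s.R 40 20) ^ (((104 : ℕ) : ℝ) / ((40 : ℕ) : ℝ)) from h1).trans ?_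
    refine b1c_rpow (m := 13) (n := 5) hR40n (by norm_num) (by norm_num) (by norm_num) (by norm_num) ?_
    refine (pow_le_pow_left₀ hR40n hc1 13).trans ?_
    norm_num
  -- lower bound of lamZ
  set y : ℝ := e / s.lamZ 20 with hy
  have hy0 : 0 < y := div_pos he0 hlam
  have hy104 : y ^ 104 ≤ 10383 / 10000 := by
    have hl : 0 < s.lamZ 20 ^ 104 := pow_pos hlam _
    have h1 : Q 104 20 = s.lamZ 20 ^ 104 * (1 + s.R 104 20) := by
      rw [hR104]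
      field_simp
      ring
    rw [hy, div_pow, div_le_iff₀ hl]
    rw [h1] at hq104
    have h2 : s.lamZ 20 ^ 104 * (1 + s.R 104 20) ≤ s.lamZ 20 ^ 104 * (1028 / 1000) :=
      mul_le_mul_of_nonneg_left (by linarith) hl.le
    have h3 : e ^ 104 * (1 - 99 / 10000) ≤ s.lamZ 20 ^ 104 * (1028 / 1000) := hq104.trans h2
    norm_num at h3
    linarith
  have hy40 : y ^ 40 ≤ 10147 / 10000 := by
    by_contra hn
    push Not at hn
    have h1 : (10147 / 10000 : ℝ) ^ 13 < (y ^ 40) ^ 13 := pow_lt_pow_left₀ hn (by norm_num) (by norm_num)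
    have h2 : (y ^ 40) ^ 13 = (y ^ 104) ^ 5 := by rw [← pow_mul, ← pow_mul]
    have h3 : (y ^ 104) ^ 5 ≤ (10383 / 10000) ^ 5 := pow_le_pow_left₀ (pow_nonneg hy0.le _) hy104 5
    rw [h2] at h1
    have h4 := h1.trans_le h3
    norm_num at h4
  have hc3 : s.R 40 20 ≤ 1196 / 10000 := by
    have hl : 0 < s.lamZ 20 ^ 40 := pow_pos hlam _
    have h1 : Q 40 20 / s.lamZ 20 ^ 40 ≤ 11033 / 10000 * y ^ 40 := by
      rw [hy, div_pow, ← mul_div_assoc]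
      exact div_le_div_of_nonneg_right hq40 hl.le
    rw [hR40]
    have h2 : 11033 / 10000 * y ^ 40 ≤ 11033 / 10000 * (10147 / 10000) :=
      mul_le_mul_of_nonneg_left hy40 (by norm_num)
    norm_num at h2 h1 ⊢
    linarith
  have h1 := hR.S_rpow (L := 40) (L' := 52) (by decide) (by norm_num) (by decide) (by norm_num)
  refine (show s.R 52 20 ≤ (s.R 40 20) ^ (((52 : ℕ) : ℝ) / ((40 : ℕ) : ℝ)) from h1).trans ?_
  refine b1c_rpow (m := 13) (n := 10) hR40n (by norm_num) (by norm_num) (by norm_num) (by norm_num) ?_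
  refine (pow_le_pow_left₀ hR40n hc3 13).trans ?_
  norm_num

end Crest.Agent.HG
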