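import Crest.Agent.HG_Base1a
import Crest.Agent.HG_Base1b
import Crest.Agent.HG_Base1c

set_option autoImplicit false

namespace Crest.Agent.HG

theorem base_bulk (s : BulkSys P Q) (hK7 : RepK 7) (hK10 : RepK 10) (hZ7 : RepZ 7)
    (hE : ∀ L : ℕ, Even L → 4 ≤ L → L ≤ 1000000 → s.E L ≤ L * ev) :
    BState s 52 10 (27 / 500) (41 / 400) (9 / 100) := by
  obtain ⟨h1, h2, h3, h4⟩ := base_ab s hK7 hK10 hZ7 hE
  have h80 := base60 s hK10 hE 80 (by decide) (by norm_num) (by norm_num)
  refine ⟨?_, ?_, ?_, ?_⟩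
  · simpa using h1
  · have : s.b 104 10 ≤ 41 / 400 := by linarith
    simpa using this
  · have := base_S s hE h3
    norm_num at this ⊢
    exact this
  · have := base_R s hE h4 h2 h80
    norm_num at this ⊢
    exact this

end Crest.Agent.HG
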