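import Mathlib

/-!
HG part C: enclosures of `exp (n / 100)`.
-/

set_option autoImplicit false
set_option exponentiation.threshold 2000

namespace Crest.Agent.HG

theorem exp_cent : (10100501670841680575 / 10 ^ 19 : ℝ) ≤ Real.exp (1 / 100) ∧
    Real.exp (1 / 100) ≤ 10100501670841680576 / 10 ^ 19 := by
  constructor
  · refine le_trans ?_ (Real.sum_le_exp_of_nonneg (by norm_num) 9)
    simp only [Finset.sum_range_succ, Finset.sum_range_zero, Nat.factorial]
    norm_num
  · refine le_trans (Real.exp_bound' (by norm_num) (by norm_num) (n := 9) (by norm_num)) ?_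
    simp only [Finset.sum_range_succ, Finset.sum_range_zero, Nat.factorial]
    norm_num

theorem exp_cent_pow (n : ℕ) : (10100501670841680575 / 10 ^ 19 : ℝ) ^ n ≤ Real.exp (n / 100) ∧
    Real.exp (n / 100) ≤ (10100501670841680576 / 10 ^ 19) ^ n := by
  have h : Real.exp ((n : ℝ) / 100) = Real.exp (1 / 100) ^ n := by
    rw [← Real.exp_nat_mul]; congr 1; ring
  rw [h]
  exact ⟨pow_le_pow_left₀ (by norm_num) exp_cent.1 n,
    pow_le_pow_left₀ (Real.exp_pos _).le exp_cent.2 n⟩

theorem exC28 : |Real.exp ((28 : ℕ) / 100) - 132312981233744 / 10 ^ 14| ≤ 1 / 10 ^ 12 := by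
  have h := exp_cent_pow 28
  rw [abs_le]
  constructor
  · refine le_trans ?_ (sub_le_sub_right h.1 _); norm_num
  · refine le_trans (sub_le_sub_right h.2 _) ?_; norm_num

theorem exC40 : |Real.exp ((40 : ℕ) / 100) - 149182469764127 / 10 ^ 14| ≤ 1 / 10 ^ 12 := by
  have h := exp_cent_pow 40
  rw [abs_le]
  constructor
  · refine le_trans ?_ (sub_le_sub_right h.1 _); norm_num
  · refine le_trans (sub_le_sub_right h.2 _) ?_; norm_num

theorem exC112 : |Real.exp ((112 : ℕ) / 100) - 306485420329300 / 10 ^ 14| ≤ 1 / 10 ^ 12 := by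
  have h := exp_cent_pow 112
  rw [abs_le]
  constructor
  · refine le_trans ?_ (sub_le_sub_right h.1 _); norm_num
  · refine le_trans (sub_le_sub_right h.2 _) ?_; norm_num

theorem exC133 : |Real.exp ((133 : ℕ) / 100) - 378104338756878 / 10 ^ 14| ≤ 1 / 10 ^ 12 := by
  have h := exp_cent_pow 133
  rw [abs_le]
  constructor
  · refine le_trans ?_ (sub_le_sub_right h.1 _); norm_num
  · refine le_trans (sub_le_sub_right h.2 _) ?_; norm_num

theorem exC160 : |Real.exp ((160 : ℕ) / 100) - 495303242439511 / 10 ^ 14| ≤ 1 / 10 ^ 12 := by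
  have h := exp_cent_pow 160
  rw [abs_le]
  constructor
  · refine le_trans ?_ (sub_le_sub_right h.1 _); norm_num
  · refine le_trans (sub_le_sub_right h.2 _) ?_; norm_num

theorem exC168 : |Real.exp ((168 : ℕ) / 100) - 536555597112197 / 10 ^ 14| ≤ 1 / 10 ^ 12 := by
  have h := exp_cent_pow 168
  rw [abs_le]
  constructor
  · refine le_trans ?_ (sub_le_sub_right h.1 _); norm_num
  · refine le_trans (sub_le_sub_right h.2 _) ?_; norm_num

theorem exC190 : |Real.exp ((190 : ℕ) / 100) - 668589444227927 / 10 ^ 14| ≤ 1 / 10 ^ 12 := by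
  have h := exp_cent_pow 190
  rw [abs_le]
  constructor
  · refine le_trans ?_ (sub_le_sub_right h.1 _); norm_num
  · refine le_trans (sub_le_sub_right h.2 _) ?_; norm_num

theorem exC203 : |Real.exp ((203 : ℕ) / 100) - 761408635877997 / 10 ^ 14| ≤ 1 / 10 ^ 12 := by
  have h := exp_cent_pow 203
  rw [abs_le]
  constructor
  · refine le_trans ?_ (sub_le_sub_right h.1 _); norm_num
  · refine le_trans (sub_le_sub_right h.2 _) ?_; norm_num

theorem exC240 : |Real.exp ((240 : ℕ) / 100) - 1102317638064160 / 10 ^ 14| ≤ 1 / 10 ^ 12 := by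
  have h := exp_cent_pow 240
  rw [abs_le]
  constructor
  · refine le_trans ?_ (sub_le_sub_right h.1 _); norm_num
  · refine le_trans (sub_le_sub_right h.2 _) ?_; norm_num

theorem exC252 : |Real.exp ((252 : ℕ) / 100) - 1242859666357754 / 10 ^ 14| ≤ 1 / 10 ^ 12 := by
  have h := exp_cent_pow 252
  rw [abs_le]
  constructor
  · refine le_trans ?_ (sub_le_sub_right h.1 _); norm_num
  · refine le_trans (sub_le_sub_right h.2 _) ?_; norm_num

theorem exC273 : |Real.exp ((273 : ℕ) / 100) - 1533288701990720 / 10 ^ 14| ≤ 1 / 10 ^ 12 := by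
  have h := exp_cent_pow 273
  rw [abs_le]
  constructor
  · refine le_trans ?_ (sub_le_sub_right h.1 _); norm_num
  · refine le_trans (sub_le_sub_right h.2 _) ?_; norm_num

theorem exC280 : |Real.exp ((280 : ℕ) / 100) - 1644464677109705 / 10 ^ 14| ≤ 1 / 10 ^ 12 := by
  have h := exp_cent_pow 280
  rw [abs_le]
  constructor
  · refine le_trans ?_ (sub_le_sub_right h.1 _); norm_num
  · refine le_trans (sub_le_sub_right h.2 _) ?_; norm_num

theorem exC290 : |Real.exp ((290 : ℕ) / 100) - 1817414536944306 / 10 ^ 14| ≤ 1 / 10 ^ 12 := by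
  have h := exp_cent_pow 290
  rw [abs_le]
  constructor
  · refine le_trans ?_ (sub_le_sub_right h.1 _); norm_num
  · refine le_trans (sub_le_sub_right h.2 _) ?_; norm_num

theorem exC308 : |Real.exp ((308 : ℕ) / 100) - 2175840239619708 / 10 ^ 14| ≤ 1 / 10 ^ 12 := by
  have h := exp_cent_pow 308
  rw [abs_le]
  constructor
  · refine le_trans ?_ (sub_le_sub_right h.1 _); norm_num
  · refine le_trans (sub_le_sub_right h.2 _) ?_; norm_num

theorem exC343 : |Real.exp ((343 : ℕ) / 100) - 3087664274967704 / 10 ^ 14| ≤ 1 / 10 ^ 12 := by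
  have h := exp_cent_pow 343
  rw [abs_le]
  constructor
  · refine le_trans ?_ (sub_le_sub_right h.1 _); norm_num
  · refine le_trans (sub_le_sub_right h.2 _) ?_; norm_num

theorem exC360 : |Real.exp ((360 : ℕ) / 100) - 3659823444367799 / 10 ^ 14| ≤ 1 / 10 ^ 12 := by
  have h := exp_cent_pow 360
  rw [abs_le]
  constructor
  · refine le_trans ?_ (sub_le_sub_right h.1 _); norm_num
  · refine le_trans (sub_le_sub_right h.2 _) ?_; norm_num

theorem exC390 : |Real.exp ((390 : ℕ) / 100) - 4940244910553017 / 10 ^ 14| ≤ 1 / 10 ^ 12 := by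
  have h := exp_cent_pow 390
  rw [abs_le]
  constructor
  · refine le_trans ?_ (sub_le_sub_right h.1 _); norm_num
  · refine le_trans (sub_le_sub_right h.2 _) ?_; norm_num

theorem exC400 : |Real.exp ((400 : ℕ) / 100) - 5459815003314424 / 10 ^ 14| ≤ 1 / 10 ^ 12 := by
  have h := exp_cent_pow 400
  rw [abs_le]
  constructor
  · refine le_trans ?_ (sub_le_sub_right h.1 _); norm_num
  · refine le_trans (sub_le_sub_right h.2 _) ?_; norm_num

theorem exC413 : |Real.exp ((413 : ℕ) / 100) - 6217792293476080 / 10 ^ 14| ≤ 1 / 10 ^ 12 := by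
  have h := exp_cent_pow 413
  rw [abs_le]
  constructor
  · refine le_trans ?_ (sub_le_sub_right h.1 _); norm_num
  · refine le_trans (sub_le_sub_right h.2 _) ?_; norm_num

theorem exC420 : |Real.exp ((420 : ℕ) / 100) - 6668633104092514 / 10 ^ 14| ≤ 1 / 10 ^ 12 := by
  have h := exp_cent_pow 420
  rw [abs_le]
  constructor
  · refine le_trans ?_ (sub_le_sub_right h.1 _); norm_num
  · refine le_trans (sub_le_sub_right h.2 _) ?_; norm_num

theorem exC440 : |Real.exp ((440 : ℕ) / 100) - 8145086866496812 / 10 ^ 14| ≤ 1 / 10 ^ 12 := by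
  have h := exp_cent_pow 440
  rw [abs_le]
  constructor
  · refine le_trans ?_ (sub_le_sub_right h.1 _); norm_num
  · refine le_trans (sub_le_sub_right h.2 _) ?_; norm_num

theorem exC483 : |Real.exp ((483 : ℕ) / 100) - 12521096065476520 / 10 ^ 14| ≤ 1 / 10 ^ 12 := by
  have h := exp_cent_pow 483
  rw [abs_le]
  constructor
  · refine le_trans ?_ (sub_le_sub_right h.1 _); norm_num
  · refine le_trans (sub_le_sub_right h.2 _) ?_; norm_num

theorem exC490 : |Real.exp ((490 : ℕ) / 100) - 13428977968493548 / 10 ^ 14| ≤ 1 / 10 ^ 12 := by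
  have h := exp_cent_pow 490
  rw [abs_le]
  constructor
  · refine le_trans ?_ (sub_le_sub_right h.1 _); norm_num
  · refine le_trans (sub_le_sub_right h.2 _) ?_; norm_num

theorem exC553 : |Real.exp ((553 : ℕ) / 100) - 25214391102351273 / 10 ^ 14| ≤ 1 / 10 ^ 12 := by
  have h := exp_cent_pow 553
  rw [abs_le]
  constructor
  · refine le_trans ?_ (sub_le_sub_right h.1 _); norm_num
  · refine le_trans (sub_le_sub_right h.2 _) ?_; norm_num

theorem exC560 : |Real.exp ((560 : ℕ) / 100) - 27042640742615262 / 10 ^ 14| ≤ 1 / 10 ^ 12 := by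
  have h := exp_cent_pow 560
  rw [abs_le]
  constructor
  · refine le_trans ?_ (sub_le_sub_right h.1 _); norm_num
  · refine le_trans (sub_le_sub_right h.2 _) ?_; norm_num

theorem exC590 : |Real.exp ((590 : ℕ) / 100) - 36503746786532877 / 10 ^ 14| ≤ 1 / 10 ^ 12 := by
  have h := exp_cent_pow 590
  rw [abs_le]
  constructor
  · refine le_trans ?_ (sub_le_sub_right h.1 _); norm_num
  · refine le_trans (sub_le_sub_right h.2 _) ?_; norm_num

theorem exC600 : |Real.exp ((600 : ℕ) / 100) - 40342879349273511 / 10 ^ 14| ≤ 1 / 10 ^ 12 := by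
  have h := exp_cent_pow 600
  rw [abs_le]
  constructor
  · refine le_trans ?_ (sub_le_sub_right h.1 _); norm_num
  · refine le_trans (sub_le_sub_right h.2 _) ?_; norm_num

theorem exC690 : |Real.exp ((690 : ℕ) / 100) - 99227471560502585 / 10 ^ 14| ≤ 1 / 10 ^ 12 := by
  have h := exp_cent_pow 690
  rw [abs_le]
  constructor
  · refine le_trans ?_ (sub_le_sub_right h.1 _); norm_num
  · refine le_trans (sub_le_sub_right h.2 _) ?_; norm_num

theorem exC790 : |Real.exp ((790 : ℕ) / 100) - 269728232826850876 / 10 ^ 14| ≤ 1 / 10 ^ 12 := by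
  have h := exp_cent_pow 790
  rw [abs_le]
  constructor
  · refine le_trans ?_ (sub_le_sub_right h.1 _); norm_num
  · refine le_trans (sub_le_sub_right h.2 _) ?_; norm_num

theorem exC800 : |Real.exp ((800 : ℕ) / 100) - 298095798704172818 / 10 ^ 14| ≤ 1 / 10 ^ 12 := by
  have h := exp_cent_pow 800
  rw [abs_le]
  constructor
  · refine le_trans ?_ (sub_le_sub_right h.1 _); norm_num
  · refine le_trans (sub_le_sub_right h.2 _) ?_; norm_num

/-- final combination: `E ≈ exp y`, `W ≈ T` -/
theorem fin_comb {x T E W ε δ c tol : ℝ} (hE : |x - E| ≤ ε) (hW : |T - W| ≤ δ)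
    (h : (|E| + ε) * δ + ε * |W| + |E * W - c| ≤ tol) : |x * T - c| ≤ tol := by
  have h1 : x * T - c = x * (T - W) + (x - E) * W + (E * W - c) := by ring
  have hx : |x| ≤ |E| + ε := by
    have : x = E + (x - E) := by ring
    calc |x| = |E + (x - E)| := by rw [← this]
      _ ≤ |E| + |x - E| := abs_add_le _ _
      _ ≤ |E| + ε := by linarith
  have hε : 0 ≤ ε := le_trans (abs_nonneg _) hE
  have hδ : 0 ≤ δ := le_trans (abs_nonneg _) hW
  rw [h1]
  calc |x * (T - W) + (x - E) * W + (E * W - c)|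
      ≤ |x * (T - W)| + |(x - E) * W| + |E * W - c| := abs_add_three _ _ _
    _ = |x| * |T - W| + |x - E| * |W| + |E * W - c| := by rw [abs_mul, abs_mul]
    _ ≤ (|E| + ε) * δ + ε * |W| + |E * W - c| := by
        have h2 : |x| * |T - W| ≤ (|E| + ε) * δ :=
          mul_le_mul hx hW (abs_nonneg _) (by positivity)
        have h3 : |x - E| * |W| ≤ ε * |W| := mul_le_mul_of_nonneg_right hE (abs_nonneg _)
        linarith
    _ ≤ tol := h

end Crest.Agent.HG
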