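import Mathlib
import Crest.Agent.HG_CC
import Crest.Agent.HGB_Tens

/-!
HG-CH3: the half-chain (spins one-half at both ends) is `c + ρ A` for the integer machine.
-/

set_option autoImplicit false

namespace Crest.Agent.HG
open Matrix Crest.MathPhysics.SpinChain

/-- entries of the spin-one operators, in terms of the index (`m = 1 - index`) -/
private theorem CH3_pair (a b c d : Fin 3) :
    ∑ α : Fin 3, spinOp α a c * spinOp α b d =
      (((if a = c ∧ b = d then (1 - (a : ℤ)) * (1 - (b : ℤ)) else 0) +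
        (if ((a : ℕ) + 1 = c ∧ (b : ℕ) = d + 1) ∨ ((a : ℕ) = c + 1 ∧ (b : ℕ) + 1 = d) then 1 else 0) : ℤ) : ℂ) := by
  set P : Fin 3 → Fin 3 → ℂ := fun i j => if j.val = i.val + 1 then ((Real.sqrt 2 : ℝ) : ℂ) else 0 with hP
  have hplus : ∀ i j, spinPlus i j = P i j := fun i j => rfl
  have hstar : ∀ i j, star (P i j) = P i j := by
    intro i j
    simp only [hP]
    split_ifs
    · exact Complex.conj_ofReal _
    · exact star_zero _
  have hminus : ∀ i j, spinMinus i j = P j i := by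
    intro i j
    unfold spinMinus
    rw [Matrix.conjTranspose_apply, hplus, hstar]
  have hx : ∀ i j, spinOp 0 i j = (1 / 2) * (P i j + P j i) := by
    intro i j
    show spinX i j = _
    unfold spinX
    rw [Matrix.smul_apply, Matrix.add_apply, hplus, hminus, smul_eq_mul]
  have hy : ∀ i j, spinOp 1 i j = (1 / (2 * Complex.I)) * (P i j - P j i) := by
    intro i j
    show spinY i j = _
    unfold spinY
    rw [Matrix.smul_apply, Matrix.sub_apply, hplus, hminus, smul_eq_mul]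
  have hz : ∀ i j : Fin 3, spinOp 2 i j = if i = j then ((1 - (i : ℤ) : ℤ) : ℂ) else 0 := by
    intro i j
    show spinZ i j = _
    unfold spinZ
    rw [Matrix.diagonal_apply]
    rfl
  have hI : (1 / (2 * Complex.I)) * (1 / (2 * Complex.I)) = -(1 / 4) := by
    field_simp
    rw [Complex.I_sq]
    norm_num
  have hPP : ∀ i j k l : Fin 3, P i j * P k l =
      if ((i : ℕ) + 1 = j ∧ (k : ℕ) + 1 = l) then 2 else 0 := by
    intro i j k l
    simp only [hP]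
    have h2 : ((Real.sqrt 2 : ℝ) : ℂ) * ((Real.sqrt 2 : ℝ) : ℂ) = 2 := by
      rw [← Complex.ofReal_mul, Real.mul_self_sqrt (by norm_num)]
      norm_num
    by_cases h1 : (j : ℕ) = i + 1
    · by_cases h3 : (l : ℕ) = k + 1
      · rw [if_pos h1, if_pos h3, if_pos ⟨h1.symm, h3.symm⟩, h2]
      · rw [if_neg h3, mul_zero, if_neg]
        exact fun h => h3 h.2.symm
    · rw [if_neg h1, zero_mul, if_neg]
      exact fun h => h1 h.1.symm
  have hxy : spinOp 0 a c * spinOp 0 b d + spinOp 1 a c * spinOp 1 b d =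
      (1 / 2) * (P a c * P d b) + (1 / 2) * (P c a * P b d) := by
    rw [hx, hx, hy, hy]
    linear_combination ((P a c - P c a) * (P b d - P d b)) * hI
  have hzz : spinOp 2 a c * spinOp 2 b d =
      if a = c ∧ b = d then (((1 - (a : ℤ)) * (1 - (b : ℤ)) : ℤ) : ℂ) else 0 := by
    rw [hz, hz]
    by_cases h1 : a = c
    · by_cases h2 : b = d
      · rw [if_pos h1, if_pos h2, if_pos ⟨h1, h2⟩]
        push_cast
        ring
      · rw [if_neg h2, mul_zero, if_neg]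
        exact fun h => h2 h.2
    · rw [if_neg h1, zero_mul, if_neg]
      exact fun h => h1 h.1
  have hfin : (1 / 2 : ℂ) * (P a c * P d b) + (1 / 2) * (P c a * P b d) =
      if ((a : ℕ) + 1 = c ∧ (b : ℕ) = d + 1) ∨ ((a : ℕ) = c + 1 ∧ (b : ℕ) + 1 = d) then 1 else 0 := by
    rw [hPP, hPP]
    by_cases h1 : (a : ℕ) + 1 = c ∧ (b : ℕ) = d + 1
    · have h2 : ¬ ((c : ℕ) + 1 = a ∧ (b : ℕ) + 1 = d) := by omega
      rw [if_pos ⟨h1.1, h1.2.symm⟩, if_neg h2, if_pos (Or.inl h1)]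
      norm_num
    · by_cases h3 : (a : ℕ) = c + 1 ∧ (b : ℕ) + 1 = d
      · have h4 : ¬ ((a : ℕ) + 1 = c ∧ (d : ℕ) + 1 = b) := by omega
        rw [if_neg h4, if_pos ⟨h3.1.symm, h3.2⟩, if_pos (Or.inr h3)]
        norm_num
      · have h4 : ¬ ((a : ℕ) + 1 = c ∧ (d : ℕ) + 1 = b) := fun h => h1 ⟨h.1, h.2.symm⟩
        have h5 : ¬ ((c : ℕ) + 1 = a ∧ (b : ℕ) + 1 = d) := fun h => h3 ⟨h.1.symm, h.2⟩
        have h6 : ¬ (((a : ℕ) + 1 = c ∧ (b : ℕ) = d + 1) ∨ ((a : ℕ) = c + 1 ∧ (b : ℕ) + 1 = d)) := by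
          rintro (h | h)
          · exact h1 h
          · exact h3 h
        rw [if_neg h4, if_neg h5, if_neg h6]
        norm_num
  rw [Fin.sum_univ_three, hxy, hzz, hfin]
  push_cast
  ring

/-- entries of a bond -/
private theorem CH3_bond {n : ℕ} (j k : Fin n) (hjk : j ≠ k) (σ τ : Fin n → Fin 3) :
    bond j k σ τ = ((((if σ = τ then (1 - (σ j : ℤ)) * (1 - (σ k : ℤ)) else 0) +
      (if (∀ i, i ≠ j → i ≠ k → σ i = τ i) ∧
        (((σ j : ℕ) + 1 = τ j ∧ (σ k : ℕ) = τ k + 1) ∨ ((σ j : ℕ) = τ j + 1 ∧ (σ k : ℕ) + 1 = τ k))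
        then 1 else 0)) : ℤ) : ℂ) := by
  have hent : ∀ α : Fin 3, (onSite (spinOp α) j * onSite (spinOp α) k) σ τ =
      (if ∀ i, i ≠ j → i ≠ k → σ i = τ i then (1:ℂ) else 0) *
        (spinOp α (σ j) (τ j) * spinOp α (σ k) (τ k)) := by
    intro α
    rw [HGB.onSite_mul_onSite _ _ hjk]
    simp only [HGB.tens, Matrix.of_apply]
    have hk : k ∈ (Finset.univ.erase j : Finset (Fin n)) := Finset.mem_erase.mpr ⟨hjk.symm, Finset.mem_univ _⟩
    rw [← Finset.mul_prod_erase Finset.univ _ (Finset.mem_univ j), ← Finset.mul_prod_erase _ _ hk,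
      Function.update_self, Function.update_of_ne hjk, Function.update_self]
    have h1 : ∏ x ∈ (Finset.univ.erase j).erase k,
        (Function.update (Function.update (fun _ : Fin n => (1 : Matrix (Fin 3) (Fin 3) ℂ)) j (spinOp α)) k
          (spinOp α) x) (σ x) (τ x) =
        if ∀ i, i ≠ j → i ≠ k → σ i = τ i then (1:ℂ) else 0 := by
      have h2 : ∏ x ∈ (Finset.univ.erase j).erase k,
        (Function.update (Function.update (fun _ : Fin n => (1 : Matrix (Fin 3) (Fin 3) ℂ)) j (spinOp α)) k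
          (spinOp α) x) (σ x) (τ x) = ∏ x ∈ (Finset.univ.erase j).erase k, if σ x = τ x then (1:ℂ) else 0 := by
        refine Finset.prod_congr rfl fun x hx => ?_
        rw [Finset.mem_erase, Finset.mem_erase] at hx
        rw [Function.update_of_ne hx.1, Function.update_of_ne hx.2.1, Matrix.one_apply]
      rw [h2, Finset.prod_ite_zero]
      simp only [Finset.prod_const_one]
      refine if_congr ?_ rfl rfl
      constructor
      · intro h i hi hi'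
        exact h i (Finset.mem_erase.mpr ⟨hi', Finset.mem_erase.mpr ⟨hi, Finset.mem_univ _⟩⟩)
      · intro h i hi
        rw [Finset.mem_erase, Finset.mem_erase] at hi
        exact h i hi.2.1 hi.1
    rw [h1]
    ring
  unfold bond
  rw [Matrix.sum_apply]
  simp only [hent]
  rw [← Finset.mul_sum, CH3_pair]
  by_cases hoff : ∀ i, i ≠ j → i ≠ k → σ i = τ i
  · rw [if_pos hoff, one_mul]
    congr 2
    · refine if_congr ?_ rfl rfl
      constructor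
      · rintro ⟨h1, h2⟩
        funext i
        by_cases hi : i = j
        · rw [hi]; exact h1
        · by_cases hi' : i = k
          · rw [hi']; exact h2
          · exact hoff i hi hi'
      · rintro rfl
        exact ⟨rfl, rfl⟩
    · refine if_congr ?_ rfl rfl
      constructor
      · intro h; exact ⟨hoff, h⟩
      · intro h; exact h.2
  · rw [if_neg hoff, zero_mul, if_neg, if_neg]
    · simp
    · intro h; exact hoff h.1
    · rintro rfl
      exact hoff (fun _ _ _ => rfl)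

private def CH3_e (s s' : ℕ) : ℕ := ((2 - s) * (2 - s') + s * s') / 2

private theorem CH3_e_spec (s s' : ℕ) (hs : s < 3) (hs' : s' < 3) :
    [0, 0, 1].count s * [0, 0, 1].count s' + [1, 2, 2].count s * [1, 2, 2].count s' = 2 * CH3_e s s' ∧
      CH3_e s s' ≤ 2 ∧ ((CH3_e s s' : ℕ) : ℤ) = 1 + (1 - (s : ℤ)) * (1 - (s' : ℤ)) := by
  interval_cases s <;> interval_cases s' <;> decide

private theorem CH3_sum_range {α : Type} [AddCommMonoid α] (f : ℕ → α) (m : ℕ) :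
    ((List.range m).map f).sum = ∑ j : Fin m, f j := by
  rw [← Finset.sum_range]
  induction m with
  | zero => simp
  | succ k ih => rw [List.range_succ, List.map_append, List.sum_append, ih, Finset.sum_range_succ]; simp

private theorem CH3_flat (f : (ℕ × List ℕ × ℕ × List ℕ) → ℕ) (l : List (ℕ × ℕ)) :
    ((l.flatMap pq3).map f).sum =
      (l.map fun b => f (b.1, [0, 0, 1], b.2, [0, 0, 1]) + f (b.1, [1, 2, 2], b.2, [1, 2, 2])).sum := by
  induction l with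
  | nil => simp
  | cons a l ih =>
    rw [List.flatMap_cons, List.map_append, List.sum_append, ih, List.map_cons, List.sum_cons]
    congr 1

/-- end pair: spin one-half (index `a`) and spin one (index `c`) -/
private theorem CH3_end (a a' : Fin 2) (c c' : Fin 3) :
    ∑ α : Fin 3, (((Jend α : ℝ) : ℂ) • halfOp α) a a' * spinOp α c c' =
      (77 / 200 : ℂ) * (((if a = a' ∧ c = c' then (1 - 2 * (a : ℤ)) * (1 - (c : ℤ)) else 0 : ℤ)) : ℂ) +
        (55 / 100 : ℂ) * (((if ((c : ℕ) + 1 = c' ∧ (a : ℕ) = a' + 1) ∨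
          ((c : ℕ) = c' + 1 ∧ (a : ℕ) + 1 = a') then 1 else 0 : ℤ)) : ℂ) := by
  set P : Fin 3 → Fin 3 → ℂ := fun i j => if j.val = i.val + 1 then ((Real.sqrt 2 : ℝ) : ℂ) else 0 with hP
  have hplus : ∀ i j, spinPlus i j = P i j := fun i j => rfl
  have hstar : ∀ i j, star (P i j) = P i j := by
    intro i j
    simp only [hP]
    split_ifs
    · exact Complex.conj_ofReal _
    · exact star_zero _
  have hminus : ∀ i j, spinMinus i j = P j i := by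
    intro i j
    unfold spinMinus
    rw [Matrix.conjTranspose_apply, hplus, hstar]
  have hx : ∀ i j, spinOp 0 i j = (1 / 2) * (P i j + P j i) := by
    intro i j
    show spinX i j = _
    unfold spinX
    rw [Matrix.smul_apply, Matrix.add_apply, hplus, hminus, smul_eq_mul]
  have hy : ∀ i j, spinOp 1 i j = (1 / (2 * Complex.I)) * (P i j - P j i) := by
    intro i j
    show spinY i j = _
    unfold spinY
    rw [Matrix.smul_apply, Matrix.sub_apply, hplus, hminus, smul_eq_mul]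
  have hz : ∀ i j : Fin 3, spinOp 2 i j = if i = j then ((1 - (i : ℤ) : ℤ) : ℂ) else 0 := by
    intro i j
    show spinZ i j = _
    unfold spinZ
    rw [Matrix.diagonal_apply]
    rfl
  set Q : Fin 2 → Fin 2 → ℂ := fun i j => if j.val = i.val + 1 then 1 else 0 with hQ
  have gx : ∀ i j, halfOp 0 i j = (1 / 2) * (Q i j + Q j i) := by
    intro i j
    fin_cases i <;> fin_cases j <;> simp [halfOp, hQ]
  have gy : ∀ i j, halfOp 1 i j = (1 / (2 * Complex.I)) * (Q i j - Q j i) := by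
    intro i j
    have hI : (1 / (2 * Complex.I)) = -(Complex.I / 2) := by
      field_simp
      rw [Complex.I_sq]
      norm_num
    rw [hI]
    fin_cases i <;> fin_cases j <;> simp [halfOp, hQ] <;> ring
  have gz : ∀ i j : Fin 2, halfOp 2 i j = if i = j then (1 / 2) * ((1 - 2 * (i : ℤ) : ℤ) : ℂ) else 0 := by
    intro i j
    fin_cases i <;> fin_cases j <;> simp [halfOp] <;> norm_num
  have hI : (1 / (2 * Complex.I)) * (1 / (2 * Complex.I)) = -(1 / 4) := by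
    field_simp
    rw [Complex.I_sq]
    norm_num
  have h2 : ((Real.sqrt 2 : ℝ) : ℂ) * ((Real.sqrt 2 : ℝ) : ℂ) = 2 := by
    rw [← Complex.ofReal_mul, Real.mul_self_sqrt (by norm_num)]
    norm_num
  have hQP : ∀ (i j : Fin 2) (k l : Fin 3), ((Real.sqrt 2 : ℝ) : ℂ) * (Q i j * P k l) =
      if ((i : ℕ) + 1 = j ∧ (k : ℕ) + 1 = l) then 2 else 0 := by
    intro i j k l
    simp only [hP, hQ]
    by_cases h1 : (j : ℕ) = i + 1
    · by_cases h3 : (l : ℕ) = k + 1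
      · rw [if_pos h1, if_pos h3, if_pos ⟨h1.symm, h3.symm⟩, one_mul, h2]
      · rw [if_neg h3, mul_zero, mul_zero, if_neg]
        exact fun h => h3 h.2.symm
    · rw [if_neg h1, zero_mul, mul_zero, if_neg]
      exact fun h => h1 h.1.symm
  have J0 : ((Jend 0 : ℝ) : ℂ) = ((Real.sqrt 2 : ℝ) : ℂ) * (55 / 100) := by
    simp [Jend]
  have J1 : ((Jend 1 : ℝ) : ℂ) = ((Real.sqrt 2 : ℝ) : ℂ) * (55 / 100) := by
    simp [Jend]
  have J2 : ((Jend 2 : ℝ) : ℂ) = 77 / 100 := by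
    simp [Jend]
  rw [Fin.sum_univ_three, Matrix.smul_apply, Matrix.smul_apply, Matrix.smul_apply, smul_eq_mul,
    smul_eq_mul, smul_eq_mul, J0, J1, J2, gx, gy, gz, hx, hy, hz]
  have hxy : ((Real.sqrt 2 : ℝ) : ℂ) * (55 / 100) * ((1 / 2) * (Q a a' + Q a' a)) *
        ((1 / 2) * (P c c' + P c' c)) +
      ((Real.sqrt 2 : ℝ) : ℂ) * (55 / 100) * ((1 / (2 * Complex.I)) * (Q a a' - Q a' a)) *
        ((1 / (2 * Complex.I)) * (P c c' - P c' c)) =
      (55 / 200) * (((Real.sqrt 2 : ℝ) : ℂ) * (Q a a' * P c' c)) +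
        (55 / 200) * (((Real.sqrt 2 : ℝ) : ℂ) * (Q a' a * P c c')) := by
    linear_combination (((Real.sqrt 2 : ℝ) : ℂ) * (55 / 100)) *
      ((Q a a' - Q a' a) * (P c c' - P c' c)) * hI
  rw [hxy, hQP, hQP]
  have hdiag : 77 / 100 * (if a = a' then (1 / 2) * ((1 - 2 * (a : ℤ) : ℤ) : ℂ) else 0) *
      (if c = c' then ((1 - (c : ℤ) : ℤ) : ℂ) else 0) =
      (77 / 200 : ℂ) * (((if a = a' ∧ c = c' then (1 - 2 * (a : ℤ)) * (1 - (c : ℤ)) else 0 : ℤ)) : ℂ) := by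
    by_cases h1 : a = a'
    · by_cases h2 : c = c'
      · rw [if_pos h1, if_pos h2, if_pos ⟨h1, h2⟩]
        push_cast
        ring
      · rw [if_neg h2, if_neg (show ¬ (a = a' ∧ c = c') from fun h => h2 h.2)]
        simp
    · rw [if_neg h1, if_neg (show ¬ (a = a' ∧ c = c') from fun h => h1 h.1)]
      simp
  rw [hdiag, add_comm]
  congr 1
  by_cases h1 : (c : ℕ) + 1 = c' ∧ (a : ℕ) = a' + 1
  · have h2 : ¬ ((a : ℕ) + 1 = a' ∧ (c' : ℕ) + 1 = c) := by omega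
    rw [if_neg h2, if_pos ⟨h1.2.symm, h1.1⟩, if_pos (Or.inl h1)]
    push_cast
    norm_num
  · by_cases h3 : (c : ℕ) = c' + 1 ∧ (a : ℕ) + 1 = a'
    · have h4 : ¬ ((a' : ℕ) + 1 = a ∧ (c : ℕ) + 1 = c') := by omega
      rw [if_pos ⟨h3.2, h3.1.symm⟩, if_neg h4, if_pos (Or.inr h3)]
      push_cast
      norm_num
    · have h4 : ¬ ((a' : ℕ) + 1 = a ∧ (c : ℕ) + 1 = c') := fun h => h1 ⟨h.2, h.1.symm⟩
      have h5 : ¬ ((a : ℕ) + 1 = a' ∧ (c' : ℕ) + 1 = c) := fun h => h3 ⟨h.2.symm, h.1⟩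
      have h6 : ¬ (((c : ℕ) + 1 = c' ∧ (a : ℕ) = a' + 1) ∨ ((c : ℕ) = c' + 1 ∧ (a : ℕ) + 1 = a')) := by
        rintro (h | h)
        · exact h1 h
        · exact h3 h
      rw [if_neg h5, if_neg h4, if_neg h6]
      push_cast
      norm_num

private theorem CH3_dgs (m : ℕ) (σ : Fin 2 × (Fin (m + 1) → Fin 3) × Fin 2) (i : Fin (m + 1)) :
    (coordH m).dg σ i = (σ.2.1 i : ℕ) := by
  show (if h : (i : ℕ) < m + 1 then (σ.2.1 ⟨i, h⟩ : ℕ) else _) = _
  rw [dif_pos i.2]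

private theorem CH3_dgL (m : ℕ) (σ : Fin 2 × (Fin (m + 1) → Fin 3) × Fin 2) :
    (coordH m).dg σ (m + 1) = (σ.1 : ℕ) := by
  show (if h : (m + 1) < m + 1 then (σ.2.1 ⟨m + 1, h⟩ : ℕ) else if m + 1 = m + 1 then (σ.1 : ℕ) else
    if m + 1 = m + 2 then (σ.2.2 : ℕ) else 0) = _
  rw [dif_neg (by omega), if_pos rfl]

private theorem CH3_dgR (m : ℕ) (σ : Fin 2 × (Fin (m + 1) → Fin 3) × Fin 2) :
    (coordH m).dg σ (m + 2) = (σ.2.2 : ℕ) := by
  show (if h : (m + 2) < m + 1 then (σ.2.1 ⟨m + 2, h⟩ : ℕ) else if m + 2 = m + 1 then (σ.1 : ℕ) else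
    if m + 2 = m + 2 then (σ.2.2 : ℕ) else 0) = _
  rw [dif_neg (by omega), if_neg (by omega), if_pos rfl]

private theorem CH3_off (m i j : ℕ) (σ τ : Fin 2 × (Fin (m + 1) → Fin 3) × Fin 2) :
    (∀ k : ℕ, k ≠ i → k ≠ j → (coordH m).dg σ k = (coordH m).dg τ k) ↔
      (∀ x : Fin (m + 1), (x : ℕ) ≠ i → (x : ℕ) ≠ j → σ.2.1 x = τ.2.1 x) ∧
      (m + 1 ≠ i → m + 1 ≠ j → σ.1 = τ.1) ∧ (m + 2 ≠ i → m + 2 ≠ j → σ.2.2 = τ.2.2) := by
  constructor
  · intro h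
    refine ⟨fun x hx hx' => ?_, fun h1 h2 => ?_, fun h1 h2 => ?_⟩
    · have := h x hx hx'
      rw [CH3_dgs, CH3_dgs] at this
      exact Fin.ext this
    · have := h (m + 1) h1 h2
      rw [CH3_dgL, CH3_dgL] at this
      exact Fin.ext this
    · have := h (m + 2) h1 h2
      rw [CH3_dgR, CH3_dgR] at this
      exact Fin.ext this
  · rintro ⟨h1, h2, h3⟩ k hk hk'
    by_cases hk1 : k < m + 1
    · have e1 := CH3_dgs m σ ⟨k, hk1⟩
      have e2 := CH3_dgs m τ ⟨k, hk1⟩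
      simp only at e1 e2
      rw [e1, e2, h1 ⟨k, hk1⟩ hk hk']
    · by_cases hk2 : k = m + 1
      · subst hk2
        rw [CH3_dgL, CH3_dgL, h2 hk hk']
      · by_cases hk3 : k = m + 2
        · subst hk3
          rw [CH3_dgR, CH3_dgR, h3 hk hk']
        · rw [(coordH m).dg_ge σ k (by omega), (coordH m).dg_ge τ k (by omega)]

private theorem CH3_ite {P Q : Prop} {hP : Decidable P} {hQ : Decidable Q} (h : P ↔ Q) (a b : ℤ) :
    (@ite ℤ P hP a b) = @ite ℤ Q hQ a b := by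
  by_cases hp : P
  · rw [if_pos hp, if_pos (h.mp hp)]
  · rw [if_neg hp, if_neg (fun hq => hp (h.mpr hq))]

private theorem CH3_hop (m : ℕ) (j k : Fin (m + 1)) (σ τ : Fin 2 × (Fin (m + 1) → Fin 3) × Fin 2) :
    (coordH m).hop j k σ τ = (if σ.1 = τ.1 ∧ σ.2.2 = τ.2.2 then
      (if (∀ i, i ≠ j → i ≠ k → σ.2.1 i = τ.2.1 i) ∧
        (((σ.2.1 j : ℕ) + 1 = τ.2.1 j ∧ (σ.2.1 k : ℕ) = τ.2.1 k + 1) ∨
          ((σ.2.1 j : ℕ) = τ.2.1 j + 1 ∧ (σ.2.1 k : ℕ) + 1 = τ.2.1 k))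
        then 1 else 0) else 0) := by
  have hiff : (∀ i : ℕ, i ≠ j → i ≠ k → (coordH m).dg σ i = (coordH m).dg τ i) ↔
      ((σ.1 = τ.1 ∧ σ.2.2 = τ.2.2) ∧ ∀ i, i ≠ j → i ≠ k → σ.2.1 i = τ.2.1 i) := by
    rw [CH3_off]
    constructor
    · rintro ⟨h1, h2, h3⟩
      refine ⟨⟨h2 (by omega) (by omega), h3 (by omega) (by omega)⟩, fun i hi hi' => ?_⟩
      exact h1 i (fun h0 => hi (Fin.ext h0)) (fun h0 => hi' (Fin.ext h0))
    · rintro ⟨⟨h2, h3⟩, h1⟩
      refine ⟨fun x hx hx' => ?_, fun _ _ => h2, fun _ _ => h3⟩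
      exact h1 x (fun h0 => hx (congrArg Fin.val h0)) (fun h0 => hx' (congrArg Fin.val h0))
  unfold Coord.hop
  rw [Matrix.of_apply, CH3_dgs, CH3_dgs, CH3_dgs, CH3_dgs, ← ite_and]
  refine CH3_ite ?_ _ _
  rw [hiff, and_assoc]

private theorem CH3_hopL (m : ℕ) (σ τ : Fin 2 × (Fin (m + 1) → Fin 3) × Fin 2) :
    (coordH m).hop 0 (m + 1) σ τ = (if σ.2.2 = τ.2.2 then
      (if (∀ i, i ≠ (0 : Fin (m + 1)) → σ.2.1 i = τ.2.1 i) then
        (if ((σ.2.1 0 : ℕ) + 1 = τ.2.1 0 ∧ (σ.1 : ℕ) = τ.1 + 1) ∨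
          ((σ.2.1 0 : ℕ) = τ.2.1 0 + 1 ∧ (σ.1 : ℕ) + 1 = τ.1)
        then 1 else 0) else 0) else 0) := by
  have hiff : (∀ i : ℕ, i ≠ 0 → i ≠ m + 1 → (coordH m).dg σ i = (coordH m).dg τ i) ↔
      (σ.2.2 = τ.2.2 ∧ ∀ i, i ≠ (0 : Fin (m + 1)) → σ.2.1 i = τ.2.1 i) := by
    rw [CH3_off]
    constructor
    · rintro ⟨h1, h2, h3⟩
      refine ⟨h3 (by omega) (by omega), fun i hi => ?_⟩
      exact h1 i (fun h0 => hi (Fin.ext h0)) (by omega)
    · rintro ⟨h3, h1⟩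
      refine ⟨fun x hx _ => ?_, fun _ h => absurd rfl h, fun _ _ => h3⟩
      exact h1 x (fun h0 => hx (congrArg Fin.val h0))
  have hd0 : ∀ ρ : Fin 2 × (Fin (m + 1) → Fin 3) × Fin 2, (coordH m).dg ρ 0 = (ρ.2.1 0 : ℕ) :=
    fun ρ => CH3_dgs m ρ 0
  unfold Coord.hop
  rw [Matrix.of_apply, hd0, hd0, CH3_dgL, CH3_dgL, ← ite_and, ← ite_and]
  refine CH3_ite ?_ _ _
  rw [hiff, and_assoc]

private theorem CH3_hopR (m : ℕ) (σ τ : Fin 2 × (Fin (m + 1) → Fin 3) × Fin 2) :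
    (coordH m).hop m (m + 2) σ τ = (if σ.1 = τ.1 then
      (if (∀ i, i ≠ Fin.last m → σ.2.1 i = τ.2.1 i) then
        (if ((σ.2.1 (Fin.last m) : ℕ) + 1 = τ.2.1 (Fin.last m) ∧ (σ.2.2 : ℕ) = τ.2.2 + 1) ∨
          ((σ.2.1 (Fin.last m) : ℕ) = τ.2.1 (Fin.last m) + 1 ∧ (σ.2.2 : ℕ) + 1 = τ.2.2)
        then 1 else 0) else 0) else 0) := by
  have hiff : (∀ i : ℕ, i ≠ m → i ≠ m + 2 → (coordH m).dg σ i = (coordH m).dg τ i) ↔
      (σ.1 = τ.1 ∧ ∀ i, i ≠ Fin.last m → σ.2.1 i = τ.2.1 i) := by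
    rw [CH3_off]
    constructor
    · rintro ⟨h1, h2, h3⟩
      refine ⟨h2 (by omega) (by omega), fun i hi => ?_⟩
      exact h1 i (fun h0 => hi (Fin.ext h0)) (by omega)
    · rintro ⟨h3, h1⟩
      refine ⟨fun x hx _ => ?_, fun _ _ => h3, fun _ h => absurd rfl h⟩
      exact h1 x (fun h0 => hx (congrArg Fin.val h0))
  have hd0 : ∀ ρ : Fin 2 × (Fin (m + 1) → Fin 3) × Fin 2,
      (coordH m).dg ρ m = (ρ.2.1 (Fin.last m) : ℕ) := fun ρ => CH3_dgs m ρ (Fin.last m)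
  unfold Coord.hop
  rw [Matrix.of_apply, hd0, hd0, CH3_dgR, CH3_dgR, ← ite_and, ← ite_and]
  refine CH3_ite ?_ _ _
  rw [hiff, and_assoc]

private theorem CH3_onSite {n : ℕ} (α : Fin 3) (j : Fin n) (σ τ : Fin n → Fin 3) :
    onSite (spinOp α) j σ τ =
      (if ∀ i, i ≠ j → σ i = τ i then (1 : ℂ) else 0) * spinOp α (σ j) (τ j) := by
  simp only [onSite, Matrix.of_apply]
  split_ifs <;> simp

private def CH3_f (a s : ℕ) : ℕ := (2 - s) * (1 - a) + s * a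

private theorem CH3_f_spec (a s : ℕ) (ha : a < 2) (hs : s < 3) :
    [0, 0, 1].count s * [0, 0].count a + [1, 2, 2].count s * [1, 1].count a = 2 * CH3_f a s ∧
      CH3_f a s ≤ 2 ∧ ((CH3_f a s : ℕ) : ℤ) = 1 + (1 - 2 * (a : ℤ)) * (1 - (s : ℤ)) := by
  interval_cases a <;> interval_cases s <;> decide

private theorem CH3_K (m : ℕ) (hm' : m ≤ 7) (r negc : ℕ)
    (σ τ : Fin 2 × (Fin (m + 1) → Fin 3) × Fin 2) :
    (halfM (m + 1) r negc).K (coordH m) σ τ =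
      200 * (∑ j : Fin m, (coordH m).hop ((Fin.castSucc j : Fin (m + 1)) : ℕ)
        ((Fin.succ j : Fin (m + 1)) : ℕ) σ τ) +
      110 * ((coordH m).hop 0 (m + 1) σ τ + (coordH m).hop m (m + 2) σ τ) +
      if σ = τ then 200 * (∑ j : Fin m,
          (1 + (1 - (σ.2.1 (Fin.castSucc j) : ℤ)) * (1 - (σ.2.1 (Fin.succ j) : ℤ)))) +
        77 * (2 + (1 - 2 * (σ.1 : ℤ)) * (1 - (σ.2.1 0 : ℤ)) +
          (1 - 2 * (σ.2.2 : ℤ)) * (1 - (σ.2.1 (Fin.last m) : ℤ))) - negc else 0 := by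
  have hH : (halfM (m + 1) r negc).hops (coordH m) (halfM (m + 1) r negc).posH =
      (200 : ℤ) • (∑ j : Fin m, (coordH m).hop ((Fin.castSucc j : Fin (m + 1)) : ℕ)
        ((Fin.succ j : Fin (m + 1)) : ℕ)) +
      (110 : ℤ) • ((coordH m).hop 0 (m + 1) + (coordH m).hop m (m + 2)) := by
    show (([(200, chainB m), (110, [(0, m + 1), (m, m + 2)])] :
      List (ℕ × List (ℕ × ℕ))).map fun t => (t.1 : ℤ) •
      (t.2.map fun p => (coordH m).hop p.1 p.2).sum).sum = _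
    rw [List.map_cons, List.map_singleton, List.sum_cons, List.sum_singleton]
    simp only [chainB, List.map_map, List.map_cons, List.map_nil, List.sum_cons, List.sum_nil,
      add_zero]
    rw [CH3_sum_range]
    rfl
  have hN : (halfM (m + 1) r negc).hops (coordH m) (halfM (m + 1) r negc).negH = 0 := rfl
  have hG1 : (halfM (m + 1) r negc).G (coordH m) ((chainB m).flatMap pq3) σ =
      2 * ∑ j : Fin m, CH3_e (σ.2.1 (Fin.castSucc j)) (σ.2.1 (Fin.succ j)) := by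
    unfold Mach.G
    rw [CH3_flat, chainB, List.map_map, CH3_sum_range, Finset.mul_sum]
    refine Finset.sum_congr rfl fun j _ => ?_
    have h1 := CH3_dgs m σ (Fin.castSucc j)
    have h2 := CH3_dgs m σ (Fin.succ j)
    simp only [Fin.val_castSucc, Fin.val_succ] at h1 h2
    have h3 : ¬ ((j : ℕ) = Nat.succ j) := by omega
    simp only [Function.comp]
    rw [if_neg h3, if_neg h3]
    erw [h1, h2]
    exact (CH3_e_spec _ _ (σ.2.1 _).2 (σ.2.1 _).2).1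
  have hE : ∑ j : Fin m, CH3_e (σ.2.1 (Fin.castSucc j)) (σ.2.1 (Fin.succ j)) ≤ 14 := by
    have h1 : ∑ j : Fin m, CH3_e (σ.2.1 (Fin.castSucc j)) (σ.2.1 (Fin.succ j)) ≤ ∑ _j : Fin m, 2 :=
      Finset.sum_le_sum fun j _ => (CH3_e_spec _ _ (σ.2.1 _).2 (σ.2.1 _).2).2.1
    rw [Finset.sum_const, Finset.card_univ, Fintype.card_fin, smul_eq_mul] at h1
    omega
  have hG1' : (halfM (m + 1) r negc).G (coordH m) ((chainB m).flatMap pq3) σ / 2 ^ 1 % 2 ^ 4 =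
      ∑ j : Fin m, CH3_e (σ.2.1 (Fin.castSucc j)) (σ.2.1 (Fin.succ j)) := by
    rw [hG1]
    omega
  have hG2 : (halfM (m + 1) r negc).G (coordH m) (pq2 (0, m + 1) ++ pq2 (m, m + 2)) σ =
      2 * (CH3_f σ.1 (σ.2.1 0) + CH3_f σ.2.2 (σ.2.1 (Fin.last m))) := by
    unfold Mach.G
    have h1 := CH3_dgs m σ 0
    have h2 := CH3_dgs m σ (Fin.last m)
    have h3 := CH3_dgL m σ
    have h4 := CH3_dgR m σ
    simp only [Fin.val_zero, Fin.val_last] at h1 h2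
    have h5 : ¬ (0 = m + 1) := by omega
    have h6 : ¬ (m = m + 2) := by omega
    simp only [pq2, List.cons_append, List.nil_append, List.map_cons, List.map_nil, List.sum_cons,
      List.sum_nil, add_zero]
    rw [if_neg h5, if_neg h5, if_neg h6, if_neg h6]
    erw [h1, h2, h3, h4]
    have e1 := (CH3_f_spec _ _ σ.1.2 (σ.2.1 0).2).1
    have e2 := (CH3_f_spec _ _ σ.2.2.2 (σ.2.1 (Fin.last m)).2).1
    omega
  have hG2' : (halfM (m + 1) r negc).G (coordH m) (pq2 (0, m + 1) ++ pq2 (m, m + 2)) σ / 2 ^ 1 % 2 ^ 3 =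
      CH3_f σ.1 (σ.2.1 0) + CH3_f σ.2.2 (σ.2.1 (Fin.last m)) := by
    rw [hG2]
    have e1 := (CH3_f_spec _ _ σ.1.2 (σ.2.1 0).2).2.1
    have e2 := (CH3_f_spec _ _ σ.2.2.2 (σ.2.1 (Fin.last m)).2).2.1
    omega
  have hEz : ((∑ j : Fin m, CH3_e (σ.2.1 (Fin.castSucc j)) (σ.2.1 (Fin.succ j)) : ℕ) : ℤ) =
      ∑ j : Fin m, (1 + (1 - (σ.2.1 (Fin.castSucc j) : ℤ)) * (1 - (σ.2.1 (Fin.succ j) : ℤ))) := by
    rw [Nat.cast_sum]
    exact Finset.sum_congr rfl fun j _ => (CH3_e_spec _ _ (σ.2.1 _).2 (σ.2.1 _).2).2.2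
  have hGz : ((CH3_f σ.1 (σ.2.1 0) + CH3_f σ.2.2 (σ.2.1 (Fin.last m)) : ℕ) : ℤ) =
      2 + (1 - 2 * (σ.1 : ℤ)) * (1 - (σ.2.1 0 : ℤ)) +
          (1 - 2 * (σ.2.2 : ℤ)) * (1 - (σ.2.1 (Fin.last m) : ℤ)) := by
    have e1 := (CH3_f_spec _ _ σ.1.2 (σ.2.1 0).2).2.2
    have e2 := (CH3_f_spec _ _ σ.2.2.2 (σ.2.1 (Fin.last m)).2).2.2
    rw [Nat.cast_add, e1, e2]
    ring
  unfold Mach.K
  rw [hH, hN, Matrix.add_apply, Matrix.sub_apply, Matrix.add_apply, Matrix.smul_apply,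
    Matrix.smul_apply, Matrix.sum_apply, Matrix.add_apply, Matrix.zero_apply, sub_zero, smul_eq_mul,
    smul_eq_mul]
  congr 1
  rw [Matrix.diagonal_apply]
  refine if_congr Iff.rfl ?_ rfl
  show (([(200, 1, 4, (chainB m).flatMap pq3), (77, 1, 3, pq2 (0, m + 1) ++ pq2 (m, m + 2))] :
      List (ℕ × ℕ × ℕ × List (ℕ × List ℕ × ℕ × List ℕ))).map fun t => (t.1 : ℤ) *
    (((halfM (m + 1) r negc).G (coordH m) t.2.2.2 σ / 2 ^ t.2.1 % 2 ^ t.2.2.1 : ℕ) : ℤ)).sum -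
      (negc : ℤ) = _
  simp only [List.map_cons, List.map_nil, List.sum_cons, List.sum_nil, add_zero]
  rw [hG1', hG2', hEz, hGz]
  push_cast
  ring

theorem half_eq (m : ℕ) (hm : 1 ≤ m) (hm' : m ≤ 7) (r negc : ℕ) :
    halfH m = ((((negc : ℝ) - 200 * m - 154) / 200) •
        (1 : Matrix (Fin 2 × (Fin (m + 1) → Fin 3) × Fin 2) _ ℝ) +
        (2048 / 200 : ℝ) • (halfM (m + 1) r negc).A (coordH m)).map (fun x : ℝ => (x : ℂ)) := by
  ext σ τ
  have hK := CH3_K m hm' r negc σ τ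
  set X : ℤ := ∑ j : Fin m, (if (∀ i, i ≠ Fin.castSucc j → i ≠ Fin.succ j → σ.2.1 i = τ.2.1 i) ∧
        (((σ.2.1 (Fin.castSucc j) : ℕ) + 1 = τ.2.1 (Fin.castSucc j) ∧
          (σ.2.1 (Fin.succ j) : ℕ) = τ.2.1 (Fin.succ j) + 1) ∨
        ((σ.2.1 (Fin.castSucc j) : ℕ) = τ.2.1 (Fin.castSucc j) + 1 ∧
          (σ.2.1 (Fin.succ j) : ℕ) + 1 = τ.2.1 (Fin.succ j)))
        then (1 : ℤ) else 0) with hX
  set Y : ℤ := ∑ j : Fin m, (1 - (σ.2.1 (Fin.castSucc j) : ℤ)) * (1 - (σ.2.1 (Fin.succ j) : ℤ)) with hY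
  have hY1 : ∑ j : Fin m, (1 + (1 - (σ.2.1 (Fin.castSucc j) : ℤ)) * (1 - (σ.2.1 (Fin.succ j) : ℤ))) =
      m + Y := by
    rw [Finset.sum_add_distrib, ← hY]
    simp
  have hX1 : ∑ j : Fin m, (coordH m).hop ((Fin.castSucc j : Fin (m + 1)) : ℕ)
        ((Fin.succ j : Fin (m + 1)) : ℕ) σ τ = if σ.1 = τ.1 ∧ σ.2.2 = τ.2.2 then X else 0 := by
    simp only [CH3_hop]
    by_cases h : σ.1 = τ.1 ∧ σ.2.2 = τ.2.2
    · simp only [if_pos h]
      rfl
    · simp only [if_neg h, Finset.sum_const_zero]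
  rw [hY1, hX1, CH3_hopL, CH3_hopR] at hK
  set U : ℤ := (if ((σ.2.1 0 : ℕ) + 1 = τ.2.1 0 ∧ (σ.1 : ℕ) = τ.1 + 1) ∨
          ((σ.2.1 0 : ℕ) = τ.2.1 0 + 1 ∧ (σ.1 : ℕ) + 1 = τ.1) then 1 else 0) with hU
  set V : ℤ := (if ((σ.2.1 (Fin.last m) : ℕ) + 1 = τ.2.1 (Fin.last m) ∧ (σ.2.2 : ℕ) = τ.2.2 + 1) ∨
          ((σ.2.1 (Fin.last m) : ℕ) = τ.2.1 (Fin.last m) + 1 ∧ (σ.2.2 : ℕ) + 1 = τ.2.2)
        then 1 else 0) with hV
  have hB : (∑ j : Fin m, bond (Fin.castSucc j) (Fin.succ j)) σ.2.1 τ.2.1 =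
      (((if σ.2.1 = τ.2.1 then Y else 0) + X : ℤ) : ℂ) := by
    rw [Matrix.sum_apply]
    have h1 : ∀ j : Fin m, bond (Fin.castSucc j) (Fin.succ j) σ.2.1 τ.2.1 = _ := fun j =>
      CH3_bond (Fin.castSucc j) (Fin.succ j) (Fin.castSucc_lt_succ).ne σ.2.1 τ.2.1
    simp only [h1]
    rw [← Int.cast_sum, Finset.sum_add_distrib, ← hX]
    congr 2
    by_cases h : σ.2.1 = τ.2.1
    · simp only [if_pos h]
      rfl
    · simp only [if_neg h, Finset.sum_const_zero]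
  have hEL : (∑ a, (((Jend a : ℝ) : ℂ) • halfOp a) σ.1 τ.1 *
      onSite (spinOp a) (0 : Fin (m + 1)) σ.2.1 τ.2.1) =
      (if ∀ i, i ≠ (0 : Fin (m + 1)) → σ.2.1 i = τ.2.1 i then (1 : ℂ) else 0) *
      ((77 / 200 : ℂ) * (((if σ.1 = τ.1 ∧ σ.2.1 0 = τ.2.1 0 then
        (1 - 2 * (σ.1 : ℤ)) * (1 - (σ.2.1 0 : ℤ)) else 0 : ℤ)) : ℂ) + (55 / 100 : ℂ) * (U : ℂ)) := by
    rw [hU, ← CH3_end, Finset.mul_sum]
    refine Finset.sum_congr rfl fun a _ => ?_
    rw [CH3_onSite]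
    ring
  have hER : (∑ a, onSite (spinOp a) (Fin.last m) σ.2.1 τ.2.1 *
      (((Jend a : ℝ) : ℂ) • halfOp a) σ.2.2 τ.2.2) =
      (if ∀ i, i ≠ Fin.last m → σ.2.1 i = τ.2.1 i then (1 : ℂ) else 0) *
      ((77 / 200 : ℂ) * (((if σ.2.2 = τ.2.2 ∧ σ.2.1 (Fin.last m) = τ.2.1 (Fin.last m) then
        (1 - 2 * (σ.2.2 : ℤ)) * (1 - (σ.2.1 (Fin.last m) : ℤ)) else 0 : ℤ)) : ℂ) +
          (55 / 100 : ℂ) * (V : ℂ)) := by
    rw [hV, ← CH3_end, Finset.mul_sum]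
    refine Finset.sum_congr rfl fun a _ => ?_
    rw [CH3_onSite]
    ring
  have hoff : ∀ (j : Fin (m + 1)), (∀ i, i ≠ j → σ.2.1 i = τ.2.1 i) ∧ σ.2.1 j = τ.2.1 j ↔
      σ.2.1 = τ.2.1 := by
    intro j
    constructor
    · rintro ⟨h1, h2⟩
      funext i
      by_cases hi : i = j
      · rw [hi]; exact h2
      · exact h1 i hi
    · intro h
      rw [h]
      exact ⟨fun _ _ => rfl, rfl⟩
  have hst : σ = τ ↔ σ.1 = τ.1 ∧ σ.2.1 = τ.2.1 ∧ σ.2.2 = τ.2.2 := by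
    constructor
    · rintro rfl
      exact ⟨rfl, rfl, rfl⟩
    · rintro ⟨h1, h2, h3⟩
      exact Prod.ext h1 (Prod.ext h2 h3)
  have hL : halfH m σ τ = (if σ.1 = τ.1 ∧ σ.2.2 = τ.2.2 then
      (((if σ.2.1 = τ.2.1 then Y else 0) + X : ℤ) : ℂ) else 0) +
      (if σ.2.2 = τ.2.2 then ((if ∀ i, i ≠ (0 : Fin (m + 1)) → σ.2.1 i = τ.2.1 i then (1 : ℂ) else 0) *
      ((77 / 200 : ℂ) * (((if σ.1 = τ.1 ∧ σ.2.1 0 = τ.2.1 0 then
        (1 - 2 * (σ.1 : ℤ)) * (1 - (σ.2.1 0 : ℤ)) else 0 : ℤ)) : ℂ) + (55 / 100 : ℂ) * (U : ℂ))) else 0) +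
      (if σ.1 = τ.1 then ((if ∀ i, i ≠ Fin.last m → σ.2.1 i = τ.2.1 i then (1 : ℂ) else 0) *
      ((77 / 200 : ℂ) * (((if σ.2.2 = τ.2.2 ∧ σ.2.1 (Fin.last m) = τ.2.1 (Fin.last m) then
        (1 - 2 * (σ.2.2 : ℤ)) * (1 - (σ.2.1 (Fin.last m) : ℤ)) else 0 : ℤ)) : ℂ) +
          (55 / 100 : ℂ) * (V : ℂ))) else 0) := by
    unfold halfH endChain
    rw [Matrix.of_apply, hB, hEL, hER]
    simp only [Matrix.zero_apply, ite_self, zero_add]
  rw [hL, Matrix.map_apply, Matrix.add_apply, Matrix.smul_apply, Matrix.smul_apply, Mach.A,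
    Matrix.smul_apply, Matrix.map_apply]
  erw [hK]
  have hsh : (halfM (m + 1) r negc).sh = 10 := rfl
  rw [hsh, Matrix.one_apply]
  simp only [smul_eq_mul]
  by_cases ha : σ.1 = τ.1
  · by_cases hb : σ.2.2 = τ.2.2
    · by_cases hs : σ.2.1 = τ.2.1
      · have h1 : ∀ i, i ≠ (0 : Fin (m + 1)) → σ.2.1 i = τ.2.1 i := fun i _ => by rw [hs]
        have h2 : ∀ i, i ≠ Fin.last m → σ.2.1 i = τ.2.1 i := fun i _ => by rw [hs]
        have h3 : σ.2.1 0 = τ.2.1 0 := by rw [hs]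
        have h4 : σ.2.1 (Fin.last m) = τ.2.1 (Fin.last m) := by rw [hs]
        have hab : σ.1 = τ.1 ∧ σ.2.2 = τ.2.2 := ⟨ha, hb⟩
        have ha3 : σ.1 = τ.1 ∧ σ.2.1 0 = τ.2.1 0 := ⟨ha, h3⟩
        have hb4 : σ.2.2 = τ.2.2 ∧ σ.2.1 (Fin.last m) = τ.2.1 (Fin.last m) := ⟨hb, h4⟩
        have heq : σ = τ := hst.mpr ⟨ha, hs, hb⟩
        simp only [if_pos hab, if_pos hs, if_pos hb, if_pos h1, if_pos ha3, if_pos ha, if_pos h2,
          if_pos hb4, if_pos heq]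
        push_cast
        ring
      · have hne : ¬ σ = τ := fun h => hs (hst.mp h).2.1
        have hab : σ.1 = τ.1 ∧ σ.2.2 = τ.2.2 := ⟨ha, hb⟩
        have e1 : (if ∀ i, i ≠ (0 : Fin (m + 1)) → σ.2.1 i = τ.2.1 i then (1 : ℂ) else 0) *
            ((77 / 200 : ℂ) * (((if σ.1 = τ.1 ∧ σ.2.1 0 = τ.2.1 0 then
              (1 - 2 * (σ.1 : ℤ)) * (1 - (σ.2.1 0 : ℤ)) else 0 : ℤ)) : ℂ) + (55 / 100 : ℂ) * (U : ℂ)) =
            (55 / 100 : ℂ) * (((if ∀ i, i ≠ (0 : Fin (m + 1)) → σ.2.1 i = τ.2.1 i then U else 0 : ℤ)) : ℂ) := by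
          by_cases h1 : ∀ i, i ≠ (0 : Fin (m + 1)) → σ.2.1 i = τ.2.1 i
          · rw [if_pos h1, if_pos h1, if_neg (show ¬ (σ.1 = τ.1 ∧ σ.2.1 0 = τ.2.1 0) from fun h => hs ((hoff 0).mp ⟨h1, h.2⟩))]
            push_cast
            ring
          · rw [if_neg h1, if_neg h1]
            push_cast
            ring
        have e2 : (if ∀ i, i ≠ Fin.last m → σ.2.1 i = τ.2.1 i then (1 : ℂ) else 0) *
            ((77 / 200 : ℂ) * (((if σ.2.2 = τ.2.2 ∧ σ.2.1 (Fin.last m) = τ.2.1 (Fin.last m) then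
              (1 - 2 * (σ.2.2 : ℤ)) * (1 - (σ.2.1 (Fin.last m) : ℤ)) else 0 : ℤ)) : ℂ) +
                (55 / 100 : ℂ) * (V : ℂ)) =
            (55 / 100 : ℂ) * (((if ∀ i, i ≠ Fin.last m → σ.2.1 i = τ.2.1 i then V else 0 : ℤ)) : ℂ) := by
          by_cases h1 : ∀ i, i ≠ Fin.last m → σ.2.1 i = τ.2.1 i
          · rw [if_pos h1, if_pos h1, if_neg (show ¬ (σ.2.2 = τ.2.2 ∧ σ.2.1 (Fin.last m) = τ.2.1 (Fin.last m)) from fun h => hs ((hoff (Fin.last m)).mp ⟨h1, h.2⟩))]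
            push_cast
            ring
          · rw [if_neg h1, if_neg h1]
            push_cast
            ring
        simp only [if_pos hab, if_neg hs, if_pos hb, if_pos ha, if_neg hne] at e1 e2 ⊢
        by_cases h1 : ∀ i, i ≠ (0 : Fin (m + 1)) → σ.2.1 i = τ.2.1 i
        · by_cases h2 : ∀ i, i ≠ Fin.last m → σ.2.1 i = τ.2.1 i
          · simp only [if_pos h1, if_pos h2] at e1 e2 ⊢
            rw [e1, e2]
            push_cast
            ring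
          · simp only [if_pos h1, if_neg h2] at e1 e2 ⊢
            rw [e1, e2]
            push_cast
            ring
        · by_cases h2 : ∀ i, i ≠ Fin.last m → σ.2.1 i = τ.2.1 i
          · simp only [if_neg h1, if_pos h2] at e1 e2 ⊢
            rw [e1, e2]
            push_cast
            ring
          · simp only [if_neg h1, if_neg h2] at e1 e2 ⊢
            rw [e1, e2]
            push_cast
            ring
    · have hne : ¬ σ = τ := fun h => hb (hst.mp h).2.2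
      have hab : ¬ (σ.1 = τ.1 ∧ σ.2.2 = τ.2.2) := fun h => hb h.2
      have hnb : ¬ (σ.2.2 = τ.2.2 ∧ σ.2.1 (Fin.last m) = τ.2.1 (Fin.last m)) := fun h => hb h.1
      simp only [if_neg hab, if_neg hb, if_pos ha, if_neg hnb, if_neg hne]
      by_cases h1 : ∀ i, i ≠ Fin.last m → σ.2.1 i = τ.2.1 i
      · rw [if_pos h1, if_pos h1]
        push_cast
        ring
      · rw [if_neg h1, if_neg h1]
        push_cast
        ring
  · have hne : ¬ σ = τ := fun h => ha (hst.mp h).1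
    have hab : ¬ (σ.1 = τ.1 ∧ σ.2.2 = τ.2.2) := fun h => ha h.1
    have hna : ¬ (σ.1 = τ.1 ∧ σ.2.1 0 = τ.2.1 0) := fun h => ha h.1
    simp only [if_neg hab, if_neg ha, if_neg hna, if_neg hne]
    by_cases hb : σ.2.2 = τ.2.2
    · rw [if_pos hb, if_pos hb]
      by_cases h1 : ∀ i, i ≠ (0 : Fin (m + 1)) → σ.2.1 i = τ.2.1 i
      · rw [if_pos h1, if_pos h1]
        push_cast
        ring
      · rw [if_neg h1, if_neg h1]
        push_cast
        ring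
    · rw [if_neg hb, if_neg hb]
      push_cast
      ring

end Crest.Agent.HG
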