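import Mathlib
import Crest.Agent.HG_CC

/-!
HG task CH1: the Heisenberg ring is `c + ρ A` of the integer machine `ringM`.
-/

set_option autoImplicit false

namespace Crest.Agent.HG
open Matrix Crest.MathPhysics.SpinChain

/-! ### the two-site matrix -/

private theorem ch1_plus (x x' : Fin 3) : spinPlus x x' =
    if (x' : ℕ) = (x : ℕ) + 1 then ((Real.sqrt 2 : ℝ) : ℂ) else 0 := rfl

private theorem ch1_minus (x x' : Fin 3) : spinMinus x x' =
    if (x : ℕ) = (x' : ℕ) + 1 then ((Real.sqrt 2 : ℝ) : ℂ) else 0 := by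
  unfold spinMinus
  rw [Matrix.conjTranspose_apply, ch1_plus]
  split_ifs
  · exact Complex.conj_ofReal _
  · exact star_zero _

private theorem ch1_z (x x' : Fin 3) : spinZ x x' = if x = x' then (1 - (x : ℕ) : ℂ) else 0 := by
  unfold spinZ magneticNumber
  rw [Matrix.diagonal_apply]
  split_ifs
  · push_cast
    rfl
  · rfl

private theorem ch1_sq2 : ((Real.sqrt 2 : ℝ) : ℂ) * ((Real.sqrt 2 : ℝ) : ℂ) = 2 := by
  rw [← Complex.ofReal_mul, Real.mul_self_sqrt (by norm_num)]
  norm_num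

/-- magnetic number as a real number -/
private noncomputable def ch1_m (x : Fin 3) : ℝ := 1 - ((x : ℕ) : ℝ)

private theorem ch1_table (u : ℝ) (x x' y y' : Fin 3) :
    ((u : ℝ) : ℂ) * (spinX x x' * spinX y y') + ((u : ℝ) : ℂ) * (spinY x x' * spinY y y') +
      spinZ x x' * spinZ y y' =
      (((if x = x' ∧ y = y' then ch1_m x * ch1_m y else 0) +
        u * (if ((x : ℕ) + 1 = (x' : ℕ) ∧ (y : ℕ) = (y' : ℕ) + 1) ∨
          ((x : ℕ) = (x' : ℕ) + 1 ∧ (y : ℕ) + 1 = (y' : ℕ)) then 1 else 0) : ℝ) : ℂ) := by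
  have e1 : spinX x x' * spinX y y' + spinY x x' * spinY y y' =
      (1 / 2) * (spinPlus x x' * spinMinus y y' + spinMinus x x' * spinPlus y y') := by
    unfold spinX spinY
    simp only [Matrix.smul_apply, Matrix.add_apply, Matrix.sub_apply, smul_eq_mul]
    have hI : (1 / (2 * Complex.I)) * (1 / (2 * Complex.I)) = -(1 / 4) := by
      field_simp
      rw [Complex.I_sq]
      norm_num
    calc _ = 1 / 4 * ((spinPlus x x' + spinMinus x x') * (spinPlus y y' + spinMinus y y')) +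
          ((1 / (2 * Complex.I)) * (1 / (2 * Complex.I))) *
            ((spinPlus x x' - spinMinus x x') * (spinPlus y y' - spinMinus y y')) := by ring
      _ = _ := by rw [hI]; ring
  have e2 : (1 / 2 : ℂ) * (spinPlus x x' * spinMinus y y' + spinMinus x x' * spinPlus y y') =
      (((if ((x : ℕ) + 1 = (x' : ℕ) ∧ (y : ℕ) = (y' : ℕ) + 1) ∨
          ((x : ℕ) = (x' : ℕ) + 1 ∧ (y : ℕ) + 1 = (y' : ℕ)) then 1 else 0 : ℝ)) : ℂ) := by
    rw [ch1_plus, ch1_plus, ch1_minus, ch1_minus]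
    by_cases h1 : (x' : ℕ) = (x : ℕ) + 1
    · have h2 : ¬ ((x : ℕ) = (x' : ℕ) + 1) := by omega
      by_cases h3 : (y : ℕ) = (y' : ℕ) + 1
      · have h5 : ((x : ℕ) + 1 = (x' : ℕ) ∧ (y : ℕ) = (y' : ℕ) + 1) ∨
          ((x : ℕ) = (x' : ℕ) + 1 ∧ (y : ℕ) + 1 = (y' : ℕ)) := Or.inl ⟨h1.symm, h3⟩
        rw [if_pos h1, if_pos h3, if_neg h2, if_pos h5, ch1_sq2]
        push_cast
        ring
      · have h5 : ¬ (((x : ℕ) + 1 = (x' : ℕ) ∧ (y : ℕ) = (y' : ℕ) + 1) ∨
          ((x : ℕ) = (x' : ℕ) + 1 ∧ (y : ℕ) + 1 = (y' : ℕ))) := by omega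
        rw [if_pos h1, if_neg h3, if_neg h2, if_neg h5]
        push_cast
        ring
    · by_cases h2 : (x : ℕ) = (x' : ℕ) + 1
      · by_cases h3 : (y' : ℕ) = (y : ℕ) + 1
        · have h5 : ((x : ℕ) + 1 = (x' : ℕ) ∧ (y : ℕ) = (y' : ℕ) + 1) ∨
            ((x : ℕ) = (x' : ℕ) + 1 ∧ (y : ℕ) + 1 = (y' : ℕ)) := Or.inr ⟨h2, h3.symm⟩
          rw [if_neg h1, if_pos h2, if_pos h3, if_pos h5, ch1_sq2]
          push_cast
          ring
        · have h5 : ¬ (((x : ℕ) + 1 = (x' : ℕ) ∧ (y : ℕ) = (y' : ℕ) + 1) ∨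
            ((x : ℕ) = (x' : ℕ) + 1 ∧ (y : ℕ) + 1 = (y' : ℕ))) := by omega
          rw [if_neg h1, if_pos h2, if_neg h3, if_neg h5]
          push_cast
          ring
      · have h5 : ¬ (((x : ℕ) + 1 = (x' : ℕ) ∧ (y : ℕ) = (y' : ℕ) + 1) ∨
          ((x : ℕ) = (x' : ℕ) + 1 ∧ (y : ℕ) + 1 = (y' : ℕ))) := by omega
        rw [if_neg h1, if_neg h2, if_neg h5]
        push_cast
        ring
  have e3 : spinZ x x' * spinZ y y' =
      ((if x = x' ∧ y = y' then ch1_m x * ch1_m y else 0 : ℝ) : ℂ) := by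
    rw [ch1_z, ch1_z]
    by_cases h1 : x = x'
    · by_cases h2 : y = y'
      · have h5 : x = x' ∧ y = y' := ⟨h1, h2⟩
        rw [if_pos h1, if_pos h2, if_pos h5]
        unfold ch1_m
        push_cast
        ring
      · have h5 : ¬ (x = x' ∧ y = y') := fun h => h2 h.2
        rw [if_neg h2, if_neg h5]
        push_cast
        ring
    · have h5 : ¬ (x = x' ∧ y = y') := fun h => h1 h.1
      rw [if_neg h1, if_neg h5]
      push_cast
      ring
  calc _ = ((u : ℝ) : ℂ) * (spinX x x' * spinX y y' + spinY x x' * spinY y y') +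
      spinZ x x' * spinZ y y' := by ring
    _ = _ := by rw [e1, e2, e3]; push_cast; ring

/-! ### products of one-site operators -/

private theorem ch1_onSite {ι : Type} [Fintype ι] [DecidableEq ι] (A B : Matrix (Fin 3) (Fin 3) ℂ)
    {i k : ι} (hik : i ≠ k) (σ τ : ι → Fin 3) :
    (onSite A i * onSite B k) σ τ =
      if ∀ l, l ≠ i → l ≠ k → σ l = τ l then A (σ i) (τ i) * B (σ k) (τ k) else 0 := by
  rw [Matrix.mul_apply]
  by_cases hP : ∀ l, l ≠ i → l ≠ k → σ l = τ l
  · rw [if_pos hP, Finset.sum_eq_single (Function.update σ i (τ i))]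
    · have h1 : ∀ l, l ≠ i → σ l = Function.update σ i (τ i) l := fun l hl => by
        rw [Function.update_of_ne hl]
      have h2 : ∀ l, l ≠ k → Function.update σ i (τ i) l = τ l := fun l hl => by
        by_cases hli : l = i
        · subst hli
          rw [Function.update_self]
        · rw [Function.update_of_ne hli]
          exact hP l hli hl
      unfold onSite
      rw [Matrix.of_apply, Matrix.of_apply, if_pos h1, if_pos h2, Function.update_self,
        Function.update_of_ne hik.symm]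
    · intro ρ _ hρ
      unfold onSite
      rw [Matrix.of_apply, Matrix.of_apply]
      by_cases h1 : ∀ l, l ≠ i → σ l = ρ l
      · by_cases h2 : ∀ l, l ≠ k → ρ l = τ l
        · exfalso
          apply hρ
          funext l
          by_cases hli : l = i
          · subst hli
            rw [Function.update_self]
            exact h2 l hik
          · rw [Function.update_of_ne hli]
            exact (h1 l hli).symm
        · rw [if_neg h2, mul_zero]
      · rw [if_neg h1, zero_mul]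
    · intro h
      exact absurd (Finset.mem_univ _) h
  · rw [if_neg hP]
    apply Finset.sum_eq_zero
    intro ρ _
    unfold onSite
    rw [Matrix.of_apply, Matrix.of_apply]
    by_cases h1 : ∀ l, l ≠ i → σ l = ρ l
    · by_cases h2 : ∀ l, l ≠ k → ρ l = τ l
      · exact absurd (fun l hl hl' => (h1 l hl).trans (h2 l hl')) hP
      · rw [if_neg h2, mul_zero]
    · rw [if_neg h1, zero_mul]

private theorem ch1_dg {L : ℕ} (σ : Fin L → Fin 3) (i : Fin L) :
    (coordF L).dg σ (i : ℕ) = (σ i : ℕ) := by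
  show (if h : (i : ℕ) < L then (σ ⟨i, h⟩ : ℕ) else 0) = _
  rw [dif_pos i.2]

private theorem ch1_dg' {L : ℕ} (σ : Fin L → Fin 3) {i : ℕ} (hi : i < L) :
    (coordF L).dg σ i = (σ ⟨i, hi⟩ : ℕ) := ch1_dg σ ⟨i, hi⟩

/-- entries of a bond -/
private theorem ch1_bond {L : ℕ} {s : Fin 3 → ℝ} {u : ℝ} (h0 : s 0 = u) (h1 : s 1 = u)
    (h2 : s 2 = 1) {i k : Fin L} (hik : i ≠ k) (σ τ : Fin L → Fin 3) :
    (∑ a : Fin 3, ((s a : ℝ) : ℂ) • (onSite (spinOp a) i * onSite (spinOp a) k)) σ τ =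
      (((if σ = τ then ch1_m (σ i) * ch1_m (σ k) else 0) +
        u * (((coordF L).hop i k σ τ : ℤ) : ℝ) : ℝ) : ℂ) := by
  classical
  rw [Fin.sum_univ_three, Matrix.add_apply, Matrix.add_apply, Matrix.smul_apply, Matrix.smul_apply,
    Matrix.smul_apply, h0, h1, h2, ch1_onSite _ _ hik, ch1_onSite _ _ hik, ch1_onSite _ _ hik]
  have e0 : spinOp 0 = spinX := rfl
  have e1 : spinOp 1 = spinY := rfl
  have e2 : spinOp 2 = spinZ := rfl
  rw [e0, e1, e2]
  have hop : (coordF L).hop i k σ τ = if (∀ l, l ≠ i → l ≠ k → σ l = τ l) ∧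
      (((σ i : ℕ) + 1 = (τ i : ℕ) ∧ (σ k : ℕ) = (τ k : ℕ) + 1) ∨
        ((σ i : ℕ) = (τ i : ℕ) + 1 ∧ (σ k : ℕ) + 1 = (τ k : ℕ))) then 1 else 0 := by
    unfold Coord.hop
    rw [Matrix.of_apply]
    refine if_congr (and_congr ⟨?_, ?_⟩ ?_) rfl rfl
    · intro h l hl hl'
      have := h (l : ℕ) (fun e => hl (Fin.ext e)) (fun e => hl' (Fin.ext e))
      rw [ch1_dg, ch1_dg] at this
      exact Fin.ext this
    · intro h l hl hl'
      by_cases hlt : l < L
      · rw [ch1_dg' σ hlt, ch1_dg' τ hlt]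
        exact congrArg Fin.val (h ⟨l, hlt⟩ (fun e => hl (congrArg Fin.val e))
          (fun e => hl' (congrArg Fin.val e)))
      · rw [(coordF L).dg_ge σ l (by omega), (coordF L).dg_ge τ l (by omega)]
    · rw [ch1_dg, ch1_dg, ch1_dg, ch1_dg]
  rw [hop]
  by_cases hP : ∀ l, l ≠ i → l ≠ k → σ l = τ l
  · rw [if_pos hP, if_pos hP, if_pos hP]
    have hst : σ = τ ↔ (σ i = τ i ∧ σ k = τ k) := by
      constructor
      · intro h
        rw [h]
        exact ⟨rfl, rfl⟩
      · rintro ⟨h3, h4⟩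
        funext l
        by_cases hli : l = i
        · rw [hli, h3]
        · by_cases hlk : l = k
          · rw [hlk, h4]
          · exact hP l hli hlk
    have ht := ch1_table u (σ i) (τ i) (σ k) (τ k)
    simp only [smul_eq_mul, Complex.ofReal_one, one_mul]
    rw [ht]
    congr 1
    congr 1
    · exact if_congr hst.symm rfl rfl
    · push_cast
      congr 1
      refine if_congr ⟨fun h => ⟨hP, h⟩, fun h => h.2⟩ rfl rfl
  · have hst : σ ≠ τ := fun h => hP fun l _ _ => by rw [h]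
    rw [if_neg hP, if_neg hP, if_neg hP, if_neg hst, if_neg (fun h => hP h.1)]
    simp

/-! ### lists -/

private theorem ch1_chain {R : Type*} [AddCommMonoid R] (f : ℕ × ℕ → R) (m : ℕ) :
    ((chainB m).map f).sum = ∑ j ∈ Finset.range m, f (j, j + 1) := by
  unfold chainB
  induction m with
  | zero => simp
  | succ m ih =>
    rw [List.range_succ, List.map_append, List.map_append, List.sum_append, ih,
      Finset.sum_range_succ]
    simp

private theorem ch1_flat {α β : Type*} (f : α → List β) (g : β → ℕ) (l : List α) :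
    ((l.flatMap f).map g).sum = (l.map fun b => ((f b).map g).sum).sum := by
  induction l with
  | nil => simp
  | cons a l ih => rw [List.flatMap_cons, List.map_append, List.sum_append, ih, List.map_cons,
      List.sum_cons]

/-- half of `p p' + q q'` -/
private def ch1_g (x y : ℕ) : ℕ := ((2 - x) * (2 - y) + x * y) / 2

private theorem ch1_g_le {x y : ℕ} (hx : x < 3) (hy : y < 3) : ch1_g x y ≤ 2 := by
  unfold ch1_g
  interval_cases x <;> interval_cases y <;> decide

private theorem ch1_g_val {x y : ℕ} (hx : x < 3) (hy : y < 3) :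
    (ch1_g x y : ℝ) = 1 + (1 - (x : ℝ)) * (1 - (y : ℝ)) := by
  unfold ch1_g
  interval_cases x <;> interval_cases y <;> norm_num

private theorem ch1_count {x y : ℕ} (hx : x < 3) (hy : y < 3) :
    ([0, 0, 1] : List ℕ).count x * ([0, 0, 1] : List ℕ).count y +
      ([1, 2, 2] : List ℕ).count x * ([1, 2, 2] : List ℕ).count y = 2 * ch1_g x y := by
  unfold ch1_g
  interval_cases x <;> interval_cases y <;> decide

private theorem ch1_pq {L : ℕ} (σ : Fin L → Fin 3) {i k : ℕ} (hi : i < L) (hk : k < L)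
    (hik : i ≠ k) :
    ((pq3 (i, k)).map fun t => t.2.1.count ((coordF L).dg σ t.1) *
      (if t.1 = t.2.2.1 then 1 else t.2.2.2.count ((coordF L).dg σ t.2.2.1))).sum =
      2 * ch1_g ((coordF L).dg σ i) ((coordF L).dg σ k) := by
  have h := ch1_count ((coordF L).dg_lt σ i hi) ((coordF L).dg_lt σ k hk)
  unfold pq3
  simp only [List.map_cons, List.map_nil, List.sum_cons, List.sum_nil, if_neg hik, add_zero]
  exact h

private theorem ch1_G {n : ℕ} (hn : 1 ≤ n) (tw : Bool) (r negc : ℕ) (σ : Fin (n + 1) → Fin 3) :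
    (ringM (n + 1) tw r negc).G (coordF (n + 1)) ((chainB n ++ [(0, n)]).flatMap pq3) σ =
      2 * (∑ j ∈ Finset.range n, ch1_g ((coordF (n + 1)).dg σ j) ((coordF (n + 1)).dg σ (j + 1)) +
        ch1_g ((coordF (n + 1)).dg σ 0) ((coordF (n + 1)).dg σ n)) := by
  unfold Mach.G
  rw [ch1_flat, List.map_append, List.sum_append, ch1_chain, mul_add, Finset.mul_sum]
  congr 1
  · refine Finset.sum_congr rfl fun j hj => ?_
    rw [Finset.mem_range] at hj
    exact ch1_pq σ (by omega) (by omega) (by omega)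
  · simp only [List.map_cons, List.map_nil, List.sum_cons, List.sum_nil, add_zero]
    exact ch1_pq σ (by omega) (by omega) (by omega)

private theorem ch1_hop_symm {L : ℕ} (i k : ℕ) (σ τ : Fin L → Fin 3) :
    (coordF L).hop i k σ τ = (coordF L).hop k i σ τ := by
  classical
  unfold Coord.hop
  rw [Matrix.of_apply, Matrix.of_apply]
  refine if_congr (and_congr ⟨fun h l h1 h2 => h l h2 h1, fun h l h1 h2 => h l h2 h1⟩ ?_) rfl rfl
  constructor
  · rintro (⟨h1, h2⟩ | ⟨h1, h2⟩)
    · exact Or.inr ⟨h2, h1⟩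
    · exact Or.inl ⟨h2, h1⟩
  · rintro (⟨h1, h2⟩ | ⟨h1, h2⟩)
    · exact Or.inr ⟨h2, h1⟩
    · exact Or.inl ⟨h2, h1⟩

private theorem ch1_K {n : ℕ} (hn : 1 ≤ n) (tw : Bool) (r negc : ℕ) (σ τ : Fin (n + 1) → Fin 3) :
    (ringM (n + 1) tw r negc).K (coordF (n + 1)) σ τ =
      25 * (∑ j ∈ Finset.range n, (coordF (n + 1)).hop j (j + 1) σ τ) +
        25 * (cond tw (-1) 1 * (coordF (n + 1)).hop 0 n σ τ) +
      if σ = τ then 25 * (((∑ j ∈ Finset.range n,
        ch1_g ((coordF (n + 1)).dg σ j) ((coordF (n + 1)).dg σ (j + 1)) +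
        ch1_g ((coordF (n + 1)).dg σ 0) ((coordF (n + 1)).dg σ n)) % 32 : ℕ) : ℤ) - negc
      else 0 := by
  have hD : (ringM (n + 1) tw r negc).posD =
      [(25, 1, 5, (chainB n ++ [(0, n)]).flatMap pq3)] := rfl
  have hc : (ringM (n + 1) tw r negc).negc = negc := rfl
  have hchain : ∀ f : ℕ × ℕ → Matrix (Fin (n + 1) → Fin 3) (Fin (n + 1) → Fin 3) ℤ,
      ((chainB n).map f).sum σ τ = ∑ j ∈ Finset.range n, f (j, j + 1) σ τ := by
    intro f
    rw [ch1_chain, Matrix.sum_apply]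
  unfold Mach.K
  rw [Matrix.add_apply, Matrix.sub_apply, Matrix.diagonal_apply, hD, hc]
  simp only [List.map_cons, List.map_nil, List.sum_cons, List.sum_nil, add_zero]
  rw [ch1_G hn]
  have hdiv : ∀ a : ℕ, 2 * a / 2 ^ 1 % 2 ^ 5 = a % 32 := by
    intro a
    rw [pow_one, Nat.mul_div_cancel_left a (by norm_num)]
    norm_num
  rw [hdiv]
  congr 1
  cases tw with
  | false =>
    have hp : (ringM (n + 1) false r negc).posH = [(25, chainB n ++ [(0, n)])] := rfl
    have hn' : (ringM (n + 1) false r negc).negH = [] := rfl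
    have hh : ∀ i j, @Coord.hop _ (ringM (n + 1) false r negc).n (ringM (n + 1) false r negc).d
      (coordF (n + 1)) i j = (coordF (n + 1)).hop i j := fun _ _ => rfl
    unfold Mach.hops
    rw [hp, hn']
    simp only [hh, List.map_cons, List.map_nil, List.sum_cons, List.sum_nil, add_zero,
      List.map_append, List.sum_append, Matrix.smul_apply, Matrix.add_apply, hchain,
      Matrix.zero_apply, sub_zero, smul_eq_mul, cond_false, one_mul]
    push_cast
    ring
  | true =>
    have hp : (ringM (n + 1) true r negc).posH = [(25, chainB n)] := rfl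
    have hn' : (ringM (n + 1) true r negc).negH = [(25, [(0, n)])] := rfl
    have hh : ∀ i j, @Coord.hop _ (ringM (n + 1) true r negc).n (ringM (n + 1) true r negc).d
      (coordF (n + 1)) i j = (coordF (n + 1)).hop i j := fun _ _ => rfl
    unfold Mach.hops
    rw [hp, hn']
    simp only [hh, List.map_cons, List.map_nil, List.sum_cons, List.sum_nil, add_zero,
      Matrix.smul_apply, hchain, smul_eq_mul, cond_true]
    push_cast
    ring

theorem ring_eq (L : ℕ) (hL : 3 ≤ L) (hL' : L ≤ 15) (tw : Bool) (r negc : ℕ) :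
    ringH (cond tw sPi sOne) L =
      ((((negc : ℝ) - 25 * L) / 25) • (1 : Matrix (Fin L → Fin 3) (Fin L → Fin 3) ℝ) +
        (256 / 25 : ℝ) • (ringM L tw r negc).A (coordF L)).map (fun x : ℝ => (x : ℂ)) := by
  obtain ⟨n, rfl⟩ : ∃ n, L = n + 1 := ⟨L - 1, by omega⟩
  have hn : 1 ≤ n := by omega
  set u : ℝ := cond tw (-1) 1 with hu
  have hs0 : (cond tw sPi sOne : Fin 3 → ℝ) 0 = u := by
    cases tw <;> rfl
  have hs1 : (cond tw sPi sOne : Fin 3 → ℝ) 1 = u := by
    cases tw <;> rfl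
  have hs2 : (cond tw sPi sOne : Fin 3 → ℝ) 2 = 1 := by
    cases tw <;> rfl
  have hm : ∀ (σ : Fin (n + 1) → Fin 3) (j : Fin (n + 1)),
      ch1_m (σ j) = 1 - (((coordF (n + 1)).dg σ (j : ℕ) : ℕ) : ℝ) := by
    intro σ j
    rw [ch1_dg]
    rfl
  ext σ τ
  rw [Matrix.map_apply, Matrix.add_apply, Matrix.smul_apply, Matrix.smul_apply, Matrix.one_apply]
  unfold ringH
  rw [Fin.sum_univ_castSucc, Matrix.add_apply, Matrix.sum_apply]
  have hb : ∀ j : Fin n, (∑ a : Fin 3, (((if ((Fin.castSucc j : Fin (n + 1)) : ℕ) + 1 = n + 1 then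
      (cond tw sPi sOne : Fin 3 → ℝ) a else 1 : ℝ)) : ℂ) •
      (onSite (spinOp a) (Fin.castSucc j) *
        onSite (spinOp a) (finRotate (n + 1) (Fin.castSucc j)))) σ τ =
      (((if σ = τ then (ch1_g ((coordF (n + 1)).dg σ (j : ℕ))
        ((coordF (n + 1)).dg σ ((j : ℕ) + 1)) : ℝ) - 1 else 0) +
        (((coordF (n + 1)).hop (j : ℕ) ((j : ℕ) + 1) σ τ : ℤ) : ℝ) : ℝ) : ℂ) := by
    intro j
    have hj : ¬ (((Fin.castSucc j : Fin (n + 1)) : ℕ) + 1 = n + 1) := by
      rw [Fin.val_castSucc]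
      have := j.2
      omega
    have hrot : finRotate (n + 1) (Fin.castSucc j) = Fin.succ j := by
      rw [finRotate_apply]
      exact Fin.coeSucc_eq_succ
    rw [hrot]
    have hne : (Fin.castSucc j : Fin (n + 1)) ≠ Fin.succ j := (Fin.castSucc_lt_succ).ne
    have h := ch1_bond (s := fun a => if ((Fin.castSucc j : Fin (n + 1)) : ℕ) + 1 = n + 1 then
      (cond tw sPi sOne : Fin 3 → ℝ) a else 1) (u := 1) (if_neg hj) (if_neg hj) (if_neg hj) hne σ τ
    rw [h]
    congr 1
    rw [one_mul, hm, hm, Fin.val_castSucc, Fin.val_succ]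
    congr 1
    refine if_congr Iff.rfl ?_ rfl
    rw [ch1_g_val ((coordF (n + 1)).dg_lt σ _ (by have := j.2; omega))
      ((coordF (n + 1)).dg_lt σ _ (by have := j.2; omega))]
    ring
  have hl : (∑ a : Fin 3, (((if ((Fin.last n : Fin (n + 1)) : ℕ) + 1 = n + 1 then
      (cond tw sPi sOne : Fin 3 → ℝ) a else 1 : ℝ)) : ℂ) •
      (onSite (spinOp a) (Fin.last n) *
        onSite (spinOp a) (finRotate (n + 1) (Fin.last n)))) σ τ =
      (((if σ = τ then (ch1_g ((coordF (n + 1)).dg σ 0)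
        ((coordF (n + 1)).dg σ n) : ℝ) - 1 else 0) +
        u * (((coordF (n + 1)).hop 0 n σ τ : ℤ) : ℝ) : ℝ) : ℂ) := by
    have hj : (((Fin.last n : Fin (n + 1)) : ℕ) + 1 = n + 1) := by
      rw [Fin.val_last]
    rw [finRotate_last]
    have hne : (Fin.last n : Fin (n + 1)) ≠ 0 := by
      intro h
      have := congrArg Fin.val h
      rw [Fin.val_last, Fin.val_zero] at this
      omega
    have h := ch1_bond (s := fun a => if ((Fin.last n : Fin (n + 1)) : ℕ) + 1 = n + 1 then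
      (cond tw sPi sOne : Fin 3 → ℝ) a else 1) (u := u) ((if_pos hj).trans hs0)
      ((if_pos hj).trans hs1) ((if_pos hj).trans hs2) hne σ τ
    rw [h]
    congr 1
    rw [hm, hm, Fin.val_last, Fin.val_zero, ch1_hop_symm]
    congr 1
    refine if_congr Iff.rfl ?_ rfl
    rw [ch1_g_val ((coordF (n + 1)).dg_lt σ _ (by omega))
      ((coordF (n + 1)).dg_lt σ _ (by omega))]
    ring
  rw [Finset.sum_congr rfl fun j _ => hb j, hl, ← Complex.ofReal_sum, ← Complex.ofReal_add]
  congr 1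
  have hA : (ringM (n + 1) tw r negc).A (coordF (n + 1)) σ τ =
      (256 : ℝ)⁻¹ * (((ringM (n + 1) tw r negc).K (coordF (n + 1)) σ τ : ℤ) : ℝ) := by
    unfold Mach.A
    rw [Matrix.smul_apply, Matrix.map_apply, smul_eq_mul]
    congr 2
    show (2 : ℝ) ^ (7 + 1) = 256
    norm_num
  rw [hA, ch1_K hn]
  have hlt : (∑ j ∈ Finset.range n,
        ch1_g ((coordF (n + 1)).dg σ j) ((coordF (n + 1)).dg σ (j + 1)) +
        ch1_g ((coordF (n + 1)).dg σ 0) ((coordF (n + 1)).dg σ n)) < 32 := by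
    have h1 : ∑ j ∈ Finset.range n,
        ch1_g ((coordF (n + 1)).dg σ j) ((coordF (n + 1)).dg σ (j + 1)) ≤
        ∑ j ∈ Finset.range n, 2 := by
      refine Finset.sum_le_sum fun j hj => ?_
      rw [Finset.mem_range] at hj
      exact ch1_g_le ((coordF (n + 1)).dg_lt σ _ (by omega)) ((coordF (n + 1)).dg_lt σ _ (by omega))
    have h2 := ch1_g_le ((coordF (n + 1)).dg_lt σ 0 (by omega))
      ((coordF (n + 1)).dg_lt σ n (by omega))
    rw [Finset.sum_const, Finset.card_range, smul_eq_mul] at h1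
    omega
  rw [Nat.mod_eq_of_lt hlt, Finset.sum_add_distrib]
  have hsum : ∀ f : ℕ → ℝ, ∑ j : Fin n, f (j : ℕ) = ∑ j ∈ Finset.range n, f j :=
    fun f => Fin.sum_univ_eq_sum_range f n
  rw [hsum (fun j => if σ = τ then (ch1_g ((coordF (n + 1)).dg σ j)
        ((coordF (n + 1)).dg σ (j + 1)) : ℝ) - 1 else 0),
    hsum (fun j => (((coordF (n + 1)).hop j (j + 1) σ τ : ℤ) : ℝ))]
  have hcond : (((cond tw (-1) 1 : ℤ)) : ℝ) = u := by
    cases tw <;> simp [hu]
  by_cases hst : σ = τ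
  · simp only [if_pos hst, smul_eq_mul]
    rw [Finset.sum_sub_distrib, Finset.sum_const, Finset.card_range, nsmul_eq_mul]
    push_cast
    rw [hcond]
    ring
  · simp only [if_neg hst, smul_eq_mul]
    push_cast
    rw [hcond]
    rw [Finset.sum_const_zero]
    ring

end Crest.Agent.HG
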