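import Mathlib
import Crest.Agent.HG_CC
import Crest.Agent.HGB_Tens

/-!
HG-CH2: the open chain with end fields is `c + ρ A` for the integer machine.
-/

set_option autoImplicit false

namespace Crest.Agent.HG
open Matrix Crest.MathPhysics.SpinChain

/-- entries of the spin-one operators, in terms of the index (`m = 1 - index`) -/
private theorem CH2_pair (a b c d : Fin 3) :
    ∑ α : Fin 3, spinOp α a c * spinOp α b d =
      (((if a = c ∧ b = d then (1 - (a : ℤ)) * (1 - (b : ℤ)) else 0) +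
        (if ((a : ℕ) + 1 = c ∧ (b : ℕ) = d + 1) ∨ ((a : ℕ) = c + 1 ∧ (b : ℕ) + 1 = d) then 1 else 0) : ℤ) : ℂ) := by
  set P : Fin 3 → Fin 3 → ℂ := fun i j => if j.val = i.val + 1 then ((Real.sqrt 2 : ℝ) : ℂ) else 0 with hP
  have hplus : ∀ i j, spinPlus i j = P i j := fun i j => rfl
  have hstar : ∀ i j, star (P i j) = P i j := by
    intro i j
    simp only [hP]
    split_ifs
    · exact Complex.conj_ofReal _
    · exact star_zero _
  have hminus : ∀ i j, spinMinus i j = P j i := by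
    intro i j
    unfold spinMinus
    rw [Matrix.conjTranspose_apply, hplus, hstar]
  have hx : ∀ i j, spinOp 0 i j = (1 / 2) * (P i j + P j i) := by
    intro i j
    show spinX i j = _
    unfold spinX
    rw [Matrix.smul_apply, Matrix.add_apply, hplus, hminus, smul_eq_mul]
  have hy : ∀ i j, spinOp 1 i j = (1 / (2 * Complex.I)) * (P i j - P j i) := by
    intro i j
    show spinY i j = _
    unfold spinY
    rw [Matrix.smul_apply, Matrix.sub_apply, hplus, hminus, smul_eq_mul]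
  have hz : ∀ i j : Fin 3, spinOp 2 i j = if i = j then ((1 - (i : ℤ) : ℤ) : ℂ) else 0 := by
    intro i j
    show spinZ i j = _
    unfold spinZ
    rw [Matrix.diagonal_apply]
    rfl
  have hI : (1 / (2 * Complex.I)) * (1 / (2 * Complex.I)) = -(1 / 4) := by
    field_simp
    rw [Complex.I_sq]
    norm_num
  have hPP : ∀ i j k l : Fin 3, P i j * P k l =
      if ((i : ℕ) + 1 = j ∧ (k : ℕ) + 1 = l) then 2 else 0 := by
    intro i j k l
    simp only [hP]
    have h2 : ((Real.sqrt 2 : ℝ) : ℂ) * ((Real.sqrt 2 : ℝ) : ℂ) = 2 := by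
      rw [← Complex.ofReal_mul, Real.mul_self_sqrt (by norm_num)]
      norm_num
    by_cases h1 : (j : ℕ) = i + 1
    · by_cases h3 : (l : ℕ) = k + 1
      · rw [if_pos h1, if_pos h3, if_pos ⟨h1.symm, h3.symm⟩, h2]
      · rw [if_neg h3, mul_zero, if_neg]
        exact fun h => h3 h.2.symm
    · rw [if_neg h1, zero_mul, if_neg]
      exact fun h => h1 h.1.symm
  have hxy : spinOp 0 a c * spinOp 0 b d + spinOp 1 a c * spinOp 1 b d =
      (1 / 2) * (P a c * P d b) + (1 / 2) * (P c a * P b d) := by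
    rw [hx, hx, hy, hy]
    linear_combination ((P a c - P c a) * (P b d - P d b)) * hI
  have hzz : spinOp 2 a c * spinOp 2 b d =
      if a = c ∧ b = d then (((1 - (a : ℤ)) * (1 - (b : ℤ)) : ℤ) : ℂ) else 0 := by
    rw [hz, hz]
    by_cases h1 : a = c
    · by_cases h2 : b = d
      · rw [if_pos h1, if_pos h2, if_pos ⟨h1, h2⟩]
        push_cast
        ring
      · rw [if_neg h2, mul_zero, if_neg]
        exact fun h => h2 h.2
    · rw [if_neg h1, zero_mul, if_neg]
      exact fun h => h1 h.1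
  have hfin : (1 / 2 : ℂ) * (P a c * P d b) + (1 / 2) * (P c a * P b d) =
      if ((a : ℕ) + 1 = c ∧ (b : ℕ) = d + 1) ∨ ((a : ℕ) = c + 1 ∧ (b : ℕ) + 1 = d) then 1 else 0 := by
    rw [hPP, hPP]
    by_cases h1 : (a : ℕ) + 1 = c ∧ (b : ℕ) = d + 1
    · have h2 : ¬ ((c : ℕ) + 1 = a ∧ (b : ℕ) + 1 = d) := by omega
      rw [if_pos ⟨h1.1, h1.2.symm⟩, if_neg h2, if_pos (Or.inl h1)]
      norm_num
    · by_cases h3 : (a : ℕ) = c + 1 ∧ (b : ℕ) + 1 = d
      · have h4 : ¬ ((a : ℕ) + 1 = c ∧ (d : ℕ) + 1 = b) := by omega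
        rw [if_neg h4, if_pos ⟨h3.1.symm, h3.2⟩, if_pos (Or.inr h3)]
        norm_num
      · have h4 : ¬ ((a : ℕ) + 1 = c ∧ (d : ℕ) + 1 = b) := fun h => h1 ⟨h.1, h.2.symm⟩
        have h5 : ¬ ((c : ℕ) + 1 = a ∧ (b : ℕ) + 1 = d) := fun h => h3 ⟨h.1.symm, h.2⟩
        have h6 : ¬ (((a : ℕ) + 1 = c ∧ (b : ℕ) = d + 1) ∨ ((a : ℕ) = c + 1 ∧ (b : ℕ) + 1 = d)) := by
          rintro (h | h)
          · exact h1 h
          · exact h3 h
        rw [if_neg h4, if_neg h5, if_neg h6]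
        norm_num
  rw [Fin.sum_univ_three, hxy, hzz, hfin]
  push_cast
  ring

/-- entries of a bond -/
private theorem CH2_bond {n : ℕ} (j k : Fin n) (hjk : j ≠ k) (σ τ : Fin n → Fin 3) :
    bond j k σ τ = ((((if σ = τ then (1 - (σ j : ℤ)) * (1 - (σ k : ℤ)) else 0) +
      (if (∀ i, i ≠ j → i ≠ k → σ i = τ i) ∧
        (((σ j : ℕ) + 1 = τ j ∧ (σ k : ℕ) = τ k + 1) ∨ ((σ j : ℕ) = τ j + 1 ∧ (σ k : ℕ) + 1 = τ k))
        then 1 else 0)) : ℤ) : ℂ) := by
  have hent : ∀ α : Fin 3, (onSite (spinOp α) j * onSite (spinOp α) k) σ τ =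
      (if ∀ i, i ≠ j → i ≠ k → σ i = τ i then (1:ℂ) else 0) *
        (spinOp α (σ j) (τ j) * spinOp α (σ k) (τ k)) := by
    intro α
    rw [HGB.onSite_mul_onSite _ _ hjk]
    simp only [HGB.tens, Matrix.of_apply]
    have hk : k ∈ (Finset.univ.erase j : Finset (Fin n)) := Finset.mem_erase.mpr ⟨hjk.symm, Finset.mem_univ _⟩
    rw [← Finset.mul_prod_erase Finset.univ _ (Finset.mem_univ j), ← Finset.mul_prod_erase _ _ hk,
      Function.update_self, Function.update_of_ne hjk, Function.update_self]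
    have h1 : ∏ x ∈ (Finset.univ.erase j).erase k,
        (Function.update (Function.update (fun _ : Fin n => (1 : Matrix (Fin 3) (Fin 3) ℂ)) j (spinOp α)) k
          (spinOp α) x) (σ x) (τ x) =
        if ∀ i, i ≠ j → i ≠ k → σ i = τ i then (1:ℂ) else 0 := by
      have h2 : ∏ x ∈ (Finset.univ.erase j).erase k,
        (Function.update (Function.update (fun _ : Fin n => (1 : Matrix (Fin 3) (Fin 3) ℂ)) j (spinOp α)) k
          (spinOp α) x) (σ x) (τ x) = ∏ x ∈ (Finset.univ.erase j).erase k, if σ x = τ x then (1:ℂ) else 0 := by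
        refine Finset.prod_congr rfl fun x hx => ?_
        rw [Finset.mem_erase, Finset.mem_erase] at hx
        rw [Function.update_of_ne hx.1, Function.update_of_ne hx.2.1, Matrix.one_apply]
      rw [h2, Finset.prod_ite_zero]
      simp only [Finset.prod_const_one]
      refine if_congr ?_ rfl rfl
      constructor
      · intro h i hi hi'
        exact h i (Finset.mem_erase.mpr ⟨hi', Finset.mem_erase.mpr ⟨hi, Finset.mem_univ _⟩⟩)
      · intro h i hi
        rw [Finset.mem_erase, Finset.mem_erase] at hi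
        exact h i hi.2.1 hi.1
    rw [h1]
    ring
  unfold bond
  rw [Matrix.sum_apply]
  simp only [hent]
  rw [← Finset.mul_sum, CH2_pair]
  by_cases hoff : ∀ i, i ≠ j → i ≠ k → σ i = τ i
  · rw [if_pos hoff, one_mul]
    congr 2
    · refine if_congr ?_ rfl rfl
      constructor
      · rintro ⟨h1, h2⟩
        funext i
        by_cases hi : i = j
        · rw [hi]; exact h1
        · by_cases hi' : i = k
          · rw [hi']; exact h2
          · exact hoff i hi hi'
      · rintro rfl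
        exact ⟨rfl, rfl⟩
    · refine if_congr ?_ rfl rfl
      constructor
      · intro h; exact ⟨hoff, h⟩
      · intro h; exact h.2
  · rw [if_neg hoff, zero_mul, if_neg, if_neg]
    · simp
    · intro h; exact hoff h.1
    · rintro rfl
      exact hoff (fun _ _ _ => rfl)

private theorem CH2_hop (n : ℕ) (j k : Fin n) (σ τ : Fin n → Fin 3) :
    (coordF n).hop j k σ τ = (if (∀ i, i ≠ j → i ≠ k → σ i = τ i) ∧
        (((σ j : ℕ) + 1 = τ j ∧ (σ k : ℕ) = τ k + 1) ∨ ((σ j : ℕ) = τ j + 1 ∧ (σ k : ℕ) + 1 = τ k))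
        then 1 else 0) := by
  have hdg : ∀ (ρ : Fin n → Fin 3) (i : Fin n), (coordF n).dg ρ i = (ρ i : ℕ) := by
    intro ρ i
    show (if h : (i : ℕ) < n then (ρ ⟨i, h⟩ : ℕ) else 0) = _
    rw [dif_pos i.2]
  unfold Coord.hop
  rw [Matrix.of_apply]
  rw [hdg, hdg, hdg, hdg]
  have hiff : (∀ i : ℕ, i ≠ j → i ≠ k → (coordF n).dg σ i = (coordF n).dg τ i) ↔
      ∀ i, i ≠ j → i ≠ k → σ i = τ i := by
    constructor
    · intro h i hi hi'
      have h1 := h i (fun h0 => hi (Fin.ext h0)) (fun h0 => hi' (Fin.ext h0))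
      rw [hdg, hdg] at h1
      exact Fin.ext h1
    · intro h i hi hi'
      by_cases hin : i < n
      · have h1 := h ⟨i, hin⟩ (fun h0 => hi (congrArg Fin.val h0)) (fun h0 => hi' (congrArg Fin.val h0))
        have h2 := hdg σ ⟨i, hin⟩
        have h3 := hdg τ ⟨i, hin⟩
        simp only at h2 h3
        rw [h2, h3, h1]
      · rw [(coordF n).dg_ge σ i (by omega), (coordF n).dg_ge τ i (by omega)]
  by_cases h : (∀ i, i ≠ j → i ≠ k → σ i = τ i) ∧
        (((σ j : ℕ) + 1 = τ j ∧ (σ k : ℕ) = τ k + 1) ∨ ((σ j : ℕ) = τ j + 1 ∧ (σ k : ℕ) + 1 = τ k))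
  · rw [if_pos h]
    exact if_pos ⟨hiff.mpr h.1, h.2⟩
  · rw [if_neg h]
    exact if_neg (fun h' => h ⟨hiff.mp h'.1, h'.2⟩)

private theorem CH2_onSite {n : ℕ} (j : Fin n) (σ τ : Fin n → Fin 3) :
    onSite spinZ j σ τ = (((if σ = τ then (1 - (σ j : ℤ)) else 0 : ℤ)) : ℂ) := by
  simp only [onSite, Matrix.of_apply, spinZ, Matrix.diagonal_apply, magneticNumber]
  by_cases h : σ = τ
  · subst h
    simp
  · rw [if_neg h]
    by_cases h1 : ∀ k, k ≠ j → σ k = τ k
    · rw [if_pos h1, if_neg]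
      · simp
      · intro h2
        apply h
        funext i
        by_cases hi : i = j
        · rw [hi]; exact h2
        · exact h1 i hi
    · rw [if_neg h1]
      simp

private def CH2_e (s s' : ℕ) : ℕ := ((2 - s) * (2 - s') + s * s') / 2

private theorem CH2_e_spec (s s' : ℕ) (hs : s < 3) (hs' : s' < 3) :
    [0, 0, 1].count s * [0, 0, 1].count s' + [1, 2, 2].count s * [1, 2, 2].count s' = 2 * CH2_e s s' ∧
      CH2_e s s' ≤ 2 ∧ ((CH2_e s s' : ℕ) : ℤ) = 1 + (1 - (s : ℤ)) * (1 - (s' : ℤ)) := by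
  interval_cases s <;> interval_cases s' <;> decide

private theorem CH2_cnt (s : ℕ) (hs : s < 3) :
    (([1, 2, 2].count s : ℕ) : ℤ) = 1 - (1 - (s : ℤ)) ∧ (([0, 0, 1].count s : ℕ) : ℤ) = 1 + (1 - (s : ℤ)) ∧
      [1, 2, 2].count s ≤ 2 ∧ [0, 0, 1].count s ≤ 2 := by
  interval_cases s <;> decide

private theorem CH2_sum_range {α : Type} [AddCommMonoid α] (f : ℕ → α) (m : ℕ) :
    ((List.range m).map f).sum = ∑ j : Fin m, f j := by
  rw [← Finset.sum_range]
  induction m with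
  | zero => simp
  | succ k ih => rw [List.range_succ, List.map_append, List.sum_append, ih, Finset.sum_range_succ]; simp

private theorem CH2_flat (f : (ℕ × List ℕ × ℕ × List ℕ) → ℕ) (l : List (ℕ × ℕ)) :
    ((l.flatMap pq3).map f).sum =
      (l.map fun b => f (b.1, [0, 0, 1], b.2, [0, 0, 1]) + f (b.1, [1, 2, 2], b.2, [1, 2, 2])).sum := by
  induction l with
  | nil => simp
  | cons a l ih =>
    rw [List.flatMap_cons, List.map_append, List.sum_append, ih, List.map_cons, List.sum_cons]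
    congr 1

private theorem CH2_dg (n : ℕ) (ρ : Fin n → Fin 3) (i : Fin n) : (coordF n).dg ρ i = (ρ i : ℕ) := by
  show (if h : (i : ℕ) < n then (ρ ⟨i, h⟩ : ℕ) else 0) = _
  rw [dif_pos i.2]

private theorem CH2_K (m : ℕ) (hm' : m ≤ 7) (up : Bool) (r negc : ℕ) (σ τ : Fin (m + 1) → Fin 3) :
    (openM (m + 1) up r negc).K (coordF (m + 1)) σ τ =
      25 * (∑ j : Fin m, (if (∀ i, i ≠ Fin.castSucc j → i ≠ Fin.succ j → σ i = τ i) ∧
        (((σ (Fin.castSucc j) : ℕ) + 1 = τ (Fin.castSucc j) ∧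
          (σ (Fin.succ j) : ℕ) = τ (Fin.succ j) + 1) ∨
        ((σ (Fin.castSucc j) : ℕ) = τ (Fin.castSucc j) + 1 ∧
          (σ (Fin.succ j) : ℕ) + 1 = τ (Fin.succ j)))
        then (1 : ℤ) else 0)) +
      if σ = τ then 25 * (∑ j : Fin m,
          (1 + (1 - (σ (Fin.castSucc j) : ℤ)) * (1 - (σ (Fin.succ j) : ℤ)))) +
        15 * (2 - (1 - (σ 0 : ℤ)) - cond up 1 (-1) * (1 - (σ (Fin.last m) : ℤ))) - negc else 0 := by
  have hH : (openM (m + 1) up r negc).hops (coordF (m + 1)) (openM (m + 1) up r negc).posH =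
      (25 : ℤ) • ∑ j : Fin m, (coordF (m + 1)).hop ((Fin.castSucc j : Fin (m + 1)) : ℕ)
        ((Fin.succ j : Fin (m + 1)) : ℕ) := by
    show (([(25, chainB m)] : List (ℕ × List (ℕ × ℕ))).map fun t => (t.1 : ℤ) •
      (t.2.map fun p => (coordF (m + 1)).hop p.1 p.2).sum).sum = _
    rw [List.map_singleton, List.sum_singleton]
    simp only [chainB, List.map_map]
    rw [CH2_sum_range]
    rfl
  have hN : (openM (m + 1) up r negc).hops (coordF (m + 1)) (openM (m + 1) up r negc).negH = 0 := rfl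
  have hG1 : (openM (m + 1) up r negc).G (coordF (m + 1)) ((chainB m).flatMap pq3) σ =
      2 * ∑ j : Fin m, CH2_e (σ (Fin.castSucc j)) (σ (Fin.succ j)) := by
    unfold Mach.G
    rw [CH2_flat, chainB, List.map_map, CH2_sum_range, Finset.mul_sum]
    refine Finset.sum_congr rfl fun j _ => ?_
    have h1 := CH2_dg (m + 1) σ (Fin.castSucc j)
    have h2 := CH2_dg (m + 1) σ (Fin.succ j)
    simp only [Fin.val_castSucc, Fin.val_succ] at h1 h2
    have h3 : ¬ ((j : ℕ) = Nat.succ j) := by omega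
    simp only [Function.comp]
    rw [if_neg h3, if_neg h3]
    erw [h1, h2]
    exact (CH2_e_spec _ _ (σ _).2 (σ _).2).1
  have hE : ∑ j : Fin m, CH2_e (σ (Fin.castSucc j)) (σ (Fin.succ j)) ≤ 14 := by
    have h1 : ∑ j : Fin m, CH2_e (σ (Fin.castSucc j)) (σ (Fin.succ j)) ≤ ∑ _j : Fin m, 2 :=
      Finset.sum_le_sum fun j _ => (CH2_e_spec _ _ (σ _).2 (σ _).2).2.1
    rw [Finset.sum_const, Finset.card_univ, Fintype.card_fin, smul_eq_mul] at h1
    omega
  have hG1' : (openM (m + 1) up r negc).G (coordF (m + 1)) ((chainB m).flatMap pq3) σ / 2 ^ 1 % 2 ^ 4 =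
      ∑ j : Fin m, CH2_e (σ (Fin.castSucc j)) (σ (Fin.succ j)) := by
    rw [hG1]
    omega
  have hG2 : (openM (m + 1) up r negc).G (coordF (m + 1))
      [(0, [1, 2, 2], 0, []), (m, cond up [1, 2, 2] [0, 0, 1], m, [])] σ =
      [1, 2, 2].count (σ 0 : ℕ) + (cond up [1, 2, 2] [0, 0, 1]).count (σ (Fin.last m) : ℕ) := by
    unfold Mach.G
    have h1 := CH2_dg (m + 1) σ 0
    have h2 := CH2_dg (m + 1) σ (Fin.last m)
    simp only [Fin.val_zero, Fin.val_last] at h1 h2
    simp only [List.map_cons, List.map_nil, List.sum_cons, List.sum_nil, if_true, mul_one, add_zero]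
    erw [h1, h2]
  have hG2' : (openM (m + 1) up r negc).G (coordF (m + 1))
      [(0, [1, 2, 2], 0, []), (m, cond up [1, 2, 2] [0, 0, 1], m, [])] σ / 2 ^ 0 % 2 ^ 3 =
      [1, 2, 2].count (σ 0 : ℕ) + (cond up [1, 2, 2] [0, 0, 1]).count (σ (Fin.last m) : ℕ) := by
    rw [hG2]
    have h1 := CH2_cnt (σ 0) (σ 0).2
    have h2 := CH2_cnt (σ (Fin.last m)) (σ (Fin.last m)).2
    have h3 := h1.2.2.1
    have h4 := h2.2.2.1
    have h5 := h2.2.2.2
    cases up
    · simp only [cond_false]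
      omega
    · simp only [cond_true]
      omega
  have hEz : ((∑ j : Fin m, CH2_e (σ (Fin.castSucc j)) (σ (Fin.succ j)) : ℕ) : ℤ) =
      ∑ j : Fin m, (1 + (1 - (σ (Fin.castSucc j) : ℤ)) * (1 - (σ (Fin.succ j) : ℤ))) := by
    rw [Nat.cast_sum]
    exact Finset.sum_congr rfl fun j _ => (CH2_e_spec _ _ (σ _).2 (σ _).2).2.2
  have hGz : (([1, 2, 2].count (σ 0 : ℕ) + (cond up [1, 2, 2] [0, 0, 1]).count (σ (Fin.last m) : ℕ) : ℕ) : ℤ) =
      2 - (1 - (σ 0 : ℤ)) - cond up 1 (-1) * (1 - (σ (Fin.last m) : ℤ)) := by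
    have h1 := CH2_cnt (σ 0) (σ 0).2
    have h2 := CH2_cnt (σ (Fin.last m)) (σ (Fin.last m)).2
    rw [Nat.cast_add, h1.1]
    cases up
    · simp only [cond_false]
      rw [h2.2.1]
      ring
    · simp only [cond_true]
      rw [h2.1]
      ring
  unfold Mach.K
  rw [hH, hN, Matrix.add_apply, Matrix.sub_apply, Matrix.smul_apply, Matrix.sum_apply,
    Matrix.zero_apply, sub_zero, smul_eq_mul]
  congr 1
  · congr 1
    refine Finset.sum_congr rfl fun j _ => ?_
    rw [CH2_hop]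
  · rw [Matrix.diagonal_apply]
    refine if_congr Iff.rfl ?_ rfl
    show (([(25, 1, 4, (chainB m).flatMap pq3),
      (15, 0, 3, [(0, [1, 2, 2], 0, []), (m, cond up [1, 2, 2] [0, 0, 1], m, [])])] :
        List (ℕ × ℕ × ℕ × List (ℕ × List ℕ × ℕ × List ℕ))).map fun t => (t.1 : ℤ) *
      (((openM (m + 1) up r negc).G (coordF (m + 1)) t.2.2.2 σ / 2 ^ t.2.1 % 2 ^ t.2.2.1 : ℕ) : ℤ)).sum -
        (negc : ℤ) = _
    simp only [List.map_cons, List.map_nil, List.sum_cons, List.sum_nil, add_zero]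
    rw [hG1', hG2', hEz, hGz]
    push_cast
    ring

theorem open_eq (m : ℕ) (hm : 1 ≤ m) (hm' : m ≤ 7) (up : Bool) (r negc : ℕ) :
    openS (cond up 1 (-1)) m (3 / 5) =
      ((((negc : ℝ) - 25 * m - 30) / 25) •
          (1 : Matrix (Fin (m + 1) → Fin 3) (Fin (m + 1) → Fin 3) ℝ) +
        (256 / 25 : ℝ) • (openM (m + 1) up r negc).A (coordF (m + 1))).map
          (fun x : ℝ => (x : ℂ)) := by
  ext σ τ
  have hK := CH2_K m hm' up r negc σ τ
  set X : ℤ := ∑ j : Fin m, (if (∀ i, i ≠ Fin.castSucc j → i ≠ Fin.succ j → σ i = τ i) ∧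
        (((σ (Fin.castSucc j) : ℕ) + 1 = τ (Fin.castSucc j) ∧
          (σ (Fin.succ j) : ℕ) = τ (Fin.succ j) + 1) ∨
        ((σ (Fin.castSucc j) : ℕ) = τ (Fin.castSucc j) + 1 ∧
          (σ (Fin.succ j) : ℕ) + 1 = τ (Fin.succ j)))
        then (1 : ℤ) else 0) with hX
  set Y : ℤ := ∑ j : Fin m, (1 - (σ (Fin.castSucc j) : ℤ)) * (1 - (σ (Fin.succ j) : ℤ)) with hY
  have hY1 : ∑ j : Fin m, (1 + (1 - (σ (Fin.castSucc j) : ℤ)) * (1 - (σ (Fin.succ j) : ℤ))) = m + Y := by
    rw [Finset.sum_add_distrib, ← hY]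
    simp
  rw [hY1] at hK
  have hB : (∑ j : Fin m, bond (Fin.castSucc j) (Fin.succ j)) σ τ =
      (((if σ = τ then Y else 0) + X : ℤ) : ℂ) := by
    rw [Matrix.sum_apply]
    have h1 : ∀ j : Fin m, bond (Fin.castSucc j) (Fin.succ j) σ τ = _ := fun j =>
      CH2_bond (Fin.castSucc j) (Fin.succ j) (Fin.castSucc_lt_succ).ne σ τ
    simp only [h1]
    rw [← Int.cast_sum, Finset.sum_add_distrib, ← hX]
    congr 2
    by_cases h : σ = τ
    · simp only [if_pos h]
      rfl
    · simp only [if_neg h, Finset.sum_const_zero]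
  have hL : openS (cond up 1 (-1)) m (3 / 5) σ τ =
      (((if σ = τ then Y else 0) + X : ℤ) : ℂ) -
        (3 / 5) * ((((if σ = τ then (1 - (σ 0 : ℤ)) else 0 : ℤ)) : ℂ) +
          ((cond up 1 (-1) : ℤ) : ℂ) * (((if σ = τ then (1 - (σ (Fin.last m) : ℤ)) else 0 : ℤ)) : ℂ)) := by
    unfold openS
    rw [Matrix.sub_apply, hB, Matrix.smul_apply, Matrix.add_apply, Matrix.smul_apply, CH2_onSite,
      CH2_onSite, smul_eq_mul, smul_eq_mul]
    congr 2
    · push_cast
      norm_num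
    · congr 2
      cases up <;> simp
  rw [hL, Matrix.map_apply, Matrix.add_apply, Matrix.smul_apply, Matrix.smul_apply, Mach.A,
    Matrix.smul_apply, Matrix.map_apply]
  erw [hK]
  have hsh : (openM (m + 1) up r negc).sh = 7 := rfl
  rw [hsh, Matrix.one_apply]
  by_cases h : σ = τ
  · simp only [if_pos h]
    simp only [smul_eq_mul]
    push_cast
    cases up <;> simp <;> ring
  · simp only [if_neg h]
    simp only [smul_eq_mul]
    push_cast
    norm_num
    ring

end Crest.Agent.HG
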