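import Mathlib
import Crest.Agent.HG_CC

/-!
HG_CH4a (helper69): one-bond and two-bond operator inequalities for the integer machines, as real
quadratic forms on a chain with coordinates `C : Coord κ n d`.

* `pull_nonneg`: embedding of a local form;
* `Coord.hb C i j`: the matrix of `S_i · S_j` (spin one sites `i`, `j`), `Coord.hbt` the same with the
  sign of the exchange part changed (twisted bond);
* `Coord.hb_le_one`, `Coord.neg_two_le_hb`, `Coord.neg_three_le_hb_add_hb` (and `hbt` versions).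
-/

set_option autoImplicit false

namespace Crest.Agent.HG
open Matrix

/-! ### general lemmas on quadratic forms -/

private theorem form_fiber {κ S : Type*} [DecidableEq κ] [Fintype S] [DecidableEq S]
    (T : S → S → ℝ) (loc : κ → S) (x : κ → ℝ) (A : Finset κ) :
    ∑ σ ∈ A, ∑ τ ∈ A, x σ * T (loc σ) (loc τ) * x τ =
      ∑ s, ∑ t, (∑ σ ∈ A.filter (fun σ => loc σ = s), x σ) * T s t *
        (∑ τ ∈ A.filter (fun τ => loc τ = t), x τ) := by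
  rw [← Finset.sum_fiberwise A loc]
  refine Finset.sum_congr rfl fun s _ => ?_
  have h1 : ∀ σ ∈ A.filter (fun σ => loc σ = s), (∑ τ ∈ A, x σ * T (loc σ) (loc τ) * x τ) =
      ∑ t, ∑ τ ∈ A.filter (fun τ => loc τ = t), x σ * T s t * x τ := by
    intro σ hσ
    rw [← Finset.sum_fiberwise A loc]
    refine Finset.sum_congr rfl fun t _ => Finset.sum_congr rfl fun τ hτ => ?_
    rw [(Finset.mem_filter.1 hσ).2, (Finset.mem_filter.1 hτ).2]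
  rw [Finset.sum_congr rfl h1, Finset.sum_comm]
  refine Finset.sum_congr rfl fun t _ => ?_
  rw [Finset.sum_mul, Finset.sum_mul]
  refine Finset.sum_congr rfl fun σ _ => ?_
  rw [Finset.mul_sum]

/-- embedding of a local nonnegative form: `r` = configuration off the bond, `loc` = digits on the
bond. -/
theorem pull_nonneg {κ R S : Type*} [Fintype κ] [DecidableEq R] [Fintype S]
    (T : S → S → ℝ) (hT : ∀ y : S → ℝ, 0 ≤ ∑ s, ∑ t, y s * T s t * y t) (r : κ → R) (loc : κ → S)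
    (x : κ → ℝ) :
    0 ≤ ∑ σ, ∑ τ, x σ * (if r σ = r τ then T (loc σ) (loc τ) else 0) * x τ := by
  classical
  rw [← Finset.sum_fiberwise_of_maps_to (t := Finset.univ.image r)
    (fun σ _ => Finset.mem_image_of_mem r (Finset.mem_univ σ))]
  refine Finset.sum_nonneg fun ρ _ => ?_
  have h1 : ∀ σ ∈ Finset.univ.filter (fun σ => r σ = ρ),
      (∑ τ, x σ * (if r σ = r τ then T (loc σ) (loc τ) else 0) * x τ) =
      ∑ τ ∈ Finset.univ.filter (fun τ => r τ = ρ), x σ * T (loc σ) (loc τ) * x τ := by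
    intro σ hσ
    rw [(Finset.mem_filter.1 hσ).2, Finset.sum_filter]
    refine Finset.sum_congr rfl fun τ _ => ?_
    by_cases h : r τ = ρ
    · rw [if_pos h, if_pos h.symm]
    · rw [if_neg h, if_neg (fun h' => h h'.symm)]
      ring
  rw [Finset.sum_congr rfl h1, form_fiber]
  exact hT _

/-- a sum of squares with integer certificate is nonnegative. -/
theorem sos_nonneg {S : Type*} [Fintype S] (T : S → S → ℤ) (D : ℤ) (hD : 0 < D)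
    (L : List (ℤ × List ℤ)) (ix : S → ℕ) (hL : ∀ p ∈ L, 0 ≤ p.1)
    (h : ∀ s t, D * T s t = (L.map fun p => p.1 * p.2.getD (ix s) 0 * p.2.getD (ix t) 0).sum)
    (y : S → ℝ) : 0 ≤ ∑ s, ∑ t, y s * (T s t : ℝ) * y t := by
  have key : ∀ L : List (ℤ × List ℤ), (∀ p ∈ L, 0 ≤ p.1) → 0 ≤ ∑ s, ∑ t, y s *
      (((L.map fun p => p.1 * p.2.getD (ix s) 0 * p.2.getD (ix t) 0).sum : ℤ) : ℝ) * y t := by
    intro L
    induction L with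
    | nil => intro _; simp
    | cons p L ih =>
      intro hp
      have h1 := ih fun q hq => hp q (List.mem_cons_of_mem _ hq)
      have h2 : (0 : ℝ) ≤ (p.1 : ℝ) := by exact_mod_cast hp p List.mem_cons_self
      have h3 : ∑ s, ∑ t, y s * ((((p :: L).map fun p => p.1 * p.2.getD (ix s) 0 *
          p.2.getD (ix t) 0).sum : ℤ) : ℝ) * y t =
          (p.1 : ℝ) * ((∑ s, y s * (p.2.getD (ix s) 0 : ℤ)) * ∑ t, y t * (p.2.getD (ix t) 0 : ℤ)) +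
          ∑ s, ∑ t, y s *
      (((L.map fun p => p.1 * p.2.getD (ix s) 0 * p.2.getD (ix t) 0).sum : ℤ) : ℝ) * y t := by
        rw [Finset.sum_mul_sum, Finset.mul_sum, ← Finset.sum_add_distrib]
        refine Finset.sum_congr rfl fun s _ => ?_
        rw [Finset.mul_sum, ← Finset.sum_add_distrib]
        refine Finset.sum_congr rfl fun t _ => ?_
        rw [List.map_cons, List.sum_cons]
        push_cast
        ring
      rw [h3]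
      exact add_nonneg (mul_nonneg h2 (mul_self_nonneg _)) h1
  have h1 := key L hL
  have h2 : ∑ s, ∑ t, y s *
      (((L.map fun p => p.1 * p.2.getD (ix s) 0 * p.2.getD (ix t) 0).sum : ℤ) : ℝ) * y t =
      (D : ℝ) * ∑ s, ∑ t, y s * (T s t : ℝ) * y t := by
    rw [Finset.mul_sum]
    refine Finset.sum_congr rfl fun s _ => ?_
    rw [Finset.mul_sum]
    refine Finset.sum_congr rfl fun t _ => ?_
    rw [← h s t]
    push_cast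
    ring
  rw [h2] at h1
  have hD' : (0 : ℝ) < D := by exact_mod_cast hD
  exact (mul_nonneg_iff_of_pos_left hD').1 h1

theorem qf_eq {κ : Type*} [Fintype κ] (M : Matrix κ κ ℝ) (x : κ → ℝ) :
    x ⬝ᵥ M *ᵥ x = ∑ σ, ∑ τ, x σ * M σ τ * x τ := by
  simp only [dotProduct, mulVec, Finset.mul_sum]
  exact Finset.sum_congr rfl fun σ _ => Finset.sum_congr rfl fun τ _ => (mul_assoc _ _ _).symm

/-! ### local matrices -/

/-- exchange of two spins one -/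
def h9 (a b a' b' : ℕ) : ℤ :=
  if (a + 1 = a' ∧ b = b' + 1) ∨ (a = a' + 1 ∧ b + 1 = b') then 1 else 0

/-- `1 - (m m' + ε exchange)` -/
def Tu (ε : ℤ) (s t : Fin 3 × Fin 3) : ℤ :=
  (if s = t then 1 - (1 - ((s.1 : ℕ) : ℤ)) * (1 - ((s.2 : ℕ) : ℤ)) else 0) - ε * h9 s.1 s.2 t.1 t.2

/-- `2 + (m m' + ε exchange)` -/
def Tl (ε : ℤ) (s t : Fin 3 × Fin 3) : ℤ :=
  (if s = t then 2 + (1 - ((s.1 : ℕ) : ℤ)) * (1 - ((s.2 : ℕ) : ℤ)) else 0) + ε * h9 s.1 s.2 t.1 t.2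

/-- `3 + S_1 · S_2 + S_2 · S_3`, `ε` = sign of the exchange of the second bond. -/
def T3 (ε : ℤ) (s t : Fin 3 × Fin 3 × Fin 3) : ℤ :=
  (if s.2.2 = t.2.2 then h9 s.1 s.2.1 t.1 t.2.1 else 0) +
  ε * (if s.1 = t.1 then h9 s.2.1 s.2.2 t.2.1 t.2.2 else 0) +
  (if s = t then (1 - ((s.1 : ℕ) : ℤ)) * (1 - ((s.2.1 : ℕ) : ℤ)) +
    (1 - ((s.2.1 : ℕ) : ℤ)) * (1 - ((s.2.2 : ℕ) : ℤ)) + 3 else 0)

private def ix2 (s : Fin 3 × Fin 3) : ℕ := 3 * s.1 + s.2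
private def ix3 (s : Fin 3 × Fin 3 × Fin 3) : ℕ := 9 * s.1 + 3 * s.2.1 + s.2.2

theorem Tu_nonneg (ε : ℤ) (hε : ε = 1 ∨ ε = -1) (y : Fin 3 × Fin 3 → ℝ) :
    0 ≤ ∑ s, ∑ t, y s * (Tu ε s t : ℝ) * y t := by
  rcases hε with rfl | rfl
  · exact sos_nonneg (Tu 1) 1 one_pos
      [(1, [0, 1, 0, -1]), (1, [0, 0, 0, 0, 0, 1, 0, -1]), (1, [0, 0, 1, 0, -1, 0, 1]),
        (1, [0, 0, 1, 0, 0, 0, -1])] ix2 (by decide) (by decide +kernel) y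
  · exact sos_nonneg (Tu (-1)) 1 one_pos
      [(1, [0, 1, 0, 1]), (1, [0, 0, 0, 0, 0, 1, 0, 1]), (1, [0, 0, 1, 0, 1, 0, 1]),
        (1, [0, 0, 1, 0, 0, 0, -1])] ix2 (by decide) (by decide +kernel) y

theorem Tl_nonneg (ε : ℤ) (hε : ε = 1 ∨ ε = -1) (y : Fin 3 × Fin 3 → ℝ) :
    0 ≤ ∑ s, ∑ t, y s * (Tl ε s t : ℝ) * y t := by
  rcases hε with rfl | rfl
  · exact sos_nonneg (Tl 1) 1 one_pos
      [(3, [1]), (3, [0, 0, 0, 0, 0, 0, 0, 0, 1]), (1, [0, 1, 0, 1]), (1, [0, 1]),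
        (1, [0, 0, 0, 1]), (1, [0, 0, 0, 0, 0, 1, 0, 1]), (1, [0, 0, 0, 0, 0, 1]),
        (1, [0, 0, 0, 0, 0, 0, 0, 1]), (1, [0, 0, 1, 0, 1]), (1, [0, 0, 0, 0, 1, 0, 1])]
      ix2 (by decide) (by decide +kernel) y
  · exact sos_nonneg (Tl (-1)) 1 one_pos
      [(3, [1]), (3, [0, 0, 0, 0, 0, 0, 0, 0, 1]), (1, [0, 1, 0, -1]), (1, [0, 1]),
        (1, [0, 0, 0, 1]), (1, [0, 0, 0, 0, 0, 1, 0, -1]), (1, [0, 0, 0, 0, 0, 1]),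
        (1, [0, 0, 0, 0, 0, 0, 0, 1]), (1, [0, 0, 1, 0, -1]), (1, [0, 0, 0, 0, 1, 0, -1])]
      ix2 (by decide) (by decide +kernel) y

private def cert1 : List (ℤ × List ℤ) :=
  [(3300, [1, 0, 0, 0, 0, 0, 0, 0, 0, 0, 0, 0, 0, 0, 0, 0, 0, 0, 0, 0, 0, 0, 0, 0, 0, 0, 0]),
    (220, [0, 1, 0, 3, 0, 0, 0, 0, 0, 1, 0, 0, 0, 0, 0, 0, 0, 0, 0, 0, 0, 0, 0, 0, 0, 0, 0]),
    (20, [0, 11, 0, 0, 0, 0, 0, 0, 0, -1, 0, 0, 0, 0, 0, 0, 0, 0, 0, 0, 0, 0, 0, 0, 0, 0, 0]),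
    (2400, [0, 0, 0, 0, 0, 0, 0, 0, 0, 1, 0, 0, 0, 0, 0, 0, 0, 0, 0, 0, 0, 0, 0, 0, 0, 0, 0]),
    (660, [0, 0, 0, 0, 1, 0, 1, 0, 0, 0, 0, 0, 1, 0, 0, 0, 0, 0, 0, 0, 0, 0, 0, 0, 0, 0, 0]),
    (330, [0, 0, 1, 0, 2, 0, 0, 0, 0, 0, 1, 0, -1, 0, 0, 0, 0, 0, 0, 0, 0, 0, 0, 0, 0, 0, 0]),
    (220, [0, 0, 0, 0, 0, 0, 0, 0, 0, 0, 0, 0, 1, 0, 0, 0, 0, 0, 3, 0, 0, 0, 0, 0, 0, 0, 0]),
    (66, [0, 0, 5, 0, 0, 0, 0, 0, 0, 0, -1, 0, 1, 0, 0, 0, 0, 0, 0, 0, 0, 0, 0, 0, 0, 0, 0]),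
    (176, [0, 0, 0, 0, 0, 0, 0, 0, 0, 0, 3, 0, 2, 0, 0, 0, 0, 0, 0, 0, 0, 0, 0, 0, 0, 0, 0]),
    (330, [0, 0, 0, 0, 0, 1, 0, 2, 0, 0, 0, 0, 0, 1, 0, 0, 0, 0, 0, 0, 0, 0, 0, 0, 0, 0, 0]),
    (330, [0, 0, 0, 0, 0, 1, 0, 0, 0, 0, 0, 2, 0, 1, 0, 0, 0, 0, 0, 0, 0, 0, 0, 0, 0, 0, 0]),
    (330, [0, 0, 0, 0, 0, 2, 0, 0, 0, 0, 0, 0, 0, -1, 0, 0, 0, 0, 0, 0, 0, 0, 0, 0, 0, 0, 0]),
    (330, [0, 0, 0, 0, 0, 0, 0, 0, 0, 0, 0, 0, 0, 1, 0, 2, 0, 0, 0, 0, 0, 1, 0, 0, 0, 0, 0]),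
    (165, [0, 0, 0, 0, 0, 0, 0, 0, 0, 0, 0, 0, 0, 2, 0, 0, 0, 0, 0, 2, 0, -1, 0, 0, 0, 0, 0]),
    (165, [0, 0, 0, 0, 0, 0, 0, 0, 0, 0, 0, 0, 0, 0, 0, 0, 0, 0, 0, 2, 0, 3, 0, 0, 0, 0, 0]),
    (660, [0, 0, 0, 0, 0, 0, 0, 0, 0, 0, 0, 0, 0, 0, 1, 0, 0, 0, 0, 0, 1, 0, 1, 0, 0, 0, 0]),
    (330, [0, 0, 0, 0, 0, 0, 0, 0, 1, 0, 0, 0, 0, 0, 2, 0, 1, 0, 0, 0, 0, 0, -1, 0, 0, 0, 0]),
    (220, [0, 0, 0, 0, 0, 0, 0, 0, 0, 0, 0, 0, 0, 0, 0, 0, 0, 0, 0, 0, 0, 0, 1, 0, 3, 0, 0]),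
    (66, [0, 0, 0, 0, 0, 0, 0, 0, 5, 0, 0, 0, 0, 0, 0, 0, -1, 0, 0, 0, 0, 0, 1, 0, 0, 0, 0]),
    (176, [0, 0, 0, 0, 0, 0, 0, 0, 0, 0, 0, 0, 0, 0, 0, 0, 3, 0, 0, 0, 0, 0, 2, 0, 0, 0, 0]),
    (220, [0, 0, 0, 0, 0, 0, 0, 0, 0, 0, 0, 0, 0, 0, 0, 0, 0, 1, 0, 0, 0, 0, 0, 3, 0, 1, 0]),
    (20, [0, 0, 0, 0, 0, 0, 0, 0, 0, 0, 0, 0, 0, 0, 0, 0, 0, 11, 0, 0, 0, 0, 0, 0, 0, -1, 0]),
    (2400, [0, 0, 0, 0, 0, 0, 0, 0, 0, 0, 0, 0, 0, 0, 0, 0, 0, 0, 0, 0, 0, 0, 0, 0, 0, 1, 0]),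
    (3300, [0, 0, 0, 0, 0, 0, 0, 0, 0, 0, 0, 0, 0, 0, 0, 0, 0, 0, 0, 0, 0, 0, 0, 0, 0, 0, 1])]

private def cert2 : List (ℤ × List ℤ) :=
  [(3300, [1, 0, 0, 0, 0, 0, 0, 0, 0, 0, 0, 0, 0, 0, 0, 0, 0, 0, 0, 0, 0, 0, 0, 0, 0, 0, 0]),
    (220, [0, -1, 0, 3, 0, 0, 0, 0, 0, 1, 0, 0, 0, 0, 0, 0, 0, 0, 0, 0, 0, 0, 0, 0, 0, 0, 0]),
    (20, [0, -11, 0, 0, 0, 0, 0, 0, 0, -1, 0, 0, 0, 0, 0, 0, 0, 0, 0, 0, 0, 0, 0, 0, 0, 0, 0]),
    (2400, [0, 0, 0, 0, 0, 0, 0, 0, 0, 1, 0, 0, 0, 0, 0, 0, 0, 0, 0, 0, 0, 0, 0, 0, 0, 0, 0]),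
    (660, [0, 0, 0, 0, -1, 0, 1, 0, 0, 0, 0, 0, 1, 0, 0, 0, 0, 0, 0, 0, 0, 0, 0, 0, 0, 0, 0]),
    (330, [0, 0, 1, 0, -2, 0, 0, 0, 0, 0, -1, 0, -1, 0, 0, 0, 0, 0, 0, 0, 0, 0, 0, 0, 0, 0, 0]),
    (220, [0, 0, 0, 0, 0, 0, 0, 0, 0, 0, 0, 0, 1, 0, 0, 0, 0, 0, 3, 0, 0, 0, 0, 0, 0, 0, 0]),
    (66, [0, 0, 5, 0, 0, 0, 0, 0, 0, 0, 1, 0, 1, 0, 0, 0, 0, 0, 0, 0, 0, 0, 0, 0, 0, 0, 0]),
    (176, [0, 0, 0, 0, 0, 0, 0, 0, 0, 0, -3, 0, 2, 0, 0, 0, 0, 0, 0, 0, 0, 0, 0, 0, 0, 0, 0]),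
    (330, [0, 0, 0, 0, 0, 1, 0, -2, 0, 0, 0, 0, 0, -1, 0, 0, 0, 0, 0, 0, 0, 0, 0, 0, 0, 0, 0]),
    (330, [0, 0, 0, 0, 0, 1, 0, 0, 0, 0, 0, 2, 0, -1, 0, 0, 0, 0, 0, 0, 0, 0, 0, 0, 0, 0, 0]),
    (330, [0, 0, 0, 0, 0, 2, 0, 0, 0, 0, 0, 0, 0, 1, 0, 0, 0, 0, 0, 0, 0, 0, 0, 0, 0, 0, 0]),
    (330, [0, 0, 0, 0, 0, 0, 0, 0, 0, 0, 0, 0, 0, -1, 0, 2, 0, 0, 0, 0, 0, 1, 0, 0, 0, 0, 0]),
    (165, [0, 0, 0, 0, 0, 0, 0, 0, 0, 0, 0, 0, 0, -2, 0, 0, 0, 0, 0, -2, 0, -1, 0, 0, 0, 0, 0]),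
    (165, [0, 0, 0, 0, 0, 0, 0, 0, 0, 0, 0, 0, 0, 0, 0, 0, 0, 0, 0, -2, 0, 3, 0, 0, 0, 0, 0]),
    (660, [0, 0, 0, 0, 0, 0, 0, 0, 0, 0, 0, 0, 0, 0, 1, 0, 0, 0, 0, 0, 1, 0, -1, 0, 0, 0, 0]),
    (330, [0, 0, 0, 0, 0, 0, 0, 0, 1, 0, 0, 0, 0, 0, 2, 0, -1, 0, 0, 0, 0, 0, 1, 0, 0, 0, 0]),
    (220, [0, 0, 0, 0, 0, 0, 0, 0, 0, 0, 0, 0, 0, 0, 0, 0, 0, 0, 0, 0, 0, 0, -1, 0, 3, 0, 0]),
    (66, [0, 0, 0, 0, 0, 0, 0, 0, 5, 0, 0, 0, 0, 0, 0, 0, 1, 0, 0, 0, 0, 0, -1, 0, 0, 0, 0]),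
    (176, [0, 0, 0, 0, 0, 0, 0, 0, 0, 0, 0, 0, 0, 0, 0, 0, -3, 0, 0, 0, 0, 0, -2, 0, 0, 0, 0]),
    (220, [0, 0, 0, 0, 0, 0, 0, 0, 0, 0, 0, 0, 0, 0, 0, 0, 0, 1, 0, 0, 0, 0, 0, 3, 0, -1, 0]),
    (20, [0, 0, 0, 0, 0, 0, 0, 0, 0, 0, 0, 0, 0, 0, 0, 0, 0, 11, 0, 0, 0, 0, 0, 0, 0, 1, 0]),
    (2400, [0, 0, 0, 0, 0, 0, 0, 0, 0, 0, 0, 0, 0, 0, 0, 0, 0, 0, 0, 0, 0, 0, 0, 0, 0, -1, 0]),
    (3300, [0, 0, 0, 0, 0, 0, 0, 0, 0, 0, 0, 0, 0, 0, 0, 0, 0, 0, 0, 0, 0, 0, 0, 0, 0, 0, 1])]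

theorem T3_nonneg (ε : ℤ) (hε : ε = 1 ∨ ε = -1) (y : Fin 3 × Fin 3 × Fin 3 → ℝ) :
    0 ≤ ∑ s, ∑ t, y s * (T3 ε s t : ℝ) * y t := by
  rcases hε with rfl | rfl
  · exact sos_nonneg (T3 1) 660 (by norm_num) cert1 ix3 (by decide) (by decide +kernel) y
  · exact sos_nonneg (T3 (-1)) 660 (by norm_num) cert2 ix3 (by decide) (by decide +kernel) y

/-! ### bonds of a chain -/
namespace Coord
variable {κ : Type} {n : ℕ} {d : ℕ → ℕ}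

theorem hop_comm (C : Coord κ n d) (i j : ℕ) : C.hop i j = C.hop j i := by
  classical
  ext σ τ
  simp only [hop, Matrix.of_apply]
  refine if_congr ?_ rfl rfl
  constructor
  · rintro ⟨h1, h2⟩
    exact ⟨fun k hk1 hk2 => h1 k hk2 hk1, by rcases h2 with h2 | h2 <;> tauto⟩
  · rintro ⟨h1, h2⟩
    exact ⟨fun k hk1 hk2 => h1 k hk2 hk1, by rcases h2 with h2 | h2 <;> tauto⟩

theorem hop_symm (C : Coord κ n d) (i j : ℕ) (σ τ : κ) : C.hop i j σ τ = C.hop i j τ σ := by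
  classical
  simp only [hop, Matrix.of_apply]
  refine if_congr ?_ rfl rfl
  constructor
  · rintro ⟨h1, h2⟩
    exact ⟨fun k hk1 hk2 => (h1 k hk1 hk2).symm, by omega⟩
  · rintro ⟨h1, h2⟩
    exact ⟨fun k hk1 hk2 => (h1 k hk1 hk2).symm, by omega⟩

theorem dg_inj (C : Coord κ n d) {σ τ : κ} (h : ∀ k, C.dg σ k = C.dg τ k) : σ = τ := by
  rw [← C.st_dg σ, ← C.st_dg τ]
  congr 1
  exact funext h

variable [DecidableEq κ]

/-- `ε (S^x S^x + S^y S^y) + S^z S^z` of two spin-one sites. -/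
noncomputable def hbs (C : Coord κ n d) (ε : ℤ) (i j : ℕ) : Matrix κ κ ℝ :=
  (ε : ℝ) • (C.hop i j).map (fun z : ℤ => (z : ℝ)) +
    Matrix.diagonal (fun σ => (1 - (C.dg σ i : ℝ)) * (1 - (C.dg σ j : ℝ)))

/-- `S_i · S_j` -/
noncomputable def hb (C : Coord κ n d) (i j : ℕ) : Matrix κ κ ℝ :=
  (C.hop i j).map (fun z : ℤ => (z : ℝ)) +
    Matrix.diagonal (fun σ => (1 - (C.dg σ i : ℝ)) * (1 - (C.dg σ j : ℝ)))

theorem hbs_one (C : Coord κ n d) (i j : ℕ) : C.hbs 1 i j = C.hb i j := by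
  rw [hbs, hb, Int.cast_one, one_smul]

theorem hbs_comm (C : Coord κ n d) (ε : ℤ) (i j : ℕ) : C.hbs ε i j = C.hbs ε j i := by
  rw [hbs, hbs, hop_comm]
  congr 2
  ext σ
  ring

theorem hb_comm (C : Coord κ n d) (i j : ℕ) : C.hb i j = C.hb j i := by
  rw [← hbs_one, ← hbs_one, hbs_comm]

theorem hbs_apply (C : Coord κ n d) (ε : ℤ) (i j : ℕ) (σ τ : κ) : C.hbs ε i j σ τ =
    (ε : ℝ) * (C.hop i j σ τ : ℝ) +
      if σ = τ then (1 - (C.dg σ i : ℝ)) * (1 - (C.dg σ j : ℝ)) else 0 := by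
  rw [hbs, Matrix.add_apply, Matrix.smul_apply, Matrix.map_apply, Matrix.diagonal_apply,
    smul_eq_mul]

/-- configuration off `i`, `j` -/
private def r2 (C : Coord κ n d) (i j : ℕ) (σ : κ) : ℕ → ℕ :=
  fun k => if k = i ∨ k = j then 0 else C.dg σ k

private theorem r2_iff (C : Coord κ n d) (i j : ℕ) (σ τ : κ) :
    r2 C i j σ = r2 C i j τ ↔ ∀ k, k ≠ i → k ≠ j → C.dg σ k = C.dg τ k := by
  constructor
  · intro h k h1 h2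
    have h3 := congrFun h k
    simpa [r2, h1, h2] using h3
  · intro h
    funext k
    unfold r2
    split_ifs with hk
    · rfl
    · push Not at hk
      exact h k hk.1 hk.2

/-- configuration off `i`, `j`, `k` -/
private def r3 (C : Coord κ n d) (i j k : ℕ) (σ : κ) : ℕ → ℕ :=
  fun l => if l = i ∨ l = j ∨ l = k then 0 else C.dg σ l

private theorem r3_iff (C : Coord κ n d) (i j k : ℕ) (σ τ : κ) :
    r3 C i j k σ = r3 C i j k τ ↔ ∀ l, l ≠ i → l ≠ j → l ≠ k → C.dg σ l = C.dg τ l := by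
  constructor
  · intro h l h1 h2 h4
    have h3 := congrFun h l
    simpa [r3, h1, h2, h4] using h3
  · intro h
    funext l
    unfold r3
    split_ifs with hl
    · rfl
    · push Not at hl
      exact h l hl.1 hl.2.1 hl.2.2

private theorem hop_apply2 (C : Coord κ n d) (i j : ℕ) (σ τ : κ)
    (h : ∀ k, k ≠ i → k ≠ j → C.dg σ k = C.dg τ k) :
    C.hop i j σ τ = h9 (C.dg σ i) (C.dg σ j) (C.dg τ i) (C.dg τ j) := by
  classical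
  simp only [hop, Matrix.of_apply, h9]
  exact if_congr ⟨fun h' => h'.2, fun h' => ⟨h, h'⟩⟩ rfl rfl

private theorem hop_apply2' (C : Coord κ n d) (i j : ℕ) (σ τ : κ)
    (h : ¬ ∀ k, k ≠ i → k ≠ j → C.dg σ k = C.dg τ k) : C.hop i j σ τ = 0 := by
  classical
  simp only [hop, Matrix.of_apply]
  exact if_neg fun h' => h h'.1

variable [Fintype κ]

private theorem one_form (x : κ → ℝ) :
    x ⬝ᵥ x = ∑ σ, ∑ τ, x σ * (if σ = τ then 1 else 0) * x τ := by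
  simp only [dotProduct]
  refine Finset.sum_congr rfl fun σ _ => ?_
  simp

theorem hbs_le_one (C : Coord κ n d) {ε : ℤ} (hε : ε = 1 ∨ ε = -1) {i j : ℕ} (hij : i ≠ j)
    (hi : ∀ σ, C.dg σ i < 3) (hj : ∀ σ, C.dg σ j < 3) (x : κ → ℝ) :
    x ⬝ᵥ C.hbs ε i j *ᵥ x ≤ x ⬝ᵥ x := by
  classical
  have h1 := pull_nonneg (fun s t => (Tu ε s t : ℝ)) (Tu_nonneg ε hε) (r2 C i j)
    (fun σ => ((⟨C.dg σ i, hi σ⟩, ⟨C.dg σ j, hj σ⟩) : Fin 3 × Fin 3)) x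
  rw [← sub_nonneg, one_form, qf_eq, ← Finset.sum_sub_distrib]
  refine h1.trans_eq (Finset.sum_congr rfl fun σ _ => ?_)
  rw [← Finset.sum_sub_distrib]
  refine Finset.sum_congr rfl fun τ _ => ?_
  rw [← sub_mul, ← mul_sub]
  congr 2
  rw [hbs_apply]
  by_cases hr : r2 C i j σ = r2 C i j τ
  · have hr' := (r2_iff C i j σ τ).1 hr
    have he : σ = τ ↔ ((⟨C.dg σ i, hi σ⟩, ⟨C.dg σ j, hj σ⟩) : Fin 3 × Fin 3) =
        (⟨C.dg τ i, hi τ⟩, ⟨C.dg τ j, hj τ⟩) := by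
      constructor
      · rintro rfl
        rfl
      · intro h
        rw [Prod.mk.injEq, Fin.mk.injEq, Fin.mk.injEq] at h
        refine C.dg_inj fun k => ?_
        by_cases hk1 : k = i
        · rw [hk1, h.1]
        by_cases hk2 : k = j
        · rw [hk2, h.2]
        exact hr' k hk1 hk2
    rw [if_pos hr, hop_apply2 C i j σ τ hr']
    simp only [Tu]
    by_cases h : σ = τ
    · rw [if_pos (he.1 h), if_pos h, if_pos h]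
      push_cast
      ring
    · rw [if_neg (fun h' => h (he.2 h')), if_neg h, if_neg h]
      push_cast
      ring
  · have hr' : ¬ ∀ k, k ≠ i → k ≠ j → C.dg σ k = C.dg τ k := fun h => hr ((r2_iff C i j σ τ).2 h)
    have hne : σ ≠ τ := fun h => hr' fun k _ _ => by rw [h]
    rw [if_neg hr, hop_apply2' C i j σ τ hr', if_neg hne, if_neg hne]
    simp

theorem neg_two_le_hbs (C : Coord κ n d) {ε : ℤ} (hε : ε = 1 ∨ ε = -1) {i j : ℕ} (hij : i ≠ j)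
    (hi : ∀ σ, C.dg σ i < 3) (hj : ∀ σ, C.dg σ j < 3) (x : κ → ℝ) :
    -2 * (x ⬝ᵥ x) ≤ x ⬝ᵥ C.hbs ε i j *ᵥ x := by
  classical
  have h1 := pull_nonneg (fun s t => (Tl ε s t : ℝ)) (Tl_nonneg ε hε) (r2 C i j)
    (fun σ => ((⟨C.dg σ i, hi σ⟩, ⟨C.dg σ j, hj σ⟩) : Fin 3 × Fin 3)) x
  have h2 : 0 ≤ x ⬝ᵥ C.hbs ε i j *ᵥ x + 2 * (x ⬝ᵥ x) := by
    rw [one_form, qf_eq, Finset.mul_sum, ← Finset.sum_add_distrib]
    refine h1.trans_eq (Finset.sum_congr rfl fun σ _ => ?_)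
    rw [Finset.mul_sum, ← Finset.sum_add_distrib]
    refine Finset.sum_congr rfl fun τ _ => ?_
    have e : x σ * C.hbs ε i j σ τ * x τ + 2 * (x σ * (if σ = τ then 1 else 0) * x τ) =
        x σ * (C.hbs ε i j σ τ + 2 * (if σ = τ then 1 else 0)) * x τ := by ring
    rw [e]
    congr 2
    rw [hbs_apply]
    by_cases hr : r2 C i j σ = r2 C i j τ
    · have hr' := (r2_iff C i j σ τ).1 hr
      have he : σ = τ ↔ ((⟨C.dg σ i, hi σ⟩, ⟨C.dg σ j, hj σ⟩) : Fin 3 × Fin 3) =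
          (⟨C.dg τ i, hi τ⟩, ⟨C.dg τ j, hj τ⟩) := by
        constructor
        · rintro rfl
          rfl
        · intro h
          rw [Prod.mk.injEq, Fin.mk.injEq, Fin.mk.injEq] at h
          refine C.dg_inj fun k => ?_
          by_cases hk1 : k = i
          · rw [hk1, h.1]
          by_cases hk2 : k = j
          · rw [hk2, h.2]
          exact hr' k hk1 hk2
      rw [if_pos hr, hop_apply2 C i j σ τ hr']
      simp only [Tl]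
      by_cases h : σ = τ
      · rw [if_pos (he.1 h), if_pos h, if_pos h]
        push_cast
        ring
      · rw [if_neg (fun h' => h (he.2 h')), if_neg h, if_neg h]
        push_cast
        ring
    · have hr' : ¬ ∀ k, k ≠ i → k ≠ j → C.dg σ k = C.dg τ k :=
        fun h => hr ((r2_iff C i j σ τ).2 h)
      have hne : σ ≠ τ := fun h => hr' fun k _ _ => by rw [h]
      rw [if_neg hr, hop_apply2' C i j σ τ hr', if_neg hne, if_neg hne]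
      simp
  linarith

theorem neg_three_le_hb_add_hbs (C : Coord κ n d) {ε : ℤ} (hε : ε = 1 ∨ ε = -1) {i j k : ℕ}
    (hij : i ≠ j) (hjk : j ≠ k) (hik : i ≠ k)
    (hi : ∀ σ, C.dg σ i < 3) (hj : ∀ σ, C.dg σ j < 3) (hk : ∀ σ, C.dg σ k < 3) (x : κ → ℝ) :
    -3 * (x ⬝ᵥ x) ≤ x ⬝ᵥ (C.hb i j + C.hbs ε j k) *ᵥ x := by
  classical
  have h1 := pull_nonneg (fun s t => (T3 ε s t : ℝ)) (T3_nonneg ε hε) (r3 C i j k)
    (fun σ => ((⟨C.dg σ i, hi σ⟩, ⟨C.dg σ j, hj σ⟩, ⟨C.dg σ k, hk σ⟩) :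
      Fin 3 × Fin 3 × Fin 3)) x
  have h2 : 0 ≤ x ⬝ᵥ (C.hb i j + C.hbs ε j k) *ᵥ x + 3 * (x ⬝ᵥ x) := by
    rw [one_form, qf_eq, Finset.mul_sum, ← Finset.sum_add_distrib]
    refine h1.trans_eq (Finset.sum_congr rfl fun σ _ => ?_)
    rw [Finset.mul_sum, ← Finset.sum_add_distrib]
    refine Finset.sum_congr rfl fun τ _ => ?_
    have e : x σ * (C.hb i j + C.hbs ε j k) σ τ * x τ +
        3 * (x σ * (if σ = τ then 1 else 0) * x τ) =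
        x σ * ((C.hb i j + C.hbs ε j k) σ τ + 3 * (if σ = τ then 1 else 0)) * x τ := by ring
    rw [e]
    congr 2
    rw [Matrix.add_apply, ← hbs_one, hbs_apply, hbs_apply]
    by_cases hr : r3 C i j k σ = r3 C i j k τ
    · have hr' := (r3_iff C i j k σ τ).1 hr
      have he : σ = τ ↔ ((⟨C.dg σ i, hi σ⟩, ⟨C.dg σ j, hj σ⟩, ⟨C.dg σ k, hk σ⟩) :
          Fin 3 × Fin 3 × Fin 3) = (⟨C.dg τ i, hi τ⟩, ⟨C.dg τ j, hj τ⟩, ⟨C.dg τ k, hk τ⟩) := by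
        constructor
        · rintro rfl
          rfl
        · intro h
          rw [Prod.mk.injEq, Prod.mk.injEq, Fin.mk.injEq, Fin.mk.injEq, Fin.mk.injEq] at h
          refine C.dg_inj fun l => ?_
          by_cases hk1 : l = i
          · rw [hk1, h.1]
          by_cases hk2 : l = j
          · rw [hk2, h.2.1]
          by_cases hk3 : l = k
          · rw [hk3, h.2.2]
          exact hr' l hk1 hk2 hk3
      have e1 : C.hop i j σ τ = if C.dg σ k = C.dg τ k then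
          h9 (C.dg σ i) (C.dg σ j) (C.dg τ i) (C.dg τ j) else 0 := by
        by_cases h : C.dg σ k = C.dg τ k
        · rw [if_pos h]
          refine hop_apply2 C i j σ τ fun l h1 h2 => ?_
          by_cases hk3 : l = k
          · rw [hk3, h]
          exact hr' l h1 h2 hk3
        · rw [if_neg h]
          exact hop_apply2' C i j σ τ fun h' => h (h' k hik.symm hjk.symm)
      have e2 : C.hop j k σ τ = if C.dg σ i = C.dg τ i then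
          h9 (C.dg σ j) (C.dg σ k) (C.dg τ j) (C.dg τ k) else 0 := by
        by_cases h : C.dg σ i = C.dg τ i
        · rw [if_pos h]
          refine hop_apply2 C j k σ τ fun l h1 h2 => ?_
          by_cases hk3 : l = i
          · rw [hk3, h]
          exact hr' l hk3 h1 h2
        · rw [if_neg h]
          exact hop_apply2' C j k σ τ fun h' => h (h' i hij hik)
      rw [if_pos hr, e1, e2]
      simp only [T3, Fin.mk.injEq]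
      by_cases h : σ = τ
      · rw [if_pos (he.1 h), if_pos h, if_pos h, if_pos h]
        push_cast
        ring
      · rw [if_neg (fun h' => h (he.2 h')), if_neg h, if_neg h, if_neg h]
        push_cast
        ring
    · have hr' : ¬ ∀ l, l ≠ i → l ≠ j → l ≠ k → C.dg σ l = C.dg τ l :=
        fun h => hr ((r3_iff C i j k σ τ).2 h)
      have hne : σ ≠ τ := fun h => hr' fun k _ _ _ => by rw [h]
      have e1 : C.hop i j σ τ = 0 :=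
        hop_apply2' C i j σ τ fun h => hr' fun l h1 h2 _ => h l h1 h2
      have e2 : C.hop j k σ τ = 0 :=
        hop_apply2' C j k σ τ fun h => hr' fun l _ h2 h3 => h l h2 h3
      rw [if_neg hr, e1, e2, if_neg hne, if_neg hne, if_neg hne]
      simp
  linarith

theorem hb_le_one (C : Coord κ n d) {i j : ℕ} (hij : i ≠ j)
    (hi : ∀ σ, C.dg σ i < 3) (hj : ∀ σ, C.dg σ j < 3) (x : κ → ℝ) :
    x ⬝ᵥ C.hb i j *ᵥ x ≤ x ⬝ᵥ x := by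
  rw [← hbs_one]
  exact C.hbs_le_one (Or.inl rfl) hij hi hj x

theorem neg_two_le_hb (C : Coord κ n d) {i j : ℕ} (hij : i ≠ j)
    (hi : ∀ σ, C.dg σ i < 3) (hj : ∀ σ, C.dg σ j < 3) (x : κ → ℝ) :
    -2 * (x ⬝ᵥ x) ≤ x ⬝ᵥ C.hb i j *ᵥ x := by
  rw [← hbs_one]
  exact C.neg_two_le_hbs (Or.inl rfl) hij hi hj x

theorem neg_three_le_hb_add_hb (C : Coord κ n d) {i j k : ℕ}
    (hij : i ≠ j) (hjk : j ≠ k) (hik : i ≠ k)
    (hi : ∀ σ, C.dg σ i < 3) (hj : ∀ σ, C.dg σ j < 3) (hk : ∀ σ, C.dg σ k < 3) (x : κ → ℝ) :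
    -3 * (x ⬝ᵥ x) ≤ x ⬝ᵥ (C.hb i j + C.hb j k) *ᵥ x := by
  have h := C.neg_three_le_hb_add_hbs (Or.inl rfl) hij hjk hik hi hj hk x
  rwa [hbs_one] at h

end Coord
end Crest.Agent.HG
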