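import Mathlib
import Crest.Agent.HG_CC
import Crest.Agent.HG_CH4a

/-!
HG_CH4 (helper69): symmetry and block structure of the integer matrix `K` of a machine;
contraction `|x · A x| ≤ x · x` for the ring.
-/

set_option autoImplicit false

namespace Crest.Agent.HG
open Matrix

/-! ### symmetry -/

private theorem isSymm_list_sum {κ : Type} (l : List (Matrix κ κ ℤ)) (h : ∀ A ∈ l, A.IsSymm) :
    l.sum.IsSymm := by
  induction l with
  | nil =>
    rw [List.sum_nil]
    exact Matrix.isSymm_zero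
  | cons A l ih =>
    rw [List.sum_cons]
    exact (h A List.mem_cons_self).add (ih fun B hB => h B (List.mem_cons_of_mem _ hB))

private theorem hop_isSymm {κ : Type} {n : ℕ} {d : ℕ → ℕ} (C : Coord κ n d) (i j : ℕ) :
    (C.hop i j).IsSymm := by
  ext σ τ
  rw [Matrix.transpose_apply]
  exact C.hop_symm i j τ σ

private theorem hops_isSymm {κ : Type} [DecidableEq κ] (M : Mach) (C : Coord κ M.n M.d)
    (l : List (ℕ × List (ℕ × ℕ))) : (M.hops C l).IsSymm := by
  refine isSymm_list_sum _ fun A hA => ?_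
  obtain ⟨t, -, rfl⟩ := List.mem_map.1 hA
  refine Matrix.IsSymm.smul (isSymm_list_sum _ fun B hB => ?_) _
  obtain ⟨p, -, rfl⟩ := List.mem_map.1 hB
  exact hop_isSymm C p.1 p.2

theorem K_symm {κ : Type} [DecidableEq κ] (M : Mach) (C : Coord κ M.n M.d) : (M.K C).IsSymm := by
  exact ((hops_isSymm M C _).sub (hops_isSymm M C _)).add (Matrix.isSymm_diagonal _)

/-! ### blocks -/

private theorem list_sum_apply {κ : Type} (l : List (Matrix κ κ ℤ)) (σ τ : κ)
    (h : ∀ A ∈ l, A σ τ = 0) : l.sum σ τ = 0 := by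
  induction l with
  | nil =>
    rw [List.sum_nil]
    rfl
  | cons A l ih =>
    rw [List.sum_cons, Matrix.add_apply, h A List.mem_cons_self,
      ih fun B hB => h B (List.mem_cons_of_mem _ hB), add_zero]

private theorem hop_Q {κ : Type} {n : ℕ} {d : ℕ → ℕ} (C : Coord κ n d) {i j : ℕ} (hij : i < j)
    (hj : j < n) {σ τ : κ} (h : C.Q σ ≠ C.Q τ) : C.hop i j σ τ = 0 := by
  classical
  simp only [Coord.hop, Matrix.of_apply]
  refine if_neg ?_
  rintro ⟨h1, h2⟩
  apply h
  unfold Coord.Q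
  have hi : i ∈ Finset.range n := Finset.mem_range.2 (hij.trans hj)
  have hj' : j ∈ (Finset.range n).erase i := Finset.mem_erase.2 ⟨hij.ne', Finset.mem_range.2 hj⟩
  rw [← Finset.add_sum_erase _ _ hi, ← Finset.add_sum_erase _ _ hj',
    ← Finset.add_sum_erase (Finset.range n) (fun k => C.dg τ k) hi,
    ← Finset.add_sum_erase ((Finset.range n).erase i) (fun k => C.dg τ k) hj']
  have h3 : ∑ k ∈ ((Finset.range n).erase i).erase j, C.dg σ k =
      ∑ k ∈ ((Finset.range n).erase i).erase j, C.dg τ k := by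
    refine Finset.sum_congr rfl fun k hk => ?_
    rw [Finset.mem_erase, Finset.mem_erase] at hk
    exact h1 k hk.2.1 hk.1
  omega

private theorem hops_Q {κ : Type} [DecidableEq κ] (M : Mach) (C : Coord κ M.n M.d)
    (l : List (ℕ × List (ℕ × ℕ))) (hh : ∀ t ∈ l, ∀ p ∈ t.2, p.1 < p.2 ∧ p.2 < M.n) (σ τ : κ)
    (h : C.Q σ ≠ C.Q τ) : M.hops C l σ τ = 0 := by
  refine list_sum_apply _ σ τ fun A hA => ?_
  obtain ⟨t, ht, rfl⟩ := List.mem_map.1 hA
  rw [Matrix.smul_apply]
  rw [list_sum_apply, smul_zero]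
  intro B hB
  obtain ⟨p, hp, rfl⟩ := List.mem_map.1 hB
  exact hop_Q C (hh t ht p hp).1 (hh t ht p hp).2 h

theorem K_block {κ : Type} [DecidableEq κ] (M : Mach) (C : Coord κ M.n M.d)
    (hh : ∀ t ∈ M.posH ++ M.negH, ∀ p ∈ t.2, p.1 < p.2 ∧ p.2 < M.n) (σ τ : κ)
    (h : M.K C σ τ ≠ 0) : C.Q σ = C.Q τ := by
  by_contra hne
  apply h
  have hστ : σ ≠ τ := fun h' => hne (by rw [h'])
  rw [Mach.K, Matrix.add_apply, Matrix.sub_apply,
    hops_Q M C _ (fun t ht => hh t (List.mem_append_left _ ht)) σ τ hne,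
    hops_Q M C _ (fun t ht => hh t (List.mem_append_right _ ht)) σ τ hne,
    Matrix.diagonal_apply_ne _ hστ]
  simp

/-! ### the ring -/

/-- `1 + m m'` as a natural number -/
def eN (a b : ℕ) : ℕ := (1 + (1 - (a : ℤ)) * (1 - (b : ℤ))).toNat

theorem eN_cast {a b : ℕ} (ha : a < 3) (hb : b < 3) :
    ((eN a b : ℕ) : ℤ) = 1 + (1 - (a : ℤ)) * (1 - (b : ℤ)) := by
  interval_cases a <;> interval_cases b <;> rfl

theorem eN_le {a b : ℕ} (ha : a < 3) (hb : b < 3) : eN a b ≤ 2 := by
  interval_cases a <;> interval_cases b <;> decide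

theorem count_pq {a b : ℕ} (ha : a < 3) (hb : b < 3) :
    [0, 0, 1].count a * [0, 0, 1].count b + [1, 2, 2].count a * [1, 2, 2].count b =
      2 * eN a b := by
  interval_cases a <;> interval_cases b <;> decide

/-- the diagonal function of a list of spin-one bonds is twice the sum of `1 + m m'`. -/
theorem G_pq3 {κ : Type} (M : Mach) (C : Coord κ M.n M.d) (σ : κ) (B : List (ℕ × ℕ))
    (hB : ∀ b ∈ B, b.1 ≠ b.2 ∧ C.dg σ b.1 < 3 ∧ C.dg σ b.2 < 3) :
    M.G C (B.flatMap pq3) σ = 2 * (B.map fun b => eN (C.dg σ b.1) (C.dg σ b.2)).sum := by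
  induction B with
  | nil => rfl
  | cons b B ih =>
    have h1 := ih fun b' hb' => hB b' (List.mem_cons_of_mem _ hb')
    obtain ⟨h2, h3, h4⟩ := hB b List.mem_cons_self
    have h5 := count_pq h3 h4
    rw [List.flatMap_cons, List.map_cons, List.sum_cons, mul_add, ← h1, ← h5]
    unfold Mach.G
    rw [List.map_append, List.sum_append]
    simp only [pq3, List.map_cons, List.map_nil, List.sum_cons, List.sum_nil, if_neg h2, add_zero]

theorem sum_eN_le {κ : Type} {n : ℕ} {d : ℕ → ℕ} (C : Coord κ n d) (σ : κ) (B : List (ℕ × ℕ))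
    (hB : ∀ b ∈ B, b.1 ≠ b.2 ∧ C.dg σ b.1 < 3 ∧ C.dg σ b.2 < 3) :
    (B.map fun b => eN (C.dg σ b.1) (C.dg σ b.2)).sum ≤ 2 * B.length := by
  induction B with
  | nil => simp
  | cons b B ih =>
    have h1 := ih fun b' hb' => hB b' (List.mem_cons_of_mem _ hb')
    obtain ⟨h2, h3, h4⟩ := hB b List.mem_cons_self
    have h5 := eN_le h3 h4
    rw [List.map_cons, List.sum_cons, List.length_cons]
    omega

theorem sum_eN_cast {κ : Type} {n : ℕ} {d : ℕ → ℕ} (C : Coord κ n d) (σ : κ) (B : List (ℕ × ℕ))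
    (hB : ∀ b ∈ B, b.1 ≠ b.2 ∧ C.dg σ b.1 < 3 ∧ C.dg σ b.2 < 3) :
    (((B.map fun b => eN (C.dg σ b.1) (C.dg σ b.2)).sum : ℕ) : ℤ) =
      (B.map fun b => (1 - (C.dg σ b.1 : ℤ)) * (1 - (C.dg σ b.2 : ℤ))).sum + B.length := by
  induction B with
  | nil => simp
  | cons b B ih =>
    have h1 := ih fun b' hb' => hB b' (List.mem_cons_of_mem _ hb')
    obtain ⟨h2, h3, h4⟩ := hB b List.mem_cons_self
    have h5 := eN_cast h3 h4
    rw [List.map_cons, List.sum_cons, List.map_cons, List.sum_cons, List.length_cons]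
    push_cast at h1 ⊢
    rw [h1, h5]
    ring

/-- the quadratic form of a matrix, linear in the matrix -/
def qf {κ : Type} [Fintype κ] (x : κ → ℝ) : Matrix κ κ ℝ →ₗ[ℝ] ℝ where
  toFun M := x ⬝ᵥ M *ᵥ x
  map_add' M N := by rw [Matrix.add_mulVec, dotProduct_add]
  map_smul' a M := by rw [Matrix.smul_mulVec, dotProduct_smul]; rfl

theorem qf_apply {κ : Type} [Fintype κ] (x : κ → ℝ) (M : Matrix κ κ ℝ) :
    qf x M = x ⬝ᵥ M *ᵥ x := rfl

theorem qf_one {κ : Type} [Fintype κ] [DecidableEq κ] (x : κ → ℝ) : qf x 1 = x ⬝ᵥ x := by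
  rw [qf_apply, Matrix.one_mulVec]

private theorem map_sum_hop {κ : Type} {n : ℕ} {d : ℕ → ℕ} (C : Coord κ n d)
    (B : List (ℕ × ℕ)) (σ τ : κ) : (((B.map fun p => C.hop p.1 p.2).sum σ τ : ℤ) : ℝ) =
      (B.map fun p => (C.hop p.1 p.2 σ τ : ℝ)).sum := by
  induction B with
  | nil => simp
  | cons b B ih =>
    rw [List.map_cons, List.sum_cons, List.map_cons, List.sum_cons, Matrix.add_apply, Int.cast_add,
      ih]

theorem sum_hb_apply {κ : Type} [DecidableEq κ] {n : ℕ} {d : ℕ → ℕ} (C : Coord κ n d)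
    (B : List (ℕ × ℕ)) (σ τ : κ) : (B.map fun b => C.hb b.1 b.2).sum σ τ =
      (((B.map fun p => C.hop p.1 p.2).sum σ τ : ℤ) : ℝ) +
      (if σ = τ then (B.map fun b => (1 - (C.dg σ b.1 : ℝ)) * (1 - (C.dg σ b.2 : ℝ))).sum
        else 0) := by
  rw [map_sum_hop]
  induction B with
  | nil => simp
  | cons b B ih =>
    rw [List.map_cons, List.sum_cons, List.map_cons, List.sum_cons, List.map_cons, List.sum_cons,
      Matrix.add_apply, ih, ← Coord.hbs_one, Coord.hbs_apply]
    by_cases h : σ = τ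
    · simp only [if_pos h, Int.cast_one, one_mul]
      ring
    · simp only [if_neg h, Int.cast_one, one_mul]
      ring

private theorem hops_one {κ : Type} [DecidableEq κ] (M : Mach) (C : Coord κ M.n M.d) (c : ℕ)
    (B : List (ℕ × ℕ)) (σ τ : κ) : M.hops C [(c, B)] σ τ =
      (c : ℤ) * (B.map fun p => C.hop p.1 p.2).sum σ τ := by
  rw [Mach.hops, List.map_cons, List.map_nil, List.sum_cons, List.sum_nil, add_zero,
    Matrix.smul_apply, smul_eq_mul]

/-- `K` of the ring as real matrix. -/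
theorem ring_K (L : ℕ) (hL : 3 ≤ L) (hL' : L ≤ 15) (tw : Bool) (r negc : ℕ) :
    ((ringM L tw r negc).K (coordF L)).map (fun z : ℤ => (z : ℝ)) =
      (25 : ℝ) • (((chainB (L - 1)).map fun b => (coordF L).hb b.1 b.2).sum +
        (coordF L).hbs (cond tw (-1) 1) 0 (L - 1)) +
      (25 * (L : ℝ) - negc) • (1 : Matrix (Fin L → Fin 3) (Fin L → Fin 3) ℝ) := by
  set C := coordF L with hC
  have hdg : ∀ (σ : Fin L → Fin 3) k, C.dg σ k < 3 := by
    intro σ k
    rcases lt_or_ge k L with hk | hk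
    · exact C.dg_lt σ k hk
    · rw [C.dg_ge σ k hk]
      norm_num
  have hB : ∀ σ, ∀ b ∈ chainB (L - 1) ++ [(0, L - 1)], b.1 ≠ b.2 ∧ C.dg σ b.1 < 3 ∧
      C.dg σ b.2 < 3 := by
    intro σ b hb
    refine ⟨?_, hdg _ _, hdg _ _⟩
    rw [List.mem_append] at hb
    rcases hb with hb | hb
    · unfold chainB at hb
      obtain ⟨j, -, rfl⟩ := List.mem_map.1 hb
      exact (Nat.lt_succ_self j).ne
    · rw [List.mem_singleton] at hb
      rw [hb]
      show 0 ≠ L - 1
      omega
  have hlen : (chainB (L - 1) ++ [(0, L - 1)]).length = L := by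
    rw [List.length_append, chainB, List.length_map, List.length_range, List.length_singleton]
    omega
  ext σ τ
  have hdiag : ∀ σ, ((((ringM L tw r negc).G C ((chainB (L - 1) ++ [(0, L - 1)]).flatMap pq3) σ /
      2 ^ 1 % 2 ^ 5 : ℕ) : ℤ) : ℝ) =
      ((chainB (L - 1)).map fun b => (1 - (C.dg σ b.1 : ℝ)) * (1 - (C.dg σ b.2 : ℝ))).sum +
        (1 - (C.dg σ 0 : ℝ)) * (1 - (C.dg σ (L - 1) : ℝ)) + L := by
    intro σ
    rw [G_pq3 (ringM L tw r negc) C σ _ (hB σ)]
    have h1 := sum_eN_le C σ _ (hB σ)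
    rw [hlen] at h1
    rw [pow_one, Nat.mul_div_cancel_left _ two_pos, Nat.mod_eq_of_lt (by omega),
      sum_eN_cast C σ _ (hB σ), hlen, List.map_append, List.sum_append]
    have hc : ∀ B : List (ℕ × ℕ),
        (((B.map fun b => (1 - (C.dg σ b.1 : ℤ)) * (1 - (C.dg σ b.2 : ℤ))).sum : ℤ) : ℝ) =
          (B.map fun b => (1 - (C.dg σ b.1 : ℝ)) * (1 - (C.dg σ b.2 : ℝ))).sum := by
      intro B
      induction B with
      | nil => simp
      | cons b B ih =>
        rw [List.map_cons, List.sum_cons, List.map_cons, List.sum_cons, Int.cast_add, ih]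
        congr 1
        push_cast
        ring
    rw [Int.cast_add, Int.cast_add, hc, hc]
    simp only [List.map_cons, List.map_nil, List.sum_cons, List.sum_nil, add_zero, Int.cast_natCast]
  rw [Matrix.map_apply, Mach.K, Matrix.add_apply, Matrix.sub_apply, Matrix.diagonal_apply,
    Matrix.add_apply, Matrix.smul_apply, Matrix.smul_apply, Matrix.add_apply, sum_hb_apply,
    Coord.hbs_apply, Matrix.one_apply, smul_eq_mul, smul_eq_mul]
  have hD : (((if σ = τ then
      ((ringM L tw r negc).posD.map fun t => (t.1 : ℤ) *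
        (((ringM L tw r negc).G C t.2.2.2 σ / 2 ^ t.2.1 % 2 ^ t.2.2.1 : ℕ) : ℤ)).sum -
          ((ringM L tw r negc).negc : ℤ) else 0 : ℤ)) : ℝ) =
      if σ = τ then 25 * (((chainB (L - 1)).map fun b => (1 - (C.dg σ b.1 : ℝ)) *
        (1 - (C.dg σ b.2 : ℝ))).sum + (1 - (C.dg σ 0 : ℝ)) * (1 - (C.dg σ (L - 1) : ℝ)) + L) -
          (negc : ℝ) else 0 := by
    by_cases h : σ = τ
    · rw [if_pos h, if_pos h, ← hdiag σ]
      have e : (ringM L tw r negc).posD =
        [(25, 1, 5, (chainB (L - 1) ++ [(0, L - 1)]).flatMap pq3)] := rfl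
      rw [e, List.map_cons, List.map_nil, List.sum_cons, List.sum_nil, add_zero]
      push_cast
      rfl
    · rw [if_neg h, if_neg h, Int.cast_zero]
  push_cast at hD ⊢
  rw [hD]
  cases tw with
  | false =>
    have e1 : (ringM L false r negc).hops C (ringM L false r negc).posH σ τ =
        25 * (((chainB (L - 1)).map fun p => C.hop p.1 p.2).sum σ τ + C.hop 0 (L - 1) σ τ) := by
      have e : (ringM L false r negc).posH = [(25, chainB (L - 1) ++ [(0, L - 1)])] := rfl
      rw [e, hops_one, List.map_append, List.sum_append, Matrix.add_apply, List.map_cons,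
        List.map_nil, List.sum_cons, List.sum_nil, add_zero]
      rfl
    have e2 : (ringM L false r negc).hops C (ringM L false r negc).negH σ τ = 0 := rfl
    rw [e1, e2]
    simp only [cond_false]
    by_cases h : σ = τ
    · simp only [if_pos h]
      push_cast
      ring
    · simp only [if_neg h]
      push_cast
      ring
  | true =>
    have e1 : (ringM L true r negc).hops C (ringM L true r negc).posH σ τ =
        25 * ((chainB (L - 1)).map fun p => C.hop p.1 p.2).sum σ τ := by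
      have e : (ringM L true r negc).posH = [(25, chainB (L - 1))] := rfl
      rw [e, hops_one]
      rfl
    have e2 : (ringM L true r negc).hops C (ringM L true r negc).negH σ τ =
        25 * C.hop 0 (L - 1) σ τ := by
      have e : (ringM L true r negc).negH = [(25, [(0, L - 1)])] := rfl
      rw [e, hops_one, List.map_cons, List.map_nil, List.sum_cons, List.sum_nil, add_zero]
      rfl
    rw [e1, e2]
    simp only [cond_true]
    by_cases h : σ = τ
    · simp only [if_pos h]
      push_cast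
      ring
    · simp only [if_neg h]
      push_cast
      ring

theorem ring_contr (L : ℕ) (hL : L = 4 ∨ L = 6 ∨ L = 8) (tw : Bool) (r negc : ℕ)
    (h1 : ((negc : ℝ) - 25 * L) / 25 - 10.24 ≤ -(3 / 2) * L)
    (h2 : (L : ℝ) ≤ ((negc : ℝ) - 25 * L) / 25 + 10.24) (x : (Fin L → Fin 3) → ℝ) :
    |x ⬝ᵥ ((ringM L tw r negc).A (coordF L)) *ᵥ x| ≤ x ⬝ᵥ x := by
  set C := coordF L with hC
  have hdg : ∀ k (σ : Fin L → Fin 3), C.dg σ k < 3 := by
    intro k σ
    rcases lt_or_ge k L with hk | hk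
    · exact C.dg_lt σ k hk
    · rw [C.dg_ge σ k hk]
      norm_num
  have hε : (cond tw (-1) 1 : ℤ) = 1 ∨ (cond tw (-1) 1 : ℤ) = -1 := by
    cases tw
    · left; rfl
    · right; rfl
  set s := x ⬝ᵥ x with hs
  have hs0 : 0 ≤ s := Finset.sum_nonneg fun σ _ => mul_self_nonneg _
  -- upper bounds of the bonds
  have hup : ∀ i j, i ≠ j → qf x (C.hb i j) ≤ s := fun i j hij =>
    C.hb_le_one hij (hdg i) (hdg j) x
  have hup' : ∀ i j, i ≠ j → qf x (C.hbs (cond tw (-1) 1) i j) ≤ s := fun i j hij =>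
    C.hbs_le_one hε hij (hdg i) (hdg j) x
  -- lower bounds of the pairs
  have hlo : ∀ i j k, i ≠ j → j ≠ k → i ≠ k → -3 * s ≤ qf x (C.hb i j) + qf x (C.hb j k) := by
    intro i j k hij hjk hik
    rw [← map_add]
    exact C.neg_three_le_hb_add_hb hij hjk hik (hdg i) (hdg j) (hdg k) x
  have hlo' : ∀ i j k, i ≠ j → j ≠ k → i ≠ k →
      -3 * s ≤ qf x (C.hb i j) + qf x (C.hbs (cond tw (-1) 1) k j) := by
    intro i j k hij hjk hik
    rw [← map_add, C.hbs_comm]
    exact C.neg_three_le_hb_add_hbs hε hij hjk hik (hdg i) (hdg j) (hdg k) x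
  have hA : x ⬝ᵥ ((ringM L tw r negc).A C) *ᵥ x = (25 * (qf x (((chainB (L - 1)).map
      fun b => C.hb b.1 b.2).sum) + qf x (C.hbs (cond tw (-1) 1) 0 (L - 1))) +
      (25 * (L : ℝ) - negc) * s) / 256 := by
    rw [← qf_apply, Mach.A, ring_K L (by omega) (by omega), map_smul, map_add, map_smul, map_add,
      map_smul, qf_one, ← hs]
    have e : (ringM L tw r negc).sh = 7 := rfl
    rw [e]
    simp only [smul_eq_mul]
    norm_num
    ring
  rw [hA, abs_le]
  set H := qf x (((chainB (L - 1)).map fun b => C.hb b.1 b.2).sum) +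
    qf x (C.hbs (cond tw (-1) 1) 0 (L - 1)) with hH
  have hHs : -(3 / 2) * (L : ℝ) * s ≤ H ∧ H ≤ L * s := by
    rcases hL with rfl | rfl | rfl
    · have e : chainB (4 - 1) = [(0, 1), (1, 2), (2, 3)] := rfl
      rw [hH, e]
      simp only [List.map_cons, List.map_nil, List.sum_cons, List.sum_nil, add_zero, map_add]
      have a1 := hup 0 1 (by norm_num)
      have a2 := hup 1 2 (by norm_num)
      have a3 := hup 2 3 (by norm_num)
      have a4 := hup' 0 3 (by norm_num)
      have b1 := hlo 0 1 2 (by norm_num) (by norm_num) (by norm_num)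
      have b2 := hlo' 2 3 0 (by norm_num) (by norm_num) (by norm_num)
      norm_num
      constructor <;> linarith
    · have e : chainB (6 - 1) = [(0, 1), (1, 2), (2, 3), (3, 4), (4, 5)] := rfl
      rw [hH, e]
      simp only [List.map_cons, List.map_nil, List.sum_cons, List.sum_nil, add_zero, map_add]
      have a1 := hup 0 1 (by norm_num)
      have a2 := hup 1 2 (by norm_num)
      have a3 := hup 2 3 (by norm_num)
      have a4 := hup 3 4 (by norm_num)
      have a5 := hup 4 5 (by norm_num)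
      have a6 := hup' 0 5 (by norm_num)
      have b1 := hlo 0 1 2 (by norm_num) (by norm_num) (by norm_num)
      have b2 := hlo 2 3 4 (by norm_num) (by norm_num) (by norm_num)
      have b3 := hlo' 4 5 0 (by norm_num) (by norm_num) (by norm_num)
      norm_num
      constructor <;> linarith
    · have e : chainB (8 - 1) = [(0, 1), (1, 2), (2, 3), (3, 4), (4, 5), (5, 6), (6, 7)] := rfl
      rw [hH, e]
      simp only [List.map_cons, List.map_nil, List.sum_cons, List.sum_nil, add_zero, map_add]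
      have a1 := hup 0 1 (by norm_num)
      have a2 := hup 1 2 (by norm_num)
      have a3 := hup 2 3 (by norm_num)
      have a4 := hup 3 4 (by norm_num)
      have a5 := hup 4 5 (by norm_num)
      have a6 := hup 5 6 (by norm_num)
      have a7 := hup 6 7 (by norm_num)
      have a8 := hup' 0 7 (by norm_num)
      have b1 := hlo 0 1 2 (by norm_num) (by norm_num) (by norm_num)
      have b2 := hlo 2 3 4 (by norm_num) (by norm_num) (by norm_num)
      have b3 := hlo 4 5 6 (by norm_num) (by norm_num) (by norm_num)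
      have b4 := hlo' 6 7 0 (by norm_num) (by norm_num) (by norm_num)
      norm_num
      constructor <;> linarith
  obtain ⟨hl, hu⟩ := hHs
  have g1 := mul_le_mul_of_nonneg_right h1 hs0
  have g2 := mul_le_mul_of_nonneg_right h2 hs0
  constructor
  · nlinarith
  · nlinarith

end Crest.Agent.HG
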