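import Mathlib
import Crest.Agent.HG_CC

/-!
S0545 (blueprint HG), TASK HG-CA1: Chebyshev polynomials of a symmetric contraction, entries and
rounding errors of the matrix recurrence.
-/

set_option autoImplicit false

namespace Crest.Agent.HG
open Matrix

section CA1
variable {κ : Type} [Fintype κ] [DecidableEq κ]

private theorem CA1_ct_cos (t : ℝ) (k : ℕ) :
    ct (Real.cos t) k = Real.cos (k * t) ∧ ct (Real.cos t) (k + 1) = Real.cos ((k + 1 : ℕ) * t) := by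
  induction k with
  | zero => constructor <;> simp [ct]
  | succ k ih =>
    refine ⟨ih.2, ?_⟩
    show 2 * Real.cos t * ct (Real.cos t) (k + 1) - ct (Real.cos t) k = _
    rw [ih.1, ih.2]
    have h1 : ((k + 1 + 1 : ℕ) : ℝ) * t = ((k + 1 : ℕ) : ℝ) * t + t := by push_cast; ring
    have h2 : (k : ℝ) * t = ((k + 1 : ℕ) : ℝ) * t - t := by push_cast; ring
    rw [h1, h2, Real.cos_add, Real.cos_sub]
    ring

theorem ct_abs_le_one (x : ℝ) (hx : |x| ≤ 1) (k : ℕ) : |ct x k| ≤ 1 := by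
  rw [abs_le] at hx
  rw [← Real.cos_arccos hx.1 hx.2, (CA1_ct_cos _ k).1]
  exact Real.abs_cos_le_one _

/-- second kind, shifted -/
private noncomputable def CA1_w (x : ℝ) : ℕ → ℝ
  | 0 => 0
  | 1 => 1
  | (k + 2) => 2 * x * CA1_w x (k + 1) - CA1_w x k

private theorem CA1_w_succ (x : ℝ) (m : ℕ) :
    CA1_w x (m + 1) = x * CA1_w x m + ct x m ∧
      CA1_w x (m + 2) = x * CA1_w x (m + 1) + ct x (m + 1) := by
  induction m with
  | zero =>
    constructor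
    · simp [CA1_w, ct]
    · simp [CA1_w, ct]; ring
  | succ m ih =>
    refine ⟨ih.2, ?_⟩
    have e1 : CA1_w x (m + 1 + 2) = 2 * x * CA1_w x (m + 2) - CA1_w x (m + 1) := rfl
    have e2 : ct x (m + 1 + 1) = 2 * x * ct x (m + 1) - ct x m := rfl
    have e3 : CA1_w x (m + 2) = 2 * x * CA1_w x (m + 1) - CA1_w x m := rfl
    rw [e1, e2]
    show _ = x * CA1_w x (m + 2) + _
    have h1 := ih.1
    have h2 := ih.2
    linear_combination (2 * x) * h2 - h1 - x * e3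

private theorem CA1_w_le (x : ℝ) (hx : |x| ≤ 1) (m : ℕ) : |CA1_w x m| ≤ m := by
  induction m with
  | zero => simp [CA1_w]
  | succ m ih =>
    rw [(CA1_w_succ x m).1]
    have h1 : |x * CA1_w x m| ≤ m := by
      rw [abs_mul]
      calc |x| * |CA1_w x m| ≤ 1 * (m : ℝ) :=
            mul_le_mul hx ih (abs_nonneg _) zero_le_one
        _ = m := one_mul _
    have h2 := ct_abs_le_one x hx m
    push_cast
    exact (abs_add_le _ _).trans (add_le_add h1 h2)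

/-- second kind, matrices -/
private noncomputable def CA1_W (A : Matrix κ κ ℝ) : ℕ → Matrix κ κ ℝ
  | 0 => 0
  | 1 => 1
  | (k + 2) => (2 : ℝ) • (A * CA1_W A (k + 1)) - CA1_W A k

private theorem CA1_TA_eig (A : Matrix κ κ ℝ) (v : κ → ℝ) (l : ℝ) (h : A *ᵥ v = l • v) (k : ℕ) :
    TA A k *ᵥ v = ct l k • v ∧ TA A (k + 1) *ᵥ v = ct l (k + 1) • v := by
  induction k with
  | zero =>
    constructor
    · simp [TA, ct]
    · simpa [TA, ct] using h
  | succ k ih =>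
    refine ⟨ih.2, ?_⟩
    show ((2 : ℝ) • (A * TA A (k + 1)) - TA A k) *ᵥ v = (2 * l * ct l (k + 1) - ct l k) • v
    rw [sub_mulVec, smul_mulVec, ← mulVec_mulVec, ih.1, ih.2, mulVec_smul, h, sub_smul, smul_smul,
      smul_smul]
    congr 2
    ring

private theorem CA1_W_eig (A : Matrix κ κ ℝ) (v : κ → ℝ) (l : ℝ) (h : A *ᵥ v = l • v) (k : ℕ) :
    CA1_W A k *ᵥ v = CA1_w l k • v ∧ CA1_W A (k + 1) *ᵥ v = CA1_w l (k + 1) • v := by
  induction k with
  | zero =>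
    constructor
    · simp [CA1_W, CA1_w]
    · simp [CA1_W, CA1_w]
  | succ k ih =>
    refine ⟨ih.2, ?_⟩
    show ((2 : ℝ) • (A * CA1_W A (k + 1)) - CA1_W A k) *ᵥ v =
      (2 * l * CA1_w l (k + 1) - CA1_w l k) • v
    rw [sub_mulVec, smul_mulVec, ← mulVec_mulVec, ih.1, ih.2, mulVec_smul, h, sub_smul, smul_smul,
      smul_smul]
    congr 2
    ring

private theorem CA1_onb {E : Type*} [NormedAddCommGroup E] [InnerProductSpace ℝ E] {ι : Type*}
    [Fintype ι] (b : OrthonormalBasis ι ℝ E) (L : E →ₗ[ℝ] E) (f : ι → ℝ)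
    (hf : ∀ i, L (b i) = f i • b i) (C : ℝ) (hC0 : 0 ≤ C) (hC : ∀ i, |f i| ≤ C) (w : E) :
    ‖L w‖ ≤ C * ‖w‖ := by
  classical
  have h1 : ∀ i, inner ℝ (b i) (L w) = f i * inner ℝ (b i) w := by
    intro i
    conv_lhs => rw [← b.sum_repr' w]
    rw [map_sum, inner_sum]
    rw [Finset.sum_eq_single i]
    · rw [map_smul, hf, inner_smul_right, inner_smul_right, real_inner_self_eq_norm_sq,
        b.norm_eq_one]
      ring
    · intro j _ hj
      rw [map_smul, hf, inner_smul_right, inner_smul_right, b.inner_eq_zero (Ne.symm hj)]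
      ring
    · intro h
      exact absurd (Finset.mem_univ i) h
  have h2 : ‖L w‖ ^ 2 ≤ (C * ‖w‖) ^ 2 := by
    rw [← b.sum_sq_norm_inner_right (L w), mul_pow, ← b.sum_sq_norm_inner_right w, Finset.mul_sum]
    apply Finset.sum_le_sum
    intro i _
    rw [h1 i, norm_mul, mul_pow, Real.norm_eq_abs]
    exact mul_le_mul_of_nonneg_right (pow_le_pow_left₀ (abs_nonneg _) (hC i) 2) (sq_nonneg _)
  exact le_of_sq_le_sq h2 (mul_nonneg hC0 (norm_nonneg _))

/-- euclidean norm -/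
private noncomputable def CA1_nm (w : κ → ℝ) : ℝ := ‖(WithLp.toLp 2 w : EuclideanSpace ℝ κ)‖

private theorem CA1_nm_add (v w : κ → ℝ) : CA1_nm (v + w) ≤ CA1_nm v + CA1_nm w := by
  unfold CA1_nm
  rw [WithLp.toLp_add]
  exact norm_add_le _ _

private theorem CA1_entry_le (w : κ → ℝ) (σ : κ) : |w σ| ≤ CA1_nm w := by
  have := PiLp.norm_apply_le (WithLp.toLp 2 w : EuclideanSpace ℝ κ) σ
  exact this

private theorem CA1_nm_le (w : κ → ℝ) (ε : ℝ) (h : ∀ σ, |w σ| ≤ ε) :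
    CA1_nm w ≤ ε * √(Fintype.card κ : ℝ) := by
  unfold CA1_nm
  rw [EuclideanSpace.norm_eq]
  rcases isEmpty_or_nonempty κ with he | ⟨⟨σ0⟩⟩
  · simp
  · have hε : 0 ≤ ε := (abs_nonneg _).trans (h σ0)
    rw [← Real.sqrt_sq hε, ← Real.sqrt_mul (sq_nonneg _)]
    apply Real.sqrt_le_sqrt
    calc ∑ i, ‖w i‖ ^ 2 ≤ ∑ _i : κ, ε ^ 2 := by
          apply Finset.sum_le_sum
          intro i _
          rw [Real.norm_eq_abs]
          exact pow_le_pow_left₀ (abs_nonneg _) (h i) 2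
      _ = ε ^ 2 * (Fintype.card κ : ℝ) := by
          rw [Finset.sum_const, Finset.card_univ, nsmul_eq_mul, mul_comm]

private theorem CA1_op (A : Matrix κ κ ℝ) (hs : A.IsSymm)
    (hc : ∀ x : κ → ℝ, |x ⬝ᵥ A *ᵥ x| ≤ x ⬝ᵥ x) (B : Matrix κ κ ℝ) (q : ℝ → ℝ) (C : ℝ)
    (hC0 : 0 ≤ C) (hq : ∀ l, |l| ≤ 1 → |q l| ≤ C)
    (hB : ∀ (v : κ → ℝ) (l : ℝ), A *ᵥ v = l • v → B *ᵥ v = q l • v) (w : κ → ℝ) :
    CA1_nm (B *ᵥ w) ≤ C * CA1_nm w := by
  have hA : A.IsHermitian := by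
    show Aᴴ = A
    rw [conjTranspose_eq_transpose_of_trivial]
    exact hs
  have hev : ∀ j, |hA.eigenvalues j| ≤ 1 := by
    intro j
    have h1 := hc (hA.eigenvectorBasis j)
    rw [hA.mulVec_eigenvectorBasis j, dotProduct_smul] at h1
    have h2 : (hA.eigenvectorBasis j).ofLp ⬝ᵥ (hA.eigenvectorBasis j).ofLp = (1 : ℝ) := by
      have h3 := hA.eigenvectorBasis.norm_eq_one j
      have h4 : ‖hA.eigenvectorBasis j‖ ^ 2 = 1 := by rw [h3]; norm_num
      rw [EuclideanSpace.norm_sq_eq] at h4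
      rw [← h4]
      unfold dotProduct
      refine Finset.sum_congr rfl fun i _ => ?_
      rw [Real.norm_eq_abs, sq_abs, sq]
    rw [h2, smul_eq_mul, mul_one] at h1
    exact h1
  exact CA1_onb hA.eigenvectorBasis (Matrix.toEuclideanLin B) (fun j => q (hA.eigenvalues j))
    (fun j => by
      have h5 := hB _ _ (hA.mulVec_eigenvectorBasis j)
      rw [Matrix.toLpLin_apply, h5, WithLp.toLp_smul]) C hC0
    (fun j => hq _ (hev j)) (WithLp.toLp 2 w)

theorem TA_entry_le (A : Matrix κ κ ℝ) (hs : A.IsSymm)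
    (hc : ∀ x : κ → ℝ, |x ⬝ᵥ A *ᵥ x| ≤ x ⬝ᵥ x) (k : ℕ) (σ τ : κ) : |TA A k σ τ| ≤ 1 := by
  have h1 := CA1_op A hs hc (TA A k) (fun l => ct l k) 1 zero_le_one
    (fun l hl => ct_abs_le_one l hl k) (fun v l h => (CA1_TA_eig A v l h k).1) (Pi.single τ 1)
  have h2 : CA1_nm (Pi.single τ (1 : ℝ) : κ → ℝ) = 1 := by
    unfold CA1_nm
    have := EuclideanSpace.norm_single (𝕜 := ℝ) τ (1 : ℝ)
    rw [norm_one] at this
    exact this
  rw [h2, mul_one] at h1
  have h3 := (CA1_entry_le (TA A k *ᵥ Pi.single τ 1) σ).trans h1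
  rw [mulVec_single_one] at h3
  exact h3

theorem cheb_recur_err (A : Matrix κ κ ℝ) (hs : A.IsSymm)
    (hc : ∀ x : κ → ℝ, |x ⬝ᵥ A *ᵥ x| ≤ x ⬝ᵥ x) (u : ℕ → κ → ℝ) (ε : ℝ) (K : ℕ)
    (h1 : ∀ σ, |u 1 σ - (A *ᵥ u 0) σ| ≤ ε)
    (h2 : ∀ k, k + 2 ≤ K → ∀ σ, |u (k + 2) σ - (2 * (A *ᵥ u (k + 1)) σ - u k σ)| ≤ ε) :
    ∀ k, k ≤ K → ∀ σ, |u k σ - (TA A k *ᵥ u 0) σ| ≤
      ε * √(Fintype.card κ : ℝ) * ((k : ℝ) * (k + 1) / 2) := by
  set e : ℕ → κ → ℝ := fun k => u k - TA A k *ᵥ u 0 with he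
  have hop : ∀ (m : ℕ) (w : κ → ℝ), CA1_nm (CA1_W A m *ᵥ w) ≤ m * CA1_nm w := by
    intro m w
    exact CA1_op A hs hc (CA1_W A m) (fun l => CA1_w l m) m (Nat.cast_nonneg m)
      (fun l hl => CA1_w_le l hl m) (fun v l h => (CA1_W_eig A v l h m).1) w
  have he0 : e 0 = 0 := by
    rw [he]
    show u 0 - (1 : Matrix κ κ ℝ) *ᵥ u 0 = 0
    rw [one_mulVec, sub_self]
  have key : ∀ k, k + 1 ≤ K ∨ k = 0 → ∀ m : ℕ,
      CA1_nm (CA1_W A (m + 1) *ᵥ e (k + 1) - CA1_W A m *ᵥ e k) ≤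
        ε * √(Fintype.card κ : ℝ) * (((k : ℝ) + 1) * (m + 1) + k * (k + 1) / 2) := by
    intro k
    induction k with
    | zero =>
      intro _ m
      rw [he0, mulVec_zero, sub_zero]
      have h3 : CA1_nm (e 1) ≤ ε * √(Fintype.card κ : ℝ) := CA1_nm_le _ _ h1
      refine (hop (m + 1) (e 1)).trans ?_
      calc ((m + 1 : ℕ) : ℝ) * CA1_nm (e 1) ≤ ((m + 1 : ℕ) : ℝ) * (ε * √(Fintype.card κ : ℝ)) :=
            mul_le_mul_of_nonneg_left h3 (Nat.cast_nonneg _)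
        _ = _ := by push_cast; ring
    | succ k ih =>
      intro hk m
      have hk' : k + 2 ≤ K := by omega
      have h3 := ih (Or.inl (by omega)) (m + 1)
      set δ : κ → ℝ := u (k + 2) - ((2 : ℝ) • (A *ᵥ u (k + 1)) - u k) with hδ
      have h4 : CA1_nm δ ≤ ε * √(Fintype.card κ : ℝ) := by
        apply CA1_nm_le
        intro σ
        have := h2 k hk' σ
        simpa [hδ] using this
      have h5 : e (k + 1 + 1) = (2 : ℝ) • (A *ᵥ e (k + 1)) - e k + δ := by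
        rw [he, hδ]
        show u (k + 2) - ((2 : ℝ) • (A * TA A (k + 1)) - TA A k) *ᵥ u 0 =
          (2 : ℝ) • (A *ᵥ (u (k + 1) - TA A (k + 1) *ᵥ u 0)) - (u k - TA A k *ᵥ u 0) +
            (u (k + 2) - ((2 : ℝ) • (A *ᵥ u (k + 1)) - u k))
        rw [sub_mulVec, smul_mulVec, ← mulVec_mulVec, mulVec_sub, smul_sub]
        abel
      have h6 : CA1_W A (m + 1) *ᵥ e (k + 1 + 1) - CA1_W A m *ᵥ e (k + 1) =
          (CA1_W A (m + 1 + 1) *ᵥ e (k + 1) - CA1_W A (m + 1) *ᵥ e k) +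
            CA1_W A (m + 1) *ᵥ δ := by
        have hcomm : CA1_W A (m + 1) * A = A * CA1_W A (m + 1) := by
          have : ∀ j, CA1_W A j * A = A * CA1_W A j ∧ CA1_W A (j + 1) * A = A * CA1_W A (j + 1) := by
            intro j
            induction j with
            | zero => constructor <;> simp [CA1_W]
            | succ j ihj =>
              refine ⟨ihj.2, ?_⟩
              show ((2 : ℝ) • (A * CA1_W A (j + 1)) - CA1_W A j) * A =
                A * ((2 : ℝ) • (A * CA1_W A (j + 1)) - CA1_W A j)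
              rw [sub_mul, mul_sub, smul_mul_assoc, mul_smul_comm, mul_assoc, ihj.1, ihj.2]
          exact (this (m + 1)).1
        have e7 : CA1_W A (m + 1 + 1) = (2 : ℝ) • (A * CA1_W A (m + 1)) - CA1_W A m := rfl
        rw [h5, e7, mulVec_add, mulVec_sub, mulVec_smul, mulVec_mulVec, hcomm, sub_mulVec,
          smul_mulVec]
        abel
      rw [h6]
      have h7 := hop (m + 1) δ
      have h8 : ((m + 1 : ℕ) : ℝ) * CA1_nm δ ≤ ((m + 1 : ℕ) : ℝ) * (ε * √(Fintype.card κ : ℝ)) :=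
        mul_le_mul_of_nonneg_left h4 (Nat.cast_nonneg _)
      have h9 := CA1_nm_add (CA1_W A (m + 1 + 1) *ᵥ e (k + 1) - CA1_W A (m + 1) *ᵥ e k)
        (CA1_W A (m + 1) *ᵥ δ)
      push_cast at h3 h8 ⊢
      push_cast at h7
      nlinarith [h3, h7, h8, h9]
  intro k hk σ
  rcases k with _ | k
  · have : (u 0 - TA A 0 *ᵥ u 0) σ = 0 := by
      have := congrFun he0 σ
      exact this
    rw [Pi.sub_apply] at this
    rw [this]
    simp
  · have h3 := key k (Or.inl hk) 0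
    have h4 : CA1_W A (0 + 1) *ᵥ e (k + 1) - CA1_W A 0 *ᵥ e k = e (k + 1) := by
      show (1 : Matrix κ κ ℝ) *ᵥ e (k + 1) - (0 : Matrix κ κ ℝ) *ᵥ e k = e (k + 1)
      rw [one_mulVec, zero_mulVec, sub_zero]
    rw [h4] at h3
    refine ((CA1_entry_le (e (k + 1)) σ).trans h3).trans (le_of_eq ?_)
    push_cast
    ring

end CA1
end Crest.Agent.HG
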