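import Mathlib
import Crest.Agent.HG_CC
import Crest.Agent.HG_CA1

/-!
# HG_CB: certified Chebyshev coefficients of `exp (-z (x + 1))`

`p = ∑ c_k T_k` with `p' = ∑ d_k T_k` (`d_{k-1} = d_{k+1} + 2 k c_k`) and `p' + z p` tiny, so that
`e^{z x} p(x)` is almost constant.
-/

set_option autoImplicit false

namespace Crest.Agent.HG
open Matrix

/-- the coefficient lists; `exp(-z(x+1)) ≈ 2^(-80) ∑ c_k T_k(x)`. -/
def cf7 : List ℤ := [
  57065474322373263827895, -113332018094016654314695, 110968782961319723684956,
  -107139563687693009019776, 102000627518711491903167, -95755565080693958584155,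
  88641871229552178484619, -80915966102532321561060, 72837971600151334429724,
  -64657490298927112982996, 56601436647853789316807, -48864678734235765517370,
  41603906902413124676989, -34934799191017085379985, 28932244249421436341615,
  -23633141281086836809041, 19041141592716566025331, -15132631641481226976304,
  11863275021701475104651, -9174513606028477202763, 6999554081005574801847,
  -5268512444753044835661, 3912535070408087593451, -2866844711801651781645,
  2072763073437161505900, -1478833725124981130373, 1041210530799758373664,
  -723491264165334988764, 496169678889489269406, -335858702532921497041, 224409009987292745572,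
  -148016339262308149742, 96381484397684691945, -61961442478661103363, 39329933008292492978,
  -24650680138205055337, 15257003185826618625, -9325565331013139308, 5629605941198098692,
  -3356675103180333776, 1976973992982891737, -1150230914583356390, 661140636456172653,
  -375456731236279063, 210676366278717304, -116813870849460944, 64007164598311543,
  -34661818072610191, 18552213442823848, -9815103640256823, 5133126434660223, -2653933949045574,
  1356602121007203, -685649621691373, 342667133572973, -169354275348165, 82776365042028,
  -40016204969997, 19134521200235, -9050740974081, 4235142922590, -1960657956352, 898085575005,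
  -407050097806, 182567824954, -81036124673, 35599406881, -15479181199, 6662321492, -2838615869,
  1197352324, -500037112, 206765411, -84660169, 34327009, -13784091, 5481952, -2159417, 842580,
  -325678, 124707, -47313, 17777, -6640, 2401, -1012, 422]

def cf10 : List ℤ := [
  47719128180210116133370, -94971100253070906750736, 93583352058602441119264,
  -91315500563281748894514, 88232834447472651144976, -84422310372072948023813,
  79988468200199902314525, -75048661754862021971330, 69727908975902360248133,
  -64153675977377278182559, 58450895620504010567605, -52737485426497588618574,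
  47120576485904919262833, -41693600312613623166347, 36534310781530366505753,
  -31703749708288913574930, 27246102859180098856847, -23189342564795132682166,
  19546516460712964958472, -16317520371575730938953, 13491186635323533555345,
  -11047525592152475643896, 8959974966667244717028, -7197536348662643929548,
  5726706685041447639301, -4513142590049465348626, 3523023779743857137043,
  -2724107076898287896221, 2086482938410775629270, -1583061719954894973965,
  1189826886092573397922, -885897528885027748620, 653443616650466753250, -477495268478486027838,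
  345682994388942555620, -247940155017078861996, 176192654045236302303, -124054695141522086940,
  86543753259370731662, -59823003269332872034, 40975449987808583042, -27810932966357416532,
  18704976323342683085, -12467007076115371815, 8234638349261413787, -5390364744718844341,
  3497013085348367003, -2248517050851170861, 1432944698824831252, -905131395702891563,
  566705667781048311, -351707892010461572, 216371634723752604, -131955450494150333,
  79777125423167298, -47815513524403573, 28412804254374398, -16739008871181576, 9777579534504284,
  -5662844554750941, 3252036004615504, -1851864861842148, 1045712634061382, -585572219033443,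
  325184317672576, -179091821942723, 97821653096853, -52993597247561, 28474562948677,
  -15175818331349, 8022776525570, -4207178550297, 2188603145275, -1129455377253, 578246845676,
  -293707983112, 148010542289, -74004834402, 36714209301, -18073031170, 8828086988, -4279145250,
  2058345479, -982576319, 465497149, -218870059, 102138653]

private def cf7d : List ℤ := [
  -4090453199427715551183407, 8123639056979113781277496, -7954242362667397793737424,
  7679763925133834886537672, -7311404980541239739618768, 6863758904984142951312336,
  -6353849329734300153777218, 5800056450229516809496908, -5221025804298847651922378,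
  4634648904627095458621324, -4057190978918159618228450, 3502620171670019672285184,
  -2982168046764972776846310, 2504126406012104680037448, -2073863267798528556966700,
  1694023567028304462472228, -1364869029365923452695470, 1084707036061374349661636,
  -850359553555561735501134, 657629135280121245894200, -501728036526479601796140,
  377646972039898253820320, -280450513846851718698378, 205495428941942399708476,
  -148575657103975736742708, 106002801416958647425276, -74633970847726680224058,
  51859853815371211994748, -35565442582798590830802, 24074351797559812908012,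
  -16085637835889144002424, 10609811198322248173692, -6908624801626038718420,
  4441396196870427889212, -2819169598034405896462, 1766960752306538366708,
  -1093621988360052022872, 668456522927021825708, -403530153865079714080, 240606471395966325116,
  -141709495817013679552, 82448551957334986156, -47390560821178455572, 26912738495016483304,
  -15101281934858456154, 8373218262489360552, -4588033558406971194, 2484559119444698596,
  -1329822659581613240, 703546628933609188, -367942502836444586, 190233985467586888,
  -97241240033796038, 49147364882837776, -24562380134510500, 12139314456956692,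
  -5933409846212350, 2868361572249556, -1371562479632692, 648757113022296, -303575044691134,
  140539962311496, -64374774016190, 29177351010876, -13086461692634, 5808669416764,
  -2551765485144, 1109547708472, -477555204478, 203471985560, -85826214556, 35842660200,
  -14820944652, 6068441016, -2460559978, 988043684, -392946328, 154786980, -60396110, 23344500,
  -8938986, 3391380, -1274280, 475952, -172040, 72584, 0]

private def cf10e : List ℤ := [
  47719128180210116133370, -94971100253070906750736, 93583352058602441119264,
  -91315500563281748894514, 88232834447472651144976, -84422310372072948023813,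
  79988468200199902314525, -75048661754862021971330, 69727908975902360248133,
  -64153675977377278182559, 58450895620504010567605, -52737485426497588618574,
  47120576485904919262833, -41693600312613623166347, 36534310781530366505753,
  -31703749708288913574930, 27246102859180098856847, -23189342564795132682166,
  19546516460712964958472, -16317520371575730938953, 13491186635323533555345,
  -11047525592152475643896, 8959974966667244717028, -7197536348662643929548,
  5726706685041447639301, -4513142590049465348626, 3523023779743857137043,
  -2724107076898287896221, 2086482938410775629270, -1583061719954894973965,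
  1189826886092573397922, -885897528885027748620, 653443616650466753250, -477495268478486027838,
  345682994388942555620, -247940155017078861996, 176192654045236302303, -124054695141522086940,
  86543753259370731662, -59823003269332872034, 40975449987808583042, -27810932966357416532,
  18704976323342683085, -12467007076115371815, 8234638349261413787, -5390364744718844341,
  3497013085348367003, -2248517050851170861, 1432944698824831252, -905131395702891563,
  566705667781048311, -351707892010461572, 216371634723752604, -131955450494150333,
  79777125423167298, -47815513524403573, 28412804254374398, -16739008871181576, 9777579534504284,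
  -5662844554750941, 3252036004615504, -1851864861842148, 1045712634061382, -585572219033443,
  325184317672576, -179091821942723, 97821653096853, -52993597247561, 28474562948677,
  -15175818331349, 8022776525570, -4207178550297, 2188603145275, -1129455377253, 578246845676,
  -293707983112, 148010542289, -74004834402, 36714209301, -18073031170, 8828086988, -4279145250,
  2058345479, -982576319, 465497149, -218870059, 102138653, -47309040, 21750245, -9925808,
  4496399, -2021981, 902644, -400042, 176006, -76905, 33311, -14446, 5942, -3073, 1573]

private def cf10d : List ℤ := [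
  -4886438725653515892056908, 9725040665914460851274920, -9582935250800889970612344,
  9350707257680051086797864, -9035042247421199477245260, 8644844582100269877638056,
  -8190819143700469997007130, 7684982963697871049863756, -7140137879132401689408510,
  6569336420083433285893628, -5985371711539610682122448, 5400318507673353074541528,
  -4825147032156663732513820, 4269424672011635012233536, -3741113424028709530188798,
  3246463970128784750072452, -2790000932780042122940898, 2374588678635021586653348,
  -2001563285577007611747254, 1670914086049354848148356, -1381497511457129836067040,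
  1131266620636413505934556, -917501436586725859023408, 737027722103054738385324,
  -586414764548244238264200, 462145801221065251698876, -360757635045770970832900,
  278948564674384680572640, -213655852893263424436966, 162105520123381245333520,
  -121838273135879515946996, 90715906957826841458200, -66912626345007795532556,
  48895515492196969250200, -35397938625427717695248, 25389071873748875468040,
  -18042127774232197355528, 12703200782491861702224, -8862080333759562921968,
  6125875534779686095912, -4195886078751598903316, 2847839535754999452552,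
  -1915389575510290747692, 1276621524594214073412, -843226966964368771602, 551973349859209660156,
  -358094139939672780912, 230248146007159895880, -146733537159662719978, 92685454919976095688,
  -58030660380779346804, 36014888141871264588, -22156455395712266460, 13512238130600993772,
  -8169177643332331162, 4896308584898925588, -2909471155647938132, 1714074508408993012,
  -1001224144333238468, 579875282406496068, -333008486872627430, 189630961852635588,
  -107080973727885374, 59962595229024220, -33298874129671556, 18339002566934492,
  -10016937277117566, 5426544358149896, -2915795245944392, 1554003797129824, -821532316218230,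
  430815083550024, -224112962076056, 115656230630424, -59212476997118, 30075697470376,
  -15156279530318, 7578095042448, -3759535032410, 1850678391492, -903996107550, 438184473412,
  -210774577050, 100615814856, -47666908096, 22412293824, -10458998066, 4844445508, -2227225106,
  1016402388, -460431282, 207050568, -92430740, 40964072, -18022928, 7874944, -3410978, 1479232,
  -608454, 314600, 0]

theorem cf7_len : cf7.length = 87 := by decide
theorem cf10_len : cf10.length = 87 := by decide

/-- second kind Chebyshev -/
private noncomputable def cu (x : ℝ) : ℕ → ℝ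
  | 0 => 1
  | 1 => 2 * x
  | (k + 2) => 2 * x * cu x (k + 1) - cu x k

private theorem ct_cos (θ : ℝ) (k : ℕ) : ct (Real.cos θ) k = Real.cos (k * θ) := by
  induction k using Nat.twoStepInduction with
  | zero => simp [ct]
  | one => simp [ct]
  | more n h1 h2 =>
    rw [ct, h1, h2]
    have e1 : ((n + 2 : ℕ) : ℝ) * θ = ((n + 1 : ℕ) : ℝ) * θ + θ := by push_cast; ring
    have e2 : (n : ℝ) * θ = ((n + 1 : ℕ) : ℝ) * θ - θ := by push_cast; ring
    rw [e1, e2, Real.cos_add, Real.cos_sub]
    ring

private theorem ct_abs_le {x : ℝ} (hx : |x| ≤ 1) (k : ℕ) : |ct x k| ≤ 1 := by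
  have h := abs_le.1 hx
  rw [← Real.cos_arccos h.1 h.2, ct_cos]
  exact Real.abs_cos_le_one _

private theorem ct_neg_one (k : ℕ) : ct (-1) k = (-1) ^ k := by
  induction k using Nat.twoStepInduction with
  | zero => simp [ct]
  | one => simp [ct]
  | more n h1 h2 =>
    rw [ct, h1, h2]
    ring

private theorem cu_sub (x : ℝ) (k : ℕ) : cu x (k + 2) - cu x k = 2 * ct x (k + 2) := by
  induction k using Nat.twoStepInduction with
  | zero => simp only [cu, ct]; ring
  | one => simp only [cu, ct]; ring
  | more n h1 h2 =>
    have a1 : cu x (n + 2 + 2) = 2 * x * cu x (n + 1 + 2) - cu x (n + 2) := rfl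
    have a2 : cu x (n + 2) = 2 * x * cu x (n + 1) - cu x n := rfl
    have a3 : ct x (n + 2 + 2) = 2 * x * ct x (n + 1 + 2) - ct x (n + 2) := rfl
    rw [a1, a3]
    linear_combination (2 * x) * h2 - h1 - a2

/-- derivative of `T_{k+1}` -/
private theorem ct_deriv (x : ℝ) (k : ℕ) :
    HasDerivAt (fun y => ct y (k + 1)) (((k : ℝ) + 1) * cu x k) x := by
  have key : ∀ k, HasDerivAt (fun y => ct y (k + 1)) (((k : ℝ) + 1) * cu x k) x ∧
      HasDerivAt (fun y => ct y (k + 2)) (((k : ℝ) + 2) * cu x (k + 1)) x ∧
      ct x (k + 1) = cu x (k + 1) - x * cu x k ∧ ct x (k + 2) = cu x (k + 2) - x * cu x (k + 1) := by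
    intro k
    induction k with
    | zero =>
      refine ⟨?_, ?_, ?_, ?_⟩
      · have : (fun y : ℝ => ct y (0 + 1)) = fun y => y := by funext y; rfl
        rw [this]
        refine (hasDerivAt_id' x).congr_deriv ?_
        simp [cu]
      · have : (fun y : ℝ => ct y (0 + 2)) = fun y => 2 * y * y - 1 := by funext y; rfl
        rw [this]
        have h := (((hasDerivAt_id x).const_mul 2).mul (hasDerivAt_id x)).sub_const 1
        refine h.congr_deriv ?_
        simp only [cu, id]
        push_cast
        ring
      · simp only [ct, cu]; ring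
      · simp only [ct, cu]; ring
    | succ n ih =>
      obtain ⟨h1, h2, h3, h4⟩ := ih
      have c3 : cu x (n + 1 + 2) = 2 * x * cu x (n + 2) - cu x (n + 1) := rfl
      have c2 : cu x (n + 2) = 2 * x * cu x (n + 1) - cu x n := rfl
      have t3 : ct x (n + 1 + 2) = 2 * x * ct x (n + 2) - ct x (n + 1) := rfl
      refine ⟨?_, ?_, h4, ?_⟩
      · refine h2.congr_deriv ?_
        push_cast; ring
      · have : (fun y : ℝ => ct y (n + 1 + 2)) = fun y => 2 * y * ct y (n + 2) - ct y (n + 1) := by
          funext y; rfl
        rw [this]
        have h := (((hasDerivAt_id x).const_mul 2).mul h2).sub h1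
        refine h.congr_deriv ?_
        simp only [id]
        have e : cu x (n + 1 + 1) = cu x (n + 2) := rfl
        rw [e]
        push_cast
        linear_combination 2 * h4 - ((n : ℝ) + 1) * c2
      · rw [t3, c3]
        linear_combination 2 * x * h4 - h3 + x * c2
  exact (key k).1

/-- summation by parts -/
private theorem sum_parts (x : ℝ) (c d : ℕ → ℝ) (h0 : 2 * d 0 = d 2 + 2 * c 1)
    (hrec : ∀ k, 1 ≤ k → d k = d (k + 2) + 2 * ((k : ℝ) + 1) * c (k + 1)) (n : ℕ) :
    ∑ k ∈ Finset.range (n + 2), d k * ct x k =
      ∑ k ∈ Finset.range (n + 2), ((k : ℝ) + 1) * c (k + 1) * cu x k +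
        (d (n + 2) * cu x n + d (n + 3) * cu x (n + 1)) / 2 := by
  induction n with
  | zero =>
    have h1 := hrec 1 le_rfl
    simp only [Finset.sum_range_succ, Finset.sum_range_zero, ct, cu]
    push_cast at h1 ⊢
    linear_combination (1 / 2 : ℝ) * h0 + x * h1
  | succ n ih =>
    rw [Finset.sum_range_succ, ih, Finset.sum_range_succ _ (n + 2)]
    have h1 := hrec (n + 2) (by omega)
    have h2 := cu_sub x n
    push_cast at h1 ⊢
    have e1 : n + 1 + 2 = n + 3 := rfl
    have e2 : n + 2 + 2 = n + 1 + 3 := by omega
    have e3 : n + 2 + 1 = n + 3 := rfl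
    rw [e2, e3] at h1
    rw [e1, e3]
    linear_combination (-(d (n + 2)) / 2) * h2 + (cu x (n + 2) / 2) * h1

private theorem getD_zero_of_le (l : List ℤ) {k : ℕ} (h : l.length ≤ k) : l.getD k 0 = 0 := by
  rw [List.getD_eq_default _ _ h]

private theorem cheb_approx (a b : ℕ) (ha : 0 < a) (hb : 0 < b) (C D : List ℤ) (n : ℕ)
    (hC : C.length ≤ n + 2) (hD : D.length ≤ n + 2)
    (hrec : ∀ k < n + 2, 1 ≤ k →
      D.getD k 0 = D.getD (k + 2) 0 + 2 * ((k : ℤ) + 1) * C.getD (k + 1) 0)
    (h0 : 2 * D.getD 0 0 = D.getD 2 0 + 2 * C.getD 1 0) (R : ℤ)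
    (hR : ∑ k ∈ Finset.range (n + 2), |(b : ℤ) * D.getD k 0 + a * C.getD k 0| ≤ R) (P : ℤ)
    (hP : |∑ k ∈ Finset.range (n + 2), C.getD k 0 * (-1) ^ k - 2 ^ 80| ≤ P) (x : ℝ)
    (hx : |x| ≤ 1) :
    |Real.exp (-((a : ℝ) / b) * (x + 1)) -
      ∑ k ∈ Finset.range (n + 2), (((C.getD k 0 : ℤ) : ℝ) / 2 ^ 80) * ct x k| ≤
      ((R : ℝ) / a + P) / 2 ^ 80 := by
  have ha' : (0 : ℝ) < a := by exact_mod_cast ha
  have hb' : (0 : ℝ) < b := by exact_mod_cast hb
  set z : ℝ := (a : ℝ) / b with hz
  have hz0 : 0 < z := by positivity
  set c : ℕ → ℝ := fun k => ((C.getD k 0 : ℤ) : ℝ) / 2 ^ 80 with hc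
  set d : ℕ → ℝ := fun k => ((D.getD k 0 : ℤ) : ℝ) / 2 ^ 80 with hd
  set p : ℝ → ℝ := fun y => ∑ k ∈ Finset.range (n + 2), c k * ct y k with hp
  set q : ℝ → ℝ := fun y => ∑ k ∈ Finset.range (n + 2), d k * ct y k with hq
  have hrec' : ∀ k, 1 ≤ k → d k = d (k + 2) + 2 * ((k : ℝ) + 1) * c (k + 1) := by
    intro k hk
    simp only [hc, hd]
    rcases Nat.lt_or_ge k (n + 2) with h | h
    · rw [hrec k h hk]
      push_cast
      ring
    · rw [getD_zero_of_le D (hD.trans h), getD_zero_of_le D (hD.trans (by omega)),
        getD_zero_of_le C (hC.trans (by omega))]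
      simp
  have h0' : 2 * d 0 = d 2 + 2 * c 1 := by
    simp only [hc, hd]
    have : (2 : ℝ) * ((D.getD 0 0 : ℤ) : ℝ) = ((D.getD 2 0 : ℤ) : ℝ) + 2 * ((C.getD 1 0 : ℤ) : ℝ) := by
      exact_mod_cast h0
    linear_combination (1 / 2 ^ 80 : ℝ) * this
  have hder : ∀ y, HasDerivAt p (q y) y := by
    intro y
    have h1 : HasDerivAt p (∑ k ∈ Finset.range (n + 2), ((k : ℝ) + 1) * c (k + 1) * cu y k) y := by
      have e : p = fun y => c 0 + ∑ k ∈ Finset.range (n + 1), c (k + 1) * ct y (k + 1) := by
        funext y
        simp only [hp]
        rw [Finset.sum_range_succ']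
        simp only [ct]
        ring
      rw [e]
      have h2 : HasDerivAt (fun y => ∑ k ∈ Finset.range (n + 1), c (k + 1) * ct y (k + 1))
          (∑ k ∈ Finset.range (n + 1), c (k + 1) * (((k : ℝ) + 1) * cu y k)) y :=
        HasDerivAt.fun_sum fun k _ => (ct_deriv y k).const_mul _
      refine (h2.const_add (c 0)).congr_deriv ?_
      rw [Finset.sum_range_succ _ (n + 1)]
      have hz1 : c (n + 1 + 1) = 0 := by
        simp only [hc]
        rw [getD_zero_of_le C (hC.trans (by omega))]
        simp
      rw [hz1, mul_zero, zero_mul, add_zero]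
      exact Finset.sum_congr rfl fun k _ => by ring
    refine h1.congr_deriv ?_
    have h3 := sum_parts y c d h0' hrec' n
    have hz1 : d (n + 2) = 0 := by
      simp only [hd]
      rw [getD_zero_of_le D hD]
      simp
    have hz2 : d (n + 3) = 0 := by
      simp only [hd]
      rw [getD_zero_of_le D (hD.trans (by omega))]
      simp
    rw [hz1, hz2] at h3
    simp only [hq]
    rw [h3]
    ring
  have hbd : ∀ y, |y| ≤ 1 → |q y + z * p y| ≤ (R : ℝ) / (b * 2 ^ 80) := by
    intro y hy
    have e : q y + z * p y = ∑ k ∈ Finset.range (n + 2),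
        (((b : ℤ) * D.getD k 0 + a * C.getD k 0 : ℤ) : ℝ) / (b * 2 ^ 80) * ct y k := by
      simp only [hq, hp, hc, hd, hz, Finset.mul_sum]
      rw [← Finset.sum_add_distrib]
      refine Finset.sum_congr rfl fun k _ => ?_
      push_cast
      field_simp
    rw [e]
    refine (Finset.abs_sum_le_sum_abs _ _).trans ?_
    calc ∑ k ∈ Finset.range (n + 2),
          |(((b : ℤ) * D.getD k 0 + a * C.getD k 0 : ℤ) : ℝ) / (b * 2 ^ 80) * ct y k|
        ≤ ∑ k ∈ Finset.range (n + 2),
          ((|(b : ℤ) * D.getD k 0 + a * C.getD k 0| : ℤ) : ℝ) / (b * 2 ^ 80) := by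
          refine Finset.sum_le_sum fun k _ => ?_
          rw [abs_mul, abs_div, abs_of_pos (by positivity : (0 : ℝ) < b * 2 ^ 80), ← Int.cast_abs]
          exact mul_le_of_le_one_right (by positivity) (ct_abs_le hy k)
      _ = ((∑ k ∈ Finset.range (n + 2), |(b : ℤ) * D.getD k 0 + a * C.getD k 0| : ℤ) : ℝ) /
          (b * 2 ^ 80) := by
          rw [Int.cast_sum, Finset.sum_div]
      _ ≤ (R : ℝ) / (b * 2 ^ 80) := by
          refine div_le_div_of_nonneg_right ?_ (by positivity)
          exact_mod_cast hR
  have hR0 : (0 : ℝ) ≤ R := by
    have : (0 : ℤ) ≤ R := le_trans (Finset.sum_nonneg fun k _ => abs_nonneg _) hR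
    exact_mod_cast this
  have hx' := abs_le.1 hx
  -- the function `e^{z y} p y`
  have hG : ∀ y, HasDerivAt (fun y => Real.exp (z * y) * p y)
      (Real.exp (z * y) * (q y + z * p y)) y := by
    intro y
    have h1 : HasDerivAt (fun y => Real.exp (z * y)) (Real.exp (z * y) * z) y := by
      have := ((hasDerivAt_id y).const_mul z).exp
      simpa using this
    refine (h1.mul (hder y)).congr_deriv ?_
    ring
  set ε : ℝ := (R : ℝ) / (b * 2 ^ 80) / z with hε
  have hH : ∀ y, HasDerivAt (fun y => ε * Real.exp (z * y))
      (Real.exp (z * y) * ((R : ℝ) / (b * 2 ^ 80))) y := by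
    intro y
    have h1 : HasDerivAt (fun y => Real.exp (z * y)) (Real.exp (z * y) * z) y := by
      have := ((hasDerivAt_id y).const_mul z).exp
      simpa using this
    refine (h1.const_mul ε).congr_deriv ?_
    rw [hε]
    field_simp
  have hmono : ∀ s : ℝ, |s| ≤ 1 → MonotoneOn
      (fun y => ε * Real.exp (z * y) + s * (Real.exp (z * y) * p y)) (Set.Icc (-1) x) := by
    intro s hs
    have hd1 : ∀ y, HasDerivAt (fun y => ε * Real.exp (z * y) + s * (Real.exp (z * y) * p y))
        (Real.exp (z * y) * ((R : ℝ) / (b * 2 ^ 80)) +
          s * (Real.exp (z * y) * (q y + z * p y))) y :=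
      fun y => (hH y).add ((hG y).const_mul s)
    refine monotoneOn_of_deriv_nonneg (convex_Icc _ _)
      (fun y _ => (hd1 y).continuousAt.continuousWithinAt)
      (fun y _ => (hd1 y).differentiableAt.differentiableWithinAt) (fun y hy => ?_)
    rw [interior_Icc] at hy
    rw [(hd1 y).deriv]
    have hy1 : |y| ≤ 1 := abs_le.2 ⟨hy.1.le, hy.2.le.trans hx'.2⟩
    have h2 := hbd y hy1
    have h3 : |s * (q y + z * p y)| ≤ (R : ℝ) / (b * 2 ^ 80) := by
      rw [abs_mul]
      exact (mul_le_of_le_one_left (abs_nonneg _) hs).trans h2
    have h4 := (abs_le.1 h3).1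
    have h5 : 0 ≤ (R : ℝ) / (b * 2 ^ 80) + s * (q y + z * p y) := by linarith
    have h6 := mul_nonneg (Real.exp_pos (z * y)).le h5
    calc (0 : ℝ) ≤ _ := h6
      _ = _ := by ring
  have hm1 : (-1 : ℝ) ∈ Set.Icc (-1) x := ⟨le_rfl, hx'.1⟩
  have hmx : x ∈ Set.Icc (-1) x := ⟨hx'.1, le_rfl⟩
  have hup := hmono (-1) (by simp) hm1 hmx hx'.1
  have hlo := hmono 1 (by simp) hm1 hmx hx'.1
  simp only at hup hlo
  have hε0 : 0 ≤ ε := by positivity
  have hep := Real.exp_pos (z * x)
  have hem := Real.exp_pos (z * (-1))
  have hdiff : |Real.exp (z * x) * p x - Real.exp (z * (-1)) * p (-1)| ≤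
      ε * Real.exp (z * x) := by
    rw [abs_le]
    have h7 : 0 ≤ ε * Real.exp (z * (-1)) := by positivity
    constructor <;> linarith
  -- divide by `e^{z x}`
  have hE : Real.exp (-z * (x + 1)) * Real.exp (z * x) = Real.exp (z * (-1)) := by
    rw [← Real.exp_add]; congr 1; ring
  have h8 : |p x - Real.exp (-z * (x + 1)) * p (-1)| ≤ ε := by
    have e : Real.exp (z * x) * p x - Real.exp (z * (-1)) * p (-1) =
        Real.exp (z * x) * (p x - Real.exp (-z * (x + 1)) * p (-1)) := by
      rw [← hE]; ring
    rw [e, abs_mul, abs_of_pos hep, mul_comm ε] at hdiff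
    exact le_of_mul_le_mul_left hdiff hep
  have hp1 : |p (-1) - 1| ≤ (P : ℝ) / 2 ^ 80 := by
    have e : p (-1) - 1 =
        ((∑ k ∈ Finset.range (n + 2), C.getD k 0 * (-1) ^ k - 2 ^ 80 : ℤ) : ℝ) / 2 ^ 80 := by
      simp only [hp, hc, ct_neg_one]
      push_cast
      rw [sub_div, Finset.sum_div]
      congr 1
      · exact Finset.sum_congr rfl fun k _ => by ring
      · norm_num
    rw [e, abs_div, abs_of_pos (by positivity : (0 : ℝ) < 2 ^ 80), ← Int.cast_abs]
    refine div_le_div_of_nonneg_right ?_ (by positivity)
    exact_mod_cast hP
  have hE1 : Real.exp (-z * (x + 1)) ≤ 1 := by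
    rw [Real.exp_le_one_iff]
    have : 0 ≤ z * (x + 1) := mul_nonneg hz0.le (by linarith [hx'.1])
    linarith
  have hE0 := Real.exp_pos (-z * (x + 1))
  have h9 : Real.exp (-z * (x + 1)) - p x =
      -(p x - Real.exp (-z * (x + 1)) * p (-1)) - Real.exp (-z * (x + 1)) * (p (-1) - 1) := by
    ring
  have h10 : |Real.exp (-z * (x + 1)) * (p (-1) - 1)| ≤ (P : ℝ) / 2 ^ 80 := by
    rw [abs_mul, abs_of_pos hE0]
    exact (mul_le_of_le_one_left (abs_nonneg _) hE1).trans hp1
  have h11 : ε = (R : ℝ) / a / 2 ^ 80 := by
    rw [hε, hz]; field_simp
  rw [h9]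
  calc |-(p x - Real.exp (-z * (x + 1)) * p (-1)) - Real.exp (-z * (x + 1)) * (p (-1) - 1)|
      ≤ |-(p x - Real.exp (-z * (x + 1)) * p (-1))| +
        |Real.exp (-z * (x + 1)) * (p (-1) - 1)| := abs_sub _ _
    _ ≤ ε + (P : ℝ) / 2 ^ 80 := by
        rw [abs_neg]
        exact add_le_add h8 h10
    _ = _ := by rw [h11]; ring

theorem cf7_spec (x : ℝ) (hx : |x| ≤ 1) : |Real.exp (-(1792 / 25) * (x + 1)) -
    ∑ k ∈ Finset.range 87, (((cf7.getD k 0 : ℤ) : ℝ) / 2 ^ 80) * ct x k| ≤ 1 / 10 ^ 17 := by
  have h := cheb_approx 1792 25 (by norm_num) (by norm_num) cf7 cf7d 85 (by decide) (by decide)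
    (by decide +kernel) (by decide +kernel) 1061729 (by decide +kernel) 3 (by decide +kernel) x hx
  have h3 : (-(((1792 : ℕ) : ℝ) / ((25 : ℕ) : ℝ))) = -(1792 / 25) := by norm_num
  rw [h3] at h
  exact h.trans (by norm_num)

theorem cf10_spec (x : ℝ) (hx : |x| ≤ 1) : |Real.exp (-(512 / 5) * (x + 1)) -
    ∑ k ∈ Finset.range 87, (((cf10.getD k 0 : ℤ) : ℝ) / 2 ^ 80) * ct x k| ≤ 1 / 10 ^ 16 := by
  have h := cheb_approx 512 5 (by norm_num) (by norm_num) cf10e cf10d 99 (by decide) (by decide)
    (by decide +kernel) (by decide +kernel) 934646 (by decide +kernel) 4 (by decide +kernel) x hx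
  have h1 : ∑ k ∈ Finset.range (99 + 2), (((cf10e.getD k 0 : ℤ) : ℝ) / 2 ^ 80) * ct x k =
      ∑ k ∈ Finset.range 87, (((cf10.getD k 0 : ℤ) : ℝ) / 2 ^ 80) * ct x k +
      ∑ k ∈ Finset.range 14, (((cf10e.getD (87 + k) 0 : ℤ) : ℝ) / 2 ^ 80) * ct x (87 + k) := by
    rw [show 99 + 2 = 87 + 14 from rfl, Finset.sum_range_add]
    refine congrArg₂ (· + ·) (Finset.sum_congr rfl fun k hk => ?_) rfl
    have : ∀ k < 87, cf10e.getD k 0 = cf10.getD k 0 := by decide +kernel
    rw [this k (Finset.mem_range.1 hk)]
  have h2 : |∑ k ∈ Finset.range 14, (((cf10e.getD (87 + k) 0 : ℤ) : ℝ) / 2 ^ 80) * ct x (87 + k)| ≤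
      (87117415 : ℝ) / 2 ^ 80 := by
    refine (Finset.abs_sum_le_sum_abs _ _).trans ?_
    calc ∑ k ∈ Finset.range 14, |(((cf10e.getD (87 + k) 0 : ℤ) : ℝ) / 2 ^ 80) * ct x (87 + k)|
        ≤ ∑ k ∈ Finset.range 14, ((|cf10e.getD (87 + k) 0| : ℤ) : ℝ) / 2 ^ 80 := by
          refine Finset.sum_le_sum fun k _ => ?_
          rw [abs_mul, abs_div, abs_of_pos (by positivity : (0 : ℝ) < 2 ^ 80), ← Int.cast_abs]
          exact mul_le_of_le_one_right (by positivity) (ct_abs_le hx _)
      _ = ((∑ k ∈ Finset.range 14, |cf10e.getD (87 + k) 0| : ℤ) : ℝ) / 2 ^ 80 := by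
          rw [Int.cast_sum, Finset.sum_div]
      _ ≤ _ := by
          refine div_le_div_of_nonneg_right ?_ (by positivity)
          have : (∑ k ∈ Finset.range 14, |cf10e.getD (87 + k) 0| : ℤ) ≤ 87117415 := by
            decide +kernel
          exact_mod_cast this
  rw [h1] at h
  have h3 : (-(((512 : ℕ) : ℝ) / ((5 : ℕ) : ℝ))) = -(512 / 5) := by norm_num
  rw [h3] at h
  have h4 := abs_le.1 h
  have h5 := abs_le.1 h2
  have h6 : (((934646 : ℤ) : ℝ) / ((512 : ℕ) : ℝ) + ((4 : ℤ) : ℝ)) / 2 ^ 80 +
      (87117415 : ℝ) / 2 ^ 80 ≤ 1 / 10 ^ 16 := by norm_num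
  rw [abs_le]
  constructor
  · linarith [h4.1, h5.1, h5.2]
  · linarith [h4.2, h5.1, h5.2]

end Crest.Agent.HG
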