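import Mathlib
import Crest.Agent.HG_CC
import Crest.Agent.HG_CA1
set_option autoImplicit false
namespace Crest.Agent.HG
open Matrix

section CA2
variable {κ : Type} [Fintype κ] [DecidableEq κ]

set_option backward.isDefEq.respectTransparency false in
open scoped Matrix.Norms.Operator in
private theorem exp_map_real (H : Matrix κ κ ℝ) :
    NormedSpace.exp (H.map fun x : ℝ => (x : ℂ)) =
      (NormedSpace.exp H).map fun x : ℝ => (x : ℂ) := by
  have h := NormedSpace.map_exp (Complex.ofRealHom.mapMatrix : Matrix κ κ ℝ →+* Matrix κ κ ℂ)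
    (Continuous.matrix_map continuous_id Complex.continuous_ofReal) H
  exact h.symm

theorem Zt_real (B H : Matrix κ κ ℝ) (β : ℝ) :
    Zt (B.map fun x : ℝ => (x : ℂ)) (H.map fun x : ℝ => (x : ℂ)) β =
      Matrix.trace (B * NormedSpace.exp (-β • H)) := by
  unfold Zt
  have h1 : (-(β : ℂ)) • (H.map fun x : ℝ => (x : ℂ)) = (-β • H).map fun x : ℝ => (x : ℂ) := by
    ext i j
    simp
  rw [h1, exp_map_real]
  have h2 : (B.map fun x : ℝ => (x : ℂ)) * ((NormedSpace.exp (-β • H)).map fun x : ℝ => (x : ℂ)) =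
      (B * NormedSpace.exp (-β • H)).map fun x : ℝ => (x : ℂ) :=
    (Matrix.map_mul (f := Complex.ofRealHom)).symm
  rw [h2]
  simp [Matrix.trace]

private theorem TA_conj (U : Matrix κ κ ℝ) (a : κ → ℝ) (hU : U⁻¹ * U = 1) (hU' : U * U⁻¹ = 1)
    (k : ℕ) :
    TA (U * diagonal a * U⁻¹) k = U * diagonal (fun i => ct (a i) k) * U⁻¹ := by
  induction k using Nat.twoStepInduction with
  | zero => simp [TA, ct, hU']
  | one => simp [TA, ct]
  | more n h1 h2 =>
    rw [TA, h1, h2]
    have e : U * diagonal a * U⁻¹ * (U * diagonal (fun i => ct (a i) (n + 1)) * U⁻¹) =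
        U * (diagonal a * diagonal (fun i => ct (a i) (n + 1))) * U⁻¹ := by
      calc U * diagonal a * U⁻¹ * (U * diagonal (fun i => ct (a i) (n + 1)) * U⁻¹)
          = U * diagonal a * (U⁻¹ * U) * diagonal (fun i => ct (a i) (n + 1)) * U⁻¹ := by
            noncomm_ring
        _ = _ := by rw [hU]; noncomm_ring
    rw [e, Matrix.diagonal_mul_diagonal, ← Matrix.smul_mul, ← Matrix.mul_smul, ← Matrix.sub_mul,
      ← Matrix.mul_sub]
    congr 2
    ext i j
    by_cases hij : i = j
    · subst hij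
      simp [ct, mul_assoc]
    · simp [hij]

private theorem entry_eq (U : Matrix κ κ ℝ) (d : κ → ℝ) (σ τ : κ) :
    (U * diagonal d * Uᵀ) σ τ = ∑ i, U σ i * d i * U τ i := by
  rw [Matrix.mul_apply]
  simp only [Matrix.mul_diagonal, Matrix.transpose_apply]

private theorem entry_bound (U : Matrix κ κ ℝ) (hU : U * Uᵀ = 1) (d : κ → ℝ) (η : ℝ)
    (hd : ∀ i, |d i| ≤ η) (hη : 0 ≤ η) (σ τ : κ) : |(U * diagonal d * Uᵀ) σ τ| ≤ η := by
  have hrow : ∀ σ, ∑ i, U σ i * U σ i = 1 := by
    intro σ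
    have := congrFun (congrFun hU σ) σ
    rw [Matrix.mul_apply, Matrix.one_apply_eq] at this
    simpa using this
  rw [Matrix.mul_apply]
  simp only [Matrix.mul_diagonal, Matrix.transpose_apply]
  calc |∑ i, U σ i * d i * U τ i| ≤ ∑ i, |U σ i * d i * U τ i| := Finset.abs_sum_le_sum_abs _ _
    _ ≤ ∑ i, η * ((U σ i * U σ i + U τ i * U τ i) / 2) := by
        refine Finset.sum_le_sum fun i _ => ?_
        rw [abs_mul, abs_mul]
        have h1 : |U σ i| * |U τ i| ≤ (U σ i * U σ i + U τ i * U τ i) / 2 := by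
          have h := sq_nonneg (|U σ i| - |U τ i|)
          have h2 := abs_mul_abs_self (U σ i)
          have h3 := abs_mul_abs_self (U τ i)
          nlinarith
        calc |U σ i| * |d i| * |U τ i| = |d i| * (|U σ i| * |U τ i|) := by ring
          _ ≤ η * ((U σ i * U σ i + U τ i * U τ i) / 2) :=
            mul_le_mul (hd i) h1 (by positivity) hη
    _ = η := by
        rw [← Finset.mul_sum, ← Finset.sum_div, Finset.sum_add_distrib, hrow, hrow]
        ring

theorem exp_cheb (A : Matrix κ κ ℝ) (hs : A.IsSymm)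
    (hc : ∀ x : κ → ℝ, |x ⬝ᵥ A *ᵥ x| ≤ x ⬝ᵥ x) (β c ρ : ℝ) (b : ℕ → ℝ) (K : ℕ) (η : ℝ)
    (hb : ∀ x : ℝ, |x| ≤ 1 →
      |Real.exp (-(β * ρ) * (x + 1)) - ∑ k ∈ Finset.range (K + 1), b k * ct x k| ≤ η) (σ τ : κ) :
    |NormedSpace.exp (-β • (c • (1 : Matrix κ κ ℝ) + ρ • A)) σ τ * Real.exp (β * (c - ρ)) -
      ∑ k ∈ Finset.range (K + 1), b k * TA A k σ τ| ≤ η := by
  have hη : 0 ≤ η := (abs_nonneg _).trans (hb 0 (by simp))
  have hH : A.IsHermitian := by
    rw [Matrix.IsHermitian, Matrix.conjTranspose_eq_transpose_of_trivial]; exact hs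
  set U : Matrix κ κ ℝ := (hH.eigenvectorUnitary : Matrix κ κ ℝ) with hUdef
  set a : κ → ℝ := hH.eigenvalues with ha
  have hUU : U * Uᵀ = 1 := by
    have := Unitary.coe_mul_star_self hH.eigenvectorUnitary
    rwa [Unitary.coe_star, Matrix.star_eq_conjTranspose, Matrix.conjTranspose_eq_transpose_of_trivial] at this
  have hUU' : Uᵀ * U = 1 := by
    have := Unitary.coe_star_mul_self hH.eigenvectorUnitary
    rwa [Matrix.star_eq_conjTranspose, Matrix.conjTranspose_eq_transpose_of_trivial] at this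
  have hinv : U⁻¹ = Uᵀ := Matrix.inv_eq_right_inv hUU
  have hunit : IsUnit U := ⟨⟨U, Uᵀ, hUU, hUU'⟩, rfl⟩
  have hA : A = U * diagonal a * U⁻¹ := by
    rw [hinv]
    have := hH.spectral_theorem
    rw [Unitary.conjStarAlgAut_apply] at this
    rw [Matrix.star_eq_conjTranspose, Matrix.conjTranspose_eq_transpose_of_trivial] at this
    exact this
  have hai : ∀ i, |a i| ≤ 1 := by
    intro i
    have h1 := hc ⇑(hH.eigenvectorBasis i)
    rw [hH.mulVec_eigenvectorBasis, dotProduct_smul] at h1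
    have h2 : (⇑(hH.eigenvectorBasis i) : κ → ℝ) ⬝ᵥ ⇑(hH.eigenvectorBasis i) = 1 := by
      have h3 := hH.eigenvectorBasis.orthonormal.1 i
      have h4 := EuclideanSpace.real_norm_sq_eq (hH.eigenvectorBasis i)
      rw [h3] at h4
      simp only [dotProduct]
      rw [one_pow] at h4
      rw [h4]
      exact Finset.sum_congr rfl fun j _ => by ring
    rw [h2] at h1
    simpa using h1
  have h1 : -β • (c • (1 : Matrix κ κ ℝ) + ρ • A) =
      U * diagonal (fun i => -β * (c + ρ * a i)) * U⁻¹ := by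
    have e : diagonal (fun i => -β * (c + ρ * a i)) =
        -β • (c • (1 : Matrix κ κ ℝ) + ρ • diagonal a) := by
      rw [← Matrix.diagonal_one, ← Matrix.diagonal_smul, ← Matrix.diagonal_smul,
        Matrix.diagonal_add, ← Matrix.diagonal_smul]
      congr 1
      funext i
      simp
    rw [e, Matrix.mul_smul, Matrix.smul_mul, Matrix.mul_add, Matrix.add_mul, Matrix.mul_smul,
      Matrix.smul_mul, Matrix.mul_one, Matrix.mul_smul, Matrix.smul_mul, ← hA, hinv, hUU]
  have h2 : NormedSpace.exp (-β • (c • (1 : Matrix κ κ ℝ) + ρ • A)) =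
      U * diagonal (fun i => Real.exp (-β * (c + ρ * a i))) * U⁻¹ := by
    rw [h1, Matrix.exp_conj _ _ hunit, Matrix.exp_diagonal]
    congr 3
    funext i
    rw [Pi.coe_exp, Real.exp_eq_exp_ℝ]
  have h3 : ∀ k, TA A k = U * diagonal (fun i => ct (a i) k) * U⁻¹ := by
    intro k
    conv_lhs => rw [hA]
    exact TA_conj U a (by rw [hinv]; exact hUU') (by rw [hinv]; exact hUU) k
  have h4 : NormedSpace.exp (-β • (c • (1 : Matrix κ κ ℝ) + ρ • A)) σ τ * Real.exp (β * (c - ρ)) -
      ∑ k ∈ Finset.range (K + 1), b k * TA A k σ τ =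
      (U * diagonal (fun i => Real.exp (-(β * ρ) * (a i + 1)) -
        ∑ k ∈ Finset.range (K + 1), b k * ct (a i) k) * Uᵀ) σ τ := by
    rw [h2]
    simp only [h3, hinv]
    simp only [entry_eq]
    have e1 : ∀ i, U σ i * (Real.exp (-(β * ρ) * (a i + 1)) -
        ∑ k ∈ Finset.range (K + 1), b k * ct (a i) k) * U τ i =
        U σ i * Real.exp (-β * (c + ρ * a i)) * U τ i * Real.exp (β * (c - ρ)) -
        ∑ k ∈ Finset.range (K + 1), b k * (U σ i * ct (a i) k * U τ i) := by
      intro i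
      have h5 : Real.exp (-(β * ρ) * (a i + 1)) =
          Real.exp (-β * (c + ρ * a i)) * Real.exp (β * (c - ρ)) := by
        rw [← Real.exp_add]; congr 1; ring
      rw [h5, mul_sub, sub_mul, Finset.mul_sum, Finset.sum_mul]
      congr 1
      · ring
      · exact Finset.sum_congr rfl fun k _ => by ring
    rw [Finset.sum_congr rfl fun i _ => e1 i, Finset.sum_sub_distrib, Finset.sum_mul]
    congr 1
    rw [Finset.sum_comm]
    refine Finset.sum_congr rfl fun k _ => ?_
    rw [Finset.mul_sum]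
  rw [h4]
  exact entry_bound U hUU _ η (fun i => hb (a i) (hai i)) hη σ τ

end CA2
end Crest.Agent.HG
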