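import Mathlib
import Crest.Agent.HG_CC

/-!
HG part C: numbers as digit vectors in base `2^w` (shift / land / mod lemmas).
-/

set_option autoImplicit false

namespace Crest.Agent.HG
open Matrix

section CP1
/-- number with digits `F 0, F 1, …` in base `2^w` -/
def pkN (w : ℕ) (F : ℕ → ℕ) (D : ℕ) : ℕ := ∑ i ∈ Finset.range D, F i * 2 ^ (w * i)

private theorem CP1_succ (w : ℕ) (F : ℕ → ℕ) (D : ℕ) :
    pkN w F (D + 1) = 2 ^ (w * D) * F D + pkN w F D := by
  unfold pkN
  rw [Finset.sum_range_succ, add_comm, mul_comm]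

private theorem CP1_succ' (w : ℕ) (F : ℕ → ℕ) (D : ℕ) :
    pkN w F (D + 1) = F 0 + 2 ^ w * pkN w (fun i => F (i + 1)) D := by
  unfold pkN
  rw [Finset.sum_range_succ', Finset.mul_sum, add_comm]
  congr 1
  · simp
  · refine Finset.sum_congr rfl fun i _ => ?_
    have : w * (i + 1) = w + w * i := by ring
    rw [this, pow_add]
    ring

private theorem CP1_lt (w : ℕ) (F : ℕ → ℕ) (D : ℕ) (hF : ∀ i, i < D → F i < 2 ^ w) :
    pkN w F D < 2 ^ (w * D) := by
  induction D with
  | zero => simp [pkN]
  | succ D ih =>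
    have h1 := ih fun i hi => hF i (by omega)
    have h2 : F D + 1 ≤ 2 ^ w := hF D (by omega)
    rw [CP1_succ]
    calc 2 ^ (w * D) * F D + pkN w F D < 2 ^ (w * D) * F D + 2 ^ (w * D) := by omega
      _ = 2 ^ (w * D) * (F D + 1) := by ring
      _ ≤ 2 ^ (w * D) * 2 ^ w := Nat.mul_le_mul_left _ h2
      _ = 2 ^ (w * (D + 1)) := by rw [← pow_add]; congr 1

private theorem CP1_testBit (w : ℕ) (F : ℕ → ℕ) (D : ℕ) (hF : ∀ i, i < D → F i < 2 ^ w) (j : ℕ) :
    (pkN w F D).testBit j = (decide (j / w < D) && (F (j / w)).testBit (j % w)) := by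
  rcases Nat.eq_zero_or_pos w with rfl | hw
  · have h0 : pkN 0 F D = 0 := by
      unfold pkN
      refine Finset.sum_eq_zero fun i hi => ?_
      have := hF i (Finset.mem_range.1 hi)
      have h1 : F i = 0 := by simpa using this
      rw [h1, zero_mul]
    rw [h0, Nat.zero_testBit, Nat.div_zero]
    by_cases hD : 0 < D
    · have := hF 0 hD
      have h1 : F 0 = 0 := by simpa using this
      simp [h1]
    · simp [hD]
  · induction D with
    | zero => simp [pkN]
    | succ D ih =>
      have hF' : ∀ i, i < D → F i < 2 ^ w := fun i hi => hF i (by omega)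
      rw [CP1_succ, Nat.testBit_two_pow_mul_add _ (CP1_lt w F D hF')]
      split_ifs with hj
      · have h1 : j / w < D := Nat.div_lt_of_lt_mul hj
        rw [ih hF']
        simp [h1, Nat.lt_succ_of_lt h1]
      · push Not at hj
        by_cases hj2 : j < w * (D + 1)
        · have h1 : j / w < D + 1 := Nat.div_lt_of_lt_mul hj2
          have h2 : D ≤ j / w := (Nat.le_div_iff_mul_le hw).2 (by rw [mul_comm]; exact hj)
          have h3 : j / w = D := by omega
          have h4 : j - w * D = j % w := by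
            have := Nat.div_add_mod j w
            rw [h3] at this
            omega
          rw [h4, h3]
          simp
        · push Not at hj2
          have h1 : D + 1 ≤ j / w := (Nat.le_div_iff_mul_le hw).2 (by rw [mul_comm]; exact hj2)
          have h2 : ¬ j / w < D + 1 := by omega
          have h3 : F D < 2 ^ (j - w * D) := by
            refine lt_of_lt_of_le (hF D (by omega)) (Nat.pow_le_pow_right (by norm_num) ?_)
            have : w * (D + 1) = w * D + w := by ring
            omega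
          rw [Nat.testBit_lt_two_pow h3]
          simp [h2]

theorem pkN_shr_land (w : ℕ) (F : ℕ → ℕ) (D s m : ℕ) (hF : ∀ i, i < D → F i < 2 ^ w)
    (hsm : s + m ≤ w) : Nat.land (Nat.shiftRight (pkN w F D) s) (pkN w (fun _ => 2 ^ m - 1) D) =
      pkN w (fun i => F i / 2 ^ s % 2 ^ m) D := by
  change (pkN w F D >>> s) &&& (pkN w (fun _ => 2 ^ m - 1) D) = _
  have hmw : (2 : ℕ) ^ m ≤ 2 ^ w := Nat.pow_le_pow_right (by norm_num) (by omega)
  have hm0 : 0 < (2 : ℕ) ^ m := by positivity
  refine Nat.eq_of_testBit_eq fun j => ?_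
  rw [Nat.testBit_and, Nat.testBit_shiftRight, CP1_testBit w F D hF,
    CP1_testBit w (fun _ => 2 ^ m - 1) D (fun i _ => by show 2 ^ m - 1 < 2 ^ w; omega),
    CP1_testBit w (fun i => F i / 2 ^ s % 2 ^ m) D
      (fun i _ => lt_of_lt_of_le (Nat.mod_lt _ hm0) hmw)]
  simp only [Nat.testBit_two_pow_sub_one, Nat.testBit_mod_two_pow, Nat.testBit_div_two_pow]
  by_cases hjm : j % w < m
  · have hw : 0 < w := by
      rcases Nat.eq_zero_or_pos w with rfl | h
      · omega
      · exact h
    have hdm := Nat.div_add_mod j w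
    have e : s + j = (s + j % w) + w * (j / w) := by omega
    have h1 : (s + j) / w = j / w := by
      rw [e, Nat.add_mul_div_left _ _ hw, Nat.div_eq_of_lt (by omega), zero_add]
    have h2 : (s + j) % w = s + j % w := by
      rw [e, Nat.add_mul_mod_self_left, Nat.mod_eq_of_lt (by omega)]
    rw [h1, h2, add_comm s (j % w)]
    simp only [hjm, decide_true, Bool.and_true, Bool.true_and]
    cases decide (j / w < D) <;> simp
  · simp [hjm]

theorem pkN_land_mask (w : ℕ) (F : ℕ → ℕ) (U : ℕ → Bool) (D : ℕ) (hF : ∀ i, i < D → F i < 2 ^ w) :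
    Nat.land (pkN w F D) (pkN w (fun i => if U i then 2 ^ w - 1 else 0) D) =
      pkN w (fun i => if U i then F i else 0) D := by
  change (pkN w F D) &&& (pkN w (fun i => if U i then 2 ^ w - 1 else 0) D) = _
  have hw0 : 0 < (2 : ℕ) ^ w := by positivity
  refine Nat.eq_of_testBit_eq fun j => ?_
  rw [Nat.testBit_and, CP1_testBit w F D hF,
    CP1_testBit w (fun i => if U i then 2 ^ w - 1 else 0) D
      (fun i _ => by
        show (if U i then 2 ^ w - 1 else 0) < 2 ^ w
        split_ifs <;> omega),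
    CP1_testBit w (fun i => if U i then F i else 0) D
      (fun i hi => by
        show (if U i then F i else 0) < 2 ^ w
        split_ifs
        · exact hF i hi
        · exact hw0)]
  rcases Nat.eq_zero_or_pos w with rfl | hw
  · by_cases hD : 0 < D
    · have := hF 0 hD
      have h1 : F 0 = 0 := by simpa using this
      simp [h1]
    · simp [hD]
  · have hjm : j % w < w := Nat.mod_lt _ hw
    cases hU : U (j / w)
    · simp
    · simp only [if_true, Nat.testBit_two_pow_sub_one, hjm, decide_true, Bool.and_true]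
      cases decide (j / w < D) <;> simp

theorem pkN_mod (w : ℕ) (F : ℕ → ℕ) (D : ℕ) (hF : ∑ i ∈ Finset.range D, F i < 2 ^ w - 1) :
    pkN w F D % (2 ^ w - 1) = ∑ i ∈ Finset.range D, F i := by
  have h1 : (2 : ℕ) ^ w ≡ 1 [MOD (2 ^ w - 1)] := by
    have h2 : (2 : ℕ) ^ w = (2 ^ w - 1) + 1 := by
      have : 0 < (2 : ℕ) ^ w := by positivity
      omega
    have h3 : (2 ^ w - 1) + 1 ≡ 0 + 1 [MOD (2 ^ w - 1)] :=
      Nat.ModEq.add_right 1 (Nat.modEq_zero_iff_dvd.2 (dvd_refl _))
    rw [← h2, zero_add] at h3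
    exact h3
  have h4 : pkN w F D ≡ ∑ i ∈ Finset.range D, F i [MOD (2 ^ w - 1)] := by
    unfold pkN
    have h5 : ∀ n, ∑ i ∈ Finset.range n, F i * 2 ^ (w * i) ≡ ∑ i ∈ Finset.range n, F i
        [MOD (2 ^ w - 1)] := by
      intro n
      induction n with
      | zero => simp [Nat.ModEq]
      | succ n ih =>
        rw [Finset.sum_range_succ, Finset.sum_range_succ]
        refine Nat.ModEq.add ih ?_
        have h6 : (2 : ℕ) ^ (w * n) ≡ 1 [MOD (2 ^ w - 1)] := by
          rw [pow_mul]
          have := h1.pow n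
          rwa [one_pow] at this
        have := h6.mul_left (F n)
        rwa [mul_one] at this
    exact h5 D
  have h7 : pkN w F D % (2 ^ w - 1) = (∑ i ∈ Finset.range D, F i) % (2 ^ w - 1) := h4
  rw [h7, Nat.mod_eq_of_lt hF]

theorem pkN_inj (w : ℕ) (F G : ℕ → ℕ) (D : ℕ) (hF : ∀ i, i < D → F i < 2 ^ w)
    (hG : ∀ i, i < D → G i < 2 ^ w) (h : pkN w F D = pkN w G D) : ∀ i, i < D → F i = G i := by
  intro i hi
  refine Nat.eq_of_testBit_eq fun b => ?_
  by_cases hb : b < w
  · have hw : 0 < w := by omega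
    have h1 := CP1_testBit w F D hF (b + w * i)
    have h2 := CP1_testBit w G D hG (b + w * i)
    have e1 : (b + w * i) / w = i := by
      rw [Nat.add_mul_div_left _ _ hw, Nat.div_eq_of_lt hb, zero_add]
    have e2 : (b + w * i) % w = b := by
      rw [Nat.add_mul_mod_self_left, Nat.mod_eq_of_lt hb]
    rw [e1, e2] at h1 h2
    rw [h, h2] at h1
    simpa [hi] using h1.symm
  · have h3 : (2 : ℕ) ^ w ≤ 2 ^ b := Nat.pow_le_pow_right (by norm_num) (by omega)
    rw [Nat.testBit_lt_two_pow (lt_of_lt_of_le (hF i hi) h3),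
      Nat.testBit_lt_two_pow (lt_of_lt_of_le (hG i hi) h3)]

private theorem CP1_carry (w : ℕ) (hw : 1 ≤ w) (D : ℕ) : ∀ (c : ℕ) (F G : ℕ → ℕ),
    (∀ i, i < D → G i < 2 ^ w) → c + pkN w F D = pkN w G D →
    ∑ i ∈ Finset.range D, G i ≤ c + ∑ i ∈ Finset.range D, F i ∧
    (∑ i ∈ Finset.range D, G i = c + ∑ i ∈ Finset.range D, F i →
      ∀ i, i < D → G i = F i + if i = 0 then c else 0) := by
  induction D with
  | zero =>
    intro c F G hG h
    simp [pkN]
  | succ D ih =>
    intro c F G hG h
    rw [CP1_succ', CP1_succ'] at h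
    have hw2 : 2 ≤ 2 ^ w := by
      calc 2 = 2 ^ 1 := by norm_num
        _ ≤ 2 ^ w := Nat.pow_le_pow_right (by norm_num) hw
    have hG0 := hG 0 (by omega)
    obtain ⟨t, ht⟩ : ∃ t, t = (c + F 0) / 2 ^ w := ⟨_, rfl⟩
    have hmod : (c + F 0) % 2 ^ w = G 0 := by
      have h1 : (c + F 0 + 2 ^ w * pkN w (fun i => F (i + 1)) D) % 2 ^ w =
          (G 0 + 2 ^ w * pkN w (fun i => G (i + 1)) D) % 2 ^ w := by
        rw [← h, add_assoc]
      rw [Nat.add_mul_mod_self_left, Nat.add_mul_mod_self_left, Nat.mod_eq_of_lt hG0] at h1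
      exact h1
    have hdm := Nat.div_add_mod (c + F 0) (2 ^ w)
    rw [← ht, hmod] at hdm
    have hP : t + pkN w (fun i => F (i + 1)) D = pkN w (fun i => G (i + 1)) D := by
      have h2 : 2 ^ w * (t + pkN w (fun i => F (i + 1)) D) =
          2 ^ w * pkN w (fun i => G (i + 1)) D := by
        rw [mul_add]
        omega
      exact Nat.eq_of_mul_eq_mul_left (by positivity) h2
    obtain ⟨h3, h4⟩ := ih t (fun i => F (i + 1)) (fun i => G (i + 1))
      (fun i hi => hG (i + 1) (by omega)) hP
    rw [Finset.sum_range_succ', Finset.sum_range_succ']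
    have h5 : 2 * t ≤ 2 ^ w * t := Nat.mul_le_mul_right t hw2
    refine ⟨by omega, fun h6 => ?_⟩
    have ht0 : t = 0 := by omega
    subst ht0
    have h7 := h4 (by omega)
    intro i hi
    rcases i with _ | i
    · simp only [if_true]
      omega
    · have h8 := h7 i (by omega)
      simp only [ite_self, add_zero] at h8
      simp only [Nat.add_eq_zero_iff, one_ne_zero, and_false, if_false, add_zero]
      exact h8

/-- if a multiset of digits has the same value and the same sum as a normalised one, they agree -/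
theorem pkN_carry (w : ℕ) (hw : 1 ≤ w) (F G : ℕ → ℕ) (D : ℕ) (hG : ∀ i, i < D → G i < 2 ^ w)
    (h : pkN w F D = pkN w G D) (hs : ∑ i ∈ Finset.range D, F i = ∑ i ∈ Finset.range D, G i) :
    ∀ i, i < D → F i = G i := by
  intro i hi
  have h1 := (CP1_carry w hw D 0 F G hG (by rw [zero_add]; exact h)).2
    (by rw [zero_add]; exact hs.symm) i hi
  simp only [ite_self, add_zero] at h1
  exact h1.symm
end CP1

end Crest.Agent.HG
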