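import Mathlib
import Crest.Agent.HG_CC

/-!
HG part C: coordinates (mixed radix index), product formula, generating numbers.
-/

set_option autoImplicit false

namespace Crest.Agent.HG
open Matrix

section CP2
variable {κ : Type} [Fintype κ] [DecidableEq κ] {n : ℕ} {d : ℕ → ℕ}

private theorem CP2_succ (d : ℕ → ℕ) (k : ℕ) : cwt d (k + 1) = cwt d k * d k := rfl

private theorem CP2_zero (d : ℕ → ℕ) : cwt d 0 = 1 := rfl

private theorem CP2_pos (d : ℕ → ℕ) (m : ℕ) (hd : ∀ k, k < m → 0 < d k) : 0 < cwt d m := by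
  induction m with
  | zero => exact Nat.one_pos
  | succ m ih =>
    rw [CP2_succ]
    exact Nat.mul_pos (ih fun k hk => hd k (by omega)) (hd m (by omega))

private theorem CP2_dvd (d : ℕ → ℕ) (k m : ℕ) (h : k < m) : cwt d (k + 1) ∣ cwt d m := by
  induction m with
  | zero => omega
  | succ m ih =>
    rcases Nat.lt_succ_iff_lt_or_eq.1 h with h1 | h1
    · rw [CP2_succ]
      exact Dvd.dvd.mul_right (ih h1) _
    · rw [h1]

private theorem CP2_posk (d : ℕ → ℕ) (k m : ℕ) (h : k < m) (hm : 0 < cwt d m) :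
    0 < cwt d k ∧ 0 < d k := by
  obtain ⟨q, hq⟩ := CP2_dvd d k m h
  rw [CP2_succ] at hq
  constructor
  · rcases Nat.eq_zero_or_pos (cwt d k) with h0 | h0
    · rw [h0, zero_mul, zero_mul] at hq; omega
    · exact h0
  · rcases Nat.eq_zero_or_pos (d k) with h0 | h0
    · rw [h0, mul_zero, zero_mul] at hq; omega
    · exact h0

/-- adding a multiple of `cwt d m` does not change the digits below `m`. -/
private theorem CP2_digit (d : ℕ → ℕ) (k m b j : ℕ) (h : k < m) (hm : 0 < cwt d m) :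
    (cwt d m * b + j) / cwt d k % d k = j / cwt d k % d k := by
  obtain ⟨q, hq⟩ := CP2_dvd d k m h
  rw [CP2_succ] at hq
  have h0 := (CP2_posk d k m h hm).1
  have e : cwt d m * b + j = j + cwt d k * (d k * (q * b)) := by rw [hq]; ring
  rw [e, Nat.add_mul_div_left _ _ h0, Nat.add_mul_mod_self_left]

private theorem CP2_lt (d f : ℕ → ℕ) (m : ℕ) (hf : ∀ k, k < m → f k < d k) :
    ∑ k ∈ Finset.range m, f k * cwt d k < cwt d m := by
  induction m with
  | zero => simp [CP2_zero]
  | succ m ih =>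
    have h1 := ih fun k hk => hf k (by omega)
    have h2 : f m + 1 ≤ d m := hf m (by omega)
    rw [Finset.sum_range_succ, CP2_succ]
    calc ∑ k ∈ Finset.range m, f k * cwt d k + f m * cwt d m < cwt d m + f m * cwt d m := by omega
      _ = cwt d m * (f m + 1) := by ring
      _ ≤ cwt d m * d m := Nat.mul_le_mul_left _ h2

private theorem CP2_get (d f : ℕ → ℕ) (m : ℕ) (hf : ∀ k, k < m → f k < d k) (k : ℕ) (hk : k < m) :
    (∑ k ∈ Finset.range m, f k * cwt d k) / cwt d k % d k = f k := by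
  induction m with
  | zero => omega
  | succ m ih =>
    have hf' : ∀ k, k < m → f k < d k := fun k hk => hf k (by omega)
    have hp : 0 < cwt d m := CP2_pos d m fun k hk => Nat.zero_lt_of_lt (hf' k hk)
    rw [Finset.sum_range_succ, add_comm, mul_comm (f m)]
    rcases Nat.lt_succ_iff_lt_or_eq.1 hk with h1 | h1
    · rw [CP2_digit d k m _ _ h1 hp]
      exact ih hf' h1
    · subst h1
      rw [Nat.mul_add_div hp, Nat.div_eq_of_lt (CP2_lt d f k hf'), add_zero]
      exact Nat.mod_eq_of_lt (hf k (by omega))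

private theorem CP2_mod (d : ℕ → ℕ) (m i : ℕ) :
    ∑ k ∈ Finset.range m, (i / cwt d k % d k) * cwt d k = i % cwt d m := by
  induction m with
  | zero => simp [CP2_zero, Nat.mod_one]
  | succ m ih =>
    rw [Finset.sum_range_succ, ih, CP2_succ, Nat.mod_mul, mul_comm (cwt d m)]

private theorem CP2_sum_mul {R : Type} [AddCommMonoid R] (F : ℕ → R) (c a : ℕ) :
    ∑ i ∈ Finset.range (c * a), F i =
      ∑ b ∈ Finset.range a, ∑ j ∈ Finset.range c, F (c * b + j) := by
  induction a with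
  | zero => simp
  | succ a ih => rw [Nat.mul_succ, Finset.sum_range_add, ih, Finset.sum_range_succ]

private theorem CP2_prod (d : ℕ → ℕ) (g : ℕ → ℕ → ℕ) (m : ℕ) :
    ∑ i ∈ Finset.range (cwt d m), ∏ k ∈ Finset.range m, g k (i / cwt d k % d k) =
      ∏ k ∈ Finset.range m, ∑ a ∈ Finset.range (d k), g k a := by
  induction m with
  | zero => simp [CP2_zero]
  | succ m ih =>
    rw [CP2_succ, CP2_sum_mul, Finset.prod_range_succ, ← ih, Finset.mul_sum]
    refine Finset.sum_congr rfl fun b hb => ?_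
    rw [Finset.sum_mul]
    refine Finset.sum_congr rfl fun j hj => ?_
    rw [Finset.mem_range] at hb hj
    have hp : 0 < cwt d m := by omega
    rw [Finset.prod_range_succ]
    congr 1
    · refine Finset.prod_congr rfl fun k hk => ?_
      rw [CP2_digit d k m b j (Finset.mem_range.1 hk) hp]
    · rw [Nat.mul_add_div hp, Nat.div_eq_of_lt hj, add_zero, Nat.mod_eq_of_lt hb]

private theorem CP2_top (d : ℕ → ℕ) (m : ℕ) (hd : ∀ k, k < m → 1 ≤ d k) :
    ∑ k ∈ Finset.range m, (d k - 1) * cwt d k + 1 = cwt d m := by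
  induction m with
  | zero => simp [CP2_zero]
  | succ m ih =>
    have h1 := ih fun k hk => hd k (by omega)
    obtain ⟨q, hq⟩ : ∃ q, d m = q + 1 := ⟨d m - 1, by have := hd m (by omega); omega⟩
    rw [Finset.sum_range_succ, CP2_succ, hq, Nat.add_sub_cancel, ← h1]
    ring

namespace Coord

omit [Fintype κ] [DecidableEq κ] in
private theorem CP2_st (C : Coord κ n d) (σ : κ) (f : ℕ → ℕ)
    (hf : ∀ k, k < n → f k = C.dg σ k) : C.st f = σ := by
  have h1 : C.dg (C.st f) = C.dg σ := by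
    funext k
    by_cases hk : k < n
    · rw [C.dg_st f (fun k hk => by rw [hf k hk]; exact C.dg_lt σ k hk) k hk, hf k hk]
    · rw [C.dg_ge _ k (by omega), C.dg_ge _ k (by omega)]
  rw [← C.st_dg (C.st f), h1, C.st_dg]

omit [Fintype κ] [DecidableEq κ] in
theorem idx_lt (C : Coord κ n d) (σ : κ) : C.idx σ < cwt d n :=
  CP2_lt d (C.dg σ) n (C.dg_lt σ)

omit [Fintype κ] [DecidableEq κ] in
theorem ofIdx_idx (C : Coord κ n d) (σ : κ) : C.ofIdx (C.idx σ) = σ :=
  CP2_st C σ _ fun k hk => CP2_get d (C.dg σ) n (C.dg_lt σ) k hk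

omit [Fintype κ] [DecidableEq κ] in
theorem idx_inj (C : Coord κ n d) : Function.Injective C.idx :=
  Function.LeftInverse.injective (g := C.ofIdx) C.ofIdx_idx

omit [Fintype κ] [DecidableEq κ] in
theorem idx_ofIdx (C : Coord κ n d) (i : ℕ) (hi : i < cwt d n) : C.idx (C.ofIdx i) = i := by
  have hp : 0 < cwt d n := by omega
  have h1 : C.idx (C.ofIdx i) = ∑ k ∈ Finset.range n, (i / cwt d k % d k) * cwt d k := by
    refine Finset.sum_congr rfl fun k hk => ?_
    rw [Finset.mem_range] at hk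
    rw [ofIdx, C.dg_st _ (fun k hk => Nat.mod_lt _ (CP2_posk d k n hk hp).2) k hk]
  rw [h1, CP2_mod, Nat.mod_eq_of_lt hi]

omit [DecidableEq κ] in
theorem sum_idx {R : Type} [AddCommMonoid R] (C : Coord κ n d) (F : ℕ → R) :
    ∑ σ, F (C.idx σ) = ∑ i ∈ Finset.range (cwt d n), F i := by
  refine Finset.sum_bij' (fun σ _ => C.idx σ) (fun i _ => C.ofIdx i) ?_ ?_ ?_ ?_ ?_
  · intro σ _
    exact Finset.mem_range.2 (C.idx_lt σ)
  · intro i _
    exact Finset.mem_univ _
  · intro σ _
    exact C.ofIdx_idx σ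
  · intro i hi
    exact C.idx_ofIdx i (Finset.mem_range.1 hi)
  · intro σ _
    rfl

omit [DecidableEq κ] in
theorem card (C : Coord κ n d) : Fintype.card κ = cwt d n := by
  have h := C.sum_idx fun _ => 1
  rw [Finset.sum_const, Finset.sum_const, Finset.card_range, smul_eq_mul, smul_eq_mul, mul_one,
    mul_one, Finset.card_univ] at h
  exact h

omit [DecidableEq κ] in
/-- the product formula -/
theorem sum_prod (C : Coord κ n d) (g : ℕ → ℕ → ℕ) :
    ∑ σ, ∏ k ∈ Finset.range n, g k (C.dg σ k) =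
      ∏ k ∈ Finset.range n, ∑ a ∈ Finset.range (d k), g k a := by
  rw [← CP2_prod d g n, ← C.sum_idx fun i => ∏ k ∈ Finset.range n, g k (i / cwt d k % d k)]
  refine Finset.sum_congr rfl fun σ _ => Finset.prod_congr rfl fun k hk => ?_
  have h := CP2_get d (C.dg σ) n (C.dg_lt σ) k (Finset.mem_range.1 hk)
  rw [idx, h]

omit [Fintype κ] [DecidableEq κ] in
private theorem CP2_dgfl (C : Coord κ n d) (σ : κ) (k : ℕ) (hk : k < n) :
    C.dg (C.fl σ) k = d k - 1 - C.dg σ k :=
  C.dg_st (fun k => d k - 1 - C.dg σ k)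
    (fun k hk => by have := C.dg_lt σ k hk; show d k - 1 - C.dg σ k < d k; omega) k hk

omit [Fintype κ] [DecidableEq κ] in
theorem idx_fl (C : Coord κ n d) (σ : κ) : C.idx (C.fl σ) = cwt d n - 1 - C.idx σ := by
  have h1 := CP2_top d n fun k hk => Nat.lt_of_le_of_lt (Nat.zero_le _) (C.dg_lt σ k hk)
  have h2 : C.idx (C.fl σ) + C.idx σ = ∑ k ∈ Finset.range n, (d k - 1) * cwt d k := by
    rw [idx, idx, ← Finset.sum_add_distrib]
    refine Finset.sum_congr rfl fun k hk => ?_
    rw [Finset.mem_range] at hk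
    rw [CP2_dgfl C σ k hk, ← add_mul]
    have := C.dg_lt σ k hk
    congr 1
    omega
  omega

omit [Fintype κ] [DecidableEq κ] in
theorem fl_fl (C : Coord κ n d) (hd : ∀ k, k < n → 1 ≤ d k) (σ : κ) : C.fl (C.fl σ) = σ := by
  refine CP2_st C σ _ fun k hk => ?_
  have h0 := hd k hk
  have := C.dg_lt σ k hk
  rw [CP2_dgfl C σ k hk]
  omega

omit [Fintype κ] [DecidableEq κ] in
theorem pm_pm (C : Coord κ n d) (π : ℕ → ℕ) (hπ : ∀ k, k < n → π k < n ∧ π (π k) = k ∧
    d (π k) = d k) (σ : κ) : C.pm π (C.pm π σ) = σ := by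
  refine CP2_st C σ _ fun k hk => ?_
  have h1 : ∀ k, k < n → C.dg (C.pm π σ) k = C.dg σ (π k) := fun k hk =>
    C.dg_st (fun k => C.dg σ (π k)) (fun k hk => by
      rw [← (hπ k hk).2.2]
      exact C.dg_lt σ _ (hπ k hk).1) k hk
  rw [h1 _ (hπ k hk).1, (hπ k hk).2.1]

end Coord

private theorem CP2_kSh (w wt x : ℕ) (l : List ℕ) :
    kSh w wt x l = x * (l.map fun a => 2 ^ (w * (a * wt))).sum := by
  induction l with
  | nil => rfl
  | cons a l ih =>
    have h : kSh w wt x (a :: l) = x <<< (w * (a * wt)) + kSh w wt x l := rfl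
    rw [h, ih, Nat.shiftLeft_eq, List.map_cons, List.sum_cons, mul_add]

private theorem CP2_kGen (w : ℕ) (d : ℕ → ℕ) (f : ℕ → List ℕ) (m : ℕ) :
    kGen w d f m =
      ∏ k ∈ Finset.range m, ((f k).map fun a => 2 ^ (w * (a * cwt d k))).sum := by
  induction m with
  | zero => rfl
  | succ m ih =>
    have h : kGen w d f (m + 1) = kSh w (cwt d m) (kGen w d f m) (f m) := rfl
    rw [h, CP2_kSh, ih, Finset.prod_range_succ]

omit [DecidableEq κ] in
/-- generating numbers -/
theorem kGen_eq (w : ℕ) (C : Coord κ n d) (f : ℕ → List ℕ) (hf : ∀ k, k < n → ∀ a ∈ f k, a < d k) :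
    kGen w d f n = ∑ σ, (∏ k ∈ Finset.range n, (f k).count (C.dg σ k)) * 2 ^ (w * C.idx σ) := by
  have h1 : ∀ σ, (∏ k ∈ Finset.range n, (f k).count (C.dg σ k)) * 2 ^ (w * C.idx σ) =
      ∏ k ∈ Finset.range n, (f k).count (C.dg σ k) * 2 ^ (w * (C.dg σ k * cwt d k)) := by
    intro σ
    rw [Finset.prod_mul_distrib, Finset.prod_pow_eq_pow_sum, Coord.idx, Finset.mul_sum]
  rw [Finset.sum_congr rfl fun σ _ => h1 σ,
    C.sum_prod fun k a => (f k).count a * 2 ^ (w * (a * cwt d k)), CP2_kGen]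
  refine Finset.prod_congr rfl fun k hk => ?_
  rw [Finset.mem_range] at hk
  rw [Finset.sum_list_map_count]
  simp only [smul_eq_mul]
  refine Finset.sum_subset ?_ ?_
  · intro a ha
    exact Finset.mem_range.2 (hf k hk a (List.mem_toFinset.1 ha))
  · intro a _ ha
    rw [List.mem_toFinset] at ha
    rw [List.count_eq_zero_of_not_mem ha, zero_mul]

end CP2

end Crest.Agent.HG
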