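import Mathlib
import Crest.Agent.HG_CC
import Crest.Agent.HG_CP1
import Crest.Agent.HG_CP2

/-!
HG part C, task CV2: coverage of all states by weighted starts.
-/

set_option autoImplicit false

namespace Crest.Agent.HG
open Matrix

private theorem CV2_idx_digit {κ : Type} [Fintype κ] [DecidableEq κ] {n : ℕ} {d : ℕ → ℕ}
    (C : Coord κ n d) (σ : κ) {k : ℕ} (hk : k < n) : C.idx σ / cwt d k % d k = C.dg σ k := by
  have h1 := C.ofIdx_idx σ
  have h2 := C.dg_st (fun k => C.idx σ / cwt d k % d k)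
    (fun k hk => Nat.mod_lt _ (lt_of_le_of_lt (Nat.zero_le _) (C.dg_lt σ k hk))) k hk
  have h3 : C.st (fun k => C.idx σ / cwt d k % d k) = σ := h1
  rw [h3] at h2
  exact h2.symm

private theorem CV2_rec_sum (f : ℕ → ℕ) (n : ℕ) :
    @Nat.rec (fun _ => ℕ) 0 (fun k ih => Nat.add ih (f k)) n = ∑ k ∈ Finset.range n, f k := by
  induction n with
  | zero => rfl
  | succ n ih =>
    rw [Finset.sum_range_succ, ← ih]
    rfl

theorem idx_pm {κ : Type} [Fintype κ] [DecidableEq κ] (M : Mach) (C : Coord κ M.n M.d)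
    (π : ℕ → ℕ) (hπ : ∀ k, k < M.n → π k < M.n ∧ π (π k) = k ∧ M.d (π k) = M.d k) (σ : κ) :
    C.idx (C.pm π σ) = M.pmI π (C.idx σ) := by
  have h1 : M.pmI π (C.idx σ) = ∑ k ∈ Finset.range M.n,
      (C.idx σ / cwt M.d k % M.d k) * cwt M.d (π k) :=
    CV2_rec_sum (fun k => (C.idx σ / cwt M.d k % M.d k) * cwt M.d (π k)) M.n
  rw [h1]
  unfold Coord.idx
  have h2 : ∀ k ∈ Finset.range M.n, C.dg (C.pm π σ) k * cwt M.d k =
      C.dg σ (π k) * cwt M.d k := by
    intro k hk
    rw [Finset.mem_range] at hk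
    congr 1
    refine C.dg_st (fun k => C.dg σ (π k)) (fun j hj => ?_) k hk
    have h3 := C.dg_lt σ (π j) (hπ j hj).1
    rwa [(hπ j hj).2.2] at h3
  rw [Finset.sum_congr rfl h2]
  refine Finset.sum_nbij' π π (fun k hk => ?_) (fun k hk => ?_) (fun k hk => ?_) (fun k hk => ?_)
    (fun k hk => ?_)
  · rw [Finset.mem_range] at hk ⊢
    exact (hπ k hk).1
  · rw [Finset.mem_range] at hk ⊢
    exact (hπ k hk).1
  · rw [Finset.mem_range] at hk
    exact (hπ k hk).2.1
  · rw [Finset.mem_range] at hk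
    exact (hπ k hk).2.1
  · rw [Finset.mem_range] at hk
    have h4 := CV2_idx_digit C σ (hπ k hk).1
    unfold Coord.idx at h4
    rw [h4, (hπ k hk).2.1]

theorem qsum_idx {κ : Type} [Fintype κ] [DecidableEq κ] (M : Mach) (C : Coord κ M.n M.d) (σ : κ) :
    M.qsum (C.idx σ) = C.Q σ := by
  have h1 : M.qsum (C.idx σ) = ∑ k ∈ Finset.range M.n, (C.idx σ / cwt M.d k % M.d k) :=
    CV2_rec_sum (fun k => (C.idx σ / cwt M.d k % M.d k)) M.n
  rw [h1]
  unfold Coord.Q
  refine Finset.sum_congr rfl fun k hk => ?_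
  rw [Finset.mem_range] at hk
  exact CV2_idx_digit C σ hk

/-- sum over the group -/
private def CV2_g {R : Type} [AddCommMonoid R] (G : List (ℕ → ℕ)) (f : ℕ → R) (s : ℕ) : R :=
  (G.map fun g => f (g s)).sum

/-- weighted sum over all starts -/
private def CV2_w {R : Type} [Semiring R] (rs : List Run) (u : ℕ → R) : R :=
  (rs.map fun r => (r.wt : R) * ((r.ev ++ r.od).map u).sum).sum

private theorem CV2_covS (G : List (ℕ → ℕ)) (l : List ℕ) :
    covS G l = (l.map (CV2_g G fun i => 2 ^ (3 * i))).sum := by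
  have hG : ∀ s : ℕ, @List.rec (ℕ → ℕ) (fun _ => ℕ) 0
      (fun g _ ih2 => Nat.add (Nat.shiftLeft 1 (Nat.mul 3 (g s))) ih2) G =
      CV2_g G (fun i => 2 ^ (3 * i)) s := by
    intro s
    unfold CV2_g
    induction G with
    | nil => rfl
    | cons g G ih =>
      rw [List.map_cons, List.sum_cons, ← ih]
      have : Nat.shiftLeft 1 (Nat.mul 3 (g s)) = 2 ^ (3 * g s) := by
        have h := Nat.one_shiftLeft (3 * g s)
        exact h
      change _ = 2 ^ (3 * g s) + _
      rw [← this]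
      rfl
  unfold covS
  induction l with
  | nil => rfl
  | cons s l ih =>
    rw [List.map_cons, List.sum_cons, ← ih, ← hG s]
    rfl

private theorem CV2_cov (G : List (ℕ → ℕ)) (rs : List Run) :
    cov G rs = CV2_w rs (CV2_g G fun i => 2 ^ (3 * i)) := by
  unfold cov CV2_w
  induction rs with
  | nil => rfl
  | cons r rs ih =>
    rw [List.map_cons, List.sum_cons, ← ih, List.map_append, List.sum_append, ← CV2_covS,
      ← CV2_covS]
    rfl

private theorem CV2_cnt (rs : List Run) : cnt rs = CV2_w rs fun _ => 1 := by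
  unfold cnt CV2_w
  induction rs with
  | nil => rfl
  | cons r rs ih =>
    rw [List.map_cons, List.sum_cons, ← ih, List.map_append, List.sum_append]
    simp only [List.map_const', List.sum_replicate, smul_eq_mul, mul_one]
    rfl

private theorem CV2_g_sum {R : Type} [Semiring R] (G : List (ℕ → ℕ)) (f : ℕ → R) (D s : ℕ)
    (hs : ∀ g ∈ G, g s < D) :
    ∑ i ∈ Finset.range D, ((CV2_g G (fun j => if j = i then 1 else 0) s : ℕ) : R) * f i =
      CV2_g G f s := by
  unfold CV2_g
  induction G with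
  | nil => simp
  | cons g G ih =>
    simp only [List.map_cons, List.sum_cons, Nat.cast_add, add_mul, Finset.sum_add_distrib]
    rw [ih fun g' hg' => hs g' (List.mem_cons_of_mem _ hg')]
    congr 1
    rw [Finset.sum_eq_single (g s)]
    · simp
    · intro i _ hi
      rw [if_neg (Ne.symm hi)]
      simp
    · intro h
      exact absurd (Finset.mem_range.mpr (hs g List.mem_cons_self)) h

private theorem CV2_l_sum {R : Type} [Semiring R] (G : List (ℕ → ℕ)) (f : ℕ → R) (D : ℕ)
    (l : List ℕ) (hs : ∀ s ∈ l, ∀ g ∈ G, g s < D) :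
    ∑ i ∈ Finset.range D,
      (((l.map (CV2_g G (fun j => if j = i then 1 else 0))).sum : ℕ) : R) * f i =
      (l.map (CV2_g G f)).sum := by
  induction l with
  | nil => simp
  | cons s l ih =>
    simp only [List.map_cons, List.sum_cons, Nat.cast_add, add_mul, Finset.sum_add_distrib]
    rw [ih fun s' hs' => hs s' (List.mem_cons_of_mem _ hs'),
      CV2_g_sum G f D s (hs s List.mem_cons_self)]

private theorem CV2_w_sum {R : Type} [CommSemiring R] (G : List (ℕ → ℕ)) (f : ℕ → R) (D : ℕ)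
    (rs : List Run) (hs : ∀ r ∈ rs, ∀ s ∈ r.ev ++ r.od, ∀ g ∈ G, g s < D) :
    ∑ i ∈ Finset.range D,
      ((CV2_w rs (CV2_g G (fun j => if j = i then 1 else 0)) : ℕ) : R) * f i =
      CV2_w rs (CV2_g G f) := by
  unfold CV2_w
  induction rs with
  | nil => simp
  | cons r rs ih =>
    simp only [Nat.cast_id] at ih
    simp only [List.map_cons, List.sum_cons, Nat.cast_add, Nat.cast_mul, Nat.cast_id, add_mul,
      Finset.sum_add_distrib]
    rw [ih fun r' hr' => hs r' (List.mem_cons_of_mem _ hr'),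
      ← CV2_l_sum G f D (r.ev ++ r.od) (hs r List.mem_cons_self), Finset.mul_sum]
    simp only [mul_assoc]

private theorem CV2_w_congr {R : Type} [Semiring R] (rs : List Run) (u v : ℕ → R)
    (h : ∀ r ∈ rs, ∀ s ∈ r.ev ++ r.od, u s = v s) : CV2_w rs u = CV2_w rs v := by
  unfold CV2_w
  congr 1
  refine List.map_congr_left fun r hr => ?_
  congr 2
  exact List.map_congr_left fun s hs => h r hr s hs

private theorem CV2_w_mul {R : Type} [CommSemiring R] (rs : List Run) (c : R) (u : ℕ → R) :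
    CV2_w rs (fun s => c * u s) = c * CV2_w rs u := by
  unfold CV2_w
  induction rs with
  | nil => simp
  | cons r rs ih =>
    simp only [List.map_cons, List.sum_cons]
    rw [ih, List.sum_map_mul_left]
    ring

/-- coverage: the weighted starts represent all orbits. `gs i` are permutations of the states,
`G i` their action on indices. -/
theorem cover {κ : Type} [Fintype κ] [DecidableEq κ] (M : Mach) (C : Coord κ M.n M.d)
    (G : List (ℕ → ℕ)) (gs : List (κ → κ)) (hG : G.length = gs.length) (h0 : 0 < G.length)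
    (h8 : G.length < 8)
    (hgs : ∀ i (h1 : i < G.length) (h2 : i < gs.length), Function.Bijective gs[i] ∧
      ∀ σ, C.idx (gs[i] σ) = G[i] (C.idx σ))
    (rs : List Run) (hlt : ∀ r ∈ rs, ∀ s ∈ r.ev ++ r.od, s < M.D)
    (hcov : cov G rs = G.length * kGen 3 M.d (fun k => List.range (M.d k)) M.n)
    (hcnt : cnt rs = M.D) (h : κ → ℝ) (hinv : ∀ g ∈ gs, ∀ σ, h (g σ) = h σ) :
    ∑ σ, h σ = (rs.map fun r => (r.wt : ℝ) * (((r.ev ++ r.od).map fun s => h (C.ofIdx s)).sum)).sum
    := by
  have hD : M.D = cwt M.d M.n := rfl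
  -- the action of `G` on indices
  have hact : ∀ g ∈ G, ∃ t ∈ gs, ∀ σ, C.idx (t σ) = g (C.idx σ) := by
    intro g hg
    obtain ⟨i, hi, rfl⟩ := List.getElem_of_mem hg
    have hi' : i < gs.length := hG ▸ hi
    exact ⟨gs[i], List.getElem_mem hi', (hgs i hi hi').2⟩
  have hGlt : ∀ r ∈ rs, ∀ s ∈ r.ev ++ r.od, ∀ g ∈ G, g s < M.D := by
    intro r hr s hs g hg
    obtain ⟨t, -, ht⟩ := hact g hg
    have h1 := ht (C.ofIdx s)
    rw [C.idx_ofIdx s (hlt r hr s hs)] at h1
    rw [← h1]
    exact C.idx_lt _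
  set F : ℕ → ℕ := fun i => CV2_w rs (CV2_g G (fun j => if j = i then 1 else 0)) with hF
  -- the digits
  have hpk : pkN 3 F M.D = pkN 3 (fun _ => G.length) M.D := by
    have e1 : pkN 3 F M.D = cov G rs := by
      have h1 := CV2_w_sum (R := ℕ) G (fun i => 2 ^ (3 * i)) M.D rs hGlt
      rw [CV2_cov, ← h1]
      rfl
    have e2 : pkN 3 (fun _ => G.length) M.D =
        G.length * kGen 3 M.d (fun k => List.range (M.d k)) M.n := by
      rw [kGen_eq 3 C _ fun k _ a ha => List.mem_range.mp ha]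
      have h2 : ∀ σ, (∏ k ∈ Finset.range M.n, (List.range (M.d k)).count (C.dg σ k)) *
          2 ^ (3 * C.idx σ) = 2 ^ (3 * C.idx σ) := by
        intro σ
        rw [Finset.prod_eq_one, one_mul]
        intro k hk
        rw [Finset.mem_range] at hk
        exact List.count_eq_one_of_mem List.nodup_range (List.mem_range.mpr (C.dg_lt σ k hk))
      rw [Finset.sum_congr rfl fun σ _ => h2 σ, C.sum_idx fun i => 2 ^ (3 * i), ← hD,
        Finset.mul_sum]
      rfl
    rw [e1, e2, hcov]
  have hsum : ∑ i ∈ Finset.range M.D, F i = ∑ i ∈ Finset.range M.D, (fun _ => G.length) i := by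
    have h1 := CV2_w_sum (R := ℕ) G (fun _ => 1) M.D rs hGlt
    simp only [Nat.cast_id, mul_one] at h1
    have h2 : CV2_w rs (CV2_g G fun _ => (1 : ℕ)) = G.length * CV2_w rs fun _ => 1 := by
      rw [← CV2_w_mul]
      refine CV2_w_congr rs _ _ fun r _ s _ => ?_
      unfold CV2_g
      simp
    rw [h2, ← CV2_cnt, hcnt] at h1
    rw [Finset.sum_const, Finset.card_range, smul_eq_mul, mul_comm M.D]
    exact h1
  have hFi := pkN_carry 3 (by norm_num) F (fun _ => G.length) M.D
    (fun i _ => by norm_num; exact h8) hpk hsum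
  -- conclusion
  have h1 := CV2_w_sum (R := ℝ) G (fun i => h (C.ofIdx i)) M.D rs hGlt
  have h2 : CV2_w rs (CV2_g G fun i => h (C.ofIdx i)) =
      (G.length : ℝ) * CV2_w rs fun s => h (C.ofIdx s) := by
    rw [← CV2_w_mul]
    refine CV2_w_congr rs _ _ fun r hr s hs => ?_
    have h3 : ∀ g ∈ G, h (C.ofIdx (g s)) = h (C.ofIdx s) := by
      intro g hg
      obtain ⟨t, htm, ht⟩ := hact g hg
      have h4 := ht (C.ofIdx s)
      rw [C.idx_ofIdx s (hlt r hr s hs)] at h4
      rw [← h4, C.ofIdx_idx, hinv t htm]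
    unfold CV2_g
    rw [List.map_congr_left h3]
    simp
  have h3 : ∑ i ∈ Finset.range M.D, ((F i : ℕ) : ℝ) * h (C.ofIdx i) =
      (G.length : ℝ) * ∑ σ, h σ := by
    have h4 : ∑ σ, h σ = ∑ i ∈ Finset.range M.D, h (C.ofIdx i) := by
      rw [hD, ← C.sum_idx fun i => h (C.ofIdx i)]
      exact Finset.sum_congr rfl fun σ _ => by rw [C.ofIdx_idx]
    rw [h4, Finset.mul_sum]
    refine Finset.sum_congr rfl fun i hi => ?_
    rw [hFi i (Finset.mem_range.mp hi)]
  have h5 : (G.length : ℝ) * ∑ σ, h σ = (G.length : ℝ) * CV2_w rs fun s => h (C.ofIdx s) := by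
    rw [← h3, ← h2]
    exact h1
  have h6 : (G.length : ℝ) ≠ 0 := by exact_mod_cast h0.ne'
  exact mul_left_cancel₀ h6 h5

end Crest.Agent.HG
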