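import Mathlib
import Crest.Agent.HG_CC
import Crest.Agent.HG_CP1
import Crest.Agent.HG_CP2

/-!
HG part C, CP3: the packed operations of a machine act as the integer matrix `K`.
-/

set_option autoImplicit false
set_option linter.unusedSectionVars false

namespace Crest.Agent.HG
open Matrix Finset

section
variable {κ : Type} [Fintype κ] [DecidableEq κ] {n : ℕ} {d : ℕ → ℕ}

/-- packed vector -/
def pkC (w : ℕ) (C : Coord κ n d) (F : κ → ℕ) : ℕ := ∑ σ, F σ * 2 ^ (w * C.idx σ)

theorem pkC_eq (w : ℕ) (C : Coord κ n d) (F : κ → ℕ) :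
    pkC w C F = pkN w (fun i => F (C.ofIdx i)) (cwt d n) := by
  unfold pkC pkN
  rw [← C.sum_idx (fun i => F (C.ofIdx i) * 2 ^ (w * i))]
  exact Finset.sum_congr rfl fun σ _ => by rw [C.ofIdx_idx]

theorem pkC_shr_land (w : ℕ) (C : Coord κ n d) (F : κ → ℕ) (s m : ℕ) (hF : ∀ σ, F σ < 2 ^ w)
    (hsm : s + m ≤ w) : Nat.land (Nat.shiftRight (pkC w C F) s) (pkC w C fun _ => 2 ^ m - 1) =
      pkC w C fun σ => F σ / 2 ^ s % 2 ^ m := by
  rw [pkC_eq, pkC_eq, pkC_eq]
  exact pkN_shr_land w _ _ s m (fun i _ => hF _) hsm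

theorem pkC_land_mask (w : ℕ) (C : Coord κ n d) (F : κ → ℕ) (U : κ → Prop) [DecidablePred U]
    (hF : ∀ σ, F σ < 2 ^ w) :
    Nat.land (pkC w C F) (pkC w C fun σ => if U σ then 2 ^ w - 1 else 0) =
      pkC w C fun σ => if U σ then F σ else 0 := by
  rw [pkC_eq, pkC_eq, pkC_eq]
  have := pkN_land_mask w (fun i => F (C.ofIdx i)) (fun i => decide (U (C.ofIdx i))) (cwt d n)
    (fun i _ => hF _)
  simpa using this

theorem pkC_mod (w : ℕ) (C : Coord κ n d) (F : κ → ℕ) (hF : ∑ σ, F σ < 2 ^ w - 1) :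
    pkC w C F % (2 ^ w - 1) = ∑ σ, F σ := by
  have h : ∑ σ, F σ = ∑ i ∈ Finset.range (cwt d n), F (C.ofIdx i) := by
    rw [← C.sum_idx (fun i => F (C.ofIdx i))]
    exact Finset.sum_congr rfl fun σ _ => by rw [C.ofIdx_idx]
  rw [pkC_eq, h]
  rw [h] at hF
  exact pkN_mod w _ _ hF

theorem pkC_add (w : ℕ) (C : Coord κ n d) (F F' : κ → ℕ) :
    pkC w C F + pkC w C F' = pkC w C fun σ => F σ + F' σ := by
  unfold pkC
  rw [← Finset.sum_add_distrib]
  exact Finset.sum_congr rfl fun σ _ => by ring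

theorem pkC_mul (w : ℕ) (C : Coord κ n d) (c : ℕ) (F : κ → ℕ) :
    c * pkC w C F = pkC w C fun σ => c * F σ := by
  unfold pkC
  rw [Finset.mul_sum]
  exact Finset.sum_congr rfl fun σ _ => by ring

theorem pkC_zero (w : ℕ) (C : Coord κ n d) : pkC w C (fun _ => 0) = 0 := by
  simp [pkC]

theorem pkC_le (w : ℕ) (C : Coord κ n d) (F F' : κ → ℕ) (h : ∀ σ, F σ ≤ F' σ) :
    pkC w C F ≤ pkC w C F' :=
  Finset.sum_le_sum fun σ _ => Nat.mul_le_mul_right _ (h σ)

theorem pkC_sub (w : ℕ) (C : Coord κ n d) (F F' : κ → ℕ) (h : ∀ σ, F' σ ≤ F σ) :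
    pkC w C F - pkC w C F' = pkC w C fun σ => F σ - F' σ := by
  have h1 : pkC w C (fun σ => F σ - F' σ) + pkC w C F' = pkC w C F := by
    rw [pkC_add]
    congr 1
    funext σ
    exact Nat.sub_add_cancel (h σ)
  omega

theorem kadd (a b : ℕ) : Nat.add a b = a + b := rfl
theorem kmul (a b : ℕ) : Nat.mul a b = a * b := rfl
theorem ksub (a b : ℕ) : Nat.sub a b = a - b := rfl
theorem kpow (a b : ℕ) : Nat.pow a b = a ^ b := rfl
theorem kshl (a b : ℕ) : Nat.shiftLeft a b = a * 2 ^ b := Nat.shiftLeft_eq a b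
theorem kshr (a b : ℕ) : Nat.shiftRight a b = a / 2 ^ b := Nat.shiftRight_eq_div_pow a b

/-! #### the up move of a bond -/
/-- `σ → τ`: digit `i` decreases by one, digit `j` increases by one. -/
def upR (C : Coord κ n d) (i j : ℕ) (σ τ : κ) : Prop :=
  (∀ k, k ≠ i → k ≠ j → C.dg σ k = C.dg τ k) ∧ C.dg σ i = C.dg τ i + 1 ∧ C.dg σ j + 1 = C.dg τ j

theorem dg_inj (C : Coord κ n d) {σ τ : κ} (h : ∀ k, C.dg σ k = C.dg τ k) : σ = τ := by
  rw [← C.st_dg σ, ← C.st_dg τ]
  congr 1
  funext k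
  exact h k

theorem upR_uniq_right (C : Coord κ n d) {i j : ℕ} {σ τ τ' : κ} (h : upR C i j σ τ)
    (h' : upR C i j σ τ') : τ = τ' := by
  refine dg_inj C fun k => ?_
  by_cases hi : k = i
  · subst hi; have := h.2.1; have := h'.2.1; omega
  by_cases hj : k = j
  · subst hj; have := h.2.2; have := h'.2.2; omega
  rw [← h.1 k hi hj, h'.1 k hi hj]

theorem upR_uniq_left (C : Coord κ n d) {i j : ℕ} {σ σ' τ : κ} (h : upR C i j σ τ)
    (h' : upR C i j σ' τ) : σ = σ' := by
  refine dg_inj C fun k => ?_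
  by_cases hi : k = i
  · subst hi; have := h.2.1; have := h'.2.1; omega
  by_cases hj : k = j
  · subst hj; have := h.2.2; have := h'.2.2; omega
  rw [h.1 k hi hj, h'.1 k hi hj]

theorem upR_exists (C : Coord κ n d) {i j : ℕ} (hij : i < j) (hj : j < n) (σ : κ) :
    (∃ τ, upR C i j σ τ) ↔ (1 ≤ C.dg σ i ∧ C.dg σ j + 1 < d j) := by
  constructor
  · rintro ⟨τ, h⟩
    refine ⟨by have := h.2.1; omega, ?_⟩
    rw [h.2.2]
    exact C.dg_lt τ j hj
  · rintro ⟨h1, h2⟩
    let f : ℕ → ℕ := fun k => if k = i then C.dg σ i - 1 else if k = j then C.dg σ j + 1 else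
      C.dg σ k
    have hf : ∀ k, k < n → f k < d k := by
      intro k hk
      simp only [f]
      split_ifs with h3 h4
      · subst h3; have := C.dg_lt σ k hk; omega
      · subst h4; exact h2
      · exact C.dg_lt σ k hk
    have hdg : ∀ k, k < n → C.dg (C.st f) k = f k := fun k hk => C.dg_st f hf k hk
    refine ⟨C.st f, ?_, ?_, ?_⟩
    · intro k hki hkj
      by_cases hk : k < n
      · rw [hdg k hk]; simp [f, hki, hkj]
      · rw [C.dg_ge _ _ (by omega), C.dg_ge _ _ (by omega)]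
    · rw [hdg i (by omega)]; simp [f]; omega
    · rw [hdg j hj]; simp [f]; omega

theorem upR_idx (C : Coord κ n d) {i j : ℕ} (hij : i < j) (hj : j < n) {σ τ : κ}
    (h : upR C i j σ τ) : C.idx τ + cwt d i = C.idx σ + cwt d j := by
  have hi : i ∈ range n := by simp; omega
  have hj' : j ∈ (range n).erase i := by simp; omega
  unfold Coord.idx
  rw [← Finset.add_sum_erase _ _ hi, ← Finset.add_sum_erase _ _ hj',
    ← Finset.add_sum_erase (range n) (fun k => C.dg σ k * cwt d k) hi,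
    ← Finset.add_sum_erase ((range n).erase i) (fun k => C.dg σ k * cwt d k) hj']
  have hrest : ∑ k ∈ ((range n).erase i).erase j, C.dg τ k * cwt d k =
      ∑ k ∈ ((range n).erase i).erase j, C.dg σ k * cwt d k := by
    refine Finset.sum_congr rfl fun k hk => ?_
    simp only [mem_erase] at hk
    rw [h.1 k hk.2.1 hk.1]
  rw [hrest, h.2.1, ← h.2.2]
  ring

theorem cwt_succ (d : ℕ → ℕ) (k : ℕ) : cwt d (k + 1) = cwt d k * d k := rfl
theorem cwt_zero (d : ℕ → ℕ) : cwt d 0 = 1 := rfl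

theorem cwt_mono (d : ℕ → ℕ) (hd : ∀ k, k < n → 1 ≤ d k) {i j : ℕ} (hij : i ≤ j) (hj : j ≤ n) :
    cwt d i ≤ cwt d j := by
  induction j with
  | zero => have : i = 0 := by omega
            subst this; exact le_rfl
  | succ j ih =>
    rcases Nat.lt_or_ge i (j + 1) with h | h
    · refine (ih (by omega) (by omega)).trans ?_
      rw [cwt_succ]
      exact Nat.le_mul_of_pos_right _ (hd j (by omega))
    · have : i = j + 1 := by omega
      rw [this]

open Classical in
/-- matrix of the up move -/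
noncomputable def upM (C : Coord κ n d) (i j : ℕ) (σ τ : κ) : ℕ := if upR C i j σ τ then 1 else 0

open Classical in
theorem sum_upM_right (C : Coord κ n d) (i j : ℕ) (σ : κ) :
    ∑ τ, upM C i j σ τ = if ∃ τ, upR C i j σ τ then 1 else 0 := by
  by_cases h : ∃ τ, upR C i j σ τ
  · obtain ⟨τ, hτ⟩ := h
    rw [if_pos ⟨τ, hτ⟩, Finset.sum_eq_single τ]
    · simp [upM, hτ]
    · intro τ' _ hne
      simp only [upM, ite_eq_right_iff, one_ne_zero, imp_false]
      exact fun h' => hne (upR_uniq_right C h' hτ)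
    · simp
  · rw [if_neg h]
    refine Finset.sum_eq_zero fun τ _ => ?_
    simp only [upM, ite_eq_right_iff, one_ne_zero, imp_false]
    exact fun h' => h ⟨τ, h'⟩

open Classical in
theorem sum_upM_left (C : Coord κ n d) (i j : ℕ) (τ : κ) :
    ∑ σ, upM C i j σ τ = if ∃ σ, upR C i j σ τ then 1 else 0 := by
  by_cases h : ∃ σ, upR C i j σ τ
  · obtain ⟨σ, hσ⟩ := h
    rw [if_pos ⟨σ, hσ⟩, Finset.sum_eq_single σ]
    · simp [upM, hσ]
    · intro σ' _ hne
      simp only [upM, ite_eq_right_iff, one_ne_zero, imp_false]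
      exact fun h' => hne (upR_uniq_left C h' hσ)
    · simp
  · rw [if_neg h]
    refine Finset.sum_eq_zero fun σ _ => ?_
    simp only [upM, ite_eq_right_iff, one_ne_zero, imp_false]
    exact fun h' => h ⟨σ, h'⟩

/-- moving the exponent along an up move -/
theorem upM_pow (w : ℕ) (C : Coord κ n d) (hd : ∀ k, k < n → 1 ≤ d k) {i j : ℕ} (hij : i < j)
    (hj : j < n) (σ τ : κ) :
    upM C i j σ τ * 2 ^ (w * C.idx τ) =
      upM C i j σ τ * 2 ^ (w * C.idx σ) * 2 ^ (w * (cwt d j - cwt d i)) := by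
  classical
  by_cases h : upR C i j σ τ
  · simp only [upM, h, if_true, one_mul]
    have h1 := upR_idx C hij hj h
    have h2 := cwt_mono d hd hij.le hj.le
    rw [← pow_add, ← Nat.mul_add]
    congr 2
    omega
  · simp [upM, h]

/-- the matrix of an exchange, natural numbers -/
theorem hop_eq_upM (C : Coord κ n d) (i j : ℕ) (σ τ : κ) :
    C.hop i j σ τ = ((upM C i j τ σ + upM C i j σ τ : ℕ) : ℤ) := by
  classical
  have key : ((∀ k, k ≠ i → k ≠ j → C.dg σ k = C.dg τ k) ∧
      ((C.dg σ i + 1 = C.dg τ i ∧ C.dg σ j = C.dg τ j + 1) ∨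
        (C.dg σ i = C.dg τ i + 1 ∧ C.dg σ j + 1 = C.dg τ j))) ↔
      (upR C i j τ σ ∨ upR C i j σ τ) := by
    constructor
    · rintro ⟨h1, h2 | h2⟩
      · exact Or.inl ⟨fun k a b => (h1 k a b).symm, h2.1.symm, h2.2.symm⟩
      · exact Or.inr ⟨h1, h2⟩
    · rintro (h | h)
      · exact ⟨fun k a b => (h.1 k a b).symm, Or.inl ⟨h.2.1.symm, h.2.2.symm⟩⟩
      · exact ⟨h.1, Or.inr h.2⟩
  have hx : C.hop i j σ τ = if (upR C i j τ σ ∨ upR C i j σ τ) then 1 else 0 := by
    unfold Coord.hop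
    rw [Matrix.of_apply]
    by_cases h : (upR C i j τ σ ∨ upR C i j σ τ)
    · rw [if_pos h, if_pos (key.2 h)]
    · rw [if_neg h, if_neg (fun h' => h (key.1 h'))]
  rw [hx]
  by_cases h1 : upR C i j τ σ
  · have h2 : ¬ upR C i j σ τ := fun h2 => by
      have a := h1.2.1; have b := h2.2.1; omega
    simp [upM, h1, h2]
  · by_cases h2 : upR C i j σ τ
    · simp [upM, h1, h2]
    · simp [upM, h1, h2]

end

/-! #### the machine -/
section
variable {κ : Type} [Fintype κ] [DecidableEq κ] (M : Mach) (C : Coord κ M.n M.d)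

theorem full_eq : M.full = 2 ^ M.w - 1 := rfl
theorem D_eq : M.D = cwt M.d M.n := rfl

theorem count_range {a m : ℕ} (h : a < m) : (List.range m).count a = 1 :=
  List.count_eq_one_of_mem List.nodup_range (List.mem_range.2 h)

theorem ones_eq : M.ones = pkC M.w C fun _ => 1 := by
  unfold Mach.ones pkC
  rw [kGen_eq M.w C]
  · refine Finset.sum_congr rfl fun σ _ => ?_
    rw [Finset.prod_eq_one]
    intro k hk
    exact count_range (C.dg_lt σ k (by simpa using hk))
  · intro k _ a ha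
    exact List.mem_range.1 ha

theorem mul_ones (c : ℕ) : Nat.mul M.ones c = pkC M.w C fun _ => c := by
  rw [ones_eq M C]
  change _ * c = _
  rw [mul_comm, pkC_mul]
  simp

/-- the product of the counts of a `kSel` selection -/
theorem prod_kSel (i j : ℕ) (A A' : List ℕ) (hi : i < M.n) (hj : j < M.n) (σ : κ) :
    ∏ k ∈ range M.n, (kSel M.d i A j A' k).count (C.dg σ k) =
      A.count (C.dg σ i) * if i = j then 1 else A'.count (C.dg σ j) := by
  have hi' : i ∈ range M.n := by simpa using hi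
  rw [← Finset.mul_prod_erase _ _ hi']
  congr 1
  · simp [kSel]
  · by_cases hij : i = j
    · subst hij
      rw [if_pos rfl]
      refine Finset.prod_eq_one fun k hk => ?_
      simp only [mem_erase, mem_range] at hk
      have h1 : Nat.beq k i = false := by
        rw [Bool.eq_false_iff, ne_eq, Nat.beq_eq]; exact hk.1
      simp only [kSel, h1, cond_false]
      exact count_range (C.dg_lt σ k hk.2)
    · rw [if_neg hij]
      have hj' : j ∈ (range M.n).erase i := by simp [Ne.symm hij, hj]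
      rw [← Finset.mul_prod_erase _ _ hj']
      have h1 : Nat.beq j i = false := by
        rw [Bool.eq_false_iff, ne_eq, Nat.beq_eq]; exact fun h => hij h.symm
      have h2 : Nat.beq j j = true := by rw [Nat.beq_eq]
      simp only [kSel, h1, h2, cond_false, cond_true]
      rw [Finset.prod_eq_one, mul_one]
      intro k hk
      simp only [mem_erase, mem_range] at hk
      have h3 : Nat.beq k i = false := by
        rw [Bool.eq_false_iff, ne_eq, Nat.beq_eq]; exact hk.2.1
      have h4 : Nat.beq k j = false := by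
        rw [Bool.eq_false_iff, ne_eq, Nat.beq_eq]; exact hk.1
      simp only [h3, h4, cond_false]
      exact count_range (C.dg_lt σ k hk.2.2)

theorem count_tail_range {a m : ℕ} (h : a < m) :
    (List.range m).tail.count a = if 1 ≤ a then 1 else 0 := by
  cases m with
  | zero => omega
  | succ m =>
    rw [List.range_succ_eq_map, List.tail_cons]
    split_ifs with h1
    · refine List.count_eq_one_of_mem ?_ ?_
      · exact List.nodup_range.map Nat.succ_injective
      · rw [List.mem_map]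
        exact ⟨a - 1, List.mem_range.2 (by omega), by simp; omega⟩
    · rw [List.count_eq_zero]
      rw [List.mem_map]
      rintro ⟨b, _, hb⟩
      simp at hb
      omega

theorem count_range_pred {a m : ℕ} :
    (List.range (m - 1)).count a = if a + 1 < m then 1 else 0 := by
  split_ifs with h1
  · exact count_range (by omega)
  · rw [List.count_eq_zero, List.mem_range]
    omega

open Classical in
theorem mu_eq {i j : ℕ} (hij : i < j) (hj : j < M.n) :
    M.mu i j = pkC M.w C fun σ => if ∃ τ, upR C i j σ τ then 2 ^ M.w - 1 else 0 := by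
  unfold Mach.mu
  rw [kGen_eq M.w C]
  · change M.full * _ = _
    unfold pkC
    rw [Finset.mul_sum]
    refine Finset.sum_congr rfl fun σ _ => ?_
    beta_reduce
    rw [prod_kSel M C i j _ _ (by omega) hj, if_neg (by omega),
      count_tail_range (C.dg_lt σ i (by omega))]
    change M.full * (_ * List.count _ (List.range (M.d j - 1)) * _) = _
    rw [count_range_pred, full_eq]
    by_cases h1 : 1 ≤ C.dg σ i
    · by_cases h2 : C.dg σ j + 1 < M.d j
      · rw [if_pos h1, if_pos h2, if_pos ((upR_exists C hij hj σ).2 ⟨h1, h2⟩)]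
        ring
      · rw [if_neg h2, if_neg (fun h => h2 ((upR_exists C hij hj σ).1 h).2)]
        ring
    · rw [if_neg h1, if_neg (fun h => h1 ((upR_exists C hij hj σ).1 h).1)]
      ring
  · intro k hk a ha
    unfold kSel at ha
    by_cases h1 : k = i
    · subst h1
      have : Nat.beq k k = true := by rw [Nat.beq_eq]
      rw [this, cond_true] at ha
      exact List.mem_range.1 (List.mem_of_mem_tail ha)
    · have h1' : Nat.beq k i = false := by rw [Bool.eq_false_iff, ne_eq, Nat.beq_eq]; exact h1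
      rw [h1', cond_false] at ha
      by_cases h2 : k = j
      · subst h2
        have : Nat.beq k k = true := by rw [Nat.beq_eq]
        rw [this, cond_true] at ha
        have h3 := List.mem_range.1 ha
        have h4 : Nat.sub (M.d k) 1 = M.d k - 1 := rfl
        omega
      · have h2' : Nat.beq k j = false := by rw [Bool.eq_false_iff, ne_eq, Nat.beq_eq]; exact h2
        rw [h2', cond_false] at ha
        exact List.mem_range.1 ha

theorem ht_eq (i j : ℕ) : M.ht i j = M.w * (cwt M.d j - cwt M.d i) := rfl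

open Classical in
theorem md_eq (hd : ∀ k, k < M.n → 1 ≤ M.d k) {i j : ℕ} (hij : i < j) (hj : j < M.n) :
    M.md i j = pkC M.w C fun τ => if ∃ σ, upR C i j σ τ then 2 ^ M.w - 1 else 0 := by
  unfold Mach.md
  rw [kshl, mu_eq M C hij hj, ht_eq]
  unfold pkC
  have h1 : ∀ σ, (if ∃ τ, upR C i j σ τ then 2 ^ M.w - 1 else 0) * 2 ^ (M.w * C.idx σ) *
      2 ^ (M.w * (cwt M.d j - cwt M.d i)) =
      ∑ τ, (2 ^ M.w - 1) * (upM C i j σ τ * 2 ^ (M.w * C.idx τ)) := by
    intro σ
    simp_rw [upM_pow M.w C hd hij hj σ]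
    rw [← Finset.mul_sum, ← Finset.sum_mul, ← Finset.sum_mul, sum_upM_right]
    split_ifs <;> ring
  have h2 : ∀ τ, (if ∃ σ, upR C i j σ τ then 2 ^ M.w - 1 else 0) * 2 ^ (M.w * C.idx τ) =
      ∑ σ, (2 ^ M.w - 1) * (upM C i j σ τ * 2 ^ (M.w * C.idx τ)) := by
    intro τ
    rw [← Finset.mul_sum, ← Finset.sum_mul, sum_upM_left]
    split_ifs <;> ring
  rw [Finset.sum_mul]
  simp_rw [h1, h2]
  exact Finset.sum_comm

/-- one hop, up and down -/
theorem hop_pk (hd : ∀ k, k < M.n → 1 ≤ M.d k) {i j : ℕ} (hij : i < j) (hj : j < M.n)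
    (F : κ → ℕ) (hF : ∀ σ, F σ < 2 ^ M.w) :
    Nat.add (Nat.shiftLeft (Nat.land (pkC M.w C F) (M.mu i j)) (M.ht i j))
      (Nat.shiftRight (Nat.land (pkC M.w C F) (M.md i j)) (M.ht i j)) =
    pkC M.w C fun τ => ∑ σ, (upM C i j τ σ + upM C i j σ τ) * F σ := by
  classical
  rw [mu_eq M C hij hj, md_eq M C hd hij hj, pkC_land_mask M.w C F _ hF,
    pkC_land_mask M.w C F _ hF, ht_eq]
  have e1 : Nat.shiftLeft (pkC M.w C fun σ => if ∃ τ, upR C i j σ τ then F σ else 0)
      (M.w * (cwt M.d j - cwt M.d i)) = pkC M.w C fun τ => ∑ σ, upM C i j σ τ * F σ := by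
    rw [kshl]
    unfold pkC
    have h1 : ∀ σ, (if ∃ τ, upR C i j σ τ then F σ else 0) * 2 ^ (M.w * C.idx σ) *
        2 ^ (M.w * (cwt M.d j - cwt M.d i)) =
        ∑ τ, F σ * (upM C i j σ τ * 2 ^ (M.w * C.idx τ)) := by
      intro σ
      simp_rw [upM_pow M.w C hd hij hj σ]
      rw [← Finset.mul_sum, ← Finset.sum_mul, ← Finset.sum_mul, sum_upM_right]
      split_ifs <;> ring
    rw [Finset.sum_mul]
    simp_rw [h1, Finset.sum_mul]
    rw [Finset.sum_comm]
    exact Finset.sum_congr rfl fun τ _ => Finset.sum_congr rfl fun σ _ => by ring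
  have e2 : Nat.shiftRight (pkC M.w C fun τ => if ∃ σ, upR C i j σ τ then F τ else 0)
      (M.w * (cwt M.d j - cwt M.d i)) = pkC M.w C fun τ => ∑ σ, upM C i j τ σ * F σ := by
    have h3 : (pkC M.w C fun τ => if ∃ σ, upR C i j σ τ then F τ else 0) =
        (pkC M.w C fun τ => ∑ σ, upM C i j τ σ * F σ) *
          2 ^ (M.w * (cwt M.d j - cwt M.d i)) := by
      unfold pkC
      have h2 : ∀ τ, (if ∃ σ, upR C i j σ τ then F τ else 0) * 2 ^ (M.w * C.idx τ) =
          ∑ σ, F τ * (upM C i j σ τ * 2 ^ (M.w * C.idx τ)) := by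
        intro τ
        rw [← Finset.mul_sum, ← Finset.sum_mul, sum_upM_left]
        split_ifs <;> ring
      simp_rw [h2, upM_pow M.w C hd hij hj]
      rw [Finset.sum_comm, Finset.sum_mul]
      refine Finset.sum_congr rfl fun τ _ => ?_
      rw [Finset.sum_mul, Finset.sum_mul]
      exact Finset.sum_congr rfl fun σ _ => by ring
    rw [kshr, h3, Nat.mul_div_cancel _ (by positivity)]
  rw [e1, e2, kadd, pkC_add]
  congr 1
  funext τ
  rw [← Finset.sum_add_distrib]
  exact Finset.sum_congr rfl fun σ _ => by ring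

/-- natural-number action of a list of hops -/
noncomputable def hopsN (l : List (ℕ × ℕ)) (F : κ → ℕ) (τ : κ) : ℕ :=
  (l.map fun p => ∑ σ, (upM C p.1 p.2 τ σ + upM C p.1 p.2 σ τ) * F σ).sum
noncomputable def hopsGN (l : List (ℕ × List (ℕ × ℕ))) (F : κ → ℕ) (τ : κ) : ℕ :=
  (l.map fun t => t.1 * hopsN M C t.2 F τ).sum

theorem exch_pk (hd : ∀ k, k < M.n → 1 ≤ M.d k) (l : List (ℕ × ℕ))
    (hl : ∀ p ∈ l, p.1 < p.2 ∧ p.2 < M.n) (F : κ → ℕ) (hF : ∀ σ, F σ < 2 ^ M.w) :
    M.exch (pkC M.w C F) l = pkC M.w C (hopsN M C l F) := by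
  induction l with
  | nil =>
    have h : hopsN M C [] F = fun _ => 0 := rfl
    rw [h, pkC_zero]; rfl
  | cons p l ih =>
    have h1 := hl p (by simp)
    have h2 : M.exch (pkC M.w C F) (p :: l) = Nat.add (Nat.add
        (Nat.shiftLeft (Nat.land (pkC M.w C F) (M.mu p.1 p.2)) (M.ht p.1 p.2))
        (Nat.shiftRight (Nat.land (pkC M.w C F) (M.md p.1 p.2)) (M.ht p.1 p.2)))
        (M.exch (pkC M.w C F) l) := rfl
    rw [h2, ih fun q hq => hl q (by simp [hq]), hop_pk M C hd h1.1 h1.2 F hF,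
      kadd, pkC_add]
    congr 1

theorem exchG_pk (hd : ∀ k, k < M.n → 1 ≤ M.d k) (l : List (ℕ × List (ℕ × ℕ)))
    (hl : ∀ t ∈ l, ∀ p ∈ t.2, p.1 < p.2 ∧ p.2 < M.n) (F : κ → ℕ) (hF : ∀ σ, F σ < 2 ^ M.w) :
    M.exchG (pkC M.w C F) l = pkC M.w C (hopsGN M C l F) := by
  induction l with
  | nil =>
    have h : hopsGN M C [] F = fun _ => 0 := rfl
    rw [h, pkC_zero]; rfl
  | cons t l ih =>
    have h2 : M.exchG (pkC M.w C F) (t :: l) =
        t.1 * (M.exch (pkC M.w C F) t.2) + (M.exchG (pkC M.w C F) l) := rfl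
    rw [h2, ih fun q hq => hl q (by simp [hq]), exch_pk M C hd t.2 (hl t (by simp)) F hF,
      pkC_mul, pkC_add]
    congr 1

end
end Crest.Agent.HG
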