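import Mathlib
import Crest.Agent.HG_CP3

/-!
HG part C, CP4: soundness of the kernel run.
-/

set_option autoImplicit false
set_option linter.unusedSectionVars false

namespace Crest.Agent.HG
open Matrix Finset

section
variable {κ : Type} [Fintype κ] [DecidableEq κ] (M : Mach) (C : Coord κ M.n M.d)

/-- condition on product weights -/
def PWok (l : List (ℕ × List ℕ × ℕ × List ℕ)) : Prop :=
  ∀ u ∈ l, u.1 < M.n ∧ u.2.2.1 < M.n ∧
    (∀ a ∈ u.2.1, a < M.d u.1) ∧ (∀ a ∈ u.2.2.2, a < M.d u.2.2.1)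

theorem dgN_pk (l : List (ℕ × List ℕ × ℕ × List ℕ)) (hl : PWok M l) :
    M.dgN l = pkC M.w C (M.G C l) := by
  induction l with
  | nil =>
    have h : M.G C [] = fun _ => 0 := rfl
    rw [h, pkC_zero]; rfl
  | cons u l ih =>
    obtain ⟨h1, h2, h3, h4⟩ := hl u (by simp)
    have e : M.dgN (u :: l) =
        kGen M.w M.d (kSel M.d u.1 u.2.1 u.2.2.1 u.2.2.2) M.n + M.dgN l := rfl
    rw [e, ih fun v hv => hl v (by simp [hv]), kGen_eq M.w C]
    · have e2 : (∑ σ, (∏ k ∈ range M.n, (kSel M.d u.1 u.2.1 u.2.2.1 u.2.2.2 k).count (C.dg σ k)) *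
          2 ^ (M.w * C.idx σ)) = pkC M.w C fun σ => u.2.1.count (C.dg σ u.1) *
            (if u.1 = u.2.2.1 then 1 else u.2.2.2.count (C.dg σ u.2.2.1)) := by
        unfold pkC
        refine Finset.sum_congr rfl fun σ _ => ?_
        rw [prod_kSel M C _ _ _ _ h1 h2]
      rw [e2, pkC_add]
      congr 1
    · intro k hk a ha
      unfold kSel at ha
      by_cases c1 : k = u.1
      · subst c1
        have : Nat.beq u.1 u.1 = true := by rw [Nat.beq_eq]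
        rw [this, cond_true] at ha
        exact h3 a ha
      · have c1' : Nat.beq k u.1 = false := by
          rw [Bool.eq_false_iff, ne_eq, Nat.beq_eq]; exact c1
        rw [c1', cond_false] at ha
        by_cases c2 : k = u.2.2.1
        · subst c2
          have : Nat.beq u.2.2.1 u.2.2.1 = true := by rw [Nat.beq_eq]
          rw [this, cond_true] at ha
          exact h4 a ha
        · have c2' : Nat.beq k u.2.2.1 = false := by
            rw [Bool.eq_false_iff, ne_eq, Nat.beq_eq]; exact c2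
          rw [c2', cond_false] at ha
          exact List.mem_range.1 ha

theorem G_le (l : List (ℕ × List ℕ × ℕ × List ℕ)) (σ : κ) :
    M.G C l σ ≤ (l.map fun u => u.2.1.length * (u.2.2.2.length + 1)).sum := by
  unfold Mach.G
  refine List.sum_le_sum fun u _ => ?_
  refine Nat.mul_le_mul List.count_le_length ?_
  split_ifs
  · omega
  · exact List.count_le_length.trans (Nat.le_succ _)

theorem bm_pk (l : List (ℕ × List ℕ × ℕ × List ℕ)) (hl : PWok M l)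
    (hG : ∀ σ, M.G C l σ < 2 ^ M.w) (b : ℕ) (hb : b + 1 ≤ M.w) :
    M.bm l b = pkC M.w C fun σ => if M.G C l σ / 2 ^ b % 2 = 1 then 2 ^ M.w - 1 else 0 := by
  unfold Mach.bm
  have e : M.ones = pkC M.w C fun _ => 2 ^ 1 - 1 := by rw [ones_eq M C]; simp
  rw [dgN_pk M C l hl, e, pkC_shr_land M.w C _ b 1 hG hb, kmul, mul_comm, pkC_mul, full_eq]
  congr 1
  funext σ
  rcases Nat.mod_two_eq_zero_or_one (M.G C l σ / 2 ^ b) with h | h
  · rw [pow_one, h]; simp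
  · rw [pow_one, h]; simp

theorem dgA_pk (l : List (ℕ × List ℕ × ℕ × List ℕ)) (hl : PWok M l)
    (hG : ∀ σ, M.G C l σ < 2 ^ M.w) (F : κ → ℕ) (hF : ∀ σ, F σ < 2 ^ M.w) (nb s : ℕ)
    (hs : s + nb ≤ M.w) :
    M.dgA (pkC M.w C F) l nb s = pkC M.w C fun σ => M.G C l σ / 2 ^ s % 2 ^ nb * F σ := by
  induction nb generalizing s with
  | zero =>
    have h : (fun σ => M.G C l σ / 2 ^ s % 2 ^ 0 * F σ) = fun _ => 0 := by
      funext σ; simp [Nat.mod_one]
    rw [h, pkC_zero]; rfl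
  | succ nb ih =>
    have e : M.dgA (pkC M.w C F) l (nb + 1) s = Nat.land (pkC M.w C F) (M.bm l s) +
        2 * M.dgA (pkC M.w C F) l nb (s + 1) := rfl
    rw [e, ih (s + 1) (by omega), bm_pk M C l hl hG s (by omega), pkC_land_mask M.w C F _ hF,
      pkC_mul, pkC_add]
    congr 1
    funext σ
    have h1 : M.G C l σ / 2 ^ s % 2 ^ (nb + 1) = M.G C l σ / 2 ^ s % 2 +
        2 * (M.G C l σ / 2 ^ (s + 1) % 2 ^ nb) := by
      rw [pow_succ' 2 nb, Nat.mod_mul, Nat.div_div_eq_div_mul, ← pow_succ]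
    rw [h1]
    rcases Nat.mod_two_eq_zero_or_one (M.G C l σ / 2 ^ s) with h | h
    · rw [h]; simp; ring
    · rw [h]; simp; ring

/-- condition on the diagonal groups -/
def DGok (l : List (ℕ × ℕ × ℕ × List (ℕ × List ℕ × ℕ × List ℕ))) : Prop :=
  ∀ t ∈ l, PWok M t.2.2.2 ∧
    (t.2.2.2.map fun u => u.2.1.length * (u.2.2.2.length + 1)).sum < 2 ^ M.w ∧
    t.2.1 + t.2.2.1 ≤ M.w

/-- value of the diagonal groups -/
def dval (l : List (ℕ × ℕ × ℕ × List (ℕ × List ℕ × ℕ × List ℕ))) (σ : κ) : ℕ :=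
  (l.map fun t => t.1 * (M.G C t.2.2.2 σ / 2 ^ t.2.1 % 2 ^ t.2.2.1)).sum

theorem diagG_pk (l : List (ℕ × ℕ × ℕ × List (ℕ × List ℕ × ℕ × List ℕ))) (hl : DGok M l)
    (F : κ → ℕ) (hF : ∀ σ, F σ < 2 ^ M.w) :
    M.diagG (pkC M.w C F) l = pkC M.w C fun σ => dval M C l σ * F σ := by
  induction l with
  | nil =>
    have h : (fun σ => dval M C [] σ * F σ) = fun _ => 0 := by funext σ; simp [dval]
    rw [h, pkC_zero]; rfl
  | cons t l ih =>
    obtain ⟨h1, h2, h3⟩ := hl t (by simp)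
    have e : M.diagG (pkC M.w C F) (t :: l) =
        t.1 * M.dgA (pkC M.w C F) t.2.2.2 t.2.2.1 t.2.1 + M.diagG (pkC M.w C F) l := rfl
    rw [e, ih fun v hv => hl v (by simp [hv]),
      dgA_pk M C _ h1 (fun σ => (G_le M C _ σ).trans_lt h2) F hF _ _ h3, pkC_mul, pkC_add]
    congr 1
    funext σ
    simp only [dval, List.map_cons, List.sum_cons]
    ring

/-- positive part -/
noncomputable def PF (F : κ → ℕ) (σ : κ) : ℕ := hopsGN M C M.posH F σ + dval M C M.posD σ * F σ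
/-- negative part -/
noncomputable def NF (F : κ → ℕ) (σ : κ) : ℕ := hopsGN M C M.negH F σ + M.negc * F σ

theorem WF.d1 {M : Mach} (hM : M.WF) : ∀ k, k < M.n → 1 ≤ M.d k := fun k hk => by
  have := hM.d2 k hk; omega

theorem pos_pk (hM : M.WF) (F : κ → ℕ) (hF : ∀ σ, F σ < 2 ^ M.w) :
    M.pos (pkC M.w C F) = pkC M.w C (PF M C F) := by
  unfold Mach.pos
  rw [exchG_pk M C (WF.d1 hM) M.posH (fun t ht => hM.hop t (by simp [ht])) F hF,
    diagG_pk M C M.posD (fun t ht => ⟨hM.hD t ht, hM.hG t ht, hM.hb t ht⟩) F hF, kadd, pkC_add]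
  rfl

theorem neg_pk (hM : M.WF) (F : κ → ℕ) (hF : ∀ σ, F σ < 2 ^ M.w) :
    M.neg (pkC M.w C F) = pkC M.w C (NF M C F) := by
  unfold Mach.neg
  rw [exchG_pk M C (WF.d1 hM) M.negH (fun t ht => hM.hop t (by simp [ht])) F hF, kmul, pkC_mul,
    kadd, pkC_add]
  rfl

theorem hops_mulVec (l : List (ℕ × List (ℕ × ℕ))) (F : κ → ℕ) (τ : κ) :
    (M.hops C l *ᵥ fun σ => (F σ : ℤ)) τ = (hopsGN M C l F τ : ℤ) := by
  have h1 : ∀ l' : List (ℕ × ℕ), ((l'.map fun p => C.hop p.1 p.2).sum *ᵥ fun σ => (F σ : ℤ)) τ =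
      (hopsN M C l' F τ : ℤ) := by
    intro l'
    induction l' with
    | nil => simp [hopsN]
    | cons p l' ih =>
      have e : hopsN M C (p :: l') F τ =
        (∑ σ, (upM C p.1 p.2 τ σ + upM C p.1 p.2 σ τ) * F σ) + hopsN M C l' F τ := rfl
      rw [List.map_cons, List.sum_cons, Matrix.add_mulVec, Pi.add_apply, ih, e]
      push_cast
      congr 1
      unfold Matrix.mulVec dotProduct
      refine Finset.sum_congr rfl fun σ _ => ?_
      beta_reduce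
      have e5 := hop_eq_upM C p.1 p.2 τ σ
      rw [e5]
      push_cast
      ring
  unfold Mach.hops
  induction l with
  | nil => simp [hopsGN]
  | cons t l ih =>
    have e : hopsGN M C (t :: l) F τ = t.1 * hopsN M C t.2 F τ + hopsGN M C l F τ := rfl
    rw [List.map_cons, List.sum_cons, Matrix.add_mulVec, Pi.add_apply, ih, e,
      Matrix.smul_mulVec, Pi.smul_apply, h1]
    push_cast
    rfl

theorem K_mulVec (F : κ → ℕ) (τ : κ) :
    (M.K C *ᵥ fun σ => (F σ : ℤ)) τ = (PF M C F τ : ℤ) - (NF M C F τ : ℤ) := by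
  unfold Mach.K
  rw [Matrix.add_mulVec, Matrix.sub_mulVec, Pi.add_apply, Pi.sub_apply, hops_mulVec, hops_mulVec,
    Matrix.mulVec_diagonal]
  have e : (M.posD.map fun t => (t.1 : ℤ) *
      ((M.G C t.2.2.2 τ / 2 ^ t.2.1 % 2 ^ t.2.2.1 : ℕ) : ℤ)).sum = (dval M C M.posD τ : ℤ) := by
    unfold dval
    induction M.posD with
    | nil => rfl
    | cons t l ih =>
      rw [List.map_cons, List.sum_cons, List.map_cons, List.sum_cons, ih]
      push_cast
      rfl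
  rw [e]
  unfold PF NF
  push_cast
  ring

/-- integer packed vector -/
def zpk (w : ℕ) {n : ℕ} {d : ℕ → ℕ} (C : Coord κ n d) (f : κ → ℤ) : ℤ :=
  ∑ σ, f σ * 2 ^ (w * C.idx σ)

theorem pkC_cast (w : ℕ) {n : ℕ} {d : ℕ → ℕ} (C : Coord κ n d) (F : κ → ℕ) :
    ((pkC w C F : ℕ) : ℤ) = zpk w C fun σ => (F σ : ℤ) := by
  unfold pkC zpk
  push_cast
  rfl

theorem zpk_toNat (w : ℕ) {n : ℕ} {d : ℕ → ℕ} (C : Coord κ n d) (f : κ → ℤ)
    (hf : ∀ σ, 0 ≤ f σ) : zpk w C f = ((pkC w C fun σ => (f σ).toNat : ℕ) : ℤ) := by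
  rw [pkC_cast]
  unfold zpk
  exact Finset.sum_congr rfl fun σ _ => by beta_reduce; rw [Int.toNat_of_nonneg (hf σ)]

/-- the offset vector -/
def offF (M : Mach) (v : κ → ℤ) (σ : κ) : ℕ := (v σ + 2 ^ M.r).toNat

theorem offP_pk : M.offP = pkC M.w C fun _ => 2 ^ M.r := by
  unfold Mach.offP
  rw [kpow, kmul, mul_comm]
  exact mul_ones M C _

theorem raw_pk (hM : M.WF) (hC : M.pos M.offP ≤ Nat.shiftLeft M.offP (M.sh + 1) + M.neg M.offP)
    (v : κ → ℤ) (hv : ∀ σ, -2 ^ M.r ≤ v σ ∧ v σ < 2 ^ M.r)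
    (hK : ∀ σ, 0 ≤ (M.K C *ᵥ v) σ + 2 ^ M.r * 2 ^ (M.sh + 1)) :
    M.raw (pkC M.w C (offF M v)) =
      pkC M.w C fun σ => ((M.K C *ᵥ v) σ + 2 ^ M.r * 2 ^ (M.sh + 1)).toNat := by
  have hr : (2 : ℕ) ^ M.r < 2 ^ M.w := Nat.pow_lt_pow_right (by norm_num) (by have := hM.hw; omega)
  have hF : ∀ σ, offF M v σ < 2 ^ M.w := by
    intro σ
    have h1 := hv σ
    have h2 : (2 : ℕ) ^ (M.r + 1) ≤ 2 ^ M.w :=
      Nat.pow_le_pow_right (by norm_num) (by have := hM.hw; omega)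
    have h3 : (offF M v σ : ℤ) < 2 ^ (M.r + 1) := by
      unfold offF
      rw [Int.toNat_of_nonneg (by omega), pow_succ]
      linarith [h1.2]
    have h4 : offF M v σ < 2 ^ (M.r + 1) := by exact_mod_cast h3
    omega
  have ho : ∀ σ : κ, (fun _ : κ => 2 ^ M.r) σ < 2 ^ M.w := fun _ => hr
  unfold Mach.raw Mach.offC
  rw [offP_pk M C] at hC ⊢
  rw [pos_pk M C hM _ ho, neg_pk M C hM _ ho] at hC ⊢
  rw [pos_pk M C hM _ hF, neg_pk M C hM _ hF]
  rw [kshl] at hC ⊢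
  simp only [kadd, ksub]
  have hkey : ((pkC M.w C (PF M C (offF M v)) : ℕ) : ℤ) +
      (((pkC M.w C fun _ => 2 ^ M.r : ℕ) : ℤ) * 2 ^ (M.sh + 1) +
        ((pkC M.w C (NF M C fun _ => 2 ^ M.r) : ℕ) : ℤ) -
        ((pkC M.w C (PF M C fun _ => 2 ^ M.r) : ℕ) : ℤ)) -
      ((pkC M.w C (NF M C (offF M v)) : ℕ) : ℤ) =
      ((pkC M.w C fun σ => ((M.K C *ᵥ v) σ + 2 ^ M.r * 2 ^ (M.sh + 1)).toNat : ℕ) : ℤ) := by
    rw [← zpk_toNat M.w C _ hK]
    simp only [pkC_cast]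
    unfold zpk
    rw [Finset.sum_mul, ← Finset.sum_add_distrib, ← Finset.sum_sub_distrib,
      ← Finset.sum_add_distrib, ← Finset.sum_sub_distrib]
    refine Finset.sum_congr rfl fun σ _ => ?_
    have e1 := K_mulVec M C (offF M v) σ
    have e2 := K_mulVec M C (fun _ => 2 ^ M.r) σ
    have e3 : (M.K C *ᵥ fun σ => (offF M v σ : ℤ)) σ =
        (M.K C *ᵥ v) σ + (M.K C *ᵥ fun σ => (((fun _ => 2 ^ M.r : κ → ℕ) σ : ℕ) : ℤ)) σ := by
      rw [← Pi.add_apply, ← Matrix.mulVec_add]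
      congr 2
      funext σ
      simp only [offF, Pi.add_apply]
      rw [Int.toNat_of_nonneg (by linarith [(hv σ).1])]
      push_cast
      rfl
    have e4 : ((PF M C (offF M v) σ : ℕ) : ℤ) - (NF M C (offF M v) σ : ℕ) =
        (M.K C *ᵥ v) σ + (((PF M C (fun _ => 2 ^ M.r) σ : ℕ) : ℤ) -
          (NF M C (fun _ => 2 ^ M.r) σ : ℕ)) := by
      rw [← e1, e3, e2]
    push_cast
    linear_combination (2 : ℤ) ^ (M.w * C.idx σ) * e4
  have h5 : (M.sh + 1) = Nat.succ M.sh := rfl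
  rw [← h5]
  zify [hC]
  have h6 : (pkC M.w C (NF M C (offF M v)) : ℕ) ≤ pkC M.w C (PF M C (offF M v)) +
      ((pkC M.w C fun _ => 2 ^ M.r) * 2 ^ (M.sh + 1) + pkC M.w C (NF M C fun _ => 2 ^ M.r) -
        pkC M.w C (PF M C fun _ => 2 ^ M.r)) := by
    zify [hC]
    have := Int.natCast_nonneg
      (pkC M.w C fun σ => ((M.K C *ᵥ v) σ + 2 ^ M.r * 2 ^ (M.sh + 1)).toNat)
    linarith
  rw [Nat.cast_sub h6]
  push_cast [Nat.cast_sub hC]
  linarith

theorem ediv_shift (a : ℤ) (r sh : ℕ) :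
    (a + 2 ^ r * 2 ^ (sh + 1)) / 2 ^ sh = a / 2 ^ sh + 2 ^ (r + 1) := by
  have h : (2 : ℤ) ^ r * 2 ^ (sh + 1) = 2 ^ (r + 1) * 2 ^ sh := by ring
  rw [h, Int.add_mul_ediv_right _ _ (by positivity)]

theorem ediv_shift1 (a : ℤ) (r sh : ℕ) :
    (a + 2 ^ r * 2 ^ (sh + 1)) / 2 ^ (sh + 1) = a / 2 ^ (sh + 1) + 2 ^ r := by
  rw [Int.add_mul_ediv_right _ _ (by positivity)]

theorem offF_lt (hM : M.WF) (v : κ → ℤ) (hv : ∀ σ, |v σ| < 2 ^ M.r) (σ : κ) :
    offF M v σ < 2 ^ M.w := by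
  have h1 := abs_lt.1 (hv σ)
  have h2 : (2 : ℕ) ^ (M.r + 1) ≤ 2 ^ M.w :=
    Nat.pow_le_pow_right (by norm_num) (by have := hM.hw; omega)
  have h3 : (offF M v σ : ℤ) < 2 ^ (M.r + 1) := by
    unfold offF
    rw [Int.toNat_of_nonneg (by linarith [h1.1]), pow_succ]
    linarith [h1.2]
  have h4 : offF M v σ < 2 ^ (M.r + 1) := by exact_mod_cast h3
  omega

theorem next_pk (hM : M.WF)
    (hC : M.pos M.offP ≤ Nat.shiftLeft M.offP (M.sh + 1) + M.neg M.offP)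
    (u v t : κ → ℤ) (hu : ∀ σ, |u σ| < 2 ^ M.r) (hv : ∀ σ, |v σ| < 2 ^ M.r)
    (ht : ∀ σ, |t σ| < 2 ^ M.r) (he : ∀ σ, t σ = (M.K C *ᵥ v) σ / 2 ^ M.sh - u σ) :
    Nat.sub (Nat.land (Nat.shiftRight (M.raw (pkC M.w C (offF M v))) M.sh) M.mk0)
      (pkC M.w C (offF M u)) = pkC M.w C (offF M t) := by
  have hpos : (0 : ℤ) < 2 ^ M.sh := by positivity
  have hq : ∀ σ, -2 ^ (M.r + 1) < (M.K C *ᵥ v) σ / 2 ^ M.sh ∧
      (M.K C *ᵥ v) σ / 2 ^ M.sh < 2 ^ (M.r + 1) := by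
    intro σ
    have h1 := abs_lt.1 (hu σ)
    have h2 := abs_lt.1 (ht σ)
    have h3 := he σ
    rw [pow_succ]
    constructor <;> linarith [h1.1, h1.2, h2.1, h2.2]
  have hlow : ∀ σ, 0 ≤ (M.K C *ᵥ v) σ + 2 ^ M.r * 2 ^ (M.sh + 1) := by
    intro σ
    have h1 := Int.ediv_mul_le ((M.K C *ᵥ v) σ) hpos.ne'
    have h2 := (hq σ).1
    have h3 : (2 : ℤ) ^ M.r * 2 ^ (M.sh + 1) = 2 ^ (M.r + 1) * 2 ^ M.sh := by ring
    rw [h3]
    nlinarith
  have hup : ∀ σ, (M.K C *ᵥ v) σ + 2 ^ M.r * 2 ^ (M.sh + 1) < 2 ^ (M.r + 2) * 2 ^ M.sh := by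
    intro σ
    have h1 := Int.lt_ediv_add_one_mul_self ((M.K C *ᵥ v) σ) hpos
    have h2 := (hq σ).2
    have h4 : (M.K C *ᵥ v) σ / 2 ^ M.sh + 1 ≤ 2 ^ (M.r + 1) := h2
    have h3 : (2 : ℤ) ^ M.r * 2 ^ (M.sh + 1) = 2 ^ (M.r + 1) * 2 ^ M.sh := by ring
    have h5 : (2 : ℤ) ^ (M.r + 2) * 2 ^ M.sh = 2 ^ (M.r + 1) * 2 ^ M.sh + 2 ^ (M.r + 1) * 2 ^ M.sh := by
      ring
    rw [h3, h5]
    nlinarith
  rw [raw_pk M C hM hC v (fun σ => ⟨(abs_lt.1 (hv σ)).1.le, (abs_lt.1 (hv σ)).2⟩) hlow]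
  have hY : ∀ σ, ((M.K C *ᵥ v) σ + 2 ^ M.r * 2 ^ (M.sh + 1)).toNat < 2 ^ (M.r + 2) * 2 ^ M.sh := by
    intro σ
    have h1 : ((((M.K C *ᵥ v) σ + 2 ^ M.r * 2 ^ (M.sh + 1)).toNat : ℕ) : ℤ) <
        ((2 ^ (M.r + 2) * 2 ^ M.sh : ℕ) : ℤ) := by
      rw [Int.toNat_of_nonneg (hlow σ)]
      push_cast
      exact hup σ
    exact_mod_cast h1
  have hw1 : (2 : ℕ) ^ (M.r + 2) * 2 ^ M.sh ≤ 2 ^ M.w := by
    rw [← pow_add]
    exact Nat.pow_le_pow_right (by norm_num) (by have := hM.hw; omega)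
  have hmk : M.mk0 = pkC M.w C fun _ => 2 ^ (M.w - M.sh) - 1 := by
    unfold Mach.mk0
    rw [mul_ones M C]
    rfl
  rw [hmk, pkC_shr_land M.w C _ M.sh (M.w - M.sh) (fun σ => (hY σ).trans_le hw1)
    (by have := hM.hw; omega), ksub]
  have hz : ∀ σ, ((M.K C *ᵥ v) σ + 2 ^ M.r * 2 ^ (M.sh + 1)).toNat / 2 ^ M.sh %
      2 ^ (M.w - M.sh) = offF M t σ + offF M u σ := by
    intro σ
    have h1 : ((M.K C *ᵥ v) σ + 2 ^ M.r * 2 ^ (M.sh + 1)).toNat / 2 ^ M.sh < 2 ^ (M.w - M.sh) := by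
      have h9 : 2 ^ (M.w - M.sh) * 2 ^ M.sh = 2 ^ M.w := by
        rw [← pow_add, Nat.sub_add_cancel (by have := hM.hw; omega)]
      rw [Nat.div_lt_iff_lt_mul (by positivity), h9]
      exact (hY σ).trans_le hw1
    rw [Nat.mod_eq_of_lt h1]
    have h2 : ((((M.K C *ᵥ v) σ + 2 ^ M.r * 2 ^ (M.sh + 1)).toNat / 2 ^ M.sh : ℕ) : ℤ) =
        ((offF M t σ + offF M u σ : ℕ) : ℤ) := by
      push_cast
      rw [Int.toNat_of_nonneg (hlow σ), ediv_shift]
      unfold offF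
      rw [Int.toNat_of_nonneg (by linarith [(abs_lt.1 (ht σ)).1]),
        Int.toNat_of_nonneg (by linarith [(abs_lt.1 (hu σ)).1]), he σ, pow_succ]
      ring
    exact_mod_cast h2
  have hz' : (fun σ => ((M.K C *ᵥ v) σ + 2 ^ M.r * 2 ^ (M.sh + 1)).toNat / 2 ^ M.sh %
      2 ^ (M.w - M.sh)) = fun σ => offF M t σ + offF M u σ := funext hz
  rw [hz', pkC_sub M.w C _ _ (fun σ => Nat.le_add_left _ _)]
  congr 1
  funext σ
  exact Nat.add_sub_cancel _ _

theorem first_pk (hM : M.WF)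
    (hC : M.pos M.offP ≤ Nat.shiftLeft M.offP (M.sh + 1) + M.neg M.offP)
    (v t : κ → ℤ) (hv : ∀ σ, |v σ| < 2 ^ M.r)
    (ht : ∀ σ, |t σ| < 2 ^ M.r) (he : ∀ σ, t σ = (M.K C *ᵥ v) σ / 2 ^ (M.sh + 1)) :
    Nat.land (Nat.shiftRight (M.raw (pkC M.w C (offF M v))) (Nat.succ M.sh)) M.mk1 =
      pkC M.w C (offF M t) := by
  have hpos : (0 : ℤ) < 2 ^ (M.sh + 1) := by positivity
  have hlow : ∀ σ, 0 ≤ (M.K C *ᵥ v) σ + 2 ^ M.r * 2 ^ (M.sh + 1) := by
    intro σ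
    have h1 := Int.ediv_mul_le ((M.K C *ᵥ v) σ) hpos.ne'
    have h2 := (abs_lt.1 (ht σ)).1
    rw [he σ] at h2
    nlinarith
  have hup : ∀ σ, (M.K C *ᵥ v) σ + 2 ^ M.r * 2 ^ (M.sh + 1) < 2 ^ (M.r + 1) * 2 ^ (M.sh + 1) := by
    intro σ
    have h1 := Int.lt_ediv_add_one_mul_self ((M.K C *ᵥ v) σ) hpos
    have h2 := (abs_lt.1 (ht σ)).2
    rw [he σ] at h2
    have h4 : (M.K C *ᵥ v) σ / 2 ^ (M.sh + 1) + 1 ≤ 2 ^ M.r := h2
    have h5 : (2 : ℤ) ^ (M.r + 1) * 2 ^ (M.sh + 1) =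
      2 ^ M.r * 2 ^ (M.sh + 1) + 2 ^ M.r * 2 ^ (M.sh + 1) := by ring
    rw [h5]
    nlinarith
  rw [raw_pk M C hM hC v (fun σ => ⟨(abs_lt.1 (hv σ)).1.le, (abs_lt.1 (hv σ)).2⟩) hlow]
  have hY : ∀ σ, ((M.K C *ᵥ v) σ + 2 ^ M.r * 2 ^ (M.sh + 1)).toNat <
      2 ^ (M.r + 1) * 2 ^ (M.sh + 1) := by
    intro σ
    have h1 : ((((M.K C *ᵥ v) σ + 2 ^ M.r * 2 ^ (M.sh + 1)).toNat : ℕ) : ℤ) <
        ((2 ^ (M.r + 1) * 2 ^ (M.sh + 1) : ℕ) : ℤ) := by
      rw [Int.toNat_of_nonneg (hlow σ)]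
      push_cast
      exact hup σ
    exact_mod_cast h1
  have hw1 : (2 : ℕ) ^ (M.r + 1) * 2 ^ (M.sh + 1) ≤ 2 ^ M.w := by
    rw [← pow_add]
    exact Nat.pow_le_pow_right (by norm_num) (by have := hM.hw; omega)
  have hmk : M.mk1 = pkC M.w C fun _ => 2 ^ (M.w - (M.sh + 1)) - 1 := by
    unfold Mach.mk1
    rw [mul_ones M C]
    rfl
  have hsucc : Nat.succ M.sh = M.sh + 1 := rfl
  rw [hmk, hsucc, pkC_shr_land M.w C _ (M.sh + 1) (M.w - (M.sh + 1))
    (fun σ => (hY σ).trans_le hw1) (by have := hM.hw; omega)]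
  congr 1
  funext σ
  have h1 : ((M.K C *ᵥ v) σ + 2 ^ M.r * 2 ^ (M.sh + 1)).toNat / 2 ^ (M.sh + 1) <
      2 ^ (M.w - (M.sh + 1)) := by
    have h9 : 2 ^ (M.w - (M.sh + 1)) * 2 ^ (M.sh + 1) = 2 ^ M.w := by
      rw [← pow_add, Nat.sub_add_cancel (by have := hM.hw; omega)]
    rw [Nat.div_lt_iff_lt_mul (by positivity), h9]
    exact (hY σ).trans_le hw1
  rw [Nat.mod_eq_of_lt h1]
  have h2 : ((((M.K C *ᵥ v) σ + 2 ^ M.r * 2 ^ (M.sh + 1)).toNat / 2 ^ (M.sh + 1) : ℕ) : ℤ) =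
      ((offF M t σ : ℕ) : ℤ) := by
    push_cast
    rw [Int.toNat_of_nonneg (hlow σ), ediv_shift1]
    unfold offF
    rw [Int.toNat_of_nonneg (by linarith [(abs_lt.1 (ht σ)).1]), he σ]
  exact_mod_cast h2

theorem pts_pk (l : List ℕ) (hl : ∀ a ∈ l, a < M.D) :
    M.pts l = pkC M.w C fun σ => l.count (C.idx σ) := by
  induction l with
  | nil =>
    have h : (fun σ => List.count (C.idx σ) []) = fun _ => 0 := by funext σ; simp
    rw [h, pkC_zero]; rfl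
  | cons a l ih =>
    have e : M.pts (a :: l) = Nat.shiftLeft 1 (M.w * a) + M.pts l := rfl
    rw [e, ih fun b hb => hl b (by simp [hb]), kshl, one_mul]
    have ha : C.idx (C.ofIdx a) = a := C.idx_ofIdx a (hl a (by simp))
    have e2 : 2 ^ (M.w * a) = pkC M.w C fun σ => if C.idx σ = a then 1 else 0 := by
      unfold pkC
      rw [Finset.sum_eq_single (C.ofIdx a)]
      · beta_reduce
        rw [ha, if_pos rfl, one_mul]
      · intro σ _ hne
        beta_reduce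
        rw [if_neg, zero_mul]
        intro h
        exact hne (C.idx_inj (by rw [h, ha]))
      · simp
    rw [e2, pkC_add]
    congr 1
    funext σ
    rw [List.count_cons]
    by_cases h : C.idx σ = a
    · simp [h, add_comm]
    · have h' : ¬ a = C.idx σ := fun h' => h h'.symm
      simp [h, h']

theorem mask_pk (l : List ℕ) (hn : l.Nodup) (hl : ∀ a ∈ l, a < M.D) :
    Nat.mul M.full (M.pts l) =
      pkC M.w C fun σ => if C.idx σ ∈ l then 2 ^ M.w - 1 else 0 := by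
  rw [kmul, pts_pk M C l hl, pkC_mul, full_eq]
  congr 1
  funext σ
  by_cases h : C.idx σ ∈ l
  · rw [List.count_eq_one_of_mem hn h, if_pos h, mul_one]
  · rw [List.count_eq_zero_of_not_mem h, if_neg h, mul_zero]

theorem read_pk (hM : M.WF) (v : κ → ℤ) (hv : ∀ σ, |v σ| < 2 ^ M.r) (l : List ℕ) (hn : l.Nodup)
    (hl : ∀ a ∈ l, a < M.D) (hlen : l.length * 2 ^ (M.r + 1) < 2 ^ M.w - 1) :
    ((Nat.mod (Nat.land (pkC M.w C (offF M v)) (Nat.mul M.full (M.pts l))) M.full : ℕ) : ℤ) =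
      ∑ σ, if C.idx σ ∈ l then v σ + 2 ^ M.r else 0 := by
  rw [mask_pk M C l hn hl, pkC_land_mask M.w C _ _ (offF_lt M hM v hv), full_eq]
  have h0 : ∑ σ, (if C.idx σ ∈ l then offF M v σ else 0) ≤ l.length * 2 ^ (M.r + 1) := by
    have h1 : ∀ σ, (if C.idx σ ∈ l then offF M v σ else 0) ≤
        (if C.idx σ ∈ l then 1 else 0) * 2 ^ (M.r + 1) := by
      intro σ
      split_ifs
      · rw [one_mul]
        have h2 := abs_lt.1 (hv σ)
        have h3 : (offF M v σ : ℤ) ≤ 2 ^ (M.r + 1) := by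
          unfold offF
          rw [Int.toNat_of_nonneg (by linarith [h2.1]), pow_succ]
          linarith [h2.2]
        exact_mod_cast h3
      · exact Nat.zero_le _
    refine (Finset.sum_le_sum fun σ _ => h1 σ).trans ?_
    rw [← Finset.sum_mul]
    refine Nat.mul_le_mul_right _ ?_
    have h4 : ∑ σ, (if C.idx σ ∈ l then 1 else 0) = ∑ i ∈ range (cwt M.d M.n),
        (if i ∈ l then 1 else 0) := C.sum_idx (fun i => if i ∈ l then 1 else 0)
    rw [h4, ← Finset.card_filter]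
    refine (Finset.card_le_card (t := l.toFinset) fun i hi => ?_).trans (List.toFinset_card_le l)
    simpa using (Finset.mem_filter.1 hi).2
  have e1 : Nat.mod (pkC M.w C fun σ => if C.idx σ ∈ l then offF M v σ else 0) (2 ^ M.w - 1) =
      ∑ σ, (if C.idx σ ∈ l then offF M v σ else 0) := pkC_mod M.w C _ (h0.trans_lt hlen)
  rw [e1]
  push_cast
  refine Finset.sum_congr rfl fun σ _ => ?_
  split_ifs
  · unfold offF
    rw [Int.toNat_of_nonneg (by linarith [(abs_lt.1 (hv σ)).1])]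
  · rfl

theorem rdOK_get (x : ℕ) (ms m : List ℕ) (h : M.rdOK x ms m = true) (j : ℕ) (h1 : j < ms.length)
    (h2 : j < m.length) : Nat.mod (Nat.land x ms[j]) M.full = m[j] := by
  induction ms generalizing m j with
  | nil => simp at h1
  | cons a ms ih =>
    cases m with
    | nil => simp at h2
    | cons b m =>
      have e : M.rdOK x (a :: ms) (b :: m) =
        and (Nat.beq (Nat.mod (Nat.land x a) M.full) b) (M.rdOK x ms m) := rfl
      rw [e, Bool.and_eq_true] at h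
      cases j with
      | zero => exact Nat.eq_of_beq_eq_true h.1
      | succ j => exact ih m h.2 j (by simpa using h1) (by simpa using h2)

theorem loop_pk (hM : M.WF)
    (hC : M.pos M.offP ≤ Nat.shiftLeft M.offP (M.sh + 1) + M.neg M.offP) (ms : List ℕ)
    (v : ℕ → κ → ℤ) (hv2 : ∀ k σ, v (k + 2) σ = (M.K C *ᵥ v (k + 1)) σ / 2 ^ M.sh - v k σ)
    (e : List (List ℕ)) (k : ℕ) (hb : ∀ j, j ≤ k + e.length → ∀ σ, |v j σ| < 2 ^ M.r)
    (h : M.loop ms e (pkC M.w C (offF M (v k))) (pkC M.w C (offF M (v (k + 1)))) = true)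
    (i : ℕ) (hi : i < e.length) :
    M.rdOK (pkC M.w C (offF M (v (k + 1 + i)))) ms e[i] = true := by
  induction e generalizing k i with
  | nil => simp at hi
  | cons m e ih =>
    have e1 : M.loop ms (m :: e) (pkC M.w C (offF M (v k))) (pkC M.w C (offF M (v (k + 1)))) =
        and (M.rdOK (pkC M.w C (offF M (v (k + 1)))) ms m)
        (M.loop ms e (pkC M.w C (offF M (v (k + 1))))
          (Nat.sub (Nat.land (Nat.shiftRight (M.raw (pkC M.w C (offF M (v (k + 1))))) M.sh) M.mk0)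
            (pkC M.w C (offF M (v k))))) := rfl
    rw [e1, Bool.and_eq_true] at h
    cases i with
    | zero => exact h.1
    | succ i =>
      have hlen : e.length = e.length := rfl
      have hi' : i < e.length := by simpa using hi
      have hb' : ∀ j, j ≤ k + (e.length + 1) → ∀ σ, |v j σ| < 2 ^ M.r := by
        intro j hj; exact hb j (by simpa using hj)
      rw [next_pk M C hM hC (v k) (v (k + 1)) (v (k + 2)) (hb' k (by omega))
        (hb' (k + 1) (by omega)) (hb' (k + 2) (by omega)) (hv2 k)] at h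
      have := ih (k + 1) (fun j hj => hb' j (by omega)) h.2 i hi'
      have e2 : k + 1 + (i + 1) = k + 1 + 1 + i := by omega
      rw [e2]
      simpa using this

/-- the masks of the readouts -/
theorem masks_eq (reads : List (List ℕ)) :
    (@List.rec (List ℕ) (fun _ => List ℕ) []
      (fun l _ ih => List.cons (Nat.mul M.full (M.pts l)) ih) reads) =
      reads.map fun l => Nat.mul M.full (M.pts l) := by
  induction reads with
  | nil => rfl
  | cons l reads ih =>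
    rw [List.map_cons, ← ih]

/-- soundness of the kernel check of a run -/
theorem run_sound (hM : M.WF)
    (hC : M.pos M.offP ≤ Nat.shiftLeft M.offP (M.sh + 1) + M.neg M.offP)
    (starts : List ℕ) (hsn : starts.Nodup) (hsl : ∀ s ∈ starts, s < M.D)
    (reads : List (List ℕ)) (e : List (List ℕ)) (hrun : M.run starts reads e = true)
    (v : ℕ → κ → ℤ) (hv0 : ∀ σ, v 0 σ = if C.idx σ ∈ starts then (M.S : ℤ) else 0)
    (hv1 : ∀ σ, v 1 σ = (M.K C *ᵥ v 0) σ / 2 ^ (M.sh + 1))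
    (hv2 : ∀ k σ, v (k + 2) σ = (M.K C *ᵥ v (k + 1)) σ / 2 ^ M.sh - v k σ)
    (hb : ∀ k, k ≤ e.length → ∀ σ, |v k σ| < 2 ^ M.r)
    (k : ℕ) (hk : k < e.length) (j : ℕ) (hj : j < reads.length) (hj' : j < e[k].length)
    (hrn : reads[j].Nodup) (hrl : ∀ a ∈ reads[j], a < M.D)
    (hlen : reads[j].length * 2 ^ (M.r + 1) < 2 ^ M.w - 1) :
    ((e[k][j] : ℕ) : ℤ) = ∑ σ, if C.idx σ ∈ reads[j] then v (k + 1) σ + 2 ^ M.r else 0 := by
  have h0 : M.x0 starts = pkC M.w C (offF M (v 0)) := by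
    unfold Mach.x0
    rw [kadd, kmul, pts_pk M C starts hsl, pkC_mul, offP_pk M C, pkC_add]
    congr 1
    funext σ
    unfold offF
    rw [hv0 σ]
    by_cases h : C.idx σ ∈ starts
    · rw [List.count_eq_one_of_mem hsn h, if_pos h]
      apply Int.ofNat_inj.1
      rw [Int.toNat_of_nonneg (by positivity)]
      push_cast
      ring
    · rw [List.count_eq_zero_of_not_mem h, if_neg h]
      apply Int.ofNat_inj.1
      rw [Int.toNat_of_nonneg (by positivity)]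
      push_cast
      ring
  have h1 : M.x1 starts = pkC M.w C (offF M (v 1)) := by
    unfold Mach.x1
    rw [h0]
    exact first_pk M C hM hC (v 0) (v 1) (hb 0 (by omega)) (hb 1 (by omega)) hv1
  unfold Mach.run at hrun
  rw [h0, h1, masks_eq] at hrun
  have h2 := loop_pk M C hM hC _ v hv2 e 0 (fun j hj => hb j (by omega)) hrun k hk
  have h3 := rdOK_get M _ _ _ h2 j (by simpa using hj) hj'
  rw [List.getElem_map] at h3
  rw [← h3]
  have e3 : 0 + 1 + k = k + 1 := by omega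
  rw [e3]
  exact read_pk M C hM (v (k + 1)) (hb (k + 1) (by omega)) _ hrn hrl hlen

end
end Crest.Agent.HG
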