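import Mathlib
import Crest.Agent.HG_CC

/-!
HG_CZ1 (part C assembly, helper71): generic lemmas on matrix Chebyshev polynomials: blocks,
symmetries.
-/

set_option autoImplicit false

namespace Crest.Agent.HG
open Matrix

section CZ1
variable {κ : Type} [Fintype κ] [DecidableEq κ]

theorem TA_zero (A : Matrix κ κ ℝ) : TA A 0 = 1 := rfl
theorem TA_one (A : Matrix κ κ ℝ) : TA A 1 = A := rfl
theorem TA_succ (A : Matrix κ κ ℝ) (k : ℕ) :
    TA A (k + 2) = (2 : ℝ) • (A * TA A (k + 1)) - TA A k := rfl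

/-- block structure. -/
theorem TA_block (A : Matrix κ κ ℝ) (q : κ → ℕ) (h : ∀ σ τ, A σ τ ≠ 0 → q σ = q τ) (k : ℕ) :
    ∀ σ τ, q σ ≠ q τ → TA A k σ τ = 0 := by
  induction k using Nat.strong_induction_on with
  | _ k ih =>
    intro σ τ hne
    match k, ih with
    | 0, _ =>
      rw [TA_zero, Matrix.one_apply, if_neg]
      rintro rfl; exact hne rfl
    | 1, _ =>
      rw [TA_one]
      by_contra h0
      exact hne (h σ τ h0)
    | k + 2, ih =>
      rw [TA_succ, Matrix.sub_apply, Matrix.smul_apply, ih k (by omega) σ τ hne, Matrix.mul_apply,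
        Finset.sum_eq_zero, smul_zero, sub_zero]
      intro ρ _
      by_cases h1 : A σ ρ = 0
      · rw [h1, zero_mul]
      · have h2 : q ρ ≠ q τ := by rw [← h σ ρ h1]; exact hne
        rw [ih (k + 1) (by omega) ρ τ h2, mul_zero]

/-- invariance. -/
theorem TA_inv (A : Matrix κ κ ℝ) (g : κ → κ) (hg : Function.Bijective g)
    (h : ∀ σ τ, A (g σ) (g τ) = A σ τ) (k : ℕ) :
    ∀ σ τ, TA A k (g σ) (g τ) = TA A k σ τ := by
  induction k using Nat.strong_induction_on with
  | _ k ih =>
    intro σ τ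
    match k, ih with
    | 0, _ =>
      rw [TA_zero, Matrix.one_apply, Matrix.one_apply]
      by_cases h1 : σ = τ
      · rw [if_pos h1, if_pos (congrArg g h1)]
      · rw [if_neg h1, if_neg fun h2 => h1 (hg.1 h2)]
    | 1, _ =>
      rw [TA_one]; exact h σ τ
    | k + 2, ih =>
      rw [TA_succ, Matrix.sub_apply, Matrix.smul_apply, Matrix.sub_apply, Matrix.smul_apply,
        ih k (by omega) σ τ, Matrix.mul_apply, Matrix.mul_apply]
      congr 2
      rw [← (Equiv.ofBijective g hg).sum_comp]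
      refine Finset.sum_congr rfl fun ρ _ => ?_
      rw [Equiv.ofBijective_apply, h, ih (k + 1) (by omega)]

/-- `u 0 = S · indicator` and separated blocks: the Chebyshev vector at a start. -/
theorem TA_start (A : Matrix κ κ ℝ) (q : κ → ℕ) (h : ∀ σ τ, A σ τ ≠ 0 → q σ = q τ) (k : ℕ)
    (S : ℝ) (P : κ → Prop) [DecidablePred P] (u : κ → ℝ) (hu : ∀ σ, u σ = if P σ then S else 0)
    (s t : κ) (hs : P s) (hd : ∀ s', P s' → q s' = q t → s' = s) :
    (TA A k *ᵥ u) t = S * TA A k t s := by
  rw [Matrix.mulVec, dotProduct, Finset.sum_eq_single s]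
  · rw [hu, if_pos hs]; ring
  · intro s' _ hne
    rw [hu]
    by_cases h1 : P s'
    · have h2 : q s' ≠ q t := fun h3 => hne (hd s' h1 h3)
      rw [TA_block A q h k t s' (Ne.symm h2), zero_mul]
    · rw [if_neg h1, mul_zero]
  · intro h'; exact absurd (Finset.mem_univ _) h'

end CZ1

end Crest.Agent.HG
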