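import Mathlib
import Crest.Agent.HG_CA1
import Crest.Agent.HG_CZ1

/-!
HG_CZ2 (part C assembly, helper71): from the meaning of the runs to the moments
`∑_σ T_k(A)(σ,σ)` (even and odd digit sum) and `∑_{Q σ = n} T_k(A)(fl σ, σ)`.
-/

set_option autoImplicit false

namespace Crest.Agent.HG
open Matrix

/-- meaning of a successful run (conclusion of CP4). -/
def RunSem {κ : Type} [Fintype κ] [DecidableEq κ] (M : Mach) (C : Coord κ M.n M.d) (K : ℕ)
    (r : Run) : Prop :=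
  ∃ u : ℕ → κ → ℤ,
    (∀ σ, u 0 σ = if C.idx σ ∈ r.ev ++ r.od then (M.S : ℤ) else 0) ∧
    (∀ σ, |(u 1 σ : ℝ) - (M.A C *ᵥ fun τ => (u 0 τ : ℝ)) σ| ≤ 1) ∧
    (∀ k, k + 2 ≤ K → ∀ σ, |(u (k + 2) σ : ℝ) -
      (2 * (M.A C *ᵥ fun τ => (u (k + 1) τ : ℝ)) σ - (u k σ : ℝ))| ≤ 1) ∧
    (∀ k, k < K →
      (((r.e.getD k []).getD 0 0 : ℕ) : ℤ) =
        (r.ev.map fun s => u (k + 1) (C.ofIdx s) + 2 ^ M.r).sum ∧
      (((r.e.getD k []).getD 1 0 : ℕ) : ℤ) =
        (r.od.map fun s => u (k + 1) (C.ofIdx s) + 2 ^ M.r).sum ∧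
      (((r.e.getD k []).getD 2 0 : ℕ) : ℤ) =
        (r.fx.map fun s => u (k + 1) (C.ofIdx s) + 2 ^ M.r).sum)

section CZ2
variable {κ : Type} [Fintype κ] [DecidableEq κ]

/-- list version of the triangle inequality. -/
theorem list_sum_err {α : Type} (l : List α) (f g : α → ℝ) (ε : ℝ)
    (h : ∀ a ∈ l, |f a - g a| ≤ ε) : |(l.map f).sum - (l.map g).sum| ≤ l.length * ε := by
  induction l with
  | nil => simp
  | cons a l ih =>
    have h1 := h a (List.mem_cons_self)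
    have h2 := ih fun b hb => h b (List.mem_cons_of_mem _ hb)
    simp only [List.map_cons, List.sum_cons, List.length_cons]
    have h3 : f a + (l.map f).sum - (g a + (l.map g).sum) =
        (f a - g a) + ((l.map f).sum - (l.map g).sum) := by ring
    rw [h3]
    refine (abs_add_le _ _).trans ?_
    push_cast
    linarith

/-- one readout. -/
theorem run_read (M : Mach) (C : Coord κ M.n M.d) (K : ℕ) (r : Run)
    (hs : (M.A C).IsSymm) (hc : ∀ x : κ → ℝ, |x ⬝ᵥ (M.A C) *ᵥ x| ≤ x ⬝ᵥ x)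
    (hblk : ∀ σ τ, M.A C σ τ ≠ 0 → C.Q σ = C.Q τ)
    (u : ℕ → κ → ℤ) (h0 : ∀ σ, u 0 σ = if C.idx σ ∈ r.ev ++ r.od then (M.S : ℤ) else 0)
    (h1 : ∀ σ, |(u 1 σ : ℝ) - (M.A C *ᵥ fun τ => (u 0 τ : ℝ)) σ| ≤ 1)
    (h2 : ∀ k, k + 2 ≤ K → ∀ σ, |(u (k + 2) σ : ℝ) -
      (2 * (M.A C *ᵥ fun τ => (u (k + 1) τ : ℝ)) σ - (u k σ : ℝ))| ≤ 1)
    (s t : κ) (hs0 : C.idx s ∈ r.ev ++ r.od)
    (hd : ∀ s', C.idx s' ∈ r.ev ++ r.od → C.Q s' = C.Q t → s' = s) (k : ℕ) (hk : k ≤ K) :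
    |(u k t : ℝ) - (M.S : ℝ) * TA (M.A C) k t s| ≤
      √(Fintype.card κ : ℝ) * ((k : ℝ) * (k + 1) / 2) := by
  have h := cheb_recur_err (M.A C) hs hc (fun k σ => (u k σ : ℝ)) 1 K h1 h2 k hk t
  rw [TA_start (M.A C) C.Q hblk k (M.S : ℝ) (fun σ => C.idx σ ∈ r.ev ++ r.od)
    (fun τ => (u 0 τ : ℝ)) (fun σ => by
      simp only [h0 σ]
      split_ifs <;> simp) s t hs0 hd, one_mul] at h
  exact h

/-- strictly increasing digit sums separate. -/
theorem incr_lt (M : Mach) (a : ℕ) (l : List ℕ) (h : M.incr (a :: l) = true) :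
    M.incr l = true ∧ ∀ b ∈ l, M.qsum a < M.qsum b := by
  induction l generalizing a with
  | nil => exact ⟨rfl, fun b hb => absurd hb List.not_mem_nil⟩
  | cons c l ih =>
    have h1 : (Nat.blt (M.qsum a) (M.qsum c) && M.incr (c :: l)) = true := h
    rw [Bool.and_eq_true, Nat.blt_eq] at h1
    obtain ⟨hac, hcl⟩ := h1
    refine ⟨hcl, fun b hb => ?_⟩
    rcases List.mem_cons.1 hb with rfl | hb
    · exact hac
    · exact hac.trans ((ih c hcl).2 b hb)

theorem incr_inj (M : Mach) (l : List ℕ) (h : M.incr l = true) :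
    ∀ a ∈ l, ∀ b ∈ l, M.qsum a = M.qsum b → a = b := by
  induction l with
  | nil => intro a ha; exact absurd ha List.not_mem_nil
  | cons c l ih =>
    obtain ⟨h1, h2⟩ := incr_lt M c l h
    intro a ha b hb hab
    rcases List.mem_cons.1 ha with ha' | ha' <;> rcases List.mem_cons.1 hb with hb' | hb'
    · rw [ha', hb']
    · rw [ha'] at hab; exact absurd hab (h2 b hb').ne
    · rw [hb'] at hab; exact absurd hab (h2 a ha').ne'
    · exact ih h1 a ha' b hb' hab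

/-- unpacked side conditions. -/
structure Side (M : Mach) (ux : Bool) (K : ℕ) (r : Run) : Prop where
  ev_lt : ∀ s ∈ r.ev, s < M.D
  od_lt : ∀ s ∈ r.od, s < M.D
  ev_par : ∀ s ∈ r.ev, M.qsum s % 2 = 0
  od_par : ∀ s ∈ r.od, M.qsum s % 2 = 1
  ev_inj : ∀ a ∈ r.ev, ∀ b ∈ r.ev, M.qsum a = M.qsum b → a = b
  od_inj : ∀ a ∈ r.od, ∀ b ∈ r.od, M.qsum a = M.qsum b → a = b
  len : r.e.length = K
  len3 : ∀ l ∈ r.e, l.length = 3
  fx : ux = true → r.fx = ((r.ev ++ r.od).filter (fun s => Nat.beq (M.qsum s) M.n)).map M.flI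

theorem side_spec (M : Mach) (ux : Bool) (K : ℕ) (r : Run) (h : M.side ux K r = true) :
    Side M ux K r := by
  unfold Mach.side at h
  simp only [Bool.and_eq_true, List.all_eq_true] at h
  obtain ⟨⟨⟨⟨⟨⟨h1, h2⟩, h3⟩, h4⟩, h5⟩, h6⟩, h7⟩ := h
  refine ⟨?_, ?_, ?_, ?_, incr_inj M _ h3, incr_inj M _ h4, Nat.eq_of_beq_eq_true h5, ?_, ?_⟩
  · intro s hs; have := (h1 s hs).1; rwa [Nat.blt_eq] at this
  · intro s hs; have := (h2 s hs).1; rwa [Nat.blt_eq] at this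
  · intro s hs; exact Nat.eq_of_beq_eq_true (h1 s hs).2
  · intro s hs; exact Nat.eq_of_beq_eq_true (h2 s hs).2
  · intro l hl; exact Nat.eq_of_beq_eq_true (h6 l hl)
  · intro hux
    subst hux
    simpa using h7

/-- the three readouts of a run. -/
theorem run_moments (M : Mach) (C : Coord κ M.n M.d) (K : ℕ) (r : Run) (ux : Bool)
    (hs : (M.A C).IsSymm) (hc : ∀ x : κ → ℝ, |x ⬝ᵥ (M.A C) *ᵥ x| ≤ x ⬝ᵥ x)
    (hblk : ∀ σ τ, M.A C σ τ ≠ 0 → C.Q σ = C.Q τ)
    (hq : ∀ σ, M.qsum (C.idx σ) = C.Q σ) (hidx : ∀ i, i < M.D → C.idx (C.ofIdx i) = i)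
    (hoi : ∀ σ, C.ofIdx (C.idx σ) = σ)
    (hside : Side M ux K r) (hsem : RunSem M C K r) (k : ℕ) (hk : k < K) :
    |(((r.e.getD k []).getD 0 0 : ℕ) : ℝ) - ((r.ev.length : ℝ) * 2 ^ M.r +
      (M.S : ℝ) * (r.ev.map fun s => TA (M.A C) (k + 1) (C.ofIdx s) (C.ofIdx s)).sum)| ≤
      r.ev.length * (√(Fintype.card κ : ℝ) * (((k + 1 : ℕ) : ℝ) * ((k + 1 : ℕ) + 1) / 2)) ∧
    |(((r.e.getD k []).getD 1 0 : ℕ) : ℝ) - ((r.od.length : ℝ) * 2 ^ M.r +
      (M.S : ℝ) * (r.od.map fun s => TA (M.A C) (k + 1) (C.ofIdx s) (C.ofIdx s)).sum)| ≤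
      r.od.length * (√(Fintype.card κ : ℝ) * (((k + 1 : ℕ) : ℝ) * ((k + 1 : ℕ) + 1) / 2)) := by
  obtain ⟨u, h0, h1, h2, h3⟩ := hsem
  obtain ⟨e0, e1, -⟩ := h3 k hk
  have hsep : ∀ s ∈ r.ev ++ r.od, ∀ s', C.idx s' ∈ r.ev ++ r.od →
      C.Q s' = C.Q (C.ofIdx s) → s' = C.ofIdx s := by
    intro s hs s' hs' hQ
    have hsD : s < M.D := by
      rcases List.mem_append.1 hs with h | h
      · exact hside.ev_lt s h
      · exact hside.od_lt s h
    have hq' : M.qsum (C.idx s') = M.qsum s := by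
      rw [hq, hQ, ← hq (C.ofIdx s), hidx s hsD]
    have : C.idx s' = s := by
      rcases List.mem_append.1 hs with h | h <;> rcases List.mem_append.1 hs' with h' | h'
      · exact hside.ev_inj _ h' _ h hq'
      · have a1 := hside.ev_par _ h
        have a2 := hside.od_par _ h'
        rw [hq'] at a2; omega
      · have a1 := hside.od_par _ h
        have a2 := hside.ev_par _ h'
        rw [hq'] at a2; omega
      · exact hside.od_inj _ h' _ h hq'
    rw [← this, hoi]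
  have key : ∀ s ∈ r.ev ++ r.od,
      |(((u (k + 1) (C.ofIdx s) : ℤ) : ℝ) + 2 ^ M.r) - (2 ^ M.r + (M.S : ℝ) *
        TA (M.A C) (k + 1) (C.ofIdx s) (C.ofIdx s))| ≤
      (√(Fintype.card κ : ℝ) * (((k + 1 : ℕ) : ℝ) * ((k + 1 : ℕ) + 1) / 2)) := by
    intro s hs'
    have hsD : s < M.D := by
      rcases List.mem_append.1 hs' with h | h
      · exact hside.ev_lt s h
      · exact hside.od_lt s h
    have h := run_read M C K r hs hc hblk u h0 h1 h2 (C.ofIdx s) (C.ofIdx s)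
      (by rw [hidx s hsD]; exact hs') (fun s' a b => hsep s hs' s' a b) (k + 1) hk
    have e : (((u (k + 1) (C.ofIdx s) : ℤ) : ℝ) + 2 ^ M.r) - (2 ^ M.r + (M.S : ℝ) *
        TA (M.A C) (k + 1) (C.ofIdx s) (C.ofIdx s)) = ((u (k + 1) (C.ofIdx s) : ℤ) : ℝ) - (M.S : ℝ) *
        TA (M.A C) (k + 1) (C.ofIdx s) (C.ofIdx s) := by ring
    rw [e]
    exact h
  have red : ∀ (l : List ℕ) (x : ℕ), (∀ s ∈ l, s ∈ r.ev ++ r.od) →
      ((x : ℕ) : ℤ) = (l.map fun s => u (k + 1) (C.ofIdx s) + 2 ^ M.r).sum →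
      |((x : ℕ) : ℝ) - ((l.length : ℝ) * 2 ^ M.r +
      (M.S : ℝ) * (l.map fun s => TA (M.A C) (k + 1) (C.ofIdx s) (C.ofIdx s)).sum)| ≤
      l.length * (√(Fintype.card κ : ℝ) * (((k + 1 : ℕ) : ℝ) * ((k + 1 : ℕ) + 1) / 2)) := by
    intro l x hl hx
    have hx' : ((x : ℕ) : ℝ) =
        (l.map fun s => (((u (k + 1) (C.ofIdx s) : ℤ) : ℝ) + 2 ^ M.r)).sum := by
      have := congrArg (fun z : ℤ => (z : ℝ)) hx
      simp only [Int.cast_natCast] at this
      rw [this]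
      induction l with
      | nil => simp
      | cons a l ih =>
        clear hx this
        simp only [List.map_cons, List.sum_cons]
        push_cast
        congr 1
        clear ih hl
        induction l with
        | nil => simp
        | cons b l ih2 => simp only [List.map_cons, List.sum_cons]; push_cast; rw [ih2]
    have hy : (l.length : ℝ) * 2 ^ M.r +
      (M.S : ℝ) * (l.map fun s => TA (M.A C) (k + 1) (C.ofIdx s) (C.ofIdx s)).sum =
        (l.map fun s => (2 ^ M.r + (M.S : ℝ) *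
        TA (M.A C) (k + 1) (C.ofIdx s) (C.ofIdx s))).sum := by
      clear hl hx hx'
      induction l with
      | nil => simp
      | cons a l ih =>
        simp only [List.map_cons, List.sum_cons, List.length_cons]
        rw [← ih]; push_cast; ring
    rw [hx', hy]
    exact list_sum_err l _ _ _ fun s hs' => key s (hl s hs')
  exact ⟨red r.ev _ (fun s hs => List.mem_append_left _ hs) e0,
    red r.od _ (fun s hs => List.mem_append_right _ hs) e1⟩

end CZ2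

end Crest.Agent.HG
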