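import Mathlib
import Crest.Agent.HG_CZ2

/-!
HG_CZ3 (part C assembly, helper71): the flip readout and the totals over all runs.
-/

set_option autoImplicit false

namespace Crest.Agent.HG
open Matrix

section CZ3
variable {κ : Type} [Fintype κ] [DecidableEq κ]

/-- states used for the flip readout -/
def Mach.fxs (M : Mach) (r : Run) : List ℕ := (r.ev ++ r.od).filter (fun s => Nat.beq (M.qsum s) M.n)

theorem run_momentX (M : Mach) (C : Coord κ M.n M.d) (K : ℕ) (r : Run)
    (hs : (M.A C).IsSymm) (hc : ∀ x : κ → ℝ, |x ⬝ᵥ (M.A C) *ᵥ x| ≤ x ⬝ᵥ x)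
    (hblk : ∀ σ τ, M.A C σ τ ≠ 0 → C.Q σ = C.Q τ)
    (hq : ∀ σ, M.qsum (C.idx σ) = C.Q σ) (hidx : ∀ i, i < M.D → C.idx (C.ofIdx i) = i)
    (hoi : ∀ σ, C.ofIdx (C.idx σ) = σ)
    (hfi : ∀ σ, C.idx (C.fl σ) = M.flI (C.idx σ)) (hfQ : ∀ σ, C.Q σ = M.n → C.Q (C.fl σ) = M.n)
    (hside : Side M true K r) (hsem : RunSem M C K r) (k : ℕ) (hk : k < K) :
    |(((r.e.getD k []).getD 2 0 : ℕ) : ℝ) - ((r.fx.length : ℝ) * 2 ^ M.r +
      (M.S : ℝ) * ((M.fxs r).map fun s => TA (M.A C) (k + 1) (C.fl (C.ofIdx s)) (C.ofIdx s)).sum)| ≤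
      r.fx.length * (√(Fintype.card κ : ℝ) * (((k + 1 : ℕ) : ℝ) * ((k + 1 : ℕ) + 1) / 2)) := by
  obtain ⟨u, h0, h1, h2, h3⟩ := hsem
  obtain ⟨-, -, e2⟩ := h3 k hk
  have hfx : r.fx = (M.fxs r).map M.flI := hside.fx rfl
  have hmem : ∀ s ∈ M.fxs r, s ∈ r.ev ++ r.od ∧ M.qsum s = M.n ∧ s < M.D := by
    intro s hs'
    have h := List.mem_filter.1 hs'
    refine ⟨h.1, Nat.eq_of_beq_eq_true h.2, ?_⟩
    rcases List.mem_append.1 h.1 with h | h
    · exact hside.ev_lt s h
    · exact hside.od_lt s h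
  have hfo : ∀ s, s < M.D → C.ofIdx (M.flI s) = C.fl (C.ofIdx s) := by
    intro s hsD
    rw [← hoi (C.fl (C.ofIdx s)), hfi, hidx s hsD]
  have key : ∀ s ∈ M.fxs r,
      |(((u (k + 1) (C.fl (C.ofIdx s)) : ℤ) : ℝ) + 2 ^ M.r) - (2 ^ M.r + (M.S : ℝ) *
        TA (M.A C) (k + 1) (C.fl (C.ofIdx s)) (C.ofIdx s))| ≤
      (√(Fintype.card κ : ℝ) * (((k + 1 : ℕ) : ℝ) * ((k + 1 : ℕ) + 1) / 2)) := by
    intro s hs'
    obtain ⟨hm, hqn, hsD⟩ := hmem s hs'
    have hQs : C.Q (C.ofIdx s) = M.n := by rw [← hq, hidx s hsD, hqn]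
    have hd : ∀ s', C.idx s' ∈ r.ev ++ r.od → C.Q s' = C.Q (C.fl (C.ofIdx s)) →
        s' = C.ofIdx s := by
      intro s' hs'' hQ
      rw [hfQ _ hQs] at hQ
      have hq' : M.qsum (C.idx s') = M.qsum s := by rw [hq, hQ, hqn]
      have : C.idx s' = s := by
        rcases List.mem_append.1 hm with h | h <;> rcases List.mem_append.1 hs'' with h' | h'
        · exact hside.ev_inj _ h' _ h hq'
        · have a1 := hside.ev_par _ h
          have a2 := hside.od_par _ h'
          rw [hq'] at a2; omega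
        · have a1 := hside.od_par _ h
          have a2 := hside.ev_par _ h'
          rw [hq'] at a2; omega
        · exact hside.od_inj _ h' _ h hq'
      rw [← this, hoi]
    have h := run_read M C K r hs hc hblk u h0 h1 h2 (C.ofIdx s) (C.fl (C.ofIdx s))
      (by rw [hidx s hsD]; exact hm) hd (k + 1) hk
    have e : (((u (k + 1) (C.fl (C.ofIdx s)) : ℤ) : ℝ) + 2 ^ M.r) - (2 ^ M.r + (M.S : ℝ) *
        TA (M.A C) (k + 1) (C.fl (C.ofIdx s)) (C.ofIdx s)) =
        ((u (k + 1) (C.fl (C.ofIdx s)) : ℤ) : ℝ) - (M.S : ℝ) *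
        TA (M.A C) (k + 1) (C.fl (C.ofIdx s)) (C.ofIdx s) := by ring
    rw [e]
    exact h
  have hlen : r.fx.length = (M.fxs r).length := by rw [hfx, List.length_map]
  rw [hlen]
  have e3 : (((r.e.getD k []).getD 2 0 : ℕ) : ℤ) =
      ((M.fxs r).map fun s => u (k + 1) (C.fl (C.ofIdx s)) + 2 ^ M.r).sum := by
    rw [e2, hfx, List.map_map]
    congr 1
    refine List.map_congr_left fun s hs' => ?_
    simp only [Function.comp]
    rw [hfo s (hmem s hs').2.2]
  have hx' : (((r.e.getD k []).getD 2 0 : ℕ) : ℝ) =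
      ((M.fxs r).map fun s => (((u (k + 1) (C.fl (C.ofIdx s)) : ℤ) : ℝ) + 2 ^ M.r)).sum := by
    have := congrArg (fun z : ℤ => (z : ℝ)) e3
    simp only [Int.cast_natCast] at this
    rw [this]
    generalize M.fxs r = l
    induction l with
    | nil => simp
    | cons a l ih =>
      simp only [List.map_cons, List.sum_cons]
      rw [Int.cast_add, ih]
      push_cast
      rfl
  have hy : ∀ l : List ℕ, (l.length : ℝ) * 2 ^ M.r +
      (M.S : ℝ) * (l.map fun s => TA (M.A C) (k + 1) (C.fl (C.ofIdx s)) (C.ofIdx s)).sum =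
        (l.map fun s => (2 ^ M.r + (M.S : ℝ) *
        TA (M.A C) (k + 1) (C.fl (C.ofIdx s)) (C.ofIdx s))).sum := by
    intro l
    induction l with
    | nil => simp
    | cons a l ih =>
      simp only [List.map_cons, List.sum_cons, List.length_cons]
      rw [← ih]; push_cast; ring
  rw [hx', hy]
  exact list_sum_err (M.fxs r) _ _ _ key

/-- weighted sum over runs -/
def wsum (rs : List Run) (f : Run → ℕ) : ℕ := (rs.map fun r => r.wt * f r).sum

theorem wsum_nil (f : Run → ℕ) : wsum [] f = 0 := rfl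
theorem wsum_cons (r : Run) (rs : List Run) (f : Run → ℕ) :
    wsum (r :: rs) f = r.wt * f r + wsum rs f := rfl

theorem cnt_eq (rs : List Run) : cnt rs = wsum rs fun r => r.ev.length + r.od.length := by
  induction rs with
  | nil => rfl
  | cons r rs ih => rw [wsum_cons, ← ih]; rfl
theorem cntE_eq (rs : List Run) : cntE rs = wsum rs fun r => r.ev.length := by
  induction rs with
  | nil => rfl
  | cons r rs ih => rw [wsum_cons, ← ih]; rfl
theorem cntX_eq (rs : List Run) : cntX rs = wsum rs fun r => r.fx.length := by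
  induction rs with
  | nil => rfl
  | cons r rs ih => rw [wsum_cons, ← ih]; rfl

/-- error of a weighted sum. -/
theorem wsum_err (rs : List Run) (f n : Run → ℕ) (g : Run → ℝ) (R S ε : ℝ)
    (h : ∀ r ∈ rs, |(f r : ℝ) - ((n r : ℝ) * R + S * g r)| ≤ n r * ε) :
    |(wsum rs f : ℝ) - ((wsum rs n : ℝ) * R + S * (rs.map fun r => (r.wt : ℝ) * g r).sum)| ≤
      wsum rs n * ε := by
  induction rs with
  | nil => simp [wsum_nil]
  | cons r rs ih =>
    have h1 := h r List.mem_cons_self
    have h2 := ih fun r' hr' => h r' (List.mem_cons_of_mem _ hr')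
    rw [wsum_cons, wsum_cons, List.map_cons, List.sum_cons]
    push_cast
    have h3 : (r.wt : ℝ) * (f r : ℝ) + (wsum rs f : ℝ) - (((r.wt : ℝ) * (n r : ℝ) + (wsum rs n : ℝ)) * R +
        S * ((r.wt : ℝ) * g r + (rs.map fun r => (r.wt : ℝ) * g r).sum)) =
      (r.wt : ℝ) * ((f r : ℝ) - ((n r : ℝ) * R + S * g r)) +
      ((wsum rs f : ℝ) - ((wsum rs n : ℝ) * R + S * (rs.map fun r => (r.wt : ℝ) * g r).sum)) := by
      ring
    rw [h3]
    refine (abs_add_le _ _).trans ?_
    rw [abs_mul, abs_of_nonneg (Nat.cast_nonneg r.wt)]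
    have h4 := mul_le_mul_of_nonneg_left h1 (Nat.cast_nonneg (α := ℝ) r.wt)
    linarith

/-- totals, as computed by the kernel. -/
theorem tot_getD (K : ℕ) (rs : List Run) (hK : ∀ r ∈ rs, r.e.length = K)
    (h3 : ∀ r ∈ rs, ∀ l ∈ r.e, l.length = 3) (k j : ℕ) (hk : k < K) (hj : j < 3) :
    (tot K rs).length = K ∧ (∀ l ∈ tot K rs, l.length = 3) ∧
    ((tot K rs).getD k []).getD j 0 = wsum rs fun r => (r.e.getD k []).getD j 0 := by
  induction rs with
  | nil =>
    refine ⟨List.length_replicate .., ?_, ?_⟩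
    · intro l hl
      rw [List.eq_of_mem_replicate hl]; rfl
    · have : (List.replicate K ([0, 0, 0] : List ℕ)).getD k [] = [0, 0, 0] := by
        rw [List.getD_eq_getElem _ _ (by simpa using hk), List.getElem_replicate]
      show ((List.replicate K ([0, 0, 0] : List ℕ)).getD k []).getD j 0 = _
      rw [this, wsum_nil]
      interval_cases j <;> rfl
  | cons r rs ih =>
    obtain ⟨i1, i2, i3⟩ := ih (fun r' hr' => hK r' (List.mem_cons_of_mem _ hr'))
      (fun r' hr' => h3 r' (List.mem_cons_of_mem _ hr'))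
    have hr := hK r List.mem_cons_self
    have hr3 := h3 r List.mem_cons_self
    have hT : tot K (r :: rs) = List.zipWith (addL r.wt) r.e (tot K rs) := rfl
    rw [hT]
    refine ⟨?_, ?_, ?_⟩
    · rw [List.length_zipWith, hr, i1, min_self]
    · intro l hl
      obtain ⟨i, hi, rfl⟩ := List.getElem_of_mem hl
      rw [List.length_zipWith] at hi
      rw [List.getElem_zipWith]
      have a1 := hr3 _ (List.getElem_mem (l := r.e) (n := i) (by omega))
      have a2 := i2 _ (List.getElem_mem (l := tot K rs) (n := i) (by omega))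
      unfold addL
      rw [List.length_zipWith, a1, a2, min_self]
    · have hk1 : k < r.e.length := by omega
      have hk2 : k < (tot K rs).length := by omega
      have hk3 : k < (List.zipWith (addL r.wt) r.e (tot K rs)).length := by
        rw [List.length_zipWith]; omega
      have a1 := hr3 _ (List.getElem_mem hk1)
      have a2 := i2 _ (List.getElem_mem hk2)
      rw [List.getD_eq_getElem _ _ hk3, List.getElem_zipWith, wsum_cons, ← i3,
        List.getD_eq_getElem _ _ hk1, List.getD_eq_getElem _ _ hk2]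
      unfold addL
      rw [List.getD_eq_getElem _ _ (by rw [List.length_zipWith, a1, a2]; simpa using hj),
        List.getElem_zipWith, List.getD_eq_getElem _ _ (by omega),
        List.getD_eq_getElem _ _ (by omega)]
      rfl

end CZ3

end Crest.Agent.HG
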