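import Mathlib
import Crest.Agent.HG_CZ3
import Crest.Agent.HG_CP4
import Crest.Agent.HG_CP2

/-!
HG_CZ4 (part C assembly, helper71): a successful kernel run has the meaning `RunSem`.
-/

set_option autoImplicit false

namespace Crest.Agent.HG
open Matrix

section CZ4
variable {κ : Type} [Fintype κ] [DecidableEq κ]

theorem incr_nodup (M : Mach) (l : List ℕ) (h : M.incr l = true) : l.Nodup := by
  induction l with
  | nil => exact List.nodup_nil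
  | cons a l ih =>
    obtain ⟨h1, h2⟩ := incr_lt M a l h
    refine List.nodup_cons.2 ⟨fun hm => ?_, ih h1⟩
    exact absurd (h2 a hm) (lt_irrefl _)

/-- sum over the states of a duplicate-free list of indices. -/
theorem sum_list {M : Mach} (C : Coord κ M.n M.d) (hidx : ∀ i, i < M.D → C.idx (C.ofIdx i) = i)
    (hoi : ∀ σ, C.ofIdx (C.idx σ) = σ) (l : List ℕ) (hn : l.Nodup) (hl : ∀ a ∈ l, a < M.D)
    (f : κ → ℤ) : (∑ σ, if C.idx σ ∈ l then f σ else 0) = (l.map fun s => f (C.ofIdx s)).sum := by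
  induction l with
  | nil => simp
  | cons a l ih =>
    obtain ⟨h1, h2⟩ := List.nodup_cons.1 hn
    rw [List.map_cons, List.sum_cons, ← ih h2 fun b hb => hl b (List.mem_cons_of_mem _ hb)]
    have ha : a < M.D := hl a List.mem_cons_self
    have h3 : ∀ σ, (if C.idx σ ∈ a :: l then f σ else 0) =
        (if σ = C.ofIdx a then f σ else 0) + (if C.idx σ ∈ l then f σ else 0) := by
      intro σ
      by_cases h4 : σ = C.ofIdx a
      · have h5 : C.idx σ = a := by rw [h4, hidx a ha]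
        rw [if_pos h4, if_pos (by rw [h5]; exact List.mem_cons_self), if_neg (by rw [h5]; exact h1),
          add_zero]
      · have h5 : C.idx σ ≠ a := fun h => h4 (by rw [← h, hoi])
        rw [if_neg h4, zero_add]
        by_cases h6 : C.idx σ ∈ l
        · rw [if_pos h6, if_pos (List.mem_cons_of_mem _ h6)]
        · rw [if_neg h6, if_neg fun h => h6 ((List.mem_cons.1 h).resolve_left h5)]
    rw [Finset.sum_congr rfl fun σ _ => h3 σ, Finset.sum_add_distrib, Finset.sum_ite_eq' ]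
    simp

/-- the exact integer recursion. -/
noncomputable def vrec (M : Mach) (C : Coord κ M.n M.d) (l : List ℕ) : ℕ → κ → ℤ
  | 0 => fun σ => if C.idx σ ∈ l then (M.S : ℤ) else 0
  | 1 => fun σ => (M.K C *ᵥ vrec M C l 0) σ / 2 ^ (M.sh + 1)
  | (k + 2) => fun σ => (M.K C *ᵥ vrec M C l (k + 1)) σ / 2 ^ M.sh - vrec M C l k σ

theorem A_mulVec (M : Mach) (C : Coord κ M.n M.d) (v : κ → ℤ) (σ : κ) :
    (M.A C *ᵥ fun τ => (v τ : ℝ)) σ = ((2 : ℝ) ^ (M.sh + 1))⁻¹ * (((M.K C *ᵥ v) σ : ℤ) : ℝ) := by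
  unfold Mach.A
  rw [Matrix.smul_mulVec, Pi.smul_apply, smul_eq_mul]
  congr 1
  simp only [Matrix.mulVec, dotProduct, Matrix.map_apply]
  push_cast
  rfl

theorem floor_err (a : ℤ) (s : ℕ) : |((a / 2 ^ s : ℤ) : ℝ) - ((2 : ℝ) ^ s)⁻¹ * (a : ℝ)| ≤ 1 := by
  have h2 : (0 : ℝ) < 2 ^ s := by positivity
  have h0 : (0 : ℤ) < 2 ^ s := by positivity
  have h1 := Int.emod_add_mul_ediv a (2 ^ s)
  have h3 := Int.emod_nonneg a h0.ne'
  have h4 := Int.emod_lt_of_pos a h0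
  have e1 : (a : ℝ) = ((a % 2 ^ s : ℤ) : ℝ) + (2 : ℝ) ^ s * ((a / 2 ^ s : ℤ) : ℝ) := by
    exact_mod_cast h1.symm
  have e3 : (0 : ℝ) ≤ ((a % 2 ^ s : ℤ) : ℝ) := by exact_mod_cast h3
  have e4 : ((a % 2 ^ s : ℤ) : ℝ) ≤ (2 : ℝ) ^ s := by exact_mod_cast h4.le
  have e5 : ((a / 2 ^ s : ℤ) : ℝ) - ((2 : ℝ) ^ s)⁻¹ * (a : ℝ) =
      -(((2 : ℝ) ^ s)⁻¹ * ((a % 2 ^ s : ℤ) : ℝ)) := by
    conv_lhs => rw [e1]
    field_simp
    ring
  rw [e5, abs_neg, abs_of_nonneg (by positivity), inv_mul_le_iff₀ h2, mul_one]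
  exact e4

theorem vrec_err1 (M : Mach) (C : Coord κ M.n M.d) (l : List ℕ) (σ : κ) :
    |(vrec M C l 1 σ : ℝ) - (M.A C *ᵥ fun τ => (vrec M C l 0 τ : ℝ)) σ| ≤ 1 := by
  rw [A_mulVec]
  exact floor_err _ _

theorem vrec_err2 (M : Mach) (C : Coord κ M.n M.d) (l : List ℕ) (k : ℕ) (σ : κ) :
    |(vrec M C l (k + 2) σ : ℝ) - (2 * (M.A C *ᵥ fun τ => (vrec M C l (k + 1) τ : ℝ)) σ -
      (vrec M C l k σ : ℝ))| ≤ 1 := by
  rw [A_mulVec]
  have h : (vrec M C l (k + 2) σ : ℝ) = (((M.K C *ᵥ vrec M C l (k + 1)) σ / 2 ^ M.sh : ℤ) : ℝ) -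
      (vrec M C l k σ : ℝ) := by
    have : vrec M C l (k + 2) σ = (M.K C *ᵥ vrec M C l (k + 1)) σ / 2 ^ M.sh - vrec M C l k σ := rfl
    rw [this, Int.cast_sub]
  rw [h]
  have h2 := floor_err ((M.K C *ᵥ vrec M C l (k + 1)) σ) M.sh
  have e : (2 : ℝ) * (((2 : ℝ) ^ (M.sh + 1))⁻¹ * (((M.K C *ᵥ vrec M C l (k + 1)) σ : ℤ) : ℝ)) =
      ((2 : ℝ) ^ M.sh)⁻¹ * (((M.K C *ᵥ vrec M C l (k + 1)) σ : ℤ) : ℝ) := by
    rw [pow_succ]
    field_simp
  rw [e]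
  have e2 : (((M.K C *ᵥ vrec M C l (k + 1)) σ / 2 ^ M.sh : ℤ) : ℝ) - (vrec M C l k σ : ℝ) -
      (((2 : ℝ) ^ M.sh)⁻¹ * (((M.K C *ᵥ vrec M C l (k + 1)) σ : ℤ) : ℝ) - (vrec M C l k σ : ℝ)) =
      (((M.K C *ᵥ vrec M C l (k + 1)) σ / 2 ^ M.sh : ℤ) : ℝ) -
      ((2 : ℝ) ^ M.sh)⁻¹ * (((M.K C *ᵥ vrec M C l (k + 1)) σ : ℤ) : ℝ) := by ring
  rw [e2]
  exact h2

end CZ4

end Crest.Agent.HG
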