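import Mathlib
import Crest.Agent.HG_CZ4
import Crest.Agent.HG_CV2

/-!
HG_CZ5 (part C assembly, helper71): `M.ok r = true` implies `RunSem`.
-/

set_option autoImplicit false

namespace Crest.Agent.HG
open Matrix

section CZ5
variable {κ : Type} [Fintype κ] [DecidableEq κ]

/-- separated starts: at most one start per value of the digit sum. -/
def Sep (M : Mach) (l : List ℕ) : Prop :=
  l.Nodup ∧ (∀ s ∈ l, s < M.D) ∧ ∀ a ∈ l, ∀ b ∈ l, M.qsum a = M.qsum b → a = b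

/-- range of the recursion. -/
theorem vrec_bound (M : Mach) (C : Coord κ M.n M.d) (hs : (M.A C).IsSymm)
    (hc : ∀ x : κ → ℝ, |x ⬝ᵥ (M.A C) *ᵥ x| ≤ x ⬝ᵥ x)
    (hblk : ∀ σ τ, M.A C σ τ ≠ 0 → C.Q σ = C.Q τ) (hq : ∀ σ, M.qsum (C.idx σ) = C.Q σ)
    (hoi : ∀ σ, C.ofIdx (C.idx σ) = σ) (l : List ℕ) (hl : Sep M l) (K : ℕ)
    (hS : (M.S : ℝ) + √(Fintype.card κ : ℝ) * ((K : ℝ) * (K + 1) / 2) < 2 ^ M.r)
    (k : ℕ) (hk : k ≤ K) (σ : κ) : |vrec M C l k σ| < 2 ^ M.r := by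
  have h1 := cheb_recur_err (M.A C) hs hc (fun k σ => (vrec M C l k σ : ℝ)) 1 K
    (vrec_err1 M C l) (fun k _ σ => vrec_err2 M C l k σ) k hk σ
  rw [one_mul] at h1
  have h2 : |(TA (M.A C) k *ᵥ fun τ => (vrec M C l 0 τ : ℝ)) σ| ≤ M.S := by
    by_cases hex : ∃ s, C.idx s ∈ l ∧ C.Q s = C.Q σ
    · obtain ⟨s, hs1, hs2⟩ := hex
      rw [TA_start (M.A C) C.Q hblk k (M.S : ℝ) (fun σ => C.idx σ ∈ l)
        (fun τ => (vrec M C l 0 τ : ℝ)) (fun σ => by
          show (((if C.idx σ ∈ l then (M.S : ℤ) else 0 : ℤ)) : ℝ) = _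
          split_ifs <;> simp) s σ hs1 ?_, abs_mul, abs_of_nonneg (Nat.cast_nonneg M.S)]
      · have := TA_entry_le (M.A C) hs hc k σ s
        exact mul_le_of_le_one_right (Nat.cast_nonneg _) this
      · intro s' h3 h4
        have h5 : C.idx s' = C.idx s := hl.2.2 _ h3 _ hs1 (by rw [hq, hq, h4, hs2])
        rw [← hoi s', h5, hoi]
    · have h0 : (TA (M.A C) k *ᵥ fun τ => (vrec M C l 0 τ : ℝ)) σ = 0 := by
        rw [Matrix.mulVec, dotProduct]
        refine Finset.sum_eq_zero fun τ _ => ?_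
        have hv : vrec M C l 0 τ = if C.idx τ ∈ l then (M.S : ℤ) else 0 := rfl
        rw [hv]
        by_cases h3 : C.idx τ ∈ l
        · have h4 : C.Q σ ≠ C.Q τ := fun h5 => hex ⟨τ, h3, h5.symm⟩
          rw [TA_block (M.A C) C.Q hblk k σ τ h4, zero_mul]
        · rw [if_neg h3]; simp
      rw [h0, abs_zero]
      exact Nat.cast_nonneg _
  have h3 : √(Fintype.card κ : ℝ) * ((k : ℝ) * (k + 1) / 2) ≤
      √(Fintype.card κ : ℝ) * ((K : ℝ) * (K + 1) / 2) := by
    have hkK : (k : ℝ) ≤ K := by exact_mod_cast hk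
    have h0 : (0 : ℝ) ≤ k := Nat.cast_nonneg _
    gcongr
  have h4 : |(vrec M C l k σ : ℝ)| < 2 ^ M.r := by
    have h5 : |(vrec M C l k σ : ℝ)| ≤
        |(vrec M C l k σ : ℝ) - (TA (M.A C) k *ᵥ fun τ => (vrec M C l 0 τ : ℝ)) σ| +
        |(TA (M.A C) k *ᵥ fun τ => (vrec M C l 0 τ : ℝ)) σ| := by
      have := abs_add_le ((vrec M C l k σ : ℝ) - (TA (M.A C) k *ᵥ fun τ => (vrec M C l 0 τ : ℝ)) σ)
        ((TA (M.A C) k *ᵥ fun τ => (vrec M C l 0 τ : ℝ)) σ)
      simpa using this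
    linarith
  have h6 : ((|vrec M C l k σ| : ℤ) : ℝ) < ((2 ^ M.r : ℤ) : ℝ) := by
    rw [Int.cast_abs]; push_cast; exact h4
  exact_mod_cast h6

/-- length checks -/
def lenOK (M : Mach) (r : Run) : Bool :=
  Nat.ble (M.r + 9) M.w && Nat.ble r.ev.length 64 && Nat.ble r.od.length 64 &&
    Nat.ble r.fx.length 64

theorem side_fx (M : Mach) (ux : Bool) (K : ℕ) (r : Run) (h : M.side ux K r = true) :
    (ux = true → r.fx = ((r.ev ++ r.od).filter (fun s => Nat.beq (M.qsum s) M.n)).map M.flI) ∧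
      (ux = false → r.fx = []) := by
  unfold Mach.side at h
  simp only [Bool.and_eq_true] at h
  obtain ⟨-, h7⟩ := h
  constructor
  · intro hux; subst hux; simpa using h7
  · intro hux; subst hux; simpa using h7

theorem side_nodup (M : Mach) (ux : Bool) (K : ℕ) (r : Run) (h : M.side ux K r = true) :
    r.ev.Nodup ∧ r.od.Nodup := by
  unfold Mach.side at h
  simp only [Bool.and_eq_true] at h
  exact ⟨incr_nodup M _ h.1.1.1.1.2, incr_nodup M _ h.1.1.1.2⟩

theorem flI_lt (M : Mach) (hD : 0 < M.D) (i : ℕ) : M.flI i < M.D := by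
  show M.D - 1 - i < M.D
  omega

theorem flI_inj (M : Mach) {i j : ℕ} (hi : i < M.D) (hj : j < M.D) (h : M.flI i = M.flI j) :
    i = j := by
  have h' : M.D - 1 - i = M.D - 1 - j := h
  omega

theorem side_sep (M : Mach) (ux : Bool) (K : ℕ) (r : Run) (h : M.side ux K r = true) :
    Sep M (r.ev ++ r.od) := by
  have hS := side_spec M ux K r h
  have hn := side_nodup M ux K r h
  have key : ∀ a ∈ r.ev ++ r.od, ∀ b ∈ r.ev ++ r.od, M.qsum a = M.qsum b → a = b := by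
    intro a ha b hb hab
    rcases List.mem_append.1 ha with h1 | h1 <;> rcases List.mem_append.1 hb with h2 | h2
    · exact hS.ev_inj a h1 b h2 hab
    · have a1 := hS.ev_par a h1
      have a2 := hS.od_par b h2
      omega
    · have a1 := hS.od_par a h1
      have a2 := hS.ev_par b h2
      omega
    · exact hS.od_inj a h1 b h2 hab
  refine ⟨?_, ?_, key⟩
  · refine List.nodup_append.2 ⟨hn.1, hn.2, ?_⟩
    intro a ha b hb hab
    have a1 := hS.ev_par a ha
    have a2 := hS.od_par b hb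
    rw [hab] at a1; omega
  · intro s hs
    rcases List.mem_append.1 hs with h1 | h1
    · exact hS.ev_lt s h1
    · exact hS.od_lt s h1

theorem ok_sem (M : Mach) (C : Coord κ M.n M.d) (hM : M.WF)
    (hC : M.pos M.offP ≤ Nat.shiftLeft M.offP (M.sh + 1) + M.neg M.offP)
    (hs : (M.A C).IsSymm) (hc : ∀ x : κ → ℝ, |x ⬝ᵥ (M.A C) *ᵥ x| ≤ x ⬝ᵥ x)
    (hblk : ∀ σ τ, M.A C σ τ ≠ 0 → C.Q σ = C.Q τ)
    (ux : Bool) (K : ℕ) (r : Run) (hside : M.side ux K r = true) (hlen : lenOK M r = true)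
    (hS : (M.S : ℝ) + √(Fintype.card κ : ℝ) * ((K : ℝ) * (K + 1) / 2) < 2 ^ M.r)
    (hok : M.ok r = true) : RunSem M C K r := by
  have hq : ∀ σ, M.qsum (C.idx σ) = C.Q σ := qsum_idx M C
  have hidx : ∀ i, i < M.D → C.idx (C.ofIdx i) = i := fun i hi => C.idx_ofIdx i hi
  have hoi : ∀ σ, C.ofIdx (C.idx σ) = σ := C.ofIdx_idx
  have hsep := side_sep M ux K r hside
  have hSd := side_spec M ux K r hside
  have hnd := side_nodup M ux K r hside
  have hfx := side_fx M ux K r hside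
  unfold lenOK at hlen
  simp only [Bool.and_eq_true, Nat.ble_eq] at hlen
  obtain ⟨⟨⟨hw, hl1⟩, hl2⟩, hl3⟩ := hlen
  have hlw : ∀ l : List ℕ, l.length ≤ 64 → l.length * 2 ^ (M.r + 1) < 2 ^ M.w - 1 := by
    intro l hl
    have h1 : l.length * 2 ^ (M.r + 1) ≤ 64 * 2 ^ (M.r + 1) := Nat.mul_le_mul_right _ hl
    have h2 : 2 ^ (M.r + 9) ≤ 2 ^ M.w := Nat.pow_le_pow_right (by norm_num) hw
    have h3 : 2 ^ (M.r + 9) = 256 * 2 ^ (M.r + 1) := by
      rw [show M.r + 9 = (M.r + 1) + 8 from by ring, pow_add]; ring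
    have h4 : 1 ≤ 2 ^ (M.r + 1) := Nat.one_le_two_pow
    omega
  have hsound := run_sound M C hM hC (r.ev ++ r.od) hsep.1 hsep.2.1 [r.ev, r.od, r.fx] r.e hok
    (vrec M C (r.ev ++ r.od)) (fun σ => rfl) (fun σ => rfl) (fun k σ => rfl)
    (fun k hk σ => vrec_bound M C hs hc hblk hq hoi _ hsep K hS k (by rw [hSd.len] at hk; exact hk) σ)
  refine ⟨vrec M C (r.ev ++ r.od), fun σ => rfl, vrec_err1 M C _, fun k _ σ => vrec_err2 M C _ k σ,
    ?_⟩
  intro k hk
  have hk' : k < r.e.length := by rw [hSd.len]; exact hk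
  have h3 : r.e[k].length = 3 := hSd.len3 _ (List.getElem_mem hk')
  have hg : r.e.getD k [] = r.e[k] := List.getD_eq_getElem _ _ hk'
  have hread : ∀ (j : ℕ) (hj : j < 3) (l : List ℕ), [r.ev, r.od, r.fx][j]'(by simpa using hj) = l →
      l.Nodup → (∀ a ∈ l, a < M.D) → l.length ≤ 64 →
      (((r.e.getD k []).getD j 0 : ℕ) : ℤ) =
        (l.map fun s => vrec M C (r.ev ++ r.od) (k + 1) (C.ofIdx s) + 2 ^ M.r).sum := by
    intro j hj l hl h5 h6 h7
    have h8 := hsound k hk' j (by simpa using hj) (by rw [h3]; exact hj)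
      (by rw [hl]; exact h5) (by rw [hl]; exact h6) (by rw [hl]; exact hlw l h7)
    rw [hg, List.getD_eq_getElem _ _ (by rw [h3]; exact hj), h8, hl]
    exact sum_list C hidx hoi l h5 h6
      (fun σ => vrec M C (r.ev ++ r.od) (k + 1) σ + 2 ^ M.r)
  refine ⟨hread 0 (by norm_num) r.ev rfl hnd.1 hSd.ev_lt hl1,
    hread 1 (by norm_num) r.od rfl hnd.2 hSd.od_lt hl2,
    hread 2 (by norm_num) r.fx rfl ?_ ?_ hl3⟩
  · cases ux with
    | true =>
      rw [hfx.1 rfl]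
      refine List.Nodup.map_on ?_ (hsep.1.filter _)
      intro a ha b hb hab
      exact flI_inj M (hsep.2.1 a (List.mem_filter.1 ha).1) (hsep.2.1 b (List.mem_filter.1 hb).1) hab
    | false => rw [hfx.2 rfl]; exact List.nodup_nil
  · intro a ha
    cases ux with
    | true =>
      rw [hfx.1 rfl] at ha
      obtain ⟨b, hb, rfl⟩ := List.mem_map.1 ha
      have hb' := hsep.2.1 b (List.mem_filter.1 hb).1
      exact flI_lt M (by omega) b
    | false => rw [hfx.2 rfl] at ha; exact absurd ha List.not_mem_nil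

end CZ5

end Crest.Agent.HG
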