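import Mathlib
import Crest.Agent.HG_CZ5
import Crest.Agent.HG_CA2

/-!
HG_CZ6 (part C assembly, helper71): totals over all runs and value of the partition functions.
-/

set_option autoImplicit false

namespace Crest.Agent.HG
open Matrix

section CZ6
variable {κ : Type} [Fintype κ] [DecidableEq κ]

/-- number of weighted odd starts -/
def cntO (rs : List Run) : ℕ := wsum rs fun r => r.od.length

/-- everything that is known about the data of a machine. -/
structure MData (M : Mach) (C : Coord κ M.n M.d) (ux : Bool) (K : ℕ) (rs : List Run)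
    (gs : List (κ → κ)) : Prop where
  hM : M.WF
  hC : M.pos M.offP ≤ Nat.shiftLeft M.offP (M.sh + 1) + M.neg M.offP
  hs : (M.A C).IsSymm
  hc : ∀ x : κ → ℝ, |x ⬝ᵥ (M.A C) *ᵥ x| ≤ x ⬝ᵥ x
  hblk : ∀ σ τ, M.A C σ τ ≠ 0 → C.Q σ = C.Q τ
  hS : (M.S : ℝ) + √(Fintype.card κ : ℝ) * ((K : ℝ) * (K + 1) / 2) < 2 ^ M.r
  side : ∀ r ∈ rs, M.side ux K r = true
  len : ∀ r ∈ rs, lenOK M r = true
  ok : ∀ r ∈ rs, M.ok r = true
  cov : ∀ h : κ → ℝ, (∀ g ∈ gs, ∀ σ, h (g σ) = h σ) →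
    ∑ σ, h σ = (rs.map fun r => (r.wt : ℝ) * (((r.ev ++ r.od).map fun s => h (C.ofIdx s)).sum)).sum
  inv : ∀ g ∈ gs, Function.Bijective g ∧ (∀ σ τ, M.A C (g σ) (g τ) = M.A C σ τ) ∧
    ∀ σ, C.Q (g σ) % 2 = C.Q σ % 2

variable {M : Mach} {C : Coord κ M.n M.d} {ux : Bool} {K : ℕ} {rs : List Run} {gs : List (κ → κ)}

theorem MData.sem (hD : MData M C ux K rs gs) : ∀ r ∈ rs, RunSem M C K r := fun r hr =>
  ok_sem M C hD.hM hD.hC hD.hs hD.hc hD.hblk ux K r (hD.side r hr) (hD.len r hr) hD.hS (hD.ok r hr)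

theorem MData.tot_eq (hD : MData M C ux K rs gs) (k j : ℕ) (hk : k < K) (hj : j < 3) :
    ((tot K rs).getD k []).getD j 0 = wsum rs fun r => (r.e.getD k []).getD j 0 :=
  (tot_getD K rs (fun r hr => (side_spec M ux K r (hD.side r hr)).len)
    (fun r hr => (side_spec M ux K r (hD.side r hr)).len3) k j hk hj).2.2

/-- coverage for the even and odd parts. -/
theorem MData.cov_par (hD : MData M C ux K rs gs) (b : ℕ) (hb : b < 2) (h : κ → ℝ)
    (hh : ∀ g ∈ gs, ∀ σ, h (g σ) = h σ) :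
    (∑ σ, if C.Q σ % 2 = b then h σ else 0) = (rs.map fun r => (r.wt : ℝ) *
      (((if b = 0 then r.ev else r.od).map fun s => h (C.ofIdx s)).sum)).sum := by
  rw [hD.cov (fun σ => if C.Q σ % 2 = b then h σ else 0) (fun g hg σ => by
    simp only [(hD.inv g hg).2.2 σ, hh g hg σ])]
  congr 1
  refine List.map_congr_left fun r hr => ?_
  have hS := side_spec M ux K r (hD.side r hr)
  have hq : ∀ s, s < M.D → C.Q (C.ofIdx s) = M.qsum s := by
    intro s hs
    rw [← qsum_idx M C, C.idx_ofIdx s hs]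
  congr 1
  rw [List.map_append, List.sum_append]
  have he : (r.ev.map fun s => if C.Q (C.ofIdx s) % 2 = b then h (C.ofIdx s) else 0).sum =
      if b = 0 then (r.ev.map fun s => h (C.ofIdx s)).sum else 0 := by
    by_cases h0 : b = 0
    · rw [if_pos h0]
      congr 1
      refine List.map_congr_left fun s hs => ?_
      rw [if_pos (by rw [hq s (hS.ev_lt s hs), hS.ev_par s hs, h0])]
    · rw [if_neg h0]
      refine List.sum_eq_zero ?_
      intro x hx
      obtain ⟨s, hs, rfl⟩ := List.mem_map.1 hx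
      rw [if_neg (by rw [hq s (hS.ev_lt s hs), hS.ev_par s hs]; omega)]
  have ho : (r.od.map fun s => if C.Q (C.ofIdx s) % 2 = b then h (C.ofIdx s) else 0).sum =
      if b = 0 then 0 else (r.od.map fun s => h (C.ofIdx s)).sum := by
    by_cases h0 : b = 0
    · rw [if_pos h0]
      refine List.sum_eq_zero ?_
      intro x hx
      obtain ⟨s, hs, rfl⟩ := List.mem_map.1 hx
      rw [if_neg (by rw [hq s (hS.od_lt s hs), hS.od_par s hs]; omega)]
    · rw [if_neg h0]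
      congr 1
      refine List.map_congr_left fun s hs => ?_
      rw [if_pos (by rw [hq s (hS.od_lt s hs), hS.od_par s hs]; omega)]
  rw [he, ho]
  by_cases h0 : b = 0 <;> simp [h0]

theorem rs_map_const (rs : List Run) (f : Run → List ℕ) (g : ℕ → ℝ) (hg : ∀ s, g s = 1) :
    (rs.map fun r => (r.wt : ℝ) * (((f r).map g).sum)).sum = (wsum rs fun r => (f r).length : ℕ) := by
  induction rs with
  | nil => simp [wsum_nil]
  | cons r rs ih =>
    rw [List.map_cons, List.sum_cons, ih, wsum_cons]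
    have : ((f r).map g).sum = ((f r).length : ℝ) := by
      generalize f r = l
      induction l with
      | nil => simp
      | cons a l ih2 => rw [List.map_cons, List.sum_cons, ih2, hg]; push_cast [List.length_cons]; ring
    rw [this]
    push_cast
    ring

theorem MData.cntE (hD : MData M C ux K rs gs) :
    (∑ σ : κ, if C.Q σ % 2 = 0 then (1 : ℝ) else 0) = (HG.cntE rs : ℝ) := by
  rw [hD.cov_par 0 (by norm_num) (fun _ => 1) (fun _ _ _ => rfl), cntE_eq]
  exact rs_map_const rs _ _ fun _ => rfl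

theorem MData.cntO (hD : MData M C ux K rs gs) :
    (∑ σ : κ, if C.Q σ % 2 = 1 then (1 : ℝ) else 0) = (HG.cntO rs : ℝ) := by
  rw [hD.cov_par 1 (by norm_num) (fun _ => 1) (fun _ _ _ => rfl)]
  exact rs_map_const rs _ _ fun _ => rfl

theorem MData.mom_e (hD : MData M C ux K rs gs) (k : ℕ) (hk : k < K) :
    |((((tot K rs).getD k []).getD 0 0 : ℕ) : ℝ) - ((HG.cntE rs : ℝ) * 2 ^ M.r +
      (M.S : ℝ) * ∑ σ, if C.Q σ % 2 = 0 then TA (M.A C) (k + 1) σ σ else 0)| ≤
      HG.cntE rs * (√(Fintype.card κ : ℝ) * (((k + 1 : ℕ) : ℝ) * ((k + 1 : ℕ) + 1) / 2)) := by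
  rw [hD.cov_par 0 (by norm_num) (fun σ => TA (M.A C) (k + 1) σ σ)
    (fun g hg σ => TA_inv (M.A C) g (hD.inv g hg).1 (hD.inv g hg).2.1 (k + 1) σ σ),
    hD.tot_eq k 0 hk (by norm_num), cntE_eq]
  refine wsum_err rs _ _ (fun r => (r.ev.map fun s =>
    TA (M.A C) (k + 1) (C.ofIdx s) (C.ofIdx s)).sum) _ _ _ fun r hr => ?_
  exact (run_moments M C K r ux hD.hs hD.hc hD.hblk (qsum_idx M C) (fun i hi => C.idx_ofIdx i hi)
    C.ofIdx_idx (side_spec M ux K r (hD.side r hr)) (hD.sem r hr) k hk).1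

theorem MData.mom_o (hD : MData M C ux K rs gs) (k : ℕ) (hk : k < K) :
    |((((tot K rs).getD k []).getD 1 0 : ℕ) : ℝ) - ((HG.cntO rs : ℝ) * 2 ^ M.r +
      (M.S : ℝ) * ∑ σ, if C.Q σ % 2 = 1 then TA (M.A C) (k + 1) σ σ else 0)| ≤
      HG.cntO rs * (√(Fintype.card κ : ℝ) * (((k + 1 : ℕ) : ℝ) * ((k + 1 : ℕ) + 1) / 2)) := by
  rw [hD.cov_par 1 (by norm_num) (fun σ => TA (M.A C) (k + 1) σ σ)
    (fun g hg σ => TA_inv (M.A C) g (hD.inv g hg).1 (hD.inv g hg).2.1 (k + 1) σ σ),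
    hD.tot_eq k 1 hk (by norm_num)]
  refine wsum_err rs _ _ (fun r => (r.od.map fun s =>
    TA (M.A C) (k + 1) (C.ofIdx s) (C.ofIdx s)).sum) _ _ _ fun r hr => ?_
  exact (run_moments M C K r ux hD.hs hD.hc hD.hblk (qsum_idx M C) (fun i hi => C.idx_ofIdx i hi)
    C.ofIdx_idx (side_spec M ux K r (hD.side r hr)) (hD.sem r hr) k hk).2

/-- the value from the moments. -/
theorem cheb_value (A : Matrix κ κ ℝ) (hs : A.IsSymm)
    (hc : ∀ x : κ → ℝ, |x ⬝ᵥ A *ᵥ x| ≤ x ⬝ᵥ x) (β c ρ : ℝ) (b : ℕ → ℝ) (K : ℕ) (η : ℝ)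
    (hb : ∀ x : ℝ, |x| ≤ 1 →
      |Real.exp (-(β * ρ) * (x + 1)) - ∑ k ∈ Finset.range (K + 1), b k * ct x k| ≤ η)
    (p : κ → Prop) [DecidablePred p] (f : κ → κ) (n0 nc S R : ℝ) (t : ℕ → ℝ) (hS : 0 < S)
    (h0 : (∑ σ, if p σ then TA A 0 (f σ) σ else 0) = n0)
    (hcard : (∑ σ : κ, if p σ then (1 : ℝ) else 0) = nc)
    (ht : ∀ k, k < K → |t k - (nc * R + S * ∑ σ, if p σ then TA A (k + 1) (f σ) σ else 0)| ≤
      nc * (√(Fintype.card κ : ℝ) * (((k + 1 : ℕ) : ℝ) * ((k + 1 : ℕ) + 1) / 2))) :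
    |(∑ σ, if p σ then NormedSpace.exp (-β • (c • (1 : Matrix κ κ ℝ) + ρ • A)) (f σ) σ else 0) *
        Real.exp (β * (c - ρ)) -
      (b 0 * n0 + (∑ k ∈ Finset.range K, b (k + 1) * (t k - nc * R)) / S)| ≤
      nc * η + nc * √(Fintype.card κ : ℝ) *
        (∑ k ∈ Finset.range K, |b (k + 1)| * (((k + 1 : ℕ) : ℝ) * ((k + 1 : ℕ) + 1) / 2)) / S := by
  set E : Matrix κ κ ℝ := NormedSpace.exp (-β • (c • (1 : Matrix κ κ ℝ) + ρ • A)) with hE
  have h1 : |(∑ σ, if p σ then E (f σ) σ else 0) * Real.exp (β * (c - ρ)) -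
      ∑ k ∈ Finset.range (K + 1), b k * ∑ σ, (if p σ then TA A k (f σ) σ else 0)| ≤ nc * η := by
    have e1 : (∑ σ, if p σ then E (f σ) σ else 0) * Real.exp (β * (c - ρ)) -
      ∑ k ∈ Finset.range (K + 1), b k * ∑ σ, (if p σ then TA A k (f σ) σ else 0) =
      ∑ σ, (if p σ then (E (f σ) σ * Real.exp (β * (c - ρ)) -
        ∑ k ∈ Finset.range (K + 1), b k * TA A k (f σ) σ) else 0) := by
      rw [Finset.sum_mul]
      simp only [Finset.mul_sum]
      rw [Finset.sum_comm, ← Finset.sum_sub_distrib]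
      refine Finset.sum_congr rfl fun σ _ => ?_
      by_cases hp : p σ
      · simp only [if_pos hp]
      · simp only [if_neg hp]; simp
    rw [e1, ← hcard, Finset.sum_mul]
    refine (Finset.abs_sum_le_sum_abs _ _).trans (Finset.sum_le_sum fun σ _ => ?_)
    by_cases hp : p σ
    · simp only [if_pos hp]
      rw [one_mul]
      exact exp_cheb A hs hc β c ρ b K η hb (f σ) σ
    · simp only [if_neg hp]; simp
  have h2 : ∑ k ∈ Finset.range (K + 1), b k * ∑ σ, (if p σ then TA A k (f σ) σ else 0) -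
      (b 0 * n0 + (∑ k ∈ Finset.range K, b (k + 1) * (t k - nc * R)) / S) =
      -(∑ k ∈ Finset.range K, b (k + 1) * (t k - (nc * R + S *
        ∑ σ, if p σ then TA A (k + 1) (f σ) σ else 0))) / S := by
    rw [Finset.sum_range_succ', h0]
    have e3 : ∑ k ∈ Finset.range K, b (k + 1) * ∑ σ, (if p σ then TA A (k + 1) (f σ) σ else 0) =
        (∑ k ∈ Finset.range K, b (k + 1) * (S * ∑ σ, (if p σ then TA A (k + 1) (f σ) σ else 0))) / S := by
      rw [Finset.sum_div]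
      refine Finset.sum_congr rfl fun k _ => ?_
      field_simp
    rw [e3, neg_div, ← sub_eq_zero]
    have e4 : ∑ k ∈ Finset.range K, b (k + 1) * (t k - (nc * R + S *
        ∑ σ, if p σ then TA A (k + 1) (f σ) σ else 0)) =
        (∑ k ∈ Finset.range K, b (k + 1) * (t k - nc * R)) -
        ∑ k ∈ Finset.range K, b (k + 1) * (S * ∑ σ, (if p σ then TA A (k + 1) (f σ) σ else 0)) := by
      rw [← Finset.sum_sub_distrib]
      refine Finset.sum_congr rfl fun k _ => ?_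
      ring
    rw [e4]
    ring
  have h3 : |∑ k ∈ Finset.range (K + 1), b k * ∑ σ, (if p σ then TA A k (f σ) σ else 0) -
      (b 0 * n0 + (∑ k ∈ Finset.range K, b (k + 1) * (t k - nc * R)) / S)| ≤
      nc * √(Fintype.card κ : ℝ) *
        (∑ k ∈ Finset.range K, |b (k + 1)| * (((k + 1 : ℕ) : ℝ) * ((k + 1 : ℕ) + 1) / 2)) / S := by
    rw [h2, abs_div, abs_neg, abs_of_pos hS]
    refine div_le_div_of_nonneg_right ?_ hS.le
    rw [Finset.mul_sum]
    refine (Finset.abs_sum_le_sum_abs _ _).trans (Finset.sum_le_sum fun k hk => ?_)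
    rw [abs_mul]
    have h4 := mul_le_mul_of_nonneg_left (ht k (Finset.mem_range.1 hk)) (abs_nonneg (b (k + 1)))
    refine h4.trans (le_of_eq ?_)
    ring
  have h5 := abs_add_le ((∑ σ, if p σ then E (f σ) σ else 0) * Real.exp (β * (c - ρ)) -
      ∑ k ∈ Finset.range (K + 1), b k * ∑ σ, (if p σ then TA A k (f σ) σ else 0))
    (∑ k ∈ Finset.range (K + 1), b k * ∑ σ, (if p σ then TA A k (f σ) σ else 0) -
      (b 0 * n0 + (∑ k ∈ Finset.range K, b (k + 1) * (t k - nc * R)) / S))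
  rw [sub_add_sub_cancel] at h5
  linarith

end CZ6

end Crest.Agent.HG
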