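import Mathlib
import Crest.Agent.HG_CZ6
import Crest.Agent.HG_CB

/-!
HG_CZ7 (part C assembly, helper71): values of the even / odd / flip parts of the trace.
-/

set_option autoImplicit false

namespace Crest.Agent.HG
open Matrix

/-- the integer computed by the kernel: `cf_0 n0 S + ∑_k cf_(k+1) (T_k[j] - nc R)`. -/
def Vz (cf : List ℤ) (T : List (List ℕ)) (j n0 nc S R : ℕ) : ℤ :=
  cf.headD 0 * ((n0 * S : ℕ) : ℤ) +
    (List.zipWith (fun c l => c * (((l.getD j 0 : ℕ) : ℤ) - ((nc * R : ℕ) : ℤ))) cf.tail T).sum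

theorem zip_sum (f : ℤ → List ℕ → ℤ) (a : List ℤ) (b : List (List ℕ)) (K : ℕ) (hb : b.length = K)
    (ha : K ≤ a.length) :
    (List.zipWith f a b).sum = ∑ k ∈ Finset.range K, f (a.getD k 0) (b.getD k []) := by
  induction b generalizing a K with
  | nil =>
    subst hb
    simp
  | cons l b ih =>
    cases a with
    | nil =>
      exfalso
      simp only [List.length_cons, List.length_nil] at hb ha
      omega
    | cons c a =>
      cases K with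
      | zero => simp at hb
      | succ K =>
        rw [List.zipWith_cons_cons, List.sum_cons, ih a K (by simpa using hb) (by simpa using ha),
          Finset.sum_range_succ']
        simp [add_comm]

theorem Vz_eq (cf : List ℤ) (T : List (List ℕ)) (j n0 nc S R K : ℕ) (hT : T.length = K)
    (hcf : K + 1 ≤ cf.length) :
    Vz cf T j n0 nc S R = cf.getD 0 0 * ((n0 * S : ℕ) : ℤ) +
      ∑ k ∈ Finset.range K, cf.getD (k + 1) 0 * ((((T.getD k []).getD j 0 : ℕ) : ℤ) -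
        ((nc * R : ℕ) : ℤ)) := by
  unfold Vz
  cases cf with
  | nil => simp at hcf
  | cons c cf =>
    rw [List.tail_cons, zip_sum _ cf T K hT (by simpa using hcf)]
    simp

theorem trunc_tail (cf : List ℤ) (B : ℤ)
    (hB : ∑ k ∈ Finset.range 6, |cf.getD (81 + k) 0| ≤ B) (x : ℝ) (hx : |x| ≤ 1) :
    |∑ k ∈ Finset.range 87, (((cf.getD k 0 : ℤ) : ℝ) / 2 ^ 80) * ct x k -
      ∑ k ∈ Finset.range (80 + 1), (((cf.getD k 0 : ℤ) : ℝ) / 2 ^ 80) * ct x k| ≤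
      (B : ℝ) / 2 ^ 80 := by
  rw [show (87 : ℕ) = 81 + 6 from rfl, Finset.sum_range_add, show (80 + 1 : ℕ) = 81 from rfl,
    add_sub_cancel_left]
  refine (Finset.abs_sum_le_sum_abs _ _).trans ?_
  calc ∑ k ∈ Finset.range 6, |(((cf.getD (81 + k) 0 : ℤ) : ℝ) / 2 ^ 80) * ct x (81 + k)|
      ≤ ∑ k ∈ Finset.range 6, ((|cf.getD (81 + k) 0| : ℤ) : ℝ) / 2 ^ 80 := by
        refine Finset.sum_le_sum fun k _ => ?_
        rw [abs_mul, abs_div, abs_of_pos (by positivity : (0 : ℝ) < 2 ^ 80), ← Int.cast_abs]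
        exact mul_le_of_le_one_right (by positivity) (ct_abs_le_one x hx _)
    _ = ((∑ k ∈ Finset.range 6, |cf.getD (81 + k) 0| : ℤ) : ℝ) / 2 ^ 80 := by
        rw [Int.cast_sum, Finset.sum_div]
    _ ≤ _ := div_le_div_of_nonneg_right (by exact_mod_cast hB) (by positivity)

/-- coefficients truncated at degree 80. -/
theorem cf7_spec' (x : ℝ) (hx : |x| ≤ 1) : |Real.exp (-(7 * (256 / 25)) * (x + 1)) -
    ∑ k ∈ Finset.range (80 + 1), (((cf7.getD k 0 : ℤ) : ℝ) / 2 ^ 80) * ct x k| ≤ 1 / 10 ^ 16 := by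
  have h1 := cf7_spec x hx
  have h2 := trunc_tail cf7 100000 (by decide +kernel) x hx
  rw [show (-(7 * (256 / 25) : ℝ)) = -(1792 / 25) by norm_num]
  have h3 := abs_add_le (Real.exp (-(1792 / 25) * (x + 1)) -
    ∑ k ∈ Finset.range 87, (((cf7.getD k 0 : ℤ) : ℝ) / 2 ^ 80) * ct x k)
    (∑ k ∈ Finset.range 87, (((cf7.getD k 0 : ℤ) : ℝ) / 2 ^ 80) * ct x k -
    ∑ k ∈ Finset.range (80 + 1), (((cf7.getD k 0 : ℤ) : ℝ) / 2 ^ 80) * ct x k)
  rw [sub_add_sub_cancel] at h3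
  refine h3.trans ((add_le_add h1 h2).trans ?_)
  norm_num

theorem cf10_spec' (x : ℝ) (hx : |x| ≤ 1) : |Real.exp (-(10 * (256 / 25)) * (x + 1)) -
    ∑ k ∈ Finset.range (80 + 1), (((cf10.getD k 0 : ℤ) : ℝ) / 2 ^ 80) * ct x k| ≤ 1 / 10 ^ 14 := by
  have h1 := cf10_spec x hx
  have h2 := trunc_tail cf10 8200000000 (by decide +kernel) x hx
  rw [show (-(10 * (256 / 25) : ℝ)) = -(512 / 5) by norm_num]
  have h3 := abs_add_le (Real.exp (-(512 / 5) * (x + 1)) -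
    ∑ k ∈ Finset.range 87, (((cf10.getD k 0 : ℤ) : ℝ) / 2 ^ 80) * ct x k)
    (∑ k ∈ Finset.range 87, (((cf10.getD k 0 : ℤ) : ℝ) / 2 ^ 80) * ct x k -
    ∑ k ∈ Finset.range (80 + 1), (((cf10.getD k 0 : ℤ) : ℝ) / 2 ^ 80) * ct x k)
  rw [sub_add_sub_cancel] at h3
  refine h3.trans ((add_le_add h1 h2).trans ?_)
  norm_num

/-- the Chebyshev weight bounds. -/
theorem cf_weight (cf : List ℤ) (B : ℤ) (hB : ∑ k ∈ Finset.range 80, |cf.getD (k + 1) 0| *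
    (((k : ℤ) + 1) * ((k : ℤ) + 2)) ≤ B) (Wb : ℝ) (hW : (B : ℝ) / (2 * 2 ^ 80) ≤ Wb) :
    ∑ k ∈ Finset.range 80, |((cf.getD (k + 1) 0 : ℤ) : ℝ) / 2 ^ 80| *
      (((k + 1 : ℕ) : ℝ) * ((k + 1 : ℕ) + 1) / 2) ≤ Wb := by
  refine le_trans (le_of_eq ?_) ((div_le_div_of_nonneg_right
    (by exact_mod_cast hB : ((∑ k ∈ Finset.range 80, |cf.getD (k + 1) 0| *
    (((k : ℤ) + 1) * ((k : ℤ) + 2)) : ℤ) : ℝ) ≤ B)
    (by positivity : (0 : ℝ) ≤ 2 * 2 ^ 80)).trans hW)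
  rw [Int.cast_sum, Finset.sum_div]
  refine Finset.sum_congr rfl fun k _ => ?_
  rw [abs_div, abs_of_pos (by positivity : (0 : ℝ) < 2 ^ 80)]
  push_cast
  field_simp
  ring

theorem cf7_weight : ∑ k ∈ Finset.range 80, |((cf7.getD (k + 1) 0 : ℤ) : ℝ) / 2 ^ 80| *
      (((k + 1 : ℕ) : ℝ) * ((k + 1 : ℕ) + 1) / 2) ≤ 40 :=
  cf_weight cf7 (40 * (2 * 2 ^ 80)) (by decide +kernel) 40 (by norm_num)

theorem cf10_weight : ∑ k ∈ Finset.range 80, |((cf10.getD (k + 1) 0 : ℤ) : ℝ) / 2 ^ 80| *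
      (((k + 1 : ℕ) : ℝ) * ((k + 1 : ℕ) + 1) / 2) ≤ 56 :=
  cf_weight cf10 (56 * (2 * 2 ^ 80)) (by decide +kernel) 56 (by norm_num)

section CZ7
variable {κ : Type} [Fintype κ] [DecidableEq κ]
variable {M : Mach} {C : Coord κ M.n M.d} {ux : Bool} {rs : List Run} {gs : List (κ → κ)}

/-- common evaluation lemma. -/
theorem value_gen (A : Matrix κ κ ℝ) (hs : A.IsSymm)
    (hc : ∀ x : κ → ℝ, |x ⬝ᵥ A *ᵥ x| ≤ x ⬝ᵥ x) (β c ρ : ℝ) (cf : List ℤ) (η : ℝ)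
    (hlen : 81 ≤ cf.length)
    (hb : ∀ x : ℝ, |x| ≤ 1 → |Real.exp (-(β * ρ) * (x + 1)) -
      ∑ k ∈ Finset.range (80 + 1), (((cf.getD k 0 : ℤ) : ℝ) / 2 ^ 80) * ct x k| ≤ η)
    (p : κ → Prop) [DecidablePred p] (f : κ → κ) (n0 nc S R j : ℕ) (T : List (List ℕ))
    (hT : T.length = 80) (hS : 0 < S)
    (h0 : (∑ σ, if p σ then TA A 0 (f σ) σ else 0) = (n0 : ℝ))
    (hcard : (∑ σ : κ, if p σ then (1 : ℝ) else 0) = (nc : ℝ))
    (ht : ∀ k, k < 80 → |(((T.getD k []).getD j 0 : ℕ) : ℝ) - ((nc : ℝ) * (R : ℝ) +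
      (S : ℝ) * ∑ σ, if p σ then TA A (k + 1) (f σ) σ else 0)| ≤
      nc * (√(Fintype.card κ : ℝ) * (((k + 1 : ℕ) : ℝ) * ((k + 1 : ℕ) + 1) / 2)))
    (sd Wb : ℝ) (hsd : √(Fintype.card κ : ℝ) ≤ sd)
    (hW : ∑ k ∈ Finset.range 80, |((cf.getD (k + 1) 0 : ℤ) : ℝ) / 2 ^ 80| *
      (((k + 1 : ℕ) : ℝ) * ((k + 1 : ℕ) + 1) / 2) ≤ Wb) :
    |(∑ σ, if p σ then NormedSpace.exp (-β • (c • (1 : Matrix κ κ ℝ) + ρ • A)) (f σ) σ else 0) *
        Real.exp (β * (c - ρ)) - ((Vz cf T j n0 nc S R : ℤ) : ℝ) / (2 ^ 80 * S)| ≤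
      nc * (η + sd * Wb / S) := by
  have hSR : (0 : ℝ) < S := by exact_mod_cast hS
  have h := cheb_value A hs hc β c ρ (fun k => ((cf.getD k 0 : ℤ) : ℝ) / 2 ^ 80) 80 η hb p f n0 nc S
    R (fun k => (((T.getD k []).getD j 0 : ℕ) : ℝ)) hSR h0 hcard ht
  have e1 : ((cf.getD 0 0 : ℤ) : ℝ) / 2 ^ 80 * (n0 : ℝ) + (∑ k ∈ Finset.range 80,
      ((cf.getD (k + 1) 0 : ℤ) : ℝ) / 2 ^ 80 * ((((T.getD k []).getD j 0 : ℕ) : ℝ) -
        (nc : ℝ) * (R : ℝ))) / S = ((Vz cf T j n0 nc S R : ℤ) : ℝ) / (2 ^ 80 * S) := by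
    rw [Vz_eq cf T j n0 nc S R 80 hT hlen]
    push_cast
    rw [Finset.sum_div]
    rw [add_div, Finset.sum_div]
    congr 1
    · field_simp
    · refine Finset.sum_congr rfl fun k _ => ?_
      field_simp
  rw [e1] at h
  refine h.trans ?_
  rw [mul_add]
  refine add_le_add le_rfl ?_
  rw [mul_div_assoc', mul_assoc]
  refine div_le_div_of_nonneg_right ?_ hSR.le
  refine mul_le_mul_of_nonneg_left ?_ (Nat.cast_nonneg nc)
  refine mul_le_mul hsd hW ?_ (le_trans (Real.sqrt_nonneg _) hsd)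
  exact Finset.sum_nonneg fun k _ => by positivity

end CZ7

end Crest.Agent.HG
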