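import Mathlib
import Crest.Agent.HG_CZ7
import Crest.Agent.HG_CH1
import Crest.Agent.HG_CH2
import Crest.Agent.HG_CH4
import Crest.Agent.HGC_BdOpen
import Crest.Agent.HGC_BdHalf

/-!
HG_CZ8 (part C assembly, helper71): contraction from operator bounds; flip readout totals.
-/

set_option autoImplicit false

namespace Crest.Agent.HG
open Matrix
open scoped ComplexOrder

section CZ8
variable {κ : Type} [Fintype κ] [DecidableEq κ]

theorem psd_real (B : Matrix κ κ ℝ) (h : (B.map fun x : ℝ => (x : ℂ)).PosSemidef) (x : κ → ℝ) :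
    0 ≤ x ⬝ᵥ B *ᵥ x := by
  have h1 := h.dotProduct_mulVec_nonneg (fun i => (x i : ℂ))
  have h2 : star (fun i => (x i : ℂ)) ⬝ᵥ ((B.map fun x : ℝ => (x : ℂ)) *ᵥ fun i => (x i : ℂ)) =
      ((x ⬝ᵥ B *ᵥ x : ℝ) : ℂ) := by
    simp only [dotProduct, mulVec, Pi.star_apply, Matrix.map_apply]
    push_cast
    refine Finset.sum_congr rfl fun i _ => ?_
    rw [show star ((x i : ℝ) : ℂ) = ((x i : ℝ) : ℂ) from Complex.conj_ofReal _]
  rw [h2] at h1
  exact_mod_cast h1

/-- contraction of `A` from operator bounds of `H = c + ρ A`. -/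
theorem contr_of_psd (H : Matrix κ κ ℂ) (A : Matrix κ κ ℝ) (c ρ a b : ℝ) (hρ : 0 < ρ)
    (hH : H = (c • (1 : Matrix κ κ ℝ) + ρ • A).map (fun x : ℝ => (x : ℂ)))
    (hl : (H + ((a : ℝ) : ℂ) • 1).PosSemidef) (hu : (((b : ℝ) : ℂ) • 1 - H).PosSemidef)
    (h1 : c - ρ ≤ -a) (h2 : b ≤ c + ρ) (x : κ → ℝ) : |x ⬝ᵥ A *ᵥ x| ≤ x ⬝ᵥ x := by
  have e1 : H + ((a : ℝ) : ℂ) • 1 =
      ((c + a) • (1 : Matrix κ κ ℝ) + ρ • A).map (fun x : ℝ => (x : ℂ)) := by
    rw [hH]
    ext i j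
    by_cases hij : i = j
    · subst hij
      simp
      ring
    · simp [hij]
  have e2 : ((b : ℝ) : ℂ) • 1 - H =
      ((b - c) • (1 : Matrix κ κ ℝ) - ρ • A).map (fun x : ℝ => (x : ℂ)) := by
    rw [hH]
    ext i j
    by_cases hij : i = j
    · subst hij
      simp
      ring
    · simp [hij]
  rw [e1] at hl
  rw [e2] at hu
  have h3 := psd_real _ hl x
  have h4 := psd_real _ hu x
  rw [add_mulVec, smul_mulVec, smul_mulVec, one_mulVec, dotProduct_add, dotProduct_smul,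
    dotProduct_smul, smul_eq_mul, smul_eq_mul] at h3
  rw [sub_mulVec, smul_mulVec, smul_mulVec, one_mulVec, dotProduct_sub, dotProduct_smul,
    dotProduct_smul, smul_eq_mul, smul_eq_mul] at h4
  have hx : 0 ≤ x ⬝ᵥ x := Finset.sum_nonneg fun i _ => mul_self_nonneg _
  have h5 : 0 ≤ (ρ - (c + a)) * (x ⬝ᵥ x) := mul_nonneg (by linarith) hx
  have h6 : 0 ≤ (ρ - (b - c)) * (x ⬝ᵥ x) := mul_nonneg (by linarith) hx
  rw [abs_le]
  constructor
  · have : 0 ≤ ρ * (x ⬝ᵥ A *ᵥ x + x ⬝ᵥ x) := by nlinarith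
    have := nonneg_of_mul_nonneg_right this hρ
    linarith
  · have : 0 ≤ ρ * (x ⬝ᵥ x - x ⬝ᵥ A *ᵥ x) := by nlinarith
    have := nonneg_of_mul_nonneg_right this hρ
    linarith

end CZ8

section CZ8b
variable {κ : Type} [Fintype κ] [DecidableEq κ]
variable {M : Mach} {C : Coord κ M.n M.d} {ux : Bool} {K : ℕ} {rs : List Run} {gs : List (κ → κ)}

/-- compatibility of the symmetries with the spin flip. -/
def FlipOK (C : Coord κ M.n M.d) (gs : List (κ → κ)) : Prop :=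
  ∀ g ∈ gs, ∀ σ, (C.Q (g σ) = M.n ↔ C.Q σ = M.n) ∧ C.fl (g σ) = g (C.fl σ)

theorem filter_sum (l : List ℕ) (p : ℕ → Bool) (f : ℕ → ℝ) :
    (l.map fun s => if p s = true then f s else 0).sum = ((l.filter p).map f).sum := by
  induction l with
  | nil => simp
  | cons a l ih =>
    rw [List.map_cons, List.sum_cons, ih, List.filter_cons]
    split_ifs with h
    · rw [List.map_cons, List.sum_cons]
    · rw [zero_add]

theorem MData.cov_flip (hD : MData M C ux K rs gs) (hX : FlipOK C gs) (h : κ → ℝ)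
    (hh : ∀ g ∈ gs, ∀ σ, h (g σ) = h σ) :
    (∑ σ, if C.Q σ = M.n then h σ else 0) = (rs.map fun r => (r.wt : ℝ) *
      (((M.fxs r).map fun s => h (C.ofIdx s)).sum)).sum := by
  rw [hD.cov (fun σ => if C.Q σ = M.n then h σ else 0) (fun g hg σ => by
    simp only [(hX g hg σ).1, hh g hg σ])]
  congr 1
  refine List.map_congr_left fun r hr => ?_
  have hS := side_spec M ux K r (hD.side r hr)
  have hq : ∀ s ∈ r.ev ++ r.od, C.Q (C.ofIdx s) = M.qsum s := by
    intro s hs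
    have hsD : s < M.D := by
      rcases List.mem_append.1 hs with h | h
      · exact hS.ev_lt s h
      · exact hS.od_lt s h
    rw [← qsum_idx M C, C.idx_ofIdx s hsD]
  congr 1
  unfold Mach.fxs
  rw [← filter_sum]
  congr 1
  refine List.map_congr_left fun s hs => ?_
  rw [hq s hs]
  by_cases h1 : M.qsum s = M.n
  · rw [if_pos h1, if_pos (by rw [h1]; exact Nat.beq_refl _ : Nat.beq (M.qsum s) M.n = true)]
  · rw [if_neg h1, if_neg (fun h2 => h1 (Nat.eq_of_beq_eq_true h2))]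

theorem fxs_len (hD : MData M C true K rs gs) (r : Run) (hr : r ∈ rs) :
    r.fx.length = (M.fxs r).length := by
  have := (side_spec M true K r (hD.side r hr)).fx rfl
  rw [this, List.length_map]
  rfl

theorem MData.cntX (hD : MData M C true K rs gs) (hX : FlipOK C gs) :
    (∑ σ : κ, if C.Q σ = M.n then (1 : ℝ) else 0) = (HG.cntX rs : ℝ) := by
  rw [hD.cov_flip hX (fun _ => 1) (fun _ _ _ => rfl), cntX_eq]
  rw [rs_map_const rs _ _ fun _ => rfl]
  norm_cast
  unfold wsum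
  congr 1
  refine List.map_congr_left fun r hr => ?_
  show r.wt * (M.fxs r).length = r.wt * r.fx.length
  rw [fxs_len hD r hr]

theorem MData.mom_x (hD : MData M C true K rs gs) (hX : FlipOK C gs)
    (hfi : ∀ σ, C.idx (C.fl σ) = M.flI (C.idx σ)) (hfQ : ∀ σ, C.Q σ = M.n → C.Q (C.fl σ) = M.n)
    (k : ℕ) (hk : k < K) :
    |((((tot K rs).getD k []).getD 2 0 : ℕ) : ℝ) - ((HG.cntX rs : ℝ) * 2 ^ M.r +
      (M.S : ℝ) * ∑ σ, if C.Q σ = M.n then TA (M.A C) (k + 1) (C.fl σ) σ else 0)| ≤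
      HG.cntX rs * (√(Fintype.card κ : ℝ) * (((k + 1 : ℕ) : ℝ) * ((k + 1 : ℕ) + 1) / 2)) := by
  rw [hD.cov_flip hX (fun σ => TA (M.A C) (k + 1) (C.fl σ) σ)
    (fun g hg σ => by
      simp only [(hX g hg σ).2]
      exact TA_inv (M.A C) g (hD.inv g hg).1 (hD.inv g hg).2.1 (k + 1) _ σ),
    hD.tot_eq k 2 hk (by norm_num), cntX_eq]
  refine wsum_err rs _ _ (fun r => ((M.fxs r).map fun s =>
    TA (M.A C) (k + 1) (C.fl (C.ofIdx s)) (C.ofIdx s)).sum) _ _ _ fun r hr => ?_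
  exact run_momentX M C K r hD.hs hD.hc hD.hblk (qsum_idx M C) (fun i hi => C.idx_ofIdx i hi)
    C.ofIdx_idx hfi hfQ (side_spec M true K r (hD.side r hr)) (hD.sem r hr) k hk

end CZ8b

end Crest.Agent.HG
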