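import Mathlib
import Crest.Agent.HG_CZ8
import Crest.Agent.HG_CV1

/-!
HG_CZ9 (part C assembly, helper71): construction of `MData` for the machines.
-/

set_option autoImplicit false

namespace Crest.Agent.HG
open Matrix

section CZ9
variable {κ : Type} {n : ℕ} {d : ℕ → ℕ}

/-- involutive permutation of the sites -/
def PiOK (n : ℕ) (d : ℕ → ℕ) (π : ℕ → ℕ) : Prop :=
  ∀ k, k < n → π k < n ∧ π (π k) = k ∧ d (π k) = d k

instance (n : ℕ) (d : ℕ → ℕ) (π : ℕ → ℕ) : Decidable (PiOK n d π) := by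
  unfold PiOK; infer_instance

theorem coord_ext (C : Coord κ n d) {σ τ : κ} (h : ∀ k, k < n → C.dg σ k = C.dg τ k) : σ = τ := by
  have h1 : C.dg σ = C.dg τ := by
    funext k
    by_cases hk : k < n
    · exact h k hk
    · rw [C.dg_ge _ k (by omega), C.dg_ge _ k (by omega)]
  rw [← C.st_dg σ, h1, C.st_dg]

theorem dg_fl' (C : Coord κ n d) (σ : κ) {k : ℕ} (hk : k < n) :
    C.dg (C.fl σ) k = d k - 1 - C.dg σ k :=
  C.dg_st (fun k => d k - 1 - C.dg σ k)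
    (fun k hk => by have := C.dg_lt σ k hk; show d k - 1 - C.dg σ k < d k; omega) k hk

theorem dg_pm' (C : Coord κ n d) {π : ℕ → ℕ} (hπ : PiOK n d π) (σ : κ) {k : ℕ} (hk : k < n) :
    C.dg (C.pm π σ) k = C.dg σ (π k) := by
  refine C.dg_st (fun k => C.dg σ (π k)) (fun k hk => ?_) k hk
  rw [← (hπ k hk).2.2]
  exact C.dg_lt σ (π k) (hπ k hk).1

theorem Q_fl (C : Coord κ n d) (σ : κ) :
    C.Q (C.fl σ) + C.Q σ = ∑ k ∈ Finset.range n, (d k - 1) := by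
  unfold Coord.Q
  rw [← Finset.sum_add_distrib]
  refine Finset.sum_congr rfl fun k hk => ?_
  rw [Finset.mem_range] at hk
  rw [dg_fl' C σ hk]
  have := C.dg_lt σ k hk
  omega

theorem Q_pm (C : Coord κ n d) {π : ℕ → ℕ} (hπ : PiOK n d π) (σ : κ) :
    C.Q (C.pm π σ) = C.Q σ := by
  unfold Coord.Q
  refine Finset.sum_nbij' π π (fun k hk => ?_) (fun k hk => ?_) (fun k hk => ?_) (fun k hk => ?_)
    (fun k hk => ?_) <;> rw [Finset.mem_range] at hk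
  · rw [Finset.mem_range]; exact (hπ k hk).1
  · rw [Finset.mem_range]; exact (hπ k hk).1
  · exact (hπ k hk).2.1
  · exact (hπ k hk).2.1
  · exact dg_pm' C hπ σ hk

theorem fl_pm (C : Coord κ n d) {π : ℕ → ℕ} (hπ : PiOK n d π) (σ : κ) :
    C.fl (C.pm π σ) = C.pm π (C.fl σ) := by
  refine coord_ext C fun k hk => ?_
  rw [dg_fl' C _ hk, dg_pm' C hπ _ hk, dg_pm' C hπ _ hk, dg_fl' C _ (hπ k hk).1, (hπ k hk).2.2]

theorem fl_bij (C : Coord κ n d) (hd : ∀ k, k < n → 1 ≤ d k) : Function.Bijective C.fl :=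
  Function.Involutive.bijective (C.fl_fl hd)

theorem pm_bij (C : Coord κ n d) {π : ℕ → ℕ} (hπ : PiOK n d π) : Function.Bijective (C.pm π) :=
  Function.Involutive.bijective (C.pm_pm π hπ)

end CZ9

section CZ9b
variable {κ : Type} [Fintype κ] [DecidableEq κ]

/-- index actions: identity, flip, reversal, both. -/
def G4 (M : Mach) (π : ℕ → ℕ) : List (ℕ → ℕ) :=
  [fun i => i, fun i => M.flI i, fun i => M.pmI π i, fun i => M.flI (M.pmI π i)]
def G2u (M : Mach) (π : ℕ → ℕ) : List (ℕ → ℕ) := [fun i => i, fun i => M.pmI π i]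
def G2d (M : Mach) (π : ℕ → ℕ) : List (ℕ → ℕ) := [fun i => i, fun i => M.flI (M.pmI π i)]

def gs4 {n : ℕ} {d : ℕ → ℕ} (C : Coord κ n d) (π : ℕ → ℕ) : List (κ → κ) :=
  [fun σ => σ, C.fl, C.pm π, fun σ => C.fl (C.pm π σ)]
def gs2u {n : ℕ} {d : ℕ → ℕ} (C : Coord κ n d) (π : ℕ → ℕ) : List (κ → κ) := [fun σ => σ, C.pm π]
def gs2d {n : ℕ} {d : ℕ → ℕ} (C : Coord κ n d) (π : ℕ → ℕ) : List (κ → κ) :=
  [fun σ => σ, fun σ => C.fl (C.pm π σ)]

/-- kernel facts about the runs of a machine. -/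
structure RunsOK (M : Mach) (ux : Bool) (G : List (ℕ → ℕ)) (rs : List Run) : Prop where
  hC : M.pos M.offP ≤ Nat.shiftLeft M.offP (M.sh + 1) + M.neg M.offP
  side : ∀ r ∈ rs, M.side ux 80 r = true
  len : ∀ r ∈ rs, lenOK M r = true
  ok : ∀ r ∈ rs, M.ok r = true
  cov : HG.cov G rs = G.length * kGen 3 M.d (fun k => List.range (M.d k)) M.n
  cnt : HG.cnt rs = M.D

theorem mdata_mk {M : Mach} {C : Coord κ M.n M.d} {ux : Bool} {rs : List Run} {G : List (ℕ → ℕ)}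
    {gs : List (κ → κ)} (hR : RunsOK M ux G rs) (hM : M.WF)
    (hc : ∀ x : κ → ℝ, |x ⬝ᵥ (M.A C) *ᵥ x| ≤ x ⬝ᵥ x)
    (hS : M.S = 2 ^ M.r - 2 ^ (M.r - 4)) (hr : 30 ≤ M.r) (hD : M.D ≤ 26244)
    (hG : G.length = gs.length) (h0 : 0 < G.length) (h8 : G.length < 8)
    (hgs : ∀ i (h1 : i < G.length) (h2 : i < gs.length), Function.Bijective gs[i] ∧
      ∀ σ, C.idx (gs[i] σ) = G[i] (C.idx σ))
    (hinv : ∀ g ∈ gs, Function.Bijective g ∧ (∀ σ τ, M.K C (g σ) (g τ) = M.K C σ τ) ∧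
      ∀ σ, C.Q (g σ) % 2 = C.Q σ % 2) :
    MData M C ux 80 rs gs where
  hM := hM
  hC := hR.hC
  hs := by
    unfold Mach.A
    have h := K_symm M C
    rw [Matrix.IsSymm, Matrix.transpose_smul, ← Matrix.transpose_map, h.eq]
  hc := hc
  hblk := by
    intro σ τ h
    refine K_block M C hM.hop σ τ ?_
    intro h1
    apply h
    unfold Mach.A
    rw [Matrix.smul_apply, Matrix.map_apply, h1]
    simp
  hS := by
    have hcard : (Fintype.card κ : ℝ) ≤ 162 ^ 2 := by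
      rw [C.card]
      have : cwt M.d M.n ≤ 26244 := hD
      have h2 : ((cwt M.d M.n : ℕ) : ℝ) ≤ ((26244 : ℕ) : ℝ) := by exact_mod_cast this
      refine h2.trans ?_
      norm_num
    have hsq : √(Fintype.card κ : ℝ) ≤ 162 := Real.sqrt_le_iff.2 ⟨by norm_num, hcard⟩
    have h2 : (2 : ℕ) ^ (M.r - 4) ≤ 2 ^ M.r := Nat.pow_le_pow_right (by norm_num) (by omega)
    have h3 : (M.S : ℝ) = 2 ^ M.r - 2 ^ (M.r - 4) := by
      rw [hS, Nat.cast_sub h2]; push_cast; rfl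
    have h4 : (2 : ℝ) ^ 26 ≤ 2 ^ (M.r - 4) := pow_le_pow_right₀ (by norm_num) (by omega)
    rw [h3]
    push_cast
    nlinarith
  side := hR.side
  len := hR.len
  ok := hR.ok
  cov := fun h hh => cover M C G gs hG h0 h8 hgs rs (fun r hr s hs => by
    have hS := side_spec M ux 80 r (hR.side r hr)
    rcases List.mem_append.1 hs with h | h
    · exact hS.ev_lt s h
    · exact hS.od_lt s h) hR.cov hR.cnt h hh
  inv := by
    intro g hg
    obtain ⟨h1, h2, h3⟩ := hinv g hg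
    refine ⟨h1, ?_, h3⟩
    intro σ τ
    unfold Mach.A
    rw [Matrix.smul_apply, Matrix.map_apply, Matrix.smul_apply, Matrix.map_apply, h2]

theorem mdata4 {M : Mach} {C : Coord κ M.n M.d} {ux : Bool} {rs : List Run} {π : ℕ → ℕ}
    (hR : RunsOK M ux (G4 M π) rs) (hM : M.WF) (hπ : PiOK M.n M.d π)
    (hc : ∀ x : κ → ℝ, |x ⬝ᵥ (M.A C) *ᵥ x| ≤ x ⬝ᵥ x)
    (hS : M.S = 2 ^ M.r - 2 ^ (M.r - 4)) (hr : 30 ≤ M.r) (hD : M.D ≤ 26244)
    (hev : (∑ k ∈ Finset.range M.n, (M.d k - 1)) % 2 = 0)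
    (h1 : ∀ σ τ, M.K C (C.fl σ) (C.fl τ) = M.K C σ τ)
    (h2 : ∀ σ τ, M.K C (C.pm π σ) (C.pm π τ) = M.K C σ τ) :
    MData M C ux 80 rs (gs4 C π) := by
  have hd1 : ∀ k, k < M.n → 1 ≤ M.d k := fun k hk => le_trans (by norm_num) (hM.d2 k hk)
  have hfb := fl_bij C hd1
  have hpb := pm_bij C hπ
  have hfi : ∀ σ, C.idx (C.fl σ) = M.flI (C.idx σ) := fun σ => C.idx_fl σ
  have hpi : ∀ σ, C.idx (C.pm π σ) = M.pmI π (C.idx σ) := fun σ => idx_pm M C π hπ σ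
  have hQf : ∀ σ, C.Q (C.fl σ) % 2 = C.Q σ % 2 := by
    intro σ
    have := Q_fl C σ
    omega
  have hQp : ∀ σ, C.Q (C.pm π σ) = C.Q σ := Q_pm C hπ
  refine mdata_mk hR hM hc hS hr hD rfl (by show 0 < 4; norm_num) (by show 4 < 8; norm_num) ?_ ?_
  · intro i hi1 hi2
    have hi : i < 4 := hi1
    interval_cases i
    · exact ⟨Function.bijective_id, fun σ => rfl⟩
    · exact ⟨hfb, hfi⟩
    · exact ⟨hpb, hpi⟩
    · refine ⟨hfb.comp hpb, fun σ => ?_⟩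
      show C.idx (C.fl (C.pm π σ)) = M.flI (M.pmI π (C.idx σ))
      rw [hfi, hpi]
  · intro g hg
    simp only [gs4, List.mem_cons, List.not_mem_nil, or_false] at hg
    rcases hg with rfl | rfl | rfl | rfl
    · exact ⟨Function.bijective_id, fun σ τ => rfl, fun σ => rfl⟩
    · exact ⟨hfb, h1, hQf⟩
    · exact ⟨hpb, h2, fun σ => by rw [hQp]⟩
    · exact ⟨hfb.comp hpb, fun σ τ => by simp only [h1, h2], fun σ => by simp only [hQf, hQp]⟩

theorem mdata2u {M : Mach} {C : Coord κ M.n M.d} {ux : Bool} {rs : List Run} {π : ℕ → ℕ}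
    (hR : RunsOK M ux (G2u M π) rs) (hM : M.WF) (hπ : PiOK M.n M.d π)
    (hc : ∀ x : κ → ℝ, |x ⬝ᵥ (M.A C) *ᵥ x| ≤ x ⬝ᵥ x)
    (hS : M.S = 2 ^ M.r - 2 ^ (M.r - 4)) (hr : 30 ≤ M.r) (hD : M.D ≤ 26244)
    (h2 : ∀ σ τ, M.K C (C.pm π σ) (C.pm π τ) = M.K C σ τ) :
    MData M C ux 80 rs (gs2u C π) := by
  have hpb := pm_bij C hπ
  have hpi : ∀ σ, C.idx (C.pm π σ) = M.pmI π (C.idx σ) := fun σ => idx_pm M C π hπ σ
  have hQp : ∀ σ, C.Q (C.pm π σ) = C.Q σ := Q_pm C hπ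
  refine mdata_mk hR hM hc hS hr hD rfl (by show 0 < 2; norm_num) (by show 2 < 8; norm_num) ?_ ?_
  · intro i hi1 hi2
    have hi : i < 2 := hi1
    interval_cases i
    · exact ⟨Function.bijective_id, fun σ => rfl⟩
    · exact ⟨hpb, hpi⟩
  · intro g hg
    simp only [gs2u, List.mem_cons, List.not_mem_nil, or_false] at hg
    rcases hg with rfl | rfl
    · exact ⟨Function.bijective_id, fun σ τ => rfl, fun σ => rfl⟩
    · exact ⟨hpb, h2, fun σ => by rw [hQp]⟩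

theorem mdata2d {M : Mach} {C : Coord κ M.n M.d} {ux : Bool} {rs : List Run} {π : ℕ → ℕ}
    (hR : RunsOK M ux (G2d M π) rs) (hM : M.WF) (hπ : PiOK M.n M.d π)
    (hc : ∀ x : κ → ℝ, |x ⬝ᵥ (M.A C) *ᵥ x| ≤ x ⬝ᵥ x)
    (hS : M.S = 2 ^ M.r - 2 ^ (M.r - 4)) (hr : 30 ≤ M.r) (hD : M.D ≤ 26244)
    (hev : (∑ k ∈ Finset.range M.n, (M.d k - 1)) % 2 = 0)
    (h1 : ∀ σ τ, M.K C (C.fl (C.pm π σ)) (C.fl (C.pm π τ)) = M.K C σ τ) :
    MData M C ux 80 rs (gs2d C π) := by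
  have hd1 : ∀ k, k < M.n → 1 ≤ M.d k := fun k hk => le_trans (by norm_num) (hM.d2 k hk)
  have hfb := fl_bij C hd1
  have hpb := pm_bij C hπ
  have hfi : ∀ σ, C.idx (C.fl σ) = M.flI (C.idx σ) := fun σ => C.idx_fl σ
  have hpi : ∀ σ, C.idx (C.pm π σ) = M.pmI π (C.idx σ) := fun σ => idx_pm M C π hπ σ
  have hQf : ∀ σ, C.Q (C.fl σ) % 2 = C.Q σ % 2 := by
    intro σ
    have := Q_fl C σ
    omega
  have hQp : ∀ σ, C.Q (C.pm π σ) = C.Q σ := Q_pm C hπ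
  refine mdata_mk hR hM hc hS hr hD rfl (by show 0 < 2; norm_num) (by show 2 < 8; norm_num) ?_ ?_
  · intro i hi1 hi2
    have hi : i < 2 := hi1
    interval_cases i
    · exact ⟨Function.bijective_id, fun σ => rfl⟩
    · refine ⟨hfb.comp hpb, fun σ => ?_⟩
      show C.idx (C.fl (C.pm π σ)) = M.flI (M.pmI π (C.idx σ))
      rw [hfi, hpi]
  · intro g hg
    simp only [gs2d, List.mem_cons, List.not_mem_nil, or_false] at hg
    rcases hg with rfl | rfl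
    · exact ⟨Function.bijective_id, fun σ τ => rfl, fun σ => rfl⟩
    · exact ⟨hfb.comp hpb, h1, fun σ => by simp only [hQf, hQp]⟩

end CZ9b

end Crest.Agent.HG
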