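import Mathlib
import Crest.Agent.HG_CZ9
import Crest.Agent.HGB_Site

/-!
HG_CZ10 (part C assembly, helper71): the partition functions in terms of the even, odd and flip
parts of the trace.
-/

set_option autoImplicit false

namespace Crest.Agent.HG
open Matrix Crest.MathPhysics.SpinChain

section CZ10
variable {κ : Type} [Fintype κ] [DecidableEq κ]

theorem sum_par (q : κ → ℕ) (f : κ → ℝ) :
    ∑ σ, f σ = (∑ σ, if q σ % 2 = 0 then f σ else 0) + (∑ σ, if q σ % 2 = 1 then f σ else 0) := by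
  rw [← Finset.sum_add_distrib]
  refine Finset.sum_congr rfl fun σ _ => ?_
  rcases Nat.mod_two_eq_zero_or_one (q σ) with h | h <;> simp [h]

theorem sum_par_sign (q : κ → ℕ) (m : ℕ) (f : κ → ℝ) :
    ∑ σ, (-1 : ℝ) ^ (m + q σ) * f σ = (-1) ^ m * ((∑ σ, if q σ % 2 = 0 then f σ else 0) -
      (∑ σ, if q σ % 2 = 1 then f σ else 0)) := by
  rw [← Finset.sum_sub_distrib, Finset.mul_sum]
  refine Finset.sum_congr rfl fun σ _ => ?_
  rw [pow_add, mul_assoc]
  congr 1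
  rcases Nat.mod_two_eq_zero_or_one (q σ) with h | h
  · rw [Even.neg_one_pow (Nat.even_iff.2 h)]; simp [h]
  · rw [Odd.neg_one_pow (Nat.odd_iff.2 h)]; simp [h]

/-- even part -/
noncomputable def Fe (q : κ → ℕ) (E : Matrix κ κ ℝ) : ℝ := ∑ σ, if q σ % 2 = 0 then E σ σ else 0
/-- odd part -/
noncomputable def Fo (q : κ → ℕ) (E : Matrix κ κ ℝ) : ℝ := ∑ σ, if q σ % 2 = 1 then E σ σ else 0

theorem Zt_one_real (q : κ → ℕ) (H : Matrix κ κ ℝ) (β : ℝ) :
    Zt 1 (H.map fun x : ℝ => (x : ℂ)) β =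
      Fe q (NormedSpace.exp (-β • H)) + Fo q (NormedSpace.exp (-β • H)) := by
  have h := Zt_real 1 H β
  have h1 : (1 : Matrix κ κ ℝ).map (fun x : ℝ => (x : ℂ)) = 1 :=
    Matrix.map_one _ Complex.ofReal_zero Complex.ofReal_one
  rw [h1] at h
  rw [h, one_mul, Matrix.trace, Fe, Fo, ← sum_par q fun σ => NormedSpace.exp (-β • H) σ σ]
  rfl

theorem Zt_sign_real (q : κ → ℕ) (m : ℕ) (H : Matrix κ κ ℝ) (β : ℝ) :
    Zt ((Matrix.diagonal fun σ => (-1 : ℝ) ^ (m + q σ)).map fun x : ℝ => (x : ℂ))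
      (H.map fun x : ℝ => (x : ℂ)) β =
      (-1) ^ m * (Fe q (NormedSpace.exp (-β • H)) - Fo q (NormedSpace.exp (-β • H))) := by
  rw [Zt_real, Fe, Fo, ← sum_par_sign q m fun σ => NormedSpace.exp (-β • H) σ σ, Matrix.trace]
  refine Finset.sum_congr rfl fun σ _ => ?_
  rw [Matrix.diag_apply, Matrix.diagonal_mul]

theorem exp_block (q : κ → ℕ) (H : Matrix κ κ ℝ) (h : ∀ σ τ, H σ τ ≠ 0 → q σ = q τ) (σ τ : κ)
    (hne : q σ ≠ q τ) : NormedSpace.exp H σ τ = 0 := by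
  set D : Matrix κ κ ℝ := Matrix.diagonal fun σ => (q σ : ℝ) with hD
  have h1 : Commute D H := by
    show D * H = H * D
    ext a b
    rw [hD, Matrix.diagonal_mul, Matrix.mul_diagonal]
    by_cases hab : H a b = 0
    · rw [hab]; simp
    · rw [h a b hab]; ring
  have h2 : D * NormedSpace.exp H = NormedSpace.exp H * D := h1.exp_right
  have h3 := congrFun (congrFun h2 σ) τ
  rw [hD, Matrix.diagonal_mul, Matrix.mul_diagonal] at h3
  have h4 : ((q σ : ℝ) - (q τ : ℝ)) * NormedSpace.exp H σ τ = 0 := by linarith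
  rcases mul_eq_zero.1 h4 with h5 | h5
  · exact absurd (by exact_mod_cast sub_eq_zero.1 h5) hne
  · exact h5

end CZ10

/-! ### the rotations -/

theorem R1z (a b : Fin 3) : R1 2 a b = if a = b then (((-1 : ℝ) ^ (1 + (a : ℕ)) : ℝ) : ℂ) else 0 := by
  rw [Crest.Agent.HGB.R1_two_eq]
  fin_cases a <;> fin_cases b <;> simp
  norm_num

theorem R1x (a b : Fin 3) : R1 0 a b = if (b : ℕ) = 2 - (a : ℕ) then (((-1 : ℝ)) : ℂ) else 0 := by
  rw [Crest.Agent.HGB.R1_zero_eq]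
  fin_cases a <;> fin_cases b <;> simp

theorem coordF_dg (n : ℕ) (σ : Fin n → Fin 3) (j : Fin n) : (coordF n).dg σ (j : ℕ) = (σ j : ℕ) := by
  simp [coordF]

theorem coordF_Q (n : ℕ) (σ : Fin n → Fin 3) : (coordF n).Q σ = ∑ j, (σ j : ℕ) := by
  unfold Coord.Q
  rw [← Fin.sum_univ_eq_sum_range]
  exact Finset.sum_congr rfl fun j _ => coordF_dg n σ j

theorem RN2_eq (n : ℕ) : (RN 2 : Matrix (Fin n → Fin 3) (Fin n → Fin 3) ℂ) =
    (Matrix.diagonal fun σ => (-1 : ℝ) ^ (n + (coordF n).Q σ)).map fun x : ℝ => (x : ℂ) := by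
  ext σ τ
  rw [Matrix.map_apply, Matrix.diagonal_apply, RN, Matrix.of_apply]
  by_cases h : σ = τ
  · subst h
    rw [if_pos rfl, coordF_Q]
    have h1 : ∀ j, R1 2 (σ j) (σ j) = (((-1 : ℝ) ^ (1 + (σ j : ℕ)) : ℝ) : ℂ) := fun j => by
      rw [R1z, if_pos rfl]
    rw [Finset.prod_congr rfl fun j _ => h1 j, ← Complex.ofReal_prod, Finset.prod_pow_eq_pow_sum]
    congr 2
    rw [Finset.sum_add_distrib]
    simp
  · rw [if_neg h]
    obtain ⟨j, hj⟩ := Function.ne_iff.1 h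
    rw [Complex.ofReal_zero]
    exact Finset.prod_eq_zero (Finset.mem_univ j) (by rw [R1z, if_neg hj])

theorem coordF_fl (n : ℕ) (σ : Fin n → Fin 3) (j : Fin n) :
    ((coordF n).fl σ j : ℕ) = 2 - (σ j : ℕ) := by
  rw [← coordF_dg n ((coordF n).fl σ) j, dg_fl' (coordF n) σ j.2, coordF_dg]

theorem RN0_eq (n : ℕ) : (RN 0 : Matrix (Fin n → Fin 3) (Fin n → Fin 3) ℂ) =
    (Matrix.of fun σ τ => if τ = (coordF n).fl σ then (-1 : ℝ) ^ n else 0).map
      fun x : ℝ => (x : ℂ) := by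
  ext σ τ
  rw [Matrix.map_apply, Matrix.of_apply, RN, Matrix.of_apply]
  by_cases h : τ = (coordF n).fl σ
  · rw [if_pos h]
    have h1 : ∀ j, R1 0 (σ j) (τ j) = (((-1 : ℝ)) : ℂ) := fun j => by
      rw [R1x, if_pos (by rw [h, coordF_fl])]
    rw [Finset.prod_congr rfl fun j _ => h1 j]
    simp
  · rw [if_neg h]
    obtain ⟨j, hj⟩ := Function.ne_iff.1 h
    rw [Complex.ofReal_zero]
    refine Finset.prod_eq_zero (Finset.mem_univ j) ?_
    rw [R1x, if_neg]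
    intro h2
    apply hj
    apply Fin.ext
    rw [coordF_fl, h2]

/-- flip part -/
noncomputable def Fx {κ : Type} [Fintype κ] {n : ℕ} {d : ℕ → ℕ} (C : Coord κ n d)
    (E : Matrix κ κ ℝ) : ℝ := ∑ σ, if C.Q σ = n then E (C.fl σ) σ else 0

theorem Zt_RN2 (n : ℕ) (H : Matrix (Fin n → Fin 3) (Fin n → Fin 3) ℝ) (β : ℝ) :
    Zt (RN 2) (H.map fun x : ℝ => (x : ℂ)) β = (-1) ^ n *
      (Fe (coordF n).Q (NormedSpace.exp (-β • H)) - Fo (coordF n).Q (NormedSpace.exp (-β • H))) := by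
  rw [RN2_eq, Zt_sign_real]

theorem Zt_RN0 (n : ℕ) (H : Matrix (Fin n → Fin 3) (Fin n → Fin 3) ℝ) (β : ℝ)
    (hH : ∀ σ τ, H σ τ ≠ 0 → (coordF n).Q σ = (coordF n).Q τ) :
    Zt (RN 0) (H.map fun x : ℝ => (x : ℂ)) β = (-1) ^ n *
      Fx (coordF n) (NormedSpace.exp (-β • H)) := by
  rw [RN0_eq, Zt_real, Matrix.trace, Fx, Finset.mul_sum]
  refine Finset.sum_congr rfl fun σ _ => ?_
  rw [Matrix.diag_apply, Matrix.mul_apply]
  rw [Finset.sum_eq_single ((coordF n).fl σ) (fun τ _ hτ => by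
    rw [Matrix.of_apply, if_neg hτ, zero_mul]) (fun h => absurd (Finset.mem_univ _) h)]
  rw [Matrix.of_apply, if_pos rfl]
  by_cases hQ : (coordF n).Q σ = n
  · rw [if_pos hQ]
  · rw [if_neg hQ, exp_block (coordF n).Q (-β • H) ?_ _ _ ?_]
    · intro a b hab
      refine hH a b fun h0 => hab ?_
      rw [Matrix.smul_apply, h0, smul_zero]
    · intro h1
      have h2 := Q_fl (coordF n) σ
      simp only [Finset.sum_const, Finset.card_range, smul_eq_mul] at h2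
      omega

/-! ### the half-chain -/

theorem coordH_Q (m : ℕ) (σ : Fin 2 × (Fin (m + 1) → Fin 3) × Fin 2) :
    (coordH m).Q σ = (∑ j, (σ.2.1 j : ℕ)) + (σ.1 : ℕ) + (σ.2.2 : ℕ) := by
  unfold Coord.Q
  rw [Finset.sum_range_succ, Finset.sum_range_succ]
  have h1 : (coordH m).dg σ (m + 1) = (σ.1 : ℕ) := by simp [coordH]
  have h2 : (coordH m).dg σ (m + 1 + 1) = (σ.2.2 : ℕ) := by simp [coordH]
  rw [h1, h2, ← Fin.sum_univ_eq_sum_range]
  congr 2
  refine Finset.sum_congr rfl fun j _ => ?_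
  simp only [coordH]
  rw [dif_pos j.2]

theorem halfR_real (m : ℕ) : halfR m =
    (Matrix.diagonal fun σ => (-1 : ℝ) ^ (m + 2 + (coordH m).Q σ)).map fun x : ℝ => (x : ℂ) := by
  ext σ τ
  rw [Matrix.map_apply, Matrix.diagonal_apply, halfR, Matrix.diagonal_apply]
  by_cases h : σ = τ
  · rw [if_pos h, if_pos h, coordH_Q]
    push_cast
    congr 1
    rw [Finset.sum_add_distrib]
    simp
    ring
  · rw [if_neg h, if_neg h, Complex.ofReal_zero]

theorem Zt_halfR (m : ℕ) (H : Matrix (Fin 2 × (Fin (m + 1) → Fin 3) × Fin 2)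
      (Fin 2 × (Fin (m + 1) → Fin 3) × Fin 2) ℝ) (β : ℝ) :
    Zt (halfR m) (H.map fun x : ℝ => (x : ℂ)) β = (-1) ^ (m + 2) *
      (Fe (coordH m).Q (NormedSpace.exp (-β • H)) - Fo (coordH m).Q (NormedSpace.exp (-β • H))) := by
  rw [halfR_real, Zt_sign_real]

end Crest.Agent.HG
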