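import Mathlib
import Crest.Agent.HG_CZ10

/-!
HG_CZ11 (part C assembly, helper71): values of the even, odd and flip parts from the kernel data.
-/

set_option autoImplicit false

namespace Crest.Agent.HG
open Matrix Crest.MathPhysics.SpinChain

/-- a certified Chebyshev expansion of `exp (-β ρ (x+1))`, `ρ = 256/25`. -/
structure CfOK (β : ℝ) (cf : List ℤ) (η Wb : ℝ) : Prop where
  hlen : 81 ≤ cf.length
  hb : ∀ x : ℝ, |x| ≤ 1 → |Real.exp (-(β * (256 / 25)) * (x + 1)) -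
      ∑ k ∈ Finset.range (80 + 1), (((cf.getD k 0 : ℤ) : ℝ) / 2 ^ 80) * ct x k| ≤ η
  hW : ∑ k ∈ Finset.range 80, |((cf.getD (k + 1) 0 : ℤ) : ℝ) / 2 ^ 80| *
      (((k + 1 : ℕ) : ℝ) * ((k + 1 : ℕ) + 1) / 2) ≤ Wb

theorem cfOK7 : CfOK 7 cf7 (1 / 10 ^ 16) 40 :=
  ⟨by rw [cf7_len]; norm_num, cf7_spec', cf7_weight⟩

theorem cfOK10 : CfOK 10 cf10 (1 / 10 ^ 14) 56 :=
  ⟨by rw [cf10_len]; norm_num, cf10_spec', cf10_weight⟩

section CZ11
variable {κ : Type} [Fintype κ] [DecidableEq κ]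
variable {M : Mach} {C : Coord κ M.n M.d} {ux : Bool} {rs : List Run} {gs : List (κ → κ)}
variable {β : ℝ} {cf : List ℤ} {η Wb : ℝ}

theorem MData.tot_len {K : ℕ} (hD : MData M C ux K rs gs) (hK : 0 < K) :
    (tot K rs).length = K :=
  (tot_getD K rs (fun r hr => (side_spec M ux K r (hD.side r hr)).len)
    (fun r hr => (side_spec M ux K r (hD.side r hr)).len3) 0 0 hK (by norm_num)).1

/-- the real Hamiltonian `c + ρ A` -/
noncomputable def Hr (M : Mach) (C : Coord κ M.n M.d) (c : ℝ) : Matrix κ κ ℝ :=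
  c • (1 : Matrix κ κ ℝ) + (256 / 25 : ℝ) • M.A C

theorem TA0_sum (A : Matrix κ κ ℝ) (p : κ → Prop) [DecidablePred p] :
    (∑ σ, if p σ then TA A 0 σ σ else 0) = ∑ σ : κ, if p σ then (1 : ℝ) else 0 := by
  refine Finset.sum_congr rfl fun σ _ => ?_
  rw [TA_zero, Matrix.one_apply_eq]

theorem MData.val_e (hD : MData M C ux 80 rs gs) (hcf : CfOK β cf η Wb) (hS : 0 < M.S) (c sd : ℝ)
    (hsd : √(Fintype.card κ : ℝ) ≤ sd) :
    |Fe C.Q (NormedSpace.exp (-β • Hr M C c)) * Real.exp (β * (c - 256 / 25)) -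
      ((Vz cf (tot 80 rs) 0 (HG.cntE rs) (HG.cntE rs) M.S (2 ^ M.r) : ℤ) : ℝ) / (2 ^ 80 * M.S)| ≤
      HG.cntE rs * (η + sd * Wb / M.S) := by
  refine value_gen (M.A C) hD.hs hD.hc β c (256 / 25) cf η hcf.hlen hcf.hb
    (fun σ => C.Q σ % 2 = 0) (fun σ => σ) (HG.cntE rs) (HG.cntE rs) M.S (2 ^ M.r) 0 (tot 80 rs)
    (hD.tot_len (by norm_num)) hS ?_ ?_ ?_ sd Wb hsd hcf.hW
  · rw [TA0_sum]; exact hD.cntE
  · exact hD.cntE
  · intro k hk
    have h := hD.mom_e k hk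
    push_cast at h ⊢
    exact h

theorem MData.val_o (hD : MData M C ux 80 rs gs) (hcf : CfOK β cf η Wb) (hS : 0 < M.S) (c sd : ℝ)
    (hsd : √(Fintype.card κ : ℝ) ≤ sd) :
    |Fo C.Q (NormedSpace.exp (-β • Hr M C c)) * Real.exp (β * (c - 256 / 25)) -
      ((Vz cf (tot 80 rs) 1 (HG.cntO rs) (HG.cntO rs) M.S (2 ^ M.r) : ℤ) : ℝ) / (2 ^ 80 * M.S)| ≤
      HG.cntO rs * (η + sd * Wb / M.S) := by
  refine value_gen (M.A C) hD.hs hD.hc β c (256 / 25) cf η hcf.hlen hcf.hb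
    (fun σ => C.Q σ % 2 = 1) (fun σ => σ) (HG.cntO rs) (HG.cntO rs) M.S (2 ^ M.r) 1 (tot 80 rs)
    (hD.tot_len (by norm_num)) hS ?_ ?_ ?_ sd Wb hsd hcf.hW
  · rw [TA0_sum]; exact hD.cntO
  · exact hD.cntO
  · intro k hk
    have h := hD.mom_o k hk
    push_cast at h ⊢
    exact h

theorem MData.val_x (hD : MData M C true 80 rs gs) (hX : FlipOK C gs)
    (h0 : (∑ σ, if C.Q σ = M.n then TA (M.A C) 0 (C.fl σ) σ else 0) = 1)
    (hfQ : ∀ σ, C.Q σ = M.n → C.Q (C.fl σ) = M.n)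
    (hcf : CfOK β cf η Wb) (hS : 0 < M.S) (c sd : ℝ) (hsd : √(Fintype.card κ : ℝ) ≤ sd) :
    |Fx C (NormedSpace.exp (-β • Hr M C c)) * Real.exp (β * (c - 256 / 25)) -
      ((Vz cf (tot 80 rs) 2 1 (HG.cntX rs) M.S (2 ^ M.r) : ℤ) : ℝ) / (2 ^ 80 * M.S)| ≤
      HG.cntX rs * (η + sd * Wb / M.S) := by
  refine value_gen (M.A C) hD.hs hD.hc β c (256 / 25) cf η hcf.hlen hcf.hb
    (fun σ => C.Q σ = M.n) C.fl 1 (HG.cntX rs) M.S (2 ^ M.r) 2 (tot 80 rs)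
    (hD.tot_len (by norm_num)) hS ?_ ?_ ?_ sd Wb hsd hcf.hW
  · rw [h0]; norm_num
  · exact hD.cntX hX
  · intro k hk
    have h := hD.mom_x hX (fun σ => C.idx_fl σ) hfQ k hk
    push_cast at h ⊢
    exact h

end CZ11

/-- final combination. -/
theorem fin_T {Z F x : ℝ} (β c a : ℝ) (hZ : Z * Real.exp (β * (c - 256 / 25)) = F)
    (hn : x = -(β * (c - 256 / 25)) - a) : Z * Real.exp (-a) = Real.exp x * F := by
  rw [← hZ, hn, mul_comm (Real.exp _), mul_assoc, ← Real.exp_add]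
  congr 2
  ring

end Crest.Agent.HG
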