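import Mathlib
import Crest.Agent.HG_CZ11

/-!
HG_CZ12 (part C assembly, helper71): the ring.
-/

set_option autoImplicit false

namespace Crest.Agent.HG
open Matrix Crest.MathPhysics.SpinChain

/-- admissible parameters of the ring -/
def RingPar (L negc : ℕ) : Prop := (L = 4 ∧ negc = 206) ∨ (L = 6 ∧ negc = 181) ∨ (L = 8 ∧ negc = 156)

theorem ring_WF {L negc : ℕ} (h : RingPar L negc) (tw : Bool) : (ringM L tw 56 negc).WF := by
  rcases h with ⟨rfl, rfl⟩ | ⟨rfl, rfl⟩ | ⟨rfl, rfl⟩ <;> cases tw <;>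
    exact ⟨by decide +kernel, by decide +kernel, by decide +kernel, by decide +kernel,
      by decide +kernel, by decide +kernel, by decide +kernel⟩

theorem ring_pi {L negc : ℕ} (h : RingPar L negc) (tw : Bool) :
    PiOK (ringM L tw 56 negc).n (ringM L tw 56 negc).d (rvF L) := by
  rcases h with ⟨rfl, rfl⟩ | ⟨rfl, rfl⟩ | ⟨rfl, rfl⟩ <;> cases tw <;> decide

theorem ring_hc {L negc : ℕ} (h : RingPar L negc) (tw : Bool) (x : (Fin L → Fin 3) → ℝ) :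
    |x ⬝ᵥ ((ringM L tw 56 negc).A (coordF L)) *ᵥ x| ≤ x ⬝ᵥ x := by
  rcases h with ⟨rfl, rfl⟩ | ⟨rfl, rfl⟩ | ⟨rfl, rfl⟩ <;>
    exact ring_contr _ (by norm_num) tw 56 _ (by norm_num) (by norm_num) x

theorem ring_data {L negc : ℕ} (h : RingPar L negc) {tw : Bool} {rs : List Run}
    (hR : RunsOK (ringM L tw 56 negc) tw (G4 (ringM L tw 56 negc) (rvF L)) rs) :
    MData (ringM L tw 56 negc) (coordF L) tw 80 rs (gs4 (coordF L) (rvF L)) := by
  have h3 : 3 ≤ L := by rcases h with ⟨rfl, rfl⟩ | ⟨rfl, rfl⟩ | ⟨rfl, rfl⟩ <;> norm_num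
  refine mdata4 (M := ringM L tw 56 negc) (C := coordF L) hR (ring_WF h tw) (ring_pi h tw)
    (ring_hc h tw) rfl (by show 30 ≤ 56; norm_num) ?_ ?_
    (ring_fl L h3 tw 56 negc) (ring_rv L h3 tw 56 negc)
  · have h5 : cwt (fun _ => 3) L ≤ 26244 := by
      rcases h with ⟨rfl, rfl⟩ | ⟨rfl, rfl⟩ | ⟨rfl, rfl⟩ <;> decide
    exact h5
  · show (∑ k ∈ Finset.range L, (3 - 1)) % 2 = 0
    rw [Finset.sum_const, smul_eq_mul]
    omega


theorem ring_flipOK {L negc : ℕ} (h : RingPar L negc) (tw : Bool) :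
    FlipOK (M := ringM L tw 56 negc) (coordF L) (gs4 (coordF L) (rvF L)) := by
  have hπ : PiOK L (fun _ => 3) (rvF L) := ring_pi h tw
  have hQf : ∀ σ, (coordF L).Q ((coordF L).fl σ) = L ↔ (coordF L).Q σ = L := by
    intro σ
    have h2 := Q_fl (coordF L) σ
    simp only [Finset.sum_const, Finset.card_range, smul_eq_mul] at h2
    omega
  have hQp : ∀ σ, (coordF L).Q ((coordF L).pm (rvF L) σ) = (coordF L).Q σ := Q_pm (coordF L) hπ
  intro g hg σ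
  simp only [gs4, List.mem_cons, List.not_mem_nil, or_false] at hg
  rcases hg with rfl | rfl | rfl | rfl
  · exact ⟨Iff.rfl, rfl⟩
  · exact ⟨hQf σ, rfl⟩
  · refine ⟨?_, fl_pm (coordF L) hπ σ⟩
    show (coordF L).Q ((coordF L).pm (rvF L) σ) = L ↔ (coordF L).Q σ = L
    rw [hQp]
  · refine ⟨?_, ?_⟩
    · show (coordF L).Q ((coordF L).fl ((coordF L).pm (rvF L) σ)) = L ↔ (coordF L).Q σ = L
      rw [hQf, hQp]
    · show (coordF L).fl ((coordF L).fl ((coordF L).pm (rvF L) σ)) =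
        (coordF L).fl ((coordF L).pm (rvF L) ((coordF L).fl σ))
      rw [fl_pm (coordF L) hπ σ]

theorem ring_n0 (L : ℕ) (A : Matrix (Fin L → Fin 3) (Fin L → Fin 3) ℝ) :
    (∑ σ, if (coordF L).Q σ = L then TA A 0 ((coordF L).fl σ) σ else 0) = 1 := by
  have key : ∀ σ, (if (coordF L).Q σ = L then TA A 0 ((coordF L).fl σ) σ else 0) =
      if σ = fun _ => 1 then (1 : ℝ) else 0 := by
    intro σ
    by_cases h : σ = fun _ => 1
    · have hf : (coordF L).fl σ = σ := by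
        funext j
        apply Fin.ext
        rw [coordF_fl, h]
        rfl
      have hQ : (coordF L).Q σ = L := by
        rw [coordF_Q, h]
        simp
      rw [if_pos hQ, if_pos h, hf, TA_zero, Matrix.one_apply_eq]
    · rw [if_neg h]
      have hf : (coordF L).fl σ ≠ σ := by
        intro hf
        apply h
        funext j
        apply Fin.ext
        have h1 := coordF_fl L σ j
        rw [hf] at h1
        show (σ j : ℕ) = 1
        omega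
      rw [TA_zero, Matrix.one_apply_ne hf]
      simp
  rw [Finset.sum_congr rfl fun σ _ => key σ, Finset.sum_ite_eq' Finset.univ]
  simp

theorem ring_H {L negc : ℕ} (h : RingPar L negc) (tw : Bool) :
    ringH (cond tw sPi sOne) L =
      (Hr (ringM L tw 56 negc) (coordF L) (((negc : ℝ) - 25 * L) / 25)).map fun x : ℝ => (x : ℂ) := by
  have h3 : 3 ≤ L := by rcases h with ⟨rfl, rfl⟩ | ⟨rfl, rfl⟩ | ⟨rfl, rfl⟩ <;> norm_num
  have h4 : L ≤ 15 := by rcases h with ⟨rfl, rfl⟩ | ⟨rfl, rfl⟩ | ⟨rfl, rfl⟩ <;> norm_num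
  exact ring_eq L h3 h4 tw 56 negc

/-- block structure of the real Hamiltonian -/
theorem Hr_block {κ : Type} [Fintype κ] [DecidableEq κ] {M : Mach} {C : Coord κ M.n M.d}
    (hblk : ∀ σ τ, M.A C σ τ ≠ 0 → C.Q σ = C.Q τ) (c : ℝ) (σ τ : κ) (h : Hr M C c σ τ ≠ 0) :
    C.Q σ = C.Q τ := by
  by_contra hne
  apply h
  have h1 : M.A C σ τ = 0 := by
    by_contra h2
    exact hne (hblk σ τ h2)
  have h2 : σ ≠ τ := fun h3 => hne (by rw [h3])
  unfold Hr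
  rw [Matrix.add_apply, Matrix.smul_apply, Matrix.smul_apply, h1, Matrix.one_apply_ne h2]
  simp

theorem sqrt_card_le {κ : Type} [Fintype κ] {n : ℕ} {d : ℕ → ℕ} (C : Coord κ n d) (sd : ℕ)
    (h : cwt d n ≤ sd ^ 2) : √(Fintype.card κ : ℝ) ≤ (sd : ℝ) := by
  rw [C.card]
  refine Real.sqrt_le_iff.2 ⟨by positivity, ?_⟩
  exact_mod_cast h

/-- everything about a ring at one temperature. -/
theorem ring_out {L negc : ℕ} (h : RingPar L negc) {tw : Bool} {rs : List Run}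
    (hR : RunsOK (ringM L tw 56 negc) tw (G4 (ringM L tw 56 negc) (rvF L)) rs)
    {β : ℝ} {cf : List ℤ} {η Wb : ℝ} (hcf : CfOK β cf η Wb) (a x : ℝ)
    (hx : x = -(β * ((((negc : ℝ) - 25 * L) / 25) - 256 / 25)) - a) :
    ∃ tE tO : ℝ,
      |tE - ((Vz cf (tot 80 rs) 0 (HG.cntE rs) (HG.cntE rs) (2 ^ 56 - 2 ^ 52) (2 ^ 56) : ℤ) : ℝ) /
        (2 ^ 80 * (2 ^ 56 - 2 ^ 52))| ≤ HG.cntE rs * (η + 81 * Wb / (2 ^ 56 - 2 ^ 52)) ∧
      |tO - ((Vz cf (tot 80 rs) 1 (HG.cntO rs) (HG.cntO rs) (2 ^ 56 - 2 ^ 52) (2 ^ 56) : ℤ) : ℝ) /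
        (2 ^ 80 * (2 ^ 56 - 2 ^ 52))| ≤ HG.cntO rs * (η + 81 * Wb / (2 ^ 56 - 2 ^ 52)) ∧
      Zt 1 (ringH (cond tw sPi sOne) L) β * Real.exp (-a) = Real.exp x * (tE + tO) ∧
      Zt (RN 2) (ringH (cond tw sPi sOne) L) β * Real.exp (-a) = Real.exp x * (tE - tO) := by
  have hD := ring_data h hR
  have hSn : 0 < (ringM L tw 56 negc).S := by show 0 < 2 ^ 56 - 2 ^ 52; norm_num
  have hS : ((ringM L tw 56 negc).S : ℝ) = 2 ^ 56 - 2 ^ 52 := by
    show ((2 ^ 56 - 2 ^ (56 - 4) : ℕ) : ℝ) = _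
    norm_num
  have hcard : cwt (fun _ => 3) L ≤ 81 ^ 2 := by
    rcases h with ⟨rfl, rfl⟩ | ⟨rfl, rfl⟩ | ⟨rfl, rfl⟩ <;> decide
  have hsd := sqrt_card_le (coordF L) 81 hcard
  have he := hD.val_e hcf hSn (((negc : ℝ) - 25 * L) / 25) 81 (by exact_mod_cast hsd)
  have ho := hD.val_o hcf hSn (((negc : ℝ) - 25 * L) / 25) 81 (by exact_mod_cast hsd)
  rw [hS] at he ho
  have hL : (-1 : ℝ) ^ L = 1 := by
    rcases h with ⟨rfl, rfl⟩ | ⟨rfl, rfl⟩ | ⟨rfl, rfl⟩ <;> norm_num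
  refine ⟨_, _, he, ho, ?_, ?_⟩
  · refine fin_T β _ a ?_ hx
    rw [ring_H h tw, Zt_one_real (coordF L).Q, add_mul]
    rfl
  · refine fin_T β _ a ?_ hx
    rw [ring_H h tw, Zt_RN2, hL, one_mul, sub_mul]
    rfl

/-- the flip part of the twisted ring -/
theorem ring_outX {L negc : ℕ} (h : RingPar L negc) {rs : List Run}
    (hR : RunsOK (ringM L true 56 negc) true (G4 (ringM L true 56 negc) (rvF L)) rs)
    {β : ℝ} {cf : List ℤ} {η Wb : ℝ} (hcf : CfOK β cf η Wb) (a x : ℝ)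
    (hx : x = -(β * ((((negc : ℝ) - 25 * L) / 25) - 256 / 25)) - a) :
    ∃ tx : ℝ,
      |tx - ((Vz cf (tot 80 rs) 2 1 (HG.cntX rs) (2 ^ 56 - 2 ^ 52) (2 ^ 56) : ℤ) : ℝ) /
        (2 ^ 80 * (2 ^ 56 - 2 ^ 52))| ≤ HG.cntX rs * (η + 81 * Wb / (2 ^ 56 - 2 ^ 52)) ∧
      Zt (RN 0) (ringH sPi L) β * Real.exp (-a) = Real.exp x * tx := by
  have hD := ring_data h hR
  have hSn : 0 < (ringM L true 56 negc).S := by show 0 < 2 ^ 56 - 2 ^ 52; norm_num
  have hS : ((ringM L true 56 negc).S : ℝ) = 2 ^ 56 - 2 ^ 52 := by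
    show ((2 ^ 56 - 2 ^ (56 - 4) : ℕ) : ℝ) = _
    norm_num
  have hcard : cwt (fun _ => 3) L ≤ 81 ^ 2 := by
    rcases h with ⟨rfl, rfl⟩ | ⟨rfl, rfl⟩ | ⟨rfl, rfl⟩ <;> decide
  have hsd := sqrt_card_le (coordF L) 81 hcard
  have hQ : ∀ σ, (coordF L).Q σ = L → (coordF L).Q ((coordF L).fl σ) = L := by
    intro σ hσ
    have h2 := Q_fl (coordF L) σ
    simp only [Finset.sum_const, Finset.card_range, smul_eq_mul] at h2
    omega
  have he := hD.val_x (ring_flipOK h true) (ring_n0 L _) hQ hcf hSn (((negc : ℝ) - 25 * L) / 25) 81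
    (by exact_mod_cast hsd)
  rw [hS] at he
  have hL : (-1 : ℝ) ^ L = 1 := by
    rcases h with ⟨rfl, rfl⟩ | ⟨rfl, rfl⟩ | ⟨rfl, rfl⟩ <;> norm_num
  refine ⟨_, he, ?_⟩
  refine fin_T β _ a ?_ hx
  have hH : ringH sPi L = _ := ring_H h true
  rw [hH, Zt_RN0 L _ β (fun σ τ => Hr_block hD.hblk _ σ τ), hL, one_mul]
  rfl

end Crest.Agent.HG
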