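import Mathlib
import Crest.Agent.HG_CZ12

/-!
HG_CZ13 (part C assembly, helper71): the open chain.
-/

set_option autoImplicit false

namespace Crest.Agent.HG
open Matrix Crest.MathPhysics.SpinChain Crest.Agent.HGB Crest.Agent.HGC
open scoped ComplexOrder

/-- admissible parameters of the open chain with `m + 1` sites -/
def OpenPar (m negc : ℕ) : Prop := (m = 3 ∧ negc = 220) ∨ (m = 4 ∧ negc = 207) ∨
  (m = 5 ∧ negc = 195) ∨ (m = 6 ∧ negc = 182) ∨ (m = 7 ∧ negc = 170)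

theorem open_WF {m negc : ℕ} (h : OpenPar m negc) (up : Bool) : (openM (m + 1) up 58 negc).WF := by
  rcases h with ⟨rfl, rfl⟩ | ⟨rfl, rfl⟩ | ⟨rfl, rfl⟩ | ⟨rfl, rfl⟩ | ⟨rfl, rfl⟩ <;> cases up <;>
    exact ⟨by decide +kernel, by decide +kernel, by decide +kernel, by decide +kernel,
      by decide +kernel, by decide +kernel, by decide +kernel⟩

theorem open_pi {m negc : ℕ} (h : OpenPar m negc) (up : Bool) :
    PiOK (openM (m + 1) up 58 negc).n (openM (m + 1) up 58 negc).d (rvF (m + 1)) := by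
  rcases h with ⟨rfl, rfl⟩ | ⟨rfl, rfl⟩ | ⟨rfl, rfl⟩ | ⟨rfl, rfl⟩ | ⟨rfl, rfl⟩ <;> cases up <;>
    decide

theorem OpenPar.le {m negc : ℕ} (h : OpenPar m negc) : 1 ≤ m ∧ m ≤ 7 := by
  rcases h with ⟨rfl, rfl⟩ | ⟨rfl, rfl⟩ | ⟨rfl, rfl⟩ | ⟨rfl, rfl⟩ | ⟨rfl, rfl⟩ <;> norm_num

theorem open_H {m negc : ℕ} (h : OpenPar m negc) (up : Bool) :
    openS (cond up 1 (-1)) m (3 / 5) =
      (Hr (openM (m + 1) up 58 negc) (coordF (m + 1)) (((negc : ℝ) - 25 * m - 30) / 25)).map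
        fun x : ℝ => (x : ℂ) :=
  open_eq m h.le.1 h.le.2 up 58 negc

theorem open_bounds (m : ℕ) (up : Bool) :
    (openS (cond up 1 (-1)) (m + 1) (3 / 5) + ((3 / 2 * m + 66 / 25 : ℝ) : ℂ) •
      (1 : Matrix (Fin (m + 1 + 1) → Fin 3) (Fin (m + 1 + 1) → Fin 3) ℂ)).PosSemidef ∧
    (((m + 1 + 6 / 5 : ℝ) : ℂ) •
      (1 : Matrix (Fin (m + 1 + 1) → Fin 3) (Fin (m + 1 + 1) → Fin 3) ℂ) -
      openS (cond up 1 (-1)) (m + 1) (3 / 5)).PosSemidef := by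
  have h1 : (cond up 1 (-1) : ℝ) = ((eps (!up) : ℤ) : ℝ) := by cases up <;> simp [eps]
  rw [h1]
  exact ⟨open_lower (!up) m, open_upper (!up) m⟩

theorem open_hc {m negc : ℕ} (h : OpenPar m negc) (up : Bool) (x : (Fin (m + 1) → Fin 3) → ℝ) :
    |x ⬝ᵥ ((openM (m + 1) up 58 negc).A (coordF (m + 1))) *ᵥ x| ≤ x ⬝ᵥ x := by
  have hH := open_H h up
  have hm := h.le
  obtain ⟨k, rfl⟩ : ∃ k, m = k + 1 := ⟨m - 1, by omega⟩
  obtain ⟨b1, b2⟩ := open_bounds k up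
  refine contr_of_psd _ _ _ (256 / 25) _ _ (by norm_num) hH b1 b2 ?_ ?_ x
  · rcases h with ⟨h1, rfl⟩ | ⟨h1, rfl⟩ | ⟨h1, rfl⟩ | ⟨h1, rfl⟩ | ⟨h1, rfl⟩ <;>
      simp only [Nat.add_eq_right, Nat.reduceEqDiff] at h1 <;> subst h1 <;> norm_num
  · rcases h with ⟨h1, rfl⟩ | ⟨h1, rfl⟩ | ⟨h1, rfl⟩ | ⟨h1, rfl⟩ | ⟨h1, rfl⟩ <;>
      simp only [Nat.add_eq_right, Nat.reduceEqDiff] at h1 <;> subst h1 <;> norm_num

/-- index actions for the open chain -/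
def Gop (up : Bool) (M : Mach) (π : ℕ → ℕ) : List (ℕ → ℕ) := cond up (G2u M π) (G2d M π)

theorem open_data {m negc : ℕ} (h : OpenPar m negc) {up : Bool} {rs : List Run}
    (hR : RunsOK (openM (m + 1) up 58 negc) false
      (Gop up (openM (m + 1) up 58 negc) (rvF (m + 1))) rs) :
    ∃ gs, MData (openM (m + 1) up 58 negc) (coordF (m + 1)) false 80 rs gs := by
  have h5 : cwt (fun _ => 3) (m + 1) ≤ 26244 := by
    rcases h with ⟨rfl, rfl⟩ | ⟨rfl, rfl⟩ | ⟨rfl, rfl⟩ | ⟨rfl, rfl⟩ | ⟨rfl, rfl⟩ <;> decide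
  cases up with
  | true =>
    exact ⟨_, mdata2u (M := openM (m + 1) true 58 negc) (C := coordF (m + 1)) hR (open_WF h true)
      (open_pi h true) (open_hc h true) rfl (by show 30 ≤ 58; norm_num) h5
      (openU_rv m h.le.1 58 negc)⟩
  | false =>
    refine ⟨_, mdata2d (M := openM (m + 1) false 58 negc) (C := coordF (m + 1)) hR
      (open_WF h false) (open_pi h false) (open_hc h false) rfl (by show 30 ≤ 58; norm_num) h5 ?_
      (openD_flrv m h.le.1 58 negc)⟩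
    show (∑ k ∈ Finset.range (m + 1), (3 - 1)) % 2 = 0
    rw [Finset.sum_const, smul_eq_mul]
    omega

/-- everything about an open chain at one temperature. -/
theorem open_out {m negc : ℕ} (h : OpenPar m negc) {up : Bool} {rs : List Run}
    (hR : RunsOK (openM (m + 1) up 58 negc) false
      (Gop up (openM (m + 1) up 58 negc) (rvF (m + 1))) rs)
    {β : ℝ} {cf : List ℤ} {η Wb : ℝ} (hcf : CfOK β cf η Wb) (a x : ℝ)
    (hx : x = -(β * ((((negc : ℝ) - 25 * m - 30) / 25) - 256 / 25)) - a) :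
    ∃ tE tO : ℝ,
      |tE - ((Vz cf (tot 80 rs) 0 (HG.cntE rs) (HG.cntE rs) (2 ^ 58 - 2 ^ 54) (2 ^ 58) : ℤ) : ℝ) /
        (2 ^ 80 * (2 ^ 58 - 2 ^ 54))| ≤ HG.cntE rs * (η + 81 * Wb / (2 ^ 58 - 2 ^ 54)) ∧
      |tO - ((Vz cf (tot 80 rs) 1 (HG.cntO rs) (HG.cntO rs) (2 ^ 58 - 2 ^ 54) (2 ^ 58) : ℤ) : ℝ) /
        (2 ^ 80 * (2 ^ 58 - 2 ^ 54))| ≤ HG.cntO rs * (η + 81 * Wb / (2 ^ 58 - 2 ^ 54)) ∧
      Zt 1 (openS (cond up 1 (-1)) m (3 / 5)) β * Real.exp (-a) = Real.exp x * (tE + tO) ∧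
      Zt (RN 2) (openS (cond up 1 (-1)) m (3 / 5)) β * Real.exp (-a) =
        Real.exp x * ((-1) ^ (m + 1) * (tE - tO)) := by
  obtain ⟨gs, hD⟩ := open_data h hR
  have hSn : 0 < (openM (m + 1) up 58 negc).S := by show 0 < 2 ^ 58 - 2 ^ 54; norm_num
  have hS : ((openM (m + 1) up 58 negc).S : ℝ) = 2 ^ 58 - 2 ^ 54 := by
    show ((2 ^ 58 - 2 ^ (58 - 4) : ℕ) : ℝ) = _
    norm_num
  have hcard : cwt (fun _ => 3) (m + 1) ≤ 81 ^ 2 := by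
    rcases h with ⟨rfl, rfl⟩ | ⟨rfl, rfl⟩ | ⟨rfl, rfl⟩ | ⟨rfl, rfl⟩ | ⟨rfl, rfl⟩ <;> decide
  have hsd := sqrt_card_le (coordF (m + 1)) 81 hcard
  have he := hD.val_e hcf hSn (((negc : ℝ) - 25 * m - 30) / 25) 81 (by exact_mod_cast hsd)
  have ho := hD.val_o hcf hSn (((negc : ℝ) - 25 * m - 30) / 25) 81 (by exact_mod_cast hsd)
  rw [hS] at he ho
  refine ⟨_, _, he, ho, ?_, ?_⟩
  · refine fin_T β _ a ?_ hx
    rw [open_H h up, Zt_one_real (coordF (m + 1)).Q, add_mul]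
    rfl
  · refine fin_T β _ a ?_ hx
    rw [open_H h up, Zt_RN2, mul_assoc, sub_mul]
    rfl

end Crest.Agent.HG
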