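import Mathlib
import Crest.Agent.HG_CZ13

/-!
HG_CZ14 (part C assembly, helper71): the half-chain (from the identity `half_eq` of HG_CH3, taken
as a hypothesis `HalfEq`).
-/

set_option autoImplicit false

namespace Crest.Agent.HG
open Matrix Crest.MathPhysics.SpinChain Crest.Agent.HGB Crest.Agent.HGC
open scoped ComplexOrder

/-- the statement of `half_eq` -/
def HalfEq : Prop := ∀ (m : ℕ) (_ : 1 ≤ m) (_ : m ≤ 7) (r negc : ℕ),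
    halfH m = ((((negc : ℝ) - 200 * m - 154) / 200) •
        (1 : Matrix (Fin 2 × (Fin (m + 1) → Fin 3) × Fin 2) _ ℝ) +
        (2048 / 200 : ℝ) • (halfM (m + 1) r negc).A (coordH m)).map (fun x : ℝ => (x : ℂ))

/-- admissible parameters of the half-chain with `m + 1` spin-one sites -/
def HalfPar (m negc : ℕ) : Prop := (m = 1 ∧ negc = 1804) ∨ (m = 2 ∧ negc = 1704) ∨
  (m = 3 ∧ negc = 1604) ∨ (m = 4 ∧ negc = 1504) ∨ (m = 5 ∧ negc = 1404) ∨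
  (m = 6 ∧ negc = 1304) ∨ (m = 7 ∧ negc = 1204)

theorem half_WF {m negc : ℕ} (h : HalfPar m negc) : (halfM (m + 1) 58 negc).WF := by
  rcases h with ⟨rfl, rfl⟩ | ⟨rfl, rfl⟩ | ⟨rfl, rfl⟩ | ⟨rfl, rfl⟩ | ⟨rfl, rfl⟩ | ⟨rfl, rfl⟩ |
    ⟨rfl, rfl⟩ <;>
    exact ⟨by decide +kernel, by decide +kernel, by decide +kernel, by decide +kernel,
      by decide +kernel, by decide +kernel, by decide +kernel⟩

theorem half_pi {m negc : ℕ} (h : HalfPar m negc) :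
    PiOK (halfM (m + 1) 58 negc).n (halfM (m + 1) 58 negc).d (rvH (m + 1)) := by
  rcases h with ⟨rfl, rfl⟩ | ⟨rfl, rfl⟩ | ⟨rfl, rfl⟩ | ⟨rfl, rfl⟩ | ⟨rfl, rfl⟩ | ⟨rfl, rfl⟩ |
    ⟨rfl, rfl⟩ <;> decide

theorem HalfPar.le {m negc : ℕ} (h : HalfPar m negc) : 1 ≤ m ∧ m ≤ 7 := by
  rcases h with ⟨rfl, rfl⟩ | ⟨rfl, rfl⟩ | ⟨rfl, rfl⟩ | ⟨rfl, rfl⟩ | ⟨rfl, rfl⟩ | ⟨rfl, rfl⟩ |
    ⟨rfl, rfl⟩ <;> norm_num

theorem half_H (HE : HalfEq) {m negc : ℕ} (h : HalfPar m negc) :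
    halfH m = (Hr (halfM (m + 1) 58 negc) (coordH m) (((negc : ℝ) - 200 * m - 154) / 200)).map
        fun x : ℝ => (x : ℂ) := by
  have h1 := HE m h.le.1 h.le.2 58 negc
  rw [show (2048 / 200 : ℝ) = 256 / 25 by norm_num] at h1
  exact h1

theorem half_hc (HE : HalfEq) {m negc : ℕ} (h : HalfPar m negc)
    (x : (Fin 2 × (Fin (m + 1) → Fin 3) × Fin 2) → ℝ) :
    |x ⬝ᵥ ((halfM (m + 1) 58 negc).A (coordH m)) *ᵥ x| ≤ x ⬝ᵥ x := by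
  have hH := half_H HE h
  have hm := h.le
  obtain ⟨k, rfl⟩ : ∃ k, m = k + 1 := ⟨m - 1, by omega⟩
  refine contr_of_psd _ _ _ (256 / 25) _ _ (by norm_num) hH (half_lower k) (half_upper k) ?_ ?_ x
  · rcases h with ⟨h1, rfl⟩ | ⟨h1, rfl⟩ | ⟨h1, rfl⟩ | ⟨h1, rfl⟩ | ⟨h1, rfl⟩ | ⟨h1, rfl⟩ |
      ⟨h1, rfl⟩ <;>
      simp only [Nat.add_eq_right, Nat.reduceEqDiff] at h1 <;> subst h1 <;> norm_num
  · rcases h with ⟨h1, rfl⟩ | ⟨h1, rfl⟩ | ⟨h1, rfl⟩ | ⟨h1, rfl⟩ | ⟨h1, rfl⟩ | ⟨h1, rfl⟩ |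
      ⟨h1, rfl⟩ <;>
      simp only [Nat.add_eq_right, Nat.reduceEqDiff] at h1 <;> subst h1 <;> norm_num

theorem half_data (HE : HalfEq) {m negc : ℕ} (h : HalfPar m negc) {rs : List Run}
    (hR : RunsOK (halfM (m + 1) 58 negc) false (G4 (halfM (m + 1) 58 negc) (rvH (m + 1))) rs) :
    MData (halfM (m + 1) 58 negc) (coordH m) false 80 rs (gs4 (coordH m) (rvH (m + 1))) := by
  have h5 : cwt (fun k => cond (Nat.blt k (m + 1)) 3 2) (m + 1 + 2) ≤ 26244 := by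
    rcases h with ⟨rfl, rfl⟩ | ⟨rfl, rfl⟩ | ⟨rfl, rfl⟩ | ⟨rfl, rfl⟩ | ⟨rfl, rfl⟩ | ⟨rfl, rfl⟩ |
      ⟨rfl, rfl⟩ <;> decide
  refine mdata4 (M := halfM (m + 1) 58 negc) (C := coordH m) hR (half_WF h) (half_pi h)
    (half_hc HE h) rfl (by show 30 ≤ 58; norm_num) h5 ?_
    (half_fl m h.le.1 58 negc) (half_rv m h.le.1 58 negc)
  rcases h with ⟨rfl, rfl⟩ | ⟨rfl, rfl⟩ | ⟨rfl, rfl⟩ | ⟨rfl, rfl⟩ | ⟨rfl, rfl⟩ | ⟨rfl, rfl⟩ |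
    ⟨rfl, rfl⟩ <;> decide

/-- everything about a half-chain at one temperature. -/
theorem half_out (HE : HalfEq) {m negc : ℕ} (h : HalfPar m negc) {rs : List Run}
    (hR : RunsOK (halfM (m + 1) 58 negc) false (G4 (halfM (m + 1) 58 negc) (rvH (m + 1))) rs)
    {β : ℝ} {cf : List ℤ} {η Wb : ℝ} (hcf : CfOK β cf η Wb) (a x : ℝ)
    (hx : x = -(β * ((((negc : ℝ) - 200 * m - 154) / 200) - 256 / 25)) - a) :
    ∃ tE tO : ℝ,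
      |tE - ((Vz cf (tot 80 rs) 0 (HG.cntE rs) (HG.cntE rs) (2 ^ 58 - 2 ^ 54) (2 ^ 58) : ℤ) : ℝ) /
        (2 ^ 80 * (2 ^ 58 - 2 ^ 54))| ≤ HG.cntE rs * (η + 162 * Wb / (2 ^ 58 - 2 ^ 54)) ∧
      |tO - ((Vz cf (tot 80 rs) 1 (HG.cntO rs) (HG.cntO rs) (2 ^ 58 - 2 ^ 54) (2 ^ 58) : ℤ) : ℝ) /
        (2 ^ 80 * (2 ^ 58 - 2 ^ 54))| ≤ HG.cntO rs * (η + 162 * Wb / (2 ^ 58 - 2 ^ 54)) ∧
      Zt 1 (halfH m) β * Real.exp (-a) = Real.exp x * (tE + tO) ∧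
      Zt (halfR m) (halfH m) β * Real.exp (-a) =
        Real.exp x * ((-1) ^ (m + 2) * (tE - tO)) := by
  have hD := half_data HE h hR
  have hSn : 0 < (halfM (m + 1) 58 negc).S := by show 0 < 2 ^ 58 - 2 ^ 54; norm_num
  have hS : ((halfM (m + 1) 58 negc).S : ℝ) = 2 ^ 58 - 2 ^ 54 := by
    show ((2 ^ 58 - 2 ^ (58 - 4) : ℕ) : ℝ) = _
    norm_num
  have hcard : cwt (fun k => cond (Nat.blt k (m + 1)) 3 2) (m + 1 + 2) ≤ 162 ^ 2 := by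
    rcases h with ⟨rfl, rfl⟩ | ⟨rfl, rfl⟩ | ⟨rfl, rfl⟩ | ⟨rfl, rfl⟩ | ⟨rfl, rfl⟩ | ⟨rfl, rfl⟩ |
      ⟨rfl, rfl⟩ <;> decide
  have hsd := sqrt_card_le (coordH m) 162 hcard
  have he := hD.val_e hcf hSn (((negc : ℝ) - 200 * m - 154) / 200) 162 (by exact_mod_cast hsd)
  have ho := hD.val_o hcf hSn (((negc : ℝ) - 200 * m - 154) / 200) 162 (by exact_mod_cast hsd)
  rw [hS] at he ho
  refine ⟨_, _, he, ho, ?_, ?_⟩
  · refine fin_T β _ a ?_ hx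
    rw [half_H HE h, Zt_one_real (coordH m).Q, add_mul]
    rfl
  · refine fin_T β _ a ?_ hx
    rw [half_H HE h, Zt_halfR, mul_assoc, sub_mul]
    rfl

end Crest.Agent.HG
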