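import Mathlib
import Crest.Agent.HG_CZ14
import Crest.Agent.HG_CH3
import Crest.Agent.HG_CExp

/-!
HG_CZ15 (part C assembly, helper71): final combination lemmas.
-/

set_option autoImplicit false

namespace Crest.Agent.HG
open Matrix

theorem halfEq : HalfEq := fun m hm hm' r negc => half_eq m hm hm' r negc

theorem runsOK_mk {M : Mach} {ux : Bool} {G : List (ℕ → ℕ)} {rs : List Run}
    (hC : M.pos M.offP ≤ Nat.shiftLeft M.offP (M.sh + 1) + M.neg M.offP)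
    (side : rs.all (fun r => M.side ux 80 r) = true)
    (len : rs.all (fun r => lenOK M r) = true)
    (ok : ∀ r ∈ rs, M.ok r = true)
    (cov : HG.cov G rs = G.length * kGen 3 M.d (fun k => List.range (M.d k)) M.n)
    (cnt : HG.cnt rs = M.D) : RunsOK M ux G rs :=
  ⟨hC, fun r hr => List.all_eq_true.1 side r hr, fun r hr => List.all_eq_true.1 len r hr, ok, cov,
    cnt⟩

/-- sum of two enclosures -/
theorem add_enc {t1 t2 w1 w2 d1 d2 : ℝ} (h1 : |t1 - w1| ≤ d1) (h2 : |t2 - w2| ≤ d2) :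
    |(t1 + t2) - (w1 + w2)| ≤ d1 + d2 := by
  rw [show (t1 + t2) - (w1 + w2) = (t1 - w1) + (t2 - w2) by ring]
  exact (abs_add_le _ _).trans (add_le_add h1 h2)

theorem sub_enc {t1 t2 w1 w2 d1 d2 : ℝ} (h1 : |t1 - w1| ≤ d1) (h2 : |t2 - w2| ≤ d2) :
    |(t1 - t2) - (w1 - w2)| ≤ d1 + d2 := by
  rw [show (t1 - t2) - (w1 - w2) = (t1 - w1) - (t2 - w2) by ring]
  exact (abs_sub _ _).trans (add_le_add h1 h2)

theorem neg_enc {t w d : ℝ} (h : |t - w| ≤ d) : |(-t) - (-w)| ≤ d := by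
  rw [show (-t) - (-w) = -(t - w) by ring, abs_neg]
  exact h

theorem sgn_enc (n : ℕ) {t w d : ℝ} (h : |t - w| ≤ d) :
    |(-1) ^ n * t - (-1) ^ n * w| ≤ d := by
  rw [← mul_sub, abs_mul, abs_pow, abs_neg, abs_one, one_pow, one_mul]
  exact h

/-- final numeric check without absolute values. -/
theorem fin_num {x T E W δ c tol Z : ℝ} (hZ : Z = x * T) (hE : |x - E| ≤ 1 / 10 ^ 12)
    (hW : |T - W| ≤ δ) (hE0 : 0 ≤ E) (wb : ℝ) (h1 : -wb ≤ W) (h2 : W ≤ wb)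
    (h3 : (E + 1 / 10 ^ 12) * δ + 1 / 10 ^ 12 * wb + (E * W - c) ≤ tol)
    (h4 : (E + 1 / 10 ^ 12) * δ + 1 / 10 ^ 12 * wb - (E * W - c) ≤ tol) : |Z - c| ≤ tol := by
  rw [hZ]
  have hw : |W| ≤ wb := abs_le.2 ⟨h1, h2⟩
  have hx : |x| ≤ E + 1 / 10 ^ 12 := by
    have := abs_add_le (x - E) E
    rw [sub_add_cancel, abs_of_nonneg hE0] at this
    linarith
  have e : x * T - c = x * (T - W) + (x - E) * W + (E * W - c) := by ring
  have h5 : |x * (T - W)| ≤ (E + 1 / 10 ^ 12) * δ := by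
    rw [abs_mul]
    exact mul_le_mul hx hW (abs_nonneg _) (by positivity)
  have h6 : |(x - E) * W| ≤ 1 / 10 ^ 12 * wb := by
    rw [abs_mul]
    exact mul_le_mul hE hw (abs_nonneg _) (by norm_num)
  rw [e, abs_le]
  rw [abs_le] at h5 h6
  constructor <;> linarith [h5.1, h5.2, h6.1, h6.2]

end Crest.Agent.HG
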