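import Mathlib
import Crest.Agent.HG_CZ15
import Crest.Agent.HGR_d4

/-! HG part C: the final enclosures from the machine `openM 4 false 58 220` (generated). -/

set_option autoImplicit false
set_option maxRecDepth 100000
set_option linter.all false

namespace Crest.Agent.HGZ
open Crest.Agent.HG Crest.Agent.HGR Matrix

theorem d4_len : d4.all (fun r => lenOK (openM 4 false 58 220) r) = true := by decide +kernel
theorem d4_cntO : cntO d4 = 40 := by decide +kernel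
theorem d4_R : RunsOK (openM 4 false 58 220) false (Gop false (openM 4 false 58 220) (rvF 4)) d4 :=
  runsOK_mk d4_C d4_side d4_len d4_ok d4_cov d4_cnt

theorem d4_par : OpenPar 3 220 := Or.inl ⟨rfl, rfl⟩

theorem d4_ve7 : Vz cf7 d4_T 0 41 41 (2 ^ 58 - 2 ^ 54) (2 ^ 58) = 44332756043074305922633224841773962798691 := by decide +kernel
theorem d4_vo7 : Vz cf7 d4_T 1 40 40 (2 ^ 58 - 2 ^ 54) (2 ^ 58) = 67974077609992758907549864424024137148 := by decide +kernel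

theorem d4_7 : ∃ tE tO : ℝ,
    |tE - ((44332756043074305922633224841773962798691 : ℤ) : ℝ) / (2 ^ 80 * (2 ^ 58 - 2 ^ 54))| ≤
      ((41 : ℕ) : ℝ) * (1 / 10 ^ 16 + 81 * 40 / (2 ^ 58 - 2 ^ 54)) ∧
    |tO - ((67974077609992758907549864424024137148 : ℤ) : ℝ) / (2 ^ 80 * (2 ^ 58 - 2 ^ 54))| ≤
      ((40 : ℕ) : ℝ) * (1 / 10 ^ 16 + 81 * 40 / (2 ^ 58 - 2 ^ 54)) ∧
    Vo (-1) 4 7 * Real.exp (-(196 / 5)) = Real.exp (((28 : ℕ) : ℝ) / 100) * (tE + tO) ∧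
    VoZ (-1) 4 7 * Real.exp (-(196 / 5)) = Real.exp (((28 : ℕ) : ℝ) / 100) * ((-1) ^ 4 * (tE - tO)) := by
  have h := open_out d4_par d4_R cfOK7 (196 / 5) (((28 : ℕ) : ℝ) / 100) (by norm_num)
  rw [d4_tot, d4_cntE, d4_cntO, d4_ve7, d4_vo7] at h
  exact h

theorem dVom_4_7 : |Vo (-1) 4 7 * Real.exp (-(196 / 5)) - 17983817578 / 10 ^ 11| ≤ 18 / 10 ^ 8 := by
  obtain ⟨tE, tO, h1, h2, h3, h4⟩ := d4_7
  exact fin_num h3 exC28 (add_enc h1 h2) (by norm_num) (1361 / 10 ^ 4) (by norm_num) (by norm_num)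
    (by norm_num) (by norm_num)

theorem dVoZm_4_7 : |VoZ (-1) 4 7 * Real.exp (-(196 / 5)) - 17928753915 / 10 ^ 11| ≤ 18 / 10 ^ 8 := by
  obtain ⟨tE, tO, h1, h2, h3, h4⟩ := d4_7
  exact fin_num h4 exC28 (sgn_enc 4 (sub_enc h1 h2)) (by norm_num) (1357 / 10 ^ 4) (by norm_num) (by norm_num)
    (by norm_num) (by norm_num)

theorem d4_ve10 : Vz cf10 d4_T 0 41 41 (2 ^ 58 - 2 ^ 54) (2 ^ 58) = 18835608176384128817366568417894340158112 := by decide +kernel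
theorem d4_vo10 : Vz cf10 d4_T 1 40 40 (2 ^ 58 - 2 ^ 54) (2 ^ 58) = 1333657022090218926706701176350919188 := by decide +kernel

theorem d4_10 : ∃ tE tO : ℝ,
    |tE - ((18835608176384128817366568417894340158112 : ℤ) : ℝ) / (2 ^ 80 * (2 ^ 58 - 2 ^ 54))| ≤
      ((41 : ℕ) : ℝ) * (1 / 10 ^ 14 + 81 * 56 / (2 ^ 58 - 2 ^ 54)) ∧
    |tO - ((1333657022090218926706701176350919188 : ℤ) : ℝ) / (2 ^ 80 * (2 ^ 58 - 2 ^ 54))| ≤
      ((40 : ℕ) : ℝ) * (1 / 10 ^ 14 + 81 * 56 / (2 ^ 58 - 2 ^ 54)) ∧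
    Vo (-1) 4 10 * Real.exp (-(56)) = Real.exp (((40 : ℕ) : ℝ) / 100) * (tE + tO) ∧
    VoZ (-1) 4 10 * Real.exp (-(56)) = Real.exp (((40 : ℕ) : ℝ) / 100) * ((-1) ^ 4 * (tE - tO)) := by
  have h := open_out d4_par d4_R cfOK10 (56) (((40 : ℕ) : ℝ) / 100) (by norm_num)
  rw [d4_tot, d4_cntE, d4_cntO, d4_ve10, d4_vo10] at h
  exact h

theorem dVom_4_10 : |Vo (-1) 4 10 * Real.exp (-(56)) - 8602357981 / 10 ^ 11| ≤ 87 / 10 ^ 9 := by
  obtain ⟨tE, tO, h1, h2, h3, h4⟩ := d4_10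
  exact fin_num h3 exC40 (add_enc h1 h2) (by norm_num) (578 / 10 ^ 4) (by norm_num) (by norm_num)
    (by norm_num) (by norm_num)

theorem dVoZm_4_10 : |VoZ (-1) 4 10 * Real.exp (-(56)) - 8601139886 / 10 ^ 11| ≤ 87 / 10 ^ 9 := by
  obtain ⟨tE, tO, h1, h2, h3, h4⟩ := d4_10
  exact fin_num h4 exC40 (sgn_enc 4 (sub_enc h1 h2)) (by norm_num) (578 / 10 ^ 4) (by norm_num) (by norm_num)
    (by norm_num) (by norm_num)

end Crest.Agent.HGZ
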