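import Mathlib
import Crest.Agent.HG_CZ15
import Crest.Agent.HGR_d5

/-! HG part C: the final enclosures from the machine `openM 5 false 58 207` (generated). -/

set_option autoImplicit false
set_option maxRecDepth 100000
set_option linter.all false

namespace Crest.Agent.HGZ
open Crest.Agent.HG Crest.Agent.HGR Matrix

theorem d5_len : d5.all (fun r => lenOK (openM 5 false 58 207) r) = true := by decide +kernel
theorem d5_cntO : cntO d5 = 121 := by decide +kernel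
theorem d5_R : RunsOK (openM 5 false 58 207) false (Gop false (openM 5 false 58 207) (rvF 5)) d5 :=
  runsOK_mk d5_C d5_side d5_len d5_ok d5_cov d5_cnt

theorem d5_par : OpenPar 4 207 := Or.inr (Or.inl ⟨rfl, rfl⟩)

theorem d5_ve7 : Vz cf7 d5_T 0 122 122 (2 ^ 58 - 2 ^ 54) (2 ^ 58) = 163570419614437035973311492574653928850 := by decide +kernel
theorem d5_vo7 : Vz cf7 d5_T 1 121 121 (2 ^ 58 - 2 ^ 54) (2 ^ 58) = 1025192235097779274135685907341738453355 := by decide +kernel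

theorem d5_7 : ∃ tE tO : ℝ,
    |tE - ((163570419614437035973311492574653928850 : ℤ) : ℝ) / (2 ^ 80 * (2 ^ 58 - 2 ^ 54))| ≤
      ((122 : ℕ) : ℝ) * (1 / 10 ^ 16 + 81 * 40 / (2 ^ 58 - 2 ^ 54)) ∧
    |tO - ((1025192235097779274135685907341738453355 : ℤ) : ℝ) / (2 ^ 80 * (2 ^ 58 - 2 ^ 54))| ≤
      ((121 : ℕ) : ℝ) * (1 / 10 ^ 16 + 81 * 40 / (2 ^ 58 - 2 ^ 54)) ∧
    Vo (-1) 5 7 * Real.exp (-(49)) = Real.exp (((112 : ℕ) : ℝ) / 100) * (tE + tO) ∧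
    VoZ (-1) 5 7 * Real.exp (-(49)) = Real.exp (((112 : ℕ) : ℝ) / 100) * ((-1) ^ 5 * (tE - tO)) := by
  have h := open_out d5_par d5_R cfOK7 (49) (((112 : ℕ) : ℝ) / 100) (by norm_num)
  rw [d5_tot, d5_cntE, d5_cntO, d5_ve7, d5_vo7] at h
  exact h

theorem dVom_5_7 : |Vo (-1) 5 7 * Real.exp (-(49)) - 1115306658 / 10 ^ 11| ≤ 12 / 10 ^ 9 := by
  obtain ⟨tE, tO, h1, h2, h3, h4⟩ := d5_7
  exact fin_num h3 exC112 (add_enc h1 h2) (by norm_num) (38 / 10 ^ 4) (by norm_num) (by norm_num)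
    (by norm_num) (by norm_num)

theorem dVoZm_5_7 : |VoZ (-1) 5 7 * Real.exp (-(49)) - 808380499 / 10 ^ 11| ≤ 12 / 10 ^ 9 := by
  obtain ⟨tE, tO, h1, h2, h3, h4⟩ := d5_7
  exact fin_num h4 exC112 (sgn_enc 5 (sub_enc h1 h2)) (by norm_num) (28 / 10 ^ 4) (by norm_num) (by norm_num)
    (by norm_num) (by norm_num)

theorem d5_ve10 : Vz cf10 d5_T 0 122 122 (2 ^ 58 - 2 ^ 54) (2 ^ 58) = 4669520131961636064382783188569907084 := by decide +kernel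
theorem d5_vo10 : Vz cf10 d5_T 1 121 121 (2 ^ 58 - 2 ^ 54) (2 ^ 58) = 86659639028161517923720908135820681082 := by decide +kernel

theorem d5_10 : ∃ tE tO : ℝ,
    |tE - ((4669520131961636064382783188569907084 : ℤ) : ℝ) / (2 ^ 80 * (2 ^ 58 - 2 ^ 54))| ≤
      ((122 : ℕ) : ℝ) * (1 / 10 ^ 14 + 81 * 56 / (2 ^ 58 - 2 ^ 54)) ∧
    |tO - ((86659639028161517923720908135820681082 : ℤ) : ℝ) / (2 ^ 80 * (2 ^ 58 - 2 ^ 54))| ≤
      ((121 : ℕ) : ℝ) * (1 / 10 ^ 14 + 81 * 56 / (2 ^ 58 - 2 ^ 54)) ∧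
    Vo (-1) 5 10 * Real.exp (-(70)) = Real.exp (((160 : ℕ) : ℝ) / 100) * (tE + tO) ∧
    VoZ (-1) 5 10 * Real.exp (-(70)) = Real.exp (((160 : ℕ) : ℝ) / 100) * ((-1) ^ 5 * (tE - tO)) := by
  have h := open_out d5_par d5_R cfOK10 (70) (((160 : ℕ) : ℝ) / 100) (by norm_num)
  rw [d5_tot, d5_cntE, d5_cntO, d5_ve10, d5_vo10] at h
  exact h

theorem dVom_5_10 : |Vo (-1) 5 10 * Real.exp (-(70)) - 138474547 / 10 ^ 11| ≤ 14 / 10 ^ 10 := by
  obtain ⟨tE, tO, h1, h2, h3, h4⟩ := d5_10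
  exact fin_num h3 exC160 (add_enc h1 h2) (by norm_num) (4 / 10 ^ 4) (by norm_num) (by norm_num)
    (by norm_num) (by norm_num)

theorem dVoZm_5_10 : |VoZ (-1) 5 10 * Real.exp (-(70)) - 124314563 / 10 ^ 11| ≤ 14 / 10 ^ 10 := by
  obtain ⟨tE, tO, h1, h2, h3, h4⟩ := d5_10
  exact fin_num h4 exC160 (sgn_enc 5 (sub_enc h1 h2)) (by norm_num) (4 / 10 ^ 4) (by norm_num) (by norm_num)
    (by norm_num) (by norm_num)

end Crest.Agent.HGZ
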