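import Mathlib
import Crest.Agent.HG_CZ15
import Crest.Agent.HGR_d7

/-! HG part C: the final enclosures from the machine `openM 7 false 58 182` (generated). -/

set_option autoImplicit false
set_option maxRecDepth 100000
set_option linter.all false

namespace Crest.Agent.HGZ
open Crest.Agent.HG Crest.Agent.HGR Matrix

theorem d7_len : d7.all (fun r => lenOK (openM 7 false 58 182) r) = true := by decide +kernel
theorem d7_cntO : cntO d7 = 1093 := by decide +kernel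
theorem d7_R : RunsOK (openM 7 false 58 182) false (Gop false (openM 7 false 58 182) (rvF 7)) d7 :=
  runsOK_mk d7_C d7_side d7_len d7_ok d7_cov d7_cnt

theorem d7_par : OpenPar 6 182 := Or.inr (Or.inr (Or.inr (Or.inl ⟨rfl, rfl⟩)))

theorem d7_ve7 : Vz cf7 d7_T 0 1094 1094 (2 ^ 58 - 2 ^ 54) (2 ^ 58) = 57416691487851716835738360404833943666 := by decide +kernel
theorem d7_vo7 : Vz cf7 d7_T 1 1093 1093 (2 ^ 58 - 2 ^ 54) (2 ^ 58) = 532945444958745368861931195619861398848 := by decide +kernel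

theorem d7_7 : ∃ tE tO : ℝ,
    |tE - ((57416691487851716835738360404833943666 : ℤ) : ℝ) / (2 ^ 80 * (2 ^ 58 - 2 ^ 54))| ≤
      ((1094 : ℕ) : ℝ) * (1 / 10 ^ 16 + 81 * 40 / (2 ^ 58 - 2 ^ 54)) ∧
    |tO - ((532945444958745368861931195619861398848 : ℤ) : ℝ) / (2 ^ 80 * (2 ^ 58 - 2 ^ 54))| ≤
      ((1093 : ℕ) : ℝ) * (1 / 10 ^ 16 + 81 * 40 / (2 ^ 58 - 2 ^ 54)) ∧
    Vo (-1) 7 7 * Real.exp (-(343 / 5)) = Real.exp (((252 : ℕ) : ℝ) / 100) * (tE + tO) ∧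
    VoZ (-1) 7 7 * Real.exp (-(343 / 5)) = Real.exp (((252 : ℕ) : ℝ) / 100) * ((-1) ^ 7 * (tE - tO)) := by
  have h := open_out d7_par d7_R cfOK7 (343 / 5) (((252 : ℕ) : ℝ) / 100) (by norm_num)
  rw [d7_tot, d7_cntE, d7_cntO, d7_ve7, d7_vo7] at h
  exact h

theorem dVom_7_7 : |Vo (-1) 7 7 * Real.exp (-(343 / 5)) - 2246104263 / 10 ^ 11| ≤ 23 / 10 ^ 9 := by
  obtain ⟨tE, tO, h1, h2, h3, h4⟩ := d7_7
  exact fin_num h3 exC252 (add_enc h1 h2) (by norm_num) (20 / 10 ^ 4) (by norm_num) (by norm_num)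
    (by norm_num) (by norm_num)

theorem dVoZm_7_7 : |VoZ (-1) 7 7 * Real.exp (-(343 / 5)) - 1809206747 / 10 ^ 11| ≤ 23 / 10 ^ 9 := by
  obtain ⟨tE, tO, h1, h2, h3, h4⟩ := d7_7
  exact fin_num h4 exC252 (sgn_enc 7 (sub_enc h1 h2)) (by norm_num) (16 / 10 ^ 4) (by norm_num) (by norm_num)
    (by norm_num) (by norm_num)

theorem d7_ve10 : Vz cf10 d7_T 0 1094 1094 (2 ^ 58 - 2 ^ 54) (2 ^ 58) = 1035215685181307922492683601012216136 := by decide +kernel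
theorem d7_vo10 : Vz cf10 d7_T 1 1093 1093 (2 ^ 58 - 2 ^ 54) (2 ^ 58) = 34006641609379120528937951493277376361 := by decide +kernel

theorem d7_10 : ∃ tE tO : ℝ,
    |tE - ((1035215685181307922492683601012216136 : ℤ) : ℝ) / (2 ^ 80 * (2 ^ 58 - 2 ^ 54))| ≤
      ((1094 : ℕ) : ℝ) * (1 / 10 ^ 14 + 81 * 56 / (2 ^ 58 - 2 ^ 54)) ∧
    |tO - ((34006641609379120528937951493277376361 : ℤ) : ℝ) / (2 ^ 80 * (2 ^ 58 - 2 ^ 54))| ≤
      ((1093 : ℕ) : ℝ) * (1 / 10 ^ 14 + 81 * 56 / (2 ^ 58 - 2 ^ 54)) ∧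
    Vo (-1) 7 10 * Real.exp (-(98)) = Real.exp (((360 : ℕ) : ℝ) / 100) * (tE + tO) ∧
    VoZ (-1) 7 10 * Real.exp (-(98)) = Real.exp (((360 : ℕ) : ℝ) / 100) * ((-1) ^ 7 * (tE - tO)) := by
  have h := open_out d7_par d7_R cfOK10 (98) (((360 : ℕ) : ℝ) / 100) (by norm_num)
  rw [d7_tot, d7_cntE, d7_cntO, d7_ve10, d7_vo10] at h
  exact h

theorem dVom_7_10 : |Vo (-1) 7 10 * Real.exp (-(98)) - 392587595 / 10 ^ 11| ≤ 40 / 10 ^ 10 := by
  obtain ⟨tE, tO, h1, h2, h3, h4⟩ := d7_10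
  exact fin_num h3 exC360 (add_enc h1 h2) (by norm_num) (3 / 10 ^ 4) (by norm_num) (by norm_num)
    (by norm_num) (by norm_num)

theorem dVoZm_7_10 : |VoZ (-1) 7 10 * Real.exp (-(98)) - 369391745 / 10 ^ 11| ≤ 40 / 10 ^ 10 := by
  obtain ⟨tE, tO, h1, h2, h3, h4⟩ := d7_10
  exact fin_num h4 exC360 (sgn_enc 7 (sub_enc h1 h2)) (by norm_num) (3 / 10 ^ 4) (by norm_num) (by norm_num)
    (by norm_num) (by norm_num)

end Crest.Agent.HGZ
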