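import Mathlib
import Crest.Agent.HG_CZ15
import Crest.Agent.HGR_d8

/-! HG part C: the final enclosures from the machine `openM 8 false 58 170` (generated). -/

set_option autoImplicit false
set_option maxRecDepth 100000
set_option linter.all false

namespace Crest.Agent.HGZ
open Crest.Agent.HG Crest.Agent.HGR Matrix

theorem d8_len : d8.all (fun r => lenOK (openM 8 false 58 170) r) = true := by decide +kernel
theorem d8_cntO : cntO d8 = 3280 := by decide +kernel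
theorem d8_R : RunsOK (openM 8 false 58 170) false (Gop false (openM 8 false 58 170) (rvF 8)) d8 :=
  runsOK_mk d8_C d8_side d8_len d8_ok d8_cov d8_cnt

theorem d8_par : OpenPar 7 170 := Or.inr (Or.inr (Or.inr (Or.inr (⟨rfl, rfl⟩))))

theorem d8_ve7 : Vz cf7 d8_T 0 3281 3281 (2 ^ 58 - 2 ^ 54) (2 ^ 58) = 1675060754686199165997717561018646897687 := by decide +kernel
theorem d8_vo7 : Vz cf7 d8_T 1 3280 3280 (2 ^ 58 - 2 ^ 54) (2 ^ 58) = 23408179638914939901016516017375481116 := by decide +kernel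

theorem d8_7 : ∃ tE tO : ℝ,
    |tE - ((1675060754686199165997717561018646897687 : ℤ) : ℝ) / (2 ^ 80 * (2 ^ 58 - 2 ^ 54))| ≤
      ((3281 : ℕ) : ℝ) * (1 / 10 ^ 16 + 81 * 40 / (2 ^ 58 - 2 ^ 54)) ∧
    |tO - ((23408179638914939901016516017375481116 : ℤ) : ℝ) / (2 ^ 80 * (2 ^ 58 - 2 ^ 54))| ≤
      ((3280 : ℕ) : ℝ) * (1 / 10 ^ 16 + 81 * 40 / (2 ^ 58 - 2 ^ 54)) ∧
    Vo (-1) 8 7 * Real.exp (-(392 / 5)) = Real.exp (((308 : ℕ) : ℝ) / 100) * (tE + tO) ∧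
    VoZ (-1) 8 7 * Real.exp (-(392 / 5)) = Real.exp (((308 : ℕ) : ℝ) / 100) * ((-1) ^ 8 * (tE - tO)) := by
  have h := open_out d8_par d8_R cfOK7 (392 / 5) (((308 : ℕ) : ℝ) / 100) (by norm_num)
  rw [d8_tot, d8_cntE, d8_cntO, d8_ve7, d8_vo7] at h
  exact h

theorem dVom_8_7 : |Vo (-1) 8 7 * Real.exp (-(392 / 5)) - 11312899632 / 10 ^ 11| ≤ 12 / 10 ^ 8 := by
  obtain ⟨tE, tO, h1, h2, h3, h4⟩ := d8_7
  exact fin_num h3 exC308 (add_enc h1 h2) (by norm_num) (53 / 10 ^ 4) (by norm_num) (by norm_num)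
    (by norm_num) (by norm_num)

theorem dVoZm_8_7 : |VoZ (-1) 8 7 * Real.exp (-(392 / 5)) - 11001072455 / 10 ^ 11| ≤ 12 / 10 ^ 8 := by
  obtain ⟨tE, tO, h1, h2, h3, h4⟩ := d8_7
  exact fin_num h4 exC308 (sgn_enc 8 (sub_enc h1 h2)) (by norm_num) (52 / 10 ^ 4) (by norm_num) (by norm_num)
    (by norm_num) (by norm_num)

theorem d8_ve10 : Vz cf10 d8_T 0 3281 3281 (2 ^ 58 - 2 ^ 54) (2 ^ 58) = 174751771410114701135681949612683316008 := by decide +kernel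
theorem d8_vo10 : Vz cf10 d8_T 1 3280 3280 (2 ^ 58 - 2 ^ 54) (2 ^ 58) = 284728446119378744201134191807414010 := by decide +kernel

theorem d8_10 : ∃ tE tO : ℝ,
    |tE - ((174751771410114701135681949612683316008 : ℤ) : ℝ) / (2 ^ 80 * (2 ^ 58 - 2 ^ 54))| ≤
      ((3281 : ℕ) : ℝ) * (1 / 10 ^ 14 + 81 * 56 / (2 ^ 58 - 2 ^ 54)) ∧
    |tO - ((284728446119378744201134191807414010 : ℤ) : ℝ) / (2 ^ 80 * (2 ^ 58 - 2 ^ 54))| ≤
      ((3280 : ℕ) : ℝ) * (1 / 10 ^ 14 + 81 * 56 / (2 ^ 58 - 2 ^ 54)) ∧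
    Vo (-1) 8 10 * Real.exp (-(112)) = Real.exp (((440 : ℕ) : ℝ) / 100) * (tE + tO) ∧
    VoZ (-1) 8 10 * Real.exp (-(112)) = Real.exp (((440 : ℕ) : ℝ) / 100) * ((-1) ^ 8 * (tE - tO)) := by
  have h := open_out d8_par d8_R cfOK10 (112) (((440 : ℕ) : ℝ) / 100) (by norm_num)
  rw [d8_tot, d8_cntE, d8_cntO, d8_ve10, d8_vo10] at h
  exact h

theorem dVom_8_10 : |Vo (-1) 8 10 * Real.exp (-(112)) - 4364290619 / 10 ^ 11| ≤ 44 / 10 ^ 9 := by
  obtain ⟨tE, tO, h1, h2, h3, h4⟩ := d8_10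
  exact fin_num h3 exC440 (add_enc h1 h2) (by norm_num) (7 / 10 ^ 4) (by norm_num) (by norm_num)
    (by norm_num) (by norm_num)

theorem dVoZm_8_10 : |VoZ (-1) 8 10 * Real.exp (-(112)) - 4350092007 / 10 ^ 11| ≤ 44 / 10 ^ 9 := by
  obtain ⟨tE, tO, h1, h2, h3, h4⟩ := d8_10
  exact fin_num h4 exC440 (sgn_enc 8 (sub_enc h1 h2)) (by norm_num) (7 / 10 ^ 4) (by norm_num) (by norm_num)
    (by norm_num) (by norm_num)

end Crest.Agent.HGZ
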