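import Mathlib
import Crest.Agent.HG_CZ15
import Crest.Agent.HGR_h2

/-! HG part C: the final enclosures from the machine `halfM 2 58 1804` (generated). -/

set_option autoImplicit false
set_option maxRecDepth 100000
set_option linter.all false

namespace Crest.Agent.HGZ
open Crest.Agent.HG Crest.Agent.HGR Matrix

theorem h2_len : h2.all (fun r => lenOK (halfM 2 58 1804) r) = true := by decide +kernel
theorem h2_cntO : cntO h2 = 18 := by decide +kernel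
theorem h2_R : RunsOK (halfM 2 58 1804) false (G4 (halfM 2 58 1804) (rvH 2)) h2 :=
  runsOK_mk h2_C h2_side h2_len h2_ok h2_cov h2_cnt

theorem h2_par : HalfPar 1 1804 := Or.inl ⟨rfl, rfl⟩

theorem h2_ve7 : Vz cf7 h2_T 0 18 18 (2 ^ 58 - 2 ^ 54) (2 ^ 58) = 7800565252645595044972291329931362568410 := by decide +kernel
theorem h2_vo7 : Vz cf7 h2_T 1 18 18 (2 ^ 58 - 2 ^ 54) (2 ^ 58) = 329676957679620479240454596777948944165802 := by decide +kernel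

theorem h2_7 : ∃ tE tO : ℝ,
    |tE - ((7800565252645595044972291329931362568410 : ℤ) : ℝ) / (2 ^ 80 * (2 ^ 58 - 2 ^ 54))| ≤
      ((18 : ℕ) : ℝ) * (1 / 10 ^ 16 + 162 * 40 / (2 ^ 58 - 2 ^ 54)) ∧
    |tO - ((329676957679620479240454596777948944165802 : ℤ) : ℝ) / (2 ^ 80 * (2 ^ 58 - 2 ^ 54))| ≤
      ((18 : ℕ) : ℝ) * (1 / 10 ^ 16 + 162 * 40 / (2 ^ 58 - 2 ^ 54)) ∧
    Vh 2 7 * Real.exp (-(98 / 5)) = Real.exp (((133 : ℕ) : ℝ) / 100) * (tE + tO) ∧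
    Wh 2 7 * Real.exp (-(98 / 5)) = Real.exp (((133 : ℕ) : ℝ) / 100) * ((-1) ^ 3 * (tE - tO)) := by
  have h := half_out halfEq h2_par h2_R cfOK7 (98 / 5) (((133 : ℕ) : ℝ) / 100) (by norm_num)
  rw [h2_tot, h2_cntE, h2_cntO, h2_ve7, h2_vo7] at h
  exact h

theorem dVh_2_7 : |Vh 2 7 * Real.exp (-(98 / 5)) - 390612228922 / 10 ^ 11| ≤ 40 / 10 ^ 7 := by
  obtain ⟨tE, tO, h1, h2, h3, h4⟩ := h2_7
  exact fin_num h3 exC133 (add_enc h1 h2) (by norm_num) (10332 / 10 ^ 4) (by norm_num) (by norm_num)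
    (by norm_num) (by norm_num)

theorem dWh_2_7 : |Wh 2 7 * Real.exp (-(98 / 5)) - 372554752657 / 10 ^ 11| ≤ 40 / 10 ^ 7 := by
  obtain ⟨tE, tO, h1, h2, h3, h4⟩ := h2_7
  exact fin_num h4 exC133 (sgn_enc 3 (sub_enc h1 h2)) (by norm_num) (9855 / 10 ^ 4) (by norm_num) (by norm_num)
    (by norm_num) (by norm_num)

theorem h2_ve10 : Vz cf10 h2_T 0 18 18 (2 ^ 58 - 2 ^ 54) (2 ^ 58) = 1167349362456229273899771024500110056648 := by decide +kernel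
theorem h2_vo10 : Vz cf10 h2_T 1 18 18 (2 ^ 58 - 2 ^ 54) (2 ^ 58) = 326152070268080906903354695918003666466968 := by decide +kernel

theorem h2_10 : ∃ tE tO : ℝ,
    |tE - ((1167349362456229273899771024500110056648 : ℤ) : ℝ) / (2 ^ 80 * (2 ^ 58 - 2 ^ 54))| ≤
      ((18 : ℕ) : ℝ) * (1 / 10 ^ 14 + 162 * 56 / (2 ^ 58 - 2 ^ 54)) ∧
    |tO - ((326152070268080906903354695918003666466968 : ℤ) : ℝ) / (2 ^ 80 * (2 ^ 58 - 2 ^ 54))| ≤
      ((18 : ℕ) : ℝ) * (1 / 10 ^ 14 + 162 * 56 / (2 ^ 58 - 2 ^ 54)) ∧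
    Vh 2 10 * Real.exp (-(28)) = Real.exp (((190 : ℕ) : ℝ) / 100) * (tE + tO) ∧
    Wh 2 10 * Real.exp (-(28)) = Real.exp (((190 : ℕ) : ℝ) / 100) * ((-1) ^ 3 * (tE - tO)) := by
  have h := half_out halfEq h2_par h2_R cfOK10 (28) (((190 : ℕ) : ℝ) / 100) (by norm_num)
  rw [h2_tot, h2_cntE, h2_cntO, h2_ve10, h2_vo10] at h
  exact h

theorem dVh_2_10 : |Vh 2 10 * Real.exp (-(28)) - 669916400471 / 10 ^ 11| ≤ 67 / 10 ^ 7 := by
  obtain ⟨tE, tO, h1, h2, h3, h4⟩ := h2_10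
  exact fin_num h3 exC190 (add_enc h1 h2) (by norm_num) (10021 / 10 ^ 4) (by norm_num) (by norm_num)
    (by norm_num) (by norm_num)

theorem dWh_2_10 : |Wh 2 10 * Real.exp (-(28)) - 665138031477 / 10 ^ 11| ≤ 67 / 10 ^ 7 := by
  obtain ⟨tE, tO, h1, h2, h3, h4⟩ := h2_10
  exact fin_num h4 exC190 (sgn_enc 3 (sub_enc h1 h2)) (by norm_num) (9950 / 10 ^ 4) (by norm_num) (by norm_num)
    (by norm_num) (by norm_num)

end Crest.Agent.HGZ
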