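import Mathlib
import Crest.Agent.HG_CZ15
import Crest.Agent.HGR_h3

/-! HG part C: the final enclosures from the machine `halfM 3 58 1704` (generated). -/

set_option autoImplicit false
set_option maxRecDepth 100000
set_option linter.all false

namespace Crest.Agent.HGZ
open Crest.Agent.HG Crest.Agent.HGR Matrix

theorem h3_len : h3.all (fun r => lenOK (halfM 3 58 1704) r) = true := by decide +kernel
theorem h3_cntO : cntO h3 = 54 := by decide +kernel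
theorem h3_R : RunsOK (halfM 3 58 1704) false (G4 (halfM 3 58 1704) (rvH 3)) h3 :=
  runsOK_mk h3_C h3_side h3_len h3_ok h3_cov h3_cnt

theorem h3_par : HalfPar 2 1704 := Or.inr (Or.inl ⟨rfl, rfl⟩)

theorem h3_ve7 : Vz cf7 h3_T 0 54 54 (2 ^ 58 - 2 ^ 54) (2 ^ 58) = 154519049837997010261052154352652567003876 := by decide +kernel
theorem h3_vo7 : Vz cf7 h3_T 1 54 54 (2 ^ 58 - 2 ^ 54) (2 ^ 58) = 3453528916409751973246567524186279797840 := by decide +kernel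

theorem h3_7 : ∃ tE tO : ℝ,
    |tE - ((154519049837997010261052154352652567003876 : ℤ) : ℝ) / (2 ^ 80 * (2 ^ 58 - 2 ^ 54))| ≤
      ((54 : ℕ) : ℝ) * (1 / 10 ^ 16 + 162 * 40 / (2 ^ 58 - 2 ^ 54)) ∧
    |tO - ((3453528916409751973246567524186279797840 : ℤ) : ℝ) / (2 ^ 80 * (2 ^ 58 - 2 ^ 54))| ≤
      ((54 : ℕ) : ℝ) * (1 / 10 ^ 16 + 162 * 40 / (2 ^ 58 - 2 ^ 54)) ∧
    Vh 3 7 * Real.exp (-(147 / 5)) = Real.exp (((203 : ℕ) : ℝ) / 100) * (tE + tO) ∧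
    Wh 3 7 * Real.exp (-(147 / 5)) = Real.exp (((203 : ℕ) : ℝ) / 100) * ((-1) ^ 4 * (tE - tO)) := by
  have h := half_out halfEq h3_par h3_R cfOK7 (147 / 5) (((203 : ℕ) : ℝ) / 100) (by norm_num)
  rw [h3_tot, h3_cntE, h3_cntO, h3_ve7, h3_vo7] at h
  exact h

theorem dVh_3_7 : |Vh 3 7 * Real.exp (-(147 / 5)) - 368204276152 / 10 ^ 11| ≤ 37 / 10 ^ 7 := by
  obtain ⟨tE, tO, h1, h2, h3, h4⟩ := h3_7
  exact fin_num h3 exC203 (add_enc h1 h2) (by norm_num) (4837 / 10 ^ 4) (by norm_num) (by norm_num)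
    (by norm_num) (by norm_num)

theorem dWh_3_7 : |Wh 3 7 * Real.exp (-(147 / 5)) - 352105227509 / 10 ^ 11| ≤ 37 / 10 ^ 7 := by
  obtain ⟨tE, tO, h1, h2, h3, h4⟩ := h3_7
  exact fin_num h4 exC203 (sgn_enc 4 (sub_enc h1 h2)) (by norm_num) (4626 / 10 ^ 4) (by norm_num) (by norm_num)
    (by norm_num) (by norm_num)

theorem h3_ve10 : Vz cf10 h3_T 0 54 54 (2 ^ 58 - 2 ^ 54) (2 ^ 58) = 110554964810255370968289024564065822141396 := by decide +kernel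
theorem h3_vo10 : Vz cf10 h3_T 1 54 54 (2 ^ 58 - 2 ^ 54) (2 ^ 58) = 356714247982945137265892539516764099022 := by decide +kernel

theorem h3_10 : ∃ tE tO : ℝ,
    |tE - ((110554964810255370968289024564065822141396 : ℤ) : ℝ) / (2 ^ 80 * (2 ^ 58 - 2 ^ 54))| ≤
      ((54 : ℕ) : ℝ) * (1 / 10 ^ 14 + 162 * 56 / (2 ^ 58 - 2 ^ 54)) ∧
    |tO - ((356714247982945137265892539516764099022 : ℤ) : ℝ) / (2 ^ 80 * (2 ^ 58 - 2 ^ 54))| ≤
      ((54 : ℕ) : ℝ) * (1 / 10 ^ 14 + 162 * 56 / (2 ^ 58 - 2 ^ 54)) ∧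
    Vh 3 10 * Real.exp (-(42)) = Real.exp (((290 : ℕ) : ℝ) / 100) * (tE + tO) ∧
    Wh 3 10 * Real.exp (-(42)) = Real.exp (((290 : ℕ) : ℝ) / 100) * ((-1) ^ 4 * (tE - tO)) := by
  have h := half_out halfEq h3_par h3_R cfOK10 (42) (((290 : ℕ) : ℝ) / 100) (by norm_num)
  rw [h3_tot, h3_cntE, h3_cntO, h3_ve10, h3_vo10] at h
  exact h

theorem dVh_3_10 : |Vh 3 10 * Real.exp (-(42)) - 617050345023 / 10 ^ 11| ≤ 62 / 10 ^ 7 := by
  obtain ⟨tE, tO, h1, h2, h3, h4⟩ := h3_10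
  exact fin_num h3 exC290 (add_enc h1 h2) (by norm_num) (3397 / 10 ^ 4) (by norm_num) (by norm_num)
    (by norm_num) (by norm_num)

theorem dWh_3_10 : |Wh 3 10 * Real.exp (-(42)) - 613081229207 / 10 ^ 11| ≤ 62 / 10 ^ 7 := by
  obtain ⟨tE, tO, h1, h2, h3, h4⟩ := h3_10
  exact fin_num h4 exC290 (sgn_enc 4 (sub_enc h1 h2)) (by norm_num) (3375 / 10 ^ 4) (by norm_num) (by norm_num)
    (by norm_num) (by norm_num)

end Crest.Agent.HGZ
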