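import Mathlib
import Crest.Agent.HG_CZ15
import Crest.Agent.HGR_h4

/-! HG part C: the final enclosures from the machine `halfM 4 58 1604` (generated). -/

set_option autoImplicit false
set_option maxRecDepth 100000
set_option linter.all false

namespace Crest.Agent.HGZ
open Crest.Agent.HG Crest.Agent.HGR Matrix

theorem h4_len : h4.all (fun r => lenOK (halfM 4 58 1604) r) = true := by decide +kernel
theorem h4_cntO : cntO h4 = 162 := by decide +kernel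
theorem h4_R : RunsOK (halfM 4 58 1604) false (G4 (halfM 4 58 1604) (rvH 4)) h4 :=
  runsOK_mk h4_C h4_side h4_len h4_ok h4_cov h4_cnt

theorem h4_par : HalfPar 3 1604 := Or.inr (Or.inr (Or.inl ⟨rfl, rfl⟩))

theorem h4_ve7 : Vz cf7 h4_T 0 162 162 (2 ^ 58 - 2 ^ 54) (2 ^ 58) = 2415171091803963550765286682293636911958 := by decide +kernel
theorem h4_vo7 : Vz cf7 h4_T 1 162 162 (2 ^ 58 - 2 ^ 54) (2 ^ 58) = 79378060188017606250827483023532986378354 := by decide +kernel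

theorem h4_7 : ∃ tE tO : ℝ,
    |tE - ((2415171091803963550765286682293636911958 : ℤ) : ℝ) / (2 ^ 80 * (2 ^ 58 - 2 ^ 54))| ≤
      ((162 : ℕ) : ℝ) * (1 / 10 ^ 16 + 162 * 40 / (2 ^ 58 - 2 ^ 54)) ∧
    |tO - ((79378060188017606250827483023532986378354 : ℤ) : ℝ) / (2 ^ 80 * (2 ^ 58 - 2 ^ 54))| ≤
      ((162 : ℕ) : ℝ) * (1 / 10 ^ 16 + 162 * 40 / (2 ^ 58 - 2 ^ 54)) ∧
    Vh 4 7 * Real.exp (-(196 / 5)) = Real.exp (((273 : ℕ) : ℝ) / 100) * (tE + tO) ∧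
    Wh 4 7 * Real.exp (-(196 / 5)) = Real.exp (((273 : ℕ) : ℝ) / 100) * ((-1) ^ 5 * (tE - tO)) := by
  have h := half_out halfEq h4_par h4_R cfOK7 (196 / 5) (((273 : ℕ) : ℝ) / 100) (by norm_num)
  rw [h4_tot, h4_cntE, h4_cntO, h4_ve7, h4_vo7] at h
  exact h

theorem dVh_4_7 : |Vh 4 7 * Real.exp (-(196 / 5)) - 383911059400 / 10 ^ 11| ≤ 39 / 10 ^ 7 := by
  obtain ⟨tE, tO, h1, h2, h3, h4⟩ := h4_7
  exact fin_num h3 exC273 (add_enc h1 h2) (by norm_num) (2505 / 10 ^ 4) (by norm_num) (by norm_num)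
    (by norm_num) (by norm_num)

theorem dWh_4_7 : |Wh 4 7 * Real.exp (-(196 / 5)) - 361238990380 / 10 ^ 11| ≤ 39 / 10 ^ 7 := by
  obtain ⟨tE, tO, h1, h2, h3, h4⟩ := h4_7
  exact fin_num h4 exC273 (sgn_enc 5 (sub_enc h1 h2)) (by norm_num) (2357 / 10 ^ 4) (by norm_num) (by norm_num)
    (by norm_num) (by norm_num)

theorem h4_ve10 : Vz cf10 h4_T 0 162 162 (2 ^ 58 - 2 ^ 54) (2 ^ 58) = 214565013193726636465461616413552514648 := by decide +kernel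
theorem h4_vo10 : Vz cf10 h4_T 1 162 162 (2 ^ 58 - 2 ^ 54) (2 ^ 58) = 42481157367186754225084996011778139673132 := by decide +kernel

theorem h4_10 : ∃ tE tO : ℝ,
    |tE - ((214565013193726636465461616413552514648 : ℤ) : ℝ) / (2 ^ 80 * (2 ^ 58 - 2 ^ 54))| ≤
      ((162 : ℕ) : ℝ) * (1 / 10 ^ 14 + 162 * 56 / (2 ^ 58 - 2 ^ 54)) ∧
    |tO - ((42481157367186754225084996011778139673132 : ℤ) : ℝ) / (2 ^ 80 * (2 ^ 58 - 2 ^ 54))| ≤
      ((162 : ℕ) : ℝ) * (1 / 10 ^ 14 + 162 * 56 / (2 ^ 58 - 2 ^ 54)) ∧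
    Vh 4 10 * Real.exp (-(56)) = Real.exp (((390 : ℕ) : ℝ) / 100) * (tE + tO) ∧
    Wh 4 10 * Real.exp (-(56)) = Real.exp (((390 : ℕ) : ℝ) / 100) * ((-1) ^ 5 * (tE - tO)) := by
  have h := half_out halfEq h4_par h4_R cfOK10 (56) (((390 : ℕ) : ℝ) / 100) (by norm_num)
  rw [h4_tot, h4_cntE, h4_cntO, h4_ve10, h4_vo10] at h
  exact h

theorem dVh_4_10 : |Vh 4 10 * Real.exp (-(56)) - 645687185410 / 10 ^ 11| ≤ 65 / 10 ^ 7 := by
  obtain ⟨tE, tO, h1, h2, h3, h4⟩ := h4_10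
  exact fin_num h3 exC390 (add_enc h1 h2) (by norm_num) (1308 / 10 ^ 4) (by norm_num) (by norm_num)
    (by norm_num) (by norm_num)

theorem dWh_4_10 : |Wh 4 10 * Real.exp (-(56)) - 639197454273 / 10 ^ 11| ≤ 65 / 10 ^ 7 := by
  obtain ⟨tE, tO, h1, h2, h3, h4⟩ := h4_10
  exact fin_num h4 exC390 (sgn_enc 5 (sub_enc h1 h2)) (by norm_num) (1295 / 10 ^ 4) (by norm_num) (by norm_num)
    (by norm_num) (by norm_num)

end Crest.Agent.HGZ
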