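import Mathlib
import Crest.Agent.HG_CZ15
import Crest.Agent.HGR_h5

/-! HG part C: the final enclosures from the machine `halfM 5 58 1504` (generated). -/

set_option autoImplicit false
set_option maxRecDepth 100000
set_option linter.all false

namespace Crest.Agent.HGZ
open Crest.Agent.HG Crest.Agent.HGR Matrix

theorem h5_len : h5.all (fun r => lenOK (halfM 5 58 1504) r) = true := by decide +kernel
theorem h5_cntO : cntO h5 = 486 := by decide +kernel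
theorem h5_R : RunsOK (halfM 5 58 1504) false (G4 (halfM 5 58 1504) (rvH 5)) h5 :=
  runsOK_mk h5_C h5_side h5_len h5_ok h5_cov h5_cnt

theorem h5_par : HalfPar 4 1504 := Or.inr (Or.inr (Or.inr (Or.inl ⟨rfl, rfl⟩)))

theorem h5_ve7 : Vz cf7 h5_T 0 486 486 (2 ^ 58 - 2 ^ 54) (2 ^ 58) = 39614528680120882327554413167174370474858 := by decide +kernel
theorem h5_vo7 : Vz cf7 h5_T 1 486 486 (2 ^ 58 - 2 ^ 54) (2 ^ 58) = 1328318710373477587989864090734619578782 := by decide +kernel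

theorem h5_7 : ∃ tE tO : ℝ,
    |tE - ((39614528680120882327554413167174370474858 : ℤ) : ℝ) / (2 ^ 80 * (2 ^ 58 - 2 ^ 54))| ≤
      ((486 : ℕ) : ℝ) * (1 / 10 ^ 16 + 162 * 40 / (2 ^ 58 - 2 ^ 54)) ∧
    |tO - ((1328318710373477587989864090734619578782 : ℤ) : ℝ) / (2 ^ 80 * (2 ^ 58 - 2 ^ 54))| ≤
      ((486 : ℕ) : ℝ) * (1 / 10 ^ 16 + 162 * 40 / (2 ^ 58 - 2 ^ 54)) ∧
    Vh 5 7 * Real.exp (-(49)) = Real.exp (((343 : ℕ) : ℝ) / 100) * (tE + tO) ∧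
    Wh 5 7 * Real.exp (-(49)) = Real.exp (((343 : ℕ) : ℝ) / 100) * ((-1) ^ 6 * (tE - tO)) := by
  have h := half_out halfEq h5_par h5_R cfOK7 (49) (((343 : ℕ) : ℝ) / 100) (by norm_num)
  rw [h5_tot, h5_cntE, h5_cntO, h5_ve7, h5_vo7] at h
  exact h

theorem dVh_5_7 : |Vh 5 7 * Real.exp (-(49)) - 386987945809 / 10 ^ 11| ≤ 39 / 10 ^ 7 := by
  obtain ⟨tE, tO, h1, h2, h3, h4⟩ := h5_7
  exact fin_num h3 exC343 (add_enc h1 h2) (by norm_num) (1255 / 10 ^ 4) (by norm_num) (by norm_num)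
    (by norm_num) (by norm_num)

theorem dWh_5_7 : |Wh 5 7 * Real.exp (-(49)) - 361877658574 / 10 ^ 11| ≤ 39 / 10 ^ 7 := by
  obtain ⟨tE, tO, h1, h2, h3, h4⟩ := h5_7
  exact fin_num h4 exC343 (sgn_enc 6 (sub_enc h1 h2)) (by norm_num) (1174 / 10 ^ 4) (by norm_num) (by norm_num)
    (by norm_num) (by norm_num)

theorem h5_ve10 : Vz cf10 h5_T 0 486 486 (2 ^ 58 - 2 ^ 54) (2 ^ 58) = 15708052659536218638783196962994337520930 := by decide +kernel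
theorem h5_vo10 : Vz cf10 h5_T 1 486 486 (2 ^ 58 - 2 ^ 54) (2 ^ 58) = 88797811147131062393927920224785783900 := by decide +kernel

theorem h5_10 : ∃ tE tO : ℝ,
    |tE - ((15708052659536218638783196962994337520930 : ℤ) : ℝ) / (2 ^ 80 * (2 ^ 58 - 2 ^ 54))| ≤
      ((486 : ℕ) : ℝ) * (1 / 10 ^ 14 + 162 * 56 / (2 ^ 58 - 2 ^ 54)) ∧
    |tO - ((88797811147131062393927920224785783900 : ℤ) : ℝ) / (2 ^ 80 * (2 ^ 58 - 2 ^ 54))| ≤
      ((486 : ℕ) : ℝ) * (1 / 10 ^ 14 + 162 * 56 / (2 ^ 58 - 2 ^ 54)) ∧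
    Vh 5 10 * Real.exp (-(70)) = Real.exp (((490 : ℕ) : ℝ) / 100) * (tE + tO) ∧
    Wh 5 10 * Real.exp (-(70)) = Real.exp (((490 : ℕ) : ℝ) / 100) * ((-1) ^ 6 * (tE - tO)) := by
  have h := half_out halfEq h5_par h5_R cfOK10 (70) (((490 : ℕ) : ℝ) / 100) (by norm_num)
  rw [h5_tot, h5_cntE, h5_cntO, h5_ve10, h5_vo10] at h
  exact h

theorem dVh_5_10 : |Vh 5 10 * Real.exp (-(70)) - 649385804152 / 10 ^ 11| ≤ 65 / 10 ^ 7 := by
  obtain ⟨tE, tO, h1, h2, h3, h4⟩ := h5_10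
  exact fin_num h3 exC490 (add_enc h1 h2) (by norm_num) (485 / 10 ^ 4) (by norm_num) (by norm_num)
    (by norm_num) (by norm_num)

theorem dWh_5_10 : |Wh 5 10 * Real.exp (-(70)) - 642085103535 / 10 ^ 11| ≤ 65 / 10 ^ 7 := by
  obtain ⟨tE, tO, h1, h2, h3, h4⟩ := h5_10
  exact fin_num h4 exC490 (sgn_enc 6 (sub_enc h1 h2)) (by norm_num) (480 / 10 ^ 4) (by norm_num) (by norm_num)
    (by norm_num) (by norm_num)

end Crest.Agent.HGZ
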