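import Mathlib
import Crest.Agent.HG_CZ15
import Crest.Agent.HGR_h6

/-! HG part C: the final enclosures from the machine `halfM 6 58 1404` (generated). -/

set_option autoImplicit false
set_option maxRecDepth 100000
set_option linter.all false

namespace Crest.Agent.HGZ
open Crest.Agent.HG Crest.Agent.HGR Matrix

theorem h6_len : h6.all (fun r => lenOK (halfM 6 58 1404) r) = true := by decide +kernel
theorem h6_cntO : cntO h6 = 1458 := by decide +kernel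
theorem h6_R : RunsOK (halfM 6 58 1404) false (G4 (halfM 6 58 1404) (rvH 6)) h6 :=
  runsOK_mk h6_C h6_side h6_len h6_ok h6_cov h6_cnt

theorem h6_par : HalfPar 5 1404 := Or.inr (Or.inr (Or.inr (Or.inr (Or.inl ⟨rfl, rfl⟩))))

theorem h6_ve7 : Vz cf7 h6_T 0 1458 1458 (2 ^ 58 - 2 ^ 54) (2 ^ 58) = 786127249631890841927803752189991541216 := by decide +kernel
theorem h6_vo7 : Vz cf7 h6_T 1 1458 1458 (2 ^ 58 - 2 ^ 54) (2 ^ 58) = 19985534996738052279998309209574999016154 := by decide +kernel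

theorem h6_7 : ∃ tE tO : ℝ,
    |tE - ((786127249631890841927803752189991541216 : ℤ) : ℝ) / (2 ^ 80 * (2 ^ 58 - 2 ^ 54))| ≤
      ((1458 : ℕ) : ℝ) * (1 / 10 ^ 16 + 162 * 40 / (2 ^ 58 - 2 ^ 54)) ∧
    |tO - ((19985534996738052279998309209574999016154 : ℤ) : ℝ) / (2 ^ 80 * (2 ^ 58 - 2 ^ 54))| ≤
      ((1458 : ℕ) : ℝ) * (1 / 10 ^ 16 + 162 * 40 / (2 ^ 58 - 2 ^ 54)) ∧
    Vh 6 7 * Real.exp (-(294 / 5)) = Real.exp (((413 : ℕ) : ℝ) / 100) * (tE + tO) ∧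
    Wh 6 7 * Real.exp (-(294 / 5)) = Real.exp (((413 : ℕ) : ℝ) / 100) * ((-1) ^ 7 * (tE - tO)) := by
  have h := half_out halfEq h6_par h6_R cfOK7 (294 / 5) (((413 : ℕ) : ℝ) / 100) (by norm_num)
  rw [h6_tot, h6_cntE, h6_cntO, h6_ve7, h6_vo7] at h
  exact h

theorem dVh_6_7 : |Vh 6 7 * Real.exp (-(294 / 5)) - 395363692753 / 10 ^ 11| ≤ 40 / 10 ^ 7 := by
  obtain ⟨tE, tO, h1, h2, h3, h4⟩ := h6_7
  exact fin_num h3 exC413 (add_enc h1 h2) (by norm_num) (637 / 10 ^ 4) (by norm_num) (by norm_num)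
    (by norm_num) (by norm_num)

theorem dWh_6_7 : |Wh 6 7 * Real.exp (-(294 / 5)) - 365437712954 / 10 ^ 11| ≤ 40 / 10 ^ 7 := by
  obtain ⟨tE, tO, h1, h2, h3, h4⟩ := h6_7
  exact fin_num h4 exC413 (sgn_enc 7 (sub_enc h1 h2)) (by norm_num) (589 / 10 ^ 4) (by norm_num) (by norm_num)
    (by norm_num) (by norm_num)

theorem h6_ve10 : Vz cf10 h6_T 0 1458 1458 (2 ^ 58 - 2 ^ 54) (2 ^ 58) = 41635621025439176988707028113118584296 := by decide +kernel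
theorem h6_vo10 : Vz cf10 h6_T 1 1458 1458 (2 ^ 58 - 2 ^ 54) (2 ^ 58) = 5889839890470627532417595588378121991696 := by decide +kernel

theorem h6_10 : ∃ tE tO : ℝ,
    |tE - ((41635621025439176988707028113118584296 : ℤ) : ℝ) / (2 ^ 80 * (2 ^ 58 - 2 ^ 54))| ≤
      ((1458 : ℕ) : ℝ) * (1 / 10 ^ 14 + 162 * 56 / (2 ^ 58 - 2 ^ 54)) ∧
    |tO - ((5889839890470627532417595588378121991696 : ℤ) : ℝ) / (2 ^ 80 * (2 ^ 58 - 2 ^ 54))| ≤
      ((1458 : ℕ) : ℝ) * (1 / 10 ^ 14 + 162 * 56 / (2 ^ 58 - 2 ^ 54)) ∧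
    Vh 6 10 * Real.exp (-(84)) = Real.exp (((590 : ℕ) : ℝ) / 100) * (tE + tO) ∧
    Wh 6 10 * Real.exp (-(84)) = Real.exp (((590 : ℕ) : ℝ) / 100) * ((-1) ^ 7 * (tE - tO)) := by
  have h := half_out halfEq h6_par h6_R cfOK10 (84) (((590 : ℕ) : ℝ) / 100) (by norm_num)
  rw [h6_tot, h6_cntE, h6_cntO, h6_ve10, h6_vo10] at h
  exact h

theorem dVh_6_10 : |Vh 6 10 * Real.exp (-(84)) - 662810694131 / 10 ^ 11| ≤ 67 / 10 ^ 7 := by
  obtain ⟨tE, tO, h1, h2, h3, h4⟩ := h6_10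
  exact fin_num h3 exC590 (add_enc h1 h2) (by norm_num) (183 / 10 ^ 4) (by norm_num) (by norm_num)
    (by norm_num) (by norm_num)

theorem dWh_6_10 : |Wh 6 10 * Real.exp (-(84)) - 653505577770 / 10 ^ 11| ≤ 67 / 10 ^ 7 := by
  obtain ⟨tE, tO, h1, h2, h3, h4⟩ := h6_10
  exact fin_num h4 exC590 (sgn_enc 7 (sub_enc h1 h2)) (by norm_num) (181 / 10 ^ 4) (by norm_num) (by norm_num)
    (by norm_num) (by norm_num)

end Crest.Agent.HGZ
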