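import Mathlib
import Crest.Agent.HG_CZ15
import Crest.Agent.HGR_h7

/-! HG part C: the final enclosures from the machine `halfM 7 58 1304` (generated). -/

set_option autoImplicit false
set_option maxRecDepth 100000
set_option linter.all false

namespace Crest.Agent.HGZ
open Crest.Agent.HG Crest.Agent.HGR Matrix

theorem h7_len : h7.all (fun r => lenOK (halfM 7 58 1304) r) = true := by decide +kernel
theorem h7_cntO : cntO h7 = 4374 := by decide +kernel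
theorem h7_R : RunsOK (halfM 7 58 1304) false (G4 (halfM 7 58 1304) (rvH 7)) h7 :=
  runsOK_mk h7_C h7_side h7_len h7_ok h7_cov h7_cnt

theorem h7_par : HalfPar 6 1304 := Or.inr (Or.inr (Or.inr (Or.inr (Or.inr (Or.inl ⟨rfl, rfl⟩)))))

theorem h7_ve7 : Vz cf7 h7_T 0 4374 4374 (2 ^ 58 - 2 ^ 54) (2 ^ 58) = 10040523255805268819388808270109825252256 := by decide +kernel
theorem h7_vo7 : Vz cf7 h7_T 1 4374 4374 (2 ^ 58 - 2 ^ 54) (2 ^ 58) = 439012487623066546436208197256489434498 := by decide +kernel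

theorem h7_7 : ∃ tE tO : ℝ,
    |tE - ((10040523255805268819388808270109825252256 : ℤ) : ℝ) / (2 ^ 80 * (2 ^ 58 - 2 ^ 54))| ≤
      ((4374 : ℕ) : ℝ) * (1 / 10 ^ 16 + 162 * 40 / (2 ^ 58 - 2 ^ 54)) ∧
    |tO - ((439012487623066546436208197256489434498 : ℤ) : ℝ) / (2 ^ 80 * (2 ^ 58 - 2 ^ 54))| ≤
      ((4374 : ℕ) : ℝ) * (1 / 10 ^ 16 + 162 * 40 / (2 ^ 58 - 2 ^ 54)) ∧
    Vh 7 7 * Real.exp (-(343 / 5)) = Real.exp (((483 : ℕ) : ℝ) / 100) * (tE + tO) ∧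
    Wh 7 7 * Real.exp (-(343 / 5)) = Real.exp (((483 : ℕ) : ℝ) / 100) * ((-1) ^ 8 * (tE - tO)) := by
  have h := half_out halfEq h7_par h7_R cfOK7 (343 / 5) (((483 : ℕ) : ℝ) / 100) (by norm_num)
  rw [h7_tot, h7_cntE, h7_cntO, h7_ve7, h7_vo7] at h
  exact h

theorem dVh_7_7 : |Vh 7 7 * Real.exp (-(343 / 5)) - 401673992324 / 10 ^ 11| ≤ 41 / 10 ^ 7 := by
  obtain ⟨tE, tO, h1, h2, h3, h4⟩ := h7_7
  exact fin_num h3 exC483 (add_enc h1 h2) (by norm_num) (322 / 10 ^ 4) (by norm_num) (by norm_num)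
    (by norm_num) (by norm_num)

theorem dWh_7_7 : |Wh 7 7 * Real.exp (-(343 / 5)) - 368019849068 / 10 ^ 11| ≤ 41 / 10 ^ 7 := by
  obtain ⟨tE, tO, h1, h2, h3, h4⟩ := h7_7
  exact fin_num h4 exC483 (sgn_enc 8 (sub_enc h1 h2)) (by norm_num) (295 / 10 ^ 4) (by norm_num) (by norm_num)
    (by norm_num) (by norm_num)

theorem h7_ve10 : Vz cf10 h7_T 0 4374 4374 (2 ^ 58 - 2 ^ 54) (2 ^ 58) = 2196885711127877309447995086959243498478 := by decide +kernel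
theorem h7_vo10 : Vz cf10 h7_T 1 4374 4374 (2 ^ 58 - 2 ^ 54) (2 ^ 58) = 17646292540322099109983320862229013784 := by decide +kernel

theorem h7_10 : ∃ tE tO : ℝ,
    |tE - ((2196885711127877309447995086959243498478 : ℤ) : ℝ) / (2 ^ 80 * (2 ^ 58 - 2 ^ 54))| ≤
      ((4374 : ℕ) : ℝ) * (1 / 10 ^ 14 + 162 * 56 / (2 ^ 58 - 2 ^ 54)) ∧
    |tO - ((17646292540322099109983320862229013784 : ℤ) : ℝ) / (2 ^ 80 * (2 ^ 58 - 2 ^ 54))| ≤
      ((4374 : ℕ) : ℝ) * (1 / 10 ^ 14 + 162 * 56 / (2 ^ 58 - 2 ^ 54)) ∧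
    Vh 7 10 * Real.exp (-(98)) = Real.exp (((690 : ℕ) : ℝ) / 100) * (tE + tO) ∧
    Wh 7 10 * Real.exp (-(98)) = Real.exp (((690 : ℕ) : ℝ) / 100) * ((-1) ^ 8 * (tE - tO)) := by
  have h := half_out halfEq h7_par h7_R cfOK10 (98) (((690 : ℕ) : ℝ) / 100) (by norm_num)
  rw [h7_tot, h7_cntE, h7_cntO, h7_ve10, h7_vo10] at h
  exact h

theorem dVh_7_10 : |Vh 7 10 * Real.exp (-(98)) - 672671779288 / 10 ^ 11| ≤ 68 / 10 ^ 7 := by
  obtain ⟨tE, tO, h1, h2, h3, h4⟩ := h7_10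
  exact fin_num h3 exC690 (add_enc h1 h2) (by norm_num) (69 / 10 ^ 4) (by norm_num) (by norm_num)
    (by norm_num) (by norm_num)

theorem dWh_7_10 : |Wh 7 10 * Real.exp (-(98)) - 661951534140 / 10 ^ 11| ≤ 68 / 10 ^ 7 := by
  obtain ⟨tE, tO, h1, h2, h3, h4⟩ := h7_10
  exact fin_num h4 exC690 (sgn_enc 8 (sub_enc h1 h2)) (by norm_num) (68 / 10 ^ 4) (by norm_num) (by norm_num)
    (by norm_num) (by norm_num)

end Crest.Agent.HGZ
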