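import Mathlib
import Crest.Agent.HG_CZ15
import Crest.Agent.HGR_h8

/-! HG part C: the final enclosures from the machine `halfM 8 58 1204` (generated). -/

set_option autoImplicit false
set_option maxRecDepth 100000
set_option linter.all false

namespace Crest.Agent.HGZ
open Crest.Agent.HG Crest.Agent.HGR Matrix

theorem h8_len : h8.all (fun r => lenOK (halfM 8 58 1204) r) = true := by decide +kernel
theorem h8_cntO : cntO h8 = 13122 := by decide +kernel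
theorem h8_R : RunsOK (halfM 8 58 1204) false (G4 (halfM 8 58 1204) (rvH 8)) h8 :=
  runsOK_mk h8_C h8_side h8_len h8_ok h8_cov h8_cnt

theorem h8_par : HalfPar 7 1204 := Or.inr (Or.inr (Or.inr (Or.inr (Or.inr (Or.inr (⟨rfl, rfl⟩))))))

theorem h8_ve7 : Vz cf7 h8_T 0 13122 13122 (2 ^ 58 - 2 ^ 54) (2 ^ 58) = 246809418737677037138372031206349398454 := by decide +kernel
theorem h8_vo7 : Vz cf7 h8_T 1 13122 13122 (2 ^ 58 - 2 ^ 54) (2 ^ 58) = 5053449684381186821732569148532331914584 := by decide +kernel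

theorem h8_7 : ∃ tE tO : ℝ,
    |tE - ((246809418737677037138372031206349398454 : ℤ) : ℝ) / (2 ^ 80 * (2 ^ 58 - 2 ^ 54))| ≤
      ((13122 : ℕ) : ℝ) * (1 / 10 ^ 16 + 162 * 40 / (2 ^ 58 - 2 ^ 54)) ∧
    |tO - ((5053449684381186821732569148532331914584 : ℤ) : ℝ) / (2 ^ 80 * (2 ^ 58 - 2 ^ 54))| ≤
      ((13122 : ℕ) : ℝ) * (1 / 10 ^ 16 + 162 * 40 / (2 ^ 58 - 2 ^ 54)) ∧
    Vh 8 7 * Real.exp (-(392 / 5)) = Real.exp (((553 : ℕ) : ℝ) / 100) * (tE + tO) ∧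
    Wh 8 7 * Real.exp (-(392 / 5)) = Real.exp (((553 : ℕ) : ℝ) / 100) * ((-1) ^ 9 * (tE - tO)) := by
  have h := half_out halfEq h8_par h8_R cfOK7 (392 / 5) (((553 : ℕ) : ℝ) / 100) (by norm_num)
  rw [h8_tot, h8_cntE, h8_cntO, h8_ve7, h8_vo7] at h
  exact h

theorem dVh_8_7 : |Vh 8 7 * Real.exp (-(392 / 5)) - 409105113140 / 10 ^ 11| ≤ 41 / 10 ^ 7 := by
  obtain ⟨tE, tO, h1, h2, h3, h4⟩ := h8_7
  exact fin_num h3 exC553 (add_enc h1 h2) (by norm_num) (164 / 10 ^ 4) (by norm_num) (by norm_num)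
    (by norm_num) (by norm_num)

theorem dWh_8_7 : |Wh 8 7 * Real.exp (-(392 / 5)) - 371004713438 / 10 ^ 11| ≤ 41 / 10 ^ 7 := by
  obtain ⟨tE, tO, h1, h2, h3, h4⟩ := h8_7
  exact fin_num h4 exC553 (sgn_enc 9 (sub_enc h1 h2)) (by norm_num) (149 / 10 ^ 4) (by norm_num) (by norm_num)
    (by norm_num) (by norm_num)

theorem h8_ve10 : Vz cf10 h8_T 0 13122 13122 (2 ^ 58 - 2 ^ 54) (2 ^ 58) = 7626494010062630344247629299511815148 := by decide +kernel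
theorem h8_vo10 : Vz cf10 h8_T 1 13122 13122 (2 ^ 58 - 2 ^ 54) (2 ^ 58) = 821239880597465436645787805996035847680 := by decide +kernel

theorem h8_10 : ∃ tE tO : ℝ,
    |tE - ((7626494010062630344247629299511815148 : ℤ) : ℝ) / (2 ^ 80 * (2 ^ 58 - 2 ^ 54))| ≤
      ((13122 : ℕ) : ℝ) * (1 / 10 ^ 14 + 162 * 56 / (2 ^ 58 - 2 ^ 54)) ∧
    |tO - ((821239880597465436645787805996035847680 : ℤ) : ℝ) / (2 ^ 80 * (2 ^ 58 - 2 ^ 54))| ≤
      ((13122 : ℕ) : ℝ) * (1 / 10 ^ 14 + 162 * 56 / (2 ^ 58 - 2 ^ 54)) ∧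
    Vh 8 10 * Real.exp (-(112)) = Real.exp (((790 : ℕ) : ℝ) / 100) * (tE + tO) ∧
    Wh 8 10 * Real.exp (-(112)) = Real.exp (((790 : ℕ) : ℝ) / 100) * ((-1) ^ 9 * (tE - tO)) := by
  have h := half_out halfEq h8_par h8_R cfOK10 (112) (((790 : ℕ) : ℝ) / 100) (by norm_num)
  rw [h8_tot, h8_cntE, h8_cntO, h8_ve10, h8_vo10] at h
  exact h

theorem dVh_8_10 : |Vh 8 10 * Real.exp (-(112)) - 684384634746 / 10 ^ 11| ≤ 69 / 10 ^ 7 := by
  obtain ⟨tE, tO, h1, h2, h3, h4⟩ := h8_10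
  exact fin_num h3 exC790 (add_enc h1 h2) (by norm_num) (27 / 10 ^ 4) (by norm_num) (by norm_num)
    (by norm_num) (by norm_num)

theorem dWh_8_10 : |Wh 8 10 * Real.exp (-(112)) - 671790432677 / 10 ^ 11| ≤ 69 / 10 ^ 7 := by
  obtain ⟨tE, tO, h1, h2, h3, h4⟩ := h8_10
  exact fin_num h4 exC790 (sgn_enc 9 (sub_enc h1 h2)) (by norm_num) (26 / 10 ^ 4) (by norm_num) (by norm_num)
    (by norm_num) (by norm_num)

end Crest.Agent.HGZ
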