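import Mathlib
import Crest.Agent.HG_CZ15
import Crest.Agent.HGR_r4

/-! HG part C: the final enclosures from the machine `ringM 4 false 56 206` (generated). -/

set_option autoImplicit false
set_option maxRecDepth 100000
set_option linter.all false

namespace Crest.Agent.HGZ
open Crest.Agent.HG Crest.Agent.HGR Matrix

theorem r4_len : r4.all (fun r => lenOK (ringM 4 false 56 206) r) = true := by decide +kernel
theorem r4_cntO : cntO r4 = 40 := by decide +kernel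
theorem r4_R : RunsOK (ringM 4 false 56 206) false (G4 (ringM 4 false 56 206) (rvF 4)) r4 :=
  runsOK_mk r4_C r4_side r4_len r4_ok r4_cov r4_cnt

theorem r4_par : RingPar 4 206 := Or.inl ⟨rfl, rfl⟩

theorem r4_ve7 : Vz cf7 r4_T 0 41 41 (2 ^ 56 - 2 ^ 52) (2 ^ 56) = 81742239735569383624238340650406666476400 := by decide +kernel
theorem r4_vo7 : Vz cf7 r4_T 1 40 40 (2 ^ 56 - 2 ^ 52) (2 ^ 56) = 148943101274656576415873681129440653920 := by decide +kernel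

theorem r4_7 : ∃ tE tO : ℝ,
    |tE - ((81742239735569383624238340650406666476400 : ℤ) : ℝ) / (2 ^ 80 * (2 ^ 56 - 2 ^ 52))| ≤
      ((41 : ℕ) : ℝ) * (1 / 10 ^ 16 + 81 * 40 / (2 ^ 56 - 2 ^ 52)) ∧
    |tO - ((148943101274656576415873681129440653920 : ℤ) : ℝ) / (2 ^ 80 * (2 ^ 56 - 2 ^ 52))| ≤
      ((40 : ℕ) : ℝ) * (1 / 10 ^ 16 + 81 * 40 / (2 ^ 56 - 2 ^ 52)) ∧
    P 4 7 * Real.exp (-(196 / 5)) = Real.exp (((280 : ℕ) : ℝ) / 100) * (tE + tO) ∧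
    Q 4 7 * Real.exp (-(196 / 5)) = Real.exp (((280 : ℕ) : ℝ) / 100) * (tE - tO) := by
  have h := ring_out r4_par r4_R cfOK7 (196 / 5) (((280 : ℕ) : ℝ) / 100) (by norm_num)
  rw [r4_tot, r4_cntE, r4_cntO, r4_ve7, r4_vo7] at h
  exact h

theorem dP_4_7 : |P 4 7 * Real.exp (-(196 / 5)) - 1648963363874 / 10 ^ 11| ≤ 17 / 10 ^ 6 := by
  obtain ⟨tE, tO, h1, h2, h3, h4⟩ := r4_7
  exact fin_num h3 exC280 (add_enc h1 h2) (by norm_num) (10029 / 10 ^ 4) (by norm_num) (by norm_num)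
    (by norm_num) (by norm_num)

theorem dQ_4_7 : |Q 4 7 * Real.exp (-(196 / 5)) - 1642965118179 / 10 ^ 11| ≤ 17 / 10 ^ 6 := by
  obtain ⟨tE, tO, h1, h2, h3, h4⟩ := r4_7
  exact fin_num h4 exC280 (sub_enc h1 h2) (by norm_num) (9992 / 10 ^ 4) (by norm_num) (by norm_num)
    (by norm_num) (by norm_num)

theorem r4_ve10 : Vz cf10 r4_T 0 41 41 (2 ^ 56 - 2 ^ 52) (2 ^ 56) = 81671475771995919297064852256531949448385 := by decide +kernel
theorem r4_vo10 : Vz cf10 r4_T 1 40 40 (2 ^ 56 - 2 ^ 52) (2 ^ 56) = 7415421913409763042798906350571917888 := by decide +kernel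

theorem r4_10 : ∃ tE tO : ℝ,
    |tE - ((81671475771995919297064852256531949448385 : ℤ) : ℝ) / (2 ^ 80 * (2 ^ 56 - 2 ^ 52))| ≤
      ((41 : ℕ) : ℝ) * (1 / 10 ^ 14 + 81 * 56 / (2 ^ 56 - 2 ^ 52)) ∧
    |tO - ((7415421913409763042798906350571917888 : ℤ) : ℝ) / (2 ^ 80 * (2 ^ 56 - 2 ^ 52))| ≤
      ((40 : ℕ) : ℝ) * (1 / 10 ^ 14 + 81 * 56 / (2 ^ 56 - 2 ^ 52)) ∧
    P 4 10 * Real.exp (-(56)) = Real.exp (((400 : ℕ) : ℝ) / 100) * (tE + tO) ∧
    Q 4 10 * Real.exp (-(56)) = Real.exp (((400 : ℕ) : ℝ) / 100) * (tE - tO) := by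
  have h := ring_out r4_par r4_R cfOK10 (56) (((400 : ℕ) : ℝ) / 100) (by norm_num)
  rw [r4_tot, r4_cntE, r4_cntO, r4_ve10, r4_vo10] at h
  exact h

theorem dP_4_10 : |P 4 10 * Real.exp (-(56)) - 5460558628974 / 10 ^ 11| ≤ 55 / 10 ^ 6 := by
  obtain ⟨tE, tO, h1, h2, h3, h4⟩ := r4_10
  exact fin_num h3 exC400 (add_enc h1 h2) (by norm_num) (10003 / 10 ^ 4) (by norm_num) (by norm_num)
    (by norm_num) (by norm_num)

theorem dQ_4_10 : |Q 4 10 * Real.exp (-(56)) - 5459567128100 / 10 ^ 11| ≤ 55 / 10 ^ 6 := by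
  obtain ⟨tE, tO, h1, h2, h3, h4⟩ := r4_10
  exact fin_num h4 exC400 (sub_enc h1 h2) (by norm_num) (10001 / 10 ^ 4) (by norm_num) (by norm_num)
    (by norm_num) (by norm_num)

end Crest.Agent.HGZ
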