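import Mathlib
import Crest.Agent.HG_CZ15
import Crest.Agent.HGR_r6

/-! HG part C: the final enclosures from the machine `ringM 6 false 56 181` (generated). -/

set_option autoImplicit false
set_option maxRecDepth 100000
set_option linter.all false

namespace Crest.Agent.HGZ
open Crest.Agent.HG Crest.Agent.HGR Matrix

theorem r6_len : r6.all (fun r => lenOK (ringM 6 false 56 181) r) = true := by decide +kernel
theorem r6_cntO : cntO r6 = 364 := by decide +kernel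
theorem r6_R : RunsOK (ringM 6 false 56 181) false (G4 (ringM 6 false 56 181) (rvF 6)) r6 :=
  runsOK_mk r6_C r6_side r6_len r6_ok r6_cov r6_cnt

theorem r6_par : RingPar 6 181 := Or.inr (Or.inl ⟨rfl, rfl⟩)

theorem r6_ve7 : Vz cf7 r6_T 0 365 365 (2 ^ 56 - 2 ^ 52) (2 ^ 56) = 5646564482875989264206990393301892270146 := by decide +kernel
theorem r6_vo7 : Vz cf7 r6_T 1 364 364 (2 ^ 56 - 2 ^ 52) (2 ^ 56) = 72326473161743520680114221535527777704 := by decide +kernel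

theorem r6_7 : ∃ tE tO : ℝ,
    |tE - ((5646564482875989264206990393301892270146 : ℤ) : ℝ) / (2 ^ 80 * (2 ^ 56 - 2 ^ 52))| ≤
      ((365 : ℕ) : ℝ) * (1 / 10 ^ 16 + 81 * 40 / (2 ^ 56 - 2 ^ 52)) ∧
    |tO - ((72326473161743520680114221535527777704 : ℤ) : ℝ) / (2 ^ 80 * (2 ^ 56 - 2 ^ 52))| ≤
      ((364 : ℕ) : ℝ) * (1 / 10 ^ 16 + 81 * 40 / (2 ^ 56 - 2 ^ 52)) ∧
    P 6 7 * Real.exp (-(294 / 5)) = Real.exp (((420 : ℕ) : ℝ) / 100) * (tE + tO) ∧
    Q 6 7 * Real.exp (-(294 / 5)) = Real.exp (((420 : ℕ) : ℝ) / 100) * (tE - tO) := by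
  have h := ring_out r6_par r6_R cfOK7 (294 / 5) (((420 : ℕ) : ℝ) / 100) (by norm_num)
  rw [r6_tot, r6_cntE, r6_cntO, r6_ve7, r6_vo7] at h
  exact h

theorem dP_6_7 : |P 6 7 * Real.exp (-(294 / 5)) - 466979647588 / 10 ^ 11| ≤ 47 / 10 ^ 7 := by
  obtain ⟨tE, tO, h1, h2, h3, h4⟩ := r6_7
  exact fin_num h3 exC420 (add_enc h1 h2) (by norm_num) (702 / 10 ^ 4) (by norm_num) (by norm_num)
    (by norm_num) (by norm_num)

theorem dQ_6_7 : |Q 6 7 * Real.exp (-(294 / 5)) - 455167920029 / 10 ^ 11| ≤ 47 / 10 ^ 7 := by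
  obtain ⟨tE, tO, h1, h2, h3, h4⟩ := r6_7
  exact fin_num h4 exC420 (sub_enc h1 h2) (by norm_num) (684 / 10 ^ 4) (by norm_num) (by norm_num)
    (by norm_num) (by norm_num)

theorem r6_ve10 : Vz cf10 r6_T 0 365 365 (2 ^ 56 - 2 ^ 52) (2 ^ 56) = 1781815644307841014307629262791586049625 := by decide +kernel
theorem r6_vo10 : Vz cf10 r6_T 1 364 364 (2 ^ 56 - 2 ^ 52) (2 ^ 56) = 2641959054560371128056212132135680548 := by decide +kernel

theorem r6_10 : ∃ tE tO : ℝ,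
    |tE - ((1781815644307841014307629262791586049625 : ℤ) : ℝ) / (2 ^ 80 * (2 ^ 56 - 2 ^ 52))| ≤
      ((365 : ℕ) : ℝ) * (1 / 10 ^ 14 + 81 * 56 / (2 ^ 56 - 2 ^ 52)) ∧
    |tO - ((2641959054560371128056212132135680548 : ℤ) : ℝ) / (2 ^ 80 * (2 ^ 56 - 2 ^ 52))| ≤
      ((364 : ℕ) : ℝ) * (1 / 10 ^ 14 + 81 * 56 / (2 ^ 56 - 2 ^ 52)) ∧
    P 6 10 * Real.exp (-(84)) = Real.exp (((600 : ℕ) : ℝ) / 100) * (tE + tO) ∧
    Q 6 10 * Real.exp (-(84)) = Real.exp (((600 : ℕ) : ℝ) / 100) * (tE - tO) := by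
  have h := ring_out r6_par r6_R cfOK10 (84) (((600 : ℕ) : ℝ) / 100) (by norm_num)
  rw [r6_tot, r6_cntE, r6_cntO, r6_ve10, r6_vo10] at h
  exact h

theorem dP_6_10 : |P 6 10 * Real.exp (-(84)) - 881500247969 / 10 ^ 11| ≤ 89 / 10 ^ 7 := by
  obtain ⟨tE, tO, h1, h2, h3, h4⟩ := r6_10
  exact fin_num h3 exC600 (add_enc h1 h2) (by norm_num) (220 / 10 ^ 4) (by norm_num) (by norm_num)
    (by norm_num) (by norm_num)

theorem dQ_6_10 : |Q 6 10 * Real.exp (-(84)) - 878890056985 / 10 ^ 11| ≤ 89 / 10 ^ 7 := by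
  obtain ⟨tE, tO, h1, h2, h3, h4⟩ := r6_10
  exact fin_num h4 exC600 (sub_enc h1 h2) (by norm_num) (219 / 10 ^ 4) (by norm_num) (by norm_num)
    (by norm_num) (by norm_num)

end Crest.Agent.HGZ
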