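import Mathlib
import Crest.Agent.HG_CZ15
import Crest.Agent.HGR_r8

/-! HG part C: the final enclosures from the machine `ringM 8 false 56 156` (generated). -/

set_option autoImplicit false
set_option maxRecDepth 100000
set_option linter.all false

namespace Crest.Agent.HGZ
open Crest.Agent.HG Crest.Agent.HGR Matrix

theorem r8_len : r8.all (fun r => lenOK (ringM 8 false 56 156) r) = true := by decide +kernel
theorem r8_cntO : cntO r8 = 3280 := by decide +kernel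
theorem r8_R : RunsOK (ringM 8 false 56 156) false (G4 (ringM 8 false 56 156) (rvF 8)) r8 :=
  runsOK_mk r8_C r8_side r8_len r8_ok r8_cov r8_cnt

theorem r8_par : RingPar 8 156 := Or.inr (Or.inr (⟨rfl, rfl⟩))

theorem r8_ve7 : Vz cf7 r8_T 0 3281 3281 (2 ^ 56 - 2 ^ 52) (2 ^ 56) = 800063090721876677489044721394024266016 := by decide +kernel
theorem r8_vo7 : Vz cf7 r8_T 1 3280 3280 (2 ^ 56 - 2 ^ 52) (2 ^ 56) = 24725910042930594931198036657094633120 := by decide +kernel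

theorem r8_7 : ∃ tE tO : ℝ,
    |tE - ((800063090721876677489044721394024266016 : ℤ) : ℝ) / (2 ^ 80 * (2 ^ 56 - 2 ^ 52))| ≤
      ((3281 : ℕ) : ℝ) * (1 / 10 ^ 16 + 81 * 40 / (2 ^ 56 - 2 ^ 52)) ∧
    |tO - ((24725910042930594931198036657094633120 : ℤ) : ℝ) / (2 ^ 80 * (2 ^ 56 - 2 ^ 52))| ≤
      ((3280 : ℕ) : ℝ) * (1 / 10 ^ 16 + 81 * 40 / (2 ^ 56 - 2 ^ 52)) ∧
    P 8 7 * Real.exp (-(392 / 5)) = Real.exp (((560 : ℕ) : ℝ) / 100) * (tE + tO) ∧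
    Q 8 7 * Real.exp (-(392 / 5)) = Real.exp (((560 : ℕ) : ℝ) / 100) * (tE - tO) := by
  have h := ring_out r8_par r8_R cfOK7 (392 / 5) (((560 : ℕ) : ℝ) / 100) (by norm_num)
  rw [r8_tot, r8_cntE, r8_cntO, r8_ve7, r8_vo7] at h
  exact h

theorem dP_8_7 : |P 8 7 * Real.exp (-(392 / 5)) - 273112308147 / 10 ^ 11| ≤ 28 / 10 ^ 7 := by
  obtain ⟨tE, tO, h1, h2, h3, h4⟩ := r8_7
  exact fin_num h3 exC560 (add_enc h1 h2) (by norm_num) (102 / 10 ^ 4) (by norm_num) (by norm_num)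
    (by norm_num) (by norm_num)

theorem dQ_8_7 : |Q 8 7 * Real.exp (-(392 / 5)) - 256737331372 / 10 ^ 11| ≤ 28 / 10 ^ 7 := by
  obtain ⟨tE, tO, h1, h2, h3, h4⟩ := r8_7
  exact fin_num h4 exC560 (sub_enc h1 h2) (by norm_num) (96 / 10 ^ 4) (by norm_num) (by norm_num)
    (by norm_num) (by norm_num)

theorem r8_ve10 : Vz cf10 r8_T 0 3281 3281 (2 ^ 56 - 2 ^ 52) (2 ^ 56) = 108052349513468780013741544475464236762 := by decide +kernel
theorem r8_vo10 : Vz cf10 r8_T 1 3280 3280 (2 ^ 56 - 2 ^ 52) (2 ^ 56) = 569829936499986431593614145011557888 := by decide +kernel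

theorem r8_10 : ∃ tE tO : ℝ,
    |tE - ((108052349513468780013741544475464236762 : ℤ) : ℝ) / (2 ^ 80 * (2 ^ 56 - 2 ^ 52))| ≤
      ((3281 : ℕ) : ℝ) * (1 / 10 ^ 14 + 81 * 56 / (2 ^ 56 - 2 ^ 52)) ∧
    |tO - ((569829936499986431593614145011557888 : ℤ) : ℝ) / (2 ^ 80 * (2 ^ 56 - 2 ^ 52))| ≤
      ((3280 : ℕ) : ℝ) * (1 / 10 ^ 14 + 81 * 56 / (2 ^ 56 - 2 ^ 52)) ∧
    P 8 10 * Real.exp (-(112)) = Real.exp (((800 : ℕ) : ℝ) / 100) * (tE + tO) ∧
    Q 8 10 * Real.exp (-(112)) = Real.exp (((800 : ℕ) : ℝ) / 100) * (tE - tO) := by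
  have h := ring_out r8_par r8_R cfOK10 (112) (((800 : ℕ) : ℝ) / 100) (by norm_num)
  rw [r8_tot, r8_cntE, r8_cntO, r8_ve10, r8_vo10] at h
  exact h

theorem dP_8_10 : |P 8 10 * Real.exp (-(112)) - 396482187725 / 10 ^ 11| ≤ 40 / 10 ^ 7 := by
  obtain ⟨tE, tO, h1, h2, h3, h4⟩ := r8_10
  exact fin_num h3 exC800 (add_enc h1 h2) (by norm_num) (15 / 10 ^ 4) (by norm_num) (by norm_num)
    (by norm_num) (by norm_num)

theorem dQ_8_10 : |Q 8 10 * Real.exp (-(112)) - 392322311250 / 10 ^ 11| ≤ 40 / 10 ^ 7 := by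
  obtain ⟨tE, tO, h1, h2, h3, h4⟩ := r8_10
  exact fin_num h4 exC800 (sub_enc h1 h2) (by norm_num) (15 / 10 ^ 4) (by norm_num) (by norm_num)
    (by norm_num) (by norm_num)

end Crest.Agent.HGZ
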