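import Mathlib
import Crest.Agent.HG_CZ15
import Crest.Agent.HGR_s4

/-! HG part C: the final enclosures from the machine `ringM 4 true 56 206` (generated). -/

set_option autoImplicit false
set_option maxRecDepth 100000
set_option linter.all false

namespace Crest.Agent.HGZ
open Crest.Agent.HG Crest.Agent.HGR Matrix

theorem s4_len : s4.all (fun r => lenOK (ringM 4 true 56 206) r) = true := by decide +kernel
theorem s4_cntO : cntO s4 = 40 := by decide +kernel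
theorem s4_R : RunsOK (ringM 4 true 56 206) true (G4 (ringM 4 true 56 206) (rvF 4)) s4 :=
  runsOK_mk s4_C s4_side s4_len s4_ok s4_cov s4_cnt

theorem s4_par : RingPar 4 206 := Or.inl ⟨rfl, rfl⟩

theorem s4_ve7 : Vz cf7 s4_T 0 41 41 (2 ^ 56 - 2 ^ 52) (2 ^ 56) = 1210935766933256293010902063196584408185 := by decide +kernel
theorem s4_vo7 : Vz cf7 s4_T 1 40 40 (2 ^ 56 - 2 ^ 52) (2 ^ 56) = 86492720220308189499851271180393500 := by decide +kernel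

theorem s4_7 : ∃ tE tO : ℝ,
    |tE - ((1210935766933256293010902063196584408185 : ℤ) : ℝ) / (2 ^ 80 * (2 ^ 56 - 2 ^ 52))| ≤
      ((41 : ℕ) : ℝ) * (1 / 10 ^ 16 + 81 * 40 / (2 ^ 56 - 2 ^ 52)) ∧
    |tO - ((86492720220308189499851271180393500 : ℤ) : ℝ) / (2 ^ 80 * (2 ^ 56 - 2 ^ 52))| ≤
      ((40 : ℕ) : ℝ) * (1 / 10 ^ 16 + 81 * 40 / (2 ^ 56 - 2 ^ 52)) ∧
    Z2 4 7 * Real.exp (-(196 / 5)) = Real.exp (((280 : ℕ) : ℝ) / 100) * (tE + tO) ∧
    ZZ 4 7 * Real.exp (-(196 / 5)) = Real.exp (((280 : ℕ) : ℝ) / 100) * (tE - tO) := by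
  have h := ring_out s4_par s4_R cfOK7 (196 / 5) (((280 : ℕ) : ℝ) / 100) (by norm_num)
  rw [s4_tot, s4_cntE, s4_cntO, s4_ve7, s4_vo7] at h
  exact h

theorem dZ2_4_7 : |Z2 4 7 * Real.exp (-(196 / 5)) - 24385181284 / 10 ^ 11| ≤ 17 / 10 ^ 6 := by
  obtain ⟨tE, tO, h1, h2, h3, h4⟩ := s4_7
  exact fin_num h3 exC280 (add_enc h1 h2) (by norm_num) (150 / 10 ^ 4) (by norm_num) (by norm_num)
    (by norm_num) (by norm_num)

theorem dZZ_4_7 : |ZZ 4 7 * Real.exp (-(196 / 5)) - 24381698041 / 10 ^ 11| ≤ 17 / 10 ^ 6 := by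
  obtain ⟨tE, tO, h1, h2, h3, h4⟩ := s4_7
  exact fin_num h4 exC280 (sub_enc h1 h2) (by norm_num) (150 / 10 ^ 4) (by norm_num) (by norm_num)
    (by norm_num) (by norm_num)

theorem s4_vx7 : Vz cf7 s4_T 2 1 19 (2 ^ 56 - 2 ^ 52) (2 ^ 56) = -943004310826909966457653554361986776423 := by decide +kernel

theorem dX_4_7 : |X 4 7 * Real.exp (-(196 / 5)) - 18988363662 / 10 ^ 11| ≤ 17 / 10 ^ 6 := by
  have h := ring_outX s4_par s4_R cfOK7 (196 / 5) (((280 : ℕ) : ℝ) / 100) (by norm_num)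
  rw [s4_tot, s4_cntX, s4_vx7] at h
  obtain ⟨tx, h1, h2⟩ := h
  have h3 : X 4 7 * Real.exp (-(196 / 5)) = Real.exp (((280 : ℕ) : ℝ) / 100) * (-tx) := by
    rw [mul_neg, ← h2]
    exact neg_mul _ _
  exact fin_num h3 exC280 (neg_enc h1) (by norm_num) (117 / 10 ^ 4) (by norm_num) (by norm_num)
    (by norm_num) (by norm_num)

theorem s4_ve10 : Vz cf10 s4_T 0 41 41 (2 ^ 56 - 2 ^ 52) (2 ^ 56) = 177060003710256377773771735732576615425 := by decide +kernel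
theorem s4_vo10 : Vz cf10 s4_T 1 40 40 (2 ^ 56 - 2 ^ 52) (2 ^ 56) = 129411968157771045544745746795148 := by decide +kernel

theorem s4_10 : ∃ tE tO : ℝ,
    |tE - ((177060003710256377773771735732576615425 : ℤ) : ℝ) / (2 ^ 80 * (2 ^ 56 - 2 ^ 52))| ≤
      ((41 : ℕ) : ℝ) * (1 / 10 ^ 14 + 81 * 56 / (2 ^ 56 - 2 ^ 52)) ∧
    |tO - ((129411968157771045544745746795148 : ℤ) : ℝ) / (2 ^ 80 * (2 ^ 56 - 2 ^ 52))| ≤
      ((40 : ℕ) : ℝ) * (1 / 10 ^ 14 + 81 * 56 / (2 ^ 56 - 2 ^ 52)) ∧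
    Z2 4 10 * Real.exp (-(56)) = Real.exp (((400 : ℕ) : ℝ) / 100) * (tE + tO) ∧
    ZZ 4 10 * Real.exp (-(56)) = Real.exp (((400 : ℕ) : ℝ) / 100) * (tE - tO) := by
  have h := ring_out s4_par s4_R cfOK10 (56) (((400 : ℕ) : ℝ) / 100) (by norm_num)
  rw [s4_tot, s4_cntE, s4_cntO, s4_ve10, s4_vo10] at h
  exact h

theorem dZ2_4_10 : |Z2 4 10 * Real.exp (-(56)) - 11837173886 / 10 ^ 11| ≤ 55 / 10 ^ 6 := by
  obtain ⟨tE, tO, h1, h2, h3, h4⟩ := s4_10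
  exact fin_num h3 exC400 (add_enc h1 h2) (by norm_num) (23 / 10 ^ 4) (by norm_num) (by norm_num)
    (by norm_num) (by norm_num)

theorem dZZ_4_10 : |ZZ 4 10 * Real.exp (-(56)) - 11837156578 / 10 ^ 11| ≤ 55 / 10 ^ 6 := by
  obtain ⟨tE, tO, h1, h2, h3, h4⟩ := s4_10
  exact fin_num h4 exC400 (sub_enc h1 h2) (by norm_num) (23 / 10 ^ 4) (by norm_num) (by norm_num)
    (by norm_num) (by norm_num)

theorem s4_vx10 : Vz cf10 s4_T 2 1 19 (2 ^ 56 - 2 ^ 52) (2 ^ 56) = -159905058982927385840274398976880063275 := by decide +kernel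

theorem dX_4_10 : |X 4 10 * Real.exp (-(56)) - 10690288965 / 10 ^ 11| ≤ 55 / 10 ^ 6 := by
  have h := ring_outX s4_par s4_R cfOK10 (56) (((400 : ℕ) : ℝ) / 100) (by norm_num)
  rw [s4_tot, s4_cntX, s4_vx10] at h
  obtain ⟨tx, h1, h2⟩ := h
  have h3 : X 4 10 * Real.exp (-(56)) = Real.exp (((400 : ℕ) : ℝ) / 100) * (-tx) := by
    rw [mul_neg, ← h2]
    exact neg_mul _ _
  exact fin_num h3 exC400 (neg_enc h1) (by norm_num) (21 / 10 ^ 4) (by norm_num) (by norm_num)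
    (by norm_num) (by norm_num)

end Crest.Agent.HGZ
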