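import Mathlib
import Crest.Agent.HG_CZ15
import Crest.Agent.HGR_s6

/-! HG part C: the final enclosures from the machine `ringM 6 true 56 181` (generated). -/

set_option autoImplicit false
set_option maxRecDepth 100000
set_option linter.all false

namespace Crest.Agent.HGZ
open Crest.Agent.HG Crest.Agent.HGR Matrix

theorem s6_len : s6.all (fun r => lenOK (ringM 6 true 56 181) r) = true := by decide +kernel
theorem s6_cntO : cntO s6 = 364 := by decide +kernel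
theorem s6_R : RunsOK (ringM 6 true 56 181) true (G4 (ringM 6 true 56 181) (rvF 6)) s6 :=
  runsOK_mk s6_C s6_side s6_len s6_ok s6_cov s6_cnt

theorem s6_par : RingPar 6 181 := Or.inr (Or.inl ⟨rfl, rfl⟩)

theorem s6_ve7 : Vz cf7 s6_T 0 365 365 (2 ^ 56 - 2 ^ 52) (2 ^ 56) = 683993138666796737699217405889457628708 := by decide +kernel
theorem s6_vo7 : Vz cf7 s6_T 1 364 364 (2 ^ 56 - 2 ^ 52) (2 ^ 56) = 741705437390152374682146246816315800 := by decide +kernel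

theorem s6_7 : ∃ tE tO : ℝ,
    |tE - ((683993138666796737699217405889457628708 : ℤ) : ℝ) / (2 ^ 80 * (2 ^ 56 - 2 ^ 52))| ≤
      ((365 : ℕ) : ℝ) * (1 / 10 ^ 16 + 81 * 40 / (2 ^ 56 - 2 ^ 52)) ∧
    |tO - ((741705437390152374682146246816315800 : ℤ) : ℝ) / (2 ^ 80 * (2 ^ 56 - 2 ^ 52))| ≤
      ((364 : ℕ) : ℝ) * (1 / 10 ^ 16 + 81 * 40 / (2 ^ 56 - 2 ^ 52)) ∧
    Z2 6 7 * Real.exp (-(294 / 5)) = Real.exp (((420 : ℕ) : ℝ) / 100) * (tE + tO) ∧
    ZZ 6 7 * Real.exp (-(294 / 5)) = Real.exp (((420 : ℕ) : ℝ) / 100) * (tE - tO) := by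
  have h := ring_out s6_par s6_R cfOK7 (294 / 5) (((420 : ℕ) : ℝ) / 100) (by norm_num)
  rw [s6_tot, s6_cntE, s6_cntO, s6_ve7, s6_vo7] at h
  exact h

theorem dZ2_6_7 : |Z2 6 7 * Real.exp (-(294 / 5)) - 55912455519 / 10 ^ 11| ≤ 47 / 10 ^ 7 := by
  obtain ⟨tE, tO, h1, h2, h3, h4⟩ := s6_7
  exact fin_num h3 exC420 (add_enc h1 h2) (by norm_num) (85 / 10 ^ 4) (by norm_num) (by norm_num)
    (by norm_num) (by norm_num)

theorem dZZ_6_7 : |ZZ 6 7 * Real.exp (-(294 / 5)) - 55791326670 / 10 ^ 11| ≤ 47 / 10 ^ 7 := by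
  obtain ⟨tE, tO, h1, h2, h3, h4⟩ := s6_7
  exact fin_num h4 exC420 (sub_enc h1 h2) (by norm_num) (85 / 10 ^ 4) (by norm_num) (by norm_num)
    (by norm_num) (by norm_num)

theorem s6_vx7 : Vz cf7 s6_T 2 1 141 (2 ^ 56 - 2 ^ 52) (2 ^ 56) = -583783918226966432868987346354737218788 := by decide +kernel

theorem dX_6_7 : |X 6 7 * Real.exp (-(294 / 5)) - 47669243998 / 10 ^ 11| ≤ 47 / 10 ^ 7 := by
  have h := ring_outX s6_par s6_R cfOK7 (294 / 5) (((420 : ℕ) : ℝ) / 100) (by norm_num)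
  rw [s6_tot, s6_cntX, s6_vx7] at h
  obtain ⟨tx, h1, h2⟩ := h
  have h3 : X 6 7 * Real.exp (-(294 / 5)) = Real.exp (((420 : ℕ) : ℝ) / 100) * (-tx) := by
    rw [mul_neg, ← h2]
    exact neg_mul _ _
  exact fin_num h3 exC420 (neg_enc h1) (by norm_num) (73 / 10 ^ 4) (by norm_num) (by norm_num)
    (by norm_num) (by norm_num)

theorem s6_ve10 : Vz cf10 s6_T 0 365 365 (2 ^ 56 - 2 ^ 52) (2 ^ 56) = 81118586482279068321107385467749228376 := by decide +kernel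
theorem s6_vo10 : Vz cf10 s6_T 1 364 364 (2 ^ 56 - 2 ^ 52) (2 ^ 56) = 2790147071382683227276169523428940 := by decide +kernel

theorem s6_10 : ∃ tE tO : ℝ,
    |tE - ((81118586482279068321107385467749228376 : ℤ) : ℝ) / (2 ^ 80 * (2 ^ 56 - 2 ^ 52))| ≤
      ((365 : ℕ) : ℝ) * (1 / 10 ^ 14 + 81 * 56 / (2 ^ 56 - 2 ^ 52)) ∧
    |tO - ((2790147071382683227276169523428940 : ℤ) : ℝ) / (2 ^ 80 * (2 ^ 56 - 2 ^ 52))| ≤
      ((364 : ℕ) : ℝ) * (1 / 10 ^ 14 + 81 * 56 / (2 ^ 56 - 2 ^ 52)) ∧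
    Z2 6 10 * Real.exp (-(84)) = Real.exp (((600 : ℕ) : ℝ) / 100) * (tE + tO) ∧
    ZZ 6 10 * Real.exp (-(84)) = Real.exp (((600 : ℕ) : ℝ) / 100) * (tE - tO) := by
  have h := ring_out s6_par s6_R cfOK10 (84) (((600 : ℕ) : ℝ) / 100) (by norm_num)
  rw [s6_tot, s6_cntE, s6_cntO, s6_ve10, s6_vo10] at h
  exact h

theorem dZ2_6_10 : |Z2 6 10 * Real.exp (-(84)) - 40072968664 / 10 ^ 11| ≤ 89 / 10 ^ 7 := by
  obtain ⟨tE, tO, h1, h2, h3, h4⟩ := s6_10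
  exact fin_num h3 exC600 (add_enc h1 h2) (by norm_num) (11 / 10 ^ 4) (by norm_num) (by norm_num)
    (by norm_num) (by norm_num)

theorem dZZ_6_10 : |ZZ 6 10 * Real.exp (-(84)) - 40070212049 / 10 ^ 11| ≤ 89 / 10 ^ 7 := by
  obtain ⟨tE, tO, h1, h2, h3, h4⟩ := s6_10
  exact fin_num h4 exC600 (sub_enc h1 h2) (by norm_num) (11 / 10 ^ 4) (by norm_num) (by norm_num)
    (by norm_num) (by norm_num)

theorem s6_vx10 : Vz cf10 s6_T 2 1 141 (2 ^ 56 - 2 ^ 52) (2 ^ 56) = -76911905451880348195697703121183427208 := by decide +kernel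

theorem dX_6_10 : |X 6 10 * Real.exp (-(84)) - 37993541342 / 10 ^ 11| ≤ 89 / 10 ^ 7 := by
  have h := ring_outX s6_par s6_R cfOK10 (84) (((600 : ℕ) : ℝ) / 100) (by norm_num)
  rw [s6_tot, s6_cntX, s6_vx10] at h
  obtain ⟨tx, h1, h2⟩ := h
  have h3 : X 6 10 * Real.exp (-(84)) = Real.exp (((600 : ℕ) : ℝ) / 100) * (-tx) := by
    rw [mul_neg, ← h2]
    exact neg_mul _ _
  exact fin_num h3 exC600 (neg_enc h1) (by norm_num) (11 / 10 ^ 4) (by norm_num) (by norm_num)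
    (by norm_num) (by norm_num)

end Crest.Agent.HGZ
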