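import Mathlib
import Crest.Agent.HG_CZ15
import Crest.Agent.HGR_s8

/-! HG part C: the final enclosures from the machine `ringM 8 true 56 156` (generated). -/

set_option autoImplicit false
set_option maxRecDepth 100000
set_option linter.all false

namespace Crest.Agent.HGZ
open Crest.Agent.HG Crest.Agent.HGR Matrix

theorem s8_len : s8.all (fun r => lenOK (ringM 8 true 56 156) r) = true := by decide +kernel
theorem s8_cntO : cntO s8 = 3280 := by decide +kernel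
theorem s8_R : RunsOK (ringM 8 true 56 156) true (G4 (ringM 8 true 56 156) (rvF 8)) s8 :=
  runsOK_mk s8_C s8_side s8_len s8_ok s8_cov s8_cnt

theorem s8_par : RingPar 8 156 := Or.inr (Or.inr (⟨rfl, rfl⟩))

theorem s8_ve7 : Vz cf7 s8_T 0 3281 3281 (2 ^ 56 - 2 ^ 52) (2 ^ 56) = 237149979672690561046986729003674305535 := by decide +kernel
theorem s8_vo7 : Vz cf7 s8_T 1 3280 3280 (2 ^ 56 - 2 ^ 52) (2 ^ 56) = 1181299683099942482268762369108001232 := by decide +kernel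

theorem s8_7 : ∃ tE tO : ℝ,
    |tE - ((237149979672690561046986729003674305535 : ℤ) : ℝ) / (2 ^ 80 * (2 ^ 56 - 2 ^ 52))| ≤
      ((3281 : ℕ) : ℝ) * (1 / 10 ^ 16 + 81 * 40 / (2 ^ 56 - 2 ^ 52)) ∧
    |tO - ((1181299683099942482268762369108001232 : ℤ) : ℝ) / (2 ^ 80 * (2 ^ 56 - 2 ^ 52))| ≤
      ((3280 : ℕ) : ℝ) * (1 / 10 ^ 16 + 81 * 40 / (2 ^ 56 - 2 ^ 52)) ∧
    Z2 8 7 * Real.exp (-(392 / 5)) = Real.exp (((560 : ℕ) : ℝ) / 100) * (tE + tO) ∧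
    ZZ 8 7 * Real.exp (-(392 / 5)) = Real.exp (((560 : ℕ) : ℝ) / 100) * (tE - tO) := by
  have h := ring_out s8_par s8_R cfOK7 (392 / 5) (((560 : ℕ) : ℝ) / 100) (by norm_num)
  rw [s8_tot, s8_cntE, s8_cntO, s8_ve7, s8_vo7] at h
  exact h

theorem dZ2_8_7 : |Z2 8 7 * Real.exp (-(392 / 5)) - 78918615245 / 10 ^ 11| ≤ 28 / 10 ^ 7 := by
  obtain ⟨tE, tO, h1, h2, h3, h4⟩ := s8_7
  exact fin_num h3 exC560 (add_enc h1 h2) (by norm_num) (31 / 10 ^ 4) (by norm_num) (by norm_num)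
    (by norm_num) (by norm_num)

theorem dZZ_8_7 : |ZZ 8 7 * Real.exp (-(392 / 5)) - 78136287922 / 10 ^ 11| ≤ 28 / 10 ^ 7 := by
  obtain ⟨tE, tO, h1, h2, h3, h4⟩ := s8_7
  exact fin_num h4 exC560 (sub_enc h1 h2) (by norm_num) (30 / 10 ^ 4) (by norm_num) (by norm_num)
    (by norm_num) (by norm_num)

theorem s8_vx7 : Vz cf7 s8_T 2 1 1107 (2 ^ 56 - 2 ^ 52) (2 ^ 56) = -207332808886304954168792278199925392505 := by decide +kernel

theorem dX_8_7 : |X 8 7 * Real.exp (-(392 / 5)) - 68654094484 / 10 ^ 11| ≤ 28 / 10 ^ 7 := by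
  have h := ring_outX s8_par s8_R cfOK7 (392 / 5) (((560 : ℕ) : ℝ) / 100) (by norm_num)
  rw [s8_tot, s8_cntX, s8_vx7] at h
  obtain ⟨tx, h1, h2⟩ := h
  have h3 : X 8 7 * Real.exp (-(392 / 5)) = Real.exp (((560 : ℕ) : ℝ) / 100) * (-tx) := by
    rw [mul_neg, ← h2]
    exact neg_mul _ _
  exact fin_num h3 exC560 (neg_enc h1) (by norm_num) (27 / 10 ^ 4) (by norm_num) (by norm_num)
    (by norm_num) (by norm_num)

theorem s8_ve10 : Vz cf10 s8_T 0 3281 3281 (2 ^ 56 - 2 ^ 52) (2 ^ 56) = 18049905444394635171826991545872988061 := by decide +kernel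
theorem s8_vo10 : Vz cf10 s8_T 1 3280 3280 (2 ^ 56 - 2 ^ 52) (2 ^ 56) = 5408859561973719393077014342475956 := by decide +kernel

theorem s8_10 : ∃ tE tO : ℝ,
    |tE - ((18049905444394635171826991545872988061 : ℤ) : ℝ) / (2 ^ 80 * (2 ^ 56 - 2 ^ 52))| ≤
      ((3281 : ℕ) : ℝ) * (1 / 10 ^ 14 + 81 * 56 / (2 ^ 56 - 2 ^ 52)) ∧
    |tO - ((5408859561973719393077014342475956 : ℤ) : ℝ) / (2 ^ 80 * (2 ^ 56 - 2 ^ 52))| ≤
      ((3280 : ℕ) : ℝ) * (1 / 10 ^ 14 + 81 * 56 / (2 ^ 56 - 2 ^ 52)) ∧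
    Z2 8 10 * Real.exp (-(112)) = Real.exp (((800 : ℕ) : ℝ) / 100) * (tE + tO) ∧
    ZZ 8 10 * Real.exp (-(112)) = Real.exp (((800 : ℕ) : ℝ) / 100) * (tE - tO) := by
  have h := ring_out s8_par s8_R cfOK10 (112) (((800 : ℕ) : ℝ) / 100) (by norm_num)
  rw [s8_tot, s8_cntE, s8_cntO, s8_ve10, s8_vo10] at h
  exact h

theorem dZ2_8_10 : |Z2 8 10 * Real.exp (-(112)) - 65903764279 / 10 ^ 11| ≤ 40 / 10 ^ 7 := by
  obtain ⟨tE, tO, h1, h2, h3, h4⟩ := s8_10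
  exact fin_num h3 exC800 (add_enc h1 h2) (by norm_num) (4 / 10 ^ 4) (by norm_num) (by norm_num)
    (by norm_num) (by norm_num)

theorem dZZ_8_10 : |ZZ 8 10 * Real.exp (-(112)) - 65864278579 / 10 ^ 11| ≤ 40 / 10 ^ 7 := by
  obtain ⟨tE, tO, h1, h2, h3, h4⟩ := s8_10
  exact fin_num h4 exC800 (sub_enc h1 h2) (by norm_num) (4 / 10 ^ 4) (by norm_num) (by norm_num)
    (by norm_num) (by norm_num)

theorem s8_vx10 : Vz cf10 s8_T 2 1 1107 (2 ^ 56 - 2 ^ 52) (2 ^ 56) = -17306695400622570738988056654721955357 := by decide +kernel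

theorem dX_8_10 : |X 8 10 * Real.exp (-(112)) - 63171227938 / 10 ^ 11| ≤ 40 / 10 ^ 7 := by
  have h := ring_outX s8_par s8_R cfOK10 (112) (((800 : ℕ) : ℝ) / 100) (by norm_num)
  rw [s8_tot, s8_cntX, s8_vx10] at h
  obtain ⟨tx, h1, h2⟩ := h
  have h3 : X 8 10 * Real.exp (-(112)) = Real.exp (((800 : ℕ) : ℝ) / 100) * (-tx) := by
    rw [mul_neg, ← h2]
    exact neg_mul _ _
  exact fin_num h3 exC800 (neg_enc h1) (by norm_num) (4 / 10 ^ 4) (by norm_num) (by norm_num)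
    (by norm_num) (by norm_num)

end Crest.Agent.HGZ
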