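import Mathlib
import Crest.Agent.HG_CZ15
import Crest.Agent.HGR_u4

/-! HG part C: the final enclosures from the machine `openM 4 true 58 220` (generated). -/

set_option autoImplicit false
set_option maxRecDepth 100000
set_option linter.all false

namespace Crest.Agent.HGZ
open Crest.Agent.HG Crest.Agent.HGR Matrix

theorem u4_len : u4.all (fun r => lenOK (openM 4 true 58 220) r) = true := by decide +kernel
theorem u4_cntO : cntO u4 = 40 := by decide +kernel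
theorem u4_R : RunsOK (openM 4 true 58 220) false (Gop true (openM 4 true 58 220) (rvF 4)) u4 :=
  runsOK_mk u4_C u4_side u4_len u4_ok u4_cov u4_cnt

theorem u4_par : OpenPar 3 220 := Or.inl ⟨rfl, rfl⟩

theorem u4_ve7 : Vz cf7 u4_T 0 41 41 (2 ^ 58 - 2 ^ 54) (2 ^ 58) = 660472358707006088472273938081832496777 := by decide +kernel
theorem u4_vo7 : Vz cf7 u4_T 1 40 40 (2 ^ 58 - 2 ^ 54) (2 ^ 58) = 1063879746419223992229560416030562268396 := by decide +kernel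

theorem u4_7 : ∃ tE tO : ℝ,
    |tE - ((660472358707006088472273938081832496777 : ℤ) : ℝ) / (2 ^ 80 * (2 ^ 58 - 2 ^ 54))| ≤
      ((41 : ℕ) : ℝ) * (1 / 10 ^ 16 + 81 * 40 / (2 ^ 58 - 2 ^ 54)) ∧
    |tO - ((1063879746419223992229560416030562268396 : ℤ) : ℝ) / (2 ^ 80 * (2 ^ 58 - 2 ^ 54))| ≤
      ((40 : ℕ) : ℝ) * (1 / 10 ^ 16 + 81 * 40 / (2 ^ 58 - 2 ^ 54)) ∧
    Vo 1 4 7 * Real.exp (-(196 / 5)) = Real.exp (((28 : ℕ) : ℝ) / 100) * (tE + tO) ∧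
    VoZ 1 4 7 * Real.exp (-(196 / 5)) = Real.exp (((28 : ℕ) : ℝ) / 100) * ((-1) ^ 4 * (tE - tO)) := by
  have h := open_out u4_par u4_R cfOK7 (196 / 5) (((28 : ℕ) : ℝ) / 100) (by norm_num)
  rw [u4_tot, u4_cntE, u4_cntO, u4_ve7, u4_vo7] at h
  exact h

theorem dVop_4_7 : |Vo 1 4 7 * Real.exp (-(196 / 5)) - 698421706 / 10 ^ 11| ≤ 18 / 10 ^ 8 := by
  obtain ⟨tE, tO, h1, h2, h3, h4⟩ := u4_7
  exact fin_num h3 exC28 (add_enc h1 h2) (by norm_num) (54 / 10 ^ 4) (by norm_num) (by norm_num)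
    (by norm_num) (by norm_num)

theorem dVoZp_4_7 : |VoZ 1 4 7 * Real.exp (-(196 / 5)) - (-163393819) / 10 ^ 11| ≤ 18 / 10 ^ 8 := by
  obtain ⟨tE, tO, h1, h2, h3, h4⟩ := u4_7
  exact fin_num h4 exC28 (sgn_enc 4 (sub_enc h1 h2)) (by norm_num) (14 / 10 ^ 4) (by norm_num) (by norm_num)
    (by norm_num) (by norm_num)

theorem u4_ve10 : Vz cf10 u4_T 0 41 41 (2 ^ 58 - 2 ^ 54) (2 ^ 58) = 45181005319450550181883411224224130460 := by decide +kernel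
theorem u4_vo10 : Vz cf10 u4_T 1 40 40 (2 ^ 58 - 2 ^ 54) (2 ^ 58) = 91364446249586789266392216648305166014 := by decide +kernel

theorem u4_10 : ∃ tE tO : ℝ,
    |tE - ((45181005319450550181883411224224130460 : ℤ) : ℝ) / (2 ^ 80 * (2 ^ 58 - 2 ^ 54))| ≤
      ((41 : ℕ) : ℝ) * (1 / 10 ^ 14 + 81 * 56 / (2 ^ 58 - 2 ^ 54)) ∧
    |tO - ((91364446249586789266392216648305166014 : ℤ) : ℝ) / (2 ^ 80 * (2 ^ 58 - 2 ^ 54))| ≤
      ((40 : ℕ) : ℝ) * (1 / 10 ^ 14 + 81 * 56 / (2 ^ 58 - 2 ^ 54)) ∧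
    Vo 1 4 10 * Real.exp (-(56)) = Real.exp (((40 : ℕ) : ℝ) / 100) * (tE + tO) ∧
    VoZ 1 4 10 * Real.exp (-(56)) = Real.exp (((40 : ℕ) : ℝ) / 100) * ((-1) ^ 4 * (tE - tO)) := by
  have h := open_out u4_par u4_R cfOK10 (56) (((40 : ℕ) : ℝ) / 100) (by norm_num)
  rw [u4_tot, u4_cntE, u4_cntO, u4_ve10, u4_vo10] at h
  exact h

theorem dVop_4_10 : |Vo 1 4 10 * Real.exp (-(56)) - 62356876 / 10 ^ 11| ≤ 87 / 10 ^ 9 := by
  obtain ⟨tE, tO, h1, h2, h3, h4⟩ := u4_10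
  exact fin_num h3 exC40 (add_enc h1 h2) (by norm_num) (6 / 10 ^ 4) (by norm_num) (by norm_num)
    (by norm_num) (by norm_num)

theorem dVoZp_4_10 : |VoZ 1 4 10 * Real.exp (-(56)) - (-21090817) / 10 ^ 11| ≤ 87 / 10 ^ 9 := by
  obtain ⟨tE, tO, h1, h2, h3, h4⟩ := u4_10
  exact fin_num h4 exC40 (sgn_enc 4 (sub_enc h1 h2)) (by norm_num) (3 / 10 ^ 4) (by norm_num) (by norm_num)
    (by norm_num) (by norm_num)

end Crest.Agent.HGZ
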