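import Mathlib
import Crest.Agent.HG_CZ15
import Crest.Agent.HGR_u5

/-! HG part C: the final enclosures from the machine `openM 5 true 58 207` (generated). -/

set_option autoImplicit false
set_option maxRecDepth 100000
set_option linter.all false

namespace Crest.Agent.HGZ
open Crest.Agent.HG Crest.Agent.HGR Matrix

theorem u5_len : u5.all (fun r => lenOK (openM 5 true 58 207) r) = true := by decide +kernel
theorem u5_cntO : cntO u5 = 121 := by decide +kernel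
theorem u5_R : RunsOK (openM 5 true 58 207) false (Gop true (openM 5 true 58 207) (rvF 5)) u5 :=
  runsOK_mk u5_C u5_side u5_len u5_ok u5_cov u5_cnt

theorem u5_par : OpenPar 4 207 := Or.inr (Or.inl ⟨rfl, rfl⟩)

theorem u5_ve7 : Vz cf7 u5_T 0 122 122 (2 ^ 58 - 2 ^ 54) (2 ^ 58) = 15608356633197622722381637512981567956983 := by decide +kernel
theorem u5_vo7 : Vz cf7 u5_T 1 121 121 (2 ^ 58 - 2 ^ 54) (2 ^ 58) = 104700135402298105455327442726124669824 := by decide +kernel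

theorem u5_7 : ∃ tE tO : ℝ,
    |tE - ((15608356633197622722381637512981567956983 : ℤ) : ℝ) / (2 ^ 80 * (2 ^ 58 - 2 ^ 54))| ≤
      ((122 : ℕ) : ℝ) * (1 / 10 ^ 16 + 81 * 40 / (2 ^ 58 - 2 ^ 54)) ∧
    |tO - ((104700135402298105455327442726124669824 : ℤ) : ℝ) / (2 ^ 80 * (2 ^ 58 - 2 ^ 54))| ≤
      ((121 : ℕ) : ℝ) * (1 / 10 ^ 16 + 81 * 40 / (2 ^ 58 - 2 ^ 54)) ∧
    Vo 1 5 7 * Real.exp (-(49)) = Real.exp (((112 : ℕ) : ℝ) / 100) * (tE + tO) ∧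
    VoZ 1 5 7 * Real.exp (-(49)) = Real.exp (((112 : ℕ) : ℝ) / 100) * ((-1) ^ 5 * (tE - tO)) := by
  have h := open_out u5_par u5_R cfOK7 (49) (((112 : ℕ) : ℝ) / 100) (by norm_num)
  rw [u5_tot, u5_cntE, u5_cntO, u5_ve7, u5_vo7] at h
  exact h

theorem dVop_5_7 : |Vo 1 5 7 * Real.exp (-(49)) - 14742115901 / 10 ^ 11| ≤ 12 / 10 ^ 9 := by
  obtain ⟨tE, tO, h1, h2, h3, h4⟩ := u5_7
  exact fin_num h3 exC112 (add_enc h1 h2) (by norm_num) (483 / 10 ^ 4) (by norm_num) (by norm_num)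
    (by norm_num) (by norm_num)

theorem dVoZp_5_7 : |VoZ 1 5 7 * Real.exp (-(49)) - (-14545654887) / 10 ^ 11| ≤ 12 / 10 ^ 9 := by
  obtain ⟨tE, tO, h1, h2, h3, h4⟩ := u5_7
  exact fin_num h4 exC112 (sgn_enc 5 (sub_enc h1 h2)) (by norm_num) (476 / 10 ^ 4) (by norm_num) (by norm_num)
    (by norm_num) (by norm_num)

theorem u5_ve10 : Vz cf10 u5_T 0 122 122 (2 ^ 58 - 2 ^ 54) (2 ^ 58) = 4239385312733618544569181390447732633199 := by decide +kernel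
theorem u5_vo10 : Vz cf10 u5_T 1 121 121 (2 ^ 58 - 2 ^ 54) (2 ^ 58) = 3219818696397399688749253784231582681 := by decide +kernel

theorem u5_10 : ∃ tE tO : ℝ,
    |tE - ((4239385312733618544569181390447732633199 : ℤ) : ℝ) / (2 ^ 80 * (2 ^ 58 - 2 ^ 54))| ≤
      ((122 : ℕ) : ℝ) * (1 / 10 ^ 14 + 81 * 56 / (2 ^ 58 - 2 ^ 54)) ∧
    |tO - ((3219818696397399688749253784231582681 : ℤ) : ℝ) / (2 ^ 80 * (2 ^ 58 - 2 ^ 54))| ≤
      ((121 : ℕ) : ℝ) * (1 / 10 ^ 14 + 81 * 56 / (2 ^ 58 - 2 ^ 54)) ∧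
    Vo 1 5 10 * Real.exp (-(70)) = Real.exp (((160 : ℕ) : ℝ) / 100) * (tE + tO) ∧
    VoZ 1 5 10 * Real.exp (-(70)) = Real.exp (((160 : ℕ) : ℝ) / 100) * ((-1) ^ 5 * (tE - tO)) := by
  have h := open_out u5_par u5_R cfOK10 (70) (((160 : ℕ) : ℝ) / 100) (by norm_num)
  rw [u5_tot, u5_cntE, u5_cntO, u5_ve10, u5_vo10] at h
  exact h

theorem dVop_5_10 : |Vo 1 5 10 * Real.exp (-(70)) - 6432697158 / 10 ^ 11| ≤ 14 / 10 ^ 10 := by
  obtain ⟨tE, tO, h1, h2, h3, h4⟩ := u5_10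
  exact fin_num h3 exC160 (add_enc h1 h2) (by norm_num) (131 / 10 ^ 4) (by norm_num) (by norm_num)
    (by norm_num) (by norm_num)

theorem dVoZp_5_10 : |VoZ 1 5 10 * Real.exp (-(70)) - (-6422933290) / 10 ^ 11| ≤ 14 / 10 ^ 10 := by
  obtain ⟨tE, tO, h1, h2, h3, h4⟩ := u5_10
  exact fin_num h4 exC160 (sgn_enc 5 (sub_enc h1 h2)) (by norm_num) (131 / 10 ^ 4) (by norm_num) (by norm_num)
    (by norm_num) (by norm_num)

end Crest.Agent.HGZ
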