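import Mathlib
import Crest.Agent.HG_CZ15
import Crest.Agent.HGR_u6

/-! HG part C: the final enclosures from the machine `openM 6 true 58 195` (generated). -/

set_option autoImplicit false
set_option maxRecDepth 100000
set_option linter.all false

namespace Crest.Agent.HGZ
open Crest.Agent.HG Crest.Agent.HGR Matrix

theorem u6_len : u6.all (fun r => lenOK (openM 6 true 58 195) r) = true := by decide +kernel
theorem u6_cntO : cntO u6 = 364 := by decide +kernel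
theorem u6_R : RunsOK (openM 6 true 58 195) false (Gop true (openM 6 true 58 195) (rvF 6)) u6 :=
  runsOK_mk u6_C u6_side u6_len u6_ok u6_cov u6_cnt

theorem u6_par : OpenPar 5 195 := Or.inr (Or.inr (Or.inl ⟨rfl, rfl⟩))

theorem u6_ve7 : Vz cf7 u6_T 0 365 365 (2 ^ 58 - 2 ^ 54) (2 ^ 58) = 159240315259751449365585571412283812601 := by decide +kernel
theorem u6_vo7 : Vz cf7 u6_T 1 364 364 (2 ^ 58 - 2 ^ 54) (2 ^ 58) = 848860975534304375805267055897220009312 := by decide +kernel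

theorem u6_7 : ∃ tE tO : ℝ,
    |tE - ((159240315259751449365585571412283812601 : ℤ) : ℝ) / (2 ^ 80 * (2 ^ 58 - 2 ^ 54))| ≤
      ((365 : ℕ) : ℝ) * (1 / 10 ^ 16 + 81 * 40 / (2 ^ 58 - 2 ^ 54)) ∧
    |tO - ((848860975534304375805267055897220009312 : ℤ) : ℝ) / (2 ^ 80 * (2 ^ 58 - 2 ^ 54))| ≤
      ((364 : ℕ) : ℝ) * (1 / 10 ^ 16 + 81 * 40 / (2 ^ 58 - 2 ^ 54)) ∧
    Vo 1 6 7 * Real.exp (-(294 / 5)) = Real.exp (((168 : ℕ) : ℝ) / 100) * (tE + tO) ∧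
    VoZ 1 6 7 * Real.exp (-(294 / 5)) = Real.exp (((168 : ℕ) : ℝ) / 100) * ((-1) ^ 6 * (tE - tO)) := by
  have h := open_out u6_par u6_R cfOK7 (294 / 5) (((168 : ℕ) : ℝ) / 100) (by norm_num)
  rw [u6_tot, u6_cntE, u6_cntO, u6_ve7, u6_vo7] at h
  exact h

theorem dVop_6_7 : |Vo 1 6 7 * Real.exp (-(294 / 5)) - 1655801312 / 10 ^ 11| ≤ 14 / 10 ^ 8 := by
  obtain ⟨tE, tO, h1, h2, h3, h4⟩ := u6_7
  exact fin_num h3 exC168 (add_enc h1 h2) (by norm_num) (32 / 10 ^ 4) (by norm_num) (by norm_num)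
    (by norm_num) (by norm_num)

theorem dVoZp_6_7 : |VoZ 1 6 7 * Real.exp (-(294 / 5)) - (-1132698474) / 10 ^ 11| ≤ 14 / 10 ^ 8 := by
  obtain ⟨tE, tO, h1, h2, h3, h4⟩ := u6_7
  exact fin_num h4 exC168 (sgn_enc 6 (sub_enc h1 h2)) (by norm_num) (23 / 10 ^ 4) (by norm_num) (by norm_num)
    (by norm_num) (by norm_num)

theorem u6_ve10 : Vz cf10 u6_T 0 365 365 (2 ^ 58 - 2 ^ 54) (2 ^ 58) = 5567187627895357625205235132349609052 := by decide +kernel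
theorem u6_vo10 : Vz cf10 u6_T 1 364 364 (2 ^ 58 - 2 ^ 54) (2 ^ 58) = 66144575393232132189387484476856957536 := by decide +kernel

theorem u6_10 : ∃ tE tO : ℝ,
    |tE - ((5567187627895357625205235132349609052 : ℤ) : ℝ) / (2 ^ 80 * (2 ^ 58 - 2 ^ 54))| ≤
      ((365 : ℕ) : ℝ) * (1 / 10 ^ 14 + 81 * 56 / (2 ^ 58 - 2 ^ 54)) ∧
    |tO - ((66144575393232132189387484476856957536 : ℤ) : ℝ) / (2 ^ 80 * (2 ^ 58 - 2 ^ 54))| ≤
      ((364 : ℕ) : ℝ) * (1 / 10 ^ 14 + 81 * 56 / (2 ^ 58 - 2 ^ 54)) ∧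
    Vo 1 6 10 * Real.exp (-(84)) = Real.exp (((240 : ℕ) : ℝ) / 100) * (tE + tO) ∧
    VoZ 1 6 10 * Real.exp (-(84)) = Real.exp (((240 : ℕ) : ℝ) / 100) * ((-1) ^ 6 * (tE - tO)) := by
  have h := open_out u6_par u6_R cfOK10 (84) (((240 : ℕ) : ℝ) / 100) (by norm_num)
  rw [u6_tot, u6_cntE, u6_cntO, u6_ve10, u6_vo10] at h
  exact h

theorem dVop_6_10 : |Vo 1 6 10 * Real.exp (-(84)) - 241983904 / 10 ^ 11| ≤ 57 / 10 ^ 9 := by
  obtain ⟨tE, tO, h1, h2, h3, h4⟩ := u6_10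
  exact fin_num h3 exC240 (add_enc h1 h2) (by norm_num) (4 / 10 ^ 4) (by norm_num) (by norm_num)
    (by norm_num) (by norm_num)

theorem dVoZp_6_10 : |VoZ 1 6 10 * Real.exp (-(84)) - (-204412110) / 10 ^ 11| ≤ 57 / 10 ^ 9 := by
  obtain ⟨tE, tO, h1, h2, h3, h4⟩ := u6_10
  exact fin_num h4 exC240 (sgn_enc 6 (sub_enc h1 h2)) (by norm_num) (3 / 10 ^ 4) (by norm_num) (by norm_num)
    (by norm_num) (by norm_num)

end Crest.Agent.HGZ
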