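import Mathlib
import Crest.Agent.HG_CZ15
import Crest.Agent.HGR_u7

/-! HG part C: the final enclosures from the machine `openM 7 true 58 182` (generated). -/

set_option autoImplicit false
set_option maxRecDepth 100000
set_option linter.all false

namespace Crest.Agent.HGZ
open Crest.Agent.HG Crest.Agent.HGR Matrix

theorem u7_len : u7.all (fun r => lenOK (openM 7 true 58 182) r) = true := by decide +kernel
theorem u7_cntO : cntO u7 = 1093 := by decide +kernel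
theorem u7_R : RunsOK (openM 7 true 58 182) false (Gop true (openM 7 true 58 182) (rvF 7)) u7 :=
  runsOK_mk u7_C u7_side u7_len u7_ok u7_cov u7_cnt

theorem u7_par : OpenPar 6 182 := Or.inr (Or.inr (Or.inr (Or.inl ⟨rfl, rfl⟩)))

theorem u7_ve7 : Vz cf7 u7_T 0 1094 1094 (2 ^ 58 - 2 ^ 54) (2 ^ 58) = 3143157346110856294952996193749977954125 := by decide +kernel
theorem u7_vo7 : Vz cf7 u7_T 1 1093 1093 (2 ^ 58 - 2 ^ 54) (2 ^ 58) = 40206572269702592776902777515748165893 := by decide +kernel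

theorem u7_7 : ∃ tE tO : ℝ,
    |tE - ((3143157346110856294952996193749977954125 : ℤ) : ℝ) / (2 ^ 80 * (2 ^ 58 - 2 ^ 54))| ≤
      ((1094 : ℕ) : ℝ) * (1 / 10 ^ 16 + 81 * 40 / (2 ^ 58 - 2 ^ 54)) ∧
    |tO - ((40206572269702592776902777515748165893 : ℤ) : ℝ) / (2 ^ 80 * (2 ^ 58 - 2 ^ 54))| ≤
      ((1093 : ℕ) : ℝ) * (1 / 10 ^ 16 + 81 * 40 / (2 ^ 58 - 2 ^ 54)) ∧
    Vo 1 7 7 * Real.exp (-(343 / 5)) = Real.exp (((252 : ℕ) : ℝ) / 100) * (tE + tO) ∧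
    VoZ 1 7 7 * Real.exp (-(343 / 5)) = Real.exp (((252 : ℕ) : ℝ) / 100) * ((-1) ^ 7 * (tE - tO)) := by
  have h := open_out u7_par u7_R cfOK7 (343 / 5) (((252 : ℕ) : ℝ) / 100) (by norm_num)
  rw [u7_tot, u7_cntE, u7_cntO, u7_ve7, u7_vo7] at h
  exact h

theorem dVop_7_7 : |Vo 1 7 7 * Real.exp (-(343 / 5)) - 12111493651 / 10 ^ 11| ≤ 23 / 10 ^ 9 := by
  obtain ⟨tE, tO, h1, h2, h3, h4⟩ := u7_7
  exact fin_num h3 exC252 (add_enc h1 h2) (by norm_num) (99 / 10 ^ 4) (by norm_num) (by norm_num)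
    (by norm_num) (by norm_num)

theorem dVoZp_7_7 : |VoZ 1 7 7 * Real.exp (-(343 / 5)) - (-11805552102) / 10 ^ 11| ≤ 23 / 10 ^ 9 := by
  obtain ⟨tE, tO, h1, h2, h3, h4⟩ := u7_7
  exact fin_num h4 exC252 (sgn_enc 7 (sub_enc h1 h2)) (by norm_num) (96 / 10 ^ 4) (by norm_num) (by norm_num)
    (by norm_num) (by norm_num)

theorem u7_ve10 : Vz cf10 u7_T 0 1094 1094 (2 ^ 58 - 2 ^ 54) (2 ^ 58) = 429513009642928015110287754803958453612 := by decide +kernel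
theorem u7_vo10 : Vz cf10 u7_T 1 1093 1093 (2 ^ 58 - 2 ^ 54) (2 ^ 58) = 759709296838832392715515068708428876 := by decide +kernel

theorem u7_10 : ∃ tE tO : ℝ,
    |tE - ((429513009642928015110287754803958453612 : ℤ) : ℝ) / (2 ^ 80 * (2 ^ 58 - 2 ^ 54))| ≤
      ((1094 : ℕ) : ℝ) * (1 / 10 ^ 14 + 81 * 56 / (2 ^ 58 - 2 ^ 54)) ∧
    |tO - ((759709296838832392715515068708428876 : ℤ) : ℝ) / (2 ^ 80 * (2 ^ 58 - 2 ^ 54))| ≤
      ((1093 : ℕ) : ℝ) * (1 / 10 ^ 14 + 81 * 56 / (2 ^ 58 - 2 ^ 54)) ∧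
    Vo 1 7 10 * Real.exp (-(98)) = Real.exp (((360 : ℕ) : ℝ) / 100) * (tE + tO) ∧
    VoZ 1 7 10 * Real.exp (-(98)) = Real.exp (((360 : ℕ) : ℝ) / 100) * ((-1) ^ 7 * (tE - tO)) := by
  have h := open_out u7_par u7_R cfOK10 (98) (((360 : ℕ) : ℝ) / 100) (by norm_num)
  rw [u7_tot, u7_cntE, u7_cntO, u7_ve10, u7_vo10] at h
  exact h

theorem dVop_7_10 : |Vo 1 7 10 * Real.exp (-(98)) - 4820513104 / 10 ^ 11| ≤ 40 / 10 ^ 10 := by
  obtain ⟨tE, tO, h1, h2, h3, h4⟩ := u7_10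
  exact fin_num h3 exC360 (add_enc h1 h2) (by norm_num) (15 / 10 ^ 4) (by norm_num) (by norm_num)
    (by norm_num) (by norm_num)

theorem dVoZp_7_10 : |VoZ 1 7 10 * Real.exp (-(98)) - (-4803490464) / 10 ^ 11| ≤ 40 / 10 ^ 10 := by
  obtain ⟨tE, tO, h1, h2, h3, h4⟩ := u7_10
  exact fin_num h4 exC360 (sgn_enc 7 (sub_enc h1 h2)) (by norm_num) (15 / 10 ^ 4) (by norm_num) (by norm_num)
    (by norm_num) (by norm_num)

end Crest.Agent.HGZ
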