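import Mathlib
import Crest.Agent.HG_CZ15
import Crest.Agent.HGR_u8

/-! HG part C: the final enclosures from the machine `openM 8 true 58 170` (generated). -/

set_option autoImplicit false
set_option maxRecDepth 100000
set_option linter.all false

namespace Crest.Agent.HGZ
open Crest.Agent.HG Crest.Agent.HGR Matrix

theorem u8_len : u8.all (fun r => lenOK (openM 8 true 58 170) r) = true := by decide +kernel
theorem u8_cntO : cntO u8 = 3280 := by decide +kernel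
theorem u8_R : RunsOK (openM 8 true 58 170) false (Gop true (openM 8 true 58 170) (rvF 8)) u8 :=
  runsOK_mk u8_C u8_side u8_len u8_ok u8_cov u8_cnt

theorem u8_par : OpenPar 7 170 := Or.inr (Or.inr (Or.inr (Or.inr (⟨rfl, rfl⟩))))

theorem u8_ve7 : Vz cf7 u8_T 0 3281 3281 (2 ^ 58 - 2 ^ 54) (2 ^ 58) = 43008020630348327253091483033936539210 := by decide +kernel
theorem u8_vo7 : Vz cf7 u8_T 1 3280 3280 (2 ^ 58 - 2 ^ 54) (2 ^ 58) = 381759904435388663270671378934925761900 := by decide +kernel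

theorem u8_7 : ∃ tE tO : ℝ,
    |tE - ((43008020630348327253091483033936539210 : ℤ) : ℝ) / (2 ^ 80 * (2 ^ 58 - 2 ^ 54))| ≤
      ((3281 : ℕ) : ℝ) * (1 / 10 ^ 16 + 81 * 40 / (2 ^ 58 - 2 ^ 54)) ∧
    |tO - ((381759904435388663270671378934925761900 : ℤ) : ℝ) / (2 ^ 80 * (2 ^ 58 - 2 ^ 54))| ≤
      ((3280 : ℕ) : ℝ) * (1 / 10 ^ 16 + 81 * 40 / (2 ^ 58 - 2 ^ 54)) ∧
    Vo 1 8 7 * Real.exp (-(392 / 5)) = Real.exp (((308 : ℕ) : ℝ) / 100) * (tE + tO) ∧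
    VoZ 1 8 7 * Real.exp (-(392 / 5)) = Real.exp (((308 : ℕ) : ℝ) / 100) * ((-1) ^ 8 * (tE - tO)) := by
  have h := open_out u8_par u8_R cfOK7 (392 / 5) (((308 : ℕ) : ℝ) / 100) (by norm_num)
  rw [u8_tot, u8_cntE, u8_cntO, u8_ve7, u8_vo7] at h
  exact h

theorem dVop_8_7 : |Vo 1 8 7 * Real.exp (-(392 / 5)) - 2829228611 / 10 ^ 11| ≤ 12 / 10 ^ 8 := by
  obtain ⟨tE, tO, h1, h2, h3, h4⟩ := u8_7
  exact fin_num h3 exC308 (add_enc h1 h2) (by norm_num) (15 / 10 ^ 4) (by norm_num) (by norm_num)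
    (by norm_num) (by norm_num)

theorem dVoZp_8_7 : |VoZ 1 8 7 * Real.exp (-(392 / 5)) - (-2256306244) / 10 ^ 11| ≤ 12 / 10 ^ 8 := by
  obtain ⟨tE, tO, h1, h2, h3, h4⟩ := u8_7
  exact fin_num h4 exC308 (sgn_enc 8 (sub_enc h1 h2)) (by norm_num) (12 / 10 ^ 4) (by norm_num) (by norm_num)
    (by norm_num) (by norm_num)

theorem u8_ve10 : Vz cf10 u8_T 0 3281 3281 (2 ^ 58 - 2 ^ 54) (2 ^ 58) = 784979908018136609599645213536719130 := by decide +kernel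
theorem u8_vo10 : Vz cf10 u8_T 1 3280 3280 (2 ^ 58 - 2 ^ 54) (2 ^ 58) = 21095539485423279242318498130844555224 := by decide +kernel

theorem u8_10 : ∃ tE tO : ℝ,
    |tE - ((784979908018136609599645213536719130 : ℤ) : ℝ) / (2 ^ 80 * (2 ^ 58 - 2 ^ 54))| ≤
      ((3281 : ℕ) : ℝ) * (1 / 10 ^ 14 + 81 * 56 / (2 ^ 58 - 2 ^ 54)) ∧
    |tO - ((21095539485423279242318498130844555224 : ℤ) : ℝ) / (2 ^ 80 * (2 ^ 58 - 2 ^ 54))| ≤
      ((3280 : ℕ) : ℝ) * (1 / 10 ^ 14 + 81 * 56 / (2 ^ 58 - 2 ^ 54)) ∧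
    Vo 1 8 10 * Real.exp (-(112)) = Real.exp (((440 : ℕ) : ℝ) / 100) * (tE + tO) ∧
    VoZ 1 8 10 * Real.exp (-(112)) = Real.exp (((440 : ℕ) : ℝ) / 100) * ((-1) ^ 8 * (tE - tO)) := by
  have h := open_out u8_par u8_R cfOK10 (112) (((440 : ℕ) : ℝ) / 100) (by norm_num)
  rw [u8_tot, u8_cntE, u8_cntO, u8_ve10, u8_vo10] at h
  exact h

theorem dVop_8_10 : |Vo 1 8 10 * Real.exp (-(112)) - 545560186 / 10 ^ 11| ≤ 44 / 10 ^ 9 := by
  obtain ⟨tE, tO, h1, h2, h3, h4⟩ := u8_10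
  exact fin_num h3 exC440 (add_enc h1 h2) (by norm_num) (2 / 10 ^ 4) (by norm_num) (by norm_num)
    (by norm_num) (by norm_num)

theorem dVoZp_8_10 : |VoZ 1 8 10 * Real.exp (-(112)) - (-506415432) / 10 ^ 11| ≤ 44 / 10 ^ 9 := by
  obtain ⟨tE, tO, h1, h2, h3, h4⟩ := u8_10
  exact fin_num h4 exC440 (sgn_enc 8 (sub_enc h1 h2)) (by norm_num) (2 / 10 ^ 4) (by norm_num) (by norm_num)
    (by norm_num) (by norm_num)

end Crest.Agent.HGZ
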