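import Crest.Agent.HG_Defs
import Crest.Agent.HG_Z_r4
import Crest.Agent.HG_Z_r6
import Crest.Agent.HG_Z_r8
import Crest.Agent.HG_Z_s4
import Crest.Agent.HG_Z_s6
import Crest.Agent.HG_Z_s8
import Crest.Agent.HG_Z_u4
import Crest.Agent.HG_Z_u5
import Crest.Agent.HG_Z_u6
import Crest.Agent.HG_Z_u7
import Crest.Agent.HG_Z_u8
import Crest.Agent.HG_Z_d4
import Crest.Agent.HG_Z_d5
import Crest.Agent.HG_Z_d6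
import Crest.Agent.HG_Z_d7
import Crest.Agent.HG_Z_d8
import Crest.Agent.HG_Z_h2
import Crest.Agent.HG_Z_h3
import Crest.Agent.HG_Z_h4
import Crest.Agent.HG_Z_h5
import Crest.Agent.HG_Z_h6
import Crest.Agent.HG_Z_h7
import Crest.Agent.HG_Z_h8

/-!
HG data (deliverable of part C): rigorous enclosures of partition functions at `β = 7, 10`,
normalised by `exp(-(7/5) β N)`; proved by kernel computation in the files HGR_* / HG_Z_*.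
-/

set_option autoImplicit false

namespace Crest.Agent.HG

theorem dP_4_7 : |P 4 7 * Real.exp (-(196 / 5)) - 1648963363874 / 10 ^ 11| ≤ 17 / 10 ^ 6 :=
  HGZ.dP_4_7

theorem dQ_4_7 : |Q 4 7 * Real.exp (-(196 / 5)) - 1642965118179 / 10 ^ 11| ≤ 17 / 10 ^ 6 :=
  HGZ.dQ_4_7

theorem dZ2_4_7 : |Z2 4 7 * Real.exp (-(196 / 5)) - 24385181284 / 10 ^ 11| ≤ 17 / 10 ^ 6 :=
  HGZ.dZ2_4_7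

theorem dZZ_4_7 : |ZZ 4 7 * Real.exp (-(196 / 5)) - 24381698041 / 10 ^ 11| ≤ 17 / 10 ^ 6 :=
  HGZ.dZZ_4_7

theorem dX_4_7 : |X 4 7 * Real.exp (-(196 / 5)) - 18988363662 / 10 ^ 11| ≤ 17 / 10 ^ 6 :=
  HGZ.dX_4_7

theorem dP_6_7 : |P 6 7 * Real.exp (-(294 / 5)) - 466979647588 / 10 ^ 11| ≤ 47 / 10 ^ 7 :=
  HGZ.dP_6_7

theorem dQ_6_7 : |Q 6 7 * Real.exp (-(294 / 5)) - 455167920029 / 10 ^ 11| ≤ 47 / 10 ^ 7 :=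
  HGZ.dQ_6_7

theorem dZ2_6_7 : |Z2 6 7 * Real.exp (-(294 / 5)) - 55912455519 / 10 ^ 11| ≤ 47 / 10 ^ 7 :=
  HGZ.dZ2_6_7

theorem dZZ_6_7 : |ZZ 6 7 * Real.exp (-(294 / 5)) - 55791326670 / 10 ^ 11| ≤ 47 / 10 ^ 7 :=
  HGZ.dZZ_6_7

theorem dX_6_7 : |X 6 7 * Real.exp (-(294 / 5)) - 47669243998 / 10 ^ 11| ≤ 47 / 10 ^ 7 :=
  HGZ.dX_6_7

theorem dP_8_7 : |P 8 7 * Real.exp (-(392 / 5)) - 273112308147 / 10 ^ 11| ≤ 28 / 10 ^ 7 :=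
  HGZ.dP_8_7

theorem dQ_8_7 : |Q 8 7 * Real.exp (-(392 / 5)) - 256737331372 / 10 ^ 11| ≤ 28 / 10 ^ 7 :=
  HGZ.dQ_8_7

theorem dZ2_8_7 : |Z2 8 7 * Real.exp (-(392 / 5)) - 78918615245 / 10 ^ 11| ≤ 28 / 10 ^ 7 :=
  HGZ.dZ2_8_7

theorem dZZ_8_7 : |ZZ 8 7 * Real.exp (-(392 / 5)) - 78136287922 / 10 ^ 11| ≤ 28 / 10 ^ 7 :=
  HGZ.dZZ_8_7

theorem dX_8_7 : |X 8 7 * Real.exp (-(392 / 5)) - 68654094484 / 10 ^ 11| ≤ 28 / 10 ^ 7 :=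
  HGZ.dX_8_7

theorem dVh_2_7 : |Vh 2 7 * Real.exp (-(98 / 5)) - 390612228922 / 10 ^ 11| ≤ 40 / 10 ^ 7 :=
  HGZ.dVh_2_7

theorem dWh_2_7 : |Wh 2 7 * Real.exp (-(98 / 5)) - 372554752657 / 10 ^ 11| ≤ 40 / 10 ^ 7 :=
  HGZ.dWh_2_7

theorem dVh_3_7 : |Vh 3 7 * Real.exp (-(147 / 5)) - 368204276152 / 10 ^ 11| ≤ 37 / 10 ^ 7 :=
  HGZ.dVh_3_7

theorem dWh_3_7 : |Wh 3 7 * Real.exp (-(147 / 5)) - 352105227509 / 10 ^ 11| ≤ 37 / 10 ^ 7 :=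
  HGZ.dWh_3_7

theorem dVh_4_7 : |Vh 4 7 * Real.exp (-(196 / 5)) - 383911059400 / 10 ^ 11| ≤ 39 / 10 ^ 7 :=
  HGZ.dVh_4_7

theorem dWh_4_7 : |Wh 4 7 * Real.exp (-(196 / 5)) - 361238990380 / 10 ^ 11| ≤ 39 / 10 ^ 7 :=
  HGZ.dWh_4_7

theorem dVh_5_7 : |Vh 5 7 * Real.exp (-(49)) - 386987945809 / 10 ^ 11| ≤ 39 / 10 ^ 7 :=
  HGZ.dVh_5_7

theorem dWh_5_7 : |Wh 5 7 * Real.exp (-(49)) - 361877658574 / 10 ^ 11| ≤ 39 / 10 ^ 7 :=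
  HGZ.dWh_5_7

theorem dVh_6_7 : |Vh 6 7 * Real.exp (-(294 / 5)) - 395363692753 / 10 ^ 11| ≤ 40 / 10 ^ 7 :=
  HGZ.dVh_6_7

theorem dWh_6_7 : |Wh 6 7 * Real.exp (-(294 / 5)) - 365437712954 / 10 ^ 11| ≤ 40 / 10 ^ 7 :=
  HGZ.dWh_6_7

theorem dVh_7_7 : |Vh 7 7 * Real.exp (-(343 / 5)) - 401673992324 / 10 ^ 11| ≤ 41 / 10 ^ 7 :=
  HGZ.dVh_7_7

theorem dWh_7_7 : |Wh 7 7 * Real.exp (-(343 / 5)) - 368019849068 / 10 ^ 11| ≤ 41 / 10 ^ 7 :=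
  HGZ.dWh_7_7

theorem dVh_8_7 : |Vh 8 7 * Real.exp (-(392 / 5)) - 409105113140 / 10 ^ 11| ≤ 41 / 10 ^ 7 :=
  HGZ.dVh_8_7

theorem dWh_8_7 : |Wh 8 7 * Real.exp (-(392 / 5)) - 371004713438 / 10 ^ 11| ≤ 41 / 10 ^ 7 :=
  HGZ.dWh_8_7

theorem dVop_4_7 : |Vo 1 4 7 * Real.exp (-(196 / 5)) - 698421706 / 10 ^ 11| ≤ 18 / 10 ^ 8 :=
  HGZ.dVop_4_7

theorem dVoZp_4_7 : |VoZ 1 4 7 * Real.exp (-(196 / 5)) - (-163393819) / 10 ^ 11| ≤ 18 / 10 ^ 8 :=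
  HGZ.dVoZp_4_7

theorem dVom_4_7 : |Vo (-1) 4 7 * Real.exp (-(196 / 5)) - 17983817578 / 10 ^ 11| ≤ 18 / 10 ^ 8 :=
  HGZ.dVom_4_7

theorem dVoZm_4_7 : |VoZ (-1) 4 7 * Real.exp (-(196 / 5)) - 17928753915 / 10 ^ 11| ≤ 18 / 10 ^ 8 :=
  HGZ.dVoZm_4_7

theorem dVop_5_7 : |Vo 1 5 7 * Real.exp (-(49)) - 14742115901 / 10 ^ 11| ≤ 12 / 10 ^ 9 :=
  HGZ.dVop_5_7

theorem dVoZp_5_7 : |VoZ 1 5 7 * Real.exp (-(49)) - (-14545654887) / 10 ^ 11| ≤ 12 / 10 ^ 9 :=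
  HGZ.dVoZp_5_7

theorem dVom_5_7 : |Vo (-1) 5 7 * Real.exp (-(49)) - 1115306658 / 10 ^ 11| ≤ 12 / 10 ^ 9 :=
  HGZ.dVom_5_7

theorem dVoZm_5_7 : |VoZ (-1) 5 7 * Real.exp (-(49)) - 808380499 / 10 ^ 11| ≤ 12 / 10 ^ 9 :=
  HGZ.dVoZm_5_7

theorem dVop_6_7 : |Vo 1 6 7 * Real.exp (-(294 / 5)) - 1655801312 / 10 ^ 11| ≤ 14 / 10 ^ 8 :=
  HGZ.dVop_6_7

theorem dVoZp_6_7 : |VoZ 1 6 7 * Real.exp (-(294 / 5)) - (-1132698474) / 10 ^ 11| ≤ 14 / 10 ^ 8 :=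
  HGZ.dVoZp_6_7

theorem dVom_6_7 : |Vo (-1) 6 7 * Real.exp (-(294 / 5)) - 13489071964 / 10 ^ 11| ≤ 14 / 10 ^ 8 :=
  HGZ.dVom_6_7

theorem dVoZm_6_7 : |VoZ (-1) 6 7 * Real.exp (-(294 / 5)) - 13321200823 / 10 ^ 11| ≤ 14 / 10 ^ 8 :=
  HGZ.dVoZm_6_7

theorem dVop_7_7 : |Vo 1 7 7 * Real.exp (-(343 / 5)) - 12111493651 / 10 ^ 11| ≤ 23 / 10 ^ 9 :=
  HGZ.dVop_7_7

theorem dVoZp_7_7 : |VoZ 1 7 7 * Real.exp (-(343 / 5)) - (-11805552102) / 10 ^ 11| ≤ 23 / 10 ^ 9 :=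
  HGZ.dVoZp_7_7

theorem dVom_7_7 : |Vo (-1) 7 7 * Real.exp (-(343 / 5)) - 2246104263 / 10 ^ 11| ≤ 23 / 10 ^ 9 :=
  HGZ.dVom_7_7

theorem dVoZm_7_7 : |VoZ (-1) 7 7 * Real.exp (-(343 / 5)) - 1809206747 / 10 ^ 11| ≤ 23 / 10 ^ 9 :=
  HGZ.dVoZm_7_7

theorem dVop_8_7 : |Vo 1 8 7 * Real.exp (-(392 / 5)) - 2829228611 / 10 ^ 11| ≤ 12 / 10 ^ 8 :=
  HGZ.dVop_8_7

theorem dVoZp_8_7 : |VoZ 1 8 7 * Real.exp (-(392 / 5)) - (-2256306244) / 10 ^ 11| ≤ 12 / 10 ^ 8 :=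
  HGZ.dVoZp_8_7

theorem dVom_8_7 : |Vo (-1) 8 7 * Real.exp (-(392 / 5)) - 11312899632 / 10 ^ 11| ≤ 12 / 10 ^ 8 :=
  HGZ.dVom_8_7

theorem dVoZm_8_7 : |VoZ (-1) 8 7 * Real.exp (-(392 / 5)) - 11001072455 / 10 ^ 11| ≤ 12 / 10 ^ 8 :=
  HGZ.dVoZm_8_7

theorem dP_4_10 : |P 4 10 * Real.exp (-(56)) - 5460558628974 / 10 ^ 11| ≤ 55 / 10 ^ 6 :=
  HGZ.dP_4_10

theorem dQ_4_10 : |Q 4 10 * Real.exp (-(56)) - 5459567128100 / 10 ^ 11| ≤ 55 / 10 ^ 6 :=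
  HGZ.dQ_4_10

theorem dZ2_4_10 : |Z2 4 10 * Real.exp (-(56)) - 11837173886 / 10 ^ 11| ≤ 55 / 10 ^ 6 :=
  HGZ.dZ2_4_10

theorem dZZ_4_10 : |ZZ 4 10 * Real.exp (-(56)) - 11837156578 / 10 ^ 11| ≤ 55 / 10 ^ 6 :=
  HGZ.dZZ_4_10

theorem dX_4_10 : |X 4 10 * Real.exp (-(56)) - 10690288965 / 10 ^ 11| ≤ 55 / 10 ^ 6 :=
  HGZ.dX_4_10

theorem dP_6_10 : |P 6 10 * Real.exp (-(84)) - 881500247969 / 10 ^ 11| ≤ 89 / 10 ^ 7 :=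
  HGZ.dP_6_10

theorem dQ_6_10 : |Q 6 10 * Real.exp (-(84)) - 878890056985 / 10 ^ 11| ≤ 89 / 10 ^ 7 :=
  HGZ.dQ_6_10

theorem dZ2_6_10 : |Z2 6 10 * Real.exp (-(84)) - 40072968664 / 10 ^ 11| ≤ 89 / 10 ^ 7 :=
  HGZ.dZ2_6_10

theorem dZZ_6_10 : |ZZ 6 10 * Real.exp (-(84)) - 40070212049 / 10 ^ 11| ≤ 89 / 10 ^ 7 :=
  HGZ.dZZ_6_10

theorem dX_6_10 : |X 6 10 * Real.exp (-(84)) - 37993541342 / 10 ^ 11| ≤ 89 / 10 ^ 7 :=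
  HGZ.dX_6_10

theorem dP_8_10 : |P 8 10 * Real.exp (-(112)) - 396482187725 / 10 ^ 11| ≤ 40 / 10 ^ 7 :=
  HGZ.dP_8_10

theorem dQ_8_10 : |Q 8 10 * Real.exp (-(112)) - 392322311250 / 10 ^ 11| ≤ 40 / 10 ^ 7 :=
  HGZ.dQ_8_10

theorem dZ2_8_10 : |Z2 8 10 * Real.exp (-(112)) - 65903764279 / 10 ^ 11| ≤ 40 / 10 ^ 7 :=
  HGZ.dZ2_8_10

theorem dZZ_8_10 : |ZZ 8 10 * Real.exp (-(112)) - 65864278579 / 10 ^ 11| ≤ 40 / 10 ^ 7 :=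
  HGZ.dZZ_8_10

theorem dX_8_10 : |X 8 10 * Real.exp (-(112)) - 63171227938 / 10 ^ 11| ≤ 40 / 10 ^ 7 :=
  HGZ.dX_8_10

theorem dVh_2_10 : |Vh 2 10 * Real.exp (-(28)) - 669916400471 / 10 ^ 11| ≤ 67 / 10 ^ 7 :=
  HGZ.dVh_2_10

theorem dWh_2_10 : |Wh 2 10 * Real.exp (-(28)) - 665138031477 / 10 ^ 11| ≤ 67 / 10 ^ 7 :=
  HGZ.dWh_2_10

theorem dVh_3_10 : |Vh 3 10 * Real.exp (-(42)) - 617050345023 / 10 ^ 11| ≤ 62 / 10 ^ 7 :=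
  HGZ.dVh_3_10

theorem dWh_3_10 : |Wh 3 10 * Real.exp (-(42)) - 613081229207 / 10 ^ 11| ≤ 62 / 10 ^ 7 :=
  HGZ.dWh_3_10

theorem dVh_4_10 : |Vh 4 10 * Real.exp (-(56)) - 645687185410 / 10 ^ 11| ≤ 65 / 10 ^ 7 :=
  HGZ.dVh_4_10

theorem dWh_4_10 : |Wh 4 10 * Real.exp (-(56)) - 639197454273 / 10 ^ 11| ≤ 65 / 10 ^ 7 :=
  HGZ.dWh_4_10

theorem dVh_5_10 : |Vh 5 10 * Real.exp (-(70)) - 649385804152 / 10 ^ 11| ≤ 65 / 10 ^ 7 :=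
  HGZ.dVh_5_10

theorem dWh_5_10 : |Wh 5 10 * Real.exp (-(70)) - 642085103535 / 10 ^ 11| ≤ 65 / 10 ^ 7 :=
  HGZ.dWh_5_10

theorem dVh_6_10 : |Vh 6 10 * Real.exp (-(84)) - 662810694131 / 10 ^ 11| ≤ 67 / 10 ^ 7 :=
  HGZ.dVh_6_10

theorem dWh_6_10 : |Wh 6 10 * Real.exp (-(84)) - 653505577770 / 10 ^ 11| ≤ 67 / 10 ^ 7 :=
  HGZ.dWh_6_10

theorem dVh_7_10 : |Vh 7 10 * Real.exp (-(98)) - 672671779288 / 10 ^ 11| ≤ 68 / 10 ^ 7 :=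
  HGZ.dVh_7_10

theorem dWh_7_10 : |Wh 7 10 * Real.exp (-(98)) - 661951534140 / 10 ^ 11| ≤ 68 / 10 ^ 7 :=
  HGZ.dWh_7_10

theorem dVh_8_10 : |Vh 8 10 * Real.exp (-(112)) - 684384634746 / 10 ^ 11| ≤ 69 / 10 ^ 7 :=
  HGZ.dVh_8_10

theorem dWh_8_10 : |Wh 8 10 * Real.exp (-(112)) - 671790432677 / 10 ^ 11| ≤ 69 / 10 ^ 7 :=
  HGZ.dWh_8_10

theorem dVop_4_10 : |Vo 1 4 10 * Real.exp (-(56)) - 62356876 / 10 ^ 11| ≤ 87 / 10 ^ 9 :=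
  HGZ.dVop_4_10

theorem dVoZp_4_10 : |VoZ 1 4 10 * Real.exp (-(56)) - (-21090817) / 10 ^ 11| ≤ 87 / 10 ^ 9 :=
  HGZ.dVoZp_4_10

theorem dVom_4_10 : |Vo (-1) 4 10 * Real.exp (-(56)) - 8602357981 / 10 ^ 11| ≤ 87 / 10 ^ 9 :=
  HGZ.dVom_4_10

theorem dVoZm_4_10 : |VoZ (-1) 4 10 * Real.exp (-(56)) - 8601139886 / 10 ^ 11| ≤ 87 / 10 ^ 9 :=
  HGZ.dVoZm_4_10

theorem dVop_5_10 : |Vo 1 5 10 * Real.exp (-(70)) - 6432697158 / 10 ^ 11| ≤ 14 / 10 ^ 10 :=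
  HGZ.dVop_5_10

theorem dVoZp_5_10 : |VoZ 1 5 10 * Real.exp (-(70)) - (-6422933290) / 10 ^ 11| ≤ 14 / 10 ^ 10 :=
  HGZ.dVoZp_5_10

theorem dVom_5_10 : |Vo (-1) 5 10 * Real.exp (-(70)) - 138474547 / 10 ^ 11| ≤ 14 / 10 ^ 10 :=
  HGZ.dVom_5_10

theorem dVoZm_5_10 : |VoZ (-1) 5 10 * Real.exp (-(70)) - 124314563 / 10 ^ 11| ≤ 14 / 10 ^ 10 :=
  HGZ.dVoZm_5_10

theorem dVop_6_10 : |Vo 1 6 10 * Real.exp (-(84)) - 241983904 / 10 ^ 11| ≤ 57 / 10 ^ 9 :=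
  HGZ.dVop_6_10

theorem dVoZp_6_10 : |VoZ 1 6 10 * Real.exp (-(84)) - (-204412110) / 10 ^ 11| ≤ 57 / 10 ^ 9 :=
  HGZ.dVoZp_6_10

theorem dVom_6_10 : |Vo (-1) 6 10 * Real.exp (-(84)) - 5668023985 / 10 ^ 11| ≤ 57 / 10 ^ 9 :=
  HGZ.dVom_6_10

theorem dVoZm_6_10 : |VoZ (-1) 6 10 * Real.exp (-(84)) - 5662067859 / 10 ^ 11| ≤ 57 / 10 ^ 9 :=
  HGZ.dVoZm_6_10

theorem dVop_7_10 : |Vo 1 7 10 * Real.exp (-(98)) - 4820513104 / 10 ^ 11| ≤ 40 / 10 ^ 10 :=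
  HGZ.dVop_7_10

theorem dVoZp_7_10 : |VoZ 1 7 10 * Real.exp (-(98)) - (-4803490464) / 10 ^ 11| ≤ 40 / 10 ^ 10 :=
  HGZ.dVoZp_7_10

theorem dVom_7_10 : |Vo (-1) 7 10 * Real.exp (-(98)) - 392587595 / 10 ^ 11| ≤ 40 / 10 ^ 10 :=
  HGZ.dVom_7_10

theorem dVoZm_7_10 : |VoZ (-1) 7 10 * Real.exp (-(98)) - 369391745 / 10 ^ 11| ≤ 40 / 10 ^ 10 :=
  HGZ.dVoZm_7_10

theorem dVop_8_10 : |Vo 1 8 10 * Real.exp (-(112)) - 545560186 / 10 ^ 11| ≤ 44 / 10 ^ 9 :=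
  HGZ.dVop_8_10

theorem dVoZp_8_10 : |VoZ 1 8 10 * Real.exp (-(112)) - (-506415432) / 10 ^ 11| ≤ 44 / 10 ^ 9 :=
  HGZ.dVoZp_8_10

theorem dVom_8_10 : |Vo (-1) 8 10 * Real.exp (-(112)) - 4364290619 / 10 ^ 11| ≤ 44 / 10 ^ 9 :=
  HGZ.dVom_8_10

theorem dVoZm_8_10 : |VoZ (-1) 8 10 * Real.exp (-(112)) - 4350092007 / 10 ^ 11| ≤ 44 / 10 ^ 9 :=
  HGZ.dVoZm_8_10

end Crest.Agent.HG
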