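import Crest.Agent.HG_A10b
import Crest.Agent.HG_A10c
import Crest.Agent.HG_Data
import Crest.Agent.HG_Ev

/-!
HG, helper lemmas for the numerical upper bounds (UBK7, UBK10, UBZ7).
-/

set_option autoImplicit false

namespace Crest.Agent.HG.UBh

open Crest.Agent.HG

/-- rational upper bound of `exp x`, `|x| ≤ 1`, 12 Taylor terms -/
theorem exp_ub {x : ℝ} (hx : |x| ≤ 1) :
    Real.exp x ≤ 1 + x + x ^ 2 / 2 + x ^ 3 / 6 + x ^ 4 / 24 + x ^ 5 / 120 + x ^ 6 / 720 +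
      x ^ 7 / 5040 + x ^ 8 / 40320 + x ^ 9 / 362880 + x ^ 10 / 3628800 +
      x ^ 10 / 10000000 := by
  have h := Real.exp_bound hx (n := 10) (by norm_num)
  have h2 := (abs_le.mp h).2
  have e : |x| ^ 10 = x ^ 10 := by
    rw [← abs_pow]; exact abs_of_nonneg (by positivity)
  rw [e] at h2
  simp only [Finset.sum_range_succ, Finset.sum_range_zero, Nat.factorial] at h2
  norm_num at h2
  have hx10 : 0 ≤ x ^ 10 := by positivity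
  linarith

/-- `A e^{x'} ≤ D` from `A e^{-y} ≤ B`, `exp ((x'+y)/n)^n ≤ C`. -/
theorem fin_mul {A y x' t C B D : ℝ} {n : ℕ} (hA : A * Real.exp (-y) ≤ B) (hB : 0 ≤ B)
    (hx : x' + y = n * t) (ht : Real.exp t ≤ C) (hD : B * C ^ n ≤ D) :
    A * Real.exp x' ≤ D := by
  have e : Real.exp x' = Real.exp (-y) * Real.exp t ^ n := by
    rw [← Real.exp_nat_mul, ← Real.exp_add, ← hx]; congr 1; ring
  rw [e, ← mul_assoc]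
  calc A * Real.exp (-y) * Real.exp t ^ n ≤ B * Real.exp t ^ n :=
        mul_le_mul_of_nonneg_right hA (by positivity)
    _ ≤ B * C ^ n := mul_le_mul_of_nonneg_left (pow_le_pow_left₀ (Real.exp_pos _).le ht n) hB
    _ ≤ D := hD

theorem top_core {κ w m f : ℕ → ℝ} (hS : SSeq κ f) (hw : ∀ i, 0 ≤ w i)
    (hm : ∀ k, HasSum (fun i => w i * κ i ^ k) (m k))
    {F lo s up q0 q1 q2 p0 p1 p2 : ℝ} (hF : f 8 ≤ F) (hlo0 : 0 ≤ lo) (hs0 : 0 ≤ s)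
    (hs : F - lo ^ 8 ≤ s ^ 8)
    (h0 : 0 < Qf q0 q1 q2 m 0) (h1 : lo * Qf q0 q1 q2 m 0 ≤ Qf q0 q1 q2 m 1)
    (hpos : s * m 0 < m 1)
    (hD : 0 < Qf p0 p1 p2 m 1 - s * Qf p0 p1 p2 m 0)
    (hN : Qf p0 p1 p2 m 2 - s * Qf p0 p1 p2 m 1 ≤
      up * (Qf p0 p1 p2 m 1 - s * Qf p0 p1 p2 m 0)) :
    lo ≤ κ 0 ∧ κ 0 ≤ up ∧ 0 < κ 0 ∧ (∀ i, 1 ≤ i → |κ i| ≤ s) := by
  have hl : lo ≤ |κ 0| := moment_lower hS.anti hw (fun k _ => hm k) h0 h1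
  have hr := hS.rest hlo0 hl hF hs0 hs
  obtain ⟨a1, a2⟩ := temple_upper hS.anti hw (fun k _ => hm k) hs0 hr hpos hD hN
  rw [abs_of_pos a1] at hl
  exact ⟨hl, a2, a1, hr⟩

theorem sec_core {κ f : ℕ → ℝ} (hS : SSeq κ f) {a G z Y : ℝ} (ha : 0 ≤ a) (haz : a ≤ z)
    (hG : f 8 - 2 * a * f 6 + a ^ 2 * f 4 ≤ G) (hz : G ≤ (z * (z - a)) ^ 2) (hY : z ^ 4 ≤ Y) :
    (∀ i, κ i ^ 2 ≤ z) ∧ (∀ i, |κ i| ^ 8 ≤ Y) := by
  have h1 : ∀ i, κ i ^ 2 ≤ z := hS.atom ha haz hG hz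
  refine ⟨h1, fun i => ?_⟩
  calc |κ i| ^ 8 = (κ i ^ 2) ^ 4 := by
        rw [← sq_abs (κ i)]; ring
    _ ≤ z ^ 4 := pow_le_pow_left₀ (sq_nonneg _) (h1 i) 4
    _ ≤ Y := hY

/-- quadratic lower bound on `[lo, ∞)` -/
theorem quad_lower {q0 q1 q2 lo x δ : ℝ} (hx : lo ≤ x) (hq2 : 0 ≤ q2)
    (hmono : 0 ≤ q1 + 2 * q2 * lo) (h : δ ≤ q0 + q1 * lo + q2 * lo ^ 2) :
    δ ≤ q0 + q1 * x + q2 * x ^ 2 := by
  nlinarith [mul_nonneg (sub_nonneg.mpr hx) hmono,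
    mul_nonneg hq2 (mul_nonneg (sub_nonneg.mpr hx) (sub_nonneg.mpr hx))]

/-- the normalised function -/
noncomputable def nf (g : ℕ → ℝ → ℝ) (β : ℝ) (N : ℕ) : ℝ :=
  g N β * Real.exp (-(7 / 5 * β * N))

theorem nf_def (g : ℕ → ℝ → ℝ) (β : ℝ) (N : ℕ) :
    nf g β N = g N β * Real.exp (-(7 / 5 * β * N)) := rfl

theorem nf_of {g : ℕ → ℝ → ℝ} {β : ℝ} {N : ℕ} {e c t : ℝ}
    (h : |g N β * Real.exp (-e) - c| ≤ t) (he : e = 7 / 5 * β * N) :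
    c - t ≤ nf g β N ∧ nf g β N ≤ c + t := by
  subst he
  unfold nf
  have := abs_le.mp h
  constructor <;> linarith [this.1, this.2]

theorem nf_mK0 (β : ℝ) (N : ℕ) : nf (mK 0) β N = (nf P β N + 3 * nf Z2 β N) / 4 := by
  unfold nf mK; simp; ring

theorem nf_mK1 (β : ℝ) (N : ℕ) : nf (mK 1) β N = (nf P β N - nf Z2 β N) / 4 := by
  unfold nf mK; simp; ring

theorem nf_mK3 (β : ℝ) (N : ℕ) : nf (mK 3) β N = (nf P β N - nf Z2 β N) / 4 := by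
  unfold nf mK; simp; ring

theorem nf_P (β : ℝ) (N : ℕ) : nf P β N = nf (mK 0) β N + 3 * nf (mK 1) β N := by
  rw [nf_mK0, nf_mK1]; ring

theorem nf_mZ0 (β : ℝ) (N : ℕ) :
    nf (mZ 0) β N = (nf Q β N + nf ZZ β N) / 4 - nf X β N / 2 := by
  unfold nf mZ; simp; ring

theorem nf_mZ3 (β : ℝ) (N : ℕ) :
    nf (mZ 3) β N = (nf Q β N + nf ZZ β N) / 4 + nf X β N / 2 := by
  unfold nf mZ; simp; ring

theorem nf_mZ1 (β : ℝ) (N : ℕ) :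
    nf (mZ 1) β N = (nf Q β N - nf ZZ β N) / 4 := by
  unfold nf mZ; simp; ring

theorem nf_Q (β : ℝ) (N : ℕ) :
    nf Q β N = nf (mZ 0) β N + nf (mZ 3) β N + 2 * nf (mZ 1) β N := by
  rw [nf_mZ0, nf_mZ3, nf_mZ1]; ring

theorem nf_Ao (β : ℝ) (N : ℕ) : nf Ao β N = (nf (Vo 1) β N + nf (Vo (-1)) β N) / 2 := by
  unfold nf Ao; ring

theorem nf_Bo (β : ℝ) (N : ℕ) : nf Bo β N = (nf (Vo (-1)) β N - nf (Vo 1) β N) / 2 := by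
  unfold nf Bo; ring

theorem nf_Vom (β : ℝ) (N : ℕ) : nf (Vo (-1)) β N = nf Ao β N + nf Bo β N := by
  rw [nf_Ao, nf_Bo]; ring

theorem nf_AoZ (β : ℝ) (N : ℕ) : nf AoZ β N = (nf (VoZ 1) β N + nf (VoZ (-1)) β N) / 2 := by
  unfold nf AoZ; ring

theorem nf_BoZ (β : ℝ) (N : ℕ) : nf BoZ β N = (nf (VoZ (-1)) β N - nf (VoZ 1) β N) / 2 := by
  unfold nf BoZ; ring

theorem nf_VoZm (β : ℝ) (N : ℕ) : nf (VoZ (-1)) β N = nf AoZ β N + nf BoZ β N := by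
  rw [nf_AoZ, nf_BoZ]; ring

theorem repK_nf {β : ℝ} (h : RepK β) :
    ∃ (κ : Fin 4 → ℕ → ℝ) (u α b : ℕ → ℝ),
    (∀ χ, SSeq (κ χ) (nf (mK χ) β)) ∧
    (∀ i, 0 ≤ u i ∧ 0 ≤ α i ∧ 0 ≤ b i) ∧
    (∀ k : ℕ, HasSum (fun i => u i * κ 0 i ^ k) (nf Vh β (k + 2))) ∧
    (∀ k : ℕ, 2 ≤ k → HasSum (fun i => α i * κ 0 i ^ k) (nf Ao β (k + 2))) ∧
    (∀ k : ℕ, 2 ≤ k → HasSum (fun i => b i * κ 3 i ^ k) (nf Bo β (k + 2))) := by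
  obtain ⟨κ, u, α, b, h1, h2, h3, h4, h5⟩ := h.norm
  exact ⟨κ, u, α, b, h1, h2, fun k => h3 (k + 2) (by omega), fun k hk => h4 (k + 2) (by omega),
    fun k hk => h5 (k + 2) (by omega)⟩

theorem repZ_nf {β : ℝ} (h : RepZ β) :
    ∃ (κ : Fin 4 → ℕ → ℝ) (u α b : ℕ → ℝ),
    (∀ χ, SSeq (κ χ) (nf (mZ χ) β)) ∧
    (∀ i, 0 ≤ u i ∧ 0 ≤ α i ∧ 0 ≤ b i) ∧
    (∀ k : ℕ, HasSum (fun i => u i * κ 3 i ^ k) (nf Wh β (k + 2))) ∧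
    (∀ k : ℕ, 2 ≤ k → HasSum (fun i => α i * κ 0 i ^ k) (nf AoZ β (k + 2))) ∧
    (∀ k : ℕ, 2 ≤ k → HasSum (fun i => b i * κ 3 i ^ k) (nf BoZ β (k + 2))) := by
  obtain ⟨κ, u, α, b, h1, h2, h3, h4, h5⟩ := h.norm
  exact ⟨κ, u, α, b, h1, h2, fun k => h3 (k + 2) (by omega), fun k hk => h4 (k + 2) (by omega),
    fun k hk => h5 (k + 2) (by omega)⟩

end Crest.Agent.HG.UBh
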