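import Crest.Agent.HG_A10b
import Crest.Agent.HG_A10c
import Crest.Agent.HG_Data
import Crest.Agent.HG_Ev
import Crest.Agent.HG_UBh67

/-!
HG task UBK10: upper bounds at β = 10 from the untwisted representation.

Everything is normalised by `exp(-(7/5) β N)` (`RepK.norm`, `RepZ.norm`); the enclosures of the
moments are the theorems of `HG_Data` (names `dP_L_β`, `dQ`, `dZ2`, `dZZ`, `dX`, `dVh_N_β`,
`dWh_N_β`, `dVop/dVom` (s=1, s=-1), `dVoZp/dVoZm`), rewrite the exponents with `norm_num`.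
`mK 0 = (P+3 Z2)/4`, `mK χ = (P-Z2)/4` (χ≠0), `mZ 0 = (Q+ZZ)/4 - X/2`, `mZ 3 = (Q+ZZ)/4 + X/2`,
`mZ 1 = mZ 2 = (Q-ZZ)/4`; so `P = mK 0 + 3 mK 1`, `Q = mZ 0 + mZ 3 + 2 mZ 1`.
CERTIFICATE (all inequalities checked with exact rational arithmetic by script):
level K, beta=10 (m k = Vh (k+2) normalised, f = mK 0 normalised): f 8 <= F0 = 7427439/5000000;
 moment_lower q=(21/1250,2013/5000,572/625): lo = 2541219/2500000; rest s = 87567/100000; temple_upper q=(19/400,1203/2500,8753/10000), μ = up = 1017433/1000000;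
 rest sum F0 - lo^8 = 0.3457192
sector mK χ (χ≠0): f 8 <= F = 8264481/10000000, atom: a = 53/500, G = 533547439/1000000000, z = 454651/500000, Y = 6836481/10000000 (z^4 <= Y)
christoffel for α (moments Ao): q=(-66/125,-83/200,377/200), N = 95966653/5000000000, δ = 249457/250000, W = 19276979/1000000000
-/

set_option autoImplicit false

namespace Crest.Agent.HG
open UBh

theorem K10_core (h : RepK 10) :
    ∃ (κ : Fin 4 → ℕ → ℝ) (α b : ℕ → ℝ),
    (∀ χ, SSeq (κ χ) (nf (mK χ) 10)) ∧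
    (∀ i, 0 ≤ α i ∧ 0 ≤ b i) ∧
    (∀ k : ℕ, 2 ≤ k → HasSum (fun i => α i * κ 0 i ^ k) (nf Ao 10 (k + 2))) ∧
    (∀ k : ℕ, 2 ≤ k → HasSum (fun i => b i * κ 3 i ^ k) (nf Bo 10 (k + 2))) ∧
    (2541219/2500000 ≤ κ 0 0 ∧ κ 0 0 ≤ 1017433/1000000 ∧ 0 < κ 0 0 ∧
      (∀ i, 1 ≤ i → |κ 0 i| ≤ 87567/100000)) ∧
    (nf (mK 0) 10 8 ≤ 7427439/5000000) ∧
    (∀ χ, χ ≠ 0 → nf (mK χ) 10 8 ≤ 8264481/10000000) ∧
    (∀ χ, χ ≠ 0 → (∀ i, κ χ i ^ 2 ≤ 454651/500000) ∧
      (∀ i, |κ χ i| ^ 8 ≤ 6836481/10000000)) := by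
  obtain ⟨κ, u, α, b, h1, h2, h3, h4, h5⟩ := repK_nf h
  have P4 := nf_of dP_4_10 (by norm_num)
  have P6 := nf_of dP_6_10 (by norm_num)
  have P8 := nf_of dP_8_10 (by norm_num)
  have Z4 := nf_of dZ2_4_10 (by norm_num)
  have Z6 := nf_of dZ2_6_10 (by norm_num)
  have Z8 := nf_of dZ2_8_10 (by norm_num)
  have V2 := nf_of dVh_2_10 (by norm_num)
  have V3 := nf_of dVh_3_10 (by norm_num)
  have V4 := nf_of dVh_4_10 (by norm_num)
  have V5 := nf_of dVh_5_10 (by norm_num)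
  have V6 := nf_of dVh_6_10 (by norm_num)
  have V7 := nf_of dVh_7_10 (by norm_num)
  have V8 := nf_of dVh_8_10 (by norm_num)
  have hF0 : nf (mK 0) 10 8 ≤ 7427439/5000000 := by
    rw [nf_mK0]; linarith [P8.2, Z8.2]
  have e8 : ∀ N, ∀ χ : Fin 4, χ ≠ 0 → nf (mK χ) 10 N = (nf P 10 N - nf Z2 10 N) / 4 := by
    intro N χ hχ
    unfold nf mK
    simp [hχ]; ring
  have hF : ∀ χ : Fin 4, χ ≠ 0 → nf (mK χ) 10 8 ≤ 8264481/10000000 := by
    intro χ hχ
    rw [e8 8 χ hχ]; linarith [P8.2, Z8.1]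
  refine ⟨κ, α, b, h1, fun i => ⟨(h2 i).2.1, (h2 i).2.2⟩, h4, h5, ?_, hF0, hF, ?_⟩
  · refine top_core (m := fun k => nf Vh 10 (k + 2)) (F := 7427439/5000000)
      (lo := 2541219/2500000) (s := 87567/100000) (up := 1017433/1000000)
      (q0 := 21/1250) (q1 := 2013/5000) (q2 := 572/625)
      (p0 := 19/400) (p1 := 1203/2500) (p2 := 8753/10000) (h1 0) (fun i => (h2 i).1) h3
      hF0 (by norm_num) (by norm_num) (by norm_num) ?_ ?_ ?_ ?_ ?_
    all_goals simp only [Qf, Nat.reduceAdd]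
    all_goals linarith [V2.1, V2.2, V3.1, V3.2, V4.1, V4.2, V5.1, V5.2, V6.1, V6.2, V7.1,
      V7.2, V8.1, V8.2]
  · intro χ hχ
    refine sec_core (h1 χ) (a := 53/500) (G := 533547439/1000000000) (z := 454651/500000)
      (Y := 6836481/10000000) (by norm_num) (by norm_num) ?_ (by norm_num) (by norm_num)
    rw [e8 8 χ hχ, e8 6 χ hχ, e8 4 χ hχ]
    linarith [P8.1, P8.2, Z8.1, Z8.2, P6.1, P6.2, Z6.1, Z6.2, P4.1, P4.2, Z4.1, Z4.2]


/-- for even `56 ≤ L ≤ 104`: `P ≤ ...` -/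
theorem K10_P_104 (h : RepK 10) :
    nf P 10 104 ≤ (1017433/1000000) ^ 104 +
      (7427439/5000000 - (2541219/2500000) ^ 8) ^ 13 +
      3 * ((6836481/10000000) ^ 13 + (8264481/10000000 - 6836481/10000000) ^ 13) := by
  obtain ⟨κ, α, b, h1, h2, h3, h4, ⟨t1, t2, t3, t4⟩, hF0, hF, hs⟩ := K10_core h
  have hl : (2541219/2500000 : ℝ) ≤ |κ 0 0| := t1.trans (le_abs_self _)
  have hu : |κ 0 0| ≤ 1017433/1000000 := by rw [abs_of_pos t3]; exact t2
  have a1 := (h1 0).top_rest (by norm_num) hl hu hF0 (p := 13) (by norm_num)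
  have a2 := (h1 1).maj (hs 1 (by decide)).2 (hF 1 (by decide)) (by norm_num) (by norm_num)
    (p := 13) (by norm_num)
  rw [nf_P 10 104]
  norm_num only at a1 a2 ⊢
  linarith

/-- P = mK 0 + 3 mK 1 -/
theorem ubP_40_10 (h : RepK 10) :
    P 40 10 * Real.exp (10 * (40 * ev)) ≤ 13547 / 10000 := by
  obtain ⟨κ, α, b, h1, h2, h3, h4, ⟨t1, t2, t3, t4⟩, hF0, hF, hs⟩ := K10_core h
  have hl : (2541219/2500000 : ℝ) ≤ |κ 0 0| := t1.trans (le_abs_self _)
  have hu : |κ 0 0| ≤ 1017433/1000000 := by rw [abs_of_pos t3]; exact t2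
  have a1 := (h1 0).top_rest (by norm_num) hl hu hF0 (p := 5) (by norm_num)
  have a2 := (h1 1).maj (hs 1 (by decide)).2 (hF 1 (by decide)) (by norm_num) (by norm_num)
    (p := 5) (by norm_num)
  have a3 : nf P 10 40 ≤ (1017433/1000000) ^ 40 +
      (7427439/5000000 - (2541219/2500000) ^ 8) ^ 5 +
      3 * ((6836481/10000000) ^ 5 + (8264481/10000000 - 6836481/10000000) ^ 5) := by
    rw [nf_P 10 40]
    norm_num only at a1 a2 ⊢
    linarith
  rw [nf_def] at a3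
  have hx : |(-5924/10000 : ℝ)| ≤ 1 := by rw [abs_le]; norm_num
  refine fin_mul (n := 1) (t := -5924/10000) a3 (by norm_num) ?_ (exp_ub hx) (by norm_num)
  unfold ev; norm_num

theorem ubP_104_10 (h : RepK 10) :
    P 104 10 * Real.exp (10 * (104 * ev)) ≤ 12980 / 10000 := by
  have a3 := K10_P_104 h
  rw [nf_def] at a3
  have hx : |(-77012/100000 : ℝ)| ≤ 1 := by rw [abs_le]; norm_num
  refine fin_mul (n := 2) (t := -77012/100000) a3 (by norm_num) ?_ (exp_ub hx) (by norm_num)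
  unfold ev; norm_num

/-- `SSeq.top_rest'`, `SSeq.maj'`: `(up^L + (F0-lo^8)^7 + 3 (Y^7+(F-Y)^7)) exp(-0.01481 L)`, true maximum 1.34; `up * exp(-0.01481) ≤ 1.00249` -/
theorem ubP_L_10 (h : RepK 10) (L : ℕ) (hL : Even L) (hL1 : 60 ≤ L) (hL2 : L ≤ 104) :
    P L 10 * Real.exp (10 * (L * ev)) ≤ 3 / 2 := by
  obtain ⟨κ, α, b, h1, h2, h3, h4, ⟨t1, t2, t3, t4⟩, hF0, hF, hs⟩ := K10_core h
  have hl : (2541219/2500000 : ℝ) ≤ |κ 0 0| := t1.trans (le_abs_self _)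
  have hu : |κ 0 0| ≤ 1017433/1000000 := by rw [abs_of_pos t3]; exact t2
  have a1 := (h1 0).top_rest' (by norm_num) hl hu hF0 (by norm_num) hL (by omega)
  have a2 := (h1 1).maj' (hs 1 (by decide)).2 (hF 1 (by decide)) (by norm_num) (by norm_num)
    (by norm_num) hL (by omega)
  have a3 : nf P 10 L ≤ (1017433/1000000) ^ L + 213/1000 := by
    rw [nf_P 10 L]
    norm_num only at a1 a2 ⊢
    linarith
  have e1 : P L 10 * Real.exp (10 * (L * ev)) = nf P 10 L * Real.exp (-(1481/100000)) ^ L := by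
    rw [nf_def, mul_assoc, ← Real.exp_nat_mul, ← Real.exp_add]
    congr 2
    unfold ev; ring
  have hx : |(-(1481/100000) : ℝ)| ≤ 1 := by rw [abs_le]; norm_num
  have hE := exp_ub hx
  have hE0 : 0 < Real.exp (-(1481/100000)) := Real.exp_pos _
  have hE2 : (1017433/1000000) * Real.exp (-(1481/100000)) ≤ 100249/100000 := by
    norm_num only at hE ⊢
    linarith
  have hE3 : Real.exp (-(1481/100000)) ≤ 98530/100000 := by
    norm_num only at hE ⊢
    linarith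
  rw [e1]
  calc nf P 10 L * Real.exp (-(1481/100000)) ^ L
      ≤ ((1017433/1000000) ^ L + 213/1000) * Real.exp (-(1481/100000)) ^ L :=
        mul_le_mul_of_nonneg_right a3 (by positivity)
    _ = ((1017433/1000000) * Real.exp (-(1481/100000))) ^ L +
        213/1000 * Real.exp (-(1481/100000)) ^ L := by rw [mul_pow]; ring
    _ ≤ (100249/100000) ^ L + 213/1000 * (98530/100000) ^ L := by
        gcongr
    _ ≤ (100249/100000) ^ 104 + 213/1000 * (98530/100000) ^ 60 := by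
        have q1 : ((100249/100000) : ℝ) ^ L ≤ (100249/100000) ^ 104 :=
          pow_le_pow_right₀ (by norm_num) hL2
        have q2 : ((98530/100000) : ℝ) ^ L ≤ (98530/100000) ^ 60 :=
          pow_le_pow_of_le_one (by norm_num) (by norm_num) hL1
        linarith
    _ ≤ 3 / 2 := by norm_num

theorem K10_W (h : RepK 10) :
    ∃ (κ : Fin 4 → ℕ → ℝ) (α b : ℕ → ℝ),
    (∀ i, 0 ≤ α i ∧ 0 ≤ b i) ∧
    (∀ k : ℕ, 2 ≤ k → HasSum (fun i => α i * κ 0 i ^ k) (nf Ao 10 (k + 2))) ∧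
    (∀ k : ℕ, 2 ≤ k → HasSum (fun i => b i * κ 3 i ^ k) (nf Bo 10 (k + 2))) ∧
    (2541219/2500000 ≤ κ 0 0 ∧ κ 0 0 ≤ 1017433/1000000 ∧ 0 < κ 0 0 ∧
      (∀ i, 1 ≤ i → |κ 0 i| ≤ 87567/100000)) ∧
    (∀ i, κ 3 i ^ 2 ≤ 454651/500000) ∧ α 0 * κ 0 0 ^ 2 ≤ 19276979/1000000000 ∧
    nf Ao 10 8 ≤ ((545560186 / 10 ^ 11 + 44 / 10 ^ 9) +
        (4364290619 / 10 ^ 11 + 44 / 10 ^ 9)) / 2 ∧
    nf Bo 10 8 ≤ ((4364290619 / 10 ^ 11 + 44 / 10 ^ 9) -
        (545560186 / 10 ^ 11 - 44 / 10 ^ 9)) / 2 := by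
  obtain ⟨κ, α, b, h1, h2, h3, h4, ⟨t1, t2, t3, t4⟩, hF0, hF, hs⟩ := K10_core h
  have p4 := nf_of dVop_4_10 (by norm_num)
  have p5 := nf_of dVop_5_10 (by norm_num)
  have p6 := nf_of dVop_6_10 (by norm_num)
  have p7 := nf_of dVop_7_10 (by norm_num)
  have p8 := nf_of dVop_8_10 (by norm_num)
  have m4 := nf_of dVom_4_10 (by norm_num)
  have m5 := nf_of dVom_5_10 (by norm_num)
  have m6 := nf_of dVom_6_10 (by norm_num)
  have m7 := nf_of dVom_7_10 (by norm_num)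
  have m8 := nf_of dVom_8_10 (by norm_num)
  have hW : α 0 * κ 0 0 ^ 2 ≤ 19276979/1000000000 := by
    have c := christoffel (w := α) (κ := κ 0) (m := fun k => nf Ao 10 (k + 2))
      (fun i => (h2 i).1) (fun k hk _ => h3 k hk) (q0 := -66/125) (q1 := -83/200)
      (q2 := 377/200) (δ := 249457/250000) (N := 95966653/5000000000) (by norm_num)
      (quad_lower t1 (by norm_num) (by norm_num) (by norm_num))
      (by
        simp only [Qf, Nat.reduceAdd, nf_Ao]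
        linarith [p4.1, p4.2, p5.1, p5.2, p6.1, p6.2, p7.1, p7.2, p8.1, p8.2,
          m4.1, m4.2, m5.1, m5.2, m6.1, m6.2, m7.1, m7.2, m8.1, m8.2])
    exact c.trans (by norm_num)
  refine ⟨κ, α, b, h2, h3, h4, ⟨t1, t2, t3, t4⟩, (hs 3 (by decide)).1, hW, ?_, ?_⟩
  · rw [nf_Ao]; linarith [p8.2, m8.2]
  · rw [nf_Bo]; linarith [p8.1, m8.2]

theorem ubU_104_10 (h : RepK 10) :
    Vo (-1) 104 10 * Real.exp (10 * (104 * ev + fv)) ≤ 13114 / 10000 := by
  obtain ⟨κ, α, b, h2, h3, h4, ⟨t1, t2, t3, t4⟩, hz, hW, b1, b2⟩ := K10_W h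
  have a1 := open_bound (fun i => (h2 i).1) (n := 104) (by decide) (by norm_num)
    (h3 6 (by norm_num)) (h3 102 (by norm_num)) (by norm_num) t4 t3.le t2 hW
  have a2 := open_bound' (fun i => (h2 i).2) (n := 104) (by decide) (by norm_num)
    (h4 6 (by norm_num)) (h4 102 (by norm_num)) hz
  have a3 : nf (Vo (-1)) 10 104 ≤ 19276979/1000000000 * (1017433/1000000) ^ 100 +
      ((545560186 / 10 ^ 11 + 44 / 10 ^ 9) + (4364290619 / 10 ^ 11 + 44 / 10 ^ 9)) / 2 *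
        (87567/100000) ^ 96 +
      ((4364290619 / 10 ^ 11 + 44 / 10 ^ 9) - (545560186 / 10 ^ 11 - 44 / 10 ^ 9)) / 2 *
        (454651/500000) ^ 48 := by
    rw [nf_Vom 10 104]
    simp only [Nat.reduceAdd, Nat.reduceSub, Nat.reduceDiv] at a1 a2
    have c1 := mul_le_mul_of_nonneg_right b1 (show (0 : ℝ) ≤ (87567/100000) ^ 96 by positivity)
    have c2 := mul_le_mul_of_nonneg_right b2 (show (0 : ℝ) ≤ (454651/500000) ^ 48 by positivity)
    linarith
  rw [nf_def] at a3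
  have hx : |(62244/100000 : ℝ)| ≤ 1 := by rw [abs_le]; norm_num
  refine fin_mul (n := 4) (t := 62244/100000) a3 (by norm_num) ?_ (exp_ub hx) (by norm_num)
  unfold ev fv; norm_num

theorem ubU_132_10 (h : RepK 10) :
    Vo (-1) 132 10 * Real.exp (10 * (132 * ev + fv)) ≤ 14033 / 10000 := by
  obtain ⟨κ, α, b, h2, h3, h4, ⟨t1, t2, t3, t4⟩, hz, hW, b1, b2⟩ := K10_W h
  have a1 := open_bound (fun i => (h2 i).1) (n := 132) (by decide) (by norm_num)
    (h3 6 (by norm_num)) (h3 130 (by norm_num)) (by norm_num) t4 t3.le t2 hW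
  have a2 := open_bound' (fun i => (h2 i).2) (n := 132) (by decide) (by norm_num)
    (h4 6 (by norm_num)) (h4 130 (by norm_num)) hz
  have a3 : nf (Vo (-1)) 10 132 ≤ 19276979/1000000000 * (1017433/1000000) ^ 128 +
      ((545560186 / 10 ^ 11 + 44 / 10 ^ 9) + (4364290619 / 10 ^ 11 + 44 / 10 ^ 9)) / 2 *
        (87567/100000) ^ 124 +
      ((4364290619 / 10 ^ 11 + 44 / 10 ^ 9) - (545560186 / 10 ^ 11 - 44 / 10 ^ 9)) / 2 *
        (454651/500000) ^ 62 := by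
    rw [nf_Vom 10 132]
    simp only [Nat.reduceAdd, Nat.reduceSub, Nat.reduceDiv] at a1 a2
    have c1 := mul_le_mul_of_nonneg_right b1 (show (0 : ℝ) ≤ (87567/100000) ^ 124 by positivity)
    have c2 := mul_le_mul_of_nonneg_right b2 (show (0 : ℝ) ≤ (454651/500000) ^ 62 by positivity)
    linarith
  rw [nf_def] at a3
  have hx : |(51877/100000 : ℝ)| ≤ 1 := by rw [abs_le]; norm_num
  refine fin_mul (n := 4) (t := 51877/100000) a3 (by norm_num) ?_ (exp_ub hx) (by norm_num)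
  unfold ev fv; norm_num

end Crest.Agent.HG
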