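import Crest.Agent.HG_A10b
import Crest.Agent.HG_A10c
import Crest.Agent.HG_Data
import Crest.Agent.HG_Ev
import Crest.Agent.HG_UBh67

/-!
HG task UBK7: upper bounds at β = 7 from the untwisted representation.

Everything is normalised by `exp(-(7/5) β N)` (`RepK.norm`, `RepZ.norm`); the enclosures of the
moments are the theorems of `HG_Data` (names `dP_L_β`, `dQ`, `dZ2`, `dZZ`, `dX`, `dVh_N_β`,
`dWh_N_β`, `dVop/dVom` (s=1, s=-1), `dVoZp/dVoZm`), rewrite the exponents with `norm_num`.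
`mK 0 = (P+3 Z2)/4`, `mK χ = (P-Z2)/4` (χ≠0), `mZ 0 = (Q+ZZ)/4 - X/2`, `mZ 3 = (Q+ZZ)/4 + X/2`,
`mZ 1 = mZ 2 = (Q-ZZ)/4`; so `P = mK 0 + 3 mK 1`, `Q = mZ 0 + mZ 3 + 2 mZ 1`.
CERTIFICATE (all inequalities checked with exact rational arithmetic by script):
level K, beta=7 (m k = Vh (k+2) normalised, f = mK 0 normalised): f 8 <= F0 = 3186683/2500000;
 moment_lower q=(67/2500,4439/10000,8957/10000): lo = 5088139/5000000; rest s = 30833/40000; temple_upper q=(32/625,999/2000,1081/1250), μ = up = 254481/250000;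
 rest sum F0 - lo^8 = 0.1246365
sector mK χ (χ≠0): f 8 <= F = 4854857/10000000, atom: a = 151/1000, G = 16733489/62500000, z = 798779/1000000, Y = 1017763/2500000 (z^4 <= Y)
christoffel for α (moments Ao): q=(-121/250,-13/40,219/125), N = 154239157/2500000000, δ = 999583/1000000, W = 1234943/20000000
-/

set_option autoImplicit false

namespace Crest.Agent.HG
open UBh

theorem K7_core (h : RepK 7) :
    ∃ (κ : Fin 4 → ℕ → ℝ) (α b : ℕ → ℝ),
    (∀ χ, SSeq (κ χ) (nf (mK χ) 7)) ∧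
    (∀ i, 0 ≤ α i ∧ 0 ≤ b i) ∧
    (∀ k : ℕ, 2 ≤ k → HasSum (fun i => α i * κ 0 i ^ k) (nf Ao 7 (k + 2))) ∧
    (∀ k : ℕ, 2 ≤ k → HasSum (fun i => b i * κ 3 i ^ k) (nf Bo 7 (k + 2))) ∧
    (5088139/5000000 ≤ κ 0 0 ∧ κ 0 0 ≤ 254481/250000 ∧ 0 < κ 0 0 ∧
      (∀ i, 1 ≤ i → |κ 0 i| ≤ 30833/40000)) ∧
    (nf (mK 0) 7 8 ≤ 3186683/2500000) ∧
    (∀ χ, χ ≠ 0 → nf (mK χ) 7 8 ≤ 4854857/10000000) ∧
    (∀ χ, χ ≠ 0 → (∀ i, κ χ i ^ 2 ≤ 798779/1000000) ∧
      (∀ i, |κ χ i| ^ 8 ≤ 1017763/2500000)) := by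
  obtain ⟨κ, u, α, b, h1, h2, h3, h4, h5⟩ := repK_nf h
  have P4 := nf_of dP_4_7 (by norm_num)
  have P6 := nf_of dP_6_7 (by norm_num)
  have P8 := nf_of dP_8_7 (by norm_num)
  have Z4 := nf_of dZ2_4_7 (by norm_num)
  have Z6 := nf_of dZ2_6_7 (by norm_num)
  have Z8 := nf_of dZ2_8_7 (by norm_num)
  have V2 := nf_of dVh_2_7 (by norm_num)
  have V3 := nf_of dVh_3_7 (by norm_num)
  have V4 := nf_of dVh_4_7 (by norm_num)
  have V5 := nf_of dVh_5_7 (by norm_num)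
  have V6 := nf_of dVh_6_7 (by norm_num)
  have V7 := nf_of dVh_7_7 (by norm_num)
  have V8 := nf_of dVh_8_7 (by norm_num)
  have hF0 : nf (mK 0) 7 8 ≤ 3186683/2500000 := by
    rw [nf_mK0]; linarith [P8.2, Z8.2]
  have e8 : ∀ N, ∀ χ : Fin 4, χ ≠ 0 → nf (mK χ) 7 N = (nf P 7 N - nf Z2 7 N) / 4 := by
    intro N χ hχ
    unfold nf mK
    simp [hχ]; ring
  have hF : ∀ χ : Fin 4, χ ≠ 0 → nf (mK χ) 7 8 ≤ 4854857/10000000 := by
    intro χ hχ
    rw [e8 8 χ hχ]; linarith [P8.2, Z8.1]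
  refine ⟨κ, α, b, h1, fun i => ⟨(h2 i).2.1, (h2 i).2.2⟩, h4, h5, ?_, hF0, hF, ?_⟩
  · refine top_core (m := fun k => nf Vh 7 (k + 2)) (F := 3186683/2500000)
      (lo := 5088139/5000000) (s := 30833/40000) (up := 254481/250000)
      (q0 := 67/2500) (q1 := 4439/10000) (q2 := 8957/10000)
      (p0 := 32/625) (p1 := 999/2000) (p2 := 1081/1250) (h1 0) (fun i => (h2 i).1) h3
      hF0 (by norm_num) (by norm_num) (by norm_num) ?_ ?_ ?_ ?_ ?_
    all_goals simp only [Qf, Nat.reduceAdd]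
    all_goals linarith [V2.1, V2.2, V3.1, V3.2, V4.1, V4.2, V5.1, V5.2, V6.1, V6.2, V7.1,
      V7.2, V8.1, V8.2]
  · intro χ hχ
    refine sec_core (h1 χ) (a := 151/1000) (G := 16733489/62500000) (z := 798779/1000000)
      (Y := 1017763/2500000) (by norm_num) (by norm_num) ?_ (by norm_num) (by norm_num)
    rw [e8 8 χ hχ, e8 6 χ hχ, e8 4 χ hχ]
    linarith [P8.1, P8.2, Z8.1, Z8.2, P6.1, P6.2, Z6.1, Z6.2, P4.1, P4.2, Z4.1, Z4.2]


/-- P = mK 0 + 3 mK 1, `8·5 = 40`: `(up^40 + (F0-lo^8)^5 + 3 (Y^5 + (F-Y)^5)) exp(280 (ev + 7/5))` -/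
theorem ubP_40_7 (h : RepK 7) :
    P 40 7 * Real.exp (7 * (40 * ev)) ≤ 13667 / 10000 := by
  obtain ⟨κ, α, b, h1, h2, h3, h4, ⟨t1, t2, t3, t4⟩, hF0, hF, hs⟩ := K7_core h
  have hl : (5088139/5000000 : ℝ) ≤ |κ 0 0| := t1.trans (le_abs_self _)
  have hu : |κ 0 0| ≤ 254481/250000 := by rw [abs_of_pos t3]; exact t2
  have a1 := (h1 0).top_rest (by norm_num) hl hu hF0 (p := 5) (by norm_num)
  have a2 := (h1 1).maj (hs 1 (by decide)).2 (hF 1 (by decide)) (by norm_num) (by norm_num)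
    (p := 5) (by norm_num)
  have e := nf_P 7 40
  have a3 : nf P 7 40 ≤ (254481/250000) ^ 40 + (3186683/2500000 - (5088139/5000000) ^ 8) ^ 5 +
      3 * ((1017763/2500000) ^ 5 + (4854857/10000000 - 1017763/2500000) ^ 5) := by
    rw [e]
    norm_num only at a1 a2 ⊢
    linarith
  rw [nf_def] at a3
  have hx : |(-41468/100000 : ℝ)| ≤ 1 := by rw [abs_le]; norm_num
  refine fin_mul (n := 1) (t := -41468/100000) a3 (by norm_num) ?_ (exp_ub hx) (by norm_num)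
  unfold ev; norm_num

theorem ubP_104_7 (h : RepK 7) :
    P 104 7 * Real.exp (7 * (104 * ev)) ≤ 21587 / 10000 := by
  obtain ⟨κ, α, b, h1, h2, h3, h4, ⟨t1, t2, t3, t4⟩, hF0, hF, hs⟩ := K7_core h
  have hl : (5088139/5000000 : ℝ) ≤ |κ 0 0| := t1.trans (le_abs_self _)
  have hu : |κ 0 0| ≤ 254481/250000 := by rw [abs_of_pos t3]; exact t2
  have a1 := (h1 0).top_rest (by norm_num) hl hu hF0 (p := 13) (by norm_num)
  have a2 := (h1 1).maj (hs 1 (by decide)).2 (hF 1 (by decide)) (by norm_num) (by norm_num)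
    (p := 13) (by norm_num)
  have e := nf_P 7 104
  have a3 : nf P 7 104 ≤ (254481/250000) ^ 104 +
      (3186683/2500000 - (5088139/5000000) ^ 8) ^ 13 +
      3 * ((1017763/2500000) ^ 13 + (4854857/10000000 - 1017763/2500000) ^ 13) := by
    rw [e]
    norm_num only at a1 a2 ⊢
    linarith
  rw [nf_def] at a3
  have hx : |(-539084/1000000 : ℝ)| ≤ 1 := by rw [abs_le]; norm_num
  refine fin_mul (n := 2) (t := -539084/1000000) a3 (by norm_num) ?_ (exp_ub hx) (by norm_num)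
  unfold ev; norm_num

/-- Vo (-1) = Ao + Bo; `Ao ≤ W up^24 + Ao8 s^20` (`open_bound`), `Bo ≤ Bo8 z^10` (`open_bound'`) -/
theorem ubU_28_7 (h : RepK 7) :
    Vo (-1) 28 7 * Real.exp (7 * (28 * ev + fv)) ≤ 12495 / 10000 := by
  obtain ⟨κ, α, b, h1, h2, h3, h4, ⟨t1, t2, t3, t4⟩, hF0, hF, hs⟩ := K7_core h
  have p4 := nf_of dVop_4_7 (by norm_num)
  have p5 := nf_of dVop_5_7 (by norm_num)
  have p6 := nf_of dVop_6_7 (by norm_num)
  have p7 := nf_of dVop_7_7 (by norm_num)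
  have p8 := nf_of dVop_8_7 (by norm_num)
  have m4 := nf_of dVom_4_7 (by norm_num)
  have m5 := nf_of dVom_5_7 (by norm_num)
  have m6 := nf_of dVom_6_7 (by norm_num)
  have m7 := nf_of dVom_7_7 (by norm_num)
  have m8 := nf_of dVom_8_7 (by norm_num)
  have hW : α 0 * κ 0 0 ^ 2 ≤ 1234943/20000000 := by
    have c := christoffel (w := α) (κ := κ 0) (m := fun k => nf Ao 7 (k + 2))
      (fun i => (h2 i).1) (fun k hk _ => h3 k hk) (q0 := -121/250) (q1 := -13/40)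
      (q2 := 219/125) (δ := 999583/1000000) (N := 154239157/2500000000) (by norm_num)
      (quad_lower t1 (by norm_num) (by norm_num) (by norm_num))
      (by
        simp only [Qf, Nat.reduceAdd, nf_Ao]
        linarith [p4.1, p4.2, p5.1, p5.2, p6.1, p6.2, p7.1, p7.2, p8.1, p8.2,
          m4.1, m4.2, m5.1, m5.2, m6.1, m6.2, m7.1, m7.2, m8.1, m8.2])
    exact c.trans (by norm_num)
  have a1 := open_bound (fun i => (h2 i).1) (n := 28) (by decide) (by norm_num)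
    (h3 6 (by norm_num)) (h3 26 (by norm_num)) (by norm_num) t4 t3.le t2 hW
  have a2 := open_bound' (fun i => (h2 i).2) (n := 28) (by decide) (by norm_num)
    (h4 6 (by norm_num)) (h4 26 (by norm_num)) (hs 3 (by decide)).1
  have e := nf_Vom 7 28
  have a3 : nf (Vo (-1)) 7 28 ≤ 1234943/20000000 * (254481/250000) ^ 24 +
      ((2829228611 / 10 ^ 11 + 12 / 10 ^ 8) + (11312899632 / 10 ^ 11 + 12 / 10 ^ 8)) / 2 *
        (30833/40000) ^ 20 +
      ((11312899632 / 10 ^ 11 + 12 / 10 ^ 8) - (2829228611 / 10 ^ 11 - 12 / 10 ^ 8)) / 2 *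
        (798779/1000000) ^ 10 := by
    rw [e]
    have b1 : nf Ao 7 8 ≤ ((2829228611 / 10 ^ 11 + 12 / 10 ^ 8) +
        (11312899632 / 10 ^ 11 + 12 / 10 ^ 8)) / 2 := by
      rw [nf_Ao]; linarith [p8.2, m8.2]
    have b2 : nf Bo 7 8 ≤ ((11312899632 / 10 ^ 11 + 12 / 10 ^ 8) -
        (2829228611 / 10 ^ 11 - 12 / 10 ^ 8)) / 2 := by
      rw [nf_Bo]; linarith [p8.1, m8.2]
    simp only [Nat.reduceAdd, Nat.reduceSub, Nat.reduceDiv] at a1 a2
    have c1 := mul_le_mul_of_nonneg_right b1 (show (0 : ℝ) ≤ (30833/40000) ^ 20 by positivity)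
    have c2 := mul_le_mul_of_nonneg_right b2 (show (0 : ℝ) ≤ (798779/1000000) ^ 10 by positivity)
    linarith
  rw [nf_def] at a3
  have hx : |(632681/1000000 : ℝ)| ≤ 1 := by rw [abs_le]; norm_num
  refine fin_mul (n := 4) (t := 632681/1000000) a3 (by norm_num) ?_ (exp_ub hx) (by norm_num)
  unfold ev fv; norm_num

end Crest.Agent.HG
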