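import Crest.Agent.HG_A10b
import Crest.Agent.HG_A10c
import Crest.Agent.HG_Data
import Crest.Agent.HG_Ev

/-!
HG task UBZ10: upper bounds at β = 10 from the time-twisted representation.

Everything is normalised by `exp(-(7/5) β N)` (`RepK.norm`, `RepZ.norm`); the enclosures of the
moments are the theorems of `HG_Data` (names `dP_L_β`, `dQ`, `dZ2`, `dZZ`, `dX`, `dVh_N_β`,
`dWh_N_β`, `dVop/dVom` (s=1, s=-1), `dVoZp/dVoZm`), rewrite the exponents with `norm_num`.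
`mK 0 = (P+3 Z2)/4`, `mK χ = (P-Z2)/4` (χ≠0), `mZ 0 = (Q+ZZ)/4 - X/2`, `mZ 3 = (Q+ZZ)/4 + X/2`,
`mZ 1 = mZ 2 = (Q-ZZ)/4`; so `P = mK 0 + 3 mK 1`, `Q = mZ 0 + mZ 3 + 2 mZ 1`.
CERTIFICATE (all inequalities checked with exact rational arithmetic by script):
level Z, beta=10 (m k = Wh (k+2) normalised, f = mZ 3 normalised): f 8 <= F0 = 14613267/10000000;
 moment_lower q=(157/10000,769/2000,923/1000): lo = 79236/78125; rest s = 437201/500000; temple_upper q=(371/10000,1107/2500,8959/10000), μ = up = 507393/500000;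
 rest sum F0 - lo^8 = 0.3417339
sector mZ 0: f 8 <= F = 518509/625000, atom: a = 53/500, G = 535932217/1000000000, z = 455127/500000, Y = 1716289/2500000 (z^4 <= Y)
sector mZ 1, mZ 2: f 8 <= F = 8161471/10000000, atom: a = 53/500, G = 65575069/125000000, z = 905703/1000000, Y = 6728887/10000000 (z^4 <= Y)
christoffel for b (moments BoZ, κ 3): q=(-261/500,-443/1000,383/200), N = 4791661/250000000, δ = 998553/1000000, W = 19222233/1000000000
-/

set_option autoImplicit false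

namespace Crest.Agent.HG

private theorem z10_e (n : ℕ) (c : ℝ) (h : 14 * (n : ℝ) = c) :
    Real.exp (-(7 / 5 * 10 * (n : ℝ))) = Real.exp (-c) := by
  congr 1
  rw [← h]
  ring

private theorem z10_m0 (L : ℕ) (β : ℝ) : mZ 0 L β = ((Q L β + ZZ L β) / 2 - X L β) / 2 := by
  unfold mZ
  simp

private theorem z10_m3 (L : ℕ) (β : ℝ) : mZ 3 L β = ((Q L β + ZZ L β) / 2 + X L β) / 2 := by
  unfold mZ
  rw [if_neg (by decide), if_pos rfl]

private theorem z10_m1 (L : ℕ) (β : ℝ) : mZ 1 L β = (Q L β - ZZ L β) / 4 := by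
  unfold mZ
  rw [if_neg (by decide), if_neg (by decide)]

private theorem z10_exp1 : Real.exp (-(154024 / 100000)) ≤ 21434 / 100000 := by
  have h := Real.sum_le_exp_of_nonneg (x := (154024 / 100000 : ℝ)) (by norm_num) 12
  have h2 : (4.66568 : ℝ) ≤ Real.exp (154024 / 100000) := by
    refine le_trans ?_ h
    norm_num [Finset.sum_range_succ, Nat.factorial]
  rw [Real.exp_neg, inv_le_comm₀ (Real.exp_pos _) (by norm_num)]
  refine le_trans ?_ h2
  norm_num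

private theorem z10_exp2 : Real.exp (248976 / 100000) ≤ 120587 / 10000 := by
  have h := Real.exp_bound' (x := (248976 / 300000 : ℝ)) (by norm_num) (by norm_num)
    (n := 10) (by norm_num)
  have h2 : Real.exp (248976 / 300000) ≤ 2.29315 := by
    refine le_trans h ?_
    norm_num [Finset.sum_range_succ, Nat.factorial]
  have h3 : Real.exp (248976 / 100000) = Real.exp (248976 / 300000) ^ 3 := by
    rw [← Real.exp_nat_mul]
    congr 1
    norm_num
  rw [h3]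
  calc Real.exp (248976 / 300000) ^ 3 ≤ (2.29315 : ℝ) ^ 3 :=
        pow_le_pow_left₀ (Real.exp_pos _).le h2 3
    _ ≤ 120587 / 10000 := by norm_num

/-- The common part: enclosure of the top of sector 3, tail bounds in all sectors. -/
private theorem z10_core (h : RepZ 10) :
    ∃ (κ : Fin 4 → ℕ → ℝ) (α b : ℕ → ℝ),
    (∀ χ, SSeq (κ χ) (fun L => mZ χ L 10 * Real.exp (-(7 / 5 * 10 * L)))) ∧
    (∀ i, 0 ≤ α i ∧ 0 ≤ b i) ∧
    (∀ N : ℕ, 4 ≤ N → HasSum (fun i => α i * κ 0 i ^ (N - 2))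
      (AoZ N 10 * Real.exp (-(7 / 5 * 10 * N)))) ∧
    (∀ N : ℕ, 4 ≤ N → HasSum (fun i => b i * κ 3 i ^ (N - 2))
      (BoZ N 10 * Real.exp (-(7 / 5 * 10 * N)))) ∧
    79236 / 78125 ≤ κ 3 0 ∧ κ 3 0 ≤ 507393 / 500000 ∧
    (∀ i, 1 ≤ i → |κ 3 i| ≤ 437201 / 500000) ∧
    mZ 3 8 10 * Real.exp (-(7 / 5 * 10 * ((8 : ℕ) : ℝ))) ≤ 14613267 / 10000000 ∧
    mZ 0 8 10 * Real.exp (-(7 / 5 * 10 * ((8 : ℕ) : ℝ))) ≤ 518509 / 625000 ∧
    mZ 1 8 10 * Real.exp (-(7 / 5 * 10 * ((8 : ℕ) : ℝ))) ≤ 8161471 / 10000000 ∧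
    (∀ i, κ 0 i ^ 2 ≤ 455127 / 500000) ∧ (∀ i, κ 1 i ^ 2 ≤ 905703 / 1000000) := by
  obtain ⟨κ, u, α, b, hS, hpos, hW, hA, hB⟩ := h.norm
  have q4 := abs_le.1 dQ_4_10
  have q6 := abs_le.1 dQ_6_10
  have q8 := abs_le.1 dQ_8_10
  have z4 := abs_le.1 dZZ_4_10
  have z6 := abs_le.1 dZZ_6_10
  have z8 := abs_le.1 dZZ_8_10
  have x4 := abs_le.1 dX_4_10
  have x6 := abs_le.1 dX_6_10
  have x8 := abs_le.1 dX_8_10
  have w2 := abs_le.1 dWh_2_10
  have w3 := abs_le.1 dWh_3_10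
  have w4 := abs_le.1 dWh_4_10
  have w5 := abs_le.1 dWh_5_10
  have w6 := abs_le.1 dWh_6_10
  have w7 := abs_le.1 dWh_7_10
  have w8 := abs_le.1 dWh_8_10
  have e2 := z10_e 2 28 (by norm_num)
  have e3 := z10_e 3 42 (by norm_num)
  have e4 := z10_e 4 56 (by norm_num)
  have e5 := z10_e 5 70 (by norm_num)
  have e6 := z10_e 6 84 (by norm_num)
  have e7 := z10_e 7 98 (by norm_num)
  have e8 := z10_e 8 112 (by norm_num)
  have f38 : mZ 3 8 10 * Real.exp (-(7 / 5 * 10 * ((8 : ℕ) : ℝ))) ≤ 14613267 / 10000000 := by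
    rw [e8, z10_m3]
    have : ((Q 8 10 + ZZ 8 10) / 2 + X 8 10) / 2 * Real.exp (-112) =
        (Q 8 10 * Real.exp (-112)) / 4 + (ZZ 8 10 * Real.exp (-112)) / 4 +
          (X 8 10 * Real.exp (-112)) / 2 := by ring
    rw [this]
    linarith [q8.2, z8.2, x8.2]
  have g0 : ∀ (L : ℕ) (c : ℝ), mZ 0 L 10 * Real.exp c =
        (Q L 10 * Real.exp c) / 4 + (ZZ L 10 * Real.exp c) / 4 -
          (X L 10 * Real.exp c) / 2 := by intro L c; rw [z10_m0]; ring
  have g1 : ∀ (L : ℕ) (c : ℝ), mZ 1 L 10 * Real.exp c =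
        (Q L 10 * Real.exp c) / 4 - (ZZ L 10 * Real.exp c) / 4 := by
    intro L c; rw [z10_m1]; ring
  have f08 : mZ 0 8 10 * Real.exp (-(7 / 5 * 10 * ((8 : ℕ) : ℝ))) ≤ 518509 / 625000 := by
    rw [e8, g0]
    linarith [q8.2, z8.2, x8.1]
  have f18 : mZ 1 8 10 * Real.exp (-(7 / 5 * 10 * ((8 : ℕ) : ℝ))) ≤ 8161471 / 10000000 := by
    rw [e8, g1]
    linarith [q8.2, z8.1]
  -- moments of the half-chain vector
  obtain ⟨m, hm⟩ : ∃ m : ℕ → ℝ, ∀ k : ℕ, m k = Wh (k + 2) 10 *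
      Real.exp (-(7 / 5 * 10 * ((k + 2 : ℕ) : ℝ))) := ⟨_, fun k => rfl⟩
  have hmS : ∀ k : ℕ, HasSum (fun i => u i * κ 3 i ^ k) (m k) := by
    intro k
    rw [hm k]
    exact hW (k + 2) (by omega)
  have m0 : m 0 = Wh 2 10 * Real.exp (-28) := by rw [hm 0, ← e2]
  have m1 : m 1 = Wh 3 10 * Real.exp (-42) := by rw [hm 1, ← e3]
  have m2 : m 2 = Wh 4 10 * Real.exp (-56) := by rw [hm 2, ← e4]
  have m3 : m 3 = Wh 5 10 * Real.exp (-70) := by rw [hm 3, ← e5]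
  have m4 : m 4 = Wh 6 10 * Real.exp (-84) := by rw [hm 4, ← e6]
  have m5 : m 5 = Wh 7 10 * Real.exp (-98) := by rw [hm 5, ← e7]
  have m6 : m 6 = Wh 8 10 * Real.exp (-112) := by rw [hm 6, ← e8]
  rw [← m0] at w2
  rw [← m1] at w3
  rw [← m2] at w4
  rw [← m3] at w5
  rw [← m4] at w6
  rw [← m5] at w7
  rw [← m6] at w8
  have hu : ∀ i, 0 ≤ u i := fun i => (hpos i).1
  have hlo : 79236 / 78125 ≤ |κ 3 0| := by
    refine moment_lower (hS 3).anti hu (fun k _ => hmS k) (q0 := 157 / 10000)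
      (q1 := 769 / 2000) (q2 := 923 / 1000) ?_ ?_
    · unfold Qf
      norm_num
      linarith [w2.1, w3.1, w4.1, w5.1, w6.1]
    · unfold Qf
      norm_num
      linarith [w2.1, w3.1, w4.1, w5.1, w6.1, w7.1, w2.2, w3.2, w4.2, w5.2, w6.2, w7.2]
  have hrest : ∀ i, 1 ≤ i → |κ 3 i| ≤ 437201 / 500000 := by
    intro i hi
    exact (hS 3).rest (by norm_num) hlo f38 (by norm_num) (by norm_num) i hi
  obtain ⟨hk0, hup⟩ := temple_upper (hS 3).anti hu (fun k _ => hmS k) (s := 437201 / 500000)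
    (by norm_num) hrest (by linarith [w2.2, w3.1]) (q0 := 371 / 10000)
      (q1 := 1107 / 2500) (q2 := 8959 / 10000) (μ := 507393 / 500000)
      (by
        unfold Qf
        norm_num
        linarith [w2.1, w3.1, w4.1, w5.1, w6.1, w7.1, w2.2, w3.2, w4.2, w5.2, w6.2, w7.2])
      (by
        unfold Qf
        norm_num
        linarith [w2.1, w3.1, w4.1, w5.1, w6.1, w7.1, w8.1, w2.2, w3.2, w4.2, w5.2, w6.2, w7.2,
          w8.2])
  rw [abs_of_pos hk0] at hlo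
  refine ⟨κ, α, b, hS, fun i => (hpos i).2, hA, hB, hlo, hup, hrest, f38, f08, f18, ?_, ?_⟩
  · intro i
    refine (hS 0).atom (a := 53 / 500) (G := 535932217 / 1000000000) (by norm_num) (by norm_num)
      ?_ (by norm_num) i
    show mZ 0 8 10 * Real.exp (-(7 / 5 * 10 * ((8 : ℕ) : ℝ))) - 2 * (53 / 500) *
      (mZ 0 6 10 * Real.exp (-(7 / 5 * 10 * ((6 : ℕ) : ℝ)))) + (53 / 500) ^ 2 *
      (mZ 0 4 10 * Real.exp (-(7 / 5 * 10 * ((4 : ℕ) : ℝ)))) ≤ _
    rw [e8, e6, e4, g0, g0, g0]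
    linarith [q4.2, q6.1, q8.2, z4.2, z6.1, z8.2, x4.1, x6.2, x8.1]
  · intro i
    refine (hS 1).atom (a := 53 / 500) (G := 65575069 / 125000000) (by norm_num) (by norm_num)
      ?_ (by norm_num) i
    show mZ 1 8 10 * Real.exp (-(7 / 5 * 10 * ((8 : ℕ) : ℝ))) - 2 * (53 / 500) *
      (mZ 1 6 10 * Real.exp (-(7 / 5 * 10 * ((6 : ℕ) : ℝ)))) + (53 / 500) ^ 2 *
      (mZ 1 4 10 * Real.exp (-(7 / 5 * 10 * ((4 : ℕ) : ℝ)))) ≤ _
    rw [e8, e6, e4, g1, g1, g1]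
    linarith [q4.2, q6.1, q8.2, z4.1, z6.2, z8.1]

private theorem z10_pow8 {x z Y : ℝ} (h : x ^ 2 ≤ z) (hY : z ^ 4 ≤ Y) : |x| ^ 8 ≤ Y := by
  have h1 : |x| ^ 8 = (x ^ 2) ^ 4 := by rw [← sq_abs x]; ring
  rw [h1]
  exact (pow_le_pow_left₀ (sq_nonneg x) h 4).trans hY

theorem ubQ_104_10 (h : RepZ 10) :
    Q 104 10 * Real.exp (10 * (104 * ev)) ≤ 9906 / 10000 := by
  obtain ⟨κ, α, b, hS, hpos, hA, hB, hlo, hup, hrest, f38, f08, f18, hz0, hz1⟩ := z10_core h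
  have hlo' : 79236 / 78125 ≤ |κ 3 0| := hlo.trans (le_abs_self _)
  have hup' : |κ 3 0| ≤ 507393 / 500000 := by
    rw [abs_of_nonneg (le_trans (by norm_num) hlo)]; exact hup
  have b3 := (hS 3).top_rest (by norm_num) hlo' hup' f38 (p := 13) (by norm_num)
  have b0 := (hS 0).maj (Y := 1716289 / 2500000) (F := 518509 / 625000)
    (fun i => z10_pow8 (hz0 i) (by norm_num)) f08 (by norm_num) (by norm_num) (p := 13)
    (by norm_num)
  have b1 := (hS 1).maj (Y := 6728887 / 10000000) (F := 8161471 / 10000000)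
    (fun i => z10_pow8 (hz1 i) (by norm_num)) f18 (by norm_num) (by norm_num) (p := 13)
    (by norm_num)
  have hQ : Q 104 10 = mZ 0 104 10 + mZ 3 104 10 + 2 * mZ 1 104 10 := by
    rw [z10_m0, z10_m1, z10_m3]; ring
  have hexp : Real.exp (10 * (104 * ev)) = Real.exp (-(7 / 5 * 10 * ((8 * 13 : ℕ) : ℝ))) *
      Real.exp (-(154024 / 100000)) := by
    have h0 : 10 * (104 * ev) = -(7 / 5 * 10 * ((8 * 13 : ℕ) : ℝ)) + -(154024 / 100000) := by
      unfold ev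
      norm_num
    rw [h0, Real.exp_add]
  have hE := z10_exp1
  have hsum : (mZ 0 104 10 + mZ 3 104 10 + 2 * mZ 1 104 10) *
      Real.exp (-(7 / 5 * 10 * ((8 * 13 : ℕ) : ℝ))) ≤ 46215 / 10000 := by
    have c0 : mZ 0 104 10 * Real.exp (-(7 / 5 * 10 * ((8 * 13 : ℕ) : ℝ))) ≤ _ := b0
    have c1 : mZ 1 104 10 * Real.exp (-(7 / 5 * 10 * ((8 * 13 : ℕ) : ℝ))) ≤ _ := b1
    have c3 : mZ 3 104 10 * Real.exp (-(7 / 5 * 10 * ((8 * 13 : ℕ) : ℝ))) ≤ _ := b3
    have hn0 : ((1716289 / 2500000 : ℝ)) ^ 13 +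
      (518509 / 625000 - 1716289 / 2500000) ^ 13 ≤ 753 / 100000 := by norm_num
    have hn1 : ((6728887 / 10000000 : ℝ)) ^ 13 +
      (8161471 / 10000000 - 6728887 / 10000000) ^ 13 ≤ 580 / 100000 := by norm_num
    have hn3 : ((507393 / 500000 : ℝ)) ^ (8 * 13) +
      (14613267 / 10000000 - (79236 / 78125) ^ 8) ^ 13 ≤ 46021 / 10000 := by norm_num
    calc _ = mZ 0 104 10 * Real.exp (-(7 / 5 * 10 * ((8 * 13 : ℕ) : ℝ))) +
        mZ 3 104 10 * Real.exp (-(7 / 5 * 10 * ((8 * 13 : ℕ) : ℝ))) +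
        2 * (mZ 1 104 10 * Real.exp (-(7 / 5 * 10 * ((8 * 13 : ℕ) : ℝ)))) := by ring
      _ ≤ 753 / 100000 + 46021 / 10000 + 2 * (580 / 100000) := by
        have := c0.trans hn0
        have := c1.trans hn1
        have := c3.trans hn3
        linarith
      _ ≤ 46215 / 10000 := by norm_num
  rw [hQ, hexp, ← mul_assoc]
  calc _ ≤ 46215 / 10000 * Real.exp (-(154024 / 100000)) :=
        mul_le_mul_of_nonneg_right hsum (Real.exp_pos _).le
    _ ≤ 46215 / 10000 * (21434 / 100000) := by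
        apply mul_le_mul_of_nonneg_left hE (by norm_num)
    _ ≤ 9906 / 10000 := by norm_num

theorem ubUZ_104_10 (h : RepZ 10) :
    VoZ (-1) 104 10 * Real.exp (10 * (104 * ev + fv)) ≤ 10085 / 10000 := by
  obtain ⟨κ, α, b, hS, hpos, hA, hB, hlo, hup, hrest, f38, f08, f18, hz0, hz1⟩ := z10_core h
  have p4 := abs_le.1 dVoZp_4_10
  have p5 := abs_le.1 dVoZp_5_10
  have p6 := abs_le.1 dVoZp_6_10
  have p7 := abs_le.1 dVoZp_7_10
  have p8 := abs_le.1 dVoZp_8_10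
  have n4 := abs_le.1 dVoZm_4_10
  have n5 := abs_le.1 dVoZm_5_10
  have n6 := abs_le.1 dVoZm_6_10
  have n7 := abs_le.1 dVoZm_7_10
  have n8 := abs_le.1 dVoZm_8_10
  have e4 := z10_e 4 56 (by norm_num)
  have e5 := z10_e 5 70 (by norm_num)
  have e6 := z10_e 6 84 (by norm_num)
  have e7 := z10_e 7 98 (by norm_num)
  have e8 := z10_e 8 112 (by norm_num)
  obtain ⟨m, hm⟩ : ∃ m : ℕ → ℝ, ∀ k : ℕ, m k = BoZ (k + 2) 10 *
      Real.exp (-(7 / 5 * 10 * ((k + 2 : ℕ) : ℝ))) := ⟨_, fun k => rfl⟩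
  have hmS : ∀ k : ℕ, 2 ≤ k → HasSum (fun i => b i * κ 3 i ^ k) (m k) := by
    intro k hk
    rw [hm k]
    exact hB (k + 2) (by omega)
  have gB : ∀ (L : ℕ) (c : ℝ), BoZ L 10 * Real.exp c =
      (VoZ (-1) L 10 * Real.exp c) / 2 - (VoZ 1 L 10 * Real.exp c) / 2 := by
    intro L c; unfold BoZ; ring
  have gA : ∀ (L : ℕ) (c : ℝ), AoZ L 10 * Real.exp c =
      (VoZ (-1) L 10 * Real.exp c) / 2 + (VoZ 1 L 10 * Real.exp c) / 2 := by
    intro L c; unfold AoZ; ring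
  have m2 : m 2 = (VoZ (-1) 4 10 * Real.exp (-56)) / 2 - (VoZ 1 4 10 * Real.exp (-56)) / 2 := by
    rw [hm 2, ← gB, ← e4]
  have m3 : m 3 = (VoZ (-1) 5 10 * Real.exp (-70)) / 2 - (VoZ 1 5 10 * Real.exp (-70)) / 2 := by
    rw [hm 3, ← gB, ← e5]
  have m4 : m 4 = (VoZ (-1) 6 10 * Real.exp (-84)) / 2 - (VoZ 1 6 10 * Real.exp (-84)) / 2 := by
    rw [hm 4, ← gB, ← e6]
  have m5 : m 5 = (VoZ (-1) 7 10 * Real.exp (-98)) / 2 - (VoZ 1 7 10 * Real.exp (-98)) / 2 := by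
    rw [hm 5, ← gB, ← e7]
  have m6 : m 6 = (VoZ (-1) 8 10 * Real.exp (-112)) / 2 -
      (VoZ 1 8 10 * Real.exp (-112)) / 2 := by
    rw [hm 6, ← gB, ← e8]
  have hb : ∀ i, 0 ≤ b i := fun i => (hpos i).2
  have ha : ∀ i, 0 ≤ α i := fun i => (hpos i).1
  have hW : b 0 * κ 3 0 ^ 2 ≤ 19222233 / 1000000000 := by
    have h1 := christoffel (κ := κ 3) hb (fun k h2 _ => hmS k h2) (q0 := -261 / 500)
      (q1 := -443 / 1000) (q2 := 383 / 200) (δ := 998553 / 1000000) (N := 4791661 / 250000000)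
      (by norm_num) (by nlinarith) (by
        unfold Qf
        norm_num
        rw [m2, m3, m4, m5, m6]
        linarith [p4.1, p5.1, p6.1, p7.1, p8.1, n4.1, n5.1, n6.1, n7.1, n8.1, p4.2, p5.2, p6.2,
          p7.2, p8.2, n4.2, n5.2, n6.2, n7.2, n8.2])
    exact h1.trans (by norm_num)
  have hBb := open_bound hb (n := 104) (by decide) (by norm_num) (hmS 6 (by norm_num))
    (hB 104 (by norm_num)) (s := 437201 / 500000) (by norm_num) hrest
    (le_trans (by norm_num) hlo) hup hW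
  have hm6 : m 6 ≤ 25 / 1000 := by
    rw [m6]
    linarith [p8.1, n8.2]
  have h6A : HasSum (fun i => α i * κ 0 i ^ 6) (AoZ 8 10 * Real.exp (-(112))) := by
    rw [← e8]
    exact hA 8 (by norm_num)
  have hAb := open_bound' ha (n := 104) (by decide) (by norm_num) h6A
    (hA 104 (by norm_num)) hz0
  have h8A : AoZ 8 10 * Real.exp (-(112)) ≤ 19219 / 1000000 := by
    rw [gA]
    linarith [p8.2, n8.2]
  have hV : VoZ (-1) 104 10 = AoZ 104 10 + BoZ 104 10 := by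
    unfold AoZ BoZ; ring
  have hexp : Real.exp (10 * (104 * ev + fv)) = Real.exp (-(7 / 5 * 10 * ((104 : ℕ) : ℝ))) *
      Real.exp (248976 / 100000) := by
    have h0 : 10 * (104 * ev + fv) = -(7 / 5 * 10 * ((104 : ℕ) : ℝ)) + 248976 / 100000 := by
      unfold ev fv
      norm_num
    rw [h0, Real.exp_add]
  have hsum : (AoZ 104 10 + BoZ 104 10) * Real.exp (-(7 / 5 * 10 * ((104 : ℕ) : ℝ))) ≤
      836276 / 10000000 := by
    have c1 : BoZ 104 10 * Real.exp (-(7 / 5 * 10 * ((104 : ℕ) : ℝ))) ≤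
        834166 / 10000000 := by
      refine hBb.trans ?_
      have hn : (19222233 / 1000000000 : ℝ) * (507393 / 500000) ^ (104 - 4) +
        25 / 1000 * (437201 / 500000) ^ (104 - 8) ≤ 834166 / 10000000 := by norm_num
      refine le_trans ?_ hn
      gcongr
    have c2 : AoZ 104 10 * Real.exp (-(7 / 5 * 10 * ((104 : ℕ) : ℝ))) ≤ 2109 / 10000000 := by
      refine hAb.trans ?_
      have hn : (19219 / 1000000 : ℝ) * (455127 / 500000) ^ ((104 - 8) / 2) ≤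
        2109 / 10000000 := by norm_num
      refine le_trans ?_ hn
      gcongr
    calc _ = AoZ 104 10 * Real.exp (-(7 / 5 * 10 * ((104 : ℕ) : ℝ))) +
        BoZ 104 10 * Real.exp (-(7 / 5 * 10 * ((104 : ℕ) : ℝ))) := by ring
      _ ≤ _ := by linarith
  rw [hV, hexp, ← mul_assoc]
  calc _ ≤ 836276 / 10000000 * Real.exp (248976 / 100000) :=
        mul_le_mul_of_nonneg_right hsum (Real.exp_pos _).le
    _ ≤ 836276 / 10000000 * (120587 / 10000) := by
        apply mul_le_mul_of_nonneg_left z10_exp2 (by norm_num)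
    _ ≤ 10085 / 10000 := by norm_num

end Crest.Agent.HG
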