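import Crest.Agent.HG_A10b
import Crest.Agent.HG_A10c
import Crest.Agent.HG_Data
import Crest.Agent.HG_Ev
import Crest.Agent.HG_UBh67

/-!
HG task UBZ7: upper bounds at β = 7 from the time-twisted representation.

Everything is normalised by `exp(-(7/5) β N)` (`RepK.norm`, `RepZ.norm`); the enclosures of the
moments are the theorems of `HG_Data` (names `dP_L_β`, `dQ`, `dZ2`, `dZZ`, `dX`, `dVh_N_β`,
`dWh_N_β`, `dVop/dVom` (s=1, s=-1), `dVoZp/dVoZm`), rewrite the exponents with `norm_num`.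
`mK 0 = (P+3 Z2)/4`, `mK χ = (P-Z2)/4` (χ≠0), `mZ 0 = (Q+ZZ)/4 - X/2`, `mZ 3 = (Q+ZZ)/4 + X/2`,
`mZ 1 = mZ 2 = (Q-ZZ)/4`; so `P = mK 0 + 3 mK 1`, `Q = mZ 0 + mZ 3 + 2 mZ 1`.
CERTIFICATE (all inequalities checked with exact rational arithmetic by script):
level Z, beta=7 (m k = Wh (k+2) normalised, f = mZ 3 normalised): f 8 <= F0 = 5902287/5000000;
 moment_lower q=(19/2500,3459/10000,9383/10000): lo = 5038853/5000000; rest s = 76441/100000; temple_upper q=(333/10000,2101/5000,2267/2500), μ = up = 1007973/1000000;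
 rest sum F0 - lo^8 = 0.1165754
sector mZ 0: f 8 <= F = 1234791/2500000, atom: a = 19/125, G = 136079419/500000000, z = 200567/250000, Y = 4142647/10000000 (z^4 <= Y)
sector mZ 1, mZ 2: f 8 <= F = 4465041/10000000, atom: a = 77/500, G = 234950769/1000000000, z = 388731/500000, Y = 913391/2500000 (z^4 <= Y)
christoffel for b (moments BoZ, κ 3): q=(-117/250,-197/500,367/200), N = 18745799/312500000, δ = 998567/1000000, W = 60158849/1000000000
-/

set_option autoImplicit false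

namespace Crest.Agent.HG
open UBh

theorem Z7_core (h : RepZ 7) :
    ∃ (κ : Fin 4 → ℕ → ℝ) (α b : ℕ → ℝ),
    (∀ χ, SSeq (κ χ) (nf (mZ χ) 7)) ∧
    (∀ i, 0 ≤ α i ∧ 0 ≤ b i) ∧
    (∀ k : ℕ, 2 ≤ k → HasSum (fun i => α i * κ 0 i ^ k) (nf AoZ 7 (k + 2))) ∧
    (∀ k : ℕ, 2 ≤ k → HasSum (fun i => b i * κ 3 i ^ k) (nf BoZ 7 (k + 2))) ∧
    (5038853/5000000 ≤ κ 3 0 ∧ κ 3 0 ≤ 1007973/1000000 ∧ 0 < κ 3 0 ∧
      (∀ i, 1 ≤ i → |κ 3 i| ≤ 76441/100000)) ∧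
    (nf (mZ 3) 7 8 ≤ 5902287/5000000) ∧
    (nf (mZ 0) 7 8 ≤ 1234791/2500000) ∧
    (nf (mZ 1) 7 8 ≤ 4465041/10000000) ∧
    ((∀ i, κ 0 i ^ 2 ≤ 200567/250000) ∧ (∀ i, |κ 0 i| ^ 8 ≤ 4142647/10000000)) ∧
    ((∀ i, κ 1 i ^ 2 ≤ 388731/500000) ∧ (∀ i, |κ 1 i| ^ 8 ≤ 913391/2500000)) := by
  obtain ⟨κ, u, α, b, h1, h2, h3, h4, h5⟩ := repZ_nf h
  have Q4 := nf_of dQ_4_7 (by norm_num)
  have Q6 := nf_of dQ_6_7 (by norm_num)
  have Q8 := nf_of dQ_8_7 (by norm_num)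
  have Z4 := nf_of dZZ_4_7 (by norm_num)
  have Z6 := nf_of dZZ_6_7 (by norm_num)
  have Z8 := nf_of dZZ_8_7 (by norm_num)
  have X4 := nf_of dX_4_7 (by norm_num)
  have X6 := nf_of dX_6_7 (by norm_num)
  have X8 := nf_of dX_8_7 (by norm_num)
  have V2 := nf_of dWh_2_7 (by norm_num)
  have V3 := nf_of dWh_3_7 (by norm_num)
  have V4 := nf_of dWh_4_7 (by norm_num)
  have V5 := nf_of dWh_5_7 (by norm_num)
  have V6 := nf_of dWh_6_7 (by norm_num)
  have V7 := nf_of dWh_7_7 (by norm_num)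
  have V8 := nf_of dWh_8_7 (by norm_num)
  have hF3 : nf (mZ 3) 7 8 ≤ 5902287/5000000 := by
    rw [nf_mZ3]; linarith [Q8.2, Z8.2, X8.2]
  have hF0 : nf (mZ 0) 7 8 ≤ 1234791/2500000 := by
    rw [nf_mZ0]; linarith [Q8.2, Z8.2, X8.1]
  have hF1 : nf (mZ 1) 7 8 ≤ 4465041/10000000 := by
    rw [nf_mZ1]; linarith [Q8.2, Z8.1]
  refine ⟨κ, α, b, h1, fun i => ⟨(h2 i).2.1, (h2 i).2.2⟩, h4, h5, ?_, hF3, hF0, hF1, ?_, ?_⟩
  · refine top_core (m := fun k => nf Wh 7 (k + 2)) (F := 5902287/5000000)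
      (lo := 5038853/5000000) (s := 76441/100000) (up := 1007973/1000000)
      (q0 := 19/2500) (q1 := 3459/10000) (q2 := 9383/10000)
      (p0 := 333/10000) (p1 := 2101/5000) (p2 := 2267/2500) (h1 3) (fun i => (h2 i).1) h3
      hF3 (by norm_num) (by norm_num) (by norm_num) ?_ ?_ ?_ ?_ ?_
    all_goals simp only [Qf, Nat.reduceAdd]
    all_goals linarith [V2.1, V2.2, V3.1, V3.2, V4.1, V4.2, V5.1, V5.2, V6.1, V6.2, V7.1,
      V7.2, V8.1, V8.2]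
  · refine sec_core (h1 0) (a := 19/125) (G := 136079419/500000000) (z := 200567/250000)
      (Y := 4142647/10000000) (by norm_num) (by norm_num) ?_ (by norm_num) (by norm_num)
    rw [nf_mZ0, nf_mZ0, nf_mZ0]
    linarith [Q8.1, Q8.2, Z8.1, Z8.2, Q6.1, Q6.2, Z6.1, Z6.2, Q4.1, Q4.2, Z4.1, Z4.2,
      X8.1, X8.2, X6.1, X6.2, X4.1, X4.2]
  · refine sec_core (h1 1) (a := 77/500) (G := 234950769/1000000000) (z := 388731/500000)
      (Y := 913391/2500000) (by norm_num) (by norm_num) ?_ (by norm_num) (by norm_num)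
    rw [nf_mZ1, nf_mZ1, nf_mZ1]
    linarith [Q8.1, Q8.2, Z8.1, Z8.2, Q6.1, Q6.2, Z6.1, Z6.2, Q4.1, Q4.2, Z4.1, Z4.2]

/-- Q = mZ 0 + mZ 3 + 2 mZ 1 -/
theorem ubQ_40_7 (h : RepZ 7) :
    Q 40 7 * Real.exp (7 * (40 * ev)) ≤ 9243 / 10000 := by
  obtain ⟨κ, α, b, h1, h2, h3, h4, ⟨t1, t2, t3, t4⟩, hF3, hF0, hF1, hs0, hs1⟩ := Z7_core h
  have hl : (5038853/5000000 : ℝ) ≤ |κ 3 0| := t1.trans (le_abs_self _)
  have hu : |κ 3 0| ≤ 1007973/1000000 := by rw [abs_of_pos t3]; exact t2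
  have a1 := (h1 3).top_rest (by norm_num) hl hu hF3 (p := 5) (by norm_num)
  have a2 := (h1 0).maj hs0.2 hF0 (by norm_num) (by norm_num) (p := 5) (by norm_num)
  have a3 := (h1 1).maj hs1.2 hF1 (by norm_num) (by norm_num) (p := 5) (by norm_num)
  have a4 : nf Q 7 40 ≤ (1007973/1000000) ^ 40 +
      (5902287/5000000 - (5038853/5000000) ^ 8) ^ 5 +
      ((4142647/10000000) ^ 5 + (1234791/2500000 - 4142647/10000000) ^ 5) +
      2 * ((913391/2500000) ^ 5 + (4465041/10000000 - 913391/2500000) ^ 5) := by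
    rw [nf_Q]
    norm_num only at a1 a2 a3 ⊢
    linarith
  rw [nf_def] at a4
  have hx : |(-41468/100000 : ℝ)| ≤ 1 := by rw [abs_le]; norm_num
  refine fin_mul (n := 1) (t := -41468/100000) a4 (by norm_num) ?_ (exp_ub hx) (by norm_num)
  unfold ev; norm_num

theorem ubQ_104_7 (h : RepZ 7) :
    Q 104 7 * Real.exp (7 * (104 * ev)) ≤ 7772 / 10000 := by
  obtain ⟨κ, α, b, h1, h2, h3, h4, ⟨t1, t2, t3, t4⟩, hF3, hF0, hF1, hs0, hs1⟩ := Z7_core h
  have hl : (5038853/5000000 : ℝ) ≤ |κ 3 0| := t1.trans (le_abs_self _)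
  have hu : |κ 3 0| ≤ 1007973/1000000 := by rw [abs_of_pos t3]; exact t2
  have a1 := (h1 3).top_rest (by norm_num) hl hu hF3 (p := 13) (by norm_num)
  have a2 := (h1 0).maj hs0.2 hF0 (by norm_num) (by norm_num) (p := 13) (by norm_num)
  have a3 := (h1 1).maj hs1.2 hF1 (by norm_num) (by norm_num) (p := 13) (by norm_num)
  have a4 : nf Q 7 104 ≤ (1007973/1000000) ^ 104 +
      (5902287/5000000 - (5038853/5000000) ^ 8) ^ 13 +
      ((4142647/10000000) ^ 13 + (1234791/2500000 - 4142647/10000000) ^ 13) +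
      2 * ((913391/2500000) ^ 13 + (4465041/10000000 - 913391/2500000) ^ 13) := by
    rw [nf_Q]
    norm_num only at a1 a2 a3 ⊢
    linarith
  rw [nf_def] at a4
  have hx : |(-539084/1000000 : ℝ)| ≤ 1 := by rw [abs_le]; norm_num
  refine fin_mul (n := 2) (t := -539084/1000000) a4 (by norm_num) ?_ (exp_ub hx) (by norm_num)
  unfold ev; norm_num

/-- VoZ (-1) = AoZ + BoZ; `BoZ ≤ W up^24 + BoZ8 s^20` (κ 3), `AoZ ≤ AoZ8 z^10` (κ 0, z of sector mZ 0) -/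
theorem ubUZ_28_7 (h : RepZ 7) :
    VoZ (-1) 28 7 * Real.exp (7 * (28 * ev + fv)) ≤ 9791 / 10000 := by
  obtain ⟨κ, α, b, h1, h2, h3, h4, ⟨t1, t2, t3, t4⟩, hF3, hF0, hF1, hs0, hs1⟩ := Z7_core h
  have p4 := nf_of dVoZp_4_7 (by norm_num)
  have p5 := nf_of dVoZp_5_7 (by norm_num)
  have p6 := nf_of dVoZp_6_7 (by norm_num)
  have p7 := nf_of dVoZp_7_7 (by norm_num)
  have p8 := nf_of dVoZp_8_7 (by norm_num)
  have m4 := nf_of dVoZm_4_7 (by norm_num)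
  have m5 := nf_of dVoZm_5_7 (by norm_num)
  have m6 := nf_of dVoZm_6_7 (by norm_num)
  have m7 := nf_of dVoZm_7_7 (by norm_num)
  have m8 := nf_of dVoZm_8_7 (by norm_num)
  have hW : b 0 * κ 3 0 ^ 2 ≤ 60158849/1000000000 := by
    have c := christoffel (w := b) (κ := κ 3) (m := fun k => nf BoZ 7 (k + 2))
      (fun i => (h2 i).2) (fun k hk _ => h4 k hk) (q0 := -117/250) (q1 := -197/500)
      (q2 := 367/200) (δ := 998567/1000000) (N := 18745799/312500000) (by norm_num)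
      (quad_lower t1 (by norm_num) (by norm_num) (by norm_num))
      (by
        simp only [Qf, Nat.reduceAdd, nf_BoZ]
        linarith [p4.1, p4.2, p5.1, p5.2, p6.1, p6.2, p7.1, p7.2, p8.1, p8.2,
          m4.1, m4.2, m5.1, m5.2, m6.1, m6.2, m7.1, m7.2, m8.1, m8.2])
    exact c.trans (by norm_num)
  have a1 := open_bound (fun i => (h2 i).2) (n := 28) (by decide) (by norm_num)
    (h4 6 (by norm_num)) (h4 26 (by norm_num)) (by norm_num) t4 t3.le t2 hW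
  have a2 := open_bound' (fun i => (h2 i).1) (n := 28) (by decide) (by norm_num)
    (h3 6 (by norm_num)) (h3 26 (by norm_num)) hs0.1
  have a3 : nf (VoZ (-1)) 7 28 ≤ 60158849/1000000000 * (1007973/1000000) ^ 24 +
      ((11001072455 / 10 ^ 11 + 12 / 10 ^ 8) - (-2256306244 / 10 ^ 11 - 12 / 10 ^ 8)) / 2 *
        (76441/100000) ^ 20 +
      ((-2256306244 / 10 ^ 11 + 12 / 10 ^ 8) + (11001072455 / 10 ^ 11 + 12 / 10 ^ 8)) / 2 *
        (200567/250000) ^ 10 := by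
    rw [nf_VoZm]
    have b1 : nf BoZ 7 8 ≤ ((11001072455 / 10 ^ 11 + 12 / 10 ^ 8) -
        (-2256306244 / 10 ^ 11 - 12 / 10 ^ 8)) / 2 := by
      rw [nf_BoZ]; linarith [p8.1, m8.2]
    have b2 : nf AoZ 7 8 ≤ ((-2256306244 / 10 ^ 11 + 12 / 10 ^ 8) +
        (11001072455 / 10 ^ 11 + 12 / 10 ^ 8)) / 2 := by
      rw [nf_AoZ]; linarith [p8.2, m8.2]
    simp only [Nat.reduceAdd, Nat.reduceSub, Nat.reduceDiv] at a1 a2
    have c1 := mul_le_mul_of_nonneg_right b1 (show (0 : ℝ) ≤ (76441/100000) ^ 20 by positivity)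
    have c2 := mul_le_mul_of_nonneg_right b2 (show (0 : ℝ) ≤ (200567/250000) ^ 10 by positivity)
    linarith
  rw [nf_def] at a3
  have hx : |(632681/1000000 : ℝ)| ≤ 1 := by rw [abs_le]; norm_num
  refine fin_mul (n := 4) (t := 632681/1000000) a3 (by norm_num) ?_ (exp_ub hx) (by norm_num)
  unfold ev fv; norm_num

end Crest.Agent.HG
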