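import Crest.Agent.HG_A4
import Crest.Agent.HG_A4b
import Crest.Agent.HG_A5
import Crest.Agent.HG_UBK7
import Crest.Agent.HG_UBK10
import Crest.Agent.HG_UBZ7
import Crest.Agent.HG_UBZ10

/-!
HG task Base1: the base state of the bulk iteration.

Notation `P*(L,β) = P(L,β) exp(β L ev)` etc. (`ub*` theorems: `P*(40,7) ≤ 1.3667`,
`Q*(40,7) ≤ .9243`, `P*(104,7) ≤ 2.1587`, `Q*(104,7) ≤ .7772`, `P*(40,10) ≤ 1.3547`,
`P*(104,10) ≤ 1.298`). `T0 = (P+3Q)/4 = e^{-βE}(1+a)`; `E(L) ≤ L ev` by `hE`.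
 * `a(104,7) ≤ T0*(104,7) - 1 ≤ .12258` (as `E ≤ 104 ev`), `a(104,10) ≤ .12258^(10/7) ≤ .054`
   (`PS.rpow`; `.12258^10 ≤ .054^7`); `b(104,10) ≤ (P*(104,10)-1)/3 ≤ .0994`.
 * `exp(-7(E(40)-40ev)) ≤ T0*(40,7) ≤ τ = 1.0349`, so `exp(-20(E(40)-40ev)) ≤ τ^(20/7) ≤ 1.1031`;
   `a(40,20) ≤ (τ-1)^(20/7) ≤ 1e-4`; `b(40,20) ≤ b(40,10)² ≤ (.3547/3)² ≤ .014`.
   So `P(40,20) ≤ 1.1497 exp(-800 ev)`, `Q(40,20) ≤ exp(-20E(40))(1+a) ≤ 1.1033 exp(-800 ev)`.
 * S: `SpW.cross` at `L=40, β=20` with `P(80,20) ≥ exp(-20E(80)) ≥ exp(-1600 ev)`: `1+S(40,20) ≤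
   1.1497² < 2`. `lam_lower` with `M = 10^6`: `exp(-20·10^6 ev) ≤ lam(20)^(10^6)·(1+S(10^6,20)) ≤ 2 lam^(10^6)`
   (`S_anti`), so `(lam/exp(-20ev))^40 ≥ (1/2)^(40/10^6) ≥ 1 - 1/20000`. Hence
   `S(40,20) = P(40,20)/lam^40 - 1 ≤ .15` and `S(52,20) ≤ .15^(52/40) ≤ .09` (`S_rpow`;
   `.15^13 ≤ .09^10`).
 * R: `SpW.cross`: `1+R(40,20) ≤ Q(40,20)²/Q(80,20) ≤ 1.1033²/(1-b(80,20)) ≤ 1.2522`
   (`b(80,10) ≤ t(80,10)/3 ≤ 1/6`, `b(80,20) ≤ 1/36`); `lamZ(20)^104 (1+R(104,20)) = Q(104,20) ≥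
   exp(-2080 ev)(1-b(104,20))`, `b(104,20) ≤ .0994² ≤ .0099`, `R(104,20) ≤ R(40,20)^(2.6) ≤ .2522^2.6 ≤ .0278`.
   So `1+R(40,20) = Q(40,20)/lamZ^40 ≤ 1.1033 ((1.0278)/(.9901))^(40/104) ≤ 1.1195`, `R(52,20) ≤
   .1195^1.3 ≤ .065 ≤ .09`.
 * `t(L,10) ≤ P*(L,10) - 1 ≤ 1/2` for even `60 ≤ L ≤ 104` (`ubP_L_10`).
-/

set_option autoImplicit false

namespace Crest.Agent.HG

private theorem b1a_rp {c d : ℝ} {p q : ℕ} (hc : 0 ≤ c) (hd : 0 ≤ d) (hq : q ≠ 0) (h : c ^ p ≤ d ^ q) :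
    c ^ ((p : ℝ) / (q : ℝ)) ≤ d := by
  have hq' : (q : ℝ) ≠ 0 := by exact_mod_cast hq
  have h1 : (c ^ ((p : ℝ) / (q : ℝ))) ^ q = c ^ p := by
    rw [← Real.rpow_natCast (c ^ ((p : ℝ) / (q : ℝ))) q, ← Real.rpow_mul hc, div_mul_cancel₀ _ hq',
      Real.rpow_natCast]
  by_contra hn
  push Not at hn
  have h2 := pow_lt_pow_left₀ hn hd hq
  rw [h1] at h2
  linarith

private theorem b1a_exp {x E F β : ℝ} (hβ : 0 ≤ β) (hE : E ≤ F) (hx : 0 ≤ x) :
    x ≤ Real.exp (-(β * E)) * x * Real.exp (β * F) := by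
  have h1 : Real.exp (-(β * E)) * x * Real.exp (β * F) = x * Real.exp (β * F - β * E) := by
    rw [mul_comm (Real.exp (-(β * E))) x, mul_assoc, ← Real.exp_add]
    congr 2; ring
  rw [h1]
  have h2 : 0 ≤ β * F - β * E := by
    have := mul_le_mul_of_nonneg_left hE hβ
    linarith
  have h3 : 1 ≤ Real.exp (β * F - β * E) := Real.one_le_exp h2
  nlinarith

/-- `t(L,10) ≤ 1/2` (uses only `ubP_L_10` and `E(L) ≤ L ev`). -/
theorem base60 (s : BulkSys P Q) (hK10 : RepK 10)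
    (hE : ∀ L : ℕ, Even L → 4 ≤ L → L ≤ 1000000 → s.E L ≤ L * ev) (L : ℕ) (hL : Even L)
    (hL1 : 60 ≤ L) (hL2 : L ≤ 104) : s.t L 10 ≤ 1 / 2 := by
  have h1 := ubP_L_10 hK10 L hL hL1 hL2
  have h2 := hE L hL (by omega) (by omega)
  have h3 := s.hP L hL (by omega) 10
  have ha := (s.ha L hL (by omega)).nonneg 10
  have hb := (s.hb L hL (by omega)).nonneg 10
  have h4 := b1a_exp (x := 1 + s.a L 10 + 3 * s.b L 10) (β := 10) (by norm_num) h2 (by linarith)
  rw [← h3] at h4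
  unfold BulkSys.t
  linarith

theorem base_ab (s : BulkSys P Q) (hK7 : RepK 7) (hK10 : RepK 10) (hZ7 : RepZ 7)
    (hE : ∀ L : ℕ, Even L → 4 ≤ L → L ≤ 1000000 → s.E L ≤ L * ev) :
    s.a 104 10 ≤ 27 / 500 ∧ s.b 104 10 ≤ 994 / 10000 ∧
    P 40 20 ≤ 11497 / 10000 * Real.exp (-(20 * (40 * ev))) ∧
    Q 40 20 ≤ 11033 / 10000 * Real.exp (-(20 * (40 * ev))) := by
  have hE104 : s.E 104 ≤ 104 * ev := by
    have := hE 104 (by decide) (by norm_num) (by norm_num)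
    exact_mod_cast this
  have hE40 : s.E 40 ≤ 40 * ev := by
    have := hE 40 (by decide) (by norm_num) (by norm_num)
    exact_mod_cast this
  have ha104 : PS (s.a 104) := s.ha 104 (by decide) (by norm_num)
  have ha40 : PS (s.a 40) := s.ha 40 (by decide) (by norm_num)
  have hb104 : PS (s.b 104) := s.hb 104 (by decide) (by norm_num)
  have hb40 : PS (s.b 40) := s.hb 40 (by decide) (by norm_num)
  refine ⟨?_, ?_, ?_⟩
  · -- a(104,10)
    have h1 := ubP_104_7 hK7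
    have h2 := ubQ_104_7 hZ7
    have hp := s.hP 104 (by decide) (by norm_num) 7
    have hq := s.hQ 104 (by decide) (by norm_num) 7
    have h0 := ha104.nonneg 7
    have h3 := b1a_exp (x := 1 + s.a 104 7) (β := 7) (by norm_num) hE104 (by linarith)
    have h4 : Real.exp (-(7 * s.E 104)) * (1 + s.a 104 7) = (P 104 7 + 3 * Q 104 7) / 4 := by
      rw [hp, hq]; ring
    rw [h4] at h3
    have h5 : s.a 104 7 ≤ 12258 / 100000 := by linarith
    have h6 := ha104.rpow (c := (10 : ℕ) / (7 : ℕ)) (by norm_num) 7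
    have h7 : ((10 : ℕ) : ℝ) / ((7 : ℕ) : ℝ) * 7 = 10 := by norm_num
    rw [h7] at h6
    refine le_trans h6 (le_trans (Real.rpow_le_rpow h0 h5 (by norm_num)) ?_)
    exact b1a_rp (by norm_num) (by norm_num) (by norm_num) (by norm_num)
  · have h1 := ubP_104_10 hK10
    have hp := s.hP 104 (by decide) (by norm_num) 10
    have h0 := ha104.nonneg 10
    have h0' := hb104.nonneg 10
    have h3 := b1a_exp (x := 1 + s.a 104 10 + 3 * s.b 104 10) (β := 10) (by norm_num) hE104 (by linarith)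
    rw [← hp] at h3
    linarith
  · -- the ring of length 40
    have h1 := ubP_40_7 hK7
    have h2 := ubQ_40_7 hZ7
    have hp := s.hP 40 (by decide) (by norm_num) 7
    have hq := s.hQ 40 (by decide) (by norm_num) 7
    have h0 := ha40.nonneg 7
    have h4 : Real.exp (-(7 * s.E 40)) * (1 + s.a 40 7) = (P 40 7 + 3 * Q 40 7) / 4 := by
      rw [hp, hq]; ring
    have h3 := b1a_exp (x := 1 + s.a 40 7) (β := 7) (by norm_num) hE40 (by linarith)
    rw [h4] at h3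
    have h5 : s.a 40 7 ≤ 349 / 10000 := by linarith
    -- exp (-7 (E - 40 ev)) ≤ 1.0349
    have h6 : Real.exp (-(7 * s.E 40)) * Real.exp (7 * (40 * ev)) ≤ 10349 / 10000 := by
      have e1 : Real.exp (-(7 * s.E 40)) * Real.exp (7 * (40 * ev)) ≤
          (Real.exp (-(7 * s.E 40)) * (1 + s.a 40 7)) * Real.exp (7 * (40 * ev)) := by
        apply mul_le_mul_of_nonneg_right _ (Real.exp_pos _).le
        exact le_mul_of_one_le_right (Real.exp_pos _).le (by linarith)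
      rw [h4] at e1
      linarith
    have h7 : Real.exp (-(20 * s.E 40)) * Real.exp (20 * (40 * ev)) ≤ 11031 / 10000 := by
      by_contra hn
      push Not at hn
      have e2 := pow_lt_pow_left₀ hn (by norm_num) (n := 7) (by norm_num)
      have e3 : (Real.exp (-(20 * s.E 40)) * Real.exp (20 * (40 * ev))) ^ 7 =
          (Real.exp (-(7 * s.E 40)) * Real.exp (7 * (40 * ev))) ^ 20 := by
        rw [← Real.exp_add, ← Real.exp_add, ← Real.exp_nat_mul, ← Real.exp_nat_mul]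
        have e : ((7 : ℕ) : ℝ) * (-(20 * s.E 40) + 20 * (40 * ev)) =
            ((20 : ℕ) : ℝ) * (-(7 * s.E 40) + 7 * (40 * ev)) := by push_cast; ring
        rw [e]
      rw [e3] at e2
      have e4 : (Real.exp (-(7 * s.E 40)) * Real.exp (7 * (40 * ev))) ^ 20 ≤ (10349 / 10000 : ℝ) ^ 20 :=
        pow_le_pow_left₀ (by positivity) h6 20
      have e5 : (10349 / 10000 : ℝ) ^ 20 ≤ (11031 / 10000 : ℝ) ^ 7 := by norm_num
      linarith
    have h8 : s.a 40 20 ≤ 1 / 10000 := by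
      have e1 := ha40.rpow (c := (20 : ℕ) / (7 : ℕ)) (by norm_num) 7
      have e2 : ((20 : ℕ) : ℝ) / ((7 : ℕ) : ℝ) * 7 = 20 := by norm_num
      rw [e2] at e1
      refine le_trans e1 (le_trans (Real.rpow_le_rpow h0 h5 (by norm_num)) ?_)
      exact b1a_rp (by norm_num) (by norm_num) (by norm_num) (by norm_num)
    have h9 : s.b 40 20 ≤ 14 / 1000 := by
      have e1 := ubP_40_10 hK10
      have e2 := s.hP 40 (by decide) (by norm_num) 10
      have e3 := ha40.nonneg 10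
      have e4 := hb40.nonneg 10
      have e5 := b1a_exp (x := 1 + s.a 40 10 + 3 * s.b 40 10) (β := 10) (by norm_num) hE40 (by linarith)
      rw [← e2] at e5
      have e6 : s.b 40 10 ≤ 3547 / 30000 := by linarith
      have e7 := hb40.two 10
      norm_num at e7
      have e8 : s.b 40 10 ^ 2 ≤ (3547 / 30000 : ℝ) ^ 2 := pow_le_pow_left₀ e4 e6 2
      have e9 : (3547 / 30000 : ℝ) ^ 2 ≤ 14 / 1000 := by norm_num
      linarith
    have ha20 := ha40.nonneg 20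
    have hb20 := hb40.nonneg 20
    have hX : Real.exp (-(20 * s.E 40)) ≤ 11031 / 10000 * Real.exp (-(20 * (40 * ev))) := by
      have e1 : Real.exp (20 * (40 * ev)) * Real.exp (-(20 * (40 * ev))) = 1 := by
        rw [← Real.exp_add]; simp
      calc Real.exp (-(20 * s.E 40)) = (Real.exp (-(20 * s.E 40)) * Real.exp (20 * (40 * ev))) *
            Real.exp (-(20 * (40 * ev))) := by rw [mul_assoc, e1, mul_one]
        _ ≤ 11031 / 10000 * Real.exp (-(20 * (40 * ev))) :=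
          mul_le_mul_of_nonneg_right h7 (Real.exp_pos _).le
    have hEpos : 0 < Real.exp (-(20 * (40 * ev))) := Real.exp_pos _
    refine ⟨?_, ?_⟩
    · rw [s.hP 40 (by decide) (by norm_num) 20]
      calc Real.exp (-(20 * s.E 40)) * (1 + s.a 40 20 + 3 * s.b 40 20)
          ≤ (11031 / 10000 * Real.exp (-(20 * (40 * ev)))) * (10421 / 10000) := by
            apply mul_le_mul hX (by linarith) (by linarith) (by positivity)
        _ ≤ 11497 / 10000 * Real.exp (-(20 * (40 * ev))) := by nlinarith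
    · rw [s.hQ 40 (by decide) (by norm_num) 20]
      have e0 : 0 ≤ 1 + s.a 40 20 - s.b 40 20 := by linarith
      calc Real.exp (-(20 * s.E 40)) * (1 + s.a 40 20 - s.b 40 20)
          ≤ (11031 / 10000 * Real.exp (-(20 * (40 * ev)))) * (10001 / 10000) := by
            apply mul_le_mul hX (by linarith) e0 (by positivity)
        _ ≤ 11033 / 10000 * Real.exp (-(20 * (40 * ev))) := by nlinarith

end Crest.Agent.HG
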