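import Crest.Agent.HG_A1
import Crest.Agent.HG_A5
import Crest.Agent.HG_A7
import Crest.Agent.HG_UBK7
import Crest.Agent.HG_UBK10
import Crest.Agent.HG_UBZ7
import Crest.Agent.HG_UBZ10

/-!
HG task Base2a (only base_cq here): the base state of the boundary iteration (open chain with opposite end fields).

Notation `U*(n,β) = U(n,β) exp(β(n ev + fv))`; `ub*`: `U*(28,7) ≤ 1.2495`, `UZ*(28,7) ≤ .9791`,
`U*(104,10) ≤ 1.3114`, `UZ*(104,10) ≤ 1.0085`, `U*(132,10) ≤ 1.4033`; `P*(104,10) ≤ 1.298`,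
`Q*(104,10) ≤ .9906`.
 * `u0 = (U+UZ)/2 = e^{-βE_n}(1+c)`; with `E_104 ≤ 104 ev + fv`: `c(104,10) ≤ .15995`,
   `(c+d)(104,10) ≤ .3114`; squares at `β=20`: `.0256 ≤ 1/25`, `.097 ≤ 7/50`.
 * `η_28(40)`: `u0(28,40) ≤ u0(28,7)^(40/7)` (exponential sums, `PS.rpow` form: `e^{-40E}(1+c(40)) ≤
   (e^{-7E}(1+c(7)))^(40/7)`), `u0*(28,7) ≤ 1.1143`, so `u0*(28,40) ≤ 1.8561`; the odd part
   `u1 = (U-UZ)/2 ≤ U/2` (as `UZ ≥ 0`), `u1*(28,40) ≤ .62475^(40/7) ≤ .0681`. So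
   `U*(28,40) ≤ 1.9242`, `UZ*(28,40) ≤ 1.8561`.
   `exp(-10(E(104)-104ev)) ≤ T0*(104,10) ≤ 1.06745`, so `P(104,40) ≤ 1.06745^4(1+t(104,40))
   exp(-4160ev) ≤ 1.2989 exp(-4160 ev)`, `t(104,40) ≤ .054^4+3(.1025)^4`; same for `Q(104,40) ≤ 1.2985..`.
   `U(132,40) ≥ exp(-40 E_132) ≥ exp(-40(132ev+fv))`, `UZ(132,40) ≥ (..)(1-d(132,40))`,
   `d(132,40) ≤ (c+d)(132,10)^4 ≤ .4033^4 ≤ .0265`.
   So `U_28(40) P(104,40)/U_132(40) ≤ 2.4994 =: 1+κ`, the same for Z (≤ 2.4758).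
   As in `bd_step` (A7): `w + η_28 ≤ (1+κ)/(1+S)(w + S η_28)` with `S = S(104,40) ≤ .07547`
   (`bulk_table`), hence `η_28(40) ≤ hb w`, `hb = 1.61`: `κ - S ≤ hb(1-κS)` at `S=0` and `S=.07547`;
   also `w(40) > 0`. Same for Z with `R(104,40) ≤ .07547`.
 * `η_104(40) ≤ S(76,40) η_28(40)` (`SpW.eta_add`), `S(76,40) ≤ S(52,40)^(76/52) ≤ .2747^(19/13) ≤
   .1515` (`S_rpow`, `bulk_table`): `h = .1515·1.61 ≤ .28`.
-/

set_option autoImplicit false

namespace Crest.Agent.HG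

theorem base_cq (s : BdSys P Q) (huf : ∀ n β, s.uf n β = Vo (-1) n β)
    (huz : ∀ n β, s.uz n β = VoZ (-1) n β) (hK10 : RepK 10) (hZ10 : RepZ 10)
    (hE104 : s.En 104 ≤ 104 * ev + fv) :
    s.c 104 20 ≤ 1 / 25 ∧ s.c 104 20 + s.d 104 20 ≤ 7 / 50 := by
  have hev : Even 104 := by decide
  have hc := s.hc 104 hev (by norm_num)
  have hd := s.hd 104 hev (by norm_num)
  have hU := s.hU 104 hev (by norm_num) 10
  have hUZ := s.hUZ 104 hev (by norm_num) 10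
  rw [huf] at hU
  rw [huz] at hUZ
  have h1 := ubU_104_10 hK10
  have h2 := ubUZ_104_10 hZ10
  rw [hU] at h1
  rw [hUZ] at h2
  set g : ℝ := Real.exp (-(10 * s.En 104)) * Real.exp (10 * (104 * ev + fv)) with hg
  have hg1 : 1 ≤ g := by
    rw [hg, ← Real.exp_add]
    apply Real.one_le_exp
    linarith
  have hc0 := hc.nonneg 10
  have hd0 := hd.nonneg 10
  have e1 : g * (1 + s.c 104 10 + s.d 104 10) ≤ 13114 / 10000 := by
    calc g * (1 + s.c 104 10 + s.d 104 10) = Real.exp (-(10 * s.En 104)) *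
          (1 + s.c 104 10 + s.d 104 10) * Real.exp (10 * (104 * ev + fv)) := by
          rw [hg]; ring
      _ ≤ _ := h1
  have e2 : g * (1 + s.c 104 10 - s.d 104 10) ≤ 10085 / 10000 := by
    calc g * (1 + s.c 104 10 - s.d 104 10) = Real.exp (-(10 * s.En 104)) *
          (1 + s.c 104 10 - s.d 104 10) * Real.exp (10 * (104 * ev + fv)) := by
          rw [hg]; ring
      _ ≤ _ := h2
  have e3 : s.c 104 10 ≤ 15995 / 100000 := by
    have h3 : g * (1 + s.c 104 10) ≤ 115995 / 100000 := by linarith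
    have h4 : 1 + s.c 104 10 ≤ g * (1 + s.c 104 10) := by nlinarith
    linarith
  have e4 : s.c 104 10 + s.d 104 10 ≤ 3114 / 10000 := by
    have h4 : 1 + s.c 104 10 + s.d 104 10 ≤ g * (1 + s.c 104 10 + s.d 104 10) := by nlinarith
    linarith
  constructor
  · have h5 := hc.two 10
    norm_num at h5
    nlinarith
  · have h5 := (hc.add hd).two 10
    norm_num at h5
    nlinarith

end Crest.Agent.HG
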