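import Crest.Agent.HG_A1
import Crest.Agent.HG_A5
import Crest.Agent.HG_A7
import Crest.Agent.HG_Base1a
import Crest.Agent.HG_UBK7
import Crest.Agent.HG_UBK10
import Crest.Agent.HG_UBZ7
import Crest.Agent.HG_UBZ10

/-!
HG task Base2b (only base_ratio here; may use base_ab for a,b(104,10)): the base state of the boundary iteration (open chain with opposite end fields).

Notation `U*(n,β) = U(n,β) exp(β(n ev + fv))`; `ub*`: `U*(28,7) ≤ 1.2495`, `UZ*(28,7) ≤ .9791`,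
`U*(104,10) ≤ 1.3114`, `UZ*(104,10) ≤ 1.0085`, `U*(132,10) ≤ 1.4033`; `P*(104,10) ≤ 1.298`,
`Q*(104,10) ≤ .9906`.
 * `u0 = (U+UZ)/2 = e^{-βE_n}(1+c)`; with `E_104 ≤ 104 ev + fv`: `c(104,10) ≤ .15995`,
   `(c+d)(104,10) ≤ .3114`; squares at `β=20`: `.0256 ≤ 1/25`, `.097 ≤ 7/50`.
 * `η_28(40)`: `u0(28,40) ≤ u0(28,7)^(40/7)` (exponential sums, `PS.rpow` form: `e^{-40E}(1+c(40)) ≤
   (e^{-7E}(1+c(7)))^(40/7)`), `u0*(28,7) ≤ 1.1143`, so `u0*(28,40) ≤ 1.8561`; the odd part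
   `u1 = (U-UZ)/2 ≤ U/2` (as `UZ ≥ 0`), `u1*(28,40) ≤ .62475^(40/7) ≤ .0681`. So
   `U*(28,40) ≤ 1.9242`, `UZ*(28,40) ≤ 1.8561`.
   `exp(-10(E(104)-104ev)) ≤ T0*(104,10) ≤ 1.06745`, so `P(104,40) ≤ 1.06745^4(1+t(104,40))
   exp(-4160ev) ≤ 1.2989 exp(-4160 ev)`, `t(104,40) ≤ .054^4+3(.1025)^4`; same for `Q(104,40) ≤ 1.2985..`.
   `U(132,40) ≥ exp(-40 E_132) ≥ exp(-40(132ev+fv))`, `UZ(132,40) ≥ (..)(1-d(132,40))`,
   `d(132,40) ≤ (c+d)(132,10)^4 ≤ .4033^4 ≤ .0265`.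
   So `U_28(40) P(104,40)/U_132(40) ≤ 2.4994 =: 1+κ`, the same for Z (≤ 2.4758).
   As in `bd_step` (A7): `w + η_28 ≤ (1+κ)/(1+S)(w + S η_28)` with `S = S(104,40) ≤ .07547`
   (`bulk_table`), hence `η_28(40) ≤ hb w`, `hb = 1.61`: `κ - S ≤ hb(1-κS)` at `S=0` and `S=.07547`;
   also `w(40) > 0`. Same for Z with `R(104,40) ≤ .07547`.
 * `η_104(40) ≤ S(76,40) η_28(40)` (`SpW.eta_add`), `S(76,40) ≤ S(52,40)^(76/52) ≤ .2747^(19/13) ≤
   .1515` (`S_rpow`, `bulk_table`): `h = .1515·1.61 ≤ .28`.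
-/

set_option autoImplicit false

namespace Crest.Agent.HG

private theorem b2_rpow {x y : ℝ} (hx : 0 ≤ x) (hy : 0 ≤ y) (h : x ^ 40 ≤ y ^ 7) :
    x ^ ((40 : ℝ) / 7) ≤ y := by
  have h1 : (x ^ ((40 : ℝ) / 7)) ^ 7 = x ^ 40 := by
    rw [← Real.rpow_natCast (x ^ ((40 : ℝ) / 7)) 7, ← Real.rpow_mul hx]
    rw [show (40 : ℝ) / 7 * ((7 : ℕ) : ℝ) = ((40 : ℕ) : ℝ) by norm_num, Real.rpow_natCast]
  have h2 : (x ^ ((40 : ℝ) / 7)) ^ 7 ≤ y ^ 7 := by rw [h1]; exact h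
  exact (pow_le_pow_iff_left₀ (Real.rpow_nonneg hx _) hy (by norm_num)).mp h2

private theorem b2_lin {y a b : ℝ} (h1 : y * (1 + a + 3 * b) ≤ 12980 / 10000)
    (h2 : y * (1 + a - b) ≤ 9906 / 10000) (h3 : 0 ≤ y * a) : y ≤ 106745 / 100000 := by
  linarith

private theorem b2_four {f : ℝ → ℝ} {K : ℝ} (hf : PS f) (hK : f 10 ≤ K) : f 40 ≤ K ^ 4 := by
  have e1 : (40 : ℝ) = 2 * (2 * 10) := by norm_num
  rw [e1]
  calc f (2 * (2 * 10)) ≤ f (2 * 10) ^ 2 := hf.two _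
    _ ≤ (f 10 ^ 2) ^ 2 := pow_le_pow_left₀ (hf.nonneg _) (hf.two 10) 2
    _ ≤ (K ^ 2) ^ 2 := pow_le_pow_left₀ (sq_nonneg _) (pow_le_pow_left₀ (hf.nonneg _) hK 2) 2
    _ = K ^ 4 := by ring

private theorem b2_unonneg {p u : ℕ → ℝ} {lam w : ℝ} (h : SpW p u lam w) (hlam : 0 < lam)
    {n : ℕ} (hn : Even n) (hn4 : 4 ≤ n) (hw : 0 ≤ w) : 0 ≤ u n := by
  have e2 := h.eta_nonneg hn hn4
  have hl2 : 0 < lam ^ (n - 2) := pow_pos hlam _
  have h1 : 0 ≤ u n / lam ^ (n - 2) := by linarith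
  have h3 := mul_nonneg h1 hl2.le
  rwa [div_mul_cancel₀ _ hl2.ne'] at h3

/-- the open chain with 28 sites at `β = 40`. -/
private theorem b2_28 (s : BdSys P Q) (huf : ∀ n β, s.uf n β = Vo (-1) n β)
    (huz : ∀ n β, s.uz n β = VoZ (-1) n β) (hK7 : RepK 7) (hZ7 : RepZ 7) :
    Vo (-1) 28 40 ≤ 19242 / 10000 * Real.exp (-(40 * (28 * ev + fv))) ∧
    VoZ (-1) 28 40 ≤ 18561 / 10000 * Real.exp (-(40 * (28 * ev + fv))) ∧
    0 ≤ VoZ (-1) 28 40 := by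
  have h28 : Even 28 := by decide
  have h28' : 4 ≤ 28 := by norm_num
  have hc := s.hc 28 h28 h28'
  have hd := s.hd 28 h28 h28'
  have hU7 := ubU_28_7 hK7
  have hZ7' := ubUZ_28_7 hZ7
  have e1 := s.hU 28 h28 h28' 7
  have e2 := s.hUZ 28 h28 h28' 7
  have e3 := s.hU 28 h28 h28' 40
  have e4 := s.hUZ 28 h28 h28' 40
  have hz7 : 0 ≤ s.uz 28 7 :=
    b2_unonneg (s.hR 7 (by norm_num)) (s.hlamZ 7 (by norm_num)) h28 h28' (s.hwZ 7 (by norm_num))
  have hz40 : 0 ≤ s.uz 28 40 :=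
    b2_unonneg (s.hR 40 (by norm_num)) (s.hlamZ 40 (by norm_num)) h28 h28' (s.hwZ 40 (by norm_num))
  rw [← huf, e1] at hU7
  rw [← huz, e2] at hZ7'
  rw [e2] at hz7
  obtain ⟨E, hE⟩ : ∃ E : ℝ, E = s.En 28 := ⟨_, rfl⟩
  obtain ⟨W, hW⟩ : ∃ W : ℝ, W = 28 * ev + fv := ⟨_, rfl⟩
  rw [← hE] at e1 e2 e3 e4 hU7 hZ7' hz7
  rw [← hW] at hU7 hZ7' ⊢
  obtain ⟨x7, hx7⟩ : ∃ x7 : ℝ, x7 = Real.exp (7 * (W - E)) := ⟨_, rfl⟩
  obtain ⟨x40, hx40⟩ : ∃ x40 : ℝ, x40 = Real.exp (40 * (W - E)) := ⟨_, rfl⟩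
  have hx7p : 0 < x7 := by rw [hx7]; exact Real.exp_pos _
  have hx40p : 0 < x40 := by rw [hx40]; exact Real.exp_pos _
  have hx : x40 = x7 ^ ((40 : ℝ) / 7) := by
    rw [hx7, hx40, ← Real.exp_mul]
    congr 1
    ring
  have m7 : Real.exp (-(7 * E)) * Real.exp (7 * W) = x7 := by
    rw [hx7, ← Real.exp_add]
    congr 1
    ring
  have m40 : Real.exp (-(40 * E)) = x40 * Real.exp (-(40 * W)) := by
    rw [hx40, ← Real.exp_add]
    congr 1
    ring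
  have hc7 := hc.nonneg 7
  have hd7 := hd.nonneg 7
  have hc40 := hc.nonneg 40
  have hd40 := hd.nonneg 40
  have u1 : x7 * (1 + s.c 28 7 + s.d 28 7) ≤ 12495 / 10000 := by
    calc x7 * (1 + s.c 28 7 + s.d 28 7)
        = Real.exp (-(7 * E)) * (1 + s.c 28 7 + s.d 28 7) * Real.exp (7 * W) := by
          rw [← m7]; ring
      _ ≤ _ := hU7
  have u2 : x7 * (1 + s.c 28 7 - s.d 28 7) ≤ 9791 / 10000 := by
    calc x7 * (1 + s.c 28 7 - s.d 28 7)
        = Real.exp (-(7 * E)) * (1 + s.c 28 7 - s.d 28 7) * Real.exp (7 * W) := by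
          rw [← m7]; ring
      _ ≤ _ := hZ7'
  have u3 : 0 ≤ x7 * (1 + s.c 28 7 - s.d 28 7) := by
    have h1 : 0 ≤ Real.exp (-(7 * E)) * (1 + s.c 28 7 - s.d 28 7) * Real.exp (7 * W) :=
      mul_nonneg hz7 (Real.exp_pos _).le
    calc (0 : ℝ) ≤ Real.exp (-(7 * E)) * (1 + s.c 28 7 - s.d 28 7) * Real.exp (7 * W) := h1
      _ = x7 * (1 + s.c 28 7 - s.d 28 7) := by rw [← m7]; ring
  have v1 : x7 * (1 + s.c 28 7) ≤ 11143 / 10000 := by nlinarith
  have v2 : x7 * s.d 28 7 ≤ 62475 / 100000 := by nlinarith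
  have hr1 : (1 : ℝ) ≤ 40 / 7 := by norm_num
  have w1 : x40 * (1 + s.c 28 40) ≤ 18561 / 10000 := by
    have k1 : s.c 28 40 ≤ s.c 28 7 ^ ((40 : ℝ) / 7) := by
      have := hc.rpow hr1 7
      rwa [show (40 : ℝ) / 7 * 7 = 40 by norm_num] at this
    have k2 : 1 + s.c 28 7 ^ ((40 : ℝ) / 7) ≤ (1 + s.c 28 7) ^ ((40 : ℝ) / 7) := by
      have := Real.add_rpow_le_rpow_add zero_le_one hc7 hr1
      rwa [Real.one_rpow] at this
    calc x40 * (1 + s.c 28 40) ≤ x40 * (1 + s.c 28 7) ^ ((40 : ℝ) / 7) :=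
          mul_le_mul_of_nonneg_left (by linarith) hx40p.le
      _ = (x7 * (1 + s.c 28 7)) ^ ((40 : ℝ) / 7) := by
          rw [hx, ← Real.mul_rpow hx7p.le (by linarith)]
      _ ≤ (11143 / 10000 : ℝ) ^ ((40 : ℝ) / 7) :=
          Real.rpow_le_rpow (mul_nonneg hx7p.le (by linarith)) v1 (by norm_num)
      _ ≤ 18561 / 10000 := b2_rpow (by norm_num) (by norm_num) (by norm_num)
  have w2 : x40 * s.d 28 40 ≤ 681 / 10000 := by
    have k1 : s.d 28 40 ≤ s.d 28 7 ^ ((40 : ℝ) / 7) := by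
      have := hd.rpow hr1 7
      rwa [show (40 : ℝ) / 7 * 7 = 40 by norm_num] at this
    calc x40 * s.d 28 40 ≤ x40 * s.d 28 7 ^ ((40 : ℝ) / 7) :=
          mul_le_mul_of_nonneg_left k1 hx40p.le
      _ = (x7 * s.d 28 7) ^ ((40 : ℝ) / 7) := by
          rw [hx, ← Real.mul_rpow hx7p.le hd7]
      _ ≤ (62475 / 100000 : ℝ) ^ ((40 : ℝ) / 7) :=
          Real.rpow_le_rpow (mul_nonneg hx7p.le hd7) v2 (by norm_num)
      _ ≤ 681 / 10000 := b2_rpow (by norm_num) (by norm_num) (by norm_num)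
  have hWp : 0 < Real.exp (-(40 * W)) := Real.exp_pos _
  refine ⟨?_, ?_, ?_⟩
  · rw [← huf, e3, m40]
    calc x40 * Real.exp (-(40 * W)) * (1 + s.c 28 40 + s.d 28 40)
        = (x40 * (1 + s.c 28 40) + x40 * s.d 28 40) * Real.exp (-(40 * W)) := by ring
      _ ≤ 19242 / 10000 * Real.exp (-(40 * W)) :=
          mul_le_mul_of_nonneg_right (by linarith) hWp.le
  · rw [← huz, e4, m40]
    have h3 : 0 ≤ x40 * s.d 28 40 := mul_nonneg hx40p.le hd40
    calc x40 * Real.exp (-(40 * W)) * (1 + s.c 28 40 - s.d 28 40)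
        = (x40 * (1 + s.c 28 40) - x40 * s.d 28 40) * Real.exp (-(40 * W)) := by ring
      _ ≤ 18561 / 10000 * Real.exp (-(40 * W)) :=
          mul_le_mul_of_nonneg_right (by linarith) hWp.le
  · rw [← huz]
    exact hz40

/-- the ring with 104 sites at `β = 40`. -/
private theorem b2_104 (s : BdSys P Q) (hK7 : RepK 7) (hK10 : RepK 10) (hZ7 : RepZ 7)
    (hZ10 : RepZ 10)
    (hE : ∀ L : ℕ, Even L → 4 ≤ L → L ≤ 1000000 → s.E L ≤ L * ev) :
    P 104 40 ≤ 12989 / 10000 * Real.exp (-(40 * (104 * ev))) ∧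
    Q 104 40 ≤ 12985 / 10000 * Real.exp (-(40 * (104 * ev))) := by
  have h104 : Even 104 := by decide
  have h104' : 4 ≤ 104 := by norm_num
  have ha := s.ha 104 h104 h104'
  have hb := s.hb 104 h104 h104'
  obtain ⟨ab1, ab2, -, -⟩ := base_ab s.toBulkSys hK7 hK10 hZ7 hE
  have hP10 := ubP_104_10 hK10
  have hQ10 := ubQ_104_10 hZ10
  have e1 := s.hP 104 h104 h104' 10
  have e2 := s.hQ 104 h104 h104' 10
  have e3 := s.hP 104 h104 h104' 40
  have e4 := s.hQ 104 h104 h104' 40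
  rw [e1] at hP10
  rw [e2] at hQ10
  obtain ⟨E, hE'⟩ : ∃ E : ℝ, E = s.E 104 := ⟨_, rfl⟩
  obtain ⟨W, hW⟩ : ∃ W : ℝ, W = 104 * ev := ⟨_, rfl⟩
  rw [← hE'] at e3 e4 hP10 hQ10
  rw [← hW] at hP10 hQ10 ⊢
  obtain ⟨y, hy⟩ : ∃ y : ℝ, y = Real.exp (10 * (W - E)) := ⟨_, rfl⟩
  have hyp : 0 < y := by rw [hy]; exact Real.exp_pos _
  have m10 : Real.exp (-(10 * E)) * Real.exp (10 * W) = y := by
    rw [hy, ← Real.exp_add]
    exact congrArg Real.exp (by ring)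
  have m40 : Real.exp (-(40 * E)) = y ^ 4 * Real.exp (-(40 * W)) := by
    rw [hy, ← Real.exp_nat_mul, ← Real.exp_add]
    exact congrArg Real.exp (by push_cast; ring)
  have a10 := ha.nonneg 10
  have b10 := hb.nonneg 10
  have a40 := ha.nonneg 40
  have b40 := hb.nonneg 40
  have u1 : y * (1 + s.a 104 10 + 3 * s.b 104 10) ≤ 12980 / 10000 := by
    calc y * (1 + s.a 104 10 + 3 * s.b 104 10)
        = Real.exp (-(10 * E)) * (1 + s.a 104 10 + 3 * s.b 104 10) * Real.exp (10 * W) := by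
          rw [← m10]; ring
      _ ≤ _ := hP10
  have u2 : y * (1 + s.a 104 10 - s.b 104 10) ≤ 9906 / 10000 := by
    calc y * (1 + s.a 104 10 - s.b 104 10)
        = Real.exp (-(10 * E)) * (1 + s.a 104 10 - s.b 104 10) * Real.exp (10 * W) := by
          rw [← m10]; ring
      _ ≤ _ := hQ10
  have hya : 0 ≤ y * s.a 104 10 := mul_nonneg hyp.le a10
  have v1 : y ≤ 106745 / 100000 := b2_lin u1 u2 hya
  have v4 : y ^ 4 ≤ (106745 / 100000 : ℝ) ^ 4 := pow_le_pow_left₀ hyp.le v1 4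
  have hy4 : 0 ≤ y ^ 4 := pow_nonneg hyp.le 4
  have ka := b2_four ha ab1
  have kb := b2_four hb ab2
  have hWp : 0 < Real.exp (-(40 * W)) := Real.exp_pos _
  constructor
  · rw [e3, m40]
    have h1 : y ^ 4 * (1 + s.a 104 40 + 3 * s.b 104 40) ≤ 12989 / 10000 := by
      calc y ^ 4 * (1 + s.a 104 40 + 3 * s.b 104 40)
          ≤ (106745 / 100000 : ℝ) ^ 4 * (1 + (27 / 500) ^ 4 + 3 * (994 / 10000) ^ 4) :=
            mul_le_mul v4 (by linarith) (by linarith) (by positivity)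
        _ ≤ 12989 / 10000 := by norm_num
    calc y ^ 4 * Real.exp (-(40 * W)) * (1 + s.a 104 40 + 3 * s.b 104 40)
        = (y ^ 4 * (1 + s.a 104 40 + 3 * s.b 104 40)) * Real.exp (-(40 * W)) := by ring
      _ ≤ 12989 / 10000 * Real.exp (-(40 * W)) := mul_le_mul_of_nonneg_right h1 hWp.le
  · rw [e4, m40]
    have h1 : y ^ 4 * (1 + s.a 104 40 - s.b 104 40) ≤ 12985 / 10000 := by
      calc y ^ 4 * (1 + s.a 104 40 - s.b 104 40)
          ≤ y ^ 4 * (1 + (27 / 500) ^ 4) := mul_le_mul_of_nonneg_left (by linarith) hy4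
        _ ≤ (106745 / 100000 : ℝ) ^ 4 * (1 + (27 / 500) ^ 4) :=
            mul_le_mul_of_nonneg_right v4 (by positivity)
        _ ≤ 12985 / 10000 := by norm_num
    calc y ^ 4 * Real.exp (-(40 * W)) * (1 + s.a 104 40 - s.b 104 40)
        = (y ^ 4 * (1 + s.a 104 40 - s.b 104 40)) * Real.exp (-(40 * W)) := by ring
      _ ≤ 12985 / 10000 * Real.exp (-(40 * W)) := mul_le_mul_of_nonneg_right h1 hWp.le

/-- the open chain with 132 sites at `β = 40`. -/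
private theorem b2_132 (s : BdSys P Q) (huf : ∀ n β, s.uf n β = Vo (-1) n β)
    (huz : ∀ n β, s.uz n β = VoZ (-1) n β) (hK10 : RepK 10)
    (hE132 : s.En 132 ≤ 132 * ev + fv) :
    Real.exp (-(40 * (132 * ev + fv))) ≤ Vo (-1) 132 40 ∧
    9735 / 10000 * Real.exp (-(40 * (132 * ev + fv))) ≤ VoZ (-1) 132 40 := by
  have h132 : Even 132 := by decide
  have h132' : 4 ≤ 132 := by norm_num
  have hc := s.hc 132 h132 h132'
  have hd := s.hd 132 h132 h132'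
  have hU10 := ubU_132_10 hK10
  have e1 := s.hU 132 h132 h132' 10
  have e3 := s.hU 132 h132 h132' 40
  have e4 := s.hUZ 132 h132 h132' 40
  rw [← huf, e1] at hU10
  obtain ⟨E, hE⟩ : ∃ E : ℝ, E = s.En 132 := ⟨_, rfl⟩
  obtain ⟨W, hW⟩ : ∃ W : ℝ, W = 132 * ev + fv := ⟨_, rfl⟩
  rw [← hE] at e3 e4 hU10 hE132
  rw [← hW] at hU10 hE132 ⊢
  have c10 := hc.nonneg 10
  have d10 := hd.nonneg 10
  have c40 := hc.nonneg 40
  have d40 := hd.nonneg 40
  have m10 : 1 ≤ Real.exp (-(10 * E)) * Real.exp (10 * W) := by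
    rw [← Real.exp_add]
    apply Real.one_le_exp
    linarith
  have u1 : 1 + s.c 132 10 + s.d 132 10 ≤ 14033 / 10000 := by
    calc 1 + s.c 132 10 + s.d 132 10 = 1 * (1 + s.c 132 10 + s.d 132 10) := by ring
      _ ≤ (Real.exp (-(10 * E)) * Real.exp (10 * W)) * (1 + s.c 132 10 + s.d 132 10) :=
          mul_le_mul_of_nonneg_right m10 (by linarith)
      _ = Real.exp (-(10 * E)) * (1 + s.c 132 10 + s.d 132 10) * Real.exp (10 * W) := by ring
      _ ≤ _ := hU10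
  have kd := b2_four hd (show s.d 132 10 ≤ 4033 / 10000 by linarith)
  have kd' : s.d 132 40 ≤ 265 / 10000 := le_trans kd (by norm_num)
  have m40 : Real.exp (-(40 * W)) ≤ Real.exp (-(40 * E)) := Real.exp_le_exp.mpr (by linarith)
  have hWp : 0 < Real.exp (-(40 * W)) := Real.exp_pos _
  constructor
  · rw [← huf, e3]
    calc Real.exp (-(40 * W)) ≤ Real.exp (-(40 * E)) := m40
      _ = Real.exp (-(40 * E)) * 1 := by ring
      _ ≤ Real.exp (-(40 * E)) * (1 + s.c 132 40 + s.d 132 40) :=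
          mul_le_mul_of_nonneg_left (by linarith) (Real.exp_pos _).le
  · rw [← huz, e4]
    calc 9735 / 10000 * Real.exp (-(40 * W)) ≤ 9735 / 10000 * Real.exp (-(40 * E)) :=
          mul_le_mul_of_nonneg_left m40 (by norm_num)
      _ = Real.exp (-(40 * E)) * (9735 / 10000) := by ring
      _ ≤ Real.exp (-(40 * E)) * (1 + s.c 132 40 - s.d 132 40) :=
          mul_le_mul_of_nonneg_left (by linarith) (Real.exp_pos _).le

/-- bounds of the ingredients at `β = 40`. -/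
theorem base_ratio (s : BdSys P Q) (huf : ∀ n β, s.uf n β = Vo (-1) n β)
    (huz : ∀ n β, s.uz n β = VoZ (-1) n β) (hK7 : RepK 7) (hK10 : RepK 10) (hZ7 : RepZ 7)
    (hZ10 : RepZ 10)
    (hE : ∀ L : ℕ, Even L → 4 ≤ L → L ≤ 1000000 → s.E L ≤ L * ev)
    (hE132 : s.En 132 ≤ 132 * ev + fv) :
    Vo (-1) 28 40 * P 104 40 ≤ 25 / 10 * Vo (-1) 132 40 ∧
    VoZ (-1) 28 40 * Q 104 40 ≤ 25 / 10 * VoZ (-1) 132 40 := by
  obtain ⟨u1, u2, u3⟩ := b2_28 s huf huz hK7 hZ7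
  obtain ⟨p1, p2⟩ := b2_104 s hK7 hK10 hZ7 hZ10 hE
  obtain ⟨l1, l2⟩ := b2_132 s huf huz hK10 hE132
  have hexp : Real.exp (-(40 * (28 * ev + fv))) * Real.exp (-(40 * (104 * ev)))
      = Real.exp (-(40 * (132 * ev + fv))) := by
    rw [← Real.exp_add]
    congr 1
    ring
  have hP0 : 0 ≤ P 104 40 := by
    have h104 : Even 104 := by decide
    have h104' : 4 ≤ 104 := by norm_num
    rw [s.hP 104 h104 h104' 40]
    have k1 := (s.ha 104 h104 h104').nonneg 40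
    have k2 := (s.hb 104 h104 h104').nonneg 40
    exact mul_nonneg (Real.exp_pos _).le (by linarith)
  have hWp : 0 < Real.exp (-(40 * (132 * ev + fv))) := Real.exp_pos _
  constructor
  · calc Vo (-1) 28 40 * P 104 40
        ≤ (19242 / 10000 * Real.exp (-(40 * (28 * ev + fv)))) *
            (12989 / 10000 * Real.exp (-(40 * (104 * ev)))) :=
          mul_le_mul u1 p1 hP0 (by positivity)
      _ = (19242 / 10000 * (12989 / 10000)) * (Real.exp (-(40 * (28 * ev + fv)))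
            * Real.exp (-(40 * (104 * ev)))) := by ring
      _ = (19242 / 10000 * (12989 / 10000)) * Real.exp (-(40 * (132 * ev + fv))) := by rw [hexp]
      _ ≤ 25 / 10 * Real.exp (-(40 * (132 * ev + fv))) :=
          mul_le_mul_of_nonneg_right (by norm_num) hWp.le
      _ ≤ 25 / 10 * Vo (-1) 132 40 := mul_le_mul_of_nonneg_left l1 (by norm_num)
  · calc VoZ (-1) 28 40 * Q 104 40
        ≤ VoZ (-1) 28 40 * (12985 / 10000 * Real.exp (-(40 * (104 * ev)))) :=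
          mul_le_mul_of_nonneg_left p2 u3
      _ ≤ (18561 / 10000 * Real.exp (-(40 * (28 * ev + fv)))) *
            (12985 / 10000 * Real.exp (-(40 * (104 * ev)))) :=
          mul_le_mul_of_nonneg_right u2 (by positivity)
      _ = (18561 / 10000 * (12985 / 10000)) * (Real.exp (-(40 * (28 * ev + fv)))
            * Real.exp (-(40 * (104 * ev)))) := by ring
      _ = (18561 / 10000 * (12985 / 10000)) * Real.exp (-(40 * (132 * ev + fv))) := by rw [hexp]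
      _ ≤ (25 / 10 * (9735 / 10000)) * Real.exp (-(40 * (132 * ev + fv))) :=
          mul_le_mul_of_nonneg_right (by norm_num) hWp.le
      _ = 25 / 10 * (9735 / 10000 * Real.exp (-(40 * (132 * ev + fv)))) := by ring
      _ ≤ 25 / 10 * VoZ (-1) 132 40 := mul_le_mul_of_nonneg_left l2 (by norm_num)

end Crest.Agent.HG
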