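import Crest.Agent.HG_A2
import Crest.Agent.HG_A5
import Crest.Agent.HG_A7
import Crest.Agent.HG_UBK10

/-!
HG task Base2c (only base_eta here): the base state of the boundary iteration (open chain with opposite end fields).

Notation `U*(n,β) = U(n,β) exp(β(n ev + fv))`; `ub*`: `U*(28,7) ≤ 1.2495`, `UZ*(28,7) ≤ .9791`,
`U*(104,10) ≤ 1.3114`, `UZ*(104,10) ≤ 1.0085`, `U*(132,10) ≤ 1.4033`; `P*(104,10) ≤ 1.298`,
`Q*(104,10) ≤ .9906`.
 * `u0 = (U+UZ)/2 = e^{-βE_n}(1+c)`; with `E_104 ≤ 104 ev + fv`: `c(104,10) ≤ .15995`,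
   `(c+d)(104,10) ≤ .3114`; squares at `β=20`: `.0256 ≤ 1/25`, `.097 ≤ 7/50`.
 * `η_28(40)`: `u0(28,40) ≤ u0(28,7)^(40/7)` (exponential sums, `PS.rpow` form: `e^{-40E}(1+c(40)) ≤
   (e^{-7E}(1+c(7)))^(40/7)`), `u0*(28,7) ≤ 1.1143`, so `u0*(28,40) ≤ 1.8561`; the odd part
   `u1 = (U-UZ)/2 ≤ U/2` (as `UZ ≥ 0`), `u1*(28,40) ≤ .62475^(40/7) ≤ .0681`. So
   `U*(28,40) ≤ 1.9242`, `UZ*(28,40) ≤ 1.8561`.
   `exp(-10(E(104)-104ev)) ≤ T0*(104,10) ≤ 1.06745`, so `P(104,40) ≤ 1.06745^4(1+t(104,40))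
   exp(-4160ev) ≤ 1.2989 exp(-4160 ev)`, `t(104,40) ≤ .054^4+3(.1025)^4`; same for `Q(104,40) ≤ 1.2985..`.
   `U(132,40) ≥ exp(-40 E_132) ≥ exp(-40(132ev+fv))`, `UZ(132,40) ≥ (..)(1-d(132,40))`,
   `d(132,40) ≤ (c+d)(132,10)^4 ≤ .4033^4 ≤ .0265`.
   So `U_28(40) P(104,40)/U_132(40) ≤ 2.4994 =: 1+κ`, the same for Z (≤ 2.4758).
   As in `bd_step` (A7): `w + η_28 ≤ (1+κ)/(1+S)(w + S η_28)` with `S = S(104,40) ≤ .07547`
   (`bulk_table`), hence `η_28(40) ≤ hb w`, `hb = 1.61`: `κ - S ≤ hb(1-κS)` at `S=0` and `S=.07547`;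
   also `w(40) > 0`. Same for Z with `R(104,40) ≤ .07547`.
 * `η_104(40) ≤ S(76,40) η_28(40)` (`SpW.eta_add`), `S(76,40) ≤ S(52,40)^(76/52) ≤ .2747^(19/13) ≤
   .1515` (`S_rpow`, `bulk_table`): `h = .1515·1.61 ≤ .28`.
-/

set_option autoImplicit false

namespace Crest.Agent.HG

section
variable {p u : ℕ → ℝ} {lam w : ℝ}

/-- the estimate for `eta` (as `A7_eta`, without the final shift) -/
private theorem b2c_eta (h : SpW p u lam w) (hlam : 0 < lam) {n M : ℕ} (hn : Even n) (hn4 : 4 ≤ n)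
    (hM : Even M) (hM4 : 4 ≤ M) {σ4 κ hb : ℝ} (hw : 0 ≤ w)
    (hS : p M / lam ^ M - 1 ≤ σ4) (hun : 0 < u n) (hk0 : 0 ≤ 1 + κ)
    (hk : u n * p M ≤ (1 + κ) * u (n + M)) (hκσ : κ * σ4 < 1) (hb1 : κ ≤ hb)
    (hb2 : κ - σ4 ≤ hb * (1 - κ * σ4)) :
    0 < w ∧ u n / lam ^ (n - 2) - w ≤ hb * w := by
  have e1 := h.S_nonneg hM hM4
  have e2 := h.eta_nonneg hn hn4
  have e3 := h.eta_add hn hn4 hM hM4
  set S := p M / lam ^ M - 1 with hSdef
  set η := u n / lam ^ (n - 2) - w with hηdef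
  set ηN := u (n + M) / lam ^ (n + M - 2) - w with hηNdef
  have hl1 : 0 < lam ^ M := pow_pos hlam _
  have hl2 : 0 < lam ^ (n - 2) := pow_pos hlam _
  have hl3 : lam ^ (n + M - 2) = lam ^ (n - 2) * lam ^ M := by
    rw [← pow_add]; congr 1; omega
  have hp : p M = lam ^ M * (1 + S) := by rw [hSdef]; field_simp; ring
  have hu : u n = lam ^ (n - 2) * (w + η) := by rw [hηdef]; field_simp; ring
  have huN : u (n + M) = lam ^ (n - 2) * lam ^ M * (w + ηN) := by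
    rw [hηNdef, hl3]; field_simp; ring
  have k2 : 0 < lam ^ (n - 2) * lam ^ M := by positivity
  have k1 : (1 + S) * (w + η) ≤ (1 + κ) * (w + ηN) := by
    rw [hp, hu, huN] at hk
    have : (lam ^ (n - 2) * lam ^ M) * ((1 + S) * (w + η)) ≤
        (lam ^ (n - 2) * lam ^ M) * ((1 + κ) * (w + ηN)) := by
      calc (lam ^ (n - 2) * lam ^ M) * ((1 + S) * (w + η))
          = lam ^ (n - 2) * (w + η) * (lam ^ M * (1 + S)) := by ring
        _ ≤ _ := hk
        _ = _ := by ring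
    exact le_of_mul_le_mul_left this k2
  have k3 : (1 + κ) * (w + ηN) ≤ (1 + κ) * (w + S * η) :=
    mul_le_mul_of_nonneg_left (by linarith) hk0
  have k4 : η * (1 - κ * S) ≤ w * (κ - S) := by nlinarith
  have k5 : 0 < 1 - κ * S := by
    rcases le_or_gt 0 κ with hκ | hκ
    · have : κ * S ≤ κ * σ4 := mul_le_mul_of_nonneg_left hS hκ
      linarith
    · have : κ * S ≤ 0 := mul_nonpos_of_nonpos_of_nonneg hκ.le e1
      linarith
  have k6 : κ - S ≤ hb * (1 - κ * S) := by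
    rcases eq_or_lt_of_le (e1.trans hS) with h0 | h0
    · have : S = 0 := le_antisymm (by rw [h0]; exact hS) e1
      rw [this]; linarith
    · -- affine interpolation: S = θ σ4
      have i1 : 0 ≤ (σ4 - S) * (hb - κ) := mul_nonneg (by linarith) (by linarith)
      have i2 : 0 ≤ S * (hb * (1 - κ * σ4) - (κ - σ4)) := mul_nonneg e1 (by linarith)
      have i3 : 0 ≤ σ4 * (hb * (1 - κ * S) - (κ - S)) := by
        have : σ4 * (hb * (1 - κ * S) - (κ - S)) =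
          (σ4 - S) * (hb - κ) + S * (hb * (1 - κ * σ4) - (κ - σ4)) := by ring
        rw [this]; linarith
      have i4 : 0 ≤ hb * (1 - κ * S) - (κ - S) := by
        by_contra hcon
        push Not at hcon
        have := mul_neg_of_pos_of_neg h0 hcon
        linarith
      linarith
  have k7 : η ≤ hb * w := by
    have : η * (1 - κ * S) ≤ (hb * w) * (1 - κ * S) := by
      have := mul_le_mul_of_nonneg_left k6 hw
      nlinarith
    exact le_of_mul_le_mul_right this k5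
  have k8 : 0 < w := by
    rcases eq_or_lt_of_le hw with h0 | h0
    · exfalso
      rw [← h0] at k7 hu
      have : η = 0 := le_antisymm (by simpa using k7) e2
      rw [this] at hu
      simp at hu
      linarith
    · exact h0
  exact ⟨k8, k7⟩

/-- `η_104 ≤ S_76 η_28 ≤ (2747/10000)^(76/52) * (161/100) w ≤ 7/25 w` -/
private theorem b2c_fin (h : SpW p u lam w) (hlam : 0 < lam) (hw : 0 ≤ w)
    (hS : p 104 / lam ^ 104 - 1 ≤ 7547 / 100000) (hS52 : p 52 / lam ^ 52 - 1 ≤ 2747 / 10000)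
    (hun : 0 < u 28) (hk : u 28 * p 104 ≤ 25 / 10 * u 132) :
    0 < w ∧ u 104 / lam ^ (104 - 2) - w ≤ 7 / 25 * w := by
  obtain ⟨hw0, h28⟩ := b2c_eta (n := 28) (M := 104) (σ4 := 7547 / 100000) (κ := 3 / 2)
    (hb := 161 / 100) h hlam (by decide) (by norm_num) (by decide) (by norm_num) hw hS hun
    (by norm_num) (by norm_num at hk ⊢; exact hk) (by norm_num) (by norm_num) (by norm_num)
  refine ⟨hw0, ?_⟩
  have e1 := h.eta_add (n := 28) (M := 76) (by decide) (by norm_num) (by decide) (by norm_num)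
  have e2 := h.S_rpow (L := 52) (L' := 76) (by decide) (by norm_num) (by decide) (by norm_num)
  have e3 := h.S_nonneg (L := 52) (by decide) (by norm_num)
  have e4 := h.eta_nonneg (n := 28) (by decide) (by norm_num)
  have e5 : (p 52 / lam ^ 52 - 1) ^ (((76 : ℕ) : ℝ) / ((52 : ℕ) : ℝ)) ≤
      (2747 / 10000 : ℝ) ^ (((76 : ℕ) : ℝ) / ((52 : ℕ) : ℝ)) :=
    Real.rpow_le_rpow e3 hS52 (by positivity)
  have e6 : (2747 / 10000 : ℝ) ^ (((76 : ℕ) : ℝ) / ((52 : ℕ) : ℝ)) ≤ 1515 / 10000 := by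
    have g0 : (0 : ℝ) ≤ (2747 / 10000 : ℝ) ^ (((76 : ℕ) : ℝ) / ((52 : ℕ) : ℝ)) :=
      Real.rpow_nonneg (by norm_num) _
    have g1 : ((2747 / 10000 : ℝ) ^ (((76 : ℕ) : ℝ) / ((52 : ℕ) : ℝ))) ^ 13 =
        (2747 / 10000 : ℝ) ^ 19 := by
      rw [← Real.rpow_natCast, ← Real.rpow_mul (by norm_num), ← Real.rpow_natCast]
      congr 1
      norm_num
    have g2 : ((2747 / 10000 : ℝ) ^ (((76 : ℕ) : ℝ) / ((52 : ℕ) : ℝ))) ^ 13 ≤
        (1515 / 10000) ^ 13 := by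
      rw [g1]; norm_num
    exact (pow_le_pow_iff_left₀ g0 (by norm_num) (by norm_num)).1 g2
  have e7 : p 76 / lam ^ 76 - 1 ≤ 1515 / 10000 := (e2.trans e5).trans e6
  have e8 : (p 76 / lam ^ 76 - 1) * (u 28 / lam ^ (28 - 2) - w) ≤
      1515 / 10000 * (161 / 100 * w) := by
    calc (p 76 / lam ^ 76 - 1) * (u 28 / lam ^ (28 - 2) - w) ≤
        1515 / 10000 * (u 28 / lam ^ (28 - 2) - w) := mul_le_mul_of_nonneg_right e7 e4
      _ ≤ 1515 / 10000 * (161 / 100 * w) := mul_le_mul_of_nonneg_left h28 (by norm_num)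
  have e9 : u 104 / lam ^ (104 - 2) - w ≤
      (p 76 / lam ^ 76 - 1) * (u 28 / lam ^ (28 - 2) - w) := e1
  linarith

end

/-- `UZ(132,40) > 0`: `d(132,10) ≤ 1.4033 - 1`. -/
theorem base_pos (s : BdSys P Q) (huf : ∀ n β, s.uf n β = Vo (-1) n β)
    (huz : ∀ n β, s.uz n β = VoZ (-1) n β) (hK10 : RepK 10)
    (hE132 : s.En 132 ≤ 132 * ev + fv) : 0 < VoZ (-1) 132 40 := by
  have h1 := ubU_132_10 hK10
  rw [← huf, s.hU 132 (by decide) (by norm_num)] at h1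
  have c0 := (s.hc 132 (by decide) (by norm_num)).nonneg 10
  have d0 := (s.hd 132 (by decide) (by norm_num)).nonneg 10
  have c40 := (s.hc 132 (by decide) (by norm_num)).nonneg 40
  have h2 : 1 + s.c 132 10 + s.d 132 10 ≤ 14033 / 10000 := by
    refine le_trans ?_ h1
    have h3 : 1 ≤ Real.exp (-(10 * s.En 132)) * Real.exp (10 * (132 * ev + fv)) := by
      rw [← Real.exp_add]
      exact Real.one_le_exp (by linarith)
    have h4 : 0 ≤ 1 + s.c 132 10 + s.d 132 10 := by linarith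
    calc 1 + s.c 132 10 + s.d 132 10 = 1 * (1 + s.c 132 10 + s.d 132 10) := (one_mul _).symm
      _ ≤ (Real.exp (-(10 * s.En 132)) * Real.exp (10 * (132 * ev + fv))) *
          (1 + s.c 132 10 + s.d 132 10) := mul_le_mul_of_nonneg_right h3 h4
      _ = _ := by ring
  have h5 : s.d 132 10 ≤ 4033 / 10000 := by linarith
  have h6 : s.d 132 40 ≤ s.d 132 10 ^ 4 := by
    have hd := s.hd 132 (by decide) (by norm_num)
    have g1 := hd.two 10
    have g2 := hd.two (2 * 10)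
    have g3 : (2 : ℝ) * (2 * 10) = 40 := by norm_num
    rw [g3] at g2
    calc s.d 132 40 ≤ s.d 132 (2 * 10) ^ 2 := g2
      _ ≤ (s.d 132 10 ^ 2) ^ 2 := pow_le_pow_left₀ (hd.nonneg _) g1 2
      _ = _ := by ring
  have h7 : s.d 132 10 ^ 4 ≤ (4033 / 10000) ^ 4 := pow_le_pow_left₀ d0 h5 4
  have h8 : 0 < 1 + s.c 132 40 - s.d 132 40 := by
    norm_num at h7
    linarith
  rw [← huz, s.hUZ 132 (by decide) (by norm_num)]
  exact mul_pos (Real.exp_pos _) h8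

/-- (helper50: the hypotheses `hK10`, `hE132` are needed for `0 < VoZ (-1) 28 40`.) -/
theorem base_eta (s : BdSys P Q) (huf : ∀ n β, s.uf n β = Vo (-1) n β)
    (huz : ∀ n β, s.uz n β = VoZ (-1) n β) (hK10 : RepK 10)
    (hE132 : s.En 132 ≤ 132 * ev + fv)
    (h0 : BState s.toBulkSys 52 10 (27 / 500) (41 / 400) (9 / 100))
    (hr : Vo (-1) 28 40 * P 104 40 ≤ 25 / 10 * Vo (-1) 132 40)
    (hrZ : VoZ (-1) 28 40 * Q 104 40 ≤ 25 / 10 * VoZ (-1) 132 40) :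
    0 < s.w 40 ∧ 0 < s.wZ 40 ∧ s.eta 104 40 ≤ 7 / 25 * s.w 40 ∧
    s.etaZ 104 40 ≤ 7 / 25 * s.wZ 40 := by
  have hpos := base_pos s huf huz hK10 hE132
  obtain ⟨⟨-, -, h1, h2⟩, -, -, -, -, ⟨h3, h4⟩, -⟩ := bulk_table s.toBulkSys h0
  have e20 : (2 * 20 : ℝ) = 40 := by norm_num
  rw [e20] at h1 h2
  have h40 : (0 : ℝ) < 40 := by norm_num
  have hU28 : 0 < s.uf 28 40 := by
    rw [s.hU 28 (by decide) (by norm_num)]
    have c0 := (s.hc 28 (by decide) (by norm_num)).nonneg 40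
    have d0 := (s.hd 28 (by decide) (by norm_num)).nonneg 40
    have : 0 < 1 + s.c 28 40 + s.d 28 40 := by linarith
    exact mul_pos (Real.exp_pos _) this
  have hUZ28 : 0 < s.uz 28 40 := by
    have g1 := (s.hR 40 h40).u_add (s.hlamZ 40 h40) (n := 28) (M := 104) (by decide)
      (by norm_num) (by decide)
    have g2 : 0 < s.uz (28 + 104) 40 := by
      rw [huz]; exact hpos
    have g3 : 0 < s.uz 28 40 * s.lamZ 40 ^ 104 := lt_of_lt_of_le g2 g1
    exact pos_of_mul_pos_left g3 (pow_pos (s.hlamZ 40 h40) _).le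
  obtain ⟨a1, a2⟩ := b2c_fin (s.hS 40 h40) (s.hlam 40 h40) (s.hw 40 h40) h1 h3 hU28
    (by rw [huf, huf]; exact hr)
  obtain ⟨b1, b2⟩ := b2c_fin (s.hR 40 h40) (s.hlamZ 40 h40) (s.hwZ 40 h40) h2 h4 hUZ28
    (by rw [huz, huz]; exact hrZ)
  exact ⟨a1, b1, a2, b2⟩

end Crest.Agent.HG
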