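import Crest.Agent.HG_Base1
import Crest.Agent.HG_Base2a
import Crest.Agent.HG_Base2b
import Crest.Agent.HG_Base2c

set_option autoImplicit false

namespace Crest.Agent.HG

theorem base_bdry (s : BdSys P Q) (huf : ∀ n β, s.uf n β = Vo (-1) n β)
    (huz : ∀ n β, s.uz n β = VoZ (-1) n β) (hK7 : RepK 7) (hK10 : RepK 10) (hZ7 : RepZ 7)
    (hZ10 : RepZ 10)
    (hE : ∀ L : ℕ, Even L → 4 ≤ L → L ≤ 1000000 → s.E L ≤ L * ev)
    (hE104 : s.En 104 ≤ 104 * ev + fv) (hE132 : s.En 132 ≤ 132 * ev + fv) :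
    BdState s 104 20 (1 / 25) (7 / 50) (7 / 25) := by
  have h0 := base_bulk s.toBulkSys hK7 hK10 hZ7 hE
  obtain ⟨h1, h2⟩ := base_cq s huf huz hK10 hZ10 hE104
  obtain ⟨h3, h4⟩ := base_ratio s huf huz hK7 hK10 hZ7 hZ10 hE hE132
  obtain ⟨h5, h6, h7, h8⟩ := base_eta s huf huz hK10 hE132 h0 h3 h4
  have e : (2 * 20 : ℝ) = 40 := by norm_num
  refine ⟨h1, h2, ?_, ?_, ?_, ?_⟩ <;> rw [e] <;> assumption

end Crest.Agent.HG
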