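import Crest.Agent.HG_CH5a

/-!
# HG-CH5b: the bond inequalities in the form of `CH5_two`, `CH5_three`
-/

set_option autoImplicit false

namespace Crest.Agent.HG
open Matrix

section CH5b
variable {κ : Type} [Fintype κ] [DecidableEq κ] {n : ℕ} {d : ℕ → ℕ}

/-- the diagonal `1 + m m'` of `P = S·S + 1`, `m = 1 - s` -/
noncomputable def CH5_w (s t : ℕ) : ℝ := 1 + (1 - (s : ℝ)) * (1 - (t : ℝ))
/-- the diagonal `1 + 2 m s'` of a spin-one site and a spin-half site -/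
noncomputable def CH5_w2 (s t : ℕ) : ℝ := 1 + (1 - (s : ℝ)) * (1 - 2 * (t : ℝ))

/-- `P + 1 ≥ 0` -/
theorem CH5_bond_lo (C : Coord κ n d) (x : κ → ℝ) (i j : ℕ) (hij : i ≠ j) (hi : i < n) (hj : j < n)
    (di : d i = 3) (dj : d j = 3) :
    -(∑ σ, x σ * x σ) ≤ CH5_qf x (C.hop i j) + CH5_dq C x i j CH5_w := by
  have h := CH5_two C x i j hij hi hj 1 (fun s t => CH5_w s t + 1) (by
    intro y
    rw [di, dj]
    simp only [Finset.sum_range_succ, Finset.sum_range_zero, CH5_hc, CH5_w]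
    norm_num
    linarith [sq_nonneg (y 0 0), sq_nonneg (y 2 2), sq_nonneg (y 0 1 + y 1 0), sq_nonneg (y 0 1),
      sq_nonneg (y 1 0), sq_nonneg (y 1 2), sq_nonneg (y 2 1), sq_nonneg (y 1 2 + y 2 1),
      sq_nonneg (y 0 2 + y 1 1), sq_nonneg (y 1 1 + y 2 0)])
  have e : CH5_dq C x i j (fun s t => CH5_w s t + 1) =
      CH5_dq C x i j CH5_w + ∑ σ, x σ * x σ := by
    unfold CH5_dq
    rw [← Finset.sum_add_distrib]
    apply Finset.sum_congr rfl
    intro σ _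
    ring
  rw [e] at h
  linarith

/-- `P ≤ 2` -/
theorem CH5_bond_hi (C : Coord κ n d) (x : κ → ℝ) (i j : ℕ) (hij : i ≠ j) (hi : i < n) (hj : j < n)
    (di : d i = 3) (dj : d j = 3) :
    CH5_qf x (C.hop i j) + CH5_dq C x i j CH5_w ≤ 2 * ∑ σ, x σ * x σ := by
  have h := CH5_two C x i j hij hi hj (-1) (fun s t => 2 - CH5_w s t) (by
    intro y
    rw [di, dj]
    simp only [Finset.sum_range_succ, Finset.sum_range_zero, CH5_hc, CH5_w]
    norm_num
    linarith [sq_nonneg (y 0 1 - y 1 0), sq_nonneg (y 1 2 - y 2 1),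
      sq_nonneg (y 1 1 - y 0 2 - y 2 0), sq_nonneg (y 0 2 - y 2 0)])
  have e : CH5_dq C x i j (fun s t => 2 - CH5_w s t) =
      2 * ∑ σ, x σ * x σ - CH5_dq C x i j CH5_w := by
    unfold CH5_dq
    rw [Finset.mul_sum, ← Finset.sum_sub_distrib]
    apply Finset.sum_congr rfl
    intro σ _
    ring
  rw [e] at h
  linarith

/-- `P₁₂ + P₂₃ + 1 ≥ 0` -/
theorem CH5_bond2 (C : Coord κ n d) (x : κ → ℝ) (i j k : ℕ) (hij : i ≠ j) (hjk : j ≠ k)
    (hik : i ≠ k) (hi : i < n) (hj : j < n) (hk : k < n)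
    (di : d i = 3) (dj : d j = 3) (dk : d k = 3) :
    -(∑ σ, x σ * x σ) ≤ (CH5_qf x (C.hop i j) + CH5_dq C x i j CH5_w) +
      (CH5_qf x (C.hop j k) + CH5_dq C x j k CH5_w) := by
  have h := CH5_three C x i j k hij hjk hik hi hj hk 1 1 (fun s t => CH5_w s t + 1) CH5_w (by
    intro y
    rw [di, dj, dk]
    simp only [Finset.sum_range_succ, Finset.sum_range_zero, CH5_hc, CH5_w]
    norm_num
    linarith [
      sq_nonneg ((1) * y 0 0 0),
      sq_nonneg ((4) * y 0 0 1 + (1) * y 0 1 0),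
      sq_nonneg ((11) * y 0 1 0 + (4) * y 1 0 0),
      sq_nonneg ((1) * y 1 0 0),
      sq_nonneg ((3) * y 0 0 2 + (1) * y 0 1 1),
      sq_nonneg ((8) * y 0 1 1 + (3) * y 0 2 0 + (3) * y 1 0 1),
      sq_nonneg ((5) * y 0 2 0 + (-3) * y 1 0 1 + (8) * y 1 1 0),
      sq_nonneg ((3) * y 1 0 1 + (2) * y 1 1 0),
      sq_nonneg ((1) * y 1 1 0 + (3) * y 2 0 0),
      sq_nonneg ((3) * y 0 1 2 + (1) * y 0 2 1 + (1) * y 1 0 2),
      sq_nonneg ((5) * y 0 2 1 + (-1) * y 1 0 2 + (3) * y 1 1 1),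
      sq_nonneg ((4) * y 1 0 2 + (3) * y 1 1 1),
      sq_nonneg ((3) * y 1 1 1 + (2) * y 1 2 0 + (2) * y 2 0 1),
      sq_nonneg ((4) * y 1 2 0 + (-2) * y 2 0 1 + (3) * y 2 1 0),
      sq_nonneg ((2) * y 2 0 1 + (3) * y 2 1 0),
      sq_nonneg ((3) * y 0 2 2 + (1) * y 1 1 2),
      sq_nonneg ((8) * y 1 1 2 + (3) * y 1 2 1 + (3) * y 2 0 2),
      sq_nonneg ((21) * y 1 2 1 + (-3) * y 2 0 2 + (8) * y 2 1 1),
      sq_nonneg ((1) * y 2 0 2 + (2) * y 2 1 1),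
      sq_nonneg ((1) * y 2 1 1 + (3) * y 2 2 0),
      sq_nonneg ((4) * y 1 2 2 + (1) * y 2 1 2),
      sq_nonneg ((11) * y 2 1 2 + (4) * y 2 2 1),
      sq_nonneg ((1) * y 2 2 1),
      sq_nonneg ((1) * y 2 2 2)])
  have e : CH5_dq C x i j (fun s t => CH5_w s t + 1) =
      CH5_dq C x i j CH5_w + ∑ σ, x σ * x σ := by
    unfold CH5_dq
    rw [← Finset.sum_add_distrib]
    apply Finset.sum_congr rfl
    intro σ _
    ring
  rw [e] at h
  linarith

/-- end bond, lower bound: `110 hop + 77 (1 + 2 m s) + 79 ≥ 0` -/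
theorem CH5_end_lo (C : Coord κ n d) (x : κ → ℝ) (i j : ℕ) (hij : i ≠ j) (hi : i < n) (hj : j < n)
    (di : d i = 3) (dj : d j = 2) :
    -(79 * ∑ σ, x σ * x σ) ≤ 110 * CH5_qf x (C.hop i j) + 77 * CH5_dq C x i j CH5_w2 := by
  have h := CH5_two C x i j hij hi hj 110 (fun s t => 77 * CH5_w2 s t + 79) (by
    intro y
    rw [di, dj]
    simp only [Finset.sum_range_succ, Finset.sum_range_zero, CH5_hc, CH5_w2]
    norm_num
    linarith [sq_nonneg (y 0 0), sq_nonneg (y 2 1), sq_nonneg (79 * y 0 1 + 110 * y 1 0),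
      sq_nonneg (y 1 0), sq_nonneg (79 * y 2 0 + 110 * y 1 1), sq_nonneg (y 1 1)])
  have e : CH5_dq C x i j (fun s t => 77 * CH5_w2 s t + 79) =
      77 * CH5_dq C x i j CH5_w2 + 79 * ∑ σ, x σ * x σ := by
    unfold CH5_dq
    rw [Finset.mul_sum, Finset.mul_sum, ← Finset.sum_add_distrib]
    apply Finset.sum_congr rfl
    intro σ _
    ring
  rw [e] at h
  linarith

/-- end bond, upper bound: `110 hop + 77 (1 + 2 m s) ≤ 157` -/
theorem CH5_end_hi (C : Coord κ n d) (x : κ → ℝ) (i j : ℕ) (hij : i ≠ j) (hi : i < n) (hj : j < n)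
    (di : d i = 3) (dj : d j = 2) :
    110 * CH5_qf x (C.hop i j) + 77 * CH5_dq C x i j CH5_w2 ≤ 157 * ∑ σ, x σ * x σ := by
  have h := CH5_two C x i j hij hi hj (-110) (fun s t => 157 - 77 * CH5_w2 s t) (by
    intro y
    rw [di, dj]
    simp only [Finset.sum_range_succ, Finset.sum_range_zero, CH5_hc, CH5_w2]
    norm_num
    linarith [sq_nonneg (y 0 0), sq_nonneg (y 2 1), sq_nonneg (157 * y 0 1 - 110 * y 1 0),
      sq_nonneg (y 1 0), sq_nonneg (157 * y 2 0 - 110 * y 1 1), sq_nonneg (y 1 1)])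
  have e : CH5_dq C x i j (fun s t => 157 - 77 * CH5_w2 s t) =
      157 * ∑ σ, x σ * x σ - 77 * CH5_dq C x i j CH5_w2 := by
    unfold CH5_dq
    rw [Finset.mul_sum, Finset.mul_sum, ← Finset.sum_sub_distrib]
    apply Finset.sum_congr rfl
    intro σ _
    ring
  rw [e] at h
  linarith

end CH5b
end Crest.Agent.HG
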