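import Mathlib
import Crest.Agent.HG_CC
import Crest.Agent.HG_CH5b

/-!
# HG-CH5: contraction for the open chain and the half-chain
-/

set_option autoImplicit false

namespace Crest.Agent.HG
open Matrix

/-- lower energy bound of the chain with `m` bonds -/
noncomputable def chE (m : ℕ) : ℝ := if Even m then -(3 / 2) * m else -(3 / 2) * ((m : ℝ) - 1) - 2

section CH5
variable {κ : Type} [Fintype κ] [DecidableEq κ]

theorem CH5_A (M : Mach) (C : Coord κ M.n M.d) (x : κ → ℝ) :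
    x ⬝ᵥ (M.A C) *ᵥ x = ((2 : ℝ) ^ (M.sh + 1))⁻¹ * CH5_qf x (M.K C) := by
  unfold Mach.A
  rw [Matrix.smul_mulVec, dotProduct_smul, smul_eq_mul]
  congr 1
  show _ = ∑ σ, ∑ τ, (((M.K C) σ τ : ℤ) : ℝ) * (x σ * x τ)
  simp only [dotProduct, mulVec, Matrix.map_apply, Finset.mul_sum]
  apply Finset.sum_congr rfl
  intro σ _
  apply Finset.sum_congr rfl
  intro τ _
  ring

theorem CH5_qf_hops (M : Mach) (C : Coord κ M.n M.d) (x : κ → ℝ) (l : List (ℕ × List (ℕ × ℕ))) :
    CH5_qf x (M.hops C l) =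
      (l.map fun t => (t.1 : ℝ) * (t.2.map fun p => CH5_qf x (C.hop p.1 p.2)).sum).sum := by
  unfold Mach.hops
  rw [map_list_sum, List.map_map]
  congr 1
  apply List.map_congr_left
  intro t _
  simp only [Function.comp_apply]
  rw [map_zsmul, zsmul_eq_mul, Int.cast_natCast, map_list_sum, List.map_map]
  rfl

theorem CH5_qf_diag (x : κ → ℝ) (f : κ → ℤ) :
    CH5_qf x (Matrix.diagonal f) = ∑ σ, ((f σ : ℤ) : ℝ) * (x σ * x σ) := by
  show ∑ σ, ∑ τ, ((Matrix.diagonal f σ τ : ℤ) : ℝ) * (x σ * x τ) = _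
  apply Finset.sum_congr rfl
  intro σ _
  rw [Finset.sum_eq_single σ]
  · rw [Matrix.diagonal_apply_eq]
  · intro τ _ h
    rw [Matrix.diagonal_apply_ne _ (Ne.symm h)]
    simp
  · intro h
    exact absurd (Finset.mem_univ σ) h

/-- integer form of the diagonal `1 + m m'` -/
private def wN (s t : ℕ) : ℕ := ((2 - s) * (2 - t) + s * t) / 2
private def wN2 (s t : ℕ) : ℕ := (2 - s) * (1 - t) + s * t

private theorem wN_cast (s t : ℕ) (hs : s < 3) (ht : t < 3) : ((wN s t : ℕ) : ℝ) = CH5_w s t := by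
  unfold CH5_w
  interval_cases s <;> interval_cases t <;> norm_num [wN]

private theorem wN2_cast (s t : ℕ) (hs : s < 3) (ht : t < 2) :
    ((wN2 s t : ℕ) : ℝ) = CH5_w2 s t := by
  unfold CH5_w2
  interval_cases s <;> interval_cases t <;> norm_num [wN2]

private theorem wN_le (s t : ℕ) (hs : s < 3) (ht : t < 3) : wN s t ≤ 2 := by
  interval_cases s <;> interval_cases t <;> decide

private theorem wN2_le (s t : ℕ) (hs : s < 3) (ht : t < 2) : wN2 s t ≤ 2 := by
  interval_cases s <;> interval_cases t <;> decide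

private theorem wN_count (s t : ℕ) (hs : s < 3) (ht : t < 3) :
    ([0, 0, 1] : List ℕ).count s * ([0, 0, 1] : List ℕ).count t +
      ([1, 2, 2] : List ℕ).count s * ([1, 2, 2] : List ℕ).count t = 2 * wN s t := by
  interval_cases s <;> interval_cases t <;> decide

private theorem wN2_count (s t : ℕ) (hs : s < 3) (ht : t < 2) :
    ([0, 0, 1] : List ℕ).count s * ([0, 0] : List ℕ).count t +
      ([1, 2, 2] : List ℕ).count s * ([1, 1] : List ℕ).count t = 2 * wN2 s t := by
  interval_cases s <;> interval_cases t <;> decide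

omit [Fintype κ] in
private theorem G_append (M : Mach) (C : Coord κ M.n M.d)
    (l l' : List (ℕ × List ℕ × ℕ × List ℕ)) (σ : κ) :
    M.G C (l ++ l') σ = M.G C l σ + M.G C l' σ := by
  unfold Mach.G
  rw [List.map_append, List.sum_append]

omit [Fintype κ] in
private theorem G_pq3 (M : Mach) (C : Coord κ M.n M.d) (b : ℕ × ℕ) (hb : b.1 ≠ b.2) (σ : κ)
    (h1 : C.dg σ b.1 < 3) (h2 : C.dg σ b.2 < 3) :
    M.G C (pq3 b) σ = 2 * wN (C.dg σ b.1) (C.dg σ b.2) := by
  unfold Mach.G pq3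
  simp only [List.map_cons, List.map_nil, List.sum_cons, List.sum_nil, hb, if_false, add_zero]
  exact wN_count _ _ h1 h2

omit [Fintype κ] in
private theorem G_pq2 (M : Mach) (C : Coord κ M.n M.d) (b : ℕ × ℕ) (hb : b.1 ≠ b.2) (σ : κ)
    (h1 : C.dg σ b.1 < 3) (h2 : C.dg σ b.2 < 2) :
    M.G C (pq2 b) σ = 2 * wN2 (C.dg σ b.1) (C.dg σ b.2) := by
  unfold Mach.G pq2
  simp only [List.map_cons, List.map_nil, List.sum_cons, List.sum_nil, hb, if_false, add_zero]
  exact wN2_count _ _ h1 h2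

omit [Fintype κ] in
private theorem G_chain (M : Mach) (C : Coord κ M.n M.d) (σ : κ) :
    ∀ m : ℕ, (∀ k, k < m + 1 → C.dg σ k < 3) →
    M.G C ((chainB m).flatMap pq3) σ =
      2 * ∑ j ∈ Finset.range m, wN (C.dg σ j) (C.dg σ (j + 1)) := by
  intro m
  induction m with
  | zero => intro _; simp [chainB, Mach.G]
  | succ m ih =>
    intro h
    have e : chainB (m + 1) = chainB m ++ [(m, m + 1)] := by
      simp [chainB, List.range_succ]
    rw [e, List.flatMap_append, G_append, ih (fun k hk => h k (by omega)),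
      Finset.sum_range_succ, mul_add]
    congr 1
    rw [List.flatMap_cons, List.flatMap_nil, List.append_nil]
    exact G_pq3 M C (m, m + 1) (by simp) σ (h m (by omega)) (h (m + 1) (by omega))

private theorem sum_chainB (m : ℕ) (f : ℕ × ℕ → ℝ) :
    ((chainB m).map f).sum = ∑ j ∈ Finset.range m, f (j, j + 1) := by
  unfold chainB
  rw [List.map_map]
  rfl

private theorem chain_lo (m : ℕ) (hm : 1 ≤ m) (hm' : m ≤ 7) (B : ℕ → ℝ) (X : ℝ)
    (h1 : ∀ j, j < m → -X ≤ B j) (h2 : ∀ j, j + 1 < m → -X ≤ B j + B (j + 1)) :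
    (chE m + m) * X ≤ ∑ j ∈ Finset.range m, B j := by
  interval_cases m
  · have e : chE 1 = -2 := by unfold chE; rw [if_neg (by decide)]; norm_num
    rw [e]
    simp only [Finset.sum_range_succ, Finset.sum_range_zero]
    have := h1 0 (by norm_num)
    norm_num
    linarith
  · have e : chE 2 = -3 := by unfold chE; rw [if_pos (by decide)]; norm_num
    rw [e]
    simp only [Finset.sum_range_succ, Finset.sum_range_zero]
    have := h2 0 (by norm_num)
    norm_num at this ⊢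
    linarith
  · have e : chE 3 = -5 := by unfold chE; rw [if_neg (by decide)]; norm_num
    rw [e]
    simp only [Finset.sum_range_succ, Finset.sum_range_zero]
    have := h2 0 (by norm_num)
    have := h1 2 (by norm_num)
    norm_num at *
    linarith
  · have e : chE 4 = -6 := by unfold chE; rw [if_pos (by decide)]; norm_num
    rw [e]
    simp only [Finset.sum_range_succ, Finset.sum_range_zero]
    have a1 := h2 0 (by norm_num)
    have a2 := h2 2 (by norm_num)
    norm_num at a1 a2 ⊢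
    linarith
  · have e : chE 5 = -8 := by unfold chE; rw [if_neg (by decide)]; norm_num
    rw [e]
    simp only [Finset.sum_range_succ, Finset.sum_range_zero]
    have a1 := h2 0 (by norm_num)
    have a2 := h2 2 (by norm_num)
    have a3 := h1 4 (by norm_num)
    norm_num at a1 a2 a3 ⊢
    linarith
  · have e : chE 6 = -9 := by unfold chE; rw [if_pos (by decide)]; norm_num
    rw [e]
    simp only [Finset.sum_range_succ, Finset.sum_range_zero]
    have a1 := h2 0 (by norm_num)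
    have a2 := h2 2 (by norm_num)
    have a3 := h2 4 (by norm_num)
    norm_num at a1 a2 a3 ⊢
    linarith
  · have e : chE 7 = -11 := by unfold chE; rw [if_neg (by decide)]; norm_num
    rw [e]
    simp only [Finset.sum_range_succ, Finset.sum_range_zero]
    have a1 := h2 0 (by norm_num)
    have a2 := h2 2 (by norm_num)
    have a3 := h2 4 (by norm_num)
    have a4 := h1 6 (by norm_num)
    norm_num at a1 a2 a3 a4 ⊢
    linarith

/-- the diagonal part of a chain -/
private theorem chain_diag (M : Mach) (C : Coord κ M.n M.d) (m : ℕ)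
    (h3 : ∀ σ k, k < m + 1 → C.dg σ k < 3) (x : κ → ℝ) :
    ∑ σ, ((∑ j ∈ Finset.range m, wN (C.dg σ j) (C.dg σ (j + 1)) : ℕ) : ℝ) * (x σ * x σ) =
      ∑ j ∈ Finset.range m, CH5_dq C x j (j + 1) CH5_w := by
  unfold CH5_dq
  rw [Finset.sum_comm]
  apply Finset.sum_congr rfl
  intro σ _
  rw [Nat.cast_sum, Finset.sum_mul]
  apply Finset.sum_congr rfl
  intro j hj
  rw [Finset.mem_range] at hj
  rw [wN_cast _ _ (h3 σ j (by omega)) (h3 σ (j + 1) (by omega))]

private theorem chain_diag_le (M : Mach) (C : Coord κ M.n M.d) (m : ℕ) (hm : m ≤ 7)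
    (h3 : ∀ σ k, k < m + 1 → C.dg σ k < 3) (σ : κ) :
    (2 * ∑ j ∈ Finset.range m, wN (C.dg σ j) (C.dg σ (j + 1))) / 2 ^ 1 % 2 ^ 4 =
      ∑ j ∈ Finset.range m, wN (C.dg σ j) (C.dg σ (j + 1)) := by
  have h : ∑ j ∈ Finset.range m, wN (C.dg σ j) (C.dg σ (j + 1)) ≤ 2 * m := by
    calc ∑ j ∈ Finset.range m, wN (C.dg σ j) (C.dg σ (j + 1)) ≤ ∑ _j ∈ Finset.range m, 2 := by
          apply Finset.sum_le_sum
          intro j hj
          rw [Finset.mem_range] at hj
          exact wN_le _ _ (h3 σ j (by omega)) (h3 σ (j + 1) (by omega))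
      _ = 2 * m := by simp [mul_comm]
  omega

end CH5

section Open
variable (m : ℕ) (up : Bool) (r negc : ℕ)

private theorem open_form (hm' : m ≤ 7) (x : (Fin (m + 1) → Fin 3) → ℝ) :
    ∃ E : ℝ, 0 ≤ E ∧ E ≤ 4 * ∑ σ, x σ * x σ ∧
    CH5_qf x ((openM (m + 1) up r negc).K (coordF (m + 1))) =
      25 * ∑ j ∈ Finset.range m, (CH5_qf x ((coordF (m + 1)).hop j (j + 1)) +
        CH5_dq (coordF (m + 1)) x j (j + 1) CH5_w) + 15 * E - negc * ∑ σ, x σ * x σ := by
  set C := coordF (m + 1) with hC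
  have h3 : ∀ σ k, k < m + 1 → C.dg σ k < 3 := fun σ k hk => C.dg_lt σ k hk
  set e : (Fin (m + 1) → Fin 3) → ℕ := fun σ => ([1, 2, 2] : List ℕ).count (C.dg σ 0) +
    (cond up [1, 2, 2] [0, 0, 1] : List ℕ).count (C.dg σ m) with he
  have he4 : ∀ σ, e σ ≤ 4 := by
    intro σ
    have h1 : ∀ s, s < 3 → ([1, 2, 2] : List ℕ).count s ≤ 2 := by decide
    have h2 : ∀ s, s < 3 → ([0, 0, 1] : List ℕ).count s ≤ 2 := by decide
    have a1 := h1 _ (h3 σ 0 (by omega))
    have a2 : (cond up [1, 2, 2] [0, 0, 1] : List ℕ).count (C.dg σ m) ≤ 2 := by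
      cases up
      · exact h2 _ (h3 σ m (by omega))
      · exact h1 _ (h3 σ m (by omega))
    simp only [he]
    omega
  refine ⟨∑ σ, (e σ : ℝ) * (x σ * x σ), ?_, ?_, ?_⟩
  · apply Finset.sum_nonneg
    intro σ _
    exact mul_nonneg (Nat.cast_nonneg _) (mul_self_nonneg _)
  · rw [Finset.mul_sum]
    apply Finset.sum_le_sum
    intro σ _
    apply mul_le_mul_of_nonneg_right _ (mul_self_nonneg _)
    exact_mod_cast he4 σ
  · have hK : (openM (m + 1) up r negc).K C =
        (openM (m + 1) up r negc).hops C [(25, chainB m)] -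
        (openM (m + 1) up r negc).hops C [] + Matrix.diagonal fun σ =>
          ((25 * (∑ j ∈ Finset.range m, wN (C.dg σ j) (C.dg σ (j + 1))) + 15 * e σ : ℕ) : ℤ) -
            (negc : ℤ) := by
      unfold Mach.K
      congr 2
      funext σ
      congr 1
      have g1 : (openM (m + 1) up r negc).G C ((chainB m).flatMap pq3) σ =
        2 * ∑ j ∈ Finset.range m, wN (C.dg σ j) (C.dg σ (j + 1)) :=
        G_chain (openM (m + 1) up r negc) C σ m (h3 σ)
      have g2 : (openM (m + 1) up r negc).G C [(0, [1, 2, 2], 0, []),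
          (m, cond up [1, 2, 2] [0, 0, 1], m, [])] σ = e σ := by
        unfold Mach.G
        simp [he]
      show ((25 : ℤ) * (((openM (m + 1) up r negc).G C ((chainB m).flatMap pq3) σ / 2 ^ 1 % 2 ^ 4 :
        ℕ) : ℤ)) + ((15 : ℤ) * (((openM (m + 1) up r negc).G C [(0, [1, 2, 2], 0, []),
          (m, cond up [1, 2, 2] [0, 0, 1], m, [])] σ / 2 ^ 0 % 2 ^ 3 : ℕ) : ℤ) + 0) = _
      rw [g1, g2, chain_diag_le (openM (m + 1) up r negc) C m hm' h3 σ]
      have h8 : e σ / 2 ^ 0 % 2 ^ 3 = e σ := by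
        have := he4 σ
        omega
      rw [h8]
      push_cast
      ring
    rw [hK, map_add, map_sub, CH5_qf_hops, CH5_qf_hops, CH5_qf_diag]
    simp only [List.map_cons, List.map_nil, List.sum_cons, List.sum_nil, sub_zero, add_zero]
    have hs := sum_chainB m (fun p => CH5_qf x (C.hop p.1 p.2))
    show ((25 : ℕ) : ℝ) * ((chainB m).map (fun p => CH5_qf x (C.hop p.1 p.2))).sum + _ = _
    rw [hs]
    have hd : ∑ σ, ((((25 * (∑ j ∈ Finset.range m, wN (C.dg σ j) (C.dg σ (j + 1))) +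
        15 * e σ : ℕ) : ℤ) - (negc : ℤ) : ℤ) : ℝ) * (x σ * x σ) =
        25 * ∑ σ, ((∑ j ∈ Finset.range m, wN (C.dg σ j) (C.dg σ (j + 1)) : ℕ) : ℝ) * (x σ * x σ) +
        15 * ∑ σ, (e σ : ℝ) * (x σ * x σ) - negc * ∑ σ, x σ * x σ := by
      rw [Finset.mul_sum, Finset.mul_sum, Finset.mul_sum, ← Finset.sum_add_distrib,
        ← Finset.sum_sub_distrib]
      apply Finset.sum_congr rfl
      intro σ _
      push_cast
      ring
    rw [hd, chain_diag (openM (m + 1) up r negc) C m h3 x, Finset.sum_add_distrib]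
    unfold CH5_dq
    push_cast
    ring

end Open

theorem open_contr (m : ℕ) (hm : 1 ≤ m) (hm' : m ≤ 7) (up : Bool) (r negc : ℕ)
    (h1 : ((negc : ℝ) - 25 * m - 30) / 25 - 10.24 ≤ chE m - 1.2)
    (h2 : (m : ℝ) + 1.2 ≤ ((negc : ℝ) - 25 * m - 30) / 25 + 10.24)
    (x : (Fin (m + 1) → Fin 3) → ℝ) :
    |x ⬝ᵥ ((openM (m + 1) up r negc).A (coordF (m + 1))) *ᵥ x| ≤ x ⬝ᵥ x := by
  obtain ⟨E, hE0, hE4, hE⟩ := open_form m up r negc hm' x
  have hA := CH5_A (openM (m + 1) up r negc) (coordF (m + 1)) x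
  rw [hE] at hA
  rw [hA]
  have hX : x ⬝ᵥ x = ∑ σ, x σ * x σ := rfl
  rw [hX]
  have hX0 : 0 ≤ ∑ σ, x σ * x σ := Finset.sum_nonneg (fun σ _ => mul_self_nonneg _)
  set X := ∑ σ, x σ * x σ with hXdef
  have hlo := chain_lo m hm hm' (fun j => CH5_qf x ((coordF (m + 1)).hop j (j + 1)) +
        CH5_dq (coordF (m + 1)) x j (j + 1) CH5_w) X
    (fun j hj => CH5_bond_lo (coordF (m + 1)) x j (j + 1) (by omega) (by omega) (by omega) rfl rfl)
    (fun j hj => CH5_bond2 (coordF (m + 1)) x j (j + 1) (j + 1 + 1) (by omega) (by omega) (by omega)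
      (by omega) (by omega) (by omega) rfl rfl rfl)
  have hhi : ∑ j ∈ Finset.range m, (CH5_qf x ((coordF (m + 1)).hop j (j + 1)) +
        CH5_dq (coordF (m + 1)) x j (j + 1) CH5_w) ≤ (2 * m) * X := by
    calc _ ≤ ∑ _j ∈ Finset.range m, 2 * X := by
          apply Finset.sum_le_sum
          intro j hj
          rw [Finset.mem_range] at hj
          exact CH5_bond_hi (coordF (m + 1)) x j (j + 1) (by omega) (by omega) (by omega) rfl rfl
      _ = (2 * m) * X := by
          rw [Finset.sum_const, Finset.card_range, nsmul_eq_mul]; ring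
  have hsh : ((2 : ℝ) ^ ((openM (m + 1) up r negc).sh + 1))⁻¹ = 1 / 256 := by
    show ((2 : ℝ) ^ (7 + 1))⁻¹ = 1 / 256
    norm_num
  rw [hsh, abs_le]
  have k1 : (25 * (chE m + m) - negc + 256) * X ≥ 0 := by
    apply mul_nonneg _ hX0
    linarith
  have k2 : (256 + negc - 50 * m - 60) * X ≥ 0 := by
    apply mul_nonneg _ hX0
    linarith
  constructor
  · linarith
  · linarith

section Half
variable (m : ℕ) (r negc : ℕ)

private theorem half_d3 (k : ℕ) (hk : k < m + 1) : (cond (Nat.blt k (m + 1)) 3 2 : ℕ) = 3 := by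
  have : Nat.blt k (m + 1) = true := by simpa using hk
  rw [this]; rfl

private theorem half_d2 (k : ℕ) (hk : m + 1 ≤ k) : (cond (Nat.blt k (m + 1)) 3 2 : ℕ) = 2 := by
  have : Nat.blt k (m + 1) = false := by
    rw [Bool.eq_false_iff, ne_eq, Nat.blt_eq]; omega
  rw [this]; rfl

private theorem half_form (hm' : m ≤ 7) (x : (Fin 2 × (Fin (m + 1) → Fin 3) × Fin 2) → ℝ) :
    CH5_qf x ((halfM (m + 1) r negc).K (coordH m)) =
      200 * ∑ j ∈ Finset.range m, (CH5_qf x ((coordH m).hop j (j + 1)) +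
        CH5_dq (coordH m) x j (j + 1) CH5_w) +
      (110 * CH5_qf x ((coordH m).hop 0 (m + 1)) + 77 * CH5_dq (coordH m) x 0 (m + 1) CH5_w2) +
      (110 * CH5_qf x ((coordH m).hop m (m + 2)) + 77 * CH5_dq (coordH m) x m (m + 2) CH5_w2) -
      negc * ∑ σ, x σ * x σ := by
  set C := coordH m with hC
  have h3 : ∀ σ k, k < m + 1 → C.dg σ k < 3 := fun σ k hk => by
    have := C.dg_lt σ k (by omega)
    rwa [half_d3 m k hk] at this
  have h2 : ∀ σ k, m + 1 ≤ k → k < m + 1 + 2 → C.dg σ k < 2 := fun σ k hk hk' => by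
    have := C.dg_lt σ k hk'
    rwa [half_d2 m k hk] at this
  have hK : (halfM (m + 1) r negc).K C =
      (halfM (m + 1) r negc).hops C [(200, chainB m), (110, [(0, m + 1), (m, m + 2)])] -
      (halfM (m + 1) r negc).hops C [] + Matrix.diagonal fun σ =>
        ((200 * (∑ j ∈ Finset.range m, wN (C.dg σ j) (C.dg σ (j + 1))) +
          77 * (wN2 (C.dg σ 0) (C.dg σ (m + 1)) + wN2 (C.dg σ m) (C.dg σ (m + 2))) : ℕ) : ℤ) -
          (negc : ℤ) := by
    unfold Mach.K
    congr 2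
    funext σ
    congr 1
    have g1 : (halfM (m + 1) r negc).G C ((chainB m).flatMap pq3) σ =
      2 * ∑ j ∈ Finset.range m, wN (C.dg σ j) (C.dg σ (j + 1)) :=
      G_chain (halfM (m + 1) r negc) C σ m (h3 σ)
    have g2 : (halfM (m + 1) r negc).G C (pq2 (0, m + 1) ++ pq2 (m, m + 2)) σ =
        2 * (wN2 (C.dg σ 0) (C.dg σ (m + 1)) + wN2 (C.dg σ m) (C.dg σ (m + 2))) := by
      rw [G_append, mul_add]
      congr 1
      · exact G_pq2 (halfM (m + 1) r negc) C (0, m + 1) (by simp) σ (h3 σ 0 (by omega))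
          (h2 σ (m + 1) (by omega) (by omega))
      · exact G_pq2 (halfM (m + 1) r negc) C (m, m + 2) (by simp) σ (h3 σ m (by omega))
          (h2 σ (m + 2) (by omega) (by omega))
    show ((200 : ℤ) * (((halfM (m + 1) r negc).G C ((chainB m).flatMap pq3) σ / 2 ^ 1 % 2 ^ 4 :
      ℕ) : ℤ)) + ((77 : ℤ) * (((halfM (m + 1) r negc).G C
        (pq2 (0, m + 1) ++ pq2 (m, m + 2)) σ / 2 ^ 1 % 2 ^ 3 : ℕ) : ℤ) + 0) = _
    rw [g1, g2, chain_diag_le (halfM (m + 1) r negc) C m hm' h3 σ]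
    have a1 := wN2_le _ _ (h3 σ 0 (by omega)) (h2 σ (m + 1) (by omega) (by omega))
    have a2 := wN2_le _ _ (h3 σ m (by omega)) (h2 σ (m + 2) (by omega) (by omega))
    have h8 : (2 * (wN2 (C.dg σ 0) (C.dg σ (m + 1)) + wN2 (C.dg σ m) (C.dg σ (m + 2)))) /
        2 ^ 1 % 2 ^ 3 = wN2 (C.dg σ 0) (C.dg σ (m + 1)) + wN2 (C.dg σ m) (C.dg σ (m + 2)) := by
      omega
    rw [h8]
    push_cast
    ring
  rw [hK, map_add, map_sub, CH5_qf_hops, CH5_qf_hops, CH5_qf_diag]
  simp only [List.map_cons, List.map_nil, List.sum_cons, List.sum_nil, sub_zero, add_zero]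
  have hs := sum_chainB m (fun p => CH5_qf x (C.hop p.1 p.2))
  show ((200 : ℕ) : ℝ) * ((chainB m).map (fun p => CH5_qf x (C.hop p.1 p.2))).sum +
    ((110 : ℕ) : ℝ) * (CH5_qf x (C.hop 0 (m + 1)) + CH5_qf x (C.hop m (m + 2))) + _ = _
  rw [hs]
  have hd : ∑ σ, ((((200 * (∑ j ∈ Finset.range m, wN (C.dg σ j) (C.dg σ (j + 1))) +
          77 * (wN2 (C.dg σ 0) (C.dg σ (m + 1)) + wN2 (C.dg σ m) (C.dg σ (m + 2))) : ℕ) : ℤ) -
          (negc : ℤ) : ℤ) : ℝ) * (x σ * x σ) =
      200 * ∑ σ, ((∑ j ∈ Finset.range m, wN (C.dg σ j) (C.dg σ (j + 1)) : ℕ) : ℝ) * (x σ * x σ) +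
      77 * ∑ σ, CH5_w2 (C.dg σ 0) (C.dg σ (m + 1)) * (x σ * x σ) +
      77 * ∑ σ, CH5_w2 (C.dg σ m) (C.dg σ (m + 2)) * (x σ * x σ) -
      negc * ∑ σ, x σ * x σ := by
    rw [Finset.mul_sum, Finset.mul_sum, Finset.mul_sum, Finset.mul_sum,
      ← Finset.sum_add_distrib, ← Finset.sum_add_distrib, ← Finset.sum_sub_distrib]
    apply Finset.sum_congr rfl
    intro σ _
    rw [← wN2_cast _ _ (h3 σ 0 (by omega)) (h2 σ (m + 1) (by omega) (by omega)),
      ← wN2_cast _ _ (h3 σ m (by omega)) (h2 σ (m + 2) (by omega) (by omega))]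
    push_cast
    ring
  rw [hd, chain_diag (halfM (m + 1) r negc) C m h3 x, Finset.sum_add_distrib]
  unfold CH5_dq
  push_cast
  ring

end Half

theorem half_contr (m : ℕ) (hm : 1 ≤ m) (hm' : m ≤ 7) (r negc : ℕ)
    (h1 : ((negc : ℝ) - 200 * m - 154) / 200 - 10.24 ≤ chE m - 1.56)
    (h2 : (m : ℝ) + 0.8 ≤ ((negc : ℝ) - 200 * m - 154) / 200 + 10.24)
    (x : (Fin 2 × (Fin (m + 1) → Fin 3) × Fin 2) → ℝ) :
    |x ⬝ᵥ ((halfM (m + 1) r negc).A (coordH m)) *ᵥ x| ≤ x ⬝ᵥ x := by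
  have hE := half_form m r negc hm' x
  have hA := CH5_A (halfM (m + 1) r negc) (coordH m) x
  rw [hE] at hA
  rw [hA]
  have hX : x ⬝ᵥ x = ∑ σ, x σ * x σ := rfl
  rw [hX]
  have hX0 : 0 ≤ ∑ σ, x σ * x σ := Finset.sum_nonneg (fun σ _ => mul_self_nonneg _)
  have d3 : ∀ k, k < m + 1 → (cond (Nat.blt k (m + 1)) 3 2 : ℕ) = 3 := half_d3 m
  have d2 : ∀ k, m + 1 ≤ k → (cond (Nat.blt k (m + 1)) 3 2 : ℕ) = 2 := half_d2 m
  have e1 := CH5_end_lo (coordH m) x 0 (m + 1) (by omega) (by omega) (by omega)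
    (d3 0 (by omega)) (d2 (m + 1) (by omega))
  have e2 := CH5_end_lo (coordH m) x m (m + 2) (by omega) (by omega) (by omega)
    (d3 m (by omega)) (d2 (m + 2) (by omega))
  have e3 := CH5_end_hi (coordH m) x 0 (m + 1) (by omega) (by omega) (by omega)
    (d3 0 (by omega)) (d2 (m + 1) (by omega))
  have e4 := CH5_end_hi (coordH m) x m (m + 2) (by omega) (by omega) (by omega)
    (d3 m (by omega)) (d2 (m + 2) (by omega))
  set X := ∑ σ, x σ * x σ with hXdef
  have hlo := chain_lo m hm hm' (fun j => CH5_qf x ((coordH m).hop j (j + 1)) +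
        CH5_dq (coordH m) x j (j + 1) CH5_w) X
    (fun j hj => CH5_bond_lo (coordH m) x j (j + 1) (by omega) (by omega) (by omega)
      (d3 j (by omega)) (d3 (j + 1) (by omega)))
    (fun j hj => CH5_bond2 (coordH m) x j (j + 1) (j + 1 + 1) (by omega) (by omega) (by omega)
      (by omega) (by omega) (by omega) (d3 j (by omega)) (d3 (j + 1) (by omega))
      (d3 (j + 1 + 1) (by omega)))
  have hhi : ∑ j ∈ Finset.range m, (CH5_qf x ((coordH m).hop j (j + 1)) +
        CH5_dq (coordH m) x j (j + 1) CH5_w) ≤ (2 * m) * X := by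
    calc _ ≤ ∑ _j ∈ Finset.range m, 2 * X := by
          apply Finset.sum_le_sum
          intro j hj
          rw [Finset.mem_range] at hj
          exact CH5_bond_hi (coordH m) x j (j + 1) (by omega) (by omega) (by omega)
            (d3 j (by omega)) (d3 (j + 1) (by omega))
      _ = (2 * m) * X := by
          rw [Finset.sum_const, Finset.card_range, nsmul_eq_mul]; ring
  have hsh : ((2 : ℝ) ^ ((halfM (m + 1) r negc).sh + 1))⁻¹ = 1 / 2048 := by
    show ((2 : ℝ) ^ (10 + 1))⁻¹ = 1 / 2048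
    norm_num
  rw [hsh, abs_le]
  have k1 : (200 * (chE m + m) - 158 - negc + 2048) * X ≥ 0 := by
    apply mul_nonneg _ hX0
    linarith
  have k2 : (2048 + negc - 400 * m - 314) * X ≥ 0 := by
    apply mul_nonneg _ hX0
    linarith
  constructor
  · linarith
  · linarith

end Crest.Agent.HG
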