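import Mathlib
import Crest.Agent.HG_CC

/-!
# HG-CH5a: averaging over the states of a few sites; bond inequalities

General facts for `C : Coord κ n d`: single-site updates `CH5_upd`, the averaging identity, row sums
of the exchange matrices, and the inequalities `-1 ≤ P ≤ 2`, `P₁₂ + P₂₃ ≥ -1` for `P = S·S + 1`.
-/

set_option autoImplicit false

namespace Crest.Agent.HG
open Matrix

section CH5a
variable {κ : Type} [Fintype κ] [DecidableEq κ] {n : ℕ} {d : ℕ → ℕ}

/-- change the digit of site `k` to `a` -/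
def CH5_upd (C : Coord κ n d) (σ : κ) (k a : ℕ) : κ := C.st (Function.update (C.dg σ) k a)

omit [Fintype κ] [DecidableEq κ] in
theorem CH5_dg_upd (C : Coord κ n d) (σ : κ) (k a : ℕ) (hk : k < n) (ha : a < d k) (l : ℕ) :
    C.dg (CH5_upd C σ k a) l = if l = k then a else C.dg σ l := by
  by_cases hl : l < n
  · rw [CH5_upd, C.dg_st _ _ l hl]
    · by_cases h : l = k
      · subst h; simp
      · simp [Function.update, h]
    · intro l' hl'
      by_cases h : l' = k
      · subst h; simpa using ha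
      · simp only [Function.update, h, dite_false]
        exact C.dg_lt σ l' hl'
  · have : l ≠ k := by omega
    rw [if_neg this, C.dg_ge _ _ (not_lt.1 hl), C.dg_ge _ _ (not_lt.1 hl)]

omit [Fintype κ] [DecidableEq κ] in
theorem CH5_ext (C : Coord κ n d) {σ τ : κ} (h : ∀ k, C.dg σ k = C.dg τ k) : σ = τ := by
  rw [← C.st_dg σ, ← C.st_dg τ]
  congr 1
  funext k
  exact h k

omit [DecidableEq κ] in
/-- the averaging identity -/
theorem CH5_avg (C : Coord κ n d) (k : ℕ) (hk : k < n) (f : κ → ℝ) :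
    ∑ σ, ∑ a ∈ Finset.range (d k), f (CH5_upd C σ k a) = (d k : ℝ) * ∑ σ, f σ := by
  have e1 : (d k : ℝ) * ∑ σ, f σ = ∑ σ, ∑ _a ∈ Finset.range (d k), f σ := by
    rw [Finset.mul_sum]
    apply Finset.sum_congr rfl
    intro σ _
    rw [Finset.sum_const, Finset.card_range, nsmul_eq_mul]
  rw [e1, ← Finset.sum_product', ← Finset.sum_product']
  apply Finset.sum_bij' (fun p _ => (CH5_upd C p.1 k p.2, C.dg p.1 k))
    (fun p _ => (CH5_upd C p.1 k p.2, C.dg p.1 k))
  · intro p _
    simp only [Finset.mem_product, Finset.mem_univ, true_and, Finset.mem_range]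
    exact C.dg_lt _ _ hk
  · intro p _
    simp only [Finset.mem_product, Finset.mem_univ, true_and, Finset.mem_range]
    exact C.dg_lt _ _ hk
  · intro p hp
    simp only [Finset.mem_product, Finset.mem_univ, true_and, Finset.mem_range] at hp
    refine Prod.ext ?_ ?_
    · apply CH5_ext C
      intro l
      simp only
      rw [CH5_dg_upd C _ k _ hk (C.dg_lt _ _ hk), CH5_dg_upd C _ k _ hk hp]
      by_cases h : l = k
      · subst h; simp
      · simp [h]
    · simp only
      rw [CH5_dg_upd C _ k _ hk hp, if_pos rfl]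
  · intro p hp
    simp only [Finset.mem_product, Finset.mem_univ, true_and, Finset.mem_range] at hp
    refine Prod.ext ?_ ?_
    · apply CH5_ext C
      intro l
      simp only
      rw [CH5_dg_upd C _ k _ hk (C.dg_lt _ _ hk), CH5_dg_upd C _ k _ hk hp]
      by_cases h : l = k
      · subst h; simp
      · simp [h]
    · simp only
      rw [CH5_dg_upd C _ k _ hk hp, if_pos rfl]
  · intro p _
    rfl

/-- transition coefficient of a hop -/
def CH5_hc (s t a b : ℕ) : ℝ :=
  if (s + 1 = a ∧ t = b + 1) ∨ (s = a + 1 ∧ t + 1 = b) then 1 else 0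

/-- row sum of the hop matrix against a function -/
theorem CH5_hop_sum (C : Coord κ n d) (i j : ℕ) (hij : i ≠ j) (hi : i < n) (hj : j < n)
    (σ : κ) (g : κ → ℝ) :
    ∑ τ, ((C.hop i j σ τ : ℤ) : ℝ) * g τ =
      ∑ a ∈ Finset.range (d i), ∑ b ∈ Finset.range (d j),
        CH5_hc (C.dg σ i) (C.dg σ j) a b * g (CH5_upd C (CH5_upd C σ i a) j b) := by
  classical
  rw [← Finset.sum_product']
  set S : Finset (ℕ × ℕ) := Finset.range (d i) ×ˢ Finset.range (d j) with hS
  have hdg : ∀ p ∈ S, ∀ l, C.dg (CH5_upd C (CH5_upd C σ i p.1) j p.2) l =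
      if l = j then p.2 else if l = i then p.1 else C.dg σ l := by
    intro p hp l
    rw [hS, Finset.mem_product, Finset.mem_range, Finset.mem_range] at hp
    rw [CH5_dg_upd C _ j _ hj hp.2, CH5_dg_upd C _ i _ hi hp.1]
  have hinj : Set.InjOn (fun p : ℕ × ℕ => CH5_upd C (CH5_upd C σ i p.1) j p.2) (S : Set (ℕ × ℕ)) := by
    intro p hp q hq h
    have h1 : C.dg (CH5_upd C (CH5_upd C σ i p.1) j p.2) i =
      C.dg (CH5_upd C (CH5_upd C σ i q.1) j q.2) i := congrArg (fun τ => C.dg τ i) h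
    have h2 : C.dg (CH5_upd C (CH5_upd C σ i p.1) j p.2) j =
      C.dg (CH5_upd C (CH5_upd C σ i q.1) j q.2) j := congrArg (fun τ => C.dg τ j) h
    rw [hdg p hp, hdg q hq] at h1 h2
    simp only [hij, if_false, if_true] at h1 h2
    exact Prod.ext h1 h2
  have hsub : ∑ τ, ((C.hop i j σ τ : ℤ) : ℝ) * g τ =
      ∑ τ ∈ S.image (fun p : ℕ × ℕ => CH5_upd C (CH5_upd C σ i p.1) j p.2),
        ((C.hop i j σ τ : ℤ) : ℝ) * g τ := by
    symm
    apply Finset.sum_subset (Finset.subset_univ _)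
    intro τ _ hτ
    have h0 : C.hop i j σ τ = 0 := by
      unfold Coord.hop
      rw [Matrix.of_apply, if_neg]
      rintro ⟨h1, _⟩
      apply hτ
      rw [Finset.mem_image]
      have hmem : (C.dg τ i, C.dg τ j) ∈ S := by
        rw [hS, Finset.mem_product, Finset.mem_range, Finset.mem_range]
        exact ⟨C.dg_lt _ _ hi, C.dg_lt _ _ hj⟩
      refine ⟨(C.dg τ i, C.dg τ j), hmem, ?_⟩
      apply CH5_ext C
      intro l
      have := hdg _ hmem l
      simp only at this ⊢
      rw [this]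
      by_cases hl : l = j
      · rw [if_pos hl, hl]
      · rw [if_neg hl]
        by_cases hl' : l = i
        · rw [if_pos hl', hl']
        · rw [if_neg hl']
          exact h1 l hl' hl
    rw [h0]; simp
  rw [hsub, Finset.sum_image hinj]
  apply Finset.sum_congr rfl
  intro p hp
  congr 1
  unfold Coord.hop CH5_hc
  rw [Matrix.of_apply]
  simp only [hdg p hp, if_true, hij, if_false]
  have hall : (∀ k, k ≠ i → k ≠ j →
      C.dg σ k = if k = j then p.2 else if k = i then p.1 else C.dg σ k) := by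
    intro k h1 h2
    rw [if_neg h2, if_neg h1]
  by_cases hc : (C.dg σ i + 1 = p.1 ∧ C.dg σ j = p.2 + 1 ∨ C.dg σ i = p.1 + 1 ∧ C.dg σ j + 1 = p.2)
  · rw [if_pos ⟨hall, hc⟩, if_pos hc]; norm_num
  · rw [if_neg (fun h => hc h.2), if_neg hc]; norm_num

/-- quadratic form of an integer matrix, additive in the matrix -/
noncomputable def CH5_qf (x : κ → ℝ) : Matrix κ κ ℤ →+ ℝ where
  toFun A := ∑ σ, ∑ τ, ((A σ τ : ℤ) : ℝ) * (x σ * x τ)
  map_zero' := by simp
  map_add' A B := by
    simp only [Matrix.add_apply, Int.cast_add, add_mul, Finset.sum_add_distrib]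

/-- the diagonal form `∑ w(σ_i, σ_j) x_σ²` -/
noncomputable def CH5_dq (C : Coord κ n d) (x : κ → ℝ) (i j : ℕ) (w : ℕ → ℕ → ℝ) : ℝ :=
  ∑ σ, w (C.dg σ i) (C.dg σ j) * (x σ * x σ)

theorem CH5_qf_hop (C : Coord κ n d) (x : κ → ℝ) (i j : ℕ) (hij : i ≠ j) (hi : i < n) (hj : j < n) :
    CH5_qf x (C.hop i j) = ∑ σ, x σ * ∑ a ∈ Finset.range (d i), ∑ b ∈ Finset.range (d j),
        CH5_hc (C.dg σ i) (C.dg σ j) a b * x (CH5_upd C (CH5_upd C σ i a) j b) := by
  show ∑ σ, ∑ τ, ((C.hop i j σ τ : ℤ) : ℝ) * (x σ * x τ) = _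
  apply Finset.sum_congr rfl
  intro σ _
  rw [← CH5_hop_sum C i j hij hi hj σ x, Finset.mul_sum]
  apply Finset.sum_congr rfl
  intro τ _
  ring

/-- two-site criterion -/
theorem CH5_two (C : Coord κ n d) (x : κ → ℝ) (i j : ℕ) (hij : i ≠ j) (hi : i < n) (hj : j < n)
    (c : ℝ) (w : ℕ → ℕ → ℝ)
    (hpos : ∀ y : ℕ → ℕ → ℝ, 0 ≤ ∑ s ∈ Finset.range (d i), ∑ t ∈ Finset.range (d j),
      (c * (y s t * ∑ a ∈ Finset.range (d i), ∑ b ∈ Finset.range (d j),
        CH5_hc s t a b * y a b) + w s t * (y s t * y s t))) :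
    0 ≤ c * CH5_qf x (C.hop i j) + CH5_dq C x i j w := by
  have hdi : 0 < d i := by
    by_contra h
    have h0 : d i = 0 := by omega
    by_cases hκ : Nonempty κ
    · obtain ⟨σ⟩ := hκ
      have := C.dg_lt σ i hi
      omega
    · have := C.st (fun _ => 0)
      exact hκ ⟨this⟩
  have hdj : 0 < d j := by
    by_contra h
    have h0 : d j = 0 := by omega
    have := C.dg_lt (C.st (fun _ => 0)) j hj
    omega
  set F : κ → ℝ := fun σ => c * (x σ * ∑ a ∈ Finset.range (d i), ∑ b ∈ Finset.range (d j),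
        CH5_hc (C.dg σ i) (C.dg σ j) a b * x (CH5_upd C (CH5_upd C σ i a) j b)) +
      w (C.dg σ i) (C.dg σ j) * (x σ * x σ) with hF
  have e0 : c * CH5_qf x (C.hop i j) + CH5_dq C x i j w = ∑ σ, F σ := by
    rw [CH5_qf_hop C x i j hij hi hj, CH5_dq, hF, Finset.sum_add_distrib, Finset.mul_sum]
  rw [e0]
  have e1 : ∑ σ, ∑ s ∈ Finset.range (d i), ∑ t ∈ Finset.range (d j),
      F (CH5_upd C (CH5_upd C σ i s) j t) = (d i : ℝ) * ((d j : ℝ) * ∑ σ, F σ) := by
    rw [CH5_avg C i hi (fun σ => ∑ t ∈ Finset.range (d j), F (CH5_upd C σ j t)),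
      CH5_avg C j hj]
  have e2 : 0 ≤ (d i : ℝ) * ((d j : ℝ) * ∑ σ, F σ) := by
    rw [← e1]
    apply Finset.sum_nonneg
    intro σ _
    refine le_of_le_of_eq (hpos (fun s t => x (CH5_upd C (CH5_upd C σ i s) j t))) ?_
    apply Finset.sum_congr rfl
    intro s hs
    apply Finset.sum_congr rfl
    intro t ht
    rw [Finset.mem_range] at hs ht
    have d1 : C.dg (CH5_upd C (CH5_upd C σ i s) j t) i = s := by
      rw [CH5_dg_upd C _ j _ hj ht, if_neg hij, CH5_dg_upd C _ i _ hi hs, if_pos rfl]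
    have d2 : C.dg (CH5_upd C (CH5_upd C σ i s) j t) j = t := by
      rw [CH5_dg_upd C _ j _ hj ht, if_pos rfl]
    simp only [hF]
    rw [d1, d2]
    congr 3
    apply Finset.sum_congr rfl
    intro a ha
    apply Finset.sum_congr rfl
    intro b hb
    rw [Finset.mem_range] at ha hb
    congr 2
    apply CH5_ext C
    intro l
    rw [CH5_dg_upd C _ j _ hj hb, CH5_dg_upd C _ i _ hi ha, CH5_dg_upd C _ j _ hj hb,
      CH5_dg_upd C _ i _ hi ha, CH5_dg_upd C _ j _ hj ht, CH5_dg_upd C _ i _ hi hs]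
    split_ifs <;> rfl
  have h1 : (0 : ℝ) < d i := by exact_mod_cast hdi
  have h2 : (0 : ℝ) < d j := by exact_mod_cast hdj
  have h3 := nonneg_of_mul_nonneg_right e2 h1
  exact nonneg_of_mul_nonneg_right h3 h2

/-- three-site criterion (two bonds `(i,j)`, `(j,k)`) -/
theorem CH5_three (C : Coord κ n d) (x : κ → ℝ) (i j k : ℕ) (hij : i ≠ j) (hjk : j ≠ k)
    (hik : i ≠ k) (hi : i < n) (hj : j < n) (hk : k < n) (c c' : ℝ) (w w' : ℕ → ℕ → ℝ)
    (hpos : ∀ y : ℕ → ℕ → ℕ → ℝ, 0 ≤ ∑ s ∈ Finset.range (d i), ∑ t ∈ Finset.range (d j),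
      ∑ u ∈ Finset.range (d k),
      (c * (y s t u * ∑ a ∈ Finset.range (d i), ∑ b ∈ Finset.range (d j),
        CH5_hc s t a b * y a b u) + w s t * (y s t u * y s t u) +
       (c' * (y s t u * ∑ a ∈ Finset.range (d j), ∑ b ∈ Finset.range (d k),
        CH5_hc t u a b * y s a b) + w' t u * (y s t u * y s t u)))) :
    0 ≤ (c * CH5_qf x (C.hop i j) + CH5_dq C x i j w) +
      (c' * CH5_qf x (C.hop j k) + CH5_dq C x j k w') := by
  have hdi : 0 < d i := by
    have := C.dg_lt (C.st (fun _ => 0)) i hi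
    omega
  have hdj : 0 < d j := by
    have := C.dg_lt (C.st (fun _ => 0)) j hj
    omega
  have hdk : 0 < d k := by
    have := C.dg_lt (C.st (fun _ => 0)) k hk
    omega
  set F : κ → ℝ := fun σ => c * (x σ * ∑ a ∈ Finset.range (d i), ∑ b ∈ Finset.range (d j),
        CH5_hc (C.dg σ i) (C.dg σ j) a b * x (CH5_upd C (CH5_upd C σ i a) j b)) +
      w (C.dg σ i) (C.dg σ j) * (x σ * x σ) +
      (c' * (x σ * ∑ a ∈ Finset.range (d j), ∑ b ∈ Finset.range (d k),
        CH5_hc (C.dg σ j) (C.dg σ k) a b * x (CH5_upd C (CH5_upd C σ j a) k b)) +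
      w' (C.dg σ j) (C.dg σ k) * (x σ * x σ)) with hF
  have e0 : (c * CH5_qf x (C.hop i j) + CH5_dq C x i j w) +
      (c' * CH5_qf x (C.hop j k) + CH5_dq C x j k w') = ∑ σ, F σ := by
    rw [CH5_qf_hop C x i j hij hi hj, CH5_qf_hop C x j k hjk hj hk, CH5_dq, CH5_dq, hF,
      Finset.sum_add_distrib, Finset.sum_add_distrib, Finset.sum_add_distrib, Finset.mul_sum,
      Finset.mul_sum]
  rw [e0]
  have e1 : ∑ σ, ∑ s ∈ Finset.range (d i), ∑ t ∈ Finset.range (d j), ∑ u ∈ Finset.range (d k),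
      F (CH5_upd C (CH5_upd C (CH5_upd C σ i s) j t) k u) =
        (d i : ℝ) * ((d j : ℝ) * ((d k : ℝ) * ∑ σ, F σ)) := by
    rw [CH5_avg C i hi (fun σ => ∑ t ∈ Finset.range (d j), ∑ u ∈ Finset.range (d k),
        F (CH5_upd C (CH5_upd C σ j t) k u)),
      CH5_avg C j hj (fun σ => ∑ u ∈ Finset.range (d k), F (CH5_upd C σ k u)), CH5_avg C k hk]
  have e2 : 0 ≤ (d i : ℝ) * ((d j : ℝ) * ((d k : ℝ) * ∑ σ, F σ)) := by
    rw [← e1]
    apply Finset.sum_nonneg
    intro σ _
    refine le_of_le_of_eq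
      (hpos (fun s t u => x (CH5_upd C (CH5_upd C (CH5_upd C σ i s) j t) k u))) ?_
    apply Finset.sum_congr rfl
    intro s hs
    apply Finset.sum_congr rfl
    intro t ht
    apply Finset.sum_congr rfl
    intro u hu
    rw [Finset.mem_range] at hs ht hu
    have hd : ∀ l, C.dg (CH5_upd C (CH5_upd C (CH5_upd C σ i s) j t) k u) l =
        if l = k then u else if l = j then t else if l = i then s else C.dg σ l := by
      intro l
      rw [CH5_dg_upd C _ k _ hk hu, CH5_dg_upd C _ j _ hj ht, CH5_dg_upd C _ i _ hi hs]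
    have d1 : C.dg (CH5_upd C (CH5_upd C (CH5_upd C σ i s) j t) k u) i = s := by
      rw [hd, if_neg hik, if_neg hij, if_pos rfl]
    have d2 : C.dg (CH5_upd C (CH5_upd C (CH5_upd C σ i s) j t) k u) j = t := by
      rw [hd, if_neg hjk, if_pos rfl]
    have d3 : C.dg (CH5_upd C (CH5_upd C (CH5_upd C σ i s) j t) k u) k = u := by
      rw [hd, if_pos rfl]
    simp only [hF]
    rw [d1, d2, d3]
    congr 4
    · apply Finset.sum_congr rfl
      intro a ha
      apply Finset.sum_congr rfl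
      intro b hb
      rw [Finset.mem_range] at ha hb
      congr 2
      apply CH5_ext C
      intro l
      rw [CH5_dg_upd C _ j _ hj hb, CH5_dg_upd C _ i _ hi ha, hd, CH5_dg_upd C _ k _ hk hu,
        CH5_dg_upd C _ j _ hj hb, CH5_dg_upd C _ i _ hi ha]
      by_cases h1 : l = k
      · have h2 : l ≠ j := by rw [h1]; exact hjk.symm
        have h3 : l ≠ i := by rw [h1]; exact hik.symm
        simp [h1, hjk.symm, hik.symm]
      · simp only [h1, if_false]
        split_ifs <;> rfl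
    · apply Finset.sum_congr rfl
      intro a ha
      apply Finset.sum_congr rfl
      intro b hb
      rw [Finset.mem_range] at ha hb
      congr 2
      apply CH5_ext C
      intro l
      rw [CH5_dg_upd C _ k _ hk hb, CH5_dg_upd C _ j _ hj ha, CH5_dg_upd C _ i _ hi hs,
        CH5_dg_upd C _ k _ hk hb, CH5_dg_upd C _ j _ hj ha, hd]
      split_ifs <;> rfl
  have h1 : (0 : ℝ) < d i := by exact_mod_cast hdi
  have h2 : (0 : ℝ) < d j := by exact_mod_cast hdj
  have h3 : (0 : ℝ) < d k := by exact_mod_cast hdk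
  exact nonneg_of_mul_nonneg_right (nonneg_of_mul_nonneg_right
    (nonneg_of_mul_nonneg_right e2 h1) h2) h3

end CH5a
end Crest.Agent.HG
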