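import Crest.Agent.HG_ADefs
import Crest.Agent.HGB_Tens

/-!
HG task Gap: spectral consequences.
-/

set_option autoImplicit false

namespace Crest.Agent.HG
open Matrix Crest.MathPhysics.SpinChain

section spectral
variable {κ : Type*} [Fintype κ] [DecidableEq κ]

/-- matrix form of the spectral theorem -/
private theorem gap_spec (H : Matrix κ κ ℂ) (hH : H.IsHermitian) :
    ∃ U : Matrix κ κ ℂ, Uᴴ * U = 1 ∧ U * Uᴴ = 1 ∧
      H = U * diagonal (fun i => ((hH.eigenvalues i : ℝ) : ℂ)) * Uᴴ := by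
  refine ⟨hH.eigenvectorUnitary, ?_, ?_, ?_⟩
  · exact Unitary.coe_star_mul_self hH.eigenvectorUnitary
  · exact Unitary.coe_mul_star_self hH.eigenvectorUnitary
  · have h := hH.spectral_theorem
    rw [Unitary.conjStarAlgAut_apply] at h
    exact h

/-- `Zt 1 H β = Σ_i exp(-β λ_i)` with the eigenvalues of the Hermitian matrix `H`. -/
theorem Zt_eq_sum {κ : Type*} [Fintype κ] [DecidableEq κ] (H : Matrix κ κ ℂ) (hH : H.IsHermitian)
    (β : ℝ) : Zt 1 H β = ∑ i, Real.exp (-(β * hH.eigenvalues i)) := by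
  obtain ⟨U, hU1, hU2, hH'⟩ := gap_spec H hH
  have hinv : U⁻¹ = Uᴴ := Matrix.inv_eq_right_inv hU2
  have hunit : IsUnit U := ⟨⟨U, Uᴴ, hU2, hU1⟩, rfl⟩
  have h1 : (-(β : ℂ)) • H = U * diagonal (fun i => ((-(β * hH.eigenvalues i) : ℝ) : ℂ)) * U⁻¹ := by
    have e1 : (-(β : ℂ)) • H =
        (-(β : ℂ)) • (U * diagonal (fun i => ((hH.eigenvalues i : ℝ) : ℂ)) * Uᴴ) := by
      congr 1
    rw [e1, hinv, ← Matrix.smul_mul, ← Matrix.mul_smul, ← Matrix.diagonal_smul]
    congr 3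
    funext i
    simp only [Pi.smul_apply, smul_eq_mul]
    push_cast
    ring
  unfold Zt
  rw [one_mul, h1, Matrix.exp_conj _ _ hunit, Matrix.trace_mul_comm, ← mul_assoc,
    hinv, hU1, one_mul, Matrix.exp_diagonal, Matrix.trace_diagonal, Complex.re_sum]
  refine Finset.sum_congr rfl (fun i _ => ?_)
  rw [Pi.coe_exp, ← Complex.exp_eq_exp_ℂ, ← Complex.ofReal_exp, Complex.ofReal_re]

/-- the two quadratic forms in the eigenbasis -/
private theorem gap_quad (H U : Matrix κ κ ℂ) (lam : κ → ℝ) (hU2 : U * Uᴴ = 1)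
    (hH : H = U * diagonal (fun i => ((lam i : ℝ) : ℂ)) * Uᴴ) (ψ : κ → ℂ) :
    (star ψ ⬝ᵥ H.mulVec ψ).re = ∑ i, lam i * Complex.normSq ((Uᴴ *ᵥ ψ) i) ∧
    (star ψ ⬝ᵥ ψ).re = ∑ i, Complex.normSq ((Uᴴ *ᵥ ψ) i) := by
  set φ : κ → ℂ := Uᴴ *ᵥ ψ with hφ
  have hψ : ψ = U *ᵥ φ := by
    rw [hφ, Matrix.mulVec_mulVec, hU2, Matrix.one_mulVec]
  have hstar : ∀ v : κ → ℂ, star ψ ⬝ᵥ (U *ᵥ v) = star φ ⬝ᵥ v := by
    intro v
    rw [Matrix.dotProduct_mulVec, hφ, Matrix.star_mulVec, Matrix.conjTranspose_conjTranspose]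
  constructor
  · rw [hH, Matrix.mul_assoc, ← Matrix.mulVec_mulVec, hstar, ← Matrix.mulVec_mulVec, ← hφ]
    simp only [dotProduct, Matrix.mulVec_diagonal, Pi.star_apply, Complex.re_sum]
    refine Finset.sum_congr rfl (fun i _ => ?_)
    have : star (φ i) * ((lam i : ℂ) * φ i) = ((lam i * Complex.normSq (φ i) : ℝ) : ℂ) := by
      push_cast
      rw [Complex.normSq_eq_conj_mul_self]
      simp only [Complex.star_def]
      ring
    rw [this, Complex.ofReal_re]
  · have h2 : star ψ ⬝ᵥ ψ = star φ ⬝ᵥ φ := by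
      conv_lhs => rw [show ψ = U *ᵥ φ from hψ]
      rw [← hψ, ← hstar φ, ← hψ]
    rw [h2]
    simp only [dotProduct, Pi.star_apply, Complex.re_sum]
    refine Finset.sum_congr rfl (fun i _ => ?_)
    have : star (φ i) * φ i = ((Complex.normSq (φ i) : ℝ) : ℂ) := by
      rw [Complex.normSq_eq_conj_mul_self]
      simp only [Complex.star_def]
    rw [this, Complex.ofReal_re]

private theorem PS_nonneg {x : ℝ → ℝ} (hx : PS x) (β : ℝ) : 0 ≤ x β := by
  obtain ⟨m, e, _, hx⟩ := hx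
  rw [hx]
  exact Finset.sum_nonneg (fun j _ => (Real.exp_pos _).le)

private theorem PS_bdd {x : ℝ → ℝ} (hx : PS x) : ∃ m : ℝ, ∀ β, 0 ≤ β → x β ≤ m := by
  obtain ⟨m, e, he, hx⟩ := hx
  refine ⟨m, fun β hβ => ?_⟩
  rw [hx]
  calc ∑ j, Real.exp (-(β * e j)) ≤ ∑ _j : Fin m, (1:ℝ) := by
        refine Finset.sum_le_sum (fun j _ => ?_)
        rw [Real.exp_le_one_iff]
        have := mul_nonneg hβ (he j)
        linarith
    _ = m := by simp

/-- lower bound for the eigenvalues -/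
private theorem gap_lower {lam : κ → ℝ} {E : ℝ} {x : ℝ → ℝ} (hx : PS x)
    (hZ : ∀ β', ∑ i, Real.exp (-(β' * lam i)) = Real.exp (-(β' * E)) * (1 + x β')) (i : κ) :
    E ≤ lam i := by
  obtain ⟨m, hm⟩ := PS_bdd hx
  by_contra hcon
  push Not at hcon
  have hd : 0 < E - lam i := by linarith
  have h1 : ∀ β : ℝ, 0 ≤ β → Real.exp (β * (E - lam i)) ≤ 1 + m := by
    intro β hβ
    have h2 : Real.exp (-(β * lam i)) ≤ Real.exp (-(β * E)) * (1 + x β) := by
      rw [← hZ β]
      exact Finset.single_le_sum (f := fun i => Real.exp (-(β * lam i)))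
        (fun j _ => (Real.exp_pos _).le) (Finset.mem_univ i)
    have h3 : Real.exp (-(β * lam i)) = Real.exp (-(β * E)) * Real.exp (β * (E - lam i)) := by
      rw [← Real.exp_add]; congr 1; ring
    rw [h3] at h2
    have h4 := le_of_mul_le_mul_left h2 (Real.exp_pos _)
    linarith [hm β hβ]
  have hm1 : 0 < 1 + m := lt_of_lt_of_le (Real.exp_pos _) (h1 0 le_rfl)
  have h5 := h1 ((1 + m) / (E - lam i)) (by positivity)
  rw [div_mul_cancel₀ _ hd.ne'] at h5
  have h6 := Real.add_one_le_exp (1 + m)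
  linarith

/-- the lowest eigenvalue is `E` -/
private theorem gap_exists {lam : κ → ℝ} {E : ℝ} {x : ℝ → ℝ} (hx : PS x)
    (hZ : ∀ β', ∑ i, Real.exp (-(β' * lam i)) = Real.exp (-(β' * E)) * (1 + x β')) :
    ∃ i, lam i = E := by
  by_contra hcon
  push Not at hcon
  have hlt : ∀ i, E < lam i := fun i => lt_of_le_of_ne (gap_lower hx hZ i) (Ne.symm (hcon i))
  have h1 : ∀ β : ℝ, 1 ≤ ∑ i, Real.exp (-(β * (lam i - E))) := by
    intro β
    have h2 : ∑ i, Real.exp (-(β * (lam i - E))) = Real.exp (β * E) * ∑ i, Real.exp (-(β * lam i)) := by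
      rw [Finset.mul_sum]
      refine Finset.sum_congr rfl (fun i _ => ?_)
      rw [← Real.exp_add]; congr 1; ring
    rw [h2, hZ β, ← mul_assoc, ← Real.exp_add]
    have : β * E + -(β * E) = 0 := by ring
    rw [this, Real.exp_zero, one_mul]
    linarith [PS_nonneg hx β]
  have h2 : Filter.Tendsto (fun β : ℝ => ∑ i, Real.exp (-(β * (lam i - E)))) Filter.atTop
      (nhds (∑ _i : κ, (0:ℝ))) := by
    refine tendsto_finsetSum _ (fun i _ => ?_)
    have h3 : 0 < lam i - E := by linarith [hlt i]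
    refine Real.tendsto_exp_neg_atTop_nhds_zero.comp ?_
    exact Filter.Tendsto.atTop_mul_const h3 Filter.tendsto_id
  rw [Finset.sum_const_zero] at h2
  have h3 := h2.eventually (gt_mem_nhds (show (0:ℝ) < 1 by norm_num))
  obtain ⟨β, hβ⟩ := h3.exists
  linarith [h1 β]

end spectral

/-- gap from the excess. PROOF: `Σ_i e^{-β'λ_i} = e^{-β'E}(1+x β')` for all `β'` gives
`min λ = E` (compare `β' → ∞`), then `Σ_{i≠i0} e^{-β(λ_i-E)} = x β < e^{-βc}`, so `λ_i > E + c`
for all `i ≠ i0`; expand `ψ` in the eigenbasis. -/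
theorem gap_of_excess {κ : Type*} [Fintype κ] [DecidableEq κ] (H : Matrix κ κ ℂ)
    (hH : H.IsHermitian) {E c β : ℝ} {x : ℝ → ℝ} (hx : PS x)
    (hZ : ∀ β', Zt 1 H β' = Real.exp (-(β' * E)) * (1 + x β')) (hβ : 0 < β)
    (hc : x β < Real.exp (-(β * c))) : HasSimpleGroundStateWithGap H c := by
  have hZ' : ∀ β', ∑ i, Real.exp (-(β' * hH.eigenvalues i)) = Real.exp (-(β' * E)) * (1 + x β') := by
    intro β'
    rw [← Zt_eq_sum, hZ]
  obtain ⟨i0, hi0⟩ := gap_exists hx hZ'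
  obtain ⟨U, hU1, hU2, hH'⟩ := gap_spec H hH
  set lam := hH.eigenvalues with hlam
  have hgap : ∀ i, i ≠ i0 → E + c < lam i := by
    intro i hi
    have h1 : ∑ j ∈ Finset.univ.erase i0, Real.exp (-(β * (lam j - E))) = x β := by
      have h2 : ∑ j, Real.exp (-(β * (lam j - E))) = Real.exp (β * E) * ∑ j, Real.exp (-(β * lam j)) := by
        rw [Finset.mul_sum]
        refine Finset.sum_congr rfl (fun i _ => ?_)
        rw [← Real.exp_add]; congr 1; ring
      have h3 : Real.exp (β * E) * (Real.exp (-(β * E)) * (1 + x β)) = 1 + x β := by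
        rw [← mul_assoc, ← Real.exp_add]
        have : β * E + -(β * E) = 0 := by ring
        rw [this, Real.exp_zero, one_mul]
      rw [hZ' β, h3, ← Finset.add_sum_erase _ _ (Finset.mem_univ i0), hi0, sub_self, mul_zero, neg_zero,
        Real.exp_zero] at h2
      linarith
    have h4 : Real.exp (-(β * (lam i - E))) ≤ x β := by
      rw [← h1]
      exact Finset.single_le_sum (f := fun j => Real.exp (-(β * (lam j - E))))
        (fun j _ => (Real.exp_pos _).le) (Finset.mem_erase.mpr ⟨hi, Finset.mem_univ _⟩)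
    have h5 := Real.exp_lt_exp.mp (lt_of_le_of_lt h4 hc)
    have h6 : β * c < β * (lam i - E) := by linarith
    have h7 := lt_of_mul_lt_mul_left h6 hβ.le
    linarith
  refine ⟨E, U *ᵥ Pi.single i0 1, ?_, ?_, ?_⟩
  · intro h0
    have h1 : Uᴴ *ᵥ (U *ᵥ Pi.single i0 (1:ℂ)) = 0 := by rw [h0, Matrix.mulVec_zero]
    rw [Matrix.mulVec_mulVec, hU1, Matrix.one_mulVec] at h1
    have h2 := congrFun h1 i0
    simp at h2
  · have h1 : H *ᵥ (U *ᵥ Pi.single i0 (1:ℂ)) =
        (U * diagonal (fun i => ((lam i : ℝ) : ℂ)) * Uᴴ) *ᵥ (U *ᵥ Pi.single i0 (1:ℂ)) := by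
      congr 1
    rw [h1, Matrix.mulVec_mulVec, Matrix.mul_assoc, hU1, Matrix.mul_one, ← Matrix.mulVec_mulVec]
    have h2 : diagonal (fun i => ((lam i : ℝ) : ℂ)) *ᵥ Pi.single i0 (1:ℂ) = (E : ℂ) • Pi.single i0 (1:ℂ) := by
      funext j
      rw [Matrix.mulVec_diagonal, Pi.smul_apply, smul_eq_mul]
      by_cases hj : j = i0
      · subst hj; rw [hi0]
      · rw [Pi.single_eq_of_ne hj]; simp
    rw [h2, Matrix.mulVec_smul]
  · intro ψ hψ horth
    obtain ⟨q1, q2⟩ := gap_quad H U lam hU2 hH' ψ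
    rw [q1, q2, Finset.mul_sum]
    set φ := Uᴴ *ᵥ ψ with hφ
    have hφ0 : φ i0 = 0 := by
      rw [hφ]
      have h1 : star (U *ᵥ Pi.single i0 (1:ℂ)) ⬝ᵥ ψ = (Uᴴ *ᵥ ψ) i0 := by
        rw [Matrix.star_mulVec, ← Matrix.dotProduct_mulVec]
        simp
      rw [← h1]; exact horth
    have hφne : ∃ i, φ i ≠ 0 := by
      by_contra hcon
      push Not at hcon
      apply hψ
      have h1 : φ = 0 := funext hcon
      have h2 : U *ᵥ φ = ψ := by rw [hφ, Matrix.mulVec_mulVec, hU2, Matrix.one_mulVec]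
      rw [← h2, h1, Matrix.mulVec_zero]
    obtain ⟨i, hi⟩ := hφne
    have hterm : ∀ j, (E + c) * Complex.normSq (φ j) ≤ lam j * Complex.normSq (φ j) := by
      intro j
      by_cases hj : j = i0
      · rw [hj, hφ0]; simp
      · exact mul_le_mul_of_nonneg_right (hgap j hj).le (Complex.normSq_nonneg _)
    refine Finset.sum_lt_sum (fun j _ => hterm j) ⟨i, Finset.mem_univ _, ?_⟩
    have hii : i ≠ i0 := fun h => hi (by rw [h, hφ0])
    exact mul_lt_mul_of_pos_right (hgap i hii) (Complex.normSq_pos.mpr hi)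

/-- variational principle: a trial vector with energy `≤ E'` gives `E ≤ E'`. -/
theorem E_le_of_trial {κ : Type*} [Fintype κ] [DecidableEq κ] (H : Matrix κ κ ℂ)
    (hH : H.IsHermitian) {E E' : ℝ} {x : ℝ → ℝ} (hx : PS x)
    (hZ : ∀ β', Zt 1 H β' = Real.exp (-(β' * E)) * (1 + x β')) (ψ : κ → ℂ) (hψ : ψ ≠ 0)
    (hE : (star ψ ⬝ᵥ H.mulVec ψ).re ≤ E' * (star ψ ⬝ᵥ ψ).re) : E ≤ E' := by
  have hZ' : ∀ β', ∑ i, Real.exp (-(β' * hH.eigenvalues i)) = Real.exp (-(β' * E)) * (1 + x β') := by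
    intro β'
    rw [← Zt_eq_sum, hZ]
  obtain ⟨U, hU1, hU2, hH'⟩ := gap_spec H hH
  obtain ⟨q1, q2⟩ := gap_quad H U hH.eigenvalues hU2 hH' ψ
  rw [q1, q2] at hE
  have hpos : 0 < ∑ i, Complex.normSq ((Uᴴ *ᵥ ψ) i) := by
    have hne : ∃ i, (Uᴴ *ᵥ ψ) i ≠ 0 := by
      by_contra hcon
      push Not at hcon
      apply hψ
      have h1 : Uᴴ *ᵥ ψ = 0 := funext hcon
      have h2 : U *ᵥ (Uᴴ *ᵥ ψ) = ψ := by rw [Matrix.mulVec_mulVec, hU2, Matrix.one_mulVec]
      rw [← h2, h1, Matrix.mulVec_zero]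
    obtain ⟨i, hi⟩ := hne
    exact Finset.sum_pos' (fun j _ => Complex.normSq_nonneg _) ⟨i, Finset.mem_univ _, Complex.normSq_pos.mpr hi⟩
  have h1 : E * ∑ i, Complex.normSq ((Uᴴ *ᵥ ψ) i) ≤ ∑ i, hH.eigenvalues i * Complex.normSq ((Uᴴ *ᵥ ψ) i) := by
    rw [Finset.mul_sum]
    exact Finset.sum_le_sum (fun i _ =>
      mul_le_mul_of_nonneg_right (gap_lower hx hZ' i) (Complex.normSq_nonneg _))
  exact le_of_mul_le_mul_right (h1.trans hE) hpos

theorem ringH_one (n : ℕ) : ringH sOne n = heisenbergRing n := by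
  unfold ringH heisenbergRing bond sOne
  refine Finset.sum_congr rfl (fun j _ => Finset.sum_congr rfl (fun a _ => ?_))
  simp

theorem openS_one (n : ℕ) (h : ℝ) : openS 1 n h = openChainEndField n h := by
  unfold openS openChainEndField
  simp

private theorem gap_smul {κ : Type*} (r : ℝ) {A : Matrix κ κ ℂ} (hA : A.IsHermitian) :
    ((r : ℂ) • A).IsHermitian := by
  unfold Matrix.IsHermitian
  rw [Matrix.conjTranspose_smul, hA.eq]
  congr 1
  exact Complex.conj_ofReal r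

private theorem gap_onSite {ι : Type*} [Fintype ι] [DecidableEq ι] {A : Matrix (Fin 3) (Fin 3) ℂ}
    (hA : A.IsHermitian) (j : ι) : (onSite A j).IsHermitian := by
  ext σ τ
  simp only [onSite, Matrix.conjTranspose_apply, Matrix.of_apply]
  by_cases h : ∀ k, k ≠ j → σ k = τ k
  · rw [if_pos h, if_pos (fun k hk => (h k hk).symm)]
    exact hA.apply _ _
  · rw [if_neg h, if_neg (fun h' => h (fun k hk => (h' k hk).symm)), star_zero]

private theorem gap_plus : spinPlusᴴ = spinMinus := rfl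

private theorem gap_spinOp (a : Fin 3) : (spinOp a).IsHermitian := by
  fin_cases a
  · show spinX.IsHermitian
    unfold spinX Matrix.IsHermitian spinMinus
    rw [Matrix.conjTranspose_smul, Matrix.conjTranspose_add, Matrix.conjTranspose_conjTranspose, add_comm]
    congr 1
    simp
  · show spinY.IsHermitian
    unfold spinY Matrix.IsHermitian spinMinus
    rw [Matrix.conjTranspose_smul, Matrix.conjTranspose_sub, Matrix.conjTranspose_conjTranspose,
      ← neg_sub spinPlus, smul_neg, ← neg_smul]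
    congr 1
    simp
  · show spinZ.IsHermitian
    unfold spinZ
    rw [Matrix.isHermitian_diagonal_iff]
    intro i
    show IsSelfAdjoint _
    rw [isSelfAdjoint_iff]
    simp

private theorem gap_bond_term {ι : Type*} [Fintype ι] [DecidableEq ι] (a : Fin 3) (j k : ι) :
    (onSite (spinOp a) j * onSite (spinOp a) k).IsHermitian := by
  unfold Matrix.IsHermitian
  rw [Matrix.conjTranspose_mul, (gap_onSite (gap_spinOp a) j).eq, (gap_onSite (gap_spinOp a) k).eq]
  by_cases h : j = k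
  · rw [h]
  · rw [HGB.onSite_mul_onSite _ _ h, HGB.onSite_mul_onSite _ _ (Ne.symm h), Function.update_comm h]

private theorem gap_sum {ι κ : Type*} (s : Finset ι) (f : ι → Matrix κ κ ℂ) (h : ∀ i ∈ s, (f i).IsHermitian) :
    (∑ i ∈ s, f i).IsHermitian := by
  unfold Matrix.IsHermitian
  rw [Matrix.conjTranspose_sum]
  exact Finset.sum_congr rfl (fun i hi => (h i hi).eq)

theorem ringH_herm (s : Fin 3 → ℝ) (n : ℕ) : (ringH s n).IsHermitian := by
  unfold ringH
  refine gap_sum _ _ (fun j _ => gap_sum _ _ (fun a _ => ?_))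
  exact gap_smul _ (gap_bond_term a _ _)

theorem openS_herm (s : ℝ) (n : ℕ) (h : ℝ) : (openS s n h).IsHermitian := by
  unfold openS bond
  refine Matrix.IsHermitian.sub (gap_sum _ _ (fun j _ => gap_sum _ _ (fun a _ => gap_bond_term a _ _))) ?_
  refine gap_smul _ (Matrix.IsHermitian.add ?_ (gap_smul _ ?_))
  · exact gap_onSite (gap_spinOp 2) _
  · exact gap_onSite (gap_spinOp 2) _

end Crest.Agent.HG
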