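import Crest.Agent.HG_ADefs

/-!
HG task Sys2: from the sector representations `RepK`, `RepZ` to the total representation `SpW`.

All eigenvalues `κ χ i` (`χ : Fin 4`, `i : ℕ`) are merged; the top one is `κ χ* 0` with `|κ χ* 0|`
maximal over `χ` (the others are `≤` by antitonicity). `lam = |κ χ* 0|`, `w` = weight of the top
index: `α 0` if `χ* = 0`, `b 0` if `χ* = 3`, else `0`. The remaining eigenvalues form a countable
family (use any bijection of `Fin 4 × ℕ` minus the top index with `ℕ`, or set the `r` of the top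
index to be replaced: e.g. shift the sequence `χ*` by one), `r = |κ|/lam`.
For even `n`: `Vo (-1) n = Ao + Bo = Σ α κ_0^(n-2) + Σ b κ_3^(n-2)`, even powers.
For odd `n`: `Vo 1 n = Ao - Bo`; the top term is `σ w lam^(n-2)` with `σ = sign(κ 0 0)` if `χ* = 0`,
`σ = -sign(κ 3 0)` if `χ* = 3`; the rest is at most `Σ ω_i r_i^(n-2) ≤ Σ ω_i r_i^(n-3)`, which is
`Vo (-1) (n-1)/lam^(n-3) - w`.
-/

set_option autoImplicit false

namespace Crest.Agent.HG

private lemma Sys2_hasSum_prod {f : Fin 4 × ℕ → ℝ} {g : Fin 4 → ℝ}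
    (h : ∀ χ, HasSum (fun i => f (χ, i)) (g χ)) : HasSum f (∑ χ, g χ) := by
  have hs : Summable f := by
    rw [← summable_abs_iff]
    rw [summable_prod_of_nonneg (fun j => abs_nonneg _)]
    refine ⟨fun χ => ?_, ?_⟩
    · have := (h χ).summable
      rw [← summable_abs_iff] at this
      exact this
    · exact (hasSum_fintype _).summable
  have h1 := hs.hasSum.prod_fiberwise h
  have h2 := h1.unique (hasSum_fintype g)
  rw [← h2]
  exact hs.hasSum

private lemma Sys2_remove {f : Fin 4 × ℕ → ℝ} {g : ℝ} (h : HasSum f g) (top : Fin 4 × ℕ) :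
    HasSum (fun j => if j = top then 0 else f j) (g - f top) := by
  have h1 : HasSum (fun j => if j = top then f top else 0) (f top) := hasSum_ite_eq top (f top)
  have h2 := h.sub h1
  have h3 : (fun j => f j - if j = top then f top else 0) = fun j => if j = top then 0 else f j := by
    funext j
    by_cases hj : j = top
    · simp [hj]
    · simp [hj]
  rw [h3] at h2
  exact h2

private lemma Sys2_core {κ : Fin 4 → ℕ → ℝ} {α b : ℕ → ℝ}
    (hanti : ∀ χ, Antitone fun i => |κ χ i|) (hα : ∀ i, 0 ≤ α i) (hb : ∀ i, 0 ≤ b i)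
    {m : Fin 4 → ℕ → ℝ} {A B : ℕ → ℝ}
    (hm : ∀ χ L, Even L → 4 ≤ L → HasSum (fun i => |κ χ i| ^ L) (m χ L))
    (hA : ∀ N, 4 ≤ N → HasSum (fun i => α i * κ 0 i ^ (N - 2)) (A N))
    (hB : ∀ N, 4 ≤ N → HasSum (fun i => b i * κ 3 i ^ (N - 2)) (B N))
    (hpos : 0 < ∑ χ, m χ 4) :
    ∃ lam w : ℝ, 0 < lam ∧ 0 ≤ w ∧ SpW (fun L => ∑ χ, m χ L) (fun n => A n + B n) lam w ∧
      ∃ σ : ℝ, (σ = 1 ∨ σ = -1) ∧ ∀ n, Odd n → 5 ≤ n →
        |(A n - B n) / lam ^ (n - 2) - σ * w| ≤ (A (n - 1) + B (n - 1)) / lam ^ (n - 1 - 2) - w := by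
  classical
  -- the top index
  obtain ⟨c, -, hc⟩ := Finset.exists_max_image (Finset.univ : Finset (Fin 4)) (fun χ => |κ χ 0|)
    ⟨0, Finset.mem_univ 0⟩
  have hmax : ∀ χ i, |κ χ i| ≤ |κ c 0| := fun χ i =>
    (hanti χ (Nat.zero_le i)).trans (hc χ (Finset.mem_univ _))
  set lam : ℝ := |κ c 0| with hlamdef
  have hlam : 0 < lam := by
    rcases (abs_nonneg (κ c 0)).eq_or_lt with h0 | h0
    · exfalso
      have hz : ∀ χ i, |κ χ i| = 0 := fun χ i =>
        le_antisymm (by rw [h0]; exact hmax χ i) (abs_nonneg _)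
      have : ∀ χ, m χ 4 = 0 := by
        intro χ
        have h1 := hm χ 4 (by decide) le_rfl
        have h2 : HasSum (fun i => |κ χ i| ^ 4) 0 := by
          have : (fun i => |κ χ i| ^ 4) = fun _ => (0 : ℝ) := by
            funext i; rw [hz]; norm_num
          rw [this]; exact hasSum_zero
        exact h1.unique h2
      simp [this] at hpos
    · exact h0
  set W : Fin 4 → ℕ → ℝ := fun χ i => if χ = 0 then α i else if χ = 3 then b i else 0 with hW
  have hWnn : ∀ χ i, 0 ≤ W χ i := by
    intro χ i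
    simp only [hW]
    split_ifs
    · exact hα i
    · exact hb i
    · exact le_rfl
  -- signed sums
  have key : ∀ (t : Fin 4 → ℝ) (N : ℕ), 4 ≤ N →
      HasSum (fun j : Fin 4 × ℕ => t j.1 * (W j.1 j.2 * (κ j.1 j.2 / lam) ^ (N - 2)))
        ((t 0 * A N + t 3 * B N) / lam ^ (N - 2)) := by
    intro t N hN
    have h1 := Sys2_hasSum_prod (f := fun j : Fin 4 × ℕ =>
      t j.1 * (W j.1 j.2 * (κ j.1 j.2 / lam) ^ (N - 2)))
      (g := fun χ => (if χ = 0 then t 0 * A N else if χ = 3 then t 3 * B N else 0) / lam ^ (N - 2))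
      (by
        intro χ
        by_cases h0 : χ = 0
        · subst h0
          have h2 := ((hA N hN).mul_left (t 0)).div_const (lam ^ (N - 2))
          have h3 : (fun i => t 0 * (α i * κ 0 i ^ (N - 2)) / lam ^ (N - 2)) = fun i : ℕ =>
              t ((0 : Fin 4), i).1 * (W ((0 : Fin 4), i).1 ((0 : Fin 4), i).2 *
                (κ ((0 : Fin 4), i).1 ((0 : Fin 4), i).2 / lam) ^ (N - 2)) := by
            funext i
            simp only [hW, if_true, div_pow]
            ring
          rw [h3] at h2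
          simpa using h2
        · by_cases h3 : χ = 3
          · subst h3
            have h2 := ((hB N hN).mul_left (t 3)).div_const (lam ^ (N - 2))
            have h4 : (fun i => t 3 * (b i * κ 3 i ^ (N - 2)) / lam ^ (N - 2)) = fun i : ℕ =>
                t ((3 : Fin 4), i).1 * (W ((3 : Fin 4), i).1 ((3 : Fin 4), i).2 *
                  (κ ((3 : Fin 4), i).1 ((3 : Fin 4), i).2 / lam) ^ (N - 2)) := by
              funext i
              simp only [hW, if_neg h0, if_true, div_pow]
              ring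
            rw [h4] at h2
            simpa [h0] using h2
          · have h4 : (fun i : ℕ => t (χ, i).1 * (W (χ, i).1 (χ, i).2 *
                  (κ (χ, i).1 (χ, i).2 / lam) ^ (N - 2))) = fun _ => (0 : ℝ) := by
              funext i
              simp [hW, h0, h3]
            rw [h4]
            simp only [h0, h3, if_false, zero_div]
            exact hasSum_zero)
    have h2 : (∑ χ : Fin 4, (if χ = 0 then t 0 * A N else if χ = 3 then t 3 * B N else 0) /
        lam ^ (N - 2)) = (t 0 * A N + t 3 * B N) / lam ^ (N - 2) := by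
      rw [Fin.sum_univ_four]
      simp
      ring
    rw [h2] at h1
    exact h1
  have keyP : ∀ L, Even L → 4 ≤ L →
      HasSum (fun j : Fin 4 × ℕ => (|κ j.1 j.2| / lam) ^ L) ((∑ χ, m χ L) / lam ^ L) := by
    intro L hL hL4
    have h1 := Sys2_hasSum_prod (f := fun j : Fin 4 × ℕ => (|κ j.1 j.2| / lam) ^ L)
      (g := fun χ => m χ L / lam ^ L) (by
        intro χ
        have h2 := (hm χ L hL hL4).div_const (lam ^ L)
        have h3 : (fun i => |κ χ i| ^ L / lam ^ L) = fun i : ℕ =>
            (|κ (χ, i).1 (χ, i).2| / lam) ^ L := by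
          funext i; rw [div_pow]
        rw [h3] at h2
        exact h2)
    rw [← Finset.sum_div] at h1
    exact h1
  set top : Fin 4 × ℕ := (c, 0) with htop
  set rr : Fin 4 × ℕ → ℝ := fun j => if j = top then 0 else |κ j.1 j.2| / lam with hrr
  have hrr0 : ∀ j, 0 ≤ rr j := by
    intro j
    simp only [hrr]
    split_ifs
    · exact le_rfl
    · positivity
  have hrr1 : ∀ j, rr j ≤ 1 := by
    intro j
    simp only [hrr]
    split_ifs
    · exact zero_le_one
    · rw [div_le_one hlam]
      exact hmax _ _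
  set e : ℕ ≃ Fin 4 × ℕ := (Nat.divModEquiv 4).trans (Equiv.prodComm _ _) with he
  have heven : ∀ n, Even n → 4 ≤ n → Even (n - 2) := by
    intro n hn h4
    obtain ⟨k, hk⟩ := hn
    exact ⟨k - 1, by omega⟩
  have hsumE : ∀ n, Even n → 4 ≤ n →
      HasSum (fun j => W j.1 j.2 * rr j ^ (n - 2)) ((A n + B n) / lam ^ (n - 2) - W c 0) := by
    intro n hn h4
    have h1 := Sys2_remove (key (fun _ => 1) n h4) top
    have h2 : (fun j : Fin 4 × ℕ => if j = top then 0 else
        (1 : ℝ) * (W j.1 j.2 * (κ j.1 j.2 / lam) ^ (n - 2))) =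
        fun j => W j.1 j.2 * rr j ^ (n - 2) := by
      funext j
      by_cases hj : j = top
      · simp only [hrr, if_pos hj]
        rw [zero_pow (by omega), mul_zero]
      · simp only [hrr, if_neg hj, one_mul]
        rw [← (heven n hn h4).pow_abs (κ j.1 j.2 / lam), abs_div, abs_of_pos hlam]
    rw [h2] at h1
    have h3 : (1 : ℝ) * (W top.1 top.2 * (κ top.1 top.2 / lam) ^ (n - 2)) = W c 0 := by
      simp only [htop]
      rw [← (heven n hn h4).pow_abs (κ c 0 / lam), abs_div, abs_of_pos hlam, ← hlamdef,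
        div_self hlam.ne', one_pow]
      ring
    rw [h3] at h1
    simpa using h1
  refine ⟨lam, W c 0, hlam, hWnn _ _, ?_, ?_⟩
  · refine ⟨fun k => rr (e k), fun k => W (e k).1 (e k).2, fun k => ⟨hrr0 _, hrr1 _, hWnn _ _⟩, ?_, ?_⟩
    · intro L hL hL4
      have h1 := Sys2_remove (keyP L hL hL4) top
      have h2 : (fun j : Fin 4 × ℕ => if j = top then 0 else (|κ j.1 j.2| / lam) ^ L) =
          fun j => rr j ^ L := by
        funext j
        by_cases hj : j = top
        · simp only [hrr, if_pos hj]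
          rw [zero_pow (by omega)]
        · simp only [hrr, if_neg hj]
      rw [h2] at h1
      have h3 : (|κ top.1 top.2| / lam) ^ L = 1 := by
        simp only [htop]
        rw [← hlamdef, div_self hlam.ne', one_pow]
      rw [h3] at h1
      exact (e.hasSum_iff (f := fun j => rr j ^ L)).2 h1
    · intro n hn h4
      exact (e.hasSum_iff (f := fun j => W j.1 j.2 * rr j ^ (n - 2))).2 (hsumE n hn h4)
  · -- the odd part
    refine ⟨(if c = 3 then -1 else 1) * (κ c 0 / lam), ?_, ?_⟩
    · have h1 : κ c 0 / lam = 1 ∨ κ c 0 / lam = -1 := by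
        rcases abs_choice (κ c 0) with h | h
        · left
          rw [hlamdef, h]
          have : κ c 0 ≠ 0 := by
            intro h0; rw [hlamdef, h0] at hlam; simp at hlam
          exact div_self this
        · right
          rw [hlamdef, h]
          have : κ c 0 ≠ 0 := by
            intro h0; rw [hlamdef, h0] at hlam; simp at hlam
          rw [div_neg, div_self this]
      rcases h1 with h1 | h1 <;> rw [h1] <;> split_ifs <;> norm_num
    · intro n hn h5
      have h1 := Sys2_remove (key (fun χ => if χ = 3 then -1 else 1) n (by omega)) top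
      have hev : Even (n - 1) := by
        obtain ⟨k, hk⟩ := hn
        exact ⟨k, by omega⟩
      have h2 := hsumE (n - 1) hev (by omega)
      have hval : ((if (0 : Fin 4) = 3 then (-1 : ℝ) else 1) * A n +
          (if (3 : Fin 4) = 3 then (-1 : ℝ) else 1) * B n) = A n - B n := by
        have : ¬ ((0 : Fin 4) = 3) := by decide
        simp [this]
        ring
      rw [hval] at h1
      have hoddp : (κ c 0 / lam) ^ (n - 2) = κ c 0 / lam := by
        have hsq : (κ c 0 / lam) ^ 2 = 1 := by
          rw [div_pow, hlamdef, sq_abs]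
          have : κ c 0 ≠ 0 := by
            intro h0; rw [hlamdef, h0] at hlam; simp at hlam
          exact div_self (pow_ne_zero 2 this)
        obtain ⟨k, hk⟩ := hn
        have : n - 2 = 2 * (k - 1) + 1 := by omega
        rw [this, pow_succ, pow_mul, hsq, one_pow, one_mul]
      have htopv : (if top.1 = 3 then (-1 : ℝ) else 1) * (W top.1 top.2 *
          (κ top.1 top.2 / lam) ^ (n - 2)) = (if c = 3 then (-1 : ℝ) else 1) * (κ c 0 / lam) *
          W c 0 := by
        simp only [htop]
        rw [hoddp]; ring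
      rw [htopv] at h1
      have h3 := HasSum.norm_le_of_bounded h1 h2 (by
        intro j
        by_cases hj : j = top
        · simp only [if_pos hj, norm_zero]
          exact mul_nonneg (hWnn _ _) (pow_nonneg (hrr0 _) _)
        · simp only [if_neg hj, hrr]
          rw [norm_mul, norm_mul, Real.norm_of_nonneg (hWnn _ _), norm_pow, norm_div,
            Real.norm_eq_abs (κ _ _), Real.norm_of_nonneg hlam.le]
          have hs : ‖(if j.1 = 3 then (-1 : ℝ) else 1)‖ = 1 := by
            split_ifs <;> simp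
          rw [hs, one_mul]
          have hq0 : 0 ≤ |κ j.1 j.2| / lam := by positivity
          have hq1 : |κ j.1 j.2| / lam ≤ 1 := by
            rw [div_le_one hlam]; exact hmax _ _
          exact mul_le_mul_of_nonneg_left (pow_le_pow_of_le_one hq0 hq1 (by omega)) (hWnn _ _))
      rw [Real.norm_eq_abs] at h3
      exact h3

/-- total representation of the untwisted system. `P = mK 0 + mK 1 + mK 2 + mK 3`. -/
theorem spw_of_repK {β : ℝ} (hβ : 0 < β) (h : RepK β) (hP : 0 < P 4 β) :
    ∃ lam w : ℝ, 0 < lam ∧ 0 ≤ w ∧ SpW (fun L => P L β) (fun n => Vo (-1) n β) lam w ∧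
      ∃ σ : ℝ, (σ = 1 ∨ σ = -1) ∧ ∀ n, Odd n → 5 ≤ n →
        |Vo 1 n β / lam ^ (n - 2) - σ * w| ≤ Vo (-1) (n - 1) β / lam ^ (n - 1 - 2) - w := by
  obtain ⟨κ, u, α, b, hanti, hnn, hm, -, hA, hB⟩ := h
  have hsum : ∀ L, ∑ χ, mK χ L β = P L β := by
    intro L
    have h1 : ¬ ((1 : Fin 4) = 0) := by decide
    have h2 : ¬ ((2 : Fin 4) = 0) := by decide
    have h3 : ¬ ((3 : Fin 4) = 0) := by decide
    rw [Fin.sum_univ_four]
    simp only [mK, if_true, if_neg h1, if_neg h2, if_neg h3]
    ring
  have hAB : ∀ n, Ao n β + Bo n β = Vo (-1) n β := by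
    intro n; simp only [Ao, Bo]; ring
  have hAB' : ∀ n, Ao n β - Bo n β = Vo 1 n β := by
    intro n; simp only [Ao, Bo]; ring
  have hcore := Sys2_core (m := fun χ L => mK χ L β) (A := fun n => Ao n β) (B := fun n => Bo n β)
    hanti (fun i => (hnn i).2.1) (fun i => (hnn i).2.2) hm hA hB (by rw [hsum]; exact hP)
  simp only [hsum, hAB, hAB'] at hcore
  exact hcore

/-- total representation of the time-twisted system. `Q = mZ 0 + mZ 1 + mZ 2 + mZ 3`. -/
theorem spw_of_repZ {β : ℝ} (hβ : 0 < β) (h : RepZ β) (hQ : 0 < Q 4 β) :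
    ∃ lam w : ℝ, 0 < lam ∧ 0 ≤ w ∧ SpW (fun L => Q L β) (fun n => VoZ (-1) n β) lam w := by
  obtain ⟨κ, u, α, b, hanti, hnn, hm, -, hA, hB⟩ := h
  have hsum : ∀ L, ∑ χ, mZ χ L β = Q L β := by
    intro L
    have h1 : ¬ ((1 : Fin 4) = 0) := by decide
    have h2 : ¬ ((2 : Fin 4) = 0) := by decide
    have h3 : ¬ ((3 : Fin 4) = 0) := by decide
    have h4 : ¬ ((0 : Fin 4) = 3) := by decide
    have h5 : ¬ ((1 : Fin 4) = 3) := by decide
    have h6 : ¬ ((2 : Fin 4) = 3) := by decide
    rw [Fin.sum_univ_four]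
    simp only [mZ, if_true, if_neg h1, if_neg h2, if_neg h3, if_neg h5, if_neg h6]
    ring
  have hAB : ∀ n, AoZ n β + BoZ n β = VoZ (-1) n β := by
    intro n; simp only [AoZ, BoZ]; ring
  obtain ⟨lam, w, h1, h2, h3, -⟩ := Sys2_core (m := fun χ L => mZ χ L β)
    (A := fun n => AoZ n β) (B := fun n => BoZ n β)
    hanti (fun i => (hnn i).2.1) (fun i => (hnn i).2.2) hm hA hB (by rw [hsum]; exact hQ)
  simp only [hsum, hAB] at h3
  exact ⟨lam, w, h1, h2, h3⟩

/-- positivity -/
theorem Q_nonneg_of_repZ {β : ℝ} (h : RepZ β) {L : ℕ} (hL : Even L) (hL4 : 4 ≤ L) :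
    0 ≤ Q L β ∧ 0 ≤ VoZ (-1) L β := by
  obtain ⟨κ, u, α, b, hanti, hnn, hm, -, hA, hB⟩ := h
  have hsum : ∑ χ, mZ χ L β = Q L β := by
    have h1 : ¬ ((1 : Fin 4) = 0) := by decide
    have h2 : ¬ ((2 : Fin 4) = 0) := by decide
    have h3 : ¬ ((3 : Fin 4) = 0) := by decide
    have h4 : ¬ ((0 : Fin 4) = 3) := by decide
    have h5 : ¬ ((1 : Fin 4) = 3) := by decide
    have h6 : ¬ ((2 : Fin 4) = 3) := by decide
    rw [Fin.sum_univ_four]
    simp only [mZ, if_true, if_neg h1, if_neg h2, if_neg h3, if_neg h5, if_neg h6]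
    ring
  have hAB : AoZ L β + BoZ L β = VoZ (-1) L β := by
    simp only [AoZ, BoZ]; ring
  have hev : Even (L - 2) := by
    obtain ⟨k, hk⟩ := hL
    exact ⟨k - 1, by omega⟩
  constructor
  · rw [← hsum]
    exact Finset.sum_nonneg fun χ _ => (hm χ L hL hL4).nonneg fun i => pow_nonneg (abs_nonneg _) _
  · rw [← hAB]
    exact add_nonneg
      ((hA L hL4).nonneg fun i => mul_nonneg (hnn i).2.1 (hev.pow_nonneg _))
      ((hB L hL4).nonneg fun i => mul_nonneg (hnn i).2.2 (hev.pow_nonneg _))

end Crest.Agent.HG
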