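import Crest.Agent.HG_Sys1
import Crest.Agent.HG_Sys2

/-!
HG: assembly of the abstract system from the physical facts.
-/

set_option autoImplicit false

namespace Crest.Agent.HG

private lemma Sys_PS_nonneg {x : ℝ → ℝ} (h : PS x) (β : ℝ) : 0 ≤ x β := by
  obtain ⟨m, e, -, hx⟩ := h
  rw [hx]
  exact Finset.sum_nonneg fun j _ => (Real.exp_pos _).le

theorem mkSys (hK : ∀ β, 0 < β → RepK β) (hZ : ∀ β, 0 < β → RepZ β)
    (hQ : ∀ β, 0 < β → 0 < Q 4 β) (hTR : ∀ L, Even L → 4 ≤ L → TimeRing L)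
    (hTO : ∀ N, 4 ≤ N → TimeOpen N) :
    ∃ s : BdSys P Q, (∀ n β, s.uf n β = Vo (-1) n β) ∧ (∀ n β, s.uz n β = VoZ (-1) n β) ∧
      (∀ n β, s.yf n β = Vo 1 n β) := by
  classical
  have hring : ∀ L, ∃ (E : ℝ) (a b : ℝ → ℝ), Even L → 4 ≤ L → (PS a ∧ PS b ∧
      (∀ β, P L β = Real.exp (-(β * E)) * (1 + a β + 3 * b β)) ∧
      ∀ β, Q L β = Real.exp (-(β * E)) * (1 + a β - b β)) := by
    intro L
    by_cases h : Even L ∧ 4 ≤ L
    · obtain ⟨E, a, b, h1⟩ := ring_normal (hTR L h.1 h.2)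
        (fun β hβ => (Q_nonneg_of_repZ (hZ β hβ) h.1 h.2).1)
      exact ⟨E, a, b, fun _ _ => h1⟩
    · exact ⟨0, 0, 0, fun h1 h2 => absurd ⟨h1, h2⟩ h⟩
  choose E a b hEab using hring
  have hopen : ∀ N, ∃ (E : ℝ) (c d : ℝ → ℝ), Even N → 4 ≤ N → (PS c ∧ PS d ∧
      (∀ β, Vo (-1) N β = Real.exp (-(β * E)) * (1 + c β + d β)) ∧
      ∀ β, VoZ (-1) N β = Real.exp (-(β * E)) * (1 + c β - d β)) := by
    intro N
    by_cases h : Even N ∧ 4 ≤ N
    · obtain ⟨E, c, d, h1⟩ := open_normal (by omega) (hTO N h.2)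
        (fun β hβ => (Q_nonneg_of_repZ (hZ β hβ) h.1 h.2).2)
      exact ⟨E, c, d, fun _ _ => h1⟩
    · exact ⟨0, 0, 0, fun h1 h2 => absurd ⟨h1, h2⟩ h⟩
  choose En c d hEncd using hopen
  have hopen' : ∀ N, ∃ (E : ℝ) (y : ℝ → ℝ), Odd N → 5 ≤ N → (PS y ∧
      ∀ β, Vo 1 N β = Real.exp (-(β * E)) * (1 + y β)) := by
    intro N
    by_cases h : Odd N ∧ 5 ≤ N
    · obtain ⟨E, y, h1⟩ := open_normal' (by omega) (hTO N (by omega))
      exact ⟨E, y, fun _ _ => h1⟩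
    · exact ⟨0, 0, fun h1 h2 => absurd ⟨h1, h2⟩ h⟩
  choose Ey y hEy using hopen'
  have hP4 : ∀ β, 0 < P 4 β := by
    intro β
    obtain ⟨h1, h2, h3, -⟩ := hEab 4 (by decide) le_rfl
    rw [h3]
    have := Sys_PS_nonneg h1 β
    have := Sys_PS_nonneg h2 β
    have := Real.exp_pos (-(β * E 4))
    positivity
  have hspK : ∀ β, ∃ lam w : ℝ, 0 < β → (0 < lam ∧ 0 ≤ w ∧
      SpW (fun L => P L β) (fun n => Vo (-1) n β) lam w ∧
      ∃ σ : ℝ, (σ = 1 ∨ σ = -1) ∧ ∀ n, Odd n → 5 ≤ n →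
        |Vo 1 n β / lam ^ (n - 2) - σ * w| ≤ Vo (-1) (n - 1) β / lam ^ (n - 1 - 2) - w) := by
    intro β
    by_cases hβ : 0 < β
    · obtain ⟨lam, w, h⟩ := spw_of_repK hβ (hK β hβ) (hP4 β)
      exact ⟨lam, w, fun _ => h⟩
    · exact ⟨0, 0, fun h => absurd h hβ⟩
  choose lam w hspK using hspK
  have hspZ : ∀ β, ∃ lam w : ℝ, 0 < β → (0 < lam ∧ 0 ≤ w ∧
      SpW (fun L => Q L β) (fun n => VoZ (-1) n β) lam w) := by
    intro β
    by_cases hβ : 0 < β
    · obtain ⟨lam, w, h⟩ := spw_of_repZ hβ (hZ β hβ) (hQ β hβ)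
      exact ⟨lam, w, fun _ => h⟩
    · exact ⟨0, 0, fun h => absurd h hβ⟩
  choose lamZ wZ hspZ using hspZ
  refine ⟨{ E := E, a := a, b := b, lam := lam, lamZ := lamZ, uf := fun n β => Vo (-1) n β,
            uz := fun n β => VoZ (-1) n β, w := w, wZ := wZ,
            ha := fun L h1 h2 => (hEab L h1 h2).1
            hb := fun L h1 h2 => (hEab L h1 h2).2.1
            hP := fun L h1 h2 => (hEab L h1 h2).2.2.1
            hQ := fun L h1 h2 => (hEab L h1 h2).2.2.2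
            hlam := fun β hβ => (hspK β hβ).1
            hlamZ := fun β hβ => (hspZ β hβ).1
            hw := fun β hβ => (hspK β hβ).2.1
            hwZ := fun β hβ => (hspZ β hβ).2.1
            hS := fun β hβ => (hspK β hβ).2.2.1
            hR := fun β hβ => (hspZ β hβ).2.2
            En := En, c := c, d := d, Ey := Ey, y := y, yf := fun n β => Vo 1 n β
            hc := fun n h1 h2 => (hEncd n h1 h2).1
            hd := fun n h1 h2 => (hEncd n h1 h2).2.1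
            hU := fun n h1 h2 => (hEncd n h1 h2).2.2.1
            hUZ := fun n h1 h2 => (hEncd n h1 h2).2.2.2
            hy := fun n h1 h2 => (hEy n h1 h2).1
            hY := fun n h1 h2 => (hEy n h1 h2).2
            hYs := fun β hβ => (hspK β hβ).2.2.2 }, fun _ _ => rfl, fun _ _ => rfl, fun _ _ => rfl⟩

end Crest.Agent.HG
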