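import Crest.Agent.HG_A4
import Crest.Agent.HG_A6
import Crest.Agent.HG_A8c
import Crest.Agent.HG_Base1
import Crest.Agent.HG_Base2
import Crest.Agent.HG_Sys
import Crest.Agent.HG_Gap

/-!
HG: final assembly from parts A, B (representations), C (data, inside Base), D (trial states).
-/

set_option autoImplicit false

namespace Crest.Agent.HG
open Matrix Crest.MathPhysics.SpinChain

/-- deliverable D1 of part D -/
def TrialRing : Prop :=
  ∃ L' : ℕ, Even L' ∧ 1000000 ≤ L' ∧ ∃ ψ : (Fin L' → Fin 3) → ℂ, ψ ≠ 0 ∧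
    (star ψ ⬝ᵥ (ringH sOne L').mulVec ψ).re ≤ (L' * ev) * (star ψ ⬝ᵥ ψ).re

/-- deliverable D2 of part D (`N = 104`, `N = 132` sites) -/
def TrialOpen (N : ℕ) : Prop :=
  ∃ ψ : (Fin (N - 1 + 1) → Fin 3) → ℂ, ψ ≠ 0 ∧
    (star ψ ⬝ᵥ (openS (-1) (N - 1) (3 / 5)).mulVec ψ).re ≤ (N * ev + fv) * (star ψ ⬝ᵥ ψ).re

variable (hK : ∀ β, 0 < β → RepK β) (hZ : ∀ β, 0 < β → RepZ β)
    (hQ : ∀ β, 0 < β → 0 < Q 4 β) (hTR : ∀ L, Even L → 4 ≤ L → TimeRing L)
    (hTO : ∀ N, 4 ≤ N → TimeOpen N)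

/-- ring energies -/
theorem ring_energy (s : BulkSys P Q) (hD : TrialRing) (L : ℕ) (hL : Even L) (hL4 : 4 ≤ L)
    (hL6 : L ≤ 1000000) : s.E L ≤ L * ev := by
  obtain ⟨L', hL', hL'6, ψ, hψ, hE⟩ := hD
  have h4 : 4 ≤ L' := by omega
  have hx : PS (fun β => s.a L' β + 3 * s.b L' β) :=
    PS.add (s.ha L' hL' h4) (PS.three (s.hb L' hL' h4))
  have h1 : s.E L' ≤ L' * ev := by
    refine E_le_of_trial (ringH sOne L') (ringH_herm _ _) hx ?_ ψ hψ hE
    intro β'
    have := s.hP L' hL' h4 β'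
    rw [add_assoc] at this
    exact this
  have h2 := E_mono s hL hL4 hL' (by omega)
  have hpos : (0 : ℝ) < L' := by
    have : 0 < L' := by omega
    exact_mod_cast this
  have hLpos : (0 : ℝ) < L := by
    have : 0 < L := by omega
    exact_mod_cast this
  have h3 : s.E L * L' ≤ (L * ev) * L' := by
    calc s.E L * L' ≤ s.E L' * L := h2
      _ ≤ (L' * ev) * L := mul_le_mul_of_nonneg_right h1 hLpos.le
      _ = (L * ev) * L' := by ring
  exact le_of_mul_le_mul_right h3 hpos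

include hK hZ hQ hTR hTO in
theorem final_0545 (hD1 : TrialRing) :
    (∀ L : ℕ, Even L → 60 ≤ L →
      HasSimpleGroundStateWithGap (heisenbergRing L) (4 / 105 * Real.log (80 / 79))) ∧
    (∀ L : ℕ, Even L → 2304 ≤ L →
      HasSimpleGroundStateWithGap (heisenbergRing L) (Real.log 20 / 784)) := by
  obtain ⟨s, hs1, hs2, hs3⟩ := mkSys hK hZ hQ hTR hTO
  have hE := ring_energy s.toBulkSys hD1
  have h0 := base_bulk s.toBulkSys (hK 7 (by norm_num)) (hK 10 (by norm_num)) (hZ 7 (by norm_num)) hE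
  have h60 := base60 s.toBulkSys (hK 10 (by norm_num)) hE
  have key : ∀ L : ℕ, Even L → 4 ≤ L → ∀ c β : ℝ, 0 < β →
      s.t L β < Real.exp (-(β * c)) → HasSimpleGroundStateWithGap (heisenbergRing L) c := by
    intro L hL hL4 c β hβ hlt
    rw [← ringH_one]
    have hx : PS (fun β => s.a L β + 3 * s.b L β) :=
      PS.add (s.ha L hL hL4) (PS.three (s.hb L hL hL4))
    refine gap_of_excess (ringH sOne L) (ringH_herm _ _) (E := s.E L) hx ?_ hβ hlt
    intro β'
    have := s.hP L hL hL4 β'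
    rw [add_assoc] at this
    exact this
  constructor
  · intro L hL hL60
    obtain ⟨β, hβ, hlt⟩ := bulk_final1 s.toBulkSys h0 h60 L hL hL60
    exact key L hL (by omega) _ β hβ hlt
  · intro L hL hL2
    obtain ⟨β, hβ, hlt⟩ := bulk_final2 s.toBulkSys h0 L hL hL2
    exact key L hL (by omega) _ β hβ hlt

theorem open_energy (s : BdSys P Q) (hs1 : ∀ n β, s.uf n β = Vo (-1) n β) {N : ℕ} (hN : Even N)
    (hN4 : 4 ≤ N) (hD : TrialOpen N) : s.En N ≤ N * ev + fv := by
  obtain ⟨ψ, hψ, hE⟩ := hD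
  have hx : PS (fun β => s.c N β + s.d N β) := PS.add (s.hc N hN hN4) (s.hd N hN hN4)
  refine E_le_of_trial (openS (-1) (N - 1) (3 / 5)) (openS_herm _ _ _) hx ?_ ψ hψ hE
  intro β'
  have := s.hU N hN hN4 β'
  rw [hs1, add_assoc] at this
  exact this

include hK hZ hQ hTR hTO in
theorem final_0546 (hD1 : TrialRing) (hD2 : TrialOpen 104) (hD3 : TrialOpen 132) (L : ℕ)
    (hL : 960 ≤ L) :
    HasSimpleGroundStateWithGap (openChainEndField (2 * L) (3 / 5)) (Real.log 10 / 392) := by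
  obtain ⟨s, hs1, hs2, hs3⟩ := mkSys hK hZ hQ hTR hTO
  have hE := ring_energy s.toBulkSys hD1
  have h0 := base_bulk s.toBulkSys (hK 7 (by norm_num)) (hK 10 (by norm_num)) (hZ 7 (by norm_num)) hE
  have h104 : s.En 104 ≤ 104 * ev + fv := by
    have := open_energy s hs1 (N := 104) (by decide) (by norm_num) hD2
    simpa using this
  have h132 : s.En 132 ≤ 132 * ev + fv := by
    have := open_energy s hs1 (N := 132) (by decide) (by norm_num) hD3
    simpa using this
  have hb := base_bdry s hs1 hs2 (hK 7 (by norm_num)) (hK 10 (by norm_num)) (hZ 7 (by norm_num))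
    (hZ 10 (by norm_num)) hE h104 h132
  have hN : Odd (2 * L + 1) := ⟨L, rfl⟩
  obtain ⟨β, hβ, hlt⟩ := bd_final s h0 hb (2 * L + 1) hN (by omega)
  rw [← openS_one]
  refine gap_of_excess (openS 1 (2 * L) (3 / 5)) (openS_herm _ _ _) (E := s.Ey (2 * L + 1))
    (s.hy _ hN (by omega)) ?_ hβ hlt
  intro β'
  have := s.hY (2 * L + 1) hN (by omega) β'
  rw [hs3] at this
  simpa [Vo] using this

end Crest.Agent.HG
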