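import Crest.Agent.HG_Final
import Crest.Agent.HGB_Rep
import Crest.Agent.HGB_Time
import Crest.Agent.HGB_QPos

/-!
HG: both statements, modulo the trial states of part D.
-/

set_option autoImplicit false

namespace Crest.Agent.HG
open Crest.MathPhysics.SpinChain

theorem main_0545 (hD1 : TrialRing) :
    (∀ L : ℕ, Even L → 60 ≤ L →
      HasSimpleGroundStateWithGap (heisenbergRing L) (4 / 105 * Real.log (80 / 79))) ∧
    (∀ L : ℕ, Even L → 2304 ≤ L →
      HasSimpleGroundStateWithGap (heisenbergRing L) (Real.log 20 / 784)) :=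
  final_0545 (fun _ hβ => HGB.repK hβ) (fun _ hβ => HGB.repZ hβ) (fun _ hβ => HGB.Q_pos hβ)
    (fun L _ _ => HGB.time_ring L) (fun N _ => HGB.time_open N) hD1

theorem main_0546 (hD1 : TrialRing) (hD2 : TrialOpen 104) (hD3 : TrialOpen 132) (L : ℕ)
    (hL : 960 ≤ L) :
    HasSimpleGroundStateWithGap (openChainEndField (2 * L) (3 / 5)) (Real.log 10 / 392) :=
  final_0546 (fun _ hβ => HGB.repK hβ) (fun _ hβ => HGB.repZ hβ) (fun _ hβ => HGB.Q_pos hβ)
    (fun L _ _ => HGB.time_ring L) (fun N _ => HGB.time_open N) hD1 hD2 hD3 L hL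

end Crest.Agent.HG
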