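import Crest.Agent.HG_ADefs

/-!
HG task Sys1: time channel normal forms.
-/

set_option autoImplicit false

namespace Crest.Agent.HG

/-- a non-empty exponential sum in normal form: `f = e^{-βE}(1+x)`, `E` the smallest exponent. -/
theorem ExpSum.normal {f : ℝ → ℝ} (h : ExpSum f) (hne : f 0 ≠ 0) :
    ∃ (E : ℝ) (x : ℝ → ℝ), PS x ∧ ∀ β, f β = Real.exp (-(β * E)) * (1 + x β) := by
  obtain ⟨m, E, hf⟩ := h
  cases m with
  | zero => exact absurd (by rw [hf]; simp) hne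
  | succ m =>
    obtain ⟨j0, hj0⟩ := Finite.exists_min E
    refine ⟨E j0, fun β => ∑ i : Fin m, Real.exp (-(β * (E (j0.succAbove i) - E j0))),
      ⟨m, fun i => E (j0.succAbove i) - E j0, fun i => sub_nonneg.2 (hj0 _), fun β => rfl⟩,
      fun β => ?_⟩
    rw [hf, Fin.sum_univ_succAbove _ j0, mul_add, mul_one, Finset.mul_sum]
    congr 1
    refine Finset.sum_congr rfl fun i _ => ?_
    rw [← Real.exp_add]
    congr 1
    ring

/-- two exponential sums `f0` (non-empty), `f1` with `f1 ≤ f0` for all `β > 0`: the smallest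
exponent `E` of `f0` is a lower bound for the exponents of `f1`. (`e^{-βE'} ≤ f1 ≤ f0 ≤ m e^{-βE}`,
`β → ∞`.) -/
theorem ExpSum.pair {f0 f1 : ℝ → ℝ} (h0 : ExpSum f0) (h1 : ExpSum f1) (hne : f0 0 ≠ 0)
    (hle : ∀ β, 0 < β → f1 β ≤ f0 β) :
    ∃ (E : ℝ) (a b : ℝ → ℝ), PS a ∧ PS b ∧ (∀ β, f0 β = Real.exp (-(β * E)) * (1 + a β)) ∧
      ∀ β, f1 β = Real.exp (-(β * E)) * b β := by
  obtain ⟨E, a, ha, hfa⟩ := h0.normal hne
  obtain ⟨m, e, he, hae⟩ := ha
  obtain ⟨m1, E1, hf1⟩ := h1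
  have hE1 : ∀ j, E ≤ E1 j := by
    intro j
    by_contra hcon
    push Not at hcon
    set c : ℝ := E - E1 j with hc
    have hcpos : 0 < c := sub_pos.2 hcon
    set β : ℝ := ((m : ℝ) + 1) / c with hβ
    have hβpos : 0 < β := by positivity
    have hβc : β * c = (m : ℝ) + 1 := by rw [hβ]; field_simp
    have h2 : Real.exp (-(β * E1 j)) ≤ f1 β := by
      rw [hf1]
      exact Finset.single_le_sum (f := fun j => Real.exp (-(β * E1 j)))
        (fun i _ => (Real.exp_pos _).le) (Finset.mem_univ j)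
    have h3 : a β ≤ m := by
      rw [hae]
      calc ∑ j, Real.exp (-(β * e j)) ≤ ∑ _j : Fin m, (1 : ℝ) := by
            refine Finset.sum_le_sum fun i _ => ?_
            rw [Real.exp_le_one_iff, neg_nonpos]
            exact mul_nonneg hβpos.le (he i)
        _ = m := by simp
    have h4 := (h2.trans (hle β hβpos)).trans (le_of_eq (hfa β))
    have h5 : Real.exp (-(β * E1 j)) = Real.exp (-(β * E)) * Real.exp ((m : ℝ) + 1) := by
      rw [← Real.exp_add, ← hβc, hc]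
      congr 1
      ring
    rw [h5] at h4
    have h6 := le_of_mul_le_mul_left h4 (Real.exp_pos _)
    have h7 := Real.add_one_le_exp ((m : ℝ) + 1)
    linarith
  refine ⟨E, a, fun β => ∑ j : Fin m1, Real.exp (-(β * (E1 j - E))), ⟨m, e, he, hae⟩,
    ⟨m1, fun j => E1 j - E, fun j => sub_nonneg.2 (hE1 j), fun β => rfl⟩, hfa, fun β => ?_⟩
  rw [hf1, Finset.mul_sum]
  refine Finset.sum_congr rfl fun i _ => ?_
  rw [← Real.exp_add]
  congr 1
  ring

/-- `Zt 1 H 0 = card`. -/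
theorem Zt_zero {κ : Type*} [Fintype κ] [DecidableEq κ] (H : Matrix κ κ ℂ) :
    Zt 1 H 0 = Fintype.card κ := by
  unfold Zt
  simp

private theorem sys1_zero {f0 f1 : ℝ → ℝ} (h0 : ExpSum f0) (h1 : ExpSum f1)
    (hle : ∀ β, 0 < β → f1 β ≤ f0 β) (h : f0 0 = 0) : f1 0 = 0 := by
  obtain ⟨m, E, hf⟩ := h0
  obtain ⟨m1, E1, hf1⟩ := h1
  have hm : m = 0 := by
    rw [hf] at h
    simpa using h
  subst hm
  have h2 := hle 1 one_pos
  have h3 : f0 1 = 0 := by rw [hf]; simp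
  rw [h3, hf1] at h2
  have hm1 : m1 = 0 := by
    by_contra hne
    have : 0 < ∑ j : Fin m1, Real.exp (-(1 * E1 j)) := by
      have : Nonempty (Fin m1) := ⟨⟨0, Nat.pos_of_ne_zero hne⟩⟩
      exact Finset.sum_pos (fun i _ => Real.exp_pos _) Finset.univ_nonempty
    linarith
  subst hm1
  rw [hf1]
  simp

/-- ring: `P = e^{-βE}(1+a+3b)`, `Q = e^{-βE}(1+a-b)`. Use `ExpSum.pair` with
`f0 = (P+3Q)/4`, `f1 = (P-Q)/4`; `f1 ≤ f0` iff `Q ≥ 0`; `f0 0 ≠ 0`: otherwise `f0 ≡ 0` (it is a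
sum of exponentials), so `f1 ≤ 0` for `β > 0`, so `f1 ≡ 0` and `P L 0 = 0`, but `P L 0 = 3^L`. -/
theorem ring_normal {L : ℕ} (h : TimeRing L) (hQ : ∀ β, 0 < β → 0 ≤ Q L β) :
    ∃ (E : ℝ) (a b : ℝ → ℝ), PS a ∧ PS b ∧
      (∀ β, P L β = Real.exp (-(β * E)) * (1 + a β + 3 * b β)) ∧
      ∀ β, Q L β = Real.exp (-(β * E)) * (1 + a β - b β) := by
  have hle : ∀ β, 0 < β → (P L β - Q L β) / 4 ≤ (P L β + 3 * Q L β) / 4 := by
    intro β hβ
    have := hQ β hβ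
    linarith
  have hne : (P L 0 + 3 * Q L 0) / 4 ≠ 0 := by
    intro h0
    have h1 : (P L 0 - Q L 0) / 4 = 0 := sys1_zero h.1 h.2 hle h0
    have h2 : P L 0 = 0 := by linarith
    unfold P at h2
    rw [Zt_zero, Nat.cast_eq_zero] at h2
    exact Fintype.card_ne_zero h2
  obtain ⟨E, a, b, ha, hb, h0, h1⟩ := ExpSum.pair h.1 h.2 hne hle
  refine ⟨E, a, b, ha, hb, fun β => ?_, fun β => ?_⟩
  · have e0 := h0 β
    have e1 := h1 β
    linear_combination e0 + 3 * e1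
  · have e0 := h0 β
    have e1 := h1 β
    linear_combination e0 - e1

/-- open chain, opposite fields: `Vo (-1) = e^{-βE}(1+c+d)`, `VoZ (-1) = e^{-βE}(1+c-d)`. -/
theorem open_normal {N : ℕ} (hN : 2 ≤ N) (h : TimeOpen N) (hQ : ∀ β, 0 < β → 0 ≤ VoZ (-1) N β) :
    ∃ (E : ℝ) (c d : ℝ → ℝ), PS c ∧ PS d ∧
      (∀ β, Vo (-1) N β = Real.exp (-(β * E)) * (1 + c β + d β)) ∧
      ∀ β, VoZ (-1) N β = Real.exp (-(β * E)) * (1 + c β - d β) := by
  have hle : ∀ β, 0 < β → (Vo (-1) N β - VoZ (-1) N β) / 2 ≤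
      (Vo (-1) N β + VoZ (-1) N β) / 2 := by
    intro β hβ
    have := hQ β hβ
    linarith
  have hne : (Vo (-1) N 0 + VoZ (-1) N 0) / 2 ≠ 0 := by
    intro h0
    have h1 : (Vo (-1) N 0 - VoZ (-1) N 0) / 2 = 0 := sys1_zero h.1 h.2.1 hle h0
    have h2 : Vo (-1) N 0 = 0 := by linarith
    unfold Vo at h2
    rw [Zt_zero, Nat.cast_eq_zero] at h2
    exact Fintype.card_ne_zero h2
  obtain ⟨E, a, b, ha, hb, h0, h1⟩ := ExpSum.pair h.1 h.2.1 hne hle
  refine ⟨E, a, b, ha, hb, fun β => ?_, fun β => ?_⟩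
  · have e0 := h0 β
    have e1 := h1 β
    linear_combination e0 + e1
  · have e0 := h0 β
    have e1 := h1 β
    linear_combination e0 - e1

/-- open chain, parallel fields. -/
theorem open_normal' {N : ℕ} (hN : 2 ≤ N) (h : TimeOpen N) :
    ∃ (E : ℝ) (y : ℝ → ℝ), PS y ∧ ∀ β, Vo 1 N β = Real.exp (-(β * E)) * (1 + y β) := by
  refine ExpSum.normal h.2.2 ?_
  unfold Vo
  rw [Zt_zero, Nat.cast_ne_zero]
  exact Fintype.card_ne_zero

end Crest.Agent.HG
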