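import Mathlib
import Crest.Agent.HG_CZ15
import Crest.Agent.HGR_d6

/-! HG part C: the final enclosures from the machine `openM 6 false 58 195` (generated). -/

set_option autoImplicit false
set_option maxRecDepth 100000
set_option linter.all false

namespace Crest.Agent.HGZ
open Crest.Agent.HG Crest.Agent.HGR Matrix

theorem d6_len : d6.all (fun r => lenOK (openM 6 false 58 195) r) = true := by decide +kernel
theorem d6_cntO : cntO d6 = 364 := by decide +kernel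
theorem d6_R : RunsOK (openM 6 false 58 195) false (Gop false (openM 6 false 58 195) (rvF 6)) d6 :=
  runsOK_mk d6_C d6_side d6_len d6_ok d6_cov d6_cnt

theorem d6_par : OpenPar 5 195 := Or.inr (Or.inr (Or.inl ⟨rfl, rfl⟩))

theorem d6_ve7 : Vz cf7 d6_T 0 365 365 (2 ^ 58 - 2 ^ 54) (2 ^ 58) = 8161447393145330495178965168265604108572 := by decide +kernel
theorem d6_vo7 : Vz cf7 d6_T 1 364 364 (2 ^ 58 - 2 ^ 54) (2 ^ 58) = 51102481990016197112410367051631305506 := by decide +kernel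

theorem d6_7 : ∃ tE tO : ℝ,
    |tE - ((8161447393145330495178965168265604108572 : ℤ) : ℝ) / (2 ^ 80 * (2 ^ 58 - 2 ^ 54))| ≤
      ((365 : ℕ) : ℝ) * (1 / 10 ^ 16 + 81 * 40 / (2 ^ 58 - 2 ^ 54)) ∧
    |tO - ((51102481990016197112410367051631305506 : ℤ) : ℝ) / (2 ^ 80 * (2 ^ 58 - 2 ^ 54))| ≤
      ((364 : ℕ) : ℝ) * (1 / 10 ^ 16 + 81 * 40 / (2 ^ 58 - 2 ^ 54)) ∧
    Vo (-1) 6 7 * Real.exp (-(294 / 5)) = Real.exp (((168 : ℕ) : ℝ) / 100) * (tE + tO) ∧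
    VoZ (-1) 6 7 * Real.exp (-(294 / 5)) = Real.exp (((168 : ℕ) : ℝ) / 100) * ((-1) ^ 6 * (tE - tO)) := by
  have h := open_out d6_par d6_R cfOK7 (294 / 5) (((168 : ℕ) : ℝ) / 100) (by norm_num)
  rw [d6_tot, d6_cntE, d6_cntO, d6_ve7, d6_vo7] at h
  exact h

theorem dVom_6_7 : |Vo (-1) 6 7 * Real.exp (-(294 / 5)) - 13489071964 / 10 ^ 11| ≤ 14 / 10 ^ 8 := by
  obtain ⟨tE, tO, h1, h2, h3, h4⟩ := d6_7
  exact fin_num h3 exC168 (add_enc h1 h2) (by norm_num) (253 / 10 ^ 4) (by norm_num) (by norm_num)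
    (by norm_num) (by norm_num)

theorem dVoZm_6_7 : |VoZ (-1) 6 7 * Real.exp (-(294 / 5)) - 13321200823 / 10 ^ 11| ≤ 14 / 10 ^ 8 := by
  obtain ⟨tE, tO, h1, h2, h3, h4⟩ := d6_7
  exact fin_num h4 exC168 (sgn_enc 6 (sub_enc h1 h2)) (by norm_num) (250 / 10 ^ 4) (by norm_num) (by norm_num)
    (by norm_num) (by norm_num)

theorem d6_ve10 : Vz cf10 d6_T 0 365 365 (2 ^ 58 - 2 ^ 54) (2 ^ 58) = 1678832454199950816107022273542929801156 := by decide +kernel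
theorem d6_vo10 : Vz cf10 d6_T 1 364 364 (2 ^ 58 - 2 ^ 54) (2 ^ 58) = 882546890636394191841661005657854572 := by decide +kernel

theorem d6_10 : ∃ tE tO : ℝ,
    |tE - ((1678832454199950816107022273542929801156 : ℤ) : ℝ) / (2 ^ 80 * (2 ^ 58 - 2 ^ 54))| ≤
      ((365 : ℕ) : ℝ) * (1 / 10 ^ 14 + 81 * 56 / (2 ^ 58 - 2 ^ 54)) ∧
    |tO - ((882546890636394191841661005657854572 : ℤ) : ℝ) / (2 ^ 80 * (2 ^ 58 - 2 ^ 54))| ≤
      ((364 : ℕ) : ℝ) * (1 / 10 ^ 14 + 81 * 56 / (2 ^ 58 - 2 ^ 54)) ∧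
    Vo (-1) 6 10 * Real.exp (-(84)) = Real.exp (((240 : ℕ) : ℝ) / 100) * (tE + tO) ∧
    VoZ (-1) 6 10 * Real.exp (-(84)) = Real.exp (((240 : ℕ) : ℝ) / 100) * ((-1) ^ 6 * (tE - tO)) := by
  have h := open_out d6_par d6_R cfOK10 (84) (((240 : ℕ) : ℝ) / 100) (by norm_num)
  rw [d6_tot, d6_cntE, d6_cntO, d6_ve10, d6_vo10] at h
  exact h

theorem dVom_6_10 : |Vo (-1) 6 10 * Real.exp (-(84)) - 5668023985 / 10 ^ 11| ≤ 57 / 10 ^ 9 := by
  obtain ⟨tE, tO, h1, h2, h3, h4⟩ := d6_10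
  exact fin_num h3 exC240 (add_enc h1 h2) (by norm_num) (53 / 10 ^ 4) (by norm_num) (by norm_num)
    (by norm_num) (by norm_num)

theorem dVoZm_6_10 : |VoZ (-1) 6 10 * Real.exp (-(84)) - 5662067859 / 10 ^ 11| ≤ 57 / 10 ^ 9 := by
  obtain ⟨tE, tO, h1, h2, h3, h4⟩ := d6_10
  exact fin_num h4 exC240 (sgn_enc 6 (sub_enc h1 h2)) (by norm_num) (53 / 10 ^ 4) (by norm_num) (by norm_num)
    (by norm_num) (by norm_num)

end Crest.Agent.HGZ
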