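import Mathlib

set_option autoImplicit false

namespace Crest.Agent.TG

open Finset

/-- colouring count: if `H` is in no union of `m` members of `D`, then every colouring of `H` with `m`
colours has a class outside `D`. -/
theorem colour_nat {α : Type*} [DecidableEq α] (D : Finset (Finset α)) (m : ℕ)
    (H : Finset α)
    (hH : ∀ f : Fin m → Finset α, (∀ i, f i ∈ D) → ¬ H ⊆ Finset.univ.biUnion f) :
    m ^ H.card ≤ m * ∑ X ∈ H.powerset.filter (fun X => X ∉ D), (m - 1) ^ (H.card - X.card) := by
  classical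
  -- class of colour j
  let cls : (H → Fin m) → Fin m → Finset α := fun c j =>
    (Finset.univ.filter (fun x : H => c x = j)).map (Function.Embedding.subtype _)
  have hclsmem : ∀ c j (x : α) (hx : x ∈ H), x ∈ cls c j ↔ c ⟨x, hx⟩ = j := by
    intro c j x hx
    simp only [cls, Finset.mem_map, Finset.mem_filter, Finset.mem_univ, true_and,
      Function.Embedding.coe_subtype]
    constructor
    · rintro ⟨a, ha, rfl⟩
      exact ha
    · intro h
      exact ⟨⟨x, hx⟩, h, rfl⟩
  have hclssub : ∀ c j, cls c j ⊆ H := by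
    intro c j x hx
    simp only [cls, Finset.mem_map, Finset.mem_filter, Finset.mem_univ, true_and,
      Function.Embedding.coe_subtype] at hx
    obtain ⟨a, _, rfl⟩ := hx
    exact a.2
  let box : Fin m → Finset α → Finset (H → Fin m) := fun j X =>
    Fintype.piFinset (fun x : H => if x.1 ∈ X then {j} else Finset.univ.erase j)
  have hcover : (Finset.univ : Finset (H → Fin m)) ⊆
      (Finset.univ : Finset (Fin m)).biUnion (fun j =>
        (H.powerset.filter (fun X => X ∉ D)).biUnion (fun X => box j X)) := by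
    intro c _
    have hex : ∃ j, cls c j ∉ D := by
      by_contra hcon
      push Not at hcon
      apply hH (cls c) hcon
      intro x hx
      simp only [Finset.mem_biUnion, Finset.mem_univ, true_and]
      exact ⟨c ⟨x, hx⟩, (hclsmem c _ x hx).2 rfl⟩
    obtain ⟨j, hj⟩ := hex
    simp only [Finset.mem_biUnion, Finset.mem_univ, true_and]
    refine ⟨j, cls c j, ?_, ?_⟩
    · simp [hclssub c j, hj]
    · simp only [box, Fintype.mem_piFinset]
      intro x
      by_cases hx : x.1 ∈ cls c j
      · rw [if_pos hx]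
        have := (hclsmem c j x.1 x.2).1 hx
        simpa using this
      · rw [if_neg hx]
        have : ¬ c x = j := fun h => hx ((hclsmem c j x.1 x.2).2 h)
        simp [this]
  have hbox : ∀ j X, X ∈ H.powerset.filter (fun X => X ∉ D) →
      (box j X).card = (m - 1) ^ (H.card - X.card) := by
    intro j X hX
    have hXH : X ⊆ H := by
      have := (Finset.mem_filter.1 hX).1
      exact Finset.mem_powerset.1 this
    simp only [box, Fintype.card_piFinset]
    have h1 : ∀ x : H, (if x.1 ∈ X then ({j} : Finset (Fin m)) else Finset.univ.erase j).card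
        = if x.1 ∈ X then 1 else (m - 1) := by
      intro x
      split_ifs
      · simp
      · rw [Finset.card_erase_of_mem (Finset.mem_univ _)]
        simp
    rw [Finset.prod_congr rfl (fun x _ => h1 x)]
    rw [Finset.prod_coe_sort H (fun x => if x ∈ X then 1 else (m - 1))]
    rw [Finset.prod_ite]
    simp only [Finset.prod_const_one, one_mul, Finset.prod_const]
    congr 1
    rw [Finset.filter_not, Finset.card_sdiff_of_subset (Finset.filter_subset _ _)]
    congr 2
    ext x
    simp only [Finset.mem_filter]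
    exact ⟨fun h => h.2, fun h => ⟨hXH h, h⟩⟩
  calc m ^ H.card = (Finset.univ : Finset (H → Fin m)).card := by
        simp
    _ ≤ _ := Finset.card_le_card hcover
    _ ≤ ∑ j : Fin m, ((H.powerset.filter (fun X => X ∉ D)).biUnion (fun X => box j X)).card :=
        Finset.card_biUnion_le
    _ ≤ ∑ j : Fin m, ∑ X ∈ H.powerset.filter (fun X => X ∉ D), (box j X).card :=
        Finset.sum_le_sum (fun j _ => Finset.card_biUnion_le)
    _ = ∑ j : Fin m, ∑ X ∈ H.powerset.filter (fun X => X ∉ D), (m - 1) ^ (H.card - X.card) :=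
        Finset.sum_congr rfl (fun j _ => Finset.sum_congr rfl (fun X hX => hbox j X hX))
    _ = m * ∑ X ∈ H.powerset.filter (fun X => X ∉ D), (m - 1) ^ (H.card - X.card) := by
        simp

/-- total: `∑_{X ⊆ H} (m-1)^{|H|-|X|} = m^{|H|}`. -/
theorem colour_total {α : Type*} [DecidableEq α] (m : ℕ) (hm : 1 ≤ m) (H : Finset α) :
    ∑ X ∈ H.powerset, (m - 1) ^ (H.card - X.card) = m ^ H.card := by
  have h := Finset.sum_pow_mul_eq_add_pow (1 : ℕ) (m - 1) H
  simp only [one_pow, one_mul] at h
  rw [h]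
  congr 1
  omega

/-- real form: with `θ' = 1/(m-1)`,
`∑_{X ⊆ H, X ∈ D} θ'^{|X|} ≤ (1 - 1/m) (1+θ')^{|H|}`. -/
theorem colour_real {α : Type*} [DecidableEq α] (D : Finset (Finset α)) (m : ℕ) (hm : 2 ≤ m)
    (H : Finset α)
    (hH : ∀ f : Fin m → Finset α, (∀ i, f i ∈ D) → ¬ H ⊆ Finset.univ.biUnion f) :
    ∑ X ∈ H.powerset.filter (fun X => X ∈ D), (1 / ((m : ℝ) - 1)) ^ X.card
      ≤ (1 - 1 / (m : ℝ)) * (1 + 1 / ((m : ℝ) - 1)) ^ H.card := by
  have hmR : (2 : ℝ) ≤ m := by exact_mod_cast hm
  have hm0 : (0 : ℝ) < (m : ℝ) := by linarith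
  have hm1 : (0 : ℝ) < (m : ℝ) - 1 := by linarith
  have h1 := colour_nat D m H hH
  have h2 := colour_total m (by omega) H
  have hcast : ((m - 1 : ℕ) : ℝ) = (m : ℝ) - 1 := by
    rw [Nat.cast_sub (by omega)]; simp
  have h1R : (m : ℝ) ^ H.card ≤ m * ∑ X ∈ H.powerset.filter (fun X => X ∉ D),
      ((m : ℝ) - 1) ^ (H.card - X.card) := by
    have := (Nat.cast_le (α := ℝ)).2 h1
    push_cast at this
    rw [hcast] at this
    exact this
  have h2R : ∑ X ∈ H.powerset, ((m : ℝ) - 1) ^ (H.card - X.card) = (m : ℝ) ^ H.card := by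
    have := congrArg (Nat.cast (R := ℝ)) h2
    push_cast at this
    rw [hcast] at this
    exact this
  have hsplit := Finset.sum_filter_add_sum_filter_not H.powerset (fun X => X ∈ D)
    (fun X => ((m : ℝ) - 1) ^ (H.card - X.card))
  have hin : ∑ X ∈ H.powerset.filter (fun X => X ∈ D), ((m : ℝ) - 1) ^ (H.card - X.card)
      ≤ (1 - 1 / (m : ℝ)) * (m : ℝ) ^ H.card := by
    have h3 : (m : ℝ) ^ H.card / m ≤ ∑ X ∈ H.powerset.filter (fun X => X ∉ D),
      ((m : ℝ) - 1) ^ (H.card - X.card) := by
      rw [div_le_iff₀ hm0]; linarith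
    have h4 : (1 - 1 / (m : ℝ)) * (m : ℝ) ^ H.card = (m : ℝ) ^ H.card - (m : ℝ) ^ H.card / m := by
      field_simp
    linarith
  have hrew : ∀ X ∈ H.powerset.filter (fun X => X ∈ D),
      (1 / ((m : ℝ) - 1)) ^ X.card
        = (1 / ((m : ℝ) - 1)) ^ H.card * ((m : ℝ) - 1) ^ (H.card - X.card) := by
    intro X hX
    have hXH : X.card ≤ H.card :=
      Finset.card_le_card (Finset.mem_powerset.1 (Finset.mem_filter.1 hX).1)
    have : H.card = X.card + (H.card - X.card) := by omega
    conv_rhs => rw [this, pow_add]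
    rw [show X.card + (H.card - X.card) - X.card = H.card - X.card by omega]
    rw [mul_assoc, ← mul_pow]
    rw [one_div_mul_cancel hm1.ne', one_pow, mul_one]
  rw [Finset.sum_congr rfl hrew, ← Finset.mul_sum]
  calc (1 / ((m : ℝ) - 1)) ^ H.card * ∑ X ∈ H.powerset.filter (fun X => X ∈ D),
        ((m : ℝ) - 1) ^ (H.card - X.card)
      ≤ (1 / ((m : ℝ) - 1)) ^ H.card * ((1 - 1 / (m : ℝ)) * (m : ℝ) ^ H.card) :=
        mul_le_mul_of_nonneg_left hin (by positivity)
    _ = (1 - 1 / (m : ℝ)) * (1 + 1 / ((m : ℝ) - 1)) ^ H.card := by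
        have : 1 + 1 / ((m : ℝ) - 1) = (1 / ((m : ℝ) - 1)) * m := by
          field_simp; ring
        rw [this, mul_pow]; ring

end Crest.Agent.TG
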