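import Mathlib
import Crest.Agent.TG_Cert
import Crest.Agent.TG_Col

set_option autoImplicit false

namespace Crest.HS72B

open Finset

/-- lower bound for the certificate on a set `H` that is in no union of `m` members of `D`. -/
theorem cert_lower {N : ℕ} (D : Finset (Finset (Fin N))) (m : ℕ) (hm : 2 ≤ m)
    (c : Finset (Fin N) → ℝ) (hc : ∀ S, 0 ≤ c S) (hc0 : c ∅ = 1)
    (hcert : ∀ t : Fin N → ℝ, (∀ i, 0 ≤ t i) →
        1 ≤ (∑ X ∈ D, Crest.TG.pr t X) * ∑ S : Finset (Fin N), c S * ∏ i ∈ S, t i)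
    (H : Finset (Fin N))
    (hH : ∀ f : Fin m → Finset (Fin N), (∀ i, f i ∈ D) → ¬ H ⊆ Finset.univ.biUnion f) :
    1 / (m : ℝ) ≤ ∑ S ∈ H.powerset.erase ∅, c S * (1 / ((m : ℝ) - 1)) ^ S.card := by
  have hmR : (2 : ℝ) ≤ m := by exact_mod_cast hm
  have hm0 : (0 : ℝ) < (m : ℝ) := by linarith
  have hm1 : (0 : ℝ) < (m : ℝ) - 1 := by linarith
  set θ : ℝ := 1 / ((m : ℝ) - 1) with hθ
  have hθ0 : 0 < θ := by positivity
  set t : Fin N → ℝ := fun i => if i ∈ H then θ else 0 with ht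
  have ht0 : ∀ i, 0 ≤ t i := by
    intro i
    simp only [ht]
    split_ifs
    · exact hθ0.le
    · exact le_rfl
  have hprodS : ∀ S : Finset (Fin N), ∏ i ∈ S, t i = if S ⊆ H then θ ^ S.card else 0 := by
    intro S
    split_ifs with hS
    · rw [prod_congr rfl (fun i hi => by simp only [ht, if_pos (hS hi)] : ∀ i ∈ S, t i = θ)]
      simp
    · obtain ⟨i, hi, hiH⟩ := Finset.not_subset.1 hS
      exact prod_eq_zero hi (by simp [ht, hiH])
  have hden : ∏ i, (1 + t i) = (1 + θ) ^ H.card := by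
    have h1 : ∀ i : Fin N, (1 + t i) = if i ∈ H then (1 + θ) else 1 := by
      intro i
      simp only [ht]
      split_ifs <;> simp
    rw [prod_congr rfl (fun i _ => h1 i), prod_ite_mem, univ_inter, prod_const]
  have hcert1 := hcert t ht0
  have hsumS : ∑ S : Finset (Fin N), c S * ∏ i ∈ S, t i = ∑ S ∈ H.powerset, c S * θ ^ S.card := by
    rw [← sum_subset (subset_univ H.powerset)]
    · refine sum_congr rfl (fun S hS => ?_)
      rw [hprodS, if_pos (mem_powerset.1 hS)]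
    · intro S _ hS
      rw [hprodS, if_neg (fun h => hS (mem_powerset.2 h)), mul_zero]
  have hP : ∑ X ∈ D, Crest.TG.pr t X ≤ 1 - 1 / (m : ℝ) := by
    have h1 : ∑ X ∈ D, Crest.TG.pr t X =
        (∑ X ∈ H.powerset.filter (fun X => X ∈ D), θ ^ X.card) / (1 + θ) ^ H.card := by
      unfold Crest.TG.pr
      rw [← sum_div, hden]
      congr 1
      have h2 : H.powerset.filter (fun X => X ∈ D) = D.filter (fun X => X ⊆ H) := by
        ext X
        simp only [mem_filter, mem_powerset]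
        exact ⟨fun h => ⟨h.2, h.1⟩, fun h => ⟨h.2, h.1⟩⟩
      rw [h2, sum_filter]
      exact sum_congr rfl (fun X _ => hprodS X)
    rw [h1, div_le_iff₀ (by positivity)]
    exact Crest.Agent.TG.colour_real D m hm H hH
  have hQ0 : 0 ≤ ∑ S ∈ H.powerset, c S * θ ^ S.card :=
    sum_nonneg (fun S _ => mul_nonneg (hc S) (by positivity))
  have hsplit : ∑ S ∈ H.powerset, c S * θ ^ S.card =
      1 + ∑ S ∈ H.powerset.erase ∅, c S * θ ^ S.card := by
    rw [← add_sum_erase H.powerset _ (empty_mem_powerset H)]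
    simp [hc0]
  rw [hsumS] at hcert1
  have h3 : 1 ≤ (1 - 1 / (m : ℝ)) * ∑ S ∈ H.powerset, c S * θ ^ S.card :=
    le_trans hcert1 (mul_le_mul_of_nonneg_right hP hQ0)
  rw [hsplit] at h3
  set A := ∑ S ∈ H.powerset.erase ∅, c S * θ ^ S.card with hA
  have hA0 : 0 ≤ A := sum_nonneg (fun S _ => mul_nonneg (hc S) (by positivity))
  have h4 : 0 < 1 / (m : ℝ) := by positivity
  nlinarith

/-- the total of the certificate at `τ`, without the empty set. -/
theorem cert_total {N : ℕ} (D : Finset (Finset (Fin N))) (p : ℝ) (hp0 : 0 < p) (hp1 : p < 1)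
    (hD : 1 - 1 / 2 ^ 75 ≤ ∑ S ∈ D, p ^ S.card * (1 - p) ^ (N - S.card))
    (c : Finset (Fin N) → ℝ) (hc0 : c ∅ = 1)
    (hcert : (∑ S : Finset (Fin N), c S * ∏ _i ∈ S, (p / (1 - p))) *
        (∑ X ∈ D, Crest.TG.pr (fun _ => p / (1 - p)) X) = 1) :
    ∑ S ∈ (Finset.univ : Finset (Finset (Fin N))).erase ∅, c S * (p / (1 - p)) ^ S.card
      ≤ 1 / 2 ^ 74 := by
  have h1p : 0 < 1 - p := by linarith
  have hP : ∑ X ∈ D, Crest.TG.pr (fun _ => p / (1 - p)) X =
      ∑ S ∈ D, p ^ S.card * (1 - p) ^ (N - S.card) := by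
    refine sum_congr rfl (fun X _ => ?_)
    unfold Crest.TG.pr
    have h1 : (1 : ℝ) + p / (1 - p) = 1 / (1 - p) := by field_simp; ring
    simp only [prod_const, card_univ, Fintype.card_fin, h1]
    have hX : X.card ≤ N := by
      have := card_le_univ X
      simpa using this
    have hN : (1 - p) ^ N = (1 - p) ^ X.card * (1 - p) ^ (N - X.card) := by
      rw [← pow_add]; congr 1; omega
    rw [div_pow, one_div, inv_pow, div_inv_eq_mul, hN]
    field_simp
  rw [hP] at hcert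
  set P := ∑ S ∈ D, p ^ S.card * (1 - p) ^ (N - S.card) with hPdef
  have hsum : ∑ S : Finset (Fin N), c S * ∏ _i ∈ S, (p / (1 - p)) =
      1 + ∑ S ∈ (Finset.univ : Finset (Finset (Fin N))).erase ∅, c S * (p / (1 - p)) ^ S.card := by
    have h7 : ∑ S : Finset (Fin N), c S * ∏ _i ∈ S, (p / (1 - p)) =
        ∑ S : Finset (Fin N), c S * (p / (1 - p)) ^ S.card :=
      sum_congr rfl (fun S _ => by rw [prod_const])
    have h8 := add_sum_erase (univ : Finset (Finset (Fin N)))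
      (fun S => c S * (p / (1 - p)) ^ S.card) (mem_univ (∅ : Finset (Fin N)))
    simp only [hc0, card_empty, pow_zero, mul_one] at h8
    rw [h7, ← h8]
  rw [hsum] at hcert
  set A := ∑ S ∈ (Finset.univ : Finset (Finset (Fin N))).erase ∅, c S * (p / (1 - p)) ^ S.card
    with hA
  have hPlow : (1 : ℝ) - 1 / 2 ^ 75 ≤ P := hD
  have hPpos : 0 < P := by
    have : (0 : ℝ) < 1 - 1 / 2 ^ 75 := by norm_num
    linarith
  by_contra hcon
  push Not at hcon
  have h5 : (1 + A) * P > (1 + 1 / 2 ^ 74) * (1 - 1 / 2 ^ 75) := by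
    calc (1 + A) * P > (1 + 1 / 2 ^ 74) * P := by
          apply mul_lt_mul_of_pos_right _ hPpos
          linarith
      _ ≥ (1 + 1 / 2 ^ 74) * (1 - 1 / 2 ^ 75) := by
          apply mul_le_mul_of_nonneg_left hPlow
          norm_num
  have h6 : (1 + 1 / 2 ^ 74 : ℝ) * (1 - 1 / 2 ^ 75) > 1 := by norm_num
  linarith

end Crest.HS72B
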