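import Mathlib
import Crest.Agent.HS72_CertB

set_option autoImplicit false

namespace Crest.HS72B

open Finset

/-- a set in no union of `K` members of `D` is in no union of `m ≤ K` members of the down-closure. -/
theorem lift_unc {N K m : ℕ} (hmK : m ≤ K) (D D' : Finset (Finset (Fin N)))
    (hD' : ∀ S ∈ D', ∃ A ∈ D, S ⊆ A) (A₀ : Finset (Fin N)) (hA₀ : A₀ ∈ D) (S : Finset (Fin N))
    (hS : ∀ f : Fin K → Finset (Fin N), (∀ i, f i ∈ D) → ¬ S ⊆ Finset.univ.biUnion f)
    (f : Fin m → Finset (Fin N)) (hf : ∀ i, f i ∈ D') : ¬ S ⊆ Finset.univ.biUnion f := by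
  classical
  intro hsub
  have hch : ∀ i : Fin m, ∃ A ∈ D, f i ⊆ A := fun i => hD' _ (hf i)
  choose A hAD hfA using hch
  apply hS (fun j => if hj : (j : ℕ) < m then A ⟨j, hj⟩ else A₀)
  · intro j
    by_cases hj : (j : ℕ) < m
    · simp only [hj, dif_pos]
      exact hAD _
    · simp only [hj, dif_neg, not_false_iff]
      exact hA₀
  · intro x hx
    have hx' := hsub hx
    rw [mem_biUnion] at hx' ⊢
    obtain ⟨i, _, hxi⟩ := hx'
    have hlt : (i : ℕ) < K := lt_of_lt_of_le i.2 hmK
    refine ⟨⟨i, hlt⟩, mem_univ _, ?_⟩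
    have hi : (i : ℕ) < m := i.2
    simp only [hi, dif_pos]
    exact hfA _ hxi

/-- S0072 from S0071 (as a hypothesis on subsets of `Fin N`). -/
theorem final (N : ℕ) (hN : 1 ≤ N) (p : ℝ)
    (hp0 : 0 < p) (hp1 : p < 1) (D : Finset (Finset (Fin N)))
    (hD : 1 - 1 / 2 ^ 75 ≤ ∑ S ∈ D, p ^ S.card * (1 - p) ^ (N - S.card))
    (S71 : ∀ (F : Finset (Finset (Fin N))), F.Nonempty → ∅ ∉ F →
      (∀ A ∈ F, ∀ B : Finset (Fin N), A ⊆ B → B ∈ F) → ∀ r : ℝ, 0 ≤ r → r ≤ 1 →
      ∀ g : Finset (Fin N) → ℝ, (∀ S : Finset (Fin N), 0 ≤ g S ∧ g S ≤ 1) →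
      (∀ H ∈ F, 1 ≤ ∑ S ∈ H.powerset, g S) →
      ∑ S : Finset (Fin N), g S * r ^ S.card ≤ 1 / 2 →
      ∃ G : Finset (Finset (Fin N)), (∀ H ∈ F, ∃ S ∈ G, S ⊆ H) ∧
        ∑ S ∈ G, (r / (25 * 512 ^ 4)) ^ S.card ≤ 1 / 2) :
    ∃ G : Finset (Finset (Fin N)),
      (∀ S : Finset (Fin N),
        (∀ f : Fin (2 ^ 75) → Finset (Fin N), (∀ i, f i ∈ D) → ¬ S ⊆ Finset.univ.biUnion f) →
          ∃ I ∈ G, I ⊆ S) ∧
      ∑ I ∈ G, p ^ I.card ≤ 1 / 2 := by
  classical
  have h1p : 0 < 1 - p := by linarith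
  -- the down-closure
  set D' : Finset (Finset (Fin N)) := univ.filter (fun S => ∃ A ∈ D, S ⊆ A) with hD'def
  have hDsub : D ⊆ D' := by
    intro A hA
    simp only [hD'def, mem_filter, mem_univ, true_and]
    exact ⟨A, hA, subset_rfl⟩
  have hdown : ∀ R ∈ D', ∀ X ⊆ R, X ∈ D' := by
    intro R hR X hX
    simp only [hD'def, mem_filter, mem_univ, true_and] at hR ⊢
    obtain ⟨A, hA, hRA⟩ := hR
    exact ⟨A, hA, hX.trans hRA⟩
  have hD'mass : 1 - 1 / 2 ^ 75 ≤ ∑ S ∈ D', p ^ S.card * (1 - p) ^ (N - S.card) :=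
    le_trans hD (sum_le_sum_of_subset_of_nonneg hDsub (fun S _ _ => by positivity))
  have hDne : D.Nonempty := by
    by_contra h
    rw [not_nonempty_iff_eq_empty] at h
    rw [h, sum_empty] at hD
    have : (0 : ℝ) < 1 - 1 / 2 ^ 75 := by norm_num
    linarith
  have hD'ne : D'.Nonempty := hDne.mono hDsub
  obtain ⟨A₀, hA₀⟩ := hDne
  set τ : ℝ := p / (1 - p) with hτ
  have hτ0 : 0 < τ := by positivity
  have hpτ : p ≤ τ := by
    rw [hτ, le_div_iff₀ h1p]
    nlinarith
  obtain ⟨_, c, hc, hc0, hct, hcert⟩ := Crest.TG.od_cert D' hdown hD'ne (fun _ => τ)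
    (fun _ => hτ0.le)
  have htot := cert_total D' p hp0 hp1 hD'mass c hc0 hct
  -- the number of colours
  set m : ℕ := 2 ^ 41 with hm
  have hm2 : 2 ≤ m := by rw [hm]; norm_num
  have hmR : (m : ℝ) = 2 ^ 41 := by rw [hm]; norm_num
  have hm1pos : (0 : ℝ) < (m : ℝ) - 1 := by rw [hmR]; norm_num
  set θ : ℝ := 1 / ((m : ℝ) - 1) with hθ
  have hθ0 : 0 < θ := by positivity
  -- an uncovered set is not in a union of m members of D'
  have hunc : ∀ S : Finset (Fin N),
      (∀ f : Fin (2 ^ 75) → Finset (Fin N), (∀ i, f i ∈ D) → ¬ S ⊆ Finset.univ.biUnion f) →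
      ∀ f : Fin m → Finset (Fin N), (∀ i, f i ∈ D') → ¬ S ⊆ Finset.univ.biUnion f := by
    intro S hS f hf
    refine lift_unc (K := 2 ^ 75) ?_ D D' ?_ A₀ hA₀ S hS f hf
    · rw [hm]; norm_num
    · intro S hS
      simp only [hD'def, mem_filter, mem_univ, true_and] at hS
      exact hS
  have hlow : ∀ S : Finset (Fin N),
      (∀ f : Fin (2 ^ 75) → Finset (Fin N), (∀ i, f i ∈ D) → ¬ S ⊆ Finset.univ.biUnion f) →
      1 / (m : ℝ) ≤ ∑ T ∈ S.powerset.erase ∅, c T * θ ^ T.card := by
    intro S hS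
    exact cert_lower D' m hm2 c hc hc0 hcert S (hunc S hS)
  set r : ℝ := 25 * 512 ^ 4 * p with hr
  have hr0 : 0 ≤ r := by positivity
  have hrp : r / (25 * 512 ^ 4) = p := by
    rw [hr]; field_simp
  by_cases hr1 : r ≤ 1
  · -- main case
    set F : Finset (Finset (Fin N)) := univ.filter (fun S =>
      ∀ f : Fin (2 ^ 75) → Finset (Fin N), (∀ i, f i ∈ D) → ¬ S ⊆ Finset.univ.biUnion f) with hF
    have hmemF : ∀ S, S ∈ F ↔ ∀ f : Fin (2 ^ 75) → Finset (Fin N), (∀ i, f i ∈ D) →
        ¬ S ⊆ Finset.univ.biUnion f := by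
      intro S
      simp only [hF, mem_filter, mem_univ, true_and]
    by_cases hFne : F.Nonempty
    · have hempty : ∅ ∉ F := by
        intro h
        exact (hmemF ∅).1 h (fun _ => A₀) (fun _ => hA₀) (empty_subset _)
      have hup : ∀ A ∈ F, ∀ B : Finset (Fin N), A ⊆ B → B ∈ F := by
        intro A hA B hAB
        rw [hmemF] at hA ⊢
        intro f hf hsub
        exact hA f hf (hAB.trans hsub)
      set g : Finset (Fin N) → ℝ := fun S => if S = ∅ then 0 else min 1 (m * (c S * θ ^ S.card))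
        with hg
      have hterm0 : ∀ S, 0 ≤ (m : ℝ) * (c S * θ ^ S.card) := by
        intro S
        have := hc S
        positivity
      have hg01 : ∀ S : Finset (Fin N), 0 ≤ g S ∧ g S ≤ 1 := by
        intro S
        simp only [hg]
        split_ifs
        · exact ⟨le_rfl, zero_le_one⟩
        · exact ⟨le_min zero_le_one (hterm0 S), min_le_left _ _⟩
      have hcov : ∀ H ∈ F, 1 ≤ ∑ S ∈ H.powerset, g S := by
        intro H hH
        by_cases hex : ∃ S ∈ H.powerset, S ≠ ∅ ∧ 1 ≤ (m : ℝ) * (c S * θ ^ S.card)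
        · obtain ⟨S, hS, hSne, hS1⟩ := hex
          have h1 : g S = 1 := by
            simp only [hg, if_neg hSne]
            exact min_eq_left hS1
          calc (1 : ℝ) = g S := h1.symm
            _ ≤ ∑ S ∈ H.powerset, g S := single_le_sum (fun S _ => (hg01 S).1) hS
        · push Not at hex
          have h1 : ∑ S ∈ H.powerset, g S = ∑ S ∈ H.powerset.erase ∅, (m : ℝ) * (c S * θ ^ S.card) := by
            rw [← add_sum_erase H.powerset g (empty_mem_powerset H)]
            have h0 : g ∅ = 0 := by simp [hg]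
            rw [h0, zero_add]
            refine sum_congr rfl (fun S hS => ?_)
            have hSne := (mem_erase.1 hS).1
            have hSH := (mem_erase.1 hS).2
            simp only [hg, if_neg hSne]
            exact min_eq_right (hex S hSH (nonempty_iff_ne_empty.2 hSne)).le
          rw [h1, ← mul_sum]
          have h2 := hlow H ((hmemF H).1 hH)
          have hmpos : (0 : ℝ) < m := by rw [hmR]; norm_num
          calc (1 : ℝ) = m * (1 / (m : ℝ)) := by field_simp
            _ ≤ _ := mul_le_mul_of_nonneg_left h2 hmpos.le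
      have hrθ : θ * r ≤ τ := by
        refine le_trans ?_ hpτ
        rw [hθ, hr, hmR]
        have : (1 : ℝ) / (2 ^ 41 - 1) * (25 * 512 ^ 4) ≤ 1 := by norm_num
        calc (1 : ℝ) / (2 ^ 41 - 1) * (25 * 512 ^ 4 * p)
            = ((1 : ℝ) / (2 ^ 41 - 1) * (25 * 512 ^ 4)) * p := (mul_assoc _ _ _).symm
          _ ≤ 1 * p := mul_le_mul_of_nonneg_right this hp0.le
          _ = p := one_mul p
      have hcost : ∑ S : Finset (Fin N), g S * r ^ S.card ≤ 1 / 2 := by
        rw [← add_sum_erase univ _ (mem_univ (∅ : Finset (Fin N)))]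
        have h0 : g ∅ = 0 := by simp [hg]
        rw [h0, zero_mul, zero_add]
        calc ∑ S ∈ (univ : Finset (Finset (Fin N))).erase ∅, g S * r ^ S.card
            ≤ ∑ S ∈ (univ : Finset (Finset (Fin N))).erase ∅, (m : ℝ) * (c S * τ ^ S.card) := by
              refine sum_le_sum (fun S hS => ?_)
              have hSne := (mem_erase.1 hS).1
              have hgS : g S ≤ (m : ℝ) * (c S * θ ^ S.card) := by
                simp only [hg, if_neg hSne]
                exact min_le_right _ _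
              calc g S * r ^ S.card ≤ (m : ℝ) * (c S * θ ^ S.card) * r ^ S.card :=
                    mul_le_mul_of_nonneg_right hgS (by positivity)
                _ = (m : ℝ) * (c S * (θ * r) ^ S.card) := by
                    rw [show (θ * r) ^ S.card = θ ^ S.card * r ^ S.card from mul_pow θ r _]
                    ring
                _ ≤ (m : ℝ) * (c S * τ ^ S.card) := by
                    apply mul_le_mul_of_nonneg_left _ (by positivity)
                    apply mul_le_mul_of_nonneg_left _ (hc S)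
                    exact pow_le_pow_left₀ (by positivity) hrθ _
          _ = (m : ℝ) * ∑ S ∈ (univ : Finset (Finset (Fin N))).erase ∅, c S * τ ^ S.card := by
              rw [mul_sum]
          _ ≤ (m : ℝ) * (1 / 2 ^ 74) := mul_le_mul_of_nonneg_left htot (by positivity)
          _ ≤ 1 / 2 := by rw [hmR]; norm_num
      obtain ⟨G, hG1, hG2⟩ := S71 F hFne hempty hup r hr0 hr1 g hg01 hcov hcost
      rw [hrp] at hG2
      exact ⟨G, fun S hS => hG1 S ((hmemF S).2 hS), hG2⟩
    · refine ⟨∅, ?_, by simp⟩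
      intro S hS
      exact absurd ⟨S, (hmemF S).2 hS⟩ hFne
  · -- large p: no uncovered set
    push Not at hr1
    refine ⟨∅, ?_, by simp⟩
    intro S hS
    exfalso
    have h1 := hlow S hS
    have hθτ : θ ≤ τ := by
      refine le_trans ?_ hpτ
      rw [hθ, hmR]
      have h2 : (1 : ℝ) < 25 * 512 ^ 4 * p := hr1
      have h3 : (1 : ℝ) / (2 ^ 41 - 1) ≤ 1 / (25 * 512 ^ 4) := by norm_num
      have h4 : (1 : ℝ) / (25 * 512 ^ 4) ≤ p := by
        rw [div_le_iff₀ (by norm_num)]
        linarith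
      linarith
    have h5 : ∑ T ∈ S.powerset.erase ∅, c T * θ ^ T.card ≤
        ∑ T ∈ (univ : Finset (Finset (Fin N))).erase ∅, c T * τ ^ T.card := by
      calc ∑ T ∈ S.powerset.erase ∅, c T * θ ^ T.card
          ≤ ∑ T ∈ S.powerset.erase ∅, c T * τ ^ T.card := by
            refine sum_le_sum (fun T _ => ?_)
            exact mul_le_mul_of_nonneg_left (pow_le_pow_left₀ hθ0.le hθτ _) (hc T)
        _ ≤ _ := by
            apply sum_le_sum_of_subset_of_nonneg (erase_subset_erase _ (subset_univ _))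
            intro T _ _
            have := hc T
            positivity
    have h6 : (1 : ℝ) / m ≤ 1 / 2 ^ 74 := h1.trans (h5.trans htot)
    rw [hmR] at h6
    norm_num at h6

end Crest.HS72B
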