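import Mathlib
import Crest.Agent.TG_Cert
import Crest.Agent.HS72_Col

set_option autoImplicit false

namespace Crest.HS72

open Finset Crest.TG

private lemma pr_const {N : ℕ} (t : ℝ) (ht : 0 ≤ t) (X : Finset (Fin N)) :
    pr (fun _ : Fin N => t) X = (t / (1 + t)) ^ X.card * (1 - t / (1 + t)) ^ (N - X.card) := by
  have h1 : (0 : ℝ) < 1 + t := by linarith
  have hX : X.card ≤ N := by simpa using card_le_univ X
  have e : 1 - t / (1 + t) = 1 / (1 + t) := by field_simp; ring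
  unfold pr
  rw [e, prod_const, prod_const, card_univ, Fintype.card_fin, div_pow, div_pow, one_pow]
  have : (1 + t) ^ N = (1 + t) ^ X.card * (1 + t) ^ (N - X.card) := by
    rw [← pow_add]; congr 1; omega
  rw [this]
  have n1 : (1 + t) ^ X.card ≠ 0 := pow_ne_zero _ h1.ne'
  have n2 : (1 + t) ^ (N - X.card) ≠ 0 := pow_ne_zero _ h1.ne'
  field_simp

private lemma prod_ind {N : ℕ} (H S : Finset (Fin N)) (a : ℝ) :
    (∏ i ∈ S, (if i ∈ H then a else 0)) = if S ⊆ H then a ^ S.card else 0 := by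
  by_cases h : S ⊆ H
  · rw [if_pos h, prod_congr rfl (fun i hi => if_pos (h hi)), prod_const]
  · rw [if_neg h]
    obtain ⟨i, hi, hi'⟩ := not_subset.1 h
    exact prod_eq_zero hi (if_neg hi')

private lemma pr_ind {N : ℕ} (m : ℕ) (hm : 2 ≤ m) (H X : Finset (Fin N)) :
    pr (fun i : Fin N => if i ∈ H then 1 / ((m : ℝ) - 1) else 0) X =
      if X ⊆ H then (1 / (m : ℝ)) ^ X.card * (1 - 1 / (m : ℝ)) ^ (H.card - X.card) else 0 := by
  have hm1 : (0 : ℝ) < (m : ℝ) - 1 := by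
    have : (2 : ℝ) ≤ m := by exact_mod_cast hm
    linarith
  have hm0 : (0 : ℝ) < (m : ℝ) := by linarith
  unfold pr
  rw [prod_ind]
  by_cases h : X ⊆ H
  · rw [if_pos h, if_pos h]
    have hc : X.card ≤ H.card := card_le_card h
    have e1 : ∏ i : Fin N, (1 + (if i ∈ H then 1 / ((m : ℝ) - 1) else 0)) =
        (1 + 1 / ((m : ℝ) - 1)) ^ H.card := by
      have : ∀ i : Fin N, (1 + (if i ∈ H then 1 / ((m : ℝ) - 1) else 0)) =
          if i ∈ H then (1 + 1 / ((m : ℝ) - 1)) else 1 := by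
        intro i; split_ifs <;> simp
      rw [prod_congr rfl (fun i _ => this i), prod_ite_mem, univ_inter, prod_const]
    rw [e1]
    have e2 : 1 + 1 / ((m : ℝ) - 1) = (m : ℝ) / ((m : ℝ) - 1) := by field_simp; ring
    have e3 : 1 - 1 / (m : ℝ) = ((m : ℝ) - 1) / m := by field_simp
    rw [e2, e3, div_pow, div_pow, div_pow, div_pow, one_pow]
    have e4 : (m : ℝ) ^ H.card = (m : ℝ) ^ X.card * (m : ℝ) ^ (H.card - X.card) := by
      rw [← pow_add]; congr 1; omega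
    have e5 : ((m : ℝ) - 1) ^ H.card = ((m : ℝ) - 1) ^ X.card * ((m : ℝ) - 1) ^ (H.card - X.card) := by
      rw [← pow_add]; congr 1; omega
    rw [e4, e5]
    have n1 : (m : ℝ) ^ X.card ≠ 0 := pow_ne_zero _ hm0.ne'
    have n2 : (m : ℝ) ^ (H.card - X.card) ≠ 0 := pow_ne_zero _ hm0.ne'
    have n3 : ((m : ℝ) - 1) ^ X.card ≠ 0 := pow_ne_zero _ hm1.ne'
    have n4 : ((m : ℝ) - 1) ^ (H.card - X.card) ≠ 0 := pow_ne_zero _ hm1.ne'
    field_simp
  · rw [if_neg h, if_neg h, zero_div]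

private lemma extend_union {N K m : ℕ} (hmK : m ≤ K) (D : Finset (Finset (Fin N)))
    (D0 : Finset (Fin N)) (hD0 : D0 ∈ D) (H : Finset (Fin N))
    (hH : ∀ f : Fin K → Finset (Fin N), (∀ i, f i ∈ D) → ¬ H ⊆ Finset.univ.biUnion f)
    (f : Fin m → Finset (Fin N)) (hf : ∀ i, ∃ Y ∈ D, f i ⊆ Y) :
    ¬ H ⊆ Finset.univ.biUnion f := by
  intro hcov
  choose Y hY hfY using hf
  refine hH (fun j => if h : (j : ℕ) < m then Y ⟨j, h⟩ else D0) (fun j => ?_) ?_
  · split_ifs with h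
    · exact hY _
    · exact hD0
  · intro x hx
    obtain ⟨i, _, hi⟩ := mem_biUnion.1 (hcov hx)
    refine mem_biUnion.2 ⟨⟨i, lt_of_lt_of_le i.2 hmK⟩, mem_univ _, ?_⟩
    simp only [i.2, dif_pos]
    exact hfY i hi

theorem s72_of_s71
    (h71 : ∀ (N : ℕ) (_ : 1 ≤ N) (F : Finset (Finset (Fin N))) (_ : F.Nonempty) (_ : ∅ ∉ F)
      (_ : ∀ A ∈ F, ∀ B : Finset (Fin N), A ⊆ B → B ∈ F) (r : ℝ) (_ : 0 ≤ r) (_ : r ≤ 1)
      (g : Finset (Fin N) → ℝ) (_ : ∀ S : Finset (Fin N), 0 ≤ g S ∧ g S ≤ 1)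
      (_ : ∀ H ∈ F, 1 ≤ ∑ S ∈ H.powerset, g S)
      (_ : ∑ S : Finset (Fin N), g S * r ^ S.card ≤ 1 / 2),
      ∃ G : Finset (Finset (Fin N)), (∀ H ∈ F, ∃ S ∈ G, S ⊆ H) ∧
        ∑ S ∈ G, (r / (25 * 512 ^ 4)) ^ S.card ≤ 1 / 2)
    (N : ℕ) (hN : 1 ≤ N) (p : ℝ)
    (hp0 : 0 < p) (hp1 : p < 1) (D : Finset (Finset (Fin N)))
    (hD : 1 - 1 / 2 ^ 75 ≤ ∑ S ∈ D, p ^ S.card * (1 - p) ^ (N - S.card)) :
    ∃ G : Finset (Finset (Fin N)),
      (∀ S : Finset (Fin N),
        (∀ f : Fin (2 ^ 75) → Finset (Fin N), (∀ i, f i ∈ D) → ¬ S ⊆ Finset.univ.biUnion f) →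
          ∃ I ∈ G, I ⊆ S) ∧
      ∑ I ∈ G, p ^ I.card ≤ 1 / 2 := by
  classical
  have hDne : D.Nonempty := by
    rw [nonempty_iff_ne_empty]
    rintro rfl
    rw [sum_empty] at hD
    norm_num at hD
  obtain ⟨D0, hD0⟩ := hDne
  -- down closure
  set D' : Finset (Finset (Fin N)) := univ.filter (fun X => ∃ Y ∈ D, X ⊆ Y) with hD'
  have hsub : D ⊆ D' := fun X hX => mem_filter.2 ⟨mem_univ _, X, hX, Subset.rfl⟩
  have hdown : ∀ A ∈ D', ∀ B ⊆ A, B ∈ D' := by
    intro A hA B hB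
    obtain ⟨_, Y, hY, hAY⟩ := mem_filter.1 hA
    exact mem_filter.2 ⟨mem_univ _, Y, hY, hB.trans hAY⟩
  have hne' : D'.Nonempty := ⟨D0, hsub hD0⟩
  have hp1' : 0 ≤ 1 - p := by linarith
  have hD'p : 1 - 1 / 2 ^ 75 ≤ ∑ S ∈ D', p ^ S.card * (1 - p) ^ (N - S.card) :=
    hD.trans (sum_le_sum_of_subset_of_nonneg hsub (fun _ _ _ => by positivity))
  obtain ⟨m, hm⟩ : ∃ m : ℕ, m = 2 ^ 42 := ⟨_, rfl⟩
  have hm2 : 2 ≤ m := by rw [hm]; norm_num
  have hm75 : m ≤ 2 ^ 75 := by rw [hm]; norm_num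
  have hmR : (m : ℝ) = 2 ^ 42 := by rw [hm]; norm_num
  have hm1 : (0 : ℝ) < (m : ℝ) - 1 := by rw [hmR]; norm_num
  have hm0 : (0 : ℝ) < (m : ℝ) := by rw [hmR]; norm_num
  -- the family
  set F : Finset (Finset (Fin N)) := univ.filter (fun S =>
    ∀ f : Fin (2 ^ 75) → Finset (Fin N), (∀ i, f i ∈ D) → ¬ S ⊆ Finset.univ.biUnion f) with hF
  -- members of F are not unions of m members of D'
  have hcol : ∀ H ∈ F, ∀ f : Fin m → Finset (Fin N), (∀ i, f i ∈ D') →
      ¬ H ⊆ Finset.univ.biUnion f := by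
    intro H hH f hf
    exact extend_union hm75 D D0 hD0 H (mem_filter.1 hH).2 f (fun i => (mem_filter.1 (hf i)).2)
  by_cases hFne : F.Nonempty
  swap
  · refine ⟨∅, fun S hS => ?_, by norm_num⟩
    exact absurd ⟨S, mem_filter.2 ⟨mem_univ _, hS⟩⟩ hFne
  have hFempty : ∅ ∉ F := by
    intro h
    exact (mem_filter.1 h).2 (fun _ => D0) (fun _ => hD0) (empty_subset _)
  have hFup : ∀ A ∈ F, ∀ B : Finset (Fin N), A ⊆ B → B ∈ F := by
    intro A hA B hAB
    refine mem_filter.2 ⟨mem_univ _, fun f hf hB => ?_⟩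
    exact (mem_filter.1 hA).2 f hf (hAB.trans hB)
  set r : ℝ := 25 * 512 ^ 4 * p with hr
  have hr0 : 0 ≤ r := by positivity
  by_cases hr1 : r ≤ 1
  swap
  · exfalso
    obtain ⟨A, hA⟩ := hFne
    have hU : (univ : Finset (Fin N)) ∈ F := hFup A hA _ (subset_univ _)
    have h1 := color_bound N m (by omega) D' univ (hcol _ hU)
    have h2 : D'.filter (· ⊆ (univ : Finset (Fin N))) = D' := by
      ext X; simp
    rw [h2] at h1
    simp only [card_univ, Fintype.card_fin] at h1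
    have h3 : 1 / (m : ℝ) ≤ p := by
      rw [div_le_iff₀ hm0, hmR]
      push Not at hr1
      rw [hr] at hr1
      nlinarith
    have h4 := mono_density N D' hdown p (1 / m) (by positivity) h3 hp1.le
    have h5 : (1 : ℝ) / 2 ^ 75 < 1 / m := by
      rw [hmR]
      norm_num
    linarith
  -- the certificate
  set θ : ℝ := 1 / ((m : ℝ) - 1) with hθ
  have hθ0 : 0 < θ := by positivity
  set τ : ℝ := θ * r with hτ
  have hτ0 : 0 ≤ τ := by positivity
  have hτp : τ ≤ p := by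
    rw [hτ, hθ, hr, hmR]
    have : (1 : ℝ) / (2 ^ 42 - 1) * (25 * 512 ^ 4) ≤ 1 := by norm_num
    nlinarith
  obtain ⟨hpos, c, hc0, hcE, hcτ, hct⟩ := od_cert D' hdown hne' (fun _ : Fin N => τ)
    (fun _ => hτ0)
  set P : ℝ := ∑ X ∈ D', pr (fun _ : Fin N => τ) X with hP
  have hPlow : 1 - 1 / 2 ^ 75 ≤ P := by
    rw [hP, sum_congr rfl (fun X _ => pr_const τ hτ0 X)]
    have hq0 : 0 ≤ τ / (1 + τ) := by positivity
    have hqp : τ / (1 + τ) ≤ p := by
      refine le_trans (div_le_self hτ0 (by linarith)) hτp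
    exact hD'p.trans (mono_density N D' hdown p _ hq0 hqp hp1.le)
  simp only [prod_const] at hcτ
  set Q : ℝ := ∑ S : Finset (Fin N), c S * τ ^ S.card with hQ
  have hQle : Q ≤ 1 + 2 / 2 ^ 75 := by
    have hQ0 : 0 ≤ Q := sum_nonneg (fun S _ => mul_nonneg (hc0 S) (pow_nonneg hτ0 _))
    have h1 : Q * (1 - 1 / 2 ^ 75) ≤ 1 := by
      calc Q * (1 - 1 / 2 ^ 75) ≤ Q * P := mul_le_mul_of_nonneg_left hPlow hQ0
        _ = 1 := hcτ
    by_contra h
    push Not at h
    have : (1 + 2 / 2 ^ 75 : ℝ) * (1 - 1 / 2 ^ 75) < 1 :=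
      lt_of_lt_of_le (mul_lt_mul_of_pos_right h (by norm_num)) h1
    norm_num at this
  -- the fractional cover
  set g : Finset (Fin N) → ℝ := fun S => if S = ∅ then 0 else min 1 (m * (c S * θ ^ S.card))
    with hg
  have hg01 : ∀ S, 0 ≤ g S ∧ g S ≤ 1 := by
    intro S
    rw [hg]
    dsimp only
    split_ifs
    · exact ⟨le_rfl, zero_le_one⟩
    · refine ⟨le_min zero_le_one ?_, min_le_left _ _⟩
      exact mul_nonneg hm0.le (mul_nonneg (hc0 S) (pow_nonneg hθ0.le _))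
  have hcov : ∀ H ∈ F, 1 ≤ ∑ S ∈ H.powerset, g S := by
    intro H hH
    have h1 := hct (fun i => if i ∈ H then θ else 0) (fun i => by
      split_ifs
      · exact hθ0.le
      · exact le_rfl)
    have h2 : ∑ X ∈ D', pr (fun i : Fin N => if i ∈ H then θ else 0) X ≤ 1 - 1 / m := by
      rw [sum_congr rfl (fun X _ => pr_ind m hm2 H X)]
      rw [← sum_filter]
      exact color_bound N m (by omega) D' H (hcol H hH)
    have h3 : ∑ S : Finset (Fin N), c S * ∏ i ∈ S, (if i ∈ H then θ else 0) =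
        ∑ S ∈ H.powerset, c S * θ ^ S.card := by
      rw [sum_congr rfl (fun S _ => by rw [prod_ind])]
      simp only [mul_ite, mul_zero]
      rw [← sum_filter]
      refine sum_congr ?_ (fun _ _ => rfl)
      ext S; simp
    rw [h3] at h1
    set A : ℝ := ∑ S ∈ H.powerset, c S * θ ^ S.card with hA
    have hA0 : 0 ≤ A := sum_nonneg (fun S _ => mul_nonneg (hc0 S) (pow_nonneg hθ0.le _))
    have h4 : 1 ≤ (1 - 1 / (m : ℝ)) * A := h1.trans (mul_le_mul_of_nonneg_right h2 hA0)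
    have h5 : 1 + 1 / (m : ℝ) ≤ A := by
      have : (1 - 1 / (m : ℝ)) * (1 + 1 / (m : ℝ)) ≤ 1 := by
        have : (0 : ℝ) ≤ (1 / (m : ℝ)) ^ 2 := by positivity
        nlinarith
      by_contra h
      push Not at h
      have h6 : (0 : ℝ) < 1 - 1 / m := by
        rw [hmR]; norm_num
      have := mul_lt_mul_of_pos_left h h6
      linarith
    have h6 : A = c ∅ * θ ^ (∅ : Finset (Fin N)).card +
        ∑ S ∈ H.powerset.erase ∅, c S * θ ^ S.card := by
      rw [hA]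
      exact (add_sum_erase _ (fun S : Finset (Fin N) => c S * θ ^ S.card)
        (empty_mem_powerset H)).symm
    rw [hcE, card_empty, pow_zero, mul_one] at h6
    have h7 : 1 ≤ (m : ℝ) * ∑ S ∈ H.powerset.erase ∅, c S * θ ^ S.card := by
      have : 1 / (m : ℝ) ≤ ∑ S ∈ H.powerset.erase ∅, c S * θ ^ S.card := by linarith
      rw [div_le_iff₀ hm0] at this
      linarith
    by_cases hex : ∃ S ∈ H.powerset.erase ∅, 1 ≤ m * (c S * θ ^ S.card)
    · obtain ⟨S, hS, hS1⟩ := hex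
      have hSne : S ≠ ∅ := (mem_erase.1 hS).1
      have : g S = 1 := by
        rw [hg]; dsimp only
        rw [if_neg hSne, min_eq_left hS1]
      rw [← this]
      exact single_le_sum (f := g) (fun T _ => (hg01 T).1) (mem_erase.1 hS).2
    · push Not at hex
      calc (1 : ℝ) ≤ (m : ℝ) * ∑ S ∈ H.powerset.erase ∅, c S * θ ^ S.card := h7
        _ = ∑ S ∈ H.powerset.erase ∅, g S := by
          rw [mul_sum]
          refine sum_congr rfl (fun S hS => ?_)
          rw [hg]; dsimp only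
          rw [if_neg (mem_erase.1 hS).1, min_eq_right (hex S hS).le]
        _ ≤ ∑ S ∈ H.powerset, g S :=
          sum_le_sum_of_subset_of_nonneg (erase_subset _ _) (fun T _ _ => (hg01 T).1)
  have hcost : ∑ S : Finset (Fin N), g S * r ^ S.card ≤ 1 / 2 := by
    have h1 : ∀ S : Finset (Fin N), g S * r ^ S.card ≤
        if S = ∅ then 0 else m * (c S * τ ^ S.card) := by
      intro S
      rw [hg]; dsimp only
      split_ifs with h
      · simp
      · calc min 1 (m * (c S * θ ^ S.card)) * r ^ S.card ≤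
            (m * (c S * θ ^ S.card)) * r ^ S.card :=
              mul_le_mul_of_nonneg_right (min_le_right _ _) (pow_nonneg hr0 _)
          _ = m * (c S * τ ^ S.card) := by rw [hτ, mul_pow]; ring
    have h2 : ∑ S : Finset (Fin N), (if S = ∅ then 0 else m * (c S * τ ^ S.card)) =
        m * (Q - 1) := by
      have h3 : Q = c ∅ * τ ^ (∅ : Finset (Fin N)).card +
          ∑ S ∈ univ.erase ∅, c S * τ ^ S.card := by
        rw [hQ]
        exact (add_sum_erase _ (fun S : Finset (Fin N) => c S * τ ^ S.card) (mem_univ ∅)).symm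
      rw [hcE, card_empty, pow_zero, mul_one] at h3
      rw [h3, add_sub_cancel_left, mul_sum, ← add_sum_erase _ _ (mem_univ ∅), if_pos rfl, zero_add]
      refine sum_congr rfl (fun S hS => ?_)
      rw [if_neg (mem_erase.1 hS).1]
    calc ∑ S : Finset (Fin N), g S * r ^ S.card ≤
        ∑ S : Finset (Fin N), (if S = ∅ then 0 else m * (c S * τ ^ S.card)) :=
          sum_le_sum (fun S _ => h1 S)
      _ = m * (Q - 1) := h2
      _ ≤ m * (2 / 2 ^ 75) := by
        refine mul_le_mul_of_nonneg_left (by linarith) hm0.le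
      _ ≤ 1 / 2 := by rw [hmR]; norm_num
  obtain ⟨G, hG, hGc⟩ := h71 N hN F hFne hFempty hFup r hr0 hr1 g hg01 hcov hcost
  refine ⟨G, fun S hS => hG S (mem_filter.2 ⟨mem_univ _, hS⟩), ?_⟩
  have : r / (25 * 512 ^ 4) = p := by rw [hr]; field_simp
  rw [this] at hGc
  exact hGc

end Crest.HS72
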