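import Mathlib

/-!
S0074 (helper55): definitions.  Prefix IMX_.
-/
set_option autoImplicit false
open Filter Topology Set

namespace IMX

/-! ### ideals of thin sets -/

/-- an ideal of subsets of `V` ("thin" sets) -/
structure Idl (V : Type) where
  Thin : Set V → Prop
  empty : Thin ∅
  mono : ∀ {A B : Set V}, A ⊆ B → Thin B → Thin A
  union : ∀ {A B : Set V}, Thin A → Thin B → Thin (A ∪ B)
  univ : ¬ Thin Set.univ

/-- `X ≤ Y` modulo thin sets -/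
def Idl.Le {V : Type} (I : Idl V) (X Y : Set V) : Prop := I.Thin (X \ Y)

/-- `B` (between `L` and `A`) is generic over the family `C` -/
def Idl.Gen {V : Type} (I : Idl V) (C : Set (Set V)) (L A B : Set V) : Prop :=
  ∀ Z ∈ C, (I.Le Z B → I.Le Z L) ∧ (I.Le B Z → I.Le A Z)

/-- `B` is obtained from `L ⊆ A` by mixing with `Q` -/
def mix {V : Type} (L A Q : Set V) : Set V := L ∪ (A ∩ Q)

/-- splitting family: every non-thin set is unsplit by only finitely many `Q x` -/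
def Splits {V : Type} (I : Idl V) (Q : (ℕ → Bool) → Set V) : Prop :=
  ∀ Z : Set V, ¬ I.Thin Z → {x | I.Thin (Z ∩ Q x)}.Finite ∧ {x | I.Thin (Z \ Q x)}.Finite

/-- the block map; every fibre has cardinality continuum -/
def blk (x : ℕ → Bool) : ℕ → Bool := fun n => x (2 * n)

/-! ### Phase 1: ranks and signs -/

/-- Output of phase 1 -/
structure Rk {V : Type} (I : Idl V) where
  Neg : Set V → Prop
  rk : Set V → Ordinal.{0}
  neg_compl : ∀ X, Neg Xᶜ ↔ ¬ Neg X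
  mono : ∀ X Y, I.Le X Y → Neg Y → Neg X ∧ rk X ≤ rk Y
  rich1 : ∀ L A : Set V, L ⊆ A → ∀ C : Set (Set V), Cardinal.mk C < Cardinal.continuum →
    ∃ B, L ⊆ B ∧ B ⊆ A ∧ I.Gen C L A B ∧ (Neg B ↔ Neg L) ∧ (Neg L → rk B = rk L) ∧
      (¬ Neg L → rk Bᶜ = rk Lᶜ)
  rich2 : ∀ L A : Set V, L ⊆ A → Neg L → ¬ Neg A → ∀ a : Set V, Neg a →
    ∀ C : Set (Set V), Cardinal.mk C < Cardinal.continuum →
    ∃ B, L ⊆ B ∧ B ⊆ A ∧ I.Gen C L A B ∧ Neg B ∧ rk a < rk B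

/-- a fact `(X, o)` means: `X` is negative of rank `o`.  Good sets of facts. -/
structure Good1 {V : Type} (I : Idl V) (P : Set (Set V × Ordinal.{0})) : Prop where
  empty : ((∅ : Set V), (0 : Ordinal.{0})) ∈ P
  mono : ∀ X Y o o', (X, o) ∈ P → (Y, o') ∈ P → I.Le X Y → o ≤ o'
  link : ∀ X Y o o', (X, o) ∈ P → (Y, o') ∈ P → ¬ I.Le Xᶜ Y

/-- `X` is decided by `P` -/
def Dec1 {V : Type} (P : Set (Set V × Ordinal.{0})) (X : Set V) : Prop :=
  (∃ o, (X, o) ∈ P) ∨ (∃ o, (Xᶜ, o) ∈ P)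

/-! ### Phase 2: the coarse sign function on pairs -/

/-- order modulo thin sets on pairs -/
def Idl.Le2 {V : Type} (I : Idl V) (z z' : Set V × Set V) : Prop := I.Le z.1 z'.1 ∧ I.Le z.2 z'.2

/-- complement of a pair -/
def cp {V : Type} (z : Set V × Set V) : Set V × Set V := (z.1ᶜ, z.2ᶜ)

/-- rule-low pairs -/
def RL {V : Type} {I : Idl V} (R : Rk I) (z : Set V × Set V) : Prop :=
  R.Neg z.1 ∧ ¬ (¬ R.Neg z.2 ∧ R.rk z.2ᶜ < R.rk z.1)

/-- rule-high pairs -/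
def RH {V : Type} {I : Idl V} (R : Rk I) (z : Set V × Set V) : Prop := RL R (cp z)

/-- undecided pairs -/
def UD {V : Type} {I : Idl V} (R : Rk I) (z : Set V × Set V) : Prop := ¬ RL R z ∧ ¬ RH R z

/-- good sets of facts `(z, σ)`, `σ = -1, 0, 1` -/
structure Good2 {V : Type} {I : Idl V} (R : Rk I) (P : Set ((Set V × Set V) × SignType)) : Prop where
  ud : ∀ z σ, (z, σ) ∈ P → UD R z
  compl : ∀ z σ, (z, σ) ∈ P → (cp z, -σ) ∈ P
  mono : ∀ z z' σ σ', (z, σ) ∈ P → (z', σ') ∈ P → I.Le2 z z' → σ ≤ σ'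
  strict : ∀ z z', (z, (0 : SignType)) ∈ P → (z', (0 : SignType)) ∈ P → I.Le2 z z' → I.Le2 z' z

/-- low pairs (rule or fact) -/
def Low {V : Type} {I : Idl V} (R : Rk I) (P : Set ((Set V × Set V) × SignType))
    (z : Set V × Set V) : Prop := RL R z ∨ (z, (-1 : SignType)) ∈ P

/-- high pairs (rule or fact) -/
def High {V : Type} {I : Idl V} (R : Rk I) (P : Set ((Set V × Set V) × SignType))
    (z : Set V × Set V) : Prop := RH R z ∨ (z, (1 : SignType)) ∈ P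

/-- Output of phase 2 -/
structure Coarse {V : Type} {I : Idl V} (R : Rk I) where
  s : Set V × Set V → SignType
  mono : ∀ z z', I.Le2 z z' → s z ≤ s z'
  compl : ∀ z, s (cp z) = - s z
  strict : ∀ z z', s z = 0 → s z' = 0 → I.Le2 z z' → I.Le2 z' z
  interp : ∀ l h : Set V × Set V, l.1 ⊆ h.1 → l.2 ⊆ h.2 → s l = -1 → s h = 1 →
    ∃ b : Set V × Set V, l.1 ⊆ b.1 ∧ b.1 ⊆ h.1 ∧ l.2 ⊆ b.2 ∧ b.2 ⊆ h.2 ∧ s b = 0
  low : ∀ z, RL R z → s z = -1

/-! ### Phase 3: fine structure -/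

/-- a system of finite cells with weights -/
structure Sys (U : Type) where
  cell : ℕ → Finset U
  disj : ∀ m n, m ≠ n → Disjoint (cell m) (cell n)
  cover : ∀ u : U, ∃ n, u ∈ cell n
  w : ℕ → ℕ
  wpos : ∀ n, 0 < w n
  wdbl : ∀ n, 2 * w n ≤ w (n + 1)
  /-- the cells are not thin -/
  big : ∀ n, w n ≤ (cell n).card

/-- union of the cells `0..n` as a set -/
def Sys.F {U : Type} (S : Sys U) (n : ℕ) : Set U := ⋃ i ∈ Finset.range (n + 1), (S.cell i : Set U)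

/-- number of elements of `Z` in the cells `0..n` -/
noncomputable def Sys.cnt {U : Type} (S : Sys U) (Z : Set U) (n : ℕ) : ℕ := (Z ∩ S.F n).ncard

/-- number of elements of `Z` in the cell `n` -/
noncomputable def Sys.ccnt {U : Type} (S : Sys U) (Z : Set U) (n : ℕ) : ℕ :=
  (Z ∩ (S.cell n : Set U)).ncard

/-- thin sets -/
def Sys.Thin {U : Type} (S : Sys U) (Z : Set U) : Prop :=
  Tendsto (fun n => (S.cnt Z n : ℝ) / (S.w n : ℝ)) atTop (𝓝 0)

def Sys.Le {U : Type} (S : Sys U) (X Y : Set U) : Prop := S.Thin (X \ Y)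

/-- small functions -/
def Sys.Small {U : Type} (S : Sys U) (g : ℕ → ℤ) : Prop :=
  Tendsto (fun n => (g n : ℝ) / (S.w n : ℝ)) atTop (𝓝 0)

/-- the condition from `N` on -/
def Sys.FLN {U : Type} (S : Sys U) (N : ℕ) (g : ℕ → ℤ) : Prop :=
  ∀ k, N ≤ k → g k < 0 → ∃ m, k ≤ m ∧ -(g k) * (S.w m : ℤ) ≤ g m * (S.w k : ℤ)

/-- the functional of type "low" -/
def Sys.FL {U : Type} (S : Sys U) (g : ℕ → ℤ) : Prop := ∃ N, S.FLN N g

/-! ### axioms of a uniform self-dual matroid in terms of spanning sets -/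

structure UAx {U : Type} (Sp : Set U → Prop) : Prop where
  mono : ∀ X Y, X ⊆ Y → Sp X → Sp Y
  total : ∀ X, Sp X ∨ Sp Xᶜ
  exch : ∀ X, Sp X → ∀ x ∈ X, ∀ y, y ∉ X → Sp (insert y (X \ {x}))
  strict : ∀ X, Sp X → Sp Xᶜ → ∀ e ∈ X, ¬ Sp (X \ {e})
  interp : ∀ I X, I ⊆ X → Sp Iᶜ → Sp X → ∃ B, I ⊆ B ∧ B ⊆ X ∧ Sp B ∧ Sp Bᶜ

/-- the set of the disjoint union with parts `Y`, `T` -/
def pr {V : Type} (Y T : Set V) : Set (V ⊕ V) := Sum.inl '' Y ∪ Sum.inr '' T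

end IMX
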