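import Crest.Agent.IMX_Defs

set_option autoImplicit false
open Filter Topology Set

namespace IMX

variable {V : Type} (I : Idl V)

theorem Idl.le_of_subset {X Y : Set V} (h : X ⊆ Y) : I.Le X Y := by
  unfold Idl.Le; rw [Set.sdiff_eq_empty.mpr h]; exact I.empty

theorem Idl.le_refl (X : Set V) : I.Le X X := I.le_of_subset subset_rfl

theorem Idl.le_trans {X Y Z : Set V} (h : I.Le X Y) (h' : I.Le Y Z) : I.Le X Z := by
  refine I.mono ?_ (I.union h h')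
  intro x hx
  by_cases hy : x ∈ Y
  · exact Or.inr ⟨hy, hx.2⟩
  · exact Or.inl ⟨hx.1, hy⟩

theorem Idl.le_compl {X Y : Set V} : I.Le Yᶜ Xᶜ ↔ I.Le X Y := by
  unfold Idl.Le
  have : Yᶜ \ Xᶜ = X \ Y := by ext x; simp [and_comm]
  rw [this]

theorem Idl.le_compl' {X Y : Set V} : I.Le Xᶜ Y ↔ I.Le Yᶜ X := by
  rw [← I.le_compl (X := Xᶜ) (Y := Y), compl_compl]

theorem Idl.le_compl'' {X Y : Set V} : I.Le X Yᶜ ↔ I.Le Y Xᶜ := by
  rw [← I.le_compl (X := X) (Y := Yᶜ), compl_compl]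

theorem Idl.le_empty {X : Set V} : I.Le X ∅ ↔ I.Thin X := by
  unfold Idl.Le; simp

theorem Idl.univ_le {X : Set V} : I.Le Set.univ X ↔ I.Thin Xᶜ := by
  unfold Idl.Le; rw [← Set.compl_eq_univ_sdiff]

theorem Idl.le2_refl (z : Set V × Set V) : I.Le2 z z := ⟨I.le_refl _, I.le_refl _⟩

theorem Idl.le2_trans {x y z : Set V × Set V} (h : I.Le2 x y) (h' : I.Le2 y z) : I.Le2 x z :=
  ⟨I.le_trans h.1 h'.1, I.le_trans h.2 h'.2⟩

theorem Idl.le2_cp {x y : Set V × Set V} : I.Le2 (cp y) (cp x) ↔ I.Le2 x y := by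
  unfold Idl.Le2 cp; simp only [I.le_compl]

theorem cp_cp (z : Set V × Set V) : cp (cp z) = z := by unfold cp; simp

theorem Idl.le2_cp' {x y : Set V × Set V} : I.Le2 (cp x) y ↔ I.Le2 (cp y) x := by
  rw [← I.le2_cp (x := cp x) (y := y), cp_cp]

theorem mix_left (L A Q : Set V) : L ⊆ mix L A Q := subset_union_left

theorem mix_right {L A : Set V} (h : L ⊆ A) (Q : Set V) : mix L A Q ⊆ A :=
  union_subset h inter_subset_left

/-- genericity is self-dual -/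
theorem Idl.Gen.compl {I : Idl V} {C : Set (Set V)} {L A B : Set V} (h : I.Gen C L A B) :
    I.Gen (compl '' C) Aᶜ Lᶜ Bᶜ := by
  rintro _ ⟨Z, hZ, rfl⟩
  exact ⟨fun h1 => I.le_compl.mpr ((h Z hZ).2 (I.le_compl.mp h1)),
    fun h1 => I.le_compl.mpr ((h Z hZ).1 (I.le_compl.mp h1))⟩

theorem Idl.Gen.mono {I : Idl V} {C C' : Set (Set V)} {L A B : Set V} (h : I.Gen C L A B)
    (hC : C' ⊆ C) : I.Gen C' L A B := fun Z hZ => h Z (hC hZ)

end IMX
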