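import Mathlib

/-!
# S0074: a pair of self-dual matroids without a cover has no packing/covering partition
-/

set_option autoImplicit false

namespace Crest.Agent.IMX

/-- If `M` is self-dual with ground set `univ`, `P ∪ C = univ` disjoint, `S ⊆ P` spans `M|P` and
`I ⊆ C` is independent in `M / P`, then `(P \ S) ∪ I` is independent in `M`. -/
theorem indep_of_partition {α : Type*} (M : Matroid α) (hE : M.E = Set.univ) (hd : M.dual = M)
    {P C S I : Set α} (hPC : P ∪ C = Set.univ) (hdis : Disjoint P C) (hS : S ⊆ P)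
    (hcl : (M.restrict P).closure S = P) (hI : I ⊆ C) (hind : (M.contract Cᶜ).Indep I) :
    M.Indep ((P \ S) ∪ I) := by
  have hCc : Cᶜ = P := by
    apply Set.Subset.antisymm
    · intro x hx
      have : x ∈ P ∪ C := hPC ▸ Set.mem_univ x
      rcases this with h | h
      · exact h
      · exact absurd h hx
    · exact fun x hx hxC => Set.disjoint_left.mp hdis hx hxC
  have hPc : Pᶜ = C := by rw [← hCc, compl_compl]
  -- `S` is spanning in `M ↾ P`
  have hPE : P ⊆ M.E := by rw [hE]; exact Set.subset_univ _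
  have hCE : C ⊆ M.E := by rw [hE]; exact Set.subset_univ _
  have hSE : S ⊆ (M.restrict P).E := hS
  have hspan : (M.restrict P).Spanning S := by
    rw [Matroid.spanning_iff]
    exact ⟨hcl, hSE⟩
  -- so `P \ S` is independent in the dual `(M ↾ P)✶ = M✶ ／ Pᶜ = M ／ C`
  have h1 : (M.restrict P).dual.Indep (P \ S) := by
    have := hspan.compl_coindep
    exact this.indep
  have h2 : (M.restrict P).dual = M.contract C := by
    have h3 : M.restrict P = M.delete C := by
      rw [← hPc]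
      have := Matroid.delete_compl (M := M) (R := P) hPE
      rw [hE, ← Set.compl_eq_univ_sdiff] at this
      exact this.symm
    rw [h3, Matroid.dual_delete, hd]
  rw [h2] at h1
  -- `I` is independent in `M`
  rw [hCc] at hind
  have hI1 : M.Indep I := hind.of_contract
  obtain ⟨J, hJ, hIJ⟩ := hI1.subset_isBasis_of_subset hI
  have h3 : M.Indep ((P \ S) ∪ J) := by
    rw [hJ.contract_indep_iff] at h1
    exact h1.1
  exact h3.subset (Set.union_subset_union_right _ hIJ)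

/-- (b) follows from (a). -/
theorem no_partition {α : Type*} (M₀ M₁ : Matroid α) (hE₀ : M₀.E = Set.univ)
    (hE₁ : M₁.E = Set.univ) (hd₀ : M₀.dual = M₀) (hd₁ : M₁.dual = M₁)
    (hcov : ∀ I₀ I₁ : Set α, M₀.Indep I₀ → M₁.Indep I₁ → I₀ ∪ I₁ ≠ Set.univ) :
    ¬ ∃ P C S₀ S₁ I₀ I₁ : Set α, P ∪ C = Set.univ ∧ Disjoint P C ∧
          S₀ ⊆ P ∧ S₁ ⊆ P ∧ Disjoint S₀ S₁ ∧
          (M₀.restrict P).closure S₀ = P ∧ (M₁.restrict P).closure S₁ = P ∧
          I₀ ⊆ C ∧ I₁ ⊆ C ∧ (M₀.contract Cᶜ).Indep I₀ ∧ (M₁.contract Cᶜ).Indep I₁ ∧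
          I₀ ∪ I₁ = C := by
  rintro ⟨P, C, S₀, S₁, I₀, I₁, hPC, hdis, hS₀, hS₁, hSS, hc₀, hc₁, hI₀, hI₁, hi₀, hi₁, hII⟩
  refine hcov _ _ (indep_of_partition M₀ hE₀ hd₀ hPC hdis hS₀ hc₀ hI₀ hi₀)
    (indep_of_partition M₁ hE₁ hd₁ hPC hdis hS₁ hc₁ hI₁ hi₁) ?_
  rw [Set.eq_univ_iff_forall]
  intro x
  have hx : x ∈ P ∪ C := hPC ▸ Set.mem_univ x
  rcases hx with hx | hx
  · by_cases h : x ∈ S₀
    · exact Or.inr (Or.inl ⟨hx, fun h' => Set.disjoint_left.mp hSS h h'⟩)
    · exact Or.inl (Or.inl ⟨hx, h⟩)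
  · rw [← hII] at hx
    rcases hx with hx | hx
    · exact Or.inl (Or.inr hx)
    · exact Or.inr (Or.inr hx)

end Crest.Agent.IMX
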