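/-
S0074, Phase 2: glue to the blueprint definitions (IMX_Defs.lean).  (helper8)
-/
import Mathlib
import Crest.Agent.IMX_Defs
import Crest.Agent.IMX_PhTwo

set_option autoImplicit false
open Cardinal Set

namespace IMX

theorem phOne_of_Rk {V : Type} {I : Idl V} (R : Rk I) :
    Crest.Agent.IMX.PhOne I.Le R.Neg R.rk where
  refl := fun X => by
    show I.Thin (X \ X)
    rw [sdiff_self]; exact I.empty
  trans := fun X Y Z h1 h2 => by
    refine I.mono ?_ (I.union h1 h2)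
    intro x hx
    by_cases hy : x ∈ Y
    · exact Or.inr ⟨hy, hx.2⟩
    · exact Or.inl ⟨hx.1, hy⟩
  sub := fun X Y h => by
    show I.Thin (X \ Y)
    refine I.mono ?_ I.empty
    intro x hx
    exact absurd (h hx.1) hx.2
  compl := fun X Y h => by
    refine I.mono ?_ h
    intro x hx
    exact ⟨not_not.1 hx.2, hx.1⟩
  N1 := R.neg_compl
  N2 := R.mono
  R1 := fun L A h C hC => by
    obtain ⟨B, b1, b2, b3, b4, b5, b6⟩ := R.rich1 L A h C hC
    exact ⟨B, b1, b2, b3, fun hn => ⟨b4.2 hn, b5 hn⟩, fun hn => ⟨fun hb => hn (b4.1 hb), b6 hn⟩⟩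
  R2 := fun L A a h hL hA ha C hC => R.rich2 L A h hL hA a ha C hC

/-- **Phase 2**. -/
theorem coarse_exists {V : Type} {I : Idl V} (R : Rk I)
    (hV : Cardinal.mk (Set V) ≤ Cardinal.continuum) : Nonempty (Coarse R) := by
  obtain ⟨s, h0, h1, h2, h3, h4, h5⟩ :=
    Crest.Agent.IMX.PhTwo.exists_sign (phOne_of_Rk R) hV
  have sg : ∀ z, (SignType.sign (s z) = 0 ↔ s z = 0) ∧ (SignType.sign (s z) = -1 ↔ s z = -1) ∧
      (SignType.sign (s z) = 1 ↔ s z = 1) := by
    intro z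
    rcases h0 z with h | h | h <;> rw [h] <;> decide
  refine ⟨⟨fun z => SignType.sign (s z), ?_, ?_, ?_, ?_, ?_⟩⟩
  · intro z z' hz
    have h := h1 z z' hz
    exact SignType.sign.monotone h
  · intro z
    show SignType.sign (s (cp z)) = - SignType.sign (s z)
    have : s (cp z) = - s z := h2 z
    rw [this, Left.sign_neg]
  · intro z z' e1 e2 hz
    exact h3 z z' ((sg z).1.1 e1) ((sg z').1.1 e2) hz
  · intro l h s1 s2 e1 e2
    obtain ⟨b, b1, b2, b3⟩ := h4 l h ⟨s1, s2⟩ ((sg l).2.1.1 e1) ((sg h).2.2.1 e2)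
    exact ⟨b, b1.1, b2.1, b1.2, b2.2, (sg b).1.2 b3⟩
  · intro z hz
    apply (sg z).2.1.2
    rcases h0 z with h | h | h
    · exact h
    · exact absurd (h5 z hz.1 (by omega)) hz.2
    · exact absurd (h5 z hz.1 (by omega)) hz.2

end IMX
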