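import Mathlib

set_option autoImplicit false

/-!
# Abstract recursion of length continuum (for S0074)

`exists_all_done`: a family of finite-step closure tasks, indexed by a type of cardinality at most
the continuum, can be carried out simultaneously.
-/

namespace Crest.Agent.IMX

open Cardinal Set

universe u

section Rec

variable {F : Type u} {W : Type} [LinearOrder W] [WellFoundedLT W]

/-- the recursion: `recP step P0 t = step t (P0 ∪ ⋃ s < t, recP step P0 s)`. -/
noncomputable def recP (step : W → Set F → Set F) (P0 : Set F) : W → Set F :=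
  WellFoundedLT.fix (fun t ih => step t (P0 ∪ ⋃ s : {s : W // s < t}, ih s.1 s.2))

/-- what has been done before stage `t`. -/
def recQ (step : W → Set F → Set F) (P0 : Set F) (t : W) : Set F :=
  P0 ∪ ⋃ s : {s : W // s < t}, recP step P0 s.1

theorem recP_eq (step : W → Set F → Set F) (P0 : Set F) (t : W) :
    recP step P0 t = step t (recQ step P0 t) := by
  unfold recP recQ
  rw [WellFoundedLT.fix_eq]
  rfl

variable {step : W → Set F → Set F} {P0 : Set F}

theorem mem_recQ {t : W} {x : F} :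
    x ∈ recQ step P0 t ↔ x ∈ P0 ∨ ∃ s < t, x ∈ recP step P0 s := by
  simp [recQ]

theorem P0_subset_recQ (t : W) : P0 ⊆ recQ step P0 t := fun _ hx => Or.inl hx

theorem recP_subset_recQ {s t : W} (h : s < t) : recP step P0 s ⊆ recQ step P0 t :=
  fun _ hx => mem_recQ.2 (Or.inr ⟨s, h, hx⟩)

theorem recQ_subset_recP (h1 : ∀ t Q, Q ⊆ step t Q) (t : W) :
    recQ step P0 t ⊆ recP step P0 t := by
  rw [recP_eq]
  exact h1 t _

theorem recP_mono (h1 : ∀ t Q, Q ⊆ step t Q) {s t : W} (h : s ≤ t) :
    recP step P0 s ⊆ recP step P0 t := by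
  rcases h.lt_or_eq with h | rfl
  · exact (recP_subset_recQ h).trans (recQ_subset_recP h1 t)
  · exact le_rfl

theorem recQ_subset (t : W) :
    recQ step P0 t ⊆ P0 ∪ ⋃ s : {s : W // s < t}, (recP step P0 s.1 \ recQ step P0 s.1) := by
  intro x hx
  rcases mem_recQ.1 hx with hx | ⟨s, hs, hxs⟩
  · exact Or.inl hx
  · by_cases hP : x ∈ P0
    · exact Or.inl hP
    right
    -- take the minimal such s
    have hne : {s : W | x ∈ recP step P0 s}.Nonempty := ⟨s, hxs⟩
    obtain ⟨m, hm, hmin⟩ := WellFounded.has_min (wellFounded_lt : WellFounded ((· < ·) : W → W → Prop)) _ hne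
    have hms : m ≤ s := not_lt.1 (hmin s hxs)
    refine mem_iUnion.2 ⟨⟨m, hms.trans_lt hs⟩, hm, ?_⟩
    intro hmem
    rcases mem_recQ.1 hmem with h | ⟨r, hr, hxr⟩
    · exact hP h
    · exact hmin r hxr hr

theorem mk_recQ_lt (h2 : ∀ t Q, (step t Q \ Q).Finite)
    (hW : ∀ t : W, Cardinal.lift.{u} #{s : W // s < t} < 𝔠) (hP0 : #P0 < 𝔠) (t : W) :
    #(recQ step P0 t) < 𝔠 := by
  refine (mk_le_mk_of_subset (recQ_subset t)).trans_lt ?_
  refine (mk_union_le _ _).trans_lt (add_lt_of_lt aleph0_le_continuum hP0 ?_)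
  have h := mk_iUnion_le_lift (fun s : {s : W // s < t} =>
    (recP step P0 s.1 \ recQ step P0 s.1))
  simp only [Cardinal.lift_uzero] at h
  refine h.trans_lt (mul_lt_of_lt aleph0_le_continuum (hW t) ?_)
  refine lt_of_le_of_lt (ciSup_le' fun s => ?_) aleph0_lt_continuum
  rw [recP_eq]
  exact (h2 s.1 _).countable.le_aleph0

end Rec

/-- **Abstract recursion of length continuum.** -/
theorem exists_all_done {F : Type u} {T : Type} (hT : #T ≤ 𝔠)
    (Good : Set F → Prop)
    (hchain : ∀ c : Set (Set F), IsChain (· ⊆ ·) c → c.Nonempty → (∀ P ∈ c, Good P) →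
      Good (⋃₀ c))
    (P0 : Set F) (h0 : Good P0) (hP0 : #P0 < 𝔠)
    (Done : T → Set F → Prop)
    (hmono : ∀ t P P', P ⊆ P' → Done t P → Done t P')
    (hstep : ∀ t P, Good P → #P < 𝔠 → P0 ⊆ P →
      ∃ P', P ⊆ P' ∧ Good P' ∧ (P' \ P).Finite ∧ Done t P') :
    ∃ P, P0 ⊆ P ∧ Good P ∧ ∀ t, Done t P := by
  classical
  -- transport the tasks to an initial ordinal
  let W : Type := (#T).ord.ToType
  have hWT : #W = #T := by simp [W]
  obtain ⟨e⟩ := Cardinal.eq.1 hWT
  have hW : ∀ t : W, Cardinal.lift.{u} #{s : W // s < t} < 𝔠 := by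
    intro t
    have h1 : #(Iio t) < #W := mk_Iio_lt t (by simp [W])
    have h2 : #(Iio t) < 𝔠 := h1.trans_le (hWT.le.trans hT)
    have h3 : Cardinal.lift.{u} #(Iio t) < Cardinal.lift.{u} 𝔠 := Cardinal.lift_lt.2 h2
    rwa [Cardinal.lift_continuum] at h3
  -- the step function
  let step : W → Set F → Set F := fun t Q =>
    if h : Good Q ∧ #Q < 𝔠 ∧ P0 ⊆ Q then
      Classical.choose (hstep (e t) Q h.1 h.2.1 h.2.2) else Q
  have hs : ∀ t Q, (h : Good Q ∧ #Q < 𝔠 ∧ P0 ⊆ Q) →
      Q ⊆ step t Q ∧ Good (step t Q) ∧ (step t Q \ Q).Finite ∧ Done (e t) (step t Q) := by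
    intro t Q h
    have := Classical.choose_spec (hstep (e t) Q h.1 h.2.1 h.2.2)
    simpa only [step, dif_pos h] using this
  have h1 : ∀ t Q, Q ⊆ step t Q := by
    intro t Q
    by_cases h : Good Q ∧ #Q < 𝔠 ∧ P0 ⊆ Q
    · exact (hs t Q h).1
    · simp only [step, dif_neg h]; exact le_rfl
  have h2 : ∀ t Q, (step t Q \ Q).Finite := by
    intro t Q
    by_cases h : Good Q ∧ #Q < 𝔠 ∧ P0 ⊆ Q
    · exact (hs t Q h).2.2.1
    · simp [step, dif_neg h]
  have hsmall := mk_recQ_lt (step := step) (P0 := P0) h2 hW hP0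
  have hchain' : ∀ S : Set W, (∀ t ∈ S, Good (recP step P0 t)) →
      Good (P0 ∪ ⋃ t ∈ S, recP step P0 t) := by
    intro S hS
    have hP0r : ∀ t : W, P0 ⊆ recP step P0 t :=
      fun t => (P0_subset_recQ t).trans (recQ_subset_recP h1 t)
    have key : Good (⋃₀ (insert P0 ((recP step P0) '' S))) := by
      apply hchain
      · intro A hA B hB _
        rcases hA with rfl | ⟨s, _, rfl⟩
        · rcases hB with rfl | ⟨t, _, rfl⟩
          · exact Or.inl le_rfl
          · exact Or.inl (hP0r t)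
        · rcases hB with rfl | ⟨t, _, rfl⟩
          · exact Or.inr (hP0r s)
          · rcases le_total s t with h | h
            · exact Or.inl (recP_mono h1 h)
            · exact Or.inr (recP_mono h1 h)
      · exact ⟨P0, mem_insert _ _⟩
      · rintro A (rfl | ⟨s, hs', rfl⟩)
        · exact h0
        · exact hS s hs'
    simpa [sUnion_insert, sUnion_image] using key
  have hgood : ∀ t : W, Good (recQ step P0 t) := by
    intro t
    induction t using WellFoundedLT.induction with
    | ind t ih =>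
      have hg : ∀ s ∈ {s : W | s < t}, Good (recP step P0 s) := by
        intro s hst
        rw [recP_eq]
        exact (hs s _ ⟨ih s hst, hsmall s, P0_subset_recQ s⟩).2.1
      have := hchain' _ hg
      have heq : recQ step P0 t = P0 ∪ ⋃ s ∈ {s : W | s < t}, recP step P0 s := by
        ext x
        rw [mem_recQ]
        simp
      rw [heq]
      exact this
  have hgP : ∀ t : W, Good (recP step P0 t) ∧ Done (e t) (recP step P0 t) := by
    intro t
    rw [recP_eq]
    have := hs t _ ⟨hgood t, hsmall t, P0_subset_recQ t⟩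
    exact ⟨this.2.1, this.2.2.2⟩
  refine ⟨P0 ∪ ⋃ t ∈ (univ : Set W), recP step P0 t, subset_union_left,
    hchain' univ (fun t _ => (hgP t).1), ?_⟩
  intro t
  have := (hgP (e.symm t)).2
  rw [Equiv.apply_symm_apply] at this
  refine hmono t _ _ ?_ this
  intro x hx
  exact Or.inr (mem_biUnion (mem_univ _) hx)

end Crest.Agent.IMX
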