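import Mathlib

/-!
# Abstract transfinite recursion of length `κ` (helper44, for S0074)

IMX_Rec44: `rec_exists`, `rec_exists_continuum`, `rec_pairwise`.
-/

set_option autoImplicit false

universe u v

namespace Crest.Agent.IMX

open Cardinal Set

/-- Abstract length-`κ` recursion: a property `Good` of sets of facts closed under unions of chains, tasks indexed
by a type of size at most `κ`, each task can be done over a good set of size `< κ` by adding countably many facts.
Then all tasks can be done. -/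
theorem rec_exists {F T : Type u} {κ : Cardinal.{u}} (hκ : Cardinal.aleph0 < κ)
    (hT : Cardinal.mk T ≤ κ) (Good : Set F → Prop) (Done : T → Set F → Prop) {P0 : Set F}
    (h0 : Good P0) (h0c : Cardinal.mk P0 < κ)
    (hchain : ∀ C : Set (Set F), C.Nonempty → IsChain (· ⊆ ·) C → (∀ P ∈ C, Good P) → Good (⋃₀ C))
    (hmono : ∀ t P Q, P ⊆ Q → Good Q → Done t P → Done t Q)
    (hstep : ∀ t P, P0 ⊆ P → Good P → Cardinal.mk P < κ →
      ∃ P', P ⊆ P' ∧ Good P' ∧ (P' \ P).Countable ∧ Done t P') :
    ∃ P, P0 ⊆ P ∧ Good P ∧ ∀ t, Done t P := by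
  classical
  -- a well order on `T` with small initial segments
  obtain ⟨_, _, hr⟩ := Cardinal.exists_ord_eq_type_lt T
  have hseg : ∀ t : T, Cardinal.mk (Set.Iio t) < κ := fun t =>
    (Cardinal.mk_Iio_lt t hr).trans_le hT
  -- the step function
  have hstep' : ∀ t (P : Set F), ∃ P', P ⊆ P' ∧ (P' \ P).Countable ∧
      (P0 ⊆ P → Good P → Cardinal.mk P < κ → Good P' ∧ Done t P') := by
    intro t P
    by_cases h : P0 ⊆ P ∧ Good P ∧ Cardinal.mk P < κ
    · obtain ⟨P', h1, h2, h3, h4⟩ := hstep t P h.1 h.2.1 h.2.2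
      exact ⟨P', h1, h3, fun _ _ _ => ⟨h2, h4⟩⟩
    · refine ⟨P, subset_rfl, by simp, fun a b c => (h ⟨a, b, c⟩).elim⟩
  choose st hst1 hst2 hst3 using hstep'
  let body : (t : T) → (∀ s, s < t → Set F) → Set F := fun t IH =>
    st t (P0 ∪ ⋃ (s : T) (hs : s < t), IH s hs)
  let G : T → Set F := WellFounded.fix (wellFounded_lt (α := T)) body
  have hG : ∀ t, G t = st t (P0 ∪ ⋃ (s : T) (_ : s < t), G s) := by
    intro t
    exact WellFounded.fix_eq (wellFounded_lt (α := T)) body t
  set U : T → Set F := fun t => P0 ∪ ⋃ (s : T) (_ : s < t), G s with hU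
  have hUG : ∀ t, U t ⊆ G t := by
    intro t
    rw [hG t]
    exact hst1 t (U t)
  have hmonoG : ∀ s t, s ≤ t → G s ⊆ G t := by
    intro s t hst
    rcases hst.lt_or_eq with h | h
    · refine Set.Subset.trans ?_ (hUG t)
      intro x hx
      right
      simp only [Set.mem_iUnion]
      exact ⟨s, h, hx⟩
    · rw [h]
  -- size
  have hcov : ∀ t, G t ⊆ P0 ∪ ⋃ s ∈ Set.Iic t, (G s \ U s) := by
    intro t
    induction t using WellFoundedLT.induction with
    | ind t ih =>
      intro x hx
      by_cases hxU : x ∈ U t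
      · rcases hxU with h | h
        · exact Or.inl h
        · simp only [Set.mem_iUnion] at h
          obtain ⟨s, hs, hxs⟩ := h
          rcases ih s hs hxs with h' | h'
          · exact Or.inl h'
          · right
            simp only [Set.mem_iUnion, Set.mem_Iic] at h' ⊢
            obtain ⟨s', hs', h''⟩ := h'
            exact ⟨s', hs'.trans hs.le, h''⟩
      · right
        simp only [Set.mem_iUnion, Set.mem_Iic]
        exact ⟨t, le_rfl, hx, hxU⟩
  have hUcov : ∀ t, U t ⊆ P0 ∪ ⋃ s ∈ Set.Iio t, (G s \ U s) := by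
    intro t x hx
    rcases hx with h | h
    · exact Or.inl h
    · simp only [Set.mem_iUnion] at h
      obtain ⟨s, hs, hxs⟩ := h
      rcases hcov s hxs with h' | h'
      · exact Or.inl h'
      · right
        simp only [Set.mem_iUnion, Set.mem_Iic, Set.mem_Iio] at h' ⊢
        obtain ⟨s', hs', h''⟩ := h'
        exact ⟨s', hs'.trans_lt hs, h''⟩
  have hcount : ∀ s, (G s \ U s).Countable := by
    intro s
    rw [hG s]
    exact hst2 s (U s)
  have hUcard : ∀ t, Cardinal.mk (U t) < κ := by
    intro t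
    have h1 : Cardinal.mk (U t) ≤
        Cardinal.mk P0 + Cardinal.mk (⋃ s ∈ Set.Iio t, (G s \ U s) : Set F) :=
      (Cardinal.mk_le_mk_of_subset (hUcov t)).trans (Cardinal.mk_union_le _ _)
    have h2 : Cardinal.mk (⋃ s ∈ Set.Iio t, (G s \ U s) : Set F) ≤
        Cardinal.mk (Set.Iio t) * Cardinal.aleph0 := by
      rw [Set.biUnion_eq_iUnion]
      refine (Cardinal.mk_iUnion_le _).trans ?_
      gcongr
      exact ciSup_le' fun s => (Cardinal.le_aleph0_iff_set_countable.2 (hcount s))
    refine lt_of_le_of_lt h1 ?_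
    exact Cardinal.add_lt_of_lt hκ.le h0c
      (lt_of_le_of_lt h2 (Cardinal.mul_lt_of_lt hκ.le (hseg t) hκ))
  have hP0U : ∀ t, P0 ⊆ U t := fun t => Set.subset_union_left
  -- goodness
  have hgoodall : ∀ t, Good (G t) := by
    intro t
    induction t using WellFoundedLT.induction with
    | ind t ih =>
      have hUgood : Good (U t) := by
        have hUeq : U t = ⋃₀ (insert P0 (G '' Set.Iio t)) := by
          ext x
          simp only [hU, Set.mem_union, Set.mem_iUnion, Set.sUnion_insert, Set.sUnion_image,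
            Set.mem_Iio]
        rw [hUeq]
        refine hchain _ ⟨P0, Set.mem_insert _ _⟩ ?_ ?_
        · refine IsChain.insert ?_ ?_
          · rintro _ ⟨a, _, rfl⟩ _ ⟨b, _, rfl⟩ _
            rcases le_total a b with h | h
            · exact Or.inl (hmonoG a b h)
            · exact Or.inr (hmonoG b a h)
          · rintro _ ⟨a, _, rfl⟩ _
            exact Or.inl ((hP0U a).trans (hUG a))
        · intro P hP
          rcases hP with rfl | ⟨a, ha, rfl⟩
          · exact h0
          · exact ih a ha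
      rw [hG t]
      exact (hst3 t (U t) (hP0U t) hUgood (hUcard t)).1
  have hdone : ∀ t, Done t (G t) := by
    intro t
    have hUgood : Good (U t) := by
      have hUeq : U t = ⋃₀ (insert P0 (G '' Set.Iio t)) := by
        ext x
        simp only [hU, Set.mem_union, Set.mem_iUnion, Set.sUnion_insert, Set.sUnion_image,
          Set.mem_Iio]
      rw [hUeq]
      refine hchain _ ⟨P0, Set.mem_insert _ _⟩ ?_ ?_
      · refine IsChain.insert ?_ ?_
        · rintro _ ⟨a, _, rfl⟩ _ ⟨b, _, rfl⟩ _
          rcases le_total a b with h | h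
          · exact Or.inl (hmonoG a b h)
          · exact Or.inr (hmonoG b a h)
        · rintro _ ⟨a, _, rfl⟩ _
          exact Or.inl ((hP0U a).trans (hUG a))
      · intro P hP
        rcases hP with rfl | ⟨a, ha, rfl⟩
        · exact h0
        · exact hgoodall a
    rw [hG t]
    exact (hst3 t (U t) (hP0U t) hUgood (hUcard t)).2
  have hgood : Good (⋃₀ (insert P0 (Set.range G))) := by
    refine hchain _ ⟨P0, Set.mem_insert _ _⟩ ?_ ?_
    · refine IsChain.insert ?_ ?_
      · rintro _ ⟨a, rfl⟩ _ ⟨b, rfl⟩ _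
        rcases le_total a b with h | h
        · exact Or.inl (hmonoG a b h)
        · exact Or.inr (hmonoG b a h)
      · rintro _ ⟨a, rfl⟩ _
        exact Or.inl ((hP0U a).trans (hUG a))
    · intro P hP
      rcases hP with rfl | ⟨a, rfl⟩
      · exact h0
      · exact hgoodall a
  refine ⟨⋃₀ (insert P0 (Set.range G)), ?_, hgood, fun t => ?_⟩
  · exact Set.subset_sUnion_of_mem (Set.mem_insert _ _)
  · refine hmono t (G t) _ ?_ hgood (hdone t)
    exact Set.subset_sUnion_of_mem (Set.mem_insert_of_mem _ ⟨t, rfl⟩)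

/-- Version with `F` in a larger universe than the index type of the tasks, at `κ = 𝔠`. -/
theorem rec_exists_continuum {F : Type (max u v)} {T : Type u}
    (hT : Cardinal.mk T ≤ Cardinal.continuum) (Good : Set F → Prop) (Done : T → Set F → Prop)
    {P0 : Set F} (h0 : Good P0) (h0c : P0.Countable)
    (hchain : ∀ C : Set (Set F), C.Nonempty → IsChain (· ⊆ ·) C → (∀ P ∈ C, Good P) → Good (⋃₀ C))
    (hmono : ∀ t P Q, P ⊆ Q → Good Q → Done t P → Done t Q)
    (hstep : ∀ t P, P0 ⊆ P → Good P → Cardinal.mk P < Cardinal.continuum →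
      ∃ P', P ⊆ P' ∧ Good P' ∧ (P' \ P).Countable ∧ Done t P') :
    ∃ P, P0 ⊆ P ∧ Good P ∧ ∀ t, Done t P := by
  have hT' : Cardinal.mk (ULift.{v} T) ≤ Cardinal.continuum := by
    rw [Cardinal.mk_uLift]
    exact Cardinal.lift_le_continuum.2 hT
  obtain ⟨P, h1, h2, h3⟩ := rec_exists (T := ULift.{v} T) Cardinal.aleph0_lt_continuum hT' Good
    (fun t P => Done t.down P) h0
    (lt_of_le_of_lt (Cardinal.le_aleph0_iff_set_countable.2 h0c) Cardinal.aleph0_lt_continuum)
    hchain (fun t P Q => hmono t.down P Q) (fun t P => hstep t.down P)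
  exact ⟨P, h1, h2, fun t => h3 ⟨t⟩⟩

/-- Pairwise version (facts pairwise compatible). -/
theorem rec_pairwise {F : Type (max u v)} {T : Type u}
    (hT : Cardinal.mk T ≤ Cardinal.continuum) (compat : F → F → Prop) (Done : T → Set F → Prop)
    {P0 : Set F} (h0 : ∀ a ∈ P0, ∀ b ∈ P0, compat a b) (h0c : P0.Countable)
    (hmono : ∀ t P Q, P ⊆ Q → Done t P → Done t Q)
    (hstep : ∀ t P, P0 ⊆ P → (∀ a ∈ P, ∀ b ∈ P, compat a b) →
      Cardinal.mk P < Cardinal.continuum →
      ∃ P', P ⊆ P' ∧ (∀ a ∈ P', ∀ b ∈ P', compat a b) ∧ (P' \ P).Countable ∧ Done t P') :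
    ∃ P, P0 ⊆ P ∧ (∀ a ∈ P, ∀ b ∈ P, compat a b) ∧ ∀ t, Done t P := by
  refine rec_exists_continuum.{u, v} hT (fun P => ∀ a ∈ P, ∀ b ∈ P, compat a b) Done h0 h0c ?_
    (fun t P Q h _ => hmono t P Q h) hstep
  intro C _ hC hgood a ha b hb
  obtain ⟨P, hP, haP⟩ := ha
  obtain ⟨Q, hQ, hbQ⟩ := hb
  rcases hC.total hP hQ with h | h
  · exact hgood Q hQ a (h haP) b hbQ
  · exact hgood P hP a haP b (h hbQ)

end Crest.Agent.IMX
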