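import Crest.Agent.PIS_A2c

/-!
# S0145 blueprint, task PIS-Q1 (quotient C⋆-algebras)

Mathlib has no quotient C⋆-algebra.  Task: construct it.

Proof of `exists_quotient`.  `B := A ⧸ I` with the quotient norm
(`Submodule.Quotient.normedAddCommGroup`, `Submodule.Quotient.completeSpace`, `normedSpace`), with
multiplication and star descended from `A` (put the structure on a type synonym / structure of your own).
* submultiplicativity, `star` isometric (`star` maps `I` onto `I`): from the definition of the quotient norm.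
* C⋆-identity `‖x‖² ≤ ‖x⋆x‖` in `B`.  Let `a : A` be a lift of `x`.  For `i ∈ I` and `δ > 0`
  let `u := sg σ (star i * i)`, i.e. an element `0 ≤ u ≤ 1` of `I` with
  `‖i - i u‖ ≤ δ` (`u = s (s + σ)⁻¹` with `s = star i * i ∈ I`; then
  `‖i (1-u)‖² = ‖(1-u) s (1-u)‖ ≤ σ`).  In the unitization
  `‖a (1-u)‖² = ‖(1-u) a⋆a (1-u)‖ ≤ ‖(1-u) (a⋆a + i) (1-u)‖ + ‖(1-u) i (1-u)‖ ≤ ‖a⋆a + i‖ + δ`,
  and `a (1-u) = a - a u` is a lift of `x`.  Hence `‖x‖² ≤ ‖a⋆a + i‖ + δ` for all `i ∈ I`, `δ > 0`.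
* `sg σ s ∈ I` by `cfcn_mem`.


Replace the `sorry`s IN THIS FILE (do not change statements or names; helper lemmas are welcome, if they
are of general use put them in a new file `PIS_x*.lean`).  See `PIS_Defs.lean` for the definitions.
-/

set_option autoImplicit false

universe u

namespace PIS

open scoped CStarAlgebra

section key

variable {A : Type u} [NonUnitalCStarAlgebra A] [PartialOrder A] [StarOrderedRing A]

lemma Q1_key (a i : A) {σ : ℝ} (hσ : 0 < σ) :
    ‖a - a * sg σ (star i * i)‖ ^ 2 ≤ ‖star a * a + i‖ + √σ := by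
  set s : A := star i * i with hs
  have hsgc : Continuous (sgf σ) := continuous_sgf hσ
  have hS : IsSelfAdjoint (s : A⁺¹) := by
    have : IsSelfAdjoint s := IsSelfAdjoint.star_mul_self i
    exact Unitization.isSelfAdjoint_inr.2 this
  have hS0 : (0 : A⁺¹) ≤ (s : A⁺¹) := by
    have e : (s : A⁺¹) = star (i : A⁺¹) * (i : A⁺¹) := by
      rw [hs, Unitization.inr_mul, Unitization.inr_star]
    rw [e]
    exact star_mul_self_nonneg _
  have hu : ((sg σ s : A) : A⁺¹) = cfc (sgf σ) (s : A⁺¹) := by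
    unfold sg
    exact Unitization.real_cfcₙ_eq_cfc_inr s (sgf σ) (sgf_zero σ)
  set v : A⁺¹ := cfc (fun t => 1 - sgf σ t) (s : A⁺¹) with hv
  have hv1 : v = 1 - ((sg σ s : A) : A⁺¹) := by
    rw [hu, hv, cfc_sub (fun _ : ℝ => (1 : ℝ)) (sgf σ) (s : A⁺¹) (by fun_prop)
      (hsgc.continuousOn), cfc_const_one ℝ (s : A⁺¹) hS]
  have hvsa : star v = v := by
    have : IsSelfAdjoint v := cfc_predicate (R := ℝ) _ (s : A⁺¹)
    exact this
  have hvn : ‖v‖ ≤ 1 := by
    refine norm_cfc_le zero_le_one fun t _ => ?_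
    rw [Real.norm_eq_abs, abs_le]
    have h1 := sgf_nonneg hσ t
    have h2 := sgf_le_one hσ t
    constructor <;> linarith
  have hvSv : ‖v * (s : A⁺¹) * v‖ ≤ σ := by
    have e : v * (s : A⁺¹) * v =
        cfc (fun t : ℝ => (1 - sgf σ t) * t * (1 - sgf σ t)) (s : A⁺¹) := by
      rw [cfc_mul (fun t : ℝ => (1 - sgf σ t) * t) (fun t : ℝ => 1 - sgf σ t) (s : A⁺¹)
        (by fun_prop) (by fun_prop),
        cfc_mul (fun t : ℝ => (1 - sgf σ t)) (fun t : ℝ => t) (s : A⁺¹)
        (by fun_prop) (by fun_prop), cfc_id' ℝ (s : A⁺¹) hS]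
    rw [e]
    refine norm_cfc_le hσ.le fun t ht => ?_
    have ht0 : 0 ≤ t := spectrum_nonneg_of_nonneg hS0 ht
    have e2 : sgf σ t = t / (t + σ) := by unfold sgf; rw [max_eq_right ht0]
    have hpos : 0 < t + σ := by linarith
    have e3 : 1 - sgf σ t = σ / (t + σ) := by rw [e2]; field_simp; ring
    rw [e3, Real.norm_eq_abs, abs_of_nonneg (by positivity)]
    rw [show σ / (t + σ) * t * (σ / (t + σ)) = (σ * (t * σ)) / (t + σ) ^ 2 by field_simp]
    rw [div_le_iff₀ (by positivity)]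
    nlinarith [mul_nonneg ht0 hσ.le, sq_nonneg t, sq_nonneg σ, mul_pos hσ hσ]
  have hiv : ‖(i : A⁺¹) * v‖ ≤ √σ := by
    apply Real.le_sqrt_of_sq_le
    rw [sq, ← CStarRing.norm_star_mul_self, star_mul, hvsa]
    have : v * star (i : A⁺¹) * ((i : A⁺¹) * v) = v * (s : A⁺¹) * v := by
      rw [hs, Unitization.inr_mul, Unitization.inr_star]
      noncomm_ring
    rw [this]
    exact hvSv
  have hav : ((a - a * sg σ s : A) : A⁺¹) = (a : A⁺¹) * v := by
    rw [hv1, Unitization.inr_sub, Unitization.inr_mul]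
    noncomm_ring
  have h1 : ‖a - a * sg σ s‖ ^ 2 = ‖v * (star (a : A⁺¹) * (a : A⁺¹)) * v‖ := by
    rw [← Unitization.norm_inr (𝕜 := ℂ), hav, sq, ← CStarRing.norm_star_mul_self, star_mul, hvsa]
    congr 1
    noncomm_ring
  have h2 : v * (star (a : A⁺¹) * (a : A⁺¹)) * v =
      v * ((star a * a + i : A) : A⁺¹) * v - v * ((i : A⁺¹) * v) := by
    rw [Unitization.inr_add, Unitization.inr_mul, Unitization.inr_star]
    noncomm_ring
  rw [h1, h2]
  refine (norm_sub_le _ _).trans (add_le_add ?_ ?_)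
  · calc ‖v * ((star a * a + i : A) : A⁺¹) * v‖ ≤ ‖v * ((star a * a + i : A) : A⁺¹)‖ * ‖v‖ :=
          norm_mul_le _ _
      _ ≤ (‖v‖ * ‖((star a * a + i : A) : A⁺¹)‖) * ‖v‖ := by gcongr; exact norm_mul_le _ _
      _ ≤ (1 * ‖((star a * a + i : A) : A⁺¹)‖) * 1 := by gcongr
      _ = ‖star a * a + i‖ := by rw [one_mul, mul_one, Unitization.norm_inr]
  · calc ‖v * ((i : A⁺¹) * v)‖ ≤ ‖v‖ * ‖(i : A⁺¹) * v‖ := norm_mul_le _ _
      _ ≤ 1 * √σ := by gcongr
      _ = √σ := one_mul _

end key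

/-! ### the quotient -/

/-- closed two-sided ideals (bundled) -/
structure QI (A : Type u) [NonUnitalCStarAlgebra A] where
  I : Submodule ℂ A
  cl : IsClosed (I : Set A)
  ml : ∀ a x : A, x ∈ I → a * x ∈ I
  mr : ∀ a x : A, x ∈ I → x * a ∈ I
  st : ∀ x : A, x ∈ I → star x ∈ I

section quot

variable {A : Type u} [NonUnitalCStarAlgebra A]

/-- the quotient type -/
def QT (J : QI A) : Type u := A ⧸ J.I

variable (J : QI A)

noncomputable instance QT.instNACG : NormedAddCommGroup (QT J) :=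
  haveI : IsClosed (J.I : Set A) := J.cl
  inferInstanceAs (NormedAddCommGroup (A ⧸ J.I))

noncomputable instance QT.instNS : NormedSpace ℂ (QT J) :=
  haveI : IsClosed (J.I : Set A) := J.cl
  inferInstanceAs (NormedSpace ℂ (A ⧸ J.I))

instance QT.instCS : CompleteSpace (QT J) :=
  haveI : IsClosed (J.I : Set A) := J.cl
  inferInstanceAs (CompleteSpace (A ⧸ J.I))

/-- the quotient map -/
def QT.mk (a : A) : QT J := (Submodule.Quotient.mk a : A ⧸ J.I)

lemma QT.mk_surj : Function.Surjective (QT.mk J) := Submodule.Quotient.mk_surjective J.I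

lemma QT.mk_eq_iff (a b : A) : QT.mk J a = QT.mk J b ↔ a - b ∈ J.I :=
  Submodule.Quotient.eq J.I

lemma QT.mk_add (a b : A) : QT.mk J (a + b) = QT.mk J a + QT.mk J b := rfl
lemma QT.mk_zero : QT.mk J 0 = 0 := rfl
lemma QT.mk_neg (a : A) : QT.mk J (-a) = - QT.mk J a := rfl
lemma QT.mk_smul (c : ℂ) (a : A) : QT.mk J (c • a) = c • QT.mk J a := rfl

lemma QT.mk_eq_zero_iff (a : A) : QT.mk J a = 0 ↔ a ∈ J.I := by
  rw [← QT.mk_zero, QT.mk_eq_iff, sub_zero]

lemma QT.norm_mk_le (a : A) : ‖QT.mk J a‖ ≤ ‖a‖ :=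
  haveI : IsClosed (J.I : Set A) := J.cl
  Submodule.Quotient.norm_mk_le J.I a

lemma QT.exists_lt (x : QT J) {ε : ℝ} (hε : 0 < ε) : ∃ a : A, QT.mk J a = x ∧ ‖a‖ < ‖x‖ + ε :=
  haveI : IsClosed (J.I : Set A) := J.cl
  Submodule.Quotient.norm_mk_lt (S := J.I) x hε

instance QT.instMul : Mul (QT J) where
  mul x y := Quotient.liftOn₂' x y (fun a b => QT.mk J (a * b)) (by
    intro a₁ b₁ a₂ b₂ ha hb
    rw [Submodule.quotientRel_def] at ha hb
    rw [QT.mk_eq_iff]
    have e : a₁ * b₁ - a₂ * b₂ = (a₁ - a₂) * b₁ + a₂ * (b₁ - b₂) := by noncomm_ring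
    rw [e]
    exact J.I.add_mem (J.mr _ _ ha) (J.ml _ _ hb))

lemma QT.mk_mul (a b : A) : QT.mk J (a * b) = QT.mk J a * QT.mk J b := rfl

instance QT.instStar : Star (QT J) where
  star x := Quotient.liftOn' x (fun a => QT.mk J (star a)) (by
    intro a b h
    rw [Submodule.quotientRel_def] at h
    rw [QT.mk_eq_iff, ← star_sub]
    exact J.st _ h)

lemma QT.mk_star (a : A) : QT.mk J (star a) = star (QT.mk J a) := rfl

lemma QT.ind {p : QT J → Prop} (h : ∀ a, p (QT.mk J a)) (x : QT J) : p x := by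
  obtain ⟨a, rfl⟩ := QT.mk_surj J x
  exact h a

lemma QT.norm_mul_le' (x y : QT J) : ‖x * y‖ ≤ ‖x‖ * ‖y‖ := by
  refine le_of_forall_pos_le_add fun ε hε => ?_
  -- choose δ with (‖x‖+δ)(‖y‖+δ) ≤ ‖x‖‖y‖ + ε
  set δ : ℝ := min 1 (ε / (‖x‖ + ‖y‖ + 1)) with hδ
  have hx := norm_nonneg x
  have hy := norm_nonneg y
  have hpos : 0 < ‖x‖ + ‖y‖ + 1 := by linarith
  have hδ0 : 0 < δ := lt_min one_pos (div_pos hε hpos)
  have hδ1 : δ ≤ 1 := min_le_left _ _
  have hδ2 : δ * (‖x‖ + ‖y‖ + 1) ≤ ε := by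
    have : δ ≤ ε / (‖x‖ + ‖y‖ + 1) := min_le_right _ _
    rwa [le_div_iff₀ hpos] at this
  obtain ⟨a, ha, ha'⟩ := QT.exists_lt J x hδ0
  obtain ⟨b, hb, hb'⟩ := QT.exists_lt J y hδ0
  have h1 : ‖x * y‖ ≤ ‖a * b‖ := by
    rw [← ha, ← hb, ← QT.mk_mul]
    exact QT.norm_mk_le J _
  have h2 : ‖a * b‖ ≤ (‖x‖ + δ) * (‖y‖ + δ) :=
    (norm_mul_le a b).trans (mul_le_mul ha'.le hb'.le (norm_nonneg _) (by linarith))
  nlinarith

noncomputable instance QT.instNUNR : NonUnitalNormedRing (QT J) :=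
  { QT.instNACG J, QT.instMul J with
    left_distrib := by
      intro x y z
      induction x using QT.ind J with | _ x
      induction y using QT.ind J with | _ y
      induction z using QT.ind J with | _ z
      simp only [← QT.mk_add, ← QT.mk_mul, mul_add]
    right_distrib := by
      intro x y z
      induction x using QT.ind J with | _ x
      induction y using QT.ind J with | _ y
      induction z using QT.ind J with | _ z
      simp only [← QT.mk_add, ← QT.mk_mul, add_mul]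
    zero_mul := by
      intro x
      induction x using QT.ind J with | _ x
      rw [← QT.mk_zero, ← QT.mk_mul, zero_mul]
    mul_zero := by
      intro x
      induction x using QT.ind J with | _ x
      rw [← QT.mk_zero, ← QT.mk_mul, mul_zero]
    mul_assoc := by
      intro x y z
      induction x using QT.ind J with | _ x
      induction y using QT.ind J with | _ y
      induction z using QT.ind J with | _ z
      simp only [← QT.mk_mul, mul_assoc]
    norm_mul_le := QT.norm_mul_le' J }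

instance QT.instStarRing : StarRing (QT J) where
  star_involutive := by
    intro x
    induction x using QT.ind J with | _ x
    simp only [← QT.mk_star, star_star]
  star_mul := by
    intro x y
    induction x using QT.ind J with | _ x
    induction y using QT.ind J with | _ y
    simp only [← QT.mk_star, ← QT.mk_mul, star_mul]
  star_add := by
    intro x y
    induction x using QT.ind J with | _ x
    induction y using QT.ind J with | _ y
    simp only [← QT.mk_star, ← QT.mk_add, star_add]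

lemma QT.cstar (x : QT J) : ‖x‖ * ‖x‖ ≤ ‖star x * x‖ := by
  letI : PartialOrder A := CStarAlgebra.spectralOrder A
  haveI : StarOrderedRing A := CStarAlgebra.spectralOrderedRing A
  obtain ⟨a, rfl⟩ := QT.mk_surj J x
  refine le_of_forall_pos_le_add fun ε hε => ?_
  have hε2 : 0 < ε / 2 := half_pos hε
  obtain ⟨c, hc, hc'⟩ := QT.exists_lt J (star (QT.mk J a) * QT.mk J a) hε2
  rw [← QT.mk_star, ← QT.mk_mul, QT.mk_eq_iff] at hc
  set i : A := c - star a * a with hi
  have hci : star a * a + i = c := by rw [hi]; abel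
  have hσ : 0 < (ε / 2) ^ 2 := by positivity
  have hkey := Q1_key a i hσ
  rw [hci, Real.sqrt_sq hε2.le] at hkey
  set u : A := sg ((ε / 2) ^ 2) (star i * i) with hu
  have hsI : star i * i ∈ J.I := J.ml _ _ hc
  have huI : u ∈ J.I :=
    cfcn_mem J.I J.cl (fun z hz w => J.mr _ _ hz) (IsSelfAdjoint.star_mul_self i) hsI
      (continuous_sgf hσ) (sgf_zero _)
  have hmk : QT.mk J (a - a * u) = QT.mk J a := by
    rw [QT.mk_eq_iff]
    have : a - a * u - a = -(a * u) := by abel
    rw [this]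
    exact J.I.neg_mem (J.ml _ _ huI)
  have h1 : ‖QT.mk J a‖ ≤ ‖a - a * u‖ := by
    conv_lhs => rw [← hmk]
    exact QT.norm_mk_le J _
  have h2 : ‖QT.mk J a‖ * ‖QT.mk J a‖ ≤ ‖a - a * u‖ ^ 2 := by
    rw [sq]
    exact mul_self_le_mul_self (norm_nonneg _) h1
  linarith

noncomputable instance QT.instCStar : NonUnitalCStarAlgebra (QT J) where
  norm_mul_self_le := QT.cstar J
  smul_assoc := by
    intro c x y
    induction x using QT.ind J with | _ x
    induction y using QT.ind J with | _ y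
    simp only [smul_eq_mul, ← QT.mk_smul, ← QT.mk_mul, smul_mul_assoc]
  smul_comm := by
    intro c x y
    induction x using QT.ind J with | _ x
    induction y using QT.ind J with | _ y
    simp only [smul_eq_mul, ← QT.mk_smul, ← QT.mk_mul, mul_smul_comm]
  star_smul := by
    intro c x
    induction x using QT.ind J with | _ x
    simp only [← QT.mk_star, ← QT.mk_smul, star_smul]

/-- the quotient homomorphism -/
noncomputable def QT.pi : A →⋆ₙₐ[ℂ] QT J where
  toFun := QT.mk J
  map_smul' := fun _ _ => rfl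
  map_zero' := rfl
  map_add' := fun _ _ => rfl
  map_mul' := fun _ _ => rfl
  map_star' := fun _ => rfl

end quot

section

variable {A : Type u} [NonUnitalCStarAlgebra A] [PartialOrder A] [StarOrderedRing A]

/-- **Quotient C⋆-algebras.** -/
theorem exists_quotient (I : Submodule ℂ A) (hI : IsClosed (I : Set A))
    (hl : ∀ a x : A, x ∈ I → a * x ∈ I) (hr : ∀ a x : A, x ∈ I → x * a ∈ I)
    (hs : ∀ x : A, x ∈ I → star x ∈ I) :
    ∃ (B : Type u) (_ : NonUnitalCStarAlgebra B) (_ : PartialOrder B) (_ : StarOrderedRing B)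
      (π : A →⋆ₙₐ[ℂ] B), Function.Surjective π ∧ ∀ x, π x = 0 ↔ x ∈ I := by
  let J : QI A := ⟨I, hI, hl, hr, hs⟩
  exact ⟨QT J, QT.instCStar J, CStarAlgebra.spectralOrder (QT J),
    CStarAlgebra.spectralOrderedRing (QT J), QT.pi J, QT.mk_surj J, QT.mk_eq_zero_iff J⟩

end

end PIS
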