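import Crest.Agent.JS_Cen_Q

/-!
# JS_N_test (S0156, (1a)): finite test set for a characterless C⋆-algebra
-/

set_option autoImplicit false

universe u v

namespace Crest.Agent.JS

/-- (1a): finitely many selfadjoint elements of `D` that are never all scalar in a nontrivial
unital image. -/
theorem exists_test {D : Type u} [CStarAlgebra D] (hD : IsEmpty (D →⋆ₐ[ℂ] ℂ)) :
    ∃ (N : ℕ) (b : Fin N → D), (∀ l, IsSelfAdjoint (b l)) ∧
      ∀ (E : Type v) [CStarAlgebra E] [Nontrivial E] (ρ : D →⋆ₐ[ℂ] E),
        ∃ l, ∀ c : ℂ, ρ (b l) ≠ algebraMap ℂ E c := by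
  obtain ⟨N, a, x, y, b, h⟩ := exists_cert hD
  refine ⟨N + N, Fin.append (fun j => (realPart (x j) : D)) (fun j => (imaginaryPart (x j) : D)),
    fun l => ?_, fun E _ _ ρ => ?_⟩
  · refine Fin.addCases (fun j => ?_) (fun j => ?_) l
    · rw [Fin.append_left]
      exact (realPart (x j)).2
    · rw [Fin.append_right]
      exact (imaginaryPart (x j)).2
  · by_contra hcon
    push Not at hcon
    have hx : ∀ j z, Commute (ρ (x j)) z := by
      intro j z
      obtain ⟨c, hc⟩ := hcon (Fin.castAdd N j)
      obtain ⟨d, hd⟩ := hcon (Fin.natAdd N j)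
      rw [Fin.append_left] at hc
      rw [Fin.append_right] at hd
      rw [← realPart_add_I_smul_imaginaryPart (x j), map_add, map_smul, hc, hd]
      have e1 : Commute (algebraMap ℂ E c) z := Algebra.commutes c z
      have e2 : Commute (algebraMap ℂ E d) z := Algebra.commutes d z
      exact e1.add_left (e2.smul_left _)
    have h1 : ρ (1 - ∑ j, a j * (x j * y j - y j * x j) * b j) = 1 := by
      rw [map_sub, map_one, map_sum]
      have : ∀ j, ρ (a j * (x j * y j - y j * x j) * b j) = 0 := by
        intro j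
        rw [map_mul, map_mul, map_sub, map_mul, map_mul, (hx j _).eq, sub_self, mul_zero, zero_mul]
      simp [this]
    have h2 : ‖ρ (1 - ∑ j, a j * (x j * y j - y j * x j) * b j)‖ ≤
        ‖1 - ∑ j, a j * (x j * y j - y j * x j) * b j‖ := NonUnitalStarAlgHom.norm_apply_le ρ _
    rw [h1, norm_one] at h2
    linarith

end Crest.Agent.JS
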