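import Mathlib
import Crest.Prelude.Def_LipschitzFree

/-! S0154 task APCRIT -/

set_option autoImplicit false

open Crest Crest.AnalysisR

namespace KLF

private theorem unif_compact {X : Type} [NormedAddCommGroup X] [NormedSpace ℝ X]
    (S : ℕ → X →L[ℝ] X) (S' : X →L[ℝ] X) (B : ℝ) (hB : ∀ j, ‖S j‖ ≤ B) (hB' : ‖S'‖ ≤ B)
    (hlim : ∀ x, Filter.Tendsto (fun j => S j x) Filter.atTop (nhds (S' x)))
    (K : Set X) (hK : IsCompact K) (ε : ℝ) (hε : 0 < ε) :
    ∃ j, ∀ x ∈ K, ‖S j x - S' x‖ ≤ ε := by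
  have hB0 : 0 ≤ B := (norm_nonneg _).trans hB'
  have hδ : 0 < ε / (4 * (B + 1)) := by positivity
  obtain ⟨t, htf, hcov⟩ := Metric.totallyBounded_iff.mp hK.totallyBounded _ hδ
  have hev : ∀ᶠ j in Filter.atTop, ∀ y ∈ t, ‖S j y - S' y‖ < ε / 2 := by
    rw [Filter.eventually_all_finite htf]
    intro y _
    have := (Metric.tendsto_nhds.mp (hlim y)) (ε / 2) (by positivity)
    filter_upwards [this] with j hj
    rwa [dist_eq_norm] at hj
  obtain ⟨j, hj⟩ := hev.exists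
  refine ⟨j, fun x hx => ?_⟩
  obtain ⟨y, hy, hxy⟩ := Set.mem_iUnion₂.mp (hcov hx)
  rw [Metric.mem_ball, dist_eq_norm] at hxy
  have e : S j x - S' x = S j (x - y) + (S j y - S' y) - S' (x - y) := by
    simp only [map_sub]; abel
  have h1 : ‖S j (x - y)‖ ≤ B * (ε / (4 * (B + 1))) :=
    (S j).le_of_opNorm_le_of_le (hB j) hxy.le
  have h2 : ‖S' (x - y)‖ ≤ B * (ε / (4 * (B + 1))) :=
    S'.le_of_opNorm_le_of_le hB' hxy.le
  have h3 : B * (ε / (4 * (B + 1))) ≤ ε / 4 := by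
    rw [mul_div_assoc', div_le_div_iff₀ (by positivity) (by norm_num)]
    nlinarith
  calc ‖S j x - S' x‖ = ‖S j (x - y) + (S j y - S' y) - S' (x - y)‖ := by rw [e]
    _ ≤ ‖S j (x - y)‖ + ‖S j y - S' y‖ + ‖S' (x - y)‖ :=
        (norm_sub_le _ _).trans (add_le_add_left (norm_add_le _ _) _)
    _ ≤ ε := by linarith [hj y hy]

/-- Abstract criterion: `Q j → id` strongly with `‖Q j‖ ≤ 1`, `T j i → Q j` strongly as `i → ∞`,
`‖T j i‖ ≤ H j`, `T j i` of finite rank. Then AP (uniform convergence on compact sets of a bounded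
pointwise convergent sequence). -/
theorem hasAP_of_approx (X : Type) [NormedAddCommGroup X] [NormedSpace ℝ X]
    (Q : ℕ → X →L[ℝ] X) (T : ℕ → ℕ → X →L[ℝ] X) (H : ℕ → ℝ)
    (hQ : ∀ j, ‖Q j‖ ≤ 1) (hT : ∀ j i, ‖T j i‖ ≤ H j)
    (hfin : ∀ j i, FiniteDimensional ℝ (LinearMap.range (T j i).toLinearMap))
    (hQlim : ∀ x, Filter.Tendsto (fun j => Q j x) Filter.atTop (nhds x))
    (hTlim : ∀ j x, Filter.Tendsto (fun i => T j i x) Filter.atTop (nhds (Q j x))) :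
    HasAP X := by
  intro K hK ε hε
  obtain ⟨j, hj⟩ := unif_compact Q (ContinuousLinearMap.id ℝ X) 1 hQ
    ContinuousLinearMap.norm_id_le hQlim K hK (ε / 2) (by positivity)
  obtain ⟨i, hi⟩ := unif_compact (T j) (Q j) (max (H j) 1) (fun i => (hT j i).trans (le_max_left _ _))
    ((hQ j).trans (le_max_right _ _)) (hTlim j) K hK (ε / 2) (by positivity)
  refine ⟨T j i, hfin j i, fun x hx => ?_⟩
  have h1 := hj x hx
  have h2 := hi x hx
  rw [ContinuousLinearMap.id_apply] at h1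
  calc ‖T j i x - x‖ = ‖(T j i x - Q j x) + (Q j x - x)‖ := by congr 1; abel
    _ ≤ ‖T j i x - Q j x‖ + ‖Q j x - x‖ := norm_add_le _ _
    _ ≤ ε := by linarith

end KLF
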