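import Crest.Agent.KLF_FAA

/-! S0154 task APLIN -/

set_option autoImplicit false

open Crest Crest.AnalysisR

namespace KLF

/-- the map induced by `ψ` on the molecules -/
private noncomputable def aplMap (P : PointedMetric) (ψ : P.M → P.M) : P.Mol →ₗ[ℝ] P.Mol :=
  (Finsupp.lmapDomain ℝ ℝ ψ : (P.M →₀ ℝ) →ₗ[ℝ] (P.M →₀ ℝ))

private theorem aplMap_delta (P : PointedMetric) (ψ : P.M → P.M) (x : P.M) :
    aplMap P ψ (delta P x) = delta P (ψ x) := by
  change Finsupp.mapDomain ψ (Finsupp.single x (1 : ℝ)) = Finsupp.single (ψ x) (1 : ℝ)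
  exact Finsupp.mapDomain_single

private theorem aplMap_pairing (P : PointedMetric) (ψ : P.M → P.M) (a : P.Mol) (f : P.M → ℝ) :
    P.pairing (aplMap P ψ a) f = P.pairing a (f ∘ ψ) := by
  unfold PointedMetric.pairing
  change (Finsupp.mapDomain ψ (P.coeffs a)).sum (fun x r => r * f x) =
    (P.coeffs a).sum (fun x r => r * f (ψ x))
  exact Finsupp.sum_mapDomain_index (fun _ => by simp) (fun _ _ _ => by ring)

private theorem aplMap_norm (P : PointedMetric) (ψ : P.M → P.M) (hψ : ψ P.base = P.base) (κ : ℝ)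
    (hκ : 0 ≤ κ) (hL : ∀ x y, P.metric.dist (ψ x) (ψ y) ≤ κ * P.metric.dist x y) (a : P.Mol) :
    P.freeNorm (aplMap P ψ a) ≤ κ * P.freeNorm a := by
  letI := P.metric
  unfold PointedMetric.freeNorm
  refine ciSup_le fun f => ?_
  rw [aplMap_pairing]
  have hf : ∀ x y : P.M, |f.1 x - f.1 y| ≤ dist x y := by
    intro x y
    have h := f.2.1.dist_le_mul x y
    rwa [Real.dist_eq, NNReal.coe_one, one_mul] at h
  rcases hκ.eq_or_lt with h0 | h0
  · -- `ψ` is constant
    subst h0
    have hz : f.1 ∘ ψ = fun _ => 0 := by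
      funext x
      have h1 := hf (ψ x) (ψ P.base)
      have h2 := hL x P.base
      have h3 : |f.1 (ψ x) - f.1 (ψ P.base)| ≤ 0 := by
        refine h1.trans (h2.trans ?_)
        rw [zero_mul]
      rw [hψ, f.2.2, sub_zero] at h3
      exact abs_nonpos_iff.1 h3
    rw [hz]
    have : P.pairing a (fun _ => (0 : ℝ)) = 0 := by
      unfold PointedMetric.pairing
      simp
    rw [this, abs_zero, zero_mul]
  · -- rescale
    have hLip : LipschitzWith 1 (fun x => κ⁻¹ * f.1 (ψ x)) := by
      refine LipschitzWith.of_dist_le_mul fun x y => ?_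
      rw [NNReal.coe_one, one_mul, Real.dist_eq, ← mul_sub, abs_mul, abs_of_pos (inv_pos.2 h0),
        inv_mul_le_iff₀ h0]
      exact (hf _ _).trans (hL x y)
    let g : P.Lip1 := ⟨fun x => κ⁻¹ * f.1 (ψ x), hLip, by simp [hψ, f.2.2]⟩
    have h1 : P.pairing a g.1 = κ⁻¹ * P.pairing a (f.1 ∘ ψ) := by
      unfold PointedMetric.pairing
      rw [Finsupp.mul_sum]
      refine Finsupp.sum_congr fun x _ => ?_
      simp only [g, Function.comp]
      ring
    have h2 := le_ciSup (P.freeNorm_bddAbove a) g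
    rw [h1, abs_mul, abs_of_pos (inv_pos.2 h0), inv_mul_le_iff₀ h0] at h2
    exact h2

/-- Linearisation of a Lipschitz map `ψ : M → M` fixing the base point. -/
theorem exists_lin (P : PointedMetric) (ψ : P.M → P.M) (hψ : ψ P.base = P.base) (κ : ℝ)
    (hκ : 0 ≤ κ) (hL : ∀ x y, P.metric.dist (ψ x) (ψ y) ≤ κ * P.metric.dist x y) :
    ∃ T : P.FreeSpace →L[ℝ] P.FreeSpace, ‖T‖ ≤ κ ∧
      ∀ x, T (delta P x : P.Mol) = ((delta P (ψ x) : P.Mol) : P.FreeSpace) := by
  let e : P.Mol →ₗ[ℝ] P.FreeSpace :=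
    (UniformSpace.Completion.toComplₗᵢ (𝕜 := ℝ) (E := P.Mol)).toLinearMap
  have he : ∀ a : P.Mol, e a = (a : P.FreeSpace) := fun a => rfl
  have hd : DenseRange e := UniformSpace.Completion.denseRange_coe
  have hn : ∀ a : P.Mol, ‖(e ∘ₗ aplMap P ψ) a‖ ≤ κ * ‖e a‖ := by
    intro a
    rw [LinearMap.comp_apply, he, he, norm_coe_mol, norm_coe_mol]
    exact aplMap_norm P ψ hψ κ hκ hL a
  refine ⟨(e ∘ₗ aplMap P ψ).extendOfNorm e, LinearMap.opNorm_extendOfNorm_le hd hκ hn,
    fun x => ?_⟩
  have h1 := LinearMap.extendOfNorm_eq (f := e ∘ₗ aplMap P ψ) (e := e) hd ⟨κ, hn⟩ (delta P x)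
  rw [LinearMap.comp_apply, aplMap_delta] at h1
  exact h1

/-- If moreover `ψ` has finite image, the operator has finite rank. -/
theorem finite_rank_of_finite_range (P : PointedMetric) (ψ : P.M → P.M)
    (T : P.FreeSpace →L[ℝ] P.FreeSpace)
    (hT : ∀ x, T (delta P x : P.Mol) = ((delta P (ψ x) : P.Mol) : P.FreeSpace))
    (hfin : (Set.range ψ).Finite) :
    FiniteDimensional ℝ (LinearMap.range T.toLinearMap) := by
  let V : Submodule ℝ P.FreeSpace :=
    Submodule.span ℝ ((fun y => ((delta P y : P.Mol) : P.FreeSpace)) '' Set.range ψ)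
  have hV : FiniteDimensional ℝ V := FiniteDimensional.span_of_finite ℝ (hfin.image _)
  have hcl : IsClosed (V : Set P.FreeSpace) := V.closed_of_finiteDimensional
  have hmol : ∀ b : P.M →₀ ℝ, T ((show P.Mol from b : P.Mol) : P.FreeSpace) ∈ V := by
    intro b
    induction b using Finsupp.induction_linear with
    | zero =>
      have : ((show P.Mol from (0 : P.M →₀ ℝ) : P.Mol) : P.FreeSpace) = 0 :=
        UniformSpace.Completion.coe_zero
      rw [this, map_zero]
      exact V.zero_mem
    | add f g hf hg =>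
      have : ((show P.Mol from (f + g : P.M →₀ ℝ) : P.Mol) : P.FreeSpace) =
          ((show P.Mol from f : P.Mol) : P.FreeSpace) + ((show P.Mol from g : P.Mol) : P.FreeSpace) :=
        UniformSpace.Completion.coe_add (show P.Mol from f) (show P.Mol from g)
      rw [this, map_add]
      exact V.add_mem hf hg
    | single x r =>
      have : ((show P.Mol from (Finsupp.single x r : P.M →₀ ℝ) : P.Mol) : P.FreeSpace) =
          r • ((delta P x : P.Mol) : P.FreeSpace) := by
        rw [← UniformSpace.Completion.coe_smul]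
        congr 1
        change (Finsupp.single x r : P.M →₀ ℝ) = r • (Finsupp.single x (1 : ℝ) : P.M →₀ ℝ)
        rw [Finsupp.smul_single, smul_eq_mul, mul_one]
      rw [this, map_smul, hT]
      exact V.smul_mem _ (Submodule.subset_span ⟨ψ x, ⟨x, rfl⟩, rfl⟩)
  have hall : ∀ x : P.FreeSpace, T x ∈ V := by
    intro x
    induction x using UniformSpace.Completion.induction_on with
    | hp => exact hcl.preimage T.continuous
    | ih a => exact hmol a
  have hle : LinearMap.range T.toLinearMap ≤ V := by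
    rintro _ ⟨x, rfl⟩
    exact hall x
  exact Submodule.finiteDimensional_of_le hle

end KLF
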