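import Crest.Agent.KLF_Metric
import Crest.Agent.KLF_APLin
import Crest.Agent.KLF_APCrit

/-! S0154 task AP: the free space over `PM Bs` has the approximation property. -/

set_option autoImplicit false

open Crest Crest.AnalysisR

namespace KLF

/-- operators agreeing eventually on the point molecules agree eventually on every molecule -/
theorem ap_eventually_mol (P : PointedMetric) (A : ℕ → P.FreeSpace →L[ℝ] P.FreeSpace)
    (B : P.FreeSpace →L[ℝ] P.FreeSpace)
    (h : ∀ x, ∀ᶠ j in Filter.atTop, A j (delta P x : P.Mol) = B (delta P x : P.Mol)) (a : P.Mol) :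
    ∀ᶠ j in Filter.atTop, A j (a : P.FreeSpace) = B (a : P.FreeSpace) := by
  have key : ∀ b : P.M →₀ ℝ, ∀ᶠ j in Filter.atTop,
      A j ((show P.Mol from b : P.Mol) : P.FreeSpace) =
        B ((show P.Mol from b : P.Mol) : P.FreeSpace) := by
    intro b
    induction b using Finsupp.induction_linear with
    | zero =>
      refine Filter.Eventually.of_forall fun j => ?_
      have : ((show P.Mol from (0 : P.M →₀ ℝ) : P.Mol) : P.FreeSpace) = 0 :=
        UniformSpace.Completion.coe_zero
      rw [this, map_zero, map_zero]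
    | add f g hf hg =>
      filter_upwards [hf, hg] with j h1 h2
      have : ((show P.Mol from (f + g : P.M →₀ ℝ) : P.Mol) : P.FreeSpace) =
          ((show P.Mol from f : P.Mol) : P.FreeSpace) + ((show P.Mol from g : P.Mol) : P.FreeSpace) :=
        UniformSpace.Completion.coe_add (show P.Mol from f) (show P.Mol from g)
      rw [this, map_add, map_add, h1, h2]
    | single x r =>
      filter_upwards [h x] with j h1
      have : ((show P.Mol from (Finsupp.single x r : P.M →₀ ℝ) : P.Mol) : P.FreeSpace) =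
          r • ((delta P x : P.Mol) : P.FreeSpace) := by
        rw [← UniformSpace.Completion.coe_smul]
        congr 1
        change (Finsupp.single x r : P.M →₀ ℝ) = r • (Finsupp.single x (1 : ℝ) : P.M →₀ ℝ)
        rw [Finsupp.smul_single, smul_eq_mul, mul_one]
      rw [this, map_smul, map_smul, h1]
  exact key a

/-- strong convergence from convergence on molecules and a uniform bound -/
theorem ap_tendsto (P : PointedMetric) (A : ℕ → P.FreeSpace →L[ℝ] P.FreeSpace)
    (B : P.FreeSpace →L[ℝ] P.FreeSpace) (K : ℝ) (hK : ∀ j, ‖A j‖ ≤ K)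
    (h : ∀ x, ∀ᶠ j in Filter.atTop, A j (delta P x : P.Mol) = B (delta P x : P.Mol))
    (x : P.FreeSpace) : Filter.Tendsto (fun j => A j x) Filter.atTop (nhds (B x)) := by
  have hK0 : 0 ≤ K := (norm_nonneg _).trans (hK 0)
  rw [Metric.tendsto_atTop]
  intro ε hε
  have hden : DenseRange ((↑) : P.Mol → P.FreeSpace) := UniformSpace.Completion.denseRange_coe
  have hδ : 0 < ε / (2 * (K + ‖B‖ + 1)) := by
    have := norm_nonneg B
    positivity
  obtain ⟨a, ha⟩ := Metric.denseRange_iff.1 hden x _ hδ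
  obtain ⟨N, hN⟩ := Filter.eventually_atTop.1 (ap_eventually_mol P A B h a)
  refine ⟨N, fun j hj => ?_⟩
  have h1 := hN j hj
  have hB := norm_nonneg B
  rw [dist_eq_norm] at ha ⊢
  have e : A j x - B x = A j (x - a) - B (x - a) := by
    rw [map_sub, map_sub, h1]
    abel
  rw [e]
  calc ‖A j (x - a) - B (x - a)‖ ≤ ‖A j (x - a)‖ + ‖B (x - a)‖ := norm_sub_le _ _
    _ ≤ K * ‖x - a‖ + ‖B‖ * ‖x - a‖ := by
        refine add_le_add (((A j).le_opNorm _).trans ?_) (B.le_opNorm _)
        exact mul_le_mul_of_nonneg_right (hK j) (norm_nonneg _)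
    _ = (K + ‖B‖) * ‖x - a‖ := by ring
    _ ≤ (K + ‖B‖ + 1) * ‖x - a‖ := by nlinarith [norm_nonneg (x - (a : P.FreeSpace))]
    _ < (K + ‖B‖ + 1) * (ε / (2 * (K + ‖B‖ + 1)) * 2) := by
        have h3 : 0 < K + ‖B‖ + 1 := by positivity
        refine mul_lt_mul_of_pos_left ?_ h3
        linarith
    _ = ε := by
        have h3 : K + ‖B‖ + 1 ≠ 0 := by positivity
        field_simp

variable (Bs : ℕ → Block)

open Classical in
/-- keep the points of blocks `≤ j` -/
noncomputable def apPsi (S : ℕ → ℕ → Prop) : Pt Bs → Pt Bs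
  | none => none
  | some ⟨N, n, x⟩ => if S N n then pt Bs N n x else none

theorem apPsi_of_pos {S : ℕ → ℕ → Prop} {N n : ℕ} (h : S N n) (x : ((Bs N).S n).X) :
    apPsi Bs S (pt Bs N n x) = pt Bs N n x := by
  unfold apPsi pt
  simp [h]

theorem apPsi_of_neg {S : ℕ → ℕ → Prop} {N n : ℕ} (h : ¬ S N n) (x : ((Bs N).S n).X) :
    apPsi Bs S (pt Bs N n x) = none := by
  unfold apPsi pt
  simp [h]

theorem apPsi_none (S : ℕ → ℕ → Prop) : apPsi Bs S none = none := rfl

theorem ptDist_nonneg' (z z' : Pt Bs) : 0 ≤ ptDist Bs z z' := by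
  letI := ptMetric Bs
  exact (dist_nonneg : 0 ≤ dist z z')

theorem apPsi_lip (S : ℕ → ℕ → Prop) (κ : ℝ) (hκ : 1 ≤ κ)
    (hS : ∀ N n N' n' (x : ((Bs N).S n).X) (x' : ((Bs N').S n').X), S N n → ¬ S N' n' →
      (hub Bs N : ℝ) ≤ κ * ptDist Bs (pt Bs N n x) (pt Bs N' n' x')) (z z' : Pt Bs) :
    ptDist Bs (apPsi Bs S z) (apPsi Bs S z') ≤ κ * ptDist Bs z z' := by
  have hself : ∀ z z' : Pt Bs, ptDist Bs z z' ≤ κ * ptDist Bs z z' := by
    intro z z'
    nlinarith [ptDist_nonneg' Bs z z']
  have hzero : ∀ z z' : Pt Bs, ptDist Bs none none ≤ κ * ptDist Bs z z' := by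
    intro z z'
    rw [ptDist_self]
    have := ptDist_nonneg' Bs z z'
    positivity
  rcases z with _ | ⟨N, n, x⟩
  · rcases z' with _ | ⟨N', n', x'⟩
    · exact hself _ _
    · by_cases h' : S N' n'
      · rw [apPsi_none, show (some ⟨N', n', x'⟩ : Pt Bs) = pt Bs N' n' x' from rfl,
          apPsi_of_pos Bs h' x']
        exact hself _ _
      · rw [apPsi_none, show (some ⟨N', n', x'⟩ : Pt Bs) = pt Bs N' n' x' from rfl,
          apPsi_of_neg Bs h' x']
        exact hzero _ _
  · rw [show (some ⟨N, n, x⟩ : Pt Bs) = pt Bs N n x from rfl]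
    rcases z' with _ | ⟨N', n', x'⟩
    · by_cases h : S N n
      · rw [apPsi_none, apPsi_of_pos Bs h x]
        exact hself _ _
      · rw [apPsi_none, apPsi_of_neg Bs h x]
        exact hzero _ _
    · rw [show (some ⟨N', n', x'⟩ : Pt Bs) = pt Bs N' n' x' from rfl]
      by_cases h : S N n <;> by_cases h' : S N' n'
      · rw [apPsi_of_pos Bs h x, apPsi_of_pos Bs h' x']
        exact hself _ _
      · rw [apPsi_of_pos Bs h x, apPsi_of_neg Bs h' x']
        exact (dist_hub Bs x).trans (hS N n N' n' x x' h h')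
      · rw [apPsi_of_neg Bs h x, apPsi_of_pos Bs h' x', ptDist_comm,
          ptDist_comm Bs (pt Bs N n x)]
        exact (dist_hub Bs x').trans (hS N' n' N n x' x h' h)
      · rw [apPsi_of_neg Bs h x, apPsi_of_neg Bs h' x']
        exact hzero _ _

theorem apPsi_finite (j i : ℕ) : (Set.range (apPsi Bs fun N n => N ≤ j ∧ n ≤ i)).Finite := by
  have h : (Set.range (apPsi Bs fun N n => N ≤ j ∧ n ≤ i)) ⊆
      insert (none : Pt Bs) (⋃ N ∈ Set.Iic j, ⋃ n ∈ Set.Iic i,
        Set.range (fun x : ((Bs N).S n).X => pt Bs N n x)) := by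
    rintro _ ⟨z, rfl⟩
    rcases z with _ | ⟨N, n, x⟩
    · exact Set.mem_insert _ _
    · rw [show (some ⟨N, n, x⟩ : Pt Bs) = pt Bs N n x from rfl]
      by_cases h : N ≤ j ∧ n ≤ i
      · rw [apPsi_of_pos Bs (S := fun N n => N ≤ j ∧ n ≤ i) h x]
        refine Set.mem_insert_of_mem _ ?_
        refine Set.mem_biUnion (x := N) h.1 ?_
        exact Set.mem_biUnion (x := n) h.2 ⟨x, rfl⟩
      · rw [apPsi_of_neg Bs (S := fun N n => N ≤ j ∧ n ≤ i) h x]
        exact Set.mem_insert _ _
  refine Set.Finite.subset ?_ h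
  refine Set.Finite.insert _ ?_
  refine (Set.finite_Iic j).biUnion fun N _ => ?_
  refine (Set.finite_Iic i).biUnion fun n _ => ?_
  exact Set.finite_range _

/-- AP for `PM Bs`: `Q j` comes from the map keeping the blocks `≤ j` (and sending the rest to the base
point; `1`-Lipschitz by `hub_le_dist`, `hub_le_dist_base`, `dist_hub`), `T j i` from the map keeping
the points of the levels `≤ i` in the blocks `≤ j` (Lipschitz constant `≤ max_{N ≤ j} hub N`, by
`dist_hub` and `one_le_ptDist`). On molecules both sequences are eventually constant. -/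
theorem hasAP_PM (Bs : ℕ → Block) : HasAP (PM Bs).FreeSpace := by
  classical
  let Hj : ℕ → ℝ := fun j => 1 + ∑ N ∈ Finset.range (j + 1), (hub Bs N : ℝ)
  have hHj1 : ∀ j, 1 ≤ Hj j := by
    intro j
    have : 0 ≤ ∑ N ∈ Finset.range (j + 1), (hub Bs N : ℝ) :=
      Finset.sum_nonneg fun _ _ => Nat.cast_nonneg _
    simp only [Hj]
    linarith
  have hHj2 : ∀ j N, N ≤ j → (hub Bs N : ℝ) ≤ Hj j := by
    intro j N hN
    have : (hub Bs N : ℝ) ≤ ∑ N ∈ Finset.range (j + 1), (hub Bs N : ℝ) :=
      Finset.single_le_sum (f := fun N => (hub Bs N : ℝ)) (fun _ _ => Nat.cast_nonneg _)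
        (Finset.mem_range.2 (by omega))
    simp only [Hj]
    linarith
  have hQ := fun j : ℕ => exists_lin (PM Bs) (apPsi Bs fun N _ => N ≤ j) rfl 1 zero_le_one
    (apPsi_lip Bs (fun N _ => N ≤ j) 1 le_rfl (by
      intro N n N' n' x x' h h'
      rw [one_mul]
      refine hub_le_dist Bs x x' ?_
      rintro rfl
      exact h' h))
  have hT := fun j i : ℕ => exists_lin (PM Bs) (apPsi Bs fun N n => N ≤ j ∧ n ≤ i) rfl (Hj j)
    (zero_le_one.trans (hHj1 j))
    (apPsi_lip Bs (fun N n => N ≤ j ∧ n ≤ i) (Hj j) (hHj1 j) (by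
      intro N n N' n' x x' h h'
      have hne : pt Bs N n x ≠ pt Bs N' n' x' := by
        intro heq
        have h1 : N = N' := by
          have := Option.some.inj heq
          exact congrArg Sigma.fst this
        subst h1
        have h2 : n = n' := by
          have := Option.some.inj heq
          have h3 := eq_of_heq (Sigma.mk.inj this).2
          exact congrArg Sigma.fst h3
        subst h2
        exact h' h
      have h1 := one_le_ptDist Bs hne
      have h2 := hHj2 j N h.1
      have h3 := hHj1 j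
      nlinarith))
  choose Q hQn hQd using hQ
  choose T hTn hTd using hT
  refine hasAP_of_approx _ Q T Hj hQn hTn (fun j i => ?_) (fun x => ?_) (fun j x => ?_)
  · exact finite_rank_of_finite_range (PM Bs) _ (T j i) (hTd j i) (apPsi_finite Bs j i)
  · refine ap_tendsto (PM Bs) Q (ContinuousLinearMap.id ℝ _) 1 hQn (fun z => ?_) x
    rcases z with _ | ⟨N, n, y⟩
    · refine Filter.Eventually.of_forall fun j => ?_
      rw [hQd]
      rfl
    · filter_upwards [Filter.eventually_ge_atTop N] with j hj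
      rw [hQd]
      have := apPsi_of_pos Bs (S := fun N _ => N ≤ j) (N := N) (n := n) hj y
      rw [show (some ⟨N, n, y⟩ : Pt Bs) = pt Bs N n y from rfl, this]
      rfl
  · refine ap_tendsto (PM Bs) (T j) (Q j) (Hj j) (hTn j) (fun z => ?_) x
    rcases z with _ | ⟨N, n, y⟩
    · refine Filter.Eventually.of_forall fun i => ?_
      rw [hQd, hTd]
      rfl
    · filter_upwards [Filter.eventually_ge_atTop n] with i hi
      rw [hQd, hTd]
      rw [show (some ⟨N, n, y⟩ : Pt Bs) = pt Bs N n y from rfl]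
      by_cases h : N ≤ j
      · rw [apPsi_of_pos Bs (S := fun N _ => N ≤ j) h y,
          apPsi_of_pos Bs (S := fun N n => N ≤ j ∧ n ≤ i) ⟨h, hi⟩ y]
      · rw [apPsi_of_neg Bs (S := fun N _ => N ≤ j) h y,
          apPsi_of_neg Bs (S := fun N n => N ≤ j ∧ n ≤ i) (fun h' => h h'.1) y]

end KLF
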