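import Crest.Agent.KLF_Defs

/-! S0154 task BLOCKA -/

set_option autoImplicit false

namespace KLF

/-- Numerical inequality for the union bound: `D = s²` colours, `|Γ| = s^75`, `|X_n| ≤ 2 (2D)^(4m)`,
`n ≤ m`. -/
theorem count_ineq (s n m : ℕ) (hs : 2 ≤ s) (hn : n ≤ m) (hm : 1 ≤ m) (X : ℕ → ℕ)
    (hX : ∀ k ≤ n, X k ≤ 2 * (2 * (s * s)) ^ (4 * m)) :
    ∑ k ∈ Finset.range n, X n * X k * (s * s) ^ m < (s ^ 75) ^ ((m + 1) / 2) := by
  have h2 : ∀ k ≤ n, X k ≤ s ^ (12 * m + 1) := by
    intro k hk
    calc X k ≤ 2 * (2 * (s * s)) ^ (4 * m) := hX k hk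
      _ ≤ s * (s ^ 3) ^ (4 * m) := by
          refine Nat.mul_le_mul hs (Nat.pow_le_pow_left ?_ _)
          calc 2 * (s * s) ≤ s * (s * s) := Nat.mul_le_mul_right _ hs
            _ = s ^ 3 := by ring
      _ = s ^ (12 * m + 1) := by
          rw [← pow_mul, pow_succ, mul_comm]
          congr 2
          ring
  have hspos : 0 < s := by omega
  have h3 : ∑ k ∈ Finset.range n, X n * X k * (s * s) ^ m ≤ n * s ^ (26 * m + 2) := by
    calc ∑ k ∈ Finset.range n, X n * X k * (s * s) ^ m
        ≤ ∑ k ∈ Finset.range n, s ^ (26 * m + 2) := by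
          refine Finset.sum_le_sum fun k hk => ?_
          have hk' : k ≤ n := (Finset.mem_range.1 hk).le
          calc X n * X k * (s * s) ^ m
              ≤ s ^ (12 * m + 1) * s ^ (12 * m + 1) * (s * s) ^ m :=
                Nat.mul_le_mul_right _ (Nat.mul_le_mul (h2 n le_rfl) (h2 k hk'))
            _ = s ^ (26 * m + 2) := by
                rw [← pow_two s, ← pow_mul, ← pow_add, ← pow_add]
                congr 1
                ring
      _ = n * s ^ (26 * m + 2) := by simp
  have h4 : n < s ^ m := by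
    calc n ≤ m := hn
      _ < 2 ^ m := Nat.lt_two_pow_self
      _ ≤ s ^ m := Nat.pow_le_pow_left hs m
  calc ∑ k ∈ Finset.range n, X n * X k * (s * s) ^ m ≤ n * s ^ (26 * m + 2) := h3
    _ < s ^ m * s ^ (26 * m + 2) := Nat.mul_lt_mul_of_pos_right h4 (pow_pos hspos _)
    _ = s ^ (27 * m + 2) := by
        rw [← pow_add]
        congr 1
        ring
    _ ≤ s ^ (75 * ((m + 1) / 2)) := Nat.pow_le_pow_right hspos (by omega)
    _ = (s ^ 75) ^ ((m + 1) / 2) := by rw [pow_mul]

/-- Kept colours from a colouring `β` by code words: `K (β x)` at even points and by symmetry at odd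
points. -/
noncomputable def keepSet {C Γ : Type} [Fintype C] [DecidableEq C] (S : CSet C) (K : Γ → Finset C)
    (β : S.X → Γ) (x : S.X) : Finset C :=
  if S.par x = true then K (β x) else Finset.univ.filter fun c => c ∈ K (β (S.s c x))

private theorem blA_even {C Γ : Type} [Fintype C] [DecidableEq C] (S : CSet C) (K : Γ → Finset C)
    (β : S.X → Γ) (x : S.X) (h : S.par x = true) : keepSet S K β x = K (β x) := by
  unfold keepSet
  rw [if_pos h]

private theorem blA_odd {C Γ : Type} [Fintype C] [DecidableEq C] (S : CSet C) (K : Γ → Finset C)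
    (β : S.X → Γ) (x : S.X) (h : ¬ S.par x = true) :
    keepSet S K β x = Finset.univ.filter fun c => c ∈ K (β (S.s c x)) := by
  unfold keepSet
  rw [if_neg h]

theorem keepSet_symm {C Γ : Type} [Fintype C] [DecidableEq C] (S : CSet C) (K : Γ → Finset C)
    (β : S.X → Γ) (x : S.X) (c : C) :
    c ∈ keepSet S K β x ↔ c ∈ keepSet S K β (S.s c x) := by
  by_cases h : S.par x = true
  · have h' : ¬ S.par (S.s c x) = true := by
      rw [S.par_s, h]
      decide
    rw [blA_even S K β x h, blA_odd S K β _ h', Finset.mem_filter, S.s_s]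
    simp
  · have h' : S.par (S.s c x) = true := by
      rw [S.par_s]
      simpa using h
    rw [blA_odd S K β x h, blA_even S K β _ h', Finset.mem_filter]
    simp

/-- Double counting: half of the points are even, each has `s` kept colours and every kept edge has
exactly one even end. -/
theorem keepSet_sum {C Γ : Type} [Fintype C] [DecidableEq C] [Nonempty C] (S : CSet C)
    (K : Γ → Finset C) (β : S.X → Γ) (s : ℕ) (hK : ∀ γ, (K γ).card = s) :
    ∑ x, (keepSet S K β x).card = s * Fintype.card S.X := by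
  classical
  obtain ⟨c0⟩ := ‹Nonempty C›
  set E : Finset S.X := Finset.univ.filter fun x => S.par x = true with hE
  set O : Finset S.X := Finset.univ.filter fun x => ¬ S.par x = true with hO
  have hmapO : ∀ c x, x ∈ O → S.s c x ∈ E := by
    intro c x hx
    rw [hO, Finset.mem_filter] at hx
    rw [hE, Finset.mem_filter]
    refine ⟨Finset.mem_univ _, ?_⟩
    rw [S.par_s]
    simpa using hx.2
  have hmapE : ∀ c x, x ∈ E → S.s c x ∈ O := by
    intro c x hx
    rw [hE, Finset.mem_filter] at hx
    rw [hO, Finset.mem_filter]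
    refine ⟨Finset.mem_univ _, ?_⟩
    rw [S.par_s, hx.2]
    decide
  have hcard : O.card = E.card :=
    Finset.card_nbij' (S.s c0) (S.s c0) (fun x hx => hmapO c0 x hx) (fun x hx => hmapE c0 x hx)
      (fun x _ => S.s_s c0 x) (fun x _ => S.s_s c0 x)
  have htot : E.card + O.card = Fintype.card S.X := by
    rw [hE, hO, Finset.card_filter_add_card_filter_not, Finset.card_univ]
  have h1 : ∑ x, (keepSet S K β x).card =
      ∑ x ∈ E, (keepSet S K β x).card + ∑ x ∈ O, (keepSet S K β x).card := by
    rw [hE, hO, Finset.sum_filter_add_sum_filter_not]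
  have h2 : ∑ x ∈ E, (keepSet S K β x).card = E.card * s := by
    rw [← smul_eq_mul, ← Finset.sum_const]
    refine Finset.sum_congr rfl fun x hx => ?_
    rw [hE, Finset.mem_filter] at hx
    rw [blA_even S K β x hx.2, hK]
  have h3 : ∑ x ∈ O, (keepSet S K β x).card = E.card * s := by
    have e1 : ∀ x ∈ O, (keepSet S K β x).card = ∑ c : C, if c ∈ K (β (S.s c x)) then 1 else 0 := by
      intro x hx
      rw [hO, Finset.mem_filter] at hx
      rw [blA_odd S K β x hx.2, Finset.card_filter]
    rw [Finset.sum_congr rfl e1, Finset.sum_comm]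
    have e2 : ∀ c ∈ (Finset.univ : Finset C), ∑ x ∈ O, (if c ∈ K (β (S.s c x)) then 1 else 0) =
        ∑ y ∈ E, (if c ∈ K (β y) then 1 else 0) := by
      intro c _
      refine Finset.sum_nbij' (S.s c) (S.s c) (fun x hx => hmapO c x hx)
        (fun x hx => hmapE c x hx) (fun x _ => S.s_s c x) (fun x _ => S.s_s c x) ?_
      intro x _
      rfl
    rw [Finset.sum_congr rfl e2, Finset.sum_comm, ← smul_eq_mul, ← Finset.sum_const]
    refine Finset.sum_congr rfl fun y _ => ?_
    rw [← hK (β y), ← Finset.card_filter]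
    congr 1
    ext c
    simp
  rw [h1, h2, h3, ← htot, hcard]
  ring

end KLF
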