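import Mathlib

/-! S0154 task CODE: graphs of polynomials of degree `< k0` over `ZMod s`. -/

set_option autoImplicit false

namespace KLF

/-- Code words = `Fin k0 → ZMod s` (coefficients of a polynomial `p`), `K p = {(u, p(u))}`. Two distinct
polynomials of degree `< k0` agree in `< k0` points. -/
theorem exists_code (s k0 : ℕ) [Fact s.Prime] (hk : 1 ≤ k0) :
    ∃ K : (Fin k0 → ZMod s) → Finset (ZMod s × ZMod s),
      (∀ γ, (K γ).card = s) ∧ (∀ γ γ', γ ≠ γ' → (K γ ∩ K γ').card < k0) := by
  classical
  let P : (Fin k0 → ZMod s) → Polynomial (ZMod s) :=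
    fun γ => ∑ i : Fin k0, Polynomial.C (γ i) * Polynomial.X ^ (i : ℕ)
  have hcoeff : ∀ (γ : Fin k0 → ZMod s) (j : Fin k0), (P γ).coeff (j : ℕ) = γ j := by
    intro γ j
    simp only [P, Polynomial.finset_sum_coeff, Polynomial.coeff_C_mul, Polynomial.coeff_X_pow]
    rw [Finset.sum_eq_single j]
    · simp
    · intro b _ hb
      have : (j : ℕ) ≠ (b : ℕ) := fun h => hb (Fin.ext h.symm)
      simp [this]
    · simp
  have hdeg : ∀ γ : Fin k0 → ZMod s, (P γ).degree < (k0 : WithBot ℕ) := by
    intro γ
    refine lt_of_le_of_lt (Polynomial.degree_sum_le _ _) ?_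
    rw [Finset.sup_lt_iff (by exact WithBot.bot_lt_coe k0)]
    intro i _
    refine lt_of_le_of_lt (Polynomial.degree_C_mul_X_pow_le _ _) ?_
    exact_mod_cast i.2
  refine ⟨fun γ => Finset.univ.image (fun u : ZMod s => (u, (P γ).eval u)), ?_, ?_⟩
  · intro γ
    rw [Finset.card_image_of_injective]
    · simp [ZMod.card]
    · intro a b h
      simpa using congrArg Prod.fst h
  · intro γ γ' hne
    have hP : P γ - P γ' ≠ 0 := by
      intro h
      apply hne
      funext j
      have := congrArg (fun q => Polynomial.coeff q (j : ℕ)) h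
      simp only [Polynomial.coeff_sub, Polynomial.coeff_zero] at this
      rw [hcoeff, hcoeff] at this
      exact sub_eq_zero.mp this
    have hd : (P γ - P γ').natDegree < k0 := by
      rw [Polynomial.natDegree_lt_iff_degree_lt hP]
      exact lt_of_le_of_lt (Polynomial.degree_sub_le _ _) (max_lt (hdeg γ) (hdeg γ'))
    refine lt_of_le_of_lt ?_ hd
    calc (Finset.univ.image (fun u : ZMod s => (u, (P γ).eval u)) ∩
        Finset.univ.image (fun u : ZMod s => (u, (P γ').eval u))).card
        ≤ ((P γ - P γ').roots.toFinset).card := by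
          apply Finset.card_le_card_of_injOn Prod.fst
          · intro x hx
            rw [Finset.mem_coe, Finset.mem_inter, Finset.mem_image, Finset.mem_image] at hx
            obtain ⟨⟨u, _, hu⟩, ⟨v, _, hv⟩⟩ := hx
            have h1 : u = x.1 := congrArg Prod.fst hu
            have h2 : v = x.1 := congrArg Prod.fst hv
            have h3 : (P γ).eval u = x.2 := congrArg Prod.snd hu
            have h4 : (P γ').eval v = x.2 := congrArg Prod.snd hv
            rw [Finset.mem_coe, Multiset.mem_toFinset, Polynomial.mem_roots hP, Polynomial.IsRoot,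
              Polynomial.eval_sub]
            rw [h1] at h3
            rw [h2] at h4
            rw [h3, h4, sub_self]
          · intro x hx y hy hxy
            rw [Finset.mem_coe, Finset.mem_inter, Finset.mem_image, Finset.mem_image] at hx hy
            obtain ⟨⟨u, _, hu⟩, _⟩ := hx
            obtain ⟨⟨v, _, hv⟩, _⟩ := hy
            have h1 : u = x.1 := congrArg Prod.fst hu
            have h2 : v = y.1 := congrArg Prod.fst hv
            have : u = v := by rw [h1, h2]; exact hxy
            rw [← hu, ← hv, this]
      _ ≤ Multiset.card (P γ - P γ').roots := Multiset.toFinset_card_le _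
      _ ≤ (P γ - P γ').natDegree := Polynomial.card_roots' _

end KLF
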