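import Crest.Agent.KLF_FlowA

/-! S0154 task FLOWB: the flows `ψ, χ` from the path property. -/

set_option autoImplicit false

namespace KLF

section
variable {C : Type} [Fintype C] [DecidableEq C] (S S' : CSet C) (Rel : S.X → S'.X → Prop)
  (A : S.X → Finset C) (A' : S'.X → Finset C) (Mt : S.X → S'.X → Prop)

/-- The flow theorem. For a matched even pair `A x ⊆ A' y` (in our case equality); for an unmatched
related even pair `2 |A x ∩ A' y| ≤ |A x \ A' y|`. Definition of the flow (for related pairs):
* `(x,y)` a `W`-pair: `ψ = -1` if `pa (x,y) = some c`, else `1`; `χ = 0`;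
* `(x,y)` even unmatched: `ψ = -1`, `χ = 2|A x ∩ A' y| / |A x \ A' y|`.
(An even unmatched pair has only odd neighbours, which are `W`-pairs, with value `+1` on that edge
because it is not a `W`-edge.) Set `ψ = 0, χ = 0` for non-related pairs. -/
theorem exists_flow (m : ℕ) (hsymA : ∀ x c, c ∈ A x ↔ c ∈ A (S.s c x))
    (hsymA' : ∀ x c, c ∈ A' x ↔ c ∈ A' (S'.s c x))
    (hRel : ∀ x y c, Rel x y → Rel (S.s c x) (S'.s c y))
    (hMt : ∀ x y, Rel x y → S.par x = true → Mt x y → A x ⊆ A' y)
    (hUn : ∀ x y, Rel x y → S.par x = true → ¬ Mt x y →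
      2 * (A x ∩ A' y).card ≤ (A x \ A' y).card)
    (hP : ∀ x y (w : List C), Red w → w.length = m → ∃ v, v <+: w ∧
      S.par (S.act x v) = true ∧ ¬ Mt (S.act x v) (S'.act y v)) :
    ∃ (ψ χ : S.X → S'.X → C → ℝ),
    (∀ x y c, Rel x y → c ∈ A x → c ∈ A' y → ψ (S.s c x) (S'.s c y) c = - ψ x y c) ∧
    (∀ x y c, |ψ x y c| ≤ 1) ∧ (∀ x y c, 0 ≤ χ x y c ∧ χ x y c ≤ 1) ∧
    (∀ x y, Rel x y →
      |∑ c ∈ A x ∩ A' y, ψ x y c + ∑ c ∈ A x \ A' y, (1 + χ x y c) - ((A x).card : ℝ)| ≤ 2) := by
  classical
  have _ := hMt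
  obtain ⟨pa, hpa1, hpa2⟩ := exists_parent S S' Rel A A' Mt m hsymA hsymA' hRel
    (fun p w h hp hw => WPath.length_lt S S' Rel A A' Mt m hP h hp hw)
  -- the flow
  let ψ : S.X → S'.X → C → ℝ := fun x y c =>
    if WP S S' Rel Mt (x, y) then (if pa (x, y) = some c then -1 else 1) else -1
  let χ : S.X → S'.X → C → ℝ := fun x y _ =>
    if Rel x y ∧ S.par x = true ∧ ¬ Mt x y then
      2 * ((A x ∩ A' y).card : ℝ) / ((A x \ A' y).card : ℝ) else 0
  refine ⟨ψ, χ, ?_, ?_, ?_, ?_⟩
  · intro x y c hR hcA hcA'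
    have hR' : Rel (S.s c x) (S'.s c y) := hRel x y c hR
    by_cases h1 : WP S S' Rel Mt (x, y)
    · by_cases h2 : WP S S' Rel Mt (S.s c x, S'.s c y)
      · have hWE : WE S S' Rel A A' Mt (x, y) c := ⟨h1, h2, hcA, hcA'⟩
        have h3 := hpa2 (x, y) c hWE
        simp only at h3
        simp only [ψ, if_pos h1, if_pos h2]
        by_cases h4 : pa (x, y) = some c
        · rw [if_pos h4, if_neg (h3.1 h4)]; norm_num
        · rw [if_neg h4, if_pos (by
            by_contra h5
            exact h4 (h3.2 h5))]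
      · have h4 : ¬ pa (x, y) = some c := by
          intro h5
          exact h2 (hpa1 (x, y) c h5).2.1
        simp only [ψ, if_pos h1, if_neg h2, if_neg h4]
    · have hx : S.par x = true := by
        by_contra h
        exact h1 ⟨hR, fun h' => absurd h' h⟩
      have hx' : S.par (S.s c x) = false := by rw [S.par_s, hx]; rfl
      have h2 : WP S S' Rel Mt (S.s c x, S'.s c y) := by
        refine ⟨hR', ?_⟩
        intro h
        simp only at h
        rw [hx'] at h
        exact absurd h (by simp)
      have h4 : ¬ pa (S.s c x, S'.s c y) = some c := by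
        intro h5
        have h6 := (hpa1 (S.s c x, S'.s c y) c h5).2.1
        simp only [S.s_s, S'.s_s] at h6
        exact h1 h6
      simp only [ψ, if_neg h1, if_pos h2, if_neg h4]
      norm_num
  · intro x y c
    simp only [ψ]
    split_ifs <;> simp
  · intro x y c
    simp only [χ]
    split_ifs with h
    · have h1 := hUn x y h.1 h.2.1 h.2.2
      refine ⟨by positivity, ?_⟩
      apply div_le_one_of_le₀
      · exact_mod_cast h1
      · positivity
    · exact ⟨le_refl _, zero_le_one⟩
  · intro x y hR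
    have hcard : ((A x ∩ A' y).card : ℝ) + ((A x \ A' y).card : ℝ) = ((A x).card : ℝ) := by
      exact_mod_cast Finset.card_inter_add_card_sdiff (A x) (A' y)
    by_cases h1 : WP S S' Rel Mt (x, y)
    · have h0 : ¬ (Rel x y ∧ S.par x = true ∧ ¬ Mt x y) := by
        rintro ⟨_, h2, h3⟩
        exact h3 (h1.2 h2)
      have e1 : ∑ c ∈ A x \ A' y, (1 + χ x y c) = ((A x \ A' y).card : ℝ) := by
        simp only [χ, if_neg h0]
        simp
      have e2 : ∑ c ∈ A x ∩ A' y, ψ x y c = ((A x ∩ A' y).card : ℝ) -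
          2 * (((A x ∩ A' y).filter (fun c => pa (x, y) = some c)).card : ℝ) := by
        have : ∀ c ∈ A x ∩ A' y, ψ x y c = 1 - 2 * (if pa (x, y) = some c then (1 : ℝ) else 0) := by
          intro c _
          simp only [ψ, if_pos h1]
          split_ifs <;> norm_num
        rw [Finset.sum_congr rfl this, Finset.sum_sub_distrib, ← Finset.mul_sum,
          Finset.sum_boole]
        simp
      have e3 : ((A x ∩ A' y).filter (fun c => pa (x, y) = some c)).card ≤ 1 := by
        rw [Finset.card_le_one]
        intro a ha b hb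
        have ha' := (Finset.mem_filter.1 ha).2
        have hb' := (Finset.mem_filter.1 hb).2
        rw [ha'] at hb'
        exact Option.some.inj hb'
      have e3' : ((((A x ∩ A' y).filter (fun c => pa (x, y) = some c)).card : ℕ) : ℝ) ≤ 1 := by
        exact_mod_cast e3
      have e4 : (0 : ℝ) ≤ ((((A x ∩ A' y).filter (fun c => pa (x, y) = some c)).card : ℕ) : ℝ) :=
        Nat.cast_nonneg _
      rw [e1, e2, abs_le]
      constructor <;> linarith
    · have hx : S.par x = true := by
        by_contra h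
        exact h1 ⟨hR, fun h' => absurd h' h⟩
      have hM : ¬ Mt x y := fun h => h1 ⟨hR, fun _ => h⟩
      have h0 : Rel x y ∧ S.par x = true ∧ ¬ Mt x y := ⟨hR, hx, hM⟩
      have hU := hUn x y hR hx hM
      have e1 : ∑ c ∈ A x \ A' y, (1 + χ x y c) = ((A x \ A' y).card : ℝ) +
          2 * ((A x ∩ A' y).card : ℝ) := by
        simp only [χ, if_pos h0]
        rw [Finset.sum_const, nsmul_eq_mul]
        by_cases hz : (A x \ A' y).card = 0
        · have hz' : (A x ∩ A' y).card = 0 := by omega
          rw [hz, hz']; simp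
        · have : ((A x \ A' y).card : ℝ) ≠ 0 := by exact_mod_cast hz
          field_simp
      have e2 : ∑ c ∈ A x ∩ A' y, ψ x y c = - ((A x ∩ A' y).card : ℝ) := by
        simp only [ψ, if_neg h1]
        simp
      rw [e1, e2, abs_le]
      constructor <;> linarith

end

end KLF
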