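import Crest.Agent.KLF_UnionA

/-! S0154 task UNIONB: existence of the colourings `β_n` by a union bound. -/

set_option autoImplicit false

namespace KLF

open Classical in
private theorem ub_bad {C Γ : Type} [DecidableEq C] [Fintype Γ] [DecidableEq Γ]
    (Sn Sk : CSet C) (m : ℕ) (hfree : Sn.FreeUpTo m) (hΓ : 0 < Fintype.card (Sn.X → Γ))
    (β : Sk.X → Γ) (x : Sn.X) (y : Sk.X) (w : List C) (hw : Red w) (hl : w.length = m) :
    (Finset.univ.filter fun βn : Sn.X → Γ => ∀ v, v <+: w → Sn.par (Sn.act x v) = true →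
      βn (Sn.act x v) = β (Sk.act y v)).card * Fintype.card Γ ^ ((m + 1) / 2) ≤
      Fintype.card (Sn.X → Γ) := by
  classical
  have hne : Nonempty (Sn.X → Γ) := Fintype.card_pos_iff.mp hΓ
  set T := (((Finset.range (m + 1)).image fun t => Sn.act x (w.take t)).filter
      fun x' => Sn.par x' = true) with hT
  have hval : ∃ val : Sn.X → Γ, ∀ x' ∈ T, ∃ t, t ≤ m ∧ x' = Sn.act x (w.take t) ∧
      val x' = β (Sk.act y (w.take t)) := by
    obtain ⟨b0⟩ := hne
    refine ⟨fun x' => if h : ∃ t, t ≤ m ∧ x' = Sn.act x (w.take t) then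
      β (Sk.act y (w.take h.choose)) else b0 x', ?_⟩
    intro x' hx'
    rw [hT, Finset.mem_filter, Finset.mem_image] at hx'
    obtain ⟨⟨t, ht, htx⟩, _⟩ := hx'
    have h : ∃ t, t ≤ m ∧ x' = Sn.act x (w.take t) :=
      ⟨t, Nat.lt_succ_iff.mp (Finset.mem_range.mp ht), htx.symm⟩
    refine ⟨h.choose, h.choose_spec.1, h.choose_spec.2, ?_⟩
    exact dif_pos h
  obtain ⟨val, hval⟩ := hval
  have hsub : (Finset.univ.filter fun βn : Sn.X → Γ => ∀ v, v <+: w →
      Sn.par (Sn.act x v) = true → βn (Sn.act x v) = β (Sk.act y v)) ⊆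
      (Finset.univ.filter fun βn : Sn.X → Γ => ∀ x' ∈ T, βn x' = val x') := by
    intro βn hβn
    rw [Finset.mem_filter] at hβn ⊢
    refine ⟨hβn.1, fun x' hx' => ?_⟩
    obtain ⟨t, _, ht2, ht3⟩ := hval x' hx'
    have hpar : Sn.par x' = true := by
      rw [hT, Finset.mem_filter] at hx'
      exact hx'.2
    rw [ht3, ht2]
    exact hβn.2 _ (List.take_prefix _ _) (ht2 ▸ hpar)
  have h1 := card_agree T val
  have h2 : (m + 1) / 2 ≤ T.card := card_even_points Sn m hfree x w hw hl
  rw [Fintype.card_fun, ← h1]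
  by_cases hz : Fintype.card Γ = 0
  · rw [hz]
    have hX : Fintype.card Sn.X = 0 := by
      by_contra hX
      rw [Fintype.card_fun, hz, zero_pow hX] at hΓ
      exact lt_irrefl _ hΓ
    have hemp : IsEmpty Sn.X := Fintype.card_eq_zero_iff.mp hX
    exact (hemp.false x).elim
  · exact Nat.mul_le_mul (Finset.card_le_card hsub)
      (Nat.pow_le_pow_right (Nat.pos_of_ne_zero hz) h2)

/-- One step of the construction: given the colourings `β_k`, `k < n`, there is a good `β_n`. Union
bound over `k < n`, `x ∈ X_n`, `y ∈ X_k` and the words `w` of length `m` (at most `|C|^m`): the `β`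
violating the conclusion for this choice agree with `x' ↦ β_k(y.v)` on the even points `x' = x.v`. -/
theorem exists_beta_step {C Γ : Type} [Fintype C] [DecidableEq C] [Fintype Γ] [DecidableEq Γ]
    (S : ℕ → CSet C) (n m : ℕ) (hfree : (S n).FreeUpTo m)
    (hcount : ∑ k ∈ Finset.range n, Fintype.card (S n).X * Fintype.card (S k).X *
      Fintype.card C ^ m < Fintype.card Γ ^ ((m + 1) / 2))
    (β : ∀ k, (S k).X → Γ) :
    ∃ βn : (S n).X → Γ, ∀ k, k < n → ∀ (x : (S n).X) (y : (S k).X) (w : List C), Red w →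
      w.length = m → ∃ v, v <+: w ∧ (S n).par ((S n).act x v) = true ∧
        βn ((S n).act x v) ≠ β k ((S k).act y v) := by
  classical
  have hpos : 0 < Fintype.card ((S n).X → Γ) := Fintype.card_pos_iff.mpr ⟨β n⟩
  by_contra hcon
  push Not at hcon
  -- the bad sets
  let Bad : (k : ℕ) → (S n).X → (S k).X → (Fin m → C) → Finset ((S n).X → Γ) :=
    fun k x y f => if Red (List.ofFn f) then
      Finset.univ.filter fun βn : (S n).X → Γ => ∀ v, v <+: List.ofFn f →
        (S n).par ((S n).act x v) = true → βn ((S n).act x v) = β k ((S k).act y v) else ∅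
  have hBad : ∀ k x y f, (Bad k x y f).card * Fintype.card Γ ^ ((m + 1) / 2) ≤
      Fintype.card ((S n).X → Γ) := by
    intro k x y f
    by_cases h : Red (List.ofFn f)
    · simp only [Bad, if_pos h]
      exact ub_bad (S n) (S k) m hfree hpos (β k) x y (List.ofFn f) h (by simp)
    · simp only [Bad, if_neg h, Finset.card_empty, zero_mul]
      exact Nat.zero_le _
  have hcover : (Finset.univ : Finset ((S n).X → Γ)) ⊆ (Finset.range n).biUnion fun k =>
      (Finset.univ : Finset (S n).X).biUnion fun x =>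
        (Finset.univ : Finset (S k).X).biUnion fun y =>
          (Finset.univ : Finset (Fin m → C)).biUnion fun f => Bad k x y f := by
    intro βn _
    obtain ⟨k, hk, x, y, w, hw, hl, hall⟩ := hcon βn
    simp only [Finset.mem_biUnion, Finset.mem_range, Finset.mem_univ, true_and]
    subst hl
    refine ⟨k, hk, x, y, fun i => w.get i, ?_⟩
    have e : List.ofFn (fun i => w.get i) = w := List.ofFn_get w
    simp only [Bad, e, if_pos hw, Finset.mem_filter, Finset.mem_univ, true_and]
    intro v hv hpar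
    exact hall v hv hpar
  have h1 : Fintype.card ((S n).X → Γ) ≤ ∑ k ∈ Finset.range n, ∑ x : (S n).X, ∑ y : (S k).X,
      ∑ f : Fin m → C, (Bad k x y f).card := by
    refine (Finset.card_le_card hcover).trans ?_
    refine Finset.card_biUnion_le.trans (Finset.sum_le_sum fun k _ => ?_)
    refine Finset.card_biUnion_le.trans (Finset.sum_le_sum fun x _ => ?_)
    refine Finset.card_biUnion_le.trans (Finset.sum_le_sum fun y _ => ?_)
    exact Finset.card_biUnion_le
  have h2 : Fintype.card ((S n).X → Γ) * Fintype.card Γ ^ ((m + 1) / 2) ≤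
      (∑ k ∈ Finset.range n, Fintype.card (S n).X * Fintype.card (S k).X *
        Fintype.card C ^ m) * Fintype.card ((S n).X → Γ) := by
    refine (Nat.mul_le_mul_right _ h1).trans ?_
    simp only [Finset.sum_mul]
    refine Finset.sum_le_sum fun k _ => ?_
    calc ∑ x : (S n).X, ∑ y : (S k).X, ∑ f : Fin m → C,
          (Bad k x y f).card * Fintype.card Γ ^ ((m + 1) / 2) ≤
          ∑ x : (S n).X, ∑ y : (S k).X, ∑ f : Fin m → C, Fintype.card ((S n).X → Γ) :=
          Finset.sum_le_sum fun x _ => Finset.sum_le_sum fun y _ => Finset.sum_le_sum fun f _ =>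
            hBad k x y f
      _ = Fintype.card (S n).X * Fintype.card (S k).X *
          Fintype.card C ^ m * Fintype.card ((S n).X → Γ) := by
          simp only [Finset.sum_const, Finset.card_univ, smul_eq_mul]
          rw [show Fintype.card (Fin m → C) = Fintype.card C ^ m by
            rw [Fintype.card_fun, Fintype.card_fin]]
          ring
  have h3 : (∑ k ∈ Finset.range n, Fintype.card (S n).X * Fintype.card (S k).X *
        Fintype.card C ^ m) * Fintype.card ((S n).X → Γ) <
      Fintype.card Γ ^ ((m + 1) / 2) * Fintype.card ((S n).X → Γ) :=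
    Nat.mul_lt_mul_of_pos_right hcount hpos
  rw [mul_comm (Fintype.card Γ ^ ((m + 1) / 2))] at h3
  exact absurd (h2.trans_lt h3) (lt_irrefl _)

/-- The sequence, by strong recursion on `n`. -/
theorem exists_beta {C Γ : Type} [Fintype C] [DecidableEq C] [Fintype Γ] [DecidableEq Γ] [Nonempty Γ]
    (S : ℕ → CSet C) (m : ℕ → ℕ) (hfree : ∀ n, (S n).FreeUpTo (m n))
    (hcount : ∀ n, ∑ k ∈ Finset.range n, Fintype.card (S n).X * Fintype.card (S k).X *
      Fintype.card C ^ (m n) < Fintype.card Γ ^ ((m n + 1) / 2)) :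
    ∃ β : ∀ n, (S n).X → Γ, ∀ n k, k < n → ∀ (x : (S n).X) (y : (S k).X) (w : List C), Red w →
      w.length = m n → ∃ v, v <+: w ∧ (S n).par ((S n).act x v) = true ∧
        β n ((S n).act x v) ≠ β k ((S k).act y v) := by
  classical
  have H : ∀ (n : ℕ) (b : ∀ k, k < n → (S k).X → Γ), ∃ βn : (S n).X → Γ,
      ∀ (k : ℕ) (hk : k < n) (x : (S n).X) (y : (S k).X) (w : List C), Red w →
      w.length = m n → ∃ v, v <+: w ∧ (S n).par ((S n).act x v) = true ∧
        βn ((S n).act x v) ≠ b k hk ((S k).act y v) := by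
    intro n b
    obtain ⟨βn, hβn⟩ := exists_beta_step S n (m n) (hfree n) (hcount n)
      (fun k => if h : k < n then b k h else fun _ => Classical.arbitrary Γ)
    refine ⟨βn, fun k hk x y w hw hl => ?_⟩
    obtain ⟨v, hv1, hv2, hv3⟩ := hβn k hk x y w hw hl
    refine ⟨v, hv1, hv2, ?_⟩
    rw [dif_pos hk] at hv3
    exact hv3
  let F : ∀ n, (S n).X → Γ := (wellFounded_lt (α := ℕ)).fix (C := fun n => (S n).X → Γ)
    (fun n ih => Classical.choose (H n ih))
  have hF : ∀ n, F n = Classical.choose (H n (fun k _ => F k)) := by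
    intro n
    exact WellFounded.fix_eq _ _ n
  refine ⟨F, fun n k hk x y w hw hl => ?_⟩
  have := Classical.choose_spec (H n (fun k _ => F k)) k hk x y w hw hl
  rw [← hF] at this
  exact this

end KLF
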