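import Crest.Agent.KLF_Group
import Crest.Agent.KLF_Code
import Crest.Agent.KLF_Union
import Crest.Agent.KLF_Flow
import Crest.Agent.KLF_BlockA

/-! S0154 task BLOCKB: existence of a block for every `lam ≥ 1`. -/

set_option autoImplicit false

namespace KLF

private theorem keepSet_even {C Γ : Type} [Fintype C] [DecidableEq C] (S : CSet C)
    (K : Γ → Finset C) (β : S.X → Γ) {x : S.X} (hx : S.par x = true) :
    keepSet S K β x = K (β x) := by
  unfold keepSet
  rw [if_pos hx]

/-- The block. `s` a prime `≥ max (24L) 225`, `C = ZMod s × ZMod s`, `k0 = 75`, `m0 = 2L+3`,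
`A 0 = ∅`, `A n = keepSet (S n) K (β n)` for `n ≥ 1`. For `k ≥ 1` the flow comes from `exists_flow` with
`Rel x y := pi n x = pi k y`, `Mt x y := β n x = β k y`; for `k = 0` (`A 0 = ∅`) take `ψ = χ = 0`. -/
theorem exists_block (lam : ℕ) (h : 1 ≤ lam) : ∃ B : Block, B.lam = lam := by
  classical
  obtain ⟨s, hs1, hsp⟩ := Nat.exists_infinite_primes (max (24 * (40 * lam ^ 2)) 225)
  have hs24 : 24 * (40 * lam ^ 2) ≤ s := (le_max_left _ _).trans hs1
  have hs225 : 225 ≤ s := (le_max_right _ _).trans hs1
  haveI : Fact s.Prime := ⟨hsp⟩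
  haveI : NeZero s := ⟨by omega⟩
  obtain ⟨S, pi, hpi, hpi0, hpar, hfree, hne, hcard⟩ :=
    exists_tower (ZMod s × ZMod s) (2 * (40 * lam ^ 2) + 3)
  obtain ⟨K, hK1, hK2⟩ := exists_code s 75 (by norm_num)
  have hC : Fintype.card (ZMod s × ZMod s) = s * s := by
    rw [Fintype.card_prod, ZMod.card]
  have hΓ : Fintype.card (Fin 75 → ZMod s) = s ^ 75 := by
    rw [Fintype.card_fun, ZMod.card, Fintype.card_fin]
  obtain ⟨β, hβ⟩ := exists_beta (Γ := Fin 75 → ZMod s) S (fun n => 2 * (40 * lam ^ 2) + 3 + n)
    hfree (by
      intro n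
      rw [hΓ, hC]
      refine count_ineq s n (2 * (40 * lam ^ 2) + 3 + n) (by omega) (by omega) (by omega)
        (fun k => Fintype.card (S k).X) ?_
      intro k hk
      refine (hcard k).trans ?_
      rw [hC]
      refine Nat.mul_le_mul_left 2 (Nat.pow_le_pow_right ?_ ?_)
      · have : 0 < s := by omega
        positivity
      · omega)
  let A : ∀ n, (S n).X → Finset (ZMod s × ZMod s) := fun n x =>
    if n = 0 then ∅ else keepSet (S n) K (β n) x
  have hA0 : ∀ x, A 0 x = ∅ := fun x => if_pos rfl
  have hAn : ∀ n, 1 ≤ n → ∀ x, A n x = keepSet (S n) K (β n) x := fun n hn x =>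
    if_neg (by omega)
  refine ⟨{ C := ZMod s × ZMod s
            finC := inferInstance
            decC := inferInstance
            lam := lam
            lam_pos := h
            s := s
            hs := hs24
            S := S
            pi := pi
            pi_s := hpi
            pi_zero := hpi0
            free0 := hfree 0
            nonempty := hne
            A := A
            A_symm := ?_
            A_zero := hA0
            A_sum := ?_
            flow := ?_ }, rfl⟩
  · intro n x c
    rcases Nat.eq_zero_or_pos n with rfl | hn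
    · rw [hA0, hA0]
    · rw [hAn n hn, hAn n hn]
      exact keepSet_symm (S n) K (β n) x c
  · intro n hn
    rw [Finset.sum_congr rfl fun x _ => by rw [hAn n hn x]]
    exact keepSet_sum (S n) K (β n) s hK1
  · intro n k hkn
    rcases Nat.eq_zero_or_pos k with rfl | hk
    · refine ⟨fun _ _ _ => 0, fun _ _ _ => 0, ?_, ?_, ?_, ?_⟩
      · intro x y c _ _ _; simp
      · intro x y c; simp
      · intro x y c; simp
      · intro x y _
        rw [hA0]
        simp
    · have hn : 1 ≤ n := by omega
      have e1 : A n = keepSet (S n) K (β n) := funext (hAn n hn)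
      have e2 : A k = keepSet (S k) K (β k) := funext (hAn k hk)
      rw [e1, e2]
      refine exists_flow (S n) (S k) (fun x y => pi n x = pi k y) (keepSet (S n) K (β n))
        (keepSet (S k) K (β k)) (fun x y => β n x = β k y) (2 * (40 * lam ^ 2) + 3 + n)
        (fun x c => keepSet_symm (S n) K (β n) x c) (fun x c => keepSet_symm (S k) K (β k) x c)
        ?_ ?_ ?_ ?_
      · intro x y c hxy
        show pi n _ = pi k _
        rw [hpi, hpi, hxy]
      · intro x y hxy hx hM
        have hy : (S k).par y = true := by rw [← hpar, ← hxy, hpar, hx]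
        rw [keepSet_even _ _ _ hx, keepSet_even _ _ _ hy, hM]
      · intro x y hxy hx hM
        have hy : (S k).par y = true := by rw [← hpar, ← hxy, hpar, hx]
        rw [keepSet_even _ _ _ hx, keepSet_even _ _ _ hy]
        have h1 := hK2 _ _ hM
        have h2 := Finset.card_sdiff_add_card_inter (K (β n x)) (K (β k y))
        rw [hK1] at h2
        omega
      · intro x y w hw hl
        exact hβ n k hkn x y w hw hl

end KLF
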