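import Crest.Agent.KLF_Words

/-! S0154 task CC: the function `CC k i = (L - |w(k,i)|)/s`. -/

set_option autoImplicit false

namespace KLF

theorem Block.s_pos (B : Block) : (0 : ℝ) < B.s := by
  have h1 := B.hs
  have h2 := B.lam_pos
  have h3 : 0 < B.lam ^ 2 := by positivity
  have : 0 < B.s := by omega
  exact_mod_cast this

theorem Block.cc_nonneg (B : Block) (a : ℕ) : 0 ≤ B.cc a := by
  unfold Block.cc
  positivity

theorem Block.cc_le (B : Block) (a : ℕ) : B.cc a ≤ (B.L : ℝ) / B.s := by
  unfold Block.cc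
  have hs := B.s_pos
  gcongr
  exact Nat.sub_le _ _

/-- `|cc a - cc (a+1)| ≤ 1/s`. -/
theorem Block.cc_step (B : Block) (a : ℕ) : |B.cc a - B.cc (a + 1)| ≤ 1 / (B.s : ℝ) := by
  unfold Block.cc
  have hs := B.s_pos
  rw [← sub_div, abs_div, abs_of_pos hs]
  gcongr
  rcases le_or_gt B.L a with h | h
  · have e1 : B.L - a = 0 := by omega
    have e2 : B.L - (a + 1) = 0 := by omega
    rw [e1, e2]; simp
  · have e1 : B.L - a = (B.L - (a + 1)) + 1 := by omega
    rw [e1]; push_cast
    simp

/-- `cc a = 0` for `L ≤ a`. -/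
theorem Block.cc_eq_zero (B : Block) {a : ℕ} (h : B.L ≤ a) : B.cc a = 0 := by
  unfold Block.cc
  have e1 : B.L - a = 0 := by omega
  rw [e1]; simp

theorem Block.CC_eq (B : Block) {k i : (B.S 0).X} {w : List B.C} (h : B.R k i w) :
    B.CC k i = B.cc w.length := by
  classical
  have hw : ∃ w, B.R k i w := ⟨w, h⟩
  unfold Block.CC
  rw [dif_pos hw, B.R_unique hw.choose_spec h]

theorem Block.CC_eq_zero (B : Block) {k i : (B.S 0).X} (h : ∀ w, ¬ B.R k i w) :
    B.CC k i = 0 := by
  classical
  unfold Block.CC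
  rw [dif_neg]
  push Not
  exact h

theorem Block.CC_nonneg (B : Block) (k i : (B.S 0).X) : 0 ≤ B.CC k i := by
  by_cases hw : ∃ w, B.R k i w
  · obtain ⟨w, h⟩ := hw
    rw [B.CC_eq h]; exact B.cc_nonneg _
  · push Not at hw
    rw [B.CC_eq_zero hw]

theorem Block.CC_le (B : Block) (k i : (B.S 0).X) : B.CC k i ≤ (B.L : ℝ) / B.s := by
  by_cases hw : ∃ w, B.R k i w
  · obtain ⟨w, h⟩ := hw
    rw [B.CC_eq h]; exact B.cc_le _
  · push Not at hw
    rw [B.CC_eq_zero hw]
    have hs := B.s_pos
    positivity

theorem Block.CC_self (B : Block) (i : (B.S 0).X) : B.CC i i = (B.L : ℝ) / B.s := by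
  have h : B.R i i [] := ⟨List.isChain_nil, Nat.zero_le _, rfl⟩
  rw [B.CC_eq h]
  unfold Block.cc
  simp

/-- auxiliary: one side of `CC_step` -/
private theorem Block.CC_step_aux (B : Block) (c : B.C) {k i : (B.S 0).X} {w : List B.C}
    (h : B.R k i w) : |B.CC k i - B.CC ((B.S 0).s c k) i| ≤ 1 / (B.s : ℝ) := by
  obtain ⟨hr, hl, ha⟩ := h
  have hs := B.s_pos
  rcases w with _ | ⟨d, w'⟩
  · -- the empty word
    by_cases hL : 1 ≤ B.L
    · have h2 : B.R ((B.S 0).s c k) i [c] := by
        refine ⟨List.isChain_singleton _, by simpa using hL, ?_⟩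
        rw [act_cons, act_nil, (B.S 0).s_s]
        simpa using ha
      rw [B.CC_eq ⟨hr, hl, ha⟩, B.CC_eq h2]
      simpa using B.cc_step 0
    · exfalso
      have := B.lam_pos
      have h3 : 0 < B.lam ^ 2 := by positivity
      unfold Block.L at hL
      omega
  · by_cases hd : d = c
    · subst hd
      have h2 : B.R ((B.S 0).s d k) i w' := by
        refine ⟨?_, ?_, ?_⟩
        · exact List.IsChain.tail hr
        · simp only [List.length_cons] at hl; omega
        · rw [act_cons] at ha; exact ha
      rw [B.CC_eq ⟨hr, hl, ha⟩, B.CC_eq h2, abs_sub_comm]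
      simpa using B.cc_step w'.length
    · have hred : Red (c :: d :: w') := by
        unfold Red at hr ⊢
        rw [List.isChain_cons_cons]
        exact ⟨fun h => hd h.symm, hr⟩
      have hact : (B.S 0).act ((B.S 0).s c k) (c :: d :: w') = i := by
        rw [act_cons, (B.S 0).s_s]; exact ha
      rcases Nat.lt_or_ge (d :: w').length B.L with hlt | hge
      · have h2 : B.R ((B.S 0).s c k) i (c :: d :: w') := ⟨hred, by simpa using hlt, hact⟩
        rw [B.CC_eq ⟨hr, hl, ha⟩, B.CC_eq h2]
        exact B.cc_step _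
      · have h2 : ∀ w, ¬ B.R ((B.S 0).s c k) i w := by
          rintro w ⟨hr2, hl2, ha2⟩
          have := word_unique (B.S 0) B.free0 hr2 hred (by
            have : (c :: d :: w').length = (d :: w').length + 1 := rfl
            unfold Block.L at hl hl2
            omega) (ha2.trans hact.symm)
          rw [this] at hl2
          simp only [List.length_cons] at hl2 hge
          omega
        rw [B.CC_eq ⟨hr, hl, ha⟩, B.CC_eq_zero h2, B.cc_eq_zero hge]
        simp only [sub_zero, abs_zero]
        positivity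

/-- If `w` leads from `k` to `i`, then from `s c k` to `i` leads either the tail (if `w` starts with
`c`) or `c :: w` (otherwise; of length `|w|+1`). So `CC` changes by at most `1/s`; when `|w| = L` both
values are `0` or `1/s`. When there is no word on one side, the other side has none or one of length
`L` exactly. -/
theorem Block.CC_step (B : Block) (c : B.C) (k i : (B.S 0).X) :
    |B.CC k i - B.CC ((B.S 0).s c k) i| ≤ 1 / (B.s : ℝ) := by
  by_cases h1 : ∃ w, B.R k i w
  · obtain ⟨w, h⟩ := h1
    exact B.CC_step_aux c h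
  · by_cases h2 : ∃ w, B.R ((B.S 0).s c k) i w
    · obtain ⟨w, h⟩ := h2
      have := B.CC_step_aux c h
      rw [(B.S 0).s_s, abs_sub_comm] at this
      exact this
    · push Not at h1 h2
      rw [B.CC_eq_zero h1, B.CC_eq_zero h2]
      have hs := B.s_pos
      simp only [sub_zero, abs_zero]
      positivity

end KLF
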