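import Crest.Agent.KLF_CoreA

/-! S0154 task CORE -/

set_option autoImplicit false

open Crest Crest.AnalysisR

namespace KLF

variable (Bs : ℕ → Block)

/-- The level of a point. -/
def lvl : Pt Bs → ℕ
  | none => 0
  | some ⟨_, k, _⟩ => k

theorem freeNorm_sub_le (a b c : (PM Bs).Mol) :
    (PM Bs).freeNorm (a - c) ≤ (PM Bs).freeNorm (a - b) + (PM Bs).freeNorm (b - c) := by
  have h := map_add_le_add (PM Bs).freeSeminorm (a - b) (b - c)
  rw [sub_add_sub_cancel] at h
  exact h

/-- The final numerical contradiction. -/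
theorem core_num {lam L r s n a : ℝ} (hlam : 1 ≤ lam) (hL : L = 40 * lam ^ 2) (hr : r = 16 * lam)
    (hs : 24 * L ≤ s) (hn : 0 < n) (ha : a = s * n)
    (h : a * (L / s) - n * (6 * L / s) - (a + n * (12 * L)) / s * (lam * r + 1)
      ≤ 1 / 2 * (lam * ((8 * L / r + 4) / s)) * a) : False := by
  have hL0 : 0 < L := by rw [hL]; positivity
  have hs0 : 0 < s := by linarith
  have hr0 : 0 < r := by rw [hr]; linarith
  subst ha
  have e1 : s * n * (L / s) = n * L := by field_simp
  have e2 : 1 / 2 * (lam * ((8 * L / r + 4) / s)) * (s * n) = n * (lam * (4 * L / r + 2)) := by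
    field_simp; ring
  have e3 : (s * n + n * (12 * L)) / s = n * (1 + 12 * L / s) := by field_simp
  rw [e1, e2, e3] at h
  have h6 : 6 * L / s ≤ 1 / 4 := by
    rw [div_le_iff₀ hs0]; linarith
  have h12 : 12 * L / s ≤ 1 / 2 := by
    rw [div_le_iff₀ hs0]; linarith
  have h4 : lam * (4 * L / r + 2) = L / 4 + 2 * lam := by
    rw [hL, hr]; field_simp; ring
  rw [h4] at h
  have hlr : 0 ≤ lam * r + 1 := by positivity
  have h7 : n * (1 + 12 * L / s) * (lam * r + 1) ≤ n * (3 / 2) * (lam * r + 1) := by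
    apply mul_le_mul_of_nonneg_right _ hlr
    apply mul_le_mul_of_nonneg_left _ hn.le
    linarith
  have h8 : n * (6 * L / s) ≤ n * (1 / 4) := mul_le_mul_of_nonneg_left h6 hn.le
  have h9 : n * (L - 1 / 4 - 3 / 2 * (lam * r + 1) - L / 4 - 2 * lam) ≤ 0 := by nlinarith
  have h10 : 0 < L - 1 / 4 - 3 / 2 * (lam * r + 1) - L / 4 - 2 * lam := by
    rw [hL, hr]; nlinarith
  have := mul_pos hn h10
  linarith

theorem sum_rewrite {ι : Type} [Fintype ι] (a : ι → ℝ) (u v w s t : ℝ) :
    ∑ x, (a x * u - v - (a x + w) / s * t) =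
      (∑ x, a x) * u - Fintype.card ι * v - ((∑ x, a x) + Fintype.card ι * w) / s * t := by
  have e1 : ∑ x, a x * u = (∑ x, a x) * u := by rw [Finset.sum_mul]
  have e2 : ∑ _x : ι, v = Fintype.card ι * v := by
    rw [Finset.sum_const, Finset.card_univ, nsmul_eq_mul]
  have e3 : ∑ x, (a x + w) / s * t = ((∑ x, a x) + Fintype.card ι * w) / s * t := by
    rw [← Finset.sum_mul, ← Finset.sum_div, Finset.sum_add_distrib, Finset.sum_const,
      Finset.card_univ, nsmul_eq_mul]
  rw [Finset.sum_sub_distrib, Finset.sum_sub_distrib, e1, e2, e3]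

/-- The core statement. Choose `n ≥ 1` larger than all levels of the points of `F` in block `N`. Put
`m x = f (pt N n x)`. Then `∑_x ⟨m x, g_x⟩` is (by `ext_g_eq_sum`, `sum_involution`, `isPhi_G`,
`pairing_le`, `dist_edge`) `≤ ½ lam kap ∑ |A(x)| = ½ lam kap s |X_n| = lam (4L/r + 2) |X_n|`, and (by
`ext_g_trace`, `isPhi_g`, `dist_vert`, `hE`)
`≥ ∑_x (|A(x)| L/s - 6L/s - (|A(x)|+12L)/s * (lam r + 1)) ≥ |X_n| (L - 1/4 - (3/2)(lam r + 1))`,
a contradiction for `r = 16 lam`, `L = 40 lam²`, `s ≥ 24 L`. -/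
theorem core (N : ℕ) (f : Pt Bs → (PM Bs).Mol) (F : Finset (Pt Bs))
    (hF : ∀ x, ((PM Bs).coeffs (f x)).support ⊆ F)
    (hLip : ∀ x y, (PM Bs).freeNorm (f x - f y) ≤ (Bs N).lam * ptDist Bs x y)
    (hE : ∀ e : ((Bs N).S 0).X, (PM Bs).freeNorm (f (pt Bs N 0 e) - dl Bs (pt Bs N 0 e)) ≤ 1) :
    False := by
  classical
  set n : ℕ := F.sup (lvl Bs) + 1 with hn_def
  have hn : 0 < n := Nat.succ_pos _
  have hlvl : ∀ z ∈ F, ∀ k (y : ((Bs N).S k).X), z = pt Bs N k y → k < n := by
    intro z hz k y hzy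
    have h1 : lvl Bs z ≤ F.sup (lvl Bs) := Finset.le_sup hz
    subst hzy
    change k ≤ _ at h1
    omega
  set B : Block := Bs N with hB
  have hlam : (1 : ℝ) ≤ (B.lam : ℝ) := by exact_mod_cast B.lam_pos
  set m : (B.S n).X → (PM Bs).Mol := fun x => f (pt Bs N n x) with hm
  -- step 1
  have h1 : ∀ x : (B.S n).X, (PM Bs).pairing (m x) (ext Bs N (phig B n hn x)) =
      ∑ c ∈ B.A n x, (PM Bs).pairing (m x) (ext Bs N (phiG B n x c)) := by
    intro x
    apply pairing_sum_of_eq_on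
    intro z hz
    exact ext_g_eq_sum Bs N n hn x z (hlvl z (hF _ hz))
  -- upper bound
  have hkap := kap_nonneg B
  have hup : ∑ x, (PM Bs).pairing (m x) (ext Bs N (phig B n hn x)) ≤
      1 / 2 * (B.lam * B.kap) * ∑ x, ((B.A n x).card : ℝ) := by
    rw [Finset.sum_congr rfl fun x _ => h1 x]
    rw [sum_involution Bs N n m, mul_assoc]
    apply mul_le_mul_of_nonneg_left _ (by norm_num)
    rw [Finset.mul_sum]
    apply Finset.sum_le_sum
    intro x _
    have : B.lam * B.kap * ((B.A n x).card : ℝ) = ∑ c ∈ B.A n x, (B.lam : ℝ) * B.kap := by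
      rw [Finset.sum_const, nsmul_eq_mul]; ring
    rw [this]
    apply Finset.sum_le_sum
    intro c hc
    refine (le_abs_self _).trans ((pairing_le Bs hkap (isPhi_G Bs N n x c hc) _).trans ?_)
    rw [mul_comm (B.lam : ℝ)]
    apply mul_le_mul_of_nonneg_left _ hkap
    refine (hLip _ _).trans ?_
    have := dist_edge Bs x hc
    have h0 : (0 : ℝ) ≤ B.lam := by linarith
    calc (B.lam : ℝ) * ptDist Bs (pt Bs N n x) (pt Bs N n ((B.S n).s c x)) ≤ B.lam * 1 :=
          mul_le_mul_of_nonneg_left this h0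
      _ = B.lam := mul_one _
  -- lower bound
  have hs0 : (0 : ℝ) < B.s := B.s_pos
  have hlow : ∀ x : (B.S n).X, ((B.A n x).card : ℝ) * (B.L / B.s) - 6 * B.L / B.s
      - ((B.A n x).card + 12 * B.L : ℝ) / B.s * (B.lam * B.r + 1)
      ≤ (PM Bs).pairing (m x) (ext Bs N (phig B n hn x)) := by
    intro x
    set e : Pt Bs := pt Bs N 0 (B.pi n x) with he
    have hℓ : (0 : ℝ) ≤ ((B.A n x).card + 12 * B.L : ℝ) / B.s := by positivity
    have a1 : (PM Bs).freeNorm (m x - dl Bs e) ≤ B.lam * B.r + 1 := by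
      refine (freeNorm_sub_le Bs _ (f e) _).trans (add_le_add ?_ (hE _))
      refine (hLip _ _).trans ?_
      have := dist_vert Bs x
      exact mul_le_mul_of_nonneg_left this (by linarith)
    have a2 := pairing_le Bs hℓ (isPhi_g Bs N n hn x) (m x - dl Bs e)
    rw [pairing_sub, pairing_dl] at a2
    have a3 := ext_g_trace Bs N n hn x
    have a4 : ((B.A n x).card + 12 * B.L : ℝ) / B.s * (PM Bs).freeNorm (m x - dl Bs e)
        ≤ ((B.A n x).card + 12 * B.L : ℝ) / B.s * (B.lam * B.r + 1) :=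
      mul_le_mul_of_nonneg_left a1 hℓ
    have a5 := (abs_le.1 (a2.trans a4)).1
    have a6 : ((B.A n x).card : ℝ) * (B.L / B.s) - 6 * B.L / B.s
        ≤ ext Bs N (phig B n hn x) e := a3
    linarith
  have hlow' := Finset.sum_le_sum fun x (_ : x ∈ Finset.univ) => hlow x
  have hsumA : ∑ x : (B.S n).X, ((B.A n x).card : ℝ) = B.s * Fintype.card (B.S n).X := by
    have := B.A_sum n hn
    exact_mod_cast this
  have hcard : (0 : ℝ) < Fintype.card (B.S n).X := by
    have := B.nonempty n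
    exact_mod_cast Fintype.card_pos
  have hfin := hlow'.trans hup
  rw [hsumA] at hfin
  refine core_num (lam := B.lam) (L := B.L) (r := B.r) (s := B.s)
    (n := Fintype.card (B.S n).X) (a := B.s * Fintype.card (B.S n).X) hlam ?_ ?_ ?_ hcard rfl ?_
  · unfold Block.L; push_cast; ring
  · unfold Block.r; push_cast; ring
  · have := B.hs
    unfold Block.L
    exact_mod_cast this
  · refine le_trans (le_of_eq ?_) (hfin.trans (le_of_eq ?_))
    · rw [sum_rewrite, hsumA]
    · unfold Block.kap; ring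

end KLF
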