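import Crest.Agent.KLF_Ext

/-! S0154 task COREA: no finitely supported Lipschitz `f : M → Mol` almost fixing the finite set `X_0` of
the block `N`. -/

set_option autoImplicit false

open Crest Crest.AnalysisR

namespace KLF

variable (Bs : ℕ → Block)

/-- The molecule `δ_z`. -/
noncomputable def dl (z : Pt Bs) : (PM Bs).Mol := (Finsupp.single z (1 : ℝ) : Pt Bs →₀ ℝ)

theorem pairing_dl (z : Pt Bs) (φ : Pt Bs → ℝ) : (PM Bs).pairing (dl Bs z) φ = φ z := by
  have h : (PM Bs).pairing (dl Bs z) φ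
      = (Finsupp.single z (1 : ℝ) : Pt Bs →₀ ℝ).sum fun x r => r * φ x := rfl
  rw [h, Finsupp.sum_single_index (by simp), one_mul]

theorem pairing_sub (a b : (PM Bs).Mol) (φ : Pt Bs → ℝ) :
    (PM Bs).pairing (a - b) φ = (PM Bs).pairing a φ - (PM Bs).pairing b φ := by
  rw [sub_eq_add_neg, (PM Bs).pairing_add, (PM Bs).pairing_neg, ← sub_eq_add_neg]

/-- `pairing` only depends on the values on the support; linear in `φ`. -/
theorem pairing_sum_of_eq_on {ι : Type} (s : Finset ι) (a : (PM Bs).Mol) (φ : Pt Bs → ℝ)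
    (ψ : ι → Pt Bs → ℝ) (h : ∀ z ∈ ((PM Bs).coeffs a).support, φ z = ∑ i ∈ s, ψ i z) :
    (PM Bs).pairing a φ = ∑ i ∈ s, (PM Bs).pairing a (ψ i) := by
  unfold PointedMetric.pairing Finsupp.sum
  rw [Finset.sum_comm]
  refine Finset.sum_congr rfl ?_
  intro z hz
  beta_reduce
  rw [h z hz, Finset.mul_sum]

theorem pairing_neg_right (a : (PM Bs).Mol) (φ ψ : Pt Bs → ℝ) (h : ∀ z, ψ z = - φ z) :
    (PM Bs).pairing a ψ = - (PM Bs).pairing a φ := by
  unfold PointedMetric.pairing Finsupp.sum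
  rw [← Finset.sum_neg_distrib]
  refine Finset.sum_congr rfl ?_
  intro z _
  have := h z
  beta_reduce
  rw [this, mul_neg]

/-- The involution trick: `∑_x ∑_{c∈A(x)} ⟨m x, G_{x,c}⟩ = ½ ∑_x ∑_{c∈A(x)} ⟨m x - m (s c x), G_{x,c}⟩`
because `(x,c) ↦ (s c x, c)` is an involution of `{(x,c) : c ∈ A(x)}` and `G` is antisymmetric. -/
theorem sum_involution (N n : ℕ) (m : ((Bs N).S n).X → (PM Bs).Mol) :
    ∑ x, ∑ c ∈ (Bs N).A n x, (PM Bs).pairing (m x) (ext Bs N (phiG (Bs N) n x c)) =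
    (1 / 2) * ∑ x, ∑ c ∈ (Bs N).A n x,
      (PM Bs).pairing (m x - m (((Bs N).S n).s c x)) (ext Bs N (phiG (Bs N) n x c)) := by
  have hT : ∑ x, ∑ c ∈ (Bs N).A n x,
      (PM Bs).pairing (m (((Bs N).S n).s c x)) (ext Bs N (phiG (Bs N) n x c))
      = - ∑ x, ∑ c ∈ (Bs N).A n x, (PM Bs).pairing (m x) (ext Bs N (phiG (Bs N) n x c)) := by
    have e1 : ∀ F : ((Bs N).S n).X → (Bs N).C → ℝ,
        ∑ x, ∑ c ∈ (Bs N).A n x, F x c = ∑ c, ∑ x, if c ∈ (Bs N).A n x then F x c else 0 := by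
      intro F
      rw [Finset.sum_comm]
      refine Finset.sum_congr rfl ?_
      intro x _
      rw [← Finset.sum_filter]
      refine Finset.sum_congr ?_ (fun _ _ => rfl)
      ext c; simp
    rw [e1, e1, ← Finset.sum_neg_distrib]
    refine Finset.sum_congr rfl ?_
    intro c _
    rw [← Finset.sum_neg_distrib]
    refine Finset.sum_bij' (fun x _ => ((Bs N).S n).s c x) (fun x _ => ((Bs N).S n).s c x)
      (fun _ _ => Finset.mem_univ _) (fun _ _ => Finset.mem_univ _)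
      (fun x _ => ((Bs N).S n).s_s c x) (fun x _ => ((Bs N).S n).s_s c x) ?_
    intro x _
    by_cases hc : c ∈ (Bs N).A n x
    · have hc' := ((Bs N).A_symm n x c).1 hc
      rw [if_pos hc, if_pos hc',
        pairing_neg_right Bs _ (ext Bs N (phiG (Bs N) n x c))
          (ext Bs N (phiG (Bs N) n (((Bs N).S n).s c x) c))
          (fun z => ext_G_anti Bs N n x c z), neg_neg]
    · have hc' : c ∉ (Bs N).A n (((Bs N).S n).s c x) := fun h => hc (((Bs N).A_symm n x c).2 h)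
      rw [if_neg hc, if_neg hc', neg_zero]
  have e2 : ∑ x, ∑ c ∈ (Bs N).A n x,
      (PM Bs).pairing (m x - m (((Bs N).S n).s c x)) (ext Bs N (phiG (Bs N) n x c))
      = ∑ x, ∑ c ∈ (Bs N).A n x, (PM Bs).pairing (m x) (ext Bs N (phiG (Bs N) n x c))
        - ∑ x, ∑ c ∈ (Bs N).A n x,
          (PM Bs).pairing (m (((Bs N).S n).s c x)) (ext Bs N (phiG (Bs N) n x c)) := by
    rw [← Finset.sum_sub_distrib]
    refine Finset.sum_congr rfl ?_
    intro x _
    rw [← Finset.sum_sub_distrib]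
    refine Finset.sum_congr rfl ?_
    intro c _
    exact pairing_sub Bs _ _ _
  rw [e2, hT]
  ring

end KLF
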