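import Mathlib
import Crest.Prelude.Def_LipschitzFree

/-!
S0154 (helper5). Definitions for the uniformly discrete metric space whose Lipschitz-free space has
AP but not BAP. See the note rid S0154 (09:55Z).
-/

set_option autoImplicit false

open Crest Crest.AnalysisR

namespace KLF

/-- A finite set with involutions indexed by the colours `C` and a parity flipped by each of them. -/
structure CSet (C : Type) where
  X : Type
  fin : Fintype X
  dec : DecidableEq X
  s : C → X → X
  s_s : ∀ c x, s c (s c x) = x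
  par : X → Bool
  par_s : ∀ c x, par (s c x) = !(par x)

attribute [instance] CSet.fin CSet.dec

section words
variable {C : Type}

/-- Act by a word, letter by letter from the left: `act x [c1,c2] = s c2 (s c1 x)`. -/
def CSet.act (S : CSet C) (x : S.X) (w : List C) : S.X := w.foldl (fun y c => S.s c y) x

/-- Reduced words: consecutive letters are different. -/
def Red (w : List C) : Prop := w.IsChain (· ≠ ·)

/-- No nonempty reduced word of length `≤ g` has a fixed point. -/
def CSet.FreeUpTo (S : CSet C) (g : ℕ) : Prop :=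
  ∀ (x : S.X) (w : List C), w ≠ [] → w.length ≤ g → Red w → S.act x w ≠ x

/-- All the edges of the path `z → act z w` are kept (`A` = kept colours at each point). -/
def CSet.Kept (S : CSet C) (A : S.X → Finset C) : S.X → List C → Prop
  | _, [] => True
  | z, c :: w => c ∈ A z ∧ CSet.Kept S A (S.s c z) w

end words

/-- A block: the finite `C`-sets `X_0, X_1, …`, types `pi`, kept colours `A`, and the flow
hypothesis. `lam` is the norm which the block rules out. -/
structure Block where
  C : Type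
  finC : Fintype C
  decC : DecidableEq C
  lam : ℕ
  lam_pos : 1 ≤ lam
  s : ℕ
  hs : 24 * (40 * lam ^ 2) ≤ s
  S : ℕ → CSet C
  pi : ∀ n, (S n).X → (S 0).X
  pi_s : ∀ n c x, pi n ((S n).s c x) = (S 0).s c (pi n x)
  pi_zero : ∀ x, pi 0 x = x
  free0 : (S 0).FreeUpTo (2 * (40 * lam ^ 2) + 3)
  nonempty : ∀ n, Nonempty (S n).X
  A : ∀ n, (S n).X → Finset C
  A_symm : ∀ n x c, c ∈ A n x ↔ c ∈ A n ((S n).s c x)
  A_zero : ∀ x, A 0 x = ∅
  A_sum : ∀ n, 1 ≤ n → ∑ x : (S n).X, (A n x).card = s * Fintype.card (S n).X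
  flow : ∀ n k, k < n → ∃ (ψ χ : (S n).X → (S k).X → C → ℝ),
    (∀ x y c, pi n x = pi k y → c ∈ A n x → c ∈ A k y →
      ψ ((S n).s c x) ((S k).s c y) c = - ψ x y c) ∧
    (∀ x y c, |ψ x y c| ≤ 1) ∧ (∀ x y c, 0 ≤ χ x y c ∧ χ x y c ≤ 1) ∧
    (∀ x y, pi n x = pi k y →
      |∑ c ∈ A n x ∩ A k y, ψ x y c + ∑ c ∈ A n x \ A k y, (1 + χ x y c) - ((A n x).card : ℝ)| ≤ 2)

attribute [instance] Block.finC Block.decC

/-- `L = 40 lam²`. -/
def Block.L (B : Block) : ℕ := 40 * B.lam ^ 2
/-- `r = 16 lam` (vertical distance and ramp length). -/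
def Block.r (B : Block) : ℕ := 16 * B.lam

/-- `R k i w`: `w` is a reduced word of length `≤ L` leading from the type `k` to the type `i`. -/
def Block.R (B : Block) (k i : (B.S 0).X) (w : List B.C) : Prop :=
  Red w ∧ w.length ≤ B.L ∧ (B.S 0).act k w = i

/-- `cc a = (L - a)/s` (for `a ≤ L`, and `0` beyond). -/
noncomputable def Block.cc (B : Block) (a : ℕ) : ℝ := ((B.L - a : ℕ) : ℝ) / B.s

/-- The ramp `b a = max 0 (1 - a/r)`. -/
noncomputable def Block.ramp (B : Block) (a : ℕ) : ℝ := max 0 (1 - (a : ℝ) / B.r)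

/-- The chosen flows. -/
noncomputable def Block.psi (B : Block) (n k : ℕ) (h : k < n) :
    (B.S n).X → (B.S k).X → B.C → ℝ := (B.flow n k h).choose
noncomputable def Block.chi (B : Block) (n k : ℕ) (h : k < n) :
    (B.S n).X → (B.S k).X → B.C → ℝ := (B.flow n k h).choose_spec.choose

open Classical in
/-- `tt x c z w`: the coefficient `t` (for `w` a word from `pi z` to `pi x`). -/
noncomputable def Block.tt (B : Block) {n k : ℕ} (h : k < n) (x : (B.S n).X) (c : B.C)
    (z : (B.S k).X) (w : List B.C) : ℝ :=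
  if (B.S k).Kept (B.A k) z w then
    (if c ∈ B.A k ((B.S k).act z w) then B.psi n k h x ((B.S k).act z w) c - 1
      else B.chi n k h x ((B.S k).act z w) c)
  else 0

/-- `Gw = cc(|w|) * (1 + ramp(|w|) * t)`. -/
noncomputable def Block.Gw (B : Block) {n k : ℕ} (h : k < n) (x : (B.S n).X) (c : B.C)
    (z : (B.S k).X) (w : List B.C) : ℝ :=
  B.cc w.length * (1 + B.ramp w.length * B.tt h x c z w)

open Classical in
/-- The one-sided certificate function. -/
noncomputable def Block.Gp (B : Block) {n k : ℕ} (h : k < n) (x : (B.S n).X) (c : B.C)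
    (z : (B.S k).X) : ℝ :=
  if hw : ∃ w, B.R (B.pi k z) (B.pi n x) w ∧ w.getLast? ≠ some c then B.Gw h x c z hw.choose else 0

/-- The certificate function. -/
noncomputable def Block.G (B : Block) {n k : ℕ} (h : k < n) (x : (B.S n).X) (c : B.C)
    (z : (B.S k).X) : ℝ :=
  B.Gp h x c z - B.Gp h ((B.S n).s c x) c z

/-- `g_x(z) = ∑_{c ∈ A(x)} G(x,c,z)`. -/
noncomputable def Block.g (B : Block) {n k : ℕ} (h : k < n) (x : (B.S n).X) (z : (B.S k).X) : ℝ :=
  ∑ c ∈ B.A n x, B.G h x c z

open Classical in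
/-- `CC k i = cc(|w|)` for the word `w` from `k` to `i`, and `0` if there is none. -/
noncomputable def Block.CC (B : Block) (k i : (B.S 0).X) : ℝ :=
  if hw : ∃ w, B.R k i w then B.cc hw.choose.length else 0

/-- The Lipschitz constant of `G`. -/
noncomputable def Block.kap (B : Block) : ℝ := (8 * (B.L : ℝ) / B.r + 4) / B.s

/-- The points of the metric space: base point `none` and the points of the blocks. -/
abbrev Pt (Bs : ℕ → Block) : Type := Option (Σ N : ℕ, Σ n : ℕ, ((Bs N).S n).X)

/-- The point of `Pt` given by `x ∈ X_n` of block `N`. -/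
abbrev pt (Bs : ℕ → Block) (N n : ℕ) (x : ((Bs N).S n).X) : Pt Bs := some ⟨N, n, x⟩

/-- hub height -/
def hub (Bs : ℕ → Block) (N : ℕ) : ℕ := (Bs N).L + (Bs N).r + N + 1

/-- `f` is `K`-Lipschitz along the edges of the weighted graph and vanishes at the base. -/
def IsPhi (Bs : ℕ → Block) (K : ℝ) (f : Pt Bs → ℝ) : Prop :=
  f none = 0 ∧
  (∀ N n (x : ((Bs N).S n).X) c, c ∈ (Bs N).A n x →
    |f (pt Bs N n x) - f (pt Bs N n (((Bs N).S n).s c x))| ≤ K) ∧
  (∀ N n (x : ((Bs N).S n).X),
    |f (pt Bs N n x) - f (pt Bs N 0 ((Bs N).pi n x))| ≤ K * (Bs N).r) ∧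
  (∀ N n (x : ((Bs N).S n).X), |f (pt Bs N n x)| ≤ K * hub Bs N)

/-- The distance. -/
noncomputable def ptDist (Bs : ℕ → Block) (z z' : Pt Bs) : ℝ :=
  ⨆ f : {f : Pt Bs → ℝ // IsPhi Bs 1 f}, |f.1 z - f.1 z'|

end KLF
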