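import Crest.Agent.KLF_ExtA

/-! S0154 task EXTB -/

set_option autoImplicit false

open Crest Crest.AnalysisR

namespace KLF

variable (Bs : ℕ → Block)

private theorem phig_est (B : Block) (n : ℕ) (hn : 0 < n) (x : (B.S n).X) (k : ℕ) (z : (B.S k).X) :
    |phig B n hn x k z - (B.A n x).card * B.CC (B.pi k z) (B.pi n x)| ≤ 6 * (B.L : ℝ) / B.s := by
  unfold phig
  split_ifs with h
  · exact B.g_est h x z
  · have := B.g_est hn x (B.pi k z)
    rwa [B.pi_zero] at this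

/-- `ext (phig)` is `(|A(x)| + 12L)/s`-Lipschitz: `g_est` and `CC_step` (note
`pi (s c z) = s c (pi z)`, `pi 0 = id`). -/
theorem isPhi_g (N n : ℕ) (hn : 0 < n) (x : ((Bs N).S n).X) :
    IsPhi Bs ((((Bs N).A n x).card + 12 * (Bs N).L : ℝ) / (Bs N).s)
      (ext Bs N (phig (Bs N) n hn x)) := by
  have hs := (Bs N).s_pos
  have hL : (1 : ℝ) ≤ (Bs N).L := by
    have h1 : 1 ≤ (Bs N).L := by
      unfold Block.L
      have := (Bs N).lam_pos
      nlinarith
    exact_mod_cast h1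
  have hr : (1 : ℝ) ≤ (Bs N).r := by
    have h1 : 1 ≤ (Bs N).r := by
      unfold Block.r
      have := (Bs N).lam_pos
      omega
    exact_mod_cast h1
  set a : ℝ := (((Bs N).A n x).card : ℝ) with ha
  have ha0 : 0 ≤ a := by positivity
  set K : ℝ := (a + 12 * (Bs N).L : ℝ) / (Bs N).s with hK
  have hK0 : 0 ≤ K := by positivity
  have hsplit : K = a * (1 / (Bs N).s) + 12 * ((Bs N).L / (Bs N).s) := by
    rw [hK]; ring
  have hLs : 0 ≤ ((Bs N).L : ℝ) / (Bs N).s := by positivity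
  have hest : ∀ k (z : ((Bs N).S k).X), |phig (Bs N) n hn x k z -
      a * (Bs N).CC ((Bs N).pi k z) ((Bs N).pi n x)| ≤ 6 * ((Bs N).L / (Bs N).s) := by
    intro k z
    have := phig_est (Bs N) n hn x k z
    rwa [mul_div_assoc] at this
  refine isPhi_ext Bs hK0 ?_ ?_ ?_
  · intro k z c hc
    have h1 := hest k z
    have h2 := hest k (((Bs N).S k).s c z)
    rw [(Bs N).pi_s] at h2
    have h3 := (Bs N).CC_step c ((Bs N).pi k z) ((Bs N).pi n x)
    rw [abs_le] at h1 h2 h3 ⊢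
    rw [hsplit]
    have h4 : a * ((Bs N).CC ((Bs N).pi k z) ((Bs N).pi n x) -
        (Bs N).CC (((Bs N).S 0).s c ((Bs N).pi k z)) ((Bs N).pi n x)) ≤ a * (1 / (Bs N).s) :=
      mul_le_mul_of_nonneg_left h3.2 ha0
    have h5 : a * (-(1 / (Bs N).s)) ≤ a * ((Bs N).CC ((Bs N).pi k z) ((Bs N).pi n x) -
        (Bs N).CC (((Bs N).S 0).s c ((Bs N).pi k z)) ((Bs N).pi n x)) :=
      mul_le_mul_of_nonneg_left h3.1 ha0
    constructor
    · nlinarith [h1.1, h2.2, h5]
    · nlinarith [h1.2, h2.1, h4]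
  · intro k z
    have h1 := hest k z
    have h2 := hest 0 ((Bs N).pi k z)
    rw [(Bs N).pi_zero] at h2
    have h3 : 12 * ((Bs N).L / (Bs N).s) ≤ K := by
      rw [hsplit]
      have : 0 ≤ a * (1 / (Bs N).s : ℝ) := by positivity
      linarith
    have h4 : K ≤ K * (Bs N).r := le_mul_of_one_le_right hK0 hr
    rw [abs_le] at h1 h2 ⊢
    constructor
    · linarith [h1.1, h2.2]
    · linarith [h1.2, h2.1]
  · intro k z
    have h1 := hest k z
    have h2 := (Bs N).CC_nonneg ((Bs N).pi k z) ((Bs N).pi n x)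
    have h3 := (Bs N).CC_le ((Bs N).pi k z) ((Bs N).pi n x)
    have h4 : ((Bs N).L : ℝ) ≤ hub Bs N := by
      unfold hub
      push_cast
      have : (0 : ℝ) ≤ (Bs N).r := by positivity
      have : (0 : ℝ) ≤ N := by positivity
      linarith
    have h5 : K * (Bs N).L ≤ K * hub Bs N := mul_le_mul_of_nonneg_left h4 hK0
    have h6 : a * ((Bs N).L / (Bs N).s) + 6 * ((Bs N).L / (Bs N).s) ≤ K * (Bs N).L := by
      have e : K * (Bs N).L = a * ((Bs N).L / (Bs N).s) + 12 * ((Bs N).L / (Bs N).s) * (Bs N).L := by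
        rw [hsplit]; ring
      rw [e]
      have : 12 * ((Bs N).L / (Bs N).s : ℝ) ≤ 12 * ((Bs N).L / (Bs N).s) * (Bs N).L :=
        le_mul_of_one_le_right (by positivity) hL
      linarith
    have h7 : a * (Bs N).CC ((Bs N).pi k z) ((Bs N).pi n x) ≤ a * ((Bs N).L / (Bs N).s) :=
      mul_le_mul_of_nonneg_left h3 ha0
    have h8 : 0 ≤ a * (Bs N).CC ((Bs N).pi k z) ((Bs N).pi n x) := mul_nonneg ha0 h2
    have h9 : 0 ≤ a * ((Bs N).L / (Bs N).s : ℝ) := by positivity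
    rw [abs_le] at h1 ⊢
    constructor
    · linarith [h1.1]
    · linarith [h1.2]

/-- The trace: the value at `pi x ∈ X_0` is at least `|A(x)| L/s - 6L/s`. -/
theorem ext_g_trace (N n : ℕ) (hn : 0 < n) (x : ((Bs N).S n).X) :
    (((Bs N).A n x).card : ℝ) * ((Bs N).L / (Bs N).s) - 6 * (Bs N).L / (Bs N).s
      ≤ ext Bs N (phig (Bs N) n hn x) (pt Bs N 0 ((Bs N).pi n x)) := by
  have h1 := phig_est (Bs N) n hn x 0 ((Bs N).pi n x)
  rw [(Bs N).pi_zero, (Bs N).CC_self, abs_le] at h1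
  have h2 : ext Bs N (phig (Bs N) n hn x) (pt Bs N 0 ((Bs N).pi n x)) =
      phig (Bs N) n hn x 0 ((Bs N).pi n x) := ext_same Bs N _ 0 _
  rw [h2]
  linarith [h1.1]

end KLF
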