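import Crest.Agent.KLF_StepAux

/-! S0154 task STEP: `G` varies slowly along kept edges. -/

set_option autoImplicit false

namespace KLF

variable (B : Block) {n k : ℕ} (h : k < n)

private theorem Step_R_nil (i : (B.S 0).X) : B.R i i [] :=
  ⟨List.isChain_nil, by simp, rfl⟩

private theorem Step_L_pos : 1 ≤ B.L := by
  have h1 := B.lam_pos
  have h2 : 1 ≤ B.lam ^ 2 := Nat.one_le_pow _ _ h1
  unfold Block.L
  omega

private theorem Step_R_one (c : B.C) (i : (B.S 0).X) : B.R i ((B.S 0).s c i) [c] :=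
  ⟨List.isChain_singleton c, by simpa using Step_L_pos B, rfl⟩

/-- the value at the same type -/
private theorem Step_Gp_nil {x : (B.S n).X} {c : B.C} {z : (B.S k).X} (hz : c ∈ B.A k z)
    (hxz : B.pi k z = B.pi n x) : B.Gp h x c z = B.cc 0 * B.psi n k h x z c := by
  have hw : B.R (B.pi k z) (B.pi n x) [] := hxz ▸ Step_R_nil B _
  rw [B.Gp_eq h hw (by simp)]
  unfold Block.Gw Block.tt
  rw [List.length_nil, B.ramp_zero, if_pos (show (B.S k).Kept (B.A k) z [] from trivial), act_nil,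
    if_pos hz]
  ring

/-- the value at the type moved by `c` -/
private theorem Step_Gp_one {x : (B.S n).X} {c : B.C} {z : (B.S k).X}
    (hxz : B.pi n x = (B.S 0).s c (B.pi k z)) : B.Gp h x c z = 0 := by
  refine B.Gp_eq_zero h fun w hw => ?_
  have h1 : B.R (B.pi k z) (B.pi n x) [c] := hxz ▸ Step_R_one B c _
  rw [B.R_unique hw h1]
  rfl

/-- Crossing: if `pi z = pi x` and `c` is kept at `x` and `z`, then `G(x,c,z) = G(x,c,s c z)`.
`Gp x c z = cc 0 * ψ(x,z;c)` (word `[]`), `Gp (s c x) c z = 0` (the word is `[c]`),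
`Gp x c (s c z) = 0` (the word is `[c]`), `Gp (s c x) c (s c z) = cc 0 * ψ(s c x, s c z; c)`. -/
theorem Block.G_cross {x : (B.S n).X} {c : B.C} {z : (B.S k).X} (hx : c ∈ B.A n x)
    (hz : c ∈ B.A k z) (hxz : B.pi k z = B.pi n x) :
    B.G h x c z = B.G h x c ((B.S k).s c z) := by
  have hz' : c ∈ B.A k ((B.S k).s c z) := (B.A_symm k z c).1 hz
  have e1 : B.Gp h x c z = B.cc 0 * B.psi n k h x z c := Step_Gp_nil B h hz hxz
  have e2 : B.Gp h ((B.S n).s c x) c z = 0 :=
    Step_Gp_one B h (by rw [B.pi_s, hxz])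
  have e3 : B.Gp h x c ((B.S k).s c z) = 0 :=
    Step_Gp_one B h (by rw [B.pi_s, (B.S 0).s_s, hxz])
  have e4 : B.Gp h ((B.S n).s c x) c ((B.S k).s c z) =
      B.cc 0 * B.psi n k h ((B.S n).s c x) ((B.S k).s c z) c :=
    Step_Gp_nil B h hz' (by rw [B.pi_s, B.pi_s, hxz])
  unfold Block.G
  rw [e1, e2, e3, e4, B.psi_anti h hxz.symm hx hz]
  ring

/-- `G(x,c,·)` is `kap`-Lipschitz along kept edges (`c` kept at `x`, `c'` kept at `z`). -/
theorem Block.G_step {x : (B.S n).X} {c c' : B.C} {z : (B.S k).X} (hx : c ∈ B.A n x)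
    (hc' : c' ∈ B.A k z) :
    |B.G h x c z - B.G h x c ((B.S k).s c' z)| ≤ B.kap := by
  have hs := B.s_pos
  have hr := B.r_pos
  have hL : (0 : ℝ) ≤ B.L := Nat.cast_nonneg _
  have hkap : 0 ≤ B.kap := by
    unfold Block.kap
    positivity
  by_cases hcr : c' = c ∧ (B.pi k z = B.pi n x ∨ B.pi k ((B.S k).s c' z) = B.pi n x)
  · obtain ⟨rfl, h1 | h1⟩ := hcr
    · rw [B.G_cross h hx hc' h1, sub_self, abs_zero]
      exact hkap
    · have h2 := B.G_cross h hx ((B.A_symm k z c').1 hc') h1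
      rw [(B.S k).s_s] at h2
      rw [h2, sub_self, abs_zero]
      exact hkap
  · have hcr' : ¬ (c' = c ∧ (B.pi k z = B.pi n ((B.S n).s c x) ∨
        B.pi k ((B.S k).s c' z) = B.pi n ((B.S n).s c x))) := by
      rintro ⟨rfl, h1 | h1⟩
      · exact hcr ⟨rfl, Or.inr (by rw [B.pi_s, h1, B.pi_s, (B.S 0).s_s])⟩
      · refine hcr ⟨rfl, Or.inl ?_⟩
        rw [B.pi_s, B.pi_s] at h1
        have := congrArg ((B.S 0).s c') h1
        rwa [(B.S 0).s_s, (B.S 0).s_s] at this
    have a1 := B.Gp_step h (x := x) (c := c) hc' hcr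
    have a2 := B.Gp_step h (x := (B.S n).s c x) (c := c) hc' hcr'
    have e : B.G h x c z - B.G h x c ((B.S k).s c' z) =
        (B.Gp h x c z - B.Gp h x c ((B.S k).s c' z)) -
          (B.Gp h ((B.S n).s c x) c z - B.Gp h ((B.S n).s c x) c ((B.S k).s c' z)) := by
      unfold Block.G
      ring
    rw [e]
    refine (abs_sub _ _).trans ((add_le_add a1 a2).trans ?_)
    unfold Block.kap
    rw [← add_div]
    refine div_le_div_of_nonneg_right ?_ hs.le
    have h3 : 2 * (B.L : ℝ) / B.r + 2 + (2 * (B.L : ℝ) / B.r + 2) = 4 * (B.L : ℝ) / B.r + 4 := by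
      ring
    rw [h3]
    gcongr
    norm_num

end KLF
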