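import Crest.Agent.KLF_Gp

/-! S0154 task GSECOND -/

set_option autoImplicit false

namespace KLF

variable (B : Block) {n k : ℕ} (h : k < n)

private theorem gsecond_word (x : (B.S n).X) (z : (B.S k).X) (c : B.C)
    (hc : B.Gp h ((B.S n).s c x) c z ≠ 0) :
    ∃ w : List B.C, Red (w ++ [c]) ∧ (w ++ [c]).length ≤ B.L + 1 ∧
      (B.S 0).act (B.pi k z) (w ++ [c]) = B.pi n x := by
  by_contra hcon
  apply hc
  apply B.Gp_eq_zero h
  intro w hw
  by_contra hlast
  apply hcon
  obtain ⟨h1, h2, h3⟩ := hw
  refine ⟨w, ?_, ?_, ?_⟩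
  · unfold Red at h1 ⊢
    rw [List.isChain_append]
    refine ⟨h1, by simp, ?_⟩
    intro p hp q hq hpq
    simp at hq
    subst hq
    apply hlast
    rw [← hpq]
    exact hp
  · simp
    exact h2
  · rw [act_append, h3, act_cons, act_nil, B.pi_s, (B.S 0).s_s]

/-- The second part has at most one nonzero term: if the term of `c` is nonzero then there is a word
`w'` from `pi z` to `pi (s c x)` not ending with `c`, so `w' ++ [c]` is the reduced word (of length
`≤ L+1`) from `pi z` to `pi x`, which determines `c`. -/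
theorem Block.g_second (x : (B.S n).X) (z : (B.S k).X) :
    |∑ c ∈ B.A n x, B.Gp h ((B.S n).s c x) c z| ≤ 2 * (B.L : ℝ) / B.s := by
  classical
  by_cases hall : ∀ c ∈ B.A n x, B.Gp h ((B.S n).s c x) c z = 0
  · rw [Finset.sum_eq_zero hall, abs_zero]
    have := B.s_pos
    positivity
  · push Not at hall
    obtain ⟨c0, hc0, hne⟩ := hall
    rw [Finset.sum_eq_single c0]
    · exact B.Gp_abs h _ _ _
    · intro c _ hcc
      by_contra hne'
      obtain ⟨w, h1, h2, h3⟩ := gsecond_word B h x z c hne'
      obtain ⟨w', h1', h2', h3'⟩ := gsecond_word B h x z c0 hne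
      have hww : w ++ [c] = w' ++ [c0] := by
        refine word_unique (B.S 0) B.free0 h1 h1' ?_ (h3.trans h3'.symm)
        unfold Block.L at h2 h2'
        omega
      apply hcc
      have := congrArg List.getLast? hww
      simpa using this
    · intro hcon
      exact absurd hc0 hcon

end KLF
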