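import Crest.Agent.KLF_gFirst
import Crest.Agent.KLF_gSecond

/-! S0154 : `g_x(z)` is `|A(x)| CC(pi z, pi x)` up to `6L/s`. -/

set_option autoImplicit false

namespace KLF

variable (B : Block) {n k : ℕ} (h : k < n)

theorem Block.g_est (x : (B.S n).X) (z : (B.S k).X) :
    |B.g h x z - (B.A n x).card * B.CC (B.pi k z) (B.pi n x)| ≤ 6 * (B.L : ℝ) / B.s := by
  have h1 := B.g_first h x z
  have h2 := B.g_second h x z
  have e : B.g h x z = ∑ c ∈ B.A n x, B.Gp h x c z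
      - ∑ c ∈ B.A n x, B.Gp h ((B.S n).s c x) c z := by
    unfold Block.g Block.G
    rw [Finset.sum_sub_distrib]
  rw [e]
  rw [abs_le] at h1 h2 ⊢
  have e2 : 6 * (B.L : ℝ) / B.s = 4 * (B.L : ℝ) / B.s + 2 * (B.L : ℝ) / B.s := by ring
  constructor <;> linarith [h1.1, h1.2, h2.1, h2.2]

end KLF
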