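import Crest.Agent.KLF_Metric
import Crest.Agent.KLF_Step
import Crest.Agent.KLF_gEst

/-! S0154 task EXTA: the certificate functions as functions on `Pt Bs`. -/

set_option autoImplicit false

open Crest Crest.AnalysisR

namespace KLF

variable (Bs : ℕ → Block)

/-- Extend a function on the block `N` by `0`. -/
noncomputable def ext (N : ℕ) (φ : ∀ k : ℕ, ((Bs N).S k).X → ℝ) : Pt Bs → ℝ
  | none => 0
  | some ⟨N', k, z⟩ => if hN : N' = N then φ k (cast (by subst hN; rfl) z) else 0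

@[simp] theorem ext_none (N : ℕ) (φ : ∀ k : ℕ, ((Bs N).S k).X → ℝ) : ext Bs N φ none = 0 := rfl

@[simp] theorem ext_same (N : ℕ) (φ : ∀ k : ℕ, ((Bs N).S k).X → ℝ) (k : ℕ) (z : ((Bs N).S k).X) :
    ext Bs N φ (some ⟨N, k, z⟩) = φ k z := by
  simp [ext]

theorem ext_ne {N N' : ℕ} (hN : N' ≠ N) (φ : ∀ k : ℕ, ((Bs N).S k).X → ℝ) (k : ℕ)
    (z : ((Bs N').S k).X) : ext Bs N φ (some ⟨N', k, z⟩) = 0 := by
  simp [ext, hN]

theorem isPhi_ext {N : ℕ} {K : ℝ} (hK : 0 ≤ K) {φ : ∀ k : ℕ, ((Bs N).S k).X → ℝ}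
    (h1 : ∀ k (z : ((Bs N).S k).X) c, c ∈ (Bs N).A k z → |φ k z - φ k (((Bs N).S k).s c z)| ≤ K)
    (h2 : ∀ k (z : ((Bs N).S k).X), |φ k z - φ 0 ((Bs N).pi k z)| ≤ K * (Bs N).r)
    (h3 : ∀ k (z : ((Bs N).S k).X), |φ k z| ≤ K * hub Bs N) :
    IsPhi Bs K (ext Bs N φ) := by
  refine ⟨rfl, ?_, ?_, ?_⟩
  · intro N' k z c hc
    by_cases hN : N' = N
    · subst hN
      rw [ext_same, ext_same]
      exact h1 k z c hc
    · rw [ext_ne Bs hN, ext_ne Bs hN]
      simpa using hK
  · intro N' k z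
    by_cases hN : N' = N
    · subst hN
      rw [ext_same, ext_same]
      exact h2 k z
    · rw [ext_ne Bs hN, ext_ne Bs hN]
      simp only [sub_self, abs_zero]
      positivity
  · intro N' k z
    by_cases hN : N' = N
    · subst hN
      rw [ext_same]
      exact h3 k z
    · rw [ext_ne Bs hN]
      simp only [abs_zero]
      positivity

open Classical in
/-- `G(x,c,·)` on the block: `0` on `X_k`, `k ≥ n`. -/
noncomputable def phiG (B : Block) (n : ℕ) (x : (B.S n).X) (c : B.C) (k : ℕ) (z : (B.S k).X) : ℝ :=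
  if h : k < n then B.G h x c z else 0

open Classical in
/-- `g_x` on the block: `g_x(pi z)` for `z ∈ X_k`, `k ≥ n`. -/
noncomputable def phig (B : Block) (n : ℕ) (hn : 0 < n) (x : (B.S n).X) (k : ℕ) (z : (B.S k).X) : ℝ :=
  if h : k < n then B.g h x z else B.g hn x (B.pi k z)

theorem kap_nonneg (B : Block) : 0 ≤ B.kap := by
  unfold Block.kap
  positivity

theorem exta_phiG_abs (B : Block) (n : ℕ) (x : (B.S n).X) (c : B.C) (k : ℕ) (z : (B.S k).X) :
    |phiG B n x c k z| ≤ 4 * (B.L : ℝ) / B.s := by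
  unfold phiG
  split_ifs with h
  · exact B.G_abs h x c z
  · simp only [abs_zero]
    positivity

theorem exta_kap_r (B : Block) : 8 * (B.L : ℝ) / B.s ≤ B.kap * B.r := by
  have hs : (0 : ℝ) < B.s := by
    have h1 := B.hs
    have h2 := B.lam_pos
    have : 0 < 24 * (40 * B.lam ^ 2) := by positivity
    exact_mod_cast lt_of_lt_of_le this h1
  have hr : (0 : ℝ) < B.r := by
    have h2 := B.lam_pos
    unfold Block.r
    have : 0 < 16 * B.lam := by positivity
    exact_mod_cast this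
  unfold Block.kap
  have e : (8 * (B.L : ℝ) / B.r + 4) / B.s * B.r = 8 * (B.L : ℝ) / B.s + 4 * B.r / B.s := by
    field_simp
  rw [e]
  have : 0 ≤ 4 * (B.r : ℝ) / B.s := by positivity
  linarith

/-- `ext (phiG)` is `kap`-Lipschitz for a kept colour `c` of `x`: `G_step` on edges, `|G| ≤ 4L/s` for
the vertical and the hub edges (`8L/s ≤ kap * r`, `r ≤ hub`). -/
theorem isPhi_G (N n : ℕ) (x : ((Bs N).S n).X) (c : (Bs N).C) (hc : c ∈ (Bs N).A n x) :
    IsPhi Bs (Bs N).kap (ext Bs N (phiG (Bs N) n x c)) := by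
  have hk := kap_nonneg (Bs N)
  have hkr := exta_kap_r (Bs N)
  have hL : 0 ≤ (Bs N).L / ((Bs N).s : ℝ) := by positivity
  have e4 : 4 * ((Bs N).L : ℝ) / (Bs N).s = 4 * ((Bs N).L / ((Bs N).s : ℝ)) := by ring
  have e8 : 8 * ((Bs N).L : ℝ) / (Bs N).s = 8 * ((Bs N).L / ((Bs N).s : ℝ)) := by ring
  refine isPhi_ext Bs hk ?_ ?_ ?_
  · intro k z c' hc'
    unfold phiG
    split_ifs with h
    · exact (Bs N).G_step h hc hc'
    · simpa using hk
  · intro k z
    have h1 := exta_phiG_abs (Bs N) n x c k z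
    have h2 := exta_phiG_abs (Bs N) n x c 0 ((Bs N).pi k z)
    have h3 := abs_sub (phiG (Bs N) n x c k z) (phiG (Bs N) n x c 0 ((Bs N).pi k z))
    rw [e4] at h1 h2
    rw [e8] at hkr
    linarith
  · intro k z
    have h1 := exta_phiG_abs (Bs N) n x c k z
    have h4 : (Bs N).kap * (Bs N).r ≤ (Bs N).kap * (hub Bs N : ℝ) := by
      apply mul_le_mul_of_nonneg_left _ hk
      unfold hub
      have : (Bs N).r ≤ (Bs N).L + (Bs N).r + N + 1 := by omega
      exact_mod_cast this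
    rw [e4] at h1
    rw [e8] at hkr
    linarith

/-- Antisymmetry. -/
theorem ext_G_anti (N n : ℕ) (x : ((Bs N).S n).X) (c : (Bs N).C) (z : Pt Bs) :
    ext Bs N (phiG (Bs N) n (((Bs N).S n).s c x) c) z = - ext Bs N (phiG (Bs N) n x c) z := by
  rcases z with _ | ⟨N', k, y⟩
  · simp
  · by_cases hN : N' = N
    · subst hN
      rw [ext_same, ext_same]
      unfold phiG
      split_ifs with h
      · unfold Block.G
        rw [((Bs N').S n).s_s c x]
        ring
      · simp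
    · rw [ext_ne Bs hN, ext_ne Bs hN]
      simp

/-- `g = ∑ G` away from the levels `≥ n` of the block `N`. -/
theorem ext_g_eq_sum (N n : ℕ) (hn : 0 < n) (x : ((Bs N).S n).X) (z : Pt Bs)
    (hz : ∀ k (y : ((Bs N).S k).X), z = pt Bs N k y → k < n) :
    ext Bs N (phig (Bs N) n hn x) z = ∑ c ∈ (Bs N).A n x, ext Bs N (phiG (Bs N) n x c) z := by
  rcases z with _ | ⟨N', k, y⟩
  · simp
  · by_cases hN : N' = N
    · subst hN
      have hk : k < n := hz k y rfl
      simp only [ext_same]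
      unfold phig phiG
      simp only [hk, dif_pos]
      rfl
    · simp only [ext_ne Bs hN]
      simp

end KLF
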