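import Crest.Agent.KLF_FAB

/-! S0154 task FAC -/

set_option autoImplicit false

open Crest Crest.AnalysisR

namespace KLF

variable (P : PointedMetric)

theorem exists_of_hasBAP (h : HasBAP P.FreeSpace) :
    ∃ lam : ℝ, 0 ≤ lam ∧ ∀ E : Finset P.M, ∃ (f : P.M → P.Mol) (F : Finset P.M),
      (∀ x, (P.coeffs (f x)).support ⊆ F) ∧
      (∀ x y, P.freeNorm (f x - f y) ≤ lam * P.metric.dist x y) ∧
      (∀ e ∈ E, P.freeNorm (f e - delta P e) ≤ 1) := by
  classical
  obtain ⟨lam0, hlam0⟩ := h
  refine ⟨max lam0 0 + 1, by positivity, fun E => ?_⟩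
  obtain ⟨T, hT, hTn, hTK⟩ := hlam0 ((fun e => ((delta P e : P.Mol) : P.FreeSpace)) '' (E : Set P.M))
    ((E.finite_toSet.image _).isCompact) (1 / 2) (by norm_num)
  obtain ⟨f, F, h1, h2, h3⟩ := exists_mol_map P T hT E
  refine ⟨f, F, h1, fun x y => (h2 x y).trans ?_, fun e he => ?_⟩
  · apply mul_le_mul_of_nonneg_right
    · have := le_max_left lam0 0
      linarith
    · letI := P.metric
      exact dist_nonneg (x := x) (y := y)
  · rw [← norm_coe_mol]
    have e1 : ((f e - delta P e : P.Mol) : P.FreeSpace) =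
        ((f e : P.FreeSpace) - T (delta P e : P.Mol)) +
          (T (delta P e : P.Mol) - (delta P e : P.Mol)) := by
      rw [UniformSpace.Completion.coe_sub, sub_add_sub_cancel]
    rw [e1]
    refine (norm_add_le _ _).trans ?_
    have a1 := h3 e he
    have a2 := hTK _ (Set.mem_image_of_mem _ he)
    linarith

end KLF
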