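import Crest.Agent.KLF_Defs

/-! S0154 task FAA: from BAP to finitely supported Lipschitz maps into the molecules. -/

set_option autoImplicit false

open Crest Crest.AnalysisR

namespace KLF

variable (P : PointedMetric)

/-- The molecule `δ_z` of a pointed metric space. -/
noncomputable def delta (z : P.M) : P.Mol := (Finsupp.single z (1 : ℝ) : P.M →₀ ℝ)

/-- `‖δ_x - δ_y‖ ≤ d(x,y)`. -/
theorem freeNorm_delta_sub (x y : P.M) :
    P.freeNorm (delta P x - delta P y) ≤ P.metric.dist x y := by
  letI := P.metric
  unfold PointedMetric.freeNorm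
  refine ciSup_le fun f => ?_
  have h1 : ∀ z : P.M, P.pairing (delta P z) f.1 = f.1 z := by
    intro z
    unfold PointedMetric.pairing PointedMetric.coeffs delta
    rw [Finsupp.sum_single_index (by simp)]
    simp
  rw [sub_eq_add_neg, P.pairing_add, P.pairing_neg, h1, h1, ← sub_eq_add_neg]
  have h := f.2.1.dist_le_mul x y
  rw [Real.dist_eq, NNReal.coe_one, one_mul] at h
  exact h

/-- The norm in the completion. -/
theorem norm_coe_mol (a : P.Mol) : ‖(a : P.FreeSpace)‖ = P.freeNorm a := by
  exact UniformSpace.Completion.norm_coe a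

end KLF
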