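import Crest.Agent.KLF_FAA

/-! S0154 task FAB -/

set_option autoImplicit false

open Crest Crest.AnalysisR

namespace KLF

variable (P : PointedMetric)

private theorem fab_coeffs_sum {ι : Type} (s : Finset ι) (a : ι → ℝ) (m : ι → P.Mol) :
    P.coeffs (∑ i ∈ s, a i • m i) = ∑ i ∈ s, a i • P.coeffs (m i) := by
  classical
  induction s using Finset.induction_on with
  | empty => simp [P.coeffs_zero]
  | insert i s hi ih =>
    rw [Finset.sum_insert hi, Finset.sum_insert hi, P.coeffs_add, P.coeffs_smul, ih]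

private theorem fab_coe_sum {ι : Type} (s : Finset ι) (a : ι → ℝ) (m : ι → P.Mol) :
    ((∑ i ∈ s, a i • m i : P.Mol) : P.FreeSpace) = ∑ i ∈ s, a i • (m i : P.FreeSpace) := by
  have h := map_sum (UniformSpace.Completion.toComplL : P.Mol →L[ℝ] P.FreeSpace)
    (fun i => a i • m i) s
  simp only [map_smul] at h
  exact h

/-- A finite-rank operator can be perturbed to have range in the molecules: write
`T v = ∑ i, c i v • b i` with a basis `b i` of the range and bounded functionals `c i` (finite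
dimension), and replace `b i` by molecules `m i` with `‖m i - b i‖ ≤ η` for small `η`; put
`f x = ∑ i, c i (δ_x) • m i`. -/
theorem exists_mol_map (T : P.FreeSpace →L[ℝ] P.FreeSpace)
    (hT : FiniteDimensional ℝ (LinearMap.range T.toLinearMap)) (E : Finset P.M) :
    ∃ (f : P.M → P.Mol) (F : Finset P.M), (∀ x, (P.coeffs (f x)).support ⊆ F) ∧
      (∀ x y, P.freeNorm (f x - f y) ≤ (‖T‖ + 1) * P.metric.dist x y) ∧
      (∀ e ∈ E, ‖((f e : P.Mol) : P.FreeSpace) - T (delta P e : P.Mol)‖ ≤ 1 / 2) := by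
  classical
  set V : Submodule ℝ P.FreeSpace := LinearMap.range T.toLinearMap with hV
  have : FiniteDimensional ℝ V := hT
  let n := Module.finrank ℝ V
  let b : Module.Basis (Fin n) ℝ V := Module.finBasis ℝ V
  let T' : P.FreeSpace →L[ℝ] V := T.codRestrict V (fun v => LinearMap.mem_range_self T.toLinearMap v)
  let c : Fin n → (P.FreeSpace →L[ℝ] ℝ) := fun i =>
    (LinearMap.toContinuousLinearMap (b.coord i)).comp T'
  have hTc : ∀ v, T v = ∑ i, c i v • (b i : P.FreeSpace) := by
    intro v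
    have h1 : (T' v : P.FreeSpace) = T v := rfl
    have h2 : T' v = ∑ i, c i v • b i := (b.sum_repr (T' v)).symm
    rw [← h1]
    conv_lhs => rw [h2]
    rw [Submodule.coe_sum]
    rfl
  set K : ℝ := ∑ i, ‖c i‖ with hK
  have hK0 : 0 ≤ K := Finset.sum_nonneg fun i _ => norm_nonneg _
  set D : ℝ := ∑ e ∈ E, ‖((delta P e : P.Mol) : P.FreeSpace)‖ with hD
  have hD0 : 0 ≤ D := Finset.sum_nonneg fun i _ => norm_nonneg _
  set η : ℝ := 1 / (2 * ((K + 1) * (D + 1))) with hη
  have hη0 : 0 < η := by positivity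
  have hm : ∀ i, ∃ m : P.Mol, ‖(m : P.FreeSpace) - (b i : P.FreeSpace)‖ < η := by
    intro i
    obtain ⟨m, hm⟩ := (UniformSpace.Completion.denseRange_coe (α := P.Mol)).exists_dist_lt
      (b i : P.FreeSpace) hη0
    refine ⟨m, ?_⟩
    rw [← dist_eq_norm, dist_comm]
    exact hm
  choose m hm using hm
  -- the key estimate
  have hkey : ∀ v : P.FreeSpace, ‖(∑ i, c i v • (m i : P.FreeSpace)) - T v‖ ≤ K * η * ‖v‖ := by
    intro v
    rw [hTc v, ← Finset.sum_sub_distrib]
    refine (norm_sum_le _ _).trans ?_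
    rw [hK, Finset.sum_mul, Finset.sum_mul]
    refine Finset.sum_le_sum fun i _ => ?_
    rw [← smul_sub, norm_smul]
    calc ‖c i v‖ * ‖(m i : P.FreeSpace) - (b i : P.FreeSpace)‖
        ≤ (‖c i‖ * ‖v‖) * η :=
          mul_le_mul ((c i).le_opNorm v) (hm i).le (norm_nonneg _) (by positivity)
      _ = ‖c i‖ * η * ‖v‖ := by ring
  have hKη : K * η ≤ 1 := by
    rw [hη, mul_one_div, div_le_one (by positivity)]
    nlinarith [mul_nonneg hK0 hD0]
  have hKηD : K * η * D ≤ 1 / 2 := by
    rw [hη, mul_one_div, div_mul_eq_mul_div, div_le_div_iff₀ (by positivity) (by norm_num)]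
    nlinarith [mul_nonneg hK0 hD0]
  refine ⟨fun x => ∑ i, c i (delta P x : P.Mol) • m i,
    Finset.univ.biUnion fun i => (P.coeffs (m i)).support, ?_, ?_, ?_⟩
  · intro x
    rw [fab_coeffs_sum]
    refine Finsupp.support_finsetSum.trans ?_
    exact Finset.biUnion_mono fun i _ => Finsupp.support_smul
  · intro x y
    rw [← norm_coe_mol]
    set v : P.FreeSpace := ((delta P x - delta P y : P.Mol) : P.FreeSpace) with hv
    have hvn : ‖v‖ ≤ P.metric.dist x y := by
      rw [hv, norm_coe_mol]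
      exact freeNorm_delta_sub P x y
    have h1 : (((∑ i, c i (delta P x : P.Mol) • m i) - ∑ i, c i (delta P y : P.Mol) • m i : P.Mol)
        : P.FreeSpace) = ∑ i, c i v • (m i : P.FreeSpace) := by
      rw [UniformSpace.Completion.coe_sub, fab_coe_sum, fab_coe_sum, ← Finset.sum_sub_distrib]
      refine Finset.sum_congr rfl fun i _ => ?_
      rw [← sub_smul, hv, UniformSpace.Completion.coe_sub, map_sub]
    rw [h1]
    have h2 : ‖∑ i, c i v • (m i : P.FreeSpace)‖ ≤ (‖T‖ + 1) * ‖v‖ := by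
      calc ‖∑ i, c i v • (m i : P.FreeSpace)‖
          = ‖((∑ i, c i v • (m i : P.FreeSpace)) - T v) + T v‖ := by rw [sub_add_cancel]
        _ ≤ ‖(∑ i, c i v • (m i : P.FreeSpace)) - T v‖ + ‖T v‖ := norm_add_le _ _
        _ ≤ K * η * ‖v‖ + ‖T‖ * ‖v‖ := add_le_add (hkey v) (T.le_opNorm v)
        _ ≤ 1 * ‖v‖ + ‖T‖ * ‖v‖ := by gcongr
        _ = (‖T‖ + 1) * ‖v‖ := by ring
    exact h2.trans (mul_le_mul_of_nonneg_left hvn (by positivity))
  · intro e he
    rw [fab_coe_sum]
    refine (hkey _).trans (le_trans ?_ hKηD)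
    refine mul_le_mul_of_nonneg_left ?_ (by positivity)
    exact Finset.single_le_sum (f := fun e => ‖((delta P e : P.Mol) : P.FreeSpace)‖)
      (fun i _ => norm_nonneg _) he

end KLF
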