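import Crest.Agent.KLF_Words

/-! S0154 task FLOWA: the flows `ψ, χ` from the path property. -/

set_option autoImplicit false

namespace KLF

section
variable {C : Type} [Fintype C] [DecidableEq C] (S S' : CSet C) (Rel : S.X → S'.X → Prop)
  (A : S.X → Finset C) (A' : S'.X → Finset C) (Mt : S.X → S'.X → Prop)

/-- `W`-pairs: related pairs which are odd (`par x = false`) or matched. -/
def WP (p : S.X × S'.X) : Prop := Rel p.1 p.2 ∧ (S.par p.1 = true → Mt p.1 p.2)

/-- `W`-edge at `p` of colour `c`. -/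
def WE (p : S.X × S'.X) (c : C) : Prop :=
  WP S S' Rel Mt p ∧ WP S S' Rel Mt (S.s c p.1, S'.s c p.2) ∧ c ∈ A p.1 ∧ c ∈ A' p.2

/-- `W`-path: every step is a `W`-edge. -/
def WPath : S.X × S'.X → List C → Prop
  | _, [] => True
  | p, c :: w => WE S S' Rel A A' Mt p c ∧ WPath (S.s c p.1, S'.s c p.2) w

theorem WPath_eqs_forced : True := by
  have := @WPath.eq_def
  trivial

/-- All points of a `W`-path are `W`-pairs. -/
theorem WPath.wp_of_prefix {p : S.X × S'.X} {w : List C} (h : WPath S S' Rel A A' Mt p w)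
    (hp : WP S S' Rel Mt p) {v : List C} (hv : v <+: w) :
    WP S S' Rel Mt (S.act p.1 v, S'.act p.2 v) := by
  induction w generalizing p v with
  | nil =>
    have hv' : v = [] := List.prefix_nil.mp hv
    subst hv'
    exact hp
  | cons c w ih =>
    cases v with
    | nil => exact hp
    | cons d v =>
      rw [List.cons_prefix_cons] at hv
      obtain ⟨rfl, hv⟩ := hv
      exact ih h.2 h.1.2.1 hv

/-- Under the path property, reduced `W`-paths have length `< m`. -/
theorem WPath.length_lt (m : ℕ) 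
    (hP : ∀ x y (w : List C), Red w → w.length = m → ∃ v, v <+: w ∧
      S.par (S.act x v) = true ∧ ¬ Mt (S.act x v) (S'.act y v))
    {p : S.X × S'.X} {w : List C} (h : WPath S S' Rel A A' Mt p w) (hp : WP S S' Rel Mt p)
    (hw : Red w) : w.length < m := by
  by_contra hlt
  have hm : m ≤ w.length := not_lt.mp hlt
  obtain ⟨v, hv, h1, h2⟩ := hP p.1 p.2 (w.take m) (List.IsChain.take hw m)
    (by rw [List.length_take]; exact Nat.min_eq_left hm)
  have h3 := WPath.wp_of_prefix S S' Rel A A' Mt h hp (hv.trans (List.take_prefix m w))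
  exact h2 (h3.2 h1)

/-- Height of the edge `(p,c)`: the largest length of a reduced `W`-path from `p` with first letter
`c` (`0` if `(p,c)` is not a `W`-edge). -/
noncomputable def ht (p : S.X × S'.X) (c : C) : ℕ :=
  sSup {k | ∃ w, WPath S S' Rel A A' Mt p (c :: w) ∧ Red (c :: w) ∧ k = w.length + 1}

theorem WE.symm (hsymA : ∀ x c, c ∈ A x ↔ c ∈ A (S.s c x))
    (hsymA' : ∀ x c, c ∈ A' x ↔ c ∈ A' (S'.s c x)) {p : S.X × S'.X} {c : C}
    (h : WE S S' Rel A A' Mt p c) : WE S S' Rel A A' Mt (S.s c p.1, S'.s c p.2) c := by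
  refine ⟨h.2.1, ?_, (hsymA _ _).mp h.2.2.1, (hsymA' _ _).mp h.2.2.2⟩
  show WP S S' Rel Mt (S.s c (S.s c p.1), S'.s c (S'.s c p.2))
  rw [S.s_s, S'.s_s]
  exact h.1

theorem ht_spec (m : ℕ)
    (hlen : ∀ p w, WPath S S' Rel A A' Mt p w → WP S S' Rel Mt p → Red w → w.length < m)
    {p : S.X × S'.X} {c : C} (h : WE S S' Rel A A' Mt p c) :
    (∃ w, WPath S S' Rel A A' Mt p (c :: w) ∧ Red (c :: w) ∧
      ht S S' Rel A A' Mt p c = w.length + 1) ∧
    (∀ w, WPath S S' Rel A A' Mt p (c :: w) → Red (c :: w) →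
      w.length + 1 ≤ ht S S' Rel A A' Mt p c) := by
  have hbdd : BddAbove {k | ∃ w, WPath S S' Rel A A' Mt p (c :: w) ∧ Red (c :: w) ∧
      k = w.length + 1} := by
    refine ⟨m, ?_⟩
    rintro k ⟨w, h1, h2, rfl⟩
    have := hlen p (c :: w) h1 h.1 h2
    simp only [List.length_cons] at this
    exact this.le
  constructor
  · have hne : {k | ∃ w, WPath S S' Rel A A' Mt p (c :: w) ∧ Red (c :: w) ∧
      k = w.length + 1}.Nonempty := ⟨1, [], ⟨h, trivial⟩, List.isChain_singleton _, rfl⟩
    exact Nat.sSup_mem hne hbdd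
  · intro w h1 h2
    exact le_csSup hbdd ⟨w, h1, h2, rfl⟩

/-- Parents: for bounded reduced `W`-paths there is `par : pairs → Option C` with: `par p = some c`
implies `(p,c)` is a `W`-edge; for each `W`-edge `(p,c)` exactly one of `par p = some c`,
`par (s c p) = some c` holds. Proof: `par p = c` iff `(p,c)` is a `W`-edge and
(`ht p c > ht (s c p) c` or (`=` and `S.par p.1 = false`)). At most one `c` qualifies for `p`:
`ht (s c p) c ≥ 1 + ht p c'` for two different `W`-edges `c ≠ c'` at `p` (prepend `c`), so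
`ht p c ≥ 1 + ht p c'` and symmetrically, contradiction. -/
theorem exists_parent (m : ℕ) (hsymA : ∀ x c, c ∈ A x ↔ c ∈ A (S.s c x))
    (hsymA' : ∀ x c, c ∈ A' x ↔ c ∈ A' (S'.s c x))
    (hRel : ∀ x y c, Rel x y → Rel (S.s c x) (S'.s c y))
    (hlen : ∀ p w, WPath S S' Rel A A' Mt p w → WP S S' Rel Mt p → Red w → w.length < m) :
    ∃ pa : S.X × S'.X → Option C, (∀ p c, pa p = some c → WE S S' Rel A A' Mt p c) ∧
      (∀ p c, WE S S' Rel A A' Mt p c →
        (pa p = some c ↔ ¬ pa (S.s c p.1, S'.s c p.2) = some c)) := by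
  classical
  let H := ht S S' Rel A A' Mt
  let Q : S.X × S'.X → C → Prop := fun p c => WE S S' Rel A A' Mt p c ∧
    (H (S.s c p.1, S'.s c p.2) c < H p c ∨
      (H p c = H (S.s c p.1, S'.s c p.2) c ∧ S.par p.1 = false))
  have hpre : ∀ p c c', WE S S' Rel A A' Mt p c → WE S S' Rel A A' Mt p c' → c ≠ c' →
      H p c' + 1 ≤ H (S.s c p.1, S'.s c p.2) c := by
    intro p c c' h h' hne
    obtain ⟨⟨w, h1, h2, h3⟩, -⟩ := ht_spec S S' Rel A A' Mt m hlen h'
    have hs := WE.symm S S' Rel A A' Mt hsymA hsymA' h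
    have h4 := (ht_spec S S' Rel A A' Mt m hlen hs).2 (c' :: w) ⟨hs, by
      show WPath S S' Rel A A' Mt (S.s c (S.s c p.1), S'.s c (S'.s c p.2)) (c' :: w)
      rw [S.s_s, S'.s_s]
      exact h1⟩ (List.isChain_cons_cons.mpr ⟨hne, h2⟩)
    simp only [List.length_cons] at h4
    show ht S S' Rel A A' Mt p c' + 1 ≤ _
    rw [h3]
    exact h4
  have huniq : ∀ p c c', Q p c → Q p c' → c = c' := by
    intro p c c' h h'
    by_contra hne
    have h1 := hpre p c c' h.1 h'.1 hne
    have h2 := hpre p c' c h'.1 h.1 (Ne.symm hne)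
    have h3 : H (S.s c p.1, S'.s c p.2) c ≤ H p c := by
      rcases h.2 with h4 | h4
      · exact h4.le
      · exact h4.1.ge
    have h3' : H (S.s c' p.1, S'.s c' p.2) c' ≤ H p c' := by
      rcases h'.2 with h4 | h4
      · exact h4.le
      · exact h4.1.ge
    omega
  let pa : S.X × S'.X → Option C := fun p => if h : ∃ c, Q p c then some h.choose else none
  have hpa : ∀ p c, pa p = some c ↔ Q p c := by
    intro p c
    constructor
    · intro h
      by_cases hex : ∃ c, Q p c
      · simp only [pa, dif_pos hex, Option.some.injEq] at h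
        rw [← h]
        exact hex.choose_spec
      · simp only [pa, dif_neg hex] at h
        exact absurd h (by simp)
    · intro h
      have hex : ∃ c, Q p c := ⟨c, h⟩
      simp only [pa, dif_pos hex, Option.some.injEq]
      exact huniq p _ _ hex.choose_spec h
  refine ⟨pa, fun p c h => ((hpa p c).mp h).1, ?_⟩
  intro p c h
  rw [hpa, hpa]
  have hs := WE.symm S S' Rel A A' Mt hsymA hsymA' h
  have hback : ((S.s c (S.s c p.1), S'.s c (S'.s c p.2)) : S.X × S'.X) = p := by
    rw [S.s_s, S'.s_s]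
  have hpar : S.par (S.s c p.1) = !(S.par p.1) := S.par_s c p.1
  constructor
  · rintro ⟨-, h1⟩ ⟨-, h2⟩
    simp only [hback] at h2
    rcases h1 with h1 | ⟨h1, h1'⟩
    · rcases h2 with h2 | ⟨h2, h2'⟩
      · omega
      · omega
    · rcases h2 with h2 | ⟨h2, h2'⟩
      · omega
      · rw [hpar, h1'] at h2'
        simp at h2'
  · intro h1
    refine ⟨h, ?_⟩
    by_contra h2
    apply h1
    refine ⟨hs, ?_⟩
    simp only [hback]
    push Not at h2
    obtain ⟨h2, h3⟩ := h2
    rcases lt_or_eq_of_le h2 with h4 | h4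
    · exact Or.inl h4
    · right
      refine ⟨h4.symm, ?_⟩
      rw [hpar]
      have := h3 h4
      simpa using this

end

end KLF
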