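import Crest.Agent.KLF_CC

/-! S0154 task GP: basic estimates for the certificate functions `Gp`, `G`. -/

set_option autoImplicit false

namespace KLF

section spec
variable (B : Block) {n k : ℕ} (h : k < n)

theorem Block.psi_anti {x : (B.S n).X} {y : (B.S k).X} {c : B.C} (hxy : B.pi n x = B.pi k y)
    (hx : c ∈ B.A n x) (hy : c ∈ B.A k y) :
    B.psi n k h ((B.S n).s c x) ((B.S k).s c y) c = - B.psi n k h x y c :=
  (B.flow n k h).choose_spec.choose_spec.1 x y c hxy hx hy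

theorem Block.psi_abs (x : (B.S n).X) (y : (B.S k).X) (c : B.C) : |B.psi n k h x y c| ≤ 1 :=
  (B.flow n k h).choose_spec.choose_spec.2.1 x y c

theorem Block.chi_nonneg (x : (B.S n).X) (y : (B.S k).X) (c : B.C) : 0 ≤ B.chi n k h x y c :=
  ((B.flow n k h).choose_spec.choose_spec.2.2.1 x y c).1

theorem Block.chi_le (x : (B.S n).X) (y : (B.S k).X) (c : B.C) : B.chi n k h x y c ≤ 1 :=
  ((B.flow n k h).choose_spec.choose_spec.2.2.1 x y c).2

theorem Block.flow_sum {x : (B.S n).X} {y : (B.S k).X} (hxy : B.pi n x = B.pi k y) :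
    |∑ c ∈ B.A n x ∩ B.A k y, B.psi n k h x y c
      + ∑ c ∈ B.A n x \ B.A k y, (1 + B.chi n k h x y c) - ((B.A n x).card : ℝ)| ≤ 2 :=
  (B.flow n k h).choose_spec.choose_spec.2.2.2 x y hxy

end spec

theorem Block.r_pos (B : Block) : (0 : ℝ) < B.r := by
  have h2 := B.lam_pos
  have : 0 < B.r := by unfold Block.r; omega
  exact_mod_cast this

theorem Block.ramp_nonneg (B : Block) (a : ℕ) : 0 ≤ B.ramp a := le_max_left _ _

theorem Block.ramp_le_one (B : Block) (a : ℕ) : B.ramp a ≤ 1 := by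
  unfold Block.ramp
  have hr := B.r_pos
  have : 0 ≤ (a : ℝ) / B.r := by positivity
  exact max_le zero_le_one (by linarith)

theorem Block.ramp_zero (B : Block) : B.ramp 0 = 1 := by
  unfold Block.ramp
  simp

theorem Block.ramp_step (B : Block) (a : ℕ) : |B.ramp a - B.ramp (a + 1)| ≤ 1 / (B.r : ℝ) := by
  have hr := B.r_pos
  unfold Block.ramp
  have h1 : (1 - (a : ℝ) / B.r) - (1 - ((a + 1 : ℕ) : ℝ) / B.r) = 1 / (B.r : ℝ) := by
    push_cast
    ring
  have h2 : (0 : ℝ) < 1 / (B.r : ℝ) := by positivity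
  rw [abs_le]
  constructor
  · have : max 0 (1 - ((a + 1 : ℕ) : ℝ) / B.r) ≤ max 0 (1 - (a : ℝ) / B.r) :=
      max_le_max le_rfl (by linarith)
    linarith
  · have : max 0 (1 - (a : ℝ) / B.r) ≤ max 0 (1 - ((a + 1 : ℕ) : ℝ) / B.r) + 1 / (B.r : ℝ) := by
      refine max_le ?_ ?_
      · have := le_max_left 0 (1 - ((a + 1 : ℕ) : ℝ) / B.r)
        linarith
      · have := le_max_right 0 (1 - ((a + 1 : ℕ) : ℝ) / B.r)
        linarith
    linarith

section basic
variable (B : Block) {n k : ℕ} (h : k < n)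

theorem Block.tt_mem (x : (B.S n).X) (c : B.C) (z : (B.S k).X) (w : List B.C) :
    -2 ≤ B.tt h x c z w ∧ B.tt h x c z w ≤ 1 := by
  unfold Block.tt
  split_ifs with h1 h2
  · have := abs_le.1 (B.psi_abs h x ((B.S k).act z w) c)
    constructor <;> linarith [this.1, this.2]
  · have h3 := B.chi_nonneg h x ((B.S k).act z w) c
    have h4 := B.chi_le h x ((B.S k).act z w) c
    constructor <;> linarith
  · constructor <;> norm_num

/-- `1 + ramp * t ∈ [-1, 2]`. -/
theorem Block.Gw_abs (x : (B.S n).X) (c : B.C) (z : (B.S k).X) (w : List B.C) :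
    |B.Gw h x c z w| ≤ 2 * (B.L : ℝ) / B.s := by
  unfold Block.Gw
  have h1 := B.tt_mem h x c z w
  have h2 := B.ramp_nonneg w.length
  have h3 := B.ramp_le_one w.length
  have h4 := B.cc_nonneg w.length
  have h5 := B.cc_le w.length
  have h6 : |1 + B.ramp w.length * B.tt h x c z w| ≤ 2 := by
    rw [abs_le]
    constructor <;> nlinarith [h1.1, h1.2]
  rw [abs_mul, abs_of_nonneg h4]
  calc B.cc w.length * |1 + B.ramp w.length * B.tt h x c z w|
      ≤ (B.L : ℝ) / B.s * 2 := mul_le_mul h5 h6 (abs_nonneg _) (h4.trans h5)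
    _ = 2 * (B.L : ℝ) / B.s := by ring

theorem Block.Gp_eq {x : (B.S n).X} {c : B.C} {z : (B.S k).X} {w : List B.C}
    (hw : B.R (B.pi k z) (B.pi n x) w) (hc : w.getLast? ≠ some c) :
    B.Gp h x c z = B.Gw h x c z w := by
  classical
  have hex : ∃ w, B.R (B.pi k z) (B.pi n x) w ∧ w.getLast? ≠ some c := ⟨w, hw, hc⟩
  unfold Block.Gp
  rw [dif_pos hex, B.R_unique hex.choose_spec.1 hw]

theorem Block.Gp_eq_zero {x : (B.S n).X} {c : B.C} {z : (B.S k).X}
    (hw : ∀ w, B.R (B.pi k z) (B.pi n x) w → w.getLast? = some c) :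
    B.Gp h x c z = 0 := by
  classical
  unfold Block.Gp
  rw [dif_neg]
  rintro ⟨w, h1, h2⟩
  exact h2 (hw w h1)

theorem Block.Gp_abs (x : (B.S n).X) (c : B.C) (z : (B.S k).X) :
    |B.Gp h x c z| ≤ 2 * (B.L : ℝ) / B.s := by
  classical
  have hs := B.s_pos
  unfold Block.Gp
  split_ifs with h1
  · exact B.Gw_abs h x c z _
  · rw [abs_zero]; positivity

theorem Block.G_abs (x : (B.S n).X) (c : B.C) (z : (B.S k).X) :
    |B.G h x c z| ≤ 4 * (B.L : ℝ) / B.s := by
  unfold Block.G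
  have h1 := B.Gp_abs h x c z
  have h2 := B.Gp_abs h ((B.S n).s c x) c z
  refine (abs_sub _ _).trans ?_
  have h3 : 2 * (B.L : ℝ) / B.s + 2 * (B.L : ℝ) / B.s = 4 * (B.L : ℝ) / B.s := by ring
  linarith

theorem Block.G_anti (x : (B.S n).X) (c : B.C) (z : (B.S k).X) :
    B.G h ((B.S n).s c x) c z = - B.G h x c z := by
  unfold Block.G
  rw [(B.S n).s_s]
  ring

end basic

end KLF
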