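import Crest.Agent.KLF_GroupB

/-! S0154 task GROUPC -/

set_option autoImplicit false

open Matrix

namespace KLF

private theorem sMat_map {R R' : Type} [CommRing R] [CommRing R'] (f : R →+* R') (a : ℕ) :
    f.mapMatrix (sMat R a) = sMat R' a := by
  have h2 : f 2 = 2 := map_ofNat f 2
  have h4 : f 4 = 4 := map_ofNat f 4
  ext i j
  fin_cases i <;> fin_cases j <;> simp [sMat, h2, h4]

private noncomputable def gRed (q q' : ℕ) (h : q' ∣ q) :
    (Matrix (Fin 2) (Fin 2) (ZMod q))ˣ →* (Matrix (Fin 2) (Fin 2) (ZMod q'))ˣ :=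
  Units.map ((ZMod.castHom h (ZMod q')).mapMatrix : Matrix (Fin 2) (Fin 2) (ZMod q) →+*
    Matrix (Fin 2) (Fin 2) (ZMod q')).toMonoidHom

private theorem gRed_sUnit (q q' : ℕ) (h : q' ∣ q) (a : ℕ) :
    gRed q q' h (sUnit (ZMod q) a) = sUnit (ZMod q') a := by
  refine Units.ext ?_
  exact sMat_map (ZMod.castHom h (ZMod q')) a

private theorem gRed_self (q : ℕ) (h : q ∣ q) (x : (Matrix (Fin 2) (Fin 2) (ZMod q))ˣ) :
    gRed q q h x = x := by
  refine Units.ext ?_
  show ((ZMod.castHom h (ZMod q)).mapMatrix : Matrix (Fin 2) (Fin 2) (ZMod q) →+*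
    Matrix (Fin 2) (Fin 2) (ZMod q)) (x : Matrix (Fin 2) (Fin 2) (ZMod q)) = x
  ext i j
  simp

/-- The tower. -/
theorem exists_tower (C : Type) [Fintype C] [DecidableEq C] [Nonempty C] (m0 : ℕ) :
    ∃ (S : ℕ → CSet C) (pi : ∀ n, (S n).X → (S 0).X),
      (∀ n c x, pi n ((S n).s c x) = (S 0).s c (pi n x)) ∧
      (∀ x, pi 0 x = x) ∧
      (∀ n x, (S 0).par (pi n x) = (S n).par x) ∧
      (∀ n, (S n).FreeUpTo (m0 + n)) ∧
      (∀ n, Nonempty (S n).X) ∧
      (∀ n, Fintype.card (S n).X ≤ 2 * (2 * Fintype.card C) ^ (4 * (m0 + n))) := by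
  have hD : 1 ≤ Fintype.card C := Fintype.card_pos
  have hq : ∀ m, NeZero ((2 * Fintype.card C) ^ m) := fun m => ⟨by positivity⟩
  let ν : C → ℕ := fun c => (Fintype.equivFin C c : ℕ)
  have hν : Function.Injective ν := fun a b h => (Fintype.equivFin C).injective (Fin.ext h)
  have hνD : ∀ c, ν c < Fintype.card C := fun c => (Fintype.equivFin C c).2
  refine ⟨fun n => @gSet C ν ((2 * Fintype.card C) ^ (m0 + n)) (hq _),
    fun n x => (gRed _ ((2 * Fintype.card C) ^ (m0 + 0)) (pow_dvd_pow _ (by omega)) x.1, x.2),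
    ?_, ?_, ?_, ?_, ?_, ?_⟩
  · intro n c x
    refine Prod.ext ?_ rfl
    show gRed _ ((2 * Fintype.card C) ^ (m0 + 0)) _ (x.1 * sUnit _ (ν c)) = _ * sUnit _ (ν c)
    rw [map_mul, gRed_sUnit]
  · intro x
    exact Prod.ext (gRed_self _ _ _) rfl
  · intro n x
    rfl
  · intro n
    have := hq (m0 + n)
    exact gSet_free C (Fintype.card C) hD ν hν hνD (m0 + n)
  · intro n
    exact ⟨(1, true)⟩
  · intro n
    have := hq (m0 + n)
    have h := gSet_card C ν ((2 * Fintype.card C) ^ (m0 + n))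
    rw [← pow_mul, mul_comm (m0 + n) 4] at h
    exact h

end KLF
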