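import Crest.Agent.KLF_Words

/-! S0154 task GROUPA: finite `C`-sets with large girth, `Units (2×2 matrices over ZMod ((2D)^m)) × Bool`. -/

set_option autoImplicit false

open Matrix

namespace KLF

/-- The integer matrix `[[2a, 1-4a²],[1,-2a]]` (an involution of determinant `-1`). -/
def sMat (R : Type) [CommRing R] (a : ℕ) : Matrix (Fin 2) (Fin 2) R :=
  !![2 * (a : R), 1 - 4 * (a : R) ^ 2; 1, -(2 * (a : R))]

theorem sMat_mul_self (R : Type) [CommRing R] (a : ℕ) : sMat R a * sMat R a = 1 := by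
  unfold sMat
  ext i j
  fin_cases i <;> fin_cases j <;> simp [Matrix.mul_apply, Fin.sum_univ_two] <;> ring

/-- as a unit -/
def sUnit (R : Type) [CommRing R] (a : ℕ) : (Matrix (Fin 2) (Fin 2) R)ˣ :=
  ⟨sMat R a, sMat R a, sMat_mul_self R a, sMat_mul_self R a⟩

private theorem gpA_aux (D : ℕ) (hD : 1 ≤ D) (l : List ℕ) : ∀ (a : ℕ),
    (∀ x ∈ l ++ [a], x < D) → (l ++ [a]).IsChain (· ≠ ·) →
    |((l ++ [a]).map (sMat ℤ)).prod 1 1 + 2 * (a : ℤ) * ((l ++ [a]).map (sMat ℤ)).prod 1 0| <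
      |((l ++ [a]).map (sMat ℤ)).prod 1 0| ∧
    |((l ++ [a]).map (sMat ℤ)).prod 1 0| < (2 * D : ℤ) ^ (l ++ [a]).length := by
  induction l using List.reverseRecOn with
  | nil =>
    intro a ha _
    have hD' : (1 : ℤ) ≤ D := by exact_mod_cast hD
    simp [sMat]
    linarith
  | append_singleton l b ih =>
    intro a ha hch
    have hb : b < D := ha b (by simp)
    have ha' : a < D := ha a (by simp)
    rw [List.isChain_append] at hch
    have hab : b ≠ a := by
      refine hch.2.2 b ?_ a ?_ <;> simp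
    obtain ⟨h1, h2⟩ := ih b (fun x hx => ha x (by
      rw [List.mem_append] at hx ⊢
      exact Or.inl (List.mem_append.2 hx))) hch.1
    set M := ((l ++ [b]).map (sMat ℤ)).prod with hM
    have e : ((l ++ [b] ++ [a]).map (sMat ℤ)).prod = M * sMat ℤ a := by
      rw [List.map_append, List.prod_append, ← hM]
      simp
    have e10 : (M * sMat ℤ a) 1 0 = M 1 0 * (2 * (a : ℤ)) + M 1 1 := by
      rw [Matrix.mul_apply, Fin.sum_univ_two]
      simp [sMat]
    have e11 : (M * sMat ℤ a) 1 1 = M 1 0 * (1 - 4 * (a : ℤ) ^ 2) + M 1 1 * (-(2 * (a : ℤ))) := by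
      rw [Matrix.mul_apply, Fin.sum_univ_two]
      simp [sMat]
    rw [e, e10, e11]
    have hlen : (2 * D : ℤ) ^ (l ++ [b] ++ [a]).length =
        (2 * D : ℤ) ^ (l ++ [b]).length * (2 * D) := by
      rw [← pow_succ]
      simp
    rw [hlen]
    generalize M 1 0 = t at h1 h2
    generalize M 1 1 = u at h1
    have er : t * (1 - 4 * (a : ℤ) ^ 2) + u * (-(2 * (a : ℤ))) + 2 * (a : ℤ) * (t * (2 * (a : ℤ)) + u)
        = t := by ring
    rw [er]
    obtain ⟨r, hr⟩ : ∃ r : ℤ, r = u + 2 * (b : ℤ) * t := ⟨_, rfl⟩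
    rw [← hr] at h1
    have et : t * (2 * (a : ℤ)) + u = r + 2 * (((a : ℤ) - b) * t) := by rw [hr]; ring
    rw [et]
    have habs : |((a : ℤ) - b) * t| = |(a : ℤ) - b| * |t| := abs_mul _ _
    have hd1 : 1 ≤ |(a : ℤ) - b| := by
      refine Int.one_le_abs ?_
      intro h
      exact hab (by omega)
    have hd2 : |(a : ℤ) - b| ≤ D - 1 := by
      rw [abs_le]
      constructor <;> omega
    have ht0 : 0 ≤ |t| := abs_nonneg t
    have hlow : |t| ≤ |((a : ℤ) - b) * t| := by
      rw [habs]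
      nlinarith
    have hup : |((a : ℤ) - b) * t| ≤ (D - 1) * |t| := by
      rw [habs]
      exact mul_le_mul_of_nonneg_right hd2 ht0
    generalize ((a : ℤ) - b) * t = q at hlow hup
    have hr0 : 0 ≤ |r| := abs_nonneg r
    constructor
    · have h3 : |2 * q| ≤ |r + 2 * q| + |r| := by
        have : 2 * q = (r + 2 * q) - r := by ring
        calc |2 * q| = |(r + 2 * q) - r| := by rw [← this]
          _ ≤ |r + 2 * q| + |r| := abs_sub _ _
      have h4 : |2 * q| = 2 * |q| := by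
        rw [abs_mul]
        norm_num
      linarith
    · have h3 : |r + 2 * q| ≤ |r| + |2 * q| := abs_add_le _ _
      have h4 : |2 * q| = 2 * |q| := by
        rw [abs_mul]
        norm_num
      have hDpos : (0 : ℤ) < 2 * D := by
        have : (1 : ℤ) ≤ D := by exact_mod_cast hD
        linarith
      have h5 : |t| * (2 * D) < (2 * D : ℤ) ^ (l ++ [b]).length * (2 * D) :=
        mul_lt_mul_of_pos_right h2 hDpos
      nlinarith

/-- Key estimate over `ℤ`: for a nonempty list `l` of naturals `< D` with consecutive entries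
different, the bottom left entry `t` of the product `sMat l₁ * … * sMat l_k` satisfies
`0 < |t| < (2D)^k`. Proof: if the bottom row of the product of the first `k` matrices is
`(t_k, r_k - 2 l_k t_k)` with `(r_k,t_k)` auxiliary integers, then
`(r_{k+1}, t_{k+1}) = (t_k, r_k + 2(l_{k+1}-l_k) t_k)`, `(r_1,t_1) = (0,1)`, and
`|t_{k+1}| ≥ 2|t_k| - |r_k| > |t_k|` as `|r_k| < |t_k|`, `|t_{k+1}| ≤ (2D-2)|t_k| + |r_k| < 2D |t_k|`. -/
theorem bottom_left (D : ℕ) (hD : 1 ≤ D) (l : List ℕ) (hl : l ≠ []) (hlD : ∀ a ∈ l, a < D)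
    (hch : l.IsChain (· ≠ ·)) :
    ((l.map (sMat ℤ)).prod 1 0 ≠ 0) ∧ |(l.map (sMat ℤ)).prod 1 0| < (2 * D : ℤ) ^ l.length := by
  rcases List.eq_nil_or_concat l with h | ⟨v, a, h⟩
  · exact absurd h hl
  · rw [List.concat_eq_append] at h
    subst h
    obtain ⟨h1, h2⟩ := gpA_aux D hD v a hlD hch
    refine ⟨?_, h2⟩
    intro h0
    rw [h0, abs_zero] at h1
    exact absurd h1 (not_lt.2 (abs_nonneg _))

end KLF
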