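import Crest.Agent.KLF_GroupA

/-! S0154 task GROUPB -/

set_option autoImplicit false

open Matrix

namespace KLF

private theorem gb_sUnit_mul (R : Type) [CommRing R] (a : ℕ) : sUnit R a * sUnit R a = 1 :=
  Units.ext (sMat_mul_self R a)

/-- The `C`-set `Units (M_2(ZMod ((2D)^m))) × Bool`; `ν` numbers the colours by naturals `< D`. -/
def gSet (C : Type) (ν : C → ℕ) (q : ℕ) [NeZero q] : CSet C where
  X := (Matrix (Fin 2) (Fin 2) (ZMod q))ˣ × Bool
  fin := inferInstance
  dec := inferInstance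
  s := fun c x => (x.1 * sUnit (ZMod q) (ν c), !x.2)
  s_s := by
    intro c x
    show (x.1 * sUnit (ZMod q) (ν c) * sUnit (ZMod q) (ν c), !(!x.2)) = x
    rw [mul_assoc, gb_sUnit_mul, mul_one, Bool.not_not]
  par := fun x => x.2
  par_s := by
    intro c x
    rfl

private theorem gb_act (C : Type) (ν : C → ℕ) (q : ℕ) [NeZero q] (w : List C) :
    ∀ x : (gSet C ν q).X, ((gSet C ν q).act x w).1 =
      x.1 * (w.map fun c => sUnit (ZMod q) (ν c)).prod := by
  induction w with
  | nil => intro x; simp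
  | cons c w ih =>
    intro x
    rw [act_cons, ih, List.map_cons, List.prod_cons, ← mul_assoc]
    rfl

private theorem gb_val (C : Type) (ν : C → ℕ) (q : ℕ) (w : List C) :
    (((w.map fun c => sUnit (ZMod q) (ν c)).prod : (Matrix (Fin 2) (Fin 2) (ZMod q))ˣ) :
      Matrix (Fin 2) (Fin 2) (ZMod q)) = ((w.map ν).map (sMat (ZMod q))).prod := by
  induction w with
  | nil => simp
  | cons c w ih =>
    simp only [List.map_cons, List.prod_cons, Units.val_mul, ih]
    rfl

private theorem gb_cast (q : ℕ) (l : List ℕ) :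
    ((l.map (sMat ℤ)).prod).map (Int.castRingHom (ZMod q)) = (l.map (sMat (ZMod q))).prod := by
  induction l with
  | nil => simp
  | cons a l ih =>
    simp only [List.map_cons, List.prod_cons, Matrix.map_mul, ih]
    congr 1
    ext i j
    fin_cases i <;> fin_cases j <;> simp [sMat]

/-- Freeness: a fixed point of a reduced word of length `k ≤ m` gives `∏ sUnit = 1` in
`M_2(ZMod ((2D)^m))`, so the integer bottom left entry is divisible by `(2D)^m`, contradicting
`bottom_left`. -/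
theorem gSet_free (C : Type) (D : ℕ) (hD : 1 ≤ D) (ν : C → ℕ) (hν : Function.Injective ν)
    (hνD : ∀ c, ν c < D) (m : ℕ) [NeZero ((2 * D) ^ m)] :
    (gSet C ν ((2 * D) ^ m)).FreeUpTo m := by
  intro x w hw hlen hred hfix
  have h1 := gb_act C ν ((2 * D) ^ m) w x
  rw [hfix] at h1
  have h2 : (w.map fun c => sUnit (ZMod ((2 * D) ^ m)) (ν c)).prod = 1 :=
    (mul_eq_left.mp h1.symm)
  have h3 : ((w.map ν).map (sMat (ZMod ((2 * D) ^ m)))).prod = 1 := by
    rw [← gb_val, h2]
    rfl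
  rw [← gb_cast] at h3
  have h4 : (((w.map ν).map (sMat ℤ)).prod 1 0 : ℤ) = ((0 : ℤ) : ZMod ((2 * D) ^ m)) := by
    have := congrFun (congrFun h3 1) 0
    simpa using this
  have hne : w.map ν ≠ [] := by simpa using hw
  have hch : (w.map ν).IsChain (· ≠ ·) := by
    rw [List.isChain_map]
    exact List.IsChain.imp (fun a b hab h => hab (hν h)) hred
  obtain ⟨h5, h6⟩ := bottom_left D hD (w.map ν) hne
    (by
      intro a ha
      obtain ⟨c, _, rfl⟩ := List.mem_map.mp ha
      exact hνD c) hch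
  have h7 : (((2 * D) ^ m : ℕ) : ℤ) ∣ ((w.map ν).map (sMat ℤ)).prod 1 0 := by
    rw [← ZMod.intCast_zmod_eq_zero_iff_dvd]
    simpa using h4
  have h8 := Int.le_of_dvd (abs_pos.mpr h5) ((dvd_abs _ _).mpr h7)
  have h9 : (2 * D : ℤ) ^ (w.map ν).length ≤ (2 * D : ℤ) ^ m := by
    rw [List.length_map]
    apply pow_le_pow_right₀ _ hlen
    have : (1 : ℤ) ≤ D := by exact_mod_cast hD
    linarith
  push_cast at h8
  linarith

/-- `|X| ≤ 2 ((2D)^m)^4`. -/
theorem gSet_card (C : Type) (ν : C → ℕ) (q : ℕ) [NeZero q] :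
    Fintype.card (gSet C ν q).X ≤ 2 * q ^ 4 := by
  show Fintype.card ((Matrix (Fin 2) (Fin 2) (ZMod q))ˣ × Bool) ≤ 2 * q ^ 4
  rw [Fintype.card_prod, Fintype.card_bool, mul_comm]
  refine Nat.mul_le_mul_left 2 ?_
  refine (Fintype.card_le_of_injective (fun u : (Matrix (Fin 2) (Fin 2) (ZMod q))ˣ =>
    (u : Matrix (Fin 2) (Fin 2) (ZMod q))) (fun a b h => Units.ext h)).trans (le_of_eq ?_)
  show Fintype.card (Fin 2 → Fin 2 → ZMod q) = q ^ 4
  simp [ZMod.card]
  ring

end KLF
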