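import Crest.Agent.KLF_MetricB

/-! S0154 task METRICC -/

set_option autoImplicit false

open Crest Crest.AnalysisR

namespace KLF

variable (Bs : ℕ → Block)

/-- The `1`-Lipschitz functions vanishing at the base are exactly the functions in `IsPhi 1`. -/
theorem isPhi_iff (f : Pt Bs → ℝ) :
    IsPhi Bs 1 f ↔ ((letI := ptMetric Bs; LipschitzWith 1 f) ∧ f none = 0) := by
  letI := ptMetric Bs
  constructor
  · intro h
    refine ⟨LipschitzWith.of_dist_le_mul fun x y => ?_, h.1⟩
    rw [NNReal.coe_one, one_mul, Real.dist_eq]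
    exact le_ptDist Bs h x y
  · rintro ⟨h, h0⟩
    have hd : ∀ x y : Pt Bs, |f x - f y| ≤ ptDist Bs x y := by
      intro x y
      have := h.dist_le_mul x y
      rw [NNReal.coe_one, one_mul, Real.dist_eq] at this
      exact this
    refine ⟨h0, ?_, ?_, ?_⟩
    · intro N n x c hc
      exact (hd _ _).trans (dist_edge Bs x hc)
    · intro N n x
      rw [one_mul]
      exact (hd _ _).trans (dist_vert Bs x)
    · intro N n x
      have := (hd (pt Bs N n x) none).trans (dist_hub Bs x)
      rw [h0, sub_zero] at this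
      rw [one_mul]
      exact this

/-- Pairing with an edge-`K`-Lipschitz function. -/
theorem pairing_le {K : ℝ} (hK : 0 ≤ K) {f : Pt Bs → ℝ} (hf : IsPhi Bs K f) (a : (PM Bs).Mol) :
    |(PM Bs).pairing a f| ≤ K * (PM Bs).freeNorm a := by
  obtain ⟨h0, h1, h2, h3⟩ := hf
  rcases hK.eq_or_lt with rfl | hK
  · have hz : f = fun _ => 0 := by
      funext z
      rcases z with _ | ⟨N, n, x⟩
      · exact h0
      · have := h3 N n x
        rw [zero_mul] at this
        exact abs_nonpos_iff.1 this
    rw [hz]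
    simp [PointedMetric.pairing, Finsupp.sum]
  · have hg : IsPhi Bs 1 (fun z => K⁻¹ * f z) := by
      refine ⟨by simp [h0], ?_, ?_, ?_⟩
      · intro N n x c hc
        have := h1 N n x c hc
        rw [← mul_sub, abs_mul, abs_of_pos (inv_pos.2 hK)]
        calc K⁻¹ * _ ≤ K⁻¹ * K := mul_le_mul_of_nonneg_left this (inv_pos.2 hK).le
          _ = 1 := inv_mul_cancel₀ hK.ne'
      · intro N n x
        have := h2 N n x
        rw [← mul_sub, abs_mul, abs_of_pos (inv_pos.2 hK)]
        calc K⁻¹ * _ ≤ K⁻¹ * (K * (Bs N).r) := mul_le_mul_of_nonneg_left this (inv_pos.2 hK).le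
          _ = 1 * (Bs N).r := by rw [← mul_assoc, inv_mul_cancel₀ hK.ne']
      · intro N n x
        have := h3 N n x
        rw [abs_mul, abs_of_pos (inv_pos.2 hK)]
        calc K⁻¹ * _ ≤ K⁻¹ * (K * hub Bs N) := mul_le_mul_of_nonneg_left this (inv_pos.2 hK).le
          _ = 1 * hub Bs N := by rw [← mul_assoc, inv_mul_cancel₀ hK.ne']
    have hg' := (isPhi_iff Bs _).1 hg
    let g : (PM Bs).Lip1 := ⟨fun z => K⁻¹ * f z, hg'⟩
    have hle : |(PM Bs).pairing a g.1| ≤ (PM Bs).freeNorm a :=
      le_ciSup ((PM Bs).freeNorm_bddAbove a) g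
    have he : (PM Bs).pairing a f = K * (PM Bs).pairing a g.1 := by
      simp only [PointedMetric.pairing, Finsupp.sum, g, Finset.mul_sum]
      refine Finset.sum_congr rfl fun x _ => ?_
      field_simp
    rw [he, abs_mul, abs_of_pos hK]
    exact mul_le_mul_of_nonneg_left hle hK.le

end KLF
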