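import Crest.Agent.KLF_Defs

/-! S0154 task METRICA: the metric space `Pt Bs` (distance = sup over the edge-`1`-Lipschitz functions)
and its basic properties. -/

set_option autoImplicit false

open Crest Crest.AnalysisR

namespace KLF

variable (Bs : ℕ → Block)

theorem hub_pos (N : ℕ) : 1 ≤ hub Bs N := by
  unfold hub
  omega

/-- height of a point -/
private def MetricA_H (z : Pt Bs) : ℝ :=
  match z with
  | none => 0
  | some p => hub Bs p.1

private theorem MetricA_le {f : Pt Bs → ℝ} (hf : IsPhi Bs 1 f) (z : Pt Bs) :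
    |f z| ≤ MetricA_H Bs z := by
  rcases z with _ | ⟨N, n, x⟩
  · rw [hf.1, abs_zero]
    exact le_rfl
  · have := hf.2.2.2 N n x
    rw [one_mul] at this
    exact this

private theorem MetricA_zero : IsPhi Bs 1 (fun _ => 0) := by
  refine ⟨rfl, fun N n x c _ => by simp, fun N n x => by simp, fun N n x => ?_⟩
  rw [abs_zero, one_mul]
  exact Nat.cast_nonneg _

private instance MetricA_nonempty : Nonempty {f : Pt Bs → ℝ // IsPhi Bs 1 f} :=
  ⟨⟨_, MetricA_zero Bs⟩⟩

/-- The family defining `ptDist` is bounded above (by the sum of the two hub heights). -/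
theorem ptDist_bdd (z z' : Pt Bs) :
    BddAbove (Set.range fun f : {f : Pt Bs → ℝ // IsPhi Bs 1 f} => |f.1 z - f.1 z'|) := by
  refine ⟨MetricA_H Bs z + MetricA_H Bs z', ?_⟩
  rintro _ ⟨f, rfl⟩
  exact (abs_sub _ _).trans (add_le_add (MetricA_le Bs f.2 z) (MetricA_le Bs f.2 z'))

theorem le_ptDist {f : Pt Bs → ℝ} (hf : IsPhi Bs 1 f) (z z' : Pt Bs) :
    |f z - f z'| ≤ ptDist Bs z z' :=
  le_ciSup (ptDist_bdd Bs z z') ⟨f, hf⟩

theorem ptDist_self (z : Pt Bs) : ptDist Bs z z = 0 := by
  unfold ptDist
  simp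
theorem ptDist_comm (z z' : Pt Bs) : ptDist Bs z z' = ptDist Bs z' z := by
  unfold ptDist
  simp only [abs_sub_comm]
theorem ptDist_triangle (x y z : Pt Bs) : ptDist Bs x z ≤ ptDist Bs x y + ptDist Bs y z := by
  refine ciSup_le fun f => ?_
  exact (abs_sub_le (f.1 x) (f.1 y) (f.1 z)).trans
    (add_le_add (le_ptDist Bs f.2 x y) (le_ptDist Bs f.2 y z))

open Classical in
private theorem MetricA_ind {a : Pt Bs} (ha : a ≠ none) :
    IsPhi Bs 1 (fun y => if y = a then (1 : ℝ) else 0) := by
  have hd : ∀ y z : Pt Bs, |(if y = a then (1 : ℝ) else 0) - (if z = a then (1 : ℝ) else 0)| ≤ 1 := by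
    intro y z
    split_ifs <;> simp
  refine ⟨if_neg (Ne.symm ha), fun N n x c _ => hd _ _, fun N n x => ?_, fun N n x => ?_⟩
  · refine (hd _ _).trans ?_
    have h1 := (Bs N).lam_pos
    have h2 : 1 ≤ (Bs N).r := by unfold Block.r; omega
    rw [one_mul]
    exact_mod_cast h2
  · have h1 : (1 : ℝ) ≤ hub Bs N := by exact_mod_cast hub_pos Bs N
    rw [one_mul]
    refine le_trans ?_ h1
    simp only
    split_ifs <;> simp

/-- Distinct points are at distance `≥ 1`: use the indicator function of whichever of the two points is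
not the base point (all edge weights are `≥ 1`, as `(Bs N).r = 16 lam ≥ 1` and `hub ≥ 1`; note that
`s c x ≠ x` is not needed). -/
theorem one_le_ptDist {z z' : Pt Bs} (h : z ≠ z') : 1 ≤ ptDist Bs z z' := by
  classical
  by_cases hz : z = none
  · have hz' : z' ≠ none := fun h' => h (hz.trans h'.symm)
    have := le_ptDist Bs (MetricA_ind Bs hz') z z'
    simpa [h] using this
  · have := le_ptDist Bs (MetricA_ind Bs hz) z z'
    simpa [Ne.symm h] using this

/-- The metric space structure. -/
@[reducible] noncomputable def ptMetric : MetricSpace (Pt Bs) where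
  dist := ptDist Bs
  dist_self := ptDist_self Bs
  dist_comm := ptDist_comm Bs
  dist_triangle := ptDist_triangle Bs
  eq_of_dist_eq_zero := by
    intro x y h
    by_contra hne
    have := one_le_ptDist Bs hne
    change ptDist Bs x y = 0 at h
    linarith

/-- The pointed metric space. -/
@[reducible] noncomputable def PM : PointedMetric := ⟨Pt Bs, ptMetric Bs, none⟩

theorem dist_PM (z z' : Pt Bs) : (ptMetric Bs).dist z z' = ptDist Bs z z' := rfl

theorem PM_dist (z z' : Pt Bs) : (PM Bs).metric.dist z z' = ptDist Bs z z' := rfl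

end KLF
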