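import Crest.Agent.KLF_MetricA

/-! S0154 task METRICB -/

set_option autoImplicit false

open Crest Crest.AnalysisR

namespace KLF

variable (Bs : ℕ → Block)

/-- Kept edges have length `≤ 1`. -/
theorem dist_edge {N n : ℕ} (x : ((Bs N).S n).X) {c : (Bs N).C} (hc : c ∈ (Bs N).A n x) :
    ptDist Bs (pt Bs N n x) (pt Bs N n (((Bs N).S n).s c x)) ≤ 1 := by
  refine Real.iSup_le (fun f => ?_) (by norm_num)
  exact f.2.2.1 N n x c hc

theorem dist_vert {N n : ℕ} (x : ((Bs N).S n).X) :
    ptDist Bs (pt Bs N n x) (pt Bs N 0 ((Bs N).pi n x)) ≤ (Bs N).r := by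
  refine Real.iSup_le (fun f => ?_) (by positivity)
  have h := f.2.2.2.1 N n x
  rwa [one_mul] at h

theorem dist_hub {N n : ℕ} (x : ((Bs N).S n).X) :
    ptDist Bs (pt Bs N n x) none ≤ hub Bs N := by
  refine Real.iSup_le (fun f => ?_) (by positivity)
  have h := f.2.2.2.2 N n x
  rw [f.2.1, sub_zero]
  rwa [one_mul] at h

open Classical in
/-- The function equal to `hub N` on the block `N` and `0` elsewhere. -/
noncomputable def metricbFun (N : ℕ) : Pt Bs → ℝ
  | none => 0
  | some p => if p.1 = N then (hub Bs N : ℝ) else 0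

theorem metricb_isPhi (N : ℕ) : IsPhi Bs 1 (metricbFun Bs N) := by
  refine ⟨rfl, ?_, ?_, ?_⟩
  · intro N' n x c _
    simp [metricbFun]
  · intro N' n x
    have : (0 : ℝ) ≤ 1 * ((Bs N').r : ℝ) := by positivity
    simp [metricbFun]
  · intro N' n x
    by_cases h : N' = N
    · subst h
      simp [metricbFun]
    · have : (0 : ℝ) ≤ 1 * (hub Bs N' : ℝ) := by positivity
      simp [metricbFun, h]

/-- From a point of block `N` to the base or to a point of another block the distance is
`≥ hub N`: use the function equal to `hub N` on the block `N` and `0` elsewhere. -/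
theorem hub_le_dist_base {N n : ℕ} (x : ((Bs N).S n).X) :
    (hub Bs N : ℝ) ≤ ptDist Bs (pt Bs N n x) none := by
  have h := le_ptDist Bs (metricb_isPhi Bs N) (pt Bs N n x) none
  have e : metricbFun Bs N (pt Bs N n x) - metricbFun Bs N none = (hub Bs N : ℝ) := by
    simp [metricbFun]
  rw [e] at h
  exact (le_abs_self _).trans h

theorem hub_le_dist {N n N' n' : ℕ} (x : ((Bs N).S n).X) (x' : ((Bs N').S n').X) (hN : N ≠ N') :
    (hub Bs N : ℝ) ≤ ptDist Bs (pt Bs N n x) (pt Bs N' n' x') := by
  have h := le_ptDist Bs (metricb_isPhi Bs N) (pt Bs N n x) (pt Bs N' n' x')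
  have e : metricbFun Bs N (pt Bs N n x) - metricbFun Bs N (pt Bs N' n' x') = (hub Bs N : ℝ) := by
    simp [metricbFun, hN.symm]
  rw [e] at h
  exact (le_abs_self _).trans h

end KLF
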