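import Crest.Agent.KLF_Metric

/-! S0154 task PROP: countable, separated, unbounded, not proper. -/

set_option autoImplicit false

open Crest Crest.AnalysisR

namespace KLF

/-- Unbounded: `hub N → ∞` (`hub_le_dist_base`). Not proper: the closed ball of radius `hub 0` around
the base contains the infinitely many points of block `0` (all `X_n` are nonempty), which are at
mutual distance `≥ 1`. -/
theorem PM_prop (Bs : ℕ → Block) : (PM Bs).IsCountableSeparatedUnboundedNonproper := by
  let _ : MetricSpace (Pt Bs) := ptMetric Bs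
  have hsep : ∀ x y : Pt Bs, x ≠ y → 1 ≤ dist x y := fun x y h => one_le_ptDist Bs h
  have hcount : Countable (Pt Bs) := by
    have h1 : ∀ N n, Countable ((Bs N).S n).X := fun N n => Finite.to_countable
    have h2 : ∀ N, Countable (Σ n : ℕ, ((Bs N).S n).X) := fun N => inferInstance
    infer_instance
  have hne : ∀ N n, Nonempty ((Bs N).S n).X := fun N n => (Bs N).nonempty n
  refine ⟨hcount, hsep, ?_, ?_⟩
  · intro hb
    obtain ⟨C, hC⟩ := Metric.isBounded_iff.mp hb
    obtain ⟨N, hN⟩ := exists_nat_gt C
    obtain ⟨x⟩ := hne N 0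
    have h1 : dist (pt Bs N 0 x : Pt Bs) none ≤ C := hC (Set.mem_univ _) (Set.mem_univ _)
    have h2 : (hub Bs N : ℝ) ≤ dist (pt Bs N 0 x : Pt Bs) none := hub_le_dist_base Bs x
    have h3 : (N : ℝ) ≤ (hub Bs N : ℝ) := by
      have : N ≤ hub Bs N := by unfold hub; omega
      exact_mod_cast this
    linarith
  · intro hp
    have hcomp : IsCompact (Metric.closedBall (none : Pt Bs) (hub Bs 0 : ℝ)) :=
      hp.isCompact_closedBall _ _
    have hdisc : DiscreteTopology (Pt Bs) :=
      DiscreteTopology.of_forall_le_dist zero_lt_one (fun x y h => hsep x y h)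
    have hfin : (Metric.closedBall (none : Pt Bs) (hub Bs 0 : ℝ)).Finite :=
      hcomp.finite_of_discrete
    have hinf : (Set.range fun n : ℕ => (pt Bs 0 n (hne 0 n).some : Pt Bs)).Infinite := by
      refine Set.infinite_range_of_injective fun a b hab => ?_
      simp only [pt, Option.some.injEq, Sigma.mk.injEq] at hab
      have h2 := eq_of_heq hab.2
      exact congrArg Sigma.fst h2
    refine hinf (hfin.subset ?_)
    rintro _ ⟨n, rfl⟩
    rw [Metric.mem_closedBall]
    exact dist_hub Bs _

end KLF
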