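import Crest.Agent.KLF_Gp

/-! S0154 task STEPAUX: `Gp` varies slowly along kept edges. -/

set_option autoImplicit false

namespace KLF

variable (B : Block) {n k : ℕ} (h : k < n)

private theorem stepaux_num (t : ℝ) (ht : -2 ≤ t ∧ t ≤ 1) (a : ℕ) :
    |B.cc a * (1 + B.ramp a * t) - B.cc (a + 1) * (1 + B.ramp (a + 1) * t)| ≤
      (2 * (B.L : ℝ) / B.r + 2) / B.s := by
  have hs := B.s_pos
  have hr := B.r_pos
  have h1 := B.cc_step a
  have h2 := B.ramp_step a
  have h3 := B.cc_nonneg (a + 1)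
  have h4 := B.cc_le (a + 1)
  have h5 := B.ramp_nonneg a
  have h6 := B.ramp_le_one a
  have h7 : |1 + B.ramp a * t| ≤ 2 := by
    rw [abs_le]
    constructor <;> nlinarith [ht.1, ht.2]
  have h8 : |t| ≤ 2 := by
    rw [abs_le]
    constructor <;> linarith [ht.1, ht.2]
  have e : B.cc a * (1 + B.ramp a * t) - B.cc (a + 1) * (1 + B.ramp (a + 1) * t) =
      (B.cc a - B.cc (a + 1)) * (1 + B.ramp a * t) +
        B.cc (a + 1) * ((B.ramp a - B.ramp (a + 1)) * t) := by ring
  rw [e]
  refine (abs_add_le _ _).trans ?_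
  rw [abs_mul, abs_mul, abs_mul, abs_of_nonneg h3]
  have h9 : |B.cc a - B.cc (a + 1)| * |1 + B.ramp a * t| ≤ 1 / (B.s : ℝ) * 2 :=
    mul_le_mul h1 h7 (abs_nonneg _) (by positivity)
  have h10 : B.cc (a + 1) * (|B.ramp a - B.ramp (a + 1)| * |t|) ≤
      (B.L : ℝ) / B.s * (1 / (B.r : ℝ) * 2) := by
    refine mul_le_mul h4 ?_ (by positivity) (h3.trans h4)
    exact mul_le_mul h2 h8 (abs_nonneg _) (by positivity)
  refine (add_le_add h9 h10).trans (le_of_eq ?_)
  field_simp
  ring

private theorem stepaux_tt {x : (B.S n).X} {c c' : B.C} {z : (B.S k).X} (hc' : c' ∈ B.A k z)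
    (w : List B.C) :
    B.tt h x c z (c' :: w) = B.tt h x c ((B.S k).s c' z) w := by
  have e1 : (B.S k).Kept (B.A k) z (c' :: w) ↔ (B.S k).Kept (B.A k) ((B.S k).s c' z) w := by
    rw [kept_cons]
    exact ⟨fun h => h.2, fun h => ⟨hc', h⟩⟩
  unfold Block.tt
  rw [act_cons]
  by_cases hk : (B.S k).Kept (B.A k) ((B.S k).s c' z) w
  · rw [if_pos hk, if_pos (e1.2 hk)]
  · rw [if_neg hk, if_neg (fun h' => hk (e1.1 h'))]

private theorem stepaux_Gw {x : (B.S n).X} {c c' : B.C} {z : (B.S k).X} (hc' : c' ∈ B.A k z)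
    (w : List B.C) :
    |B.Gw h x c z (c' :: w) - B.Gw h x c ((B.S k).s c' z) w| ≤
      (2 * (B.L : ℝ) / B.r + 2) / B.s := by
  unfold Block.Gw
  rw [stepaux_tt B h hc' w, List.length_cons, abs_sub_comm]
  exact stepaux_num B _ (B.tt_mem h x c _ w) w.length

/-- Key case. Suppose `w` is the word for `z` (not ending with `c`) and we make the kept step `c'`.
If `w = c' :: w₁` then `w₁` is the word for `s c' z`; else `c' :: w` is (if `|w| < L`; if `|w| = L`
then `cc = 0` for `z` and `Gp = 0` for `s c' z`, since a word of length `≤ L` for `s c' z` not ending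
with `c` would contradict uniqueness (`word_unique` with `2L+1 ≤ 2L+3`)). In both cases the
keptness, the end point `y` and hence `tt` do not change; `cc` changes by `≤ 1/s`, `ramp` by `≤ 1/r`.
The hypothesis `hcr` (no crossing) is needed when `w = []` (then the new word is `[c']`) or when
`w = [c']`. -/
theorem Block.Gp_step_aux {x : (B.S n).X} {c c' : B.C} {z : (B.S k).X} (hc' : c' ∈ B.A k z)
    (hcr : ¬ (c' = c ∧ (B.pi k z = B.pi n x ∨ B.pi k ((B.S k).s c' z) = B.pi n x)))
    {w : List B.C} (hw : B.R (B.pi k z) (B.pi n x) w) (hl : w.getLast? ≠ some c) :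
    |B.Gp h x c z - B.Gp h x c ((B.S k).s c' z)| ≤ (2 * (B.L : ℝ) / B.r + 2) / B.s := by
  have hs := B.s_pos
  have hr := B.r_pos
  have hL1 : 1 ≤ B.L := by
    have := B.lam_pos
    have h3 : 0 < B.lam ^ 2 := by positivity
    unfold Block.L
    omega
  -- the new word obtained by putting `c'` in front
  have hback : B.tt h x c z w = B.tt h x c ((B.S k).s c' z) (c' :: w) := by
    have h1 : c' ∈ B.A k ((B.S k).s c' z) := (B.A_symm k z c').1 hc'
    rw [stepaux_tt B h h1 w, (B.S k).s_s]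
  have hGw : |B.Gw h x c z w - B.Gw h x c ((B.S k).s c' z) (c' :: w)| ≤
      (2 * (B.L : ℝ) / B.r + 2) / B.s := by
    unfold Block.Gw
    rw [← hback, List.length_cons]
    exact stepaux_num B _ (B.tt_mem h x c _ w) w.length
  have hact : (B.S 0).act (B.pi k ((B.S k).s c' z)) (c' :: w) = B.pi n x := by
    rw [act_cons, B.pi_s, (B.S 0).s_s]
    exact hw.2.2
  obtain ⟨hred, hlen, hend⟩ := hw
  -- if the new word is `c' :: w`
  have hfront : Red (c' :: w) → (c' :: w).getLast? ≠ some c →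
      |B.Gp h x c z - B.Gp h x c ((B.S k).s c' z)| ≤ (2 * (B.L : ℝ) / B.r + 2) / B.s := by
    intro hred' hl'
    rcases Nat.lt_or_ge w.length B.L with hlt | hge
    · have hR : B.R (B.pi k ((B.S k).s c' z)) (B.pi n x) (c' :: w) :=
        ⟨hred', by rw [List.length_cons]; omega, hact⟩
      rw [B.Gp_eq h ⟨hred, hlen, hend⟩ hl, B.Gp_eq h hR hl']
      exact hGw
    · have h0 : B.Gp h x c z = 0 := by
        rw [B.Gp_eq h ⟨hred, hlen, hend⟩ hl]
        unfold Block.Gw
        rw [B.cc_eq_zero hge, zero_mul]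
      have h1 : B.Gp h x c ((B.S k).s c' z) = 0 := by
        refine B.Gp_eq_zero h ?_
        intro w' hw'
        exfalso
        obtain ⟨hr1, hr2, hr3⟩ := hw'
        have := word_unique (B.S 0) B.free0 hr1 hred' (by
          rw [List.length_cons]
          have e : B.L = 40 * B.lam ^ 2 := rfl
          omega) (hr3.trans hact.symm)
        rw [this, List.length_cons] at hr2
        omega
      rw [h0, h1, sub_zero, abs_zero]
      positivity
  rcases w with _ | ⟨d, w₁⟩
  · refine hfront (List.isChain_singleton _) ?_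
    have hz : B.pi k z = B.pi n x := hend
    have hne : c' ≠ c := fun hc => hcr ⟨hc, Or.inl hz⟩
    simpa using hne
  · by_cases hd : d = c'
    · subst hd
      have hR : B.R (B.pi k ((B.S k).s d z)) (B.pi n x) w₁ := by
        refine ⟨List.IsChain.tail hred, ?_, ?_⟩
        · rw [List.length_cons] at hlen
          omega
        · rw [B.pi_s]
          exact hend
      have hl₁ : w₁.getLast? ≠ some c := by
        rcases w₁ with _ | ⟨d', w₂⟩
        · simp
        · rwa [List.getLast?_cons_cons] at hl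
      rw [B.Gp_eq h ⟨hred, hlen, hend⟩ hl, B.Gp_eq h hR hl₁]
      exact stepaux_Gw B h hc' w₁
    · refine hfront ?_ ?_
      · exact List.isChain_cons_cons.2 ⟨fun hcd => hd hcd.symm, hred⟩
      · rwa [List.getLast?_cons_cons]

theorem Block.Gp_step {x : (B.S n).X} {c c' : B.C} {z : (B.S k).X} (hc' : c' ∈ B.A k z)
    (hcr : ¬ (c' = c ∧ (B.pi k z = B.pi n x ∨ B.pi k ((B.S k).s c' z) = B.pi n x))) :
    |B.Gp h x c z - B.Gp h x c ((B.S k).s c' z)| ≤ (2 * (B.L : ℝ) / B.r + 2) / B.s := by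
  have hs := B.s_pos
  have hr := B.r_pos
  by_cases h1 : ∃ w, B.R (B.pi k z) (B.pi n x) w ∧ w.getLast? ≠ some c
  · obtain ⟨w, hw, hl⟩ := h1
    exact B.Gp_step_aux h hc' hcr hw hl
  · by_cases h2 : ∃ w, B.R (B.pi k ((B.S k).s c' z)) (B.pi n x) w ∧ w.getLast? ≠ some c
    · obtain ⟨w, hw, hl⟩ := h2
      have hc'' : c' ∈ B.A k ((B.S k).s c' z) := (B.A_symm k z c').1 hc'
      have hcr' : ¬ (c' = c ∧ (B.pi k ((B.S k).s c' z) = B.pi n x ∨
          B.pi k ((B.S k).s c' ((B.S k).s c' z)) = B.pi n x)) := by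
        rw [(B.S k).s_s]
        intro hh
        exact hcr ⟨hh.1, hh.2.symm⟩
      have h3 := B.Gp_step_aux h hc'' hcr' hw hl
      rw [(B.S k).s_s, abs_sub_comm] at h3
      exact h3
    · push Not at h1 h2
      rw [B.Gp_eq_zero h h1, B.Gp_eq_zero h h2, sub_zero, abs_zero]
      positivity

end KLF
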