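import Crest.Agent.KLF_Words

/-! S0154 task UNIONA: existence of the colourings `β_n` by a union bound. -/

set_option autoImplicit false

namespace KLF

/-- The number of maps `X → Γ` with prescribed values on a finset `T` is `|Γ|^(|X|-|T|)`. -/
theorem card_agree {X Γ : Type} [Fintype X] [DecidableEq X] [Fintype Γ] [DecidableEq Γ]
    (T : Finset X) (v : X → Γ) :
    (Finset.univ.filter fun β : X → Γ => ∀ x ∈ T, β x = v x).card * Fintype.card Γ ^ T.card =
      Fintype.card Γ ^ Fintype.card X := by
  classical
  have h1 : (Finset.univ.filter fun β : X → Γ => ∀ x ∈ T, β x = v x) =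
      Fintype.piFinset (fun x => if x ∈ T then ({v x} : Finset Γ) else Finset.univ) := by
    ext β
    simp only [Finset.mem_filter, Finset.mem_univ, true_and, Fintype.mem_piFinset]
    constructor
    · intro h x
      by_cases hx : x ∈ T
      · simp [hx, h x hx]
      · simp [hx]
    · intro h x hx
      have := h x
      simpa [hx] using this
  rw [h1, Fintype.card_piFinset]
  have h2 : ∏ x : X, (if x ∈ T then ({v x} : Finset Γ) else Finset.univ).card =
      ∏ x : X, (if x ∈ T then 1 else Fintype.card Γ) := by
    apply Finset.prod_congr rfl
    intro x _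
    by_cases hx : x ∈ T
    · simp [hx]
    · simp [hx]
  rw [h2, Finset.prod_ite, Finset.prod_const_one, one_mul, Finset.prod_const, ← pow_add]
  congr 1
  have h3 : (Finset.univ.filter fun x : X => x ∉ T) = Tᶜ := by
    ext x; simp
  rw [h3, Finset.card_compl]
  have := Finset.card_le_univ T
  omega

/-- Points along a reduced word of length at most the freeness are distinct. -/
private theorem unionA_inj {C : Type} (S : CSet C) (m : ℕ) (hS : S.FreeUpTo m) (x : S.X)
    (w : List C) (hw : Red w) (hl : w.length = m) (i j : ℕ) (hij : i < j) (hj : j ≤ m) :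
    S.act x (w.take i) ≠ S.act x (w.take j) := by
  intro h
  have h1 : w.take j = w.take i ++ (w.take j).drop i := by
    have := List.take_append_drop i (w.take j)
    rw [List.take_take, min_eq_left hij.le] at this
    exact this.symm
  rw [h1, act_append] at h
  refine hS (S.act x (w.take i)) ((w.take j).drop i) ?_ ?_ ?_ h.symm
  · intro h2
    have := congrArg List.length h2
    simp at this
    omega
  · simp
    omega
  · unfold Red at hw ⊢
    exact (hw.take j).drop i

private theorem unionA_par {C : Type} (S : CSet C) (x : S.X) (w : List C) :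
    S.par (S.act x w) = xor (S.par x) (decide (w.length % 2 = 1)) := by
  induction w generalizing x with
  | nil => simp
  | cons c w ih =>
    rw [act_cons, ih, S.par_s, List.length_cons]
    rcases Nat.mod_two_eq_zero_or_one w.length with h | h
    · have h' : (w.length + 1) % 2 = 1 := by omega
      rw [h, h']; cases S.par x <;> rfl
    · have h' : (w.length + 1) % 2 = 0 := by omega
      rw [h, h']; cases S.par x <;> rfl

/-- Along a reduced word of length `m ≤` freeness the even points are at least `(m+1)/2` distinct
points. -/
theorem card_even_points {C : Type} (S : CSet C) (m : ℕ) (hS : S.FreeUpTo m) (x : S.X) (w : List C)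
    (hw : Red w) (hl : w.length = m) :
    (m + 1) / 2 ≤ (((Finset.range (m + 1)).image fun t => S.act x (w.take t)).filter
      fun x' => S.par x' = true).card := by
  classical
  obtain ⟨e, he1, he⟩ : ∃ e : ℕ, e ≤ 1 ∧ ∀ k, xor (S.par x) (decide ((2 * k + e) % 2 = 1)) = true := by
    cases hpx : S.par x
    · refine ⟨1, le_refl _, fun k => ?_⟩
      have : (2 * k + 1) % 2 = 1 := by omega
      rw [this]; rfl
    · refine ⟨0, by omega, fun k => ?_⟩
      have : (2 * k + 0) % 2 = 0 := by omega
      rw [this]; rfl
  have h := Finset.card_le_card_of_injOn (s := Finset.range ((m + 1) / 2))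
    (t := (((Finset.range (m + 1)).image fun t => S.act x (w.take t)).filter
      fun x' => S.par x' = true)) (fun k => S.act x (w.take (2 * k + e))) ?_ ?_
  · simpa using h
  · intro k hk
    have hk' : k < (m + 1) / 2 := by simpa using hk
    have hk2 : 2 * k + e ≤ m := by omega
    simp only [Finset.coe_filter, Set.mem_setOf_eq, Finset.mem_image, Finset.mem_range]
    refine ⟨⟨2 * k + e, by omega, rfl⟩, ?_⟩
    rw [unionA_par, List.length_take, hl, min_eq_left hk2]
    exact he k
  · intro k hk k' hk' hkk
    have hk1 : k < (m + 1) / 2 := by simpa using hk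
    have hk1' : k' < (m + 1) / 2 := by simpa using hk'
    by_contra hne
    rcases lt_or_gt_of_ne hne with hlt | hlt
    · exact unionA_inj S m hS x w hw hl (2 * k + e) (2 * k' + e) (by omega) (by omega) hkk
    · exact unionA_inj S m hS x w hw hl (2 * k' + e) (2 * k + e) (by omega) (by omega) hkk.symm

end KLF
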