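import Crest.Agent.KLF_Defs

/-! S0154 task W: words acting on `C`-sets. -/

set_option autoImplicit false

namespace KLF

variable {C : Type}

@[simp] theorem act_nil (S : CSet C) (x : S.X) : S.act x [] = x := rfl
@[simp] theorem act_cons (S : CSet C) (x : S.X) (c : C) (w : List C) :
    S.act x (c :: w) = S.act (S.s c x) w := rfl

theorem act_append (S : CSet C) (x : S.X) (v w : List C) :
    S.act x (v ++ w) = S.act (S.act x v) w := by
  unfold CSet.act
  rw [List.foldl_append]

/-- Going back. -/
theorem act_reverse (S : CSet C) (x : S.X) (w : List C) :
    S.act (S.act x w) w.reverse = x := by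
  induction w generalizing x with
  | nil => rfl
  | cons c w ih =>
    rw [List.reverse_cons, act_append, act_cons S x, ih]
    simp only [act_cons, act_nil, S.s_s]

/-- The action by a word is injective. -/
theorem act_injective (S : CSet C) (w : List C) : Function.Injective (fun x => S.act x w) := by
  intro x y h
  have h2 : S.act (S.act x w) w.reverse = S.act (S.act y w) w.reverse :=
    congrArg (fun z => S.act z w.reverse) h
  rwa [act_reverse, act_reverse] at h2

theorem Red.reverse {w : List C} (h : Red w) : Red w.reverse := by
  unfold Red at h ⊢
  rw [List.isChain_reverse]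
  exact h.imp fun a b hab => hab.symm

/-- Uniqueness of short reduced words between two points: strip the common last letters; if the last
letters differ, `w ++ w'.reverse` is a nonempty reduced word with a fixed point. -/
theorem word_unique (S : CSet C) {g : ℕ} (hS : S.FreeUpTo g) {x : S.X} {w w' : List C}
    (hw : Red w) (hw' : Red w') (hl : w.length + w'.length ≤ g)
    (h : S.act x w = S.act x w') : w = w' := by
  classical
  induction w using List.reverseRecOn generalizing w' with
  | nil =>
    by_contra hne
    refine hS x w' (Ne.symm hne) ?_ hw' h.symm
    simp at hl
    exact hl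
  | append_singleton v a ih =>
    rcases List.eq_nil_or_concat w' with rfl | ⟨v', b, rfl⟩
    · exfalso
      refine hS x (v ++ [a]) (by simp) ?_ hw h
      simpa using hl
    · rw [List.concat_eq_append] at *
      by_cases hab : a = b
      · subst hab
        have hv : Red v := (List.isChain_append.mp hw).1
        have hv' : Red v' := (List.isChain_append.mp hw').1
        rw [act_append, act_append] at h
        have h1 := act_injective S [a] h
        have : v = v' := ih hv hv' (by simp at hl; omega) h1
        rw [this]
      · exfalso
        refine hS x ((v ++ [a]) ++ (v' ++ [b]).reverse) (by simp) ?_ ?_ ?_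
        · simp at hl ⊢
          omega
        · unfold Red
          rw [List.isChain_append]
          refine ⟨hw, Red.reverse hw', ?_⟩
          intro p hp q hq
          simp at hp hq
          subst hp; subst hq
          exact hab
        · rw [act_append, h, act_reverse]

/-- Equivariance for words. -/
theorem Block.pi_act (B : Block) (n : ℕ) (x : (B.S n).X) (w : List B.C) :
    B.pi n ((B.S n).act x w) = (B.S 0).act (B.pi n x) w := by
  induction w generalizing x with
  | nil => rfl
  | cons c w ih => rw [act_cons, act_cons, ih, B.pi_s]

theorem Block.R_unique (B : Block) {k i : (B.S 0).X} {w w' : List B.C}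
    (h : B.R k i w) (h' : B.R k i w') : w = w' := by
  obtain ⟨h1, h2, h3⟩ := h
  obtain ⟨h1', h2', h3'⟩ := h'
  refine word_unique (B.S 0) B.free0 h1 h1' ?_ (h3.trans h3'.symm)
  unfold Block.L at h2 h2'
  omega

/-- Symmetric form of `A_symm` on kept paths: going one kept step does not change keptness. -/
theorem kept_cons (S : CSet C) (A : S.X → Finset C) (z : S.X) (c : C) (w : List C) :
    S.Kept A z (c :: w) ↔ c ∈ A z ∧ S.Kept A (S.s c z) w := Iff.rfl

end KLF
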