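import Crest.Agent.KLF_Gp

/-! S0154 task GFIRST -/

set_option autoImplicit false

namespace KLF

variable (B : Block) {n k : ℕ} (h : k < n)

/-- `∑_{c∈A(x)} tt c` is within `2` of `0`. -/
private theorem Block.tt_sum (x : (B.S n).X) (z : (B.S k).X) (w : List B.C)
    (hxy : B.pi n x = B.pi k ((B.S k).act z w)) :
    |∑ c ∈ B.A n x, B.tt h x c z w| ≤ 2 := by
  classical
  by_cases hk : (B.S k).Kept (B.A k) z w
  · set y := (B.S k).act z w with hy
    have h1 := B.flow_sum h hxy
    have e1 : ∀ c, B.tt h x c z w
        = if c ∈ B.A k y then B.psi n k h x y c - 1 else B.chi n k h x y c := by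
      intro c
      unfold Block.tt
      rw [if_pos hk]
    have e2 : ∑ c ∈ B.A n x, B.tt h x c z w
        = ∑ c ∈ B.A n x ∩ B.A k y, B.psi n k h x y c
          + ∑ c ∈ B.A n x \ B.A k y, (1 + B.chi n k h x y c) - ((B.A n x).card : ℝ) := by
      simp only [e1]
      rw [Finset.sum_ite]
      have e3 : (B.A n x).filter (fun c => c ∈ B.A k y) = B.A n x ∩ B.A k y := by
        ext c; simp
      have e4 : (B.A n x).filter (fun c => ¬ c ∈ B.A k y) = B.A n x \ B.A k y := by
        ext c; simp
      rw [e3, e4, Finset.sum_sub_distrib, Finset.sum_add_distrib]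
      have e5 : ((B.A n x).card : ℝ) = ((B.A n x ∩ B.A k y).card : ℝ) + ((B.A n x \ B.A k y).card : ℝ) := by
        rw [← Finset.card_inter_add_card_sdiff (B.A n x) (B.A k y)]
        push_cast
        ring
      rw [e5]
      simp only [Finset.sum_const, nsmul_eq_mul, mul_one]
      ring
    rw [e2]
    exact h1
  · have e1 : ∀ c, B.tt h x c z w = 0 := by
      intro c
      unfold Block.tt
      rw [if_neg hk]
    simp only [e1, Finset.sum_const_zero, abs_zero]
    norm_num

/-- The first part `∑_{c ∈ A(x)} Gp(x,c,z)`. If `w` is the word from `pi z` to `pi x`, `a = |w|`, then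
the colour `c` contributes `cc a * (1 + ramp a * tt c)` except for `c` = last letter of `w`, which
contributes `0`; and `∑_{c∈A(x)} tt c` is `0` (path not kept) or within `2` of `0` (`flow_sum`). -/
theorem Block.g_first (x : (B.S n).X) (z : (B.S k).X) :
    |∑ c ∈ B.A n x, B.Gp h x c z - (B.A n x).card * B.CC (B.pi k z) (B.pi n x)|
      ≤ 4 * (B.L : ℝ) / B.s := by
  classical
  have hs := B.s_pos
  by_cases hw : ∃ w, B.R (B.pi k z) (B.pi n x) w
  · obtain ⟨w, hw⟩ := hw
    rw [B.CC_eq hw]
    have hxy : B.pi n x = B.pi k ((B.S k).act z w) := by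
      rw [B.pi_act]
      exact hw.2.2.symm
    have e1 : ∀ c, B.Gp h x c z = B.Gw h x c z w - (if w.getLast? = some c then B.Gw h x c z w else 0) := by
      intro c
      by_cases hc : w.getLast? = some c
      · rw [if_pos hc, sub_self]
        exact B.Gp_eq_zero h (fun w' hw' => by rw [B.R_unique hw' hw]; exact hc)
      · rw [if_neg hc, sub_zero]
        exact B.Gp_eq h hw hc
    have e2 : ∑ c ∈ B.A n x, B.Gp h x c z
        = ((B.A n x).card : ℝ) * B.cc w.length
          + B.cc w.length * B.ramp w.length * ∑ c ∈ B.A n x, B.tt h x c z w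
          - ∑ c ∈ B.A n x, (if w.getLast? = some c then B.Gw h x c z w else 0) := by
      simp only [e1]
      rw [Finset.sum_sub_distrib]
      congr 1
      unfold Block.Gw
      rw [Finset.mul_sum]
      simp only [mul_add, mul_one]
      rw [Finset.sum_add_distrib]
      simp only [Finset.sum_const, nsmul_eq_mul, mul_assoc]
    have h3 : |B.cc w.length * B.ramp w.length * ∑ c ∈ B.A n x, B.tt h x c z w|
        ≤ 2 * (B.L : ℝ) / B.s := by
      rw [abs_mul, abs_of_nonneg (mul_nonneg (B.cc_nonneg _) (B.ramp_nonneg _))]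
      have a1 := B.tt_sum h x z w hxy
      have a2 := B.cc_le w.length
      have a3 := B.ramp_le_one w.length
      have a4 := B.cc_nonneg w.length
      have a5 := B.ramp_nonneg w.length
      have a6 : B.cc w.length * B.ramp w.length ≤ (B.L : ℝ) / B.s := by
        calc B.cc w.length * B.ramp w.length ≤ B.cc w.length * 1 := by gcongr
          _ ≤ (B.L : ℝ) / B.s := by rw [mul_one]; exact a2
      calc B.cc w.length * B.ramp w.length * |∑ c ∈ B.A n x, B.tt h x c z w|
          ≤ (B.L : ℝ) / B.s * 2 := by
            have : (0:ℝ) ≤ (B.L : ℝ) / B.s := by positivity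
            gcongr
        _ = 2 * (B.L : ℝ) / B.s := by ring
    have h4 : |∑ c ∈ B.A n x, (if w.getLast? = some c then B.Gw h x c z w else 0)|
        ≤ 2 * (B.L : ℝ) / B.s := by
      rcases hl : w.getLast? with _ | d
      · simp only [reduceCtorEq, if_false, Finset.sum_const_zero, abs_zero]
        positivity
      · simp only [Option.some.injEq]
        rw [Finset.sum_ite_eq]
        split_ifs
        · exact B.Gw_abs h x d z w
        · rw [abs_zero]; positivity
    rw [e2]
    rw [abs_le] at h3 h4 ⊢
    have e3 : 4 * (B.L : ℝ) / B.s = 2 * (B.L : ℝ) / B.s + 2 * (B.L : ℝ) / B.s := by ring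
    constructor <;> linarith [h3.1, h3.2, h4.1, h4.2]
  · push Not at hw
    rw [B.CC_eq_zero hw]
    have e1 : ∀ c, B.Gp h x c z = 0 := fun c => B.Gp_eq_zero h (fun w hw' => absurd hw' (hw w))
    simp only [e1, Finset.sum_const_zero, mul_zero, sub_zero, abs_zero]
    positivity

end KLF
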