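import Crest.Agent.KPG_M7a

/-!
# S0270, part (G)-algebra (author helper47): T4
-/

set_option autoImplicit false
set_option linter.unusedSectionVars false

open scoped symmDiff
open Module

namespace Crest.Agent.KP

variable {K : Type} [Field K] [KF K]

/-- (T4, export) the contradiction step of Lemma R (a).  `Φ = K''`, `K1 = K'`, `R ≤ Φ` with `R + ρ R = Φ`,
`q = qs ρ k0 (l-k0)`, `r0 ∈ Φ \ R`, `Λ ≤ lev l` contains `a (r0 + θ q)` and the projections of `a r e`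
(`r ∈ R`, `e ∈ mid`) on the centralizer of `S ⊆ K1[q]`.  Then
`dim Φ * 2^(l-k0) + dim R + 1 ≤ dim Λ + dim Φ`.
Proof: `Ψ = Φ[q]`, `Λ' = {b c | c ∈ Λ}` (`b = a⁻¹`), `Z = {x ∈ Ψ | tr(c' x) = 0 for c' ∈ Λ'}`. For `x ∈ Z`,
`tr(r e x) = 0` (`kpg_pr_pair`), so `x ∈ Φ ∩ R^⊥` by (F2) (`kpg_QL_F2`, `kpg_adj_qs`), and
`0 = tr((r0 + θ q) x) = tr(r0 x)` (`tr(q x) = 0` for `x ∈ lev k0`). So `Z ≤ Φ ∩ (R + K r0)^⊥`, whose dimension is
`dim Φ - dim R - 1` (trace form nondegenerate on `Φ`). `kpg_pair_dim` gives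
`dim Φ 2^(l-k0) ≤ dim Z + dim Λ`. -/
theorem kpg_lower2 {k0 l : ℕ} (hl : k0 ≤ l) (Φ K1 : Subalgebra K (QA K)) (hΦ1 : Φ ≤ K1)
    (hK1 : K1 ≤ lev K k0) (hc : Comm K1) {ρ : QA K} (hρ : ρ ∈ Φ) (R : Submodule K (QA K))
    (hR : R ≤ Subalgebra.toSubmodule Φ)
    (hRρ : ∀ u ∈ Φ, ∃ r1 ∈ R, ∃ r2 ∈ R, u = r1 + ρ * r2)
    {a : QA K} (ha : a ∈ K1) (ha0 : a ≠ 0) {r0 : QA K} (hr0 : r0 ∈ Φ) (hr0R : r0 ∉ R) (θ : K)
    (S : Set (QA K)) (hS : S ⊆ adj K1 (qs ρ k0 (l - k0)))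
    (Λ : Submodule K (QA K)) (hΛ : Λ ≤ Subalgebra.toSubmodule (lev K l))
    (h1 : ∀ r ∈ R, ∀ e ∈ mid K k0 l, ∃ c ∈ Λ, IsPr l S (a * (r * e)) c)
    (h2 : a * (r0 + θ • qs ρ k0 (l - k0)) ∈ Λ) :
    finrank K Φ * 2 ^ (l - k0) + finrank K R + 1 ≤ finrank K Λ + finrank K Φ := by
  have hΦ : Φ ≤ lev K k0 := hΦ1.trans hK1
  have hcΦ : Comm Φ := fun x hx y hy => hc x (hΦ1 hx) y (hΦ1 hy)
  have hkl : k0 + (l - k0) = l := by omega
  obtain ⟨Z, hZΨ, hdim, hZ1, hZ2⟩ :=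
    kpg_lower_setup hl Φ K1 hΦ1 hK1 hc hρ ha ha0 S hS Λ hΛ
  -- `Z ≤ Φ`
  have hZΦ : Z ≤ Subalgebra.toSubmodule Φ := by
    intro x hx
    refine kpg_QL_F2 Φ hΦ hcΦ hρ R hR hRρ (l - k0) (hZΨ hx) ?_
    intro r hr e he
    rw [hkl] at he
    obtain ⟨c, hcΛ, hpr⟩ := h1 r hr e he
    rw [kpg_tr_comm]
    exact hZ2 x hx _ c hcΛ hpr
  have hZr : ∀ x ∈ Z, ∀ r ∈ R, QA.tr (r * x) = 0 := by
    intro x hx r hr
    obtain ⟨c, hcΛ, hpr⟩ := h1 r hr 1 (one_mem _)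
    have := hZ2 x hx _ c hcΛ hpr
    rwa [mul_one] at this
  have hZr0 : ∀ x ∈ Z, QA.tr (r0 * x) = 0 := by
    intro x hx
    have := hZ1 x hx _ h2
    rw [add_mul, map_add, smul_mul_assoc, map_smul,
      kpg_tr_qs (hΦ hρ) (hΦ (hZΦ hx)), smul_zero, add_zero] at this
    exact this
  have fdΦ : FiniteDimensional K (Subalgebra.toSubmodule Φ) := kpg_fd_of_le (l := k0) hΦ
  have fdR : FiniteDimensional K R := Submodule.finiteDimensional_of_le hR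
  let R' : Submodule K (QA K) := R ⊔ K ∙ r0
  have hR' : R' ≤ Subalgebra.toSubmodule Φ := by
    refine sup_le hR ?_
    rw [Submodule.span_singleton_le_iff_mem]
    exact hr0
  have fdR' : FiniteDimensional K R' := Submodule.finiteDimensional_of_le hR'
  have hlt : R < R' := by
    refine lt_of_le_of_ne le_sup_left fun h => hr0R ?_
    rw [h]
    exact (le_sup_right : K ∙ r0 ≤ R') (Submodule.mem_span_singleton_self r0)
  have hRR' : finrank K R + 1 ≤ finrank K R' := Submodule.finrank_lt_finrank_of_lt hlt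
  have horth := kpg_orth_dim (Subalgebra.toSubmodule Φ) R' Z hR' hZΦ
    (fun x hx hx' => kpg_nondeg Φ hΦ hx hx') (by
      intro r hr z hz
      obtain ⟨r1, hr1, y, hy, rfl⟩ := Submodule.mem_sup.1 hr
      obtain ⟨t, rfl⟩ := Submodule.mem_span_singleton.1 hy
      rw [add_mul, map_add, hZr z hz r1 hr1, smul_mul_assoc, map_smul, hZr0 z hz, smul_zero,
        add_zero])
  have hΦeq : finrank K (Subalgebra.toSubmodule Φ) = finrank K Φ := rfl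
  omega

end Crest.Agent.KP
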