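import Crest.Agent.KPG_M1

/-!
# S0270, part (G)-algebra (author helper47): T6: projections for one quaternion step
-/

set_option autoImplicit false
set_option linter.unusedSectionVars false

open scoped symmDiff
open Module

namespace Crest.Agent.KP

variable {K : Type} [Field K] [KF K]

/-- generic criterion: `u - c = x s - s x` with `s ∈ S`, `c` commutes with `S` ⟹ `c` is the
projection of `u`. -/
theorem kpg_isPr_of_comm {k : ℕ} (S : Set (QA K)) {u c x s : QA K} (hc : c ∈ lev K k)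
    (hcS : ∀ φ ∈ S, c * φ = φ * c) (hs : s ∈ S) (h : u - c = x * s - s * x) : IsPr k S u c := by
  refine ⟨hc, hcS, fun d _ hd => ?_⟩
  have h1 : s * x * d = s * (x * d) := mul_assoc _ _ _
  have h2 : x * s * d = x * (d * s) := by rw [mul_assoc, ← hd s hs]
  rw [h, sub_mul, map_sub, h1, h2, kpa_tr_comm s (x * d), mul_assoc, sub_self]

/-- (T6, export for (C)) `Φ ≤ lev k` commutative, `ρ ∈ Φ`, `A = i_k + ρ j_k = qi ρ k`,
`κ' (α + β ρ²) = 1`, `κ' ∈ Φ`, `r ∈ lev k` commuting with `Φ`.  Projections onto the centralizer of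
`Φ ∪ {A}` in `lev (k+1)`:
`r ↦ r`, `r i ↦ r α A⁻¹`, `r j ↦ r ρ β A⁻¹`, `r ij ↦ 0`  (`A⁻¹ = κ' A`).
Proof: `S1 - α A⁻¹ = [S1 A⁻¹, A]/2`, `S2 - ρ β A⁻¹ = [S2 A⁻¹,A]/2`, `S3 = [S3 A⁻¹, A]/2`
(`A S1 + S1 A = 2α`, `A S2 + S2 A = 2ρβ`, `A S3 = - S3 A`), `kpg_isPr_of_comm`. -/
theorem kpg_T6 {k : ℕ} (Φ : Subalgebra K (QA K)) (hΦ : Φ ≤ lev K k) (hc : Comm Φ) {ρ κ r : QA K}
    (hρ : ρ ∈ Φ) (hκ : κ ∈ Φ)
    (hκ1 : κ * (algebraMap K (QA K) (al k) + algebraMap K (QA K) (be k) * (ρ * ρ)) = 1)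
    (hr : r ∈ lev K k) (hrc : ∀ φ ∈ Φ, φ * r = r * φ) :
    IsPr (k + 1) ((Φ : Set (QA K)) ∪ {qi ρ k}) r r ∧
    IsPr (k + 1) ((Φ : Set (QA K)) ∪ {qi ρ k}) (r * S1 k) ((al k : K) • (r * (κ * qi ρ k))) ∧
    IsPr (k + 1) ((Φ : Set (QA K)) ∪ {qi ρ k}) (r * S2 k)
      ((be k : K) • (r * (ρ * (κ * qi ρ k)))) ∧
    IsPr (k + 1) ((Φ : Set (QA K)) ∪ {qi ρ k}) (r * S3 k) 0 := by
  have h2 : ((2 : K)⁻¹ * 2) = 1 := inv_mul_cancel₀ two_ne_zero
  have hρk := hΦ hρ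
  have hκk := hΦ hκ
  have hqm : qi ρ k ∈ lev K (k + 1) := kpg_qi_mem hρk
  have lk : lev K k ≤ lev K (k + 1) := kpa_lev_mono (Nat.le_succ k)
  have hAA := kpg_qi_sq (K := K) hρk
  set A := qi ρ k with hA
  -- commutations
  have hAφ : ∀ φ ∈ Φ, A * φ = φ * A := fun φ hφ => kpg_qi_comm hρk (hΦ hφ) (hc ρ hρ φ hφ)
  have hAr : A * r = r * A := kpg_qi_comm hρk hr (hrc ρ hρ)
  have hκAA : κ * A * A = 1 := by rw [mul_assoc, hAA, hκ1]
  -- the three products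
  have s1 : ∀ x ∈ lev K k, S1 k * x = x * S1 k := fun x hx =>
    (kpa_lev_mid_comm hx (kpa_S1_mem k)).symm
  have s2 : ∀ x ∈ lev K k, S2 k * x = x * S2 k := fun x hx =>
    (kpa_lev_mid_comm hx (kpa_S2_mem k)).symm
  have s3 : ∀ x ∈ lev K k, S3 k * x = x * S3 k := fun x hx =>
    (kpa_lev_mid_comm hx (kpa_S3_mem k)).symm
  have p1 : S1 k * A = (al k : K) • (1 : QA K) + ρ * S3 k := by
    rw [hA]; unfold qi
    rw [mul_add, kpa_S1_mul_S1, ← mul_assoc, s1 ρ hρk, mul_assoc, kpa_S1_mul_S2]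
  have p1' : A * S1 k = (al k : K) • (1 : QA K) - ρ * S3 k := by
    rw [hA]; unfold qi
    rw [add_mul, kpa_S1_mul_S1, mul_assoc, kpa_S2_mul_S1, mul_neg, sub_eq_add_neg]
  have p2 : S2 k * A = -S3 k + (be k : K) • ρ := by
    rw [hA]; unfold qi
    rw [mul_add, kpa_S2_mul_S1, ← mul_assoc, s2 ρ hρk, mul_assoc, kpa_S2_mul_S2, mul_smul_comm,
      mul_one]
  have p2' : A * S2 k = S3 k + (be k : K) • ρ := by
    rw [hA]; unfold qi
    rw [add_mul, kpa_S1_mul_S2, mul_assoc, kpa_S2_mul_S2, mul_smul_comm, mul_one]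
  have p3 : S3 k * A = -(A * S3 k) := by
    rw [hA]; unfold qi
    rw [mul_add, add_mul, kpa_S3_mul_S1, ← mul_assoc, s3 ρ hρk, mul_assoc, kpa_S3_mul_S2,
      kpa_S1_mul_S3, mul_assoc ρ (S2 k), kpa_S2_mul_S3, mul_neg, neg_add, neg_neg]
  have hcomA : ∀ x : QA K, x * A = A * x → (∀ φ ∈ Φ, x * φ = φ * x) →
      ∀ φ ∈ (Φ : Set (QA K)) ∪ {A}, x * φ = φ * x := by
    rintro x h3 h4 φ (hφ | hφ)
    · exact h4 φ hφ
    · rw [Set.mem_singleton_iff] at hφ; rw [hφ]; exact h3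
  have hAmem : A ∈ (Φ : Set (QA K)) ∪ {A} := Or.inr rfl
  -- κ and ρ, r commute with everything relevant
  have hκA := hAφ κ hκ
  have hρA := hAφ ρ hρ
  have hκr := hrc κ hκ
  have hρr := hrc ρ hρ
  have hAB : A * (κ * A) = 1 := by rw [← mul_assoc, hκA, hκAA]
  have hgen : ∀ X t : QA K, t ∈ Φ → A * X + X * A = t + t →
      IsPr (k + 1) ((Φ : Set (QA K)) ∪ {A}) (r * X) (r * (t * (κ * A))) := by
    intro X t ht hX
    refine kpg_isPr_of_comm (x := (2 : K)⁻¹ • (r * (X * (κ * A)))) (s := A) _ ?_ ?_ hAmem ?_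
    · exact mul_mem (lk hr) (mul_mem (lk (hΦ ht)) (mul_mem (lk hκk) hqm))
    · refine hcomA _ ?_ fun φ hφ => ?_
      · have e1 : κ * A * A = A * (κ * A) := by rw [hκAA, hAB]
        have e2 : t * (κ * A) * A = A * (t * (κ * A)) := by
          rw [mul_assoc, e1, ← mul_assoc A t, hAφ t ht, mul_assoc]
        rw [mul_assoc, e2, ← mul_assoc A r, hAr, mul_assoc]
      · have e1 : κ * A * φ = φ * (κ * A) := by
          rw [mul_assoc, hAφ φ hφ, ← mul_assoc, hc κ hκ φ hφ, mul_assoc]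
        have e2 : t * (κ * A) * φ = φ * (t * (κ * A)) := by
          rw [mul_assoc, e1, ← mul_assoc, hc t ht φ hφ, mul_assoc]
        rw [mul_assoc, e2, ← mul_assoc, ← hrc φ hφ, mul_assoc]
    · have e1 : r * (X * (κ * A)) * A = r * X := by
        rw [mul_assoc, mul_assoc, hκAA, mul_one]
      have e2 : A * (r * (X * (κ * A))) = r * (t * (κ * A)) + r * (t * (κ * A)) - r * X := by
        have e3 : A * X = t + t - X * A := by rw [← hX]; abel
        rw [← mul_assoc, hAr, mul_assoc, ← mul_assoc A X, e3, sub_mul, add_mul, mul_assoc X A,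
          hAB, mul_one, mul_sub, mul_add]
      rw [smul_mul_assoc, mul_smul_comm, e1, e2, ← smul_sub]
      have e4 : r * X - (r * (t * (κ * A)) + r * (t * (κ * A)) - r * X) =
          (2 : K) • (r * X - r * (t * (κ * A))) := by
        rw [two_smul]; abel
      rw [e4, smul_smul, h2, one_smul]
  refine ⟨?_, ?_, ?_, ?_⟩
  · refine kpg_isPr_of_comm (x := 0) (s := A) _ (lk hr) ?_ hAmem (by simp)
    exact hcomA r hAr.symm fun φ hφ => (hrc φ hφ).symm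
  · have h := hgen (S1 k) ((al k : K) • (1 : QA K)) (Φ.smul_mem (one_mem _) _)
      (by rw [p1, p1']; abel)
    rw [smul_mul_assoc, one_mul, mul_smul_comm] at h
    exact h
  · have h := hgen (S2 k) ((be k : K) • ρ) (Φ.smul_mem hρ _) (by rw [p2, p2']; abel)
    rw [smul_mul_assoc, mul_smul_comm] at h
    exact h
  · have h := hgen (S3 k) 0 (zero_mem _) (by rw [p3]; abel)
    rw [zero_mul, mul_zero] at h
    exact h

end Crest.Agent.KP
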