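import Crest.Agent.KPG_M5
import Crest.Agent.KPG_M7
import Crest.Agent.KPG_M8
import Crest.Agent.KPG_M9

/-!
# S0270, part (G)-algebra (author helper47): all exports (T1 kpg_open, T2 kpg_mem, T3 kpg_qs_finrank, kpg_adj_shift,
T4 kpg_lower2, T5 kpg_lower3, T6 kpg_T6)
-/
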