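import Crest.Agent.KPG_alg1
import Crest.Agent.KPG_alg2
import Crest.Agent.KPG_alg3
import Crest.Agent.KPG_alg4
import Crest.Agent.KPG_alg5
import Crest.Agent.KPG_alg6
import Crest.Agent.KPG_qinv
import Crest.Agent.KPG_scale
import Crest.Agent.KPG_G1_curve
import Crest.Agent.KPG_G1_growth
import Crest.Agent.KPG_G1_V0
import Crest.Agent.KPG_G2
import Crest.Agent.KPG_G2p
import Crest.Agent.KPG_G3
import Crest.Agent.KPG_G4
import Crest.Agent.KPG_G5_curve
import Crest.Agent.KPG_G5_growth
import Crest.Agent.KPG_G5_dir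
import Crest.Agent.KPG_G6
import Crest.Agent.KPG_G7
import Crest.Agent.KPG_G8_curve
import Crest.Agent.KPG_G8_growth
import Crest.Agent.KPG_G9
import Crest.Agent.KPG_G10
import Crest.Agent.KPG_G11
import Crest.Agent.KPG_G12

/-! all statements of part (G) -/
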