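import Mathlib
import Crest.Prelude.Def_DilutedSpinGlass

/-!
# S0192, part G : finite core model and finite (Markov chain) trials

All objects of the core theorem are finite sums (except the Poisson series).
* `Core p` : finitely supported interaction / field laws in the factorised form
  `θ(s) = log (1 + b ∏ f_ℓ(s_ℓ))`, `|b ∏ f| ≤ q0 < 1`, `E (-b)^n ≥ 0`.
* `Trial` : a finite Markov chain trial: one finite state space `Fin nS`, a kernel `κ` which gives
  the law of the next state given the LIST of the previous ones (most recent first), real messages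
  `X` of the full list (length `r+1`), exponents `m : Fin r → ℝ`.
* `Core.pressure`, `Core.functional` : the pressure and the cavity functional, as finite sums.
-/

set_option autoImplicit false

open MeasureTheory
open Crest.ProbabilityR.Diluted

namespace Crest.Agent.SGG

/-- A finite core model. -/
structure Core (p : ℕ) where
  nB : ℕ
  nF : ℕ
  nH : ℕ
  wB : Fin nB → ℝ
  wF : Fin nF → ℝ
  wH : Fin nH → ℝ
  b : Fin nB → ℝ
  f : Fin nF → Bool → ℝ
  h : Fin nH → ℝ
  q0 : ℝ
  wB_nonneg : ∀ i, 0 ≤ wB i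
  wF_nonneg : ∀ i, 0 ≤ wF i
  wH_nonneg : ∀ i, 0 ≤ wH i
  wB_sum : ∑ i, wB i = 1
  wF_sum : ∑ i, wF i = 1
  wH_sum : ∑ i, wH i = 1
  q0_nonneg : 0 ≤ q0
  q0_lt : q0 < 1
  bound : ∀ (i : Fin nB) (x : Fin p → Fin nF) (s : Fin p → Bool), |b i * ∏ l, f (x l) (s l)| ≤ q0
  mom : ∀ n : ℕ, 1 ≤ n → 0 ≤ ∑ i, wB i * (-b i) ^ n

namespace Core

variable {p : ℕ} (C : Core p)

/-- Types of interactions. -/
abbrev E (C : Core p) : Type := Fin C.nB × (Fin p → Fin C.nF)

/-- Weight of an interaction type. -/
noncomputable def wE (e : C.E) : ℝ := C.wB e.1 * ∏ l, C.wF (e.2 l)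

/-- The interaction of a type. -/
noncomputable def theta (e : C.E) : Inter p :=
  fun s => Real.log (1 + C.b e.1 * ∏ l, C.f (e.2 l) (s l))

/-- The law of the interaction as a measure. -/
noncomputable def interLaw : Measure (Inter p) :=
  ∑ e : C.E, ENNReal.ofReal (C.wE e) • Measure.dirac (C.theta e)

/-- The law of the field as a measure. -/
noncomputable def fieldLaw : Measure ℝ :=
  ∑ y : Fin C.nH, ENNReal.ofReal (C.wH y) • Measure.dirac (C.h y)

/-- The pressure of the core model (finite sums and a Poisson series). -/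
noncomputable def pressure (α : ℝ) (N : ℕ) : ℝ :=
  (1 / (N : ℝ)) * ∑' M : ℕ, poissonWeight (α * N) M *
    ∑ e : Fin M → C.E, (∏ k, C.wE (e k)) *
      ∑ y : Fin N → Fin C.nH, (∏ i, C.wH (y i)) *
        ((Fintype.card (Fin M → Fin p → Fin N) : ℝ)⁻¹ *
          ∑ idx : Fin M → Fin p → Fin N,
            logPartition N (fun k => C.theta (e k)) idx (fun i => C.h (y i)))

end Core

/-- A finite Markov chain trial. -/
structure Trial where
  r : ℕ
  m : Fin r → ℝ
  nS : ℕ
  /-- `κ H s`: probability of the next state `s` given the previous states `H` (most recent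
  first). -/
  κ : List (Fin nS) → Fin nS → ℝ
  X : List (Fin nS) → ℝ
  adm : AdmissibleExponents m
  κ_nonneg : ∀ H s, 0 ≤ κ H s
  κ_sum : ∀ H, ∑ s, κ H s = 1

/-- Nested power means of a functional of the histories `H : L → List S` of a finite family of
labels, exponents `ms` (outermost first), chain kernel `κ`. -/
noncomputable def chainT {L : Type} [Fintype L] [DecidableEq L] {nS : ℕ}
    (κ : List (Fin nS) → Fin nS → ℝ) :
    List ℝ → ((L → List (Fin nS)) → ℝ) → (L → List (Fin nS)) → ℝ
  | [], W, H => W H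
  | m :: ms, W, H =>
      (∑ v : L → Fin nS, (∏ ω, κ (H ω) (v ω)) *
        (chainT κ ms W (fun ω => v ω :: H ω)) ^ m) ^ (1 / m)

theorem chainT_nil {L : Type} [Fintype L] [DecidableEq L] {nS : ℕ}
    (κ : List (Fin nS) → Fin nS → ℝ) (W : (L → List (Fin nS)) → ℝ) (H : L → List (Fin nS)) :
    chainT κ [] W H = W H := by
  rw [chainT]

theorem chainT_cons {L : Type} [Fintype L] [DecidableEq L] {nS : ℕ}
    (κ : List (Fin nS) → Fin nS → ℝ) (m : ℝ) (ms : List ℝ) (W : (L → List (Fin nS)) → ℝ)
    (H : L → List (Fin nS)) :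
    chainT κ (m :: ms) W H = (∑ v : L → Fin nS, (∏ ω, κ (H ω) (v ω)) *
        (chainT κ ms W (fun ω => v ω :: H ω)) ^ m) ^ (1 / m) := by
  rw [chainT]

/-- `E_{level 0} log T_0 (W)`. -/
noncomputable def Trial.logT0 (t : Trial) {L : Type} [Fintype L] [DecidableEq L]
    (W : (L → List (Fin t.nS)) → ℝ) : ℝ :=
  ∑ v : L → Fin t.nS, (∏ ω, t.κ [] (v ω)) *
    Real.log (chainT t.κ (List.ofFn t.m) W (fun ω => [v ω]))

/-- The cavity functional of the core model at a finite chain trial. -/
noncomputable def Core.functional {p : ℕ} (C : Core p) (α : ℝ) (t : Trial) : ℝ :=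
  Real.log 2 +
    (∑' k : ℕ, poissonWeight (α * p) k *
      ∑ e : Fin k → C.E, (∏ j, C.wE (e j)) * ∑ y : Fin C.nH, C.wH y *
        t.logT0 (L := Fin k × Fin (p - 1))
          (fun H => siteTerm (C.h y) (fun j => C.theta (e j)) (fun j l => t.X (H (j, l))))) -
    α * (p - 1 : ℝ) *
      ∑ e : C.E, C.wE e * t.logT0 (L := Fin p)
        (fun H => edgeTerm (C.theta e) (fun l => t.X (H l)))

/-- Upper bound part of the core theorem. -/
def CoreUB (p : ℕ) (α : ℝ) (C : Core p) : Prop :=
  ∀ (t : Trial) (N : ℕ), 1 ≤ N → C.pressure α N ≤ C.functional α t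

/-- Lower bound part of the core theorem. -/
def CoreLB (p : ℕ) (α : ℝ) (C : Core p) : Prop :=
  ∀ ε : ℝ, 0 < ε → ∃ K₀ : ℕ, ∀ K : ℕ, K₀ ≤ K → ∃ t : Trial,
    C.functional α t ≤ C.pressure α K + ε

end Crest.Agent.SGG
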