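import Crest.Agent.KS_Defs
import Crest.Agent.SGG_Defs

/-!
# S0218, part P3: the Poisson 3-SAT model with replacement and the core model of S0192

`RC N` = a 3-clause with replacement: three literals (variable, required value).
`vv N M` = expected least number of violated clauses for `M` such clauses on `N` variables,
`eP c N` = the same for a Poisson(`c N`) number of clauses, `core3 D` = core model of S0192 with
`e^θ = 1/D` if the clause is violated and `1` otherwise (`b = -(1 - 1/D)`, `f ≥ 0`).
-/

set_option autoImplicit false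

noncomputable section
open Crest.ProbabilityR.RandomSAT
open Crest.ProbabilityR.Diluted
open Crest.Agent.SGG
open Classical
namespace Crest.Agent.KS

/-- a 3-clause with replacement -/
abbrev RC (N : ℕ) : Type := Fin 3 → Fin N × Bool

/-- number of violated clauses -/
def violR {N M : ℕ} (F : Fin M → RC N) (σ : Fin N → Bool) : ℕ :=
  (Finset.univ.filter (fun j => ∀ i, σ (F j i).1 ≠ (F j i).2)).card

/-- least number of violated clauses -/
def minR {N M : ℕ} (F : Fin M → RC N) : ℕ := sInf (Set.range (violR F))

/-- expected energy, `M` clauses with replacement on `N` variables -/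
def vv (N M : ℕ) : ℝ := av (fun F : Fin M → RC N => (minR F : ℝ))

/-- expected energy, Poisson(`c N`) clauses with replacement on `N` variables -/
def eP (c : ℝ) (N : ℕ) : ℝ := ∑' M : ℕ, poissonWeight (c * N) M * vv N M

/-- `b = -(1 - 1/D)` -/
def bD (D : ℕ) : ℝ := -(1 - 1 / (D : ℝ))

/-- the core model for 3-SAT at `e^{-β} = 1/D`: type `x = 0` of a literal: required value `true`,
`x = 1`: required value `false`; `f x s = 1` iff the literal is violated. -/
def core3 (D : ℕ) (hD : 2 ≤ D) : Core 3 where
  nB := 1
  nF := 2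
  nH := 1
  wB := fun _ => 1
  wF := fun _ => 1 / 2
  wH := fun _ => 1
  b := fun _ => bD D
  f := fun x s => if s = decide (x = 0) then 0 else 1
  h := fun _ => 0
  q0 := 1 - 1 / (D : ℝ)
  wB_nonneg := fun _ => by norm_num
  wF_nonneg := fun _ => by norm_num
  wH_nonneg := fun _ => by norm_num
  wB_sum := by simp
  wF_sum := by norm_num
  wH_sum := by simp
  q0_nonneg := by
    have : (2 : ℝ) ≤ D := by exact_mod_cast hD
    have h : 1 / (D : ℝ) ≤ 1 := by
      rw [div_le_one (by linarith)]; linarith
    linarith
  q0_lt := by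
    have : (2 : ℝ) ≤ D := by exact_mod_cast hD
    have : 0 < 1 / (D : ℝ) := by positivity
    linarith
  bound := by
    intro i x s
    have h2 : (2 : ℝ) ≤ D := by exact_mod_cast hD
    have h : 1 / (D : ℝ) ≤ 1 := by
      rw [div_le_one (by linarith)]; linarith
    have h0 : 0 ≤ 1 - 1 / (D : ℝ) := by linarith
    rw [abs_mul, bD, abs_neg, abs_of_nonneg h0, Finset.abs_prod]
    have h1 : ∏ l, |(fun (x : Fin 2) (s : Bool) => if s = decide (x = 0) then (0 : ℝ) else 1)
        (x l) (s l)| ≤ 1 := by
      refine Finset.prod_le_one (fun l _ => abs_nonneg _) fun l _ => ?_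
      dsimp only
      split_ifs <;> simp
    calc (1 - 1 / (D : ℝ)) * _ ≤ (1 - 1 / (D : ℝ)) * 1 := mul_le_mul_of_nonneg_left h1 h0
      _ = _ := by ring
  mom := by
    intro n _
    have h2 : (2 : ℝ) ≤ D := by exact_mod_cast hD
    have h : 1 / (D : ℝ) ≤ 1 := by
      rw [div_le_one (by linarith)]; linarith
    have h0 : 0 ≤ 1 - 1 / (D : ℝ) := by linarith
    simp only [bD, neg_neg, one_mul]
    refine Finset.sum_nonneg fun i _ => pow_nonneg h0 n

theorem core3_pos (D : ℕ) (hD : 2 ≤ D) : ∀ φ s, 0 ≤ (core3 D hD).f φ s := by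
  intro φ s
  change (0 : ℝ) ≤ (fun (x : Fin 2) (s : Bool) => if s = decide (x = 0) then (0 : ℝ) else 1) φ s
  dsimp only
  split_ifs <;> norm_num

end Crest.Agent.KS
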