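import Crest.Agent.LP_Defs

/-!
Blueprint for S0392 (helper54). Every statement below is a task. Prove it EXACTLY as stated, but in
namespace `Crest.Agent.LP`, in the file named in the task.
-/

set_option autoImplicit false

namespace Crest.Agent.LPB

open Crest.Agent.LP
open Set MeasureTheory

/-! ### LP-T1: existence of a base system (Riesz lemma) -/

theorem exists_sys (B : Type*) [NormedAddCommGroup B] [NormedSpace ℝ B]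
    (hB : ¬ FiniteDimensional ℝ B) : Nonempty (Sys B) := by
  sorry

/-! ### LP-T2: compactness -/

theorem isClosed_strip (H N b : ℕ) : IsClosed (strip H N b) := by
  sorry

theorem isClosed_netj (j m : ℕ) : IsClosed (netj j m) := by
  sorry

theorem isCompact_Par : IsCompact Par := by
  sorry

section sys
variable {B : Type*} [NormedAddCommGroup B] [NormedSpace ℝ B] [CompleteSpace B]

theorem summable_pt (S : Sys B) (a : ℕ → ℕ) : Summable (fun j => rr j • S.u (a j)) := by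
  sorry

theorem continuous_pt (S : Sys B) :
    Continuous (fun p : (ℝ × ℝ) × (ℕ → ℕ) => S.pt p.1 p.2) := by
  sorry

theorem isCompact_KK (S : Sys B) : IsCompact S.KK := by
  sorry

/-! ### LP-T3: metric estimates and doubling -/

theorem pt_low (S : Sys B) (x x' : ℝ × ℝ) (a a' : ℕ → ℕ) (m : ℕ) (h : ∀ j < m, a j = a' j)
    (hm : a m ≠ a' m) :
    rr m ≤ 3 * ‖S.pt x a - S.pt x' a'‖ ∧
    |x.1 - x'.1| ≤ 16 * ‖S.pt x a - S.pt x' a'‖ + 33 * rr m ∧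
    |x.2 - x'.2| ≤ 16 * ‖S.pt x a - S.pt x' a'‖ + 33 * rr m := by
  sorry

theorem pt_low_same (S : Sys B) (x x' : ℝ × ℝ) (a : ℕ → ℕ) :
    |x.1 - x'.1| ≤ 16 * ‖S.pt x a - S.pt x' a‖ ∧ |x.2 - x'.2| ≤ 16 * ‖S.pt x a - S.pt x' a‖ := by
  sorry

theorem pt_up (S : Sys B) (x x' : ℝ × ℝ) (a a' : ℕ → ℕ) (m : ℕ) (h : ∀ j < m, a j = a' j) :
    ‖S.pt x a - S.pt x' a'‖ ≤ |x.1 - x'.1| + |x.2 - x'.2| + 201 / 100 * rr m := by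
  sorry

theorem strip_unique (H N b b' : ℕ) (hH : 1 ≤ H) (hb : b < N) (hb' : b' < N) (s s' : ℝ)
    (hs : s ∈ strip H N b) (hs' : s' ∈ strip H N b') (h : |s - s'| < H) : b = b' := by
  sorry

theorem cover_of_code {X ι : Type*} [PseudoMetricSpace X] (S T : Set X) (r : ℝ) (hT : T ⊆ S)
    (code : X → ι) (Z : Finset ι) (hZ : ∀ p ∈ T, code p ∈ Z)
    (hcode : ∀ p ∈ T, ∀ q ∈ T, code p = code q → dist p q ≤ r) :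
    ∃ C : Finset X, (↑C : Set X) ⊆ S ∧ C.card ≤ Z.card ∧
      T ⊆ ⋃ c ∈ C, Metric.closedBall c r := by
  sorry

/-- Idea: let `p = pt x a`, `m` the least `j` with `rr j ≤ 6 r`. A point `p' = pt x' a'` of the ball
`closedBall p (2r)` has `a' j = a j` for `j < m` and `|x' - x| ≤ 230 r` (both coordinates).
Code of `p'`: `⌊4 (x'.1 - x.1) / r⌋`, `⌊4 (x'.2 - x.2) / r⌋` in `Icc (-920) 920` and the class
`0` if `a' m = 0`, `1` if `x'.2 / rr m ∈ strip 5000 (NN m) (a' m - 1)`, `2` otherwise. If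
`rr m ≤ r / 5` forget the class (`pt_up` with `m`), otherwise equal class gives `a' m = a'' m`
by `strip_unique` (`460 r ≤ 2300 rr m < 5000 rr m`) and `pt_up` with `m + 1` applies. -/
theorem doubling_KK (S : Sys B) :
    Crest.GeometryTopology.DoublingConstLE S.KK (3 * 1841 * 1841) := by
  sorry

end sys

/-! ### LP-T4: the tower lemma -/

/-- Idea: `L = sup e.1`, `φ(s) = sup {e.2 | e.1 ≥ L - s}`; `s_0 = 1`,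
`s_{k+1} = min (Θ s_k) (s_k) (s_k g / (4 M))`; `φ(s_k)` is nonincreasing in `[0,M]`, so for some `k`,
`φ(s_k) ≤ φ(s_{k+1}) + g / 4`; take `s = s_k` and `e` with `e.1 ≥ L - s_{k+1}` and
`e.2 ≥ φ(s_{k+1}) - g / 4`. For `e'` with `e'.1 ≥ L - s_k` use `e'.2 ≤ φ(s_k)`, otherwise
`(M/s_k) e'.1 + e'.2 ≤ (M/s_k)(L - s_k) + M`. -/
theorem tower_lemma (J : Set (ℝ × ℝ)) (hne : J.Nonempty) (M : ℝ) (hM : 0 < M)
    (hJ : ∀ e ∈ J, 0 ≤ e.1 ∧ e.1 ≤ M ∧ 0 ≤ e.2 ∧ e.2 ≤ M) (g : ℝ) (hg : 0 < g)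
    (Θ : ℝ → ℝ) (hΘ : ∀ s, 0 < s → 0 < Θ s) :
    ∃ s, 0 < s ∧ s ≤ 1 ∧ ∃ e ∈ J, (∀ e' ∈ J, e'.1 ≤ e.1 + Θ s) ∧
      ∀ e' ∈ J, M / s * e'.1 + e'.2 ≤ M / s * e.1 + e.2 + g := by
  sorry

/-! ### LP-T5: analysis of Lipschitz functions on rectangles -/

/-- Rademacher (`LipschitzOnWith.ae_differentiableWithinAt_of_mem`), Fubini, the fundamental theorem
of calculus for Lipschitz functions (`LipschitzOnWith.absolutelyContinuousOnInterval`,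
`AbsolutelyContinuousOnInterval.integral_deriv_eq_sub`, scalar functions `inner ℝ v (γ (τ, υ))`) for
a.e. `υ`, then continuity in `υ`. -/
theorem an1 {n : ℕ} (γ : ℝ × ℝ → EuclideanSpace ℝ (Fin n)) (t t' y y' : ℝ) (ht : t < t')
    (hy : y < y') (C : ℝ) (hC : 0 ≤ C)
    (hLip : ∀ z ∈ rect t t' y y', ∀ z' ∈ rect t t' y y', ‖γ z - γ z'‖ ≤ C * ‖z - z'‖)
    (M1 : ℝ) (hM1 : 0 ≤ M1)
    (hd : ∀ z ∈ interior (rect t t' y y'), DifferentiableAt ℝ γ z →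
      ‖fderiv ℝ γ z (1, 0)‖ ^ 2 ≤ M1) (υ : ℝ) (hυ : υ ∈ Icc y y') :
    ‖γ (t', υ) - γ (t, υ)‖ ^ 2 ≤ (t' - t) ^ 2 * M1 := by
  sorry

/-- At a.e. point `‖∂₂γ - A2‖² ≤ g + 2 K (‖A1‖² - ⟪A1, ∂₁γ⟫) + 2 (‖A2‖² - ⟪A2, ∂₂γ⟫)`
(from `hd` and `K ‖∂₁γ - A1‖² ≥ 0`); integrate over the rectangle, and use
`‖∫ (∂₂γ - A2)‖² ≤ (y' - y) ∫ ‖∂₂γ - A2‖²` on vertical lines. -/
theorem an2 {n : ℕ} (γ : ℝ × ℝ → EuclideanSpace ℝ (Fin n)) (t t' y y' : ℝ) (ht : t < t')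
    (hy : y < y') (C : ℝ) (hC : 0 ≤ C)
    (hLip : ∀ z ∈ rect t t' y y', ∀ z' ∈ rect t t' y y', ‖γ z - γ z'‖ ≤ C * ‖z - z'‖)
    (A1 A2 : EuclideanSpace ℝ (Fin n)) (K g : ℝ) (hK : 0 ≤ K) (hg : 0 ≤ g)
    (hd : ∀ z ∈ interior (rect t t' y y'), DifferentiableAt ℝ γ z →
      K * ‖fderiv ℝ γ z (1, 0)‖ ^ 2 + ‖fderiv ℝ γ z (0, 1)‖ ^ 2 ≤
        K * ‖A1‖ ^ 2 + ‖A2‖ ^ 2 + g) :
    ∫ τ in t..t', ‖γ (τ, y') - γ (τ, y) - (y' - y) • A2‖ ^ 2 ≤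
      (y' - y) * (g * (t' - t) * (y' - y) +
        2 * K * (∫ υ in y..y', ((t' - t) * ‖A1‖ ^ 2 - inner ℝ A1 (γ (t', υ) - γ (t, υ)))) +
        2 * ∫ τ in t..t', ((y' - y) * ‖A2‖ ^ 2 - inner ℝ A2 (γ (τ, y') - γ (τ, y)))) := by
  sorry

/-! ### LP-T6: the unit-scale lemma -/

/-- Split at `t`, `t'`; for each piece `‖w_i - ℓ_i A‖² ≤ ℓ_i (ℓ_i θ + 2 (ℓ_i ‖A‖² - ⟪A, w_i⟫))`,
so the brackets are nonnegative and add up. -/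
theorem u1_block {n : ℕ} (w : ℝ → EuclideanSpace ℝ (Fin n)) (A : EuclideanSpace ℝ (Fin n))
    (θ : ℝ) (hθ : 0 ≤ θ) (a b : ℝ)
    (hw : ∀ t ∈ Icc a b, ∀ t' ∈ Icc a b, t ≤ t' →
      ‖w t' - w t‖ ^ 2 ≤ (t' - t) ^ 2 * (‖A‖ ^ 2 + θ))
    (t t' : ℝ) (ht : t ∈ Icc a b) (ht' : t' ∈ Icc a b) :
    ‖w t' - w t - (t' - t) • A‖ ^ 2 ≤
      (b - a) * ((b - a) * θ + 2 * ((b - a) * ‖A‖ ^ 2 - inner ℝ A (w b - w a))) := by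
  sorry

theorem u1_nonneg {n : ℕ} (w : ℝ → EuclideanSpace ℝ (Fin n)) (A : EuclideanSpace ℝ (Fin n))
    (θ : ℝ) (a b : ℝ) (hab : a < b)
    (hw : ‖w b - w a‖ ^ 2 ≤ (b - a) ^ 2 * (‖A‖ ^ 2 + θ)) :
    0 ≤ (b - a) * θ + 2 * ((b - a) * ‖A‖ ^ 2 - inner ℝ A (w b - w a)) := by
  sorry

/-- Sum of `an2` over the `Q` sub-rectangles of width `10000`. -/
theorem u2_row {n : ℕ} (γ : ℝ × ℝ → EuclideanSpace ℝ (Fin n)) (x0 H : ℝ) (hH : 0 < H) (Q : ℕ)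
    (D D' : ℝ) (hD : 0 < D) (hD' : 0 < D')
    (hLip : ∀ z ∈ rect x0 (x0 + H) 0 (10000 * Q), ∀ z' ∈ rect x0 (x0 + H) 0 (10000 * Q),
      ‖γ z - γ z'‖ ≤ D * ‖z - z'‖)
    (A1 A2 : EuclideanSpace ℝ (Fin n)) (hA1 : ‖A1‖ ≤ D) (hA2 : ‖A2‖ ≤ D)
    (hclose : ∀ z ∈ rect x0 (x0 + H) 0 (10000 * Q), ‖γ z - (z.1 • A1 + z.2 • A2)‖ ≤ D')
    (K g : ℝ) (hK : 0 ≤ K) (hg : 0 ≤ g)
    (hd : ∀ z ∈ interior (rect x0 (x0 + H) 0 (10000 * Q)), DifferentiableAt ℝ γ z →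
      K * ‖fderiv ℝ γ z (1, 0)‖ ^ 2 + ‖fderiv ℝ γ z (0, 1)‖ ^ 2 ≤
        K * ‖A1‖ ^ 2 + ‖A2‖ ^ 2 + g) :
    ∑ i ∈ Finset.range Q, ∫ τ in x0..(x0 + H),
      ‖γ (τ, 10000 * (i + 1)) - γ (τ, 10000 * i) - (10000 : ℝ) • A2‖ ^ 2 ≤
      10000 * (g * H * (10000 * Q) + 4 * K * D * D' * (10000 * Q) + 4 * D * D' * H) := by
  sorry

theorem pigeon (N n1 n2 : ℕ) (hn1 : 1 ≤ n1) (hn2 : 1 ≤ n2) (α F : Fin N → ℕ → ℕ → ℝ)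
    (hα0 : ∀ b l j, l < n1 → j < n2 → 0 ≤ α b l j)
    (hF0 : ∀ b l j, l < n1 → j < n2 → 0 ≤ F b l j)
    (ε1 ε2 a e : ℝ) (hε1 : 0 < ε1) (hε2 : 0 < ε2)
    (hα : ∀ b, ∀ j < n2, ∑ l ∈ Finset.range n1, α b l j ≤ a)
    (hF : ∀ b, ∀ l < n1, ∑ j ∈ Finset.range n2, F b l j ≤ e)
    (h : N * (a / n1 / ε1 + e / n2 / ε2) < 1) :
    ∃ l < n1, ∃ j < n2, ∀ b, α b l j ≤ ε1 ∧ F b l j ≤ ε2 := by
  sorry

/-- Main unit-scale lemma. `T' = 2HN`, `W' = 10000 N`, window `[0, n1 T'] × [0, n2 W']`.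
Columns of label `b` in block column `j`: `y ∈ [10000 (N j + b), 10000 (N j + b) + 5000]`; rows of
label `b` in block row `l`: `t ∈ [2H (N l + b), 2H (N l + b) + H]`.
Column part: `an1` on sub-rectangles of the column and `u1_block` on `[l T', (l+1) T']` at
`y = 10000 (N j + b)`; `α b l j = T'θ/2 + T'‖A1‖² - ⟪A1, γ b ((l+1)T', y) - γ b (lT', y)⟫`,
`∑_l α ≤ 2 D D' + n1 T' θ / 2`, `ε1 = c'^2 / (32 T')`.
Row part: `u2_row` with `Q = n2 N`, `F b l j = ∫ ∑_{m<N} ‖...‖²` over the small intervals of block `j`,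
`ε2 = c'^2 H / (16 N)`; choose `t_b` in the row with `∑_m ‖...‖² ≤ c'^2/(16 N)`, so
`‖γ b (t_b, y₂) - γ b (t_b, y₁) - (y₂-y₁) A2‖ ≤ c'/4` for multiples of `10000` in the block.
Take `u b = γ b (t_b, y_b) - (t_b A1 + y_b A2)`, `y_b = 10000 (N j + b)`; compare at
`(t_b, y_{b'})`, which is in row `b` and in column `b'`. -/
theorem unit_lemma {n : ℕ} (N H n1 n2 : ℕ) (hN : 1 ≤ N) (hH : 1 ≤ H) (hn1 : 1 ≤ n1)
    (hn2 : 1 ≤ n2) (D D' c' θ g K : ℝ) (hD : 0 < D) (hD' : 0 < D') (hc' : 0 < c')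
    (hθ : 0 ≤ θ) (hg : 0 ≤ g) (hK : 0 ≤ K)
    (A1 A2 : EuclideanSpace ℝ (Fin n)) (hA1 : ‖A1‖ ≤ D) (hA2 : ‖A2‖ ≤ D)
    (γ : Fin N → ℝ × ℝ → EuclideanSpace ℝ (Fin n))
    (hLip : ∀ b : Fin N, ∀ z ∈ PP H N (n1 * (2 * H * N)) (n2 * (10000 * N)) b,
      ∀ z' ∈ PP H N (n1 * (2 * H * N)) (n2 * (10000 * N)) b, ‖γ b z - γ b z'‖ ≤ D * ‖z - z'‖)
    (hclose : ∀ b : Fin N, ∀ z ∈ PP H N (n1 * (2 * H * N)) (n2 * (10000 * N)) b,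
      ‖γ b z - (z.1 • A1 + z.2 • A2)‖ ≤ D')
    (hsep : ∀ b b' : Fin N, b ≠ b' → ∀ z ∈ PP H N (n1 * (2 * H * N)) (n2 * (10000 * N)) b,
      z ∈ PP H N (n1 * (2 * H * N)) (n2 * (10000 * N)) b' → c' ≤ ‖γ b z - γ b' z‖)
    (hd1 : ∀ b : Fin N, ∀ z ∈ interior (PP H N (n1 * (2 * H * N)) (n2 * (10000 * N)) b),
      DifferentiableAt ℝ (γ b) z → ‖fderiv ℝ (γ b) z (1, 0)‖ ^ 2 ≤ ‖A1‖ ^ 2 + θ)
    (hd2 : ∀ b : Fin N, ∀ z ∈ interior (PP H N (n1 * (2 * H * N)) (n2 * (10000 * N)) b),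
      DifferentiableAt ℝ (γ b) z →
      K * ‖fderiv ℝ (γ b) z (1, 0)‖ ^ 2 + ‖fderiv ℝ (γ b) z (0, 1)‖ ^ 2 ≤
        K * ‖A1‖ ^ 2 + ‖A2‖ ^ 2 + g)
    (hpar : (N : ℝ) * ((2 * D * D' / n1 + (2 * H * N) * θ / 2) * (32 * (2 * H * N) / c' ^ 2) +
      160000 * N / c' ^ 2 * (g * (10000 * N) + 4 * K * D * D' * (10000 * N) / H +
        4 * D * D' / n2)) < 1) :
    ∃ u : Fin N → EuclideanSpace ℝ (Fin n), (∀ b, ‖u b‖ ≤ D') ∧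
      ∀ b b', b ≠ b' → c' / 2 ≤ ‖u b - u b'‖ := by
  sorry

/-- choice of parameters -/
theorem param (N : ℕ) (hN : 1 ≤ N) (D D' c' : ℝ) (hD : 0 < D) (hD' : 0 < D') (hc' : 0 < c') :
    ∃ g > 0, ∀ K : ℝ, 0 ≤ K → ∃ H : ℕ, 5000 ≤ H ∧ ∃ θ > 0, ∃ n1 n2 : ℕ, 1 ≤ n1 ∧ 1 ≤ n2 ∧
      (N : ℝ) * ((2 * D * D' / n1 + (2 * H * N) * θ / 2) * (32 * (2 * H * N) / c' ^ 2) +
      160000 * N / c' ^ 2 * (g * (10000 * N) + 4 * K * D * D' * (10000 * N) / H +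
        4 * D * D' / n2)) < 1 := by
  sorry

/-! ### LP-T7: packing -/

theorem packing (n : ℕ) (R δ : ℝ) (hδ : 0 < δ) :
    ∃ M : ℕ, ∀ (N : ℕ) (u : Fin N → EuclideanSpace ℝ (Fin n)), (∀ b, ‖u b‖ ≤ R) →
      (∀ b b', b ≠ b' → δ ≤ ‖u b - u b'‖) → N ≤ M := by
  sorry

/-! ### LP-T8: rescaling near a point of differentiability -/

theorem exists_gen (N H j₀ : ℕ) (hN : 1 ≤ N) (hH : 5000 ≤ H) :
    ∃ j ≥ j₀, NN j = N ∧ HH j = H := by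
  sorry

theorem net_shift (H N b : ℕ) (k k' : ℤ) (z : ℝ × ℝ) :
    (2 * (H : ℝ) * N * k + z.1, 10000 * (N : ℝ) * k' + z.2) ∈ net H N b ↔ z ∈ net H N b := by
  sorry

section loc
variable {B : Type*} [NormedAddCommGroup B] [NormedSpace ℝ B] [CompleteSpace B]
variable {n : ℕ}

/-- Take `j` large with `NN j = N`, `HH j = H`, `a i = 0` for `i ≥ j`; `r = rr j`;
`o = (r T' ⌊x.1/(r T')⌋, r W' ⌊x.2/(r W')⌋)`, `T' = 2HN`, `W' = 10000N`;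
`γ b z = r⁻¹ • (f (pt (o + r z) (update a j (b+1))) - f (pt o a))`. -/
theorem local_rescale (S : Sys B) (f : B → EuclideanSpace ℝ (Fin n)) (D c : ℝ) (hD : 0 < D)
    (hc : 0 < c) (hup : ∀ p ∈ S.KK, ∀ q ∈ S.KK, ‖f p - f q‖ ≤ D * ‖p - q‖)
    (hlow : ∀ p ∈ S.KK, ∀ q ∈ S.KK, c * ‖p - q‖ ≤ ‖f p - f q‖)
    (a : ℕ → ℕ) (ha : ∃ j₀, ∀ j ≥ j₀, a j = 0) (x : ℝ × ℝ) (hx : x ∈ interior (Om a))
    (hdiff : DifferentiableAt ℝ (fun z => f (S.pt z a)) x)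
    (N H : ℕ) (hN : 1 ≤ N) (hH : 5000 ≤ H) (T W : ℝ) (hT : 0 < T) (hW : 0 < W) :
    ∃ γ : Fin N → ℝ × ℝ → EuclideanSpace ℝ (Fin n),
      (∀ b : Fin N, ∀ z ∈ PP H N T W b, ∀ z' ∈ PP H N T W b,
        ‖γ b z - γ b z'‖ ≤ 2 * D * ‖z - z'‖) ∧
      (∀ b : Fin N, ∀ z ∈ PP H N T W b,
        ‖γ b z - (z.1 • fderiv ℝ (fun z => f (S.pt z a)) x (1, 0) +
          z.2 • fderiv ℝ (fun z => f (S.pt z a)) x (0, 1))‖ ≤ D + 1) ∧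
      (∀ b b' : Fin N, b ≠ b' → ∀ z ∈ PP H N T W b, z ∈ PP H N T W b' →
        c / 2 ≤ ‖γ b z - γ b' z‖) ∧
      (∀ b : Fin N, ∀ z ∈ interior (PP H N T W b), DifferentiableAt ℝ (γ b) z →
        (‖fderiv ℝ (γ b) z (1, 0)‖ ^ 2, ‖fderiv ℝ (γ b) z (0, 1)‖ ^ 2) ∈ jets S f) := by
  sorry

/-! ### LP-T9: jets are bounded and exist -/

theorem jets_bounded (S : Sys B) (f : B → EuclideanSpace ℝ (Fin n)) (D : ℝ) (hD : 0 < D)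
    (hup : ∀ p ∈ S.KK, ∀ q ∈ S.KK, ‖f p - f q‖ ≤ D * ‖p - q‖) :
    ∀ e ∈ jets S f, 0 ≤ e.1 ∧ e.1 ≤ (2 * D) ^ 2 ∧ 0 ≤ e.2 ∧ e.2 ≤ (2 * D) ^ 2 := by
  sorry

theorem jets_nonempty (S : Sys B) (f : B → EuclideanSpace ℝ (Fin n)) (D : ℝ) (hD : 0 < D)
    (hup : ∀ p ∈ S.KK, ∀ q ∈ S.KK, ‖f p - f q‖ ≤ D * ‖p - q‖) : (jets S f).Nonempty := by
  sorry

end loc

end Crest.Agent.LPB
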