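import Crest.Agent.LP_Defs

/-!
S0392, LP-T8a: `exists_gen`, `net_shift`
-/

set_option autoImplicit false

namespace Crest.Agent.LP

open Set MeasureTheory

theorem exists_gen (N H j₀ : ℕ) (hN : 1 ≤ N) (hH : 5000 ≤ H) :
    ∃ j ≥ j₀, NN j = N ∧ HH j = H := by
  refine ⟨Nat.pair (Nat.pair (N - 1) (H - 5000)) j₀, Nat.right_le_pair _ _, ?_, ?_⟩
  · unfold NN
    rw [Nat.unpair_pair]
    simp only [Nat.unpair_pair]
    omega
  · unfold HH
    rw [Nat.unpair_pair]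
    simp only [Nat.unpair_pair]
    omega

theorem strip_shift (H N b : ℕ) (k : ℤ) (s : ℝ) :
    2 * (H : ℝ) * N * k + s ∈ strip H N b ↔ s ∈ strip H N b := by
  unfold strip
  simp only [mem_setOf_eq]
  constructor
  · rintro ⟨l, h1, h2⟩
    refine ⟨l - k, ?_, ?_⟩ <;> push_cast <;> linarith
  · rintro ⟨l, h1, h2⟩
    refine ⟨l + k, ?_, ?_⟩ <;> push_cast <;> linarith

theorem net_shift (H N b : ℕ) (k k' : ℤ) (z : ℝ × ℝ) :
    (2 * (H : ℝ) * N * k + z.1, 10000 * (N : ℝ) * k' + z.2) ∈ net H N b ↔ z ∈ net H N b := by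
  unfold net
  simp only [mem_setOf_eq]
  have e : 10000 * (N : ℝ) * k' + z.2 = 2 * ((5000 : ℕ) : ℝ) * N * k' + z.2 := by
    push_cast; ring
  rw [e, strip_shift, strip_shift]

end Crest.Agent.LP
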