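import Crest.Prelude.Def_LiebThirring

/-!
# Row S0515/S0516 (sharp matrix Lieb–Thirring in 1D, 1/2 < γ < 3/2): definitions of the blueprint `LT_*`

Notation of the paper proof (see the notes for rid S0515):
`α = γ - 1/2 ∈ (0,1)`, `p = 1 + α`, `r = 1/α`, `p' = r + 1`.
`K, F` are `N × N` Hermitian with `-K ≤ F ≤ K`; `S = K² - F²`; `K_q = (K² + q)^{1/2}`;
`z_q = log (K_q - F) + log (K_q + F) - log q`.
-/

set_option autoImplicit false

namespace Crest.Agent.LT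

open MeasureTheory Matrix Set Filter
open Crest.MathPhysics.LiebThirring
open scoped ComplexOrder Topology

/-- `N × N` complex matrices. -/
abbrev Mt (N : ℕ) : Type := Matrix (Fin N) (Fin N) ℂ

/-- real part of the trace -/
noncomputable def tr {N : ℕ} (A : Mt N) : ℝ := (Matrix.trace A).re

/-- squared Hilbert–Schmidt norm of a (rectangular) matrix -/
noncomputable def hs2 {m N : ℕ} (A : Matrix (Fin m) (Fin N) ℂ) : ℝ := ∑ i, ∑ j, ‖A i j‖ ^ 2

/-- `K_q = (K² + q)^{1/2}` -/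
noncomputable def Kq {N : ℕ} (K : Mt N) (q : ℝ) : Mt N :=
  cfc (fun t : ℝ => Real.sqrt (t ^ 2 + q)) K

/-- `z_q = log (K_q - F) + log (K_q + F) - log q` -/
noncomputable def zq {N : ℕ} (K F : Mt N) (q : ℝ) : Mt N :=
  cfc Real.log (Kq K q - F) + cfc Real.log (Kq K q + F) - ((Real.log q : ℝ) : ℂ) • (1 : Mt N)

/-- `E(q) = tr ((S + q) z_q) - tr S`, `S = K² - F²` -/
noncomputable def Ecal {N : ℕ} (K F : Mt N) (q : ℝ) : ℝ :=
  tr ((K * K - F * F + ((q : ℝ) : ℂ) • (1 : Mt N)) * zq K F q) - tr (K * K - F * F)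

/-- `-K ≤ F ≤ K` -/
structure Adm {N : ℕ} (K F : Mt N) : Prop where
  sub : (K - F).PosSemidef
  add : (K + F).PosSemidef

theorem Adm.posSemidef {N : ℕ} {K F : Mt N} (h : Adm K F) : K.PosSemidef := by
  have h2 : ((1 / 2 : ℝ) • ((K - F) + (K + F))).PosSemidef :=
    (h.sub.add h.add).smul (by norm_num : (0 : ℝ) ≤ 1 / 2)
  have : (1 / 2 : ℝ) • ((K - F) + (K + F)) = K := by
    ext i j
    simp [Matrix.smul_apply]
    ring
  rwa [this] at h2

theorem Adm.isHermitian_K {N : ℕ} {K F : Mt N} (h : Adm K F) : K.IsHermitian := h.posSemidef.1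

theorem Adm.isHermitian_F {N : ℕ} {K F : Mt N} (h : Adm K F) : F.IsHermitian := by
  have h1 : (K + F).IsHermitian := h.add.1
  have : F = (K + F) - K := by abel
  rw [this]
  exact h1.sub h.isHermitian_K

/-- `F` solves the matrix Riccati equation `F' = K² - F² - V` on `[-R, R]`, `F(-R) = K`, `F(R) = -K`,
with `-K ≤ F ≤ K` and `V ≥ 0` continuous. -/
structure Riccati {N : ℕ} (R : ℝ) (K : Mt N) (F V : ℝ → Mt N) : Prop where
  hR : 0 < R
  contV : ContinuousOn V (Icc (-R) R)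
  Vpsd : ∀ x ∈ Icc (-R) R, (V x).PosSemidef
  adm : ∀ x ∈ Icc (-R) R, Adm K (F x)
  contF : ContinuousOn F (Icc (-R) R)
  deriv : ∀ x ∈ Ioo (-R) R, HasDerivAt F (K * K - F x * F x - V x) x
  left : F (-R) = K
  right : F R = -K

/-- `h_q(v) = (q + v) log (1 + v / q) - v` -/
noncomputable def hfun (q v : ℝ) : ℝ := (q + v) * Real.log (1 + v / q) - v

/-- `θ_q(k) = ∫_0^k log (1 + (k² - f²)/q) df` -/
noncomputable def theta (q k : ℝ) : ℝ := ∫ f in (0 : ℝ)..k, Real.log (1 + (k ^ 2 - f ^ 2) / q)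

/-- `I(α) = ∫_0^∞ q^{α-1} log (1 + 1/q) dq` -/
noncomputable def Ialpha (α : ℝ) : ℝ := ∫ q in Ioi (0 : ℝ), q ^ (α - 1) * Real.log (1 + 1 / q)

/-- `β(α) = ∫_{-1}^1 (1 - u²)^α du` -/
noncomputable def beta (α : ℝ) : ℝ := ∫ u in (-1 : ℝ)..1, (1 - u ^ 2) ^ α

/-- The `m × N` matrix whose columns are the values of the trial functions. -/
def Phi {m N : ℕ} (φ : Fin N → ℝ → Vec m) (x : ℝ) : Matrix (Fin m) (Fin N) ℂ :=
  Matrix.of fun a k => φ k x a

/-- The `m × N` matrix of the derivatives. -/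
noncomputable def dPhi {m N : ℕ} (φ : Fin N → ℝ → Vec m) (x : ℝ) : Matrix (Fin m) (Fin N) ℂ :=
  Matrix.of fun a k => deriv (φ k) x a

/-- `P = G Φ^* Φ G` (`Ψ = Φ G`) -/
def Pmat {m N : ℕ} (φ : Fin N → ℝ → Vec m) (G : Mt N) (x : ℝ) : Mt N :=
  (Phi φ x * G)ᴴ * (Phi φ x * G)

/-- The `N × N` potential `w P^r / ((tr P^{r+1})^{r/(r+1)} + δ)`, `r = 1/α`. -/
noncomputable def VK {N : ℕ} (r w δ : ℝ) (P : Mt N) : Mt N :=
  ((w / ((tr (cfc (fun t : ℝ => t ^ (r + 1)) P)) ^ (r / (r + 1)) + δ) : ℝ) : ℂ) •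
    cfc (fun t : ℝ => t ^ r) P

end Crest.Agent.LT
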