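import Crest.Agent.LT_Defs

/-!
Task LT-T30 (Brouwer 1): no `C¹` retraction of the closed unit ball onto the sphere (Milnor–Rogers).
`f_t(x) = (1-t) x + t f(x)`, `g = f - id` is Lipschitz on the ball, so for small `t ≥ 0` `f_t` is injective on the ball with
`det Df_t > 0`; `f_t` maps the open ball onto itself (open by the inverse function theorem, relatively closed by
compactness, connectedness), so `∫_ball det (Df_t) = vol ball` for `t ∈ [0,t₀]`
(`MeasureTheory.lintegral_abs_det_fderiv_eq_addHaar_image` or `integral_image_eq_integral_abs_det_fderiv_smul`).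
`t ↦ det (1 + t Dg(x))` is a polynomial of degree `≤ n` for each `x`; by Lagrange interpolation at `n+1` nodes in `[0,t₀]` the
identity extends to `t = 1`: `∫_ball det Df = vol ball > 0`. But `|f|² = 1` gives `Df(x)ᵀ f(x) = 0`, so `det Df = 0`.
-/

set_option autoImplicit false

namespace Crest.Agent.LT

open MeasureTheory Matrix Set Filter
open Crest.MathPhysics.LiebThirring
open scoped ComplexOrder Topology

theorem T30_poly {n : ℕ} (A : EuclideanSpace ℝ (Fin n) →L[ℝ] EuclideanSpace ℝ (Fin n)) :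
    ∃ p : Polynomial ℝ, p.degree < ((n + 1 : ℕ) : WithBot ℕ) ∧
      ∀ t : ℝ, p.eval t = (ContinuousLinearMap.id ℝ (EuclideanSpace ℝ (Fin n)) + t • A).det := by
  classical
  set b := (EuclideanSpace.basisFun (Fin n) ℝ).toBasis with hb
  set M := LinearMap.toMatrix b b
    (A : EuclideanSpace ℝ (Fin n) →ₗ[ℝ] EuclideanSpace ℝ (Fin n)) with hM
  refine ⟨Matrix.det ((Polynomial.X : Polynomial ℝ) • M.map Polynomial.C
    + (1 : Matrix (Fin n) (Fin n) ℝ).map Polynomial.C), ?_, ?_⟩
  · have h := Polynomial.natDegree_det_X_add_C_le M 1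
    rw [Fintype.card_fin] at h
    calc _ ≤ _ := Polynomial.degree_le_natDegree
      _ ≤ ((n : ℕ) : WithBot ℕ) := by exact_mod_cast h
      _ < _ := by exact_mod_cast Nat.lt_succ_self n
  · intro t
    have h1 : Polynomial.eval t (Matrix.det ((Polynomial.X : Polynomial ℝ) • M.map Polynomial.C
        + (1 : Matrix (Fin n) (Fin n) ℝ).map Polynomial.C)) = Matrix.det (t • M + 1) := by
      have := RingHom.map_det (Polynomial.evalRingHom t) ((Polynomial.X : Polynomial ℝ) • M.map Polynomial.C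
        + (1 : Matrix (Fin n) (Fin n) ℝ).map Polynomial.C)
      rw [Polynomial.coe_evalRingHom] at this
      rw [this]
      congr 1
      ext i j
      by_cases hij : i = j
      · simp [hij]
        ring
      · simp [hij]
        ring
    rw [h1]
    have h2 : t • M + 1 = LinearMap.toMatrix b b
        ((ContinuousLinearMap.id ℝ (EuclideanSpace ℝ (Fin n)) + t • A :
          EuclideanSpace ℝ (Fin n) →L[ℝ] EuclideanSpace ℝ (Fin n)) :
          EuclideanSpace ℝ (Fin n) →ₗ[ℝ] EuclideanSpace ℝ (Fin n)) := by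
      rw [ContinuousLinearMap.toLinearMap_add, ContinuousLinearMap.toLinearMap_smul, map_add, map_smul,
        ContinuousLinearMap.coe_id, LinearMap.toMatrix_id, add_comm]
    rw [h2, LinearMap.det_toMatrix]

theorem T30_det_ne {n : ℕ} (A : EuclideanSpace ℝ (Fin n) →L[ℝ] EuclideanSpace ℝ (Fin n))
    (hA : ‖A‖ < 1) : (ContinuousLinearMap.id ℝ (EuclideanSpace ℝ (Fin n)) + A).det ≠ 0 := by
  intro h0
  have h1 : LinearMap.det ((ContinuousLinearMap.id ℝ (EuclideanSpace ℝ (Fin n)) + A :
      EuclideanSpace ℝ (Fin n) →L[ℝ] EuclideanSpace ℝ (Fin n)) :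
        EuclideanSpace ℝ (Fin n) →ₗ[ℝ] EuclideanSpace ℝ (Fin n)) = 0 := h0
  have h2 := LinearMap.bot_lt_ker_of_det_eq_zero h1
  obtain ⟨x, hx, hx0⟩ := (Submodule.ne_bot_iff _).1 h2.ne'
  rw [LinearMap.mem_ker] at hx
  have hx' : x + A x = 0 := by simpa using hx
  have h3 : ‖x‖ = ‖A x‖ := by
    have : x = - A x := eq_neg_of_add_eq_zero_left hx'
    conv_lhs => rw [this]
    rw [norm_neg]
  have h4 : ‖A x‖ ≤ ‖A‖ * ‖x‖ := A.le_opNorm x
  have h5 : 0 < ‖x‖ := norm_pos_iff.2 hx0
  nlinarith

theorem T30_det_pos {n : ℕ} (A : EuclideanSpace ℝ (Fin n) →L[ℝ] EuclideanSpace ℝ (Fin n))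
    (hA : ‖A‖ < 1) : 0 < (ContinuousLinearMap.id ℝ (EuclideanSpace ℝ (Fin n)) + A).det := by
  by_contra hneg
  push Not at hneg
  have hcont : ContinuousOn (fun s : ℝ =>
      (ContinuousLinearMap.id ℝ (EuclideanSpace ℝ (Fin n)) + s • A).det) (Icc 0 1) := by
    apply Continuous.continuousOn
    exact ContinuousLinearMap.continuous_det.comp (by fun_prop)
  have h0 : (ContinuousLinearMap.id ℝ (EuclideanSpace ℝ (Fin n)) + (0:ℝ) • A).det = 1 := by
    have h00 : ContinuousLinearMap.id ℝ (EuclideanSpace ℝ (Fin n)) + (0:ℝ) • A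
        = ContinuousLinearMap.id ℝ (EuclideanSpace ℝ (Fin n)) := by
      ext1 x
      simp
    rw [h00]
    show LinearMap.det (LinearMap.id) = 1
    exact LinearMap.det_id
  have h1 := intermediate_value_Icc' (zero_le_one) hcont
  have h2 : (0:ℝ) ∈ Icc ((ContinuousLinearMap.id ℝ (EuclideanSpace ℝ (Fin n)) + (1:ℝ) • A).det)
      ((ContinuousLinearMap.id ℝ (EuclideanSpace ℝ (Fin n)) + (0:ℝ) • A).det) := by
    rw [h0, one_smul]
    exact ⟨hneg, zero_le_one⟩
  obtain ⟨s, hs, hs0⟩ := h1 h2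
  refine T30_det_ne (s • A) ?_ hs0
  rw [norm_smul, Real.norm_eq_abs, abs_of_nonneg hs.1]
  calc s * ‖A‖ ≤ 1 * ‖A‖ := by
        apply mul_le_mul_of_nonneg_right hs.2 (norm_nonneg _)
    _ < 1 := by rwa [one_mul]

theorem T30_image {n : ℕ} (F : EuclideanSpace ℝ (Fin n) → EuclideanSpace ℝ (Fin n))
    (hcont : ContinuousOn F (Metric.closedBall 0 1))
    (hmaps : ∀ x, ‖x‖ < 1 → ‖F x‖ < 1) (hid : ∀ x, ‖x‖ = 1 → F x = x)
    (hopen : ∀ x, ‖x‖ < 1 → Filter.map F (𝓝 x) = 𝓝 (F x)) :
    F '' (Metric.ball 0 1) = Metric.ball 0 1 := by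
  apply Subset.antisymm
  · rintro _ ⟨x, hx, rfl⟩
    rw [mem_ball_zero_iff] at hx ⊢
    exact hmaps x hx
  · apply IsPreconnected.subset_of_closure_inter_subset (convex_ball _ _).isPreconnected
    · rw [isOpen_iff_mem_nhds]
      rintro _ ⟨x, hx, rfl⟩
      rw [← hopen x (mem_ball_zero_iff.1 hx)]
      exact Filter.image_mem_map (Metric.isOpen_ball.mem_nhds hx)
    · refine ⟨F 0, ?_, 0, by simp, rfl⟩
      rw [mem_ball_zero_iff]
      exact hmaps 0 (by simp)
    · have hcl : IsClosed (F '' (Metric.closedBall 0 1)) :=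
        ((isCompact_closedBall _ _).image_of_continuousOn hcont).isClosed
      have h1 : closure (F '' (Metric.ball 0 1)) ⊆ F '' (Metric.closedBall 0 1) :=
        closure_minimal (image_mono Metric.ball_subset_closedBall) hcl
      rintro y ⟨hy, hyb⟩
      obtain ⟨x, hx, rfl⟩ := h1 hy
      rw [mem_closedBall_zero_iff] at hx
      rcases hx.lt_or_eq with hx | hx
      · exact ⟨x, mem_ball_zero_iff.2 hx, rfl⟩
      · exfalso
        rw [hid x hx, mem_ball_zero_iff] at hyb
        linarith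

theorem T30_nodes (n : ℕ) (t₀ : ℝ) (ht₀ : 0 < t₀) :
    ∃ (v : Fin (n + 1) → ℝ) (c : Fin (n + 1) → ℝ), (∀ i, 0 ≤ v i ∧ v i ≤ t₀) ∧ ∑ i, c i = 1 ∧
      ∀ p : Polynomial ℝ, p.degree < ((n + 1 : ℕ) : WithBot ℕ) → p.eval 1 = ∑ i, c i * p.eval (v i) := by
  classical
  set v : Fin (n + 1) → ℝ := fun i => t₀ * (i : ℝ) / (n + 1) with hv
  have hn : (0:ℝ) < n + 1 := by positivity
  have hinj : Set.InjOn v ((Finset.univ : Finset (Fin (n + 1))) : Set (Fin (n + 1))) := by
    intro i _ j _ hij
    simp only [hv] at hij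
    rw [div_left_inj' hn.ne', mul_right_inj' ht₀.ne'] at hij
    exact Fin.ext (by exact_mod_cast hij)
  refine ⟨v, fun i => (Lagrange.basis Finset.univ v i).eval 1, ?_, ?_, ?_⟩
  · intro i
    refine ⟨by simp only [hv]; positivity, ?_⟩
    simp only [hv]
    rw [div_le_iff₀ hn]
    have : (i : ℝ) ≤ n := by exact_mod_cast Nat.lt_succ_iff.1 i.2
    nlinarith
  · rw [← Polynomial.eval_finsetSum, Lagrange.sum_basis hinj Finset.univ_nonempty]
    simp
  · intro p hp
    have h := Lagrange.eq_interpolate hinj (f := p) (by simpa using hp)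
    conv_lhs => rw [h]
    rw [Lagrange.interpolate_apply, Polynomial.eval_finsetSum]
    refine Finset.sum_congr rfl fun i _ => ?_
    rw [Polynomial.eval_mul, Polynomial.eval_C, mul_comm]

theorem no_C1_retraction {n : ℕ} (f : EuclideanSpace ℝ (Fin n) → EuclideanSpace ℝ (Fin n))
    (U : Set (EuclideanSpace ℝ (Fin n))) (hU : IsOpen U) (hBU : Metric.closedBall 0 1 ⊆ U)
    (hf : ContDiffOn ℝ 1 f U) (hsph : ∀ x ∈ Metric.closedBall (0 : EuclideanSpace ℝ (Fin n)) 1, ‖f x‖ = 1)
    (hid : ∀ x, ‖x‖ = 1 → f x = x) : False := by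
  classical
  -- the derivative of `g = f - id`
  set G : (EuclideanSpace ℝ (Fin n)) → ((EuclideanSpace ℝ (Fin n)) →L[ℝ] (EuclideanSpace ℝ (Fin n))) := fun x => fderiv ℝ f x - ContinuousLinearMap.id ℝ (EuclideanSpace ℝ (Fin n)) with hG
  have hGcont : ContinuousOn G (Metric.closedBall 0 1) := by
    apply ContinuousOn.sub _ continuousOn_const
    exact (hf.continuousOn_fderiv_of_isOpen hU le_rfl).mono hBU
  obtain ⟨C, hC⟩ := (isCompact_closedBall (0:(EuclideanSpace ℝ (Fin n))) 1).exists_bound_of_continuousOn hGcont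
  have hC0 : 0 ≤ C := le_trans (norm_nonneg _) (hC 0 (by simp))
  have hfd : ∀ x ∈ Metric.closedBall (0:(EuclideanSpace ℝ (Fin n))) 1, HasStrictFDerivAt f (fderiv ℝ f x) x := by
    intro x hx
    exact (hf.contDiffAt (hU.mem_nhds (hBU hx))).hasStrictFDerivAt one_ne_zero
  have hgd : ∀ x ∈ Metric.closedBall (0:(EuclideanSpace ℝ (Fin n))) 1, HasStrictFDerivAt (fun y => f y - y) (G x) x := by
    intro x hx
    exact (hfd x hx).sub (hasStrictFDerivAt_id x)
  have hLip : ∀ x ∈ Metric.closedBall (0:(EuclideanSpace ℝ (Fin n))) 1, ∀ y ∈ Metric.closedBall (0:(EuclideanSpace ℝ (Fin n))) 1,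
      ‖(f y - y) - (f x - x)‖ ≤ C * ‖y - x‖ := by
    intro x hx y hy
    exact (convex_closedBall (0:(EuclideanSpace ℝ (Fin n))) 1).norm_image_sub_le_of_norm_hasFDerivWithin_le
      (f := fun y => f y - y) (f' := G)
      (fun z hz => (hgd z hz).hasFDerivAt.hasFDerivWithinAt) hC hx hy
  set t₀ : ℝ := 1 / (2 * (C + 1)) with ht₀
  have ht₀pos : 0 < t₀ := by positivity
  have ht₀C : t₀ * C < 1 := by
    rw [ht₀, one_div, inv_mul_lt_iff₀ (by positivity)]
    linarith
  have ht₀1 : t₀ < 1 := by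
    rw [ht₀, one_div]
    apply inv_lt_one_of_one_lt₀
    linarith
  -- the volume identity for small `t`
  have key : ∀ t : ℝ, 0 ≤ t → t ≤ t₀ →
      ∫ x in Metric.ball (0:(EuclideanSpace ℝ (Fin n))) 1, (ContinuousLinearMap.id ℝ (EuclideanSpace ℝ (Fin n)) + t • G x).det = (volume (Metric.ball (0:(EuclideanSpace ℝ (Fin n))) 1)).toReal := by
    intro t ht0 ht
    have htC : t * C < 1 := lt_of_le_of_lt (mul_le_mul_of_nonneg_right ht hC0) ht₀C
    set F : (EuclideanSpace ℝ (Fin n)) → (EuclideanSpace ℝ (Fin n)) := fun x => x + t • (f x - x) with hF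
    have hFd : ∀ x ∈ Metric.closedBall (0:(EuclideanSpace ℝ (Fin n))) 1,
        HasStrictFDerivAt F (ContinuousLinearMap.id ℝ (EuclideanSpace ℝ (Fin n)) + t • G x) x := by
      intro x hx
      exact (hasStrictFDerivAt_id x).add ((hgd x hx).const_smul t)
    have hpos : ∀ x ∈ Metric.closedBall (0:(EuclideanSpace ℝ (Fin n))) 1, 0 < (ContinuousLinearMap.id ℝ (EuclideanSpace ℝ (Fin n)) + t • G x).det := by
      intro x hx
      apply T30_det_pos
      rw [norm_smul, Real.norm_eq_abs, abs_of_nonneg ht0]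
      exact lt_of_le_of_lt (mul_le_mul_of_nonneg_left (hC x hx) ht0) htC
    have hinj : InjOn F (Metric.ball (0:(EuclideanSpace ℝ (Fin n))) 1) := by
      intro x hx y hy hxy
      simp only [hF] at hxy
      have h1 : x - y = t • ((f y - y) - (f x - x)) := by
        have h2 : x - y = t • (f y - y) - t • (f x - x) := by
          rw [sub_eq_sub_iff_add_eq_add, hxy, add_comm]
        rw [h2, ← smul_sub]
      have h3 : ‖x - y‖ ≤ t * (C * ‖x - y‖) := by
        calc ‖x - y‖ = ‖t • ((f y - y) - (f x - x))‖ := by rw [← h1]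
          _ = t * ‖(f y - y) - (f x - x)‖ := by rw [norm_smul, Real.norm_eq_abs, abs_of_nonneg ht0]
          _ ≤ t * (C * ‖y - x‖) := by
              apply mul_le_mul_of_nonneg_left _ ht0
              exact hLip x (Metric.ball_subset_closedBall hx) y (Metric.ball_subset_closedBall hy)
          _ = _ := by rw [norm_sub_rev y x]
      have h4 : ‖x - y‖ = 0 := by
        by_contra h
        have h5 : 0 < ‖x - y‖ := lt_of_le_of_ne (norm_nonneg _) (Ne.symm h)
        nlinarith
      exact sub_eq_zero.1 (norm_eq_zero.1 h4)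
    have himage : F '' (Metric.ball 0 1) = Metric.ball 0 1 := by
      apply T30_image
      · intro x hx
        exact (hFd x hx).hasFDerivAt.continuousAt.continuousWithinAt
      · intro x hx
        have h1 : F x = (1 - t) • x + t • f x := by
          simp only [hF]
          module
        rw [h1]
        have h2 : ‖f x‖ = 1 := hsph x (by simpa using hx.le)
        calc ‖(1 - t) • x + t • f x‖ ≤ ‖(1 - t) • x‖ + ‖t • f x‖ := norm_add_le _ _
          _ = (1 - t) * ‖x‖ + t := by
              rw [norm_smul, norm_smul, h2, Real.norm_eq_abs, Real.norm_eq_abs,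
                abs_of_nonneg ht0, abs_of_nonneg (by linarith : 0 ≤ 1 - t), mul_one]
          _ < 1 := by nlinarith
      · intro x hx
        simp only [hF]
        rw [hid x hx]
        simp
      · intro x hx
        have hx' : x ∈ Metric.closedBall (0:(EuclideanSpace ℝ (Fin n))) 1 := by simpa using hx.le
        have h1 := hFd x hx'
        have h2 := hpos x hx'
        set A := ContinuousLinearMap.id ℝ (EuclideanSpace ℝ (Fin n)) + t • G x with hA
        have h3 : HasStrictFDerivAt F ((A.toContinuousLinearEquivOfDetNeZero h2.ne' : (EuclideanSpace ℝ (Fin n)) ≃L[ℝ] (EuclideanSpace ℝ (Fin n))) : (EuclideanSpace ℝ (Fin n)) →L[ℝ] (EuclideanSpace ℝ (Fin n))) x := by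
          rw [ContinuousLinearMap.coe_toContinuousLinearEquivOfDetNeZero]
          exact h1
        exact h3.map_nhds_eq_of_equiv
    have h5 := integral_image_eq_integral_abs_det_fderiv_smul (volume : Measure (EuclideanSpace ℝ (Fin n))) (s := Metric.ball (0:(EuclideanSpace ℝ (Fin n))) 1)
      (f := F) (f' := fun x => ContinuousLinearMap.id ℝ (EuclideanSpace ℝ (Fin n)) + t • G x) measurableSet_ball
      (fun x hx => (hFd x (Metric.ball_subset_closedBall hx)).hasFDerivAt.hasFDerivWithinAt) hinj (fun _ => (1:ℝ))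
    rw [himage] at h5
    have h6 : ∫ x in Metric.ball (0:(EuclideanSpace ℝ (Fin n))) 1, |(ContinuousLinearMap.id ℝ (EuclideanSpace ℝ (Fin n)) + t • G x).det| • (1:ℝ)
        = ∫ x in Metric.ball (0:(EuclideanSpace ℝ (Fin n))) 1, (ContinuousLinearMap.id ℝ (EuclideanSpace ℝ (Fin n)) + t • G x).det := by
      apply setIntegral_congr_fun measurableSet_ball
      intro x hx
      simp only [smul_eq_mul, mul_one]
      exact abs_of_pos (hpos x (Metric.ball_subset_closedBall hx))
    rw [← h6, ← h5]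
    simp [Measure.real]
  -- interpolation
  obtain ⟨v, c, hv, hc, hp⟩ := T30_nodes n t₀ ht₀pos
  have hdet : ∀ x, (ContinuousLinearMap.id ℝ (EuclideanSpace ℝ (Fin n)) + (1:ℝ) • G x).det
      = ∑ i, c i * (ContinuousLinearMap.id ℝ (EuclideanSpace ℝ (Fin n)) + (v i) • G x).det := by
    intro x
    obtain ⟨p, hpd, hpe⟩ := T30_poly (G x)
    rw [← hpe 1, hp p hpd]
    refine Finset.sum_congr rfl fun i _ => ?_
    rw [hpe]
  have hint : ∀ t : ℝ, IntegrableOn (fun x => (ContinuousLinearMap.id ℝ (EuclideanSpace ℝ (Fin n)) + t • G x).det)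
      (Metric.ball (0:(EuclideanSpace ℝ (Fin n))) 1) volume := by
    intro t
    apply IntegrableOn.mono_set _ Metric.ball_subset_closedBall
    apply ContinuousOn.integrableOn_compact (isCompact_closedBall _ _)
    exact ContinuousLinearMap.continuous_det.comp_continuousOn
      (continuousOn_const.add (hGcont.const_smul t))
  have hfin : ∫ x in Metric.ball (0:(EuclideanSpace ℝ (Fin n))) 1, (ContinuousLinearMap.id ℝ (EuclideanSpace ℝ (Fin n)) + (1:ℝ) • G x).det
      = (volume (Metric.ball (0:(EuclideanSpace ℝ (Fin n))) 1)).toReal := by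
    calc ∫ x in Metric.ball (0:(EuclideanSpace ℝ (Fin n))) 1, (ContinuousLinearMap.id ℝ (EuclideanSpace ℝ (Fin n)) + (1:ℝ) • G x).det
        = ∫ x in Metric.ball (0:(EuclideanSpace ℝ (Fin n))) 1, ∑ i, c i * (ContinuousLinearMap.id ℝ (EuclideanSpace ℝ (Fin n)) + (v i) • G x).det := by
          simp_rw [hdet]
      _ = ∑ i, ∫ x in Metric.ball (0:(EuclideanSpace ℝ (Fin n))) 1, c i * (ContinuousLinearMap.id ℝ (EuclideanSpace ℝ (Fin n)) + (v i) • G x).det := by
          rw [integral_finsetSum]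
          intro i _
          exact (hint (v i)).const_mul (c i)
      _ = ∑ i, c i * (volume (Metric.ball (0:(EuclideanSpace ℝ (Fin n))) 1)).toReal := by
          refine Finset.sum_congr rfl fun i _ => ?_
          rw [integral_const_mul, key (v i) (hv i).1 (hv i).2]
      _ = _ := by rw [← Finset.sum_mul, hc, one_mul]
  -- the determinant vanishes
  have hzero : ∫ x in Metric.ball (0:(EuclideanSpace ℝ (Fin n))) 1, (ContinuousLinearMap.id ℝ (EuclideanSpace ℝ (Fin n)) + (1:ℝ) • G x).det = 0 := by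
    rw [← integral_zero (α := (EuclideanSpace ℝ (Fin n))) (μ := volume.restrict (Metric.ball (0:(EuclideanSpace ℝ (Fin n))) 1)) (G := ℝ)]
    apply setIntegral_congr_fun measurableSet_ball
    intro x hx
    have hx' : x ∈ Metric.closedBall (0:(EuclideanSpace ℝ (Fin n))) 1 := Metric.ball_subset_closedBall hx
    have h1 : ContinuousLinearMap.id ℝ (EuclideanSpace ℝ (Fin n)) + (1:ℝ) • G x = fderiv ℝ f x := by
      simp [hG]
    show (ContinuousLinearMap.id ℝ (EuclideanSpace ℝ (Fin n)) + (1:ℝ) • G x).det = 0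
    rw [h1]
    by_contra hne
    have hd : HasFDerivAt f (fderiv ℝ f x) x := (hfd x hx').hasFDerivAt
    have h2 : HasFDerivAt (fun y => ‖f y‖ ^ 2) (2 • (innerSL ℝ (f x)).comp (fderiv ℝ f x)) x := hd.norm_sq
    have h3 : HasFDerivAt (fun y => ‖f y‖ ^ 2) (0 : (EuclideanSpace ℝ (Fin n)) →L[ℝ] ℝ) x := by
      apply (hasFDerivAt_const (1:ℝ) x).congr_of_eventuallyEq
      filter_upwards [Metric.isOpen_ball.mem_nhds hx] with y hy
      rw [hsph y (Metric.ball_subset_closedBall hy)]
      norm_num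
    have h4 := h2.unique h3
    set L := (fderiv ℝ f x).toContinuousLinearEquivOfDetNeZero hne
    have h5 : (2 • (innerSL ℝ (f x)).comp (fderiv ℝ f x)) (L.symm (f x)) = 0 := by
      rw [h4]; rfl
    have h6 : fderiv ℝ f x (L.symm (f x)) = f x := by
      have : L (L.symm (f x)) = f x := L.apply_symm_apply _
      exact this
    have h7 : (2:ℝ) * ‖f x‖ ^ 2 = 0 := by
      have h8 : (2 • (innerSL ℝ (f x)).comp (fderiv ℝ f x)) (L.symm (f x)) = 2 * ‖f x‖ ^ 2 := by
        simp only [_root_.smul_apply, ContinuousLinearMap.comp_apply, h6, innerSL_apply_apply,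
          real_inner_self_eq_norm_sq]
        simp
      rw [← h8]; exact h5
    rw [hsph x hx'] at h7
    norm_num at h7
  rw [hzero] at hfin
  have hvol : 0 < (volume (Metric.ball (0:(EuclideanSpace ℝ (Fin n))) 1)).toReal := by
    apply ENNReal.toReal_pos
    · exact (Metric.measure_ball_pos _ _ one_pos).ne'
    · exact measure_ball_lt_top.ne
  linarith

end Crest.Agent.LT
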