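import Crest.Agent.LT_Defs
import Crest.Agent.LT_T30
/-!
Task LT-T31 (Brouwer 2): Brouwer for `C¹` maps of the ball: if `P` has no fixed point, with
`u = (x - P x)/‖x - P x‖`, `r(x) = x + (-⟪x,u⟫ + √(1 - ‖x‖² + ⟪x,u⟫²)) u` is a `C¹` retraction near the closed ball
(`1 - ‖x‖² + ⟪x,u⟫² > 0` on the closed ball).
-/

set_option autoImplicit false

namespace Crest.Agent.LT

open MeasureTheory Matrix Set Filter
open Crest.MathPhysics.LiebThirring
open scoped ComplexOrder Topology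

theorem brouwer_C1 {n : ℕ} (f : EuclideanSpace ℝ (Fin n) → EuclideanSpace ℝ (Fin n))
    (hf : ContDiff ℝ 1 f) (hmaps : ∀ x, ‖x‖ ≤ 1 → ‖f x‖ ≤ 1) : ∃ x, ‖x‖ ≤ 1 ∧ f x = x := by
  by_contra hno
  push Not at hno
  set d : EuclideanSpace ℝ (Fin n) → EuclideanSpace ℝ (Fin n) := fun x => x - f x with hd
  have hdne : ∀ x, ‖x‖ ≤ 1 → d x ≠ 0 := fun x hx h => hno x hx (sub_eq_zero.1 h).symm
  set D : EuclideanSpace ℝ (Fin n) → ℝ := fun x => (inner ℝ x (d x)) ^ 2 + ‖d x‖ ^ 2 * (1 - ‖x‖ ^ 2) with hD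
  set lam : EuclideanSpace ℝ (Fin n) → ℝ := fun x => (-(inner ℝ x (d x)) + Real.sqrt (D x)) / ‖d x‖ ^ 2 with hlam
  have hdc : ContDiff ℝ 1 d := contDiff_id.sub hf
  have hic : ContDiff ℝ 1 (fun x => (inner ℝ x (d x) : ℝ)) := contDiff_id.inner ℝ hdc
  have hnc : ContDiff ℝ 1 (fun x => ‖d x‖ ^ 2) := hdc.norm_sq ℝ
  have hDc : ContDiff ℝ 1 D :=
    (hic.pow 2).add (hnc.mul (contDiff_const.sub (contDiff_id.norm_sq ℝ)))
  -- positivity of the inner product on the sphere
  have hsph : ∀ x : EuclideanSpace ℝ (Fin n), ‖x‖ = 1 → 0 < (inner ℝ x (d x) : ℝ) := by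
    intro x hx
    have h1 : (inner ℝ x (d x) : ℝ) = 1 - inner ℝ x (f x) := by
      simp only [hd]
      rw [inner_sub_right, real_inner_self_eq_norm_sq, hx]
      norm_num
    have h2 : ‖d x‖ ^ 2 = 1 - 2 * inner ℝ x (f x) + ‖f x‖ ^ 2 := by
      simp only [hd]
      rw [norm_sub_sq_real, hx]
      norm_num
    have h3 : 0 < ‖d x‖ ^ 2 := by
      have := norm_pos_iff.2 (hdne x hx.le)
      positivity
    have h4 := hmaps x hx.le
    have h5 : ‖f x‖ ^ 2 ≤ 1 := by nlinarith [norm_nonneg (f x)]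
    rw [h1]
    linarith
  have hDpos : ∀ x : EuclideanSpace ℝ (Fin n), ‖x‖ ≤ 1 → 0 < D x := by
    intro x hx
    rcases hx.lt_or_eq with h | h
    · have h1 : 0 < ‖d x‖ ^ 2 := by
        have := norm_pos_iff.2 (hdne x hx)
        positivity
      have h2 : 0 < 1 - ‖x‖ ^ 2 := by nlinarith [norm_nonneg x]
      simp only [hD]
      positivity
    · simp only [hD]
      rw [h]
      have := hsph x h
      positivity
  set U : Set (EuclideanSpace ℝ (Fin n)) := {x | d x ≠ 0} ∩ {x | 0 < D x} with hU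
  have hUo : IsOpen U :=
    (isOpen_ne_fun hdc.continuous continuous_const).inter (isOpen_lt continuous_const hDc.continuous)
  refine no_C1_retraction (fun x => x + lam x • d x) U hUo ?_ ?_ ?_ ?_
  · intro x hx
    rw [mem_closedBall_zero_iff] at hx
    exact ⟨hdne x hx, hDpos x hx⟩
  · intro x hx
    apply ContDiffAt.contDiffWithinAt
    have hl : ContDiffAt ℝ 1 lam x := by
      apply ContDiffAt.div
      · apply hic.contDiffAt.neg.add
        exact hDc.contDiffAt.sqrt (ne_of_gt hx.2)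
      · exact hnc.contDiffAt
      · have := norm_pos_iff.2 hx.1
        positivity
    exact contDiffAt_id.add (hl.smul hdc.contDiffAt)
  · intro x hx
    rw [mem_closedBall_zero_iff] at hx
    have ha : 0 < ‖d x‖ ^ 2 := by
      have := norm_pos_iff.2 (hdne x hx)
      positivity
    have hs : Real.sqrt (D x) ^ 2 = D x := Real.sq_sqrt (hDpos x hx).le
    have h1 : ‖x + lam x • d x‖ ^ 2 = 1 := by
      rw [norm_add_sq_real, inner_smul_right, norm_smul, mul_pow, Real.norm_eq_abs, sq_abs]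
      have h2 : lam x * ‖d x‖ ^ 2 = -(inner ℝ x (d x)) + Real.sqrt (D x) := by
        simp only [hlam]
        rw [div_mul_cancel₀ _ ha.ne']
      have h3 : ‖d x‖ ^ 2 * (2 * (lam x * inner ℝ x (d x)) + lam x ^ 2 * ‖d x‖ ^ 2) = ‖d x‖ ^ 2 * (1 - ‖x‖ ^ 2) := by
        have h4 : ‖d x‖ ^ 2 * (2 * (lam x * inner ℝ x (d x)) + lam x ^ 2 * ‖d x‖ ^ 2)
            = 2 * (lam x * ‖d x‖ ^ 2) * inner ℝ x (d x) + (lam x * ‖d x‖ ^ 2) ^ 2 := by ring
        rw [h4, h2]
        have h5 : ‖d x‖ ^ 2 * (1 - ‖x‖ ^ 2) = Real.sqrt (D x) ^ 2 - (inner ℝ x (d x)) ^ 2 := by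
          rw [hs]
          simp only [hD]
          ring
        rw [h5]
        ring
      have h6 := mul_left_cancel₀ ha.ne' h3
      linarith
    nlinarith [norm_nonneg (x + lam x • d x)]
  · intro x hx
    have h1 : D x = (inner ℝ x (d x)) ^ 2 := by
      simp only [hD]
      rw [hx]
      ring
    have h2 : lam x = 0 := by
      simp only [hlam]
      rw [h1, Real.sqrt_sq (hsph x hx).le]
      simp
    show x + lam x • d x = x
    rw [h2]
    simp

end Crest.Agent.LT
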