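import Crest.Agent.LT_Defs
import Crest.Agent.LT_T31
/-!
Task LT-T32 (Brouwer 3): Brouwer for continuous self-maps of the closed unit ball, by smooth approximation
(e.g. extend by `f ∘ (projection onto the ball)` and use `exists_contMDiff...`/mollification/Stone–Weierstrass, scale into the
ball), then compactness.
-/

set_option autoImplicit false

namespace Crest.Agent.LT

open MeasureTheory Matrix Set Filter
open Crest.MathPhysics.LiebThirring
open scoped ComplexOrder Topology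

/-- smooth uniform approximation of continuous maps -/
theorem T32_approx {n : ℕ} (g : EuclideanSpace ℝ (Fin n) → EuclideanSpace ℝ (Fin n))
    (hg : Continuous g) (ε : ℝ) (hε : 0 < ε) :
    ∃ h : EuclideanSpace ℝ (Fin n) → EuclideanSpace ℝ (Fin n), ContDiff ℝ 1 h ∧
      ∀ x, dist (h x) (g x) < ε := by
  obtain ⟨h, hh⟩ := exists_contMDiffMap_forall_mem_convex_of_local_const (n := 1)
    (modelWithCornersSelf ℝ (EuclideanSpace ℝ (Fin n)))
    (t := fun x => Metric.ball (g x) ε) (fun x => convex_ball _ _) (fun x => by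
      refine ⟨g x, ?_⟩
      have := (hg.tendsto x) (Metric.ball_mem_nhds (g x) hε)
      filter_upwards [this] with y hy
      simp only [mem_preimage, Metric.mem_ball] at hy ⊢
      rwa [dist_comm])
  exact ⟨h, contMDiff_iff_contDiff.1 h.contMDiff, fun x => hh x⟩

/-- the radial retraction -/
theorem T32_retract {n : ℕ} : ∃ p : EuclideanSpace ℝ (Fin n) → EuclideanSpace ℝ (Fin n),
    Continuous p ∧ (∀ x, ‖p x‖ ≤ 1) ∧ ∀ x, ‖x‖ ≤ 1 → p x = x := by
  refine ⟨fun x => (max 1 ‖x‖)⁻¹ • x, ?_, ?_, ?_⟩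
  · refine Continuous.smul (Continuous.inv₀ (continuous_const.max continuous_norm) ?_) continuous_id
    intro x
    have : (0 : ℝ) < max 1 ‖x‖ := lt_of_lt_of_le one_pos (le_max_left _ _)
    exact this.ne'
  · intro x
    have h0 : (0 : ℝ) < max 1 ‖x‖ := lt_of_lt_of_le one_pos (le_max_left _ _)
    rw [norm_smul, norm_inv, Real.norm_of_nonneg h0.le, inv_mul_le_iff₀ h0, mul_one]
    exact le_max_right _ _
  · intro x hx
    simp only [max_eq_left hx, inv_one, one_smul]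

theorem brouwer_ball {n : ℕ} (f : EuclideanSpace ℝ (Fin n) → EuclideanSpace ℝ (Fin n))
    (hf : ContinuousOn f (Metric.closedBall 0 1)) (hmaps : ∀ x, ‖x‖ ≤ 1 → ‖f x‖ ≤ 1) :
    ∃ x, ‖x‖ ≤ 1 ∧ f x = x := by
  obtain ⟨p, hp, hp1, hp2⟩ := T32_retract (n := n)
  have hgc : Continuous (f ∘ p) := by
    have : ContinuousOn (f ∘ p) univ := hf.comp hp.continuousOn (fun x _ => by
      simpa using hp1 x)
    exact continuousOn_univ.1 this
  -- minimum of `‖f x - x‖`
  have hcomp : IsCompact (Metric.closedBall (0 : EuclideanSpace ℝ (Fin n)) 1) :=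
    isCompact_closedBall _ _
  have hcont : ContinuousOn (fun x => ‖f x - x‖) (Metric.closedBall 0 1) :=
    (hf.sub continuousOn_id).norm
  obtain ⟨x₀, hx₀, hmin⟩ := hcomp.exists_isMinOn ⟨0, by simp⟩ hcont
  refine ⟨x₀, by simpa using hx₀, ?_⟩
  by_contra hne
  have hpos : 0 < ‖f x₀ - x₀‖ := norm_pos_iff.2 (sub_ne_zero.2 hne)
  set ε := ‖f x₀ - x₀‖ / 3 with hεdef
  have hε : 0 < ε := by positivity
  obtain ⟨h, hh1, hh2⟩ := T32_approx (f ∘ p) hgc ε hε
  have h1ε : 0 < 1 + ε := by linarith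
  have hhn : ∀ x, ‖h x‖ ≤ 1 + ε := by
    intro x
    have e1 := hh2 x
    rw [dist_eq_norm] at e1
    have e2 : ‖(f ∘ p) x‖ ≤ 1 := hmaps _ (hp1 x)
    calc ‖h x‖ = ‖(h x - (f ∘ p) x) + (f ∘ p) x‖ := by rw [sub_add_cancel]
      _ ≤ ‖h x - (f ∘ p) x‖ + ‖(f ∘ p) x‖ := norm_add_le _ _
      _ ≤ 1 + ε := by linarith
  obtain ⟨x, hx, hfx⟩ := brouwer_C1 (fun x => (1 + ε)⁻¹ • h x) (by fun_prop) (fun x _ => by
    rw [norm_smul, norm_inv, Real.norm_of_nonneg h1ε.le, inv_mul_le_iff₀ h1ε, mul_one]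
    exact hhn x)
  have e1 : ‖f x - h x‖ < ε := by
    have := hh2 x
    rw [dist_comm, dist_eq_norm] at this
    simpa [hp2 x hx] using this
  have e2 : ‖h x - x‖ ≤ ε := by
    have e3 : h x = (1 + ε) • x := by
      have e6 : (1 + ε)⁻¹ • h x = x := hfx
      calc h x = (1 + ε) • ((1 + ε)⁻¹ • h x) := by
            rw [smul_smul, mul_inv_cancel₀ h1ε.ne', one_smul]
        _ = (1 + ε) • x := by rw [e6]
    rw [e3, add_smul, one_smul, add_sub_cancel_left, norm_smul, Real.norm_of_nonneg hε.le]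
    nlinarith
  have e4 : ‖f x₀ - x₀‖ ≤ ‖f x - x‖ := hmin (by simpa using hx)
  have e5 : ‖f x - x‖ ≤ ‖f x - h x‖ + ‖h x - x‖ := by
    calc ‖f x - x‖ = ‖(f x - h x) + (h x - x)‖ := by rw [sub_add_sub_cancel]
      _ ≤ _ := norm_add_le _ _
  have : ‖f x₀ - x₀‖ = 3 * ε := by rw [hεdef]; ring
  linarith

end Crest.Agent.LT
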