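import Crest.Agent.LT_Defs
import Crest.Agent.LT_T32
/-!
Task LT-T33 (Brouwer 4): compact convex sets in finite dimension. Transport to `EuclideanSpace ℝ (Fin n)` by a
continuous linear equivalence, rescale into the unit ball, compose with the nearest point projection (1-Lipschitz;
`exists_norm_eq_iInf_of_complete_convex`, `norm_eq_iInf_iff_real_inner_le_zero`).
-/

set_option autoImplicit false

namespace Crest.Agent.LT

open MeasureTheory Matrix Set Filter
open Crest.MathPhysics.LiebThirring
open scoped ComplexOrder Topology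

/-- Nearest point retraction onto a compact convex set of an inner product space. -/
theorem T33_retraction {F : Type*} [NormedAddCommGroup F] [InnerProductSpace ℝ F] {K : Set F}
    (hc : Convex ℝ K) (hK : IsCompact K) (hne : K.Nonempty) :
    ∃ P : F → F, Continuous P ∧ (∀ x, P x ∈ K) ∧ ∀ x ∈ K, P x = x := by
  classical
  have h1 : ∀ x : F, ∃ v ∈ K, ‖x - v‖ = ⨅ w : K, ‖x - w‖ :=
    fun x => exists_norm_eq_iInf_of_complete_convex hne hK.isComplete hc x
  choose P hP hPn using h1
  have h2 : ∀ x, ∀ w ∈ K, inner ℝ (x - P x) (w - P x) ≤ 0 := fun x =>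
    (norm_eq_iInf_iff_real_inner_le_zero hc (hP x)).1 (hPn x)
  have h3 : LipschitzWith 1 P := by
    refine LipschitzWith.of_dist_le_mul fun x y => ?_
    simp only [NNReal.coe_one, one_mul, dist_eq_norm]
    have a1 := h2 x (P y) (hP y)
    have a2 := h2 y (P x) (hP x)
    have a3 : ‖P x - P y‖ ^ 2 ≤ inner ℝ (x - y) (P x - P y) := by
      have e1 : inner ℝ (x - P x) (P y - P x) = - inner ℝ (x - P x) (P x - P y) := by
        rw [← inner_neg_right, neg_sub]
      have e2 : inner ℝ (x - y) (P x - P y) =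
          inner ℝ (x - P x) (P x - P y) + inner ℝ (P x - P y) (P x - P y) -
            inner ℝ (y - P y) (P x - P y) := by
        rw [← inner_add_left, ← inner_sub_left]
        congr 1
        abel
      rw [e2, real_inner_self_eq_norm_sq]
      rw [e1] at a1
      linarith
    have a4 : inner ℝ (x - y) (P x - P y) ≤ ‖x - y‖ * ‖P x - P y‖ := real_inner_le_norm _ _
    by_cases h0 : ‖P x - P y‖ = 0
    · rw [h0]; exact norm_nonneg _
    · have h0' : 0 < ‖P x - P y‖ := lt_of_le_of_ne (norm_nonneg _) (Ne.symm h0)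
      have : ‖P x - P y‖ * ‖P x - P y‖ ≤ ‖x - y‖ * ‖P x - P y‖ := by
        rw [← sq]; exact a3.trans a4
      exact le_of_mul_le_mul_right this h0'
  refine ⟨P, h3.continuous, hP, fun x hx => ?_⟩
  have := h2 x x hx
  rw [real_inner_self_eq_norm_sq] at this
  have h5 : ‖x - P x‖ = 0 := by
    have := sq_nonneg ‖x - P x‖
    nlinarith
  exact (sub_eq_zero.1 (norm_eq_zero.1 h5)).symm

theorem brouwer_convex {E : Type*} [NormedAddCommGroup E] [NormedSpace ℝ E] [FiniteDimensional ℝ E]
    {s : Set E} (hc : Convex ℝ s) (hs : IsCompact s) (hne : s.Nonempty) (f : E → E)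
    (hf : ContinuousOn f s) (hmaps : MapsTo f s s) : ∃ x ∈ s, f x = x := by
  classical
  let F := EuclideanSpace ℝ (Fin (Module.finrank ℝ E))
  let e : E ≃L[ℝ] F := ContinuousLinearEquiv.ofFinrankEq (by simp [F])
  -- rescale
  obtain ⟨R, hR0, hR⟩ : ∃ R : ℝ, 0 < R ∧ ∀ x ∈ s, ‖e x‖ ≤ R := by
    have hb : Bornology.IsBounded (e '' s) := (hs.image e.continuous).isBounded
    obtain ⟨R, hR⟩ := hb.exists_norm_le
    exact ⟨max R 1, by positivity, fun x hx => (hR _ ⟨x, hx, rfl⟩).trans (le_max_left _ _)⟩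
  let T : E → F := fun x => R⁻¹ • e x
  let S : F → E := fun y => e.symm (R • y)
  have hST : ∀ x, S (T x) = x := by
    intro x
    simp only [S, T, smul_smul, mul_inv_cancel₀ hR0.ne', one_smul, ContinuousLinearEquiv.symm_apply_apply]
  have hTS : ∀ y, T (S y) = y := by
    intro y
    simp only [S, T, ContinuousLinearEquiv.apply_symm_apply, smul_smul, inv_mul_cancel₀ hR0.ne', one_smul]
  have hTc : Continuous T := (continuous_const_smul R⁻¹).comp e.continuous
  have hSc : Continuous S := e.symm.continuous.comp (continuous_const_smul R)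
  let K : Set F := T '' s
  have hKc : Convex ℝ K := by
    rintro _ ⟨x, hx, rfl⟩ _ ⟨y, hy, rfl⟩ a b ha hb hab
    refine ⟨a • x + b • y, hc hx hy ha hb hab, ?_⟩
    simp only [T, map_add, map_smul, smul_add]
    rw [smul_comm R⁻¹ a, smul_comm R⁻¹ b]
  have hKs : IsCompact K := hs.image hTc
  have hKne : K.Nonempty := hne.image T
  obtain ⟨P, hPc, hPK, hPid⟩ := T33_retraction hKc hKs hKne
  have hSK : ∀ y ∈ K, S y ∈ s := by
    rintro _ ⟨x, hx, rfl⟩
    rw [hST]; exact hx
  have hball : ∀ y ∈ K, ‖y‖ ≤ 1 := by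
    rintro _ ⟨x, hx, rfl⟩
    simp only [T, norm_smul, norm_inv, Real.norm_of_nonneg hR0.le]
    rw [inv_mul_le_iff₀ hR0, mul_one]
    exact hR x hx
  let g : F → F := fun y => T (f (S (P y)))
  have hgc : ContinuousOn g (Metric.closedBall 0 1) := by
    have h1 : ContinuousOn (fun y => f (S (P y))) (Metric.closedBall 0 1) :=
      hf.comp (hSc.comp hPc).continuousOn (fun y _ => hSK _ (hPK y))
    exact hTc.comp_continuousOn h1
  have hgK : ∀ y, g y ∈ K := fun y => ⟨_, hmaps (hSK _ (hPK y)), rfl⟩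
  obtain ⟨y, hy1, hy2⟩ := brouwer_ball g hgc (fun y _ => hball _ (hgK y))
  have hyK : y ∈ K := hy2 ▸ hgK y
  refine ⟨S y, hSK y hyK, ?_⟩
  have h6 : T (f (S (P y))) = y := hy2
  rw [hPid y hyK] at h6
  have h7 := congrArg S h6
  rwa [hST] at h7

end Crest.Agent.LT
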