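import Crest.Agent.NI_Geo

set_option autoImplicit false
open scoped ContDiff
open MeasureTheory

namespace NI

private theorem B1_Dv_Xs (v : ℝ × ℝ) : Dv v Xs = v.1 • (1 : Sm) := by
  apply sm_ext; intro p
  rw [Dv_ap]
  have : (Xs : ℝ × ℝ → ℝ) = Prod.fst := rfl
  rw [this, fderiv_fst]
  simp

private theorem B1_Dv_Xt (v : ℝ × ℝ) : Dv v Xt = v.2 • (1 : Sm) := by
  apply sm_ext; intro p
  rw [Dv_ap]
  have : (Xt : ℝ × ℝ → ℝ) = Prod.snd := rfl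
  rw [this, fderiv_snd]
  simp

/-- iterated derivatives of the bump -/
private noncomputable def bk : ℕ → ℝ → ℝ
  | 0 => bb
  | k + 1 => deriv (bk k)

private theorem bk_smooth : ∀ k, ContDiff ℝ ∞ (bk k)
  | 0 => ct_contDiff
  | k + 1 => contDiff_deriv (bk_smooth k)

private theorem bk_zero : ∀ k x, 1 < |x| → bk k x = 0
  | 0, x, hx => ct_zero (by norm_num) (by norm_num) hx.le
  | k + 1, x, hx => by
    have hop : IsOpen {y : ℝ | 1 < |y|} := isOpen_lt continuous_const continuous_abs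
    have : bk k =ᶠ[nhds x] fun _ => 0 :=
      Filter.eventually_of_mem (hop.mem_nhds hx) fun y hy => bk_zero k y hy
    show deriv (bk k) x = 0
    rw [this.deriv_eq, deriv_const]

private theorem bk_bd (k : ℕ) : ∃ M : ℝ, 1 ≤ M ∧ ∀ x, |bk k x| ≤ M := by
  obtain ⟨M, hM⟩ := (isCompact_Icc (a := (-1 : ℝ)) (b := 1)).exists_bound_of_continuousOn
    (bk_smooth k).continuous.continuousOn
  refine ⟨max M 1, le_max_right _ _, fun x => ?_⟩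
  by_cases hx : |x| ≤ 1
  · exact (hM x (abs_le.mp hx)).trans (le_max_left _ _)
  · rw [bk_zero k x (not_le.mp hx), abs_zero]
    exact zero_le_one.trans (le_max_right _ _)

private theorem bk_bd3 : ∃ M : ℝ, 1 ≤ M ∧ ∀ k ≤ 3, ∀ x, |bk k x| ≤ M := by
  obtain ⟨M0, h0, h0'⟩ := bk_bd 0
  obtain ⟨M1, h1, h1'⟩ := bk_bd 1
  obtain ⟨M2, h2, h2'⟩ := bk_bd 2
  obtain ⟨M3, h3, h3'⟩ := bk_bd 3
  refine ⟨M0 + M1 + M2 + M3, by linarith, fun k hk x => ?_⟩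
  interval_cases k
  · exact (h0' x).trans (by linarith)
  · exact (h1' x).trans (by linarith)
  · exact (h2' x).trans (by linarith)
  · exact (h3' x).trans (by linarith)

/-- products of derivatives of bumps -/
private noncomputable def Zk (r ϖ t0 : ℝ) (a b : ℕ) : Sm :=
  cmp (bk a) (bk_smooth a) (r⁻¹ • Xs) * cmp (bk b) (bk_smooth b) ((8 / ϖ) • (Xt - t0 • (1 : Sm)))

private theorem zeta_eq (r ϖ t0 : ℝ) : zeta r ϖ t0 = Zk r ϖ t0 0 0 := rfl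

private theorem Dv_smul (v : ℝ × ℝ) (c : ℝ) (f : Sm) : Dv v (c • f) = c • Dv v f :=
  Derivation.map_smul _ _ _

private theorem D1_Zk (r ϖ t0 : ℝ) (a b : ℕ) :
    D1 (Zk r ϖ t0 a b) = r⁻¹ • Zk r ϖ t0 (a + 1) b := by
  rw [Zk, D1, Derivation.leibniz, Dv_cmp _ _ _ (bk_smooth (a + 1)),
    Dv_cmp _ _ _ (bk_smooth (b + 1)), Dv_smul, Dv_smul, map_sub, Dv_smul, B1_Dv_Xs, B1_Dv_Xt,
    Derivation.map_one_eq_zero]
  apply sm_ext; intro p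
  have e : (cmp (deriv (bk a)) (bk_smooth (a + 1)) (r⁻¹ • Xs) : Sm) p
      = deriv (bk a) (r⁻¹ * p.1) := rfl
  simp only [Zk, smul_eq_mul, add_ap, mul_ap, smul_ap, sub_ap, one_ap, zero_ap, e]
  simp only [cmp_ap, smul_ap, sub_ap, one_ap, Xs_ap, Xt_ap]
  show _ = r⁻¹ * (deriv (bk a) _ * _)
  ring

private theorem D2_Zk (r ϖ t0 : ℝ) (a b : ℕ) :
    D2 (Zk r ϖ t0 a b) = (8 / ϖ) • Zk r ϖ t0 a (b + 1) := by
  rw [Zk, D2, Derivation.leibniz, Dv_cmp _ _ _ (bk_smooth (a + 1)),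
    Dv_cmp _ _ _ (bk_smooth (b + 1)), Dv_smul, Dv_smul, map_sub, Dv_smul, B1_Dv_Xs, B1_Dv_Xt,
    Derivation.map_one_eq_zero]
  apply sm_ext; intro p
  have e : (cmp (deriv (bk b)) (bk_smooth (b + 1)) ((8 / ϖ) • (Xt - t0 • (1 : Sm))) : Sm) p
      = deriv (bk b) (8 / ϖ * (p.2 - t0 * 1)) := rfl
  simp only [Zk, smul_eq_mul, add_ap, mul_ap, smul_ap, sub_ap, one_ap, zero_ap, e]
  simp only [cmp_ap, smul_ap, sub_ap, one_ap, Xs_ap, Xt_ap]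
  show _ = (8 / ϖ) * (_ * deriv (bk b) _)
  ring

private theorem D1_iter (r ϖ t0 : ℝ) (a b : ℕ) : ∀ k : ℕ,
    (fun g : Sm => D1 g)^[k] (Zk r ϖ t0 a b) = (r⁻¹) ^ k • Zk r ϖ t0 (a + k) b
  | 0 => by simp
  | k + 1 => by
    rw [Function.iterate_succ_apply', D1_iter r ϖ t0 a b k, Derivation.map_smul, D1_Zk, smul_smul,
      pow_succ, add_assoc]

private theorem D2_iter (r ϖ t0 : ℝ) (a b : ℕ) : ∀ k : ℕ,
    (fun g : Sm => D2 g)^[k] (Zk r ϖ t0 a b) = (8 / ϖ) ^ k • Zk r ϖ t0 a (b + k)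
  | 0 => by simp
  | k + 1 => by
    rw [Function.iterate_succ_apply', D2_iter r ϖ t0 a b k, Derivation.map_smul, D2_Zk, smul_smul,
      pow_succ, add_assoc]

private theorem iter_lin (D : Derivation ℝ Sm Sm) {n : ℕ} (c : ℝ) (τ : Fin n → ℝ)
    (f : Fin n → Sm) : ∀ k : ℕ, (fun g : Sm => D g)^[k] (c • ∑ i, τ i • f i)
      = c • ∑ i, τ i • ((fun g : Sm => D g)^[k] (f i))
  | 0 => by simp
  | k + 1 => by
    rw [Function.iterate_succ_apply', iter_lin D c τ f k, Derivation.map_smul, map_sum]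
    congr 1
    refine Finset.sum_congr rfl fun i _ => ?_
    rw [Derivation.map_smul, Function.iterate_succ_apply']

private theorem Dab_hh (A r ϖ : ℝ) (n : ℕ) (τ : Fin n → ℝ) (a b : ℕ) :
    Dab a b (hh A r ϖ n τ) = ((r⁻¹) ^ a * (8 / ϖ) ^ b * A) •
      ∑ i : Fin n, τ i • Zk r ϖ (((i : ℕ) + 1 : ℝ) * ϖ) a b := by
  rw [Dab, hh, iter_lin, iter_lin, mul_smul, Finset.smul_sum, Finset.smul_sum, Finset.smul_sum]
  refine Finset.sum_congr rfl fun i _ => ?_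
  rw [zeta_eq, D2_iter]
  have h2 : (fun g : Sm => D1 g)^[a] ((8 / ϖ) ^ b • Zk r ϖ (((i : ℕ) + 1 : ℝ) * ϖ) 0 (0 + b))
      = (8 / ϖ) ^ b • (fun g : Sm => D1 g)^[a] (Zk r ϖ (((i : ℕ) + 1 : ℝ) * ϖ) 0 (0 + b)) := by
    have := iter_lin D1 (n := 1) ((8 / ϖ) ^ b) (fun _ => 1)
      (fun _ => Zk r ϖ (((i : ℕ) + 1 : ℝ) * ϖ) 0 (0 + b)) a
    simpa using this
  rw [h2, D1_iter, zero_add, zero_add]
  simp only [smul_smul]
  congr 1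
  ring

private theorem smul_sum_ap {n : ℕ} (c : ℝ) (τ : Fin n → ℝ) (f : Fin n → Sm) (p : ℝ × ℝ) :
    (c • ∑ i, τ i • f i : Sm) p = c * ∑ i, τ i * f i p := by
  rw [smul_ap]
  congr 1
  induction n with
  | zero => simp
  | succ n ih =>
    rw [Fin.sum_univ_castSucc, Fin.sum_univ_castSucc, add_ap, smul_ap,
      ih (fun i => τ i.castSucc) (fun i => f i.castSucc)]

/-- at most one bump is active -/
private theorem sum_one {n : ℕ} (τ g : Fin n → ℝ) (M : ℝ) (hM : 0 ≤ M) (hτ : ∀ i, |τ i| ≤ 1)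
    (hg : ∀ i, |g i| ≤ M) (h1 : ∀ i j, g i ≠ 0 → g j ≠ 0 → i = j) :
    |∑ i, τ i * g i| ≤ M := by
  by_cases h : ∃ i, g i ≠ 0
  · obtain ⟨i, hi⟩ := h
    rw [Finset.sum_eq_single i]
    · rw [abs_mul]
      calc |τ i| * |g i| ≤ 1 * M := mul_le_mul (hτ i) (hg i) (abs_nonneg _) zero_le_one
        _ = M := one_mul M
    · intro j _ hj
      by_cases hgj : g j = 0
      · rw [hgj, mul_zero]
      · exact absurd (h1 j i hgj hi) hj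
    · intro h; exact absurd (Finset.mem_univ i) h
  · push Not at h
    rw [Finset.sum_eq_zero fun i _ => by rw [h i, mul_zero], abs_zero]
    exact hM

private theorem Zk_ap (r ϖ t0 : ℝ) (a b : ℕ) (p : ℝ × ℝ) :
    Zk r ϖ t0 a b p = bk a (r⁻¹ * p.1) * bk b (8 / ϖ * (p.2 - t0)) := by
  simp only [Zk, mul_ap, cmp_ap, smul_ap, sub_ap, Xs_ap, Xt_ap, one_ap, mul_one]

private theorem Zk_unique (r ϖ : ℝ) (hϖ : 0 < ϖ) (n a b : ℕ) (p : ℝ × ℝ) (i j : Fin n)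
    (hi : Zk r ϖ (((i : ℕ) + 1 : ℝ) * ϖ) a b p ≠ 0)
    (hj : Zk r ϖ (((j : ℕ) + 1 : ℝ) * ϖ) a b p ≠ 0) : i = j := by
  rw [Zk_ap] at hi hj
  have key : ∀ k : Fin n, bk b (8 / ϖ * (p.2 - ((k : ℕ) + 1 : ℝ) * ϖ)) ≠ 0 →
      |p.2 - ((k : ℕ) + 1 : ℝ) * ϖ| ≤ ϖ / 8 := by
    intro k hk
    by_contra hlt
    push Not at hlt
    apply hk
    apply bk_zero
    rw [abs_mul, abs_of_pos (by positivity)]
    have : 8 / ϖ * (ϖ / 8) = 1 := by field_simp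
    calc 1 = 8 / ϖ * (ϖ / 8) := this.symm
      _ < _ := mul_lt_mul_of_pos_left hlt (by positivity)
  have h1 := abs_le.mp (key i (right_ne_zero_of_mul hi))
  have h2 := abs_le.mp (key j (right_ne_zero_of_mul hj))
  by_contra hne
  have hne' : (i : ℕ) ≠ (j : ℕ) := fun h => hne (Fin.ext h)
  rcases Nat.lt_or_gt_of_ne hne' with h | h
  · have h3 : ((i : ℕ) : ℝ) + 1 ≤ ((j : ℕ) : ℝ) := by exact_mod_cast h
    nlinarith
  · have h3 : ((j : ℕ) : ℝ) + 1 ≤ ((i : ℕ) : ℝ) := by exact_mod_cast h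
    nlinarith

private theorem sum_bd (r ϖ : ℝ) (hϖ : 0 < ϖ) (n a b : ℕ) (τ : Fin n → ℝ) (hτ : ∀ i, |τ i| ≤ 1)
    (Ma Mb : ℝ) (ha : ∀ x, |bk a x| ≤ Ma) (hb : ∀ x, |bk b x| ≤ Mb) (p : ℝ × ℝ) :
    |∑ i : Fin n, τ i * Zk r ϖ (((i : ℕ) + 1 : ℝ) * ϖ) a b p| ≤ Ma * Mb := by
  have hMa : 0 ≤ Ma := (abs_nonneg _).trans (ha 0)
  have hMb : 0 ≤ Mb := (abs_nonneg _).trans (hb 0)
  refine sum_one τ _ _ (mul_nonneg hMa hMb) hτ (fun i => ?_)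
    (fun i j hi hj => Zk_unique r ϖ hϖ n a b p i j hi hj)
  rw [Zk_ap, abs_mul]
  exact mul_le_mul (ha _) (hb _) (abs_nonneg _) hMa

private theorem Dab_bd (A r ϖ : ℝ) (n : ℕ) (τ : Fin n → ℝ) (hA : 0 < A) (hr : 0 < r) (hϖ : 0 < ϖ)
    (hτ : ∀ i, |τ i| ≤ 1) (a b : ℕ) (Ma Mb : ℝ) (ha : ∀ x, |bk a x| ≤ Ma)
    (hb : ∀ x, |bk b x| ≤ Mb) (p : ℝ × ℝ) :
    |Dab a b (hh A r ϖ n τ) p| ≤ (r⁻¹) ^ a * (8 / ϖ) ^ b * A * (Ma * Mb) := by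
  rw [Dab_hh, smul_sum_ap, abs_mul, abs_of_pos (by positivity)]
  exact mul_le_mul_of_nonneg_left (sum_bd r ϖ hϖ n a b τ hτ Ma Mb ha hb p) (by positivity)

private theorem bk0_le (x : ℝ) : |bk 0 x| ≤ 1 := by
  show |ct (1/2) 1 x| ≤ 1
  rw [abs_of_nonneg (ct_nonneg _ _ _)]
  exact ct_le_one _ _ _

/-- support of the bump sum: `|s| ≤ r`, `7ϖ/8 ≤ t ≤ (n+1/8) ϖ`. -/
theorem hh_support (A r ϖ : ℝ) (n : ℕ) (τ : Fin n → ℝ) (hr : 0 < r) (hϖ : 0 < ϖ) :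
    ∀ p : ℝ × ℝ, p ∈ tsupport (hh A r ϖ n τ : ℝ × ℝ → ℝ) →
      |p.1| ≤ r ∧ 7 * ϖ / 8 ≤ p.2 ∧ p.2 ≤ (n + 1/8) * ϖ := by
  have hcl : IsClosed {p : ℝ × ℝ | |p.1| ≤ r ∧ 7 * ϖ / 8 ≤ p.2 ∧ p.2 ≤ (n + 1/8) * ϖ} := by
    exact (isClosed_le continuous_fst.abs continuous_const).inter
      ((isClosed_le continuous_const continuous_snd).inter
        (isClosed_le continuous_snd continuous_const))
  intro p hp
  refine closure_minimal ?_ hcl hp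
  intro q hq
  rw [Function.mem_support] at hq
  have h0 := Dab_hh A r ϖ n τ 0 0
  have h1 : Dab 0 0 (hh A r ϖ n τ) = hh A r ϖ n τ := rfl
  rw [h1] at h0
  rw [h0, smul_sum_ap] at hq
  have h2 := right_ne_zero_of_mul hq
  obtain ⟨i, -, hi⟩ := Finset.exists_ne_zero_of_sum_ne_zero h2
  have h3 := right_ne_zero_of_mul hi
  rw [Zk_ap] at h3
  have h4 : |r⁻¹ * q.1| ≤ 1 := by
    by_contra h; exact left_ne_zero_of_mul h3 (bk_zero _ _ (not_le.mp h))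
  have h5 : |8 / ϖ * (q.2 - ((i : ℕ) + 1 : ℝ) * ϖ)| ≤ 1 := by
    by_contra h; exact right_ne_zero_of_mul h3 (bk_zero _ _ (not_le.mp h))
  rw [abs_mul, abs_of_pos (inv_pos.mpr hr), inv_mul_le_iff₀ hr, mul_one] at h4
  have h6 : |q.2 - ((i : ℕ) + 1 : ℝ) * ϖ| ≤ ϖ / 8 := by
    rw [abs_mul, abs_of_pos (by positivity), div_mul_eq_mul_div, div_le_one hϖ] at h5
    linarith
  have h7 := abs_le.mp h6
  have hi1 : ((i : ℕ) : ℝ) + 1 ≤ n := by exact_mod_cast i.2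
  have hi0 : (0 : ℝ) ≤ ((i : ℕ) : ℝ) := Nat.cast_nonneg _
  refine ⟨h4, ?_, ?_⟩
  · nlinarith [h7.1, mul_nonneg hi0 hϖ.le]
  · nlinarith [h7.2, mul_le_mul_of_nonneg_right hi1 hϖ.le]

/-- pointwise bounds of the bump sum (the supports of the bumps are disjoint). -/
theorem hh_bound : ∃ C : ℝ, 0 < C ∧ ∀ (A r ϖ : ℝ) (n : ℕ) (τ : Fin n → ℝ), 0 < A → 0 < r →
    r ≤ ϖ → ϖ ≤ 1 → (∀ i, |τ i| ≤ 1) → ∀ p : ℝ × ℝ,
    |hh A r ϖ n τ p| ≤ A ∧ |D1 (hh A r ϖ n τ) p| ≤ C * A / r ∧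
    |D2 (hh A r ϖ n τ) p| ≤ C * A / ϖ ∧ |D2 (D2 (hh A r ϖ n τ)) p| ≤ C * A / ϖ ^ 2 := by
  obtain ⟨M, hM1, hM⟩ := bk_bd3
  refine ⟨64 * M, by positivity, fun A r ϖ n τ hA hr hrϖ hϖ1 hτ p => ?_⟩
  have hϖ : 0 < ϖ := hr.trans_le hrϖ
  have h00 := Dab_bd A r ϖ n τ hA hr hϖ hτ 0 0 1 1 bk0_le bk0_le p
  have h10 := Dab_bd A r ϖ n τ hA hr hϖ hτ 1 0 M 1 (hM 1 (by norm_num)) bk0_le p
  have h01 := Dab_bd A r ϖ n τ hA hr hϖ hτ 0 1 1 M bk0_le (hM 1 (by norm_num)) p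
  have h02 := Dab_bd A r ϖ n τ hA hr hϖ hτ 0 2 1 M bk0_le (hM 2 (by norm_num)) p
  refine ⟨?_, ?_, ?_, ?_⟩
  · refine (le_of_eq rfl).trans (h00.trans ?_); simp
  · refine (le_of_eq rfl).trans (h10.trans ?_)
    have : (r⁻¹) ^ 1 * (8 / ϖ) ^ 0 * A * (M * 1) = M * A / r := by field_simp
    rw [this]
    gcongr
    linarith
  · refine (le_of_eq rfl).trans (h01.trans ?_)
    have : (r⁻¹) ^ 0 * (8 / ϖ) ^ 1 * A * (1 * M) = 8 * M * A / ϖ := by field_simp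
    rw [this]
    gcongr
    norm_num
  · refine (le_of_eq rfl).trans (h02.trans ?_)
    have : (r⁻¹) ^ 0 * (8 / ϖ) ^ 2 * A * (1 * M) = 64 * M * A / ϖ ^ 2 := by field_simp; ring
    rw [this]

/-- `C³` bound -/
theorem hh_C3 : ∃ C : ℝ, 0 < C ∧ ∀ (A r ϖ : ℝ) (n : ℕ) (τ : Fin n → ℝ), 0 < A → 0 < r →
    r ≤ ϖ → ϖ ≤ 1 → (∀ i, |τ i| ≤ 1) → CkB (hh A r ϖ n τ) 3 (C * A / r ^ 3) Set.univ := by
  obtain ⟨M, hM1, hM⟩ := bk_bd3
  refine ⟨512 * (M * M), by positivity, fun A r ϖ n τ hA hr hrϖ hϖ1 hτ => ?_⟩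
  have hϖ : 0 < ϖ := hr.trans_le hrϖ
  intro a b hab p _
  have h := Dab_bd A r ϖ n τ hA hr hϖ hτ a b M M (hM a (by omega)) (hM b (by omega)) p
  refine h.trans ?_
  have hr1 : 1 ≤ r⁻¹ := (one_le_inv₀ hr).mpr (hrϖ.trans hϖ1)
  have h1 : 8 / ϖ ≤ 8 * r⁻¹ := by
    rw [div_eq_mul_inv]
    exact mul_le_mul_of_nonneg_left (inv_anti₀ hr hrϖ) (by norm_num)
  have h2 : (8 / ϖ) ^ b ≤ 512 * (r⁻¹) ^ b := by
    calc (8 / ϖ) ^ b ≤ (8 * r⁻¹) ^ b := pow_le_pow_left₀ (by positivity) h1 b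
      _ = 8 ^ b * (r⁻¹) ^ b := mul_pow _ _ _
      _ ≤ 8 ^ 3 * (r⁻¹) ^ b := by
        gcongr
        · norm_num
        · omega
      _ = _ := by norm_num
  have h3 : (r⁻¹) ^ a * (r⁻¹) ^ b ≤ (r⁻¹) ^ 3 := by
    rw [← pow_add]; exact pow_le_pow_right₀ hr1 hab
  calc (r⁻¹) ^ a * (8 / ϖ) ^ b * A * (M * M) ≤ (r⁻¹) ^ a * (512 * (r⁻¹) ^ b) * A * (M * M) := by
        gcongr
    _ = 512 * ((r⁻¹) ^ a * (r⁻¹) ^ b) * A * (M * M) := by ring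
    _ ≤ 512 * (r⁻¹) ^ 3 * A * (M * M) := by gcongr
    _ = 512 * (M * M) * A / r ^ 3 := by rw [inv_pow]; ring

theorem hh_sub (A r ϖ : ℝ) (n : ℕ) (τ τ' : Fin n → ℝ) :
    hh A r ϖ n τ - hh A r ϖ n τ' = hh A r ϖ n (τ - τ') := by
  rw [hh, hh, hh, ← smul_sub, ← Finset.sum_sub_distrib]
  simp only [Pi.sub_apply, sub_smul]

end NI
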