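import Crest.Agent.NI_B1

set_option autoImplicit false
open scoped ContDiff
open MeasureTheory

namespace NI

theorem B2_bb_contDiff : ContDiff ℝ ∞ bb := ct_contDiff

theorem B2_bb_zero {r : ℝ} (h : 1 ≤ |r|) : bb r = 0 :=
  ct_zero (by norm_num) (by norm_num) h

/-- the product bump -/
noncomputable def B2_BB (q : ℝ × ℝ) : ℝ := bb q.1 * bb q.2

theorem B2_BB_contDiff : ContDiff ℝ ∞ B2_BB :=
  (B2_bb_contDiff.comp contDiff_fst).mul (B2_bb_contDiff.comp contDiff_snd)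

theorem B2_BB_compact : HasCompactSupport B2_BB := by
  apply HasCompactSupport.intro ((isCompact_Icc (a := (-1 : ℝ)) (b := 1)).prod
    (isCompact_Icc (a := (-1 : ℝ)) (b := 1)))
  intro q hq
  rw [Set.mem_prod, not_and_or] at hq
  unfold B2_BB
  rcases hq with h | h
  · rw [B2_bb_zero, zero_mul]
    by_contra hcon
    push Not at hcon
    exact h (abs_le.1 hcon.le)
  · rw [B2_bb_zero (r := q.2), mul_zero]
    by_contra hcon
    push Not at hcon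
    exact h (abs_le.1 hcon.le)

theorem B2_BB_bound (k : ℕ) : ∃ C : ℝ, 0 < C ∧ ∀ q, ‖iteratedFDeriv ℝ k B2_BB q‖ ≤ C := by
  have hc : Continuous (iteratedFDeriv ℝ k B2_BB) :=
    B2_BB_contDiff.continuous_iteratedFDeriv (by exact_mod_cast le_top)
  obtain ⟨C, hC⟩ := hc.bounded_above_of_compact_support (B2_BB_compact.iteratedFDeriv k)
  exact ⟨|C| + 1, by positivity, fun q => (hC q).trans (by have := le_abs_self C; linarith)⟩

theorem B2_zeta_bound (k : ℕ) : ∃ C : ℝ, 0 < C ∧ ∀ (r ϖ t0 : ℝ), 0 < r → r ≤ ϖ → ∀ p : ℝ × ℝ,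
    ‖iteratedFDeriv ℝ k (zeta r ϖ t0 : ℝ × ℝ → ℝ) p‖ ≤ C * (8 / r) ^ k := by
  obtain ⟨C, hC, hb⟩ := B2_BB_bound k
  refine ⟨C, hC, fun r ϖ t0 hr hrϖ p => ?_⟩
  have hϖ : 0 < ϖ := lt_of_lt_of_le hr hrϖ
  set L : ℝ × ℝ →L[ℝ] ℝ × ℝ :=
    (r⁻¹ • ContinuousLinearMap.fst ℝ ℝ ℝ).prod ((8 / ϖ) • ContinuousLinearMap.snd ℝ ℝ ℝ) with hL
  set c : ℝ × ℝ := (0, -((8 / ϖ) * t0)) with hc
  have hz : (zeta r ϖ t0 : ℝ × ℝ → ℝ) = (fun z => B2_BB (z + c)) ∘ L := by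
    funext q
    show bb (r⁻¹ * q.1) * bb ((8 / ϖ) * (q.2 - t0 * 1)) = bb (r⁻¹ * q.1 + 0) * bb ((8/ϖ) * q.2 + -((8 / ϖ) * t0))
    congr 2 <;> ring
  have hcd : ContDiff ℝ ∞ (fun z => B2_BB (z + c)) :=
    B2_BB_contDiff.comp (contDiff_id.add contDiff_const)
  rw [hz, L.iteratedFDeriv_comp_right hcd p (i := k) (by exact_mod_cast le_top)]
  refine (ContinuousMultilinearMap.norm_compContinuousLinearMap_le _ _).trans ?_
  have h1 : ‖iteratedFDeriv ℝ k (fun z => B2_BB (z + c)) (L p)‖ ≤ C := by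
    rw [iteratedFDeriv_comp_add_right]
    exact hb _
  have hr8 : 0 < 8 / r := by positivity
  have h2 : ‖L‖ ≤ 8 / r := by
    apply ContinuousLinearMap.opNorm_le_bound _ hr8.le
    intro q
    have e1 : ‖q.1‖ ≤ ‖q‖ := norm_fst_le q
    have e2 : ‖q.2‖ ≤ ‖q‖ := norm_snd_le q
    have hLq : L q = (r⁻¹ * q.1, (8 / ϖ) * q.2) := rfl
    rw [hLq, Prod.norm_def]
    apply max_le
    · show ‖r⁻¹ * q.1‖ ≤ _
      rw [norm_mul, Real.norm_of_nonneg (by positivity : (0:ℝ) ≤ r⁻¹)]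
      have e3 : r⁻¹ ≤ 8 / r := by
        rw [div_eq_mul_inv]
        have : 0 < r⁻¹ := by positivity
        linarith
      exact mul_le_mul e3 e1 (norm_nonneg _) hr8.le
    · show ‖(8 / ϖ) * q.2‖ ≤ _
      rw [norm_mul, Real.norm_of_nonneg (by positivity : (0:ℝ) ≤ 8 / ϖ)]
      have e3 : 8 / ϖ ≤ 8 / r := div_le_div_of_nonneg_left (by norm_num) hr hrϖ
      exact mul_le_mul e3 e2 (norm_nonneg _) hr8.le
  calc ‖iteratedFDeriv ℝ k (fun z => B2_BB (z + c)) (L p)‖ * ∏ _i : Fin k, ‖L‖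
      = ‖iteratedFDeriv ℝ k (fun z => B2_BB (z + c)) (L p)‖ * ‖L‖ ^ k := by simp
    _ ≤ C * (8 / r) ^ k :=
      mul_le_mul h1 (pow_le_pow_left₀ (norm_nonneg _) h2 k) (by positivity) hC.le

theorem B2_zeta_tsupport (r ϖ t0 : ℝ) (hϖ : 0 < ϖ) {p : ℝ × ℝ}
    (hp : p ∈ tsupport (zeta r ϖ t0 : ℝ × ℝ → ℝ)) : |p.2 - t0| ≤ ϖ / 8 := by
  have hcl : IsClosed {p : ℝ × ℝ | |p.2 - t0| ≤ ϖ / 8} :=
    isClosed_le (by fun_prop) continuous_const
  have hsub : Function.support (zeta r ϖ t0 : ℝ × ℝ → ℝ) ⊆ {p : ℝ × ℝ | |p.2 - t0| ≤ ϖ / 8} := by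
    intro q hq
    by_contra hcon
    apply hq
    have h1 : ϖ / 8 < |q.2 - t0| := not_le.1 hcon
    show bb (r⁻¹ * q.1) * bb ((8 / ϖ) * (q.2 - t0 * 1)) = 0
    rw [B2_bb_zero (r := (8 / ϖ) * (q.2 - t0 * 1)), mul_zero]
    rw [abs_mul, abs_of_pos (by positivity : (0:ℝ) < 8 / ϖ), mul_one]
    calc (1:ℝ) = (8 / ϖ) * (ϖ / 8) := by field_simp
      _ ≤ (8 / ϖ) * |q.2 - t0| := mul_le_mul_of_nonneg_left h1.le (by positivity)
  exact closure_minimal hsub hcl hp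

/-- bound of all derivatives up to order `N`. -/
theorem hh_CN (N : ℕ) : ∃ C : ℝ, 0 < C ∧ ∀ (A r ϖ : ℝ) (n : ℕ) (τ : Fin n → ℝ), 0 < A → 0 < r →
    r ≤ ϖ → ϖ ≤ 1 → (∀ i, |τ i| ≤ 1) → ∀ k ≤ N, ∀ p : ℝ × ℝ,
    ‖iteratedFDeriv ℝ k (hh A r ϖ n τ : ℝ × ℝ → ℝ) p‖ ≤ C * A / r ^ N := by
  choose Cz hCz hz using B2_zeta_bound
  refine ⟨(∑ k ∈ Finset.range (N + 1), Cz k) * 8 ^ N, ?_, ?_⟩
  · apply mul_pos _ (by positivity)
    exact Finset.sum_pos (fun k _ => hCz k) ⟨0, by simp⟩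
  · intro A r ϖ n τ hA hr hrϖ hϖ1 hτ k hk p
    have hϖ : 0 < ϖ := lt_of_lt_of_le hr hrϖ
    have hr1 : r ≤ 1 := hrϖ.trans hϖ1
    have hsum : (0:ℝ) < ∑ k ∈ Finset.range (N + 1), Cz k :=
      Finset.sum_pos (fun k _ => hCz k) ⟨0, by simp⟩
    set D : Fin n → ContinuousMultilinearMap ℝ (fun _ : Fin k => ℝ × ℝ) ℝ :=
      fun i => iteratedFDeriv ℝ k (zeta r ϖ (((i : ℕ) + 1 : ℝ) * ϖ) : ℝ × ℝ → ℝ) p with hD
    have hfun : (hh A r ϖ n τ : ℝ × ℝ → ℝ) =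
        fun q => ∑ i : Fin n, ((A * τ i) • (zeta r ϖ (((i : ℕ) + 1 : ℝ) * ϖ) : ℝ × ℝ → ℝ)) q := by
      funext q
      have h1 : ((∑ i : Fin n, τ i • zeta r ϖ (((i : ℕ) + 1 : ℝ) * ϖ) : Sm) : ℝ × ℝ → ℝ) q =
          ∑ i : Fin n, τ i * (zeta r ϖ (((i : ℕ) + 1 : ℝ) * ϖ)) q := by
        have h2 : ((∑ i : Fin n, τ i • zeta r ϖ (((i : ℕ) + 1 : ℝ) * ϖ) : Sm) : ℝ × ℝ → ℝ) =
            ∑ i : Fin n, ((τ i • zeta r ϖ (((i : ℕ) + 1 : ℝ) * ϖ) : Sm) : ℝ × ℝ → ℝ) :=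
          map_sum smAlg.val _ _
        rw [h2, Finset.sum_apply]
        rfl
      show A * ((∑ i : Fin n, τ i • zeta r ϖ (((i : ℕ) + 1 : ℝ) * ϖ) : Sm) : ℝ × ℝ → ℝ) q = _
      rw [h1, Finset.mul_sum]
      refine Finset.sum_congr rfl fun i _ => ?_
      show _ = (A * τ i) * (zeta r ϖ (((i : ℕ) + 1 : ℝ) * ϖ)) q
      ring
    have hcd : ∀ i : Fin n, ContDiff ℝ ∞ (zeta r ϖ (((i : ℕ) + 1 : ℝ) * ϖ) : ℝ × ℝ → ℝ) :=
      fun i => smooth _
    have hder : iteratedFDeriv ℝ k (hh A r ϖ n τ : ℝ × ℝ → ℝ) p = ∑ i, (A * τ i) • D i := by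
      rw [hfun, iteratedFDeriv_fun_sum_apply]
      · refine Finset.sum_congr rfl fun i _ => ?_
        rw [iteratedFDeriv_const_smul_apply]
        exact ((hcd i).of_le (by exact_mod_cast le_top)).contDiffAt
      · intro i _
        exact (((hcd i).const_smul (A * τ i)).of_le (by exact_mod_cast le_top)).contDiffAt
    have hpos : 0 ≤ (∑ k ∈ Finset.range (N + 1), Cz k) * 8 ^ N * A / r ^ N := by positivity
    by_cases hall : ∀ i, D i = 0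
    · rw [hder, Finset.sum_eq_zero (fun i _ => by rw [hall i, smul_zero]), norm_zero]
      exact hpos
    · push Not at hall
      obtain ⟨i0, hi0⟩ := hall
      have hloc : ∀ i, D i ≠ 0 → |p.2 - ((i : ℕ) + 1 : ℝ) * ϖ| ≤ ϖ / 8 := by
        intro i hi
        apply B2_zeta_tsupport r ϖ _ hϖ
        exact support_iteratedFDeriv_subset k hi
      have huniq : ∀ i, i ≠ i0 → D i = 0 := by
        intro i hi
        by_contra hDi
        have h1 := hloc i hDi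
        have h2 := hloc i0 hi0
        have h3 : |(((i : ℕ) : ℝ) - ((i0 : ℕ) : ℝ)) * ϖ| ≤ ϖ / 4 := by
          have : (((i : ℕ) : ℝ) - ((i0 : ℕ) : ℝ)) * ϖ =
              (p.2 - ((i0 : ℕ) + 1 : ℝ) * ϖ) - (p.2 - ((i : ℕ) + 1 : ℝ) * ϖ) := by ring
          rw [this]
          refine (abs_sub _ _).trans ?_
          linarith
        rw [abs_mul, abs_of_pos hϖ] at h3
        have h4 : |(((i : ℕ) : ℝ) - ((i0 : ℕ) : ℝ))| ≤ 1 / 4 := by
          by_contra h5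
          push Not at h5
          nlinarith
        have h6 : (i : ℕ) = (i0 : ℕ) := by
          have h7 : |(((i : ℕ) : ℤ) - ((i0 : ℕ) : ℤ) : ℤ)| < 1 := by
            have h8 : (|(((i : ℕ) : ℤ) - ((i0 : ℕ) : ℤ) : ℤ)| : ℝ) < 1 := by
              push_cast
              linarith
            exact_mod_cast h8
          have := Int.abs_lt_one_iff.1 h7
          omega
        exact hi (Fin.ext h6)
      rw [hder, Finset.sum_eq_single i0 (fun i _ hi => by rw [huniq i hi, smul_zero]) (by simp),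
        norm_smul, Real.norm_eq_abs, abs_mul, abs_of_pos hA]
      have h1 : ‖D i0‖ ≤ Cz k * (8 / r) ^ k := hz k r ϖ _ hr hrϖ p
      have h2 : Cz k ≤ ∑ k ∈ Finset.range (N + 1), Cz k :=
        Finset.single_le_sum (f := Cz) (fun i _ => (hCz i).le)
          (Finset.mem_range.2 (by omega))
      have h3 : (8 / r) ^ k ≤ 8 ^ N / r ^ N := by
        rw [← div_pow]
        apply pow_le_pow_right₀ _ hk
        rw [le_div_iff₀ hr]
        linarith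
      have h4 : ‖D i0‖ ≤ (∑ k ∈ Finset.range (N + 1), Cz k) * (8 ^ N / r ^ N) :=
        h1.trans (mul_le_mul h2 h3 (by positivity) hsum.le)
      calc A * |τ i0| * ‖D i0‖ ≤ A * 1 * ((∑ k ∈ Finset.range (N + 1), Cz k) * (8 ^ N / r ^ N)) := by
            apply mul_le_mul _ h4 (norm_nonneg _) (by positivity)
            exact mul_le_mul_of_nonneg_left (hτ i0) hA.le
        _ = (∑ k ∈ Finset.range (N + 1), Cz k) * 8 ^ N * A / r ^ N := by ring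

end NI
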