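import Crest.Agent.NI_G1

set_option autoImplicit false
open scoped ContDiff
open MeasureTheory

namespace NI

theorem G1b_D1_Xs : D1 Xs = 1 := by
  apply sm_ext; intro p
  rw [D1_ap]
  show fderiv ℝ Prod.fst p (1, 0) = 1
  rw [fderiv_fst]; rfl

theorem G1b_D2_Xs : D2 Xs = 0 := by
  apply sm_ext; intro p
  rw [D2_ap]
  show fderiv ℝ Prod.fst p (0, 1) = 0
  rw [fderiv_fst]; rfl

theorem G1b_D1_Xt : D1 Xt = 0 := by
  apply sm_ext; intro p
  rw [D1_ap]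
  show fderiv ℝ Prod.snd p (1, 0) = 0
  rw [fderiv_snd]; rfl

theorem G1b_D2_Xt : D2 Xt = 1 := by
  apply sm_ext; intro p
  rw [D2_ap]
  show fderiv ℝ Prod.snd p (0, 1) = 1
  rw [fderiv_snd]; rfl

theorem G1b_D1_sq (lam : ℝ) : D1 ((lam / 2) • Xt ^ 2) = 0 := by
  rw [Derivation.map_smul, Derivation.leibniz_pow, G1b_D1_Xt]; simp

theorem G1b_D2_sq (lam : ℝ) : D2 ((lam / 2) • Xt ^ 2) = lam • Xt := by
  rw [pow_two, Derivation.map_smul, Derivation.leibniz, G1b_D2_Xt]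
  apply sm_ext; intro p
  simp
  ring

/-- deviation of a good map vanishes with all derivatives outside `Box 2`. -/
theorem G1b_out (f : Sm) (h : ∀ p, p ∉ Box 2 → f p = 0) (v : ℝ × ℝ) :
    ∀ p, p ∉ Box 2 → Dv v f p = 0 := by
  intro p hp
  have hp' : 2 ≤ |p.1| ∨ 2 ≤ |p.2| := by
    by_contra hc
    push Not at hc
    exact hp ⟨hc.1, hc.2⟩
  -- sequence of points outside
  have hcont : Continuous (fun q => Dv v f q) := (smooth (Dv v f)).continuous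
  have hev : ∀ r : ℝ, 1 < r → Dv v f (r • p) = 0 := by
    intro r hr
    have hU : IsOpen {q : ℝ × ℝ | 2 < |q.1| ∨ 2 < |q.2|} := by
      apply IsOpen.union
      · exact isOpen_lt continuous_const (continuous_fst.abs)
      · exact isOpen_lt continuous_const (continuous_snd.abs)
    have hmem : r • p ∈ {q : ℝ × ℝ | 2 < |q.1| ∨ 2 < |q.2|} := by
      rcases hp' with h1 | h1
      · left
        show 2 < |r * p.1|
        rw [abs_mul, abs_of_pos (by linarith : 0 < r)]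
        nlinarith
      · right
        show 2 < |r * p.2|
        rw [abs_mul, abs_of_pos (by linarith : 0 < r)]
        nlinarith
    have hE : (f : ℝ × ℝ → ℝ) =ᶠ[nhds (r • p)] fun _ => 0 := by
      filter_upwards [hU.mem_nhds hmem] with q hq
      apply h
      intro hb
      rcases hq with h1 | h1
      · exact absurd hb.1 (not_lt.mpr h1.le)
      · exact absurd hb.2 (not_lt.mpr h1.le)
    rw [Dv_ap, hE.fderiv_eq]
    simp
  have hlim : Filter.Tendsto (fun r : ℝ => Dv v f (r • p)) (nhdsWithin 1 (Set.Ioi 1))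
      (nhds (Dv v f ((1:ℝ) • p))) := by
    apply Filter.Tendsto.mono_left _ nhdsWithin_le_nhds
    exact (hcont.comp (continuous_id.smul continuous_const)).tendsto 1
  have hlim0 : Filter.Tendsto (fun r : ℝ => Dv v f (r • p)) (nhdsWithin 1 (Set.Ioi 1))
      (nhds 0) := by
    apply tendsto_const_nhds.congr'
    filter_upwards [self_mem_nhdsWithin] with r hr
    exact (hev r hr).symm
  have := tendsto_nhds_unique hlim hlim0
  rwa [one_smul] at this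


/-- values at a point of the objects in the frame, in terms of the 2-jet of `G`. -/
theorem G1b_vals (G : Fin 3 → Sm) (fr : Frame) (hG : IsFr fr G) (p : ℝ × ℝ) :
    ∃ j j1 j2 : ℝ,
      fr.J p = D1 (G 0) p * D2 (G 1) p - D2 (G 0) p * D1 (G 1) p ∧
      fr.J p * j = 1 ∧
      (D1 (D1 (G 0)) p * D2 (G 1) p + D1 (G 0) p * D1 (D2 (G 1)) p
        - (D1 (D2 (G 0)) p * D1 (G 1) p + D2 (G 0) p * D1 (D1 (G 1)) p)) * j + fr.J p * j1 = 0 ∧
      (D1 (D2 (G 0)) p * D2 (G 1) p + D1 (G 0) p * D2 (D2 (G 1)) p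
        - (D2 (D2 (G 0)) p * D1 (G 1) p + D2 (G 0) p * D1 (D2 (G 1)) p)) * j + fr.J p * j2 = 0 ∧
      D1 (fr.q (G 2)) p = -(D1 (D2 (G 0)) p * j * D1 (G 2) p) - D2 (G 0) p * j1 * D1 (G 2) p
        - D2 (G 0) p * j * D1 (D1 (G 2)) p + D1 (D1 (G 0)) p * j * D2 (G 2) p
        + D1 (G 0) p * j1 * D2 (G 2) p + D1 (G 0) p * j * D1 (D2 (G 2)) p ∧
      D2 (fr.q (G 2)) p = -(D2 (D2 (G 0)) p * j * D1 (G 2) p) - D2 (G 0) p * j2 * D1 (G 2) p
        - D2 (G 0) p * j * D1 (D2 (G 2)) p + D1 (D2 (G 0)) p * j * D2 (G 2) p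
        + D1 (G 0) p * j2 * D2 (G 2) p + D1 (G 0) p * j * D2 (D2 (G 2)) p ∧
      D1 (fr.p (G 2)) p = D1 (D2 (G 1)) p * j * D1 (G 2) p + D2 (G 1) p * j1 * D1 (G 2) p
        + D2 (G 1) p * j * D1 (D1 (G 2)) p - D1 (D1 (G 1)) p * j * D2 (G 2) p
        - D1 (G 1) p * j1 * D2 (G 2) p - D1 (G 1) p * j * D1 (D2 (G 2)) p ∧
      D2 (fr.p (G 2)) p = D2 (D2 (G 1)) p * j * D1 (G 2) p + D2 (G 1) p * j2 * D1 (G 2) p
        + D2 (G 1) p * j * D1 (D2 (G 2)) p - D1 (D2 (G 1)) p * j * D2 (G 2) p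
        - D1 (G 1) p * j2 * D2 (G 2) p - D1 (G 1) p * j * D2 (D2 (G 2)) p ∧
      fr.a (G 2) p = -(D2 (G 0) p * j * D1 (fr.q (G 2)) p) + D1 (G 0) p * j * D2 (fr.q (G 2)) p ∧
      fr.b (G 2) p = D2 (G 1) p * j * D1 (fr.q (G 2)) p - D1 (G 1) p * j * D2 (fr.q (G 2)) p ∧
      fr.c (G 2) p = D2 (G 1) p * j * D1 (fr.p (G 2)) p - D1 (G 1) p * j * D2 (fr.p (G 2)) p := by
  obtain ⟨hx, hy⟩ := hG
  have hJ := fr.hJ
  have hJi := fr.hJi
  rw [hx, hy] at hJ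
  have hJ1 : D1 (fr.J * fr.Ji) = 0 := by rw [hJi]; simp
  have hJ2 : D2 (fr.J * fr.Ji) = 0 := by rw [hJi]; simp
  refine ⟨fr.Ji p, D1 fr.Ji p, D2 fr.Ji p, ?_, ?_, ?_, ?_, ?_, ?_, ?_, ?_, ?_, ?_, ?_⟩
  · rw [hJ]; simp
  · have := congrArg (fun f : Sm => f p) hJi
    simpa using this
  · have := congrArg (fun f : Sm => f p) hJ1
    rw [hJ] at this ⊢
    simp only [Derivation.leibniz, smul_eq_mul, map_sub, add_ap, mul_ap, sub_ap, zero_ap] at this ⊢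
    linarith
  · have := congrArg (fun f : Sm => f p) hJ2
    rw [hJ] at this ⊢
    simp only [Derivation.leibniz, smul_eq_mul, map_sub, add_ap, mul_ap, sub_ap, zero_ap,
      ← D1_D2_comm] at this ⊢
    linarith
  · simp only [Frame.q, Frame.d2, vf_def, hx, Derivation.leibniz, smul_eq_mul, map_add, map_neg,
      add_ap, mul_ap, neg_ap]
    ring
  · simp only [Frame.q, Frame.d2, vf_def, hx, Derivation.leibniz, smul_eq_mul, map_add, map_neg,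
      add_ap, mul_ap, neg_ap, ← D1_D2_comm]
    ring
  · simp only [Frame.p, Frame.d1, vf_def, hy, Derivation.leibniz, smul_eq_mul, map_add, map_neg,
      add_ap, mul_ap, neg_ap]
    ring
  · simp only [Frame.p, Frame.d1, vf_def, hy, Derivation.leibniz, smul_eq_mul, map_add, map_neg,
      add_ap, mul_ap, neg_ap, ← D1_D2_comm]
    ring
  · show fr.d2 (fr.q (G 2)) p = _
    simp only [Frame.d2, vf_def, hx, add_ap, mul_ap, neg_ap]
    ring
  · show fr.d1 (fr.q (G 2)) p = _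
    simp only [Frame.d1, vf_def, hy, add_ap, mul_ap, neg_ap]
    ring
  · show fr.d1 (fr.p (G 2)) p = _
    simp only [Frame.d1, vf_def, hy, add_ap, mul_ap, neg_ap]
    ring

theorem G1b_tri {a b c A B C : ℝ} (ha : |a| ≤ A) (hb : |b| ≤ B) (hc : |c| ≤ C) :
    |a * b * c| ≤ A * B * C := by
  rw [abs_mul, abs_mul]
  have hA : 0 ≤ A := (abs_nonneg a).trans ha
  have hB : 0 ≤ B := (abs_nonneg b).trans hb
  exact mul_le_mul (mul_le_mul ha hb (abs_nonneg _) hA) hc (abs_nonneg _) (mul_nonneg hA hB)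

theorem G1b_two {a b A B : ℝ} (ha : |a| ≤ A) (hb : |b| ≤ B) :
    |a * b| ≤ A * B := by
  rw [abs_mul]
  have hA : 0 ≤ A := (abs_nonneg a).trans ha
  exact mul_le_mul ha hb (abs_nonneg _) hA

theorem G1b_j {xs xt ys yt J j : ℝ} (h1 : |xs - 1| ≤ 1/1000000) (h2 : |xt| ≤ 1/1000000)
    (h3 : |ys| ≤ 1/1000000) (h4 : |yt - 1| ≤ 1/1000000) (hJ : J = xs * yt - xt * ys)
    (hj : J * j = 1) : |J - 1| ≤ 3/1000000 ∧ |j - 1| ≤ 4/1000000 := by
  have e1 := G1b_two h1 h4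
  have e2 := G1b_two h2 h3
  have eJ : |J - 1| ≤ 3/1000000 := by
    have : J - 1 = (xs - 1) * (yt - 1) + (xs - 1) + (yt - 1) - xt * ys := by rw [hJ]; ring
    rw [abs_le] at *
    constructor <;> linarith [e1.1, e1.2]
  refine ⟨eJ, ?_⟩
  rw [abs_le] at eJ ⊢
  have hJpos : 0 < J := by linarith [eJ.1]
  constructor
  · by_contra hc
    push Not at hc
    have : J * j < 1 := by nlinarith [eJ.1, eJ.2]
    linarith
  · by_contra hc
    push Not at hc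
    have : 1 < J * j := by nlinarith [eJ.1, eJ.2]
    linarith

theorem G1b_j1 {xs xt ys yt J j xss xst yst yss j1 : ℝ} (h1 : |xs - 1| ≤ 1/1000000)
    (h2 : |xt| ≤ 1/1000000)
    (h3 : |ys| ≤ 1/1000000) (h4 : |yt - 1| ≤ 1/1000000)
    (h5 : |xss| ≤ 1/1000000) (h6 : |xst| ≤ 1/1000000) (h7 : |yst| ≤ 1/1000000)
    (h8 : |yss| ≤ 1/1000000)
    (hJ : |J - 1| ≤ 3/1000000) (hj : |j - 1| ≤ 4/1000000)
    (h : (xss * yt + xs * yst - (xst * ys + xt * yss)) * j + J * j1 = 0) :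
    |j1| ≤ 4/1000000 := by
  have bxs : |xs| ≤ 2 := by rw [abs_le] at *; constructor <;> linarith [h1.1, h1.2]
  have byt : |yt| ≤ 2 := by rw [abs_le] at *; constructor <;> linarith [h4.1, h4.2]
  have e1 := G1b_two h5 h4
  have e2 := G1b_two h1 h7
  have e3 := G1b_two h6 h3
  have e4 := G1b_two h2 h8
  set S := xss * yt + xs * yst - (xst * ys + xt * yss) with hS
  have hSb : |S| ≤ 3/1000000 := by
    have : S = xss * (yt - 1) + xss + (xs - 1) * yst + yst - xst * ys - xt * yss := by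
      rw [hS]; ring
    rw [abs_le] at *
    constructor <;> linarith [e1.1, e1.2, e2.1, e2.2, e3.1, e3.2, e4.1, e4.2]
  have e5 := G1b_two hSb hj
  have hJ' : |J * j1| ≤ 3.1/1000000 := by
    have : J * j1 = - (S * (j - 1)) - S := by linarith
    rw [this]
    rw [abs_le] at *
    constructor <;> linarith [e5.1, e5.2]
  rw [abs_mul] at hJ'
  have hJ1 : 0.99999 ≤ |J| := by
    rw [abs_le] at hJ
    rw [abs_of_pos (by linarith [hJ.1])]; linarith [hJ.1]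
  nlinarith [abs_nonneg j1]

/-- real inequality -/
theorem G1b_real {lam xs xt ys yt xss xst xtt yss yst ytt zs zt zss zst ztt J j j1 j2 q1 q2 p1 p2
    A B C : ℝ}
    (hlam : 0 < lam)
    (h1 : |xs - 1| ≤ 1/1000000) (h2 : |xt| ≤ 1/1000000)
    (h3 : |ys| ≤ 1/1000000) (h4 : |yt - 1| ≤ 1/1000000)
    (h5 : |xss| ≤ 1/1000000) (h6 : |xst| ≤ 1/1000000) (h7 : |xtt| ≤ 1/1000000)
    (h8 : |yss| ≤ 1/1000000) (h9 : |yst| ≤ 1/1000000) (h10 : |ytt| ≤ 1/1000000)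
    (h11 : |zs| ≤ 1/1000000 * lam) (h12 : |zt| ≤ 3 * lam)
    (h13 : |zss| ≤ 1/1000000 * lam) (h14 : |zst| ≤ 1/1000000 * lam)
    (h15 : |ztt - lam| ≤ 1/1000000 * lam)
    (hJ : J = xs * yt - xt * ys) (hj : J * j = 1)
    (hj1 : (xss * yt + xs * yst - (xst * ys + xt * yss)) * j + J * j1 = 0)
    (hj2 : (xst * yt + xs * ytt - (xtt * ys + xt * yst)) * j + J * j2 = 0)
    (hq1 : q1 = -(xst * j * zs) - xt * j1 * zs - xt * j * zss + xss * j * zt + xs * j1 * zt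
      + xs * j * zst)
    (hq2 : q2 = -(xtt * j * zs) - xt * j2 * zs - xt * j * zst + xst * j * zt + xs * j2 * zt
      + xs * j * ztt)
    (hp1 : p1 = yst * j * zs + yt * j1 * zs + yt * j * zss - yss * j * zt - ys * j1 * zt
      - ys * j * zst)
    (hp2 : p2 = ytt * j * zs + yt * j2 * zs + yt * j * zst - yst * j * zt - ys * j2 * zt
      - ys * j * ztt)
    (hA : A = -(xt * j * q1) + xs * j * q2) (hB : B = yt * j * q1 - ys * j * q2)
    (hC : C = yt * j * p1 - ys * j * p2) :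
    |J - 1| ≤ 1/4000 ∧ |A - lam| ≤ lam/2000 ∧ |B| ≤ lam/2000 ∧ |C| ≤ lam/2000 ∧
      |q1| ≤ lam/10000 ∧ |q2 - lam| ≤ lam/10000 := by
  obtain ⟨eJ, ej⟩ := G1b_j h1 h2 h3 h4 hJ hj
  have ej1 := G1b_j1 h1 h2 h3 h4 h5 h6 h9 h8 eJ ej hj1
  have ej2 := G1b_j1 h1 h2 h3 h4 h6 h7 h10 h9 eJ ej hj2
  have bxs : |xs| ≤ 2 := by rw [abs_le] at h1 ⊢; constructor <;> linarith [h1.1, h1.2]
  have byt : |yt| ≤ 2 := by rw [abs_le] at h4 ⊢; constructor <;> linarith [h4.1, h4.2]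
  have bj : |j| ≤ 2 := by rw [abs_le] at ej ⊢; constructor <;> linarith [ej.1, ej.2]
  have bztt : |ztt| ≤ 2 * lam := by
    rw [abs_le] at h15 ⊢; constructor <;> linarith [h15.1, h15.2]
  have bxj : |xs * j - 1| ≤ 6/1000000 := by
    have e := G1b_two h1 bj
    rw [abs_le] at e ej ⊢
    constructor <;> linarith [e.1, e.2, ej.1, ej.2]
  have eq1 : |q1| ≤ 40/1000000 * lam := by
    have a1 := G1b_tri h6 bj h11
    have a2 := G1b_tri h2 ej1 h11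
    have a3 := G1b_tri h2 bj h13
    have a4 := G1b_tri h5 bj h12
    have a5 := G1b_tri bxs ej1 h12
    have a6 := G1b_tri bxs bj h14
    rw [hq1]
    rw [abs_le] at a1 a2 a3 a4 a5 a6 ⊢
    constructor <;> linarith [a1.1, a1.2, a2.1, a2.2, a3.1, a3.2, a4.1, a4.2, a5.1, a5.2, a6.1, a6.2]
  have eq2 : |q2 - lam| ≤ 50/1000000 * lam := by
    have a1 := G1b_tri h7 bj h11
    have a2 := G1b_tri h2 ej2 h11
    have a3 := G1b_tri h2 bj h14
    have a4 := G1b_tri h6 bj h12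
    have a5 := G1b_tri bxs ej2 h12
    have a6 := G1b_two bxj bztt
    rw [hq2]
    rw [abs_le] at a1 a2 a3 a4 a5 a6 h15 ⊢
    constructor <;> linarith [a1.1, a1.2, a2.1, a2.2, a3.1, a3.2, a4.1, a4.2, a5.1, a5.2, a6.1, a6.2, h15.1, h15.2]
  have ep1 : |p1| ≤ 40/1000000 * lam := by
    have a1 := G1b_tri h9 bj h11
    have a2 := G1b_tri byt ej1 h11
    have a3 := G1b_tri byt bj h13
    have a4 := G1b_tri h8 bj h12
    have a5 := G1b_tri h3 ej1 h12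
    have a6 := G1b_tri h3 bj h14
    rw [hp1]
    rw [abs_le] at a1 a2 a3 a4 a5 a6 ⊢
    constructor <;> linarith [a1.1, a1.2, a2.1, a2.2, a3.1, a3.2, a4.1, a4.2, a5.1, a5.2, a6.1, a6.2]
  have ep2 : |p2| ≤ 40/1000000 * lam := by
    have a1 := G1b_tri h10 bj h11
    have a2 := G1b_tri byt ej2 h11
    have a3 := G1b_tri byt bj h14
    have a4 := G1b_tri h9 bj h12
    have a5 := G1b_tri h3 ej2 h12
    have a6 := G1b_tri h3 bj bztt
    rw [hp2]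
    rw [abs_le] at a1 a2 a3 a4 a5 a6 ⊢
    constructor <;> linarith [a1.1, a1.2, a2.1, a2.2, a3.1, a3.2, a4.1, a4.2, a5.1, a5.2, a6.1, a6.2]
  have bq2 : |q2| ≤ 2 * lam := by
    rw [abs_le] at eq2 ⊢
    constructor <;> linarith [eq2.1, eq2.2]
  refine ⟨by linarith, ?_, ?_, ?_, by linarith, by linarith⟩
  · have a1 := G1b_tri h2 bj eq1
    have a2 := G1b_two bxj bq2
    rw [hA]
    rw [abs_le] at a1 a2 eq2 ⊢
    constructor <;> linarith [a1.1, a1.2, a2.1, a2.2, eq2.1, eq2.2]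
  · have a1 := G1b_tri byt bj eq1
    have a2 := G1b_tri h3 bj bq2
    rw [hB]
    rw [abs_le] at a1 a2 ⊢
    constructor <;> linarith [a1.1, a1.2, a2.1, a2.2]
  · have a1 := G1b_tri byt bj ep1
    have a2 := G1b_tri h3 bj ep2
    rw [hC]
    rw [abs_le] at a1 a2 ⊢
    constructor <;> linarith [a1.1, a1.2, a2.1, a2.2]

theorem G1b_jet (lam : ℝ) (G : Fin 3 → Sm) :
    Dab 0 0 (G 0 - F0 lam 0) = G 0 - Xs ∧
    Dab 1 0 (G 0 - F0 lam 0) = D1 (G 0) - 1 ∧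
    Dab 0 1 (G 0 - F0 lam 0) = D2 (G 0) ∧
    Dab 2 0 (G 0 - F0 lam 0) = D1 (D1 (G 0)) ∧
    Dab 1 1 (G 0 - F0 lam 0) = D1 (D2 (G 0)) ∧
    Dab 0 2 (G 0 - F0 lam 0) = D2 (D2 (G 0)) ∧
    Dab 0 0 (G 1 - F0 lam 1) = G 1 - Xt ∧
    Dab 1 0 (G 1 - F0 lam 1) = D1 (G 1) ∧
    Dab 0 1 (G 1 - F0 lam 1) = D2 (G 1) - 1 ∧
    Dab 2 0 (G 1 - F0 lam 1) = D1 (D1 (G 1)) ∧
    Dab 1 1 (G 1 - F0 lam 1) = D1 (D2 (G 1)) ∧
    Dab 0 2 (G 1 - F0 lam 1) = D2 (D2 (G 1)) ∧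
    Dab 1 0 (G 2 - F0 lam 2) = D1 (G 2) ∧
    Dab 0 1 (G 2 - F0 lam 2) = D2 (G 2) - lam • Xt ∧
    Dab 2 0 (G 2 - F0 lam 2) = D1 (D1 (G 2)) ∧
    Dab 1 1 (G 2 - F0 lam 2) = D1 (D2 (G 2)) ∧
    Dab 0 2 (G 2 - F0 lam 2) = D2 (D2 (G 2)) - lam • 1 := by
  have e0 : F0 lam 0 = Xs := rfl
  have e1 : F0 lam 1 = Xt := rfl
  have e2 : F0 lam 2 = (lam / 2) • Xt ^ 2 := rfl
  rw [e0, e1, e2]
  refine ⟨rfl, ?_, ?_, ?_, ?_, ?_, rfl, ?_, ?_, ?_, ?_, ?_, ?_, ?_, ?_, ?_, ?_⟩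
  · show D1 (G 0 - Xs) = _
    rw [map_sub, G1b_D1_Xs]
  · show D2 (G 0 - Xs) = _
    rw [map_sub, G1b_D2_Xs, sub_zero]
  · show D1 (D1 (G 0 - Xs)) = _
    rw [map_sub, G1b_D1_Xs, map_sub, Derivation.map_one_eq_zero, sub_zero]
  · show D1 (D2 (G 0 - Xs)) = _
    rw [map_sub, G1b_D2_Xs, sub_zero]
  · show D2 (D2 (G 0 - Xs)) = _
    rw [map_sub, G1b_D2_Xs, sub_zero]
  · show D1 (G 1 - Xt) = _
    rw [map_sub, G1b_D1_Xt, sub_zero]
  · show D2 (G 1 - Xt) = _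
    rw [map_sub, G1b_D2_Xt]
  · show D1 (D1 (G 1 - Xt)) = _
    rw [map_sub, G1b_D1_Xt, sub_zero]
  · show D1 (D2 (G 1 - Xt)) = _
    rw [map_sub, G1b_D2_Xt, map_sub, Derivation.map_one_eq_zero, sub_zero]
  · show D2 (D2 (G 1 - Xt)) = _
    rw [map_sub, G1b_D2_Xt, map_sub, Derivation.map_one_eq_zero, sub_zero]
  · show D1 (G 2 - (lam / 2) • Xt ^ 2) = _
    rw [map_sub, G1b_D1_sq, sub_zero]
  · show D2 (G 2 - (lam / 2) • Xt ^ 2) = _
    rw [map_sub, G1b_D2_sq]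
  · show D1 (D1 (G 2 - (lam / 2) • Xt ^ 2)) = _
    rw [map_sub, G1b_D1_sq, sub_zero]
  · show D1 (D2 (G 2 - (lam / 2) • Xt ^ 2)) = _
    rw [map_sub, G1b_D2_sq, map_sub, Derivation.map_smul, G1b_D1_Xt, smul_zero, sub_zero]
  · show D2 (D2 (G 2 - (lam / 2) • Xt ^ 2)) = _
    rw [map_sub, G1b_D2_sq, map_sub, Derivation.map_smul, G1b_D2_Xt]

theorem G1b_zt {lam t zt : ℝ} (hlam : 0 < lam) (ht : |t| < 2)
    (h : |zt - lam * t| ≤ 1/1000000 * lam) : |zt| ≤ 3 * lam := by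
  rw [abs_lt] at ht
  rw [abs_le] at h ⊢
  constructor <;> nlinarith [h.1, h.2]

theorem G1b_outside {lam : ℝ} (hlam : 0 < lam) (G : Fin 3 → Sm) (fr : Frame) (hfr : IsFr fr G)
    (p : ℝ × ℝ) (hout : ∀ i, ∀ p, p ∉ Box 2 → (G i - F0 lam i) p = 0) (hp : p ∉ Box 2) :
    |fr.J p - 1| ≤ 1/4000 ∧
    |fr.a (G 2) p - lam| ≤ lam/2000 ∧ |fr.b (G 2) p| ≤ lam/2000 ∧ |fr.c (G 2) p| ≤ lam/2000 ∧
    |D1 (fr.q (G 2)) p| ≤ lam/10000 ∧ |D2 (fr.q (G 2)) p - lam| ≤ lam/10000 := by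
  obtain ⟨ex00, ex10, ex01, ex20, ex11, ex02, ey00, ey10, ey01, ey20, ey11, ey02, ez10, ez01,
    ez20, ez11, ez02⟩ := G1b_jet lam G
  obtain ⟨j, j1, j2, hJ, hj, hj1, hj2, hq1, hq2, hp1, hp2, hA, hB, hC⟩ := G1b_vals G fr hfr p
  have ho : ∀ i, (G i - F0 lam i) p = 0 := fun i => hout i p hp
  have ho1 : ∀ i v, Dv v (G i - F0 lam i) p = 0 := fun i v => G1b_out _ (hout i) v p hp
  have ho2 : ∀ i v w, Dv w (Dv v (G i - F0 lam i)) p = 0 := fun i v w =>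
    G1b_out _ (G1b_out _ (hout i) v) w p hp
  have u10 : D1 (G 0) p = 1 := by
    have := ho1 0 (1, 0)
    have h2 : Dab 1 0 (G 0 - F0 lam 0) p = 0 := this
    rw [ex10] at h2
    simp only [sub_ap, one_ap] at h2
    linarith
  have u01 : D2 (G 0) p = 0 := by
    have h2 : Dab 0 1 (G 0 - F0 lam 0) p = 0 := ho1 0 (0, 1)
    rwa [ex01] at h2
  have u20 : D1 (D1 (G 0)) p = 0 := by
    have h2 : Dab 2 0 (G 0 - F0 lam 0) p = 0 := ho2 0 (1, 0) (1, 0)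
    rwa [ex20] at h2
  have u11 : D1 (D2 (G 0)) p = 0 := by
    have h2 : Dab 1 1 (G 0 - F0 lam 0) p = 0 := ho2 0 (0, 1) (1, 0)
    rwa [ex11] at h2
  have u02 : D2 (D2 (G 0)) p = 0 := by
    have h2 : Dab 0 2 (G 0 - F0 lam 0) p = 0 := ho2 0 (0, 1) (0, 1)
    rwa [ex02] at h2
  have v10 : D1 (G 1) p = 0 := by
    have h2 : Dab 1 0 (G 1 - F0 lam 1) p = 0 := ho1 1 (1, 0)
    rwa [ey10] at h2
  have v01 : D2 (G 1) p = 1 := by
    have h2 : Dab 0 1 (G 1 - F0 lam 1) p = 0 := ho1 1 (0, 1)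
    rw [ey01] at h2
    simp only [sub_ap, one_ap] at h2
    linarith
  have v20 : D1 (D1 (G 1)) p = 0 := by
    have h2 : Dab 2 0 (G 1 - F0 lam 1) p = 0 := ho2 1 (1, 0) (1, 0)
    rwa [ey20] at h2
  have v11 : D1 (D2 (G 1)) p = 0 := by
    have h2 : Dab 1 1 (G 1 - F0 lam 1) p = 0 := ho2 1 (0, 1) (1, 0)
    rwa [ey11] at h2
  have v02 : D2 (D2 (G 1)) p = 0 := by
    have h2 : Dab 0 2 (G 1 - F0 lam 1) p = 0 := ho2 1 (0, 1) (0, 1)
    rwa [ey02] at h2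
  have w10 : D1 (G 2) p = 0 := by
    have h2 : Dab 1 0 (G 2 - F0 lam 2) p = 0 := ho1 2 (1, 0)
    rwa [ez10] at h2
  have w20 : D1 (D1 (G 2)) p = 0 := by
    have h2 : Dab 2 0 (G 2 - F0 lam 2) p = 0 := ho2 2 (1, 0) (1, 0)
    rwa [ez20] at h2
  have w11 : D1 (D2 (G 2)) p = 0 := by
    have h2 : Dab 1 1 (G 2 - F0 lam 2) p = 0 := ho2 2 (0, 1) (1, 0)
    rwa [ez11] at h2
  have w02 : D2 (D2 (G 2)) p = lam := by
    have h2 : Dab 0 2 (G 2 - F0 lam 2) p = 0 := ho2 2 (0, 1) (0, 1)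
    rw [ez02] at h2
    simp only [sub_ap, one_ap, smul_ap] at h2
    linarith
  rw [u10, u01, v10, v01] at hJ
  have hJ1 : fr.J p = 1 := by rw [hJ]; ring
  rw [hJ1] at hj hj1 hj2
  have hj' : j = 1 := by linarith
  rw [u10, u01, v10, v01, u20, u11, v11, v20] at hj1
  rw [u10, u01, v10, v01, u11, v02, u02, v11] at hj2
  have hj1' : j1 = 0 := by linarith
  have hj2' : j2 = 0 := by linarith
  rw [u10, u01, u20, u11, w10, w20, w11, hj1', hj'] at hq1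
  rw [u10, u01, u02, u11, w10, w11, w02, hj2', hj'] at hq2
  rw [v10, v01, v20, v11, w10, w20, w11, hj1', hj'] at hp1
  rw [v10, v01, v02, v11, w10, w11, w02, hj2', hj'] at hp2
  have hq1' : D1 (fr.q (G 2)) p = 0 := by rw [hq1]; ring
  have hq2' : D2 (fr.q (G 2)) p = lam := by rw [hq2]; ring
  have hp1' : D1 (fr.p (G 2)) p = 0 := by rw [hp1]; ring
  have hp2' : D2 (fr.p (G 2)) p = 0 := by rw [hp2]; ring
  rw [u01, u10, hq1', hq2', hj'] at hA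
  rw [v01, v10, hq1', hq2', hj'] at hB
  rw [v01, v10, hp1', hp2', hj'] at hC
  have hA' : fr.a (G 2) p = lam := by rw [hA]; ring
  have hB' : fr.b (G 2) p = 0 := by rw [hB]; ring
  have hC' : fr.c (G 2) p = 0 := by rw [hC]; ring
  rw [hJ1, hA', hB', hC', hq1', hq2']
  refine ⟨?_, ?_, ?_, ?_, ?_, ?_⟩
  · simp
  · rw [sub_self, abs_zero]; positivity
  · rw [abs_zero]; positivity
  · rw [abs_zero]; positivity
  · rw [abs_zero]; positivity
  · rw [sub_self, abs_zero]; positivity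


/-- First order bounds of the frame of a good map (everywhere; outside `Box 2` the map is the
model `(s,t,lam t²/2)`, inside all derivatives up to order 4 of the difference are `≤ η1 lam`). -/
theorem frame_bounds : ∃ η1 : ℝ, 0 < η1 ∧ ∀ (lam : ℝ) (G : Fin 3 → Sm) (fr : Frame),
    0 < lam → lam ≤ 1 → Good lam η1 G → IsFr fr G → ∀ p : ℝ × ℝ,
    (|D1 (G 0) p - 1| ≤ 1/10000 ∧ |D2 (G 0) p| ≤ 1/10000 ∧ |D1 (G 1) p| ≤ 1/10000 ∧
      |D2 (G 1) p - 1| ≤ 1/10000) ∧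
    |fr.J p - 1| ≤ 1/4000 ∧
    |fr.a (G 2) p - lam| ≤ lam/2000 ∧ |fr.b (G 2) p| ≤ lam/2000 ∧ |fr.c (G 2) p| ≤ lam/2000 ∧
    |G 0 p - p.1| ≤ 1/10000 ∧ |G 1 p - p.2| ≤ 1/10000 ∧
    |D1 (fr.q (G 2)) p| ≤ lam/10000 ∧ |D2 (fr.q (G 2)) p - lam| ≤ lam/10000 := by
  refine ⟨1/1000000, by norm_num, ?_⟩
  intro lam G fr hlam hlam1 hgood hfr p
  obtain ⟨hout, hin⟩ := hgood
  have ev := G1b_jet lam G
  obtain ⟨ex00, ex10, ex01, ex20, ex11, ex02, ey00, ey10, ey01, ey20, ey11, ey02, ez10, ez01,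
    ez20, ez11, ez02⟩ := ev
  -- the derivatives of the deviation
  have hb : ∀ i a b, a + b ≤ 4 → |Dab a b (G i - F0 lam i) p| ≤ 1/1000000 * lam :=
    fun i a b hab => hin i a b hab p (Set.mem_univ p)
  have hb' : ∀ i a b, a + b ≤ 4 → |Dab a b (G i - F0 lam i) p| ≤ 1/1000000 := by
    intro i a b hab
    have := hb i a b hab
    nlinarith
  -- x
  have x00 := hb' 0 0 0 (by norm_num)
  have x10 := hb' 0 1 0 (by norm_num)
  have x01 := hb' 0 0 1 (by norm_num)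
  have x20 := hb' 0 2 0 (by norm_num)
  have x11 := hb' 0 1 1 (by norm_num)
  have x02 := hb' 0 0 2 (by norm_num)
  have y00 := hb' 1 0 0 (by norm_num)
  have y10 := hb' 1 1 0 (by norm_num)
  have y01 := hb' 1 0 1 (by norm_num)
  have y20 := hb' 1 2 0 (by norm_num)
  have y11 := hb' 1 1 1 (by norm_num)
  have y02 := hb' 1 0 2 (by norm_num)
  have z10 := hb 2 1 0 (by norm_num)
  have z01 := hb 2 0 1 (by norm_num)
  have z20 := hb 2 2 0 (by norm_num)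
  have z11 := hb 2 1 1 (by norm_num)
  have z02 := hb 2 0 2 (by norm_num)
  rw [ex00] at x00
  rw [ex10] at x10
  rw [ex01] at x01
  rw [ex20] at x20
  rw [ex11] at x11
  rw [ex02] at x02
  rw [ey00] at y00
  rw [ey10] at y10
  rw [ey01] at y01
  rw [ey20] at y20
  rw [ey11] at y11
  rw [ey02] at y02
  rw [ez10] at z10
  rw [ez01] at z01
  rw [ez20] at z20
  rw [ez11] at z11
  rw [ez02] at z02
  simp only [sub_ap, one_ap, Xs_ap, Xt_ap, smul_ap, mul_one] at x00 x10 y00 y01 z01 z02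
  obtain ⟨j, j1, j2, hJ, hj, hj1, hj2, hq1, hq2, hp1, hp2, hA, hB, hC⟩ := G1b_vals G fr hfr p
  by_cases hp : p ∈ Box 2
  · have hzt : |D2 (G 2) p| ≤ 3 * lam := G1b_zt hlam hp.2 z01
    obtain ⟨r1, r2, r3, r4, r5, r6⟩ := G1b_real hlam x10 x01 y10 y01 x20 x11 x02 y20 y11 y02 z10 hzt
      z20 z11 z02 hJ hj hj1 hj2 hq1 hq2 hp1 hp2 hA hB hC
    exact ⟨⟨x10.trans (by norm_num), x01.trans (by norm_num), y10.trans (by norm_num),
      y01.trans (by norm_num)⟩, r1, r2, r3, r4, x00.trans (by norm_num), y00.trans (by norm_num),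
      r5, r6⟩
  · obtain ⟨r1, r2, r3, r4, r5, r6⟩ := G1b_outside hlam G fr hfr p hout hp
    exact ⟨⟨x10.trans (by norm_num), x01.trans (by norm_num), y10.trans (by norm_num),
      y01.trans (by norm_num)⟩, r1, r2, r3, r4, x00.trans (by norm_num), y00.trans (by norm_num),
      r5, r6⟩

end NI
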