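import Crest.Agent.NI_Geo

set_option autoImplicit false
open scoped ContDiff
open MeasureTheory

namespace NI

private theorem J_Ji (fr : Frame) :
    (D1 fr.x * D2 fr.y - D2 fr.x * D1 fr.y) * fr.Ji = 1 := by
  rw [← fr.hJ]; exact fr.hJi

private theorem D1_rec (fr : Frame) (f : Sm) :
    D1 f = D1 fr.x * fr.d1 f + D1 fr.y * fr.d2 f := by
  have h := J_Ji fr
  rw [Frame.d1, Frame.d2, vf_def, vf_def]
  linear_combination (-(D1 f)) * h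

private theorem D2_rec (fr : Frame) (f : Sm) :
    D2 f = D2 fr.x * fr.d1 f + D2 fr.y * fr.d2 f := by
  have h := J_Ji fr
  rw [Frame.d1, Frame.d2, vf_def, vf_def]
  linear_combination (-(D2 f)) * h

/-- `det Hess z · J⁴ = det (m · G_ij)` (algebra: `m = J(-p,-q,1)`, `m·G_ij = J(p_j x_i + q_j y_i)`) -/
theorem Bdet_eq (fr : Frame) (G : Fin 3 → Sm) (h : IsFr fr G) :
    Bdet G = fr.J ^ 4 * fr.Dt (G 2) := by
  obtain ⟨hx, hy⟩ := h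
  have hJ := fr.hJ
  have hJi := fr.hJi
  -- the quantities
  obtain ⟨z, hz⟩ : ∃ z, z = G 2 := ⟨_, rfl⟩
  obtain ⟨p, hp⟩ : ∃ p, p = fr.d1 z := ⟨_, rfl⟩
  obtain ⟨q, hq⟩ : ∃ q, q = fr.d2 z := ⟨_, rfl⟩
  obtain ⟨a, ha⟩ : ∃ a, a = fr.d2 q := ⟨_, rfl⟩
  obtain ⟨b, hb⟩ : ∃ b, b = fr.d1 q := ⟨_, rfl⟩
  obtain ⟨c, hc⟩ : ∃ c, c = fr.d1 p := ⟨_, rfl⟩
  obtain ⟨β, hβ⟩ : ∃ β, β = fr.d2 p := ⟨_, rfl⟩
  obtain ⟨xs, hxs⟩ : ∃ xs, xs = D1 fr.x := ⟨_, rfl⟩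
  obtain ⟨xt, hxt⟩ : ∃ xt, xt = D2 fr.x := ⟨_, rfl⟩
  obtain ⟨ys, hys⟩ : ∃ ys, ys = D1 fr.y := ⟨_, rfl⟩
  obtain ⟨yt, hyt⟩ : ∃ yt, yt = D2 fr.y := ⟨_, rfl⟩
  have zs : D1 z = xs * p + ys * q := by rw [D1_rec fr z, ← hp, ← hq, ← hxs, ← hys]
  have zt : D2 z = xt * p + yt * q := by rw [D2_rec fr z, ← hp, ← hq, ← hxt, ← hyt]
  have ps : D1 p = xs * c + ys * β := by rw [D1_rec fr p, ← hc, ← hβ, ← hxs, ← hys]
  have pt : D2 p = xt * c + yt * β := by rw [D2_rec fr p, ← hc, ← hβ, ← hxt, ← hyt]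
  have qs : D1 q = xs * b + ys * a := by rw [D1_rec fr q, ← hb, ← ha, ← hxs, ← hys]
  have qt : D2 q = xt * b + yt * a := by rw [D2_rec fr q, ← hb, ← ha, ← hxt, ← hyt]
  have xst : D1 xt = D2 xs := by rw [hxt, hxs, D1_D2_comm]
  have yst : D1 yt = D2 ys := by rw [hyt, hys, D1_D2_comm]
  have zss : D1 (D1 z) = D1 xs * p + xs * D1 p + D1 ys * q + ys * D1 q := by
    rw [zs]; simp only [map_add, Derivation.leibniz, smul_eq_mul]; ring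
  have zst : D1 (D2 z) = D1 xt * p + xt * D1 p + D1 yt * q + yt * D1 q := by
    rw [zt]; simp only [map_add, Derivation.leibniz, smul_eq_mul]; ring
  have zts : D2 (D1 z) = D2 xs * p + xs * D2 p + D2 ys * q + ys * D2 q := by
    rw [zs]; simp only [map_add, Derivation.leibniz, smul_eq_mul]; ring
  have ztt : D2 (D2 z) = D2 xt * p + xt * D2 p + D2 yt * q + yt * D2 q := by
    rw [zt]; simp only [map_add, Derivation.leibniz, smul_eq_mul]; ring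
  have hJ' : fr.J = xs * yt - xt * ys := by rw [hJ, hxs, hyt, hxt, hys]
  have hβb : β = b := by
    have h1 := D1_D2_comm z
    rw [zst, zts, xst, yst, ps, pt, qs, qt] at h1
    have h2 : fr.J * (b - β) = 0 := by rw [hJ']; linear_combination h1
    have h3 : fr.Ji * (fr.J * (b - β)) = 0 := by rw [h2, mul_zero]
    linear_combination (b - β) * hJi - h3
  have hDt : fr.Dt z = a * c - b ^ 2 := by
    rw [Frame.Dt, Frame.a, Frame.b, Frame.c, ← hq, ← hp, ← ha, ← hb, ← hc]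
  rw [← hz, hDt]
  have key : Bdet G = ((ys * D2 z - D1 z * yt) * D1 xs + (D1 z * xt - xs * D2 z) * D1 ys
      + (xs * yt - ys * xt) * D1 (D1 z)) * ((ys * D2 z - D1 z * yt) * D2 xt
      + (D1 z * xt - xs * D2 z) * D2 yt + (xs * yt - ys * xt) * D2 (D2 z))
      - ((ys * D2 z - D1 z * yt) * D1 xt + (D1 z * xt - xs * D2 z) * D1 yt
      + (xs * yt - ys * xt) * D1 (D2 z)) ^ 2 := by
    simp only [Bdet, dot, nrm, crs, ← hx, ← hy, ← hz, ← hxs, ← hxt, ← hys, ← hyt,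
      Matrix.cons_val_zero, Matrix.cons_val_one, Matrix.cons_val]
  rw [key, zss, zst, ztt, zs, zt, ps, pt, qs, qt, xst, yst, hβb, hJ']
  ring

/-- derivatives of functions agreeing on an open set -/
private theorem Dv_congr (v : ℝ × ℝ) (f g : Sm) (Ω : Set (ℝ × ℝ)) (hΩ : IsOpen Ω)
    (h : ∀ p ∈ Ω, f p = g p) : ∀ p ∈ Ω, Dv v f p = Dv v g p := by
  intro p hp
  rw [Dv_ap, Dv_ap]
  have : (f : ℝ × ℝ → ℝ) =ᶠ[nhds p] (g : ℝ × ℝ → ℝ) :=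
    Filter.eventually_of_mem (hΩ.mem_nhds hp) h
  rw [this.fderiv_eq]

private theorem det_id (P0 P1 P2 R0 R1 R2 A0 A1 A2 B0 B1 B2 C0 C1 C2 : ℝ) :
    ((P1*R2-P2*R1)*A0 + (P2*R0-P0*R2)*A1 + (P0*R1-P1*R0)*A2) *
      ((P1*R2-P2*R1)*B0 + (P2*R0-P0*R2)*B1 + (P0*R1-P1*R0)*B2)
    - ((P1*R2-P2*R1)*C0 + (P2*R0-P0*R2)*C1 + (P0*R1-P1*R0)*C2)^2
    = ((P0*P0+P1*P1+P2*P2) * ((R0*R0+R1*R1+R2*R2)*(A0*B0+A1*B1+A2*B2)
          - (R0*B0+R1*B1+R2*B2)*(R0*A0+R1*A1+R2*A2))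
        - (P0*R0+P1*R1+P2*R2) * ((P0*R0+P1*R1+P2*R2)*(A0*B0+A1*B1+A2*B2)
          - (R0*B0+R1*B1+R2*B2)*(P0*A0+P1*A1+P2*A2))
        + (P0*B0+P1*B1+P2*B2) * ((P0*R0+P1*R1+P2*R2)*(R0*A0+R1*A1+R2*A2)
          - (R0*R0+R1*R1+R2*R2)*(P0*A0+P1*A1+P2*A2)))
      - ((P0*P0+P1*P1+P2*P2) * ((R0*R0+R1*R1+R2*R2)*(C0*C0+C1*C1+C2*C2)
          - (R0*C0+R1*C1+R2*C2)*(R0*C0+R1*C1+R2*C2))
        - (P0*R0+P1*R1+P2*R2) * ((P0*R0+P1*R1+P2*R2)*(C0*C0+C1*C1+C2*C2)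
          - (R0*C0+R1*C1+R2*C2)*(P0*C0+P1*C1+P2*C2))
        + (P0*C0+P1*C1+P2*C2) * ((P0*R0+P1*R1+P2*R2)*(R0*C0+R1*C1+R2*C2)
          - (R0*R0+R1*R1+R2*R2)*(P0*C0+P1*C1+P2*C2))) := by
  ring

private theorem D_dot (D : Derivation ℝ Sm Sm) (X Y : Fin 3 → Sm) :
    D (dot X Y) = dot (fun i => D (X i)) Y + dot X (fun i => D (Y i)) := by
  simp only [dot, map_add, Derivation.leibniz, smul_eq_mul]; ring

/-- Gauss equation for the metric `E ds² + dt²`. -/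
theorem gauss (E : Sm) (F : Fin 3 → Sm) (Ω : Set (ℝ × ℝ)) (hΩ : IsOpen Ω) (hF : Isom E F Ω) :
    ∀ p ∈ Ω, Bdet F p = (-(1/2 : ℝ) • (E * D2 (D2 E)) + (1/4 : ℝ) • (D2 E) ^ 2) p := by
  obtain ⟨P, hP⟩ : ∃ P : Fin 3 → Sm, P = fun i => D1 (F i) := ⟨_, rfl⟩
  obtain ⟨R, hR⟩ : ∃ R : Fin 3 → Sm, R = fun i => D2 (F i) := ⟨_, rfl⟩
  obtain ⟨A, hA⟩ : ∃ A : Fin 3 → Sm, A = fun i => D1 (D1 (F i)) := ⟨_, rfl⟩
  obtain ⟨B, hB⟩ : ∃ B : Fin 3 → Sm, B = fun i => D2 (D2 (F i)) := ⟨_, rfl⟩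
  obtain ⟨C, hC⟩ : ∃ C : Fin 3 → Sm, C = fun i => D1 (D2 (F i)) := ⟨_, rfl⟩
  have hC' : C = fun i => D2 (D1 (F i)) := by rw [hC]; funext i; exact D1_D2_comm _
  have hPP : ∀ p ∈ Ω, dot P P p = E p := fun p hp => by rw [hP]; exact (hF p hp).1
  have hPR : ∀ p ∈ Ω, dot P R p = (0 : Sm) p := fun p hp => by rw [hP, hR]; exact (hF p hp).2.1
  have hRR : ∀ p ∈ Ω, dot R R p = (1 : Sm) p := fun p hp => by rw [hR]; exact (hF p hp).2.2
  have D1P : (fun i => D1 (P i)) = A := by rw [hP, hA]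
  have D2P : (fun i => D2 (P i)) = C := by rw [hP, hC']
  have D1R : (fun i => D1 (R i)) = C := by rw [hR, hC]
  have D2R : (fun i => D2 (R i)) = B := by rw [hR, hB]
  have D2A : (fun i => D2 (A i)) = fun i => D1 (C i) := by
    rw [hA, hC']; funext i; exact (D1_D2_comm _).symm
  have dcomm : ∀ X Y : Fin 3 → Sm, dot X Y = dot Y X := fun X Y => by
    simp only [dot]; ring
  have d1 : ∀ f g : Sm, (∀ p ∈ Ω, f p = g p) → ∀ p ∈ Ω, D1 f p = D1 g p :=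
    fun f g h => Dv_congr _ f g Ω hΩ h
  have d2 : ∀ f g : Sm, (∀ p ∈ Ω, f p = g p) → ∀ p ∈ Ω, D2 f p = D2 g p :=
    fun f g h => Dv_congr _ f g Ω hΩ h
  -- first derivatives
  have e2 : ∀ p ∈ Ω, 2 * dot P C p = D2 E p := by
    intro p hp
    have := d2 _ _ hPP p hp
    rw [D_dot, D2P, dcomm C P, add_ap] at this
    linarith
  have e3 : ∀ p ∈ Ω, dot A R p + dot P C p = 0 := by
    intro p hp
    have := d1 _ _ hPR p hp
    rw [D_dot, D1P, D1R, add_ap, map_zero] at this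
    simpa using this
  have e4 : ∀ p ∈ Ω, dot C R p + dot P B p = 0 := by
    intro p hp
    have := d2 _ _ hPR p hp
    rw [D_dot, D2P, D2R, add_ap, map_zero] at this
    simpa using this
  have e5 : ∀ p ∈ Ω, dot C R p = (0 : Sm) p := by
    intro p hp
    have := d1 _ _ hRR p hp
    rw [D_dot, D1R, dcomm R C, add_ap, Derivation.map_one_eq_zero] at this
    simp only [zero_ap] at this ⊢
    linarith
  have e6 : ∀ p ∈ Ω, dot R B p = 0 := by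
    intro p hp
    have := d2 _ _ hRR p hp
    rw [D_dot, D2R, dcomm B R, add_ap, Derivation.map_one_eq_zero] at this
    simp only [zero_ap] at this ⊢
    linarith
  -- second derivatives
  have e7 : ∀ p ∈ Ω, dot A R p = (-(1/2 : ℝ) • D2 E) p := by
    intro p hp
    have h1 := e2 p hp
    have h2 := e3 p hp
    simp only [smul_ap]
    linarith
  have e8 : ∀ p ∈ Ω, dot A B p - dot C C p = -(1/2) * D2 (D2 E) p := by
    intro p hp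
    have h1 := d2 _ _ e7 p hp
    have h2 := d1 _ _ e5 p hp
    rw [D_dot, D2A, D2R, add_ap, Derivation.map_smul, smul_ap] at h1
    rw [D_dot, D1R, add_ap, map_zero, zero_ap] at h2
    linarith
  intro p hp
  have q1 := hPP p hp
  have q2 := hPR p hp
  have q3 := hRR p hp
  have q4 := e2 p hp
  have q5 := e4 p hp
  have q6 := e5 p hp
  have q7 := e6 p hp
  have q8 := e7 p hp
  have q9 := e8 p hp
  have hB' : Bdet F p = (((P 1 p)*(R 2 p)-(P 2 p)*(R 1 p))*(A 0 p) + ((P 2 p)*(R 0 p)-(P 0 p)*(R 2 p))*(A 1 p) + ((P 0 p)*(R 1 p)-(P 1 p)*(R 0 p))*(A 2 p)) *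
      (((P 1 p)*(R 2 p)-(P 2 p)*(R 1 p))*(B 0 p) + ((P 2 p)*(R 0 p)-(P 0 p)*(R 2 p))*(B 1 p) + ((P 0 p)*(R 1 p)-(P 1 p)*(R 0 p))*(B 2 p))
    - (((P 1 p)*(R 2 p)-(P 2 p)*(R 1 p))*(C 0 p) + ((P 2 p)*(R 0 p)-(P 0 p)*(R 2 p))*(C 1 p) + ((P 0 p)*(R 1 p)-(P 1 p)*(R 0 p))*(C 2 p))^2 := by
    rw [hP, hR, hA, hB, hC]
    simp only [Bdet, dot, nrm, crs, Matrix.cons_val_zero, Matrix.cons_val_one,
      Matrix.cons_val, add_ap, sub_ap, mul_ap, pow_ap]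
  rw [hB', det_id]
  simp only [dot, add_ap, mul_ap, zero_ap, one_ap, smul_ap, pow_ap] at q1 q2 q3 q4 q5 q6 q7 q8 q9 ⊢
  generalize hPPv : P 0 p * P 0 p + P 1 p * P 1 p + P 2 p * P 2 p = PP at *
  generalize hPRv : P 0 p * R 0 p + P 1 p * R 1 p + P 2 p * R 2 p = PR at *
  generalize hRRv : R 0 p * R 0 p + R 1 p * R 1 p + R 2 p * R 2 p = RR at *
  generalize hABv : A 0 p * B 0 p + A 1 p * B 1 p + A 2 p * B 2 p = AB at *
  generalize hCCv : C 0 p * C 0 p + C 1 p * C 1 p + C 2 p * C 2 p = CC at *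
  generalize hPCv : P 0 p * C 0 p + P 1 p * C 1 p + P 2 p * C 2 p = PC at *
  generalize hPBv : P 0 p * B 0 p + P 1 p * B 1 p + P 2 p * B 2 p = PB at *
  generalize hPAv : P 0 p * A 0 p + P 1 p * A 1 p + P 2 p * A 2 p = PA at *
  generalize hRBv : R 0 p * B 0 p + R 1 p * B 1 p + R 2 p * B 2 p = RB at *
  have hRA : R 0 p * A 0 p + R 1 p * A 1 p + R 2 p * A 2 p
      = A 0 p * R 0 p + A 1 p * R 1 p + A 2 p * R 2 p := by ring
  have hRC : R 0 p * C 0 p + R 1 p * C 1 p + R 2 p * C 2 p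
      = C 0 p * R 0 p + C 1 p * R 1 p + C 2 p * R 2 p := by ring
  rw [hRA, hRC]
  generalize hARv : A 0 p * R 0 p + A 1 p * R 1 p + A 2 p * R 2 p = AR at *
  generalize hCRv : C 0 p * R 0 p + C 1 p * R 1 p + C 2 p * R 2 p = CR at *
  have hPB0 : PB = 0 := by linarith
  have hPC0 : PC = D2 E p / 2 := by linarith
  subst hPB0 hPC0
  rw [q1, q2, q3, q6, q7, q8]
  have : AB = CC + -(1/2) * D2 (D2 E) p := by linarith
  rw [this]
  ring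

end NI
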