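import Crest.Agent.NI_Real

set_option autoImplicit false
open scoped ContDiff
open MeasureTheory

namespace NI

theorem N1_Dab_sub (a b : ℕ) (f g : Sm) : Dab a b (f - g) = Dab a b f - Dab a b g := by
  have h2 : ∀ n : ℕ, (fun g : Sm => D2 g)^[n] (f - g) =
      (fun g : Sm => D2 g)^[n] f - (fun g : Sm => D2 g)^[n] g := by
    intro n
    induction n with
    | zero => rfl
    | succ n ih =>
      rw [Function.iterate_succ_apply', Function.iterate_succ_apply', Function.iterate_succ_apply',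
        ih]
      exact map_sub D2 _ _
  have h1 : ∀ (n : ℕ) (f g : Sm), (fun g : Sm => D1 g)^[n] (f - g) =
      (fun g : Sm => D1 g)^[n] f - (fun g : Sm => D1 g)^[n] g := by
    intro n f g
    induction n with
    | zero => rfl
    | succ n ih =>
      rw [Function.iterate_succ_apply', Function.iterate_succ_apply', Function.iterate_succ_apply',
        ih]
      exact map_sub D1 _ _
  unfold Dab
  rw [h2, h1]

theorem N1_D1_Dab (a b : ℕ) (f : Sm) : D1 (Dab a b f) = Dab (a + 1) b f := by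
  unfold Dab
  rw [Function.iterate_succ_apply' (fun g : Sm => D1 g) a]

theorem N1_D2_Dab (a b : ℕ) (f : Sm) : D2 (Dab a b f) = Dab a (b + 1) f := by
  have h1 : ∀ (n : ℕ) (f : Sm), D2 ((fun g : Sm => D1 g)^[n] f) =
      (fun g : Sm => D1 g)^[n] (D2 f) := by
    intro n f
    induction n with
    | zero => rfl
    | succ n ih =>
      rw [Function.iterate_succ_apply', Function.iterate_succ_apply', ← D1_D2_comm, ih]
  unfold Dab
  rw [h1, Function.iterate_succ_apply' (fun g : Sm => D2 g) b]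

theorem N1_box_convex (r : ℝ) : Convex ℝ (Box r) := by
  have h1 : Box r = (Set.Ioo (-r) r) ×ˢ (Set.Ioo (-r) r) := by
    ext p
    simp only [Box, Set.mem_prod, Set.mem_Ioo]
    constructor
    · rintro ⟨h1, h2⟩
      exact ⟨abs_lt.1 h1, abs_lt.1 h2⟩
    · rintro ⟨h1, h2⟩
      exact ⟨abs_lt.2 h1, abs_lt.2 h2⟩
  rw [h1]
  exact (convex_Ioo _ _).prod (convex_Ioo _ _)

theorem N1_box_totallyBounded (r : ℝ) : TotallyBounded (Box r) := by
  have h1 : Box r ⊆ (Set.Icc (-r) r) ×ˢ (Set.Icc (-r) r) := by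
    rintro p ⟨h1, h2⟩
    exact ⟨⟨(abs_lt.1 h1).1.le, (abs_lt.1 h1).2.le⟩, ⟨(abs_lt.1 h2).1.le, (abs_lt.1 h2).2.le⟩⟩
  exact (isCompact_Icc.prod isCompact_Icc).totallyBounded.subset h1

theorem N1_lip (f : Sm) (M : ℝ) (r : ℝ) (h1 : ∀ p ∈ Box r, |D1 f p| ≤ M)
    (h2 : ∀ p ∈ Box r, |D2 f p| ≤ M) (p q : ℝ × ℝ) (hp : p ∈ Box r) (hq : q ∈ Box r) :
    |f p - f q| ≤ 2 * M * ‖p - q‖ := by
  have hM : 0 ≤ M := (abs_nonneg _).trans (h1 p hp)
  have h3 : ∀ x ∈ Box r, ‖fderiv ℝ (f : ℝ × ℝ → ℝ) x‖ ≤ 2 * M := by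
    intro x hx
    refine ContinuousLinearMap.opNorm_le_bound _ (by linarith) fun v => ?_
    have e : v = v.1 • ((1 : ℝ), (0 : ℝ)) + v.2 • ((0 : ℝ), (1 : ℝ)) := by
      ext <;> simp
    have e2 : fderiv ℝ (f : ℝ × ℝ → ℝ) x v = v.1 * D1 f x + v.2 * D2 f x := by
      conv_lhs => rw [e]
      rw [map_add, map_smul, map_smul]
      rfl
    rw [e2, Real.norm_eq_abs]
    have h4 := norm_fst_le v
    have h5 := norm_snd_le v
    rw [Real.norm_eq_abs] at h4 h5
    calc |v.1 * D1 f x + v.2 * D2 f x| ≤ |v.1 * D1 f x| + |v.2 * D2 f x| := abs_add_le _ _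
      _ = |v.1| * |D1 f x| + |v.2| * |D2 f x| := by rw [abs_mul, abs_mul]
      _ ≤ ‖v‖ * M + ‖v‖ * M := by
          have := h1 x hx
          have := h2 x hx
          gcongr
      _ = 2 * M * ‖v‖ := by ring
  have h6 := (N1_box_convex r).norm_image_sub_le_of_norm_fderiv_le (𝕜 := ℝ)
    (fun x _ => diffAt f x) h3 hq hp
  rw [Real.norm_eq_abs] at h6
  exact h6

/-- Net pigeonhole: a family bounded in `C⁴(Box 2)` contains a large subfamily of pairwise
`κ`-close in `C³(Box 2)` maps; the proportion `1/N0` depends only on `M` and `κ`. (Evaluate all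
derivatives of order `≤ 3` at the points of a finite grid of mesh `κ/(8M)`, round to multiples
of `κ/4`, choose the largest fibre.) -/
theorem net_pigeonhole (M κ : ℝ) (hM : 0 < M) (hκ : 0 < κ) :
    ∃ N0 : ℕ, 0 < N0 ∧ ∀ {ι : Type} (T : Finset ι) (F : ι → Fin 3 → Sm),
      (∀ i ∈ T, ∀ c, CkB (F i c) 4 M (Box 2)) →
      ∃ T' ⊆ T, T.card ≤ N0 * T'.card ∧
        ∀ i ∈ T', ∀ j ∈ T', ∀ c, CkB (F i c - F j c) 3 κ (Box 2) := by
  classical
  obtain ⟨t, ht, htf, hcov⟩ := Metric.finite_approx_of_totallyBounded (N1_box_totallyBounded 2)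
    (κ / (8 * M)) (by positivity)
  have : Finite t := htf
  have : Fintype t := Fintype.ofFinite t
  set m : ℤ := ⌈4 * M / κ⌉ + 1 with hm
  have hm0 : 0 ≤ m := by
    have : 0 ≤ ⌈4 * M / κ⌉ := Int.ceil_nonneg (by positivity)
    omega
  set B : Finset ((Fin 3 × Fin 4 × Fin 4 × t) → ℤ) :=
    Fintype.piFinset (fun _ => Finset.Icc (-m) m) with hB
  have hBne : B.Nonempty := ⟨fun _ => 0, by
    rw [hB, Fintype.mem_piFinset]
    intro _
    rw [Finset.mem_Icc]
    omega⟩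
  refine ⟨B.card, hBne.card_pos, ?_⟩
  intro ι T F hF
  set key : ι → ((Fin 3 × Fin 4 × Fin 4 × t) → ℤ) := fun i z =>
    if (z.2.1 : ℕ) + z.2.2.1 ≤ 3 then ⌊Dab z.2.1 z.2.2.1 (F i z.1) z.2.2.2.1 / (κ / 4)⌋ else 0
    with hkey
  have hmaps : ∀ i ∈ T, key i ∈ B := by
    intro i hi
    rw [hB, Fintype.mem_piFinset]
    intro z
    rw [Finset.mem_Icc, hkey]
    simp only
    split_ifs with hz
    · have h1 := hF i hi z.1 z.2.1 z.2.2.1 (by omega) z.2.2.2.1 (ht z.2.2.2.2)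
      have h2 : |Dab z.2.1 z.2.2.1 (F i z.1) z.2.2.2.1 / (κ / 4)| ≤ 4 * M / κ := by
        rw [abs_div, abs_of_pos (by positivity : (0 : ℝ) < κ / 4), div_le_div_iff₀ (by positivity) hκ]
        nlinarith
      have h3 : 4 * M / κ ≤ (⌈4 * M / κ⌉ : ℝ) := Int.le_ceil _
      rw [abs_le] at h2
      constructor
      · apply Int.le_floor.2
        rw [hm]; push_cast; linarith
      · have h4 : (⌊Dab z.2.1 z.2.2.1 (F i z.1) z.2.2.2.1 / (κ / 4)⌋ : ℝ) ≤ (m : ℝ) := by
          refine (Int.floor_le _).trans ?_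
          rw [hm]; push_cast; linarith
        exact_mod_cast h4
    · omega
  obtain ⟨k, hkB, hk⟩ : ∃ k ∈ B, T.card ≤ B.card * (T.filter (fun i => key i = k)).card := by
    by_contra hcon
    push Not at hcon
    have h1 : T.card = ∑ k ∈ B, (T.filter (fun i => key i = k)).card :=
      Finset.card_eq_sum_card_fiberwise hmaps
    have h2 : ∑ k ∈ B, B.card * (T.filter (fun i => key i = k)).card < ∑ k ∈ B, T.card :=
      Finset.sum_lt_sum_of_nonempty hBne hcon
    rw [← Finset.mul_sum, ← h1, Finset.sum_const, smul_eq_mul] at h2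
    exact lt_irrefl _ h2
  refine ⟨T.filter (fun i => key i = k), Finset.filter_subset _ _, hk, ?_⟩
  intro i hi j hj c a b hab p hp
  rw [Finset.mem_filter] at hi hj
  obtain ⟨g, hg, hpg⟩ := Set.mem_iUnion₂.1 (hcov hp)
  have hpg' : ‖p - g‖ < κ / (8 * M) := by
    rw [← dist_eq_norm]; exact hpg
  have hgB := ht hg
  have hlip : ∀ i ∈ T, |Dab a b (F i c) p - Dab a b (F i c) g| ≤ κ / 4 := by
    intro i hi
    have h1 := N1_lip (Dab a b (F i c)) M 2
      (fun q hq => by rw [N1_D1_Dab]; exact hF i hi c _ _ (by omega) q hq)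
      (fun q hq => by rw [N1_D2_Dab]; exact hF i hi c _ _ (by omega) q hq) p g hp hgB
    refine h1.trans ?_
    have h2 : 2 * M * ‖p - g‖ ≤ 2 * M * (κ / (8 * M)) :=
      mul_le_mul_of_nonneg_left hpg'.le (by positivity)
    have h3 : 2 * M * (κ / (8 * M)) = κ / 4 := by field_simp; ring
    linarith
  have hi' := hlip i hi.1
  have hj' := hlip j hj.1
  have hfl : ⌊Dab a b (F i c) g / (κ / 4)⌋ = ⌊Dab a b (F j c) g / (κ / 4)⌋ := by
    have h1 : key i = key j := by rw [hi.2, hj.2]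
    have h2 := congrFun h1 (c, ⟨a, by omega⟩, ⟨b, by omega⟩, ⟨g, hg⟩)
    rw [hkey] at h2
    simp only [hab, if_true] at h2
    exact h2
  have hg' : |Dab a b (F i c) g - Dab a b (F j c) g| ≤ κ / 4 := by
    have h1 := Int.abs_sub_lt_one_of_floor_eq_floor hfl
    rw [← sub_div, abs_div, abs_of_pos (by positivity : (0 : ℝ) < κ / 4),
      div_lt_one (by positivity)] at h1
    exact h1.le
  rw [N1_Dab_sub, sub_ap]
  rw [abs_le] at hi' hj' hg' ⊢
  constructor <;> linarith [hi'.1, hi'.2, hj'.1, hj'.2, hg'.1, hg'.2]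

end NI
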