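import Crest.Agent.NI_Geo
import Crest.Agent.NI_N1

set_option autoImplicit false
open scoped ContDiff
open MeasureTheory

namespace NI

/-- closeness of numbers -/
def G3b_Cl (K κ x y : ℝ) : Prop := |x| ≤ K ∧ |y| ≤ K ∧ |x - y| ≤ K * κ

theorem G3b_Cl.mono {K K' κ x y : ℝ} (hκ : 0 ≤ κ) (h : G3b_Cl K κ x y) (hK : K ≤ K') :
    G3b_Cl K' κ x y :=
  ⟨h.1.trans hK, h.2.1.trans hK, h.2.2.trans (mul_le_mul_of_nonneg_right hK hκ)⟩

theorem G3b_Cl.add {K K' κ x y x' y' : ℝ} (h : G3b_Cl K κ x y) (h' : G3b_Cl K' κ x' y') :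
    G3b_Cl (K + K') κ (x + x') (y + y') := by
  refine ⟨(abs_add_le _ _).trans (add_le_add h.1 h'.1),
    (abs_add_le _ _).trans (add_le_add h.2.1 h'.2.1), ?_⟩
  have e : x + x' - (y + y') = (x - y) + (x' - y') := by ring
  rw [e, add_mul]
  exact (abs_add_le _ _).trans (add_le_add h.2.2 h'.2.2)

theorem G3b_Cl.sub {K K' κ x y x' y' : ℝ} (h : G3b_Cl K κ x y) (h' : G3b_Cl K' κ x' y') :
    G3b_Cl (K + K') κ (x - x') (y - y') := by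
  refine ⟨(abs_sub _ _).trans (add_le_add h.1 h'.1),
    (abs_sub _ _).trans (add_le_add h.2.1 h'.2.1), ?_⟩
  have e : x - x' - (y - y') = (x - y) - (x' - y') := by ring
  rw [e, add_mul]
  exact (abs_sub _ _).trans (add_le_add h.2.2 h'.2.2)

theorem G3b_Cl.mul {K K' κ x y x' y' : ℝ} (hK' : 0 ≤ K') (hκ : 0 ≤ κ)
    (h : G3b_Cl K κ x y) (h' : G3b_Cl K' κ x' y') :
    G3b_Cl (2 * K * K') κ (x * x') (y * y') := by
  have hK : 0 ≤ K := (abs_nonneg _).trans h.1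
  have h1 : ∀ a b : ℝ, |a| ≤ K → |b| ≤ K' → |a * b| ≤ 2 * K * K' := by
    intro a b ha hb
    rw [abs_mul]
    have := mul_le_mul ha hb (abs_nonneg _) hK
    nlinarith [mul_nonneg hK hK']
  refine ⟨h1 _ _ h.1 h'.1, h1 _ _ h.2.1 h'.2.1, ?_⟩
  have e : x * x' - y * y' = x * (x' - y') + (x - y) * y' := by ring
  rw [e]
  calc |x * (x' - y') + (x - y) * y'| ≤ |x * (x' - y')| + |(x - y) * y'| := abs_add_le _ _
    _ = |x| * |x' - y'| + |x - y| * |y'| := by rw [abs_mul, abs_mul]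
    _ ≤ K * (K' * κ) + (K * κ) * K' := by
        apply add_le_add
        · exact mul_le_mul h.1 h'.2.2 (abs_nonneg _) hK
        · exact mul_le_mul h.2.2 h'.2.1 (abs_nonneg _) (mul_nonneg hK hκ)
    _ = 2 * K * K' * κ := by ring

/-- closeness of the 1-jets at `p` -/
def G3b_C2 (K κ : ℝ) (p : ℝ × ℝ) (f g : Sm) : Prop :=
  G3b_Cl K κ (f p) (g p) ∧ G3b_Cl K κ (D1 f p) (D1 g p) ∧ G3b_Cl K κ (D2 f p) (D2 g p)

theorem G3b_C2.sub {K K' κ : ℝ} {p : ℝ × ℝ} {f g f' g' : Sm} (h : G3b_C2 K κ p f g)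
    (h' : G3b_C2 K' κ p f' g') : G3b_C2 (K + K') κ p (f - f') (g - g') := by
  unfold G3b_C2
  rw [map_sub, map_sub, map_sub, map_sub]
  exact ⟨h.1.sub h'.1, h.2.1.sub h'.2.1, h.2.2.sub h'.2.2⟩

theorem G3b_C2.add {K K' κ : ℝ} {p : ℝ × ℝ} {f g f' g' : Sm} (h : G3b_C2 K κ p f g)
    (h' : G3b_C2 K' κ p f' g') : G3b_C2 (K + K') κ p (f + f') (g + g') := by
  unfold G3b_C2
  rw [map_add, map_add, map_add, map_add]
  exact ⟨h.1.add h'.1, h.2.1.add h'.2.1, h.2.2.add h'.2.2⟩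

theorem G3b_C2.mul {K K' κ : ℝ} {p : ℝ × ℝ} {f g f' g' : Sm} (hK : 0 ≤ K) (hK' : 0 ≤ K')
    (hκ : 0 ≤ κ) (h : G3b_C2 K κ p f g)
    (h' : G3b_C2 K' κ p f' g') : G3b_C2 (4 * K * K') κ p (f * f') (g * g') := by
  unfold G3b_C2
  rw [Derivation.leibniz, Derivation.leibniz, Derivation.leibniz, Derivation.leibniz]
  simp only [smul_eq_mul, add_ap, mul_ap]
  have e : 4 * K * K' = 2 * K * K' + 2 * K' * K := by ring
  refine ⟨(h.1.mul hK' hκ h'.1).mono hκ ?_, ?_, ?_⟩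
  · nlinarith [mul_nonneg hK hK']
  · rw [e]
    exact (h.1.mul hK' hκ h'.2.1).add (h'.1.mul hK hκ h.2.1)
  · rw [e]
    exact (h.1.mul hK' hκ h'.2.2).add (h'.1.mul hK hκ h.2.2)

/-- `Bdet` is locally Lipschitz in `C²`, its first derivatives in `C³`. -/
theorem Bdet_close : ∃ C : ℝ, 0 < C ∧ ∀ (F G : Fin 3 → Sm) (κ : ℝ) (p : ℝ × ℝ), 0 ≤ κ → κ ≤ 1 →
    (∀ c, ∀ a b, a + b ≤ 3 → 1 ≤ a + b → |Dab a b (F c) p| ≤ 3) →
    (∀ c, ∀ a b, a + b ≤ 3 → 1 ≤ a + b → |Dab a b (F c - G c) p| ≤ κ) →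
    |Bdet F p - Bdet G p| ≤ C * κ ∧ |D1 (Bdet F) p - D1 (Bdet G) p| ≤ C * κ ∧
      |D2 (Bdet F) p - D2 (Bdet G) p| ≤ C * κ := by
  set K1 : ℝ := 4 * 4 * 4 + 4 * 4 * 4 with hK1
  set K2 : ℝ := 4 * K1 * 4 + 4 * K1 * 4 + 4 * K1 * 4 with hK2
  have hK1' : 0 ≤ K1 := by rw [hK1]; norm_num
  have hK2' : 0 ≤ K2 := by rw [hK2]; positivity
  refine ⟨4 * K2 * K2 + 4 * K2 * K2, by rw [hK2, hK1]; norm_num, ?_⟩
  intro F G κ p hκ hκ1 hF hFG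
  -- basic jets
  have hb : ∀ c a b, a + b ≤ 3 → 1 ≤ a + b →
      G3b_Cl 4 κ (Dab a b (F c) p) (Dab a b (G c) p) := by
    intro c a b h1 h2
    have h3 := hF c a b h1 h2
    have h4 := hFG c a b h1 h2
    rw [N1_Dab_sub, sub_ap] at h4
    refine ⟨by linarith, ?_, by linarith⟩
    have e : Dab a b (G c) p = Dab a b (F c) p - (Dab a b (F c) p - Dab a b (G c) p) := by ring
    rw [e]
    exact (abs_sub _ _).trans (by linarith)
  have hj : ∀ c a b, a + b ≤ 2 → 1 ≤ a + b →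
      G3b_C2 4 κ p (Dab a b (F c)) (Dab a b (G c)) := by
    intro c a b h1 h2
    refine ⟨hb c a b (by omega) h2, ?_, ?_⟩
    · rw [N1_D1_Dab, N1_D1_Dab]
      exact hb c _ _ (by omega) (by omega)
    · rw [N1_D2_Dab, N1_D2_Dab]
      exact hb c _ _ (by omega) (by omega)
  have h1 : ∀ c, G3b_C2 4 κ p (D1 (F c)) (D1 (G c)) := fun c => hj c 1 0 (by norm_num) (by norm_num)
  have h2 : ∀ c, G3b_C2 4 κ p (D2 (F c)) (D2 (G c)) := fun c => hj c 0 1 (by norm_num) (by norm_num)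
  have h11 : ∀ c, G3b_C2 4 κ p (D1 (D1 (F c))) (D1 (D1 (G c))) :=
    fun c => hj c 2 0 (by norm_num) (by norm_num)
  have h12 : ∀ c, G3b_C2 4 κ p (D1 (D2 (F c))) (D1 (D2 (G c))) :=
    fun c => hj c 1 1 (by norm_num) (by norm_num)
  have h22 : ∀ c, G3b_C2 4 κ p (D2 (D2 (F c))) (D2 (D2 (G c))) :=
    fun c => hj c 0 2 (by norm_num) (by norm_num)
  have h4 : (0 : ℝ) ≤ 4 := by norm_num
  have hn : ∀ c, G3b_C2 K1 κ p (nrm F c) (nrm G c) := by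
    intro c
    fin_cases c
    · exact ((h1 1).mul h4 h4 hκ (h2 2)).sub ((h1 2).mul h4 h4 hκ (h2 1))
    · exact ((h1 2).mul h4 h4 hκ (h2 0)).sub ((h1 0).mul h4 h4 hκ (h2 2))
    · exact ((h1 0).mul h4 h4 hκ (h2 1)).sub ((h1 1).mul h4 h4 hκ (h2 0))
  have hd : ∀ X Y : Fin 3 → Sm, (∀ c, G3b_C2 4 κ p (X c) (Y c)) →
      G3b_C2 K2 κ p (dot (nrm F) X) (dot (nrm G) Y) := by
    intro X Y hXY
    unfold dot
    exact (((hn 0).mul hK1' h4 hκ (hXY 0)).add ((hn 1).mul hK1' h4 hκ (hXY 1))).add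
      ((hn 2).mul hK1' h4 hκ (hXY 2))
  have hB : G3b_C2 (4 * K2 * K2 + 4 * K2 * K2) κ p (Bdet F) (Bdet G) := by
    unfold Bdet
    rw [sq, sq]
    exact ((hd _ _ h11).mul hK2' hK2' hκ (hd _ _ h22)).sub
      ((hd _ _ h12).mul hK2' hK2' hκ (hd _ _ h12))
  exact ⟨hB.1.2.2, hB.2.1.2.2, hB.2.2.2.2⟩

end NI
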