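import Crest.Agent.NI_G1b
import Crest.Agent.NI_G3
import Crest.Agent.NI_G3b

set_option autoImplicit false
set_option linter.unusedSimpArgs false
open scoped ContDiff
open MeasureTheory

namespace NI
namespace G3d

theorem congr (v : ℝ × ℝ) (f g : Sm) (Ω : Set (ℝ × ℝ)) (hΩ : IsOpen Ω)
    (h : ∀ p ∈ Ω, f p = g p) : ∀ p ∈ Ω, Dv v f p = Dv v g p := by
  intro p hp
  rw [Dv_ap, Dv_ap]
  have : (f : ℝ × ℝ → ℝ) =ᶠ[nhds p] (g : ℝ × ℝ → ℝ) :=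
    Filter.eventually_of_mem (hΩ.mem_nhds hp) h
  rw [this.fderiv_eq]

theorem isOpen_Box (r : ℝ) : IsOpen (Box r) := by
  unfold Box
  exact (isOpen_lt (continuous_fst.abs) continuous_const).inter
    (isOpen_lt (continuous_snd.abs) continuous_const)

theorem D1_Xs : D1 Xs = 1 := by
  apply sm_ext; intro p; rw [D1_ap]
  show fderiv ℝ (fun q : ℝ × ℝ => q.1) p (1,0) = 1
  rw [fderiv_fst]; simp
theorem D2_Xs : D2 Xs = 0 := by
  apply sm_ext; intro p; rw [D2_ap]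
  show fderiv ℝ (fun q : ℝ × ℝ => q.1) p (0,1) = 0
  rw [fderiv_fst]; simp
theorem D1_Xt : D1 Xt = 0 := by
  apply sm_ext; intro p; rw [D1_ap]
  show fderiv ℝ (fun q : ℝ × ℝ => q.2) p (1,0) = 0
  rw [fderiv_snd]; simp
theorem D2_Xt : D2 Xt = 1 := by
  apply sm_ext; intro p; rw [D2_ap]
  show fderiv ℝ (fun q : ℝ × ℝ => q.2) p (0,1) = 1
  rw [fderiv_snd]; simp

theorem D_mul (D : Derivation ℝ Sm Sm) (f g : Sm) : D (f * g) = f * D g + g * D f := by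
  rw [Derivation.leibniz]; rfl
theorem D_sq (D : Derivation ℝ Sm Sm) (f : Sm) : D (f ^ 2) = (2:ℝ) • (f * D f) := by
  rw [pow_two, D_mul, two_smul]
theorem D_cu (D : Derivation ℝ Sm Sm) (f : Sm) : D (f ^ 3) = (3:ℝ) • (f ^ 2 * D f) := by
  rw [pow_succ, D_mul, D_sq]
  apply sm_ext; intro p; simp; ring
theorem D_p4 (D : Derivation ℝ Sm Sm) (f : Sm) : D (f ^ 4) = (4:ℝ) • (f ^ 3 * D f) := by
  rw [pow_succ, D_mul, D_cu]
  apply sm_ext; intro p; simp; ring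
theorem D_one (D : Derivation ℝ Sm Sm) : D (1:Sm) = 0 := D.map_one_eq_zero

theorem Dphi1 : D1 phi = (-2 : ℝ) • (Xs * Xt ^ 2) := by
  simp only [phi, map_sub, Derivation.map_smul, D_mul, D_sq, D_p4, D1_Xs, D1_Xt]
  apply sm_ext; intro p; simp
  ring
theorem Dphi2 : D2 phi = (2 : ℝ) • Xt - (2 : ℝ) • (Xs ^ 2 * Xt) - (2/3 : ℝ) • Xt ^ 3 := by
  simp only [phi, map_sub, Derivation.map_smul, D_mul, D_sq, D_p4, D2_Xs, D2_Xt]
  apply sm_ext; intro p; simp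
  ring
theorem Dphi22 : D2 (D2 phi) = (2 : ℝ) • 1 - (2 : ℝ) • (Xs ^ 2) - (2 : ℝ) • Xt ^ 2 := by
  simp only [Dphi2, map_sub, Derivation.map_smul, D_mul, D_sq, D_cu, D_p4, D2_Xs, D2_Xt]
  apply sm_ext; intro p; simp
  ring
theorem Dphi12 : D1 (D2 phi) = (-4 : ℝ) • (Xs * Xt) := by
  simp only [Dphi2, map_sub, Derivation.map_smul, D_mul, D_sq, D_cu, D_p4, D1_Xs, D1_Xt]
  apply sm_ext; intro p; simp
  ring
theorem Dphi122 : D1 (D2 (D2 phi)) = (-4 : ℝ) • Xs := by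
  simp only [Dphi22, map_sub, Derivation.map_smul, D_mul, D_sq, D_cu, D_p4, D1_Xs, D1_Xt, D_one]
  apply sm_ext; intro p; simp
  ring
theorem Dphi222 : D2 (D2 (D2 phi)) = (-4 : ℝ) • Xt := by
  simp only [Dphi22, map_sub, Derivation.map_smul, D_mul, D_sq, D_cu, D_p4, D2_Xs, D2_Xt, D_one]
  apply sm_ext; intro p; simp
  ring

/-- values of `phi` and its derivatives on the box -/
theorem phi_bounds (p : ℝ × ℝ) (hp : p ∈ Box 1.8) :
    |phi p| ≤ 20 ∧ |D1 phi p| ≤ 20 ∧ |D2 phi p| ≤ 20 ∧ |D1 (D2 phi) p| ≤ 20 ∧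
    |D2 (D2 phi) p| ≤ 20 ∧ |D1 (D2 (D2 phi)) p| ≤ 20 ∧ |D2 (D2 (D2 phi)) p| ≤ 20 := by
  rw [Dphi222, Dphi122, Dphi12, Dphi22, Dphi1, Dphi2]
  obtain ⟨h1, h2⟩ := hp
  rw [abs_lt] at h1 h2
  obtain ⟨s, t⟩ := p
  simp only at h1 h2
  have hs2 : s ^ 2 ≤ 3.24 := by nlinarith
  have ht2 : t ^ 2 ≤ 3.24 := by nlinarith
  have hs0 : 0 ≤ s ^ 2 := sq_nonneg s
  have ht0 : 0 ≤ t ^ 2 := sq_nonneg t
  have hst : s ^ 2 * t ^ 2 ≤ 10.5 := by nlinarith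
  have hst0 : 0 ≤ s ^ 2 * t ^ 2 := by positivity
  have ht4 : t ^ 4 ≤ 10.5 := by nlinarith
  have ht40 : 0 ≤ t ^ 4 := by positivity
  have e1 : phi (s, t) = t ^ 2 - s ^ 2 * t ^ 2 - 1/6 * t ^ 4 := rfl
  have e2 : ((-2 : ℝ) • (Xs * Xt ^ 2) : Sm) (s, t) = -2 * (s * t ^ 2) := rfl
  have e3 : ((2 : ℝ) • Xt - (2 : ℝ) • (Xs ^ 2 * Xt) - (2/3 : ℝ) • Xt ^ 3 : Sm) (s, t)
    = 2 * t - 2 * (s ^ 2 * t) - 2/3 * t ^ 3 := rfl
  have e4 : ((-4 : ℝ) • (Xs * Xt) : Sm) (s, t) = -4 * (s * t) := rfl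
  have e5 : ((2 : ℝ) • 1 - (2 : ℝ) • (Xs ^ 2) - (2 : ℝ) • Xt ^ 2 : Sm) (s, t)
    = 2 * 1 - 2 * s ^ 2 - 2 * t ^ 2 := rfl
  have e6 : ((-4 : ℝ) • Xs : Sm) (s, t) = -4 * s := rfl
  have e7 : ((-4 : ℝ) • Xt : Sm) (s, t) = -4 * t := rfl
  rw [e1, e2, e3, e4, e5, e6, e7]
  refine ⟨?_, ?_, ?_, ?_, ?_, ?_, ?_⟩
  · rw [abs_le]; constructor <;> nlinarith
  · rw [abs_le]; constructor <;> nlinarith
  · rw [abs_le]; constructor <;> nlinarith
  · rw [abs_le]; constructor <;> nlinarith [sq_nonneg (s-t), sq_nonneg (s+t)]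
  · rw [abs_le]; constructor <;> nlinarith
  · rw [abs_le]; constructor <;> nlinarith
  · rw [abs_le]; constructor <;> nlinarith

noncomputable def KE (E : Sm) : Sm := -(1/2 : ℝ) • (E * D2 (D2 E)) + (1/4 : ℝ) • (D2 E) ^ 2

theorem KE_D (D : Derivation ℝ Sm Sm) (E : Sm) : D (KE E) =
    -(1/2 : ℝ) • (E * D (D2 (D2 E)) + D2 (D2 E) * D E) + (1/2 : ℝ) • (D2 E * D (D2 E)) := by
  simp only [KE, map_add, Derivation.map_smul, D_mul, D_sq]
  apply sm_ext; intro p; simp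
  ring

theorem real_mul {x y a b : ℝ} (hx : |x| ≤ a) (hy : |y| ≤ b) : |x * y| ≤ a * b := by
  rw [abs_mul]
  exact mul_le_mul hx hy (abs_nonneg _) (le_trans (abs_nonneg _) hx)

theorem real_lin {x r : ℝ} {ε : ℝ} (hε : 0 < ε) (hε1 : ε ≤ 1) (hx : |x| ≤ 20) (hr : |r| ≤ ε ^ 2) :
    |ε * x + r| ≤ 21 * ε := by
  have h1 : |ε * x| ≤ ε * 20 := by
    rw [abs_mul, abs_of_pos hε]
    exact mul_le_mul_of_nonneg_left hx hε.le
  have h2 := abs_add_le (ε * x) r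
  nlinarith

theorem real_est {W DW W2 W22 DW2 DW22 ε : ℝ} (hε : 0 < ε) (hε1 : ε ≤ 1)
    (h0 : |W| ≤ 21 * ε) (h1 : |DW| ≤ 21 * ε) (h2 : |W2| ≤ 21 * ε) (h3 : |W22| ≤ 21 * ε)
    (h4 : |DW2| ≤ 21 * ε) (h5 : |DW22| ≤ 21 * ε) :
    |-(1/2) * (W * W22) + 1/4 * W2 ^ 2| ≤ 400 * ε ^ 2 ∧
    |-(1/2) * (W * DW22 + W22 * DW) + 1/2 * (W2 * DW2)| ≤ 662 * ε ^ 2 := by
  have a1 := real_mul h0 h3
  have a2 := real_mul h2 h2
  have a3 := real_mul h0 h5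
  have a4 := real_mul h3 h1
  have a5 := real_mul h2 h4
  rw [abs_le] at a1 a2 a3 a4 a5
  obtain ⟨b1, c1⟩ := a1
  obtain ⟨b2, c2⟩ := a2
  obtain ⟨b3, c3⟩ := a3
  obtain ⟨b4, c4⟩ := a4
  obtain ⟨b5, c5⟩ := a5
  have e : 21 * ε * (21 * ε) = 441 * ε ^ 2 := by ring
  rw [e] at *
  have : 0 < ε ^ 2 := by positivity
  constructor
  · rw [abs_le]; constructor <;> nlinarith
  · rw [abs_le]; constructor <;> nlinarith

theorem kk_eq : D2 (D2 phi) = (-2 : ℝ) • kk := by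
  rw [Dphi22, kk]
  apply sm_ext; intro p; simp; ring

theorem kk_bound (p : ℝ × ℝ) (hp : p ∈ Box 1.8) : |kk p| ≤ 6 := by
  obtain ⟨hb1, hb2⟩ := hp
  have : kk p = p.1 ^ 2 + p.2 ^ 2 - 1 := rfl
  rw [this]
  rw [abs_lt] at hb1 hb2
  have q1 : p.1 ^ 2 ≤ 3.24 := by nlinarith
  have q2 : p.2 ^ 2 ≤ 3.24 := by nlinarith
  have q3 := sq_nonneg p.1
  have q4 := sq_nonneg p.2
  rw [abs_le]; constructor
  · linarith
  · norm_num at q1 q2 ⊢; linarith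

theorem KE_bound (E : Sm) (ε : ℝ) (hε : 0 < ε) (hε1 : ε ≤ 1)
    (h : CkB (E - 1 - ε • phi) 3 (ε ^ 2) (Box 1.8)) : ∀ p ∈ Box 1.8,
    |KE E p - ε * kk p| ≤ 700 * ε ^ 2 ∧ |D1 (KE E) p - ε * (2 * p.1)| ≤ 700 * ε ^ 2 ∧
    |D2 (KE E) p - ε * (2 * p.2)| ≤ 700 * ε ^ 2 := by
  intro p hp
  obtain ⟨r, hr⟩ : ∃ r : Sm, r = E - 1 - ε • phi := ⟨_, rfl⟩
  have hE : E = 1 + (ε • phi + r) := by rw [hr]; ring
  rw [← hr] at h
  have r00 : |r p| ≤ ε ^ 2 := h 0 0 (by norm_num) p hp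
  have r10 : |D1 r p| ≤ ε ^ 2 := h 1 0 (by norm_num) p hp
  have r01 : |D2 r p| ≤ ε ^ 2 := h 0 1 (by norm_num) p hp
  have r11 : |D1 (D2 r) p| ≤ ε ^ 2 := h 1 1 (by norm_num) p hp
  have r02 : |D2 (D2 r) p| ≤ ε ^ 2 := h 0 2 (by norm_num) p hp
  have r12 : |D1 (D2 (D2 r)) p| ≤ ε ^ 2 := h 1 2 (by norm_num) p hp
  have r03 : |D2 (D2 (D2 r)) p| ≤ ε ^ 2 := h 0 3 (by norm_num) p hp
  obtain ⟨f00, f10, f01, f11, f02, f12, f03⟩ := phi_bounds p hp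
  have w00 := real_lin hε hε1 f00 r00
  have w10 := real_lin hε hε1 f10 r10
  have w01 := real_lin hε hε1 f01 r01
  have w11 := real_lin hε hε1 f11 r11
  have w02 := real_lin hε hε1 f02 r02
  have w12 := real_lin hε hε1 f12 r12
  have w03 := real_lin hε hε1 f03 r03
  have e1 := real_est hε hε1 w00 w10 w01 w02 w11 w12
  have e2 := real_est hε hε1 w00 w01 w01 w02 w02 w03
  have hpos : 0 < ε ^ 2 := by positivity
  have hkk : (D2 (D2 phi)) p = -2 * kk p := by rw [kk_eq]; rfl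
  have hkk1 : (D1 (D2 (D2 phi))) p = -4 * p.1 := by rw [Dphi122]; rfl
  have hkk2 : (D2 (D2 (D2 phi))) p = -4 * p.2 := by rw [Dphi222]; rfl
  rw [abs_le] at r02 r12 r03
  refine ⟨?_, ?_, ?_⟩
  · have hv : KE E p - ε * kk p = (-(1/2) * ((ε * phi p + r p) * (ε * D2 (D2 phi) p + D2 (D2 r) p))
        + 1/4 * (ε * D2 phi p + D2 r p) ^ 2) - 1/2 * D2 (D2 r) p := by
      rw [KE, hE]
      simp only [map_add, Derivation.map_smul, D_one, add_ap, smul_ap, mul_ap, pow_ap, one_ap,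
        zero_add, hkk]
      ring
    rw [hv]
    have := e1.1
    rw [abs_le] at this ⊢
    constructor <;> linarith [this.1, this.2, r02.1, r02.2]
  · have hv : D1 (KE E) p - ε * (2 * p.1) =
      (-(1/2) * ((ε * phi p + r p) * (ε * D1 (D2 (D2 phi)) p + D1 (D2 (D2 r)) p)
        + (ε * D2 (D2 phi) p + D2 (D2 r) p) * (ε * D1 phi p + D1 r p))
        + 1/2 * ((ε * D2 phi p + D2 r p) * (ε * D1 (D2 phi) p + D1 (D2 r) p)))
        - 1/2 * D1 (D2 (D2 r)) p := by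
      rw [KE_D, hE]
      simp only [map_add, Derivation.map_smul, D_one, add_ap, smul_ap, mul_ap, pow_ap, one_ap,
        zero_add, hkk, hkk1]
      ring
    rw [hv]
    have := e1.2
    rw [abs_le] at this ⊢
    constructor <;> linarith [this.1, this.2, r12.1, r12.2]
  · have hv : D2 (KE E) p - ε * (2 * p.2) =
      (-(1/2) * ((ε * phi p + r p) * (ε * D2 (D2 (D2 phi)) p + D2 (D2 (D2 r)) p)
        + (ε * D2 (D2 phi) p + D2 (D2 r) p) * (ε * D2 phi p + D2 r p))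
        + 1/2 * ((ε * D2 phi p + D2 r p) * (ε * D2 (D2 phi) p + D2 (D2 r) p)))
        - 1/2 * D2 (D2 (D2 r)) p := by
      rw [KE_D, hE]
      simp only [map_add, Derivation.map_smul, D_one, add_ap, smul_ap, mul_ap, pow_ap, one_ap,
        zero_add, hkk, hkk2]
      ring
    rw [hv]
    have := e2.2
    rw [abs_le] at this ⊢
    constructor <;> linarith [this.1, this.2, r03.1, r03.2]


theorem fin_est {u u1 d d1 k k1 ε : ℝ} (hε : 0 < ε) (hu : |u - 1| ≤ 1/40000)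
    (hu1 : |u1| ≤ 1/40000) (hk : |k| ≤ 6) (hk1 : |k1| ≤ 4) (h : |u * d - ε * k| ≤ ε / 2000)
    (h1 : |u1 * d + u * d1 - ε * k1| ≤ ε / 2000) :
    |d - ε * k| ≤ ε / 1000 ∧ |d1 - ε * k1| ≤ ε / 1000 := by
  have hek : |ε * k| ≤ ε * 6 := by
    rw [abs_mul, abs_of_pos hε]; exact mul_le_mul_of_nonneg_left hk hε.le
  have hek1 : |ε * k1| ≤ ε * 4 := by
    rw [abs_mul, abs_of_pos hε]; exact mul_le_mul_of_nonneg_left hk1 hε.le
  have a1 : |(u - 1) * d| ≤ 1/40000 * |d| := by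
    rw [abs_mul]; exact mul_le_mul_of_nonneg_right hu (abs_nonneg _)
  have a2 : |(u - 1) * d1| ≤ 1/40000 * |d1| := by
    rw [abs_mul]; exact mul_le_mul_of_nonneg_right hu (abs_nonneg _)
  have a3 : |u1 * d| ≤ 1/40000 * |d| := by
    rw [abs_mul]; exact mul_le_mul_of_nonneg_right hu1 (abs_nonneg _)
  have hd : |d| ≤ 6.01 * ε := by
    have e : d = (u * d - ε * k) + ε * k - (u - 1) * d := by ring
    have t1 : |d| ≤ |u * d - ε * k| + |ε * k| + |(u - 1) * d| := by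
      calc |d| = |(u * d - ε * k) + ε * k - (u - 1) * d| := by rw [← e]
        _ ≤ |(u * d - ε * k) + ε * k| + |(u - 1) * d| := abs_sub _ _
        _ ≤ _ := by gcongr; exact abs_add_le _ _
    linarith
  have hd1 : |d1| ≤ 4.01 * ε := by
    have e : d1 = (u1 * d + u * d1 - ε * k1) + ε * k1 - (u - 1) * d1 - u1 * d := by ring
    have t1 : |d1| ≤ |u1 * d + u * d1 - ε * k1| + |ε * k1| + |(u - 1) * d1| + |u1 * d| := by
      calc |d1| = |(u1 * d + u * d1 - ε * k1) + ε * k1 - (u - 1) * d1 - u1 * d| := by rw [← e]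
        _ ≤ |(u1 * d + u * d1 - ε * k1) + ε * k1 - (u - 1) * d1| + |u1 * d| := abs_sub _ _
        _ ≤ |(u1 * d + u * d1 - ε * k1) + ε * k1| + |(u - 1) * d1| + |u1 * d| := by
            gcongr; exact abs_sub _ _
        _ ≤ _ := by gcongr; exact abs_add_le _ _
    linarith
  constructor
  · have e : d - ε * k = (u * d - ε * k) - (u - 1) * d := by ring
    rw [e]
    have := abs_sub (u * d - ε * k) ((u - 1) * d)
    linarith
  · have e : d1 - ε * k1 = ((u1 * d + u * d1 - ε * k1) - (u - 1) * d1) - u1 * d := by ring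
    rw [e]
    have t1 := abs_sub ((u1 * d + u * d1 - ε * k1) - (u - 1) * d1) (u1 * d)
    have t2 := abs_sub (u1 * d + u * d1 - ε * k1) ((u - 1) * d1)
    linarith

theorem Dab_add (a b : ℕ) (f g : Sm) : Dab a b (f + g) = Dab a b f + Dab a b g := by
  show (⇑D1)^[a] ((⇑D2)^[b] (f + g)) = (⇑D1)^[a] ((⇑D2)^[b] f) + (⇑D1)^[a] ((⇑D2)^[b] g)
  rw [iterate_map_add, iterate_map_add]

theorem Dab_smul (a b : ℕ) (c : ℝ) (f : Sm) : Dab a b (c • f) = c • Dab a b f := by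
  show (⇑D1)^[a] ((⇑D2)^[b] (c • f)) = c • (⇑D1)^[a] ((⇑D2)^[b] f)
  have h : ∀ (D : Derivation ℝ Sm Sm) (n : ℕ) (f : Sm), (⇑D)^[n] (c • f) = c • (⇑D)^[n] f := by
    intro D n
    induction n with
    | zero => intro f; rfl
    | succ k ih => intro f; rw [Function.iterate_succ_apply, Derivation.map_smul, ih,
        Function.iterate_succ_apply]
  rw [h, h]

theorem F0_bound (lam : ℝ) (h0 : 0 < lam) (h1 : lam ≤ 1) (c : Fin 3) (a b : ℕ) (hab : a + b ≤ 3)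
    (hab1 : 1 ≤ a + b) (p : ℝ × ℝ) (hp : p ∈ Box 1.8) : |Dab a b (F0 lam c) p| ≤ 2 := by
  have ht : |p.2| < 1.8 := hp.2
  have hlt : |lam| * |p.2| ≤ 2 := by
    rw [abs_of_pos h0]
    nlinarith [abs_nonneg p.2]
  have hl : |lam| ≤ 2 := by rw [abs_of_pos h0]; linarith
  have ha : a ≤ 3 := by omega
  have hb : b ≤ 3 := by omega
  have e0 : F0 lam 0 = Xs := rfl
  have e1 : F0 lam 1 = Xt := rfl
  have e2 : F0 lam 2 = (lam / 2) • Xt ^ 2 := rfl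
  have e3 : D2 ((lam / 2) • Xt ^ 2) = lam • Xt := by
    rw [Derivation.map_smul, D_sq, D2_Xt]
    apply sm_ext; intro p; simp; ring
  have e4 : D1 ((lam / 2) • Xt ^ 2) = 0 := by
    rw [Derivation.map_smul, D_sq, D1_Xt]
    apply sm_ext; intro p; simp
  fin_cases c
  · show |Dab a b (F0 lam 0) p| ≤ 2
    rw [e0]
    interval_cases a <;> interval_cases b <;> first | omega | (simp [Dab, D1_Xs, D2_Xs, D_one])
  · show |Dab a b (F0 lam 1) p| ≤ 2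
    rw [e1]
    interval_cases a <;> interval_cases b <;> first | omega | (simp [Dab, D1_Xt, D2_Xt, D_one])
  · show |Dab a b (F0 lam 2) p| ≤ 2
    rw [e2]
    interval_cases a <;> interval_cases b <;> first | omega |
      (simp [Dab, D1_Xt, D2_Xt, D_one, e3, e4, -map_smul, Derivation.map_smul]; try assumption)


theorem real_J {g01 g02 g11 g12 η : ℝ} (hη : 0 < η) (hη1 : η ≤ 1/1000000) (h1 : |g01| ≤ η)
    (h2 : |g02| ≤ η) (h3 : |g11| ≤ η) (h4 : |g12| ≤ η) :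
    |(1 + g01) * (1 + g12) - g02 * g11 - 1| ≤ 3 * η := by
  have a1 := real_mul h1 h4
  have a2 := real_mul h2 h3
  rw [abs_le] at h1 h4 a1 a2 ⊢
  constructor <;> nlinarith [a1.1, a1.2, a2.1, a2.2, h1.1, h1.2, h4.1, h4.2]

theorem real_DJ {g01 g02 g11 g12 k01 k02 k11 k12 η : ℝ} (hη : 0 < η) (hη1 : η ≤ 1/1000000)
    (h1 : |g01| ≤ η) (h2 : |g02| ≤ η) (h3 : |g11| ≤ η) (h4 : |g12| ≤ η)
    (k1 : |k01| ≤ η) (k2 : |k02| ≤ η) (k3 : |k11| ≤ η) (k4 : |k12| ≤ η) :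
    |k01 * (1 + g12) + (1 + g01) * k12 - (k02 * g11 + g02 * k11)| ≤ 3 * η := by
  have a1 := real_mul k1 h4
  have a2 := real_mul h1 k4
  have a3 := real_mul k2 h3
  have a4 := real_mul h2 k3
  rw [abs_le] at k1 k4 a1 a2 a3 a4 ⊢
  constructor <;> nlinarith [a1.1, a1.2, a2.1, a2.2, a3.1, a3.2, a4.1, a4.2, k1.1, k1.2, k4.1, k4.2]

theorem real_J4 {J η : ℝ} (hη : 0 < η) (hη1 : η ≤ 1/1000000) (h : |J - 1| ≤ 3 * η) :
    |J ^ 4 - 1| ≤ 1/40000 ∧ |4 * J ^ 3| ≤ 5 := by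
  rw [abs_le] at h
  obtain ⟨h1, h2⟩ := h
  have l : 1 - 3/1000000 ≤ J := by linarith
  have u : J ≤ 1 + 3/1000000 := by linarith
  have hJ0 : 0 ≤ J := by linarith
  have l4 : (1 - 3/1000000 : ℝ) ^ 4 ≤ J ^ 4 := pow_le_pow_left₀ (by norm_num) l 4
  have u4 : J ^ 4 ≤ (1 + 3/1000000 : ℝ) ^ 4 := pow_le_pow_left₀ hJ0 u 4
  have u3 : J ^ 3 ≤ (1 + 3/1000000 : ℝ) ^ 3 := pow_le_pow_left₀ hJ0 u 3
  have p3 : 0 ≤ J ^ 3 := by positivity
  constructor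
  · rw [abs_le]; constructor
    · norm_num at l4 ⊢; linarith
    · norm_num at u4 ⊢; linarith
  · rw [abs_le]; constructor
    · linarith
    · norm_num at u3 ⊢; linarith

theorem J_bounds (lam : ℝ) (G : Fin 3 → Sm) (fr : Frame) (h0 : 0 < lam) (h1 : lam ≤ 1)
    (hG : Good lam (1/1000000) G) (hfr : IsFr fr G) (p : ℝ × ℝ) :
    |(fr.J ^ 4 : Sm) p - 1| ≤ 1/40000 ∧ |D1 (fr.J ^ 4) p| ≤ 1/40000 ∧
      |D2 (fr.J ^ 4) p| ≤ 1/40000 := by
  obtain ⟨hx, hy⟩ := hfr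
  obtain ⟨g, hg⟩ : ∃ g : Sm, g = G 0 - F0 lam 0 := ⟨_, rfl⟩
  obtain ⟨k, hk⟩ : ∃ k : Sm, k = G 1 - F0 lam 1 := ⟨_, rfl⟩
  have hG0 : G 0 = Xs + g := by rw [hg]; show G 0 = Xs + (G 0 - Xs); ring
  have hG1 : G 1 = Xt + k := by rw [hk]; show G 1 = Xt + (G 1 - Xt); ring
  have hgB : CkB g 4 (1/1000000 * lam) Set.univ := by rw [hg]; exact hG.2 0
  have hkB : CkB k 4 (1/1000000 * lam) Set.univ := by rw [hk]; exact hG.2 1
  have hB : ∀ (f : Sm), CkB f 4 (1/1000000 * lam) Set.univ → ∀ a b, a + b ≤ 4 →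
      |Dab a b f p| ≤ 1/1000000 := by
    intro f hf a b hab
    refine (hf a b hab p (Set.mem_univ _)).trans ?_
    linarith
  have g10 : |D1 g p| ≤ 1/1000000 := hB g hgB 1 0 (by norm_num)
  have g01 : |D2 g p| ≤ 1/1000000 := hB g hgB 0 1 (by norm_num)
  have g20 : |D1 (D1 g) p| ≤ 1/1000000 := hB g hgB 2 0 (by norm_num)
  have g11 : |D1 (D2 g) p| ≤ 1/1000000 := hB g hgB 1 1 (by norm_num)
  have g02 : |D2 (D2 g) p| ≤ 1/1000000 := hB g hgB 0 2 (by norm_num)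
  have k10 : |D1 k p| ≤ 1/1000000 := hB k hkB 1 0 (by norm_num)
  have k01 : |D2 k p| ≤ 1/1000000 := hB k hkB 0 1 (by norm_num)
  have k20 : |D1 (D1 k) p| ≤ 1/1000000 := hB k hkB 2 0 (by norm_num)
  have k11 : |D1 (D2 k) p| ≤ 1/1000000 := hB k hkB 1 1 (by norm_num)
  have k02 : |D2 (D2 k) p| ≤ 1/1000000 := hB k hkB 0 2 (by norm_num)
  have g11' : |D2 (D1 g) p| ≤ 1/1000000 := by rw [← D1_D2_comm]; exact g11
  have k11' : |D2 (D1 k) p| ≤ 1/1000000 := by rw [← D1_D2_comm]; exact k11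
  have hJ : fr.J = (1 + D1 g) * (1 + D2 k) - D2 g * D1 k := by
    rw [fr.hJ, hx, hy, hG0, hG1, map_add, map_add, map_add, map_add, D1_Xs, D2_Xs, D1_Xt, D2_Xt]
    ring
  have hηp : (0:ℝ) < 1/1000000 := by norm_num
  have hJp : |fr.J p - 1| ≤ 3 * (1/1000000) := by
    rw [hJ]
    exact real_J hηp le_rfl g10 g01 k10 k01
  have hDJ : ∀ D : Derivation ℝ Sm Sm, D fr.J = D (D1 g) * (1 + D2 k) + (1 + D1 g) * D (D2 k)
      - (D (D2 g) * D1 k + D2 g * D (D1 k)) := by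
    intro D
    rw [hJ, map_sub, D_mul, D_mul, map_add, map_add, D_one]
    ring
  have hD1 : |D1 fr.J p| ≤ 3 * (1/1000000) := by
    rw [hDJ]
    exact real_DJ hηp le_rfl g10 g01 k10 k01 g20 g11 k20 k11
  have hD2 : |D2 fr.J p| ≤ 3 * (1/1000000) := by
    rw [hDJ]
    exact real_DJ hηp le_rfl g10 g01 k10 k01 g11' g02 k11' k02
  obtain ⟨q1, q2⟩ := real_J4 hηp le_rfl hJp
  refine ⟨q1, ?_, ?_⟩
  · rw [D_p4]
    have : ((4:ℝ) • (fr.J ^ 3 * D1 fr.J) : Sm) p = (4 * fr.J p ^ 3) * D1 fr.J p := by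
      simp; ring
    rw [this]
    refine (real_mul q2 hD1).trans ?_
    norm_num
  · rw [D_p4]
    have : ((4:ℝ) • (fr.J ^ 3 * D2 fr.J) : Sm) p = (4 * fr.J p ^ 3) * D2 fr.J p := by
      simp; ring
    rw [this]
    refine (real_mul q2 hD2).trans ?_
    norm_num

end G3d

set_option maxHeartbeats 1000000 in
/-- The Hessian determinant of the averaged surface is `ε (s²+t²-1)` up to `ε/1000` in `C¹`.
(From `Bdet_eq`, `gauss` for `F`, `Bdet_close` for `avg F F'` versus `F`, and `frame_bounds`;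
`J = 1 + O(η)` in `C¹`.) -/
theorem Dt_close : ∃ η3 : ℝ, 0 < η3 ∧ ∃ ε3 : ℝ, 0 < ε3 ∧ ∀ (lam ε : ℝ) (F F' : Fin 3 → Sm)
    (E : Sm) (fr : Frame), 0 < lam → lam ≤ 1 → 0 < ε → ε ≤ ε3 → Good lam η3 F → Good lam η3 F' →
    IsFr fr (avg F F') → Isom E F (Box 1.8) →
    CkB (E - 1 - ε • phi) 3 (ε ^ 2) (Box 1.8) →
    (∀ c, CkB (F c - F' c) 3 (ε ^ 2) Set.univ) →
    ∀ p ∈ Box 1.8, |fr.Dt (avg F F' 2) p - ε * kk p| ≤ ε/1000 ∧
      |D1 (fr.Dt (avg F F' 2)) p - ε * (2 * p.1)| ≤ ε/1000 ∧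
      |D2 (fr.Dt (avg F F' 2)) p - ε * (2 * p.2)| ≤ ε/1000 := by
  obtain ⟨C, hC, hCl⟩ := Bdet_close
  refine ⟨1/1000000, by norm_num, 1/(2000 * (C + 700)), by positivity, ?_⟩
  intro lam ε F F' E fr hl0 hl1 hε hε3 hF hF' hfr hI hE hFF p hp
  have hCε : (C + 700) * ε ≤ 1/2000 := by
    have h2 : ε * (2000 * (C + 700)) ≤ 1 := by
      rwa [le_div_iff₀ (by positivity)] at hε3
    linarith
  have hε1 : ε ≤ 1 := by nlinarith
  have hεsq : ε ^ 2 ≤ 1 := by nlinarith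
  have hε0 : 0 ≤ ε ^ 2 := by positivity
  have hGood := Good_avg lam _ F F' hF hF'
  obtain ⟨u0, u1, u2⟩ := G3d.J_bounds lam (avg F F') fr hl0 hl1 hGood hfr p
  obtain ⟨c0, c1, c2⟩ := hCl F (avg F F') (ε ^ 2) p hε0 hεsq (by
      intro c a b hab hab1
      have e : F c = F0 lam c + (F c - F0 lam c) := by ring
      rw [e, G3d.Dab_add]
      have h1 := G3d.F0_bound lam hl0 hl1 c a b hab hab1 p hp
      have h2 := hF.2 c a b (by omega) p (Set.mem_univ _)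
      have h3 := abs_add_le (Dab a b (F0 lam c) p) (Dab a b (F c - F0 lam c) p)
      have h4 : (Dab a b (F0 lam c) + Dab a b (F c - F0 lam c) : Sm) p =
        Dab a b (F0 lam c) p + Dab a b (F c - F0 lam c) p := rfl
      rw [h4]
      linarith) (by
      intro c a b hab hab1
      have e : F c - avg F F' c = (1/2 : ℝ) • (F c - F' c) := by
        apply sm_ext; intro q
        simp only [avg, sub_ap, smul_ap, add_ap]; ring
      rw [e, G3d.Dab_smul]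
      have h2 := hFF c a b hab p (Set.mem_univ _)
      have h4 : ((1/2 : ℝ) • Dab a b (F c - F' c) : Sm) p = (1/2) * Dab a b (F c - F' c) p := rfl
      rw [h4, abs_mul]
      have : |(1/2 : ℝ)| = 1/2 := by norm_num
      rw [this]
      have := abs_nonneg (Dab a b (F c - F' c) p)
      linarith)
  have hg : ∀ q ∈ Box 1.8, Bdet F q = G3d.KE E q := gauss E F (Box 1.8) (G3d.isOpen_Box _) hI
  obtain ⟨k0, k1, k2⟩ := G3d.KE_bound E ε hε hε1 hE p hp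
  rw [← hg p hp] at k0
  have g1 : D1 (Bdet F) p = D1 (G3d.KE E) p := G3d.congr _ _ _ _ (G3d.isOpen_Box _) hg p hp
  have g2 : D2 (Bdet F) p = D2 (G3d.KE E) p := G3d.congr _ _ _ _ (G3d.isOpen_Box _) hg p hp
  rw [← g1] at k1
  rw [← g2] at k2
  have hB := Bdet_eq fr (avg F F') hfr
  have t0 : |Bdet (avg F F') p - ε * kk p| ≤ ε / 2000 := by
    have e : Bdet (avg F F') p - ε * kk p = (Bdet F p - ε * kk p) -
      (Bdet F p - Bdet (avg F F') p) := by ring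
    rw [e]
    have := abs_sub (Bdet F p - ε * kk p) (Bdet F p - Bdet (avg F F') p)
    nlinarith
  have t1 : |D1 (Bdet (avg F F')) p - ε * (2 * p.1)| ≤ ε / 2000 := by
    have e : D1 (Bdet (avg F F')) p - ε * (2 * p.1) = (D1 (Bdet F) p - ε * (2 * p.1)) -
      (D1 (Bdet F) p - D1 (Bdet (avg F F')) p) := by ring
    rw [e]
    have := abs_sub (D1 (Bdet F) p - ε * (2 * p.1)) (D1 (Bdet F) p - D1 (Bdet (avg F F')) p)
    nlinarith
  have t2 : |D2 (Bdet (avg F F')) p - ε * (2 * p.2)| ≤ ε / 2000 := by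
    have e : D2 (Bdet (avg F F')) p - ε * (2 * p.2) = (D2 (Bdet F) p - ε * (2 * p.2)) -
      (D2 (Bdet F) p - D2 (Bdet (avg F F')) p) := by ring
    rw [e]
    have := abs_sub (D2 (Bdet F) p - ε * (2 * p.2)) (D2 (Bdet F) p - D2 (Bdet (avg F F')) p)
    nlinarith
  have s0 : Bdet (avg F F') p = (fr.J ^ 4 : Sm) p * fr.Dt (avg F F' 2) p := by rw [hB]; rfl
  have s1 : D1 (Bdet (avg F F')) p = D1 (fr.J ^ 4) p * fr.Dt (avg F F' 2) p
      + (fr.J ^ 4 : Sm) p * D1 (fr.Dt (avg F F' 2)) p := by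
    rw [hB, G3d.D_mul, add_ap, mul_ap, mul_ap]; ring
  have s2 : D2 (Bdet (avg F F')) p = D2 (fr.J ^ 4) p * fr.Dt (avg F F' 2) p
      + (fr.J ^ 4 : Sm) p * D2 (fr.Dt (avg F F' 2)) p := by
    rw [hB, G3d.D_mul, add_ap, mul_ap, mul_ap]; ring
  rw [s0] at t0
  rw [s1] at t1
  rw [s2] at t2
  have hb1 : |p.1| < 1.8 := hp.1
  have hb2 : |p.2| < 1.8 := hp.2
  have hkk : |kk p| ≤ 6 := G3d.kk_bound p hp
  have hk1 : |2 * p.1| ≤ 4 := by rw [abs_lt] at hb1; rw [abs_le]; constructor <;> linarith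
  have hk2 : |2 * p.2| ≤ 4 := by rw [abs_lt] at hb2; rw [abs_le]; constructor <;> linarith
  obtain ⟨r0, r1⟩ := G3d.fin_est hε u0 u1 hkk hk1 t0 t1
  obtain ⟨_, r2⟩ := G3d.fin_est hε u0 u2 hkk hk2 t0 t2
  exact ⟨r0, r1, r2⟩

end NI
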