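import Crest.Agent.NI_Geo

set_option autoImplicit false
open scoped ContDiff
open MeasureTheory

namespace NI

private theorem G1_iter_add (D : Derivation ℝ Sm Sm) (n : ℕ) (f g : Sm) :
    (fun h : Sm => D h)^[n] (f + g) = (fun h : Sm => D h)^[n] f + (fun h : Sm => D h)^[n] g := by
  induction n generalizing f g with
  | zero => rfl
  | succ n ih =>
    rw [Function.iterate_succ_apply, Function.iterate_succ_apply, Function.iterate_succ_apply,
      map_add, ih]

private theorem G1_iter_smul (D : Derivation ℝ Sm Sm) (n : ℕ) (c : ℝ) (f : Sm) :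
    (fun h : Sm => D h)^[n] (c • f) = c • (fun h : Sm => D h)^[n] f := by
  induction n generalizing f with
  | zero => rfl
  | succ n ih =>
    rw [Function.iterate_succ_apply, Function.iterate_succ_apply, D.map_smul, ih]

private theorem G1_Dab_add (a b : ℕ) (f g : Sm) : Dab a b (f + g) = Dab a b f + Dab a b g := by
  unfold Dab
  rw [G1_iter_add, G1_iter_add]

private theorem G1_Dab_smul (a b : ℕ) (c : ℝ) (f : Sm) : Dab a b (c • f) = c • Dab a b f := by
  unfold Dab
  rw [G1_iter_smul, G1_iter_smul]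

private theorem G1_avg_sub (lam : ℝ) (F F' : Fin 3 → Sm) (i : Fin 3) :
    avg F F' i - F0 lam i = (1/2 : ℝ) • ((F i - F0 lam i) + (F' i - F0 lam i)) := by
  unfold avg
  module

theorem Good_avg (lam η : ℝ) (F F' : Fin 3 → Sm) (h : Good lam η F) (h' : Good lam η F') :
    Good lam η (avg F F') := by
  constructor
  · intro i p hp
    rw [G1_avg_sub]
    show (1/2 : ℝ) * ((F i - F0 lam i) p + (F' i - F0 lam i) p) = 0
    rw [h.1 i p hp, h'.1 i p hp]; ring
  · intro i a b hab p hp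
    rw [G1_avg_sub, G1_Dab_smul, G1_Dab_add]
    show |(1/2 : ℝ) * (Dab a b (F i - F0 lam i) p + Dab a b (F' i - F0 lam i) p)| ≤ η * lam
    have h1 := h.2 i a b hab p hp
    have h2 := h'.2 i a b hab p hp
    rw [abs_le] at h1 h2 ⊢
    constructor <;> linarith [h1.1, h1.2, h2.1, h2.2]

private theorem G1_Dv_Xs (v : ℝ × ℝ) (p : ℝ × ℝ) : Dv v Xs p = v.1 := by
  rw [Dv_ap]
  show fderiv ℝ (fun q : ℝ × ℝ => q.1) p v = v.1
  rw [fderiv_fst]; rfl

private theorem G1_Dv_Xt (v : ℝ × ℝ) (p : ℝ × ℝ) : Dv v Xt p = v.2 := by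
  rw [Dv_ap]
  show fderiv ℝ (fun q : ℝ × ℝ => q.2) p v = v.2
  rw [fderiv_snd]; rfl

theorem exists_frame : ∃ η1 : ℝ, 0 < η1 ∧ ∀ (lam : ℝ) (G : Fin 3 → Sm), 0 < lam → lam ≤ 1 →
    Good lam η1 G → ∃ fr : Frame, IsFr fr G := by
  refine ⟨1/10, by norm_num, fun lam G hl hl1 hG => ?_⟩
  have hpos : ∀ p, 0 < (D1 (G 0) * D2 (G 1) - D2 (G 0) * D1 (G 1) : Sm) p := by
    intro p
    have e0 : G 0 = Xs + (G 0 - F0 lam 0) := by
      show G 0 = Xs + (G 0 - Xs); abel
    have e1 : G 1 = Xt + (G 1 - F0 lam 1) := by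
      show G 1 = Xt + (G 1 - Xt); abel
    have b10 := hG.2 0 1 0 (by norm_num) p (Set.mem_univ _)
    have b01 := hG.2 0 0 1 (by norm_num) p (Set.mem_univ _)
    have c10 := hG.2 1 1 0 (by norm_num) p (Set.mem_univ _)
    have c01 := hG.2 1 0 1 (by norm_num) p (Set.mem_univ _)
    change |D1 (G 0 - F0 lam 0) p| ≤ _ at b10
    change |D2 (G 0 - F0 lam 0) p| ≤ _ at b01
    change |D1 (G 1 - F0 lam 1) p| ≤ _ at c10
    change |D2 (G 1 - F0 lam 1) p| ≤ _ at c01
    have f1 : D1 (G 0) p = 1 + D1 (G 0 - F0 lam 0) p := by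
      conv_lhs => rw [e0, map_add]
      rw [add_ap]
      congr 1
      exact G1_Dv_Xs (1,0) p
    have f2 : D2 (G 0) p = D2 (G 0 - F0 lam 0) p := by
      conv_lhs => rw [e0, map_add]
      rw [add_ap]
      have : D2 Xs p = 0 := G1_Dv_Xs (0,1) p
      rw [this, zero_add]
    have f3 : D1 (G 1) p = D1 (G 1 - F0 lam 1) p := by
      conv_lhs => rw [e1, map_add]
      rw [add_ap]
      have : D1 Xt p = 0 := G1_Dv_Xt (1,0) p
      rw [this, zero_add]
    have f4 : D2 (G 1) p = 1 + D2 (G 1 - F0 lam 1) p := by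
      conv_lhs => rw [e1, map_add]
      rw [add_ap]
      congr 1
      exact G1_Dv_Xt (0,1) p
    rw [sub_ap, mul_ap, mul_ap, f1, f2, f3, f4]
    generalize D1 (G 0 - F0 lam 0) p = u at *
    generalize D2 (G 0 - F0 lam 0) p = v at *
    generalize D1 (G 1 - F0 lam 1) p = w at *
    generalize D2 (G 1 - F0 lam 1) p = z at *
    have hb : 1/10 * lam ≤ 1/10 := by linarith
    have b10 := abs_le.mp (b10.trans hb)
    have b01 := abs_le.mp (b01.trans hb)
    have c10 := abs_le.mp (c10.trans hb)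
    have c01 := abs_le.mp (c01.trans hb)
    have h1 : (1 + u) * (1 + z) ≥ 9/10 * (9/10) := by nlinarith [b10.1, c01.1]
    have h2 : v * w ≤ 1/10 * (1/10) := by
      have : |v * w| ≤ 1/10 * (1/10) := by
        rw [abs_mul]
        exact mul_le_mul (abs_le.mpr b01) (abs_le.mpr c10) (abs_nonneg _) (by norm_num)
      exact (le_abs_self _).trans this
    linarith
  have hJi : (D1 (G 0) * D2 (G 1) - D2 (G 0) * D1 (G 1) : Sm) *
      sinv _ (fun p => (hpos p).ne') = 1 := by
    apply sm_ext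
    intro p
    rw [mul_ap, sinv_ap, one_ap, mul_inv_cancel₀ (hpos p).ne']
  exact ⟨⟨G 0, G 1, _, _, rfl, hJi, hpos⟩, rfl, rfl⟩

end NI
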