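import Crest.Agent.NI_Real

set_option autoImplicit false
open scoped ContDiff
open MeasureTheory

namespace NI

/-- compactly supported smooth functions are integrable -/
theorem int_of_cpt (f : Sm) (hf : HasCompactSupport (f : ℝ × ℝ → ℝ)) :
    Integrable (fun p => f p) :=
  (smooth f).continuous.integrable_of_hasCompactSupport hf

private theorem Dv_zero_off (v : ℝ × ℝ) (f : Sm) {p : ℝ × ℝ}
    (hp : p ∉ tsupport (f : ℝ × ℝ → ℝ)) : (Dv v f) p = 0 := by
  rw [Dv_ap]
  have h : (f : ℝ × ℝ → ℝ) =ᶠ[nhds p] 0 := notMem_tsupport_iff_eventuallyEq.mp hp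
  rw [h.fderiv_eq]
  simp

/-- the support of a directional derivative -/
private theorem tsupport_Dv (v : ℝ × ℝ) (f : Sm) :
    tsupport (Dv v f : ℝ × ℝ → ℝ) ⊆ tsupport (f : ℝ × ℝ → ℝ) := by
  refine closure_minimal ?_ (isClosed_tsupport _)
  intro p hp
  by_contra h
  exact hp (Dv_zero_off v f h)

/-- the integral of a partial derivative of a compactly supported smooth function vanishes -/
theorem int_Dv (v : ℝ × ℝ) (f : Sm) (hf : HasCompactSupport (f : ℝ × ℝ → ℝ)) :
    ∫ p, (Dv v f) p = 0 := by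
  have hc : HasCompactSupport (Dv v f : ℝ × ℝ → ℝ) :=
    HasCompactSupport.of_support_subset_isCompact hf.isCompact
      ((subset_tsupport _).trans (tsupport_Dv v f))
  have h := integral_mul_fderiv_eq_neg_fderiv_mul_of_integrable (μ := (volume : Measure (ℝ × ℝ)))
    (f := fun _ : ℝ × ℝ => (1:ℝ)) (g := (f : ℝ × ℝ → ℝ)) (v := v)
    (by simp) (by simp only [one_mul]; exact int_of_cpt (Dv v f) hc)
    (by simp only [one_mul]; exact int_of_cpt f hf)
    (fun x _ => differentiableAt_const _) (fun x _ => diffAt f x)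
  show ∫ p, fderiv ℝ (f : ℝ × ℝ → ℝ) p v = 0
  simpa using h

/-- support of a derivative -/
theorem tsupport_vf (A B f : Sm) :
    tsupport (vf A B f : ℝ × ℝ → ℝ) ⊆ tsupport (f : ℝ × ℝ → ℝ) := by
  refine closure_minimal ?_ (isClosed_tsupport _)
  intro p hp
  by_contra h
  apply hp
  rw [vf_def, add_ap, mul_ap, mul_ap, D1, D2, Dv_zero_off _ f h, Dv_zero_off _ f h]
  ring

/-- derivatives of a compactly supported function are compactly supported -/
theorem cpt_vf (A B f : Sm) (hf : HasCompactSupport (f : ℝ × ℝ → ℝ)) :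
    HasCompactSupport (vf A B f : ℝ × ℝ → ℝ) :=
  HasCompactSupport.of_support_subset_isCompact hf.isCompact
      ((subset_tsupport _).trans (tsupport_vf A B f))

theorem cpt_mul_left (g f : Sm) (hf : HasCompactSupport (f : ℝ × ℝ → ℝ)) :
    HasCompactSupport ((g * f : Sm) : ℝ × ℝ → ℝ) :=
  HasCompactSupport.mul_left (f := (g : ℝ × ℝ → ℝ)) hf

theorem cpt_mul_right (g f : Sm) (hf : HasCompactSupport (f : ℝ × ℝ → ℝ)) :
    HasCompactSupport ((f * g : Sm) : ℝ × ℝ → ℝ) :=
  HasCompactSupport.mul_right (f' := (g : ℝ × ℝ → ℝ)) hf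

theorem cpt_add (g f : Sm) (hg : HasCompactSupport (g : ℝ × ℝ → ℝ))
    (hf : HasCompactSupport (f : ℝ × ℝ → ℝ)) :
    HasCompactSupport ((g + f : Sm) : ℝ × ℝ → ℝ) :=
  HasCompactSupport.add hg hf

theorem cpt_smul (c : ℝ) (f : Sm) (hf : HasCompactSupport (f : ℝ × ℝ → ℝ)) :
    HasCompactSupport ((c • f : Sm) : ℝ × ℝ → ℝ) :=
  HasCompactSupport.smul_left (f := fun _ : ℝ × ℝ => c) hf

/-- if two smooth functions agree on an open set, so do their derivatives -/
theorem vf_congr_open (A B f g : Sm) (Ω : Set (ℝ × ℝ)) (hΩ : IsOpen Ω)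
    (h : ∀ p ∈ Ω, f p = g p) : ∀ p ∈ Ω, vf A B f p = vf A B g p := by
  intro p hp
  have he : (f : ℝ × ℝ → ℝ) =ᶠ[nhds p] (g : ℝ × ℝ → ℝ) := by
    filter_upwards [hΩ.mem_nhds hp] with q hq using h q hq
  rw [vf_def, vf_def, add_ap, add_ap, mul_ap, mul_ap, mul_ap, mul_ap, D1_ap, D1_ap, D2_ap, D2_ap,
    he.fderiv_eq]

end NI
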