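import Crest.Agent.NI_Real
import Crest.Agent.NI_T00

set_option autoImplicit false
open scoped ContDiff
open MeasureTheory

namespace NI
namespace Frame

private theorem d1_def (fr : Frame) (f : Sm) :
    fr.d1 f = (D2 fr.y * fr.Ji) * D1 f + (-(D1 fr.y * fr.Ji)) * D2 f := rfl

private theorem d2_def (fr : Frame) (f : Sm) :
    fr.d2 f = (-(D2 fr.x * fr.Ji)) * D1 f + (D1 fr.x * fr.Ji) * D2 f := rfl

theorem d1_x (fr : Frame) : fr.d1 fr.x = 1 := by
  have h := fr.hJi
  rw [fr.hJ] at h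
  rw [d1_def]
  linear_combination h
theorem d1_y (fr : Frame) : fr.d1 fr.y = 0 := by
  rw [d1_def]; ring
theorem d2_x (fr : Frame) : fr.d2 fr.x = 0 := by
  rw [d2_def]; ring
theorem d2_y (fr : Frame) : fr.d2 fr.y = 1 := by
  have h := fr.hJi
  rw [fr.hJ] at h
  rw [d2_def]
  linear_combination h

private theorem vf_bracket (A B C D f : Sm) :
    vf A B (vf C D f) - vf C D (vf A B f) =
      (vf A B C - vf C D A) * D1 f + (vf A B D - vf C D B) * D2 f := by
  simp only [vf_def, map_add, Derivation.leibniz, smul_eq_mul, D1_D2_comm]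
  ring

/-- the two vector fields commute -/
theorem comm (fr : Frame) (f : Sm) : fr.d1 (fr.d2 f) = fr.d2 (fr.d1 f) := by
  obtain ⟨A, B, hAB⟩ : ∃ A B : Sm, ∀ g : Sm,
      fr.d1 (fr.d2 g) - fr.d2 (fr.d1 g) = A * D1 g + B * D2 g :=
    ⟨_, _, fun g => vf_bracket _ _ _ _ g⟩
  have hx := hAB fr.x
  have hy := hAB fr.y
  rw [d1_x, d2_x, map_zero, Derivation.map_one_eq_zero, sub_zero] at hx
  rw [d1_y, d2_y, map_zero, Derivation.map_one_eq_zero, sub_zero] at hy
  have hJ := fr.hJi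
  rw [fr.hJ] at hJ
  have hA : A = 0 := by
    linear_combination (-A) * hJ - (D2 fr.y * fr.Ji) * hx + (D2 fr.x * fr.Ji) * hy
  have hB : B = 0 := by
    linear_combination (-B) * hJ + (D1 fr.y * fr.Ji) * hx - (D1 fr.x * fr.Ji) * hy
  have h := hAB f
  rw [hA, hB, zero_mul, zero_mul, zero_add] at h
  exact sub_eq_zero.mp h

private theorem int_sub_D (A B : Sm) (hA : HasCompactSupport (A : ℝ × ℝ → ℝ))
    (hB : HasCompactSupport (B : ℝ × ℝ → ℝ)) :
    ∫ p, (D1 A - D2 B : Sm) p = 0 := by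
  have h1 : Integrable (fun p => (D1 A) p) := by
    refine int_of_cpt _ ?_
    have := cpt_vf 1 0 A hA
    rwa [show vf 1 0 A = D1 A by rw [vf_def]; ring] at this
  have h2 : Integrable (fun p => (D2 B) p) := by
    refine int_of_cpt _ ?_
    have := cpt_vf 0 1 B hB
    rwa [show vf 0 1 B = D2 B by rw [vf_def]; ring] at this
  simp only [sub_ap]
  rw [integral_sub h1 h2]
  have e1 : ∫ p, (D1 A) p = 0 := int_Dv _ A hA
  have e2 : ∫ p, (D2 B) p = 0 := int_Dv _ B hB
  rw [e1, e2, sub_zero]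

/-- the vector fields preserve the measure `J ds dt` -/
theorem int_d1 (fr : Frame) (f : Sm) (hf : HasCompactSupport (f : ℝ × ℝ → ℝ)) :
    ∫ p, (fr.J * fr.d1 f) p = 0 := by
  have h : fr.J * fr.d1 f = D1 (D2 fr.y * f) - D2 (D1 fr.y * f) := by
    rw [Derivation.leibniz, Derivation.leibniz, D1_D2_comm, d1_def]
    simp only [smul_eq_mul]
    linear_combination (D2 fr.y * D1 f - D1 fr.y * D2 f) * fr.hJi
  rw [h]
  exact int_sub_D _ _ (cpt_mul_left _ _ hf) (cpt_mul_left _ _ hf)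
theorem int_d2 (fr : Frame) (f : Sm) (hf : HasCompactSupport (f : ℝ × ℝ → ℝ)) :
    ∫ p, (fr.J * fr.d2 f) p = 0 := by
  have h : fr.J * fr.d2 f = D1 (-(D2 fr.x) * f) - D2 (-(D1 fr.x) * f) := by
    rw [Derivation.leibniz, Derivation.leibniz, map_neg, map_neg, D1_D2_comm, d2_def]
    simp only [smul_eq_mul]
    linear_combination (D1 fr.x * D2 f - D2 fr.x * D1 f) * fr.hJi
  rw [h]
  exact int_sub_D _ _ (cpt_mul_left _ _ hf) (cpt_mul_left _ _ hf)

end Frame
end NI
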