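import Crest.Agent.NI_Real
import Crest.Agent.NI_T00

set_option autoImplicit false
open scoped ContDiff
open MeasureTheory

namespace NI
namespace Frame

/-- the exact linear PDE for the difference of two immersions, with residuals.
(Pure algebra: `d1`, `d2` are commuting derivations of the commutative ring `Sm`.) -/
theorem pde_identity (fr : Frame) (hcomm : ∀ f, fr.d1 (fr.d2 f) = fr.d2 (fr.d1 f))
    (z u v w h11 h12 h22 r11 r12 r22 : Sm)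
    (e11 : r11 = fr.d1 u + fr.p z * fr.d1 w - (1/2:ℝ) • h11)
    (e22 : r22 = fr.d2 v + fr.q z * fr.d2 w - (1/2:ℝ) • h22)
    (e12 : r12 = fr.d2 u + fr.d1 v + fr.p z * fr.d2 w + fr.q z * fr.d1 w - h12) :
    fr.L z w = -((1/2:ℝ) • fr.d2 (fr.d2 h11) + (1/2:ℝ) • fr.d1 (fr.d1 h22) - fr.d1 (fr.d2 h12))
      - (fr.d2 (fr.d2 r11) + fr.d1 (fr.d1 r22) - fr.d1 (fr.d2 r12)) := by
  subst e11 e22 e12
  unfold Frame.L Frame.a Frame.b Frame.c Frame.p Frame.q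
  simp only [map_add, map_sub, Derivation.map_smul, Derivation.leibniz, smul_eq_mul, hcomm]
  simp only [Algebra.smul_def]
  ring

theorem cpt_sub' (g f : Sm) (hg : HasCompactSupport (g : ℝ × ℝ → ℝ))
    (hf : HasCompactSupport (f : ℝ × ℝ → ℝ)) :
    HasCompactSupport ((g - f : Sm) : ℝ × ℝ → ℝ) := by
  have h : g - f = g + (-1 : ℝ) • f := by
    rw [neg_one_smul, sub_eq_add_neg]
  rw [h]
  exact cpt_add _ _ hg (cpt_smul _ _ hf)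

theorem int_aux (fr : Frame)
    (hint1 : ∀ f : Sm, HasCompactSupport (f : ℝ × ℝ → ℝ) → ∫ p, (fr.J * fr.d1 f) p = 0)
    (hint2 : ∀ f : Sm, HasCompactSupport (f : ℝ × ℝ → ℝ) → ∫ p, (fr.J * fr.d2 f) p = 0)
    (P Q A B : Sm) (hQ : HasCompactSupport (Q : ℝ × ℝ → ℝ))
    (hA : HasCompactSupport (A : ℝ × ℝ → ℝ)) (hB : HasCompactSupport (B : ℝ × ℝ → ℝ))
    (h : P = Q + fr.d1 A + fr.d2 B) :
    ∫ p, (fr.J * P) p = ∫ p, (fr.J * Q) p := by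
  subst h
  have e : ∀ p, (fr.J * (Q + fr.d1 A + fr.d2 B)) p =
      (fr.J * Q) p + (fr.J * fr.d1 A) p + (fr.J * fr.d2 B) p := by
    intro p
    simp only [mul_ap, add_ap]
    ring
  have i1 : Integrable (fun p => (fr.J * Q) p) := int_of_cpt _ (cpt_mul_left _ _ hQ)
  have i2 : Integrable (fun p => (fr.J * fr.d1 A) p) :=
    int_of_cpt _ (cpt_mul_left _ _ (cpt_vf _ _ _ hA))
  have i3 : Integrable (fun p => (fr.J * fr.d2 B) p) :=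
    int_of_cpt _ (cpt_mul_left _ _ (cpt_vf _ _ _ hB))
  calc ∫ p, (fr.J * (Q + fr.d1 A + fr.d2 B)) p
      = ∫ p, ((fr.J * Q) p + (fr.J * fr.d1 A) p + (fr.J * fr.d2 B) p) := by simp only [e]
    _ = (∫ p, ((fr.J * Q) p + (fr.J * fr.d1 A) p)) + ∫ p, (fr.J * fr.d2 B) p :=
        integral_add (i1.add i2) i3
    _ = (∫ p, (fr.J * Q) p) + (∫ p, (fr.J * fr.d1 A) p) + ∫ p, (fr.J * fr.d2 B) p := by
        rw [integral_add i1 i2]
    _ = _ := by rw [hint1 A hA, hint2 B hB, add_zero, add_zero]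

/-- self-adjointness of `L` -/
theorem selfadj (fr : Frame) (hcomm : ∀ f, fr.d1 (fr.d2 f) = fr.d2 (fr.d1 f))
    (hint1 : ∀ f : Sm, HasCompactSupport (f : ℝ × ℝ → ℝ) → ∫ p, (fr.J * fr.d1 f) p = 0)
    (hint2 : ∀ f : Sm, HasCompactSupport (f : ℝ × ℝ → ℝ) → ∫ p, (fr.J * fr.d2 f) p = 0)
    (z w u : Sm) (hu : HasCompactSupport (u : ℝ × ℝ → ℝ)) :
    ∫ p, (fr.J * (fr.L z w * u)) p = ∫ p, (fr.J * (w * fr.L z u)) p := by
  have h1 : HasCompactSupport (fr.d1 u : ℝ × ℝ → ℝ) := cpt_vf _ _ _ hu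
  have h2 : HasCompactSupport (fr.d2 u : ℝ × ℝ → ℝ) := cpt_vf _ _ _ hu
  have h11 : HasCompactSupport (fr.d1 (fr.d1 u) : ℝ × ℝ → ℝ) := cpt_vf _ _ _ h1
  have h12 : HasCompactSupport (fr.d1 (fr.d2 u) : ℝ × ℝ → ℝ) := cpt_vf _ _ _ h2
  have h22 : HasCompactSupport (fr.d2 (fr.d2 u) : ℝ × ℝ → ℝ) := cpt_vf _ _ _ h2
  refine int_aux fr hint1 hint2 (fr.L z w * u) (w * fr.L z u)
    ((fr.a z * fr.d1 w - fr.b z * fr.d2 w) * u - w * (fr.a z * fr.d1 u - fr.b z * fr.d2 u))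
    ((fr.c z * fr.d2 w - fr.b z * fr.d1 w) * u - w * (fr.c z * fr.d2 u - fr.b z * fr.d1 u))
    ?_ ?_ ?_ ?_
  · refine cpt_mul_left _ _ ?_
    unfold Frame.L
    exact cpt_add _ _ (cpt_sub' _ _ (cpt_mul_left _ _ h11) (cpt_mul_left _ _ h12))
      (cpt_mul_left _ _ h22)
  · exact cpt_sub' _ _ (cpt_mul_left _ _ hu) (cpt_mul_left _ _
      (cpt_sub' _ _ (cpt_mul_left _ _ h1) (cpt_mul_left _ _ h2)))
  · exact cpt_sub' _ _ (cpt_mul_left _ _ hu) (cpt_mul_left _ _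
      (cpt_sub' _ _ (cpt_mul_left _ _ h2) (cpt_mul_left _ _ h1)))
  · unfold Frame.L Frame.a Frame.b Frame.c
    simp only [map_sub, Derivation.leibniz, smul_eq_mul, hcomm]
    ring

/-- double integration by parts on the right hand side -/
theorem rhs_parts (fr : Frame) (hcomm : ∀ f, fr.d1 (fr.d2 f) = fr.d2 (fr.d1 f))
    (hint1 : ∀ f : Sm, HasCompactSupport (f : ℝ × ℝ → ℝ) → ∫ p, (fr.J * fr.d1 f) p = 0)
    (hint2 : ∀ f : Sm, HasCompactSupport (f : ℝ × ℝ → ℝ) → ∫ p, (fr.J * fr.d2 f) p = 0)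
    (h11 h12 h22 u : Sm) (hu : HasCompactSupport (u : ℝ × ℝ → ℝ)) :
    ∫ p, (fr.J * (((1/2:ℝ) • fr.d2 (fr.d2 h11) + (1/2:ℝ) • fr.d1 (fr.d1 h22)
        - fr.d1 (fr.d2 h12)) * u)) p
      = ∫ p, (fr.J * ((1/2:ℝ) • (h11 * fr.d2 (fr.d2 u)) + (1/2:ℝ) • (h22 * fr.d1 (fr.d1 u))
        - h12 * fr.d1 (fr.d2 u))) p := by
  have k1 : HasCompactSupport (fr.d1 u : ℝ × ℝ → ℝ) := cpt_vf _ _ _ hu
  have k2 : HasCompactSupport (fr.d2 u : ℝ × ℝ → ℝ) := cpt_vf _ _ _ hu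
  have k11 : HasCompactSupport (fr.d1 (fr.d1 u) : ℝ × ℝ → ℝ) := cpt_vf _ _ _ k1
  have k12 : HasCompactSupport (fr.d1 (fr.d2 u) : ℝ × ℝ → ℝ) := cpt_vf _ _ _ k2
  have k22 : HasCompactSupport (fr.d2 (fr.d2 u) : ℝ × ℝ → ℝ) := cpt_vf _ _ _ k2
  refine int_aux fr hint1 hint2 _ _
    ((1/2:ℝ) • (fr.d1 h22 * u - h22 * fr.d1 u) - fr.d2 h12 * u)
    ((1/2:ℝ) • (fr.d2 h11 * u - h11 * fr.d2 u) + h12 * fr.d1 u)
    ?_ ?_ ?_ ?_
  · exact cpt_sub' _ _ (cpt_add _ _ (cpt_smul _ _ (cpt_mul_left _ _ k22))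
      (cpt_smul _ _ (cpt_mul_left _ _ k11))) (cpt_mul_left _ _ k12)
  · exact cpt_sub' _ _ (cpt_smul _ _ (cpt_sub' _ _ (cpt_mul_left _ _ hu) (cpt_mul_left _ _ k1)))
      (cpt_mul_left _ _ hu)
  · exact cpt_add _ _ (cpt_smul _ _ (cpt_sub' _ _ (cpt_mul_left _ _ hu) (cpt_mul_left _ _ k2)))
      (cpt_mul_left _ _ k1)
  · simp only [map_add, map_sub, Derivation.map_smul, Derivation.leibniz, smul_eq_mul, hcomm]
    simp only [Algebra.smul_def]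
    ring

end Frame
end NI
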