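import Crest.Agent.NI_Geo
import Crest.Agent.NI_G1
import Crest.Agent.NI_T00
import Crest.Agent.NI_T01
import Crest.Agent.NI_T02

set_option autoImplicit false
open scoped ContDiff
open MeasureTheory

namespace NI

theorem d1_zero_on (fr : Frame) (r : Sm) (Ω : Set (ℝ × ℝ)) (hΩ : IsOpen Ω)
    (h : ∀ p ∈ Ω, r p = 0) : ∀ p ∈ Ω, fr.d1 r p = 0 := by
  intro p hp
  have := vf_congr_open (D2 fr.y * fr.Ji) (-(D1 fr.y * fr.Ji)) r 0 Ω hΩ
    (fun q hq => by rw [h q hq, zero_ap]) p hp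
  rw [map_zero, zero_ap] at this
  exact this

theorem d2_zero_on (fr : Frame) (r : Sm) (Ω : Set (ℝ × ℝ)) (hΩ : IsOpen Ω)
    (h : ∀ p ∈ Ω, r p = 0) : ∀ p ∈ Ω, fr.d2 r p = 0 := by
  intro p hp
  have := vf_congr_open (-(D2 fr.x * fr.Ji)) (D1 fr.x * fr.Ji) r 0 Ω hΩ
    (fun q hq => by rw [h q hq, zero_ap]) p hp
  rw [map_zero, zero_ap] at this
  exact this

theorem comb_zero1 (P Q R A B C : Sm) (p : ℝ × ℝ) (hA : A p = 0) (hB : B p = 0) (hC : C p = 0) :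
    (P * A - Q * B + R * C) p = 0 := by
  have : (P * A - Q * B + R * C) p = P p * A p - Q p * B p + R p * C p := rfl
  rw [this, hA, hB, hC]; ring

theorem comb_zero2 (P Q R A B C : Sm) (p : ℝ × ℝ) (hA : A p = 0) (hB : B p = 0) (hC : C p = 0) :
    (P * A + Q * B - R * C) p = 0 := by
  have : (P * A + Q * B - R * C) p = P p * A p + Q p * B p - R p * C p := rfl
  rw [this, hA, hB, hC]; ring

theorem d1_def (fr : Frame) (f : Sm) :
    fr.d1 f = D2 fr.y * fr.Ji * D1 f + -(D1 fr.y * fr.Ji) * D2 f := rfl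

theorem d2_def (fr : Frame) (f : Sm) :
    fr.d2 f = -(D2 fr.x * fr.Ji) * D1 f + D1 fr.x * fr.Ji * D2 f := rfl

/-- the residuals of the linearised isometry equations vanish where both maps are isometric,
hence the exact linear equation (uses `Frame.comm`, `Frame.pde_identity`, `vf_congr_open`). -/
theorem pde_on (fr : Frame) (F F' : Fin 3 → Sm) (E E' : Sm) (Ω : Set (ℝ × ℝ)) (hΩ : IsOpen Ω)
    (hF : Isom E F Ω) (hF' : Isom E' F' Ω) (hfr : IsFr fr (avg F F')) :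
    ∀ p ∈ Ω, fr.L (avg F F' 2) (F 2 - F' 2) p = fr.H (E - E') p := by
  obtain ⟨hx, hy⟩ := hfr
  set z := avg F F' 2 with hz
  set u := F 0 - F' 0 with hu
  set v := F 1 - F' 1 with hv
  set w := F 2 - F' 2 with hw
  set h := E - E' with hh
  -- the three scalar equations
  have hA : ∀ p ∈ Ω, (D1 fr.x * D1 u + D1 fr.y * D1 v + D1 z * D1 w - (1/2:ℝ) • h) p = 0 := by
    intro p hp
    obtain ⟨a1, -, -⟩ := hF p hp
    obtain ⟨b1, -, -⟩ := hF' p hp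
    simp only [dot, add_ap, mul_ap] at a1 b1
    rw [hx, hy, hz, hu, hv, hw, hh]
    simp only [avg, Derivation.map_smul, map_add, map_sub, add_ap, sub_ap, mul_ap, smul_ap]
    linear_combination (1/2:ℝ) * a1 - (1/2:ℝ) * b1
  have hB : ∀ p ∈ Ω, (D1 fr.x * D2 u + D1 fr.y * D2 v + D1 z * D2 w
      + D2 fr.x * D1 u + D2 fr.y * D1 v + D2 z * D1 w) p = 0 := by
    intro p hp
    obtain ⟨-, a2, -⟩ := hF p hp
    obtain ⟨-, b2, -⟩ := hF' p hp
    simp only [dot, add_ap, mul_ap] at a2 b2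
    rw [hx, hy, hz, hu, hv, hw]
    simp only [avg, Derivation.map_smul, map_add, map_sub, add_ap, sub_ap, mul_ap, smul_ap]
    linear_combination a2 - b2
  have hC : ∀ p ∈ Ω, (D2 fr.x * D2 u + D2 fr.y * D2 v + D2 z * D2 w) p = 0 := by
    intro p hp
    obtain ⟨-, -, a3⟩ := hF p hp
    obtain ⟨-, -, b3⟩ := hF' p hp
    simp only [dot, add_ap, mul_ap] at a3 b3
    rw [hx, hy, hz, hu, hv, hw]
    simp only [avg, Derivation.map_smul, map_add, map_sub, add_ap, sub_ap, mul_ap, smul_ap]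
    linear_combination (1/2:ℝ) * a3 - (1/2:ℝ) * b3
  set SA := D1 fr.x * D1 u + D1 fr.y * D1 v + D1 z * D1 w - (1/2:ℝ) • h with hSA
  set SB := D1 fr.x * D2 u + D1 fr.y * D2 v + D1 z * D2 w
      + D2 fr.x * D1 u + D2 fr.y * D1 v + D2 z * D1 w with hSB
  set SC := D2 fr.x * D2 u + D2 fr.y * D2 v + D2 z * D2 w with hSC
  have k1x := fr.d1_x
  have k1y := fr.d1_y
  have k2x := fr.d2_x
  have k2y := fr.d2_y
  rw [d1_def] at k1x k1y
  rw [d2_def] at k2x k2y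
  set h11 := h * fr.al ^ 2 with hh11
  set h22 := h * fr.be ^ 2 with hh22
  set h12 := -(h * fr.al * fr.be) with hh12
  have two : (2:Sm) * algebraMap ℝ Sm (1/2) = 1 := by
    apply sm_ext; intro p
    show (2:ℝ) * (1/2) = 1
    norm_num
  -- the residuals
  have e11 : fr.d1 u + fr.p z * fr.d1 w - (1/2:ℝ) • h11 =
      (D2 fr.y * fr.Ji) ^ 2 * SA - (D2 fr.y * fr.Ji) * (D1 fr.y * fr.Ji) * SB
        + (D1 fr.y * fr.Ji) ^ 2 * SC := by
    rw [hh11, hSA, hSB, hSC]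
    unfold Frame.p Frame.al
    simp only [d1_def, Algebra.smul_def]
    linear_combination (-(D2 fr.y * fr.Ji * D1 u + -(D1 fr.y * fr.Ji) * D2 u)) * k1x
      - (D2 fr.y * fr.Ji * D1 v + -(D1 fr.y * fr.Ji) * D2 v) * k1y
  have e22 : fr.d2 v + fr.q z * fr.d2 w - (1/2:ℝ) • h22 =
      (D2 fr.x * fr.Ji) ^ 2 * SA - (D2 fr.x * fr.Ji) * (D1 fr.x * fr.Ji) * SB
        + (D1 fr.x * fr.Ji) ^ 2 * SC := by
    rw [hh22, hSA, hSB, hSC]
    unfold Frame.q Frame.be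
    simp only [d2_def, Algebra.smul_def]
    linear_combination (-(-(D2 fr.x * fr.Ji) * D1 u + D1 fr.x * fr.Ji * D2 u)) * k2x
      - (-(D2 fr.x * fr.Ji) * D1 v + D1 fr.x * fr.Ji * D2 v) * k2y
  have e12 : fr.d2 u + fr.d1 v + fr.p z * fr.d2 w + fr.q z * fr.d1 w - h12 =
      -(2 * (D2 fr.y * fr.Ji) * (D2 fr.x * fr.Ji)) * SA
        + ((D2 fr.y * fr.Ji) * (D1 fr.x * fr.Ji) + (D1 fr.y * fr.Ji) * (D2 fr.x * fr.Ji)) * SB
        - (2 * (D1 fr.y * fr.Ji) * (D1 fr.x * fr.Ji)) * SC := by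
    rw [hh12, hSA, hSB, hSC]
    unfold Frame.p Frame.q Frame.al Frame.be
    simp only [d1_def, d2_def, Algebra.smul_def]
    linear_combination (-(-(D2 fr.x * fr.Ji) * D1 u + D1 fr.x * fr.Ji * D2 u)) * k1x
      - (-(D2 fr.x * fr.Ji) * D1 v + D1 fr.x * fr.Ji * D2 v) * k1y
      - (D2 fr.y * fr.Ji * D1 u + -(D1 fr.y * fr.Ji) * D2 u) * k2x
      - (D2 fr.y * fr.Ji * D1 v + -(D1 fr.y * fr.Ji) * D2 v) * k2y
      - (h * (D2 fr.y * fr.Ji) * (D2 fr.x * fr.Ji)) * two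
  have r11 : ∀ p ∈ Ω, (fr.d1 u + fr.p z * fr.d1 w - (1/2:ℝ) • h11) p = 0 := by
    intro p hp
    rw [e11]
    exact comb_zero1 _ _ _ _ _ _ p (hA p hp) (hB p hp) (hC p hp)
  have r22 : ∀ p ∈ Ω, (fr.d2 v + fr.q z * fr.d2 w - (1/2:ℝ) • h22) p = 0 := by
    intro p hp
    rw [e22]
    exact comb_zero1 _ _ _ _ _ _ p (hA p hp) (hB p hp) (hC p hp)
  have r12 : ∀ p ∈ Ω, (fr.d2 u + fr.d1 v + fr.p z * fr.d2 w + fr.q z * fr.d1 w - h12) p = 0 := by
    intro p hp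
    rw [e12]
    exact comb_zero2 _ _ _ _ _ _ p (hA p hp) (hB p hp) (hC p hp)
  intro p hp
  rw [fr.pde_identity fr.comm z u v w h11 h12 h22 _ _ _ rfl rfl rfl, sub_ap, sub_ap, add_ap,
    d2_zero_on fr _ Ω hΩ (d2_zero_on fr _ Ω hΩ r11) p hp,
    d1_zero_on fr _ Ω hΩ (d1_zero_on fr _ Ω hΩ r22) p hp,
    d1_zero_on fr _ Ω hΩ (d2_zero_on fr _ Ω hΩ r12) p hp]
  rw [add_zero, sub_zero, sub_zero]
  rfl

end NI
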