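import Crest.Agent.NI_Geo
import Crest.Agent.NI_G1
import Crest.Agent.NI_T01

set_option autoImplicit false
open scoped ContDiff
open MeasureTheory

namespace NI

/-- derivatives of order `≤ k` bounded by `M` everywhere -/
def Hb : ℕ → Sm → ℝ → Prop
  | 0, f, M => ∀ p, |f p| ≤ M
  | k + 1, f, M => (∀ p, |f p| ≤ M) ∧ Hb k (D1 f) M ∧ Hb k (D2 f) M

theorem Hb.ap {k : ℕ} {f : Sm} {M : ℝ} (h : Hb k f M) (p : ℝ × ℝ) : |f p| ≤ M := by
  cases k with
  | zero => exact h p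
  | succ k => exact h.1 p

theorem Hb.nonneg {k : ℕ} {f : Sm} {M : ℝ} (h : Hb k f M) : 0 ≤ M :=
  (abs_nonneg _).trans (h.ap (0, 0))

theorem Hb.mono {k : ℕ} {f : Sm} {M M' : ℝ} (h : Hb k f M) (hM : M ≤ M') : Hb k f M' := by
  induction k generalizing f with
  | zero => exact fun p => (h p).trans hM
  | succ k ih => exact ⟨fun p => (h.1 p).trans hM, ih h.2.1, ih h.2.2⟩

theorem Hb.pred {k : ℕ} {f : Sm} {M : ℝ} (h : Hb (k + 1) f M) : Hb k f M := by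
  induction k generalizing f with
  | zero => exact h.1
  | succ k ih => exact ⟨h.1, ih h.2.1, ih h.2.2⟩

theorem Hb.add {k : ℕ} {f g : Sm} {A B : ℝ} (hf : Hb k f A) (hg : Hb k g B) :
    Hb k (f + g) (A + B) := by
  induction k generalizing f g with
  | zero => exact fun p => (abs_add_le _ _).trans (add_le_add (hf p) (hg p))
  | succ k ih =>
    refine ⟨fun p => (abs_add_le _ _).trans (add_le_add (hf.1 p) (hg.1 p)), ?_, ?_⟩
    · rw [map_add]; exact ih hf.2.1 hg.2.1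
    · rw [map_add]; exact ih hf.2.2 hg.2.2

theorem Hb.neg {k : ℕ} {f : Sm} {A : ℝ} (hf : Hb k f A) : Hb k (-f) A := by
  induction k generalizing f with
  | zero => intro p; rw [neg_ap, abs_neg]; exact hf p
  | succ k ih =>
    refine ⟨fun p => by rw [neg_ap, abs_neg]; exact hf.1 p, ?_, ?_⟩
    · rw [map_neg]; exact ih hf.2.1
    · rw [map_neg]; exact ih hf.2.2

theorem Hb.mul {k : ℕ} {f g : Sm} {A B : ℝ} (hf : Hb k f A) (hg : Hb k g B) :
    Hb k (f * g) (2 ^ k * (A * B)) := by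
  induction k generalizing f g A B with
  | zero =>
    intro p
    rw [mul_ap, abs_mul, pow_zero, one_mul]
    exact mul_le_mul (hf p) (hg p) (abs_nonneg _) hf.nonneg
  | succ k ih =>
    have hA := hf.nonneg
    have hB := hg.nonneg
    have hAB : 0 ≤ A * B := mul_nonneg hA hB
    refine ⟨fun p => ?_, ?_, ?_⟩
    · rw [mul_ap, abs_mul]
      refine (mul_le_mul (hf.1 p) (hg.1 p) (abs_nonneg _) hA).trans ?_
      have : (1 : ℝ) ≤ 2 ^ (k + 1) := one_le_pow₀ (by norm_num)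
      nlinarith
    · rw [Derivation.leibniz, smul_eq_mul, smul_eq_mul]
      have h1 := ih hf.pred hg.2.1
      have h2 := ih hg.pred hf.2.1
      refine (h1.add h2).mono (le_of_eq ?_)
      rw [pow_succ]; ring
    · rw [Derivation.leibniz, smul_eq_mul, smul_eq_mul]
      have h1 := ih hf.pred hg.2.2
      have h2 := ih hg.pred hf.2.2
      refine (h1.add h2).mono (le_of_eq ?_)
      rw [pow_succ]; ring

theorem iter_D1_comm (b : ℕ) (f : Sm) :
    (fun g : Sm => D2 g)^[b] (D1 f) = D1 ((fun g : Sm => D2 g)^[b] f) := by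
  induction b generalizing f with
  | zero => rfl
  | succ b ih =>
    rw [Function.iterate_succ_apply, Function.iterate_succ_apply, ← D1_D2_comm, ih]

theorem Hb_of_CkB {k : ℕ} {f : Sm} {M : ℝ} (h : CkB f k M Set.univ) : Hb k f M := by
  induction k generalizing f with
  | zero => exact fun p => h 0 0 le_rfl p (Set.mem_univ p)
  | succ k ih =>
    refine ⟨fun p => h 0 0 (by omega) p (Set.mem_univ p), ih ?_, ih ?_⟩
    · intro a b hab p hp
      have := h (a + 1) b (by omega) p hp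
      rw [Dab, Function.iterate_succ_apply] at this
      rw [Dab, iter_D1_comm]
      exact this
    · intro a b hab p hp
      have := h a (b + 1) (by omega) p hp
      rw [Dab, Function.iterate_succ_apply] at this
      exact this

/-- frames near the identity -/
def Near (fr : Frame) : Prop := Hb 4 (fr.x - Xs) (1/10) ∧ Hb 4 (fr.y - Xt) (1/10)

/-- uniformly bounded families of coefficients -/
def UB (k : ℕ) (Φ : Frame → Sm) : Prop := ∃ C : ℝ, ∀ fr : Frame, Near fr → Hb k (Φ fr) C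

theorem UB.add {k : ℕ} {Φ Ψ : Frame → Sm} (h1 : UB k Φ) (h2 : UB k Ψ) :
    UB k (fun fr => Φ fr + Ψ fr) := by
  obtain ⟨A, h1⟩ := h1
  obtain ⟨B, h2⟩ := h2
  exact ⟨_, fun fr hfr => (h1 fr hfr).add (h2 fr hfr)⟩

theorem UB.mul {k : ℕ} {Φ Ψ : Frame → Sm} (h1 : UB k Φ) (h2 : UB k Ψ) :
    UB k (fun fr => Φ fr * Ψ fr) := by
  obtain ⟨A, h1⟩ := h1
  obtain ⟨B, h2⟩ := h2
  exact ⟨_, fun fr hfr => (h1 fr hfr).mul (h2 fr hfr)⟩

theorem UB.neg {k : ℕ} {Φ : Frame → Sm} (h1 : UB k Φ) : UB k (fun fr => -Φ fr) := by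
  obtain ⟨A, h1⟩ := h1
  exact ⟨_, fun fr hfr => (h1 fr hfr).neg⟩

theorem UB.pred {k : ℕ} {Φ : Frame → Sm} (h1 : UB (k + 1) Φ) : UB k Φ := by
  obtain ⟨A, h1⟩ := h1
  exact ⟨_, fun fr hfr => (h1 fr hfr).pred⟩

theorem UB.dd1 {k : ℕ} {Φ : Frame → Sm} (h1 : UB (k + 1) Φ) : UB k (fun fr => NI.D1 (Φ fr)) := by
  obtain ⟨A, h1⟩ := h1
  exact ⟨_, fun fr hfr => (h1 fr hfr).2.1⟩

theorem UB.dd2 {k : ℕ} {Φ : Frame → Sm} (h1 : UB (k + 1) Φ) : UB k (fun fr => NI.D2 (Φ fr)) := by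
  obtain ⟨A, h1⟩ := h1
  exact ⟨_, fun fr hfr => (h1 fr hfr).2.2⟩

theorem D1_Xs : D1 Xs = 1 := by
  apply sm_ext; intro p
  rw [D1_ap]
  have : (Xs : ℝ × ℝ → ℝ) = Prod.fst := rfl
  rw [this, fderiv_fst]; rfl

theorem D2_Xs : D2 Xs = 0 := by
  apply sm_ext; intro p
  rw [D2_ap]
  have : (Xs : ℝ × ℝ → ℝ) = Prod.fst := rfl
  rw [this, fderiv_fst]; rfl

theorem D1_Xt : D1 Xt = 0 := by
  apply sm_ext; intro p
  rw [D1_ap]
  have : (Xt : ℝ × ℝ → ℝ) = Prod.snd := rfl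
  rw [this, fderiv_snd]; rfl

theorem D2_Xt : D2 Xt = 1 := by
  apply sm_ext; intro p
  rw [D2_ap]
  have : (Xt : ℝ × ℝ → ℝ) = Prod.snd := rfl
  rw [this, fderiv_snd]; rfl

theorem Hb_zero (k : ℕ) : Hb k 0 0 := by
  induction k with
  | zero => intro p; simp
  | succ k ih => exact ⟨fun p => by simp, by rw [map_zero]; exact ih, by rw [map_zero]; exact ih⟩

theorem Hb_one (k : ℕ) : Hb k 1 1 := by
  cases k with
  | zero => intro p; simp
  | succ k =>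
    refine ⟨fun p => by simp, ?_, ?_⟩
    · rw [Derivation.map_one_eq_zero]; exact (Hb_zero k).mono (by norm_num)
    · rw [Derivation.map_one_eq_zero]; exact (Hb_zero k).mono (by norm_num)

theorem Near.dx1 {fr : Frame} (_h : Near fr) : D1 fr.x = D1 (fr.x - Xs) + 1 := by
  rw [map_sub, D1_Xs]; ring
theorem Near.dx2 {fr : Frame} (_h : Near fr) : D2 fr.x = D2 (fr.x - Xs) := by
  rw [map_sub, D2_Xs]; ring
theorem Near.dy1 {fr : Frame} (_h : Near fr) : D1 fr.y = D1 (fr.y - Xt) := by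
  rw [map_sub, D1_Xt]; ring
theorem Near.dy2 {fr : Frame} (_h : Near fr) : D2 fr.y = D2 (fr.y - Xt) + 1 := by
  rw [map_sub, D2_Xt]; ring

theorem UB_x1 : UB 3 (fun fr => D1 fr.x) :=
  ⟨_, fun fr h => by simp only [h.dx1]; exact h.1.2.1.add (Hb_one 3)⟩
theorem UB_x2 : UB 3 (fun fr => D2 fr.x) :=
  ⟨_, fun fr h => by simp only [h.dx2]; exact h.1.2.2⟩
theorem UB_y1 : UB 3 (fun fr => D1 fr.y) :=
  ⟨_, fun fr h => by simp only [h.dy1]; exact h.2.2.1⟩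
theorem UB_y2 : UB 3 (fun fr => D2 fr.y) :=
  ⟨_, fun fr h => by simp only [h.dy2]; exact h.2.2.2.add (Hb_one 3)⟩

theorem UB_J : UB 3 (fun fr => fr.J) := by
  have := (UB_x1.mul UB_y2).add (UB_x2.mul UB_y1).neg
  obtain ⟨C, hC⟩ := this
  refine ⟨C, fun fr h => ?_⟩
  have h1 := hC fr h
  simp only [← sub_eq_add_neg, ← fr.hJ] at h1
  exact h1

theorem Near.J_ge {fr : Frame} (h : Near fr) (p : ℝ × ℝ) : 1/2 ≤ fr.J p := by
  have h1 := h.1.2.1.ap p
  have h2 := h.1.2.2.ap p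
  have h3 := h.2.2.1.ap p
  have h4 := h.2.2.2.ap p
  rw [fr.hJ, h.dx1, h.dx2, h.dy1, h.dy2]
  simp only [sub_ap, mul_ap, add_ap, one_ap]
  rw [abs_le] at h1 h2 h3 h4
  nlinarith

theorem UB_Ji0 : UB 0 (fun fr => fr.Ji) := by
  refine ⟨2, fun fr h p => ?_⟩
  have h1 := h.J_ge p
  have h2 : fr.J p * fr.Ji p = 1 := by rw [← mul_ap, fr.hJi]; rfl
  have h3 : fr.Ji p = (fr.J p)⁻¹ := by
    field_simp
    linarith
  rw [h3, abs_inv, abs_of_pos (by linarith)]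
  rw [inv_le_comm₀ (by linarith) (by norm_num)]
  linarith

theorem D_Ji (D : Derivation ℝ Sm Sm) (fr : Frame) : D fr.Ji = -(fr.Ji * fr.Ji * D fr.J) := by
  have h := congrArg D fr.hJi
  rw [Derivation.leibniz, Derivation.map_one_eq_zero, smul_eq_mul, smul_eq_mul] at h
  calc D fr.Ji = (fr.J * fr.Ji) * D fr.Ji := by rw [fr.hJi, one_mul]
    _ = fr.Ji * (fr.J * D fr.Ji + fr.Ji * D fr.J) - fr.Ji * fr.Ji * D fr.J := by ring
    _ = _ := by rw [h]; ring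

theorem UB_Ji_succ {k : ℕ} (hk : UB k (fun fr => fr.Ji)) (hJ : UB (k + 1) (fun fr => fr.J)) :
    UB (k + 1) (fun fr => fr.Ji) := by
  obtain ⟨A, hA⟩ := UB_Ji0
  obtain ⟨B, hB⟩ := ((hk.mul hk).mul hJ.dd1).neg
  obtain ⟨C, hC⟩ := ((hk.mul hk).mul hJ.dd2).neg
  refine ⟨max A (max B C), fun fr h => ⟨fun p => ((hA fr h) p).trans (le_max_left _ _), ?_, ?_⟩⟩
  · rw [D_Ji]
    exact (hB fr h).mono ((le_max_left _ _).trans (le_max_right _ _))
  · rw [D_Ji]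
    exact (hC fr h).mono ((le_max_right _ _).trans (le_max_right _ _))

theorem UB_Ji : UB 3 (fun fr => fr.Ji) :=
  UB_Ji_succ (UB_Ji_succ (UB_Ji_succ UB_Ji0 UB_J.pred.pred) UB_J.pred) UB_J

theorem UB.d1 {k : ℕ} {Φ : Frame → Sm} (h : UB (k + 1) Φ)
    (hx : UB k (fun fr => D2 fr.y * fr.Ji)) (hy : UB k (fun fr => D1 fr.y * fr.Ji)) : UB k (fun fr => fr.d1 (Φ fr)) :=
  (hx.mul h.dd1).add (hy.neg.mul h.dd2)

theorem UB.d2 {k : ℕ} {Φ : Frame → Sm} (h : UB (k + 1) Φ)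
    (hx : UB k (fun fr => D2 fr.x * fr.Ji)) (hy : UB k (fun fr => D1 fr.x * fr.Ji)) : UB k (fun fr => fr.d2 (Φ fr)) :=
  (hx.neg.mul h.dd1).add (hy.mul h.dd2)

/-- the first coefficient -/
noncomputable def kap1 (fr : Frame) : Sm := fr.d2 (fr.al * fr.al) + fr.d1 (fr.al * fr.be)
/-- the second coefficient -/
noncomputable def kap2 (fr : Frame) : Sm := fr.d1 (fr.be * fr.be) + fr.d2 (fr.al * fr.be)

theorem UB_x1J : UB 3 (fun fr => D1 fr.x * fr.Ji) := UB_x1.mul UB_Ji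
theorem UB_be : UB 3 (fun fr => D2 fr.x * fr.Ji) := UB_x2.mul UB_Ji
theorem UB_y1J : UB 3 (fun fr => D1 fr.y * fr.Ji) := UB_y1.mul UB_Ji
theorem UB_al : UB 3 (fun fr => D2 fr.y * fr.Ji) := UB_y2.mul UB_Ji

theorem UB_kap1 : UB 2 kap1 :=
  ((UB_al.mul UB_al).d2 UB_be.pred UB_x1J.pred).add
    ((UB_al.mul UB_be).d1 UB_al.pred UB_y1J.pred)

theorem UB_kap2 : UB 2 kap2 :=
  ((UB_be.mul UB_be).d1 UB_al.pred UB_y1J.pred).add
    ((UB_al.mul UB_be).d2 UB_be.pred UB_x1J.pred)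

theorem al_be_T (fr : Frame) (h : Sm) : fr.al * fr.d2 h + fr.be * fr.d1 h = fr.Ji * D2 h := by
  have h1 := fr.hJi
  have h2 := fr.hJ
  rw [Frame.d1, Frame.d2, vf_def, vf_def, Frame.al, Frame.be]
  have : fr.Ji * D2 h = (fr.J * fr.Ji) * fr.Ji * D2 h := by rw [h1]; ring
  rw [this, h2]
  ring

theorem H_formula (fr : Frame) (h : Sm) :
    (-2 : ℝ) • fr.H h = (fr.Ji * fr.Ji) * D2 (D2 h) +
      (fr.Ji * D2 fr.Ji + (fr.d2 fr.al + fr.d1 fr.be) * fr.Ji + kap1 fr * (D1 fr.x * fr.Ji) +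
        kap2 fr * (-(D1 fr.y * fr.Ji))) * D2 h +
      (kap1 fr * (-(D2 fr.x * fr.Ji)) + kap2 fr * (D2 fr.y * fr.Ji)) * D1 h +
      (fr.d2 (kap1 fr) + fr.d1 (kap2 fr)) * h := by
  have e1 : fr.d2 (h * fr.al ^ 2) + fr.d1 (h * fr.al * fr.be) =
      fr.al * (fr.Ji * D2 h) + kap1 fr * h := by
    rw [← al_be_T, kap1]
    simp only [pow_two, Derivation.leibniz, smul_eq_mul]
    ring
  have e2 : fr.d1 (h * fr.be ^ 2) + fr.d2 (h * fr.al * fr.be) =
      fr.be * (fr.Ji * D2 h) + kap2 fr * h := by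
    rw [← al_be_T, kap2]
    simp only [pow_two, Derivation.leibniz, smul_eq_mul]
    ring
  have e3 : (-2 : ℝ) • fr.H h = fr.d2 (fr.d2 (h * fr.al ^ 2) + fr.d1 (h * fr.al * fr.be)) +
      fr.d1 (fr.d1 (h * fr.be ^ 2) + fr.d2 (h * fr.al * fr.be)) := by
    rw [Frame.H, map_add, map_add, ← fr.comm (h * fr.al * fr.be), map_neg, map_neg]
    apply sm_ext; intro p
    simp only [smul_ap, neg_ap, add_ap, sub_ap]
    ring
  rw [e3, e1, e2, map_add, map_add]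
  have e4 := al_be_T fr (fr.Ji * D2 h)
  have e5 : fr.d2 (fr.al * (fr.Ji * D2 h)) + fr.d1 (fr.be * (fr.Ji * D2 h)) =
      fr.Ji * D2 (fr.Ji * D2 h) + (fr.d2 fr.al + fr.d1 fr.be) * (fr.Ji * D2 h) := by
    rw [← e4, Derivation.leibniz fr.d2 fr.al, Derivation.leibniz fr.d1 fr.be]
    simp only [smul_eq_mul]
    ring
  have e6 : fr.d2 (fr.al * (fr.Ji * D2 h)) + fr.d2 (kap1 fr * h) +
      (fr.d1 (fr.be * (fr.Ji * D2 h)) + fr.d1 (kap2 fr * h)) =
      fr.Ji * D2 (fr.Ji * D2 h) + (fr.d2 fr.al + fr.d1 fr.be) * (fr.Ji * D2 h) +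
        (kap1 fr * fr.d2 h + h * fr.d2 (kap1 fr)) + (kap2 fr * fr.d1 h + h * fr.d1 (kap2 fr)) := by
    rw [← e5, Derivation.leibniz fr.d2 (kap1 fr), Derivation.leibniz fr.d1 (kap2 fr)]
    simp only [smul_eq_mul]
    ring
  rw [e6, Derivation.leibniz D2 fr.Ji]
  have e7 : fr.d2 h = (-(D2 fr.x * fr.Ji)) * D1 h + (D1 fr.x * fr.Ji) * D2 h := rfl
  have e8 : fr.d1 h = (D2 fr.y * fr.Ji) * D1 h + (-(D1 fr.y * fr.Ji)) * D2 h := rfl
  rw [e7, e8]
  simp only [smul_eq_mul]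
  ring

/-- Pointwise bound of the right-hand side. With `T = al·d2 + be·d1 = Ji·D2` one has
`d2(al² h) + d1(al be h) = al·T h + κ₁ h`, `d1(be² h) + d2(al be h) = be·T h + κ₂ h`, so
`-2 H = T T h + (d2 al + d1 be) T h + κ₁ d2 h + κ₂ d1 h + (d2 κ₁ + d1 κ₂) h`, and all coefficients
are bounded (they involve derivatives of order `≤ 3` of `G 0, G 1`). -/
theorem H_bound : ∃ η4 : ℝ, 0 < η4 ∧ ∃ C : ℝ, 0 < C ∧ ∀ (lam : ℝ) (G : Fin 3 → Sm) (fr : Frame),
    0 < lam → lam ≤ 1 → Good lam η4 G → IsFr fr G → ∀ (h : Sm) (p : ℝ × ℝ),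
    |fr.H h p| ≤ C * (|h p| + |D1 h p| + |D2 h p| + |D2 (D2 h) p|) := by
  obtain ⟨C1, h1⟩ := (UB_Ji.mul UB_Ji)
  have UBal : UB 3 (fun fr => fr.al) := UB_al
  have UBbe : UB 3 (fun fr => fr.be) := UB_be
  have hdd : UB 2 (fun fr => fr.d2 fr.al + fr.d1 fr.be) :=
    (UBal.d2 UB_be.pred UB_x1J.pred).add (UBbe.d1 UB_al.pred UB_y1J.pred)
  obtain ⟨C2, h2⟩ := ((((UB_Ji.pred.mul UB_Ji.dd2).add (hdd.mul UB_Ji.pred)).add
    (UB_kap1.mul UB_x1J.pred)).add (UB_kap2.mul UB_y1J.pred.neg))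
  obtain ⟨C3, h3⟩ := ((UB_kap1.mul UB_be.pred.neg).add (UB_kap2.mul UB_al.pred))
  obtain ⟨C4, h4⟩ := ((UB_kap1.d2 UB_be.pred.pred UB_x1J.pred.pred).add
    (UB_kap2.d1 UB_al.pred.pred UB_y1J.pred.pred))
  set C := max 1 (max (max C1 C2) (max C3 C4)) with hC
  have hC0 : 1 ≤ C := le_max_left _ _
  have hc1 : C1 ≤ C := (le_max_left _ _).trans ((le_max_left _ _).trans (le_max_right _ _))
  have hc2 : C2 ≤ C := (le_max_right _ _).trans ((le_max_left _ _).trans (le_max_right _ _))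
  have hc3 : C3 ≤ C := (le_max_left _ _).trans ((le_max_right _ _).trans (le_max_right _ _))
  have hc4 : C4 ≤ C := (le_max_right _ _).trans ((le_max_right _ _).trans (le_max_right _ _))
  refine ⟨1/10, by norm_num, C, by linarith, ?_⟩
  intro lam G fr hl hl1 hG hfr h p
  have hN : Near fr := by
    have g0 := Hb_of_CkB (hG.2 0)
    have g1 := Hb_of_CkB (hG.2 1)
    refine ⟨?_, ?_⟩
    · rw [hfr.1]
      exact g0.mono (by nlinarith)
    · rw [hfr.2]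
      exact g1.mono (by nlinarith)
  have k1 := ((h1 fr hN).ap p).trans hc1
  have k2 := ((h2 fr hN).ap p).trans hc2
  have k3 := ((h3 fr hN).ap p).trans hc3
  have k4 := ((h4 fr hN).ap p).trans hc4
  have key := congrArg (fun f : Sm => f p) (H_formula fr h)
  simp only [smul_ap, add_ap, mul_ap] at key k1 k2 k3 k4
  have hH : |fr.H h p| = 1/2 * |-2 * fr.H h p| := by
    rw [abs_mul, abs_of_neg (by norm_num : (-2 : ℝ) < 0)]; ring
  rw [hH, key]
  have hh1 := abs_nonneg (h p)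
  have hh2 := abs_nonneg (D1 h p)
  have hh3 := abs_nonneg (D2 h p)
  have hh4 := abs_nonneg (D2 (D2 h) p)
  have tri : ∀ a b c d x y z w : ℝ, |a| ≤ C → |b| ≤ C → |c| ≤ C → |d| ≤ C →
      |a * x + b * y + c * z + d * w| ≤ C * (|x| + |y| + |z| + |w|) := by
    intro a b c d x y z w ha hb hc hd
    calc |a * x + b * y + c * z + d * w| ≤ |a * x| + |b * y| + |c * z| + |d * w| :=
          (abs_add_le _ _).trans (add_le_add ((abs_add_le _ _).trans
            (add_le_add (abs_add_le _ _) le_rfl)) le_rfl)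
      _ = |a| * |x| + |b| * |y| + |c| * |z| + |d| * |w| := by rw [abs_mul, abs_mul, abs_mul, abs_mul]
      _ ≤ C * |x| + C * |y| + C * |z| + C * |w| := by gcongr
      _ = _ := by ring
  have := tri _ _ _ _ (D2 (D2 h) p) (D2 h p) (D1 h p) (h p) k1 k2 k3 k4
  linarith [mul_nonneg (by linarith : (0:ℝ) ≤ C)
    (by linarith : (0:ℝ) ≤ |h p| + |D1 h p| + |D2 h p| + |D2 (D2 h) p|)]

end NI
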