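import Crest.Agent.NI_Real
import Crest.Agent.NI_T00

set_option autoImplicit false
open scoped ContDiff
open MeasureTheory

namespace NI

private theorem t03_smul (V : Derivation ℝ Sm Sm) (c : ℝ) (f : Sm) : V (c • f) = c • V f :=
  V.map_smul c f

private theorem t03_inv (δ : Derivation ℝ Sm Sm) (a ai : Sm) (h : a * ai = 1) :
    δ ai = - (ai * ai * δ a) := by
  have h1 : δ (a * ai) = 0 := by rw [h]; exact δ.map_one_eq_zero
  rw [Derivation.leibniz, smul_eq_mul, smul_eq_mul] at h1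
  calc δ ai = (a * ai) * δ ai := by rw [h, one_mul]
    _ = ai * (a * δ ai) := by ring
    _ = ai * (a * δ ai + ai * δ a) - ai * ai * δ a := by ring
    _ = - (ai * ai * δ a) := by rw [h1]; ring

private theorem t03_comm (δ1 δ2 : Derivation ℝ Sm Sm)
    (comm : ∀ f : Sm, δ1 (δ2 f) = δ2 (δ1 f)) (lam : ℝ) (a b ai f : Sm) (h : a * ai = 1)
    (hab : δ1 a = δ2 b) :
    δ1 (lam • (ai * δ2 f)) - b * ai * δ2 (lam • (ai * δ2 f)) =
      lam • (ai * δ2 (δ1 f - b * ai * δ2 f)) := by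
  have i1 := t03_inv δ1 a ai h
  have i2 := t03_inv δ2 a ai h
  simp only [map_sub, t03_smul, Derivation.leibniz, smul_eq_mul, i1, i2, hab, comm]
  apply sm_ext; intro p
  simp only [add_ap, sub_ap, mul_ap, smul_ap, neg_ap]
  ring

private theorem t03_L (δ1 δ2 : Derivation ℝ Sm Sm)
    (comm : ∀ f : Sm, δ1 (δ2 f) = δ2 (δ1 f)) (lam : ℝ) (hlam : 0 < lam)
    (a b c ai w : Sm) (h : a * ai = 1)
    (hab : δ1 a = δ2 b) (hbc : δ1 b = δ2 c) :
    a * δ1 (δ1 w) - 2 * b * δ1 (δ2 w) + c * δ2 (δ2 w) =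
      a * ((δ1 (δ1 w - b * ai * δ2 w) - b * ai * δ2 (δ1 w - b * ai * δ2 w)) +
        lam • (ai * δ2 (((1 / lam ^ 2 : ℝ) • (a * c - b ^ 2)) * (lam • (ai * δ2 w))))) := by
  have i1 := t03_inv δ1 a ai h
  have i2 := t03_inv δ2 a ai h
  have h2 : (b : Sm) ^ 2 = b * b := pow_two b
  rw [h2]
  simp only [map_sub, t03_smul, Derivation.leibniz, smul_eq_mul, i1, i2, hab, hbc, comm]
  apply sm_ext; intro p
  have hp : a p * ai p = 1 := by
    have := congrArg (fun g : Sm => g p) h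
    simpa using this
  have hp0 : a p ≠ 0 := left_ne_zero_of_mul_eq_one hp
  have hai : ai p = (a p)⁻¹ := eq_inv_of_mul_eq_one_right hp
  have hl : lam ≠ 0 := hlam.ne'
  have two : (2 : Sm) p = 2 := rfl
  simp only [add_ap, sub_ap, mul_ap, smul_ap, neg_ap, hai, two]
  field_simp
  ring

/-- construction of the commuting fields `V = d1 - (b/a) d2`, `Y = (lam/a) d2`
(`= ∂_x|_Q`, `∂_Q|_x` with `Q = (q - q₀)/lam`). -/
theorem exists_VY (fr : Frame) (z : Sm) (lam q0 : ℝ) (hlam : 0 < lam)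
    (ha : ∀ p, 0 < fr.a z p)
    (hx1 : fr.d1 fr.x = 1) (hx2 : fr.d2 fr.x = 0)
    (hcomm : ∀ f, fr.d1 (fr.d2 f) = fr.d2 (fr.d1 f))
    (hint1 : ∀ f : Sm, HasCompactSupport (f : ℝ × ℝ → ℝ) → ∫ p, (fr.J * fr.d1 f) p = 0)
    (hint2 : ∀ f : Sm, HasCompactSupport (f : ℝ × ℝ → ℝ) → ∫ p, (fr.J * fr.d2 f) p = 0) :
    ∃ d : VY, d.x = fr.x ∧ (∀ p, d.Q p = (fr.q z p - q0) / lam) ∧ d.mu = fr.a z * fr.J ∧
      (∀ f : Sm, fr.a z * d.V f = fr.a z * fr.d1 f - fr.b z * fr.d2 f) ∧
      (∀ f : Sm, fr.a z * d.Y f = lam • fr.d2 f) ∧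
      (∀ (e : ℝ) (k w : Sm), e • k = (1 / lam ^ 2 : ℝ) • fr.Dt z →
        fr.L z w = fr.a z * d.L e k w) := by
  have hl : lam ≠ 0 := hlam.ne'
  set a : Sm := fr.a z with hadef
  set b : Sm := fr.b z with hbdef
  have ha0 : ∀ p, a p ≠ 0 := fun p => (ha p).ne'
  set ai : Sm := sinv a ha0 with hai
  have haai : a * ai = 1 := by
    apply sm_ext; intro p
    simp only [mul_ap, one_ap, hai, sinv_ap]
    exact mul_inv_cancel₀ (ha0 p)
  have hab : fr.d1 a = fr.d2 b := by
    simp only [hadef, hbdef, Frame.a, Frame.b]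
    rw [hcomm]
  have hbc : fr.d1 b = fr.d2 (fr.c z) := by
    simp only [hbdef, Frame.c, Frame.b]
    rw [← hcomm, ← hcomm]
  -- the fields
  let A11 : Sm := D2 fr.y * fr.Ji - (b * ai) * (-(D2 fr.x * fr.Ji))
  let A12 : Sm := -(D1 fr.y * fr.Ji) - (b * ai) * (D1 fr.x * fr.Ji)
  let A21 : Sm := lam • (ai * (-(D2 fr.x * fr.Ji)))
  let A22 : Sm := lam • (ai * (D1 fr.x * fr.Ji))
  have hV : ∀ f : Sm, vf A11 A12 f = fr.d1 f - b * ai * fr.d2 f := by
    intro f
    simp only [Frame.d1, Frame.d2, vf_def, A11, A12]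
    ring
  have hY : ∀ f : Sm, vf A21 A22 f = lam • (ai * fr.d2 f) := by
    intro f
    simp only [Frame.d2, vf_def, A21, A22]
    apply sm_ext; intro p
    simp only [add_ap, mul_ap, smul_ap, neg_ap]
    ring
  let Q : Sm := (1 / lam : ℝ) • (fr.q z - q0 • (1 : Sm))
  have hd1Q : fr.d1 Q = (1 / lam : ℝ) • b := by
    simp only [Q, t03_smul, map_sub, Derivation.map_one_eq_zero, smul_zero, sub_zero]
    rfl
  have hd2Q : fr.d2 Q = (1 / lam : ℝ) • a := by
    simp only [Q, t03_smul, map_sub, Derivation.map_one_eq_zero, smul_zero, sub_zero]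
    rfl
  have hVx : vf A11 A12 fr.x = 1 := by
    rw [hV, hx1, hx2]; ring
  have hYx : vf A21 A22 fr.x = 0 := by
    rw [hY, hx2, mul_zero, smul_zero]
  have hVQ : vf A11 A12 Q = 0 := by
    rw [hV, hd1Q, hd2Q]
    apply sm_ext; intro p
    have hp : a p * ai p = 1 := by
      have := congrArg (fun g : Sm => g p) haai
      simpa using this
    simp only [sub_ap, mul_ap, smul_ap, zero_ap]
    linear_combination (-(1 / lam) * b p) * hp
  have hYQ : vf A21 A22 Q = 1 := by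
    rw [hY, hd2Q]
    apply sm_ext; intro p
    have hp : a p * ai p = 1 := by
      have := congrArg (fun g : Sm => g p) haai
      simpa using this
    simp only [mul_ap, smul_ap, one_ap]
    field_simp
    linear_combination hp
  have hcm : ∀ f : Sm, vf A11 A12 (vf A21 A22 f) = vf A21 A22 (vf A11 A12 f) := by
    intro f
    rw [hY, hV, hY, hV]
    exact t03_comm fr.d1 fr.d2 hcomm lam a b ai f haai hab
  have hmupos : ∀ p, 0 < (a * fr.J) p := fun p => mul_pos (ha p) (fr.hpos p)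
  have hintV : ∀ f : Sm, HasCompactSupport (f : ℝ × ℝ → ℝ) →
      ∫ p, (a * fr.J * vf A11 A12 f) p = 0 := by
    intro f hf
    have key : a * fr.J * vf A11 A12 f
        = fr.J * fr.d1 (a * f) - fr.J * fr.d2 (b * f) := by
      rw [hV]
      simp only [Derivation.leibniz, smul_eq_mul, hab]
      have : a * fr.J * (fr.d1 f - b * ai * fr.d2 f)
          = fr.J * (a * fr.d1 f) - (a * ai) * (fr.J * b * fr.d2 f) := by ring
      rw [this, haai]
      ring
    have c1 : HasCompactSupport ((a * f : Sm) : ℝ × ℝ → ℝ) := cpt_mul_left _ _ hf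
    have c2 : HasCompactSupport ((b * f : Sm) : ℝ × ℝ → ℝ) := cpt_mul_left _ _ hf
    have i1 : Integrable (fun p => (fr.J * fr.d1 (a * f) : Sm) p) :=
      int_of_cpt _ (cpt_mul_left _ _ (cpt_vf _ _ _ c1))
    have i2 : Integrable (fun p => (fr.J * fr.d2 (b * f) : Sm) p) :=
      int_of_cpt _ (cpt_mul_left _ _ (cpt_vf _ _ _ c2))
    rw [key]
    have e1 : ∫ p, (fr.J * fr.d1 (a * f) - fr.J * fr.d2 (b * f) : Sm) p
      = (∫ p, (fr.J * fr.d1 (a * f) : Sm) p) - ∫ p, (fr.J * fr.d2 (b * f) : Sm) p :=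
      integral_sub i1 i2
    rw [e1, hint1 _ c1, hint2 _ c2, sub_zero]
  have hintY : ∀ f : Sm, HasCompactSupport (f : ℝ × ℝ → ℝ) →
      ∫ p, (a * fr.J * vf A21 A22 f) p = 0 := by
    intro f hf
    have key : a * fr.J * vf A21 A22 f = lam • (fr.J * fr.d2 f) := by
      rw [hY]
      apply sm_ext; intro p
      have hp : a p * ai p = 1 := by
        have := congrArg (fun g : Sm => g p) haai
        simpa using this
      simp only [mul_ap, smul_ap]
      linear_combination (lam * fr.J p * fr.d2 f p) * hp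
    rw [key]
    have e1 : ∫ p, (lam • (fr.J * fr.d2 f) : Sm) p = lam * ∫ p, (fr.J * fr.d2 f : Sm) p :=
      integral_const_mul _ _
    rw [e1, hint2 _ hf, mul_zero]
  refine ⟨⟨A11, A12, A21, A22, fr.x, Q, a * fr.J, hVx, hVQ, hYx, hYQ, hcm, hmupos, hintV, hintY⟩,
    rfl, ?_, rfl, ?_, ?_, ?_⟩
  · intro p
    show (1 / lam) * (fr.q z p - q0 * 1) = _
    field_simp
  · intro f
    show a * vf A11 A12 f = _
    rw [hV]
    have : a * (fr.d1 f - b * ai * fr.d2 f)
          = a * fr.d1 f - (a * ai) * (b * fr.d2 f) := by ring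
    rw [this, haai, one_mul]
  · intro f
    show a * vf A21 A22 f = _
    rw [hY]
    apply sm_ext; intro p
    have hp : a p * ai p = 1 := by
      have := congrArg (fun g : Sm => g p) haai
      simpa using this
    simp only [mul_ap, smul_ap]
    linear_combination (lam * fr.d2 f p) * hp
  · intro e k w hek
    show fr.L z w = a * (vf A11 A12 (vf A11 A12 w) + vf A21 A22 (e • (k * vf A21 A22 w)))
    have h1 : e • (k * vf A21 A22 w) = (e • k) * vf A21 A22 w := by
      rw [smul_mul_assoc]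
    rw [h1, hek, hV, hV, hY, hY]
    have hDt : fr.Dt z = a * fr.c z - b ^ 2 := rfl
    rw [hDt]
    have := t03_L fr.d1 fr.d2 hcomm lam hlam a b (fr.c z) ai w haai hab hbc
    exact this

end NI
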