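import Crest.Agent.NI_Data
import Crest.Agent.NI_T00
import Crest.Agent.NI_T01
import Crest.Agent.NI_T03
import Crest.Agent.NI_G1b
import Crest.Agent.NI_G3d
import Crest.Agent.NI_G4
import Crest.Agent.NI_G4b

set_option autoImplicit false
open scoped ContDiff
open MeasureTheory

namespace NI

private theorem nid1_good_mono {lam η η' : ℝ} (hl : 0 < lam) (h : η ≤ η') {F : Fin 3 → Sm}
    (hF : Good lam η F) : Good lam η' F := by
  refine ⟨hF.1, fun i a b hab p hp => (hF.2 i a b hab p hp).trans ?_⟩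
  exact mul_le_mul_of_nonneg_right h hl.le

/-- mean value theorem from the origin -/
private theorem nid1_mvt (g : Sm) (c : ℝ) (h0 : g (0, 0) = 0) (h1 : ∀ p, |D1 g p| ≤ c)
    (h2 : ∀ p, |D2 g p| ≤ c) (p : ℝ × ℝ) : |g p| ≤ (|p.1| + |p.2|) * c := by
  have hd : ∀ t : ℝ, HasDerivAt (fun t : ℝ => g (t • p))
      (fderiv ℝ (g : ℝ × ℝ → ℝ) (t • p) p) t := by
    intro t
    have e1 : HasFDerivAt (g : ℝ × ℝ → ℝ) (fderiv ℝ (g : ℝ × ℝ → ℝ) (t • p)) (t • p) :=
      (diffAt g (t • p)).hasFDerivAt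
    have e2 : HasDerivAt (fun t : ℝ => t • p) ((1 : ℝ) • p) t := (hasDerivAt_id t).smul_const p
    rw [one_smul] at e2
    exact e1.comp_hasDerivAt t e2
  have hval : ∀ t : ℝ, fderiv ℝ (g : ℝ × ℝ → ℝ) (t • p) p = p.1 * D1 g (t • p) + p.2 * D2 g (t • p) := by
    intro t
    have : p = p.1 • ((1, 0) : ℝ × ℝ) + p.2 • ((0, 1) : ℝ × ℝ) := by
      ext <;> simp
    conv_lhs => rw [this]
    rw [map_add, map_smul, map_smul, D1_ap, D2_ap, smul_eq_mul, smul_eq_mul, ← this]
  have hb : ∀ t ∈ Set.Ico (0:ℝ) 1, ‖fderiv ℝ (g : ℝ × ℝ → ℝ) (t • p) p‖ ≤ (|p.1| + |p.2|) * c := by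
    intro t _
    rw [hval, Real.norm_eq_abs]
    calc |p.1 * D1 g (t • p) + p.2 * D2 g (t • p)|
        ≤ |p.1 * D1 g (t • p)| + |p.2 * D2 g (t • p)| := abs_add_le _ _
      _ = |p.1| * |D1 g (t • p)| + |p.2| * |D2 g (t • p)| := by rw [abs_mul, abs_mul]
      _ ≤ |p.1| * c + |p.2| * c := by
          gcongr
          · exact h1 _
          · exact h2 _
      _ = _ := by ring
  have := norm_image_sub_le_of_norm_deriv_le_segment_01'
    (f := fun t : ℝ => g (t • p)) (f' := fun t => fderiv ℝ (g : ℝ × ℝ → ℝ) (t • p) p)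
    (fun t _ => (hd t).hasDerivWithinAt) hb
  have h00 : g 0 = 0 := h0
  simpa [h00] using this

/-- existence of the data (collects `exists_frame`, `frame_bounds`, `exists_VY` with `q0 = q (0,0)`,
`Dt_close`, `pde_on`, `H_bound`). `Q_bd`: mean value theorem with `D1 q`, `D2 q` bounds and
`Q (0,0) = 0`. `Kclose` from `Dt_close` (`k = Dt/ε`), `x ≈ s`, `Q ≈ t`, `A11 ≈ 1`, .... -/
theorem exists_data : ∃ η7 : ℝ, 0 < η7 ∧ ∃ ε7 : ℝ, 0 < ε7 ∧ ∃ CH : ℝ, 0 < CH ∧
    ∀ (lam ε : ℝ) (F F' : Fin 3 → Sm) (E E' : Sm), 0 < lam → lam ≤ 1 → 0 < ε → ε ≤ ε7 →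
    Good lam η7 F → Good lam η7 F' → Isom E F (Box 1.8) → Isom E' F' (Box 1.8) →
    CkB (E - 1 - ε • phi) 3 (ε ^ 2) (Box 1.8) →
    (∀ c, CkB (F c - F' c) 3 (ε ^ 2) Set.univ) →
    ∃ D : Data lam ε F F' (E - E'), D.CH = CH := by
  obtain ⟨ηa, hηa, Hframe⟩ := exists_frame
  obtain ⟨ηb, hηb, Hbd⟩ := frame_bounds
  obtain ⟨ηc, hηc, εc, hεc, Hdt⟩ := Dt_close
  obtain ⟨ηd, hηd, CH, hCH, HH⟩ := H_bound
  refine ⟨min (min ηa ηb) (min ηc ηd), lt_min (lt_min hηa hηb) (lt_min hηc hηd), εc, hεc, CH, hCH, ?_⟩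
  intro lam ε F F' E E' hl hl1 hε hε7 hF hF' hI hI' hE hdiff
  have hma : min (min ηa ηb) (min ηc ηd) ≤ ηa := (min_le_left _ _).trans (min_le_left _ _)
  have hmb : min (min ηa ηb) (min ηc ηd) ≤ ηb := (min_le_left _ _).trans (min_le_right _ _)
  have hmc : min (min ηa ηb) (min ηc ηd) ≤ ηc := (min_le_right _ _).trans (min_le_left _ _)
  have hmd : min (min ηa ηb) (min ηc ηd) ≤ ηd := (min_le_right _ _).trans (min_le_right _ _)
  have hA := Good_avg _ _ _ _ hF hF'
  obtain ⟨fr, hfr⟩ := Hframe lam (avg F F') hl hl1 (nid1_good_mono hl hma hA)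
  have B := Hbd lam (avg F F') fr hl hl1 (nid1_good_mono hl hmb hA) hfr
  have hDt := Hdt lam ε F F' E fr hl hl1 hε hε7 (nid1_good_mono hl hmc hF)
    (nid1_good_mono hl hmc hF') hfr hI hE hdiff
  have hH := HH lam (avg F F') fr hl hl1 (nid1_good_mono hl hmd hA) hfr
  obtain ⟨hfx, hfy⟩ := hfr
  set z := avg F F' 2 with hz
  have hapos : ∀ p, 0 < fr.a z p := by
    intro p
    obtain ⟨-, -, h, -⟩ := B p
    have := (abs_le.mp h).1
    linarith
  obtain ⟨d, hdx, hdQ, hdmu, hdV, hdY, hdL⟩ := exists_VY fr z lam (fr.q z (0, 0)) hl hapos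
    (Frame.d1_x fr) (Frame.d2_x fr) (Frame.comm fr) (Frame.int_d1 fr) (Frame.int_d2 fr)
  -- bounds at a point
  have hx_bd : ∀ p : ℝ × ℝ, |fr.x p - p.1| ≤ 1/10000 := by
    intro p
    obtain ⟨-, -, -, -, -, h, -⟩ := B p
    rw [hfx]; exact h
  have hy_bd : ∀ p : ℝ × ℝ, |fr.y p - p.2| ≤ 1/10000 := by
    intro p
    obtain ⟨-, -, -, -, -, -, h, -⟩ := B p
    rw [hfy]; exact h
  have hQ_bd : ∀ p : ℝ × ℝ, |d.Q p - p.2| ≤ (|p.1| + |p.2|) / 10000 := by
    intro p
    let g : Sm := (1 / lam) • (fr.q z - (fr.q z (0, 0)) • (1 : Sm)) - Xt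
    have hg : ∀ p : ℝ × ℝ, g p = d.Q p - p.2 := by
      intro p
      rw [hdQ p]
      show (1 / lam) * (fr.q z p - fr.q z (0, 0) * 1) - p.2 = _
      ring
    have g0 : g (0, 0) = 0 := by
      show (1 / lam) * (fr.q z (0, 0) - fr.q z (0, 0) * 1) - 0 = 0
      ring
    have hg1 : ∀ p : ℝ × ℝ, D1 g p = D1 (fr.q z) p / lam := by
      intro p
      simp only [g, map_sub, Derivation.map_smul, Derivation.map_one_eq_zero, smul_zero, sub_zero,
        D1_Xt]
      show (1 / lam) * D1 (fr.q z) p = _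
      ring
    have hg2 : ∀ p : ℝ × ℝ, D2 g p = D2 (fr.q z) p / lam - 1 := by
      intro p
      simp only [g, map_sub, Derivation.map_smul, Derivation.map_one_eq_zero, smul_zero, sub_zero,
        D2_Xt]
      show (1 / lam) * D2 (fr.q z) p - 1 = _
      ring
    have k1 : ∀ p : ℝ × ℝ, |D1 g p| ≤ 1/10000 := by
      intro p
      obtain ⟨-, -, -, -, -, -, -, h, -⟩ := B p
      rw [hg1, abs_div, abs_of_pos hl, div_le_iff₀ hl]
      linarith
    have k2 : ∀ p : ℝ × ℝ, |D2 g p| ≤ 1/10000 := by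
      intro p
      obtain ⟨-, -, -, -, -, -, -, -, h⟩ := B p
      rw [hg2]
      have : D2 (fr.q z) p / lam - 1 = (D2 (fr.q z) p - lam) / lam := by
        field_simp
      rw [this, abs_div, abs_of_pos hl, div_le_iff₀ hl]
      linarith
    have := nid1_mvt g (1/10000) g0 k1 k2 p
    rw [hg] at this
    linarith
  -- the coefficients
  have hJi : ∀ p, fr.J p * fr.Ji p = 1 := by
    intro p
    have := congrArg (fun f : Sm => f p) fr.hJi
    simpa using this
  have hA_eq : ∀ p, fr.a z p * d.A11 p = fr.a z p * (D2 fr.y p * fr.Ji p)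
        + fr.b z p * (D2 fr.x p * fr.Ji p) ∧
      fr.a z p * d.A12 p = -(fr.a z p * (D1 fr.y p * fr.Ji p)) - fr.b z p * (D1 fr.x p * fr.Ji p) ∧
      fr.a z p * d.A21 p = -(lam * (D2 fr.x p * fr.Ji p)) ∧
      fr.a z p * d.A22 p = lam * (D1 fr.x p * fr.Ji p) := by
    intro p
    have e1 := congrArg (fun f : Sm => f p) (hdV Xs)
    have e2 := congrArg (fun f : Sm => f p) (hdV Xt)
    have e3 := congrArg (fun f : Sm => f p) (hdY Xs)
    have e4 := congrArg (fun f : Sm => f p) (hdY Xt)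
    simp only [VY.V, VY.Y, vf_def, d1_def, d2_def, D1_Xs, D2_Xs, D1_Xt, D2_Xt, mul_ap,
      sub_ap, neg_ap, smul_ap, mul_one, mul_zero, add_zero, zero_add] at e1 e2 e3 e4
    refine ⟨?_, ?_, ?_, ?_⟩ <;> linarith
  have hJib : ∀ p, |fr.Ji p - 1| ≤ 1/3990 := by
    intro p
    obtain ⟨-, h, -⟩ := B p
    have h1 := hJi p
    have h2 := (abs_le.mp h)
    have hJpos : 0 < fr.J p := fr.hpos p
    have e : fr.Ji p = 1 / fr.J p := by
      rw [eq_div_iff hJpos.ne']; linarith
    rw [e, abs_le]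
    constructor
    · rw [neg_le_sub_iff_le_add, ← sub_le_iff_le_add, le_div_iff₀ hJpos]
      nlinarith [h2.1, h2.2]
    · rw [sub_le_iff_le_add, div_le_iff₀ hJpos]
      nlinarith [h2.1, h2.2]
  have hA_bd : ∀ p : ℝ × ℝ, |d.A11 p - 1| ≤ 1/1000 ∧ |d.A12 p| ≤ 1/1000 ∧ |d.A21 p| ≤ 1/1000 ∧
      |d.A22 p - 1| ≤ 1/1000 := by
    intro p
    obtain ⟨⟨b1, b2, b3, b4⟩, bJ, ba, bb, bc, bx, by', bq1, bq2⟩ := B p
    rw [← hfx] at b1 b2
    rw [← hfy] at b3 b4
    obtain ⟨e1, e2, e3, e4⟩ := hA_eq p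
    have hj := hJib p
    have hap := hapos p
    generalize fr.a z p = a at *
    generalize fr.b z p = b at *
    generalize fr.Ji p = j at *
    generalize D1 fr.x p = x1 at *
    generalize D2 fr.x p = x2 at *
    generalize D1 fr.y p = y1 at *
    generalize D2 fr.y p = y2 at *
    have hy2j : |y2 * j - 1| ≤ 36/100000 := by
      have : y2 * j - 1 = (y2 - 1) * (j - 1) + (y2 - 1) + (j - 1) := by ring
      rw [this]
      have h1 : |(y2 - 1) * (j - 1)| ≤ 1/10000 * (1/3990) := by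
        rw [abs_mul]; exact mul_le_mul b4 hj (abs_nonneg _) (by norm_num)
      calc _ ≤ |(y2 - 1) * (j - 1)| + |y2 - 1| + |j - 1| :=
            (abs_add_le _ _).trans (add_le_add (abs_add_le _ _) le_rfl)
        _ ≤ 1/10000 * (1/3990) + 1/10000 + 1/3990 := by gcongr
        _ ≤ _ := by norm_num
    have hx1j : |x1 * j - 1| ≤ 36/100000 := by
      have : x1 * j - 1 = (x1 - 1) * (j - 1) + (x1 - 1) + (j - 1) := by ring
      rw [this]
      have h1 : |(x1 - 1) * (j - 1)| ≤ 1/10000 * (1/3990) := by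
        rw [abs_mul]; exact mul_le_mul b1 hj (abs_nonneg _) (by norm_num)
      calc _ ≤ |(x1 - 1) * (j - 1)| + |x1 - 1| + |j - 1| :=
            (abs_add_le _ _).trans (add_le_add (abs_add_le _ _) le_rfl)
        _ ≤ 1/10000 * (1/3990) + 1/10000 + 1/3990 := by gcongr
        _ ≤ _ := by norm_num
    have hj' : |j| ≤ 1001/1000 := by
      have := abs_le.mp hj
      rw [abs_le]; constructor <;> linarith [this.1, this.2]
    have hx2j : |x2 * j| ≤ 11/100000 := by
      rw [abs_mul]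
      calc |x2| * |j| ≤ 1/10000 * (1001/1000) := mul_le_mul b2 hj' (abs_nonneg _) (by norm_num)
        _ ≤ _ := by norm_num
    have hy1j : |y1 * j| ≤ 11/100000 := by
      rw [abs_mul]
      calc |y1| * |j| ≤ 1/10000 * (1001/1000) := mul_le_mul b3 hj' (abs_nonneg _) (by norm_num)
        _ ≤ _ := by norm_num
    generalize x1 * j = u1 at *
    generalize x2 * j = u2 at *
    generalize y1 * j = v1 at *
    generalize y2 * j = v2 at *
    have hba : |b| ≤ a / 1999 := by
      have := (abs_le.mp ba).1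
      linarith
    have hla : |lam - a| ≤ a / 1999 := by
      have h1 := (abs_le.mp ba).1
      have h2 := (abs_le.mp ba).2
      rw [abs_le]; constructor <;> linarith
    have hmul : ∀ X Y c e : ℝ, |X| ≤ a * c → |Y| ≤ e → 0 ≤ c → |X * Y| ≤ a * (c * e) := by
      intro X Y c e h1 h2 hc
      rw [abs_mul, ← mul_assoc]
      exact mul_le_mul h1 h2 (abs_nonneg _) (mul_nonneg hap.le hc)
    have hba' : |b| ≤ a * (1/1999) := by linarith
    have hla' : |lam - a| ≤ a * (1/1999) := by linarith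
    have kk1 := hmul b u2 _ _ hba' hx2j (by norm_num)
    have kk2 := hmul b (u1 - 1) _ _ hba' hx1j (by norm_num)
    have kk3 := hmul (lam - a) u2 _ _ hla' hx2j (by norm_num)
    have kk4 := hmul (lam - a) (u1 - 1) _ _ hla' hx1j (by norm_num)
    have hdiv : ∀ X c : ℝ, |a * X| ≤ a * c → |X| ≤ c := by
      intro X c h
      rw [abs_mul, abs_of_pos hap] at h
      exact le_of_mul_le_mul_left h hap
    have aV2 : |a * (v2 - 1)| ≤ a * (36/100000) := by
      rw [abs_mul, abs_of_pos hap]; exact mul_le_mul_of_nonneg_left hy2j hap.le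
    have aV1 : |a * v1| ≤ a * (11/100000) := by
      rw [abs_mul, abs_of_pos hap]; exact mul_le_mul_of_nonneg_left hy1j hap.le
    have aU2 : |a * u2| ≤ a * (11/100000) := by
      rw [abs_mul, abs_of_pos hap]; exact mul_le_mul_of_nonneg_left hx2j hap.le
    have aU1 : |a * (u1 - 1)| ≤ a * (36/100000) := by
      rw [abs_mul, abs_of_pos hap]; exact mul_le_mul_of_nonneg_left hx1j hap.le
    refine ⟨hdiv _ _ ?_, hdiv _ _ ?_, hdiv _ _ ?_, hdiv _ _ ?_⟩
    · have : a * (d.A11 p - 1) = a * (v2 - 1) + b * u2 := by linear_combination e1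
      rw [this]
      calc _ ≤ |a * (v2 - 1)| + |b * u2| := abs_add_le _ _
        _ ≤ a * (36/100000) + a * (1/1999 * (11/100000)) := by gcongr
        _ ≤ _ := by nlinarith
    · have : a * d.A12 p = -(a * v1) + (-(b * (u1 - 1)) + -b) := by linear_combination e2
      rw [this]
      calc _ ≤ |-(a * v1)| + (|-(b * (u1 - 1))| + |-b|) :=
            (abs_add_le _ _).trans (add_le_add le_rfl (abs_add_le _ _))
        _ = |a * v1| + (|b * (u1 - 1)| + |b|) := by rw [abs_neg, abs_neg, abs_neg]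
        _ ≤ a * (11/100000) + (a * (1/1999 * (36/100000)) + a * (1/1999)) := by gcongr
        _ ≤ _ := by nlinarith
    · have : a * d.A21 p = -(a * u2) + -((lam - a) * u2) := by linear_combination e3
      rw [this]
      calc _ ≤ |-(a * u2)| + |-((lam - a) * u2)| := abs_add_le _ _
        _ = |a * u2| + |(lam - a) * u2| := by rw [abs_neg, abs_neg]
        _ ≤ a * (11/100000) + a * (1/1999 * (11/100000)) := by gcongr
        _ ≤ _ := by nlinarith
    · have : a * (d.A22 p - 1) = a * (u1 - 1) + ((lam - a) * (u1 - 1) + (lam - a)) := by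
        linear_combination e4
      rw [this]
      calc _ ≤ |a * (u1 - 1)| + (|(lam - a) * (u1 - 1)| + |lam - a|) :=
            (abs_add_le _ _).trans (add_le_add le_rfl (abs_add_le _ _))
        _ ≤ a * (36/100000) + (a * (1/1999 * (36/100000)) + a * (1/1999)) := by gcongr
        _ ≤ _ := by nlinarith
  -- `k`
  set k : Sm := (1 / ε) • fr.Dt z with hk
  have hk0 : ∀ p, k p = fr.Dt z p / ε := by
    intro p
    show (1 / ε) * fr.Dt z p = _
    ring
  have hk1 : ∀ p, D1 k p = D1 (fr.Dt z) p / ε := by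
    intro p
    rw [hk, Derivation.map_smul]
    show (1 / ε) * D1 (fr.Dt z) p = _
    ring
  have hk2 : ∀ p, D2 k p = D2 (fr.Dt z) p / ε := by
    intro p
    rw [hk, Derivation.map_smul]
    show (1 / ε) * D2 (fr.Dt z) p = _
    ring
  have hbox : ∀ p ∈ Box 1.5, p ∈ Box 1.8 := by
    intro p hp
    exact ⟨hp.1.trans (by norm_num), hp.2.trans (by norm_num)⟩
  have hkc : ∀ p ∈ Box 1.5, Kclose d k p := by
    intro p hp
    obtain ⟨c0, c1, c2⟩ := hDt p (hbox p hp)
    have f0 : |k p - kk p| ≤ 1/1000 := by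
      rw [hk0]
      have : fr.Dt z p / ε - kk p = (fr.Dt z p - ε * kk p) / ε := by field_simp
      rw [this, abs_div, abs_of_pos hε, div_le_iff₀ hε]
      linarith
    have f1 : |D1 k p - 2 * p.1| ≤ 1/1000 := by
      rw [hk1]
      have : D1 (fr.Dt z) p / ε - 2 * p.1 = (D1 (fr.Dt z) p - ε * (2 * p.1)) / ε := by field_simp
      rw [this, abs_div, abs_of_pos hε, div_le_iff₀ hε]
      linarith
    have f2 : |D2 k p - 2 * p.2| ≤ 1/1000 := by
      rw [hk2]
      have : D2 (fr.Dt z) p / ε - 2 * p.2 = (D2 (fr.Dt z) p - ε * (2 * p.2)) / ε := by field_simp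
      rw [this, abs_div, abs_of_pos hε, div_le_iff₀ hε]
      linarith
    have hkk : kk p = p.1 ^ 2 + p.2 ^ 2 - 1 := by
      simp [kk]
    have hx := hx_bd p
    have hQ := hQ_bd p
    obtain ⟨a1, a2, a3, a4⟩ := hA_bd p
    have hp1 : |p.1| ≤ 1.5 := hp.1.le
    have hp2 : |p.2| ≤ 1.5 := hp.2.le
    have hQ' : |d.Q p - p.2| ≤ 3/10000 := by
      refine hQ.trans ?_
      rw [div_le_div_iff_of_pos_right (by norm_num)]
      linarith
    have hV : d.V k p = d.A11 p * D1 k p + d.A12 p * D2 k p := rfl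
    have hY : d.Y k p = d.A21 p * D1 k p + d.A22 p * D2 k p := rfl
    rw [Kclose, hV, hY, hdx]
    rw [hkk] at f0
    generalize k p = K at *
    generalize D1 k p = K1 at *
    generalize D2 k p = K2 at *
    generalize fr.x p = x at *
    generalize d.Q p = Q at *
    generalize d.A11 p = A11 at *
    generalize d.A12 p = A12 at *
    generalize d.A21 p = A21 at *
    generalize d.A22 p = A22 at *
    generalize p.1 = s at *
    generalize p.2 = t at *
    have hK1 : |K1| ≤ 3.001 := by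
      have : K1 = (K1 - 2 * s) + 2 * s := by ring
      rw [this]
      calc _ ≤ |K1 - 2 * s| + |2 * s| := abs_add_le _ _
        _ = |K1 - 2 * s| + 2 * |s| := by rw [abs_mul]; norm_num
        _ ≤ _ := by linarith
    have hK2 : |K2| ≤ 3.001 := by
      have : K2 = (K2 - 2 * t) + 2 * t := by ring
      rw [this]
      calc _ ≤ |K2 - 2 * t| + |2 * t| := abs_add_le _ _
        _ = |K2 - 2 * t| + 2 * |t| := by rw [abs_mul]; norm_num
        _ ≤ _ := by linarith
    have m1 : |(A11 - 1) * K1| ≤ 1/1000 * 3.001 := by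
      rw [abs_mul]; exact mul_le_mul a1 hK1 (abs_nonneg _) (by norm_num)
    have m2 : |A12 * K2| ≤ 1/1000 * 3.001 := by
      rw [abs_mul]; exact mul_le_mul a2 hK2 (abs_nonneg _) (by norm_num)
    have m3 : |A21 * K1| ≤ 1/1000 * 3.001 := by
      rw [abs_mul]; exact mul_le_mul a3 hK1 (abs_nonneg _) (by norm_num)
    have m4 : |(A22 - 1) * K2| ≤ 1/1000 * 3.001 := by
      rw [abs_mul]; exact mul_le_mul a4 hK2 (abs_nonneg _) (by norm_num)
    refine ⟨?_, ?_, ?_⟩
    · have e : K - (x ^ 2 + Q ^ 2 - 1) = (K - (s ^ 2 + t ^ 2 - 1)) + (-((x - s) * (x + s)) +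
          -((Q - t) * (Q + t))) := by ring
      have hxs : |x + s| ≤ 3.1 := by
        have : x + s = (x - s) + 2 * s := by ring
        rw [this]
        calc _ ≤ |x - s| + |2 * s| := abs_add_le _ _
          _ = |x - s| + 2 * |s| := by rw [abs_mul]; norm_num
          _ ≤ _ := by linarith
      have hQt : |Q + t| ≤ 3.1 := by
        have : Q + t = (Q - t) + 2 * t := by ring
        rw [this]
        calc _ ≤ |Q - t| + |2 * t| := abs_add_le _ _
          _ = |Q - t| + 2 * |t| := by rw [abs_mul]; norm_num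
          _ ≤ _ := by linarith
      have n1 : |(x - s) * (x + s)| ≤ 1/10000 * 3.1 := by
        rw [abs_mul]; exact mul_le_mul hx hxs (abs_nonneg _) (by norm_num)
      have n2 : |(Q - t) * (Q + t)| ≤ 3/10000 * 3.1 := by
        rw [abs_mul]; exact mul_le_mul hQ' hQt (abs_nonneg _) (by norm_num)
      rw [e]
      calc _ ≤ |K - (s ^ 2 + t ^ 2 - 1)| + (|-((x - s) * (x + s))| + |-((Q - t) * (Q + t))|) :=
            (abs_add_le _ _).trans (add_le_add le_rfl (abs_add_le _ _))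
        _ = |K - (s ^ 2 + t ^ 2 - 1)| + (|(x - s) * (x + s)| + |(Q - t) * (Q + t)|) := by
            rw [abs_neg, abs_neg]
        _ ≤ 1/1000 + (1/10000 * 3.1 + 3/10000 * 3.1) := by gcongr
        _ ≤ _ := by norm_num
    · have e : A11 * K1 + A12 * K2 - 2 * x = ((A11 - 1) * K1 + A12 * K2) +
          ((K1 - 2 * s) + -(2 * (x - s))) := by ring
      rw [e]
      have n1 : |-(2 * (x - s))| ≤ 2 * (1/10000) := by
        rw [abs_neg, abs_mul, abs_of_pos (by norm_num : (0:ℝ) < 2)]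
        exact mul_le_mul_of_nonneg_left hx (by norm_num)
      calc _ ≤ (|(A11 - 1) * K1| + |A12 * K2|) + (|K1 - 2 * s| + |-(2 * (x - s))|) :=
            (abs_add_le _ _).trans (add_le_add (abs_add_le _ _) (abs_add_le _ _))
        _ ≤ (1/1000 * 3.001 + 1/1000 * 3.001) + (1/1000 + 2 * (1/10000)) := by gcongr
        _ ≤ _ := by norm_num
    · have e : A21 * K1 + A22 * K2 - 2 * Q = (A21 * K1 + (A22 - 1) * K2) +
          ((K2 - 2 * t) + -(2 * (Q - t))) := by ring
      rw [e]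
      have n1 : |-(2 * (Q - t))| ≤ 2 * (3/10000) := by
        rw [abs_neg, abs_mul, abs_of_pos (by norm_num : (0:ℝ) < 2)]
        exact mul_le_mul_of_nonneg_left hQ' (by norm_num)
      calc _ ≤ (|A21 * K1| + |(A22 - 1) * K2|) + (|K2 - 2 * t| + |-(2 * (Q - t))|) :=
            (abs_add_le _ _).trans (add_le_add (abs_add_le _ _) (abs_add_le _ _))
        _ ≤ (1/1000 * 3.001 + 1/1000 * 3.001) + (1/1000 + 2 * (3/10000)) := by gcongr
        _ ≤ _ := by norm_num
  have hopen : IsOpen (Box 1.8) := by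
    have : Box 1.8 = {p : ℝ × ℝ | |p.1| < 1.8} ∩ {p : ℝ × ℝ | |p.2| < 1.8} := rfl
    rw [this]
    exact (isOpen_lt (by fun_prop) (by fun_prop)).inter (isOpen_lt (by fun_prop) (by fun_prop))
  refine ⟨{ fr := fr, d := d, k := k, isfr := ⟨hfx, hfy⟩, dx := hdx, mu_eq := hdmu, k_eq := ?_,
            L_eq := ?_, x_bd := hx_bd, y_bd := hy_bd, Q_bd := hQ_bd, D_bd := ?_, J_bd := ?_,
            a_bd := ?_, b_bd := ?_, c_bd := ?_, A_bd := hA_bd, kclose := hkc, Dt_bd := ?_,
            comm := Frame.comm fr, int1 := Frame.int_d1 fr, int2 := Frame.int_d2 fr,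
            pde := ?_, CH := CH, H_bd := hH }, rfl⟩
  · rw [hk, smul_smul, mul_one_div_cancel hε.ne', one_smul]
  · intro w
    refine hdL _ _ _ ?_
    rw [hk, smul_smul]
    congr 1
    field_simp
  · intro p
    obtain ⟨⟨b1, b2, b3, b4⟩, -⟩ := B p
    rw [hfx, hfy]
    exact ⟨b1, b2, b3, b4⟩
  · intro p
    exact (B p).2.1
  · intro p
    exact (B p).2.2.1
  · intro p
    exact (B p).2.2.2.1
  · intro p
    exact (B p).2.2.2.2.1
  · intro p hp
    exact (hDt p (hbox p hp)).1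
  · exact pde_on fr F F' E E' (Box 1.8) hopen hI hI' ⟨hfx, hfy⟩

end NI
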