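import Crest.Agent.NI_Real

set_option autoImplicit false
open scoped ContDiff
open MeasureTheory

namespace NI

theorem T02b_zero (g : Sm) {p : ℝ × ℝ} (hp : p ∉ tsupport (g : ℝ × ℝ → ℝ)) : g p = 0 :=
  image_eq_zero_of_notMem_tsupport hp

theorem T02b_fderiv_zero (g : Sm) {p : ℝ × ℝ} (hp : p ∉ tsupport (g : ℝ × ℝ → ℝ)) :
    fderiv ℝ (g : ℝ × ℝ → ℝ) p = 0 := by
  have h := notMem_tsupport_iff_eventuallyEq.mp hp
  rw [h.fderiv_eq]
  simp

theorem T02b_vf_zero (A B g : Sm) {p : ℝ × ℝ} (hp : p ∉ tsupport (g : ℝ × ℝ → ℝ)) :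
    (vf A B g) p = 0 := by
  rw [vf_def, add_ap, mul_ap, mul_ap, D1_ap, D2_ap, T02b_fderiv_zero g hp]
  simp

theorem T02b_hcs {g f : Sm} (hg : HasCompactSupport (g : ℝ × ℝ → ℝ))
    (hf : ∀ p, p ∉ tsupport (g : ℝ × ℝ → ℝ) → f p = 0) :
    HasCompactSupport (f : ℝ × ℝ → ℝ) :=
  HasCompactSupport.intro hg hf

theorem T02b_int {g f : Sm} (hg : HasCompactSupport (g : ℝ × ℝ → ℝ))
    (hf : ∀ p, p ∉ tsupport (g : ℝ × ℝ → ℝ) → f p = 0) :
    Integrable (f : ℝ × ℝ → ℝ) :=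
  (smooth f).continuous.integrable_of_hasCompactSupport (T02b_hcs hg hf)

namespace Frame

/-- energy inequality (Caccioppoli): if `L w = 0` on the support of the cutoff `g` and the
matrix `(a,-b;-b,c)` is nonnegative there, then the weighted Dirichlet energy is controlled. -/
theorem caccioppoli (fr : Frame) (hcomm : ∀ f, fr.d1 (fr.d2 f) = fr.d2 (fr.d1 f))
    (hint1 : ∀ f : Sm, HasCompactSupport (f : ℝ × ℝ → ℝ) → ∫ p, (fr.J * fr.d1 f) p = 0)
    (hint2 : ∀ f : Sm, HasCompactSupport (f : ℝ × ℝ → ℝ) → ∫ p, (fr.J * fr.d2 f) p = 0)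
    (z w g : Sm) (hg : HasCompactSupport (g : ℝ × ℝ → ℝ))
    (hL : ∀ p ∈ tsupport (g : ℝ × ℝ → ℝ), fr.L z w p = 0)
    (hpos : ∀ p ∈ tsupport (g : ℝ × ℝ → ℝ), 0 < fr.a z p ∧ 0 < fr.Dt z p) :
    ∫ p, (fr.J * (g ^ 2 * (fr.a z * (fr.d1 w) ^ 2 - 2 * fr.b z * (fr.d1 w * fr.d2 w)
        + fr.c z * (fr.d2 w) ^ 2)) : Sm) p
      ≤ 4 * ∫ p, (fr.J * (w ^ 2 * (fr.a z * (fr.d1 g) ^ 2 - 2 * fr.b z * (fr.d1 g * fr.d2 g)
        + fr.c z * (fr.d2 g) ^ 2)) : Sm) p := by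
  -- notation
  set a := fr.a z with ha
  set b := fr.b z with hb
  set c := fr.c z with hc
  set W : Sm := fr.J * (g ^ 2 * (a * (fr.d1 w) ^ 2 - 2 * b * (fr.d1 w * fr.d2 w)
        + c * (fr.d2 w) ^ 2)) with hW
  set G : Sm := fr.J * (w ^ 2 * (a * (fr.d1 g) ^ 2 - 2 * b * (fr.d1 g * fr.d2 g)
        + c * (fr.d2 g) ^ 2)) with hG
  set B : Sm := fr.J * (g * w * (a * (fr.d1 w * fr.d1 g) - b * (fr.d1 w * fr.d2 g + fr.d2 w * fr.d1 g)
        + c * (fr.d2 w * fr.d2 g))) with hB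
  have z0 : ∀ p, p ∉ tsupport (g : ℝ × ℝ → ℝ) → g p = 0 := fun p hp => T02b_zero g hp
  have z1 : ∀ p, p ∉ tsupport (g : ℝ × ℝ → ℝ) → (fr.d1 g) p = 0 := fun p hp => T02b_vf_zero _ _ g hp
  have z2 : ∀ p, p ∉ tsupport (g : ℝ × ℝ → ℝ) → (fr.d2 g) p = 0 := fun p hp => T02b_vf_zero _ _ g hp
  have hWz : ∀ p, p ∉ tsupport (g : ℝ × ℝ → ℝ) → W p = 0 := by
    intro p hp
    simp only [hW, mul_ap, pow_ap, z0 p hp]
    ring
  have hGz : ∀ p, p ∉ tsupport (g : ℝ × ℝ → ℝ) → G p = 0 := by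
    intro p hp
    simp only [hG, mul_ap, pow_ap, add_ap, sub_ap, z1 p hp, z2 p hp]
    ring
  have hBz : ∀ p, p ∉ tsupport (g : ℝ × ℝ → ℝ) → B p = 0 := by
    intro p hp
    simp only [hB, mul_ap, z0 p hp]
    ring
  have iW := T02b_int hg hWz
  have iG := T02b_int hg hGz
  have iB := T02b_int hg hBz
  -- the divergence identity
  have hd1a : fr.d1 a = fr.d2 b := hcomm _
  have hd2c : fr.d2 c = fr.d1 b := by
    show fr.d2 (fr.d1 (fr.d1 z)) = fr.d1 (fr.d1 (fr.d2 z))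
    rw [← hcomm (fr.d1 z), hcomm z]
  have hdiv : fr.J * fr.d1 (g ^ 2 * w * (a * fr.d1 w - b * fr.d2 w))
      + fr.J * fr.d2 (g ^ 2 * w * (c * fr.d2 w - b * fr.d1 w))
      = fr.J * (g ^ 2 * w * fr.L z w) + W + 2 * B := by
    have e2 : fr.d2 (fr.d1 w) = fr.d1 (fr.d2 w) := (hcomm w).symm
    have l1 : fr.d1 (g ^ 2 * w * (a * fr.d1 w - b * fr.d2 w)) =
        (2 * g * fr.d1 g * w + g ^ 2 * fr.d1 w) * (a * fr.d1 w - b * fr.d2 w)
        + g ^ 2 * w * (fr.d1 a * fr.d1 w + a * fr.d1 (fr.d1 w) - fr.d1 b * fr.d2 w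
          - b * fr.d1 (fr.d2 w)) := by
      simp only [Derivation.leibniz, Derivation.leibniz_pow, map_sub, smul_eq_mul, nsmul_eq_mul]
      push_cast
      ring
    have l2 : fr.d2 (g ^ 2 * w * (c * fr.d2 w - b * fr.d1 w)) =
        (2 * g * fr.d2 g * w + g ^ 2 * fr.d2 w) * (c * fr.d2 w - b * fr.d1 w)
        + g ^ 2 * w * (fr.d2 c * fr.d2 w + c * fr.d2 (fr.d2 w) - fr.d2 b * fr.d1 w
          - b * fr.d2 (fr.d1 w)) := by
      simp only [Derivation.leibniz, Derivation.leibniz_pow, map_sub, smul_eq_mul, nsmul_eq_mul]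
      push_cast
      ring
    have hLd : fr.L z w = a * fr.d1 (fr.d1 w) - 2 * b * fr.d1 (fr.d2 w) + c * fr.d2 (fr.d2 w) := rfl
    rw [l1, l2, hd1a, hd2c, e2, hLd, hW, hB]
    ring
  have hcs1 : HasCompactSupport ((g ^ 2 * w * (a * fr.d1 w - b * fr.d2 w) : Sm) : ℝ × ℝ → ℝ) := by
    apply T02b_hcs hg
    intro p hp
    simp only [mul_ap, pow_ap, z0 p hp]
    ring
  have hcs2 : HasCompactSupport ((g ^ 2 * w * (c * fr.d2 w - b * fr.d1 w) : Sm) : ℝ × ℝ → ℝ) := by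
    apply T02b_hcs hg
    intro p hp
    simp only [mul_ap, pow_ap, z0 p hp]
    ring
  have hv1 : ∀ p, p ∉ tsupport (g : ℝ × ℝ → ℝ) →
      (fr.J * fr.d1 (g ^ 2 * w * (a * fr.d1 w - b * fr.d2 w)) : Sm) p = 0 := by
    intro p hp
    simp only [mul_ap, Derivation.leibniz, Derivation.leibniz_pow, smul_eq_mul, nsmul_eq_mul, add_ap, pow_ap,
      z0 p hp, z1 p hp]
    ring
  have hv2 : ∀ p, p ∉ tsupport (g : ℝ × ℝ → ℝ) →
      (fr.J * fr.d2 (g ^ 2 * w * (c * fr.d2 w - b * fr.d1 w)) : Sm) p = 0 := by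
    intro p hp
    simp only [mul_ap, Derivation.leibniz, Derivation.leibniz_pow, smul_eq_mul, nsmul_eq_mul, add_ap, pow_ap,
      z0 p hp, z2 p hp]
    ring
  have iv1 := T02b_int hg hv1
  have iv2 := T02b_int hg hv2
  have hpt : ∀ p, W p + 2 * B p =
      (fr.J * fr.d1 (g ^ 2 * w * (a * fr.d1 w - b * fr.d2 w)) : Sm) p
      + (fr.J * fr.d2 (g ^ 2 * w * (c * fr.d2 w - b * fr.d1 w)) : Sm) p := by
    intro p
    have h := congrArg (fun f : Sm => f p) hdiv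
    simp only [add_ap] at h
    have hz : (fr.J * (g ^ 2 * w * fr.L z w) : Sm) p = 0 := by
      by_cases hp : p ∈ tsupport (g : ℝ × ℝ → ℝ)
      · simp only [mul_ap, hL p hp]
        ring
      · simp only [mul_ap, pow_ap, z0 p hp]
        ring
    have h2 : (2 * B : Sm) p = 2 * B p := by
      rw [two_mul, add_ap]
      ring
    rw [hz, h2] at h
    linarith
  have key1 : ∫ p, (W p + 2 * B p) = 0 := by
    have : (fun p => W p + 2 * B p) = fun p =>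
      (fr.J * fr.d1 (g ^ 2 * w * (a * fr.d1 w - b * fr.d2 w)) : Sm) p
      + (fr.J * fr.d2 (g ^ 2 * w * (c * fr.d2 w - b * fr.d1 w)) : Sm) p := funext hpt
    rw [this, integral_add iv1 iv2, hint1 _ hcs1, hint2 _ hcs2, add_zero]
  have key2 : 0 ≤ ∫ p, ((1/2) * W p + 2 * B p + 2 * G p) := by
    apply integral_nonneg
    intro p
    show 0 ≤ (1/2) * W p + 2 * B p + 2 * G p
    by_cases hp : p ∈ tsupport (g : ℝ × ℝ → ℝ)
    · obtain ⟨ha0, hD0⟩ := hpos p hp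
      have hD : 0 < a p * c p - b p ^ 2 := hD0
      have hJ := fr.hpos p
      set X := g p * (fr.d1 w) p + 2 * w p * (fr.d1 g) p with hX
      set Y := g p * (fr.d2 w) p + 2 * w p * (fr.d2 g) p with hY
      have hq : 0 ≤ a p * X ^ 2 - 2 * b p * X * Y + c p * Y ^ 2 := by
        have h1 : a p * (a p * X ^ 2 - 2 * b p * X * Y + c p * Y ^ 2)
            = (a p * X - b p * Y) ^ 2 + (a p * c p - b p ^ 2) * Y ^ 2 := by ring
        have h2 : 0 ≤ a p * (a p * X ^ 2 - 2 * b p * X * Y + c p * Y ^ 2) := by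
          rw [h1]; positivity
        exact nonneg_of_mul_nonneg_right h2 ha0
      have he : (1/2) * W p + 2 * B p + 2 * G p
          = (1/2) * (fr.J p * (a p * X ^ 2 - 2 * b p * X * Y + c p * Y ^ 2)) := by
        have hc2 : ((2 : Sm)) p = (2 : ℝ) := rfl
        simp only [hW, hB, hG, mul_ap, pow_ap, add_ap, sub_ap, hX, hY, hc2]
        ring
      rw [he]
      have := mul_nonneg hJ.le hq
      linarith
    · rw [hWz p hp, hBz p hp, hGz p hp]
      norm_num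
  have s1 : ∫ p, (W p + 2 * B p) = (∫ p, W p) + 2 * (∫ p, B p) := by
    rw [integral_add iW (iB.const_mul 2), integral_const_mul]
  have s2 : ∫ p, ((1/2) * W p + 2 * B p + 2 * G p)
      = (1/2) * (∫ p, W p) + 2 * (∫ p, B p) + 2 * (∫ p, G p) := by
    have i12 : Integrable (fun p => (1/2) * W p + 2 * B p) :=
      (iW.const_mul (1/2)).add (iB.const_mul 2)
    rw [integral_add i12 (iG.const_mul 2),
      integral_add (iW.const_mul (1/2)) (iB.const_mul 2), integral_const_mul, integral_const_mul,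
      integral_const_mul]
  rw [s1] at key1
  rw [s2] at key2
  linarith

end Frame
end NI
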