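import Crest.Agent.NI_Data
import Crest.Agent.NI_T00
import Crest.Agent.NI_T02b

set_option autoImplicit false
open scoped ContDiff
open MeasureTheory

namespace NI

namespace D2aux

theorem D1_Xs : D1 Xs = 1 := by
  apply sm_ext; intro p
  rw [D1_ap]
  have : ((Xs : Sm) : ℝ × ℝ → ℝ) = fun p => p.1 := rfl
  rw [this]
  have h : HasFDerivAt (fun p : ℝ × ℝ => p.1) (ContinuousLinearMap.fst ℝ ℝ ℝ) p := hasFDerivAt_fst
  rw [h.fderiv]; simp

theorem D2_Xs : D2 Xs = 0 := by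
  apply sm_ext; intro p
  rw [D2_ap]
  have : ((Xs : Sm) : ℝ × ℝ → ℝ) = fun p => p.1 := rfl
  rw [this]
  have h : HasFDerivAt (fun p : ℝ × ℝ => p.1) (ContinuousLinearMap.fst ℝ ℝ ℝ) p := hasFDerivAt_fst
  rw [h.fderiv]; simp

theorem D1_Xt : D1 Xt = 0 := by
  apply sm_ext; intro p
  rw [D1_ap]
  have : ((Xt : Sm) : ℝ × ℝ → ℝ) = fun p => p.2 := rfl
  rw [this]
  have h : HasFDerivAt (fun p : ℝ × ℝ => p.2) (ContinuousLinearMap.snd ℝ ℝ ℝ) p := hasFDerivAt_snd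
  rw [h.fderiv]; simp

theorem D2_Xt : D2 Xt = 1 := by
  apply sm_ext; intro p
  rw [D2_ap]
  have : ((Xt : Sm) : ℝ × ℝ → ℝ) = fun p => p.2 := rfl
  rw [this]
  have h : HasFDerivAt (fun p : ℝ × ℝ => p.2) (ContinuousLinearMap.snd ℝ ℝ ℝ) p := hasFDerivAt_snd
  rw [h.fderiv]; simp

theorem D1_cmpXs (g : ℝ → ℝ) (hg : ContDiff ℝ ∞ g) (p : ℝ × ℝ) :
    (D1 (cmp g hg Xs)) p = deriv g p.1 := by
  have h : D1 (cmp g hg Xs) = cmp (deriv g) (contDiff_deriv hg) Xs * D1 Xs :=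
    Dv_cmp _ g hg (contDiff_deriv hg) Xs
  rw [h, D1_Xs]; simp

theorem D2_cmpXs (g : ℝ → ℝ) (hg : ContDiff ℝ ∞ g) (p : ℝ × ℝ) :
    (D2 (cmp g hg Xs)) p = 0 := by
  have h : D2 (cmp g hg Xs) = cmp (deriv g) (contDiff_deriv hg) Xs * D2 Xs :=
    Dv_cmp _ g hg (contDiff_deriv hg) Xs
  rw [h, D2_Xs]; simp

theorem D1_cmpXt (g : ℝ → ℝ) (hg : ContDiff ℝ ∞ g) (p : ℝ × ℝ) :
    (D1 (cmp g hg Xt)) p = 0 := by
  have h : D1 (cmp g hg Xt) = cmp (deriv g) (contDiff_deriv hg) Xt * D1 Xt :=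
    Dv_cmp _ g hg (contDiff_deriv hg) Xt
  rw [h, D1_Xt]; simp

theorem D2_cmpXt (g : ℝ → ℝ) (hg : ContDiff ℝ ∞ g) (p : ℝ × ℝ) :
    (D2 (cmp g hg Xt)) p = deriv g p.2 := by
  have h : D2 (cmp g hg Xt) = cmp (deriv g) (contDiff_deriv hg) Xt * D2 Xt :=
    Dv_cmp _ g hg (contDiff_deriv hg) Xt
  rw [h, D2_Xt]; simp

/-- the cutoff -/
noncomputable def chi (r g R : ℝ) : Sm :=
  cmp (ct R (R + g)) ct_contDiff Xs * cmp (ct R (R + g)) ct_contDiff Xt *
    (1 - cmp (ct r (r + g)) ct_contDiff Xs * cmp (ct r (r + g)) ct_contDiff Xt)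

theorem chi_ap (r g R : ℝ) (p : ℝ × ℝ) :
    chi r g R p = ct R (R + g) p.1 * ct R (R + g) p.2 *
      (1 - ct r (r + g) p.1 * ct r (r + g) p.2) := rfl

theorem chi_nonneg (r g R : ℝ) (p : ℝ × ℝ) : 0 ≤ chi r g R p := by
  rw [chi_ap]
  have h1 := ct_nonneg R (R + g) p.1
  have h2 := ct_nonneg R (R + g) p.2
  have h3 := ct_nonneg r (r + g) p.1
  have h4 := ct_nonneg r (r + g) p.2
  have h5 := ct_le_one r (r + g) p.1
  have h6 := ct_le_one r (r + g) p.2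
  have : ct r (r + g) p.1 * ct r (r + g) p.2 ≤ 1 := mul_le_one₀ h5 h4 h6
  exact mul_nonneg (mul_nonneg h1 h2) (by linarith)

theorem chi_zero {r g R : ℝ} (hr : 0 ≤ r) (hg : 0 < g) (hR : 0 ≤ R) {p : ℝ × ℝ}
    (hp : p ∉ Ring r (R + g)) : chi r g R p = 0 := by
  rw [chi_ap]
  have hp' : max |p.1| |p.2| ≤ r ∨ R + g ≤ max |p.1| |p.2| := by
    by_contra hcon
    push Not at hcon
    exact hp ⟨hcon.1, hcon.2⟩
  rcases hp' with h | h
  · have h1 : |p.1| ≤ r := le_trans (le_max_left _ _) h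
    have h2 : |p.2| ≤ r := le_trans (le_max_right _ _) h
    rw [ct_one hr (by linarith) h1, ct_one hr (by linarith) h2]
    ring
  · rcases le_max_iff.1 h with h1 | h1
    · rw [ct_zero hR (by linarith) h1]; ring
    · rw [ct_zero hR (by linarith) h1]; ring

theorem chi_one {r g R : ℝ} (hr : 0 ≤ r) (hg : 0 < g) (hR : 0 ≤ R) {p : ℝ × ℝ}
    (hp : p ∈ Ring (r + g) R) : chi r g R p = 1 := by
  rw [chi_ap]
  obtain ⟨h1, h2⟩ := hp
  have h3 : |p.1| ≤ R := le_trans (le_max_left _ _) h2.le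
  have h4 : |p.2| ≤ R := le_trans (le_max_right _ _) h2.le
  rw [ct_one hR (by linarith) h3, ct_one hR (by linarith) h4]
  rcases lt_max_iff.1 h1 with h | h
  · rw [ct_zero hr (by linarith) h.le]; ring
  · rw [ct_zero hr (by linarith) h.le]; ring

theorem chi_cpt {r g R : ℝ} (hr : 0 ≤ r) (hg : 0 < g) (hR : 0 ≤ R) :
    HasCompactSupport (chi r g R : ℝ × ℝ → ℝ) := by
  refine HasCompactSupport.intro (isCompact_closedBall (0 : ℝ × ℝ) (R + g)) ?_
  intro p hp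
  apply chi_zero hr hg hR
  intro h
  apply hp
  rw [Metric.mem_closedBall, dist_zero_right, Prod.norm_def, Real.norm_eq_abs, Real.norm_eq_abs]
  exact h.2.le

theorem chi_tsupp {r g R : ℝ} (hr : 0 ≤ r) (hg : 0 < g) (hR : 0 ≤ R) :
    tsupport (chi r g R : ℝ × ℝ → ℝ) ⊆ closure (Ring r (R + g)) := by
  apply closure_mono
  intro p hp
  by_contra h
  exact hp (chi_zero hr hg hR h)

/-- the gradient vanishes where the cutoff vanishes -/
theorem chi_fderiv_zero {r g R : ℝ} {p : ℝ × ℝ} (h : chi r g R p = 0) :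
    fderiv ℝ (chi r g R : ℝ × ℝ → ℝ) p = 0 := by
  apply IsLocalMin.fderiv_eq_zero
  apply Filter.Eventually.of_forall
  intro q
  show chi r g R p ≤ chi r g R q
  rw [h]; exact chi_nonneg r g R q

theorem D1_chi (r g R : ℝ) (p : ℝ × ℝ) : (D1 (chi r g R)) p =
    deriv (ct R (R + g)) p.1 * ct R (R + g) p.2 * (1 - ct r (r + g) p.1 * ct r (r + g) p.2)
    - ct R (R + g) p.1 * ct R (R + g) p.2 * (deriv (ct r (r + g)) p.1 * ct r (r + g) p.2) := by
  unfold chi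
  simp only [Derivation.leibniz, map_sub, smul_eq_mul, add_ap, mul_ap, sub_ap, D1_cmpXs, D1_cmpXt,
    cmp_ap, Xs_ap, Xt_ap, one_ap]
  have : (D1 (1 : Sm)) = 0 := Derivation.map_one_eq_zero _
  rw [this, zero_ap]
  ring

theorem D2_chi (r g R : ℝ) (p : ℝ × ℝ) : (D2 (chi r g R)) p =
    ct R (R + g) p.1 * deriv (ct R (R + g)) p.2 * (1 - ct r (r + g) p.1 * ct r (r + g) p.2)
    - ct R (R + g) p.1 * ct R (R + g) p.2 * (ct r (r + g) p.1 * deriv (ct r (r + g)) p.2) := by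
  unfold chi
  simp only [Derivation.leibniz, map_sub, smul_eq_mul, add_ap, mul_ap, sub_ap, D2_cmpXs, D2_cmpXt,
    cmp_ap, Xs_ap, Xt_ap, one_ap]
  have : (D2 (1 : Sm)) = 0 := Derivation.map_one_eq_zero _
  rw [this, zero_ap]
  ring

theorem ring_meas (r R : ℝ) : MeasurableSet (Ring r R) := by
  have hc : Continuous (fun p : ℝ × ℝ => max |p.1| |p.2|) := by fun_prop
  exact ((isOpen_lt continuous_const hc).inter (isOpen_lt hc continuous_const)).measurableSet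

/-- algebra: bounds of the quadratic form -/
theorem quad_low {a b c lam ε X Y : ℝ} (hl : 0 < lam) (he : 0 < ε)
    (ha : |a - lam| ≤ lam/2000) (hc : |c| ≤ lam/2000)
    (hD : ε / 5 ≤ a * c - b ^ 2) :
    X ^ 2 + Y ^ 2 ≤ 10 * lam / ε * (a * X ^ 2 - 2 * b * (X * Y) + c * Y ^ 2) := by
  have ha1 := (abs_le.1 ha).1
  have ha2 := (abs_le.1 ha).2
  have hc1 := (abs_le.1 hc).1
  have hc2 := (abs_le.1 hc).2
  have hapos : 0 < a := by linarith
  have hac : a * c ≤ (lam + lam/2000) * (lam / 2000) := by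
    have h1 : a * c ≤ a * (lam/2000) := mul_le_mul_of_nonneg_left hc2 hapos.le
    have h2 : a * (lam/2000) ≤ (lam + lam/2000) * (lam/2000) :=
      mul_le_mul_of_nonneg_right (by linarith) (by positivity)
    linarith
  have hel : ε ≤ lam ^ 2 / 100 := by nlinarith [sq_nonneg b, sq_nonneg lam]
  set μ := ε / (10 * lam) with hμ
  have hμ0 : 0 < μ := by positivity
  have hμl : μ * lam = ε / 10 := by rw [hμ]; field_simp
  have hμ1 : μ ≤ lam / 1000 := by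
    rw [hμ, div_le_iff₀ (by positivity)]
    nlinarith
  have hq : μ * (X ^ 2 + Y ^ 2) ≤ a * X ^ 2 - 2 * b * (X * Y) + c * Y ^ 2 := by
    have hp1 : 0 < a - μ := by linarith
    have hp2 : 0 ≤ (a - μ) * (c - μ) - b ^ 2 := by
      have : μ * (a + c) ≤ μ * (lam * (1 + 1/1000)) :=
        mul_le_mul_of_nonneg_left (by linarith) hμ0.le
      nlinarith [sq_nonneg μ]
    have hid : (a - μ) * (a * X ^ 2 - 2 * b * (X * Y) + c * Y ^ 2 - μ * (X ^ 2 + Y ^ 2))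
        = ((a - μ) * X - b * Y) ^ 2 + ((a - μ) * (c - μ) - b ^ 2) * Y ^ 2 := by ring
    have hnn : 0 ≤ (a - μ) * (a * X ^ 2 - 2 * b * (X * Y) + c * Y ^ 2 - μ * (X ^ 2 + Y ^ 2)) := by
      rw [hid]; positivity
    have := nonneg_of_mul_nonneg_right hnn hp1
    linarith
  have h1 : 10 * lam / ε * (μ * (X ^ 2 + Y ^ 2)) = X ^ 2 + Y ^ 2 := by
    rw [hμ]; field_simp
  have h2 : 10 * lam / ε * (μ * (X ^ 2 + Y ^ 2)) ≤
      10 * lam / ε * (a * X ^ 2 - 2 * b * (X * Y) + c * Y ^ 2) :=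
    mul_le_mul_of_nonneg_left hq (by positivity)
  linarith

theorem quad_up {a b c lam X Y : ℝ} (hl : 0 < lam)
    (ha : |a - lam| ≤ lam/2000) (hb : |b| ≤ lam/2000) (hc : |c| ≤ lam/2000) :
    a * X ^ 2 - 2 * b * (X * Y) + c * Y ^ 2 ≤ 2 * lam * (X ^ 2 + Y ^ 2) := by
  have ha2 := (abs_le.1 ha).2
  have hc2 := (abs_le.1 hc).2
  have hb1 := (abs_le.1 hb).1
  have hb2 := (abs_le.1 hb).2
  have h1 : a * X ^ 2 ≤ (lam + lam/2000) * X ^ 2 := mul_le_mul_of_nonneg_right (by linarith) (sq_nonneg _)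
  have h2 : c * Y ^ 2 ≤ (lam/2000) * Y ^ 2 := mul_le_mul_of_nonneg_right (by linarith) (sq_nonneg _)
  have h3 : - (2 * b * (X * Y)) ≤ (lam/2000) * (X ^ 2 + Y ^ 2) := by
    have h4 : -(2 * b * (X * Y)) ≤ |b| * (2 * |X * Y|) := by
      calc -(2 * b * (X * Y)) ≤ |-(2 * b * (X * Y))| := le_abs_self _
        _ = |b| * (2 * |X * Y|) := by
          rw [abs_neg, abs_mul, abs_mul]; simp; ring
    have h5 : 2 * |X * Y| ≤ X ^ 2 + Y ^ 2 := by
      rw [abs_mul]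
      nlinarith [sq_nonneg (|X| - |Y|), sq_abs X, sq_abs Y]
    calc -(2 * b * (X * Y)) ≤ |b| * (2 * |X * Y|) := h4
      _ ≤ (lam/2000) * (X ^ 2 + Y ^ 2) := by
        apply mul_le_mul hb h5 (by positivity) (by positivity)
  have h6 : 0 ≤ lam * X ^ 2 := by positivity
  have h7 : 0 ≤ lam * Y ^ 2 := by positivity
  nlinarith

theorem sq_small {x : ℝ} (h : |x| ≤ 1/10000) : x ^ 2 ≤ 0.001 := by
  rw [← sq_abs]
  have := pow_le_pow_left₀ (abs_nonneg x) h 2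
  linarith [this, show ((1:ℝ)/10000) ^ 2 ≤ 0.001 by norm_num]

theorem sq_near {x : ℝ} (h : |x - 1| ≤ 1/10000) : x ^ 2 ≤ 1.001 := by
  have h1 := abs_le.1 h
  have h2 : |x| ≤ 1.0001 := by rw [abs_le]; constructor <;> linarith
  rw [← sq_abs]
  have := pow_le_pow_left₀ (abs_nonneg x) h2 2
  linarith [this, show ((1.0001:ℝ)) ^ 2 ≤ 1.001 by norm_num]

theorem grad_le {xs xt ys yt X Y : ℝ} (d1 : |xs - 1| ≤ 1/10000) (d2 : |xt| ≤ 1/10000)
    (d3 : |ys| ≤ 1/10000) (d4 : |yt - 1| ≤ 1/10000) :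
    (xs * X + ys * Y) ^ 2 + (xt * X + yt * Y) ^ 2 ≤ 3 * (X ^ 2 + Y ^ 2) := by
  have q1 := sq_near d1
  have q2 : ys ^ 2 ≤ 0.001 := sq_small d3
  have q3 : xt ^ 2 ≤ 0.001 := sq_small d2
  have q4 := sq_near d4
  have s1 : (xs * X + ys * Y) ^ 2 ≤ 2 * (xs ^ 2 * X ^ 2) + 2 * (ys ^ 2 * Y ^ 2) := by
    nlinarith [sq_nonneg (xs * X - ys * Y)]
  have s2 : (xt * X + yt * Y) ^ 2 ≤ 2 * (xt ^ 2 * X ^ 2) + 2 * (yt ^ 2 * Y ^ 2) := by
    nlinarith [sq_nonneg (xt * X - yt * Y)]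
  have t1 := mul_le_mul_of_nonneg_right q1 (sq_nonneg X)
  have t2 := mul_le_mul_of_nonneg_right q2 (sq_nonneg Y)
  have t3 := mul_le_mul_of_nonneg_right q3 (sq_nonneg X)
  have t4 := mul_le_mul_of_nonneg_right q4 (sq_nonneg Y)
  have hX := sq_nonneg X
  have hY := sq_nonneg Y
  linarith

theorem ring_open (r R : ℝ) : IsOpen (Ring r R) := by
  have hc : Continuous (fun p : ℝ × ℝ => max |p.1| |p.2|) := by fun_prop
  exact (isOpen_lt continuous_const hc).inter (isOpen_lt hc continuous_const)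

theorem Dv_zero_open (v : ℝ × ℝ) (f : Sm) (Ω : Set (ℝ × ℝ)) (hΩ : IsOpen Ω)
    (h : ∀ p ∈ Ω, f p = 0) : ∀ p ∈ Ω, (Dv v f) p = 0 := by
  intro p hp
  have he : (f : ℝ × ℝ → ℝ) =ᶠ[nhds p] 0 := by
    filter_upwards [hΩ.mem_nhds hp] with q hq using h q hq
  rw [Dv_ap, he.fderiv_eq]; simp

theorem dct_le {C : ℝ} (hC : 0 < C)
    (h : ∀ a b : ℝ, 0 < a → a < b → b ≤ 2 * a → ∀ r : ℝ,
      |deriv (ct a b) r| ≤ C * b / (b ^ 2 - a ^ 2))
    {a g : ℝ} (ha : 0 < a) (hg : 0 < g) (hga : g ≤ a) (x : ℝ) :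
    |deriv (ct a (a + g)) x| ≤ C / g := by
  have h1 := h a (a + g) ha (by linarith) (by linarith) x
  refine h1.trans ?_
  have h2 : (a + g) ^ 2 - a ^ 2 = g * (2 * a + g) := by ring
  rw [h2, div_le_div_iff₀ (by positivity) hg]
  nlinarith [mul_pos hC hg, mul_pos (mul_pos hC hg) ha]

theorem abs_mul_le_of {x y A : ℝ} (hx : |x| ≤ A) (hy0 : 0 ≤ y) (hy1 : y ≤ 1) : |x * y| ≤ A := by
  rw [abs_mul, abs_of_nonneg hy0]
  calc |x| * y ≤ |x| * 1 := mul_le_mul_of_nonneg_left hy1 (abs_nonneg x)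
    _ ≤ A := by linarith

theorem D_chi_bound {C : ℝ} (hC : 0 < C)
    (h : ∀ a b : ℝ, 0 < a → a < b → b ≤ 2 * a → ∀ r : ℝ,
      |deriv (ct a b) r| ≤ C * b / (b ^ 2 - a ^ 2))
    {r g R : ℝ} (hr : 0 < r) (hg : 0 < g) (hgr : g ≤ r) (hR : 0 < R) (hgR : g ≤ R) (p : ℝ × ℝ) :
    |(D1 (chi r g R)) p| ≤ 2 * (C / g) ∧ |(D2 (chi r g R)) p| ≤ 2 * (C / g) := by
  have a1 := dct_le hC h hr hg hgr
  have a2 := dct_le hC h hR hg hgR
  have c1 := ct_nonneg R (R + g)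
  have c2 := ct_le_one R (R + g)
  have c3 := ct_nonneg r (r + g)
  have c4 := ct_le_one r (r + g)
  have e1 : 0 ≤ 1 - ct r (r + g) p.1 * ct r (r + g) p.2 := by
    have := mul_le_one₀ (c4 p.1) (c3 p.2) (c4 p.2)
    linarith
  have e2 : 1 - ct r (r + g) p.1 * ct r (r + g) p.2 ≤ 1 := by
    have := mul_nonneg (c3 p.1) (c3 p.2)
    linarith
  have e3 : 0 ≤ ct R (R + g) p.1 * ct R (R + g) p.2 := mul_nonneg (c1 _) (c1 _)
  have e4 : ct R (R + g) p.1 * ct R (R + g) p.2 ≤ 1 := mul_le_one₀ (c2 _) (c1 _) (c2 _)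
  constructor
  · rw [D1_chi]
    have t1 : |deriv (ct R (R + g)) p.1 * ct R (R + g) p.2 *
        (1 - ct r (r + g) p.1 * ct r (r + g) p.2)| ≤ C / g :=
      abs_mul_le_of (abs_mul_le_of (a2 _) (c1 _) (c2 _)) e1 e2
    have t2 : |ct R (R + g) p.1 * ct R (R + g) p.2 * (deriv (ct r (r + g)) p.1 * ct r (r + g) p.2)|
        ≤ C / g := by
      rw [mul_comm]
      exact abs_mul_le_of (abs_mul_le_of (a1 _) (c3 _) (c4 _)) e3 e4
    calc _ ≤ _ := abs_sub _ _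
      _ ≤ C / g + C / g := add_le_add t1 t2
      _ = _ := by ring
  · rw [D2_chi]
    have t1 : |ct R (R + g) p.1 * deriv (ct R (R + g)) p.2 *
        (1 - ct r (r + g) p.1 * ct r (r + g) p.2)| ≤ C / g := by
      apply abs_mul_le_of _ e1 e2
      rw [mul_comm]
      exact abs_mul_le_of (a2 _) (c1 _) (c2 _)
    have t2 : |ct R (R + g) p.1 * ct R (R + g) p.2 * (ct r (r + g) p.1 * deriv (ct r (r + g)) p.2)|
        ≤ C / g := by
      rw [mul_comm]
      apply abs_mul_le_of _ e3 e4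
      rw [mul_comm]
      exact abs_mul_le_of (a1 _) (c3 _) (c4 _)
    calc _ ≤ _ := abs_sub _ _
      _ ≤ C / g + C / g := add_le_add t1 t2
      _ = _ := by ring

end D2aux

set_option maxHeartbeats 1600000 in
open D2aux in
/-- Caccioppoli inequality in square rings, in the original coordinates. Apply
`Frame.caccioppoli` with the cutoff
`ct R (R+g) (s) ct R (R+g) (t) (1 - ct r (r+g) (s) ct r (r+g) (t))`; on the ring
`Dt ≥ ε/10 > 0`, `a ≈ lam`, so the quadratic form is between `ε/(40 lam)·|∇|²` and `4 lam |∇|²`. -/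
theorem ring_cac : ∃ C : ℝ, 0 < C ∧ ∀ (lam ε : ℝ) (F F' : Fin 3 → Sm) (h : Sm)
    (D : Data lam ε F F' h), 0 < lam → lam ≤ 1 → 0 < ε → ε ≤ 1 →
    (∀ p ∈ Ring 1.1 1.5, h p = 0) →
    ∀ r g R : ℝ, 1.1 ≤ r → 0 < g → r + g < R → R + g ≤ 1.5 →
    ∫ p in Ring (r + g) R, ((D1 (F 2 - F' 2) p) ^ 2 + (D2 (F 2 - F' 2) p) ^ 2)
      ≤ C * lam ^ 2 / ε / g ^ 2 * ∫ p in Ring r (R + g), ((F 2 - F' 2 : Sm) p) ^ 2 := by
  obtain ⟨C, hC, hct⟩ := ct_deriv_bound
  have hct1 : ∀ a b : ℝ, 0 < a → a < b → b ≤ 2 * a → ∀ r : ℝ,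
      |deriv (ct a b) r| ≤ C * b / (b ^ 2 - a ^ 2) := fun a b h1 h2 h3 r => (hct a b h1 h2 h3 r).1
  refine ⟨100000 * C ^ 2, by positivity, ?_⟩
  intro lam ε F F' h D hl hl1 he he1 hh r g R hr hg hrR hRg
  set fr := D.fr with hfr
  set z := avg F F' 2 with hz
  set w : Sm := F 2 - F' 2 with hw
  set χ := chi r g R with hχ
  have hr0 : 0 < r := by linarith
  have hR0 : 0 < R := by linarith
  have hχc : HasCompactSupport (χ : ℝ × ℝ → ℝ) := chi_cpt hr0.le hg hR0.le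
  have hsub : Ring r (R + g) ⊆ Ring 1.1 1.5 := by
    intro p hp
    exact ⟨lt_of_le_of_lt hr hp.1, lt_of_lt_of_le hp.2 hRg⟩
  have hts : tsupport (χ : ℝ × ℝ → ℝ) ⊆ closure (Ring 1.1 1.5) :=
    (chi_tsupp hr0.le hg hR0.le).trans (closure_mono hsub)
  have hbox : ∀ p ∈ Ring 1.1 1.5, p ∈ Box 1.5 := by
    intro p hp
    exact ⟨lt_of_le_of_lt (le_max_left _ _) hp.2, lt_of_le_of_lt (le_max_right _ _) hp.2⟩
  have hbox' : ∀ p ∈ Ring 1.1 1.5, p ∈ Box 1.8 := by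
    intro p hp
    have := hbox p hp
    exact ⟨by linarith [this.1], by linarith [this.2]⟩
  -- `L z w = 0` on the ring
  have hL0 : ∀ p ∈ Ring 1.1 1.5, fr.L z w p = 0 := by
    intro p hp
    have h1 := D.pde p (hbox' p hp)
    rw [h1]
    have h2 := D.H_bd h p
    have z0 : h p = 0 := hh p hp
    have z1 : D1 h p = 0 := Dv_zero_open _ h _ (ring_open _ _) hh p hp
    have z2 : ∀ q ∈ Ring 1.1 1.5, D2 h q = 0 := Dv_zero_open _ h _ (ring_open _ _) hh
    have z3 : D2 (D2 h) p = 0 := Dv_zero_open _ (D2 h) _ (ring_open _ _) z2 p hp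
    rw [z0, z1, z2 p hp, z3] at h2
    simp only [abs_zero, add_zero, mul_zero] at h2
    exact abs_eq_zero.1 (le_antisymm h2 (abs_nonneg _))
  have hL : ∀ p ∈ tsupport (χ : ℝ × ℝ → ℝ), fr.L z w p = 0 := by
    intro p hp
    have hcl : IsClosed {p : ℝ × ℝ | fr.L z w p = 0} :=
      isClosed_eq (smooth (fr.L z w)).continuous continuous_const
    exact closure_minimal hL0 hcl (hts hp)
  have hD0 : ∀ p ∈ Ring 1.1 1.5, ε / 5 ≤ fr.Dt z p := by
    intro p hp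
    have h1 := (abs_le.1 (D.Dt_bd p (hbox p hp))).1
    have h2 : kk p = p.1 ^ 2 + p.2 ^ 2 - 1 := rfl
    have h3 : (1.21 : ℝ) ≤ p.1 ^ 2 + p.2 ^ 2 := by
      rcases lt_max_iff.1 hp.1 with h4 | h4
      · have : (1.1:ℝ) ^ 2 ≤ |p.1| ^ 2 := pow_le_pow_left₀ (by norm_num) h4.le 2
        rw [sq_abs] at this
        nlinarith [sq_nonneg p.2]
      · have : (1.1:ℝ) ^ 2 ≤ |p.2| ^ 2 := pow_le_pow_left₀ (by norm_num) h4.le 2
        rw [sq_abs] at this
        nlinarith [sq_nonneg p.1]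
    have h5 : ε * 0.21 ≤ ε * kk p := mul_le_mul_of_nonneg_left (by rw [h2]; linarith) he.le
    linarith
  have hD : ∀ p ∈ tsupport (χ : ℝ × ℝ → ℝ), ε / 5 ≤ fr.Dt z p := by
    intro p hp
    have hcl : IsClosed {p : ℝ × ℝ | ε / 5 ≤ fr.Dt z p} :=
      isClosed_le continuous_const (smooth (fr.Dt z)).continuous
    exact closure_minimal hD0 hcl (hts hp)
  have hpos : ∀ p ∈ tsupport (χ : ℝ × ℝ → ℝ), 0 < fr.a z p ∧ 0 < fr.Dt z p := by
    intro p hp
    have h1 := (abs_le.1 (D.a_bd p)).1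
    exact ⟨by linarith, by linarith [hD p hp]⟩
  have hcac := Frame.caccioppoli fr D.comm D.int1 D.int2 z w χ hχc hL hpos
  set A : Sm := fr.J * (χ ^ 2 * (fr.a z * (fr.d1 w) ^ 2 - 2 * fr.b z * (fr.d1 w * fr.d2 w)
        + fr.c z * (fr.d2 w) ^ 2)) with hA
  set B : Sm := fr.J * (w ^ 2 * (fr.a z * (fr.d1 χ) ^ 2 - 2 * fr.b z * (fr.d1 χ * fr.d2 χ)
        + fr.c z * (fr.d2 χ) ^ 2)) with hB
  have hJ : ∀ p, 1/2 ≤ fr.J p ∧ fr.J p ≤ 2 := by
    intro p
    have := abs_le.1 (D.J_bd p)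
    exact ⟨by linarith [this.1], by linarith [this.2]⟩
  have hAap : ∀ p, A p = fr.J p * (χ p ^ 2 * (fr.a z p * (fr.d1 w p) ^ 2
      - 2 * fr.b z p * (fr.d1 w p * fr.d2 w p) + fr.c z p * (fr.d2 w p) ^ 2)) := fun p => rfl
  have hBap : ∀ p, B p = fr.J p * (w p ^ 2 * (fr.a z p * (fr.d1 χ p) ^ 2
      - 2 * fr.b z p * (fr.d1 χ p * fr.d2 χ p) + fr.c z p * (fr.d2 χ p) ^ 2)) := fun p => rfl
  have hDtap : ∀ p, fr.Dt z p = fr.a z p * fr.c z p - fr.b z p ^ 2 := fun p => rfl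
  -- lower bound
  have hlow : ∀ p ∈ tsupport (χ : ℝ × ℝ → ℝ), (fr.d1 w p) ^ 2 + (fr.d2 w p) ^ 2 ≤
      10 * lam / ε * (fr.a z p * (fr.d1 w p) ^ 2
      - 2 * fr.b z p * (fr.d1 w p * fr.d2 w p) + fr.c z p * (fr.d2 w p) ^ 2) := by
    intro p hp
    exact quad_low hl he (D.a_bd p) (D.c_bd p) (by have := hD p hp; rwa [hDtap] at this)
  have hAnn : ∀ p, 0 ≤ A p := by
    intro p
    rw [hAap]
    by_cases hp : p ∈ tsupport (χ : ℝ × ℝ → ℝ)
    · have h1 := hlow p hp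
      have h2 : 0 ≤ 10 * lam / ε * (fr.a z p * (fr.d1 w p) ^ 2
        - 2 * fr.b z p * (fr.d1 w p * fr.d2 w p) + fr.c z p * (fr.d2 w p) ^ 2) :=
        le_trans (by positivity) h1
      have h3 := nonneg_of_mul_nonneg_right h2 (by positivity)
      have h4 := (hJ p).1
      exact mul_nonneg (by linarith) (mul_nonneg (sq_nonneg _) h3)
    · have : χ p = 0 := image_eq_zero_of_notMem_tsupport hp
      rw [this]; simp
  have hcA : HasCompactSupport (A : ℝ × ℝ → ℝ) := by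
    apply HasCompactSupport.intro hχc
    intro p hp
    rw [hAap, image_eq_zero_of_notMem_tsupport hp]; simp
  have iA : Integrable (A : ℝ × ℝ → ℝ) :=
    (smooth A).continuous.integrable_of_hasCompactSupport hcA
  -- boundedness of rings
  have hringball : ∀ r' R' : ℝ, Ring r' R' ⊆ Metric.closedBall (0 : ℝ × ℝ) R' := by
    intro r' R' p hp
    rw [Metric.mem_closedBall, dist_zero_right, Prod.norm_def, Real.norm_eq_abs, Real.norm_eq_abs]
    exact hp.2.le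
  have hio : ∀ (f : ℝ × ℝ → ℝ) (_ : Continuous f) (r' R' : ℝ), IntegrableOn f (Ring r' R') := by
    intro f hf r' R'
    exact (hf.continuousOn.integrableOn_compact (isCompact_closedBall (0 : ℝ × ℝ) R')).mono_set
      (hringball r' R')
  -- pointwise comparison on the inner ring
  have hW : ∀ p ∈ Ring (r + g) R, (D1 w p) ^ 2 + (D2 w p) ^ 2 ≤ 60 * lam / ε * A p := by
    intro p hp
    have hχ1 : χ p = 1 := chi_one hr0.le hg hR0.le hp
    have hpt : p ∈ tsupport (χ : ℝ × ℝ → ℝ) := by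
      apply subset_tsupport
      rw [Function.mem_support, hχ1]; norm_num
    have h1 := hlow p hpt
    obtain ⟨d1, d2, d3, d4⟩ := D.D_bd p
    -- D1 w = x_s d1 w + y_s d2 w
    have hJJ : fr.J p * fr.Ji p = 1 := by
      have := congrArg (fun f : Sm => f p) fr.hJi
      exact this
    have hJe : fr.J p = D1 fr.x p * D2 fr.y p - D2 fr.x p * D1 fr.y p := by
      have := congrArg (fun f : Sm => f p) fr.hJ
      exact this
    have e1 : fr.d1 w p = D2 fr.y p * fr.Ji p * D1 w p + (-(D1 fr.y p * fr.Ji p)) * D2 w p := rfl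
    have e2 : fr.d2 w p = (-(D2 fr.x p * fr.Ji p)) * D1 w p + D1 fr.x p * fr.Ji p * D2 w p := rfl
    have f1 : D1 w p = D1 fr.x p * fr.d1 w p + D1 fr.y p * fr.d2 w p := by
      calc D1 w p = (fr.J p * fr.Ji p) * D1 w p := by rw [hJJ, one_mul]
        _ = _ := by rw [e1, e2, hJe]; ring
    have f2 : D2 w p = D2 fr.x p * fr.d1 w p + D2 fr.y p * fr.d2 w p := by
      calc D2 w p = (fr.J p * fr.Ji p) * D2 w p := by rw [hJJ, one_mul]
        _ = _ := by rw [e1, e2, hJe]; ring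
    set X := fr.d1 w p with hX
    set Y := fr.d2 w p with hY
    have k1 : (D1 w p) ^ 2 + (D2 w p) ^ 2 ≤ 3 * (X ^ 2 + Y ^ 2) := by
      rw [f1, f2]
      exact grad_le d1 d2 d3 d4
    set Q := fr.a z p * X ^ 2 - 2 * fr.b z p * (X * Y) + fr.c z p * Y ^ 2 with hQ
    have hQ0 : 0 ≤ 10 * lam / ε * Q := le_trans (by positivity) h1
    have hQn : 0 ≤ Q := nonneg_of_mul_nonneg_right hQ0 (by positivity)
    have k2 : Q ≤ 2 * A p := by
      have h4 := (hJ p).1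
      have h5 : A p = fr.J p * Q := by rw [hAap, hχ1, hQ]; ring
      rw [h5]
      have h6 : 1/2 * Q ≤ fr.J p * Q := mul_le_mul_of_nonneg_right h4 hQn
      linarith
    calc (D1 w p) ^ 2 + (D2 w p) ^ 2 ≤ 3 * (X ^ 2 + Y ^ 2) := k1
      _ ≤ 3 * (10 * lam / ε * Q) := by linarith
      _ ≤ 3 * (10 * lam / ε * (2 * A p)) := by
        have := mul_le_mul_of_nonneg_left k2 (show (0:ℝ) ≤ 10 * lam / ε by positivity)
        linarith
      _ = 60 * lam / ε * A p := by ring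
  -- pointwise bound of `B`
  have hBz : ∀ p, p ∉ Ring r (R + g) → B p = 0 := by
    intro p hp
    have h1 : χ p = 0 := chi_zero hr0.le hg hR0.le hp
    have h2 := chi_fderiv_zero h1
    have h3 : D1 χ p = 0 := by rw [D1_ap, h2]; simp
    have h4 : D2 χ p = 0 := by rw [D2_ap, h2]; simp
    have h5 : fr.d1 χ p = 0 := by
      have e1 : fr.d1 χ p = D2 fr.y p * fr.Ji p * D1 χ p + (-(D1 fr.y p * fr.Ji p)) * D2 χ p := rfl
      rw [e1, h3, h4]; ring
    have h6 : fr.d2 χ p = 0 := by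
      have e2 : fr.d2 χ p = (-(D2 fr.x p * fr.Ji p)) * D1 χ p + D1 fr.x p * fr.Ji p * D2 χ p := rfl
      rw [e2, h3, h4]; ring
    rw [hBap, h5, h6]; ring
  have hBle : ∀ p, B p ≤ 400 * C ^ 2 * lam / g ^ 2 * (w p) ^ 2 := by
    intro p
    obtain ⟨b1, b2⟩ := D_chi_bound hC hct1 hr0 hg (by linarith) hR0 (by linarith) p
    rw [← hχ] at b1 b2
    obtain ⟨d1, d2, d3, d4⟩ := D.D_bd p
    have g1 := abs_le.1 d1
    have g2 := abs_le.1 d2
    have g3 := abs_le.1 d3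
    have g4 := abs_le.1 d4
    have hJJ : fr.J p * fr.Ji p = 1 := by
      have := congrArg (fun f : Sm => f p) fr.hJi
      exact this
    have hJb := abs_le.1 (D.J_bd p)
    have hJi : 0 ≤ fr.Ji p ∧ fr.Ji p ≤ 1.01 := by
      have hp0 := fr.hpos p
      have : fr.Ji p = 1 / fr.J p := by field_simp; linarith
      rw [this]
      constructor
      · positivity
      · rw [div_le_iff₀ hp0]; linarith
    have e1 : fr.d1 χ p = D2 fr.y p * fr.Ji p * D1 χ p + (-(D1 fr.y p * fr.Ji p)) * D2 χ p := rfl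
    have e2 : fr.d2 χ p = (-(D2 fr.x p * fr.Ji p)) * D1 χ p + D1 fr.x p * fr.Ji p * D2 χ p := rfl
    set N := C / g with hN
    have hN0 : 0 < N := by positivity
    have m1 : |D2 fr.y p * fr.Ji p| ≤ 1.02 := by
      rw [abs_mul, abs_of_nonneg hJi.1]
      have : |D2 fr.y p| ≤ 1.001 := by rw [abs_le]; constructor <;> linarith
      calc |D2 fr.y p| * fr.Ji p ≤ 1.001 * 1.01 := mul_le_mul this hJi.2 hJi.1 (by norm_num)
        _ ≤ 1.02 := by norm_num
    have m2 : |-(D1 fr.y p * fr.Ji p)| ≤ 0.01 := by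
      rw [abs_neg, abs_mul, abs_of_nonneg hJi.1]
      calc |D1 fr.y p| * fr.Ji p ≤ (1/10000) * 1.01 := mul_le_mul d3 hJi.2 hJi.1 (by norm_num)
        _ ≤ 0.01 := by norm_num
    have m3 : |-(D2 fr.x p * fr.Ji p)| ≤ 0.01 := by
      rw [abs_neg, abs_mul, abs_of_nonneg hJi.1]
      calc |D2 fr.x p| * fr.Ji p ≤ (1/10000) * 1.01 := mul_le_mul d2 hJi.2 hJi.1 (by norm_num)
        _ ≤ 0.01 := by norm_num
    have m4 : |D1 fr.x p * fr.Ji p| ≤ 1.02 := by
      rw [abs_mul, abs_of_nonneg hJi.1]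
      have : |D1 fr.x p| ≤ 1.001 := by rw [abs_le]; constructor <;> linarith
      calc |D1 fr.x p| * fr.Ji p ≤ 1.001 * 1.01 := mul_le_mul this hJi.2 hJi.1 (by norm_num)
        _ ≤ 1.02 := by norm_num
    have n1 : |fr.d1 χ p| ≤ 3 * N := by
      rw [e1]
      calc _ ≤ |D2 fr.y p * fr.Ji p * D1 χ p| + |(-(D1 fr.y p * fr.Ji p)) * D2 χ p| := abs_add_le _ _
        _ = |D2 fr.y p * fr.Ji p| * |D1 χ p| + |(-(D1 fr.y p * fr.Ji p))| * |D2 χ p| := by
          rw [abs_mul, abs_mul (-(D1 fr.y p * fr.Ji p))]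
        _ ≤ 1.02 * (2 * N) + 0.01 * (2 * N) := by
          apply add_le_add
          · exact mul_le_mul m1 b1 (abs_nonneg _) (by norm_num)
          · exact mul_le_mul m2 b2 (abs_nonneg _) (by norm_num)
        _ ≤ 3 * N := by linarith
    have n2 : |fr.d2 χ p| ≤ 3 * N := by
      rw [e2]
      calc _ ≤ |(-(D2 fr.x p * fr.Ji p)) * D1 χ p| + |D1 fr.x p * fr.Ji p * D2 χ p| := abs_add_le _ _
        _ = |(-(D2 fr.x p * fr.Ji p))| * |D1 χ p| + |D1 fr.x p * fr.Ji p| * |D2 χ p| := by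
          rw [abs_mul, abs_mul (D1 fr.x p * fr.Ji p)]
        _ ≤ 0.01 * (2 * N) + 1.02 * (2 * N) := by
          apply add_le_add
          · exact mul_le_mul m3 b1 (abs_nonneg _) (by norm_num)
          · exact mul_le_mul m4 b2 (abs_nonneg _) (by norm_num)
        _ ≤ 3 * N := by linarith
    have o1 : (fr.d1 χ p) ^ 2 ≤ 9 * N ^ 2 := by
      have := pow_le_pow_left₀ (abs_nonneg _) n1 2
      rw [sq_abs] at this; linarith [this, show (3 * N) ^ 2 = 9 * N ^ 2 by ring]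
    have o2 : (fr.d2 χ p) ^ 2 ≤ 9 * N ^ 2 := by
      have := pow_le_pow_left₀ (abs_nonneg _) n2 2
      rw [sq_abs] at this; linarith [this, show (3 * N) ^ 2 = 9 * N ^ 2 by ring]
    have hup := quad_up (X := fr.d1 χ p) (Y := fr.d2 χ p) hl (D.a_bd p) (D.b_bd p) (D.c_bd p)
    have hq : fr.a z p * (fr.d1 χ p) ^ 2 - 2 * fr.b z p * (fr.d1 χ p * fr.d2 χ p)
        + fr.c z p * (fr.d2 χ p) ^ 2 ≤ 36 * lam * N ^ 2 := by
      refine hup.trans ?_
      have : 2 * lam * ((fr.d1 χ p) ^ 2 + (fr.d2 χ p) ^ 2) ≤ 2 * lam * (18 * N ^ 2) :=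
        mul_le_mul_of_nonneg_left (by linarith) (by positivity)
      linarith
    have hN2 : N ^ 2 = C ^ 2 / g ^ 2 := by rw [hN, div_pow]
    rw [hBap]
    have hJ2 := (hJ p).2
    have hJ1 := (hJ p).1
    calc fr.J p * (w p ^ 2 * (fr.a z p * (fr.d1 χ p) ^ 2 - 2 * fr.b z p * (fr.d1 χ p * fr.d2 χ p)
        + fr.c z p * (fr.d2 χ p) ^ 2)) ≤ fr.J p * (w p ^ 2 * (36 * lam * N ^ 2)) := by
          apply mul_le_mul_of_nonneg_left _ (by linarith)
          exact mul_le_mul_of_nonneg_left hq (sq_nonneg _)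
      _ ≤ 2 * (w p ^ 2 * (36 * lam * N ^ 2)) := by
          apply mul_le_mul_of_nonneg_right hJ2 (by positivity)
      _ = 72 * (lam * N ^ 2 * w p ^ 2) := by ring
      _ ≤ 400 * (lam * N ^ 2 * w p ^ 2) := by
          apply mul_le_mul_of_nonneg_right (by norm_num) (by positivity)
      _ = 400 * C ^ 2 * lam / g ^ 2 * (w p) ^ 2 := by rw [hN2]; ring
  -- assemble
  have s1 : ∫ p in Ring (r + g) R, ((D1 w p) ^ 2 + (D2 w p) ^ 2) ≤
      ∫ p in Ring (r + g) R, 60 * lam / ε * A p := by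
    apply setIntegral_mono_on
    · apply hio
      exact ((smooth (D1 w)).continuous.pow 2).add ((smooth (D2 w)).continuous.pow 2)
    · exact (iA.const_mul _).integrableOn
    · exact ring_meas _ _
    · exact hW
  have s2 : ∫ p in Ring (r + g) R, 60 * lam / ε * A p ≤ ∫ p, 60 * lam / ε * A p := by
    apply setIntegral_le_integral (iA.const_mul _)
    apply Filter.Eventually.of_forall
    intro p
    exact mul_nonneg (by positivity) (hAnn p)
  have s3 : ∫ p, 60 * lam / ε * A p = 60 * lam / ε * ∫ p, A p := integral_const_mul _ _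
  have s4 : ∫ p, B p = ∫ p in Ring r (R + g), B p := by
    symm
    apply setIntegral_eq_integral_of_forall_compl_eq_zero
    intro p hp
    exact hBz p hp
  have s5 : ∫ p in Ring r (R + g), B p ≤
      ∫ p in Ring r (R + g), 400 * C ^ 2 * lam / g ^ 2 * (w p) ^ 2 := by
    apply setIntegral_mono_on
    · exact hio _ (smooth B).continuous _ _
    · exact hio _ (continuous_const.mul ((smooth w).continuous.pow 2)) _ _
    · exact ring_meas _ _
    · intro p _; exact hBle p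
  have s6 : ∫ p in Ring r (R + g), 400 * C ^ 2 * lam / g ^ 2 * (w p) ^ 2
      = 400 * C ^ 2 * lam / g ^ 2 * ∫ p in Ring r (R + g), (w p) ^ 2 := integral_const_mul _ _
  have hI0 : 0 ≤ ∫ p in Ring r (R + g), (w p) ^ 2 := by
    apply integral_nonneg; intro p; positivity
  calc ∫ p in Ring (r + g) R, ((D1 w p) ^ 2 + (D2 w p) ^ 2)
      ≤ 60 * lam / ε * ∫ p, A p := by linarith
    _ ≤ 60 * lam / ε * (4 * ∫ p, B p) := mul_le_mul_of_nonneg_left hcac (by positivity)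
    _ ≤ 60 * lam / ε * (4 * (400 * C ^ 2 * lam / g ^ 2 * ∫ p in Ring r (R + g), (w p) ^ 2)) := by
        apply mul_le_mul_of_nonneg_left _ (by positivity)
        linarith
    _ = 96000 * C ^ 2 * lam ^ 2 / ε / g ^ 2 * ∫ p in Ring r (R + g), (w p) ^ 2 := by
        field_simp; ring
    _ ≤ 100000 * C ^ 2 * lam ^ 2 / ε / g ^ 2 * ∫ p in Ring r (R + g), (w p) ^ 2 := by
        apply mul_le_mul_of_nonneg_right _ hI0
        have : 96000 * C ^ 2 * lam ^ 2 / ε / g ^ 2 = 96000 * (C ^ 2 * lam ^ 2 / ε / g ^ 2) := by ring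
        rw [this]
        have : 100000 * C ^ 2 * lam ^ 2 / ε / g ^ 2 = 100000 * (C ^ 2 * lam ^ 2 / ε / g ^ 2) := by ring
        rw [this]
        apply mul_le_mul_of_nonneg_right (by norm_num) (by positivity)

end NI
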