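import Crest.Agent.NI_T08

set_option autoImplicit false
open scoped ContDiff
open MeasureTheory

namespace NI

/-- open box in the `(x,Q)` coordinates -/
def XQ (d : VY) (r : ℝ) : Set (ℝ × ℝ) := {p | |d.x p| < r ∧ |d.Q p| < r}
/-- closed box in the `(x,Q)` coordinates -/
def XQc (d : VY) (r : ℝ) : Set (ℝ × ℝ) := {p | |d.x p| ≤ r ∧ |d.Q p| ≤ r}

private theorem t09_cont (f : Sm) : Continuous (f : ℝ × ℝ → ℝ) := (smooth f).continuous

private theorem t09_XQ_open (d : VY) (r : ℝ) : IsOpen (XQ d r) :=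
  (isOpen_lt (t09_cont d.x).abs continuous_const).inter
    (isOpen_lt (t09_cont d.Q).abs continuous_const)

private theorem t09_XQc_closed (d : VY) (r : ℝ) : IsClosed (XQc d r) :=
  (isClosed_le (t09_cont d.x).abs continuous_const).inter
    (isClosed_le (t09_cont d.Q).abs continuous_const)

private theorem t09_ptw (K a b w vx yx vv yy k ky P B c e : ℝ) (hK : 0 ≤ K)
    (hvx : |vx| ≤ K) (hyx : |yx| ≤ K) (hvv : |vv| ≤ K) (hyy : |yy| ≤ K)
    (hk : |k| ≤ 5) (hky : |ky| ≤ 3) (hP : |P| ≤ 2) (hB : |B| ≤ 1) (hc : |c| ≤ 1)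
    (he : 0 ≤ e) (he1 : e ≤ 1) :
    (2 * (vx * a) + (2 * e) * (k * (yx * b)) + w * (vv + e * (ky * yx) + e * (k * yy))) *
      (P * (c * b + w * yx) + B * (c * a + w * vx)) ≤
      30 * K * (2 + 3 * K) * (a ^ 2 + b ^ 2 + w ^ 2) := by
  have hea : |e| ≤ 1 := abs_le.2 ⟨by linarith, he1⟩
  have h1 : |2 * (vx * a)| ≤ 2 * (K * |a|) := by
    rw [abs_mul, abs_mul, abs_of_pos (by norm_num : (0:ℝ) < 2)]
    gcongr
  have h2 : |(2 * e) * (k * (yx * b))| ≤ (2 * 1) * (5 * (K * |b|)) := by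
    rw [abs_mul, abs_mul, abs_mul, abs_mul, abs_of_pos (by norm_num : (0:ℝ) < 2)]
    gcongr
  have h3 : |w * (vv + e * (ky * yx) + e * (k * yy))| ≤ |w| * (K + 1 * (3 * K) + 1 * (5 * K)) := by
    rw [abs_mul]
    have : |vv + e * (ky * yx) + e * (k * yy)| ≤ K + 1 * (3 * K) + 1 * (5 * K) := by
      refine (abs_add_le _ _).trans ?_
      refine add_le_add ((abs_add_le _ _).trans (add_le_add hvv ?_)) ?_
      · rw [abs_mul, abs_mul]; gcongr
      · rw [abs_mul, abs_mul]; gcongr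
    gcongr
  have h4 : |P * (c * b + w * yx) + B * (c * a + w * vx)| ≤
      2 * (1 * |b| + |w| * K) + 1 * (1 * |a| + |w| * K) := by
    refine (abs_add_le _ _).trans (add_le_add ?_ ?_)
    · rw [abs_mul]
      have : |c * b + w * yx| ≤ 1 * |b| + |w| * K := by
        refine (abs_add_le _ _).trans (add_le_add ?_ ?_)
        · rw [abs_mul]; gcongr
        · rw [abs_mul]; gcongr
      gcongr
    · rw [abs_mul]
      have : |c * a + w * vx| ≤ 1 * |a| + |w| * K := by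
        refine (abs_add_le _ _).trans (add_le_add ?_ ?_)
        · rw [abs_mul]; gcongr
        · rw [abs_mul]; gcongr
      gcongr
  set s := |a| + |b| + |w| with hs
  have ha0 := abs_nonneg a
  have hb0 := abs_nonneg b
  have hw0 := abs_nonneg w
  have h5 : |2 * (vx * a) + (2 * e) * (k * (yx * b)) + w * (vv + e * (ky * yx) + e * (k * yy))| ≤
      10 * K * s := by
    refine (abs_add_le _ _).trans ?_
    refine (add_le_add (abs_add_le _ _) le_rfl).trans ?_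
    nlinarith [mul_nonneg hK ha0, mul_nonneg hK hb0, mul_nonneg hK hw0]
  have h6 : |P * (c * b + w * yx) + B * (c * a + w * vx)| ≤ (2 + 3 * K) * s := by
    refine h4.trans ?_
    nlinarith [mul_nonneg hK ha0, mul_nonneg hK hb0, mul_nonneg hK hw0]
  have hs0 : 0 ≤ s := by positivity
  refine (le_abs_self _).trans ?_
  rw [abs_mul]
  have h7 := mul_le_mul h5 h6 (abs_nonneg _) (by positivity)
  refine h7.trans ?_
  have h8 : s ^ 2 ≤ 3 * (a ^ 2 + b ^ 2 + w ^ 2) := by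
    rw [hs, ← sq_abs a, ← sq_abs b, ← sq_abs w]
    nlinarith [sq_nonneg (|a| - |b|), sq_nonneg (|b| - |w|), sq_nonneg (|a| - |w|)]
  calc 10 * K * s * ((2 + 3 * K) * s) = 10 * K * (2 + 3 * K) * s ^ 2 := by ring
    _ ≤ 10 * K * (2 + 3 * K) * (3 * (a ^ 2 + b ^ 2 + w ^ 2)) := by gcongr
    _ = 30 * K * (2 + 3 * K) * (a ^ 2 + b ^ 2 + w ^ 2) := by ring

private theorem t09_int_add (f g h : Sm) (hf : Integrable (fun p => f p))
    (hg : Integrable (fun p => g p)) (hh : ∀ p, h p = f p + g p) :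
    ∫ p, h p = (∫ p, f p) + ∫ p, g p := by
  have h1 := integral_add hf hg
  refine Eq.trans ?_ h1
  exact integral_congr_ae (Filter.Eventually.of_forall fun p => hh p)

private theorem t09_int_mono (f g : Sm) (hf : Integrable (fun p => f p))
    (hg : Integrable (fun p => g p)) (h : ∀ p, f p ≤ g p) : ∫ p, f p ≤ ∫ p, g p :=
  integral_mono hf hg h

private theorem t09_setint_le (f : Sm) (U : Set (ℝ × ℝ)) (hf : Integrable (fun p => f p))
    (h0 : ∀ p, 0 ≤ f p) : ∫ p in U, f p ≤ ∫ p, f p :=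
  setIntegral_le_integral hf (Filter.Eventually.of_forall h0)

private theorem t09_setint_congr (f g : Sm) (U : Set (ℝ × ℝ)) (hU : MeasurableSet U)
    (h : ∀ p ∈ U, f p = g p) : ∫ p in U, f p = ∫ p in U, g p :=
  setIntegral_congr_fun hU h

private theorem t09_setint_mono (f g : Sm) (c : ℝ) (A : Set (ℝ × ℝ)) (hA : MeasurableSet A)
    (hf : IntegrableOn (fun p => f p) A) (hg : IntegrableOn (fun p => g p) A)
    (h : ∀ p ∈ A, f p ≤ c * g p) : ∫ p in A, f p ≤ c * ∫ p in A, g p := by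
  have h1 : ∫ p in A, f p ≤ ∫ p in A, c * g p :=
    setIntegral_mono_on hf (hg.const_mul c) hA h
  have h2 : ∫ p in A, c * g p = c * ∫ p in A, g p := integral_const_mul c _
  exact h1.trans h2.le

private theorem t09_setint_off (f : Sm) (A : Set (ℝ × ℝ)) (h : ∀ p, p ∉ A → f p = 0) :
    ∫ p, f p = ∫ p in A, f p :=
  (setIntegral_eq_integral_of_forall_compl_eq_zero h).symm

private theorem t09_reg (x Q k kQ σ : ℝ) (hx : |x| ≤ 1.3) (hQ : |Q| ≤ 1.3)
    (hk : |k - (x ^ 2 + Q ^ 2 - 1)| ≤ 1/100) (hkQ : |kQ - 2 * Q| ≤ 1/100)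
    (hσ : 0 < σ) (hσ1 : σ ≤ 1/100) : |k| ≤ 5 ∧ |kQ| ≤ 3 ∧ |rho σ x| ≤ 0.02 := by
  have hx2 : x ^ 2 ≤ 1.69 := by
    rw [← sq_abs]; have := abs_nonneg x; nlinarith
  have hQ2 : Q ^ 2 ≤ 1.69 := by
    rw [← sq_abs]; have := abs_nonneg Q; nlinarith
  have hx0 := sq_nonneg x
  have hQ0 := sq_nonneg Q
  have hQl := abs_le.1 hQ
  have h1 := abs_le.1 hk
  have h2 := abs_le.1 hkQ
  refine ⟨abs_le.2 ⟨by linarith, by linarith⟩, abs_le.2 ⟨by linarith, by linarith⟩, ?_⟩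
  unfold rho
  rw [abs_le]
  constructor <;> nlinarith

private theorem t09_lens (σ x Q : ℝ) (hσ : 0 < σ) (hx : |x| ≤ 1/16) (hQ : |Q| ≤ 3 * σ / 256) :
    |Q| ≤ rho σ x ∧ x ^ 2 ≤ 1/32 := by
  have hx2 : x ^ 2 ≤ 1 / 256 := by
    rw [← sq_abs]
    have := abs_nonneg x
    nlinarith
  refine ⟨hQ.trans ?_, by linarith⟩
  unfold rho
  nlinarith

/-- STEP 1 with cutoffs: apply `step1_est` and `step1_poincare` to `d.Cut 1.2 1.3 1.2 1.3 * w`.
On the set where `d.L e k w ≠ 0` the multiplier vanishes (`psi_lens`, `bet_zero`), and the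
commutator (`L_mul`) is supported in `XQc d 1.3 \ XQ d 1.2` with universal constants. -/
theorem S1 : ∃ C : ℝ, 0 < C ∧ ∀ (d : VY) (e : ℝ) (k w : Sm), 0 < e → e ≤ 1/100 →
    IsCompact (XQc d 1.3) →
    (∀ p ∈ XQc d 1.3, Kclose d k p) →
    (∀ p ∈ XQc d 1.3, d.L e k w p ≠ 0 → |d.x p| ≤ 1/16 ∧ |d.Q p| ≤ 3 * (√e/10) / 256) →
    ∫ p in XQ d 1.2, (d.mu * (d.PsiQ (√e/10) * ((d.V w) ^ 2 + e • (d.Y w) ^ 2 + w ^ 2)) : Sm) p
      ≤ C * ∫ p in XQc d 1.3 \ XQ d 1.2, (d.mu * ((d.V w) ^ 2 + (d.Y w) ^ 2 + w ^ 2) : Sm) p := by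
  obtain ⟨C0, hC0, hct⟩ := ct_deriv_bound
  set K : ℝ := 28 * C0 with hK
  have hK0 : 0 < K := by positivity
  have hd1 : ∀ r : ℝ, |deriv (ct 1.2 1.3) r| ≤ K := fun r => by
    refine (hct 1.2 1.3 (by norm_num) (by norm_num) (by norm_num) r).1.trans ?_
    rw [div_le_iff₀ (by norm_num), hK]
    nlinarith
  have hd2 : ∀ r : ℝ, |deriv (deriv (ct 1.2 1.3)) r| ≤ K := fun r => by
    refine (hct 1.2 1.3 (by norm_num) (by norm_num) (by norm_num) r).2.trans ?_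
    rw [div_le_iff₀ (by norm_num), hK]
    nlinarith
  refine ⟨360 * (30 * K * (2 + 3 * K)), by positivity, ?_⟩
  intro d e k w he he1 hcomp hKc hL
  have hsqrt0 : 0 < √e := Real.sqrt_pos.2 he
  have hsqrt1 : √e ≤ 1 / 10 := by
    rw [show (1:ℝ)/10 = √(1/100) by
      rw [show (1:ℝ)/100 = (1/10)^2 by norm_num, Real.sqrt_sq (by norm_num)]]
    exact Real.sqrt_le_sqrt he1
  set σ : ℝ := √e / 10 with hσdef
  have hσ : 0 < σ := by positivity
  have hσ1 : σ ≤ 1 / 100 := by rw [hσdef]; linarith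
  -- the cutoff
  set cx : Sm := cmp (ct 1.2 1.3) ct_contDiff d.x with hcx
  set cQ : Sm := cmp (ct 1.2 1.3) ct_contDiff d.Q with hcQ
  have hχ : d.Cut 1.2 1.3 1.2 1.3 = cx * cQ := rfl
  set χ : Sm := cx * cQ with hχdef
  set u : Sm := χ * w with hu
  have hopen := t09_XQ_open d 1.2
  have hclosed := t09_XQc_closed d 1.3
  have hχ0 : ∀ p, p ∉ XQc d 1.3 → χ p = 0 := by
    intro p hp
    have hp' : 1.3 < |d.x p| ∨ 1.3 < |d.Q p| := by
      by_contra hcon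
      push Not at hcon
      exact hp hcon
    rw [hχdef, mul_ap, hcx, hcQ, cmp_ap, cmp_ap]
    rcases hp' with h | h
    · rw [ct_zero (by norm_num) (by norm_num) h.le, zero_mul]
    · rw [ct_zero (by norm_num) (by norm_num) h.le, mul_zero]
  have hχ1 : ∀ p, p ∈ XQ d 1.2 → χ p = 1 := by
    intro p hp
    rw [hχdef, mul_ap, hcx, hcQ, cmp_ap, cmp_ap, ct_one (by norm_num) (by norm_num) hp.1.le,
      ct_one (by norm_num) (by norm_num) hp.2.le, one_mul]
  have hχabs : ∀ p, |χ p| ≤ 1 := by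
    intro p
    rw [hχdef, mul_ap, hcx, hcQ, cmp_ap, cmp_ap, abs_mul]
    have h1 : |ct 1.2 1.3 (d.x p)| ≤ 1 := abs_le.2 ⟨by linarith [ct_nonneg 1.2 1.3 (d.x p)],
      ct_le_one _ _ _⟩
    have h2 : |ct 1.2 1.3 (d.Q p)| ≤ 1 := abs_le.2 ⟨by linarith [ct_nonneg 1.2 1.3 (d.Q p)],
      ct_le_one _ _ _⟩
    exact mul_le_one₀ h1 (abs_nonneg _) h2
  have hcxabs : ∀ p, |cx p| ≤ 1 := fun p => abs_le.2
    ⟨by rw [hcx, cmp_ap]; linarith [ct_nonneg 1.2 1.3 (d.x p)], by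
      rw [hcx, cmp_ap]; exact ct_le_one _ _ _⟩
  have hcQabs : ∀ p, |cQ p| ≤ 1 := fun p => abs_le.2
    ⟨by rw [hcQ, cmp_ap]; linarith [ct_nonneg 1.2 1.3 (d.Q p)], by
      rw [hcQ, cmp_ap]; exact ct_le_one _ _ _⟩
  -- derivatives of the cutoff
  have hVcx : ∀ (g : ℝ → ℝ) (hg : ContDiff ℝ ∞ g), d.V (cmp g hg d.x) =
      cmp (deriv g) (contDiff_deriv hg) d.x := fun g hg => by
    change vf d.A11 d.A12 (cmp g hg d.x) = _
    rw [vf_cmp, d.Vx, mul_one]
  have hVcQ : ∀ (g : ℝ → ℝ) (hg : ContDiff ℝ ∞ g), d.V (cmp g hg d.Q) = 0 := fun g hg => by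
    change vf d.A11 d.A12 (cmp g hg d.Q) = _
    rw [vf_cmp, d.VQ, mul_zero]
  have hYcx : ∀ (g : ℝ → ℝ) (hg : ContDiff ℝ ∞ g), d.Y (cmp g hg d.x) = 0 := fun g hg => by
    change vf d.A21 d.A22 (cmp g hg d.x) = _
    rw [vf_cmp, d.Yx, mul_zero]
  have hYcQ : ∀ (g : ℝ → ℝ) (hg : ContDiff ℝ ∞ g), d.Y (cmp g hg d.Q) =
      cmp (deriv g) (contDiff_deriv hg) d.Q := fun g hg => by
    change vf d.A21 d.A22 (cmp g hg d.Q) = _
    rw [vf_cmp, d.YQ, mul_one]
  have hVχ : d.V χ = cQ * cmp (deriv (ct 1.2 1.3)) (contDiff_deriv ct_contDiff) d.x := by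
    rw [hχdef, Derivation.leibniz, hcx, hcQ, hVcx, hVcQ, smul_zero, zero_add, smul_eq_mul]
  have hYχ : d.Y χ = cx * cmp (deriv (ct 1.2 1.3)) (contDiff_deriv ct_contDiff) d.Q := by
    rw [hχdef, Derivation.leibniz, hcx, hcQ, hYcx, hYcQ, smul_zero, add_zero, smul_eq_mul]
  have hVVχ : d.V (d.V χ) = cQ * cmp (deriv (deriv (ct 1.2 1.3)))
      (contDiff_deriv (contDiff_deriv ct_contDiff)) d.x := by
    rw [hVχ, Derivation.leibniz, hcQ, hVcQ, hVcx, smul_zero, add_zero, smul_eq_mul]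
  have hYYχ : d.Y (d.Y χ) = cx * cmp (deriv (deriv (ct 1.2 1.3)))
      (contDiff_deriv (contDiff_deriv ct_contDiff)) d.Q := by
    rw [hYχ, Derivation.leibniz, hcx, hYcx, hYcQ, smul_zero, add_zero, smul_eq_mul]
  have bound_prod : ∀ a b : ℝ, |a| ≤ 1 → |b| ≤ K → |a * b| ≤ K := fun a b ha hb => by
    rw [abs_mul]
    calc |a| * |b| ≤ 1 * K := by gcongr
      _ = K := one_mul _
  have hVχb : ∀ p, |d.V χ p| ≤ K := fun p => by
    rw [hVχ, mul_ap]; exact bound_prod _ _ (hcQabs p) (hd1 _)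
  have hYχb : ∀ p, |d.Y χ p| ≤ K := fun p => by
    rw [hYχ, mul_ap]; exact bound_prod _ _ (hcxabs p) (hd1 _)
  have hVVχb : ∀ p, |d.V (d.V χ) p| ≤ K := fun p => by
    rw [hVVχ, mul_ap]; exact bound_prod _ _ (hcQabs p) (hd2 _)
  have hYYχb : ∀ p, |d.Y (d.Y χ) p| ≤ K := fun p => by
    rw [hYYχ, mul_ap]; exact bound_prod _ _ (hcxabs p) (hd2 _)
  -- congruence on open sets
  have hVcongr : ∀ (f g : Sm) (Ω : Set (ℝ × ℝ)), IsOpen Ω → (∀ p ∈ Ω, f p = g p) →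
      ∀ p ∈ Ω, d.V f p = d.V g p := fun f g Ω hΩ h => vf_congr_open _ _ f g Ω hΩ h
  have hYcongr : ∀ (f g : Sm) (Ω : Set (ℝ × ℝ)), IsOpen Ω → (∀ p ∈ Ω, f p = g p) →
      ∀ p ∈ Ω, d.Y f p = d.Y g p := fun f g Ω hΩ h => vf_congr_open _ _ f g Ω hΩ h
  -- off the closed box
  have hoff : IsOpen (XQc d 1.3)ᶜ := hclosed.isOpen_compl
  have hVχoff : ∀ p ∈ (XQc d 1.3)ᶜ, d.V χ p = 0 := by
    intro p hp
    have := hVcongr χ 0 _ hoff (fun q hq => by rw [hχ0 q hq]; rfl) p hp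
    rw [this, map_zero]; rfl
  have hYχoff : ∀ p ∈ (XQc d 1.3)ᶜ, d.Y χ p = 0 := by
    intro p hp
    have := hYcongr χ 0 _ hoff (fun q hq => by rw [hχ0 q hq]; rfl) p hp
    rw [this, map_zero]; rfl
  have hVVχoff : ∀ p ∈ (XQc d 1.3)ᶜ, d.V (d.V χ) p = 0 := by
    intro p hp
    have := hVcongr (d.V χ) 0 _ hoff (fun q hq => by rw [hVχoff q hq]; rfl) p hp
    rw [this, map_zero]; rfl
  have hYYχoff : ∀ p ∈ (XQc d 1.3)ᶜ, d.Y (d.Y χ) p = 0 := by
    intro p hp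
    have := hYcongr (d.Y χ) 0 _ hoff (fun q hq => by rw [hYχoff q hq]; rfl) p hp
    rw [this, map_zero]; rfl
  -- on the inner box
  have hVχin : ∀ p ∈ XQ d 1.2, d.V χ p = 0 := by
    intro p hp
    have := hVcongr χ 1 _ hopen (fun q hq => by rw [hχ1 q hq]; rfl) p hp
    rw [this, Derivation.map_one_eq_zero]; rfl
  have hYχin : ∀ p ∈ XQ d 1.2, d.Y χ p = 0 := by
    intro p hp
    have := hYcongr χ 1 _ hopen (fun q hq => by rw [hχ1 q hq]; rfl) p hp
    rw [this, Derivation.map_one_eq_zero]; rfl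
  have hVVχin : ∀ p ∈ XQ d 1.2, d.V (d.V χ) p = 0 := by
    intro p hp
    have := hVcongr (d.V χ) 0 _ hopen (fun q hq => by rw [hVχin q hq]; rfl) p hp
    rw [this, map_zero]; rfl
  have hYYχin : ∀ p ∈ XQ d 1.2, d.Y (d.Y χ) p = 0 := by
    intro p hp
    have := hYcongr (d.Y χ) 0 _ hopen (fun q hq => by rw [hYχin q hq]; rfl) p hp
    rw [this, map_zero]; rfl
  have huin : ∀ p ∈ XQ d 1.2, u p = w p := by
    intro p hp; rw [hu, mul_ap, hχ1 p hp, one_mul]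
  have hVuin : ∀ p ∈ XQ d 1.2, d.V u p = d.V w p := hVcongr u w _ hopen huin
  have hYuin : ∀ p ∈ XQ d 1.2, d.Y u p = d.Y w p := hYcongr u w _ hopen huin
  -- support of `u`
  have huoff : ∀ p ∈ (XQc d 1.3)ᶜ, u p = 0 := fun p hp => by
    rw [hu, mul_ap, hχ0 p hp, zero_mul]
  have hVuoff : ∀ p ∈ (XQc d 1.3)ᶜ, d.V u p = 0 := by
    intro p hp
    have := hVcongr u 0 _ hoff (fun q hq => by rw [huoff q hq]; rfl) p hp
    rw [this, map_zero]; rfl
  have hYuoff : ∀ p ∈ (XQc d 1.3)ᶜ, d.Y u p = 0 := by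
    intro p hp
    have := hYcongr u 0 _ hoff (fun q hq => by rw [huoff q hq]; rfl) p hp
    rw [this, map_zero]; rfl
  have hcpt : ∀ f : Sm, (∀ p ∈ (XQc d 1.3)ᶜ, f p = 0) → HasCompactSupport (f : ℝ × ℝ → ℝ) := by
    intro f hf
    refine HasCompactSupport.intro hcomp (fun p hp => hf p hp)
  have hucpt : HasCompactSupport (u : ℝ × ℝ → ℝ) := hcpt u huoff
  have husupp : tsupport (u : ℝ × ℝ → ℝ) ⊆ XQc d 1.3 := by
    refine closure_minimal (fun p hp => ?_) hclosed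
    by_contra hcon
    exact hp (huoff p hcon)
  have hest := step1_est d e he he1 k u hucpt (fun p hp => by
    have := husupp hp
    exact ⟨this.1.trans (by norm_num), this.2.trans (by norm_num), hKc p this⟩)
  have hpoin := step1_poincare d σ hσ u hucpt (fun p hp => by
    have := husupp hp
    exact this.1.trans (by norm_num))
  -- integrability
  have hint1 : Integrable (fun p => (d.mu * (d.PsiQ σ * ((d.V u) ^ 2 + e • (d.Y u) ^ 2)) : Sm) p) :=
    int_of_cpt _ (hcpt _ (fun p hp => by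
      simp only [mul_ap, add_ap, pow_ap, smul_ap, hVuoff p hp, hYuoff p hp]; ring))
  have hint2 : Integrable (fun p => (d.mu * (d.PsiQ σ * u ^ 2) : Sm) p) :=
    int_of_cpt _ (hcpt _ (fun p hp => by
      simp only [mul_ap, add_ap, pow_ap, smul_ap, huoff p hp]; ring))
  have hint3 : Integrable (fun p => (d.mu * (d.PsiQ σ * (d.V u) ^ 2) : Sm) p) :=
    int_of_cpt _ (hcpt _ (fun p hp => by
      simp only [mul_ap, add_ap, pow_ap, smul_ap, hVuoff p hp]; ring))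
  have hint4 : Integrable (fun p => (d.mu * (d.PsiQ σ * ((d.V u) ^ 2 + e • (d.Y u) ^ 2 + u ^ 2)) :
      Sm) p) :=
    int_of_cpt _ (hcpt _ (fun p hp => by
      simp only [mul_ap, add_ap, pow_ap, smul_ap, hVuoff p hp, hYuoff p hp, huoff p hp]; ring))
  have hPQ : ∀ p, 0 ≤ d.PsiQ σ p := fun p => by rw [VY.PsiQ_ap]; exact psiQ_nonneg _ _ _
  -- total energy of `u`
  rw [← hσdef] at hest
  have hE1 : ∫ p, (d.mu * (d.PsiQ σ * ((d.V u) ^ 2 + e • (d.Y u) ^ 2 + u ^ 2)) : Sm) p ≤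
      9 * ∫ p, (d.mu * (d.PsiQ σ * ((d.V u) ^ 2 + e • (d.Y u) ^ 2)) : Sm) p := by
    have h1 := t09_int_add (d.mu * (d.PsiQ σ * ((d.V u) ^ 2 + e • (d.Y u) ^ 2)))
      (d.mu * (d.PsiQ σ * u ^ 2)) (d.mu * (d.PsiQ σ * ((d.V u) ^ 2 + e • (d.Y u) ^ 2 + u ^ 2)))
      hint1 hint2 (fun p => by
        simp only [mul_ap, add_ap, pow_ap, smul_ap]
        ring)
    have h2 := t09_int_mono (d.mu * (d.PsiQ σ * (d.V u) ^ 2))
      (d.mu * (d.PsiQ σ * ((d.V u) ^ 2 + e • (d.Y u) ^ 2))) hint3 hint1 (fun p => by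
        simp only [mul_ap, add_ap, pow_ap, smul_ap]
        have := (d.mupos p).le
        have h3 := hPQ p
        gcongr
        nlinarith [sq_nonneg (d.Y u p)])
    linarith only [h1, h2, hpoin]
  -- lower bound for the total energy
  have hE0 : ∫ p in XQ d 1.2, (d.mu * (d.PsiQ σ * ((d.V w) ^ 2 + e • (d.Y w) ^ 2 + w ^ 2)) : Sm) p
      ≤ ∫ p, (d.mu * (d.PsiQ σ * ((d.V u) ^ 2 + e • (d.Y u) ^ 2 + u ^ 2)) : Sm) p := by
    have h1 := t09_setint_congr (d.mu * (d.PsiQ σ * ((d.V w) ^ 2 + e • (d.Y w) ^ 2 + w ^ 2)))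
      (d.mu * (d.PsiQ σ * ((d.V u) ^ 2 + e • (d.Y u) ^ 2 + u ^ 2))) (XQ d 1.2)
      hopen.measurableSet (fun p hp => by
        simp only [mul_ap, add_ap, pow_ap, smul_ap, hVuin p hp, hYuin p hp, huin p hp])
    rw [h1]
    refine t09_setint_le _ _ hint4 (fun p => ?_)
    simp only [mul_ap, add_ap, pow_ap, smul_ap]
    have := (d.mupos p).le
    have h3 := hPQ p
    positivity
  -- the right-hand side
  set A : Set (ℝ × ℝ) := XQc d 1.3 \ XQ d 1.2 with hA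
  have hAm : MeasurableSet A := hclosed.measurableSet.diff hopen.measurableSet
  have hrhs : ∫ p, (d.mu * (d.L e k u * (d.Psi σ * d.Y u + d.Bet * d.V u)) : Sm) p =
      ∫ p in A, (d.mu * (d.L e k u * (d.Psi σ * d.Y u + d.Bet * d.V u)) : Sm) p := by
    refine t09_setint_off _ _ (fun p hpA => ?_)
    simp only [mul_ap, add_ap]
    by_cases hpK : p ∈ XQc d 1.3
    · have hpin : p ∈ XQ d 1.2 := by
        by_contra hcon
        exact hpA ⟨hpK, hcon⟩
      have hLu : d.L e k u p = d.L e k w p := by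
        rw [hu, VY.L_mul]
        simp only [mul_ap, add_ap, smul_ap, hVχin p hpin, hYχin p hpin, hVVχin p hpin,
          hYYχin p hpin, hχ1 p hpin]
        ring
      by_cases hz : d.L e k w p = 0
      · rw [hLu, hz]; ring
      · obtain ⟨hx, hQ⟩ := hL p hpK hz
        obtain ⟨hl1, hl2⟩ := t09_lens σ _ _ hσ hx hQ
        have h1 : d.Psi σ p = 0 := by
          rw [VY.Psi_ap]
          exact psi_lens hσ hl1
        have h2 : d.Bet p = 0 := by
          rw [VY.Bet_ap]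
          exact bet_zero hl2
        rw [h1, h2]; ring
    · rw [hVuoff p hpK, hYuoff p hpK]; ring
  have hptw : ∀ p ∈ A, (d.mu * (d.L e k u * (d.Psi σ * d.Y u + d.Bet * d.V u)) : Sm) p ≤
      (30 * K * (2 + 3 * K)) * (d.mu * ((d.V w) ^ 2 + (d.Y w) ^ 2 + w ^ 2) : Sm) p := by
    intro p hp
    have hpK : p ∈ XQc d 1.3 := hp.1
    obtain ⟨hk1, hk2, hk3⟩ := hKc p hpK
    have hxb : |d.x p| ≤ 1.3 := hpK.1
    have hQb : |d.Q p| ≤ 1.3 := hpK.2
    obtain ⟨hka, hkY, hrho⟩ := t09_reg (d.x p) (d.Q p) (k p) (d.Y k p) σ hxb hQb hk1 hk3 hσ hσ1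
    have hPa : |d.Psi σ p| ≤ 2 := by
      rw [VY.Psi_ap]
      refine (psi_abs_le hσ).trans ?_
      linarith only [hQb, hrho]
    have hBa : |d.Bet p| ≤ 1 := by
      rw [VY.Bet_ap]
      refine (bet_abs_le _).trans ?_
      linarith only [hxb]
    have hAe := t09_ptw K (d.V w p) (d.Y w p) (w p) (d.V χ p) (d.Y χ p) (d.V (d.V χ) p)
      (d.Y (d.Y χ) p) (k p) (d.Y k p) (d.Psi σ p) (d.Bet p) (χ p) e hK0.le (hVχb p) (hYχb p)
      (hVVχb p) (hYYχb p) hka hkY hPa hBa (hχabs p) he.le (by linarith)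
    -- the part with `χ L w` vanishes
    have hχL : χ p * d.L e k w p * (d.Psi σ p * d.Y u p + d.Bet p * d.V u p) = 0 := by
      by_cases hz : d.L e k w p = 0
      · rw [hz]; ring
      · obtain ⟨hx, hQ⟩ := hL p hpK hz
        obtain ⟨hl1, hl2⟩ := t09_lens σ _ _ hσ hx hQ
        have h1 : d.Psi σ p = 0 := by
          rw [VY.Psi_ap]
          exact psi_lens hσ hl1
        have h2 : d.Bet p = 0 := by
          rw [VY.Bet_ap]
          exact bet_zero hl2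
        rw [h1, h2]; ring
    have hVu : d.V u p = χ p * d.V w p + w p * d.V χ p := by
      rw [hu, Derivation.leibniz]
      simp only [smul_eq_mul, add_ap, mul_ap]
    have hYu : d.Y u p = χ p * d.Y w p + w p * d.Y χ p := by
      rw [hu, Derivation.leibniz]
      simp only [smul_eq_mul, add_ap, mul_ap]
    have hLu : d.L e k u p = χ p * d.L e k w p +
        (2 * (d.V χ p * d.V w p) + (2 * e) * (k p * (d.Y χ p * d.Y w p)) +
          w p * (d.V (d.V χ) p + e * (d.Y k p * d.Y χ p) + e * (k p * d.Y (d.Y χ) p))) := by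
      rw [hu, VY.L_mul]
      have h2 : (2 : Sm) = (2 : ℝ) • (1 : Sm) := by
        apply sm_ext; intro q
        rw [smul_ap, one_ap, mul_one]
        rfl
      rw [h2]
      simp only [mul_ap, add_ap, smul_ap, one_ap]
      ring
    have hmain : d.L e k u p * (d.Psi σ p * d.Y u p + d.Bet p * d.V u p) ≤
        30 * K * (2 + 3 * K) * ((d.V w p) ^ 2 + (d.Y w p) ^ 2 + (w p) ^ 2) := by
      have : d.L e k u p * (d.Psi σ p * d.Y u p + d.Bet p * d.V u p) =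
          χ p * d.L e k w p * (d.Psi σ p * d.Y u p + d.Bet p * d.V u p) +
          (2 * (d.V χ p * d.V w p) + (2 * e) * (k p * (d.Y χ p * d.Y w p)) +
          w p * (d.V (d.V χ) p + e * (d.Y k p * d.Y χ p) + e * (k p * d.Y (d.Y χ) p))) *
          (d.Psi σ p * (χ p * d.Y w p + w p * d.Y χ p) +
            d.Bet p * (χ p * d.V w p + w p * d.V χ p)) := by
        rw [hLu, hVu, hYu]; ring
      rw [this, hχL, zero_add]
      exact hAe
    simp only [mul_ap, add_ap, pow_ap]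
    have hmu := (d.mupos p).le
    calc d.mu p * (d.L e k u p * (d.Psi σ p * d.Y u p + d.Bet p * d.V u p)) ≤
        d.mu p * (30 * K * (2 + 3 * K) * ((d.V w p) ^ 2 + (d.Y w p) ^ 2 + (w p) ^ 2)) := by
          gcongr
      _ = _ := by ring
  have hintA : ∀ f : Sm, IntegrableOn (fun p => f p) A := fun f =>
    ((t09_cont f).continuousOn.integrableOn_compact hcomp).mono_set Set.diff_subset
  have hfin : ∫ p in A, (d.mu * (d.L e k u * (d.Psi σ * d.Y u + d.Bet * d.V u)) : Sm) p ≤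
      (30 * K * (2 + 3 * K)) * ∫ p in A, (d.mu * ((d.V w) ^ 2 + (d.Y w) ^ 2 + w ^ 2) : Sm) p := by
    exact t09_setint_mono _ _ _ A hAm (hintA _) (hintA _) hptw
  rw [hrhs] at hest
  linarith only [hE0, hE1, hest, hfin]

end NI
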