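import Crest.Agent.NI_T08

set_option autoImplicit false
open scoped ContDiff
open MeasureTheory

namespace NI

/-- inner lens box -/
def Lens1 (d : VY) (e : ℝ) : Set (ℝ × ℝ) := {p | |d.x p| < 0.2 ∧ |d.Q p| < √e/10/32}
/-- outer lens box -/
def Lens2 (d : VY) (e : ℝ) : Set (ℝ × ℝ) := {p | |d.x p| ≤ 1/4 ∧ |d.Q p| ≤ √e/10/16}

namespace T10


noncomputable def bp (r t : ℝ) : ℝ := SS ((t ^ 2 - 4 * r ^ 2) / (4 * r ^ 2))
noncomputable def bq (r t : ℝ) : ℝ := ∫ τ in (0:ℝ)..t, bp r τ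

theorem bp_contDiff (r : ℝ) : ContDiff ℝ ∞ (bp r) := by
  unfold bp
  exact SS_contDiff.comp (((contDiff_id.pow 2).sub contDiff_const).div_const _)

theorem bq_hasDeriv (r t : ℝ) : HasDerivAt (bq r) (bp r t) t := by
  have hc : Continuous (bp r) := (bp_contDiff r).continuous
  exact intervalIntegral.integral_hasDerivAt_right (hc.intervalIntegrable _ _)
    (hc.stronglyMeasurableAtFilter _ _) hc.continuousAt

theorem bq_deriv (r : ℝ) : deriv (bq r) = bp r := funext fun t => (bq_hasDeriv r t).deriv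

theorem bq_contDiff (r : ℝ) : ContDiff ℝ ∞ (bq r) := by
  rw [contDiff_infty_iff_deriv]
  refine ⟨fun t => (bq_hasDeriv r t).differentiableAt, ?_⟩
  rw [bq_deriv]; exact bp_contDiff r

theorem bp_nonneg (r t : ℝ) : 0 ≤ bp r t := SS_nonneg _
theorem bp_le_one (r t : ℝ) : bp r t ≤ 1 := SS_le_one _

theorem bp_zero {r t : ℝ} (hr : 0 < r) (h : t ^ 2 ≤ 4 * r ^ 2) : bp r t = 0 := by
  apply SS_zero
  apply div_nonpos_of_nonpos_of_nonneg <;> nlinarith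

theorem bp_one {r t : ℝ} (hr : 0 < r) (h : 9 * r ^ 2 ≤ t ^ 2) : bp r t = 1 := by
  apply SS_one
  rw [le_div_iff₀ (by positivity)]
  nlinarith

theorem bp_mono {r u t : ℝ} (hr : 0 < r) (h : u ^ 2 ≤ t ^ 2) : bp r u ≤ bp r t := by
  apply SS_mono
  apply div_le_div_of_nonneg_right _ (by positivity)
  linarith

theorem bq_abs_le {r : ℝ} (hr : 0 < r) (t : ℝ) : |bq r t| ≤ |t| * bp r t := by
  have h := intervalIntegral.norm_integral_le_of_norm_le_const (a := (0:ℝ)) (b := t)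
    (f := bp r) (C := bp r t) (by
      intro u hu
      rw [Real.norm_eq_abs, abs_of_nonneg (bp_nonneg r u)]
      apply bp_mono hr
      rw [sq_le_sq]
      rcases le_total 0 t with h0 | h0
      · rw [Set.uIoc_of_le h0] at hu
        rw [abs_of_pos hu.1, abs_of_nonneg h0]; exact hu.2
      · rw [Set.uIoc_of_ge h0] at hu
        rw [abs_of_nonpos hu.2, abs_of_nonpos h0]; linarith [hu.1])
  rw [Real.norm_eq_abs, sub_zero] at h
  unfold bq
  linarith [mul_comm (bp r t) |t|]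

theorem bpd_nonneg {r : ℝ} (t : ℝ) : 0 ≤ t * deriv (bp r) t := by
  have h1 : HasDerivAt (fun t : ℝ => (t ^ 2 - 4 * r ^ 2) / (4 * r ^ 2)) ((2 * t) / (4 * r ^ 2)) t := by
    have := ((hasDerivAt_pow 2 t).sub_const (4 * r ^ 2)).div_const (4 * r ^ 2)
    simpa using this
  have h2 : HasDerivAt SS (deriv SS ((t ^ 2 - 4 * r ^ 2) / (4 * r ^ 2))) ((t ^ 2 - 4 * r ^ 2) / (4 * r ^ 2)) :=
    ((SS_contDiff.differentiable (by simp)) _).hasDerivAt
  have h3 : HasDerivAt (bp r) (deriv SS ((t ^ 2 - 4 * r ^ 2) / (4 * r ^ 2)) * ((2 * t) / (4 * r ^ 2))) t :=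
    h2.comp t h1
  rw [h3.deriv]
  have h4 : 0 ≤ deriv SS ((t ^ 2 - 4 * r ^ 2) / (4 * r ^ 2)) := SS_mono.deriv_nonneg
  have : t * (deriv SS ((t ^ 2 - 4 * r ^ 2) / (4 * r ^ 2)) * (2 * t / (4 * r ^ 2)))
      = deriv SS ((t ^ 2 - 4 * r ^ 2) / (4 * r ^ 2)) * (2 * t ^ 2 / (4 * r ^ 2)) := by ring
  rw [this]
  positivity

theorem ct_d_zero {a b r : ℝ} (ha : 0 ≤ a) (hab : a < b) (hr : |r| < a) :
    deriv (ct a b) r = 0 ∧ deriv (deriv (ct a b)) r = 0 := by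
  have hopen : IsOpen {t : ℝ | |t| < a} := isOpen_lt continuous_abs continuous_const
  have h1 : ∀ t : ℝ, |t| < a → deriv (ct a b) t = 0 := by
    intro t ht
    have : ct a b =ᶠ[nhds t] fun _ => 1 := by
      filter_upwards [hopen.mem_nhds ht] with u hu
      exact ct_one ha hab (le_of_lt hu)
    rw [this.deriv_eq]; simp
  refine ⟨h1 r hr, ?_⟩
  have : deriv (ct a b) =ᶠ[nhds r] fun _ => 0 := by
    filter_upwards [hopen.mem_nhds hr] with u hu
    exact h1 u hu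
  rw [this.deriv_eq]; simp



theorem V_Cut (d : VY) (a b a' b' : ℝ) :
    d.V (d.Cut a b a' b') = cmp (deriv (ct a b)) (contDiff_deriv ct_contDiff) d.x
      * cmp (ct a' b') ct_contDiff d.Q := by
  apply sm_ext; intro p
  have h : d.V (d.Cut a b a' b') = cmp (ct a b) ct_contDiff d.x * d.V (cmp (ct a' b') ct_contDiff d.Q)
      + cmp (ct a' b') ct_contDiff d.Q * d.V (cmp (ct a b) ct_contDiff d.x) := by
    unfold VY.Cut; rw [Derivation.leibniz]; rfl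
  rw [h, add_ap, mul_ap, mul_ap, VY.V_cmp_x, VY.V_cmp_Q]
  simp; ring

theorem Y_Cut (d : VY) (a b a' b' : ℝ) :
    d.Y (d.Cut a b a' b') = cmp (ct a b) ct_contDiff d.x
      * cmp (deriv (ct a' b')) (contDiff_deriv ct_contDiff) d.Q := by
  apply sm_ext; intro p
  have h : d.Y (d.Cut a b a' b') = cmp (ct a b) ct_contDiff d.x * d.Y (cmp (ct a' b') ct_contDiff d.Q)
      + cmp (ct a' b') ct_contDiff d.Q * d.Y (cmp (ct a b) ct_contDiff d.x) := by
    unfold VY.Cut; rw [Derivation.leibniz]; rfl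
  rw [h, add_ap, mul_ap, mul_ap, VY.Y_cmp_x, VY.Y_cmp_Q]
  simp

theorem VV_Cut (d : VY) (a b a' b' : ℝ) (p : ℝ × ℝ) :
    d.V (d.V (d.Cut a b a' b')) p = deriv (deriv (ct a b)) (d.x p) * ct a' b' (d.Q p) := by
  rw [V_Cut, Derivation.leibniz]
  simp only [smul_eq_mul, add_ap, mul_ap, VY.V_cmp_x, VY.V_cmp_Q, cmp_ap]
  ring

theorem YY_Cut (d : VY) (a b a' b' : ℝ) (p : ℝ × ℝ) :
    d.Y (d.Y (d.Cut a b a' b')) p = ct a b (d.x p) * deriv (deriv (ct a' b')) (d.Q p) := by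
  rw [Y_Cut, Derivation.leibniz]
  simp only [smul_eq_mul, add_ap, mul_ap, VY.Y_cmp_x, VY.Y_cmp_Q, cmp_ap]
  ring

theorem V_Xs (d : VY) : d.V Xs = d.A11 := by
  apply sm_ext; intro p
  show vf d.A11 d.A12 Xs p = d.A11 p
  rw [vf_def, add_ap, mul_ap, mul_ap, D1_ap, D2_ap]
  have : (Xs : ℝ × ℝ → ℝ) = Prod.fst := rfl
  rw [this, fderiv_fst]; simp

theorem Y_Xs (d : VY) : d.Y Xs = d.A21 := by
  apply sm_ext; intro p
  show vf d.A21 d.A22 Xs p = d.A21 p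
  rw [vf_def, add_ap, mul_ap, mul_ap, D1_ap, D2_ap]
  have : (Xs : ℝ × ℝ → ℝ) = Prod.fst := rfl
  rw [this, fderiv_fst]; simp

/-- real inequality: bound of the commutator -/
theorem comm_real (C0 : ℝ) (hC0 : 0 < C0) (e : ℝ) (he : 0 < e) (he1 : e ≤ 1/100)
    (k kY gV gY gVV gYY v y w : ℝ) (hk : |k| ≤ 1.01) (hkY : |kY| ≤ 1/50)
    (hgV : |gV| ≤ 12 * C0) (hgY : |gY| ≤ 220 * C0 / √e) (hgVV : |gVV| ≤ 124 * C0)
    (hgYY : |gYY| ≤ 45600 * C0 / e) :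
    (2 * (gV * v) + 2 * e * (k * (gY * y)) + w * (gVV + e * (kY * gY) + e * (k * gYY))) ^ 2
      ≤ 3 * (50000 * C0) ^ 2 * (v ^ 2 + e * y ^ 2 + w ^ 2) := by
  have hs : 0 < √e := Real.sqrt_pos.2 he
  have hs2 : √e * √e = e := Real.mul_self_sqrt he.le
  have hs1 : √e ≤ 1/10 := by
    rw [Real.sqrt_le_left (by norm_num)]; linarith
  set t := √e with ht
  have a1 : |2 * (gV * v)| ≤ 24 * C0 * |v| := by
    rw [abs_mul, abs_mul]; norm_num
    nlinarith [abs_nonneg v]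
  have a2 : |2 * e * (k * (gY * y))| ≤ 445 * C0 * (t * |y|) := by
    have : |2 * e * (k * (gY * y))| = 2 * e * (|k| * (|gY| * |y|)) := by
      rw [abs_mul, abs_mul, abs_mul, abs_mul, abs_of_pos he]; norm_num
    rw [this]
    have h1 : |k| * (|gY| * |y|) ≤ 1.01 * (220 * C0 / t * |y|) := by
      gcongr
    have h2 : 2 * e * (1.01 * (220 * C0 / t * |y|)) = 2 * 1.01 * 220 * C0 * (t * |y|) := by
      rw [← hs2]; field_simp
    have h3 : 0 ≤ C0 * (t * |y|) := by positivity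
    calc 2 * e * (|k| * (|gY| * |y|)) ≤ 2 * e * (1.01 * (220 * C0 / t * |y|)) := by gcongr
      _ = 2 * 1.01 * 220 * C0 * (t * |y|) := h2
      _ ≤ 445 * C0 * (t * |y|) := by nlinarith
  have a3 : |gVV + e * (kY * gY) + e * (k * gYY)| ≤ 50000 * C0 := by
    have b1 : |e * (kY * gY)| ≤ C0 := by
      rw [abs_mul, abs_mul, abs_of_pos he]
      have h1 : |kY| * |gY| ≤ 1/50 * (220 * C0 / t) := by gcongr
      calc e * (|kY| * |gY|) ≤ e * (1/50 * (220 * C0 / t)) := by gcongr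
        _ = 1/50 * 220 * C0 * t := by rw [← hs2]; field_simp
        _ ≤ C0 := by nlinarith
    have b2 : |e * (k * gYY)| ≤ 1.01 * 45600 * C0 := by
      rw [abs_mul, abs_mul, abs_of_pos he]
      have h1 : |k| * |gYY| ≤ 1.01 * (45600 * C0 / e) := by gcongr
      calc e * (|k| * |gYY|) ≤ e * (1.01 * (45600 * C0 / e)) := by gcongr
        _ = 1.01 * 45600 * C0 := by field_simp
    calc |gVV + e * (kY * gY) + e * (k * gYY)| ≤ |gVV| + |e * (kY * gY)| + |e * (k * gYY)| :=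
          abs_add_three _ _ _
      _ ≤ 124 * C0 + C0 + 1.01 * 45600 * C0 := by linarith
      _ ≤ 50000 * C0 := by nlinarith
  set M := 50000 * C0 with hM
  have hM0 : 0 < M := by positivity
  have hA : |2 * (gV * v) + 2 * e * (k * (gY * y)) + w * (gVV + e * (kY * gY) + e * (k * gYY))|
      ≤ M * (|v| + t * |y| + |w|) := by
    have c3 : |w * (gVV + e * (kY * gY) + e * (k * gYY))| ≤ M * |w| := by
      rw [abs_mul, mul_comm]; gcongr
    have c1 : 24 * C0 * |v| ≤ M * |v| := by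
      have : 0 ≤ C0 * |v| := by positivity
      rw [hM]; nlinarith
    have c2 : 445 * C0 * (t * |y|) ≤ M * (t * |y|) := by
      have : 0 ≤ C0 * (t * |y|) := by positivity
      rw [hM]; nlinarith
    calc _ ≤ |2 * (gV * v)| + |2 * e * (k * (gY * y))| + |w * (gVV + e * (kY * gY) + e * (k * gYY))| :=
          abs_add_three _ _ _
      _ ≤ M * (|v| + t * |y| + |w|) := by linarith
  have hB := sq_le_sq' (by linarith [abs_nonneg (2 * (gV * v) + 2 * e * (k * (gY * y)) + w * (gVV + e * (kY * gY) + e * (k * gYY)))]) hA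
  rw [sq_abs] at hB
  refine hB.trans ?_
  have hy : (t * |y|) ^ 2 = e * y ^ 2 := by rw [mul_pow, sq_abs, sq t, hs2]
  have h4 : (|v| + t * |y| + |w|) ^ 2 ≤ 3 * (v ^ 2 + e * y ^ 2 + w ^ 2) := by
    rw [← hy, ← sq_abs v, ← sq_abs w]
    nlinarith [sq_nonneg (|v| - t * |y|), sq_nonneg (|v| - |w|), sq_nonneg (t * |y| - |w|)]
  calc (M * (|v| + t * |y| + |w|)) ^ 2 = M ^ 2 * (|v| + t * |y| + |w|) ^ 2 := by ring
    _ ≤ M ^ 2 * (3 * (v ^ 2 + e * y ^ 2 + w ^ 2)) := by gcongr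
    _ = 3 * M ^ 2 * (v ^ 2 + e * y ^ 2 + w ^ 2) := by ring

/-- facts on `k` on the lens -/
theorem k_facts (d : VY) (e : ℝ) (he : 0 < e) (he1 : e ≤ 1/100) (k : Sm) (p : ℝ × ℝ)
    (hp : p ∈ Lens2 d e) (hK : Kclose d k p) :
    k p ≤ -0.92 ∧ |k p| ≤ 1.01 ∧ |d.V k p| ≤ 0.51 ∧ |d.Y k p| ≤ 1/50 := by
  obtain ⟨hx, hQ⟩ := hp
  obtain ⟨h1, h2, h3⟩ := hK
  have hs : 0 < √e := Real.sqrt_pos.2 he
  have hs1 : √e ≤ 1/10 := by
    rw [Real.sqrt_le_left (by norm_num)]; linarith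
  have hQ' : |d.Q p| ≤ 1/1600 := by linarith
  have hx2 : (d.x p) ^ 2 ≤ 1/16 := by
    rw [← sq_abs]; nlinarith [abs_nonneg (d.x p)]
  have hQ2 : (d.Q p) ^ 2 ≤ 1/100000 := by
    rw [← sq_abs]; nlinarith [abs_nonneg (d.Q p)]
  rw [abs_le] at h1 h2 h3 hx hQ'
  refine ⟨by linarith, ?_, ?_, ?_⟩
  · rw [abs_le]; constructor <;> nlinarith [sq_nonneg (d.x p), sq_nonneg (d.Q p)]
  · rw [abs_le]; constructor <;> linarith
  · rw [abs_le]; constructor <;> linarith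

theorem num1 (C0 t : ℝ) (hC0 : 0 < C0) (ht : 0 < t) :
    C0 * (t/10/16) / ((t/10/16) ^ 2 - (t/10/32) ^ 2) ≤ 220 * C0 / t := by
  have h1 : (t/10/16) ^ 2 - (t/10/32) ^ 2 = 3 * t ^ 2 / 102400 := by ring
  rw [h1]
  have h2 : C0 * (t/10/16) / (3 * t ^ 2 / 102400) = (640/3) * C0 / t := by
    field_simp; norm_num
  rw [h2]
  apply div_le_div_of_nonneg_right _ ht.le
  nlinarith

theorem num2 (C0 t : ℝ) (hC0 : 0 < C0) (ht : 0 < t) :
    C0 * (t/10/16) ^ 2 / ((t/10/16) ^ 2 - (t/10/32) ^ 2) ^ 2 ≤ 45600 * C0 / (t * t) := by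
  have h1 : (t/10/16) ^ 2 - (t/10/32) ^ 2 = 3 * t ^ 2 / 102400 := by ring
  rw [h1]
  have h2 : C0 * (t/10/16) ^ 2 / (3 * t ^ 2 / 102400) ^ 2 = (409600/9) * C0 / (t * t) := by
    field_simp; norm_num
  rw [h2]
  apply div_le_div_of_nonneg_right _ (by positivity)
  nlinarith

theorem num3 (C0 : ℝ) (hC0 : 0 < C0) :
    C0 * 0.25 / (0.25 ^ 2 - 0.2 ^ 2) ≤ 12 * C0 := by norm_num; nlinarith

theorem num4 (C0 : ℝ) (hC0 : 0 < C0) :
    C0 * 0.25 ^ 2 / (0.25 ^ 2 - 0.2 ^ 2) ^ 2 ≤ 124 * C0 := by norm_num; nlinarith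

theorem comm_pt (C0 : ℝ) (hC0 : 0 < C0)
    (hct : ∀ a b : ℝ, 0 < a → a < b → b ≤ 2 * a → ∀ r : ℝ,
      |deriv (ct a b) r| ≤ C0 * b / (b ^ 2 - a ^ 2) ∧
      |deriv (deriv (ct a b)) r| ≤ C0 * b ^ 2 / (b ^ 2 - a ^ 2) ^ 2)
    (d : VY) (e : ℝ) (he : 0 < e) (he1 : e ≤ 1/100) (k w : Sm) (p : ℝ × ℝ)
    (hp : p ∈ Lens2 d e) (hK : Kclose d k p) :
    (d.L e k (d.Cut 0.2 0.25 (√e/10/32) (√e/10/16) * w) p
      - d.Cut 0.2 0.25 (√e/10/32) (√e/10/16) p * d.L e k w p) ^ 2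
      ≤ 3 * (50000 * C0) ^ 2 *
        (d.PsiQ (√e/10) p * ((d.V w p) ^ 2 + e * (d.Y w p) ^ 2 + (w p) ^ 2)) := by
  have hs : 0 < √e := Real.sqrt_pos.2 he
  have hs2 : √e * √e = e := Real.mul_self_sqrt he.le
  have hσ : 0 < √e/10 := by positivity
  obtain ⟨hk0, hk1, hk2, hk3⟩ := k_facts d e he he1 k p hp hK
  have hT : 0 ≤ (d.V w p) ^ 2 + e * (d.Y w p) ^ 2 + (w p) ^ 2 := by positivity
  have hE : d.L e k (d.Cut 0.2 0.25 (√e/10/32) (√e/10/16) * w) p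
      - d.Cut 0.2 0.25 (√e/10/32) (√e/10/16) p * d.L e k w p =
      2 * (d.V (d.Cut 0.2 0.25 (√e/10/32) (√e/10/16)) p * d.V w p)
      + 2 * e * (k p * (d.Y (d.Cut 0.2 0.25 (√e/10/32) (√e/10/16)) p * d.Y w p))
      + w p * (d.V (d.V (d.Cut 0.2 0.25 (√e/10/32) (√e/10/16))) p
        + e * (d.Y k p * d.Y (d.Cut 0.2 0.25 (√e/10/32) (√e/10/16)) p)
        + e * (k p * d.Y (d.Y (d.Cut 0.2 0.25 (√e/10/32) (√e/10/16))) p)) := by
    rw [VY.L_mul]
    have h2 : ((2 : Sm)) p = 2 := rfl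
    simp only [add_ap, mul_ap, smul_ap, h2]
    ring
  rw [hE, VV_Cut, YY_Cut, V_Cut, Y_Cut]
  simp only [mul_ap, cmp_ap]
  by_cases hPs : 1 ≤ d.PsiQ (√e/10) p
  · have b1 := (hct 0.2 0.25 (by norm_num) (by norm_num) (by norm_num) (d.x p))
    have b2 := (hct (√e/10/32) (√e/10/16) (by positivity) (by linarith) (by linarith) (d.Q p))
    have c1 := ct_nonneg 0.2 0.25 (d.x p)
    have c2 := ct_le_one 0.2 0.25 (d.x p)
    have c3 := ct_nonneg (√e/10/32) (√e/10/16) (d.Q p)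
    have c4 := ct_le_one (√e/10/32) (√e/10/16) (d.Q p)
    have main := comm_real C0 hC0 e he he1 (k p) (d.Y k p)
      (deriv (ct 0.2 0.25) (d.x p) * ct (√e/10/32) (√e/10/16) (d.Q p))
      (ct 0.2 0.25 (d.x p) * deriv (ct (√e/10/32) (√e/10/16)) (d.Q p))
      (deriv (deriv (ct 0.2 0.25)) (d.x p) * ct (√e/10/32) (√e/10/16) (d.Q p))
      (ct 0.2 0.25 (d.x p) * deriv (deriv (ct (√e/10/32) (√e/10/16))) (d.Q p))
      (d.V w p) (d.Y w p) (w p) hk1 hk3 ?_ ?_ ?_ ?_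
    · refine main.trans ?_
      have : (d.V w p) ^ 2 + e * (d.Y w p) ^ 2 + (w p) ^ 2 ≤
          d.PsiQ (√e/10) p * ((d.V w p) ^ 2 + e * (d.Y w p) ^ 2 + (w p) ^ 2) := by nlinarith
      gcongr
    · rw [abs_mul, abs_of_nonneg c3]
      have := num3 C0 hC0
      exact (mul_le_of_le_one_right (abs_nonneg _) c4).trans (b1.1.trans this)
    · rw [abs_mul, abs_of_nonneg c1]
      have := num1 C0 (√e) hC0 hs
      exact (mul_le_of_le_one_left (abs_nonneg _) c2).trans (b2.1.trans this)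
    · rw [abs_mul, abs_of_nonneg c3]
      have := num4 C0 hC0
      exact (mul_le_of_le_one_right (abs_nonneg _) c4).trans (b1.2.trans this)
    · rw [abs_mul, abs_of_nonneg c1]
      have := num2 C0 (√e) hC0 hs
      rw [hs2] at this
      exact (mul_le_of_le_one_left (abs_nonneg _) c2).trans (b2.2.trans this)
  · have h0 : 0 ≤ d.PsiQ (√e/10) p := by rw [VY.PsiQ_ap]; exact psiQ_nonneg _ _ _
    have hn : ¬ (1/32 ≤ (d.x p)^2 ∨ √e/10/32 ≤ |d.Q p|) := by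
      intro h; apply hPs; rw [VY.PsiQ_ap]; exact psiQ_ge_one hσ h
    push Not at hn
    have hx : |d.x p| < 0.2 := by
      apply abs_lt_of_sq_lt_sq _ (by norm_num)
      norm_num; linarith [hn.1]
    have z1 := ct_d_zero (a := 0.2) (b := 0.25) (by norm_num) (by norm_num) hx
    have z2 := ct_d_zero (a := √e/10/32) (b := √e/10/16) (by positivity) (by linarith) hn.2
    rw [z1.1, z1.2, z2.1, z2.2]
    simp only [zero_mul, mul_zero, add_zero]
    norm_num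
    positivity

theorem V_cmp_s (d : VY) (g : ℝ → ℝ) (hg : ContDiff ℝ ∞ g) (p : ℝ × ℝ) :
    d.V (cmp g hg Xs) p = deriv g p.1 * d.A11 p := by
  have h : d.V (cmp g hg Xs) = cmp (deriv g) (contDiff_deriv hg) Xs * d.V Xs := vf_cmp _ _ _ _ _
  rw [h, V_Xs]; simp
theorem Y_cmp_s (d : VY) (g : ℝ → ℝ) (hg : ContDiff ℝ ∞ g) (p : ℝ × ℝ) :
    d.Y (cmp g hg Xs) p = deriv g p.1 * d.A21 p := by
  have h : d.Y (cmp g hg Xs) = cmp (deriv g) (contDiff_deriv hg) Xs * d.Y Xs := vf_cmp _ _ _ _ _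
  rw [h, Y_Xs]; simp

theorem contSm (f : Sm) : Continuous (fun p => f p) := (smooth f).continuous

theorem intOnK (K : Set (ℝ × ℝ)) (hK : IsCompact K) (f : Sm) :
    IntegrableOn (fun p => f p) K := (contSm f).continuousOn.integrableOn_compact hK

theorem zero_off (K : Set (ℝ × ℝ)) (w : Sm) (hsub : tsupport (w : ℝ × ℝ → ℝ) ⊆ K) (p : ℝ × ℝ)
    (hp : p ∉ K) : w p = 0 :=
  image_eq_zero_of_notMem_tsupport (fun h => hp (hsub h))

theorem intK_eq (K : Set (ℝ × ℝ)) (f : Sm) (h : ∀ p, p ∉ K → f p = 0) :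
    ∫ p in K, f p = ∫ p, f p :=
  setIntegral_eq_integral_of_forall_compl_eq_zero h

theorem multB (d : VY) (e : ℝ) (k w : Sm) (K : Set (ℝ × ℝ)) (hK : IsCompact K)
    (hsub : tsupport (w : ℝ × ℝ → ℝ) ⊆ K) (β : ℝ → ℝ) (hβ : ContDiff ℝ ∞ β) :
    ∃ S : Sm, (∀ p, S p = d.mu p * ((1/2) * (deriv β p.1 * d.A11 p) * (d.V w p) ^ 2
      + (e/2) * (- β p.1 * d.V k p - k p * (deriv β p.1 * d.A11 p)) * (d.Y w p) ^ 2
      + e * k p * (deriv β p.1 * d.A21 p) * (d.V w p * d.Y w p)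
      + β p.1 * d.L e k w p * d.V w p)) ∧ ∫ p in K, S p = 0 := by
  have hw : HasCompactSupport (w : ℝ × ℝ → ℝ) := hK.of_isClosed_subset (isClosed_tsupport _) hsub
  have hm := mult_identity d e k w 0 (-(cmp β hβ Xs)) hw
  set B : Sm := -(cmp β hβ Xs) with hB
  set f1 : Sm := d.mu * (d.L e k w * (0 * d.Y w + B * d.V w)) with hf1
  set f2 : Sm := d.mu * ((1/2 : ℝ) • ((d.Y 0 - d.V B) * (d.V w) ^ 2)
      + (e/2) • ((0 * d.Y k - k * d.Y 0 + B * d.V k + k * d.V B) * (d.Y w) ^ 2)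
      - (d.V 0 + e • (k * d.Y B)) * (d.V w * d.Y w)) with hf2
  have hVoff : ∀ p, p ∉ K → d.V w p = 0 := fun p hp =>
    zero_off K (d.V w) ((tsupport_vf _ _ w).trans hsub) p hp
  have hYoff : ∀ p, p ∉ K → d.Y w p = 0 := fun p hp =>
    zero_off K (d.Y w) ((tsupport_vf _ _ w).trans hsub) p hp
  have hVB : ∀ p, d.V B p = - (deriv β p.1 * d.A11 p) := by
    intro p
    rw [hB, map_neg, neg_ap, V_cmp_s]
  have hYB : ∀ p, d.Y B p = - (deriv β p.1 * d.A21 p) := by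
    intro p
    rw [hB, map_neg, neg_ap, Y_cmp_s]
  have hBp : ∀ p, B p = - β p.1 := by intro p; rw [hB, neg_ap]; rfl
  have e1 : ∀ p, f1 p = d.mu p * (d.L e k w p * (- β p.1 * d.V w p)) := by
    intro p
    rw [hf1]
    simp only [mul_ap, add_ap, zero_ap, hBp]; ring
  have e2 : ∀ p, f2 p = d.mu p * ((1/2) * (deriv β p.1 * d.A11 p) * (d.V w p) ^ 2
      + (e/2) * (- β p.1 * d.V k p - k p * (deriv β p.1 * d.A11 p)) * (d.Y w p) ^ 2
      + e * k p * (deriv β p.1 * d.A21 p) * (d.V w p * d.Y w p)) := by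
    intro p
    rw [hf2]
    simp only [mul_ap, add_ap, sub_ap, smul_ap, pow_ap, zero_ap, map_zero, hBp, hVB, hYB]; ring
  refine ⟨f2 - f1, ?_, ?_⟩
  · intro p
    rw [sub_ap, e1, e2]; ring
  · have i1 : ∫ p in K, f1 p = ∫ p, f1 p := intK_eq K f1 (by
      intro p hp; rw [e1, hVoff p hp]; ring)
    have i2 : ∫ p in K, f2 p = ∫ p, f2 p := intK_eq K f2 (by
      intro p hp; rw [e2, hVoff p hp, hYoff p hp]; ring)
    have : ∫ p in K, (f2 - f1 : Sm) p = (∫ p in K, f2 p) - ∫ p in K, f1 p := by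
      rw [← integral_sub (intOnK K hK f2) (intOnK K hK f1)]; rfl
    rw [this, i1, i2, ← hm]; ring

theorem poinG (d : VY) (w : Sm) (K : Set (ℝ × ℝ)) (hK : IsCompact K)
    (hsub : tsupport (w : ℝ × ℝ → ℝ) ⊆ K) (γ : ℝ → ℝ) (hγ : ContDiff ℝ ∞ γ) :
    ∃ S : Sm, (∀ p, S p = d.mu p * ((deriv γ p.1 * d.A11 p) * (w p) ^ 2
      + 2 * γ p.1 * w p * d.V w p)) ∧ ∫ p in K, S p = 0 := by
  have hw : HasCompactSupport (w : ℝ × ℝ → ℝ) := hK.of_isClosed_subset (isClosed_tsupport _) hsub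
  have hm := poincare_V d w (cmp γ hγ Xs) hw
  set G : Sm := cmp γ hγ Xs with hG
  set f1 : Sm := d.mu * (d.V G * w ^ 2) with hf1
  set f2 : Sm := d.mu * (G * (w * d.V w)) with hf2
  have hwoff : ∀ p, p ∉ K → w p = 0 := fun p hp => zero_off K w hsub p hp
  have e1 : ∀ p, f1 p = d.mu p * ((deriv γ p.1 * d.A11 p) * (w p) ^ 2) := by
    intro p
    rw [hf1]
    simp only [mul_ap, pow_ap, hG, V_cmp_s]
  have e2 : ∀ p, f2 p = d.mu p * (γ p.1 * (w p * d.V w p)) := by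
    intro p
    rw [hf2]
    simp only [mul_ap, hG, cmp_ap, Xs_ap]
  refine ⟨f1 + (2:ℝ) • f2, ?_, ?_⟩
  · intro p
    rw [add_ap, smul_ap, e1, e2]; ring
  · have i1 : ∫ p in K, f1 p = ∫ p, f1 p := intK_eq K f1 (by
      intro p hp; rw [e1, hwoff p hp]; ring)
    have i2 : ∫ p in K, f2 p = ∫ p, f2 p := intK_eq K f2 (by
      intro p hp; rw [e2, hwoff p hp]; ring)
    have : ∫ p in K, (f1 + (2:ℝ) • f2 : Sm) p = (∫ p in K, f1 p) + 2 * ∫ p in K, f2 p := by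
      rw [← integral_const_mul, ← integral_add (intOnK K hK f1) ((intOnK K hK f2).const_mul 2)]; rfl
    rw [this, i1, i2, hm]; ring

set_option maxHeartbeats 1000000 in
/-- main pointwise inequality for the multipliers -/
theorem realAB (e A11 A21 β β' k kV v y ℓ g E ρ : ℝ) (he : 0 < e) (he1 : e ≤ 1/100)
    (hA : |A11 - 1| ≤ 1/100) (hA2 : |A21| ≤ 1/100) (hβ0 : 0 ≤ β') (hβ1 : β' ≤ 1)
    (hβ : |β| ≤ 0.27 * β') (hk : k ≤ -0.92) (hk1 : |k| ≤ 1.01) (hkV : |kV| ≤ 0.51)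
    (hρ : |β * (g * ℓ) * v| ≤ (1/32) * (β' * v ^ 2) + 8 * ρ ^ 2 * ℓ ^ 2) :
    (3/16) * (β' * (v ^ 2 + e * y ^ 2)) ≤ (1/2) * (β' * A11) * v ^ 2
      + (e/2) * (- β * kV - k * (β' * A11)) * y ^ 2
      + e * k * (β' * A21) * (v * y) + β * (g * ℓ + E) * v + 8 * ρ ^ 2 * ℓ ^ 2 + E ^ 2 := by
  rw [abs_le] at hA
  have t1 : 0.99 * (β' * v ^ 2) ≤ (β' * A11) * v ^ 2 := by
    have : 0 ≤ β' * v ^ 2 := by positivity
    nlinarith
  have t2a : β * kV ≤ 0.1377 * β' := by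
    calc β * kV ≤ |β * kV| := le_abs_self _
      _ = |β| * |kV| := abs_mul _ _
      _ ≤ (0.27 * β') * 0.51 := by gcongr
      _ = 0.1377 * β' := by ring
  have t2b : 0.9108 * β' ≤ - k * (β' * A11) := by
    have h1 : 0.92 * 0.99 ≤ (-k) * A11 := by nlinarith
    have : (-k) * (β' * A11) = β' * ((-k) * A11) := by ring
    nlinarith
  have t2 : 0.7731 * (e * (β' * y ^ 2)) ≤ e * (- β * kV - k * (β' * A11)) * y ^ 2 := by
    have h1 : 0.7731 * β' ≤ - β * kV - k * (β' * A11) := by linarith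
    have h2 : 0 ≤ e * y ^ 2 := by positivity
    nlinarith
  have t3 : - (0.0101 * (e * (β' * ((v ^ 2 + y ^ 2) / 2)))) ≤ e * k * (β' * A21) * (v * y) := by
    have h1 : |k * A21| ≤ 0.0101 := by
      rw [abs_mul]
      calc |k| * |A21| ≤ 1.01 * (1/100) := by gcongr
        _ = 0.0101 := by norm_num
    have h2 : |v * y| ≤ (v ^ 2 + y ^ 2) / 2 := by
      rw [abs_le]; constructor <;> nlinarith [sq_nonneg (v - y), sq_nonneg (v + y)]
    have h3 : |(k * A21) * (v * y)| ≤ 0.0101 * ((v ^ 2 + y ^ 2) / 2) := by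
      rw [abs_mul]; gcongr
    rw [abs_le] at h3
    have h4 : e * k * (β' * A21) * (v * y) = (e * β') * ((k * A21) * (v * y)) := by ring
    have h5 : 0 ≤ e * β' := by positivity
    rw [h4]
    nlinarith [mul_le_mul_of_nonneg_left h3.1 h5]
  have t4 : - ((1/32) * (β' * v ^ 2) + E ^ 2) ≤ β * E * v := by
    have h1 : |β * E * v| ≤ (1/32) * (β' * v ^ 2) + E ^ 2 := by
      rw [abs_mul, abs_mul]
      have h2 : |β| * |E| * |v| ≤ (0.27 * β') * |E| * |v| := by gcongr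
      have h3 : 0.27 * (|E| * |v|) ≤ (1/32) * v ^ 2 + 0.5832 * E ^ 2 := by
        rw [← sq_abs v, ← sq_abs E]
        nlinarith [sq_nonneg (|v| - 4.32 * |E|)]
      have h4 : β' * (0.27 * (|E| * |v|)) ≤ β' * ((1/32) * v ^ 2 + 0.5832 * E ^ 2) := by
        gcongr
      have h5 : β' * E ^ 2 ≤ E ^ 2 := by nlinarith [sq_nonneg E]
      have h6 : 0 ≤ E ^ 2 := sq_nonneg E
      calc |β| * |E| * |v| ≤ (0.27 * β') * |E| * |v| := h2
        _ = β' * (0.27 * (|E| * |v|)) := by ring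
        _ ≤ β' * ((1/32) * v ^ 2 + 0.5832 * E ^ 2) := h4
        _ = (1/32) * (β' * v ^ 2) + 0.5832 * (β' * E ^ 2) := by ring
        _ ≤ (1/32) * (β' * v ^ 2) + E ^ 2 := by linarith
    rw [abs_le] at h1
    linarith [h1.1]
  rw [abs_le] at hρ
  have h6 : β * (g * ℓ + E) * v = β * (g * ℓ) * v + β * E * v := by ring
  have h7 : e * (β' * v ^ 2) ≤ (1/100) * (β' * v ^ 2) := by
    have : 0 ≤ β' * v ^ 2 := by positivity
    nlinarith
  have h8 : 0 ≤ β' * v ^ 2 := by positivity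
  have h9 : 0 ≤ e * (β' * y ^ 2) := by positivity
  rw [h6]
  nlinarith [hρ.1]

theorem realC (A11 s b' sb'' w v : ℝ) (hA : |A11 - 1| ≤ 1/100) (hs : |s| ≤ 0.27)
    (hb : 0 ≤ b') (hsb : 0 ≤ sb'') :
    0.49 * (b' * w ^ 2) ≤ ((b' + sb'') * A11) * w ^ 2 + 2 * (s * b') * w * v + 0.15 * (b' * v ^ 2) := by
  rw [abs_le] at hA hs
  have h1 : 0.99 * (b' * w ^ 2) ≤ ((b' + sb'') * A11) * w ^ 2 := by
    have h2 : 0 ≤ b' * w ^ 2 := by positivity
    have h3 : 0 ≤ sb'' * w ^ 2 := by positivity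
    nlinarith
  have h4 : 0 ≤ b' * (w + 2 * (s * v)) ^ 2 := by positivity
  have h5 : s ^ 2 ≤ 0.0729 := by nlinarith
  have h6 : b' * (s ^ 2 * v ^ 2) ≤ b' * (0.0729 * v ^ 2) := by gcongr
  nlinarith

theorem realD (A11 s w v r b' : ℝ) (hA : |A11 - 1| ≤ 1/100) (hs : |s| ≤ 0.27)
    (hb : 0 ≤ b') (h : 3 * r ≤ |s| → b' = 1) :
    0.49 * w ^ 2 ≤ A11 * w ^ 2 + 2 * s * w * v + 18 * r ^ 2 * v ^ 2 + 0.15 * (b' * v ^ 2) := by
  rw [abs_le] at hA
  have h1 : 0.99 * w ^ 2 ≤ A11 * w ^ 2 := by nlinarith [sq_nonneg w]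
  have h4 : 0 ≤ (w + 2 * (s * v)) ^ 2 := by positivity
  have h7 : 2 * (s ^ 2 * v ^ 2) ≤ 18 * r ^ 2 * v ^ 2 + 0.15 * (b' * v ^ 2) := by
    by_cases hc : 3 * r ≤ |s|
    · rw [h hc]
      have h5 : s ^ 2 ≤ 0.0729 := by rw [← sq_abs]; nlinarith [abs_nonneg s]
      have h6 : s ^ 2 * v ^ 2 ≤ 0.0729 * v ^ 2 := by gcongr
      nlinarith [sq_nonneg v, mul_nonneg (sq_nonneg r) (sq_nonneg v)]
    · push Not at hc
      have h5 : s ^ 2 ≤ 9 * r ^ 2 := by rw [← sq_abs]; nlinarith [abs_nonneg s]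
      have h6 : s ^ 2 * v ^ 2 ≤ 9 * r ^ 2 * v ^ 2 := by gcongr
      have : 0 ≤ b' * v ^ 2 := by positivity
      nlinarith
  nlinarith


theorem intK_add (K : Set (ℝ × ℝ)) (hK : IsCompact K) (f g : Sm) :
    ∫ p in K, (f + g : Sm) p = (∫ p in K, f p) + ∫ p in K, g p := by
  rw [← integral_add (intOnK K hK f) (intOnK K hK g)]; rfl

theorem intK_smul (K : Set (ℝ × ℝ)) (c : ℝ) (f : Sm) :
    ∫ p in K, (c • f : Sm) p = c * ∫ p in K, f p := by
  rw [← integral_const_mul]; rfl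

theorem intK_mono (K : Set (ℝ × ℝ)) (hK : IsCompact K) (f g : Sm) (h : ∀ p ∈ K, f p ≤ g p) :
    ∫ p in K, f p ≤ ∫ p in K, g p :=
  setIntegral_mono_on (intOnK K hK f) (intOnK K hK g) hK.measurableSet h

theorem intK_sub_set (K K' : Set (ℝ × ℝ)) (hK : IsCompact K) (hK' : MeasurableSet K') (hs : K' ⊆ K)
    (f g : Sm) (h : ∀ p ∈ K', f p = g p) (h0 : ∀ p ∈ K, 0 ≤ g p) :
    ∫ p in K', f p ≤ ∫ p in K, g p := by
  rw [setIntegral_congr_fun hK' h]
  apply setIntegral_mono_set (intOnK K hK g)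
  · rw [Filter.EventuallyLE, ae_restrict_iff' hK.measurableSet]
    exact Filter.Eventually.of_forall h0
  · exact hs.eventuallyLE

theorem lens1_meas (d : VY) (e : ℝ) : MeasurableSet (Lens1 d e) := by
  apply IsOpen.measurableSet
  exact (isOpen_lt (contSm d.x).abs continuous_const).inter (isOpen_lt (contSm d.Q).abs continuous_const)

theorem lens_sub (d : VY) (e : ℝ) (he : 0 < e) : Lens1 d e ⊆ Lens2 d e := by
  intro p hp
  have hs : 0 < √e := Real.sqrt_pos.2 he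
  refine ⟨?_, ?_⟩
  · have := hp.1; linarith
  · have := hp.2; linarith

theorem cut_supp (d : VY) (e : ℝ) (he : 0 < e) (hK : IsCompact (Lens2 d e)) (w : Sm) :
    tsupport ((d.Cut 0.2 0.25 (√e/10/32) (√e/10/16) * w : Sm) : ℝ × ℝ → ℝ) ⊆ Lens2 d e := by
  have hs : 0 < √e := Real.sqrt_pos.2 he
  apply closure_minimal _ hK.isClosed
  intro p hp
  by_contra hn
  apply hp
  rw [mul_ap, VY.Cut_ap]
  have : 1/4 < |d.x p| ∨ √e/10/16 < |d.Q p| := by
    by_contra hh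
    push Not at hh
    exact hn hh
  rcases this with h | h
  · rw [ct_zero (by norm_num) (by norm_num) (by linarith : (0.25:ℝ) ≤ |d.x p|)]; ring
  · rw [ct_zero (by positivity) (by linarith) h.le]; ring

theorem cut_one (d : VY) (e : ℝ) (he : 0 < e) (p : ℝ × ℝ) (hp : p ∈ Lens1 d e) :
    d.Cut 0.2 0.25 (√e/10/32) (√e/10/16) p = 1 := by
  have hs : 0 < √e := Real.sqrt_pos.2 he
  rw [VY.Cut_ap, ct_one (by norm_num) (by norm_num) hp.1.le, ct_one (by positivity) (by linarith) hp.2.le]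
  ring

theorem cut_bd (d : VY) (e : ℝ) (p : ℝ × ℝ) :
    |d.Cut 0.2 0.25 (√e/10/32) (√e/10/16) p| ≤ 1 := by
  rw [VY.Cut_ap, abs_mul, abs_of_nonneg (ct_nonneg _ _ _), abs_of_nonneg (ct_nonneg _ _ _)]
  have h1 := ct_le_one 0.2 0.25 (d.x p)
  have h2 := ct_le_one (√e/10/32) (√e/10/16) (d.Q p)
  have h3 := ct_nonneg 0.2 0.25 (d.x p)
  have h4 := ct_nonneg (√e/10/32) (√e/10/16) (d.Q p)
  nlinarith

theorem fin2 (I1 I3 M2 : ℝ) (h2 : 0.49 * I1 ≤ 0 + 0.8 * 0 + M2 * I3) (h4 : 0 ≤ I3)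
    (h6 : 0 ≤ M2 * I3) : I1 ≤ (1600 + 3 * M2) * I3 := by
  nlinarith

theorem fin1 (I1 I2 I3 M2 r : ℝ) (hM : 0 ≤ M2)
    (h2 : 0.49 * I1 ≤ 0 + 96 * r ^ 2 * 0 + 0.8 * 0 + 768 * r ^ 4 * I2 + M2 * I3) (h3 : 0 ≤ I2)
    (h4 : 0 ≤ I3) : I1 ≤ (1600 + 3 * M2) * (r ^ 4 * I2 + I3) := by
  have h5 : 0 ≤ r ^ 4 * I2 := by positivity
  have h6 : 0 ≤ M2 * I3 := by positivity
  have h7 : 0 ≤ M2 * (r ^ 4 * I2) := by positivity
  nlinarith

theorem sqa {r t : ℝ} (hr : 0 < r) (h : |t| ≤ r) : t ^ 2 ≤ 4 * r ^ 2 := by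
  rw [← sq_abs]; nlinarith [abs_nonneg t]
theorem sqb {r t : ℝ} (hr : 0 < r) (h : 3 * r ≤ |t|) : 9 * r ^ 2 ≤ t ^ 2 := by
  rw [← sq_abs t]; nlinarith [abs_nonneg t]

set_option maxHeartbeats 1000000 in
/-- combination of the pointwise inequalities -/
theorem comb1 (A11 A21 s b b' k kV v y ℓ g E e r T M2 w : ℝ) (he : 0 < e) (he1 : e ≤ 1/100)
    (hA : |A11 - 1| ≤ 1/100) (hA2 : |A21| ≤ 1/100) (hs : |s| ≤ 0.27)
    (hb0 : 0 ≤ b') (hb1 : b' ≤ 1) (hb : |b| ≤ |s| * b') (hbz : |s| ≤ r → b' = 0)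
    (hbo : 3 * r ≤ |s| → b' = 1) (hr : 0 < r) (hr1 : r ≤ 1/100) (hg : |g| ≤ 1)
    (hk : k ≤ -0.92) (hk1 : |k| ≤ 1.01) (hkV : |kV| ≤ 0.51) (hℓ : ℓ ≠ 0 → |s| ≤ r)
    (hE : E ^ 2 ≤ M2 * T) :
    (3/16) * (b' * v ^ 2) ≤ ((1/2) * (b' * A11) * v ^ 2
      + (e/2) * (- b * kV - k * (b' * A11)) * y ^ 2
      + e * k * (b' * A21) * (v * y) + b * (g * ℓ + E) * v) + M2 * T ∧
    0.49 * w ^ 2 ≤ (A11 * w ^ 2 + 2 * s * w * v)
      + 96 * r ^ 2 * ((1/2) * (1 * A11) * v ^ 2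
      + (e/2) * (- s * kV - k * (1 * A11)) * y ^ 2
      + e * k * (1 * A21) * (v * y) + s * (g * ℓ + E) * v)
      + 0.8 * ((1/2) * (b' * A11) * v ^ 2
      + (e/2) * (- b * kV - k * (b' * A11)) * y ^ 2
      + e * k * (b' * A21) * (v * y) + b * (g * ℓ + E) * v)
      + 768 * r ^ 4 * ℓ ^ 2 + M2 * T := by
  have hbb : |b| ≤ 0.27 * b' := hb.trans (by gcongr)
  have r1 : |s * (g * ℓ) * v| ≤ (1/32) * (1 * v ^ 2) + 8 * r ^ 2 * ℓ ^ 2 := by
    by_cases h : ℓ = 0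
    · rw [h, mul_zero, mul_zero, zero_mul, abs_zero]; positivity
    · have hsr := hℓ h
      have h1 : |s * (g * ℓ) * v| ≤ r * (1 * |ℓ|) * |v| := by
        rw [abs_mul, abs_mul, abs_mul]; gcongr
      refine h1.trans ?_
      rw [← sq_abs v, ← sq_abs ℓ]
      nlinarith [sq_nonneg (|v| - 16 * (r * |ℓ|))]
  have r2 : |b * (g * ℓ) * v| ≤ (1/32) * (b' * v ^ 2) + 8 * 0 ^ 2 * ℓ ^ 2 := by
    by_cases h : ℓ = 0
    · rw [h, mul_zero, mul_zero, zero_mul, abs_zero]; positivity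
    · have hz := hbz (hℓ h)
      have : b = 0 := by
        rw [hz, mul_zero] at hb
        exact abs_nonpos_iff.1 hb
      rw [this, zero_mul, zero_mul, abs_zero]; positivity
  have a1 := realAB e A11 A21 s 1 k kV v y ℓ g E r he he1 hA hA2 zero_le_one le_rfl (by linarith)
    hk hk1 hkV r1
  have a2 := realAB e A11 A21 b b' k kV v y ℓ g E 0 he he1 hA hA2 hb0 hb1 hbb hk hk1 hkV r2
  have a3 := realD A11 s w v r b' hA hs hb0 hbo
  have hy : 0 ≤ e * y ^ 2 := by positivity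
  have hy2 : 0 ≤ b' * (e * y ^ 2) := by positivity
  have h2 : (3/16) * (b' * v ^ 2) ≤ ((1/2) * (b' * A11) * v ^ 2
      + (e/2) * (- b * kV - k * (b' * A11)) * y ^ 2
      + e * k * (b' * A21) * (v * y) + b * (g * ℓ + E) * v) + E ^ 2 := by
    have : (3/16) * (b' * v ^ 2) ≤ (3/16) * (b' * (v ^ 2 + e * y ^ 2)) := by nlinarith
    linarith
  refine ⟨by linarith, ?_⟩
  have h1 : (3/16) * v ^ 2 ≤ ((1/2) * (1 * A11) * v ^ 2
      + (e/2) * (- s * kV - k * (1 * A11)) * y ^ 2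
      + e * k * (1 * A21) * (v * y) + s * (g * ℓ + E) * v) + 8 * r ^ 2 * ℓ ^ 2 + E ^ 2 := by
    have : (3/16) * v ^ 2 ≤ (3/16) * (1 * (v ^ 2 + e * y ^ 2)) := by nlinarith
    linarith
  have h3 := mul_le_mul_of_nonneg_left h1 (by positivity : 0 ≤ 96 * r ^ 2)
  have h4 : 96 * r ^ 2 * E ^ 2 ≤ 0.2 * E ^ 2 := by
    have : 96 * r ^ 2 ≤ 0.2 := by nlinarith
    nlinarith [sq_nonneg E]
  nlinarith

end T10
open T10

set_option maxHeartbeats 1000000 in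
/-- STEP 2: inside the lens use the multipliers `-s V w` and `-b(s) V w`, where `s = p.1`,
`b' = SS((s²-4r²)/(4r²))` (so `b = 0` where `L w ≠ 0`), applied to
`w₂ = d.Cut 0.2 0.25 (σ/32) (σ/16) * w` (`σ = √e/10`); the commutator is supported where
`PsiQ ≥ 1` (`psiQ_ge_one`), with universal constants because `e (σ/16)⁻² = O(1)`. Then
`poincare_V` with `G = b(s)·(..)`, `G = s b'(s)` resp. a function equal to `s` for `|s| ≤ 3r`
and bounded by `6r`. All constants are universal. -/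
theorem S2 : ∃ C : ℝ, 0 < C ∧ ∀ (d : VY) (e r : ℝ) (k w : Sm), 0 < e → e ≤ 1/100 →
    0 < r → r ≤ 1/100 →
    IsCompact (Lens2 d e) →
    (∀ p ∈ Lens2 d e, Kclose d k p) →
    (∀ p ∈ Lens2 d e, |d.A11 p - 1| ≤ 1/100 ∧ |d.A21 p| ≤ 1/100 ∧ |p.1 - d.x p| ≤ 1/50) →
    (∀ p ∈ Lens2 d e, d.L e k w p ≠ 0 → |p.1| ≤ r) →
    (∫ p in Lens1 d e ∩ {p | |p.1| < 3 * r}, (d.mu * w ^ 2 : Sm) p
      ≤ C * (r ^ 4 * (∫ p in Lens2 d e, (d.mu * (d.L e k w) ^ 2 : Sm) p)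
        + ∫ p in Lens2 d e,
          (d.mu * (d.PsiQ (√e/10) * ((d.V w) ^ 2 + e • (d.Y w) ^ 2 + w ^ 2)) : Sm) p)) ∧
    (∫ p in Lens1 d e ∩ {p | 3 * r ≤ |p.1|}, (d.mu * w ^ 2 : Sm) p
      ≤ C * ∫ p in Lens2 d e,
          (d.mu * (d.PsiQ (√e/10) * ((d.V w) ^ 2 + e • (d.Y w) ^ 2 + w ^ 2)) : Sm) p) := by
  obtain ⟨C0, hC0, hct⟩ := ct_deriv_bound
  set M2 : ℝ := 3 * (50000 * C0) ^ 2 with hM2
  have hM20 : 0 ≤ M2 := by positivity
  refine ⟨1600 + 3 * M2, by positivity, ?_⟩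
  intro d e r k w he he1 hr hr1 hK hKc hA hL
  set g : Sm := d.Cut 0.2 0.25 (√e/10/32) (√e/10/16) with hg
  set w2 : Sm := g * w with hw2
  have hsub : tsupport (w2 : ℝ × ℝ → ℝ) ⊆ Lens2 d e := cut_supp d e he hK w
  obtain ⟨SA, hSA, iSA⟩ := multB d e k w2 (Lens2 d e) hK hsub (fun t => t) contDiff_id
  obtain ⟨SB, hSB, iSB⟩ := multB d e k w2 (Lens2 d e) hK hsub (bq r) (bq_contDiff r)
  obtain ⟨SC, hSC, iSC⟩ := poinG d w2 (Lens2 d e) hK hsub (fun t => t * bp r t)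
    (contDiff_id.mul (bp_contDiff r))
  obtain ⟨SD, hSD, iSD⟩ := poinG d w2 (Lens2 d e) hK hsub (fun t => t) contDiff_id
  set T : Sm := d.PsiQ (√e/10) * ((d.V w) ^ 2 + e • (d.Y w) ^ 2 + w ^ 2) with hT
  have hdid : ∀ t : ℝ, deriv (fun t : ℝ => t) t = 1 := fun t => deriv_id t
  have hdbq : ∀ t : ℝ, deriv (bq r) t = bp r t := fun t => by rw [bq_deriv]
  have hdc : ∀ t : ℝ, deriv (fun t : ℝ => t * bp r t) t = bp r t + t * deriv (bp r) t := by
    intro t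
    have h := (hasDerivAt_id t).mul (((bp_contDiff r).differentiable (by simp)) t).hasDerivAt
    have h2 := h.deriv
    simp only [id, one_mul] at h2
    exact h2
  have hmu : ∀ p, 0 ≤ d.mu p := fun p => (d.mupos p).le
  have hT0 : ∀ p, 0 ≤ T p := by
    intro p
    have h0 : 0 ≤ d.PsiQ (√e/10) p := by rw [VY.PsiQ_ap]; exact psiQ_nonneg _ _ _
    rw [hT]
    simp only [mul_ap, add_ap, pow_ap, smul_ap]
    positivity
  have key : ∀ p ∈ Lens2 d e,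
      0.49 * (d.mu p * (bp r p.1 * (w2 p) ^ 2)) ≤ SC p + 0.8 * SB p + M2 * (d.mu p * T p) ∧
      0.49 * (d.mu p * (w2 p) ^ 2) ≤ SD p + 96 * r ^ 2 * SA p + 0.8 * SB p
        + 768 * r ^ 4 * (d.mu p * (d.L e k w p) ^ 2) + M2 * (d.mu p * T p) := by
    intro p hp
    obtain ⟨hk0, hk1, hk2, hk3⟩ := k_facts d e he he1 k p hp (hKc p hp)
    obtain ⟨hA1, hA2, hsx⟩ := hA p hp
    have hs : |p.1| ≤ 0.27 := by
      have h1 := hp.1
      have h2 : |p.1| ≤ |p.1 - d.x p| + |d.x p| := by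
        have := abs_add_le (p.1 - d.x p) (d.x p)
        simpa using this
      linarith
    have hE := comm_pt C0 hC0 hct d e he he1 k w p hp (hKc p hp)
    set ℓ := d.L e k w p with hℓ
    set E := d.L e k w2 p - g p * ℓ with hEdef
    have hLw2 : d.L e k w2 p = g p * ℓ + E := by rw [hEdef]; ring
    have hTp : T p = d.PsiQ (√e/10) p * ((d.V w p) ^ 2 + e * (d.Y w p) ^ 2 + (w p) ^ 2) := by
      rw [hT]; simp only [mul_ap, add_ap, pow_ap, smul_ap]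
    rw [← hTp] at hE
    have hc := comb1 (d.A11 p) (d.A21 p) p.1 (bq r p.1) (bp r p.1) (k p) (d.V k p) (d.V w2 p)
      (d.Y w2 p) ℓ (g p) E e r (T p) M2 (w2 p) he he1 hA1 hA2 hs (bp_nonneg r _) (bp_le_one r _)
      (bq_abs_le hr _) (fun h => bp_zero hr (sqa hr h))
      (fun h => bp_one hr (sqb hr h)) hr hr1
      (cut_bd d e p) hk0 hk1 hk2 (hL p hp) hE
    have hcC := realC (d.A11 p) p.1 (bp r p.1) (p.1 * deriv (bp r) p.1) (w2 p) (d.V w2 p) hA1 hs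
      (bp_nonneg r _) (bpd_nonneg p.1)
    have eA := hSA p
    have eB := hSB p
    have eC := hSC p
    have eD := hSD p
    simp only [hdid] at eA eD
    rw [hdbq] at eB
    rw [hdc] at eC
    rw [hLw2] at eA eB
    have hm := hmu p
    refine ⟨?_, ?_⟩
    · have h1 := mul_le_mul_of_nonneg_left hc.1 hm
      have h2 := mul_le_mul_of_nonneg_left hcC hm
      have h3 : 0 ≤ M2 * (d.mu p * T p) := by have := hT0 p; positivity
      rw [eC, eB]
      nlinarith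
    · have h1 := mul_le_mul_of_nonneg_left hc.2 hm
      rw [eD, eA, eB]
      nlinarith
  have hmeas1 : MeasurableSet (Lens1 d e ∩ {p : ℝ × ℝ | |p.1| < 3 * r}) :=
    (lens1_meas d e).inter (isOpen_lt continuous_fst.abs continuous_const).measurableSet
  have hmeas2 : MeasurableSet (Lens1 d e ∩ {p : ℝ × ℝ | 3 * r ≤ |p.1|}) :=
    (lens1_meas d e).inter (isClosed_le continuous_const continuous_fst.abs).measurableSet
  have hw2one : ∀ p ∈ Lens1 d e, w2 p = w p := by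
    intro p hp
    rw [hw2, mul_ap, hg, cut_one d e he p hp, one_mul]
  constructor
  · have h1 : ∫ p in Lens1 d e ∩ {p | |p.1| < 3 * r}, (d.mu * w ^ 2 : Sm) p
        ≤ ∫ p in Lens2 d e, (d.mu * w2 ^ 2 : Sm) p := by
      apply intK_sub_set _ _ hK hmeas1 (Set.inter_subset_left.trans (lens_sub d e he))
      · intro p hp
        simp only [mul_ap, pow_ap, hw2one p hp.1]
      · intro p _
        simp only [mul_ap, pow_ap]
        have := hmu p
        positivity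
    have h2 : ∫ p in Lens2 d e, ((0.49 : ℝ) • (d.mu * w2 ^ 2) : Sm) p
        ≤ ∫ p in Lens2 d e, (SD + (96 * r ^ 2) • SA + (0.8 : ℝ) • SB
          + (768 * r ^ 4) • (d.mu * (d.L e k w) ^ 2) + M2 • (d.mu * T) : Sm) p := by
      apply intK_mono _ hK
      intro p hp
      have := (key p hp).2
      simp only [smul_ap, mul_ap, pow_ap, add_ap]
      linarith
    rw [intK_smul, intK_add _ hK, intK_add _ hK, intK_add _ hK, intK_add _ hK, intK_smul, intK_smul,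
      intK_smul, intK_smul, iSD, iSA, iSB] at h2
    have h3 : 0 ≤ ∫ p in Lens2 d e, (d.mu * (d.L e k w) ^ 2 : Sm) p := by
      apply setIntegral_nonneg hK.measurableSet
      intro p _
      simp only [mul_ap, pow_ap]
      have := hmu p
      positivity
    have h4 : 0 ≤ ∫ p in Lens2 d e, (d.mu * T : Sm) p := by
      apply setIntegral_nonneg hK.measurableSet
      intro p _
      rw [mul_ap]
      exact mul_nonneg (hmu p) (hT0 p)
    exact h1.trans (fin1 _ _ _ M2 r hM20 h2 h3 h4)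
  · have h1 : ∫ p in Lens1 d e ∩ {p | 3 * r ≤ |p.1|}, (d.mu * w ^ 2 : Sm) p
        ≤ ∫ p in Lens2 d e, (d.mu * (cmp (bp r) (bp_contDiff r) Xs * w2 ^ 2) : Sm) p := by
      apply intK_sub_set _ _ hK hmeas2 (Set.inter_subset_left.trans (lens_sub d e he))
      · intro p hp
        have hb : bp r p.1 = 1 := by
          exact bp_one hr (sqb hr hp.2)
        simp only [mul_ap, pow_ap, cmp_ap, Xs_ap, hw2one p hp.1, hb, one_mul]
      · intro p _
        simp only [mul_ap, pow_ap, cmp_ap, Xs_ap]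
        have := hmu p
        have := bp_nonneg r p.1
        positivity
    have h2 : ∫ p in Lens2 d e, ((0.49 : ℝ) • (d.mu * (cmp (bp r) (bp_contDiff r) Xs * w2 ^ 2)) : Sm) p
        ≤ ∫ p in Lens2 d e, (SC + (0.8 : ℝ) • SB + M2 • (d.mu * T) : Sm) p := by
      apply intK_mono _ hK
      intro p hp
      have := (key p hp).1
      simp only [smul_ap, mul_ap, pow_ap, add_ap, cmp_ap, Xs_ap]
      linarith
    rw [intK_smul, intK_add _ hK, intK_add _ hK, intK_smul, intK_smul, iSC, iSB] at h2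
    have h4 : 0 ≤ ∫ p in Lens2 d e, (d.mu * T : Sm) p := by
      apply setIntegral_nonneg hK.measurableSet
      intro p _
      rw [mul_ap]
      exact mul_nonneg (hmu p) (hT0 p)
    exact h1.trans (fin2 _ _ M2 h2 h4 (mul_nonneg hM20 h4))

end NI
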