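import Crest.Agent.NI_Data
import Crest.Agent.NI_B1
import Crest.Agent.NI_T09
import Crest.Agent.NI_T10

set_option autoImplicit false
open scoped ContDiff
open MeasureTheory

namespace NI

/-- comparison of the coordinates `x, Q` with `s, t`. -/
private theorem D3_box {lam ε : ℝ} {F F' : Fin 3 → Sm} {h : Sm} (D : Data lam ε F F' h)
    {p : ℝ × ℝ} (hp : p ∈ XQc D.d 1.3) : |p.1| < 1.301 ∧ |p.2| < 1.301 := by
  obtain ⟨h1, h2⟩ := hp
  have hx := D.x_bd p
  have hQ := D.Q_bd p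
  rw [← D.dx] at hx
  have a1 : |p.1| ≤ |D.d.x p| + |D.d.x p - p.1| := by
    calc |p.1| = |D.d.x p - (D.d.x p - p.1)| := by ring_nf
      _ ≤ _ := abs_sub _ _
  have a2 : |p.2| ≤ |D.d.Q p| + |D.d.Q p - p.2| := by
    calc |p.2| = |D.d.Q p - (D.d.Q p - p.2)| := by ring_nf
      _ ≤ _ := abs_sub _ _
  constructor
  · norm_num at h1 ⊢
    linarith
  · norm_num at h1 h2 ⊢
    linarith

private theorem D3_ring {lam ε : ℝ} {F F' : Fin 3 → Sm} {h : Sm} (D : Data lam ε F F' h)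
    {p : ℝ × ℝ} (hp : p ∈ XQc D.d 1.3 \ XQ D.d 1.2) : p ∈ Ring 1.15 1.35 := by
  obtain ⟨hp1, hp2⟩ := hp
  obtain ⟨b1, b2⟩ := D3_box D hp1
  have hx := D.x_bd p
  have hQ := D.Q_bd p
  rw [← D.dx] at hx
  have a1 : |D.d.x p| ≤ |p.1| + |D.d.x p - p.1| := by
    calc |D.d.x p| = |p.1 + (D.d.x p - p.1)| := by ring_nf
      _ ≤ _ := abs_add_le _ _
  have a2 : |D.d.Q p| ≤ |p.2| + |D.d.Q p - p.2| := by
    calc |D.d.Q p| = |p.2 + (D.d.Q p - p.2)| := by ring_nf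
      _ ≤ _ := abs_add_le _ _
  constructor
  · rw [lt_max_iff]
    by_contra hc
    push Not at hc
    apply hp2
    obtain ⟨c1, c2⟩ := hc
    constructor
    · norm_num at c1 c2 ⊢
      linarith
    · norm_num at c1 c2 ⊢
      linarith
  · rw [max_lt_iff]
    constructor
    · norm_num at b1 ⊢
      linarith
    · norm_num at b2 ⊢
      linarith

private theorem D3_compact {lam ε : ℝ} {F F' : Fin 3 → Sm} {h : Sm} (D : Data lam ε F F' h) :
    IsCompact (XQc D.d 1.3) := by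
  have hcl : IsClosed (XQc D.d 1.3) := by
    have c1 : Continuous fun p : ℝ × ℝ => |D.d.x p| := (smooth D.d.x).continuous.abs
    have c2 : Continuous fun p : ℝ × ℝ => |D.d.Q p| := (smooth D.d.Q).continuous.abs
    exact (isClosed_le c1 continuous_const).inter (isClosed_le c2 continuous_const)
  have hsub : XQc D.d 1.3 ⊆ Set.Icc (-2 : ℝ) 2 ×ˢ Set.Icc (-2 : ℝ) 2 := by
    intro p hp
    obtain ⟨b1, b2⟩ := D3_box D hp
    rw [abs_lt] at b1 b2
    refine ⟨⟨?_, ?_⟩, ⟨?_, ?_⟩⟩ <;> linarith [b1.1, b1.2, b2.1, b2.2]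
  exact (isCompact_Icc.prod isCompact_Icc).of_isClosed_subset hcl hsub

private theorem D3_zero_off (v : ℝ × ℝ) (f : Sm) {p : ℝ × ℝ}
    (hp : p ∉ tsupport (f : ℝ × ℝ → ℝ)) : (Dv v f) p = 0 := by
  rw [Dv_ap]
  have h : (f : ℝ × ℝ → ℝ) =ᶠ[nhds p] 0 := notMem_tsupport_iff_eventuallyEq.mp hp
  rw [h.fderiv_eq]
  simp

private theorem D3_tsupport (v : ℝ × ℝ) (f : Sm) :
    tsupport (Dv v f : ℝ × ℝ → ℝ) ⊆ tsupport (f : ℝ × ℝ → ℝ) := by
  refine closure_minimal ?_ (isClosed_tsupport _)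
  intro p hp
  by_contra h
  exact hp (D3_zero_off v f h)

private theorem D3_H {lam ε : ℝ} {F F' : Fin 3 → Sm} {h : Sm} (D : Data lam ε F F' h)
    {p : ℝ × ℝ} (hp : p ∉ tsupport (h : ℝ × ℝ → ℝ)) : D.fr.H h p = 0 := by
  have h0 : h p = 0 := image_eq_zero_of_notMem_tsupport hp
  have h1 : D1 h p = 0 := D3_zero_off _ _ hp
  have h2 : D2 h p = 0 := D3_zero_off _ _ hp
  have h3 : D2 (D2 h) p = 0 := D3_zero_off _ _ (fun hh => hp (D3_tsupport _ _ hh))
  have := D.H_bd h p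
  rw [h0, h1, h2, h3] at this
  simp only [abs_zero, add_zero, mul_zero] at this
  exact abs_eq_zero.mp (le_antisymm this (abs_nonneg _))

/-- Application of `S1` to a pair: `e = ε/lam²`, `w = F 2 - F' 2`; `d.L e k w = H h / a` vanishes
off `Slit r (√ε/2000)`, on which `|x| ≤ 1/16` and `|Q| ≤ 3 σ/256` (`σ = √e/10 ≥ √ε/10`).
`XQc d 1.3 ⊆ Box 1.35` is compact, `XQc 1.3 \ XQ 1.2 ⊆ Ring 1.15 1.35`. -/
theorem apply_S1 : ∃ C : ℝ, 0 < C ∧ ∀ (lam ε r : ℝ) (F F' : Fin 3 → Sm) (h : Sm)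
    (D : Data lam ε F F' h), 0 < lam → lam ≤ 1 → 0 < ε → ε ≤ lam ^ 2 / 100 → 0 < r →
    r ≤ √ε / 2000 →
    tsupport (h : ℝ × ℝ → ℝ) ⊆ Slit r (√ε / 2000) →
    ∫ p in XQ D.d 1.2, (D.d.mu * (D.d.PsiQ (√(ε / lam ^ 2)/10) *
        ((D.d.V (F 2 - F' 2)) ^ 2 + (ε / lam ^ 2) • (D.d.Y (F 2 - F' 2)) ^ 2
          + (F 2 - F' 2) ^ 2)) : Sm) p
      ≤ C * ∫ p in Ring 1.15 1.35, ((D1 (F 2 - F' 2) p) ^ 2 + (D2 (F 2 - F' 2) p) ^ 2
          + ((F 2 - F' 2 : Sm) p) ^ 2) := by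
  obtain ⟨C, hC, H⟩ := S1
  refine ⟨C * 16, by positivity, ?_⟩
  intro lam ε r F F' h D hlam hlam1 hε hεl hr hrε hsupp
  set w : Sm := F 2 - F' 2 with hw
  have he0 : 0 < ε / lam ^ 2 := by positivity
  have he1 : ε / lam ^ 2 ≤ 1 / 100 := by
    rw [div_le_iff₀ (by positivity)]; linarith
  have hlam2 : lam ^ 2 ≤ 1 := by nlinarith
  have hse : √ε ≤ √(ε / lam ^ 2) := by
    apply Real.sqrt_le_sqrt
    rw [le_div_iff₀ (by positivity)]
    nlinarith
  have hse0 : 0 ≤ √ε := Real.sqrt_nonneg _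
  have hsepos : 0 < √ε := Real.sqrt_pos.mpr hε
  have hse1 : √ε ≤ 1 / 10 := by
    rw [Real.sqrt_le_left (by norm_num)]
    nlinarith
  have key := H D.d (ε / lam ^ 2) D.k w he0 he1 (D3_compact D) ?_ ?_
  · refine key.trans ?_
    rw [mul_assoc]
    refine mul_le_mul_of_nonneg_left ?_ hC.le
    -- pointwise bound
    have hpt : ∀ p : ℝ × ℝ, (D.d.mu * ((D.d.V w) ^ 2 + (D.d.Y w) ^ 2 + w ^ 2) : Sm) p ≤
        16 * ((D1 w p) ^ 2 + (D2 w p) ^ 2 + (w p) ^ 2) := by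
      intro p
      have hmu : D.d.mu p ≤ 2 := by
        rw [D.mu_eq, mul_ap]
        have ha := abs_le.mp (D.a_bd p)
        have hJ := abs_le.mp (D.J_bd p)
        have hJ0 := D.fr.hpos p
        nlinarith [ha.1, ha.2, hJ.1, hJ.2]
      have hmu0 : 0 < D.d.mu p := D.d.mupos p
      obtain ⟨q1, q2, q3, q4⟩ := D.A_bd p
      rw [abs_le] at q1 q2 q3 q4
      have hV : (D.d.V w) p = D.d.A11 p * D1 w p + D.d.A12 p * D2 w p := rfl
      have hY : (D.d.Y w) p = D.d.A21 p * D1 w p + D.d.A22 p * D2 w p := rfl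
      rw [mul_ap, add_ap, add_ap, pow_ap, pow_ap, pow_ap, hV, hY]
      generalize D1 w p = a at *
      generalize D2 w p = b at *
      generalize w p = c at *
      generalize D.d.A11 p = a11 at *
      generalize D.d.A12 p = a12 at *
      generalize D.d.A21 p = a21 at *
      generalize D.d.A22 p = a22 at *
      have e1 : (a11 * a + a12 * b) ^ 2 ≤ 4 * (a ^ 2 + b ^ 2) := by
        have h1 : (a11 * a + a12 * b) ^ 2 ≤ 2 * ((a11 * a) ^ 2 + (a12 * b) ^ 2) := by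
          nlinarith [sq_nonneg (a11 * a - a12 * b)]
        have h2 : (a11 * a) ^ 2 ≤ 2 * a ^ 2 := by
          rw [mul_pow]
          have : a11 ^ 2 ≤ 2 := by nlinarith [q1.1, q1.2]
          exact mul_le_mul_of_nonneg_right this (sq_nonneg _)
        have h3 : (a12 * b) ^ 2 ≤ 2 * b ^ 2 := by
          rw [mul_pow]
          have : a12 ^ 2 ≤ 2 := by nlinarith [q2.1, q2.2]
          exact mul_le_mul_of_nonneg_right this (sq_nonneg _)
        linarith
      have e2 : (a21 * a + a22 * b) ^ 2 ≤ 4 * (a ^ 2 + b ^ 2) := by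
        have h1 : (a21 * a + a22 * b) ^ 2 ≤ 2 * ((a21 * a) ^ 2 + (a22 * b) ^ 2) := by
          nlinarith [sq_nonneg (a21 * a - a22 * b)]
        have h2 : (a21 * a) ^ 2 ≤ 2 * a ^ 2 := by
          rw [mul_pow]
          have : a21 ^ 2 ≤ 2 := by nlinarith [q3.1, q3.2]
          exact mul_le_mul_of_nonneg_right this (sq_nonneg _)
        have h3 : (a22 * b) ^ 2 ≤ 2 * b ^ 2 := by
          rw [mul_pow]
          have : a22 ^ 2 ≤ 2 := by nlinarith [q4.1, q4.2]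
          exact mul_le_mul_of_nonneg_right this (sq_nonneg _)
        linarith
      have e3 : (a11 * a + a12 * b) ^ 2 + (a21 * a + a22 * b) ^ 2 + c ^ 2 ≤
          8 * (a ^ 2 + b ^ 2 + c ^ 2) := by nlinarith [sq_nonneg c]
      have e4 : 0 ≤ (a11 * a + a12 * b) ^ 2 + (a21 * a + a22 * b) ^ 2 + c ^ 2 := by positivity
      nlinarith
    have hringbdd : Ring 1.15 1.35 ⊆ Set.Icc (-2 : ℝ) 2 ×ˢ Set.Icc (-2 : ℝ) 2 := by
      intro p hp
      have h2 := hp.2
      rw [max_lt_iff] at h2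
      obtain ⟨b1, b2⟩ := h2
      rw [abs_lt] at b1 b2
      norm_num at b1 b2
      refine ⟨⟨?_, ?_⟩, ⟨?_, ?_⟩⟩ <;> linarith [b1.1, b1.2, b2.1, b2.2]
    have hcpt : IsCompact (Set.Icc (-2 : ℝ) 2 ×ˢ Set.Icc (-2 : ℝ) 2) :=
      isCompact_Icc.prod isCompact_Icc
    have hcont1 : Continuous fun p : ℝ × ℝ =>
        (D.d.mu * ((D.d.V w) ^ 2 + (D.d.Y w) ^ 2 + w ^ 2) : Sm) p :=
      (smooth _).continuous
    have hcont2 : Continuous fun p : ℝ × ℝ => 16 * ((D1 w p) ^ 2 + (D2 w p) ^ 2 + (w p) ^ 2) := by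
      have c1 := (smooth (D1 w)).continuous
      have c2 := (smooth (D2 w)).continuous
      have c3 := (smooth w).continuous
      exact continuous_const.mul (((c1.pow 2).add (c2.pow 2)).add (c3.pow 2))
    have hsub : XQc D.d 1.3 \ XQ D.d 1.2 ⊆ Ring 1.15 1.35 := fun p hp => D3_ring D hp
    have hmeas : MeasurableSet (XQc D.d 1.3 \ XQ D.d 1.2) := by
      have hcl : IsClosed (XQc D.d 1.3) := (D3_compact D).isClosed
      have hop : IsOpen (XQ D.d 1.2) := by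
        have c1 : Continuous fun p : ℝ × ℝ => |D.d.x p| := (smooth D.d.x).continuous.abs
        have c2 : Continuous fun p : ℝ × ℝ => |D.d.Q p| := (smooth D.d.Q).continuous.abs
        exact (isOpen_lt c1 continuous_const).inter (isOpen_lt c2 continuous_const)
      exact hcl.measurableSet.diff hop.measurableSet
    have i1 : IntegrableOn (fun p : ℝ × ℝ =>
        (D.d.mu * ((D.d.V w) ^ 2 + (D.d.Y w) ^ 2 + w ^ 2) : Sm) p)
        (XQc D.d 1.3 \ XQ D.d 1.2) :=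
      (hcont1.continuousOn.integrableOn_compact hcpt).mono_set (hsub.trans hringbdd)
    have i2 : IntegrableOn (fun p : ℝ × ℝ => 16 * ((D1 w p) ^ 2 + (D2 w p) ^ 2 + (w p) ^ 2))
        (Ring 1.15 1.35) :=
      (hcont2.continuousOn.integrableOn_compact hcpt).mono_set hringbdd
    calc ∫ p in XQc D.d 1.3 \ XQ D.d 1.2,
          (D.d.mu * ((D.d.V w) ^ 2 + (D.d.Y w) ^ 2 + w ^ 2) : Sm) p
        ≤ ∫ p in XQc D.d 1.3 \ XQ D.d 1.2,
          16 * ((D1 w p) ^ 2 + (D2 w p) ^ 2 + (w p) ^ 2) :=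
          setIntegral_mono_on i1 (i2.mono_set hsub) hmeas (fun p _ => hpt p)
      _ ≤ ∫ p in Ring 1.15 1.35, 16 * ((D1 w p) ^ 2 + (D2 w p) ^ 2 + (w p) ^ 2) := by
          refine setIntegral_mono_set i2 ?_ (HasSubset.Subset.eventuallyLE hsub)
          exact Filter.Eventually.of_forall (fun p => by positivity)
      _ = _ := by rw [integral_const_mul]
  · intro p hp
    apply D.kclose
    obtain ⟨b1, b2⟩ := D3_box D hp
    exact ⟨b1.trans (by norm_num), b2.trans (by norm_num)⟩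
  · intro p hp hne
    obtain ⟨b1, b2⟩ := D3_box D hp
    have hpin : p ∈ tsupport (h : ℝ × ℝ → ℝ) := by
      by_contra hnot
      apply hne
      have h1 := D.pde p ⟨b1.trans (by norm_num), b2.trans (by norm_num)⟩
      rw [D3_H D hnot, D.L_eq, mul_ap] at h1
      have ha : 0 < D.fr.a (avg F F' 2) p := by
        have ha := abs_le.mp (D.a_bd p)
        linarith [ha.1]
      exact (mul_eq_zero.mp h1).resolve_left ha.ne'
    obtain ⟨s1, s2⟩ := hsupp hpin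
    have hx := D.x_bd p
    have hQ := D.Q_bd p
    rw [← D.dx] at hx
    have a1 : |D.d.x p| ≤ |p.1| + |D.d.x p - p.1| := by
      calc |D.d.x p| = |p.1 + (D.d.x p - p.1)| := by ring_nf
        _ ≤ _ := abs_add_le _ _
    have a2 : |D.d.Q p| ≤ |p.2| + |D.d.Q p - p.2| := by
      calc |D.d.Q p| = |p.2 + (D.d.Q p - p.2)| := by ring_nf
        _ ≤ _ := abs_add_le _ _
    constructor
    · linarith
    · linarith

end NI
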