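import Crest.Agent.NI_Data
import Crest.Agent.NI_B1
import Crest.Agent.NI_T09
import Crest.Agent.NI_T10

set_option autoImplicit false
open scoped ContDiff
open MeasureTheory

namespace NI

theorem D3b_D_tsupport (v : ℝ × ℝ) (g : Sm) {p : ℝ × ℝ} (hp : (Dv v g) p ≠ 0) :
    p ∈ tsupport (g : ℝ × ℝ → ℝ) := by
  have h1 : fderiv ℝ (g : ℝ × ℝ → ℝ) p ≠ 0 := by
    intro h
    apply hp
    rw [Dv_ap, h]
    rfl
  exact support_fderiv_subset ℝ h1

theorem D3b_tsupport_D (v : ℝ × ℝ) (g : Sm) :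
    tsupport (Dv v g : ℝ × ℝ → ℝ) ⊆ tsupport (g : ℝ × ℝ → ℝ) :=
  closure_minimal (fun _ hp => D3b_D_tsupport v g hp) isClosed_closure

theorem D3b_not_tsupport (g : Sm) {p : ℝ × ℝ} (hp : p ∉ tsupport (g : ℝ × ℝ → ℝ)) :
    g p = 0 ∧ (D1 g) p = 0 ∧ (D2 g) p = 0 ∧ (D2 (D2 g)) p = 0 := by
  refine ⟨image_eq_zero_of_notMem_tsupport hp, ?_, ?_, ?_⟩
  · exact image_eq_zero_of_notMem_tsupport fun h => hp (D3b_tsupport_D _ g h)
  · exact image_eq_zero_of_notMem_tsupport fun h => hp (D3b_tsupport_D _ g h)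
  · exact image_eq_zero_of_notMem_tsupport fun h =>
      hp (D3b_tsupport_D _ g (D3b_tsupport_D _ (D2 g) h))

theorem D3b_aux (C1 : ℝ) (hC1 : 0 < C1) (lam ε ϖ A : ℝ) (n : ℕ) (h : Sm)
    (F F' : Fin 3 → Sm) (D : Data lam ε F F' h) (hlam : 0 < lam) (hε2 : ε ≤ lam ^ 2 / 100)
    (hA : 0 < A) (hϖ : 0 < ϖ) (hϖ1 : ϖ ≤ 1/100) (hnϖ : ((n : ℝ) + 1) * ϖ ≤ 1/2000)
    (hsupp : ∀ p : ℝ × ℝ, p ∈ tsupport (h : ℝ × ℝ → ℝ) →
      |p.1| ≤ ϖ ^ 2 ∧ 7 * ϖ / 8 ≤ p.2 ∧ p.2 ≤ (n + 1/8) * ϖ)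
    (hB : ∀ p : ℝ × ℝ, |h p| ≤ A ∧ |D1 h p| ≤ C1 * A / ϖ ^ 2 ∧
      |D2 h p| ≤ C1 * A / ϖ ∧ |D2 (D2 h) p| ≤ C1 * A / ϖ ^ 2) :
    ∫ p in Lens2 D.d (ε / lam ^ 2), (D.d.mu * (D.d.L (ε / lam ^ 2) D.k (F 2 - F' 2)) ^ 2 : Sm) p
      ≤ 8 * (1 + 3 * C1) ^ 2 * D.CH ^ 2 * A ^ 2 / (lam * ϖ ^ 2) := by
  set e : ℝ := ε / lam ^ 2 with he
  set w : Sm := F 2 - F' 2 with hw
  have hϖ2 : 0 < ϖ ^ 2 := by positivity
  have hϖle : ϖ ^ 2 ≤ ϖ := by nlinarith
  have hϖ1' : ϖ ≤ 1 := by linarith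
  have he1 : e ≤ 1/100 := by
    rw [he, div_le_iff₀ (by positivity)]
    linarith
  have hsq : √e ≤ 1/10 := by
    rw [show (1/10 : ℝ) = √(1/100) by
      rw [show (1/100 : ℝ) = (1/10) ^ 2 by norm_num, Real.sqrt_sq (by norm_num)]]
    exact Real.sqrt_le_sqrt he1
  -- the bounding constant
  set M : ℝ := 8 * (D.CH * (A * (1 + 3 * C1) / ϖ ^ 2)) ^ 2 / lam with hM
  have hM0 : 0 ≤ M := by positivity
  set S : Set (ℝ × ℝ) := Set.Icc (-ϖ ^ 2) (ϖ ^ 2) ×ˢ Set.Icc (0 : ℝ) (1/2000) with hS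
  have hbox : ∀ p ∈ Lens2 D.d e, p ∈ Box 1.8 := by
    intro p hp
    obtain ⟨h1, h2⟩ := hp
    have h3 := D.x_bd p
    rw [D.dx] at h1
    have h4 := D.Q_bd p
    have h5 : |p.1| ≤ 0.26 := by
      have := abs_sub_abs_le_abs_sub (p.1) (D.fr.x p)
      rw [abs_sub_comm] at this
      linarith
    have h6 : |D.d.Q p| ≤ 1/1600 := by
      refine h2.trans ?_
      linarith
    have h7 : |p.2| ≤ 1 := by
      have := abs_sub_abs_le_abs_sub (p.2) (D.d.Q p)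
      rw [abs_sub_comm] at this
      have := abs_nonneg p.2
      linarith
    exact ⟨by linarith, by linarith⟩
  have hcl : IsClosed (Lens2 D.d e) := by
    apply IsClosed.and
    · exact isClosed_le (smooth D.d.x).continuous.abs continuous_const
    · exact isClosed_le (smooth D.d.Q).continuous.abs continuous_const
  have hpt : ∀ p ∈ Lens2 D.d e,
      (D.d.mu * (D.d.L e D.k w) ^ 2 : Sm) p ≤ S.indicator (fun _ => M) p := by
    intro p hp
    have hpB := hbox p hp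
    have hpde := D.pde p hpB
    have hL := D.L_eq w
    have hLp : D.fr.a (avg F F' 2) p * (D.d.L e D.k w) p = D.fr.H h p := by
      rw [← hpde]
      have := congrArg (fun f : Sm => f p) hL
      simpa using this.symm
    have ha := D.a_bd p
    have hJ := D.J_bd p
    rw [abs_le] at ha hJ
    have ha1 : lam / 2 ≤ D.fr.a (avg F F' 2) p := by linarith
    have ha2 : D.fr.a (avg F F' 2) p ≤ 3 / 2 * lam := by linarith
    have ha0 : 0 < D.fr.a (avg F F' 2) p := by linarith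
    have hmu : D.d.mu p = D.fr.a (avg F F' 2) p * D.fr.J p := by
      have := congrArg (fun f : Sm => f p) D.mu_eq
      simpa using this
    have hval : (D.d.mu * (D.d.L e D.k w) ^ 2 : Sm) p =
        D.fr.J p * (D.fr.H h p) ^ 2 / D.fr.a (avg F F' 2) p := by
      have h1 : (D.d.L e D.k w) p = D.fr.H h p / D.fr.a (avg F F' 2) p := by
        rw [eq_div_iff ha0.ne', mul_comm]; exact hLp
      rw [mul_ap, pow_ap, h1, hmu]
      field_simp
    by_cases hsup : p ∈ tsupport (h : ℝ × ℝ → ℝ)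
    · have hsp := hsupp p hsup
      obtain ⟨s1, s2, s3⟩ := hsp
      rw [abs_le] at s1
      have hpS : p ∈ S := by
        refine ⟨⟨by linarith [s1.1], s1.2⟩, ⟨by linarith, ?_⟩⟩
        refine s3.trans ?_
        nlinarith
      rw [Set.indicator_of_mem hpS, hval]
      obtain ⟨b1, b2, b3, b4⟩ := hB p
      have hH := D.H_bd h p
      have hsum : |h p| + |D1 h p| + |D2 h p| + |D2 (D2 h) p| ≤ A * (1 + 3 * C1) / ϖ ^ 2 := by
        have c1 : A ≤ A / ϖ ^ 2 := by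
          rw [le_div_iff₀ hϖ2]
          nlinarith
        have c2 : C1 * A / ϖ ≤ C1 * A / ϖ ^ 2 :=
          div_le_div_of_nonneg_left (by positivity) hϖ2 hϖle
        have c3 : A * (1 + 3 * C1) / ϖ ^ 2 = A / ϖ ^ 2 + C1 * A / ϖ ^ 2 + C1 * A / ϖ ^ 2
            + C1 * A / ϖ ^ 2 := by ring
        rw [c3]
        linarith
      have hsum0 : 0 ≤ |h p| + |D1 h p| + |D2 h p| + |D2 (D2 h) p| := by positivity
      have hH2 : (D.fr.H h p) ^ 2 ≤ (D.CH * (A * (1 + 3 * C1) / ϖ ^ 2)) ^ 2 := by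
        rw [← sq_abs (D.fr.H h p)]
        have hsq1 : |D.fr.H h p| ^ 2 ≤
            (D.CH * (|h p| + |D1 h p| + |D2 h p| + |D2 (D2 h) p|)) ^ 2 :=
          pow_le_pow_left₀ (abs_nonneg _) hH 2
        refine hsq1.trans ?_
        rw [mul_pow, mul_pow]
        apply mul_le_mul_of_nonneg_left _ (sq_nonneg _)
        exact pow_le_pow_left₀ hsum0 hsum 2
      rw [hM, div_le_div_iff₀ ha0 hlam]
      have hJ2 : D.fr.J p ≤ 2 := by linarith
      have hJ0 : 0 ≤ D.fr.J p := by linarith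
      have hH0 := sq_nonneg (D.fr.H h p)
      calc D.fr.J p * (D.fr.H h p) ^ 2 * lam ≤ 2 * (D.CH * (A * (1 + 3 * C1) / ϖ ^ 2)) ^ 2 * lam := by
            apply mul_le_mul_of_nonneg_right _ hlam.le
            exact mul_le_mul hJ2 hH2 hH0 (by norm_num)
        _ ≤ 8 * (D.CH * (A * (1 + 3 * C1) / ϖ ^ 2)) ^ 2 * D.fr.a (avg F F' 2) p := by
            have := sq_nonneg (D.CH * (A * (1 + 3 * C1) / ϖ ^ 2))
            nlinarith
    · obtain ⟨z1, z2, z3, z4⟩ := D3b_not_tsupport h hsup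
      have hH := D.H_bd h p
      rw [z1, z2, z3, z4] at hH
      simp only [abs_zero, add_zero, mul_zero] at hH
      have hH0 : D.fr.H h p = 0 := abs_nonpos_iff.1 hH
      rw [hval, hH0]
      simp only [ne_eq, OfNat.ofNat_ne_zero, not_false_eq_true, zero_pow, mul_zero, zero_div]
      exact Set.indicator_nonneg (fun _ _ => hM0) p
  have hSm : MeasurableSet S := measurableSet_Icc.prod measurableSet_Icc
  have hSf : volume S < ⊤ := (isCompact_Icc.prod isCompact_Icc).measure_lt_top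
  have hint : Integrable (S.indicator (fun _ : ℝ × ℝ => M)) volume :=
    (integrable_indicator_iff hSm).2 (integrableOn_const hSf.ne)
  have hvol : volume.real S = 2 * ϖ ^ 2 * (1/2000) := by
    rw [hS, Measure.volume_eq_prod, measureReal_prod_prod, Real.volume_real_Icc_of_le (by linarith),
      Real.volume_real_Icc_of_le (by norm_num)]
    ring
  calc ∫ p in Lens2 D.d e, (D.d.mu * (D.d.L e D.k w) ^ 2 : Sm) p
      ≤ ∫ p in Lens2 D.d e, S.indicator (fun _ => M) p := by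
        apply integral_mono_of_nonneg
        · refine Filter.Eventually.of_forall fun p => ?_
          show 0 ≤ (D.d.mu * (D.d.L e D.k w) ^ 2 : Sm) p
          rw [mul_ap, pow_ap]
          have := (D.d.mupos p).le
          positivity
        · exact hint.integrableOn
        · exact (ae_restrict_iff' hcl.measurableSet).2 (Filter.Eventually.of_forall hpt)
    _ ≤ ∫ p, S.indicator (fun _ => M) p :=
        setIntegral_le_integral hint (Filter.Eventually.of_forall fun p =>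
          Set.indicator_nonneg (fun _ _ => hM0) p)
    _ = volume.real S * M := by
        rw [integral_indicator hSm, setIntegral_const, smul_eq_mul]
    _ ≤ 8 * (1 + 3 * C1) ^ 2 * D.CH ^ 2 * A ^ 2 / (lam * ϖ ^ 2) := by
        rw [hvol, hM]
        have key : 2 * ϖ ^ 2 * (1/2000) * (8 * (D.CH * (A * (1 + 3 * C1) / ϖ ^ 2)) ^ 2 / lam) =
            (1/1000) * (8 * (1 + 3 * C1) ^ 2 * D.CH ^ 2 * A ^ 2 / (lam * ϖ ^ 2)) := by
          field_simp
          ring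
        rw [key]
        have hnn : 0 ≤ 8 * (1 + 3 * C1) ^ 2 * D.CH ^ 2 * A ^ 2 / (lam * ϖ ^ 2) := by positivity
        linarith

/-- bound of the right-hand side in `L²`: `|d.L e k w| = |H h|/a ≤ C A ϖ⁻²/lam` on the slit of
area `≤ 4 r`, `r = ϖ²`. -/
theorem rhs_L2 : ∃ C : ℝ, 0 < C ∧ ∀ (lam ε ϖ A : ℝ) (n : ℕ) (τ : Fin n → ℝ)
    (F F' : Fin 3 → Sm)
    (D : Data lam ε F F' (hh A (ϖ ^ 2) ϖ n τ)), 0 < lam → lam ≤ 1 → 0 < ε → ε ≤ lam ^ 2 / 100 →
    0 < A → 0 < ϖ → ϖ ≤ 1/100 → ((n : ℝ) + 1) * ϖ ≤ 1/2000 → (∀ i, |τ i| ≤ 1) →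
    ∫ p in Lens2 D.d (ε / lam ^ 2), (D.d.mu * (D.d.L (ε / lam ^ 2) D.k (F 2 - F' 2)) ^ 2 : Sm) p
      ≤ C * D.CH ^ 2 * A ^ 2 / (lam * ϖ ^ 2) := by
  obtain ⟨C1, hC1, hB⟩ := hh_bound
  refine ⟨8 * (1 + 3 * C1) ^ 2, by positivity, ?_⟩
  intro lam ε ϖ A n τ F F' D hlam _ _ hε2 hA hϖ hϖ1 hnϖ hτ
  have hϖ2 : 0 < ϖ ^ 2 := by positivity
  have hϖle : ϖ ^ 2 ≤ ϖ := by nlinarith
  exact D3b_aux C1 hC1 lam ε ϖ A n _ F F' D hlam hε2 hA hϖ hϖ1 hnϖ
    (fun p hp => hh_support A (ϖ ^ 2) ϖ n τ hϖ2 hϖ p hp)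
    (fun p => hB A (ϖ ^ 2) ϖ n τ hA hϖ2 hϖle (by linarith) hτ p)

end NI
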