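import Crest.Agent.NI_Data
import Crest.Agent.NI_B1
import Crest.Agent.NI_T00
import Crest.Agent.NI_T01
import Crest.Agent.NI_T02
import Crest.Agent.NI_G1b

set_option autoImplicit false
open scoped ContDiff
open MeasureTheory

namespace NI

private theorem sm_sum_ap {ι : Type*} (s : Finset ι) (f : ι → Sm) (p : ℝ × ℝ) :
    (∑ i ∈ s, f i : Sm) p = ∑ i ∈ s, (f i) p := by
  classical
  induction s using Finset.induction_on with
  | empty => rfl
  | insert a s ha ih => rw [Finset.sum_insert ha, Finset.sum_insert ha, add_ap, ih]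

private theorem hh_ap (A r ϖ : ℝ) (n : ℕ) (τ : Fin n → ℝ) (p : ℝ × ℝ) :
    hh A r ϖ n τ p = A * ∑ i : Fin n, τ i * zeta r ϖ (((i : ℕ) + 1 : ℝ) * ϖ) p := by
  unfold hh
  rw [smul_ap, sm_sum_ap]
  rfl

private theorem zeta_ap (r ϖ t0 : ℝ) (p : ℝ × ℝ) :
    zeta r ϖ t0 p = ct (1/2) 1 (r⁻¹ * p.1) * ct (1/2) 1 ((8/ϖ) * (p.2 - t0 * 1)) := rfl

private theorem zeta_nonneg' (r ϖ t0 : ℝ) (p : ℝ × ℝ) : 0 ≤ zeta r ϖ t0 p := by
  rw [zeta_ap]; exact mul_nonneg (ct_nonneg _ _ _) (ct_nonneg _ _ _)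

private theorem zeta_ne (r ϖ t0 : ℝ) (hr : 0 < r) (hϖ : 0 < ϖ) (p : ℝ × ℝ)
    (h : zeta r ϖ t0 p ≠ 0) : |p.1| < r ∧ |p.2 - t0| < ϖ / 8 := by
  rw [zeta_ap] at h
  constructor
  · by_contra hc
    rw [not_lt] at hc
    apply h
    rw [ct_zero (by norm_num) (by norm_num) (b := 1), zero_mul]
    rw [abs_mul, abs_of_pos (inv_pos.mpr hr), ← div_eq_inv_mul, le_div_iff₀ hr, one_mul]
    exact hc
  · by_contra hc
    rw [not_lt] at hc
    apply h
    rw [mul_comm, ct_zero (by norm_num) (by norm_num) (b := 1), zero_mul]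
    rw [abs_mul, abs_of_pos (by positivity : (0:ℝ) < 8/ϖ), mul_one]
    rw [div_mul_eq_mul_div, le_div_iff₀ hϖ]
    linarith

private theorem zeta_one (r ϖ t0 : ℝ) (hr : 0 < r) (hϖ : 0 < ϖ) (p : ℝ × ℝ)
    (h1 : |p.1| ≤ r / 2) (h2 : |p.2 - t0| ≤ ϖ / 16) : zeta r ϖ t0 p = 1 := by
  rw [zeta_ap, ct_one (by norm_num) (by norm_num), ct_one (by norm_num) (by norm_num), one_mul]
  · rw [abs_mul, abs_of_pos (by positivity : (0:ℝ) < 8/ϖ), mul_one]
    rw [div_mul_eq_mul_div, div_le_iff₀ hϖ]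
    linarith
  · rw [abs_mul, abs_of_pos (inv_pos.mpr hr), ← div_eq_inv_mul, div_le_iff₀ hr]
    linarith

private theorem y_mvt (y : Sm) (c : ℝ) (hc : 0 ≤ c)
    (h : ∀ p : ℝ × ℝ, |D1 y p| ≤ c ∧ |D2 y p - 1| ≤ c) (p q : ℝ × ℝ) :
    |y p - y q - (p.2 - q.2)| ≤ 2 * c * max |p.1 - q.1| |p.2 - q.2| := by
  have hd : ∀ x ∈ (Set.univ : Set (ℝ × ℝ)), HasFDerivWithinAt (fun p : ℝ × ℝ => y p - p.2)
      (fderiv ℝ (y : ℝ × ℝ → ℝ) x - ContinuousLinearMap.snd ℝ ℝ ℝ) Set.univ x := by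
    intro x _
    exact ((diffAt y x).hasFDerivAt.sub hasFDerivAt_snd).hasFDerivWithinAt
  have hb : ∀ x ∈ (Set.univ : Set (ℝ × ℝ)),
      ‖fderiv ℝ (y : ℝ × ℝ → ℝ) x - ContinuousLinearMap.snd ℝ ℝ ℝ‖ ≤ 2 * c := by
    intro x _
    refine ContinuousLinearMap.opNorm_le_bound _ (by positivity) fun v => ?_
    obtain ⟨v1, v2⟩ := v
    have hv : ((v1, v2) : ℝ × ℝ) = v1 • ((1:ℝ),(0:ℝ)) + v2 • ((0:ℝ),(1:ℝ)) := by
      ext <;> simp
    have e : (fderiv ℝ (y : ℝ × ℝ → ℝ) x - ContinuousLinearMap.snd ℝ ℝ ℝ) (v1, v2)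
        = v1 * D1 y x + v2 * (D2 y x - 1) := by
      rw [D1_ap, D2_ap, hv, map_add, map_smul, map_smul]
      simp [smul_eq_mul]
    rw [e, Real.norm_eq_abs]
    have h1 : |v1| ≤ ‖((v1, v2) : ℝ × ℝ)‖ := by
      have := norm_fst_le ((v1, v2) : ℝ × ℝ); simpa using this
    have h2 : |v2| ≤ ‖((v1, v2) : ℝ × ℝ)‖ := by
      have := norm_snd_le ((v1, v2) : ℝ × ℝ); simpa using this
    have hn : 0 ≤ ‖((v1, v2) : ℝ × ℝ)‖ := norm_nonneg _
    calc |v1 * D1 y x + v2 * (D2 y x - 1)| ≤ |v1| * |D1 y x| + |v2| * |D2 y x - 1| := by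
          refine (abs_add_le _ _).trans ?_
          rw [abs_mul, abs_mul]
      _ ≤ ‖((v1, v2) : ℝ × ℝ)‖ * c + ‖((v1, v2) : ℝ × ℝ)‖ * c := by
          exact add_le_add (mul_le_mul h1 (h x).1 (abs_nonneg _) hn)
            (mul_le_mul h2 (h x).2 (abs_nonneg _) hn)
      _ = 2 * c * ‖((v1, v2) : ℝ × ℝ)‖ := by ring
  have hm := Convex.norm_image_sub_le_of_norm_hasFDerivWithin_le hd hb convex_univ
    (Set.mem_univ q) (Set.mem_univ p)
  have e1 : ‖(y p - p.2) - (y q - q.2)‖ = |y p - y q - (p.2 - q.2)| := by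
    rw [Real.norm_eq_abs]; congr 1; ring
  have e2 : ‖p - q‖ = max |p.1 - q.1| |p.2 - q.2| := by
    rw [Prod.norm_def]; rfl
  rw [e1, e2] at hm
  exact hm

private theorem f00s_d (ϖ : ℝ) (hϖ : 0 < ϖ) :
    deriv (f00s ϖ) = fun x => ϖ * deriv F00 (x / ϖ) := by
  funext x
  have h1 : HasDerivAt F00 (deriv F00 (x / ϖ)) (x / ϖ) :=
    ((F00_contDiff.differentiable (by simp)) _).hasDerivAt
  have h2 : HasDerivAt (fun x : ℝ => x / ϖ) (1 / ϖ) x := (hasDerivAt_id x).div_const ϖ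
  have h3 := (h1.comp x h2).const_mul (ϖ ^ 2)
  have h4 : HasDerivAt (f00s ϖ) (ϖ ^ 2 * (deriv F00 (x / ϖ) * (1 / ϖ))) x := h3
  rw [h4.deriv]
  field_simp

private theorem f00s_dd (ϖ : ℝ) (hϖ : 0 < ϖ) :
    deriv (deriv (f00s ϖ)) = fun x => deriv (deriv F00) (x / ϖ) := by
  rw [f00s_d ϖ hϖ]
  funext x
  have hc1 : ContDiff ℝ ∞ (deriv F00) := contDiff_deriv F00_contDiff
  have h1 : HasDerivAt (deriv F00) (deriv (deriv F00) (x / ϖ)) (x / ϖ) :=
    ((hc1.differentiable (by simp)) _).hasDerivAt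
  have h2 : HasDerivAt (fun x : ℝ => x / ϖ) (1 / ϖ) x := (hasDerivAt_id x).div_const ϖ
  have h3 := (h1.comp x h2).const_mul ϖ
  have h4 : HasDerivAt (fun x => ϖ * deriv F00 (x / ϖ))
    (ϖ * (deriv (deriv F00) (x / ϖ) * (1 / ϖ))) x := h3
  rw [h4.deriv]
  field_simp

private theorem F00_dd_zero {r : ℝ} (h : 1/2 < |r|) : deriv (deriv F00) r = 0 := by
  have ho : IsOpen {x : ℝ | 1/2 < |x|} := isOpen_lt continuous_const continuous_abs
  have h1 : ∀ x : ℝ, 1/2 < |x| → deriv F00 x = 0 := by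
    intro x hx
    have : F00 =ᶠ[nhds x] fun _ => 0 := by
      filter_upwards [ho.mem_nhds hx] with y hy
      exact F00_zero (le_of_lt hy)
    rw [this.deriv_eq, deriv_const]
  have : deriv F00 =ᶠ[nhds r] fun _ => 0 := by
    filter_upwards [ho.mem_nhds h] with y hy
    exact h1 y hy
  rw [this.deriv_eq, deriv_const]

/-- derivatives of the test function near the slit -/
private theorem tst_der (fr : Frame) (σ' ϖ y0 : ℝ) (hσ : 0 < σ') (p : ℝ × ℝ)
    (hp : |p.1| < σ' / 2) :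
    fr.d2 (fr.d2 (tst fr.y σ' ϖ y0)) p = deriv (deriv (f00s ϖ)) (fr.y p - y0) ∧
    fr.d1 (fr.d1 (tst fr.y σ' ϖ y0)) p = 0 ∧ fr.d1 (fr.d2 (tst fr.y σ' ϖ y0)) p = 0 := by
  set Ω : Set (ℝ × ℝ) := {q | |q.1| < σ' / 2} with hΩdef
  have hΩ : IsOpen Ω := isOpen_lt (continuous_abs.comp continuous_fst) continuous_const
  set U : Sm := cmp (f00s ϖ) (f00s_contDiff ϖ) (fr.y - y0 • (1 : Sm)) with hU
  set U1 : Sm := cmp (deriv (f00s ϖ)) (contDiff_deriv (f00s_contDiff ϖ))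
    (fr.y - y0 • (1 : Sm)) with hU1
  have hone : ∀ (E : Derivation ℝ Sm Sm), E (y0 • (1 : Sm)) = 0 := by
    intro E
    rw [E.map_smul, E.map_one_eq_zero, smul_zero]
  have e1 : fr.d1 (fr.y - y0 • (1 : Sm)) = 0 := by
    rw [map_sub, hone, Frame.d1_y, sub_zero]
  have e2 : fr.d2 (fr.y - y0 • (1 : Sm)) = 1 := by
    rw [map_sub, hone, Frame.d2_y, sub_zero]
  have hd1U : fr.d1 U = 0 := by
    have : fr.d1 U = U1 * fr.d1 (fr.y - y0 • (1 : Sm)) := vf_cmp _ _ _ _ _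
    rw [this, e1, mul_zero]
  have hd2U : fr.d2 U = U1 := by
    have : fr.d2 U = U1 * fr.d2 (fr.y - y0 • (1 : Sm)) := vf_cmp _ _ _ _ _
    rw [this, e2, mul_one]
  have hd1U1 : fr.d1 U1 = 0 := by
    have : fr.d1 U1 = cmp (deriv (deriv (f00s ϖ)))
      (contDiff_deriv (contDiff_deriv (f00s_contDiff ϖ))) (fr.y - y0 • (1 : Sm))
        * fr.d1 (fr.y - y0 • (1 : Sm)) := vf_cmp _ _ _ _ _
    rw [this, e1, mul_zero]
  have hd2U1 : fr.d2 U1 = cmp (deriv (deriv (f00s ϖ)))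
      (contDiff_deriv (contDiff_deriv (f00s_contDiff ϖ))) (fr.y - y0 • (1 : Sm)) := by
    have : fr.d2 U1 = cmp (deriv (deriv (f00s ϖ)))
      (contDiff_deriv (contDiff_deriv (f00s_contDiff ϖ))) (fr.y - y0 • (1 : Sm))
        * fr.d2 (fr.y - y0 • (1 : Sm)) := vf_cmp _ _ _ _ _
    rw [this, e2, mul_one]
  have h0 : ∀ q ∈ Ω, tst fr.y σ' ϖ y0 q = U q := by
    intro q hq
    have hq' : |q.1| < σ' / 2 := hq
    show ct (σ'/2) σ' (Xs q) * U q = U q
    rw [Xs_ap, ct_one (by linarith) (by linarith) hq'.le, one_mul]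
  have h1 : ∀ q ∈ Ω, fr.d1 (tst fr.y σ' ϖ y0) q = fr.d1 U q :=
    vf_congr_open _ _ _ _ Ω hΩ h0
  have h2 : ∀ q ∈ Ω, fr.d2 (tst fr.y σ' ϖ y0) q = fr.d2 U q :=
    vf_congr_open _ _ _ _ Ω hΩ h0
  have h11 : ∀ q ∈ Ω, fr.d1 (fr.d1 (tst fr.y σ' ϖ y0)) q = fr.d1 (fr.d1 U) q :=
    vf_congr_open _ _ _ _ Ω hΩ h1
  have h12 : ∀ q ∈ Ω, fr.d1 (fr.d2 (tst fr.y σ' ϖ y0)) q = fr.d1 (fr.d2 U) q :=
    vf_congr_open _ _ _ _ Ω hΩ h2
  have h22 : ∀ q ∈ Ω, fr.d2 (fr.d2 (tst fr.y σ' ϖ y0)) q = fr.d2 (fr.d2 U) q :=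
    vf_congr_open _ _ _ _ Ω hΩ h2
  refine ⟨?_, ?_, ?_⟩
  · rw [h22 p hp, hd2U, hd2U1, cmp_ap, sub_ap, smul_ap, one_ap, mul_one]
  · rw [h11 p hp, hd1U, map_zero, zero_ap]
  · rw [h12 p hp, hd2U, hd1U1, zero_ap]

/-- lower bound of the pairing of the right-hand side with the test function of bump `i`:
by `Frame.rhs_parts` it equals `-(1/2) A τ_i ∫ ζ_i (D2 y)² Ji · 1`; on the support of `ζ_i` one has
`|y - y0| < ϖ/4` (so `f'' = 1`), on the supports of the other bumps `|y-y0| > ϖ/2` (so the test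
function vanishes), and `ct (σ'/2) σ' (s) = 1` near the supports (`r < σ'/2`). -/
theorem pair_lower (lam ε r ϖ A σ' : ℝ) (n : ℕ) (τ : Fin n → ℝ) (F F' : Fin 3 → Sm) (h : Sm)
    (D : Data lam ε F F' h) (hA : 0 < A) (hϖ : 0 < ϖ) (hϖ1 : ϖ ≤ 1/100) (hr : 0 < r)
    (hr1 : r ≤ ϖ ^ 2) (hσ : r < σ' / 2) (i : Fin n) (hi : |τ i| = 1) :
    A * r * ϖ / 20 ≤ |∫ p, (D.fr.J * (D.fr.H (hh A r ϖ n τ)
      * tst D.fr.y σ' ϖ (D.fr.y (0, ((i : ℕ) + 1 : ℝ) * ϖ))) : Sm) p| := by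
  have hσ0 : 0 < σ' := by linarith
  set t0 : ℝ := ((i : ℕ) + 1 : ℝ) * ϖ with ht0
  set y0 : ℝ := D.fr.y (0, t0) with hy0
  set u : Sm := tst D.fr.y σ' ϖ y0 with hu
  set g : Sm := hh A r ϖ n τ with hg
  have hrϖ : r ≤ ϖ / 100 := by nlinarith
  -- mean value
  have hmv : ∀ p : ℝ × ℝ, |D.fr.y p - y0 - (p.2 - t0)| ≤ 1/5000 * max |p.1| |p.2 - t0| := by
    intro p
    have := y_mvt D.fr.y (1/10000) (by norm_num) (fun p => ⟨(D.D_bd p).2.2.1, (D.D_bd p).2.2.2⟩)
      p (0, t0)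
    simp only [sub_zero] at this
    calc _ ≤ _ := this
      _ = _ := by ring
  -- compact support of the test function
  have hcs : HasCompactSupport (u : ℝ × ℝ → ℝ) := by
    refine HasCompactSupport.intro
      ((isCompact_Icc (a := -σ') (b := σ')).prod
        (isCompact_Icc (a := y0 - ϖ - 1) (b := y0 + ϖ + 1))) ?_
    intro p hp
    by_contra hne
    apply hp
    have hup : u p = ct (σ'/2) σ' p.1 * f00s ϖ (D.fr.y p - y0 * 1) := rfl
    rw [hup, mul_one] at hne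
    have h1 : |p.1| < σ' := by
      by_contra hc
      rw [not_lt] at hc
      exact hne (by rw [ct_zero (by linarith) (by linarith) hc, zero_mul])
    have h2 : |D.fr.y p - y0| < ϖ := by
      by_contra hc
      rw [not_lt] at hc
      apply hne
      have : F00 ((D.fr.y p - y0) / ϖ) = 0 := by
        apply F00_zero
        rw [abs_div, abs_of_pos hϖ, le_div_iff₀ hϖ]
        linarith
      rw [f00s, this, mul_zero, mul_zero]
    have h3 := D.y_bd p
    rw [abs_le] at h3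
    rw [abs_lt] at h1 h2
    refine ⟨⟨by linarith, by linarith⟩, ⟨by linarith, by linarith⟩⟩
  -- the integration by parts
  have hibp := Frame.rhs_parts D.fr D.comm D.int1 D.int2 (g * D.fr.al ^ 2)
    (-(g * D.fr.al * D.fr.be)) (g * D.fr.be ^ 2) u hcs
  have hint : ∫ p, (D.fr.J * (D.fr.H g * u) : Sm) p
      = - ∫ p, (D.fr.J * ((1/2:ℝ) • ((g * D.fr.al ^ 2) * D.fr.d2 (D.fr.d2 u))
        + (1/2:ℝ) • ((g * D.fr.be ^ 2) * D.fr.d1 (D.fr.d1 u))
        - (-(g * D.fr.al * D.fr.be)) * D.fr.d1 (D.fr.d2 u))) p := by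
    rw [← hibp, ← integral_neg]
    apply integral_congr_ae
    filter_upwards with p
    simp only [Frame.H, mul_ap, neg_ap]
    ring
  -- pointwise evaluation of the integrand
  set ζ : Sm := zeta r ϖ t0 with hζ
  have hpt : ∀ p : ℝ × ℝ, (D.fr.J * ((1/2:ℝ) • ((g * D.fr.al ^ 2) * D.fr.d2 (D.fr.d2 u))
        + (1/2:ℝ) • ((g * D.fr.be ^ 2) * D.fr.d1 (D.fr.d1 u))
        - (-(g * D.fr.al * D.fr.be)) * D.fr.d1 (D.fr.d2 u)) : Sm) p
      = (A / 2 * τ i) * (ζ * (D.fr.J * D.fr.al ^ 2) : Sm) p := by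
    intro p
    by_cases hp : |p.1| < σ' / 2
    · obtain ⟨e22, e11, e12⟩ := tst_der D.fr σ' ϖ y0 hσ0 p hp
      have hsum : g p * deriv (deriv (f00s ϖ)) (D.fr.y p - y0) = A * τ i * ζ p := by
        rw [hg, hh_ap, mul_assoc, Finset.sum_mul, Finset.sum_eq_single i, mul_assoc A]
        · congr 1
          rw [← ht0, ← hζ, mul_assoc]
          congr 1
          by_cases hz : ζ p = 0
          · rw [hz, zero_mul]
          · obtain ⟨a1, a2⟩ := zeta_ne r ϖ t0 hr hϖ p hz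
            have : |D.fr.y p - y0| < ϖ / 4 := by
              have h1 := hmv p
              have h2 : max |p.1| |p.2 - t0| ≤ ϖ / 8 := max_le (by linarith) a2.le
              have h3 : |D.fr.y p - y0 - (p.2 - t0)| ≤ 1/5000 * (ϖ / 8) := by linarith
              have h4 : |D.fr.y p - y0| ≤ |D.fr.y p - y0 - (p.2 - t0)| + |p.2 - t0| := by
                have := abs_add_le (D.fr.y p - y0 - (p.2 - t0)) (p.2 - t0)
                rwa [sub_add_cancel] at this
              linarith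
            have hd : deriv (deriv (f00s ϖ)) (D.fr.y p - y0) = 1 := by
              rw [f00s_dd ϖ hϖ]
              apply F00_dd_one
              rw [abs_div, abs_of_pos hϖ, div_lt_iff₀ hϖ]
              linarith
            rw [hd, mul_one]
        · intro j _ hji
          by_cases hz : zeta r ϖ (((j : ℕ) + 1 : ℝ) * ϖ) p = 0
          · rw [hz]; ring
          · obtain ⟨a1, a2⟩ := zeta_ne r ϖ _ hr hϖ p hz
            have hdist : ϖ ≤ |((j : ℕ) + 1 : ℝ) * ϖ - t0| := by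
              rw [ht0, ← sub_mul, abs_mul, abs_of_pos hϖ]
              have h1 : (1:ℝ) ≤ |(((j : ℕ) : ℝ) + 1) - (((i : ℕ) : ℝ) + 1)| := by
                have hne : (j : ℕ) ≠ (i : ℕ) := fun hcon => hji (Fin.ext hcon)
                have : (1 : ℤ) ≤ |((j : ℕ) : ℤ) - ((i : ℕ) : ℤ)| := by
                  apply Int.one_le_abs
                  intro hcon
                  exact hne (by exact_mod_cast sub_eq_zero.mp hcon)
                have h2 : ((1 : ℤ) : ℝ) ≤ ((|((j : ℕ) : ℤ) - ((i : ℕ) : ℤ)| : ℤ) : ℝ) := by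
                  exact_mod_cast this
                rw [Int.cast_abs] at h2
                push_cast at h2
                have e : (((j : ℕ) : ℝ) + 1) - (((i : ℕ) : ℝ) + 1)
                    = ((j : ℕ) : ℝ) - ((i : ℕ) : ℝ) := by ring
                rw [e]
                exact h2
              nlinarith
            -- `|p.2 - t0|` is large
            have hbig : ϖ - ϖ / 8 ≤ |p.2 - t0| := by
              have h1 : |((j : ℕ) + 1 : ℝ) * ϖ - t0|
                  ≤ |p.2 - ((j : ℕ) + 1 : ℝ) * ϖ| + |p.2 - t0| := by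
                have := abs_sub_le (((j : ℕ) + 1 : ℝ) * ϖ) p.2 t0
                rwa [abs_sub_comm (((j : ℕ) + 1 : ℝ) * ϖ) p.2] at this
              linarith
            have hlt : ϖ / 2 < |D.fr.y p - y0| := by
              have h1 := hmv p
              have h2 : max |p.1| |p.2 - t0| ≤ |p.2 - t0| := max_le (by linarith) le_rfl
              have h3 : |D.fr.y p - y0 - (p.2 - t0)| ≤ 1/5000 * |p.2 - t0| := by linarith
              have h4 : |p.2 - t0| ≤ |D.fr.y p - y0 - (p.2 - t0)| + |D.fr.y p - y0| := by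
                have := abs_add_le (-(D.fr.y p - y0 - (p.2 - t0))) (D.fr.y p - y0)
                rw [abs_neg] at this
                have e : -(D.fr.y p - y0 - (p.2 - t0)) + (D.fr.y p - y0) = p.2 - t0 := by ring
                rwa [e] at this
              linarith
            have hd : deriv (deriv (f00s ϖ)) (D.fr.y p - y0) = 0 := by
              rw [f00s_dd ϖ hϖ]
              apply F00_dd_zero
              rw [abs_div, abs_of_pos hϖ, lt_div_iff₀ hϖ]
              linarith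
            rw [hd, mul_zero]
        · intro hcon; exact absurd (Finset.mem_univ i) hcon
      simp only [mul_ap, sub_ap, add_ap, smul_ap, neg_ap, pow_ap]
      rw [hu, e22, e11, e12]
      linear_combination (1/2 * D.fr.J p * D.fr.al p ^ 2) * hsum
    · rw [not_lt] at hp
      have hz : ∀ t1 : ℝ, zeta r ϖ t1 p = 0 := by
        intro t1
        by_contra hne
        have := (zeta_ne r ϖ t1 hr hϖ p hne).1
        linarith
      have hgz : g p = 0 := by
        rw [hg, hh_ap]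
        simp [hz]
      have hζz : ζ p = 0 := hz t0
      simp only [mul_ap, sub_ap, add_ap, smul_ap, neg_ap, pow_ap]
      rw [hgz, hζz]
      ring
  have hint2 : ∫ p, (D.fr.J * (D.fr.H g * u) : Sm) p
      = - ((A / 2 * τ i) * ∫ p, (ζ * (D.fr.J * D.fr.al ^ 2) : Sm) p) := by
    rw [hint, ← integral_const_mul]
    congr 1
    apply integral_congr_ae
    filter_upwards with p
    exact hpt p
  -- lower bound of the weight
  have hJal : ∀ p : ℝ × ℝ, 99/100 ≤ (D.fr.J * D.fr.al ^ 2 : Sm) p := by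
    intro p
    have hJJ : D.fr.J p * D.fr.Ji p = 1 := by
      have := congrArg (fun f : Sm => f p) D.fr.hJi
      simpa using this
    have h1 := D.J_bd p
    have h2 := (D.D_bd p).2.2.2
    rw [abs_le] at h1 h2
    have hJ1 : D.fr.J p ≤ 4001/4000 := by linarith
    have hJ0 : 0 < D.fr.J p := D.fr.hpos p
    have hJi0 : 4000/4001 ≤ D.fr.Ji p := by
      have : D.fr.Ji p = (D.fr.J p)⁻¹ := eq_inv_of_mul_eq_one_right hJJ
      rw [this, show (4000/4001 : ℝ) = (4001/4000)⁻¹ by norm_num]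
      exact inv_anti₀ hJ0 hJ1
    have e : (D.fr.J * D.fr.al ^ 2 : Sm) p = (D2 D.fr.y p) ^ 2 * D.fr.Ji p := by
      simp only [Frame.al, mul_ap, pow_ap]
      linear_combination (D2 D.fr.y p) ^ 2 * D.fr.Ji p * hJJ
    rw [e]
    have h3 : (9999/10000 : ℝ) ^ 2 ≤ (D2 D.fr.y p) ^ 2 := by
      apply pow_le_pow_left₀ (by norm_num)
      linarith
    calc (99/100 : ℝ) ≤ (9999/10000) ^ 2 * (4000/4001) := by norm_num
      _ ≤ (D2 D.fr.y p) ^ 2 * D.fr.Ji p := by
        apply mul_le_mul h3 hJi0 (by norm_num) (by positivity)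
  -- compact support of `ζ`
  have hζcs : HasCompactSupport (ζ : ℝ × ℝ → ℝ) := by
    refine HasCompactSupport.intro
      ((isCompact_Icc (a := -r) (b := r)).prod
        (isCompact_Icc (a := t0 - ϖ) (b := t0 + ϖ))) ?_
    intro p hp
    by_contra hne
    apply hp
    obtain ⟨a1, a2⟩ := zeta_ne r ϖ t0 hr hϖ p hne
    rw [abs_lt] at a1 a2
    exact ⟨⟨by linarith, by linarith⟩, ⟨by linarith, by linarith⟩⟩
  have hInt : Integrable (fun p => (ζ * (D.fr.J * D.fr.al ^ 2) : Sm) p) :=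
    int_of_cpt _ (cpt_mul_right _ _ hζcs)
  -- lower bound of the integral
  set B : Set (ℝ × ℝ) := Set.Icc (-(r/2)) (r/2) ×ˢ Set.Icc (t0 - ϖ/16) (t0 + ϖ/16) with hB
  have hBm : MeasurableSet B := measurableSet_Icc.prod measurableSet_Icc
  have hBv : (volume B).toReal = r * (ϖ / 8) := by
    rw [hB, Measure.volume_eq_prod, Measure.prod_prod, Real.volume_Icc, Real.volume_Icc,
      ENNReal.toReal_mul, ENNReal.toReal_ofReal (by linarith), ENNReal.toReal_ofReal (by linarith)]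
    ring
  have hBfin : volume B ≠ ⊤ := by
    rw [hB, Measure.volume_eq_prod, Measure.prod_prod, Real.volume_Icc, Real.volume_Icc]
    exact ENNReal.mul_ne_top ENNReal.ofReal_ne_top ENNReal.ofReal_ne_top
  have hlow : 99/100 * (r * (ϖ / 8)) ≤ ∫ p, (ζ * (D.fr.J * D.fr.al ^ 2) : Sm) p := by
    have h1 : ∫ p in B, (99/100 : ℝ) = 99/100 * (r * (ϖ / 8)) := by
      rw [setIntegral_const, Measure.real, hBv, smul_eq_mul, mul_comm]
    rw [← h1, ← integral_indicator hBm]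
    refine integral_mono ?_ hInt ?_
    · exact (integrable_indicator_iff hBm).mpr (integrableOn_const hBfin)
    · intro p
      show B.indicator (fun _ => (99/100 : ℝ)) p ≤ (ζ * (D.fr.J * D.fr.al ^ 2) : Sm) p
      by_cases hp : p ∈ B
      · rw [Set.indicator_of_mem hp]
        have hp1 : p.1 ∈ Set.Icc (-(r/2)) (r/2) := hp.1
        have hp2 : p.2 ∈ Set.Icc (t0 - ϖ/16) (t0 + ϖ/16) := hp.2
        have hone : ζ p = 1 := zeta_one r ϖ t0 hr hϖ p
          (abs_le.mpr ⟨by linarith [hp1.1], hp1.2⟩)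
          (abs_le.mpr ⟨by linarith [hp2.1], by linarith [hp2.2]⟩)
        rw [mul_ap, hone, one_mul]
        exact hJal p
      · rw [Set.indicator_of_notMem hp, mul_ap]
        exact mul_nonneg (zeta_nonneg' _ _ _ _) (le_trans (by norm_num) (hJal p))
  rw [hint2, abs_neg, abs_mul, abs_mul, hi, mul_one, abs_of_pos (by positivity : 0 < A / 2)]
  have hI0 : 0 ≤ ∫ p, (ζ * (D.fr.J * D.fr.al ^ 2) : Sm) p :=
    le_trans (by positivity) hlow
  rw [abs_of_nonneg hI0]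
  calc A * r * ϖ / 20 ≤ A / 2 * (99/100 * (r * (ϖ / 8))) := by
        have : 0 < A * r * ϖ := by positivity
        nlinarith
    _ ≤ A / 2 * ∫ p, (ζ * (D.fr.J * D.fr.al ^ 2) : Sm) p :=
        mul_le_mul_of_nonneg_left hlow (by positivity)

end NI
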