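import Crest.Agent.NI_Data
import Crest.Agent.NI_T01
import Crest.Agent.NI_G1b

set_option autoImplicit false
open scoped ContDiff
open MeasureTheory

namespace NI

private def BdS (C : ℝ) (f : Sm) : Prop := ∀ p : ℝ × ℝ, |f p| ≤ C

private theorem BdS.mul {C C' : ℝ} {f g : Sm} (hf : BdS C f) (hg : BdS C' g) :
    BdS (C * C') (f * g) := by
  intro p
  rw [mul_ap, abs_mul]
  exact mul_le_mul (hf p) (hg p) (abs_nonneg _) ((abs_nonneg _).trans (hf p))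

private theorem BdS.add {C C' : ℝ} {f g : Sm} (hf : BdS C f) (hg : BdS C' g) :
    BdS (C + C') (f + g) := by
  intro p
  rw [add_ap]
  exact (abs_add_le _ _).trans (add_le_add (hf p) (hg p))

private theorem BdS.neg {C : ℝ} {f : Sm} (hf : BdS C f) : BdS C (-f) := by
  intro p
  rw [neg_ap, abs_neg]
  exact hf p

private theorem BdS.sub {C C' : ℝ} {f g : Sm} (hf : BdS C f) (hg : BdS C' g) :
    BdS (C + C') (f - g) := by
  rw [sub_eq_add_neg]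
  exact hf.add hg.neg

private theorem BdS.mono {C C' : ℝ} {f : Sm} (hf : BdS C f) (h : C ≤ C') : BdS C' f :=
  fun p => (hf p).trans h

private theorem d1e (fr : Frame) (f : Sm) :
    fr.d1 f = (D2 fr.y * fr.Ji) * D1 f + (-(D1 fr.y * fr.Ji)) * D2 f := rfl

private theorem d2e (fr : Frame) (f : Sm) :
    fr.d2 f = (-(D2 fr.x * fr.Ji)) * D1 f + (D1 fr.x * fr.Ji) * D2 f := rfl

/-- the first order data used below -/
private structure FB (fr : Frame) : Prop where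
  x1 : BdS 2 (D1 fr.x)
  x2 : BdS 2 (D2 fr.x)
  y1 : BdS 2 (D1 fr.y)
  y2 : BdS 2 (D2 fr.y)
  x11 : BdS 1 (D1 (D1 fr.x))
  x12 : BdS 1 (D1 (D2 fr.x))
  x21 : BdS 1 (D2 (D1 fr.x))
  x22 : BdS 1 (D2 (D2 fr.x))
  y11 : BdS 1 (D1 (D1 fr.y))
  y12 : BdS 1 (D1 (D2 fr.y))
  y21 : BdS 1 (D2 (D1 fr.y))
  y22 : BdS 1 (D2 (D2 fr.y))
  ji : BdS 2 fr.Ji

private theorem FB.J1 {fr : Frame} (h : FB fr) : BdS 8 (D1 fr.J) := by
  have e : D1 fr.J = (D1 fr.x * D1 (D2 fr.y) + D2 fr.y * D1 (D1 fr.x))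
      - (D2 fr.x * D1 (D1 fr.y) + D1 fr.y * D1 (D2 fr.x)) := by
    rw [fr.hJ, map_sub, Derivation.leibniz, Derivation.leibniz]; rfl
  rw [e]
  exact (((h.x1.mul h.y12).add (h.y2.mul h.x11)).sub ((h.x2.mul h.y11).add (h.y1.mul h.x12))).mono
    (by norm_num)

private theorem FB.J2 {fr : Frame} (h : FB fr) : BdS 8 (D2 fr.J) := by
  have e : D2 fr.J = (D1 fr.x * D2 (D2 fr.y) + D2 fr.y * D2 (D1 fr.x))
      - (D2 fr.x * D2 (D1 fr.y) + D1 fr.y * D2 (D2 fr.x)) := by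
    rw [fr.hJ, map_sub, Derivation.leibniz, Derivation.leibniz]; rfl
  rw [e]
  exact (((h.x1.mul h.y22).add (h.y2.mul h.x21)).sub ((h.x2.mul h.y21).add (h.y1.mul h.x22))).mono
    (by norm_num)

private theorem D_Ji (fr : Frame) (D : Derivation ℝ Sm Sm) : D fr.Ji = -(fr.Ji * fr.Ji * D fr.J) := by
  have h := congrArg D fr.hJi
  rw [Derivation.leibniz, Derivation.map_one_eq_zero, smul_eq_mul, smul_eq_mul] at h
  linear_combination fr.Ji * h - D fr.Ji * fr.hJi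

private theorem FB.Ji1 {fr : Frame} (h : FB fr) : BdS 32 (D1 fr.Ji) := by
  rw [D_Ji]
  exact ((h.ji.mul h.ji).mul h.J1).neg.mono (by norm_num)

private theorem FB.Ji2 {fr : Frame} (h : FB fr) : BdS 32 (D2 fr.Ji) := by
  rw [D_Ji]
  exact ((h.ji.mul h.ji).mul h.J2).neg.mono (by norm_num)

private theorem FB.d1 {fr : Frame} (h : FB fr) {K : ℝ} {f : Sm} (h1 : BdS K (D1 f))
    (h2 : BdS K (D2 f)) : BdS (8 * K) (fr.d1 f) := by
  rw [d1e]
  exact (((h.y2.mul h.ji).mul h1).add ((h.y1.mul h.ji).neg.mul h2)).mono (by linarith)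

private theorem FB.d2 {fr : Frame} (h : FB fr) {K : ℝ} {f : Sm} (h1 : BdS K (D1 f))
    (h2 : BdS K (D2 f)) : BdS (8 * K) (fr.d2 f) := by
  rw [d2e]
  exact (((h.x2.mul h.ji).neg.mul h1).add ((h.x1.mul h.ji).mul h2)).mono (by linarith)

private theorem D_mul_bd {D : Derivation ℝ Sm Sm} {f g : Sm} {a b c d : ℝ} (hf : BdS a f)
    (hg : BdS b g) (hDf : BdS c (D f)) (hDg : BdS d (D g)) : BdS (a * d + b * c) (D (f * g)) := by
  rw [Derivation.leibniz]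
  exact (hf.mul hDg).add (hg.mul hDf)

private theorem D1_Xs : D1 Xs = 1 := by
  apply sm_ext; intro p
  rw [D1_ap]
  show fderiv ℝ (fun q : ℝ × ℝ => q.1) p (1, 0) = 1
  rw [fderiv_fst]; rfl
private theorem D2_Xs : D2 Xs = 0 := by
  apply sm_ext; intro p
  rw [D2_ap]
  show fderiv ℝ (fun q : ℝ × ℝ => q.1) p (0, 1) = 0
  rw [fderiv_fst]; rfl
private theorem D1_Xt : D1 Xt = 0 := by
  apply sm_ext; intro p
  rw [D1_ap]
  show fderiv ℝ (fun q : ℝ × ℝ => q.2) p (1, 0) = 0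
  rw [fderiv_snd]; rfl
private theorem D2_Xt : D2 Xt = 1 := by
  apply sm_ext; intro p
  rw [D2_ap]
  show fderiv ℝ (fun q : ℝ × ℝ => q.2) p (0, 1) = 1
  rw [fderiv_snd]; rfl

private theorem d1_Xs (fr : Frame) : fr.d1 Xs = D2 fr.y * fr.Ji := by
  rw [d1e, D1_Xs, D2_Xs]; ring
private theorem d2_Xs (fr : Frame) : fr.d2 Xs = -(D2 fr.x * fr.Ji) := by
  rw [d2e, D1_Xs, D2_Xs]; ring

private theorem FB.s1 {fr : Frame} (h : FB fr) : BdS 4 (fr.d1 Xs) := by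
  rw [d1_Xs]; exact (h.y2.mul h.ji).mono (by norm_num)
private theorem FB.s2 {fr : Frame} (h : FB fr) : BdS 4 (fr.d2 Xs) := by
  rw [d2_Xs]; exact (h.x2.mul h.ji).neg.mono (by norm_num)
private theorem FB.D1s1 {fr : Frame} (h : FB fr) : BdS 66 (D1 (fr.d1 Xs)) := by
  rw [d1_Xs]; exact (D_mul_bd h.y2 h.ji h.y12 h.Ji1).mono (by norm_num)
private theorem FB.D2s1 {fr : Frame} (h : FB fr) : BdS 66 (D2 (fr.d1 Xs)) := by
  rw [d1_Xs]; exact (D_mul_bd h.y2 h.ji h.y22 h.Ji2).mono (by norm_num)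
private theorem FB.D1s2 {fr : Frame} (h : FB fr) : BdS 66 (D1 (fr.d2 Xs)) := by
  rw [d2_Xs, map_neg]; exact (D_mul_bd h.x2 h.ji h.x12 h.Ji1).neg.mono (by norm_num)
private theorem FB.D2s2 {fr : Frame} (h : FB fr) : BdS 66 (D2 (fr.d2 Xs)) := by
  rw [d2_Xs, map_neg]; exact (D_mul_bd h.x2 h.ji h.x22 h.Ji2).neg.mono (by norm_num)

private theorem FB.s11 {fr : Frame} (h : FB fr) : BdS 528 (fr.d1 (fr.d1 Xs)) :=
  (h.d1 h.D1s1 h.D2s1).mono (by norm_num)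
private theorem FB.s12 {fr : Frame} (h : FB fr) : BdS 528 (fr.d1 (fr.d2 Xs)) :=
  (h.d1 h.D1s2 h.D2s2).mono (by norm_num)
private theorem FB.s22 {fr : Frame} (h : FB fr) : BdS 528 (fr.d2 (fr.d2 Xs)) :=
  (h.d2 h.D1s2 h.D2s2).mono (by norm_num)

private theorem d1_cmp (fr : Frame) (g : ℝ → ℝ) (hg : ContDiff ℝ ∞ g) (f : Sm) :
    fr.d1 (cmp g hg f) = cmp (deriv g) (contDiff_deriv hg) f * fr.d1 f := vf_cmp _ _ g hg f
private theorem d2_cmp (fr : Frame) (g : ℝ → ℝ) (hg : ContDiff ℝ ∞ g) (f : Sm) :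
    fr.d2 (cmp g hg f) = cmp (deriv g) (contDiff_deriv hg) f * fr.d2 f := vf_cmp _ _ g hg f

private theorem cmp_bd {g : ℝ → ℝ} {hg : ContDiff ℝ ∞ g} {f : Sm} {C : ℝ} (h : ∀ r, |g r| ≤ C) :
    BdS C (cmp g hg f) := fun p => by rw [cmp_ap]; exact h _

private theorem f00s_d (ϖ : ℝ) (hϖ : 0 < ϖ) : deriv (f00s ϖ) = fun r => ϖ * deriv F00 (r / ϖ) := by
  funext r
  have h1 : HasDerivAt F00 (deriv F00 (r / ϖ)) (r / ϖ) :=
    ((F00_contDiff.differentiable (by simp)) _).hasDerivAt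
  have h2 : HasDerivAt (fun r : ℝ => r / ϖ) (1 / ϖ) r := (hasDerivAt_id r).div_const ϖ
  have h3 := (h1.comp r h2).const_mul (ϖ ^ 2)
  have h4 : HasDerivAt (f00s ϖ) (ϖ ^ 2 * (deriv F00 (r / ϖ) * (1 / ϖ))) r := h3
  rw [h4.deriv]
  field_simp

private theorem f00s_dd (ϖ : ℝ) (hϖ : 0 < ϖ) :
    deriv (deriv (f00s ϖ)) = fun r => deriv (deriv F00) (r / ϖ) := by
  rw [f00s_d ϖ hϖ]
  funext r
  have h1 : HasDerivAt (deriv F00) (deriv (deriv F00) (r / ϖ)) (r / ϖ) :=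
    (((contDiff_deriv F00_contDiff).differentiable (by simp)) _).hasDerivAt
  have h2 : HasDerivAt (fun r : ℝ => r / ϖ) (1 / ϖ) r := (hasDerivAt_id r).div_const ϖ
  have h3 := (h1.comp r h2).const_mul ϖ
  have h4 : HasDerivAt (fun r => ϖ * deriv F00 (r / ϖ))
    (ϖ * (deriv (deriv F00) (r / ϖ) * (1 / ϖ))) r := h3
  rw [h4.deriv]
  field_simp

private theorem f00s_bounds {C ϖ : ℝ} (hϖ : 0 < ϖ) (hϖ1 : ϖ ≤ 1)
    (hC : ∀ r : ℝ, |F00 r| ≤ C ∧ |deriv F00 r| ≤ C ∧ |deriv (deriv F00) r| ≤ C) (r : ℝ) :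
    |f00s ϖ r| ≤ C ∧ |deriv (f00s ϖ) r| ≤ C ∧ |deriv (deriv (f00s ϖ)) r| ≤ C := by
  refine ⟨?_, ?_, ?_⟩
  · unfold f00s
    rw [abs_mul, abs_of_pos (by positivity : (0:ℝ) < ϖ ^ 2)]
    have h1 : ϖ ^ 2 ≤ 1 := pow_le_one₀ hϖ.le hϖ1
    calc ϖ ^ 2 * |F00 (r / ϖ)| ≤ 1 * C :=
          mul_le_mul h1 (hC _).1 (abs_nonneg _) zero_le_one
      _ = C := one_mul C
  · rw [f00s_d ϖ hϖ]
    show |ϖ * deriv F00 (r / ϖ)| ≤ C
    rw [abs_mul, abs_of_pos hϖ]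
    calc ϖ * |deriv F00 (r / ϖ)| ≤ 1 * C :=
          mul_le_mul hϖ1 (hC _).2.1 (abs_nonneg _) zero_le_one
      _ = C := one_mul C
  · rw [f00s_dd ϖ hϖ]
    exact (hC _).2.2

private theorem FB.main {fr : Frame} (h : FB fr) {a b c : Sm} (ha : BdS 2 a) (hb : BdS 2 b)
    (hc : BdS 2 c) {g f : ℝ → ℝ} (hg : ContDiff ℝ ∞ g) (hf : ContDiff ℝ ∞ f) {K C : ℝ}
    (hK : 1 ≤ K) (hC : 0 ≤ C)
    (g0 : ∀ r, |g r| ≤ 1) (g1 : ∀ r, |deriv g r| ≤ K) (g2 : ∀ r, |deriv (deriv g) r| ≤ K)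
    (f0 : ∀ r, |f r| ≤ C) (f1 : ∀ r, |deriv f r| ≤ C) (f2 : ∀ r, |deriv (deriv f) r| ≤ C)
    (y0 : ℝ) :
    BdS (10000 * K * C) (a * fr.d1 (fr.d1 (cmp g hg Xs * cmp f hf (fr.y - y0 • (1 : Sm))))
      - 2 * b * fr.d1 (fr.d2 (cmp g hg Xs * cmp f hf (fr.y - y0 • (1 : Sm))))
      + c * fr.d2 (fr.d2 (cmp g hg Xs * cmp f hf (fr.y - y0 • (1 : Sm))))) := by
  set G : Sm := cmp g hg Xs with hG
  set G1 : Sm := cmp (deriv g) (contDiff_deriv hg) Xs with hG1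
  set G2 : Sm := cmp (deriv (deriv g)) (contDiff_deriv (contDiff_deriv hg)) Xs with hG2
  set H : Sm := cmp f hf (fr.y - y0 • (1 : Sm)) with hH
  set H1 : Sm := cmp (deriv f) (contDiff_deriv hf) (fr.y - y0 • (1 : Sm)) with hH1
  set H2 : Sm := cmp (deriv (deriv f)) (contDiff_deriv (contDiff_deriv hf))
    (fr.y - y0 • (1 : Sm)) with hH2
  have y1 : fr.d1 (fr.y - y0 • (1 : Sm)) = 0 := by
    rw [map_sub, Frame.d1_y, Derivation.map_smul, Derivation.map_one_eq_zero]; simp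
  have y2 : fr.d2 (fr.y - y0 • (1 : Sm)) = 1 := by
    rw [map_sub, Frame.d2_y, Derivation.map_smul, Derivation.map_one_eq_zero]; simp
  have eG1 : fr.d1 G = G1 * fr.d1 Xs := d1_cmp fr g hg Xs
  have eG2 : fr.d2 G = G1 * fr.d2 Xs := d2_cmp fr g hg Xs
  have eG11 : fr.d1 G1 = G2 * fr.d1 Xs := d1_cmp fr _ _ Xs
  have eG12 : fr.d2 G1 = G2 * fr.d2 Xs := d2_cmp fr _ _ Xs
  have eH1 : fr.d1 H = 0 := by rw [hH, d1_cmp, y1, mul_zero]
  have eH2 : fr.d2 H = H1 := by rw [hH, d2_cmp, y2, mul_one]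
  have eH11 : fr.d1 H1 = 0 := by rw [hH1, d1_cmp, y1, mul_zero]
  have eH12 : fr.d2 H1 = H2 := by rw [hH1, d2_cmp, y2, mul_one]
  have bG : BdS 1 G := cmp_bd g0
  have bG1 : BdS K G1 := cmp_bd g1
  have bG2 : BdS K G2 := cmp_bd g2
  have bH : BdS C H := cmp_bd f0
  have bH1 : BdS C H1 := cmp_bd f1
  have bH2 : BdS C H2 := cmp_bd f2
  have E11 : fr.d1 (fr.d1 (G * H)) = (G2 * fr.d1 Xs * fr.d1 Xs + G1 * fr.d1 (fr.d1 Xs)) * H := by
    simp only [Derivation.leibniz, map_add, smul_eq_mul, eG1, eG11, eH1, map_zero]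
    ring
  have E12 : fr.d1 (fr.d2 (G * H)) = (G2 * fr.d1 Xs * fr.d2 Xs + G1 * fr.d1 (fr.d2 Xs)) * H
      + G1 * fr.d1 Xs * H1 := by
    simp only [Derivation.leibniz, map_add, smul_eq_mul, eG1, eG2, eG11, eG12, eH1, eH2, eH11,
      map_zero]
    ring
  have E22 : fr.d2 (fr.d2 (G * H)) = (G2 * fr.d2 Xs * fr.d2 Xs + G1 * fr.d2 (fr.d2 Xs)) * H
      + (G1 * fr.d2 Xs * H1 + G1 * fr.d2 Xs * H1) + G * H2 := by
    simp only [Derivation.leibniz, map_add, smul_eq_mul, eG1, eG2, eG11, eG12, eH1, eH2, eH11, eH12,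
      map_zero]
    ring
  rw [E11, E12, E22]
  have two : (2 : Sm) * b = b + b := by ring
  rw [two]
  have B11 := ((((bG2.mul h.s1).mul h.s1).add (bG1.mul h.s11)).mul bH)
  have B12 := ((((bG2.mul h.s1).mul h.s2).add (bG1.mul h.s12)).mul bH).add ((bG1.mul h.s1).mul bH1)
  have B22 := (((((bG2.mul h.s2).mul h.s2).add (bG1.mul h.s22)).mul bH).add
    (((bG1.mul h.s2).mul bH1).add ((bG1.mul h.s2).mul bH1))).add (bG.mul bH2)
  refine (((ha.mul B11).sub ((hb.add hb).mul B12)).add (hc.mul B22)).mono ?_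
  have h1 : C ≤ K * C := by nlinarith
  nlinarith [mul_nonneg (le_trans zero_le_one hK) hC]

/-- `L` applied to the test function is bounded, uniformly in `ϖ ≤ 1` (second derivatives of
`s`, `y` in the frame are bounded because second derivatives of `G 0`, `G 1` are). -/
theorem Lu_bound : ∃ η6 : ℝ, 0 < η6 ∧ ∀ σ' : ℝ, 0 < σ' → ∃ C : ℝ, 0 < C ∧
    ∀ (lam : ℝ) (G : Fin 3 → Sm) (fr : Frame), 0 < lam → lam ≤ 1 → Good lam η6 G → IsFr fr G →
    ∀ ϖ y0 : ℝ, 0 < ϖ → ϖ ≤ 1 → ∀ p : ℝ × ℝ, |fr.L (G 2) (tst fr.y σ' ϖ y0) p| ≤ C := by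
  obtain ⟨η1, hη1, hfb⟩ := frame_bounds
  obtain ⟨Cc, hCc, hct⟩ := ct_deriv_bound
  obtain ⟨CF, hCF, hF⟩ := F00_bound
  refine ⟨min η1 1, lt_min hη1 one_pos, fun σ' hσ' => ?_⟩
  set K : ℝ := 1 + Cc * σ' / (σ' ^ 2 - (σ'/2) ^ 2) + Cc * σ' ^ 2 / (σ' ^ 2 - (σ'/2) ^ 2) ^ 2 with hK
  have hpos : 0 < σ' ^ 2 - (σ'/2) ^ 2 := by nlinarith
  have k1 : 0 ≤ Cc * σ' / (σ' ^ 2 - (σ'/2) ^ 2) := by positivity
  have k2 : 0 ≤ Cc * σ' ^ 2 / (σ' ^ 2 - (σ'/2) ^ 2) ^ 2 := by positivity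
  have hK1 : 1 ≤ K := by rw [hK]; linarith
  refine ⟨10000 * K * CF, by positivity, ?_⟩
  intro lam G fr hl hl1 hG hfr ϖ y0 hϖ hϖ1
  have hG1 : Good lam η1 G := ⟨hG.1, fun i a b hab p hp => (hG.2 i a b hab p hp).trans
    (mul_le_mul_of_nonneg_right (min_le_left _ _) hl.le)⟩
  have hG2 : ∀ i a b, a + b ≤ 4 → ∀ p, |Dab a b (G i - F0 lam i) p| ≤ 1 := fun i a b hab p =>
    (hG.2 i a b hab p (Set.mem_univ _)).trans (by
      calc min η1 1 * lam ≤ 1 * 1 := mul_le_mul (min_le_right _ _) hl1 hl.le zero_le_one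
        _ = 1 := one_mul 1)
  have hb := hfb lam G fr hl hl1 hG1 hfr
  obtain ⟨hx, hy⟩ := hfr
  have e0 : G 0 = Xs + (G 0 - F0 lam 0) := by
    show G 0 = Xs + (G 0 - Xs); abel
  have e1 : G 1 = Xt + (G 1 - F0 lam 1) := by
    show G 1 = Xt + (G 1 - Xt); abel
  have fb : FB fr := by
    constructor
    · intro p; rw [hx]; have := (hb p).1.1; rw [abs_le] at this ⊢
      constructor <;> linarith [this.1, this.2]
    · intro p; rw [hx]; have := (hb p).1.2.1; linarith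
    · intro p; rw [hy]; have := (hb p).1.2.2.1; linarith
    · intro p; rw [hy]; have := (hb p).1.2.2.2; rw [abs_le] at this ⊢
      constructor <;> linarith [this.1, this.2]
    · intro p; rw [hx, e0, map_add, map_add, D1_Xs, Derivation.map_one_eq_zero, zero_add]
      exact hG2 0 2 0 (by norm_num) p
    · intro p; rw [hx, e0, map_add, map_add, D2_Xs, map_zero, zero_add]
      exact hG2 0 1 1 (by norm_num) p
    · intro p; rw [← D1_D2_comm, hx, e0, map_add, map_add, D2_Xs, map_zero, zero_add]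
      exact hG2 0 1 1 (by norm_num) p
    · intro p; rw [hx, e0, map_add, map_add, D2_Xs, map_zero, zero_add]
      exact hG2 0 0 2 (by norm_num) p
    · intro p; rw [hy, e1, map_add, map_add, D1_Xt, map_zero, zero_add]
      exact hG2 1 2 0 (by norm_num) p
    · intro p; rw [hy, e1, map_add, map_add, D2_Xt, Derivation.map_one_eq_zero, zero_add]
      exact hG2 1 1 1 (by norm_num) p
    · intro p; rw [← D1_D2_comm, hy, e1, map_add, map_add, D2_Xt, Derivation.map_one_eq_zero,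
        zero_add]
      exact hG2 1 1 1 (by norm_num) p
    · intro p; rw [hy, e1, map_add, map_add, D2_Xt, Derivation.map_one_eq_zero, zero_add]
      exact hG2 1 0 2 (by norm_num) p
    · intro p
      have hJ := (hb p).2.1
      have h1 : fr.J p * fr.Ji p = 1 := by
        rw [← mul_ap, fr.hJi, one_ap]
      rw [abs_le] at hJ
      have h2 : fr.Ji p = (fr.J p)⁻¹ := eq_inv_of_mul_eq_one_right h1
      rw [h2, abs_inv, abs_of_pos (fr.hpos p)]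
      rw [inv_le_comm₀ (fr.hpos p) (by norm_num)]
      linarith [hJ.1]
  have ba : BdS 2 (fr.a (G 2)) := by
    intro p; have := (hb p).2.2.1; rw [abs_le] at this ⊢
    constructor <;> linarith [this.1, this.2]
  have bb' : BdS 2 (fr.b (G 2)) := by
    intro p; have := (hb p).2.2.2.1; linarith
  have bc : BdS 2 (fr.c (G 2)) := by
    intro p; have := (hb p).2.2.2.2.1; linarith
  have hct' := hct (σ'/2) σ' (by linarith) (by linarith) (by linarith)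
  exact fb.main ba bb' bc ct_contDiff (f00s_contDiff ϖ) hK1 hCF.le
    (fun r => by rw [abs_of_nonneg (ct_nonneg _ _ _)]; exact ct_le_one _ _ _)
    (fun r => (hct' r).1.trans (by rw [hK]; linarith))
    (fun r => (hct' r).2.trans (by rw [hK]; linarith))
    (fun r => (f00s_bounds hϖ hϖ1 hF r).1) (fun r => (f00s_bounds hϖ hϖ1 hF r).2.1)
    (fun r => (f00s_bounds hϖ hϖ1 hF r).2.2) y0

end NI
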