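import Crest.Agent.NI_Data
import Crest.Agent.NI_T10

set_option autoImplicit false
open scoped ContDiff
open MeasureTheory

namespace NI

private theorem D5_y_mvt (y : Sm) (c : ℝ) (hc : 0 ≤ c)
    (h : ∀ p : ℝ × ℝ, |D1 y p| ≤ c ∧ |D2 y p - 1| ≤ c) (p q : ℝ × ℝ) :
    |y p - y q - (p.2 - q.2)| ≤ 2 * c * max |p.1 - q.1| |p.2 - q.2| := by
  have hd : ∀ x ∈ (Set.univ : Set (ℝ × ℝ)), HasFDerivWithinAt (fun p : ℝ × ℝ => y p - p.2)
      (fderiv ℝ (y : ℝ × ℝ → ℝ) x - ContinuousLinearMap.snd ℝ ℝ ℝ) Set.univ x := by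
    intro x _
    exact ((diffAt y x).hasFDerivAt.sub hasFDerivAt_snd).hasFDerivWithinAt
  have hb : ∀ x ∈ (Set.univ : Set (ℝ × ℝ)),
      ‖fderiv ℝ (y : ℝ × ℝ → ℝ) x - ContinuousLinearMap.snd ℝ ℝ ℝ‖ ≤ 2 * c := by
    intro x _
    refine ContinuousLinearMap.opNorm_le_bound _ (by positivity) fun v => ?_
    obtain ⟨v1, v2⟩ := v
    have hv : ((v1, v2) : ℝ × ℝ) = v1 • ((1:ℝ),(0:ℝ)) + v2 • ((0:ℝ),(1:ℝ)) := by
      ext <;> simp
    have e : (fderiv ℝ (y : ℝ × ℝ → ℝ) x - ContinuousLinearMap.snd ℝ ℝ ℝ) (v1, v2)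
        = v1 * D1 y x + v2 * (D2 y x - 1) := by
      rw [D1_ap, D2_ap, hv, map_add, map_smul, map_smul]
      simp [smul_eq_mul]
    rw [e, Real.norm_eq_abs]
    have h1 : |v1| ≤ ‖((v1, v2) : ℝ × ℝ)‖ := by
      have := norm_fst_le ((v1, v2) : ℝ × ℝ); simpa using this
    have h2 : |v2| ≤ ‖((v1, v2) : ℝ × ℝ)‖ := by
      have := norm_snd_le ((v1, v2) : ℝ × ℝ); simpa using this
    have hn : 0 ≤ ‖((v1, v2) : ℝ × ℝ)‖ := norm_nonneg _
    calc |v1 * D1 y x + v2 * (D2 y x - 1)| ≤ |v1| * |D1 y x| + |v2| * |D2 y x - 1| := by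
          refine (abs_add_le _ _).trans ?_
          rw [abs_mul, abs_mul]
      _ ≤ ‖((v1, v2) : ℝ × ℝ)‖ * c + ‖((v1, v2) : ℝ × ℝ)‖ * c := by
          exact add_le_add (mul_le_mul h1 (h x).1 (abs_nonneg _) hn)
            (mul_le_mul h2 (h x).2 (abs_nonneg _) hn)
      _ = 2 * c * ‖((v1, v2) : ℝ × ℝ)‖ := by ring
  have hm := Convex.norm_image_sub_le_of_norm_hasFDerivWithin_le hd hb convex_univ
    (Set.mem_univ q) (Set.mem_univ p)
  have e1 : ‖(y p - p.2) - (y q - q.2)‖ = |y p - y q - (p.2 - q.2)| := by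
    rw [Real.norm_eq_abs]; congr 1; ring
  have e2 : ‖p - q‖ = max |p.1 - q.1| |p.2 - q.2| := by
    rw [Prod.norm_def]; rfl
  rw [e1, e2] at hm
  exact hm

private theorem D5_zero_open (v : ℝ × ℝ) (f : Sm) (Ω : Set (ℝ × ℝ)) (hΩ : IsOpen Ω)
    (h : ∀ p ∈ Ω, f p = 0) : ∀ p ∈ Ω, Dv v f p = 0 := by
  intro p hp
  rw [Dv_ap]
  have : (f : ℝ × ℝ → ℝ) =ᶠ[nhds p] fun _ => 0 := by
    filter_upwards [hΩ.mem_nhds hp] with q hq
    exact h q hq
  rw [this.fderiv_eq]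
  simp

private theorem D5_vf_zero (A B f : Sm) (Ω : Set (ℝ × ℝ)) (hΩ : IsOpen Ω)
    (h : ∀ p ∈ Ω, f p = 0) : ∀ p ∈ Ω, vf A B f p = 0 := by
  intro p hp
  have h1 : D1 f p = 0 := D5_zero_open _ f Ω hΩ h p hp
  have h2 : D2 f p = 0 := D5_zero_open _ f Ω hΩ h p hp
  rw [vf_def, add_ap, mul_ap, mul_ap, h1, h2]
  ring

private theorem D5_supp (fr : Frame) (z : Sm) (σ' ϖ y0 : ℝ) (hσ : 0 < σ') (hϖ : 0 < ϖ)
    (p : ℝ × ℝ) (hp : fr.L z (tst fr.y σ' ϖ y0) p ≠ 0) :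
    |p.1| ≤ σ' ∧ |fr.y p - y0| ≤ ϖ / 2 := by
  by_contra hcon
  apply hp
  set Ω : Set (ℝ × ℝ) := {q | σ' < |q.1|} ∪ {q | ϖ / 2 < |fr.y q - y0|} with hΩdef
  have hyc : Continuous (fr.y : ℝ × ℝ → ℝ) := (smooth fr.y).continuous
  have hΩ : IsOpen Ω := by
    refine (isOpen_lt continuous_const (continuous_abs.comp continuous_fst)).union ?_
    exact isOpen_lt continuous_const (continuous_abs.comp (hyc.sub continuous_const))
  have hpΩ : p ∈ Ω := by
    rw [not_and_or, not_le, not_le] at hcon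
    exact hcon
  have h0 : ∀ q ∈ Ω, tst fr.y σ' ϖ y0 q = 0 := by
    intro q hq
    have e : tst fr.y σ' ϖ y0 q = ct (σ'/2) σ' q.1 * (ϖ ^ 2 * F00 ((fr.y q - y0 * 1) / ϖ)) := rfl
    rw [e]
    rcases hq with hq | hq
    · have hq' : σ' < |q.1| := hq
      rw [ct_zero (by positivity) (by linarith) hq'.le, zero_mul]
    · have hq' : ϖ / 2 < |fr.y q - y0| := hq
      rw [F00_zero, mul_zero, mul_zero]
      rw [mul_one, abs_div, abs_of_pos hϖ, le_div_iff₀ hϖ]
      linarith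
  have h1 : ∀ q ∈ Ω, fr.d1 (tst fr.y σ' ϖ y0) q = 0 := D5_vf_zero _ _ _ Ω hΩ h0
  have h2 : ∀ q ∈ Ω, fr.d2 (tst fr.y σ' ϖ y0) q = 0 := D5_vf_zero _ _ _ Ω hΩ h0
  have h11 : ∀ q ∈ Ω, fr.d1 (fr.d1 (tst fr.y σ' ϖ y0)) q = 0 := D5_vf_zero _ _ _ Ω hΩ h1
  have h12 : ∀ q ∈ Ω, fr.d1 (fr.d2 (tst fr.y σ' ϖ y0)) q = 0 := D5_vf_zero _ _ _ Ω hΩ h2
  have h22 : ∀ q ∈ Ω, fr.d2 (fr.d2 (tst fr.y σ' ϖ y0)) q = 0 := D5_vf_zero _ _ _ Ω hΩ h2
  unfold Frame.L
  simp only [add_ap, sub_ap, mul_ap, h11 p hpΩ, h12 p hpΩ, h22 p hpΩ]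
  ring

/-- Cauchy-Schwarz on a set of finite measure -/
private theorem D5_cs (T : Set (ℝ × ℝ)) (V : ℝ) (hfin : volume T ≠ ⊤)
    (hV : (volume T).toReal ≤ V) (w : ℝ × ℝ → ℝ)
    (hw1 : IntegrableOn (fun p => |w p|) T) (hw2 : IntegrableOn (fun p => w p ^ 2) T) :
    ∫ p in T, |w p| ≤ √V * √(∫ p in T, w p ^ 2) := by
  set I := ∫ p in T, |w p| with hI
  set A := ∫ p in T, w p ^ 2 with hA
  have hI0 : 0 ≤ I := integral_nonneg fun p => abs_nonneg _
  have hA0 : 0 ≤ A := integral_nonneg fun p => sq_nonneg _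
  have hV0 : 0 ≤ (volume T).toReal := ENNReal.toReal_nonneg
  have key : ∀ t : ℝ, 0 ≤ (volume T).toReal * (t * t) + (-(2 * I)) * t + A := by
    intro t
    have h0 : 0 ≤ ∫ p in T, (|w p| - t) ^ 2 := integral_nonneg fun p => sq_nonneg _
    have hc : IntegrableOn (fun _ : ℝ × ℝ => t ^ 2) T := integrableOn_const hfin
    have e : (fun p => (|w p| - t) ^ 2) = fun p => (w p ^ 2 - (2 * t) * |w p|) + t ^ 2 := by
      funext p
      have := sq_abs (w p)
      ring_nf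
      rw [this]
      ring
    have e2 : ∫ p in T, (|w p| - t) ^ 2 = (A - (2 * t) * I) + (volume T).toReal * t ^ 2 := by
      have hsub : IntegrableOn (fun p => w p ^ 2 - (2 * t) * |w p|) T :=
        hw2.sub (hw1.const_mul _)
      have i1 : ∫ p in T, ((w p ^ 2 - (2 * t) * |w p|) + t ^ 2)
          = (∫ p in T, (w p ^ 2 - (2 * t) * |w p|)) + ∫ p in T, t ^ 2 := integral_add hsub hc
      have i2 : ∫ p in T, (w p ^ 2 - (2 * t) * |w p|)
          = (∫ p in T, w p ^ 2) - ∫ p in T, (2 * t) * |w p| := integral_sub hw2 (hw1.const_mul _)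
      rw [e, i1, i2, integral_const_mul, setIntegral_const, smul_eq_mul]
      rfl
    rw [e2] at h0
    nlinarith [h0]
  have hd := discrim_le_zero key
  unfold discrim at hd
  have h1 : I ^ 2 ≤ V * A := by nlinarith
  have hV' : 0 ≤ V := hV0.trans hV
  rw [← Real.sqrt_mul hV']
  exact Real.le_sqrt_of_sq_le h1

/-- upper bound of the pairing: the support of `tst y σ' ϖ y0` (`σ' = √ε/1000`,
`y0 = y(0,t0)`, `0 ≤ t0 ≤ √ε/2000`) lies in `Lens1`, its part with `|s| < 3r` has area `≤ 7 r ϖ`,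
and the area of the whole support is `≤ 1`; `mu ≥ lam/2`; Cauchy-Schwarz. -/
theorem pair_upper : ∃ C : ℝ, 0 < C ∧ ∀ (lam ε r ϖ t0 M : ℝ) (F F' : Fin 3 → Sm) (h : Sm)
    (D : Data lam ε F F' h), 0 < lam → lam ≤ 1 → 0 < ε → ε ≤ lam ^ 2 / 100 → 0 < r →
    0 < ϖ → ϖ ≤ √ε / 4000 → r ≤ ϖ → 0 ≤ t0 → t0 ≤ √ε / 2000 → 0 ≤ M →
    (∀ p, |D.fr.L (avg F F' 2) (tst D.fr.y (√ε/1000) ϖ (D.fr.y (0, t0))) p| ≤ M) →
    |∫ p, (D.fr.J * ((F 2 - F' 2) *
        D.fr.L (avg F F' 2) (tst D.fr.y (√ε/1000) ϖ (D.fr.y (0, t0)))) : Sm) p|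
      ≤ C * M * (√(r * ϖ) * √((∫ p in Lens1 D.d (ε / lam ^ 2) ∩ {p | |p.1| < 3 * r},
            (D.d.mu * (F 2 - F' 2) ^ 2 : Sm) p) / lam)
          + √((∫ p in Lens1 D.d (ε / lam ^ 2) ∩ {p | 3 * r ≤ |p.1|},
            (D.d.mu * (F 2 - F' 2) ^ 2 : Sm) p) / lam)) := by
  refine ⟨10, by norm_num, ?_⟩
  intro lam ε r ϖ t0 M F F' h D hlam hlam1 hε hεl hr hϖ hϖε hrϖ ht0 ht0' hM hMb
  set w : Sm := F 2 - F' 2 with hw
  set σ' : ℝ := √ε / 1000 with hσ'
  set y0 : ℝ := D.fr.y (0, t0) with hy0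
  set g : Sm := D.fr.L (avg F F' 2) (tst D.fr.y σ' ϖ y0) with hg
  set e : ℝ := ε / lam ^ 2 with he
  have hsε : 0 < √ε := Real.sqrt_pos.mpr hε
  have hse : √e = √ε / lam := by
    rw [he, Real.sqrt_div hε.le, Real.sqrt_sq hlam.le]
  have hse_le : √e ≤ 1 / 10 := by
    rw [Real.sqrt_le_left (by norm_num), he, div_le_iff₀ (by positivity)]
    linarith
  have hεe : √ε ≤ √e := by
    rw [hse, le_div_iff₀ hlam]
    nlinarith
  have hε10 : √ε ≤ 1 / 10 := hεe.trans hse_le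
  have hσ0 : 0 < σ' := by positivity
  -- location of the support
  have hbox : ∀ p : ℝ × ℝ, g p ≠ 0 → |p.1| ≤ σ' ∧ |p.2 - t0| ≤ 0.5002 * ϖ + |p.1| / 4000 := by
    intro p hp
    obtain ⟨h1, h2⟩ := D5_supp D.fr _ σ' ϖ y0 hσ0 hϖ p hp
    refine ⟨h1, ?_⟩
    have hm := D5_y_mvt D.fr.y (1/10000) (by norm_num)
      (fun q => ⟨(D.D_bd q).2.2.1, (D.D_bd q).2.2.2⟩) p (0, t0)
    have hm' : |D.fr.y p - y0 - (p.2 - t0)| ≤ 2 * (1/10000) * max |p.1| |p.2 - t0| := by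
      simpa using hm
    have h3 : |p.2 - t0| ≤ ϖ / 2 + 2 * (1/10000) * max |p.1| |p.2 - t0| := by
      have h4 : p.2 - t0 = (D.fr.y p - y0) - (D.fr.y p - y0 - (p.2 - t0)) := by ring
      rw [h4]
      have h5 := abs_sub (D.fr.y p - y0) (D.fr.y p - y0 - (p.2 - t0))
      rw [← h4] at h5 ⊢
      linarith
    rcases le_total |p.1| |p.2 - t0| with hc | hc
    · rw [max_eq_right hc] at h3
      have := abs_nonneg p.1
      linarith
    · rw [max_eq_left hc] at h3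
      have := abs_nonneg p.1
      linarith
  have hlens : ∀ p : ℝ × ℝ, g p ≠ 0 → p ∈ Lens1 D.d e := by
    intro p hp
    obtain ⟨h1, h2⟩ := hbox p hp
    have hx := D.x_bd p
    have hQ := D.Q_bd p
    rw [← D.dx] at hx
    have hp2 : |p.2| ≤ t0 + |p.2 - t0| := by
      have := abs_add_le t0 (p.2 - t0)
      rw [abs_of_nonneg ht0] at this
      calc |p.2| = |t0 + (p.2 - t0)| := by congr 1; ring
        _ ≤ _ := this
    constructor
    · have h3 : |D.d.x p| ≤ |D.d.x p - p.1| + |p.1| := by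
        calc |D.d.x p| = |(D.d.x p - p.1) + p.1| := by congr 1; ring
          _ ≤ _ := abs_add_le _ _
      have h4 : |D.d.x p| ≤ 1/10000 + σ' := by linarith
      have : σ' ≤ 1/10000 := by rw [hσ']; linarith
      show |D.d.x p| < 0.2
      norm_num at this ⊢
      linarith
    · have h3 : |D.d.Q p| ≤ |D.d.Q p - p.2| + |p.2| := by
        calc |D.d.Q p| = |(D.d.Q p - p.2) + p.2| := by congr 1; ring
          _ ≤ _ := abs_add_le _ _
      have hp0 := abs_nonneg p.1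
      have : σ' = √ε / 1000 := hσ'
      show |D.d.Q p| < √e/10/32
      norm_num at *
      linarith
  -- boundedness of the lens
  have hLbox : ∀ p ∈ Lens1 D.d e, |p.1| ≤ 1 ∧ |p.2| ≤ 1 := by
    intro p hp
    obtain ⟨h1, h2⟩ := hp
    have hx := D.x_bd p
    have hQ := D.Q_bd p
    rw [← D.dx] at hx
    have h3 : |p.1| ≤ |D.d.x p - p.1| + |D.d.x p| := by
      calc |p.1| = |D.d.x p - (D.d.x p - p.1)| := by congr 1; ring
        _ ≤ |D.d.x p| + |D.d.x p - p.1| := abs_sub _ _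
        _ = _ := by ring
    have h4 : |p.2| ≤ |D.d.Q p - p.2| + |D.d.Q p| := by
      calc |p.2| = |D.d.Q p - (D.d.Q p - p.2)| := by congr 1; ring
        _ ≤ |D.d.Q p| + |D.d.Q p - p.2| := abs_sub _ _
        _ = _ := by ring
    norm_num at h1
    constructor
    · linarith
    · have h5 : |p.1| ≤ 1 := by linarith
      linarith [abs_nonneg p.2]
  have hLsub : Lens1 D.d e ⊆ Set.Icc ((-1 : ℝ), (-1 : ℝ)) ((1 : ℝ), (1 : ℝ)) := by
    intro p hp
    obtain ⟨h1, h2⟩ := hLbox p hp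
    rw [abs_le] at h1 h2
    exact ⟨⟨h1.1, h2.1⟩, ⟨h1.2, h2.2⟩⟩
  have hint : ∀ f : ℝ × ℝ → ℝ, Continuous f → IntegrableOn f (Lens1 D.d e) := fun f hf =>
    (hf.integrableOn_Icc).mono_set hLsub
  have cw : Continuous (w : ℝ × ℝ → ℝ) := (smooth w).continuous
  have cg : Continuous (g : ℝ × ℝ → ℝ) := (smooth g).continuous
  have cJ : Continuous (D.fr.J : ℝ × ℝ → ℝ) := (smooth D.fr.J).continuous
  have cmu : Continuous (D.d.mu : ℝ × ℝ → ℝ) := (smooth D.d.mu).continuous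
  -- lower bound of mu
  have hmu : ∀ p, lam / 2 ≤ D.d.mu p := by
    intro p
    rw [D.mu_eq, mul_ap]
    have h1 := abs_le.mp (D.a_bd p)
    have h2 := abs_le.mp (D.J_bd p)
    have h3 : lam * (1 - 1/2000) ≤ D.fr.a (avg F F' 2) p := by linarith [h1.1]
    have h4 : (1 - 1/4000 : ℝ) ≤ D.fr.J p := by linarith [h2.1]
    have h5 : lam * (1 - 1/2000) * (1 - 1/4000) ≤ D.fr.a (avg F F' 2) p * D.fr.J p :=
      mul_le_mul h3 h4 (by norm_num) (le_trans (by positivity) h3)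
    refine le_trans ?_ h5
    nlinarith
  have hJ : ∀ p, |D.fr.J p| ≤ 2 := by
    intro p
    have h2 := abs_le.mp (D.J_bd p)
    rw [abs_le]
    constructor <;> linarith [h2.1, h2.2]
  -- the two parts of the support
  set T : Set (ℝ × ℝ) := {p | g p ≠ 0} with hT
  have hTm : MeasurableSet T := (isOpen_ne_fun cg continuous_const).measurableSet
  set A1 : Set (ℝ × ℝ) := {p | |p.1| < 3 * r} with hA1
  set A2 : Set (ℝ × ℝ) := {p | 3 * r ≤ |p.1|} with hA2
  have hA1m : MeasurableSet A1 :=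
    (isOpen_lt (continuous_abs.comp continuous_fst) continuous_const).measurableSet
  have hA2m : MeasurableSet A2 :=
    (isClosed_le continuous_const (continuous_abs.comp continuous_fst)).measurableSet
  have hTL : T ⊆ Lens1 D.d e := fun p hp => hlens p hp
  -- general estimate on a part
  have part : ∀ (A : Set (ℝ × ℝ)) (V : ℝ), MeasurableSet A → (volume (T ∩ A)).toReal ≤ V → 0 ≤ V →
      ∫ p in T ∩ A, |w p| ≤ √V * (√2 * √((∫ p in Lens1 D.d e ∩ A, (D.d.mu * w ^ 2 : Sm) p) / lam)) := by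
    intro A V hA hV hV0
    have hfin : volume (T ∩ A) ≠ ⊤ := by
      have : volume (T ∩ A) ≤ volume (Set.Icc ((-1 : ℝ), (-1 : ℝ)) ((1 : ℝ), (1 : ℝ))) :=
        measure_mono (fun p hp => hLsub (hTL hp.1))
      exact ne_top_of_le_ne_top (isCompact_Icc.measure_lt_top.ne) this
    have h1 := D5_cs (T ∩ A) V hfin hV w
      ((hint _ (continuous_abs.comp cw)).mono_set (fun p hp => hTL hp.1))
      ((hint _ (cw.pow 2)).mono_set (fun p hp => hTL hp.1))
    refine h1.trans ?_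
    refine mul_le_mul_of_nonneg_left ?_ (Real.sqrt_nonneg _)
    rw [← Real.sqrt_mul (by norm_num : (0:ℝ) ≤ 2)]
    apply Real.sqrt_le_sqrt
    have hc : Continuous (fun p => (D.d.mu * w ^ 2 : Sm) p) := (smooth _).continuous
    have h2 : ∫ p in T ∩ A, w p ^ 2 ≤ ∫ p in T ∩ A, (2 / lam) * (D.d.mu * w ^ 2 : Sm) p := by
      apply setIntegral_mono_on
      · exact (hint _ (cw.pow 2)).mono_set (fun p hp => hTL hp.1)
      · exact (hint _ (continuous_const.mul hc)).mono_set (fun p hp => hTL hp.1)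
      · exact hTm.inter hA
      · intro p _
        rw [mul_ap, pow_ap]
        have h3 := hmu p
        have h4 : (2 / lam) * (D.d.mu p * w p ^ 2) = (2 / lam * D.d.mu p) * w p ^ 2 := by ring
        rw [h4]
        have h5 : 1 ≤ 2 / lam * D.d.mu p := by
          rw [div_mul_eq_mul_div, le_div_iff₀ hlam]
          linarith
        nlinarith [sq_nonneg (w p)]
    have h3 : ∫ p in T ∩ A, (2 / lam) * (D.d.mu * w ^ 2 : Sm) p
        ≤ ∫ p in Lens1 D.d e ∩ A, (2 / lam) * (D.d.mu * w ^ 2 : Sm) p := by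
      apply setIntegral_mono_set
      · exact (hint _ (continuous_const.mul hc)).mono_set (fun p hp => hp.1)
      · refine Filter.Eventually.of_forall fun p => ?_
        have := hmu p
        show 0 ≤ (2 / lam) * (D.d.mu p * w p ^ 2)
        have : 0 ≤ D.d.mu p := le_trans (by positivity) this
        positivity
      · exact (Set.inter_subset_inter_left A hTL).eventuallyLE
    refine (h2.trans h3).trans (le_of_eq ?_)
    rw [integral_const_mul]
    ring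
  -- volumes
  have volbox : ∀ a b c d : ℝ, a ≤ b → c ≤ d →
      volume (Set.Icc (a, c) (b, d)) = ENNReal.ofReal ((b - a) * (d - c)) := by
    intro a b c d hab hcd
    rw [← Set.Icc_prod_Icc, Measure.volume_eq_prod, Measure.prod_prod, Real.volume_Icc,
      Real.volume_Icc, ENNReal.ofReal_mul (by linarith)]
  have hv1 : (volume (T ∩ A1)).toReal ≤ 7 * (r * ϖ) := by
    have hsub : T ∩ A1 ⊆ Set.Icc ((-(3 * r)), (t0 - 0.51 * ϖ)) ((3 * r), (t0 + 0.51 * ϖ)) := by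
      intro p hp
      obtain ⟨_, h2⟩ := hbox p hp.1
      have h3 : |p.1| < 3 * r := hp.2
      have h4 : |p.2 - t0| ≤ 0.51 * ϖ := by
        norm_num at h2 ⊢
        linarith
      rw [abs_le] at h4
      rw [abs_lt] at h3
      refine ⟨⟨?_, ?_⟩, ⟨?_, ?_⟩⟩
      · exact h3.1.le
      · show t0 - 0.51 * ϖ ≤ p.2
        linarith [h4.1]
      · exact h3.2.le
      · show p.2 ≤ t0 + 0.51 * ϖ
        linarith [h4.2]
    have h1 := measure_mono (μ := volume) hsub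
    rw [volbox _ _ _ _ (by linarith) (by norm_num; linarith)] at h1
    have h2 := ENNReal.toReal_mono ENNReal.ofReal_ne_top h1
    rw [ENNReal.toReal_ofReal (by norm_num; positivity)] at h2
    refine h2.trans ?_
    have : 0 < r * ϖ := by positivity
    norm_num
    nlinarith
  have hv2 : (volume (T ∩ A2)).toReal ≤ 1 := by
    have hsub : T ∩ A2 ⊆ Set.Icc ((-(1/2) : ℝ), (-(1/2) : ℝ)) ((1/2 : ℝ), (1/2 : ℝ)) := by
      intro p hp
      obtain ⟨h1, h2⟩ := hbox p hp.1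
      have hs : σ' = √ε / 1000 := hσ'
      have h3 : |p.1| ≤ 1/2 := by linarith
      have hp2 : |p.2| ≤ t0 + |p.2 - t0| := by
        have := abs_add_le t0 (p.2 - t0)
        rw [abs_of_nonneg ht0] at this
        calc |p.2| = |t0 + (p.2 - t0)| := by congr 1; ring
          _ ≤ _ := this
      have h4 : |p.2| ≤ 1/2 := by
        norm_num at h2
        linarith
      rw [abs_le] at h3 h4
      exact ⟨⟨h3.1, h4.1⟩, ⟨h3.2, h4.2⟩⟩
    have h1 := measure_mono (μ := volume) hsub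
    rw [volbox _ _ _ _ (by norm_num) (by norm_num)] at h1
    have h2 := ENNReal.toReal_mono ENNReal.ofReal_ne_top h1
    rw [ENNReal.toReal_ofReal (by norm_num)] at h2
    refine h2.trans ?_
    norm_num
  have p1 := part A1 (7 * (r * ϖ)) hA1m hv1 (by positivity)
  have p2 := part A2 1 hA2m hv2 (by norm_num)
  -- splitting
  have hwT : IntegrableOn (fun p => |w p|) T :=
    (hint _ (continuous_abs.comp cw)).mono_set hTL
  have hsplit : ∫ p in T, |w p| = (∫ p in T ∩ A1, |w p|) + ∫ p in T ∩ A2, |w p| := by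
    have hd : T \ A1 = T ∩ A2 := by
      ext p
      simp only [Set.mem_sdiff, Set.mem_inter_iff, hA1, hA2, Set.mem_ofPred_eq, not_lt]
    rw [← integral_inter_add_sdiff hA1m hwT, hd]
  have hmain : |∫ p, (D.fr.J * (w * g) : Sm) p| ≤ 2 * M * ∫ p in T, |w p| := by
    have h1 : ∫ p, (D.fr.J * (w * g) : Sm) p = ∫ p in T, (D.fr.J * (w * g) : Sm) p := by
      symm
      apply setIntegral_eq_integral_of_forall_compl_eq_zero
      intro p hp
      have : g p = 0 := by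
        by_contra hne
        exact hp hne
      rw [mul_ap, mul_ap, this]
      ring
    rw [h1]
    have h2 : ‖∫ p in T, (D.fr.J * (w * g) : Sm) p‖ ≤ ∫ p in T, 2 * M * |w p| := by
      apply norm_integral_le_of_norm_le (hwT.const_mul _)
      refine Filter.Eventually.of_forall fun p => ?_
      rw [mul_ap, mul_ap, Real.norm_eq_abs, abs_mul, abs_mul]
      have h3 := hJ p
      have h4 : |g p| ≤ M := hMb p
      have h5 := abs_nonneg (w p)
      calc |D.fr.J p| * (|w p| * |g p|) ≤ 2 * (|w p| * M) := by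
            apply mul_le_mul h3 _ (by positivity) (by norm_num)
            exact mul_le_mul_of_nonneg_left h4 h5
        _ = 2 * M * |w p| := by ring
    rw [Real.norm_eq_abs, integral_const_mul] at h2
    exact h2
  set X1 := √((∫ p in Lens1 D.d e ∩ A1, (D.d.mu * w ^ 2 : Sm) p) / lam) with hX1
  set X2 := √((∫ p in Lens1 D.d e ∩ A2, (D.d.mu * w ^ 2 : Sm) p) / lam) with hX2
  have hX10 : 0 ≤ X1 := Real.sqrt_nonneg _
  have hX20 : 0 ≤ X2 := Real.sqrt_nonneg _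
  have hq : 0 ≤ √(r * ϖ) := Real.sqrt_nonneg _
  have h7 : √(7 * (r * ϖ)) ≤ 3 * √(r * ϖ) := by
    rw [Real.sqrt_mul (by norm_num)]
    have : √7 ≤ 3 := by
      rw [Real.sqrt_le_left (by norm_num)]; norm_num
    exact mul_le_mul_of_nonneg_right this hq
  have h2 : √2 ≤ 1.5 := by
    rw [Real.sqrt_le_left (by norm_num)]; norm_num
  have hs2 : 0 ≤ √2 := Real.sqrt_nonneg _
  have q1 : ∫ p in T ∩ A1, |w p| ≤ 4.5 * (√(r * ϖ) * X1) := by
    refine p1.trans ?_
    calc √(7 * (r * ϖ)) * (√2 * X1) ≤ (3 * √(r * ϖ)) * (1.5 * X1) := by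
          apply mul_le_mul h7 _ (by positivity) (by positivity)
          exact mul_le_mul_of_nonneg_right h2 hX10
      _ = 4.5 * (√(r * ϖ) * X1) := by ring
  have q2 : ∫ p in T ∩ A2, |w p| ≤ 1.5 * X2 := by
    refine p2.trans ?_
    rw [Real.sqrt_one, one_mul]
    exact mul_le_mul_of_nonneg_right h2 hX20
  refine hmain.trans ?_
  rw [hsplit]
  have hfin : (∫ p in T ∩ A1, |w p|) + ∫ p in T ∩ A2, |w p| ≤ 5 * (√(r * ϖ) * X1 + X2) := by
    have : 0 ≤ √(r * ϖ) * X1 := mul_nonneg hq hX10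
    norm_num at q1 q2
    linarith
  calc 2 * M * ((∫ p in T ∩ A1, |w p|) + ∫ p in T ∩ A2, |w p|)
      ≤ 2 * M * (5 * (√(r * ϖ) * X1 + X2)) := mul_le_mul_of_nonneg_left hfin (by positivity)
    _ = 10 * M * (√(r * ϖ) * X1 + X2) := by ring

end NI
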