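import Crest.Agent.NI_Geo

set_option autoImplicit false
open scoped ContDiff
open MeasureTheory

namespace NI

/-- everything we need about a pair of good immersions `F, F'` whose metrics differ by `h ds²`. -/
structure Data (lam ε : ℝ) (F F' : Fin 3 → Sm) (h : Sm) where
  fr : Frame
  d : VY
  k : Sm
  isfr : IsFr fr (avg F F')
  dx : d.x = fr.x
  mu_eq : d.mu = fr.a (avg F F' 2) * fr.J
  k_eq : ε • k = fr.Dt (avg F F' 2)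
  L_eq : ∀ w : Sm, fr.L (avg F F' 2) w = fr.a (avg F F' 2) * d.L (ε / lam ^ 2) k w
  x_bd : ∀ p : ℝ × ℝ, |fr.x p - p.1| ≤ 1/10000
  y_bd : ∀ p : ℝ × ℝ, |fr.y p - p.2| ≤ 1/10000
  Q_bd : ∀ p : ℝ × ℝ, |d.Q p - p.2| ≤ (|p.1| + |p.2|) / 10000
  D_bd : ∀ p : ℝ × ℝ, |D1 fr.x p - 1| ≤ 1/10000 ∧ |D2 fr.x p| ≤ 1/10000 ∧
    |D1 fr.y p| ≤ 1/10000 ∧ |D2 fr.y p - 1| ≤ 1/10000
  J_bd : ∀ p : ℝ × ℝ, |fr.J p - 1| ≤ 1/4000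
  a_bd : ∀ p : ℝ × ℝ, |fr.a (avg F F' 2) p - lam| ≤ lam/2000
  b_bd : ∀ p : ℝ × ℝ, |fr.b (avg F F' 2) p| ≤ lam/2000
  c_bd : ∀ p : ℝ × ℝ, |fr.c (avg F F' 2) p| ≤ lam/2000
  A_bd : ∀ p : ℝ × ℝ, |d.A11 p - 1| ≤ 1/1000 ∧ |d.A12 p| ≤ 1/1000 ∧ |d.A21 p| ≤ 1/1000 ∧
    |d.A22 p - 1| ≤ 1/1000
  kclose : ∀ p ∈ Box 1.5, Kclose d k p
  Dt_bd : ∀ p ∈ Box 1.5, |fr.Dt (avg F F' 2) p - ε * kk p| ≤ ε/1000
  comm : ∀ f, fr.d1 (fr.d2 f) = fr.d2 (fr.d1 f)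
  int1 : ∀ f : Sm, HasCompactSupport (f : ℝ × ℝ → ℝ) → ∫ p, (fr.J * fr.d1 f) p = 0
  int2 : ∀ f : Sm, HasCompactSupport (f : ℝ × ℝ → ℝ) → ∫ p, (fr.J * fr.d2 f) p = 0
  pde : ∀ p ∈ Box 1.8, fr.L (avg F F' 2) (F 2 - F' 2) p = fr.H h p
  /-- bound of the right-hand side; the constant is the universal one of `H_bound` -/
  CH : ℝ
  H_bd : ∀ (g : Sm) (p : ℝ × ℝ), |fr.H g p| ≤ CH * (|g p| + |D1 g p| + |D2 g p| + |D2 (D2 g) p|)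

/-- support set of the bumps -/
def Slit (r ρ : ℝ) : Set (ℝ × ℝ) := {p | |p.1| ≤ r ∧ |p.2| ≤ ρ}

/-- test function localised near the bump with `y`-coordinate `y0` -/
noncomputable def f00s (ϖ : ℝ) (r : ℝ) : ℝ := ϖ ^ 2 * F00 (r / ϖ)

theorem f00s_contDiff (ϖ : ℝ) : ContDiff ℝ ∞ (f00s ϖ) := by
  unfold f00s
  exact contDiff_const.mul (F00_contDiff.comp (contDiff_id.div_const _))

noncomputable def tst (y : Sm) (σ' ϖ y0 : ℝ) : Sm :=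
  cmp (ct (σ'/2) σ') ct_contDiff Xs * cmp (f00s ϖ) (f00s_contDiff ϖ) (y - y0 • (1 : Sm))

end NI
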