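import Mathlib

set_option autoImplicit false
open scoped ContDiff
open MeasureTheory

namespace NI

/-- the algebra of smooth functions on the plane `ℝ × ℝ`. -/
def smAlg : Subalgebra ℝ (ℝ × ℝ → ℝ) where
  carrier := {f | ContDiff ℝ ∞ f}
  mul_mem' := fun {a b} ha hb => by
    have ha' : ContDiff ℝ ∞ a := ha
    have hb' : ContDiff ℝ ∞ b := hb
    exact ha'.mul hb'
  add_mem' := fun {a b} ha hb => by
    have ha' : ContDiff ℝ ∞ a := ha
    have hb' : ContDiff ℝ ∞ b := hb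
    exact ha'.add hb'
  algebraMap_mem' := fun r => by
    show ContDiff ℝ ∞ (fun _ : ℝ × ℝ => r)
    exact contDiff_const

/-- smooth functions on the plane -/
abbrev Sm : Type := smAlg

instance : CoeFun Sm (fun _ => ℝ × ℝ → ℝ) := ⟨fun f => f.1⟩

theorem smooth (f : Sm) : ContDiff ℝ ∞ (f : ℝ × ℝ → ℝ) := f.2

theorem mem_smAlg {f : ℝ × ℝ → ℝ} (hf : ContDiff ℝ ∞ f) : f ∈ smAlg := hf

theorem sm_ext {f g : Sm} (h : ∀ p, f p = g p) : f = g :=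
  Subtype.ext (funext h)

@[simp] theorem add_ap (f g : Sm) (p : ℝ × ℝ) : (f + g : Sm) p = f p + g p := rfl
@[simp] theorem sub_ap (f g : Sm) (p : ℝ × ℝ) : (f - g : Sm) p = f p - g p := rfl
@[simp] theorem mul_ap (f g : Sm) (p : ℝ × ℝ) : (f * g : Sm) p = f p * g p := rfl
@[simp] theorem neg_ap (f : Sm) (p : ℝ × ℝ) : (-f : Sm) p = - f p := rfl
@[simp] theorem one_ap (p : ℝ × ℝ) : (1 : Sm) p = 1 := rfl
@[simp] theorem zero_ap (p : ℝ × ℝ) : (0 : Sm) p = 0 := rfl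
@[simp] theorem smul_ap (c : ℝ) (f : Sm) (p : ℝ × ℝ) : (c • f : Sm) p = c * f p := rfl
@[simp] theorem pow_ap (f : Sm) (n : ℕ) (p : ℝ × ℝ) : (f ^ n : Sm) p = f p ^ n := rfl

theorem diffAt (f : Sm) (p : ℝ × ℝ) : DifferentiableAt ℝ (f : ℝ × ℝ → ℝ) p :=
  ((smooth f).differentiable (by simp)) p

theorem fderiv_smooth (f : Sm) (v : ℝ × ℝ) :
    ContDiff ℝ ∞ (fun p => fderiv ℝ (f : ℝ × ℝ → ℝ) p v) := by
  have h := smooth f
  have h1 : ContDiff ℝ ∞ (fderiv ℝ (f : ℝ × ℝ → ℝ)) := h.fderiv_right (by simp)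
  exact h1.clm_apply contDiff_const

/-- directional derivative as a linear map of `Sm`. -/
noncomputable def DvL (v : ℝ × ℝ) : Sm →ₗ[ℝ] Sm where
  toFun f := ⟨fun p => fderiv ℝ (f : ℝ × ℝ → ℝ) p v, mem_smAlg (fderiv_smooth f v)⟩
  map_add' f g := by
    apply sm_ext; intro p
    have : ((f + g : Sm) : ℝ × ℝ → ℝ) = (f : ℝ × ℝ → ℝ) + (g : ℝ × ℝ → ℝ) := rfl
    show fderiv ℝ ((f + g : Sm) : ℝ × ℝ → ℝ) p v = _
    rw [this, fderiv_add (diffAt f p) (diffAt g p)]; rfl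
  map_smul' c f := by
    apply sm_ext; intro p
    have : ((c • f : Sm) : ℝ × ℝ → ℝ) = c • (f : ℝ × ℝ → ℝ) := rfl
    show fderiv ℝ ((c • f : Sm) : ℝ × ℝ → ℝ) p v = _
    rw [this, fderiv_const_smul (diffAt f p)]; rfl

/-- directional derivative as a derivation of `Sm`. -/
noncomputable def Dv (v : ℝ × ℝ) : Derivation ℝ Sm Sm :=
  Derivation.mk' (DvL v) (by
    intro f g
    apply sm_ext; intro p
    have : ((f * g : Sm) : ℝ × ℝ → ℝ) = (f : ℝ × ℝ → ℝ) * (g : ℝ × ℝ → ℝ) := rfl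
    show fderiv ℝ ((f * g : Sm) : ℝ × ℝ → ℝ) p v = _
    rw [this, fderiv_mul (diffAt f p) (diffAt g p)]
    simp [smul_eq_mul, DvL])

/-- partial derivatives -/
noncomputable def D1 : Derivation ℝ Sm Sm := Dv (1, 0)
noncomputable def D2 : Derivation ℝ Sm Sm := Dv (0, 1)

theorem Dv_ap (v : ℝ × ℝ) (f : Sm) (p : ℝ × ℝ) :
    (Dv v f) p = fderiv ℝ (f : ℝ × ℝ → ℝ) p v := rfl
theorem D1_ap (f : Sm) (p : ℝ × ℝ) : (D1 f) p = fderiv ℝ (f : ℝ × ℝ → ℝ) p (1, 0) := rfl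
theorem D2_ap (f : Sm) (p : ℝ × ℝ) : (D2 f) p = fderiv ℝ (f : ℝ × ℝ → ℝ) p (0, 1) := rfl

theorem Dv_comm (v w : ℝ × ℝ) (f : Sm) : Dv v (Dv w f) = Dv w (Dv v f) := by
  apply sm_ext; intro p
  have hs : ContDiff ℝ ∞ (f : ℝ × ℝ → ℝ) := smooth f
  have hd : DifferentiableAt ℝ (fderiv ℝ (f : ℝ × ℝ → ℝ)) p :=
    ((hs.fderiv_right (m := ∞) (by simp)).differentiable (by simp)) p
  have key : ∀ a b : ℝ × ℝ, (Dv a (Dv b f)) p
      = fderiv ℝ (fderiv ℝ (f : ℝ × ℝ → ℝ)) p a b := by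
    intro a b
    show fderiv ℝ (fun q => fderiv ℝ (f : ℝ × ℝ → ℝ) q b) p a = _
    have := fderiv_clm_apply (c := fderiv ℝ (f : ℝ × ℝ → ℝ)) (u := fun _ => b) hd
      (differentiableAt_const b)
    rw [this]; simp
  rw [key, key]
  have hsym : IsSymmSndFDerivAt ℝ (f : ℝ × ℝ → ℝ) p :=
    (hs.contDiffAt).isSymmSndFDerivAt (by
      simp only [minSmoothness_of_isRCLikeNormedField]
      exact WithTop.coe_le_coe.mpr le_top)
  exact hsym v w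

theorem D1_D2_comm (f : Sm) : D1 (D2 f) = D2 (D1 f) := Dv_comm _ _ f

/-- coordinate functions -/
def Xs : Sm := ⟨fun p => p.1, mem_smAlg contDiff_fst⟩
def Xt : Sm := ⟨fun p => p.2, mem_smAlg contDiff_snd⟩

@[simp] theorem Xs_ap (p : ℝ × ℝ) : Xs p = p.1 := rfl
@[simp] theorem Xt_ap (p : ℝ × ℝ) : Xt p = p.2 := rfl

/-- post-composition with a smooth real function -/
noncomputable def cmp (g : ℝ → ℝ) (hg : ContDiff ℝ ∞ g) (f : Sm) : Sm :=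
  ⟨fun p => g (f p), mem_smAlg (hg.comp (smooth f))⟩

@[simp] theorem cmp_ap (g : ℝ → ℝ) (hg : ContDiff ℝ ∞ g) (f : Sm) (p : ℝ × ℝ) :
    cmp g hg f p = g (f p) := rfl

/-- inverse of a nowhere vanishing smooth function -/
noncomputable def sinv (f : Sm) (hf : ∀ p, f p ≠ 0) : Sm :=
  ⟨fun p => (f p)⁻¹, mem_smAlg ((smooth f).inv hf)⟩

@[simp] theorem sinv_ap (f : Sm) (hf : ∀ p, f p ≠ 0) (p : ℝ × ℝ) :
    sinv f hf p = (f p)⁻¹ := rfl

/-- chain rule -/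
theorem Dv_cmp (v : ℝ × ℝ) (g : ℝ → ℝ) (hg : ContDiff ℝ ∞ g) (hg' : ContDiff ℝ ∞ (deriv g))
    (f : Sm) : Dv v (cmp g hg f) = cmp (deriv g) hg' f * Dv v f := by
  apply sm_ext; intro p
  have h1 : HasDerivAt g (deriv g (f p)) (f p) :=
    ((hg.differentiable (by simp)) (f p)).hasDerivAt
  have h2 : HasFDerivAt (f : ℝ × ℝ → ℝ) (fderiv ℝ (f : ℝ × ℝ → ℝ) p) p := (diffAt f p).hasFDerivAt
  have h3 := h1.comp_hasFDerivAt p h2
  show fderiv ℝ (fun q => g (f q)) p v = _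
  have h4 : fderiv ℝ (fun q => g (f q)) p = deriv g (f p) • fderiv ℝ (f : ℝ × ℝ → ℝ) p := h3.fderiv
  rw [h4]; rfl

theorem contDiff_deriv {g : ℝ → ℝ} (hg : ContDiff ℝ ∞ g) : ContDiff ℝ ∞ (deriv g) := by
  exact (contDiff_infty_iff_deriv.1 hg).2

/-- the vector field `A ∂₁ + B ∂₂` as a derivation -/
noncomputable def vf (A B : Sm) : Derivation ℝ Sm Sm := A • D1 + B • D2

theorem vf_def (A B f : Sm) : vf A B f = A * D1 f + B * D2 f := rfl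

theorem vf_cmp (A B : Sm) (g : ℝ → ℝ) (hg : ContDiff ℝ ∞ g) (f : Sm) :
    vf A B (cmp g hg f) = cmp (deriv g) (contDiff_deriv hg) f * vf A B f := by
  rw [vf_def, vf_def, D1, D2, Dv_cmp _ g hg (contDiff_deriv hg),
    Dv_cmp _ g hg (contDiff_deriv hg)]
  ring

/-- iterated partial derivatives `∂₁^a ∂₂^b f`. -/
noncomputable def Dab (a b : ℕ) (f : Sm) : Sm :=
  (fun g : Sm => D1 g)^[a] ((fun g : Sm => D2 g)^[b] f)

/-- open box -/
def Box (r : ℝ) : Set (ℝ × ℝ) := {p | |p.1| < r ∧ |p.2| < r}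

/-- open square ring -/
def Ring (r R : ℝ) : Set (ℝ × ℝ) := {p | r < max |p.1| |p.2| ∧ max |p.1| |p.2| < R}

/-- pointwise dot product of two triples of smooth functions -/
def dot (X Y : Fin 3 → Sm) : Sm := X 0 * Y 0 + X 1 * Y 1 + X 2 * Y 2

/-- `F` is an isometric immersion of the metric `E ds² + dt²` on `Ω` -/
def Isom (E : Sm) (F : Fin 3 → Sm) (Ω : Set (ℝ × ℝ)) : Prop :=
  ∀ p ∈ Ω, dot (fun i => D1 (F i)) (fun i => D1 (F i)) p = E p ∧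
    dot (fun i => D1 (F i)) (fun i => D2 (F i)) p = 0 ∧
    dot (fun i => D2 (F i)) (fun i => D2 (F i)) p = 1

/-- the model map `(s, t, lam t²/2)` -/
noncomputable def F0 (lam : ℝ) : Fin 3 → Sm := ![Xs, Xt, (lam / 2) • Xt ^ 2]

/-- derivatives of order `≤ k` of `f` are bounded by `M` on `Ω`. -/
def CkB (f : Sm) (k : ℕ) (M : ℝ) (Ω : Set (ℝ × ℝ)) : Prop :=
  ∀ a b : ℕ, a + b ≤ k → ∀ p ∈ Ω, |Dab a b f p| ≤ M

/-- globally defined map, near the model in `C⁴`, equal to the model outside the box `2`. -/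
def Good (lam η : ℝ) (F : Fin 3 → Sm) : Prop :=
  (∀ i, ∀ p, p ∉ Box 2 → (F i - F0 lam i) p = 0) ∧
  ∀ i, CkB (F i - F0 lam i) 4 (η * lam) Set.univ

end NI
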