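import Crest.Agent.NI_Geo
import Crest.Agent.NI_N1

set_option autoImplicit false
open scoped ContDiff
open MeasureTheory

namespace NI

/-- `F` is an isometric immersion of the metric `g11 ds² + 2 g12 ds dt + g22 dt²` on `Ω` -/
def IsomG (g11 g12 g22 : Sm) (F : Fin 3 → Sm) (Ω : Set (ℝ × ℝ)) : Prop :=
  ∀ p ∈ Ω, dot (fun i => D1 (F i)) (fun i => D1 (F i)) p = g11 p ∧
    dot (fun i => D1 (F i)) (fun i => D2 (F i)) p = g12 p ∧
    dot (fun i => D2 (F i)) (fun i => D2 (F i)) p = g22 p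

/-- unnormalised second fundamental form -/
noncomputable def l11 (F : Fin 3 → Sm) : Sm := dot (nrm F) (fun i => D1 (D1 (F i)))
noncomputable def l12 (F : Fin 3 → Sm) : Sm := dot (nrm F) (fun i => D1 (D2 (F i)))
noncomputable def l22 (F : Fin 3 → Sm) : Sm := dot (nrm F) (fun i => D2 (D2 (F i)))

theorem Bdet_l (F : Fin 3 → Sm) : Bdet F = l11 F * l22 F - l12 F ^ 2 := rfl

/-- similarity with centre `c`, factor `r`, first axis `(a,b)` (a unit vector) -/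
def sim (c : ℝ × ℝ) (r a b : ℝ) (p : ℝ × ℝ) : ℝ × ℝ :=
  (c.1 + r * (a * p.1 - b * p.2), c.2 + r * (b * p.1 + a * p.2))

/-- inverse similarity -/
noncomputable def simi (c : ℝ × ℝ) (r a b : ℝ) (q : ℝ × ℝ) : ℝ × ℝ :=
  (r⁻¹ * (a * (q.1 - c.1) + b * (q.2 - c.2)), r⁻¹ * (-b * (q.1 - c.1) + a * (q.2 - c.2)))

noncomputable def pull (c : ℝ × ℝ) (r a b : ℝ) (f : Sm) : Sm :=
  ⟨fun p => f (sim c r a b p), mem_smAlg ((smooth f).comp (by unfold sim; fun_prop))⟩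

noncomputable def push (c : ℝ × ℝ) (r a b : ℝ) (f : Sm) : Sm :=
  ⟨fun p => f (simi c r a b p), mem_smAlg ((smooth f).comp (by unfold simi; fun_prop))⟩

@[simp] theorem pull_ap (c : ℝ × ℝ) (r a b : ℝ) (f : Sm) (p : ℝ × ℝ) :
    pull c r a b f p = f (sim c r a b p) := rfl
@[simp] theorem push_ap (c : ℝ × ℝ) (r a b : ℝ) (f : Sm) (p : ℝ × ℝ) :
    push c r a b f p = f (simi c r a b p) := rfl

theorem simi_sim (c : ℝ × ℝ) (r a b : ℝ) (hr : r ≠ 0) (hab : a ^ 2 + b ^ 2 = 1) (p : ℝ × ℝ) :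
    simi c r a b (sim c r a b p) = p := by
  have hr2 : r⁻¹ * r = 1 := inv_mul_cancel₀ hr
  unfold simi sim
  ext
  · show r⁻¹ * (a * (c.1 + r * (a * p.1 - b * p.2) - c.1) + b * (c.2 + r * (b * p.1 + a * p.2) - c.2))
      = p.1
    linear_combination (a ^ 2 + b ^ 2) * p.1 * hr2 + p.1 * hab
  · show r⁻¹ * (-b * (c.1 + r * (a * p.1 - b * p.2) - c.1) + a * (c.2 + r * (b * p.1 + a * p.2) - c.2))
      = p.2
    linear_combination (a ^ 2 + b ^ 2) * p.2 * hr2 + p.2 * hab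

theorem sim_simi (c : ℝ × ℝ) (r a b : ℝ) (hr : r ≠ 0) (hab : a ^ 2 + b ^ 2 = 1) (p : ℝ × ℝ) :
    sim c r a b (simi c r a b p) = p := by
  have hr2 : r⁻¹ * r = 1 := inv_mul_cancel₀ hr
  unfold simi sim
  ext
  · show c.1 + r * (a * (r⁻¹ * (a * (p.1 - c.1) + b * (p.2 - c.2)))
      - b * (r⁻¹ * (-b * (p.1 - c.1) + a * (p.2 - c.2)))) = p.1
    linear_combination (a ^ 2 + b ^ 2) * (p.1 - c.1) * hr2 + (p.1 - c.1) * hab
  · show c.2 + r * (b * (r⁻¹ * (a * (p.1 - c.1) + b * (p.2 - c.2)))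
      + a * (r⁻¹ * (-b * (p.1 - c.1) + a * (p.2 - c.2)))) = p.2
    linear_combination (a ^ 2 + b ^ 2) * (p.2 - c.2) * hr2 + (p.2 - c.2) * hab

/-- linear part of `sim` -/
noncomputable def E1_L (r a b : ℝ) : ℝ × ℝ →L[ℝ] ℝ × ℝ :=
  ((r * a) • ContinuousLinearMap.fst ℝ ℝ ℝ - (r * b) • ContinuousLinearMap.snd ℝ ℝ ℝ).prod
    ((r * b) • ContinuousLinearMap.fst ℝ ℝ ℝ + (r * a) • ContinuousLinearMap.snd ℝ ℝ ℝ)

theorem E1_L_ap (r a b : ℝ) (v : ℝ × ℝ) :
    E1_L r a b v = (r * a * v.1 - r * b * v.2, r * b * v.1 + r * a * v.2) := by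
  simp [E1_L]

theorem E1_sim_eq (c : ℝ × ℝ) (r a b : ℝ) : sim c r a b = fun p => c + E1_L r a b p := by
  funext p
  rw [E1_L_ap]
  unfold sim
  ext
  · show c.1 + r * (a * p.1 - b * p.2) = c.1 + (r * a * p.1 - r * b * p.2)
    ring
  · show c.2 + r * (b * p.1 + a * p.2) = c.2 + (r * b * p.1 + r * a * p.2)
    ring

theorem E1_Dv_pull (c : ℝ × ℝ) (r a b : ℝ) (f : Sm) (v p : ℝ × ℝ) :
    (Dv v (pull c r a b f)) p = fderiv ℝ (f : ℝ × ℝ → ℝ) (sim c r a b p) (E1_L r a b v) := by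
  have h1 : HasFDerivAt (sim c r a b) (E1_L r a b) p := by
    rw [E1_sim_eq]
    exact (E1_L r a b).hasFDerivAt.const_add c
  have h2 : HasFDerivAt (f : ℝ × ℝ → ℝ) (fderiv ℝ (f : ℝ × ℝ → ℝ) (sim c r a b p))
      (sim c r a b p) := (diffAt f _).hasFDerivAt
  have h3 := h2.comp p h1
  rw [Dv_ap]
  have h4 : fderiv ℝ (pull c r a b f : ℝ × ℝ → ℝ) p =
      (fderiv ℝ (f : ℝ × ℝ → ℝ) (sim c r a b p)).comp (E1_L r a b) := h3.fderiv
  rw [h4]
  rfl

theorem E1_fderiv_ap (f : Sm) (x v : ℝ × ℝ) :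
    fderiv ℝ (f : ℝ × ℝ → ℝ) x v = v.1 * D1 f x + v.2 * D2 f x := by
  have e : v = v.1 • ((1 : ℝ), (0 : ℝ)) + v.2 • ((0 : ℝ), (1 : ℝ)) := by
    ext <;> simp
  conv_lhs => rw [e]
  rw [map_add, map_smul, map_smul]
  rfl

theorem D1_pull (c : ℝ × ℝ) (r a b : ℝ) (f : Sm) :
    D1 (pull c r a b f) = r • (a • pull c r a b (D1 f) + b • pull c r a b (D2 f)) := by
  apply sm_ext
  intro p
  show (Dv (1, 0) (pull c r a b f)) p = _
  rw [E1_Dv_pull, E1_fderiv_ap, E1_L_ap]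
  simp only [smul_ap, add_ap, pull_ap]
  ring

theorem D2_pull (c : ℝ × ℝ) (r a b : ℝ) (f : Sm) :
    D2 (pull c r a b f) = r • (-b • pull c r a b (D1 f) + a • pull c r a b (D2 f)) := by
  apply sm_ext
  intro p
  show (Dv (0, 1) (pull c r a b f)) p = _
  rw [E1_Dv_pull, E1_fderiv_ap, E1_L_ap]
  simp only [smul_ap, add_ap, pull_ap]
  ring

theorem E1_it_lin (D : Derivation ℝ Sm Sm) (n : ℕ) (x y : ℝ) (f g : Sm) :
    (fun g : Sm => D g)^[n] (x • f + y • g) =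
      x • (fun g : Sm => D g)^[n] f + y • (fun g : Sm => D g)^[n] g := by
  induction n generalizing f g with
  | zero => rfl
  | succ n ih =>
    rw [Function.iterate_succ_apply, Function.iterate_succ_apply, Function.iterate_succ_apply,
      map_add, D.map_smul, D.map_smul, ih]

theorem E1_Dab_lin (i j : ℕ) (x y : ℝ) (f g : Sm) :
    Dab i j (x • f + y • g) = x • Dab i j f + y • Dab i j g := by
  unfold Dab
  rw [E1_it_lin, E1_it_lin]

theorem E1_Dab_smul (i j : ℕ) (x : ℝ) (f : Sm) : Dab i j (x • f) = x • Dab i j f := by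
  have h := E1_Dab_lin i j x 0 f f
  simpa using h

theorem E1_Dab_D2 (i j : ℕ) (f : Sm) : Dab i j (D2 f) = Dab i (j + 1) f := rfl

theorem E1_Dab_D1 (i j : ℕ) (f : Sm) : Dab i j (D1 f) = Dab (i + 1) j f := by
  have h1 : ∀ n : ℕ, (fun g : Sm => D2 g)^[n] (D1 f) = D1 ((fun g : Sm => D2 g)^[n] f) := by
    intro n
    induction n with
    | zero => rfl
    | succ n ih =>
      rw [Function.iterate_succ_apply', ih, Function.iterate_succ_apply', D1_D2_comm]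
  unfold Dab
  rw [h1]
  rfl

theorem E1_ab (a b : ℝ) (hab : a ^ 2 + b ^ 2 = 1) : |a| + |b| ≤ 2 := by
  have h1 : |a| ≤ 1 := abs_le_one_iff_mul_self_le_one.2 (by nlinarith [sq_nonneg b])
  have h2 : |b| ≤ 1 := abs_le_one_iff_mul_self_le_one.2 (by nlinarith [sq_nonneg a])
  linarith

/-- derivatives of the rescaled function -/
theorem Dab_pull_bound (c : ℝ × ℝ) (r a b : ℝ) (f : Sm) (hr : 0 < r) (hab : a ^ 2 + b ^ 2 = 1)
    (k : ℕ) (M : ℝ) (p : ℝ × ℝ)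
    (hM : ∀ i j : ℕ, i + j = k → |Dab i j f (sim c r a b p)| ≤ M) :
    ∀ i j : ℕ, i + j = k → |Dab i j (pull c r a b f) p| ≤ (2 * r) ^ k * M := by
  induction k generalizing f with
  | zero =>
    intro i j hij
    obtain ⟨rfl, rfl⟩ : i = 0 ∧ j = 0 := by omega
    have h := hM 0 0 rfl
    have e : Dab 0 0 (pull c r a b f) p = Dab 0 0 f (sim c r a b p) := rfl
    rw [e, pow_zero, one_mul]
    exact h
  | succ k ih =>
    have hD1 := ih (D1 f) (fun i j hij => by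
      rw [E1_Dab_D1]; exact hM (i + 1) j (by omega))
    have hD2 := ih (D2 f) (fun i j hij => by
      rw [E1_Dab_D2]; exact hM i (j + 1) (by omega))
    have hM0 : 0 ≤ M := (abs_nonneg _).trans (hM (k + 1) 0 rfl)
    have hK : 0 ≤ (2 * r) ^ k * M := by positivity
    have key : ∀ (x y : ℝ), |x| + |y| ≤ 2 → ∀ u v : ℕ, u + v = k →
        |Dab u v (r • (x • pull c r a b (D1 f) + y • pull c r a b (D2 f))) p| ≤
          (2 * r) ^ (k + 1) * M := by
      intro x y hxy u v huv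
      rw [E1_Dab_smul, E1_Dab_lin]
      simp only [smul_ap, add_ap]
      rw [abs_mul, abs_of_pos hr]
      have h1 := hD1 u v huv
      have h2 := hD2 u v huv
      have h3 : |x * Dab u v (pull c r a b (D1 f)) p + y * Dab u v (pull c r a b (D2 f)) p| ≤
          2 * ((2 * r) ^ k * M) := by
        calc |x * Dab u v (pull c r a b (D1 f)) p + y * Dab u v (pull c r a b (D2 f)) p|
            ≤ |x * Dab u v (pull c r a b (D1 f)) p| + |y * Dab u v (pull c r a b (D2 f)) p| :=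
              abs_add_le _ _
          _ = |x| * |Dab u v (pull c r a b (D1 f)) p| + |y| * |Dab u v (pull c r a b (D2 f)) p| := by
              rw [abs_mul, abs_mul]
          _ ≤ |x| * ((2 * r) ^ k * M) + |y| * ((2 * r) ^ k * M) := by gcongr
          _ = (|x| + |y|) * ((2 * r) ^ k * M) := by ring
          _ ≤ 2 * ((2 * r) ^ k * M) := by gcongr
      calc r * |x * Dab u v (pull c r a b (D1 f)) p + y * Dab u v (pull c r a b (D2 f)) p|
          ≤ r * (2 * ((2 * r) ^ k * M)) := by gcongr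
        _ = (2 * r) ^ (k + 1) * M := by ring
    have hab2 := E1_ab a b hab
    intro i j hij
    rcases i with _ | i
    · rcases j with _ | j
      · omega
      · rw [← E1_Dab_D2, D2_pull]
        exact key (-b) a (by rw [abs_neg]; linarith) 0 j (by omega)
    · rw [← E1_Dab_D1, D1_pull]
      exact key a b hab2 i j (by omega)

/-- all derivatives of a pushed function -/
theorem push_CN (c : ℝ × ℝ) (r a b : ℝ) (f : Sm) (hr : 0 < r) (hab : a ^ 2 + b ^ 2 = 1)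
    (k : ℕ) (M : ℝ) (hM : ∀ p, ‖iteratedFDeriv ℝ k (f : ℝ × ℝ → ℝ) p‖ ≤ M) :
    ∀ p, ‖iteratedFDeriv ℝ k (push c r a b f : ℝ × ℝ → ℝ) p‖ ≤ (2 / r) ^ k * M := by
  intro p
  have e1 : (push c r a b f : ℝ × ℝ → ℝ) =
      fun q => ((f : ℝ × ℝ → ℝ) ∘ (E1_L r⁻¹ a (-b))) (q - c) := by
    funext q
    show (f : ℝ × ℝ → ℝ) (simi c r a b q) = (f : ℝ × ℝ → ℝ) (E1_L r⁻¹ a (-b) (q - c))
    have e : simi c r a b q = E1_L r⁻¹ a (-b) (q - c) := by
      rw [E1_L_ap]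
      unfold simi
      ext
      · show r⁻¹ * (a * (q.1 - c.1) + b * (q.2 - c.2)) =
          r⁻¹ * a * (q.1 - c.1) - r⁻¹ * (-b) * (q.2 - c.2)
        ring
      · show r⁻¹ * (-b * (q.1 - c.1) + a * (q.2 - c.2)) =
          r⁻¹ * (-b) * (q.1 - c.1) + r⁻¹ * a * (q.2 - c.2)
        ring
    rw [e]
  rw [e1, iteratedFDeriv_comp_sub]
  rw [ContinuousLinearMap.iteratedFDeriv_comp_right (E1_L r⁻¹ a (-b)) (smooth f)
    (p - c) (i := k) (by exact_mod_cast le_top)]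
  refine (ContinuousMultilinearMap.norm_compContinuousLinearMap_le _ _).trans ?_
  have hL : ‖E1_L r⁻¹ a (-b)‖ ≤ 2 / r := by
    refine ContinuousLinearMap.opNorm_le_bound _ (by positivity) fun v => ?_
    rw [E1_L_ap]
    have h1 := norm_fst_le v
    have h2 := norm_snd_le v
    rw [Real.norm_eq_abs] at h1 h2
    have hab2 := E1_ab a b hab
    have hri : 0 < r⁻¹ := by positivity
    have key : ∀ x y : ℝ, |x| + |y| ≤ 2 → |r⁻¹ * x * v.1 + r⁻¹ * y * v.2| ≤ 2 / r * ‖v‖ := by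
      intro x y hxy
      calc |r⁻¹ * x * v.1 + r⁻¹ * y * v.2| ≤ |r⁻¹ * x * v.1| + |r⁻¹ * y * v.2| := abs_add_le _ _
        _ = r⁻¹ * (|x| * |v.1| + |y| * |v.2|) := by
            rw [abs_mul, abs_mul, abs_mul, abs_mul, abs_of_pos hri]; ring
        _ ≤ r⁻¹ * (|x| * ‖v‖ + |y| * ‖v‖) := by gcongr
        _ = r⁻¹ * ((|x| + |y|) * ‖v‖) := by ring
        _ ≤ r⁻¹ * (2 * ‖v‖) := by gcongr
        _ = 2 / r * ‖v‖ := by ring
    rw [Prod.norm_def]
    refine max_le ?_ ?_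
    · have h := key a b hab2
      rw [Real.norm_eq_abs]
      have e : r⁻¹ * a * v.1 - r⁻¹ * -b * v.2 = r⁻¹ * a * v.1 + r⁻¹ * b * v.2 := by ring
      show |r⁻¹ * a * v.1 - r⁻¹ * -b * v.2| ≤ _
      rw [e]
      exact h
    · have h := key (-b) a (by rw [abs_neg]; linarith)
      rw [Real.norm_eq_abs]
      exact h
  calc ‖iteratedFDeriv ℝ k (f : ℝ × ℝ → ℝ) (E1_L r⁻¹ a (-b) (p - c))‖ *
        ∏ _i : Fin k, ‖E1_L r⁻¹ a (-b)‖
      ≤ M * ∏ _i : Fin k, (2 / r) := by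
        refine mul_le_mul (hM _) ?_ (by positivity) ((norm_nonneg _).trans (hM p))
        exact Finset.prod_le_prod (fun _ _ => norm_nonneg _) (fun _ _ => hL)
    _ = (2 / r) ^ k * M := by
        rw [Finset.prod_const, Finset.card_univ, Fintype.card_fin]; ring

/-- support of a pushed function -/
theorem push_off (c : ℝ × ℝ) (r a b R : ℝ) (f : Sm) (hr : 0 < r) (hab : a ^ 2 + b ^ 2 = 1)
    (hf : ∀ p, p ∉ Box R → f p = 0) :
    ∀ p : ℝ × ℝ, (2 * R * r ≤ |p.1 - c.1| ∨ 2 * R * r ≤ |p.2 - c.2|) → push c r a b f p = 0 := by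
  intro p hp
  rw [push_ap]
  apply hf
  rintro ⟨h1, h2⟩
  have hri : 0 < r⁻¹ := by positivity
  have hr2 : r⁻¹ * r = 1 := inv_mul_cancel₀ hr.ne'
  have hR : 0 < R := (abs_nonneg _).trans_lt h1
  set x := (simi c r a b p).1 with hx
  set y := (simi c r a b p).2 with hy
  have hx1 : x = r⁻¹ * (a * (p.1 - c.1) + b * (p.2 - c.2)) := rfl
  have hy1 : y = r⁻¹ * (-b * (p.1 - c.1) + a * (p.2 - c.2)) := rfl
  have hs : r ^ 2 * (x ^ 2 + y ^ 2) = (p.1 - c.1) ^ 2 + (p.2 - c.2) ^ 2 := by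
    rw [hx1, hy1]
    linear_combination ((p.1 - c.1) ^ 2 + (p.2 - c.2) ^ 2) * (r⁻¹ * r) ^ 2 * hab +
      ((p.1 - c.1) ^ 2 + (p.2 - c.2) ^ 2) * (r⁻¹ * r + 1) * hr2
  have hx2 : x ^ 2 < R ^ 2 := by
    rw [← sq_abs x]; exact pow_lt_pow_left₀ h1 (abs_nonneg _) (by norm_num)
  have hy2 : y ^ 2 < R ^ 2 := by
    rw [← sq_abs y]; exact pow_lt_pow_left₀ h2 (abs_nonneg _) (by norm_num)
  have h3 : (2 * R * r) ^ 2 ≤ (p.1 - c.1) ^ 2 + (p.2 - c.2) ^ 2 := by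
    rcases hp with hp | hp
    · have : (2 * R * r) ^ 2 ≤ |p.1 - c.1| ^ 2 := pow_le_pow_left₀ (by positivity) hp 2
      rw [sq_abs] at this
      nlinarith [sq_nonneg (p.2 - c.2)]
    · have : (2 * R * r) ^ 2 ≤ |p.2 - c.2| ^ 2 := pow_le_pow_left₀ (by positivity) hp 2
      rw [sq_abs] at this
      nlinarith [sq_nonneg (p.1 - c.1)]
  have h4 : 0 < r ^ 2 := by positivity
  nlinarith [mul_lt_mul_of_pos_left hx2 h4, mul_lt_mul_of_pos_left hy2 h4, mul_pos h4 (by positivity : 0 < R ^ 2)]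

/-- the pulled back immersion -/
noncomputable def pullF (c : ℝ × ℝ) (r a b : ℝ) (F : Fin 3 → Sm) : Fin 3 → Sm :=
  fun i => r⁻¹ • pull c r a b (F i)

theorem E1_D1_pullF (c : ℝ × ℝ) (r a b : ℝ) (F : Fin 3 → Sm) (hr : 0 < r) (i : Fin 3) :
    D1 (pullF c r a b F i) = a • pull c r a b (D1 (F i)) + b • pull c r a b (D2 (F i)) := by
  have hr2 : r⁻¹ * r = 1 := inv_mul_cancel₀ hr.ne'
  unfold pullF
  rw [D1.map_smul, D1_pull, smul_smul, hr2, one_smul]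

theorem E1_D2_pullF (c : ℝ × ℝ) (r a b : ℝ) (F : Fin 3 → Sm) (hr : 0 < r) (i : Fin 3) :
    D2 (pullF c r a b F i) = -b • pull c r a b (D1 (F i)) + a • pull c r a b (D2 (F i)) := by
  have hr2 : r⁻¹ * r = 1 := inv_mul_cancel₀ hr.ne'
  unfold pullF
  rw [D2.map_smul, D2_pull, smul_smul, hr2, one_smul]

theorem E1_sim0 (c : ℝ × ℝ) (r a b : ℝ) : sim c r a b (0, 0) = c := by
  unfold sim
  ext <;> simp

theorem E1_nrm_pullF (c : ℝ × ℝ) (r a b : ℝ) (F : Fin 3 → Sm) (hr : 0 < r)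
    (hab : a ^ 2 + b ^ 2 = 1) (p : ℝ × ℝ) (i : Fin 3) :
    nrm (pullF c r a b F) i p = nrm F i (sim c r a b p) := by
  unfold nrm crs
  fin_cases i
  · show (D1 (pullF c r a b F 1) * D2 (pullF c r a b F 2) -
      D1 (pullF c r a b F 2) * D2 (pullF c r a b F 1) : Sm) p =
      (D1 (F 1) * D2 (F 2) - D1 (F 2) * D2 (F 1) : Sm) (sim c r a b p)
    simp only [E1_D1_pullF c r a b F hr, E1_D2_pullF c r a b F hr, sub_ap, add_ap, mul_ap, smul_ap,
      pull_ap]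
    linear_combination (D1 (F 1) (sim c r a b p) * D2 (F 2) (sim c r a b p) -
      D1 (F 2) (sim c r a b p) * D2 (F 1) (sim c r a b p)) * hab
  · show (D1 (pullF c r a b F 2) * D2 (pullF c r a b F 0) -
      D1 (pullF c r a b F 0) * D2 (pullF c r a b F 2) : Sm) p =
      (D1 (F 2) * D2 (F 0) - D1 (F 0) * D2 (F 2) : Sm) (sim c r a b p)
    simp only [E1_D1_pullF c r a b F hr, E1_D2_pullF c r a b F hr, sub_ap, add_ap, mul_ap, smul_ap,
      pull_ap]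
    linear_combination (D1 (F 2) (sim c r a b p) * D2 (F 0) (sim c r a b p) -
      D1 (F 0) (sim c r a b p) * D2 (F 2) (sim c r a b p)) * hab
  · show (D1 (pullF c r a b F 0) * D2 (pullF c r a b F 1) -
      D1 (pullF c r a b F 1) * D2 (pullF c r a b F 0) : Sm) p =
      (D1 (F 0) * D2 (F 1) - D1 (F 1) * D2 (F 0) : Sm) (sim c r a b p)
    simp only [E1_D1_pullF c r a b F hr, E1_D2_pullF c r a b F hr, sub_ap, add_ap, mul_ap, smul_ap,
      pull_ap]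
    linear_combination (D1 (F 0) (sim c r a b p) * D2 (F 1) (sim c r a b p) -
      D1 (F 1) (sim c r a b p) * D2 (F 0) (sim c r a b p)) * hab

/-- general transformation of the metric under a similarity -/
theorem pullF_isomG (c : ℝ × ℝ) (r a b : ℝ) (g11 g12 g22 : Sm) (F : Fin 3 → Sm)
    (Ω Ω' : Set (ℝ × ℝ)) (hr : 0 < r) (hab : a ^ 2 + b ^ 2 = 1)
    (hΩ : ∀ p ∈ Ω', sim c r a b p ∈ Ω) (hF : IsomG g11 g12 g22 F Ω) :
    IsomG (pull c r a b (a ^ 2 • g11 + (2 * a * b) • g12 + b ^ 2 • g22))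
      (pull c r a b ((-(a * b)) • g11 + (a ^ 2 - b ^ 2) • g12 + (a * b) • g22))
      (pull c r a b (b ^ 2 • g11 + (-(2 * a * b)) • g12 + a ^ 2 • g22)) (pullF c r a b F) Ω' := by
  intro p hp
  obtain ⟨h1, h2, h3⟩ := hF _ (hΩ p hp)
  simp only [dot, add_ap, mul_ap] at h1 h2 h3
  refine ⟨?_, ?_, ?_⟩
  · simp only [dot, E1_D1_pullF c r a b F hr, add_ap, mul_ap, smul_ap, pull_ap]
    rw [← h1, ← h2, ← h3]
    ring
  · simp only [dot, E1_D1_pullF c r a b F hr, E1_D2_pullF c r a b F hr, add_ap, mul_ap, smul_ap,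
      pull_ap]
    rw [← h1, ← h2, ← h3]
    ring
  · simp only [dot, E1_D2_pullF c r a b F hr, add_ap, mul_ap, smul_ap, pull_ap]
    rw [← h1, ← h2, ← h3]
    ring

/-- if near the centre the metric is `|dx|² + h (a ds + b dt)²` with `h = push H`, the pulled back
immersion is an immersion of `(1+H) ds² + dt²`. -/
theorem pullF_isom (c : ℝ × ℝ) (r a b : ℝ) (g11 g12 g22 H : Sm) (F : Fin 3 → Sm)
    (Ω Ω' : Set (ℝ × ℝ)) (hr : 0 < r) (hab : a ^ 2 + b ^ 2 = 1)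
    (hΩ : ∀ p ∈ Ω', sim c r a b p ∈ Ω) (hF : IsomG g11 g12 g22 F Ω)
    (h11 : ∀ p ∈ Ω, g11 p = 1 + a ^ 2 * push c r a b H p)
    (h12 : ∀ p ∈ Ω, g12 p = a * b * push c r a b H p)
    (h22 : ∀ p ∈ Ω, g22 p = 1 + b ^ 2 * push c r a b H p) :
    Isom (1 + H) (pullF c r a b F) Ω' := by
  intro p hp
  obtain ⟨e1, e2, e3⟩ := pullF_isomG c r a b g11 g12 g22 F Ω Ω' hr hab hΩ hF p hp
  have hΩp := hΩ p hp
  have k1 := h11 _ hΩp
  have k2 := h12 _ hΩp
  have k3 := h22 _ hΩp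
  simp only [push_ap, simi_sim c r a b hr.ne' hab p] at k1 k2 k3
  rw [e1, e2, e3]
  simp only [pull_ap, add_ap, smul_ap, one_ap]
  rw [k1, k2, k3]
  refine ⟨?_, ?_, ?_⟩
  · linear_combination (1 + H p * (a ^ 2 + b ^ 2 + 1)) * hab
  · ring
  · linear_combination hab

/-- second fundamental form of the pulled back immersion at the origin -/
theorem pullF_l22 (c : ℝ × ℝ) (r a b : ℝ) (F : Fin 3 → Sm) (hr : 0 < r)
    (hab : a ^ 2 + b ^ 2 = 1) :
    l22 (pullF c r a b F) (0, 0) =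
      r * (b ^ 2 * l11 F c - 2 * a * b * l12 F c + a ^ 2 * l22 F c) := by
  simp only [l11, l12, l22, dot, add_ap, mul_ap, E1_nrm_pullF c r a b F hr hab,
    E1_D2_pullF c r a b F hr, E1_sim0, map_add, D2.map_smul, D2_pull, smul_ap, pull_ap,
    D1_D2_comm]
  ring

theorem pullF_l12 (c : ℝ × ℝ) (r a b : ℝ) (F : Fin 3 → Sm) (hr : 0 < r)
    (hab : a ^ 2 + b ^ 2 = 1) :
    l12 (pullF c r a b F) (0, 0) =
      r * (-(a * b) * l11 F c + (a ^ 2 - b ^ 2) * l12 F c + a * b * l22 F c) := by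
  simp only [l11, l12, l22, dot, add_ap, mul_ap, E1_nrm_pullF c r a b F hr hab,
    E1_D2_pullF c r a b F hr, E1_sim0, map_add, D1.map_smul, D1_pull, smul_ap, pull_ap,
    D1_D2_comm]
  ring

/-- derivative bounds of the pulled back immersion -/
theorem pullF_Dab (c : ℝ × ℝ) (r a b : ℝ) (F : Fin 3 → Sm) (hr : 0 < r)
    (hab : a ^ 2 + b ^ 2 = 1) (k : ℕ) (M : ℝ) (i : Fin 3) (p : ℝ × ℝ)
    (hM : ∀ u v : ℕ, u + v = k → |Dab u v (F i) (sim c r a b p)| ≤ M) :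
    ∀ u v : ℕ, u + v = k → |Dab u v (pullF c r a b F i) p| ≤ (2 * r) ^ k * M / r := by
  intro u v huv
  have h := Dab_pull_bound c r a b (F i) hr hab k M p hM u v huv
  unfold pullF
  rw [E1_Dab_smul, smul_ap, abs_mul, abs_of_pos (by positivity : 0 < r⁻¹)]
  calc r⁻¹ * |Dab u v (pull c r a b (F i)) p| ≤ r⁻¹ * ((2 * r) ^ k * M) := by gcongr
    _ = (2 * r) ^ k * M / r := by ring

end NI
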