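import Crest.Agent.NI_Geo

set_option autoImplicit false
open scoped ContDiff
open MeasureTheory

namespace NI

/-- `e^{-1/s - 1/(1-s)}` on `(0,1)`, zero elsewhere -/
noncomputable def PP (s : ℝ) : ℝ := expNegInvGlue s * expNegInvGlue (1 - s)

/-- `e^{-1/t}` times a cutoff -/
noncomputable def QQ (t : ℝ) : ℝ := expNegInvGlue t * ct (1/4) (1/2) t

theorem PP_contDiff : ContDiff ℝ ∞ PP := by
  unfold PP
  exact (expNegInvGlue.contDiff (n := ⊤)).mul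
    ((expNegInvGlue.contDiff (n := ⊤)).comp (contDiff_const.sub contDiff_id))

theorem QQ_contDiff : ContDiff ℝ ∞ QQ := by
  unfold QQ
  exact (expNegInvGlue.contDiff (n := ⊤)).mul ct_contDiff

/-- the metric coefficient `1 - τ P(s) Q(t)`: positive curvature on `(0,1) × (0,1/4)`, flat to
infinite order on the boundary. -/
noncomputable def EP (τ : ℝ) : Sm :=
  1 - τ • (cmp PP PP_contDiff Xs * cmp QQ QQ_contDiff Xt)

/-- `g = 0` on `Iic a` implies `g' = 0` on `Iic a` -/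
theorem E2_deriv_Iic {g : ℝ → ℝ} (hg : ContDiff ℝ ∞ g) {a : ℝ} (h : ∀ x ≤ a, g x = 0) :
    ∀ x ≤ a, deriv g x = 0 := by
  have hc : IsClosed {x : ℝ | deriv g x = 0} :=
    isClosed_eq ((contDiff_deriv hg).continuous) continuous_const
  have h1 : Set.Iio a ⊆ {x : ℝ | deriv g x = 0} := by
    intro x hx
    have : g =ᶠ[nhds x] fun _ => 0 := by
      filter_upwards [Iio_mem_nhds hx] with y hy
      exact h y (le_of_lt hy)
    show deriv g x = 0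
    rw [this.deriv_eq]; simp
  have h2 := closure_minimal h1 hc
  rw [closure_Iio] at h2
  intro x hx
  exact h2 hx

/-- `g = 0` on `Ici a` implies `g' = 0` on `Ici a` -/
theorem E2_deriv_Ici {g : ℝ → ℝ} (hg : ContDiff ℝ ∞ g) {a : ℝ} (h : ∀ x, a ≤ x → g x = 0) :
    ∀ x, a ≤ x → deriv g x = 0 := by
  have hc : IsClosed {x : ℝ | deriv g x = 0} :=
    isClosed_eq ((contDiff_deriv hg).continuous) continuous_const
  have h1 : Set.Ioi a ⊆ {x : ℝ | deriv g x = 0} := by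
    intro x hx
    have : g =ᶠ[nhds x] fun _ => 0 := by
      filter_upwards [Ioi_mem_nhds hx] with y hy
      exact h y (le_of_lt hy)
    show deriv g x = 0
    rw [this.deriv_eq]; simp
  have h2 := closure_minimal h1 hc
  rw [closure_Ioi] at h2
  intro x hx
  exact h2 hx

theorem PP_Iic : ∀ x : ℝ, x ≤ 0 → PP x = 0 := by
  intro x hx
  simp [PP, expNegInvGlue.zero_of_nonpos hx]

theorem PP_Ici : ∀ x : ℝ, 1 ≤ x → PP x = 0 := by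
  intro x hx
  have : 1 - x ≤ 0 := by linarith
  simp [PP, expNegInvGlue.zero_of_nonpos this]

theorem QQ_Iic : ∀ x : ℝ, x ≤ 0 → QQ x = 0 := by
  intro x hx
  simp [QQ, expNegInvGlue.zero_of_nonpos hx]

theorem QQ_Ici : ∀ x : ℝ, 1/2 ≤ x → QQ x = 0 := by
  intro x hx
  have : ct (1/4) (1/2) x = 0 := by
    unfold ct SS
    apply Real.smoothTransition.zero_of_nonpos
    apply div_nonpos_of_nonpos_of_nonneg
    · nlinarith
    · norm_num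
  rw [QQ, this, mul_zero]

theorem E2_glue_le_one (x : ℝ) : expNegInvGlue x ≤ 1 := by
  rcases le_or_gt x 0 with h | h
  · rw [expNegInvGlue.zero_of_nonpos h]; norm_num
  · rw [expNegInvGlue, if_neg (not_le.2 h)]
    apply Real.exp_le_one_iff.2
    have : 0 < x⁻¹ := inv_pos.2 h
    linarith

theorem PP_nonneg (s : ℝ) : 0 ≤ PP s := mul_nonneg (expNegInvGlue.nonneg _) (expNegInvGlue.nonneg _)
theorem PP_le_one (s : ℝ) : PP s ≤ 1 :=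
  mul_le_one₀ (E2_glue_le_one _) (expNegInvGlue.nonneg _) (E2_glue_le_one _)
theorem PP_pos {s : ℝ} (h0 : 0 < s) (h1 : s < 1) : 0 < PP s :=
  mul_pos (expNegInvGlue.pos_of_pos h0) (expNegInvGlue.pos_of_pos (by linarith))
theorem E2_ct_nonneg (a b r : ℝ) : 0 ≤ ct a b r := Real.smoothTransition.nonneg _
theorem E2_ct_le_one (a b r : ℝ) : ct a b r ≤ 1 := Real.smoothTransition.le_one _
theorem QQ_nonneg (s : ℝ) : 0 ≤ QQ s := mul_nonneg (expNegInvGlue.nonneg _) (E2_ct_nonneg _ _ _)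
theorem QQ_le_one (s : ℝ) : QQ s ≤ 1 :=
  mul_le_one₀ (E2_glue_le_one _) (E2_ct_nonneg _ _ _) (E2_ct_le_one _ _ _)

theorem QQ_eq_exp {t : ℝ} (h0 : 0 < t) (h1 : t < 1/4) : QQ t = Real.exp (-t⁻¹) := by
  have : ct (1/4) (1/2) t = 1 := by
    unfold ct SS
    apply Real.smoothTransition.one_of_one_le
    rw [le_div_iff₀ (by norm_num)]
    nlinarith
  rw [QQ, this, mul_one, expNegInvGlue, if_neg (not_le.2 h0)]

/-- `Q'' = e^{-1/t} (1-2t)/t⁴ > 0` and `Q' ≥ 0`. -/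
theorem QQ_pos : ∀ t : ℝ, 0 < t → t < 1/4 → 0 < QQ t ∧ 0 ≤ deriv QQ t ∧
    0 < deriv (deriv QQ) t := by
  intro t h0 h1
  have hd1 : ∀ x : ℝ, 0 < x → HasDerivAt (fun x : ℝ => Real.exp (-x⁻¹))
      (Real.exp (-x⁻¹) * (x ^ 2)⁻¹) x := by
    intro x hx
    have := ((hasDerivAt_inv hx.ne').neg).exp
    rw [neg_neg] at this
    exact this
  have hQ : ∀ x : ℝ, 0 < x → x < 1/4 → deriv QQ x = Real.exp (-x⁻¹) * (x ^ 2)⁻¹ := by
    intro x hx0 hx1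
    have : QQ =ᶠ[nhds x] fun y => Real.exp (-y⁻¹) := by
      filter_upwards [Ioo_mem_nhds hx0 hx1] with y hy
      exact QQ_eq_exp hy.1 hy.2
    rw [this.deriv_eq]
    exact (hd1 x hx0).deriv
  refine ⟨?_, ?_, ?_⟩
  · rw [QQ_eq_exp h0 h1]; exact Real.exp_pos _
  · rw [hQ t h0 h1]; positivity
  · have : deriv QQ =ᶠ[nhds t] fun y => Real.exp (-y⁻¹) * (y ^ 2)⁻¹ := by
      filter_upwards [Ioo_mem_nhds h0 h1] with y hy
      exact hQ y hy.1 hy.2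
    rw [this.deriv_eq]
    have hd2 : HasDerivAt (fun y : ℝ => (y ^ 2)⁻¹) (-(2 * t) / (t ^ 2) ^ 2) t := by
      have := (hasDerivAt_pow 2 t).inv (by positivity)
      rw [show (2 * t : ℝ) = ((2:ℕ) : ℝ) * t ^ (2 - 1) by norm_num]
      exact this
    have hd3 := (hd1 t h0).mul hd2
    have e : deriv (fun y : ℝ => Real.exp (-y⁻¹) * (y ^ 2)⁻¹) t
        = Real.exp (-t⁻¹) * ((1 - 2 * t) / t ^ 4) := by
      have := hd3.deriv
      rw [show (fun y : ℝ => Real.exp (-y⁻¹) * (y ^ 2)⁻¹) =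
        (fun x : ℝ => Real.exp (-x⁻¹)) * (fun y : ℝ => (y ^ 2)⁻¹) from rfl, this]
      field_simp
      ring
    rw [e]
    have : 0 < 1 - 2 * t := by linarith
    positivity

theorem E2_dPP_out {s : ℝ} (h : s ≤ 0 ∨ 1 ≤ s) : PP s = 0 ∧ deriv PP s = 0 := by
  rcases h with h | h
  · exact ⟨PP_Iic s h, E2_deriv_Iic PP_contDiff PP_Iic s h⟩
  · exact ⟨PP_Ici s h, E2_deriv_Ici PP_contDiff PP_Ici s h⟩

theorem E2_dQQ_out {t : ℝ} (h : t ≤ 0 ∨ 1/2 ≤ t) : QQ t = 0 ∧ deriv QQ t = 0 ∧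
    deriv (deriv QQ) t = 0 := by
  rcases h with h | h
  · exact ⟨QQ_Iic t h, E2_deriv_Iic QQ_contDiff QQ_Iic t h,
      E2_deriv_Iic (contDiff_deriv QQ_contDiff) (E2_deriv_Iic QQ_contDiff QQ_Iic) t h⟩
  · exact ⟨QQ_Ici t h, E2_deriv_Ici QQ_contDiff QQ_Ici t h,
      E2_deriv_Ici (contDiff_deriv QQ_contDiff) (E2_deriv_Ici QQ_contDiff QQ_Ici) t h⟩

theorem E2_D1_Xs : D1 Xs = 1 := by
  apply sm_ext; intro p
  show fderiv ℝ (fun q : ℝ × ℝ => q.1) p (1, 0) = 1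
  rw [fderiv_fst]; rfl

theorem E2_D2_Xs : D2 Xs = 0 := by
  apply sm_ext; intro p
  show fderiv ℝ (fun q : ℝ × ℝ => q.1) p (0, 1) = 0
  rw [fderiv_fst]; rfl

theorem E2_D1_Xt : D1 Xt = 0 := by
  apply sm_ext; intro p
  show fderiv ℝ (fun q : ℝ × ℝ => q.2) p (1, 0) = 0
  rw [fderiv_snd]; rfl

theorem E2_D2_Xt : D2 Xt = 1 := by
  apply sm_ext; intro p
  show fderiv ℝ (fun q : ℝ × ℝ => q.2) p (0, 1) = 1
  rw [fderiv_snd]; rfl

theorem E2_D1_cmp (g : ℝ → ℝ) (hg : ContDiff ℝ ∞ g) (f : Sm) :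
    D1 (cmp g hg f) = cmp (deriv g) (contDiff_deriv hg) f * D1 f :=
  Dv_cmp _ g hg (contDiff_deriv hg) f

theorem E2_D2_cmp (g : ℝ → ℝ) (hg : ContDiff ℝ ∞ g) (f : Sm) :
    D2 (cmp g hg f) = cmp (deriv g) (contDiff_deriv hg) f * D2 f :=
  Dv_cmp _ g hg (contDiff_deriv hg) f

theorem EP_D1 (τ : ℝ) : D1 (EP τ) =
    -(τ • (cmp (deriv PP) (contDiff_deriv PP_contDiff) Xs * cmp QQ QQ_contDiff Xt)) := by
  rw [EP, map_sub, Derivation.map_smul, Derivation.leibniz, E2_D1_cmp, E2_D1_cmp, E2_D1_Xs, E2_D1_Xt,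
    Derivation.map_one_eq_zero]
  simp [smul_eq_mul, mul_comm]

theorem EP_D2 (τ : ℝ) : D2 (EP τ) =
    -(τ • (cmp PP PP_contDiff Xs * cmp (deriv QQ) (contDiff_deriv QQ_contDiff) Xt)) := by
  rw [EP, map_sub, Derivation.map_smul, Derivation.leibniz, E2_D2_cmp, E2_D2_cmp, E2_D2_Xs, E2_D2_Xt,
    Derivation.map_one_eq_zero]
  simp [smul_eq_mul]

theorem EP_D2D2 (τ : ℝ) : D2 (D2 (EP τ)) =
    -(τ • (cmp PP PP_contDiff Xs *
      cmp (deriv (deriv QQ)) (contDiff_deriv (contDiff_deriv QQ_contDiff)) Xt)) := by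
  rw [EP_D2, map_neg, Derivation.map_smul, Derivation.leibniz, E2_D2_cmp, E2_D2_cmp, E2_D2_Xs, E2_D2_Xt]
  simp [smul_eq_mul]

theorem EP_D1_ap (τ : ℝ) (p : ℝ × ℝ) : D1 (EP τ) p = -(τ * (deriv PP p.1 * QQ p.2)) := by
  rw [EP_D1]; rfl
theorem EP_D2_ap (τ : ℝ) (p : ℝ × ℝ) : D2 (EP τ) p = -(τ * (PP p.1 * deriv QQ p.2)) := by
  rw [EP_D2]; rfl
theorem EP_D2D2_ap (τ : ℝ) (p : ℝ × ℝ) :
    D2 (D2 (EP τ)) p = -(τ * (PP p.1 * deriv (deriv QQ) p.2)) := by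
  rw [EP_D2D2]; rfl
theorem EP_ap (τ : ℝ) (p : ℝ × ℝ) : EP τ p = 1 - τ * (PP p.1 * QQ p.2) := rfl

/-- the metric is flat to high order outside the rectangle -/
theorem EP_out (τ : ℝ) : ∀ p : ℝ × ℝ, (p.1 ≤ 0 ∨ 1 ≤ p.1 ∨ p.2 ≤ 0 ∨ 1/2 ≤ p.2) →
    EP τ p = 1 ∧ D1 (EP τ) p = 0 ∧ D2 (EP τ) p = 0 ∧ D2 (D2 (EP τ)) p = 0 := by
  intro p hp
  rw [EP_D1_ap, EP_D2_ap, EP_D2D2_ap, EP_ap]
  have h : (p.1 ≤ 0 ∨ 1 ≤ p.1) ∨ (p.2 ≤ 0 ∨ 1/2 ≤ p.2) := by tauto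
  rcases h with h | h
  · obtain ⟨h1, h2⟩ := E2_dPP_out h
    simp [h1, h2]
  · obtain ⟨h1, h2, h3⟩ := E2_dQQ_out h
    simp [h1, h2, h3]

theorem E2_bdd {g : ℝ → ℝ} (hg : Continuous g) {a b : ℝ} (h : ∀ x, (x ≤ a ∨ b ≤ x) → g x = 0) :
    ∃ C : ℝ, 0 < C ∧ ∀ x, |g x| ≤ C := by
  obtain ⟨C, hC⟩ := (isCompact_Icc (a := a) (b := b)).exists_bound_of_continuousOn
    hg.continuousOn
  refine ⟨max C 1, by positivity, fun x => ?_⟩
  by_cases hx : x ≤ a ∨ b ≤ x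
  · rw [h x hx]; simp
  · push Not at hx
    exact (hC x ⟨hx.1.le, hx.2.le⟩).trans (le_max_left _ _)

/-- size and signs; `½ E τ P Q'' + ¼ τ² P² Q'² > 0`. -/
theorem EP_facts : ∃ τ0 : ℝ, 0 < τ0 ∧ τ0 ≤ 1 ∧ ∀ τ : ℝ, 0 < τ → τ ≤ τ0 →
    (∀ p : ℝ × ℝ, 1/2 ≤ EP τ p ∧ EP τ p ≤ 1 ∧ |D1 (EP τ) p| ≤ 1/8 ∧ |D2 (EP τ) p| ≤ 1/8) ∧
    (∀ p : ℝ × ℝ, p.2 < 1/4 → D2 (EP τ) p ≤ 0) ∧
    (∀ p : ℝ × ℝ, 0 < p.1 → p.1 < 1 → 0 < p.2 → p.2 < 1/4 →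
      0 < (-(1/2 : ℝ) • (EP τ * D2 (D2 (EP τ))) + (1/4 : ℝ) • (D2 (EP τ)) ^ 2 : Sm) p) := by
  obtain ⟨C1, hC1, hP⟩ := E2_bdd (contDiff_deriv PP_contDiff).continuous
    (fun x hx => (E2_dPP_out hx).2)
  obtain ⟨C2, hC2, hQ⟩ := E2_bdd (contDiff_deriv QQ_contDiff).continuous
    (fun x hx => (E2_dQQ_out hx).2.1)
  refine ⟨min (1/2) (1 / (8 * (C1 + C2))), by positivity,
    (min_le_left _ _).trans (by norm_num), fun τ hτ0 hτ => ?_⟩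
  have hτ1 : τ ≤ 1/2 := hτ.trans (min_le_left _ _)
  have hτ2 : τ * (C1 + C2) ≤ 1/8 := by
    have := hτ.trans (min_le_right _ _)
    rw [le_div_iff₀ (by positivity)] at this
    linarith
  have hE : ∀ p : ℝ × ℝ, 1/2 ≤ EP τ p ∧ EP τ p ≤ 1 := by
    intro p
    rw [EP_ap]
    have h0 : 0 ≤ PP p.1 * QQ p.2 := mul_nonneg (PP_nonneg _) (QQ_nonneg _)
    have h1 : PP p.1 * QQ p.2 ≤ 1 := mul_le_one₀ (PP_le_one _) (QQ_nonneg _) (QQ_le_one _)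
    constructor <;> nlinarith
  refine ⟨fun p => ⟨(hE p).1, (hE p).2, ?_, ?_⟩, ?_, ?_⟩
  · rw [EP_D1_ap, abs_neg, abs_mul, abs_mul, abs_of_pos hτ0, abs_of_nonneg (QQ_nonneg _)]
    have h1 : |deriv PP p.1| * QQ p.2 ≤ C1 * 1 :=
      mul_le_mul (hP _) (QQ_le_one _) (QQ_nonneg _) hC1.le
    nlinarith
  · rw [EP_D2_ap, abs_neg, abs_mul, abs_mul, abs_of_pos hτ0, abs_of_nonneg (PP_nonneg _)]
    have h1 : PP p.1 * |deriv QQ p.2| ≤ 1 * C2 :=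
      mul_le_mul (PP_le_one _) (hQ _) (abs_nonneg _) zero_le_one
    nlinarith
  · intro p hp
    rw [EP_D2_ap]
    have h1 : 0 ≤ deriv QQ p.2 := by
      rcases le_or_gt p.2 0 with h | h
      · rw [(E2_dQQ_out (Or.inl h)).2.1]
      · exact (QQ_pos _ h hp).2.1
    have h2 := PP_nonneg p.1
    have : 0 ≤ τ * (PP p.1 * deriv QQ p.2) := by positivity
    linarith
  · intro p hp1 hp2 hp3 hp4
    rw [add_ap, smul_ap, smul_ap, mul_ap, pow_ap, EP_D2D2_ap]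
    have h1 := (QQ_pos _ hp3 hp4).2.2
    have h2 := PP_pos hp1 hp2
    have h3 := (hE p).1
    have h4 : 0 < τ * (PP p.1 * deriv (deriv QQ) p.2) := by positivity
    have h5 : 0 < EP τ p * (τ * (PP p.1 * deriv (deriv QQ) p.2)) :=
      mul_pos (by linarith) h4
    have h6 : 0 ≤ (D2 (EP τ) p) ^ 2 := sq_nonneg _
    nlinarith

/-- all derivatives are `O(τ)` -/
theorem EP_CN (N : ℕ) : ∃ C : ℝ, 0 < C ∧ ∀ τ : ℝ, 0 < τ → ∀ k ≤ N, ∀ p : ℝ × ℝ,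
    ‖iteratedFDeriv ℝ k (EP τ - 1 : Sm) p‖ ≤ C * τ := by
  have hsm : ContDiff ℝ ∞ (fun p : ℝ × ℝ => PP p.1 * QQ p.2) :=
    smooth (cmp PP PP_contDiff Xs * cmp QQ QQ_contDiff Xt)
  have hcs : HasCompactSupport (fun p : ℝ × ℝ => PP p.1 * QQ p.2) := by
    apply HasCompactSupport.intro
      (K := Set.Icc (0:ℝ) 1 ×ˢ Set.Icc (0:ℝ) (1/2)) (isCompact_Icc.prod isCompact_Icc)
    intro p hp
    by_cases h1 : p.1 ≤ 0 ∨ 1 ≤ p.1
    · rw [(E2_dPP_out h1).1, zero_mul]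
    · by_cases h2 : p.2 ≤ 0 ∨ 1/2 ≤ p.2
      · rw [(E2_dQQ_out h2).1, mul_zero]
      · push Not at h1 h2
        exact absurd ⟨⟨h1.1.le, h1.2.le⟩, ⟨h2.1.le, h2.2.le⟩⟩ hp
  have hb : ∀ k : ℕ, ∃ C : ℝ, ∀ p, ‖iteratedFDeriv ℝ k (fun p : ℝ × ℝ => PP p.1 * QQ p.2) p‖ ≤ C := by
    intro k
    exact (hcs.iteratedFDeriv k).exists_bound_of_continuous
      (hsm.continuous_iteratedFDeriv (by exact_mod_cast le_top))
  choose C hC using hb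
  refine ⟨1 + ∑ k ∈ Finset.range (N + 1), |C k|, by positivity, fun τ hτ k hk p => ?_⟩
  have e : ((EP τ - 1 : Sm) : ℝ × ℝ → ℝ) = (-τ) • (fun p : ℝ × ℝ => PP p.1 * QQ p.2) := by
    funext q
    show EP τ q - 1 = (-τ) * (PP q.1 * QQ q.2)
    rw [EP_ap]; ring
  rw [e, iteratedFDeriv_const_smul_apply (hsm.contDiffAt.of_le (by exact_mod_cast le_top)),
    norm_smul, Real.norm_eq_abs, abs_neg, abs_of_pos hτ, mul_comm]
  apply mul_le_mul_of_nonneg_right _ hτ.le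
  calc _ ≤ C k := hC k p
    _ ≤ |C k| := le_abs_self _
    _ ≤ ∑ k ∈ Finset.range (N + 1), |C k| :=
        Finset.single_le_sum (f := fun k => |C k|) (fun i _ => abs_nonneg _)
          (Finset.mem_range.2 (by omega))
    _ ≤ _ := by linarith

end NI
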