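import Mathlib

set_option autoImplicit false
open scoped ContDiff

namespace NI

/-- convexity: `f'' ≥ 0` on `(0,T)` and one-sided data at `0`. -/
theorem convex_lower (f : ℝ → ℝ) (hf : ContDiff ℝ 2 f) (T α β : ℝ) (hT : 0 < T)
    (h0 : -α ≤ f 0) (h1 : -β ≤ deriv f 0) (h2 : ∀ t ∈ Set.Ioo 0 T, 0 ≤ deriv (deriv f) t) :
    ∀ t ∈ Set.Icc 0 T, -α - β * t ≤ f t ∧ -β ≤ deriv f t := by
  have hd1 : ContDiff ℝ 1 (deriv f) := by
    have : ContDiff ℝ ((1 : ℕ∞) + 1 : WithTop ℕ∞) f := by simpa [one_add_one_eq_two] using hf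
    exact (contDiff_succ_iff_deriv.mp this).2.2
  have hfd : Differentiable ℝ f := hf.differentiable (by norm_num)
  have hdd : Differentiable ℝ (deriv f) := hd1.differentiable (by norm_num)
  have hmono : MonotoneOn (deriv f) (Set.Icc 0 T) := by
    apply monotoneOn_of_deriv_nonneg (convex_Icc 0 T) hdd.continuous.continuousOn
      hdd.differentiableOn
    intro x hx
    rw [interior_Icc] at hx
    exact h2 x hx
  have hd : ∀ t ∈ Set.Icc 0 T, -β ≤ deriv f t := by
    intro t ht
    exact h1.trans (hmono ⟨le_refl _, hT.le⟩ ht ht.1)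
  intro t ht
  refine ⟨?_, hd t ht⟩
  have hmono2 : MonotoneOn (fun x => f x + β * x) (Set.Icc 0 T) := by
    apply monotoneOn_of_deriv_nonneg (convex_Icc 0 T)
    · exact (hfd.continuous.add (continuous_const.mul continuous_id)).continuousOn
    · exact (hfd.add (differentiable_id.const_mul β)).differentiableOn
    · intro x hx
      rw [interior_Icc] at hx
      have hx' : x ∈ Set.Icc 0 T := ⟨hx.1.le, hx.2.le⟩
      have : HasDerivAt (fun x => f x + β * x) (deriv f x + β * 1) x :=
        (hfd x).hasDerivAt.add ((hasDerivAt_id x).const_mul β)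
      rw [this.deriv]
      have := hd x hx'
      linarith
  have := hmono2 ⟨le_refl _, hT.le⟩ ht ht.1
  simp only [mul_zero, add_zero] at this
  linarith

private theorem second_deriv_nonpos_of_max (v : ℝ → ℝ) (hv : ContDiff ℝ 2 v) (s : ℝ)
    (hs : IsLocalMax v s) : deriv (deriv v) s ≤ 0 := by
  by_contra hcon
  push Not at hcon
  have hmin : IsLocalMin v s :=
    isLocalMin_of_deriv_deriv_pos hcon hs.deriv_eq_zero hv.continuous.continuousAt
  have hconst : v =ᶠ[nhds s] fun _ => v s := by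
    filter_upwards [hs, hmin] with x h1 h2
    exact le_antisymm h1 h2
  have h1 : deriv v =ᶠ[nhds s] deriv (fun _ => v s) := hconst.deriv
  have h2 := h1.deriv_eq
  rw [h2] at hcon
  simp at hcon

/-- one-dimensional maximum principle: compare with `u + (κ+θ) s²`, `θ > 0`. -/
theorem max_principle (u b : ℝ → ℝ) (hu : ContDiff ℝ 2 u) (α κ : ℝ) (hκ : 0 ≤ κ)
    (hb : ∀ s ∈ Set.Ioo (0:ℝ) 1, |b s| ≤ 1/4)
    (h : ∀ s ∈ Set.Ioo (0:ℝ) 1, -κ ≤ deriv (deriv u) s - b s * deriv u s)
    (h0 : u 0 ≤ α) (h1 : u 1 ≤ α) : ∀ s ∈ Set.Icc (0:ℝ) 1, u s ≤ α + κ := by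
  intro s hs
  apply le_of_forall_pos_le_add
  intro θ hθ
  have hd1 : ContDiff ℝ 1 (deriv u) := by
    have : ContDiff ℝ ((1 : ℕ∞) + 1 : WithTop ℕ∞) u := by simpa [one_add_one_eq_two] using hu
    exact (contDiff_succ_iff_deriv.mp this).2.2
  have hud : Differentiable ℝ u := hu.differentiable (by norm_num)
  have hudd : Differentiable ℝ (deriv u) := hd1.differentiable (by norm_num)
  set v : ℝ → ℝ := fun s => u s + (κ + θ) * s ^ 2 with hv
  have hvc : ContDiff ℝ 2 v := hu.add (contDiff_const.mul (contDiff_id.pow 2))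
  have hdv : ∀ x, HasDerivAt v (deriv u x + (κ + θ) * (2 * x)) x := by
    intro x
    have h1 := (hud x).hasDerivAt
    have h2 : HasDerivAt (fun s : ℝ => (κ + θ) * s ^ 2) ((κ + θ) * (2 * x)) x := by
      have := (hasDerivAt_pow 2 x).const_mul (κ + θ)
      simpa using this
    exact h1.add h2
  have hdv' : deriv v = fun x => deriv u x + (κ + θ) * (2 * x) := funext fun x => (hdv x).deriv
  have hddv : ∀ x, deriv (deriv v) x = deriv (deriv u) x + (κ + θ) * 2 := by
    intro x
    rw [hdv']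
    have h1 := (hudd x).hasDerivAt
    have h2 : HasDerivAt (fun s : ℝ => (κ + θ) * (2 * s)) ((κ + θ) * 2) x := by
      have := ((hasDerivAt_id x).const_mul 2).const_mul (κ + θ)
      simpa using this
    exact (h1.add h2).deriv
  obtain ⟨s0, hs0, hmax⟩ := isCompact_Icc.exists_isMaxOn (⟨0, by norm_num⟩ : (Set.Icc (0:ℝ) 1).Nonempty)
    hvc.continuous.continuousOn
  have hvs : v s ≤ v s0 := hmax hs
  have hus : u s ≤ v s := by
    simp only [hv]
    have : 0 ≤ (κ + θ) * s ^ 2 := by positivity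
    linarith
  have hκθ : 0 < κ + θ := by linarith
  rcases eq_or_lt_of_le hs0.1 with h00 | h00
  · have : v s0 = u 0 := by simp [hv, ← h00]
    linarith
  rcases eq_or_lt_of_le hs0.2 with h01 | h01
  · have : v s0 = u 1 + (κ + θ) := by simp [hv, h01]
    linarith
  exfalso
  have hloc : IsLocalMax v s0 := hmax.isLocalMax (Icc_mem_nhds h00 h01)
  have e1 : deriv v s0 = 0 := hloc.deriv_eq_zero
  have e2 := second_deriv_nonpos_of_max v hvc s0 hloc
  rw [hddv] at e2
  rw [hdv'] at e1
  simp only at e1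
  have e3 := h s0 ⟨h00, h01⟩
  have e4 := abs_le.mp (hb s0 ⟨h00, h01⟩)
  have e5 : deriv u s0 = -((κ + θ) * (2 * s0)) := by linarith
  rw [e5] at e3
  nlinarith [mul_pos hκθ h00, mul_nonneg hκθ.le (sub_nonneg.mpr h01.le), e4.1, e4.2,
    mul_nonneg (mul_pos hκθ h00).le (sub_nonneg.mpr e4.2)]

/-- interpolation: Taylor at `t0 ± h`. -/
theorem interp (f : ℝ → ℝ) (hf : ContDiff ℝ 3 f) (t0 h K m : ℝ) (hh : 0 < h)
    (hK : ∀ t ∈ Set.Icc (t0 - h) (t0 + h), |f t| ≤ K)
    (hm : ∀ t ∈ Set.Icc (t0 - h) (t0 + h), |deriv (deriv (deriv f)) t| ≤ m) :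
    |deriv (deriv f) t0| ≤ 4 * K / h ^ 2 + m * h := by
  have hc1 : ContDiff ℝ 2 (deriv f) := by
    have : ContDiff ℝ ((2 : ℕ∞) + 1 : WithTop ℕ∞) f := by
      have e : ((2 : ℕ∞) + 1 : WithTop ℕ∞) = 3 := by norm_num
      rw [e]; exact hf
    exact (contDiff_succ_iff_deriv.mp this).2.2
  have hc2 : ContDiff ℝ 1 (deriv (deriv f)) := by
    have : ContDiff ℝ ((1 : ℕ∞) + 1 : WithTop ℕ∞) (deriv f) := by
      simpa [one_add_one_eq_two] using hc1
    exact (contDiff_succ_iff_deriv.mp this).2.2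
  have hd0 : Differentiable ℝ f := hf.differentiable (by norm_num)
  have hd1 : Differentiable ℝ (deriv f) := hc1.differentiable (by norm_num)
  have hd2 : Differentiable ℝ (deriv (deriv f)) := hc2.differentiable (by norm_num)
  set c := deriv (deriv f) t0 with hc
  have hm0 : 0 ≤ m := (abs_nonneg _).trans (hm t0 ⟨by linarith, by linarith⟩)
  -- Lipschitz estimate for the second derivative
  have hlip : ∀ t ∈ Set.Icc (t0 - h) (t0 + h), |deriv (deriv f) t - c| ≤ m * h := by
    intro t ht
    have h1 := (convex_Icc (t0 - h) (t0 + h)).norm_image_sub_le_of_norm_deriv_le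
      (f := deriv (deriv f)) (C := m) (x := t0) (y := t)
      (fun x _ => hd2 x) (fun x hx => by simpa [Real.norm_eq_abs] using hm x hx)
      ⟨by linarith, by linarith⟩ ht
    rw [Real.norm_eq_abs, Real.norm_eq_abs] at h1
    refine h1.trans ?_
    apply mul_le_mul_of_nonneg_left _ hm0
    rw [abs_le]
    constructor <;> linarith [ht.1, ht.2]
  -- the comparison functions
  have key : ∀ σ : ℝ, (σ = 1 ∨ σ = -1) →
      0 ≤ m * h * h ^ 2 + σ * (f (t0 + h) + f (t0 - h) - 2 * f t0 - h ^ 2 * c) := by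
    intro σ hσ
    set φ : ℝ → ℝ := fun x => m * h * x ^ 2 +
      σ * (f (t0 + x) + f (t0 - x) - 2 * f t0 - x ^ 2 * c) with hφ
    have hφc : ContDiff ℝ 2 φ := by
      have hf2 : ContDiff ℝ 2 f := hf.of_le (by norm_num)
      have a1 : ContDiff ℝ 2 (fun x : ℝ => f (t0 + x)) := hf2.comp (contDiff_const.add contDiff_id)
      have a2 : ContDiff ℝ 2 (fun x : ℝ => f (t0 - x)) := hf2.comp (contDiff_const.sub contDiff_id)
      have a3 : ContDiff ℝ 2 (fun x : ℝ => x ^ 2) := contDiff_id.pow 2
      exact (contDiff_const.mul a3).add (contDiff_const.mul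
        (((a1.add a2).sub contDiff_const).sub (a3.mul contDiff_const)))
    have hdφ : ∀ x, HasDerivAt φ (m * h * (2 * x) +
        σ * (deriv f (t0 + x) - deriv f (t0 - x) - 2 * x * c)) x := by
      intro x
      have b1 : HasDerivAt (fun x : ℝ => f (t0 + x)) (deriv f (t0 + x)) x := by
        have := (hd0 (t0 + x)).hasDerivAt.comp x ((hasDerivAt_id x).const_add t0)
        simpa [Function.comp_def] using this
      have b2 : HasDerivAt (fun x : ℝ => f (t0 - x)) (-deriv f (t0 - x)) x := by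
        have := (hd0 (t0 - x)).hasDerivAt.comp x ((hasDerivAt_id x).const_sub t0)
        simpa [Function.comp_def] using this
      have b3 : HasDerivAt (fun x : ℝ => x ^ 2) (2 * x) x := by
        simpa using hasDerivAt_pow 2 x
      have b4 := (b3.const_mul (m * h)).add
        ((((b1.add b2).sub_const (2 * f t0)).sub (b3.mul_const c)).const_mul σ)
      have b5 : HasDerivAt φ (m * h * (2 * x) +
          σ * (deriv f (t0 + x) + -deriv f (t0 - x) - 2 * x * c)) x := b4
      refine b5.congr_deriv ?_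
      ring
    have hdφ' : deriv φ = fun x => m * h * (2 * x) +
        σ * (deriv f (t0 + x) - deriv f (t0 - x) - 2 * x * c) := funext fun x => (hdφ x).deriv
    have hddφ : ∀ x, deriv (deriv φ) x = m * h * 2 +
        σ * (deriv (deriv f) (t0 + x) + deriv (deriv f) (t0 - x) - 2 * c) := by
      intro x
      rw [hdφ']
      have b1 : HasDerivAt (fun x : ℝ => deriv f (t0 + x)) (deriv (deriv f) (t0 + x)) x := by
        have := (hd1 (t0 + x)).hasDerivAt.comp x ((hasDerivAt_id x).const_add t0)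
        simpa [Function.comp_def] using this
      have b2 : HasDerivAt (fun x : ℝ => deriv f (t0 - x)) (-deriv (deriv f) (t0 - x)) x := by
        have := (hd1 (t0 - x)).hasDerivAt.comp x ((hasDerivAt_id x).const_sub t0)
        simpa [Function.comp_def] using this
      have b3 : HasDerivAt (fun x : ℝ => 2 * x) 2 x := by
        simpa using (hasDerivAt_id x).const_mul 2
      have b4 := (b3.const_mul (m * h)).add
        (((b1.sub b2).sub (b3.mul_const c)).const_mul σ)
      have b5 := b4.deriv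
      have e : (fun x => m * h * (2 * x) +
          σ * (deriv f (t0 + x) - deriv f (t0 - x) - 2 * x * c)) =
          ((fun x => m * h * (2 * x)) + fun x =>
          σ * (((fun x : ℝ => deriv f (t0 + x)) - (fun x : ℝ => deriv f (t0 - x))) x
            - 2 * x * c)) := by
        funext x; simp
      rw [e]
      refine Eq.trans b5 ?_
      ring
    have hcl := convex_lower φ hφc h 0 0 hh (by
        have e0 : f t0 + f t0 - 2 * f t0 = 0 := by ring
        simp [hφ, e0]) (by
      rw [hdφ']; simp) (by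
      intro x hx
      rw [hddφ]
      have k1 := abs_le.mp (hlip (t0 + x) ⟨by linarith [hx.1], by linarith [hx.2]⟩)
      have k2 := abs_le.mp (hlip (t0 - x) ⟨by linarith [hx.2], by linarith [hx.1]⟩)
      rcases hσ with rfl | rfl <;> linarith [k1.1, k1.2, k2.1, k2.2]) h ⟨hh.le, le_refl _⟩
    have := hcl.1
    simp only [hφ] at this
    linarith
  have k1 := key 1 (Or.inl rfl)
  have k2 := key (-1) (Or.inr rfl)
  have f1 := abs_le.mp (hK (t0 + h) ⟨by linarith, le_refl _⟩)
  have f2 := abs_le.mp (hK (t0 - h) ⟨le_refl _, by linarith⟩)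
  have f3 := abs_le.mp (hK t0 ⟨by linarith, by linarith⟩)
  have hh2 : 0 < h ^ 2 := by positivity
  have e : 4 * K / h ^ 2 + m * h = (4 * K + m * h * h ^ 2) / h ^ 2 := by
    field_simp
  rw [e, abs_le]
  constructor
  · rw [neg_le, ← neg_le]
    rw [← neg_div, div_le_iff₀ hh2]
    nlinarith [f1.1, f1.2, f2.1, f2.2, f3.1, f3.2]
  · rw [le_div_iff₀ hh2]
    nlinarith [f1.1, f1.2, f2.1, f2.2, f3.1, f3.2]

end NI
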