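import Crest.Agent.NI_E1

set_option autoImplicit false
open scoped ContDiff
open MeasureTheory

namespace NI

private theorem E4_D1_congr (f g : Sm) (Ω : Set (ℝ × ℝ)) (hΩ : IsOpen Ω) (h : ∀ p ∈ Ω, f p = g p)
    (p : ℝ × ℝ) (hp : p ∈ Ω) : D1 f p = D1 g p ∧ D2 f p = D2 g p := by
  have h1 : (f : ℝ × ℝ → ℝ) =ᶠ[nhds p] (g : ℝ × ℝ → ℝ) := by
    filter_upwards [hΩ.mem_nhds hp] with q hq
    exact h q hq
  rw [D1_ap, D1_ap, D2_ap, D2_ap, h1.fderiv_eq]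
  exact ⟨rfl, rfl⟩

private theorem E4_D_dot (δ : Derivation ℝ Sm Sm) (X Y : Fin 3 → Sm) :
    δ (dot X Y) = dot (fun i => δ (X i)) Y + dot X (fun i => δ (Y i)) := by
  unfold dot
  simp only [map_add, Derivation.leibniz, smul_eq_mul]
  ring

private theorem E4_const (δ : Derivation ℝ Sm Sm) (c : ℝ) : δ (c • (1 : Sm)) = 0 := by
  have h : δ (c • (1 : Sm)) = c • δ (1 : Sm) := (δ : Sm →ₗ[ℝ] Sm).map_smul c 1
  rw [h, Derivation.map_one_eq_zero, smul_zero]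

/-- algebraic vector identity -/
private theorem E4_vec (x0 x1 x2 p0 p1 p2 r0 r1 r2 E : ℝ) (h1 : p0 * p0 + p1 * p1 + p2 * p2 = E)
    (h2 : p0 * r0 + p1 * r1 + p2 * r2 = 0) (h3 : r0 * r0 + r1 * r1 + r2 * r2 = 1) :
    (E * x0 = ((p1 * r2 - p2 * r1) * x0 + (p2 * r0 - p0 * r2) * x1 + (p0 * r1 - p1 * r0) * x2)
        * (p1 * r2 - p2 * r1) + (x0 * p0 + x1 * p1 + x2 * p2) * p0
        + (x0 * r0 + x1 * r1 + x2 * r2) * E * r0) ∧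
    (E * x1 = ((p1 * r2 - p2 * r1) * x0 + (p2 * r0 - p0 * r2) * x1 + (p0 * r1 - p1 * r0) * x2)
        * (p2 * r0 - p0 * r2) + (x0 * p0 + x1 * p1 + x2 * p2) * p1
        + (x0 * r0 + x1 * r1 + x2 * r2) * E * r1) ∧
    (E * x2 = ((p1 * r2 - p2 * r1) * x0 + (p2 * r0 - p0 * r2) * x1 + (p0 * r1 - p1 * r0) * x2)
        * (p0 * r1 - p1 * r0) + (x0 * p0 + x1 * p1 + x2 * p2) * p2
        + (x0 * r0 + x1 * r1 + x2 * r2) * E * r2) := by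
  set a : ℝ := x0 * p0 + x1 * p1 + x2 * p2 with ha
  set b : ℝ := x0 * r0 + x1 * r1 + x2 * r2 with hb
  have hN : (p1 * r2 - p2 * r1) ^ 2 + (p2 * r0 - p0 * r2) ^ 2 + (p0 * r1 - p1 * r0) ^ 2 = E := by
    have : (p1 * r2 - p2 * r1) ^ 2 + (p2 * r0 - p0 * r2) ^ 2 + (p0 * r1 - p1 * r0) ^ 2
      = (p0 * p0 + p1 * p1 + p2 * p2) * (r0 * r0 + r1 * r1 + r2 * r2)
        - (p0 * r0 + p1 * r1 + p2 * r2) ^ 2 := by ring
    rw [this, h1, h2, h3]; ring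
  refine ⟨?_, ?_, ?_⟩
  · have e : ((p1 * r2 - p2 * r1) ^ 2 + (p2 * r0 - p0 * r2) ^ 2 + (p0 * r1 - p1 * r0) ^ 2) * x0 =
      ((p1 * r2 - p2 * r1) * x0 + (p2 * r0 - p0 * r2) * x1 + (p0 * r1 - p1 * r0) * x2)
        * (p1 * r2 - p2 * r1) + (a * (r0 * r0 + r1 * r1 + r2 * r2) -
          b * (p0 * r0 + p1 * r1 + p2 * r2)) * p0
        + (b * (p0 * p0 + p1 * p1 + p2 * p2) - a * (p0 * r0 + p1 * r1 + p2 * r2)) * r0 := by
      rw [ha, hb]; ring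
    rw [hN, h1, h2, h3] at e
    rw [e]; ring
  · have e : ((p1 * r2 - p2 * r1) ^ 2 + (p2 * r0 - p0 * r2) ^ 2 + (p0 * r1 - p1 * r0) ^ 2) * x1 =
      ((p1 * r2 - p2 * r1) * x0 + (p2 * r0 - p0 * r2) * x1 + (p0 * r1 - p1 * r0) * x2)
        * (p2 * r0 - p0 * r2) + (a * (r0 * r0 + r1 * r1 + r2 * r2) -
          b * (p0 * r0 + p1 * r1 + p2 * r2)) * p1
        + (b * (p0 * p0 + p1 * p1 + p2 * p2) - a * (p0 * r0 + p1 * r1 + p2 * r2)) * r1 := by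
      rw [ha, hb]; ring
    rw [hN, h1, h2, h3] at e
    rw [e]; ring
  · have e : ((p1 * r2 - p2 * r1) ^ 2 + (p2 * r0 - p0 * r2) ^ 2 + (p0 * r1 - p1 * r0) ^ 2) * x2 =
      ((p1 * r2 - p2 * r1) * x0 + (p2 * r0 - p0 * r2) * x1 + (p0 * r1 - p1 * r0) * x2)
        * (p0 * r1 - p1 * r0) + (a * (r0 * r0 + r1 * r1 + r2 * r2) -
          b * (p0 * r0 + p1 * r1 + p2 * r2)) * p2
        + (b * (p0 * p0 + p1 * p1 + p2 * p2) - a * (p0 * r0 + p1 * r1 + p2 * r2)) * r2 := by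
      rw [ha, hb]; ring
    rw [hN, h1, h2, h3] at e
    rw [e]; ring

private theorem E4_dot_ap (X Y : Fin 3 → Sm) (p : ℝ × ℝ) :
    dot X Y p = X 0 p * Y 0 p + X 1 p * Y 1 p + X 2 p * Y 2 p := rfl

private theorem E4_nrm0 (F : Fin 3 → Sm) (p : ℝ × ℝ) :
    nrm F 0 p = D1 (F 1) p * D2 (F 2) p - D1 (F 2) p * D2 (F 1) p := rfl
private theorem E4_nrm1 (F : Fin 3 → Sm) (p : ℝ × ℝ) :
    nrm F 1 p = D1 (F 2) p * D2 (F 0) p - D1 (F 0) p * D2 (F 2) p := rfl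
private theorem E4_nrm2 (F : Fin 3 → Sm) (p : ℝ × ℝ) :
    nrm F 2 p = D1 (F 0) p * D2 (F 1) p - D1 (F 1) p * D2 (F 0) p := rfl

/-- structure equations of an immersion of `E ds² + dt²` on an open set, from the vector identity
`|P×R|² X = (X·(P×R)) P×R + ((X·P)|R|² - (X·R)(P·R)) P + ((X·R)|P|² - (X·P)(P·R)) R` with
`P = F_s`, `R = F_t`, `|P×R|² = E`, and `F_tt·F_s = F_tt·F_t = 0`, `F_st·F_s = E_t/2`,
`F_st·F_t = 0`, `F_ss·F_s = E_s/2`, `F_ss·F_t = -E_t/2`. -/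
theorem struct_eq (E : Sm) (F : Fin 3 → Sm) (Ω : Set (ℝ × ℝ)) (hΩ : IsOpen Ω)
    (hF : Isom E F Ω) : ∀ p ∈ Ω, ∀ i,
    (E * D2 (D2 (F i))) p = (l22 F * nrm F i) p ∧
    (E * D1 (D2 (F i))) p = ((1/2 : ℝ) • (D2 E * D1 (F i)) + l12 F * nrm F i) p ∧
    (E * D1 (D1 (F i))) p = ((1/2 : ℝ) • (D1 E * D1 (F i)) - (1/2 : ℝ) • (E * D2 E * D2 (F i))
      + l11 F * nrm F i) p := by
  intro p hp
  obtain ⟨e1, e2, e3⟩ := hF p hp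
  -- differentiated identities
  have d1 := E4_D1_congr _ E Ω hΩ (fun q hq => (hF q hq).1) p hp
  have d2 := E4_D1_congr _ ((0:ℝ) • (1 : Sm)) Ω hΩ (fun q hq => by
    rw [(hF q hq).2.1]; simp) p hp
  have d3 := E4_D1_congr _ ((1:ℝ) • (1 : Sm)) Ω hΩ (fun q hq => by
    rw [(hF q hq).2.2]; simp) p hp
  rw [E4_D_dot, E4_D_dot] at d1
  rw [E4_D_dot, E4_D_dot, E4_const, E4_const] at d2
  rw [E4_D_dot, E4_D_dot, E4_const, E4_const] at d3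
  simp only [← D1_D2_comm, add_ap, zero_ap, E4_dot_ap] at d1 d2 d3 e1 e2 e3
  obtain ⟨d11, d12⟩ := d1
  obtain ⟨d21, d22⟩ := d2
  obtain ⟨d31, d32⟩ := d3
  have htt := E4_vec (D2 (D2 (F 0)) p) (D2 (D2 (F 1)) p) (D2 (D2 (F 2)) p) (D1 (F 0) p)
    (D1 (F 1) p) (D1 (F 2) p) (D2 (F 0) p) (D2 (F 1) p) (D2 (F 2) p) (E p) e1 e2 e3
  have hst := E4_vec (D1 (D2 (F 0)) p) (D1 (D2 (F 1)) p) (D1 (D2 (F 2)) p) (D1 (F 0) p)
    (D1 (F 1) p) (D1 (F 2) p) (D2 (F 0) p) (D2 (F 1) p) (D2 (F 2) p) (E p) e1 e2 e3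
  have hss := E4_vec (D1 (D1 (F 0)) p) (D1 (D1 (F 1)) p) (D1 (D1 (F 2)) p) (D1 (F 0) p)
    (D1 (F 1) p) (D1 (F 2) p) (D2 (F 0) p) (D2 (F 1) p) (D2 (F 2) p) (E p) e1 e2 e3
  -- the inner products
  have a1 : D2 (D2 (F 0)) p * D1 (F 0) p + D2 (D2 (F 1)) p * D1 (F 1) p
      + D2 (D2 (F 2)) p * D1 (F 2) p = 0 := by linarith
  have a2 : D2 (D2 (F 0)) p * D2 (F 0) p + D2 (D2 (F 1)) p * D2 (F 1) p
      + D2 (D2 (F 2)) p * D2 (F 2) p = 0 := by linarith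
  have a3 : D1 (D2 (F 0)) p * D1 (F 0) p + D1 (D2 (F 1)) p * D1 (F 1) p
      + D1 (D2 (F 2)) p * D1 (F 2) p = 1/2 * D2 E p := by linarith
  have a4 : D1 (D2 (F 0)) p * D2 (F 0) p + D1 (D2 (F 1)) p * D2 (F 1) p
      + D1 (D2 (F 2)) p * D2 (F 2) p = 0 := by linarith
  have a5 : D1 (D1 (F 0)) p * D1 (F 0) p + D1 (D1 (F 1)) p * D1 (F 1) p
      + D1 (D1 (F 2)) p * D1 (F 2) p = 1/2 * D1 E p := by linarith
  have a6 : D1 (D1 (F 0)) p * D2 (F 0) p + D1 (D1 (F 1)) p * D2 (F 1) p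
      + D1 (D1 (F 2)) p * D2 (F 2) p = -(1/2 * D2 E p) := by linarith
  rw [a1, a2] at htt
  rw [a3, a4] at hst
  rw [a5, a6] at hss
  have b22 : l22 F p = (D1 (F 1) p * D2 (F 2) p - D1 (F 2) p * D2 (F 1) p) * D2 (D2 (F 0)) p +
    (D1 (F 2) p * D2 (F 0) p - D1 (F 0) p * D2 (F 2) p) * D2 (D2 (F 1)) p +
    (D1 (F 0) p * D2 (F 1) p - D1 (F 1) p * D2 (F 0) p) * D2 (D2 (F 2)) p := rfl
  have b12 : l12 F p = (D1 (F 1) p * D2 (F 2) p - D1 (F 2) p * D2 (F 1) p) * D1 (D2 (F 0)) p +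
    (D1 (F 2) p * D2 (F 0) p - D1 (F 0) p * D2 (F 2) p) * D1 (D2 (F 1)) p +
    (D1 (F 0) p * D2 (F 1) p - D1 (F 1) p * D2 (F 0) p) * D1 (D2 (F 2)) p := rfl
  have b11 : l11 F p = (D1 (F 1) p * D2 (F 2) p - D1 (F 2) p * D2 (F 1) p) * D1 (D1 (F 0)) p +
    (D1 (F 2) p * D2 (F 0) p - D1 (F 0) p * D2 (F 2) p) * D1 (D1 (F 1)) p +
    (D1 (F 0) p * D2 (F 1) p - D1 (F 1) p * D2 (F 0) p) * D1 (D1 (F 2)) p := rfl
  rw [← b22] at htt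
  rw [← b12] at hst
  rw [← b11] at hss
  intro i
  simp only [mul_ap, add_ap, sub_ap, smul_ap]
  fin_cases i
  · refine ⟨?_, ?_, ?_⟩
    · show E p * D2 (D2 (F 0)) p = l22 F p * nrm F 0 p
      rw [htt.1, E4_nrm0]; ring
    · show E p * D1 (D2 (F 0)) p = 1/2 * (D2 E p * D1 (F 0) p) + l12 F p * nrm F 0 p
      rw [hst.1, E4_nrm0]; ring
    · show E p * D1 (D1 (F 0)) p = 1/2 * (D1 E p * D1 (F 0) p) -
        1/2 * (E p * D2 E p * D2 (F 0) p) + l11 F p * nrm F 0 p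
      rw [hss.1, E4_nrm0]; ring
  · refine ⟨?_, ?_, ?_⟩
    · show E p * D2 (D2 (F 1)) p = l22 F p * nrm F 1 p
      rw [htt.2.1, E4_nrm1]; ring
    · show E p * D1 (D2 (F 1)) p = 1/2 * (D2 E p * D1 (F 1) p) + l12 F p * nrm F 1 p
      rw [hst.2.1, E4_nrm1]; ring
    · show E p * D1 (D1 (F 1)) p = 1/2 * (D1 E p * D1 (F 1) p) -
        1/2 * (E p * D2 E p * D2 (F 1) p) + l11 F p * nrm F 1 p
      rw [hss.2.1, E4_nrm1]; ring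
  · refine ⟨?_, ?_, ?_⟩
    · show E p * D2 (D2 (F 2)) p = l22 F p * nrm F 2 p
      rw [htt.2.2, E4_nrm2]; ring
    · show E p * D1 (D2 (F 2)) p = 1/2 * (D2 E p * D1 (F 2) p) + l12 F p * nrm F 2 p
      rw [hst.2.2, E4_nrm2]; ring
    · show E p * D1 (D1 (F 2)) p = 1/2 * (D1 E p * D1 (F 2) p) -
        1/2 * (E p * D2 E p * D2 (F 2) p) + l11 F p * nrm F 2 p
      rw [hss.2.2, E4_nrm2]; ring

/-- length of the normal -/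
theorem nrm_sq (E : Sm) (F : Fin 3 → Sm) (Ω : Set (ℝ × ℝ)) (hF : Isom E F Ω) :
    ∀ p ∈ Ω, dot (nrm F) (nrm F) p = E p := by
  intro p hp
  obtain ⟨e1, e2, e3⟩ := hF p hp
  rw [E4_dot_ap] at e1 e2 e3 ⊢
  rw [E4_nrm0, E4_nrm1, E4_nrm2]
  have : (D1 (F 1) p * D2 (F 2) p - D1 (F 2) p * D2 (F 1) p) *
      (D1 (F 1) p * D2 (F 2) p - D1 (F 2) p * D2 (F 1) p) +
      (D1 (F 2) p * D2 (F 0) p - D1 (F 0) p * D2 (F 2) p) *
      (D1 (F 2) p * D2 (F 0) p - D1 (F 0) p * D2 (F 2) p) +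
      (D1 (F 0) p * D2 (F 1) p - D1 (F 1) p * D2 (F 0) p) *
      (D1 (F 0) p * D2 (F 1) p - D1 (F 1) p * D2 (F 0) p) =
      (D1 (F 0) p * D1 (F 0) p + D1 (F 1) p * D1 (F 1) p + D1 (F 2) p * D1 (F 2) p) *
      (D2 (F 0) p * D2 (F 0) p + D2 (F 1) p * D2 (F 1) p + D2 (F 2) p * D2 (F 2) p) -
      (D1 (F 0) p * D2 (F 0) p + D1 (F 1) p * D2 (F 1) p + D1 (F 2) p * D2 (F 2) p) ^ 2 := by ring
  rw [this, e1, e2, e3]; ring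

/-- continuity: identities of smooth functions extend to the closure -/
theorem eq_closure (f g : Sm) (Ω : Set (ℝ × ℝ)) (h : ∀ p ∈ Ω, f p = g p) :
    ∀ p ∈ closure Ω, f p = g p := by
  intro p hp
  exact closure_minimal (fun q hq => h q hq)
    (isClosed_eq (smooth f).continuous (smooth g).continuous) hp

private theorem E4_four {a b c d a' b' c' d' m : ℝ} (hm : 0 ≤ m) (h1 : |a| ≤ m) (h2 : |b| ≤ 1)
    (h3 : |a'| ≤ 1) (h4 : |b'| ≤ m) (h5 : |c| ≤ m) (h6 : |d| ≤ 1) (h7 : |c'| ≤ 1) (h8 : |d'| ≤ m) :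
    |(a' * b' + b * a) - (c' * d' + d * c)| ≤ 4 * m := by
  have e1 : |a' * b'| ≤ 1 * m := by rw [abs_mul]; exact mul_le_mul h3 h4 (abs_nonneg _) zero_le_one
  have e2 : |b * a| ≤ 1 * m := by rw [abs_mul]; exact mul_le_mul h2 h1 (abs_nonneg _) zero_le_one
  have e3 : |c' * d'| ≤ 1 * m := by rw [abs_mul]; exact mul_le_mul h7 h8 (abs_nonneg _) zero_le_one
  have e4 : |d * c| ≤ 1 * m := by rw [abs_mul]; exact mul_le_mul h6 h5 (abs_nonneg _) zero_le_one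
  have e5 := abs_sub (a' * b' + b * a) (c' * d' + d * c)
  have e6 := abs_add_le (a' * b') (b * a)
  have e7 := abs_add_le (c' * d') (d * c)
  linarith

/-- the normal is Lipschitz -/
theorem nrm_deriv (F : Fin 3 → Sm) (p : ℝ × ℝ) (m : ℝ) (hm : 0 ≤ m)
    (h1 : ∀ i, |D1 (F i) p| ≤ 1) (h2 : ∀ i, |D2 (F i) p| ≤ 1)
    (h11 : ∀ i, |D1 (D1 (F i)) p| ≤ m) (h12 : ∀ i, |D1 (D2 (F i)) p| ≤ m)
    (h22 : ∀ i, |D2 (D2 (F i)) p| ≤ m) : ∀ i, |D1 (nrm F i) p| ≤ 4 * m ∧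
      |D2 (nrm F i) p| ≤ 4 * m := by
  have key : ∀ δ : Derivation ℝ Sm Sm, (∀ i, |δ (D1 (F i)) p| ≤ m) → (∀ i, |δ (D2 (F i)) p| ≤ m) →
      ∀ i, |δ (nrm F i) p| ≤ 4 * m := by
    intro δ hδ1 hδ2 i
    have gen : ∀ j k : Fin 3, |δ (D1 (F j) * D2 (F k) - D1 (F k) * D2 (F j)) p| ≤ 4 * m := by
      intro j k
      rw [map_sub, Derivation.leibniz, Derivation.leibniz]
      simp only [smul_eq_mul, sub_ap, add_ap, mul_ap]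
      exact E4_four hm (hδ1 j) (h2 k) (h1 j) (hδ2 k) (hδ1 k) (h2 j) (h1 k) (hδ2 j)
    fin_cases i
    · exact gen 1 2
    · exact gen 2 0
    · exact gen 0 1
  intro i
  refine ⟨key D1 h11 h12 i, key D2 (fun i => ?_) h22 i⟩
  rw [← D1_D2_comm]
  exact h12 i

end NI
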