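import Crest.Agent.NI_E2
import Crest.Agent.NI_E3
import Crest.Agent.NI_E4
import Crest.Agent.NI_G3

set_option autoImplicit false
open scoped ContDiff
open MeasureTheory

namespace NI

/-- three sides of the rectangle `[0,1] × [0,1/4]` -/
def UU : Set (ℝ × ℝ) := {p | (p.1 = 0 ∧ 0 ≤ p.2 ∧ p.2 ≤ 1/4) ∨ (p.1 = 1 ∧ 0 ≤ p.2 ∧ p.2 ≤ 1/4) ∨
  (p.2 = 0 ∧ 0 ≤ p.1 ∧ p.1 ≤ 1)}

/-- open rectangle -/
def Ro : Set (ℝ × ℝ) := Set.Ioo 0 1 ×ˢ Set.Ioo 0 (1/4)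

/-- height over the tangent plane at the origin -/
noncomputable def zht (F : Fin 3 → Sm) : Sm :=
  (nrm F 0 (0,0)) • (F 0 - F 0 (0,0) • (1 : Sm)) + (nrm F 1 (0,0)) • (F 1 - F 1 (0,0) • (1 : Sm))
    + (nrm F 2 (0,0)) • (F 2 - F 2 (0,0) • (1 : Sm))

/-! ### helpers -/

private theorem e5_sl1 (f : Sm) (s t : ℝ) :
    HasDerivAt (fun x : ℝ => f (x, t)) (D1 f (s, t)) s := by
  have h1 : HasFDerivAt (f : ℝ × ℝ → ℝ) (fderiv ℝ (f : ℝ × ℝ → ℝ) (s, t)) (s, t) :=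
    (diffAt f (s, t)).hasFDerivAt
  have h2 : HasDerivAt (fun x : ℝ => (x, t)) ((1:ℝ), (0:ℝ)) s :=
    (hasDerivAt_id s).prodMk (hasDerivAt_const s t)
  exact h1.comp_hasDerivAt s h2

private theorem e5_sl2 (f : Sm) (s t : ℝ) :
    HasDerivAt (fun x : ℝ => f (s, x)) (D2 f (s, t)) t := by
  have h1 : HasFDerivAt (f : ℝ × ℝ → ℝ) (fderiv ℝ (f : ℝ × ℝ → ℝ) (s, t)) (s, t) :=
    (diffAt f (s, t)).hasFDerivAt
  have h2 : HasDerivAt (fun x : ℝ => (s, x)) ((0:ℝ), (1:ℝ)) t :=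
    (hasDerivAt_const t s).prodMk (hasDerivAt_id t)
  exact h1.comp_hasDerivAt t h2

private theorem e5_closure : closure Ro = Set.Icc 0 1 ×ˢ Set.Icc 0 (1/4) := by
  rw [Ro, closure_prod_eq, closure_Ioo (by norm_num), closure_Ioo (by norm_num)]

private theorem e5_mem {s t : ℝ} (h1 : 0 ≤ s) (h2 : s ≤ 1) (h3 : 0 ≤ t) (h4 : t ≤ 1/4) :
    ((s, t) : ℝ × ℝ) ∈ closure Ro := by
  rw [e5_closure]; exact ⟨⟨h1, h2⟩, ⟨h3, h4⟩⟩

private theorem e5_open : IsOpen Ro := isOpen_Ioo.prod isOpen_Ioo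

private theorem e5_UU {q : ℝ × ℝ} (hq : q ∈ UU) : q ∈ closure Ro := by
  rw [e5_closure]
  rcases hq with ⟨h1, h2, h3⟩ | ⟨h1, h2, h3⟩ | ⟨h1, h2, h3⟩
  · exact ⟨⟨by rw [h1], by rw [h1]; norm_num⟩, ⟨h2, h3⟩⟩
  · exact ⟨⟨by rw [h1]; norm_num, by rw [h1]⟩, ⟨h2, h3⟩⟩
  · exact ⟨⟨h2, h3⟩, ⟨by rw [h1], by rw [h1]; norm_num⟩⟩

/-- mean value inequality in the first variable -/
private theorem e5_mv1 (f : Sm) (C a b t : ℝ) (hab : a ≤ b)
    (h : ∀ s ∈ Set.Icc a b, |D1 f (s, t)| ≤ C) : |f (b, t) - f (a, t)| ≤ C * (b - a) := by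
  have h1 := (convex_Icc a b).norm_image_sub_le_of_norm_hasDerivWithin_le
    (f := fun x : ℝ => f (x, t)) (f' := fun s => D1 f (s, t)) (C := C) (x := a) (y := b)
    (fun s _ => (e5_sl1 f s t).hasDerivWithinAt) (fun s hs => h s hs)
    (Set.left_mem_Icc.2 hab) (Set.right_mem_Icc.2 hab)
  rw [Real.norm_eq_abs, Real.norm_eq_abs, abs_of_nonneg (sub_nonneg.2 hab)] at h1
  exact h1

private theorem e5_mv2 (f : Sm) (C s a b : ℝ) (hab : a ≤ b)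
    (h : ∀ t ∈ Set.Icc a b, |D2 f (s, t)| ≤ C) : |f (s, b) - f (s, a)| ≤ C * (b - a) := by
  have h1 := (convex_Icc a b).norm_image_sub_le_of_norm_hasDerivWithin_le
    (f := fun x : ℝ => f (s, x)) (f' := fun t => D2 f (s, t)) (C := C) (x := a) (y := b)
    (fun t _ => (e5_sl2 f s t).hasDerivWithinAt) (fun t ht => h t ht)
    (Set.left_mem_Icc.2 hab) (Set.right_mem_Icc.2 hab)
  rw [Real.norm_eq_abs, Real.norm_eq_abs, abs_of_nonneg (sub_nonneg.2 hab)] at h1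
  exact h1

private theorem e5_Dzht (D : Derivation ℝ Sm Sm) (F : Fin 3 → Sm) :
    D (zht F) = (nrm F 0 (0,0)) • D (F 0) + (nrm F 1 (0,0)) • D (F 1)
      + (nrm F 2 (0,0)) • D (F 2) := by
  rw [zht]
  simp only [map_add, Derivation.map_smul, map_sub, Derivation.map_one_eq_zero, smul_zero, sub_zero]

private theorem e5_DDzht (D D' : Derivation ℝ Sm Sm) (F : Fin 3 → Sm) :
    D (D' (zht F)) = (nrm F 0 (0,0)) • D (D' (F 0)) + (nrm F 1 (0,0)) • D (D' (F 1))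
      + (nrm F 2 (0,0)) • D (D' (F 2)) := by
  rw [e5_Dzht D']
  simp only [map_add, Derivation.map_smul]

/-- the inner product of the normals -/
private noncomputable def e5_N (F : Fin 3 → Sm) (p : ℝ × ℝ) : ℝ :=
  nrm F 0 (0,0) * nrm F 0 p + nrm F 1 (0,0) * nrm F 1 p + nrm F 2 (0,0) * nrm F 2 p

private theorem e5_struct (E : Sm) (F : Fin 3 → Sm) (hF : Isom E F Ro) :
    ∀ p ∈ closure Ro,
      E p * D2 (D2 (zht F)) p = l22 F p * e5_N F p ∧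
      E p * D1 (D2 (zht F)) p = 1/2 * (D2 E p * D1 (zht F) p) + l12 F p * e5_N F p ∧
      E p * D1 (D1 (zht F)) p = 1/2 * (D1 E p * D1 (zht F) p)
        - 1/2 * (E p * D2 E p * D2 (zht F) p) + l11 F p * e5_N F p := by
  intro p hp
  have h := struct_eq E F Ro e5_open hF
  have h22 : ∀ i, (E * D2 (D2 (F i))) p = (l22 F * nrm F i) p := fun i =>
    eq_closure _ _ Ro (fun q hq => (h q hq i).1) p hp
  have h12 : ∀ i, (E * D1 (D2 (F i))) p = ((1/2 : ℝ) • (D2 E * D1 (F i)) + l12 F * nrm F i) p :=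
    fun i => eq_closure _ _ Ro (fun q hq => (h q hq i).2.1) p hp
  have h11 : ∀ i, (E * D1 (D1 (F i))) p = ((1/2 : ℝ) • (D1 E * D1 (F i))
      - (1/2 : ℝ) • (E * D2 E * D2 (F i)) + l11 F * nrm F i) p :=
    fun i => eq_closure _ _ Ro (fun q hq => (h q hq i).2.2) p hp
  simp only [mul_ap, add_ap, sub_ap, smul_ap] at h22 h12 h11
  rw [e5_DDzht, e5_DDzht, e5_DDzht, e5_Dzht, e5_Dzht, e5_N]
  simp only [add_ap, smul_ap]
  refine ⟨?_, ?_, ?_⟩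
  · linear_combination nrm F 0 (0,0) * h22 0 + nrm F 1 (0,0) * h22 1 + nrm F 2 (0,0) * h22 2
  · linear_combination nrm F 0 (0,0) * h12 0 + nrm F 1 (0,0) * h12 1 + nrm F 2 (0,0) * h12 2
  · linear_combination nrm F 0 (0,0) * h11 0 + nrm F 1 (0,0) * h11 1 + nrm F 2 (0,0) * h11 2

private theorem e5_nrm_sq (E : Sm) (F : Fin 3 → Sm) (hF : Isom E F Ro) :
    ∀ p ∈ closure Ro, nrm F 0 p ^ 2 + nrm F 1 p ^ 2 + nrm F 2 p ^ 2 = E p := by
  intro p hp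
  have h := eq_closure _ _ Ro (nrm_sq E F Ro hF) p hp
  rw [dot] at h
  simp only [add_ap, mul_ap] at h
  rw [← h]; ring

private theorem e5_CS (a b c x y z : ℝ) (h1 : a^2+b^2+c^2 ≤ 1) (h2 : x^2+y^2+z^2 ≤ 1) :
    |a*x+b*y+c*z| ≤ 1 := by
  rw [abs_le]
  constructor <;> nlinarith [sq_nonneg (a+x), sq_nonneg (b+y), sq_nonneg (c+z),
    sq_nonneg (a-x), sq_nonneg (b-y), sq_nonneg (c-z)]

private theorem e5_zero (F : Fin 3 → Sm) :
    zht F (0,0) = 0 ∧ D1 (zht F) (0,0) = 0 ∧ D2 (zht F) (0,0) = 0 := by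
  refine ⟨?_, ?_, ?_⟩
  · rw [zht]
    simp only [add_ap, smul_ap, sub_ap, one_ap]; ring
  · rw [e5_Dzht]
    simp only [add_ap, smul_ap, nrm, crs, Matrix.cons_val_zero, Matrix.cons_val_one,
      Matrix.cons_val, sub_ap, mul_ap]; ring
  · rw [e5_Dzht]
    simp only [add_ap, smul_ap, nrm, crs, Matrix.cons_val_zero, Matrix.cons_val_one,
      Matrix.cons_val, sub_ap, mul_ap]; ring

/-- STEP 1: if the second fundamental form is `≤ μ` on `UU`, then `|z|, |z_s|, |z_t| ≤ 2 μ` on `UU`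
(`struct_eq` extended by `eq_closure` to the closed rectangle; on `UU`: `E = 1`, `E_s = E_t = 0`, so
`z_ij = l_ij ⟨n, ν⟩`, `|⟨n,ν⟩| ≤ 1`; integrate along `UU` from the corner `(0,0)` where
`z = z_s = z_t = 0`). -/
theorem zht_UU (τ μ : ℝ) (F : Fin 3 → Sm) (hμ : 0 ≤ μ) (hF : Isom (EP τ) F Ro)
    (h : ∀ q ∈ UU, |l11 F q| ≤ μ ∧ |l12 F q| ≤ μ ∧ |l22 F q| ≤ μ) :
    ∀ q ∈ UU, |zht F q| ≤ 2 * μ ∧ |D1 (zht F) q| ≤ 2 * μ ∧ |D2 (zht F) q| ≤ 2 * μ := by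
  have hout : ∀ q ∈ UU, EP τ q = 1 ∧ D1 (EP τ) q = 0 ∧ D2 (EP τ) q = 0 := by
    intro q hq
    have h1 := EP_out τ q (by
      rcases hq with ⟨h1, _⟩ | ⟨h1, _⟩ | ⟨h1, _⟩
      · exact Or.inl h1.le
      · exact Or.inr (Or.inl h1.ge)
      · exact Or.inr (Or.inr (Or.inl h1.le)))
    exact ⟨h1.1, h1.2.1, h1.2.2.1⟩
  have h00 : ((0:ℝ), (0:ℝ)) ∈ UU := Or.inl ⟨rfl, le_rfl, by norm_num⟩
  have hN : ∀ q ∈ UU, |e5_N F q| ≤ 1 := by
    intro q hq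
    have h1 := e5_nrm_sq _ F hF (0,0) (e5_UU h00)
    have h2 := e5_nrm_sq _ F hF q (e5_UU hq)
    rw [(hout _ h00).1] at h1
    rw [(hout _ hq).1] at h2
    exact e5_CS _ _ _ _ _ _ h1.le h2.le
  have hder : ∀ q ∈ UU, |D1 (D1 (zht F)) q| ≤ μ ∧ |D1 (D2 (zht F)) q| ≤ μ ∧
      |D2 (D2 (zht F)) q| ≤ μ ∧ |D2 (D1 (zht F)) q| ≤ μ := by
    intro q hq
    obtain ⟨a1, a2, a3⟩ := e5_struct _ F hF q (e5_UU hq)
    obtain ⟨b1, b2, b3⟩ := hout q hq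
    obtain ⟨c1, c2, c3⟩ := h q hq
    have hNq := hN q hq
    rw [b1, one_mul] at a1 a2 a3
    rw [b3] at a2
    rw [b2, b3] at a3
    have a2' : D1 (D2 (zht F)) q = l12 F q * e5_N F q := by rw [a2]; ring
    have a3' : D1 (D1 (zht F)) q = l11 F q * e5_N F q := by rw [a3]; ring
    have hb : ∀ x : ℝ, |x| ≤ μ → |x * e5_N F q| ≤ μ := by
      intro x hx
      rw [abs_mul]
      calc |x| * |e5_N F q| ≤ μ * 1 := mul_le_mul hx hNq (abs_nonneg _) hμ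
        _ = μ := mul_one _
    refine ⟨?_, ?_, ?_, ?_⟩
    · rw [a3']; exact hb _ c1
    · rw [a2']; exact hb _ c2
    · rw [a1]; exact hb _ c3
    · rw [← D1_D2_comm, a2']; exact hb _ c2
  obtain ⟨z0, z1, z2⟩ := e5_zero F
  -- left side
  have L : ∀ t, 0 ≤ t → t ≤ 1/4 → ((0:ℝ), t) ∈ UU := fun t h1 h2 => Or.inl ⟨rfl, h1, h2⟩
  have B : ∀ s, 0 ≤ s → s ≤ 1 → (s, (0:ℝ)) ∈ UU := fun s h1 h2 => Or.inr (Or.inr ⟨rfl, h1, h2⟩)
  have R : ∀ t, 0 ≤ t → t ≤ 1/4 → ((1:ℝ), t) ∈ UU := fun t h1 h2 =>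
    Or.inr (Or.inl ⟨rfl, h1, h2⟩)
  have L1 : ∀ t, 0 ≤ t → t ≤ 1/4 → |D1 (zht F) (0, t)| ≤ μ := by
    intro t ht0 ht1
    have := e5_mv2 (D1 (zht F)) μ 0 0 t ht0 fun x hx => (hder _ (L x hx.1 (hx.2.trans ht1))).2.2.2
    rw [z1, sub_zero, sub_zero] at this
    nlinarith
  have L2 : ∀ t, 0 ≤ t → t ≤ 1/4 → |D2 (zht F) (0, t)| ≤ μ := by
    intro t ht0 ht1
    have := e5_mv2 (D2 (zht F)) μ 0 0 t ht0 fun x hx => (hder _ (L x hx.1 (hx.2.trans ht1))).2.2.1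
    rw [z2, sub_zero, sub_zero] at this
    nlinarith
  have L0 : ∀ t, 0 ≤ t → t ≤ 1/4 → |zht F (0, t)| ≤ μ := by
    intro t ht0 ht1
    have := e5_mv2 (zht F) μ 0 0 t ht0 fun x hx => L2 x hx.1 (hx.2.trans ht1)
    rw [z0, sub_zero, sub_zero] at this
    nlinarith
  have B1 : ∀ s, 0 ≤ s → s ≤ 1 → |D1 (zht F) (s, 0)| ≤ μ := by
    intro s hs0 hs1
    have := e5_mv1 (D1 (zht F)) μ 0 s 0 hs0 fun x hx => (hder _ (B x hx.1 (hx.2.trans hs1))).1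
    rw [z1, sub_zero, sub_zero] at this
    nlinarith
  have B2 : ∀ s, 0 ≤ s → s ≤ 1 → |D2 (zht F) (s, 0)| ≤ μ := by
    intro s hs0 hs1
    have := e5_mv1 (D2 (zht F)) μ 0 s 0 hs0 fun x hx => (hder _ (B x hx.1 (hx.2.trans hs1))).2.1
    rw [z2, sub_zero, sub_zero] at this
    nlinarith
  have B0 : ∀ s, 0 ≤ s → s ≤ 1 → |zht F (s, 0)| ≤ μ := by
    intro s hs0 hs1
    have := e5_mv1 (zht F) μ 0 s 0 hs0 fun x hx => B1 x hx.1 (hx.2.trans hs1)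
    rw [z0, sub_zero, sub_zero] at this
    nlinarith
  have R1 : ∀ t, 0 ≤ t → t ≤ 1/4 → |D1 (zht F) (1, t)| ≤ 5/4 * μ := by
    intro t ht0 ht1
    have h1 := e5_mv2 (D1 (zht F)) μ 1 0 t ht0
      fun x hx => (hder _ (R x hx.1 (hx.2.trans ht1))).2.2.2
    have h2 := B1 1 (by norm_num) le_rfl
    have h3 := abs_sub_abs_le_abs_sub (D1 (zht F) (1, t)) (D1 (zht F) (1, 0))
    rw [sub_zero] at h1
    nlinarith
  have R2 : ∀ t, 0 ≤ t → t ≤ 1/4 → |D2 (zht F) (1, t)| ≤ 5/4 * μ := by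
    intro t ht0 ht1
    have h1 := e5_mv2 (D2 (zht F)) μ 1 0 t ht0
      fun x hx => (hder _ (R x hx.1 (hx.2.trans ht1))).2.2.1
    have h2 := B2 1 (by norm_num) le_rfl
    have h3 := abs_sub_abs_le_abs_sub (D2 (zht F) (1, t)) (D2 (zht F) (1, 0))
    rw [sub_zero] at h1
    nlinarith
  have R0 : ∀ t, 0 ≤ t → t ≤ 1/4 → |zht F (1, t)| ≤ 2 * μ := by
    intro t ht0 ht1
    have h1 := e5_mv2 (zht F) (5/4 * μ) 1 0 t ht0 fun x hx => R2 x hx.1 (hx.2.trans ht1)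
    have h2 := B0 1 (by norm_num) le_rfl
    have h3 := abs_sub_abs_le_abs_sub (zht F (1, t)) (zht F (1, 0))
    rw [sub_zero] at h1
    nlinarith
  rintro ⟨s, t⟩ (⟨h1, h2, h3⟩ | ⟨h1, h2, h3⟩ | ⟨h1, h2, h3⟩)
  · change s = 0 at h1; subst h1
    exact ⟨(L0 t h2 h3).trans (by linarith), (L1 t h2 h3).trans (by linarith),
      (L2 t h2 h3).trans (by linarith)⟩
  · change s = 1 at h1; subst h1
    exact ⟨R0 t h2 h3, (R1 t h2 h3).trans (by linarith), (R2 t h2 h3).trans (by linarith)⟩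
  · change t = 0 at h1; subst h1
    exact ⟨(B0 s h2 h3).trans (by linarith), (B1 s h2 h3).trans (by linarith),
      (B2 s h2 h3).trans (by linarith)⟩

/-- STEP 2: `⟨n, ν⟩ ≥ 1/2` on the rectangle (`nrm_deriv`, `m0 = 1/30`, mean value). -/
theorem nrm_half (τ : ℝ) (F : Fin 3 → Sm) (hE : ∀ p : ℝ × ℝ, 1/2 ≤ EP τ p ∧ EP τ p ≤ 1)
    (hF : Isom (EP τ) F Ro)
    (hm : ∀ i, ∀ a b : ℕ, a + b = 2 → ∀ p ∈ Box 2, |Dab a b (F i) p| ≤ 1/50) :
    ∀ p ∈ Ro, 1/2 ≤ nrm F 0 (0,0) * nrm F 0 p + nrm F 1 (0,0) * nrm F 1 p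
      + nrm F 2 (0,0) * nrm F 2 p := by
  have hbox : ∀ p ∈ closure Ro, p ∈ Box 2 := by
    intro p hp
    rw [e5_closure] at hp
    obtain ⟨⟨h1, h2⟩, ⟨h3, h4⟩⟩ := hp
    constructor
    · rw [abs_lt]; constructor <;> linarith
    · rw [abs_lt]; constructor <;> linarith
  have hP : ∀ p ∈ closure Ro, ∀ i, |D1 (F i) p| ≤ 1 := by
    intro p hp
    have h := eq_closure (dot (fun i => D1 (F i)) (fun i => D1 (F i))) (EP τ) Ro
      (fun q hq => (hF q hq).1) p hp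
    rw [dot] at h
    simp only [add_ap, mul_ap] at h
    have hE1 := (hE p).2
    intro i
    rw [abs_le_one_iff_mul_self_le_one]
    fin_cases i
    · show D1 (F 0) p * D1 (F 0) p ≤ 1
      nlinarith [mul_self_nonneg (D1 (F 1) p), mul_self_nonneg (D1 (F 2) p)]
    · show D1 (F 1) p * D1 (F 1) p ≤ 1
      nlinarith [mul_self_nonneg (D1 (F 0) p), mul_self_nonneg (D1 (F 2) p)]
    · show D1 (F 2) p * D1 (F 2) p ≤ 1
      nlinarith [mul_self_nonneg (D1 (F 0) p), mul_self_nonneg (D1 (F 1) p)]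
  have hR : ∀ p ∈ closure Ro, ∀ i, |D2 (F i) p| ≤ 1 := by
    intro p hp
    have h := eq_closure (dot (fun i => D2 (F i)) (fun i => D2 (F i))) 1 Ro
      (fun q hq => (hF q hq).2.2) p hp
    rw [dot] at h
    simp only [add_ap, mul_ap, one_ap] at h
    intro i
    rw [abs_le_one_iff_mul_self_le_one]
    fin_cases i
    · show D2 (F 0) p * D2 (F 0) p ≤ 1
      nlinarith [mul_self_nonneg (D2 (F 1) p), mul_self_nonneg (D2 (F 2) p)]
    · show D2 (F 1) p * D2 (F 1) p ≤ 1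
      nlinarith [mul_self_nonneg (D2 (F 0) p), mul_self_nonneg (D2 (F 2) p)]
    · show D2 (F 2) p * D2 (F 2) p ≤ 1
      nlinarith [mul_self_nonneg (D2 (F 0) p), mul_self_nonneg (D2 (F 1) p)]
  have hn : ∀ p ∈ closure Ro, ∀ i, |D1 (nrm F i) p| ≤ 4/50 ∧ |D2 (nrm F i) p| ≤ 4/50 := by
    intro p hp i
    have h := nrm_deriv F p (1/50) (by norm_num) (hP p hp) (hR p hp)
      (fun i => hm i 2 0 rfl p (hbox p hp)) (fun i => hm i 1 1 rfl p (hbox p hp))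
      (fun i => hm i 0 2 rfl p (hbox p hp)) i
    constructor
    · exact h.1.trans (by norm_num)
    · exact h.2.trans (by norm_num)
  have h00 : ((0:ℝ), (0:ℝ)) ∈ closure Ro := e5_mem le_rfl (by norm_num) le_rfl (by norm_num)
  have hsq := e5_nrm_sq _ F hF (0,0) h00
  rw [(EP_out τ (0,0) (Or.inl le_rfl)).1] at hsq
  rintro ⟨s, t⟩ ⟨⟨hs0, hs1⟩, ⟨ht0, ht1⟩⟩
  simp only at hs0 hs1 ht0 ht1
  have key : ∀ i, |nrm F i (s, t) - nrm F i (0,0)| ≤ 1/10 := by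
    intro i
    have h1 := e5_mv1 (nrm F i) (4/50) 0 s 0 hs0.le fun x hx =>
      (hn _ (e5_mem hx.1 (hx.2.trans hs1.le) le_rfl (by norm_num)) i).1
    have h2 := e5_mv2 (nrm F i) (4/50) s 0 t ht0.le fun x hx =>
      (hn _ (e5_mem hs0.le hs1.le hx.1 (hx.2.trans ht1.le)) i).2
    have h3 := abs_sub_le (nrm F i (s, t)) (nrm F i (s, 0)) (nrm F i (0,0))
    have h4 : 4/50 * (s - 0) ≤ (4/50 : ℝ) := by linarith
    have h5 : 4/50 * (t - 0) ≤ (1/50 : ℝ) := by linarith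
    linarith
  have hv : ∀ i, |nrm F i (0,0)| ≤ 1 := by
    intro i
    rw [abs_le_one_iff_mul_self_le_one]
    fin_cases i
    · show nrm F 0 (0,0) * nrm F 0 (0,0) ≤ 1
      nlinarith [sq_nonneg (nrm F 1 (0,0)), sq_nonneg (nrm F 2 (0,0))]
    · show nrm F 1 (0,0) * nrm F 1 (0,0) ≤ 1
      nlinarith [sq_nonneg (nrm F 0 (0,0)), sq_nonneg (nrm F 2 (0,0))]
    · show nrm F 2 (0,0) * nrm F 2 (0,0) ≤ 1
      nlinarith [sq_nonneg (nrm F 0 (0,0)), sq_nonneg (nrm F 1 (0,0))]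
  have hprod : ∀ i, -(1/10) ≤ nrm F i (0,0) * (nrm F i (s, t) - nrm F i (0,0)) := by
    intro i
    have h1 : |nrm F i (0,0) * (nrm F i (s, t) - nrm F i (0,0))| ≤ 1/10 := by
      rw [abs_mul]
      calc _ ≤ 1 * (1/10 : ℝ) := mul_le_mul (hv i) (key i) (abs_nonneg _) (by norm_num)
        _ = 1/10 := one_mul _
    exact (abs_le.1 h1).1
  have a0 := hprod 0
  have a1 := hprod 1
  have a2 := hprod 2
  nlinarith

/-- STEP 3: constant sign. By `gauss` and positivity of the right-hand side, `l11 l22 > l12² ≥ 0`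
on the connected set `Ro`. -/
theorem sign_const (τ : ℝ) (F : Fin 3 → Sm) (hF : Isom (EP τ) F Ro)
    (hpos : ∀ p : ℝ × ℝ, 0 < p.1 → p.1 < 1 → 0 < p.2 → p.2 < 1/4 →
      0 < (-(1/2 : ℝ) • (EP τ * D2 (D2 (EP τ))) + (1/4 : ℝ) • (D2 (EP τ)) ^ 2 : Sm) p) :
    ∃ ς : ℝ, (ς = 1 ∨ ς = -1) ∧ ∀ p ∈ Ro, 0 < ς * l11 F p ∧ 0 < ς * l22 F p := by
  have hprod : ∀ p ∈ Ro, 0 < l11 F p * l22 F p := by
    rintro p hp
    have h1 := gauss (EP τ) F Ro e5_open hF p hp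
    have h2 := hpos p hp.1.1 hp.1.2 hp.2.1 hp.2.2
    rw [← h1, Bdet_l] at h2
    simp only [sub_ap, mul_ap, pow_ap] at h2
    nlinarith [sq_nonneg (l12 F p)]
  have hpre : IsPreconnected Ro :=
    (isPreconnected_Ioo).prod (isPreconnected_Ioo)
  have hcont : ContinuousOn (l11 F : ℝ × ℝ → ℝ) Ro := (smooth (l11 F)).continuous.continuousOn
  have hne : ∀ p ∈ Ro, l11 F p ≠ 0 := by
    intro p hp h0
    have := hprod p hp
    rw [h0, zero_mul] at this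
    exact lt_irrefl _ this
  have hc : ((1/2, 1/8) : ℝ × ℝ) ∈ Ro := ⟨⟨by norm_num, by norm_num⟩, ⟨by norm_num, by norm_num⟩⟩
  rcases lt_or_gt_of_ne (hne _ hc) with hneg | hposi
  · refine ⟨-1, Or.inr rfl, fun p hp => ?_⟩
    have h1 : l11 F p < 0 := by
      by_contra hcon
      push Not at hcon
      obtain ⟨q, hq, hq0⟩ := hpre.intermediate_value hc hp hcont ⟨hneg.le, hcon⟩
      exact hne q hq hq0
    have h2 := hprod p hp
    constructor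
    · linarith
    · nlinarith
  · refine ⟨1, Or.inl rfl, fun p hp => ?_⟩
    have h1 : 0 < l11 F p := by
      by_contra hcon
      push Not at hcon
      obtain ⟨q, hq, hq0⟩ := hpre.intermediate_value hp hc hcont ⟨hcon, hposi.le⟩
      exact hne q hq hq0
    have h2 := hprod p hp
    constructor
    · linarith
    · nlinarith

/-- slices of smooth functions are smooth -/
private theorem e5_smooth1 (f : Sm) (t : ℝ) (n : ℕ∞) : ContDiff ℝ n (fun s : ℝ => f (s, t)) :=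
  ((smooth f).of_le (by exact_mod_cast le_top)).comp (contDiff_id.prodMk contDiff_const)

private theorem e5_smooth2 (f : Sm) (s : ℝ) (n : ℕ∞) : ContDiff ℝ n (fun t : ℝ => f (s, t)) :=
  ((smooth f).of_le (by exact_mod_cast le_top)).comp (contDiff_const.prodMk contDiff_id)

private theorem e5_deriv1 (f : Sm) (t : ℝ) :
    deriv (fun s : ℝ => f (s, t)) = fun s => D1 f (s, t) :=
  funext fun s => (e5_sl1 f s t).deriv

private theorem e5_deriv2 (f : Sm) (s : ℝ) :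
    deriv (fun t : ℝ => f (s, t)) = fun t => D2 f (s, t) :=
  funext fun t => (e5_sl2 f s t).deriv

/-- STEP 4: `|z| ≤ 3 μ` on the open rectangle: lower bound of `ς z` and `ς z_t ≥ -2μ` by
`convex_lower` in `t` (`ς z_tt = ς l22 ⟨n,ν⟩/E > 0`), upper bound by `max_principle` in `s`
(`z_ss = (E_s/2E) z_s - ½ E_t z_t + l11 ⟨n,ν⟩/E`, `b = E_s/(2E)`, `κ = ½ |E_t| 2μ ≤ μ`). -/
theorem zht_small (τ μ : ℝ) (F : Fin 3 → Sm) (hμ : 0 ≤ μ)
    (hE : ∀ p : ℝ × ℝ, 1/2 ≤ EP τ p ∧ EP τ p ≤ 1 ∧ |D1 (EP τ) p| ≤ 1/8 ∧ |D2 (EP τ) p| ≤ 1/8)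
    (hE2 : ∀ p : ℝ × ℝ, p.2 < 1/4 → D2 (EP τ) p ≤ 0)
    (hF : Isom (EP τ) F Ro)
    (hU : ∀ q ∈ UU, |zht F q| ≤ 2 * μ ∧ |D1 (zht F) q| ≤ 2 * μ ∧ |D2 (zht F) q| ≤ 2 * μ)
    (hn : ∀ p ∈ Ro, 1/2 ≤ nrm F 0 (0,0) * nrm F 0 p + nrm F 1 (0,0) * nrm F 1 p
      + nrm F 2 (0,0) * nrm F 2 p)
    (ς : ℝ) (hς : ς = 1 ∨ ς = -1) (hs : ∀ p ∈ Ro, 0 < ς * l11 F p ∧ 0 < ς * l22 F p) :
    ∀ p ∈ Ro, |zht F p| ≤ 3 * μ := by
  have habs : ∀ x : ℝ, |ς * x| = |x| := by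
    intro x
    rcases hς with h | h
    · rw [h, one_mul]
    · rw [h, neg_one_mul, abs_neg]
  obtain ⟨w, hw⟩ : ∃ w : Sm, w = ς • zht F := ⟨_, rfl⟩
  have hwp : ∀ p, w p = ς * zht F p := fun p => by rw [hw]; rfl
  have hw1 : ∀ p, D1 w p = ς * D1 (zht F) p := fun p => by rw [hw, Derivation.map_smul]; rfl
  have hw2 : ∀ p, D2 w p = ς * D2 (zht F) p := fun p => by rw [hw, Derivation.map_smul]; rfl
  have hw22 : ∀ p, D2 (D2 w) p = ς * D2 (D2 (zht F)) p := fun p => by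
    rw [hw, Derivation.map_smul, Derivation.map_smul]; rfl
  have hw11 : ∀ p, D1 (D1 w) p = ς * D1 (D1 (zht F)) p := fun p => by
    rw [hw, Derivation.map_smul, Derivation.map_smul]; rfl
  -- lower bounds
  have low : ∀ s ∈ Set.Ioo (0:ℝ) 1, ∀ t ∈ Set.Icc (0:ℝ) (1/4),
      -(2*μ) - 2*μ * t ≤ w (s, t) ∧ -(2*μ) ≤ D2 w (s, t) := by
    intro s hs' 
    have hmem : (s, (0:ℝ)) ∈ UU := Or.inr (Or.inr ⟨rfl, hs'.1.le, hs'.2.le⟩)
    have hu := hU _ hmem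
    have h0 : -(2*μ) ≤ w (s, 0) := by
      have := hwp (s, 0)
      have h1 := habs (zht F (s, 0))
      rw [← this] at h1
      have h2 : |w (s, 0)| ≤ 2 * μ := by rw [h1]; exact hu.1
      exact (abs_le.1 h2).1
    have h1 : -(2*μ) ≤ deriv (fun t : ℝ => w (s, t)) 0 := by
      rw [e5_deriv2]
      have := hw2 (s, 0)
      have h1 := habs (D2 (zht F) (s, 0))
      rw [← this] at h1
      have h2 : |D2 w (s, 0)| ≤ 2 * μ := by rw [h1]; exact hu.2.2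
      exact (abs_le.1 h2).1
    have h2 : ∀ t ∈ Set.Ioo (0:ℝ) (1/4), 0 ≤ deriv (deriv (fun t : ℝ => w (s, t))) t := by
      intro t ht
      rw [e5_deriv2, e5_deriv2]
      have hp : (s, t) ∈ Ro := ⟨hs', ht⟩
      have a1 := (e5_struct _ F hF (s, t) (subset_closure hp)).1
      have a2 := hw22 (s, t)
      have a3 := hn _ hp
      have a4 := (hs _ hp).2
      have a5 := (hE (s, t)).1
      have a6 : EP τ (s, t) * D2 (D2 w) (s, t) = (ς * l22 F (s, t)) * e5_N F (s, t) := by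
        rw [a2]; linear_combination ς * a1
      have a7 : 0 ≤ EP τ (s, t) * D2 (D2 w) (s, t) := by
        rw [a6]
        exact mul_nonneg a4.le (le_trans (by norm_num) a3)
      exact nonneg_of_mul_nonneg_right a7 (by linarith)
    intro t ht
    have h3 := convex_lower (fun t : ℝ => w (s, t)) (e5_smooth2 w s 2) (1/4) (2*μ) (2*μ)
      (by norm_num) h0 h1 h2 t ht
    rw [e5_deriv2] at h3
    exact h3
  rintro ⟨s, t⟩ ⟨hs', ht'⟩
  simp only at hs' ht'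
  -- upper bound
  have up : w (s, t) ≤ 2 * μ + μ := by
    refine max_principle (fun x : ℝ => w (x, t))
      (fun x => D1 (EP τ) (x, t) / (2 * EP τ (x, t))) (e5_smooth1 w t 2) (2*μ) μ hμ ?_ ?_ ?_ ?_ s
      ⟨hs'.1.le, hs'.2.le⟩
    · intro x _
      obtain ⟨b1, b2, b3, b4⟩ := hE (x, t)
      rw [abs_div, abs_of_pos (show (0:ℝ) < 2 * EP τ (x, t) by linarith), div_le_iff₀ (by linarith)]
      linarith
    · intro x hx
      have hp : (x, t) ∈ Ro := ⟨hx, ht'⟩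
      rw [e5_deriv1, e5_deriv1]
      obtain ⟨b1, b2, b3, b4⟩ := hE (x, t)
      have c1 := (e5_struct _ F hF (x, t) (subset_closure hp)).2.2
      have c2 := hw11 (x, t)
      have c3 := hn _ hp
      have c4 := (hs _ hp).1
      have c5 := (low x hx t ⟨ht'.1.le, ht'.2.le⟩).2
      have c6 := hE2 (x, t) ht'.2
      have c7 : EP τ (x, t) * D1 (D1 w) (x, t) = 1/2 * (D1 (EP τ) (x, t) * D1 w (x, t))
          - 1/2 * (EP τ (x, t) * D2 (EP τ) (x, t) * D2 w (x, t))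
          + (ς * l11 F (x, t)) * e5_N F (x, t) := by
        rw [c2, hw1, hw2]; linear_combination ς * c1
      have hE0 : 0 < EP τ (x, t) := by linarith
      have c8 : D1 (D1 w) (x, t) - D1 (EP τ) (x, t) / (2 * EP τ (x, t)) * D1 w (x, t) =
          - 1/2 * (D2 (EP τ) (x, t) * D2 w (x, t))
          + (ς * l11 F (x, t)) * e5_N F (x, t) / EP τ (x, t) := by
        field_simp
        linarith
      have c9 : 0 ≤ (ς * l11 F (x, t)) * e5_N F (x, t) / EP τ (x, t) :=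
        div_nonneg (mul_nonneg c4.le (le_trans (by norm_num) c3)) hE0.le
      have c10 : -μ ≤ - 1/2 * (D2 (EP τ) (x, t) * D2 w (x, t)) := by
        have d1 : 0 ≤ -(D2 (EP τ) (x, t)) := by linarith
        have d2 : -(D2 (EP τ) (x, t)) ≤ 1/8 := by
          have := (abs_le.1 b4).1
          linarith
        nlinarith
      show -μ ≤ D1 (D1 w) (x, t) - D1 (EP τ) (x, t) / (2 * EP τ (x, t)) * D1 w (x, t)
      rw [c8]; linarith
    · have hmem : ((0:ℝ), t) ∈ UU := Or.inl ⟨rfl, ht'.1.le, ht'.2.le⟩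
      have h1 := (hU _ hmem).1
      rw [← habs, ← hwp] at h1
      exact (abs_le.1 h1).2
    · have hmem : ((1:ℝ), t) ∈ UU := Or.inr (Or.inl ⟨rfl, ht'.1.le, ht'.2.le⟩)
      have h1 := (hU _ hmem).1
      rw [← habs, ← hwp] at h1
      exact (abs_le.1 h1).2
  have lo := (low s hs' t ⟨ht'.1.le, ht'.2.le⟩).1
  have ht4 := ht'.2
  have ht0 := ht'.1
  rw [← habs, ← hwp, abs_le]
  constructor
  · nlinarith
  · linarith

/-- LEVEL 2: some point of the three sides has a large second fundamental form.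
Otherwise steps 1-4, `interp` at `(1/2,1/8)` for `t ↦ z(1/2,t)` (third derivative `≤ 3/50`,
any `h ≤ 1/16`): `|l22| = E |z_tt| / ⟨n,ν⟩ ≤ 2 (12 μ/h² + h)`, `|l11| ≤ 1`, so
`0 < κ0 = det l (1/2,1/8) ≤ 2 (12 μ/h² + h)`; choose first `h`, then `μ`. -/
theorem side_curved : ∃ m0 : ℝ, 0 < m0 ∧ ∃ τ0 : ℝ, 0 < τ0 ∧ τ0 ≤ 1 ∧
    ∀ τ : ℝ, 0 < τ → τ ≤ τ0 → ∃ μ : ℝ, 0 < μ ∧ μ ≤ 1 ∧ ∀ F : Fin 3 → Sm,
    (∀ i, ∀ a b : ℕ, 2 ≤ a + b → a + b ≤ 4 → ∀ p ∈ Box 2, |Dab a b (F i) p| ≤ m0) →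
    Isom (EP τ) F Ro →
    ∃ q ∈ UU, μ < |l11 F q| ∨ μ < |l12 F q| ∨ μ < |l22 F q| := by
  obtain ⟨τ0, hτ0, hτ1, hfacts⟩ := EP_facts
  refine ⟨1/50, by norm_num, τ0, hτ0, hτ1, fun τ hτ hττ => ?_⟩
  obtain ⟨hE, hE2, hpos⟩ := hfacts τ hτ hττ
  obtain ⟨κ, hκ⟩ : ∃ κ : ℝ, κ = (-(1/2 : ℝ) • (EP τ * D2 (D2 (EP τ)))
    + (1/4 : ℝ) • (D2 (EP τ)) ^ 2 : Sm) (1/2, 1/8) := ⟨_, rfl⟩
  have hκ0 : 0 < κ := by
    rw [hκ]
    exact hpos (1/2, 1/8) (by norm_num) (by norm_num) (by norm_num) (by norm_num)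
  obtain ⟨h, hh⟩ : ∃ h : ℝ, h = min (1/16) κ := ⟨_, rfl⟩
  have hh0 : 0 < h := by rw [hh]; exact lt_min (by norm_num) hκ0
  have hh1 : h ≤ 1/16 := by rw [hh]; exact min_le_left _ _
  have hh2 : h ≤ κ := by rw [hh]; exact min_le_right _ _
  refine ⟨min 1 (κ * h ^ 2 / 96), lt_min one_pos (by positivity), min_le_left _ _, ?_⟩
  intro F hm hF
  by_contra hcon
  push Not at hcon
  obtain ⟨μ, hμ⟩ : ∃ μ : ℝ, μ = min 1 (κ * h ^ 2 / 96) := ⟨_, rfl⟩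
  rw [← hμ] at hcon
  have hμ0 : 0 ≤ μ := by rw [hμ]; exact (lt_min one_pos (by positivity)).le
  have hμ1 : μ ≤ κ * h ^ 2 / 96 := by rw [hμ]; exact min_le_right _ _
  have hm2 : ∀ i, ∀ a b : ℕ, a + b = 2 → ∀ p ∈ Box 2, |Dab a b (F i) p| ≤ 1/50 :=
    fun i a b hab => hm i a b (by omega) (by omega)
  have hUU := zht_UU τ μ F hμ0 hF hcon
  have hn := nrm_half τ F (fun p => ⟨(hE p).1, (hE p).2.1⟩) hF hm2
  obtain ⟨ς, hς, hs⟩ := sign_const τ F hF hpos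
  have hz := zht_small τ μ F hμ0 hE hE2 hF hUU hn ς hς hs
  have hc : ((1/2, 1/8) : ℝ × ℝ) ∈ Ro := ⟨⟨by norm_num, by norm_num⟩, ⟨by norm_num, by norm_num⟩⟩
  have hE1 : ∀ p ∈ closure Ro, EP τ p ≤ 1 := fun p _ => (hE p).2.1
  have h00 : ((0:ℝ), (0:ℝ)) ∈ closure Ro := e5_mem le_rfl (by norm_num) le_rfl (by norm_num)
  have hsq0 := e5_nrm_sq _ F hF (0,0) h00
  have hsqc := e5_nrm_sq _ F hF _ (subset_closure hc)
  have hle1 : ∀ p ∈ closure Ro, ∀ i, |nrm F i p| ≤ 1 := by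
    intro p hp i
    have h1 := e5_nrm_sq _ F hF p hp
    have h2 := hE1 p hp
    rw [abs_le_one_iff_mul_self_le_one]
    fin_cases i
    · show nrm F 0 p * nrm F 0 p ≤ 1
      nlinarith [sq_nonneg (nrm F 1 p), sq_nonneg (nrm F 2 p)]
    · show nrm F 1 p * nrm F 1 p ≤ 1
      nlinarith [sq_nonneg (nrm F 0 p), sq_nonneg (nrm F 2 p)]
    · show nrm F 2 p * nrm F 2 p ≤ 1
      nlinarith [sq_nonneg (nrm F 0 p), sq_nonneg (nrm F 1 p)]
  have habs3 : ∀ (a b c x y z m : ℝ), |a| ≤ 1 → |b| ≤ 1 → |c| ≤ 1 → |x| ≤ m → |y| ≤ m →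
      |z| ≤ m → |a * x + b * y + c * z| ≤ 3 * m := by
    intro a b c x y z m ha hb hc' hx hy hz'
    have k : ∀ u v : ℝ, |u| ≤ 1 → |v| ≤ m → |u * v| ≤ m := by
      intro u v hu hv
      rw [abs_mul]
      calc |u| * |v| ≤ 1 * m := mul_le_mul hu hv (abs_nonneg _) (by norm_num)
        _ = m := one_mul _
    have k1 := k a x ha hx
    have k2 := k b y hb hy
    have k3 := k c z hc' hz'
    have k4 := abs_add_le (a * x + b * y) (c * z)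
    have k5 := abs_add_le (a * x) (b * y)
    linarith
  -- bound on l11 at the centre
  have hboxc : ((1/2, 1/8) : ℝ × ℝ) ∈ Box 2 := by
    constructor
    · rw [abs_lt]; constructor <;> norm_num
    · rw [abs_lt]; constructor <;> norm_num
  have hl11 : |l11 F (1/2, 1/8)| ≤ 3 * (1/50) := by
    have e : l11 F (1/2, 1/8) = nrm F 0 (1/2, 1/8) * D1 (D1 (F 0)) (1/2, 1/8)
      + nrm F 1 (1/2, 1/8) * D1 (D1 (F 1)) (1/2, 1/8)
      + nrm F 2 (1/2, 1/8) * D1 (D1 (F 2)) (1/2, 1/8) := by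
      rw [l11, dot]; simp only [add_ap, mul_ap]
    rw [e]
    exact habs3 _ _ _ _ _ _ _ (hle1 _ (subset_closure hc) 0) (hle1 _ (subset_closure hc) 1)
      (hle1 _ (subset_closure hc) 2) (hm2 0 2 0 rfl _ hboxc) (hm2 1 2 0 rfl _ hboxc)
      (hm2 2 2 0 rfl _ hboxc)
  -- interpolation
  have hint := interp (fun t : ℝ => zht F (1/2, t)) (e5_smooth2 (zht F) (1/2) 3) (1/8) h (3 * μ)
    (3 * (1/50)) hh0 (by
      intro t ht
      refine hz (1/2, t) ⟨⟨by norm_num, by norm_num⟩, ⟨?_, ?_⟩⟩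
      · linarith [ht.1]
      · linarith [ht.2]) (by
      intro t ht
      rw [e5_deriv2, e5_deriv2, e5_deriv2]
      have e : D2 (D2 (D2 (zht F))) (1/2, t) = nrm F 0 (0,0) * D2 (D2 (D2 (F 0))) (1/2, t)
        + nrm F 1 (0,0) * D2 (D2 (D2 (F 1))) (1/2, t)
        + nrm F 2 (0,0) * D2 (D2 (D2 (F 2))) (1/2, t) := by
        rw [e5_DDzht]
        simp only [map_add, Derivation.map_smul, add_ap, smul_ap]
      have hb : ((1/2, t) : ℝ × ℝ) ∈ Box 2 := by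
        constructor
        · rw [abs_lt]; constructor <;> norm_num
        · rw [abs_lt]
          constructor
          · linarith [ht.1]
          · linarith [ht.2]
      show |D2 (D2 (D2 (zht F))) (1/2, t)| ≤ _
      rw [e]
      exact habs3 _ _ _ _ _ _ _ (hle1 _ h00 0) (hle1 _ h00 1) (hle1 _ h00 2)
        (hm 0 0 3 (by norm_num) (by norm_num) _ hb) (hm 1 0 3 (by norm_num) (by norm_num) _ hb)
        (hm 2 0 3 (by norm_num) (by norm_num) _ hb))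
  rw [e5_deriv2, e5_deriv2] at hint
  have hint' : |D2 (D2 (zht F)) (1/2, 1/8)| ≤ 4 * (3 * μ) / h ^ 2 + 3 * (1/50) * h := hint
  have hb1 : 4 * (3 * μ) / h ^ 2 ≤ κ / 8 := by
    rw [div_le_iff₀ (by positivity)]
    have : 12 * μ ≤ 12 * (κ * h ^ 2 / 96) := by linarith
    nlinarith
  have hztt : |D2 (D2 (zht F)) (1/2, 1/8)| ≤ κ / 8 + 3/50 * κ := by
    refine hint'.trans (add_le_add hb1 ?_)
    nlinarith
  -- bound on l22
  have hst := (e5_struct _ F hF _ (subset_closure hc)).1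
  have hNc := hn _ hc
  have hl22 : |l22 F (1/2, 1/8)| ≤ 2 * (κ / 8 + 3/50 * κ) := by
    have h1 : |l22 F (1/2, 1/8)| * e5_N F (1/2, 1/8) ≤ κ / 8 + 3/50 * κ := by
      have hN0 : 0 ≤ e5_N F (1/2, 1/8) := le_trans (by norm_num) hNc
      rw [← abs_of_nonneg hN0, ← abs_mul, ← hst, abs_mul,
        abs_of_nonneg (show (0:ℝ) ≤ EP τ (1/2, 1/8) by linarith [(hE (1/2, 1/8)).1])]
      calc _ ≤ 1 * |D2 (D2 (zht F)) (1/2, 1/8)| :=
            mul_le_mul_of_nonneg_right (hE _).2.1 (abs_nonneg _)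
        _ ≤ _ := by rw [one_mul]; exact hztt
    have h2 : |l22 F (1/2, 1/8)| * (1/2) ≤ |l22 F (1/2, 1/8)| * e5_N F (1/2, 1/8) :=
      mul_le_mul_of_nonneg_left hNc (abs_nonneg _)
    linarith
  -- Gauss
  have hg := gauss (EP τ) F Ro e5_open hF _ hc
  rw [← hκ, Bdet_l] at hg
  simp only [sub_ap, mul_ap, pow_ap] at hg
  have h1 : l11 F (1/2, 1/8) * l22 F (1/2, 1/8) ≤
      |l11 F (1/2, 1/8)| * |l22 F (1/2, 1/8)| := by
    rw [← abs_mul]; exact le_abs_self _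
  have h2 : |l11 F (1/2, 1/8)| * |l22 F (1/2, 1/8)| ≤ (3 * (1/50)) * (2 * (κ / 8 + 3/50 * κ)) :=
    mul_le_mul hl11 hl22 (abs_nonneg _) (by norm_num)
  nlinarith [sq_nonneg (l12 F (1/2, 1/8))]

end NI
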