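import Mathlib

set_option autoImplicit false
open scoped ContDiff

namespace NI

/-- component `tt'` of a symmetric form in the frame `s' = (a,b)`, `t' = (-b,a)` -/
def rtt (a b x y z : ℝ) : ℝ := b ^ 2 * x - 2 * a * b * y + a ^ 2 * z
/-- component `st'` -/
def rst (a b x y z : ℝ) : ℝ := -(a * b) * x + (a ^ 2 - b ^ 2) * y + a * b * z

theorem e6_diag_aux (x y z K : ℝ) (hK : K = x + z) (hK0 : K ≠ 0) (h : x * z = y ^ 2)
    (hx : x ≠ 0) : ∃ p q : ℝ, p ^ 2 + q ^ 2 = 1 ∧ x = K * p ^ 2 ∧ y = K * (p * q) ∧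
      z = K * q ^ 2 := by
  have h1 : 0 ≤ x / K := by
    have : x / K = (x * K) / (K * K) := by field_simp
    rw [this]
    apply div_nonneg _ (mul_self_nonneg K)
    rw [hK]; nlinarith [sq_nonneg x, sq_nonneg y]
  have hp2 : Real.sqrt (x / K) ^ 2 = x / K := Real.sq_sqrt h1
  have hp0 : Real.sqrt (x / K) ≠ 0 := by
    intro h0
    rw [h0] at hp2
    have : x / K = 0 := by rw [← hp2]; ring
    rcases div_eq_zero_iff.mp this with h2 | h2
    · exact hx h2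
    · exact hK0 h2
  refine ⟨Real.sqrt (x / K), y / (K * Real.sqrt (x / K)), ?_, ?_, ?_, ?_⟩
  · rw [div_pow, mul_pow, hp2, ← h]
    field_simp
    rw [hK]
  · rw [hp2]; field_simp
  · field_simp
  · rw [div_pow, mul_pow, hp2, ← h]
    field_simp

theorem e6_diag (x y z K : ℝ) (hK : K = x + z) (hK0 : K ≠ 0) (h : x * z = y ^ 2) :
    ∃ p q : ℝ, p ^ 2 + q ^ 2 = 1 ∧ x = K * p ^ 2 ∧ y = K * (p * q) ∧ z = K * q ^ 2 := by
  by_cases hx : x = 0
  · have hy : y = 0 := by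
      rw [hx, zero_mul] at h
      exact pow_eq_zero_iff (two_ne_zero) |>.mp h.symm
    refine ⟨0, 1, by norm_num, by rw [hx]; ring, by rw [hy]; ring, by rw [hK, hx]; ring⟩
  · exact e6_diag_aux x y z K hK hK0 h hx

theorem e6_lin1 (a b dx dy dz e : ℝ) (hab : a ^ 2 + b ^ 2 = 1) (he : 0 ≤ e) (hx : |dx| ≤ e)
    (hy : |dy| ≤ e) (hz : |dz| ≤ e) : |rtt a b dx dy dz| ≤ 2 * e := by
  rw [abs_le] at hx hy hz ⊢
  unfold rtt
  have h1 : 2 * a * b ≤ 1 := by nlinarith [sq_nonneg (a - b)]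
  have h2 : -1 ≤ 2 * a * b := by nlinarith [sq_nonneg (a + b)]
  have hA : |2 * a * b * dy| ≤ e := by
    rw [abs_mul]
    have h3 : |2 * a * b| ≤ 1 := abs_le.mpr ⟨h2, h1⟩
    have h4 : |dy| ≤ e := abs_le.mpr hy
    nlinarith [abs_nonneg (2 * a * b), abs_nonneg dy]
  rw [abs_le] at hA
  have hB1 : b ^ 2 * dx ≤ b ^ 2 * e := mul_le_mul_of_nonneg_left hx.2 (sq_nonneg b)
  have hB2 : b ^ 2 * (-e) ≤ b ^ 2 * dx := mul_le_mul_of_nonneg_left hx.1 (sq_nonneg b)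
  have hC1 : a ^ 2 * dz ≤ a ^ 2 * e := mul_le_mul_of_nonneg_left hz.2 (sq_nonneg a)
  have hC2 : a ^ 2 * (-e) ≤ a ^ 2 * dz := mul_le_mul_of_nonneg_left hz.1 (sq_nonneg a)
  have hs : b ^ 2 * e + a ^ 2 * e = e := by rw [← add_mul, add_comm (b ^ 2), hab, one_mul]
  constructor <;> nlinarith

theorem e6_lin2 (a b dx dy dz e : ℝ) (hab : a ^ 2 + b ^ 2 = 1) (he : 0 ≤ e) (hx : |dx| ≤ e)
    (hy : |dy| ≤ e) (hz : |dz| ≤ e) : |rst a b dx dy dz| ≤ 2 * e := by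
  unfold rst
  have h1 : |a * b| ≤ 1 / 2 := by
    rw [abs_le]
    constructor
    · nlinarith [sq_nonneg (a + b)]
    · nlinarith [sq_nonneg (a - b)]
  have h2 : |a ^ 2 - b ^ 2| ≤ 1 := by
    rw [abs_le]
    constructor
    · nlinarith [sq_nonneg a, sq_nonneg b]
    · nlinarith [sq_nonneg a, sq_nonneg b]
  have t1 : |-(a * b) * dx| ≤ 1 / 2 * e := by
    rw [abs_mul, abs_neg]
    exact mul_le_mul h1 hx (abs_nonneg _) (by norm_num)
  have t2 : |(a ^ 2 - b ^ 2) * dy| ≤ 1 * e := by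
    rw [abs_mul]
    exact mul_le_mul h2 hy (abs_nonneg _) (by norm_num)
  have t3 : |a * b * dz| ≤ 1 / 2 * e := by
    rw [abs_mul]
    exact mul_le_mul h1 hz (abs_nonneg _) (by norm_num)
  calc |-(a * b) * dx + (a ^ 2 - b ^ 2) * dy + a * b * dz|
      ≤ |-(a * b) * dx| + |(a ^ 2 - b ^ 2) * dy| + |a * b * dz| := abs_add_three _ _ _
    _ ≤ 1 / 2 * e + 1 * e + 1 / 2 * e := by linarith
    _ = 2 * e := by ring

theorem e6_abs1 (a b : ℝ) (h : a ^ 2 + b ^ 2 = 1) : |a| ≤ 1 := by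
  have h1 : a ^ 2 ≤ 1 := by linarith [sq_nonneg b]
  have h2 : |a| ^ 2 ≤ 1 ^ 2 := by rw [sq_abs]; linarith
  exact (abs_le_of_sq_le_sq' h2 (by norm_num)).2 |> fun h => h

theorem e6_circle_compact : IsCompact {u : ℝ × ℝ | u.1 ^ 2 + u.2 ^ 2 = 1} := by
  apply Metric.isCompact_of_isClosed_isBounded
  · exact isClosed_eq (by fun_prop) (by fun_prop)
  · rw [Metric.isBounded_iff_subset_closedBall (0 : ℝ × ℝ)]
    refine ⟨1, ?_⟩
    intro u hu
    simp only [Set.mem_ofPred_eq] at hu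
    rw [Metric.mem_closedBall, dist_zero_right, Prod.norm_def]
    apply max_le
    · rw [Real.norm_eq_abs, abs_le]
      constructor <;> nlinarith [sq_nonneg u.1, sq_nonneg u.2]
    · rw [Real.norm_eq_abs, abs_le]
      constructor <;> nlinarith [sq_nonneg u.1, sq_nonneg u.2]

/-- a finite set of frames such that every nonzero rank one form `(x,y,z)` (`x z = y²`) and every
small perturbation of it is almost `κ dt'²` in one of the frames. (`x = κ sin²φ`,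
`y = -κ sin φ cos φ`, `z = κ cos² φ` up to sign, `|κ| ≥ max |·|`; take the frame
`(cos α, sin α)`, `α` in a fine net; `rtt = κ cos²(φ-α)`, `rst = ± κ sin(φ-α) cos(φ-α)`.) -/
theorem robust_angle (Δ : ℝ) (hΔ : 0 < Δ) : ∃ (m : ℕ) (v : Fin m → ℝ × ℝ) (c1 : ℝ), 0 < c1 ∧
    c1 ≤ 1 ∧ (∀ j, (v j).1 ^ 2 + (v j).2 ^ 2 = 1) ∧
    ∀ x y z M : ℝ, 0 < M → x * z = y ^ 2 → (M ≤ |x| ∨ M ≤ |y| ∨ M ≤ |z|) →
      ∃ j, ∀ x' y' z' : ℝ, |x' - x| ≤ c1 * M → |y' - y| ≤ c1 * M → |z' - z| ≤ c1 * M →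
        |rst (v j).1 (v j).2 x' y' z'| ≤ Δ * |rtt (v j).1 (v j).2 x' y' z'| ∧
        M / 4 ≤ |rtt (v j).1 (v j).2 x' y' z'| := by
  set e : ℝ := min (1 / 4) (Δ / 16) with he
  have he0 : 0 < e := by rw [he]; exact lt_min (by norm_num) (by positivity)
  have he1 : e ≤ 1 / 4 := min_le_left _ _
  have he2 : e ≤ Δ / 16 := min_le_right _ _
  obtain ⟨t, htS, htf, htc⟩ := e6_circle_compact.finite_cover_balls he0
  set F : Finset (ℝ × ℝ) := htf.toFinset with hF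
  set v : Fin F.card → ℝ × ℝ := fun j => (F.equivFin.symm j : ℝ × ℝ) with hv
  have hvt : ∀ j, v j ∈ t := by
    intro j
    have := (F.equivFin.symm j).2
    exact htf.mem_toFinset.mp this
  have hvu : ∀ j, (v j).1 ^ 2 + (v j).2 ^ 2 = 1 := fun j => htS (hvt j)
  refine ⟨F.card, v, e, he0, by linarith, hvu, ?_⟩
  intro x y z M hM hxz hor
  set K : ℝ := x + z with hK
  have hKM : M ≤ |K| := by
    have h1 : K ^ 2 = x ^ 2 + z ^ 2 + 2 * y ^ 2 := by rw [hK, ← hxz]; ring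
    rcases hor with h | h | h
    · refine h.trans (sq_le_sq.mp ?_)
      rw [h1]; nlinarith [sq_nonneg y, sq_nonneg z]
    · refine h.trans (sq_le_sq.mp ?_)
      rw [h1]; nlinarith [sq_nonneg y, sq_nonneg z, sq_nonneg x]
    · refine h.trans (sq_le_sq.mp ?_)
      rw [h1]; nlinarith [sq_nonneg y, sq_nonneg x]
  have hK0 : K ≠ 0 := by
    intro h0
    rw [h0, abs_zero] at hKM
    linarith
  obtain ⟨p, q, hpq, hx, hy, hz⟩ := e6_diag x y z K hK hK0 hxz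
  have hmem : ((-q, p) : ℝ × ℝ) ∈ {u : ℝ × ℝ | u.1 ^ 2 + u.2 ^ 2 = 1} := by
    simp only [Set.mem_ofPred_eq]
    linarith [neg_sq q]
  have h2 := htc hmem
  rw [Set.mem_iUnion₂] at h2
  obtain ⟨w, hwt, hwb⟩ := h2
  have hwF : w ∈ F := htf.mem_toFinset.mpr hwt
  obtain ⟨j, hj⟩ : ∃ j, v j = w := ⟨F.equivFin ⟨w, hwF⟩, by simp [hv]⟩
  refine ⟨j, ?_⟩
  intro x' y' z' hx' hy' hz'
  rw [hj]
  have hw1 : w.1 ^ 2 + w.2 ^ 2 = 1 := htS hwt
  rw [Metric.mem_ball, Prod.dist_eq, max_lt_iff, Real.dist_eq, Real.dist_eq] at hwb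
  obtain ⟨hb1, hb2⟩ := hwb
  simp only at hb1 hb2
  obtain ⟨a, b, rfl⟩ : ∃ a b, w = (a, b) := ⟨w.1, w.2, rfl⟩
  simp only at hw1 hb1 hb2 ⊢
  -- s and c
  set s : ℝ := a * p + b * q with hs
  set c : ℝ := a * q - b * p with hc
  have hsc : s ^ 2 + c ^ 2 = 1 := by
    have : s ^ 2 + c ^ 2 = (a ^ 2 + b ^ 2) * (p ^ 2 + q ^ 2) := by rw [hs, hc]; ring
    rw [this, hw1, hpq, one_mul]
  have hp1 : |p| ≤ 1 := e6_abs1 p q hpq
  have hq1 : |q| ≤ 1 := e6_abs1 q p (by rw [add_comm]; exact hpq)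
  have hsb : |s| ≤ 2 * e := by
    have h3 : s = -((-q - a) * p) + -((p - b) * q) := by rw [hs]; ring
    rw [h3]
    calc |-((-q - a) * p) + -((p - b) * q)| ≤ |-((-q - a) * p)| + |-((p - b) * q)| :=
          abs_add_le _ _
      _ = |-q - a| * |p| + |p - b| * |q| := by rw [abs_neg, abs_neg, abs_mul, abs_mul]
      _ ≤ e * 1 + e * 1 := by
          apply add_le_add
          · exact mul_le_mul hb1.le hp1 (abs_nonneg _) he0.le
          · exact mul_le_mul hb2.le hq1 (abs_nonneg _) he0.le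
      _ = 2 * e := by ring
  have hs2 : s ^ 2 ≤ 1 / 4 := by
    have h4 : |s| ≤ 1 / 2 := hsb.trans (by linarith)
    rw [← sq_abs]
    calc |s| ^ 2 ≤ (1 / 2) ^ 2 := pow_le_pow_left₀ (abs_nonneg s) h4 2
      _ = 1 / 4 := by norm_num
  have hc2 : 3 / 4 ≤ c ^ 2 := by linarith
  have hc1 : |c| ≤ 1 := e6_abs1 c s (by rw [add_comm]; exact hsc)
  have hrtt : rtt a b x y z = K * c ^ 2 := by
    unfold rtt
    rw [hc]
    linear_combination (b ^ 2) * hx - (2 * a * b) * hy + (a ^ 2) * hz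
  have hrst : rst a b x y z = K * (s * c) := by
    unfold rst
    rw [hc, hs]
    linear_combination (-(a * b)) * hx + (a ^ 2 - b ^ 2) * hy + (a * b) * hz
  have hKpos : 0 < |K| := lt_of_lt_of_le hM hKM
  have hrtt1 : 3 / 4 * |K| ≤ |rtt a b x y z| := by
    rw [hrtt, abs_mul, abs_of_nonneg (sq_nonneg c), mul_comm |K|]
    exact mul_le_mul_of_nonneg_right hc2 hKpos.le
  have hrst1 : |rst a b x y z| ≤ 2 * e * |K| := by
    rw [hrst, abs_mul, abs_mul]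
    have h6 : |s| * |c| ≤ 2 * e * 1 := mul_le_mul hsb hc1 (abs_nonneg _) (by linarith)
    rw [mul_one] at h6
    rw [mul_comm |K|]
    exact mul_le_mul_of_nonneg_right h6 hKpos.le
  have hdt : rtt a b x' y' z' = rtt a b x y z + rtt a b (x' - x) (y' - y) (z' - z) := by
    unfold rtt; ring
  have hds : rst a b x' y' z' = rst a b x y z + rst a b (x' - x) (y' - y) (z' - z) := by
    unfold rst; ring
  have heM : 0 ≤ e * M := by positivity
  have ht := e6_lin1 a b (x' - x) (y' - y) (z' - z) (e * M) hw1 heM hx' hy' hz'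
  have hst := e6_lin2 a b (x' - x) (y' - y) (z' - z) (e * M) hw1 heM hx' hy' hz'
  have htt' : 3 / 4 * |K| - 2 * (e * M) ≤ |rtt a b x' y' z'| := by
    rw [hdt]
    have h5 := abs_sub_abs_le_abs_sub (rtt a b x y z) (-(rtt a b (x' - x) (y' - y) (z' - z)))
    rw [abs_neg, sub_neg_eq_add] at h5
    linarith
  have hst' : |rst a b x' y' z'| ≤ 2 * e * |K| + 2 * (e * M) := by
    rw [hds]
    have h5 := abs_add_le (rst a b x y z) (rst a b (x' - x) (y' - y) (z' - z))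
    linarith
  have heMK : e * M ≤ e * |K| := mul_le_mul_of_nonneg_left hKM he0.le
  have heK4 : e * |K| ≤ 1 / 4 * |K| := mul_le_mul_of_nonneg_right he1 hKpos.le
  have heKD : e * |K| ≤ Δ / 16 * |K| := mul_le_mul_of_nonneg_right he2 hKpos.le
  have hK4 : 1 / 4 * |K| ≤ |rtt a b x' y' z'| := by linarith
  constructor
  · calc |rst a b x' y' z'| ≤ 2 * e * |K| + 2 * (e * M) := hst'
      _ ≤ 4 * (e * |K|) := by linarith
      _ ≤ 4 * (Δ / 16 * |K|) := by linarith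
      _ = Δ * (1 / 4 * |K|) := by ring
      _ ≤ Δ * |rtt a b x' y' z'| := mul_le_mul_of_nonneg_left hK4 hΔ.le
  · linarith

end NI
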