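import Crest.Agent.NI_E5

set_option autoImplicit false
open scoped ContDiff

namespace NI


private noncomputable def E7c (g : ℝ) (n m k j : ℕ) : ℝ × ℝ :=
  if k % 3 = 0 then (-(g * (((k * m + j : ℕ) : ℝ) + 1)), ((k / 3 : ℕ) : ℝ) / n)
  else if k % 3 = 1 then (1 + g * (((k * m + j : ℕ) : ℝ) + 1), ((k / 3 : ℕ) : ℝ) / n)
  else (((k / 3 : ℕ) : ℝ) / n, -(g * (((k * m + j : ℕ) : ℝ) + 1)))

private theorem E7_ne {m k j k' j' : ℕ} (hj : j < m) (hj' : j' < m) (h : k ≠ k' ∨ j ≠ j') :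
    k * m + j ≠ k' * m + j' := by
  intro he
  have h1 : (k * m + j) / m = k := by
    rw [Nat.mul_comm, Nat.mul_add_div (by omega), Nat.div_eq_of_lt hj, add_zero]
  have h2 : (k' * m + j') / m = k' := by
    rw [Nat.mul_comm, Nat.mul_add_div (by omega), Nat.div_eq_of_lt hj', add_zero]
  have h3 : k = k' := by rw [← h1, ← h2, he]
  subst h3
  rcases h with h | h
  · exact h rfl
  · exact h (by omega)

private theorem E7_gap {g : ℝ} (hg : 0 < g) {a b : ℕ} (h : a ≠ b) :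
    g ≤ |g * ((a : ℝ) + 1) - g * ((b : ℝ) + 1)| := by
  have h1 : g * ((a : ℝ) + 1) - g * ((b : ℝ) + 1) = g * ((a : ℝ) - b) := by ring
  rw [h1, abs_mul, abs_of_pos hg]
  have h2 : (1 : ℝ) ≤ |(a : ℝ) - b| := by
    have : (1 : ℤ) ≤ |(a : ℤ) - b| := by
      apply Int.one_le_abs
      omega
    have h3 : ((1 : ℤ) : ℝ) ≤ ((|(a : ℤ) - b| : ℤ) : ℝ) := by exact_mod_cast this
    push_cast at h3
    exact h3
  nlinarith

/-- centres: `m` centres near every point of a net of `UU`, all distinct, outside the closed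
rectangle `[0,1] × [0,1/2]`. With `x_j = ρ' (j+1)/(m+1)` (`ρ' = min ρ (1/2)`) take
`(-x_j, t_k)`, `(1 + x_j, t_k)`, `(s_k, -x_j)`, `t_k ∈ [0,1/4]`, `s_k ∈ [0,1]` nets of mesh
`≤ ρ`. -/
theorem centers (ρ : ℝ) (hρ : 0 < ρ) (m : ℕ) : ∃ (K : ℕ) (c : Fin K → Fin m → ℝ × ℝ) (r1 : ℝ),
    0 < r1 ∧ (∀ q ∈ UU, ∃ k, ∀ j, ‖c k j - q‖ ≤ ρ) ∧
    (∀ k j k' j', (k ≠ k' ∨ j ≠ j') → 2 * r1 < ‖c k j - c k' j'‖) ∧
    (∀ k j, ∀ p : ℝ × ℝ, ‖p - c k j‖ ≤ r1 → p ∈ Box 2 ∧
      (p.1 < 0 ∨ 1 < p.1 ∨ p.2 < 0 ∨ 1/2 < p.2)) := by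
  obtain ⟨n, hn⟩ : ∃ n : ℕ, n = ⌈1 / ρ⌉₊ + 1 := ⟨_, rfl⟩
  have hn1 : 1 ≤ n := by omega
  have hnR : (1 : ℝ) ≤ n := by exact_mod_cast hn1
  have hnρ : 1 / (n : ℝ) ≤ ρ := by
    have h1 : 1 / ρ ≤ n := by
      rw [hn]; push_cast
      have := Nat.le_ceil (1 / ρ)
      linarith
    rw [div_le_iff₀ hρ] at h1
    rw [div_le_iff₀ (by linarith)]
    linarith
  obtain ⟨K, hK⟩ : ∃ K : ℕ, K = 3 * (n + 1) := ⟨_, rfl⟩
  obtain ⟨ρ', hρ'⟩ : ∃ ρ' : ℝ, ρ' = min ρ (1 / 2) := ⟨_, rfl⟩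
  have hρ'0 : 0 < ρ' := by rw [hρ']; exact lt_min hρ (by norm_num)
  have hρ'1 : ρ' ≤ ρ := by rw [hρ']; exact min_le_left _ _
  have hρ'2 : ρ' ≤ 1 / 2 := by rw [hρ']; exact min_le_right _ _
  obtain ⟨g, hg⟩ : ∃ g : ℝ, g = ρ' / ((K : ℝ) * m + 1) := ⟨_, rfl⟩
  have hKm : (0 : ℝ) ≤ (K : ℝ) * m := by positivity
  have hg0 : 0 < g := by rw [hg]; positivity
  have hg1 : g ≤ 1 / 2 := by
    rw [hg, div_le_iff₀ (by linarith)]
    nlinarith
  have hoff : ∀ k j : ℕ, k < K → j < m →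
      g ≤ g * (((k * m + j : ℕ) : ℝ) + 1) ∧ g * (((k * m + j : ℕ) : ℝ) + 1) ≤ ρ' := by
    intro k j hk hj
    have h0 : (0 : ℝ) ≤ ((k * m + j : ℕ) : ℝ) := Nat.cast_nonneg _
    have h1 : k * m + j + 1 ≤ K * m := by
      have : (k + 1) * m ≤ K * m := Nat.mul_le_mul_right m hk
      have h2 : (k + 1) * m = k * m + m := by ring
      omega
    have h2 : (((k * m + j : ℕ) : ℝ) + 1) ≤ (K : ℝ) * m := by exact_mod_cast h1
    constructor
    · nlinarith
    · rw [hg, div_mul_eq_mul_div, div_le_iff₀ (by linarith)]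
      nlinarith
  have hpos : ∀ k : ℕ, k < K → 0 ≤ ((k / 3 : ℕ) : ℝ) / n ∧ ((k / 3 : ℕ) : ℝ) / n ≤ 1 := by
    intro k hk
    constructor
    · positivity
    · rw [div_le_iff₀ (by linarith), one_mul]
      have : k / 3 ≤ n := by omega
      exact_mod_cast this
  refine ⟨K, fun k j => E7c g n m k.1 j.1, g / 3, by positivity, ?_, ?_, ?_⟩
  · -- net
    have hnet : ∀ t : ℝ, 0 ≤ t → t ≤ 1 → ∃ i : ℕ, i ≤ n ∧ |(i : ℝ) / n - t| ≤ ρ := by
      intro t h0 h1
      refine ⟨⌊t * n⌋₊, ?_, ?_⟩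
      · have : t * n ≤ n := by nlinarith
        exact Nat.floor_le_of_le this
      · have h2 : (⌊t * n⌋₊ : ℝ) ≤ t * n := Nat.floor_le (by positivity)
        have h3 : t * n < ⌊t * n⌋₊ + 1 := Nat.lt_floor_add_one _
        have h4 : (⌊t * n⌋₊ : ℝ) / n ≤ t := by
          rw [div_le_iff₀ (by linarith)]; exact h2
        have h5 : t - 1 / n ≤ (⌊t * n⌋₊ : ℝ) / n := by
          rw [le_div_iff₀ (by linarith), sub_mul, div_mul_cancel₀ _ (by linarith)]
          linarith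
        rw [abs_le]; constructor <;> linarith
    intro q hq
    rcases hq with ⟨h1, h2, h3⟩ | ⟨h1, h2, h3⟩ | ⟨h1, h2, h3⟩
    · obtain ⟨i, hi, hi2⟩ := hnet q.2 h2 (by linarith)
      refine ⟨⟨3 * i, by omega⟩, fun j => ?_⟩
      obtain ⟨a1, a2⟩ := hoff (3 * i) j.1 (by omega) j.2
      have e1 : (3 * i) % 3 = 0 := by omega
      have e2 : (3 * i) / 3 = i := by omega
      simp only [E7c, e1, e2, if_true]
      rw [Prod.norm_def]
      refine max_le ?_ ?_
      · rw [Prod.fst_sub, h1, Real.norm_eq_abs, sub_zero, abs_neg, abs_of_nonneg (by linarith)]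
        linarith
      · rw [Prod.snd_sub, Real.norm_eq_abs]; exact hi2
    · obtain ⟨i, hi, hi2⟩ := hnet q.2 h2 (by linarith)
      refine ⟨⟨3 * i + 1, by omega⟩, fun j => ?_⟩
      obtain ⟨a1, a2⟩ := hoff (3 * i + 1) j.1 (by omega) j.2
      have e1 : (3 * i + 1) % 3 = 1 := by omega
      have e2 : (3 * i + 1) / 3 = i := by omega
      simp only [E7c, e1, e2, if_true, one_ne_zero, if_false]
      rw [Prod.norm_def]
      refine max_le ?_ ?_
      · rw [Prod.fst_sub, h1, Real.norm_eq_abs, add_sub_cancel_left, abs_of_nonneg (by linarith)]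
        linarith
      · rw [Prod.snd_sub, Real.norm_eq_abs]; exact hi2
    · obtain ⟨i, hi, hi2⟩ := hnet q.1 h2 h3
      refine ⟨⟨3 * i + 2, by omega⟩, fun j => ?_⟩
      obtain ⟨a1, a2⟩ := hoff (3 * i + 2) j.1 (by omega) j.2
      have e1 : (3 * i + 2) % 3 = 2 := by omega
      have e2 : (3 * i + 2) / 3 = i := by omega
      have e3 : ¬ ((2 : ℕ) = 0) := by norm_num
      have e4 : ¬ ((2 : ℕ) = 1) := by norm_num
      simp only [E7c, e1, e2, e3, e4, if_false]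
      rw [Prod.norm_def]
      refine max_le ?_ ?_
      · rw [Prod.fst_sub, Real.norm_eq_abs]; exact hi2
      · rw [Prod.snd_sub, h1, Real.norm_eq_abs, sub_zero, abs_neg, abs_of_nonneg (by linarith)]
        linarith
  · -- separation
    intro k j k' j' hne
    obtain ⟨a1, a2⟩ := hoff k.1 j.1 k.2 j.2
    obtain ⟨b1, b2⟩ := hoff k'.1 j'.1 k'.2 j'.2
    obtain ⟨p1, p2⟩ := hpos k.1 k.2
    obtain ⟨q1, q2⟩ := hpos k'.1 k'.2
    have hne' : k.1 * m + j.1 ≠ k'.1 * m + j'.1 := by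
      apply E7_ne j.2 j'.2
      rcases hne with h | h
      · left; exact fun h' => h (Fin.ext h')
      · right; exact fun h' => h (Fin.ext h')
    have hgap := E7_gap hg0 hne'
    have hlt : 2 * (g / 3) < g := by linarith
    refine lt_of_lt_of_le hlt ?_
    rw [Prod.norm_def]
    generalize hA : g * (((k.1 * m + j.1 : ℕ) : ℝ) + 1) = A at *
    generalize hB : g * (((k'.1 * m + j'.1 : ℕ) : ℝ) + 1) = B at *
    generalize hP : ((k.1 / 3 : ℕ) : ℝ) / n = P at *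
    generalize hQ : ((k'.1 / 3 : ℕ) : ℝ) / n = Q at *
    have hgap' : g ≤ |B - A| := by rw [abs_sub_comm]; exact hgap
    rcases (by omega : k.1 % 3 = 0 ∨ k.1 % 3 = 1 ∨ k.1 % 3 = 2) with hk | hk | hk <;>
    rcases (by omega : k'.1 % 3 = 0 ∨ k'.1 % 3 = 1 ∨ k'.1 % 3 = 2) with hk' | hk' | hk' <;>
    simp only [E7c, hk, hk', hA, hB, hP, hQ, if_true, one_ne_zero, OfNat.ofNat_ne_zero,
      OfNat.ofNat_ne_one, if_false, Real.norm_eq_abs, Prod.mk_sub_mk]
    · refine le_max_of_le_left ?_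
      rw [show -A - -B = B - A by ring]; exact hgap'
    · refine le_max_of_le_left ?_
      rw [abs_sub_comm, abs_of_nonneg (by linarith)]; linarith
    · refine le_max_of_le_left ?_
      rw [abs_sub_comm, abs_of_nonneg (by linarith)]; linarith
    · refine le_max_of_le_left ?_
      rw [abs_of_nonneg (by linarith)]; linarith
    · refine le_max_of_le_left ?_
      rw [show 1 + A - (1 + B) = A - B by ring]; exact hgap
    · refine le_max_of_le_left ?_
      rw [abs_of_nonneg (by linarith)]; linarith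
    · refine le_max_of_le_left ?_
      rw [abs_of_nonneg (by linarith)]; linarith
    · refine le_max_of_le_left ?_
      rw [abs_sub_comm, abs_of_nonneg (by linarith)]; linarith
    · refine le_max_of_le_right ?_
      rw [show -A - -B = B - A by ring]; exact hgap'
  · intro k j p hp
    obtain ⟨a1, a2⟩ := hoff k.1 j.1 k.2 j.2
    obtain ⟨p1, p2⟩ := hpos k.1 k.2
    generalize hA : g * (((k.1 * m + j.1 : ℕ) : ℝ) + 1) = A at *
    generalize hP : ((k.1 / 3 : ℕ) : ℝ) / n = P at *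
    have hp1 := (norm_fst_le _).trans hp
    have hp2 := (norm_snd_le _).trans hp
    rw [Prod.fst_sub, Real.norm_eq_abs, abs_le] at hp1
    rw [Prod.snd_sub, Real.norm_eq_abs, abs_le] at hp2
    rcases (by omega : k.1 % 3 = 0 ∨ k.1 % 3 = 1 ∨ k.1 % 3 = 2) with hk | hk | hk <;>
    simp only [E7c, hk, hA, hP, if_true, one_ne_zero, OfNat.ofNat_ne_zero,
      OfNat.ofNat_ne_one, if_false] at hp1 hp2
    · refine ⟨⟨?_, ?_⟩, Or.inl ?_⟩
      · rw [abs_lt]; constructor <;> linarith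
      · rw [abs_lt]; constructor <;> linarith
      · linarith
    · refine ⟨⟨?_, ?_⟩, Or.inr (Or.inl ?_)⟩
      · rw [abs_lt]; constructor <;> linarith
      · rw [abs_lt]; constructor <;> linarith
      · linarith
    · refine ⟨⟨?_, ?_⟩, Or.inr (Or.inr (Or.inl ?_))⟩
      · rw [abs_lt]; constructor <;> linarith
      · rw [abs_lt]; constructor <;> linarith
      · linarith

end NI
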