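import Crest.Agent.NI_E4
import Crest.Agent.NI_G3

set_option autoImplicit false
open scoped ContDiff
open MeasureTheory

namespace NI

/-- an orthogonal change of the target. -/
noncomputable def rigid (O : Fin 3 → Fin 3 → ℝ) (v : Fin 3 → ℝ) (F : Fin 3 → Sm) : Fin 3 → Sm :=
  fun i => O i 0 • (F 0 - v 0 • (1 : Sm)) + O i 1 • (F 1 - v 1 • (1 : Sm))
    + O i 2 • (F 2 - v 2 • (1 : Sm))

private theorem E8_D_rigid (D : Derivation ℝ Sm Sm) (O : Fin 3 → Fin 3 → ℝ) (v : Fin 3 → ℝ)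
    (F : Fin 3 → Sm) (i : Fin 3) :
    D (rigid O v F i) = O i 0 • D (F 0) + O i 1 • D (F 1) + O i 2 • D (F 2) := by
  simp only [rigid, map_add, map_sub, Derivation.map_smul, Derivation.map_one_eq_zero, smul_zero,
    sub_zero]

private theorem E8_D_comb (D : Derivation ℝ Sm Sm) (O : Fin 3 → Fin 3 → ℝ)
    (F : Fin 3 → Sm) (i : Fin 3) :
    D (O i 0 • F 0 + O i 1 • F 1 + O i 2 • F 2) = O i 0 • D (F 0) + O i 1 • D (F 1) + O i 2 • D (F 2) := by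
  simp only [map_add, Derivation.map_smul]

private theorem E8_quad (O : Fin 3 → Fin 3 → ℝ)
    (hO : ∀ j k, O 0 j * O 0 k + O 1 j * O 1 k + O 2 j * O 2 k = if j = k then 1 else 0)
    (a0 a1 a2 b0 b1 b2 : ℝ) :
    (O 0 0 * a0 + O 0 1 * a1 + O 0 2 * a2) * (O 0 0 * b0 + O 0 1 * b1 + O 0 2 * b2)
    + (O 1 0 * a0 + O 1 1 * a1 + O 1 2 * a2) * (O 1 0 * b0 + O 1 1 * b1 + O 1 2 * b2)
    + (O 2 0 * a0 + O 2 1 * a1 + O 2 2 * a2) * (O 2 0 * b0 + O 2 1 * b1 + O 2 2 * b2)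
    = a0 * b0 + a1 * b1 + a2 * b2 := by
  have h00 := hO 0 0
  have h01 := hO 0 1
  have h02 := hO 0 2
  have h11 := hO 1 1
  have h12 := hO 1 2
  have h22 := hO 2 2
  simp only [Fin.isValue, if_true, Fin.reduceEq, if_false] at h00 h01 h02 h11 h12 h22
  linear_combination (a0 * b0) * h00 + (a1 * b1) * h11 + (a2 * b2) * h22
    + (a0 * b1 + a1 * b0) * h01 + (a0 * b2 + a2 * b0) * h02 + (a1 * b2 + a2 * b1) * h12

theorem rigid_isom (O : Fin 3 → Fin 3 → ℝ) (v : Fin 3 → ℝ) (E : Sm) (F : Fin 3 → Sm)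
    (Ω : Set (ℝ × ℝ))
    (hO : ∀ j k, O 0 j * O 0 k + O 1 j * O 1 k + O 2 j * O 2 k = if j = k then 1 else 0)
    (hF : Isom E F Ω) : Isom E (rigid O v F) Ω := by
  intro p hp
  obtain ⟨h1, h2, h3⟩ := hF p hp
  simp only [dot, add_ap, mul_ap, E8_D_rigid, smul_ap] at h1 h2 h3 ⊢
  refine ⟨?_, ?_, ?_⟩
  · rw [← h1]; exact E8_quad O hO _ _ _ _ _ _
  · rw [← h2]; exact E8_quad O hO _ _ _ _ _ _
  · rw [← h3]; exact E8_quad O hO _ _ _ _ _ _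

private theorem E8_D1_Xs : D1 Xs = 1 := by
  apply sm_ext; intro p
  rw [D1_ap]
  show fderiv ℝ (fun p : ℝ × ℝ => p.1) p (1, 0) = _
  rw [fderiv_fst]; rfl

private theorem E8_D2_Xs : D2 Xs = 0 := by
  apply sm_ext; intro p
  rw [D2_ap]
  show fderiv ℝ (fun p : ℝ × ℝ => p.1) p (0, 1) = _
  rw [fderiv_fst]; rfl

private theorem E8_D1_Xt : D1 Xt = 0 := by
  apply sm_ext; intro p
  rw [D1_ap]
  show fderiv ℝ (fun p : ℝ × ℝ => p.2) p (1, 0) = _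
  rw [fderiv_snd]; rfl

private theorem E8_D2_Xt : D2 Xt = 1 := by
  apply sm_ext; intro p
  rw [D2_ap]
  show fderiv ℝ (fun p : ℝ × ℝ => p.2) p (0, 1) = _
  rw [fderiv_snd]; rfl

private theorem E8_zero_mem : ((0 : ℝ), (0 : ℝ)) ∈ Box 2 := by
  simp [Box]

private theorem E8_int (W : Sm) (k : ℕ) (m M : ℝ)
    (hM : ∀ a b : ℕ, a + b = k + 1 → ∀ p ∈ Box 2, |Dab a b W p| ≤ M)
    (h0 : ∀ a b : ℕ, a + b = k → |Dab a b W (0, 0)| ≤ m) :
    ∀ a b : ℕ, a + b = k → ∀ p ∈ Box 2, |Dab a b W p| ≤ m + 4 * M := by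
  intro a b hab p hp
  have hM0 : 0 ≤ M := (abs_nonneg _).trans (hM (a + 1) b (by omega) p hp)
  have h1 := N1_lip (Dab a b W) M 2 (fun q hq => by rw [N1_D1_Dab]; exact hM _ _ (by omega) q hq)
    (fun q hq => by rw [N1_D2_Dab]; exact hM _ _ (by omega) q hq) p (0, 0) hp E8_zero_mem
  have h2 : ‖p - (0, 0)‖ ≤ 2 := by
    have : p - (0, 0) = p := by ext <;> simp
    rw [this]
    rw [Prod.norm_def]
    exact max_le hp.1.le hp.2.le
  have h3 := h0 a b hab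
  have h4 : 2 * M * ‖p - (0, 0)‖ ≤ 2 * M * 2 := mul_le_mul_of_nonneg_left h2 (by linarith)
  have h5 : |Dab a b W p| ≤ |Dab a b W (0, 0)| + |Dab a b W p - Dab a b W (0, 0)| := by
    have := abs_add_le (Dab a b W (0, 0)) (Dab a b W p - Dab a b W (0, 0))
    simpa using this
  linarith

private theorem E8_Dab_add (a b : ℕ) (f g : Sm) : Dab a b (f + g) = Dab a b f + Dab a b g := by
  show (⇑D1)^[a] ((⇑D2)^[b] (f + g)) = (⇑D1)^[a] ((⇑D2)^[b] f) + (⇑D1)^[a] ((⇑D2)^[b] g)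
  rw [iterate_map_add, iterate_map_add]

private theorem E8_Dab_smul (a b : ℕ) (c : ℝ) (f : Sm) : Dab a b (c • f) = c • Dab a b f := by
  show (⇑D1)^[a] ((⇑D2)^[b] (c • f)) = c • (⇑D1)^[a] ((⇑D2)^[b] f)
  have h : ∀ (D : Derivation ℝ Sm Sm) (n : ℕ) (f : Sm), (⇑D)^[n] (c • f) = c • (⇑D)^[n] f := by
    intro D n
    induction n with
    | zero => intro f; rfl
    | succ k ih => intro f; rw [Function.iterate_succ_apply, Derivation.map_smul, ih,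
        Function.iterate_succ_apply]
  rw [h, h]

private theorem E8_Dab_zero (a b : ℕ) : Dab a b (0 : Sm) = 0 := by
  have := E8_Dab_smul a b 0 (0 : Sm)
  rwa [zero_smul, zero_smul] at this

private theorem E8_Dab_one (a b : ℕ) (h : 1 ≤ a + b) : Dab a b (1 : Sm) = 0 := by
  rcases Nat.eq_zero_or_pos b with hb | hb
  · subst hb
    obtain ⟨k, rfl⟩ : ∃ k, a = k + 1 := ⟨a - 1, by omega⟩
    show (fun g : Sm => D1 g)^[k + 1] (1 : Sm) = 0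
    rw [Function.iterate_succ_apply]
    show (fun g : Sm => D1 g)^[k] (D1 (1 : Sm)) = 0
    rw [Derivation.map_one_eq_zero]
    exact E8_Dab_zero k 0
  · obtain ⟨k, rfl⟩ : ∃ k, b = k + 1 := ⟨b - 1, by omega⟩
    show (fun g : Sm => D1 g)^[a] ((fun g : Sm => D2 g)^[k + 1] (1 : Sm)) = 0
    rw [Function.iterate_succ_apply]
    show (fun g : Sm => D1 g)^[a] ((fun g : Sm => D2 g)^[k] (D2 (1 : Sm))) = 0
    rw [Derivation.map_one_eq_zero]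
    exact E8_Dab_zero a k

private theorem E8_D_sq (D : Derivation ℝ Sm Sm) (f : Sm) : D (f ^ 2) = (2:ℝ) • (f * D f) := by
  rw [pow_two, Derivation.leibniz]
  apply sm_ext; intro p
  simp only [smul_eq_mul, add_ap, mul_ap, smul_ap]; ring

private theorem E8_F0_2 (lam : ℝ) : D2 ((lam / 2) • Xt ^ 2) = lam • Xt := by
  rw [Derivation.map_smul, E8_D_sq, E8_D2_Xt]
  apply sm_ext; intro p
  simp only [smul_ap, mul_ap, one_ap]; ring

private theorem E8_F0_1 (lam : ℝ) : D1 ((lam / 2) • Xt ^ 2) = 0 := by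
  rw [Derivation.map_smul, E8_D_sq, E8_D1_Xt]
  apply sm_ext; intro p
  simp only [smul_ap, mul_ap, zero_ap]; ring

private theorem E8_F0_high (lam : ℝ) (i : Fin 3) (a b : ℕ) (h3 : 3 ≤ a + b) (h4 : a + b ≤ 4) :
    Dab a b (F0 lam i) = 0 := by
  have e0 : F0 lam 0 = Xs := rfl
  have e1 : F0 lam 1 = Xt := rfl
  have e2 : F0 lam 2 = (lam / 2) • Xt ^ 2 := rfl
  have ha : a ≤ 4 := by omega
  have hb : b ≤ 4 := by omega
  have D_one : ∀ D : Derivation ℝ Sm Sm, D (1:Sm) = 0 := fun D => D.map_one_eq_zero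
  fin_cases i
  · show Dab a b (F0 lam 0) = 0
    rw [e0]
    interval_cases a <;> interval_cases b <;>
      first | omega | (simp [Dab, E8_D1_Xs, E8_D2_Xs, D_one])
  · show Dab a b (F0 lam 1) = 0
    rw [e1]
    interval_cases a <;> interval_cases b <;>
      first | omega | (simp [Dab, E8_D1_Xt, E8_D2_Xt, D_one])
  · show Dab a b (F0 lam 2) = 0
    have f1 : D1 (F0 lam 2) = 0 := by rw [e2]; exact E8_F0_1 lam
    have f2 : D2 (F0 lam 2) = lam • Xt := by rw [e2]; exact E8_F0_2 lam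
    generalize F0 lam 2 = g at f1 f2 ⊢
    interval_cases a <;> interval_cases b <;> first | omega |
      (simp [Dab, E8_D1_Xt, E8_D2_Xt, D_one, f1, f2])

private theorem E8_Dab_rigid (O : Fin 3 → Fin 3 → ℝ) (v : Fin 3 → ℝ)
    (F : Fin 3 → Sm) (i : Fin 3) (a b : ℕ) (h : 1 ≤ a + b) :
    Dab a b (rigid O v F i) = O i 0 • Dab a b (F 0) + O i 1 • Dab a b (F 1)
      + O i 2 • Dab a b (F 2) := by
  simp only [rigid, E8_Dab_add, E8_Dab_smul, N1_Dab_sub, E8_Dab_one a b h, smul_zero, sub_zero]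

private theorem E8_cols (O : Fin 3 → Fin 3 → ℝ)
    (h : ∀ i k, O i 0 * O k 0 + O i 1 * O k 1 + O i 2 * O k 2 = if i = k then 1 else 0) :
    ∀ j k, O 0 j * O 0 k + O 1 j * O 1 k + O 2 j * O 2 k = if j = k then 1 else 0 := by
  intro j k
  have h1 : (Matrix.of O) * (Matrix.of O).transpose = 1 := by
    ext i k
    rw [Matrix.mul_apply, Fin.sum_univ_three, Matrix.one_apply]
    exact h i k
  have h2 := mul_eq_one_comm.1 h1
  have h3 := congrFun (congrFun h2 j) k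
  rw [Matrix.mul_apply, Fin.sum_univ_three, Matrix.one_apply] at h3
  exact h3

/-- values of the tangent frame at the origin -/
private theorem E8_frame (P R : Fin 3 → ℝ) (σ : ℝ) (hσ : σ * σ = 1)
    (hPP : P 0 * P 0 + P 1 * P 1 + P 2 * P 2 = 1) (hPR : P 0 * R 0 + P 1 * R 1 + P 2 * R 2 = 0)
    (hRR : R 0 * R 0 + R 1 * R 1 + R 2 * R 2 = 1) (N : Fin 3 → ℝ)
    (hN0 : N 0 = P 1 * R 2 - P 2 * R 1) (hN1 : N 1 = P 2 * R 0 - P 0 * R 2)
    (hN2 : N 2 = P 0 * R 1 - P 1 * R 0) (O : Fin 3 → Fin 3 → ℝ)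
    (h0 : ∀ j, O 0 j = P j) (h1 : ∀ j, O 1 j = R j) (h2 : ∀ j, O 2 j = σ * N j) :
    (N 0 * N 0 + N 1 * N 1 + N 2 * N 2 = 1) ∧
    (P 0 * N 0 + P 1 * N 1 + P 2 * N 2 = 0) ∧ (R 0 * N 0 + R 1 * N 1 + R 2 * N 2 = 0) ∧
    (∀ j k, O 0 j * O 0 k + O 1 j * O 1 k + O 2 j * O 2 k = if j = k then 1 else 0) := by
  have a1 : N 0 * N 0 + N 1 * N 1 + N 2 * N 2 = 1 := by
    have : N 0 * N 0 + N 1 * N 1 + N 2 * N 2 =
        (P 0 * P 0 + P 1 * P 1 + P 2 * P 2) * (R 0 * R 0 + R 1 * R 1 + R 2 * R 2)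
        - (P 0 * R 0 + P 1 * R 1 + P 2 * R 2) ^ 2 := by rw [hN0, hN1, hN2]; ring
    rw [this, hPP, hPR, hRR]; ring
  have a2 : P 0 * N 0 + P 1 * N 1 + P 2 * N 2 = 0 := by rw [hN0, hN1, hN2]; ring
  have a3 : R 0 * N 0 + R 1 * N 1 + R 2 * N 2 = 0 := by rw [hN0, hN1, hN2]; ring
  refine ⟨a1, a2, a3, E8_cols O ?_⟩
  have b1 : (σ * N 0) * (σ * N 0) + (σ * N 1) * (σ * N 1) + (σ * N 2) * (σ * N 2) = 1 := by
    linear_combination (N 0 * N 0 + N 1 * N 1 + N 2 * N 2) * hσ + a1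
  have b2 : P 0 * (σ * N 0) + P 1 * (σ * N 1) + P 2 * (σ * N 2) = 0 := by
    linear_combination σ * a2
  have b3 : R 0 * (σ * N 0) + R 1 * (σ * N 1) + R 2 * (σ * N 2) = 0 := by
    linear_combination σ * a3
  intro i k
  fin_cases i <;> fin_cases k <;>
    simp only [Fin.zero_eta, Fin.mk_one, Fin.reduceFinMk, Fin.isValue, h0, h1, h2, Fin.reduceEq,
      if_true, if_false, zero_ne_one, one_ne_zero] <;> linarith

/-- third and fourth derivatives -/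
private theorem E8_high (O : Fin 3 → Fin 3 → ℝ) (v : Fin 3 → ℝ) (F : Fin 3 → Sm) (lam r : ℝ)
    (hOabs : ∀ i j, |O i j| ≤ 1)
    (hhigh : ∀ i, ∀ a b : ℕ, 3 ≤ a + b → a + b ≤ 4 → ∀ p ∈ Box 2, |Dab a b (F i) p| ≤ r ^ 2)
    (i : Fin 3) (a b : ℕ) (h3 : 3 ≤ a + b) (h4 : a + b ≤ 4) (p : ℝ × ℝ) (hp : p ∈ Box 2) :
    |Dab a b (rigid O v F i - F0 lam i) p| ≤ 3 * r ^ 2 := by
  rw [N1_Dab_sub, E8_F0_high lam i a b h3 h4, sub_zero, E8_Dab_rigid _ _ _ _ _ _ (by omega)]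
  simp only [add_ap, smul_ap]
  have e : ∀ j, |O i j * Dab a b (F j) p| ≤ r ^ 2 := by
    intro j
    rw [abs_mul]
    calc |O i j| * |Dab a b (F j) p| ≤ 1 * r ^ 2 :=
          mul_le_mul (hOabs i j) (hhigh j a b h3 h4 p hp) (abs_nonneg _) zero_le_one
      _ = r ^ 2 := one_mul _
  have e0 := e 0
  have e1 := e 1
  have e2 := e 2
  have e3 := abs_add_le (O i 0 * Dab a b (F 0) p + O i 1 * Dab a b (F 1) p)
    (O i 2 * Dab a b (F 2) p)
  have e4 := abs_add_le (O i 0 * Dab a b (F 0) p) (O i 1 * Dab a b (F 1) p)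
  linarith

/-- entries of an orthogonal matrix -/
private theorem E8_abs (O : Fin 3 → Fin 3 → ℝ)
    (hO : ∀ j k, O 0 j * O 0 k + O 1 j * O 1 k + O 2 j * O 2 k = if j = k then 1 else 0)
    (i j : Fin 3) : |O i j| ≤ 1 := by
  have h := hO j j
  rw [if_pos rfl] at h
  rw [abs_le_one_iff_mul_self_le_one]
  have := mul_self_nonneg (O 0 j)
  have := mul_self_nonneg (O 1 j)
  have := mul_self_nonneg (O 2 j)
  fin_cases i
  · show O 0 j * O 0 j ≤ 1; linarith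
  · show O 1 j * O 1 j ≤ 1; linarith
  · show O 2 j * O 2 j ≤ 1; linarith

/-- derivative of order `2` at the origin: general form. `D` is one of the three second-order
operators; `D F_j = ell N_j` at the origin and `D (F0)_i = 0` or `lam` for `i = 2`. -/
private theorem E8_ord2 (O : Fin 3 → Fin 3 → ℝ) (P R N : Fin 3 → ℝ) (σ ell : ℝ)
    (hO0 : ∀ j, O 0 j = P j) (hO1 : ∀ j, O 1 j = R j) (hO2 : ∀ j, O 2 j = σ * N j)
    (f1 : N 0 * N 0 + N 1 * N 1 + N 2 * N 2 = 1)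
    (f2 : P 0 * N 0 + P 1 * N 1 + P 2 * N 2 = 0) (f3 : R 0 * N 0 + R 1 * N 1 + R 2 * N 2 = 0)
    (d : Fin 3 → ℝ) (hd : ∀ j, d j = ell * N j) (i : Fin 3) :
    O i 0 * d 0 + O i 1 * d 1 + O i 2 * d 2 = if i = 2 then σ * ell else 0 := by
  fin_cases i
  · show O 0 0 * d 0 + O 0 1 * d 1 + O 0 2 * d 2 = 0
    rw [hd, hd, hd, hO0, hO0, hO0]
    linear_combination ell * f2
  · show O 1 0 * d 0 + O 1 1 * d 1 + O 1 2 * d 2 = 0
    rw [hd, hd, hd, hO1, hO1, hO1]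
    linear_combination ell * f3
  · show O 2 0 * d 0 + O 2 1 * d 1 + O 2 2 * d 2 = σ * ell
    rw [hd, hd, hd, hO2, hO2, hO2]
    linear_combination σ * ell * f1

private theorem E8_low2 (O : Fin 3 → Fin 3 → ℝ) (v : Fin 3 → ℝ) (F : Fin 3 → Sm)
    (P R N : Fin 3 → ℝ) (σ lam a11 a12 a22 m : ℝ) (hσ : |σ| = 1) (hσl : σ * a22 = lam)
    (hO0 : ∀ j, O 0 j = P j) (hO1 : ∀ j, O 1 j = R j) (hO2 : ∀ j, O 2 j = σ * N j)
    (f1 : N 0 * N 0 + N 1 * N 1 + N 2 * N 2 = 1)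
    (f2 : P 0 * N 0 + P 1 * N 1 + P 2 * N 2 = 0) (f3 : R 0 * N 0 + R 1 * N 1 + R 2 * N 2 = 0)
    (s1 : ∀ j, D2 (D2 (F j)) (0, 0) = a22 * N j) (s2 : ∀ j, D1 (D2 (F j)) (0, 0) = a12 * N j)
    (s3 : ∀ j, D1 (D1 (F j)) (0, 0) = a11 * N j) (hm : 0 ≤ m) (h11 : |a11| ≤ m)
    (h12 : |a12| ≤ m) (i : Fin 3) (a b : ℕ) (hab : a + b = 2) :
    |Dab a b (rigid O v F i - F0 lam i) (0, 0)| ≤ m := by
  rw [N1_Dab_sub, E8_Dab_rigid _ _ _ _ _ _ (by omega)]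
  simp only [sub_ap, add_ap, smul_ap]
  have ha : a ≤ 2 := by omega
  have D_one : ∀ D : Derivation ℝ Sm Sm, D (1:Sm) = 0 := fun D => D.map_one_eq_zero
  have c0 : D1 (F0 lam 0) = 1 := E8_D1_Xs
  have c1 : D2 (F0 lam 0) = 0 := E8_D2_Xs
  have c2 : D1 (F0 lam 1) = 0 := E8_D1_Xt
  have c3 : D2 (F0 lam 1) = 1 := E8_D2_Xt
  have c4 : D1 (F0 lam 2) = 0 := E8_F0_1 lam
  have c5 : D2 (F0 lam 2) = lam • Xt := E8_F0_2 lam
  interval_cases a
  · obtain rfl : b = 2 := by omega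
    have hF0 : D2 (D2 (F0 lam i)) (0, 0) = if i = 2 then lam else 0 := by
      fin_cases i
      · show D2 (D2 (F0 lam 0)) (0, 0) = 0
        rw [c1, map_zero]; rfl
      · show D2 (D2 (F0 lam 1)) (0, 0) = 0
        rw [c3, D_one]; rfl
      · show D2 (D2 (F0 lam 2)) (0, 0) = lam
        rw [c5, Derivation.map_smul, E8_D2_Xt, smul_ap, one_ap, mul_one]
    have := E8_ord2 O P R N σ a22 hO0 hO1 hO2 f1 f2 f3 (fun j => D2 (D2 (F j)) (0, 0)) s1 i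
    show |O i 0 * D2 (D2 (F 0)) (0, 0) + O i 1 * D2 (D2 (F 1)) (0, 0)
      + O i 2 * D2 (D2 (F 2)) (0, 0) - D2 (D2 (F0 lam i)) (0, 0)| ≤ m
    rw [hF0]
    rw [this]
    split_ifs with h
    · rw [hσl, sub_self, abs_zero]; exact hm
    · rw [sub_zero, abs_zero]; exact hm
  · obtain rfl : b = 1 := by omega
    have hF0 : D1 (D2 (F0 lam i)) (0, 0) = 0 := by
      fin_cases i
      · show D1 (D2 (F0 lam 0)) (0, 0) = 0
        rw [c1, map_zero]; rfl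
      · show D1 (D2 (F0 lam 1)) (0, 0) = 0
        rw [c3, D_one]; rfl
      · show D1 (D2 (F0 lam 2)) (0, 0) = 0
        rw [c5, Derivation.map_smul, E8_D1_Xt, smul_zero, zero_ap]
    have := E8_ord2 O P R N σ a12 hO0 hO1 hO2 f1 f2 f3 (fun j => D1 (D2 (F j)) (0, 0)) s2 i
    show |O i 0 * D1 (D2 (F 0)) (0, 0) + O i 1 * D1 (D2 (F 1)) (0, 0)
      + O i 2 * D1 (D2 (F 2)) (0, 0) - D1 (D2 (F0 lam i)) (0, 0)| ≤ m
    rw [hF0]
    rw [this, sub_zero]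
    split_ifs with h
    · rw [abs_mul, hσ, one_mul]; exact h12
    · rw [abs_zero]; exact hm
  · obtain rfl : b = 0 := by omega
    have hF0 : D1 (D1 (F0 lam i)) (0, 0) = 0 := by
      fin_cases i
      · show D1 (D1 (F0 lam 0)) (0, 0) = 0
        rw [c0, D_one]; rfl
      · show D1 (D1 (F0 lam 1)) (0, 0) = 0
        rw [c2, map_zero]; rfl
      · show D1 (D1 (F0 lam 2)) (0, 0) = 0
        rw [c4, map_zero]; rfl
    have := E8_ord2 O P R N σ a11 hO0 hO1 hO2 f1 f2 f3 (fun j => D1 (D1 (F j)) (0, 0)) s3 i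
    show |O i 0 * D1 (D1 (F 0)) (0, 0) + O i 1 * D1 (D1 (F 1)) (0, 0)
      + O i 2 * D1 (D1 (F 2)) (0, 0) - D1 (D1 (F0 lam i)) (0, 0)| ≤ m
    rw [hF0]
    rw [this, sub_zero]
    split_ifs with h
    · rw [abs_mul, hσ, one_mul]; exact h11
    · rw [abs_zero]; exact hm

private theorem E8_low1 (O : Fin 3 → Fin 3 → ℝ) (v : Fin 3 → ℝ) (F : Fin 3 → Sm)
    (P R N : Fin 3 → ℝ) (σ lam : ℝ)
    (hP : ∀ j, P j = D1 (F j) (0, 0)) (hR : ∀ j, R j = D2 (F j) (0, 0))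
    (hO0 : ∀ j, O 0 j = P j) (hO1 : ∀ j, O 1 j = R j) (hO2 : ∀ j, O 2 j = σ * N j)
    (hPP : P 0 * P 0 + P 1 * P 1 + P 2 * P 2 = 1) (hPR : P 0 * R 0 + P 1 * R 1 + P 2 * R 2 = 0)
    (hRR : R 0 * R 0 + R 1 * R 1 + R 2 * R 2 = 1)
    (f2 : P 0 * N 0 + P 1 * N 1 + P 2 * N 2 = 0) (f3 : R 0 * N 0 + R 1 * N 1 + R 2 * N 2 = 0)
    (i : Fin 3) (a b : ℕ) (hab : a + b = 1) :
    |Dab a b (rigid O v F i - F0 lam i) (0, 0)| ≤ 0 := by
  rw [N1_Dab_sub, E8_Dab_rigid _ _ _ _ _ _ (by omega)]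
  simp only [sub_ap, add_ap, smul_ap]
  have ha : a ≤ 1 := by omega
  have c0 : D1 (F0 lam 0) = 1 := E8_D1_Xs
  have c1 : D2 (F0 lam 0) = 0 := E8_D2_Xs
  have c2 : D1 (F0 lam 1) = 0 := E8_D1_Xt
  have c3 : D2 (F0 lam 1) = 1 := E8_D2_Xt
  have c4 : D1 (F0 lam 2) = 0 := E8_F0_1 lam
  have c5 : D2 (F0 lam 2) = lam • Xt := E8_F0_2 lam
  rw [abs_nonpos_iff]
  interval_cases a
  · obtain rfl : b = 1 := by omega
    show O i 0 * D2 (F 0) (0, 0) + O i 1 * D2 (F 1) (0, 0) + O i 2 * D2 (F 2) (0, 0)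
      - D2 (F0 lam i) (0, 0) = 0
    rw [← hR, ← hR, ← hR]
    fin_cases i
    · show O 0 0 * R 0 + O 0 1 * R 1 + O 0 2 * R 2 - D2 (F0 lam 0) (0, 0) = 0
      rw [c1, zero_ap, hO0, hO0, hO0]; linarith
    · show O 1 0 * R 0 + O 1 1 * R 1 + O 1 2 * R 2 - D2 (F0 lam 1) (0, 0) = 0
      rw [c3, one_ap, hO1, hO1, hO1]; linarith
    · show O 2 0 * R 0 + O 2 1 * R 1 + O 2 2 * R 2 - D2 (F0 lam 2) (0, 0) = 0
      rw [c5, smul_ap, Xt_ap, hO2, hO2, hO2]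
      linear_combination σ * f3
  · obtain rfl : b = 0 := by omega
    show O i 0 * D1 (F 0) (0, 0) + O i 1 * D1 (F 1) (0, 0) + O i 2 * D1 (F 2) (0, 0)
      - D1 (F0 lam i) (0, 0) = 0
    rw [← hP, ← hP, ← hP]
    fin_cases i
    · show O 0 0 * P 0 + O 0 1 * P 1 + O 0 2 * P 2 - D1 (F0 lam 0) (0, 0) = 0
      rw [c0, one_ap, hO0, hO0, hO0]; linarith
    · show O 1 0 * P 0 + O 1 1 * P 1 + O 1 2 * P 2 - D1 (F0 lam 1) (0, 0) = 0
      rw [c2, zero_ap, hO1, hO1, hO1]; linarith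
    · show O 2 0 * P 0 + O 2 1 * P 1 + O 2 2 * P 2 - D1 (F0 lam 2) (0, 0) = 0
      rw [c4, zero_ap, hO2, hO2, hO2]
      linear_combination σ * f2

private theorem E8_low0 (O : Fin 3 → Fin 3 → ℝ) (v : Fin 3 → ℝ) (F : Fin 3 → Sm) (lam : ℝ)
    (hv : ∀ j, v j = F j (0, 0)) (i : Fin 3) (a b : ℕ) (hab : a + b = 0) :
    |Dab a b (rigid O v F i - F0 lam i) (0, 0)| ≤ 0 := by
  obtain rfl : a = 0 := by omega
  obtain rfl : b = 0 := by omega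
  rw [abs_nonpos_iff]
  show (rigid O v F i - F0 lam i) (0, 0) = 0
  simp only [rigid, sub_ap, add_ap, smul_ap, one_ap, hv]
  have : F0 lam i (0, 0) = 0 := by
    fin_cases i
    · rfl
    · rfl
    · show ((lam / 2) • Xt ^ 2 : Sm) (0, 0) = 0
      simp
  rw [this]; ring

/-- numerics -/
private theorem E8_num (η r μ δ Δ C lam : ℝ) (hη : 0 < η) (hΔ2 : Δ ≤ η / 200) (hC1 : 1 ≤ C)
    (hC2 : 2000 / η ≤ C) (hr : 0 < r) (hμ : 0 < μ) (hC : C * r ≤ μ)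
    (hCδ : C * δ ≤ (r * μ) ^ 2) (hl22 : r * μ ≤ lam) :
    δ ≤ lam * lam * (1 / C) ∧ 16 * (lam * (Δ + 1 / C)) + 192 * r ^ 2 ≤ η * lam := by
  have hC0 : 0 < C := by linarith
  have hCη : 1 / C ≤ η / 2000 := by
    rw [div_le_div_iff₀ hC0 (by norm_num)]
    rw [div_le_iff₀ hη] at hC2
    linarith
  have hrμ : 0 < r * μ := mul_pos hr hμ
  have hlam0 : 0 < lam := lt_of_lt_of_le hrμ hl22
  have hr2 : r ^ 2 ≤ lam * (1 / C) := by
    rw [mul_one_div, le_div_iff₀ hC0]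
    nlinarith
  refine ⟨?_, ?_⟩
  · rw [mul_one_div, le_div_iff₀ hC0]
    have : (r * μ) ^ 2 ≤ lam ^ 2 := pow_le_pow_left₀ hrμ.le hl22 2
    linarith
  · have q1 : 1 / C * lam ≤ η / 2000 * lam := mul_le_mul_of_nonneg_right hCη hlam0.le
    have q2 : Δ * lam ≤ η / 200 * lam := mul_le_mul_of_nonneg_right hΔ2 hlam0.le
    have q3 : 0 < η * lam := by positivity
    have q4 : 16 * (lam * (Δ + 1 / C)) = 16 * (Δ * lam) + 16 * (1 / C * lam) := by ring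
    rw [q4]
    have q5 : lam * (1 / C) = 1 / C * lam := by ring
    rw [q5] at hr2
    linarith

private theorem E8_l11 (a11 a12 a22 δ Δ C lam h22 : ℝ) (hC0 : 0 < C) (hΔ0 : 0 < Δ) (hΔ1 : Δ ≤ 1)
    (hlam : lam = |a22|) (hlam0 : 0 < lam) (hδ : δ ≤ lam * lam * (1 / C)) (hH : |h22| ≤ δ)
    (hG : a11 * a22 - a12 ^ 2 = -(1/2) * h22) (h12 : |a12| ≤ Δ * lam) :
    |a11| ≤ lam * (Δ + 1 / C) ∧ |a12| ≤ lam * (Δ + 1 / C) := by
  constructor
  · have h1 : a11 * a22 = -(1/2) * h22 + a12 ^ 2 := by linarith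
    have h2 : |a11| * lam ≤ δ + (Δ * lam) ^ 2 := by
      rw [hlam, ← abs_mul, h1]
      refine (abs_add_le _ _).trans ?_
      rw [abs_mul, abs_neg, abs_of_pos (by norm_num : (0:ℝ) < 1/2), abs_pow]
      have h3 : |a12| ^ 2 ≤ (Δ * |a22|) ^ 2 := by
        rw [← hlam]
        exact pow_le_pow_left₀ (abs_nonneg _) h12 2
      have := abs_nonneg h22
      linarith
    have h4 : |a11| * lam ≤ (lam * (Δ + 1 / C)) * lam := by
      have h5 : (Δ * lam) ^ 2 ≤ Δ * lam * lam := by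
        have : 0 ≤ Δ * (1 - Δ) * (lam * lam) :=
          mul_nonneg (mul_nonneg hΔ0.le (by linarith)) (by positivity)
        have e : Δ * lam * lam - (Δ * lam) ^ 2 = Δ * (1 - Δ) * (lam * lam) := by ring
        linarith
      have e2 : (lam * (Δ + 1 / C)) * lam = Δ * lam * lam + lam * lam * (1 / C) := by ring
      rw [e2]
      linarith
    exact le_of_mul_le_mul_right h4 hlam0
  · have : 0 ≤ lam * (1 / C) := by positivity
    have e : lam * (Δ + 1 / C) = Δ * lam + lam * (1 / C) := by ring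
    linarith

/-- NORMAL FORM. `G = rigid O (F(0)) F` with rows of `O` equal to `F_s(0)`, `F_t(0)`,
`± nrm F (0)` (orthonormal since `E = 1` at the origin), sign of `l22`. Second derivatives of `G`
at the origin: tangential components vanish (`E_s = E_t = 0`), normal ones are `± l_ij`;
`|l11| ≤ (l12² + |Bdet|)/lam ≤ Δ² lam + δ/lam` (`gauss`: `Bdet = -½ D2 D2 H (0,0)`);
higher derivatives `≤ 3 r² ≤ 3 lam/C`; integrate (`N1_lip`). `Δ = min 1 (η/200)`,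
`C = max 1 (2000/η)` or so. -/
theorem normal_form (η : ℝ) (hη : 0 < η) : ∃ Δ C : ℝ, 0 < Δ ∧ 1 ≤ C ∧
    ∀ (r μ δ : ℝ) (H : Sm) (F : Fin 3 → Sm), 0 < r → 0 < μ → C * r ≤ μ → 0 ≤ δ →
    C * δ ≤ (r * μ) ^ 2 → H (0, 0) = 0 → D1 H (0, 0) = 0 → D2 H (0, 0) = 0 →
    |D2 (D2 H) (0, 0)| ≤ δ → Isom (1 + H) F (Box 2) →
    (∀ i, ∀ a b : ℕ, 3 ≤ a + b → a + b ≤ 4 → ∀ p ∈ Box 2, |Dab a b (F i) p| ≤ r ^ 2) →
    r * μ ≤ |l22 F (0, 0)| → |l12 F (0, 0)| ≤ Δ * |l22 F (0, 0)| →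
    ∃ G : Fin 3 → Sm, (∀ i, CkB (G i - F0 |l22 F (0, 0)| i) 4 (η * |l22 F (0, 0)|) (Box 2)) ∧
      Isom (1 + H) G (Box 2) := by
  have hη2 : 0 < η / 200 := by positivity
  refine ⟨min 1 (η / 200), max 1 (2000 / η), lt_min one_pos hη2, le_max_left _ _, ?_⟩
  intro r μ δ H F hr hμ hC hδ hCδ hH0 hH1 hH2 hH22 hF hhigh hl22 hl12
  have hΔ1 : min 1 (η / 200) ≤ 1 := min_le_left _ _
  have hΔ2 : min 1 (η / 200) ≤ η / 200 := min_le_right _ _
  have hΔ0 : 0 < min 1 (η / 200) := lt_min one_pos hη2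
  have hC1 : 1 ≤ max 1 (2000 / η) := le_max_left _ _
  have hC2 : 2000 / η ≤ max 1 (2000 / η) := le_max_right _ _
  generalize min 1 (η / 200) = Δ at hl12 hΔ1 hΔ2 hΔ0
  generalize max 1 (2000 / η) = C at hC hCδ hC1 hC2
  generalize hlamdef : |l22 F (0, 0)| = lam at hl22 hl12
  have hrμ : 0 < r * μ := mul_pos hr hμ
  have hlam0 : 0 < lam := lt_of_lt_of_le hrμ hl22
  obtain ⟨hδ2, hfin⟩ := E8_num η r μ δ Δ C lam hη hΔ2 hC1 hC2 hr hμ hC hCδ hl22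
  -- the frame
  have hp0 : ((0 : ℝ), (0 : ℝ)) ∈ Box 2 := E8_zero_mem
  have hopen : IsOpen (Box 2) := by
    have : Box 2 = {p : ℝ × ℝ | |p.1| < 2} ∩ {p : ℝ × ℝ | |p.2| < 2} := rfl
    rw [this]
    exact (isOpen_lt (continuous_abs.comp continuous_fst) continuous_const).inter
      (isOpen_lt (continuous_abs.comp continuous_snd) continuous_const)
  obtain ⟨i1, i2, i3⟩ := hF _ hp0
  have hstr := struct_eq (1 + H) F (Box 2) hopen hF _ hp0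
  have hgauss := gauss (1 + H) F (Box 2) hopen hF _ hp0
  have hE1 : D1 (1 + H) = D1 H := by rw [map_add, Derivation.map_one_eq_zero, zero_add]
  have hE2 : D2 (1 + H) = D2 H := by rw [map_add, Derivation.map_one_eq_zero, zero_add]
  rw [hE1, hE2] at hstr
  rw [hE2, Bdet_l] at hgauss
  simp only [add_ap, sub_ap, mul_ap, smul_ap, one_ap, pow_ap, hH0, hH1, hH2, mul_zero, zero_mul,
    add_zero, zero_add, sub_zero, one_mul, ne_eq, OfNat.ofNat_ne_zero, not_false_eq_true,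
    zero_pow] at hstr hgauss
  obtain ⟨P, hP⟩ : ∃ P : Fin 3 → ℝ, ∀ j, P j = D1 (F j) (0, 0) := ⟨_, fun _ => rfl⟩
  obtain ⟨R, hR⟩ : ∃ R : Fin 3 → ℝ, ∀ j, R j = D2 (F j) (0, 0) := ⟨_, fun _ => rfl⟩
  obtain ⟨N, hN⟩ : ∃ N : Fin 3 → ℝ, ∀ j, N j = nrm F j (0, 0) := ⟨_, fun _ => rfl⟩
  obtain ⟨σ, hσ, hσl⟩ : ∃ σ : ℝ, σ * σ = 1 ∧ σ * l22 F (0, 0) = lam := by
    rcases le_total 0 (l22 F (0, 0)) with h | h
    · exact ⟨1, by norm_num, by rw [← hlamdef, abs_of_nonneg h]; ring⟩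
    · exact ⟨-1, by norm_num, by rw [← hlamdef, abs_of_nonpos h]; ring⟩
  have hσabs : |σ| = 1 := by
    have : |σ| * |σ| = 1 := by rw [← abs_mul, hσ, abs_one]
    nlinarith [abs_nonneg σ]
  simp only [dot, add_ap, mul_ap, one_ap, hH0, add_zero, ← hP, ← hR] at i1 i2 i3
  obtain ⟨O, hO0, hO1, hO2⟩ : ∃ O : Fin 3 → Fin 3 → ℝ, (∀ j, O 0 j = P j) ∧ (∀ j, O 1 j = R j) ∧
      (∀ j, O 2 j = σ * N j) := ⟨![P, R, fun j => σ * N j], fun _ => rfl, fun _ => rfl, fun _ => rfl⟩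
  obtain ⟨f1, f2, f3, hO⟩ := E8_frame P R σ hσ i1 i2 i3 N
    (by rw [hN, hP, hP, hR, hR]; rfl) (by rw [hN, hP, hP, hR, hR]; rfl)
    (by rw [hN, hP, hP, hR, hR]; rfl) O hO0 hO1 hO2
  obtain ⟨v, hv⟩ : ∃ v : Fin 3 → ℝ, ∀ j, v j = F j (0, 0) := ⟨_, fun _ => rfl⟩
  have s1 : ∀ j, D2 (D2 (F j)) (0, 0) = l22 F (0, 0) * N j := fun j => by
    rw [hN]; exact (hstr j).1
  have s2 : ∀ j, D1 (D2 (F j)) (0, 0) = l12 F (0, 0) * N j := fun j => by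
    rw [hN]; exact (hstr j).2.1
  have s3 : ∀ j, D1 (D1 (F j)) (0, 0) = l11 F (0, 0) * N j := fun j => by
    rw [hN]; exact (hstr j).2.2
  obtain ⟨hl11, hl12'⟩ := E8_l11 (l11 F (0, 0)) (l12 F (0, 0)) (l22 F (0, 0)) δ Δ C lam
    (D2 (D2 H) (0, 0)) (by linarith) hΔ0 hΔ1 hlamdef.symm hlam0 hδ2 hH22 hgauss hl12
  refine ⟨rigid O v F, fun i => ?_, rigid_isom O v _ F _ hO hF⟩
  have hm0 : 0 ≤ lam * (Δ + 1 / C) := le_trans (abs_nonneg _) hl11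
  have hW3 := E8_high O v F lam r (E8_abs O hO) hhigh i
  have hW2 := E8_low2 O v F P R N σ lam _ _ _ (lam * (Δ + 1 / C)) hσabs hσl hO0 hO1 hO2 f1 f2 f3
    s1 s2 s3 hm0 hl11 hl12' i
  have hW1 := E8_low1 O v F P R N σ lam hP hR hO0 hO1 hO2 i1 i2 i3 f2 f3 i
  have hW0 := E8_low0 O v F lam hv i
  have k2 := E8_int _ 2 _ _ (fun a b hab => hW3 a b (by omega) (by omega)) hW2
  have k1 := E8_int _ 1 _ _ k2 hW1
  have k0 := E8_int _ 0 _ _ k1 hW0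
  have hr20 : 0 ≤ r ^ 2 := sq_nonneg r
  intro a b hab p hp
  rcases Nat.lt_or_ge (a + b) 3 with h | h
  · interval_cases hh : a + b
    · have := k0 a b hh p hp
      linarith
    · have := k1 a b hh p hp
      linarith
    · have := k2 a b hh p hp
      linarith
  · have := hW3 a b h hab p hp
    linarith

end NI
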