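import Crest.Agent.NI_Geo
import Crest.Agent.NI_N1

set_option autoImplicit false
open scoped ContDiff
open MeasureTheory

namespace NI

/-- cutoff: `1` on `|s|,|t| ≤ 1.8`, `0` if `max ≥ 1.9`. -/
noncomputable def cutB : Sm := cmp (ct 1.8 1.9) ct_contDiff Xs * cmp (ct 1.8 1.9) ct_contDiff Xt

/-- global extension of a map defined near the model on `Box 2` -/
noncomputable def ext (lam : ℝ) (F : Fin 3 → Sm) : Fin 3 → Sm :=
  fun i => F0 lam i + cutB * (F i - F0 lam i)

private theorem X1_Dab_D1 (a b : ℕ) (f : Sm) : Dab a b (D1 f) = Dab (a + 1) b f := by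
  unfold Dab
  have h1 : ∀ (n : ℕ) (f : Sm), (fun g : Sm => D2 g)^[n] (D1 f) =
      D1 ((fun g : Sm => D2 g)^[n] f) := by
    intro n f
    induction n with
    | zero => rfl
    | succ n ih =>
      rw [Function.iterate_succ_apply', Function.iterate_succ_apply', ih, D1_D2_comm]
  rw [h1, Function.iterate_succ_apply (fun g : Sm => D1 g) a]

private theorem X1_Dab_D2 (a b : ℕ) (f : Sm) : Dab a b (D2 f) = Dab a (b + 1) f := rfl

private theorem X1_Dab_add (a b : ℕ) (f g : Sm) : Dab a b (f + g) = Dab a b f + Dab a b g := by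
  have h : f + g = f - (0 - g) := by ring
  have h0 : Dab a b (0 : Sm) = 0 := by
    have := N1_Dab_sub a b (0 : Sm) 0
    rw [sub_self, sub_self] at this
    exact this
  rw [h, N1_Dab_sub, N1_Dab_sub, h0]
  ring

private theorem X1_mono {f : Sm} {k l : ℕ} {M N : ℝ} {Ω : Set (ℝ × ℝ)} (h : CkB f k M Ω) (hl : l ≤ k)
    (hMN : M ≤ N) : CkB f l N Ω :=
  fun a b hab p hp => (h a b (hab.trans hl) p hp).trans hMN

/-- Leibniz -/
theorem CkB_mul (f g : Sm) (k : ℕ) (M N : ℝ) (Ω : Set (ℝ × ℝ)) (hM : 0 ≤ M) (hN : 0 ≤ N)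
    (hf : CkB f k M Ω) (hg : CkB g k N Ω) : CkB (f * g) k (2 ^ k * M * N) Ω := by
  induction k generalizing f g with
  | zero =>
    intro a b hab p hp
    obtain ⟨rfl, rfl⟩ : a = 0 ∧ b = 0 := by omega
    have h1 := hf 0 0 le_rfl p hp
    have h2 := hg 0 0 le_rfl p hp
    show |f p * g p| ≤ _
    rw [abs_mul, pow_zero, one_mul]
    exact mul_le_mul h1 h2 (abs_nonneg _) hM
  | succ k ih =>
    intro a b hab p hp
    have hMN : 0 ≤ 2 ^ k * M * N := by positivity
    have hpow : 2 ^ (k + 1) * M * N = 2 ^ k * M * N + 2 ^ k * M * N := by ring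
    have hf' := X1_mono hf (Nat.le_succ k) le_rfl
    have hg' := X1_mono hg (Nat.le_succ k) le_rfl
    rcases Nat.lt_or_ge (a + b) (k + 1) with h | h
    · have := ih f g hf' hg' a b (by omega) p hp
      rw [hpow]; linarith
    · rcases Nat.eq_zero_or_pos a with ha | ha
      · obtain ⟨b', rfl⟩ : ∃ b', b = b' + 1 := ⟨b - 1, by omega⟩
        have e : Dab a (b' + 1) (f * g) = Dab a b' (f * D2 g) + Dab a b' (g * D2 f) := by
          rw [← X1_Dab_D2, Derivation.leibniz, smul_eq_mul, smul_eq_mul, X1_Dab_add]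
        have k1 := ih f (D2 g) hf' (fun a' b'' hab' q hq => by
          rw [X1_Dab_D2]; exact hg _ _ (by omega) q hq) a b' (by omega) p hp
        have k2 := ih (D2 f) g (fun a' b'' hab' q hq => by
          rw [X1_Dab_D2]; exact hf _ _ (by omega) q hq) hg' a b' (by omega) p hp
        rw [mul_comm (D2 f) g] at k2
        rw [e, add_ap, hpow]
        exact (abs_add_le _ _).trans (add_le_add k1 k2)
      · obtain ⟨a', rfl⟩ : ∃ a', a = a' + 1 := ⟨a - 1, by omega⟩
        have e : Dab (a' + 1) b (f * g) = Dab a' b (f * D1 g) + Dab a' b (g * D1 f) := by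
          rw [← X1_Dab_D1, Derivation.leibniz, smul_eq_mul, smul_eq_mul, X1_Dab_add]
        have k1 := ih f (D1 g) hf' (fun a' b'' hab' q hq => by
          rw [X1_Dab_D1]; exact hg _ _ (by omega) q hq) a' b (by omega) p hp
        have k2 := ih (D1 f) g (fun a' b'' hab' q hq => by
          rw [X1_Dab_D1]; exact hf _ _ (by omega) q hq) hg' a' b (by omega) p hp
        rw [mul_comm (D1 f) g] at k2
        rw [e, add_ap, hpow]
        exact (abs_add_le _ _).trans (add_le_add k1 k2)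

private theorem X1_Dv_zero (v : ℝ × ℝ) (f : Sm) (Ω : Set (ℝ × ℝ)) (hΩ : IsOpen Ω)
    (h : ∀ p ∈ Ω, f p = 0) : ∀ p ∈ Ω, Dv v f p = 0 := by
  intro p hp
  rw [Dv_ap]
  have h1 : (f : ℝ × ℝ → ℝ) =ᶠ[nhds p] fun _ => 0 :=
    Filter.eventuallyEq_of_mem (hΩ.mem_nhds hp) h
  rw [h1.fderiv_eq]
  simp

private theorem X1_Dab_zero (a b : ℕ) (f : Sm) (Ω : Set (ℝ × ℝ)) (hΩ : IsOpen Ω)
    (h : ∀ p ∈ Ω, f p = 0) : ∀ p ∈ Ω, Dab a b f p = 0 := by
  have h2 : ∀ n : ℕ, ∀ p ∈ Ω, ((fun g : Sm => D2 g)^[n] f) p = 0 := by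
    intro n
    induction n with
    | zero => exact h
    | succ n ih =>
      rw [Function.iterate_succ_apply']
      exact X1_Dv_zero _ _ Ω hΩ ih
  unfold Dab
  induction a with
  | zero => exact h2 b
  | succ n ih =>
    rw [Function.iterate_succ_apply']
    exact X1_Dv_zero _ _ Ω hΩ ih

private theorem X1_cut_zero (p : ℝ × ℝ) (h : 1.9 ≤ |p.1| ∨ 1.9 ≤ |p.2|) : cutB p = 0 := by
  show ct 1.8 1.9 p.1 * ct 1.8 1.9 p.2 = 0
  rcases h with h | h
  · rw [ct_zero (by norm_num) (by norm_num) h, zero_mul]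
  · rw [ct_zero (a := 1.8) (b := 1.9) (r := p.2) (by norm_num) (by norm_num) h, mul_zero]

private theorem X1_cut_one (p : ℝ × ℝ) (h1 : |p.1| ≤ 1.8) (h2 : |p.2| ≤ 1.8) : cutB p = 1 := by
  show ct 1.8 1.9 p.1 * ct 1.8 1.9 p.2 = 1
  rw [ct_one (by norm_num) (by norm_num) h1, ct_one (by norm_num) (by norm_num) h2, one_mul]

private theorem X1_cpt : HasCompactSupport (cutB : ℝ × ℝ → ℝ) := by
  refine HasCompactSupport.intro
    (K := Set.Icc (-1.9 : ℝ) 1.9 ×ˢ Set.Icc (-1.9 : ℝ) 1.9) (isCompact_Icc.prod isCompact_Icc) ?_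
  intro p hp
  apply X1_cut_zero
  by_contra hcon
  push_neg at hcon
  apply hp
  rw [abs_lt, abs_lt] at hcon
  exact ⟨⟨hcon.1.1.le, hcon.1.2.le⟩, ⟨hcon.2.1.le, hcon.2.2.le⟩⟩

private theorem X1_Dv_cpt (v : ℝ × ℝ) (f : Sm) (hf : HasCompactSupport (f : ℝ × ℝ → ℝ)) :
    HasCompactSupport (Dv v f : ℝ × ℝ → ℝ) := by
  show HasCompactSupport (fun p => fderiv ℝ (f : ℝ × ℝ → ℝ) p v)
  exact hf.fderiv_apply (𝕜 := ℝ) v

private theorem X1_Dab_cpt (a b : ℕ) (f : Sm) (hf : HasCompactSupport (f : ℝ × ℝ → ℝ)) :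
    HasCompactSupport (Dab a b f : ℝ × ℝ → ℝ) := by
  have h2 : ∀ n : ℕ, HasCompactSupport (((fun g : Sm => D2 g)^[n] f : Sm) : ℝ × ℝ → ℝ) := by
    intro n
    induction n with
    | zero => exact hf
    | succ n ih =>
      rw [Function.iterate_succ_apply']
      exact X1_Dv_cpt _ _ ih
  unfold Dab
  induction a with
  | zero => exact h2 b
  | succ n ih =>
    rw [Function.iterate_succ_apply']
    exact X1_Dv_cpt _ _ ih

private theorem X1_cut_bound : ∃ M : ℝ, 1 ≤ M ∧ CkB cutB 4 M Set.univ := by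
  have h1 : ∀ a b : ℕ, ∃ C : ℝ, ∀ p, |Dab a b cutB p| ≤ C := by
    intro a b
    obtain ⟨C, hC⟩ := (smooth (Dab a b cutB)).continuous.bounded_above_of_compact_support
      (X1_Dab_cpt a b cutB X1_cpt)
    exact ⟨C, fun p => by rw [← Real.norm_eq_abs]; exact hC p⟩
  choose C hC using h1
  have hC0 : ∀ a b, 0 ≤ C a b := fun a b => (abs_nonneg _).trans (hC a b 0)
  refine ⟨1 + ∑ a ∈ Finset.range 5, ∑ b ∈ Finset.range 5, C a b, ?_, ?_⟩
  · have : 0 ≤ ∑ a ∈ Finset.range 5, ∑ b ∈ Finset.range 5, C a b :=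
      Finset.sum_nonneg fun a _ => Finset.sum_nonneg fun b _ => hC0 a b
    linarith
  · intro a b hab p _
    have h2 : C a b ≤ ∑ b ∈ Finset.range 5, C a b :=
      Finset.single_le_sum (f := fun b => C a b) (fun b _ => hC0 a b)
        (Finset.mem_range.2 (by omega))
    have h3 : ∑ b ∈ Finset.range 5, C a b ≤ ∑ a ∈ Finset.range 5, ∑ b ∈ Finset.range 5, C a b :=
      Finset.single_le_sum (f := fun a => ∑ b ∈ Finset.range 5, C a b)
        (fun a _ => Finset.sum_nonneg fun b _ => hC0 a b) (Finset.mem_range.2 (by omega))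
    linarith [hC a b p]

private theorem X1_out (f : Sm) (a b : ℕ) (p : ℝ × ℝ) (hp : p ∉ Box 2) :
    Dab a b (cutB * f) p = 0 := by
  have hopen : IsOpen {q : ℝ × ℝ | 1.9 < |q.1| ∨ 1.9 < |q.2|} := by
    apply IsOpen.union
    · exact isOpen_lt continuous_const (continuous_abs.comp continuous_fst)
    · exact isOpen_lt continuous_const (continuous_abs.comp continuous_snd)
  refine X1_Dab_zero a b (cutB * f) _ hopen ?_ p ?_
  · intro q hq
    rw [mul_ap, X1_cut_zero q (hq.imp le_of_lt le_of_lt), zero_mul]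
  · by_contra hcon
    apply hp
    simp only [Set.mem_setOf_eq, not_or, not_lt] at hcon
    exact ⟨lt_of_le_of_lt hcon.1 (by norm_num), lt_of_le_of_lt hcon.2 (by norm_num)⟩

private theorem X1_main (f : Sm) (k : ℕ) (M N : ℝ) (hM : 0 ≤ M) (hN : 0 ≤ N)
    (hc : CkB cutB k M Set.univ) (hf : CkB f k N (Box 2)) :
    CkB (cutB * f) k (2 ^ k * M * N) Set.univ := by
  intro a b hab p _
  by_cases hp : p ∈ Box 2
  · exact CkB_mul cutB f k M N (Box 2) hM hN (fun a b hab p _ => hc a b hab p trivial) hf a b hab p hp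
  · rw [X1_out f a b p hp, abs_zero]
    positivity

theorem ext_good : ∃ C : ℝ, 1 ≤ C ∧ ∀ (lam η : ℝ) (F : Fin 3 → Sm), 0 < lam → 0 ≤ η →
    (∀ i, CkB (F i - F0 lam i) 4 (η * lam) (Box 2)) → Good lam (C * η) (ext lam F) := by
  obtain ⟨M, hM1, hM⟩ := X1_cut_bound
  refine ⟨16 * M, by linarith, ?_⟩
  intro lam η F hlam hη hF
  have e : ∀ i, ext lam F i - F0 lam i = cutB * (F i - F0 lam i) := by
    intro i
    unfold ext
    ring
  constructor
  · intro i p hp
    rw [e]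
    exact X1_out _ 0 0 p hp
  · intro i
    rw [e]
    have h := X1_main (F i - F0 lam i) 4 M (η * lam) (by linarith) (by positivity) hM (hF i)
    have e2 : (16 * M * η * lam) = 2 ^ 4 * M * (η * lam) := by ring
    rw [e2]
    exact h

theorem ext_close : ∃ C : ℝ, 1 ≤ C ∧ ∀ (lam κ : ℝ) (F F' : Fin 3 → Sm), 0 ≤ κ →
    (∀ i, CkB (F i - F' i) 3 κ (Box 2)) →
    ∀ i, CkB (ext lam F i - ext lam F' i) 3 (C * κ) Set.univ := by
  obtain ⟨M, hM1, hM⟩ := X1_cut_bound
  refine ⟨8 * M, by linarith, ?_⟩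
  intro lam κ F F' hκ hF i
  have e : ext lam F i - ext lam F' i = cutB * (F i - F' i) := by
    unfold ext
    ring
  rw [e]
  have h := X1_main (F i - F' i) 3 M κ (by linarith) hκ (X1_mono hM (by norm_num) le_rfl) (hF i)
  have e2 : 8 * M * κ = 2 ^ 3 * M * κ := by ring
  rw [e2]
  exact h

theorem ext_eq (lam : ℝ) (F : Fin 3 → Sm) (i : Fin 3) : ∀ p ∈ Box 1.8, ext lam F i p = F i p := by
  intro p hp
  show F0 lam i p + cutB p * (F i p - F0 lam i p) = F i p
  rw [X1_cut_one p hp.1.le hp.2.le]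
  ring

private theorem X1_box_open (r : ℝ) : IsOpen (Box r) := by
  apply IsOpen.inter
  · exact isOpen_lt (continuous_abs.comp continuous_fst) continuous_const
  · exact isOpen_lt (continuous_abs.comp continuous_snd) continuous_const

theorem ext_isom (lam : ℝ) (F : Fin 3 → Sm) (E : Sm) (h : Isom E F (Box 2)) :
    Isom E (ext lam F) (Box 1.8) := by
  have hD : ∀ (v : ℝ × ℝ) (i : Fin 3), ∀ p ∈ Box 1.8, Dv v (ext lam F i) p = Dv v (F i) p := by
    intro v i p hp
    have := X1_Dv_zero v (ext lam F i - F i) (Box 1.8) (X1_box_open _)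
      (fun q hq => by rw [sub_ap, ext_eq lam F i q hq, sub_self]) p hp
    rw [map_sub, sub_ap] at this
    linarith
  intro p hp
  have hp2 : p ∈ Box 2 := ⟨lt_trans hp.1 (by norm_num), lt_trans hp.2 (by norm_num)⟩
  have h' := h p hp2
  unfold dot at h' ⊢
  simp only [add_ap, mul_ap] at h' ⊢
  have e1 : ∀ i, D1 (ext lam F i) p = D1 (F i) p := fun i => hD _ i p hp
  have e2 : ∀ i, D2 (ext lam F i) p = D2 (F i) p := fun i => hD _ i p hp
  simp only [e1, e2]
  exact h'

end NI
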