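import Crest.Agent.NI_Geo
import Crest.Agent.NI_X1

set_option autoImplicit false
open scoped ContDiff
open MeasureTheory

namespace NI

private theorem LBb_Dab_D2 (a b : ℕ) (f : Sm) : Dab a b (D2 f) = Dab a (b + 1) f := rfl

private theorem LBb_Dab_D1 (a b : ℕ) (f : Sm) : Dab a b (D1 f) = Dab (a + 1) b f := by
  unfold Dab
  have h1 : ∀ (n : ℕ) (f : Sm), (fun g : Sm => D2 g)^[n] (D1 f) =
      D1 ((fun g : Sm => D2 g)^[n] f) := by
    intro n f
    induction n with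
    | zero => rfl
    | succ n ih =>
      rw [Function.iterate_succ_apply', Function.iterate_succ_apply', ih, D1_D2_comm]
  rw [h1, Function.iterate_succ_apply (fun g : Sm => D1 g) a]

private theorem LBb_Dab_zero (a b : ℕ) : Dab a b (0 : Sm) = 0 := by
  have := N1_Dab_sub a b (0 : Sm) 0
  rw [sub_self, sub_self] at this
  exact this

private theorem LBb_Dab_add (a b : ℕ) (f g : Sm) : Dab a b (f + g) = Dab a b f + Dab a b g := by
  have h : f + g = f - (0 - g) := by ring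
  rw [h, N1_Dab_sub, N1_Dab_sub, LBb_Dab_zero]
  ring

private theorem LBb_CkB_zero (k : ℕ) (M : ℝ) (hM : 0 ≤ M) (Ω : Set (ℝ × ℝ)) :
    CkB (0 : Sm) k M Ω := by
  intro a b _ p _
  rw [LBb_Dab_zero]
  simpa using hM

private theorem LBb_CkB_succ (f : Sm) (k : ℕ) (M : ℝ) (Ω : Set (ℝ × ℝ))
    (h0 : ∀ p ∈ Ω, |f p| ≤ M) (h1 : CkB (D1 f) k M Ω) (h2 : CkB (D2 f) k M Ω) :
    CkB f (k + 1) M Ω := by
  intro a b hab p hp
  rcases Nat.eq_zero_or_pos a with ha | ha
  · rcases Nat.eq_zero_or_pos b with hb | hb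
    · subst ha hb
      exact h0 p hp
    · obtain ⟨b', rfl⟩ : ∃ b', b = b' + 1 := ⟨b - 1, by omega⟩
      rw [← LBb_Dab_D2]
      exact h2 a b' (by omega) p hp
  · obtain ⟨a', rfl⟩ : ∃ a', a = a' + 1 := ⟨a - 1, by omega⟩
    rw [← LBb_Dab_D1]
    exact h1 a' b (by omega) p hp

private theorem LBb_CkB_mono {f : Sm} {k : ℕ} {M N : ℝ} {Ω : Set (ℝ × ℝ)} (h : CkB f k M Ω)
    (hMN : M ≤ N) : CkB f k N Ω :=
  fun a b hab p hp => (h a b hab p hp).trans hMN

private theorem LBb_Dv_Xs (v : ℝ × ℝ) (p : ℝ × ℝ) : Dv v Xs p = v.1 := by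
  rw [Dv_ap]
  show fderiv ℝ (fun q : ℝ × ℝ => q.1) p v = v.1
  rw [fderiv_fst]; rfl

private theorem LBb_Dv_Xt (v : ℝ × ℝ) (p : ℝ × ℝ) : Dv v Xt p = v.2 := by
  rw [Dv_ap]
  show fderiv ℝ (fun q : ℝ × ℝ => q.2) p v = v.2
  rw [fderiv_snd]; rfl

private theorem LBb_D1_Xs : D1 Xs = 1 := sm_ext fun p => LBb_Dv_Xs _ p
private theorem LBb_D2_Xs : D2 Xs = 0 := sm_ext fun p => LBb_Dv_Xs _ p
private theorem LBb_D1_Xt : D1 Xt = 0 := sm_ext fun p => LBb_Dv_Xt _ p
private theorem LBb_D2_Xt : D2 Xt = 1 := sm_ext fun p => LBb_Dv_Xt _ p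

private theorem LBb_D_one (v : ℝ × ℝ) : Dv v (1 : Sm) = 0 := (Dv v).map_one_eq_zero

private theorem LBb_CkB_one (k : ℕ) (M : ℝ) (hM : 1 ≤ M) (Ω : Set (ℝ × ℝ)) :
    CkB (1 : Sm) k M Ω := by
  cases k with
  | zero =>
    intro a b hab p hp
    obtain ⟨rfl, rfl⟩ : a = 0 ∧ b = 0 := by omega
    show |(1:ℝ)| ≤ M
    simpa using hM
  | succ k =>
    apply LBb_CkB_succ
    · intro p _
      show |(1:ℝ)| ≤ M
      simpa using hM
    · rw [D1, LBb_D_one]; exact LBb_CkB_zero _ _ (by linarith) _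
    · rw [D2, LBb_D_one]; exact LBb_CkB_zero _ _ (by linarith) _

private theorem LBb_CkB_Xs (k : ℕ) (M : ℝ) (hM : 2 ≤ M) : CkB Xs (k + 1) M (Box 2) := by
  apply LBb_CkB_succ
  · intro p hp
    exact hp.1.le.trans hM
  · rw [LBb_D1_Xs]; exact LBb_CkB_one _ _ (by linarith) _
  · rw [LBb_D2_Xs]; exact LBb_CkB_zero _ _ (by linarith) _

private theorem LBb_CkB_Xt (k : ℕ) (M : ℝ) (hM : 2 ≤ M) : CkB Xt (k + 1) M (Box 2) := by
  apply LBb_CkB_succ
  · intro p hp
    exact hp.2.le.trans hM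
  · rw [LBb_D1_Xt]; exact LBb_CkB_zero _ _ (by linarith) _
  · rw [LBb_D2_Xt]; exact LBb_CkB_one _ _ (by linarith) _

private theorem LBb_CkB_smul (c : ℝ) (f : Sm) (k : ℕ) (M : ℝ) (Ω : Set (ℝ × ℝ))
    (h : CkB f k M Ω) : CkB (c • f) k (|c| * M) Ω := by
  have hs : ∀ (a b : ℕ), Dab a b (c • f) = c • Dab a b f := by
    intro a b
    have hit : ∀ (D : Derivation ℝ Sm Sm) (n : ℕ) (f : Sm),
        (fun h : Sm => D h)^[n] (c • f) = c • (fun h : Sm => D h)^[n] f := by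
      intro D n f
      induction n generalizing f with
      | zero => rfl
      | succ n ih =>
        rw [Function.iterate_succ_apply, Function.iterate_succ_apply, D.map_smul, ih]
    unfold Dab
    rw [hit, hit]
  intro a b hab p hp
  rw [hs, smul_ap, abs_mul]
  exact mul_le_mul_of_nonneg_left (h a b hab p hp) (abs_nonneg c)

private theorem LBb_D2_sq : D2 (Xt ^ 2) = (2 : ℝ) • Xt := by
  rw [pow_two, Derivation.leibniz, LBb_D2_Xt]
  apply sm_ext
  intro p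
  show p.2 * 1 + p.2 * 1 = 2 * p.2
  ring

private theorem LBb_D1_sq : D1 (Xt ^ 2) = 0 := by
  rw [pow_two, Derivation.leibniz, LBb_D1_Xt]
  simp

private theorem LBb_D2D2_sq : D2 (D2 (Xt ^ 2)) = (2 : ℝ) • (1 : Sm) := by
  rw [LBb_D2_sq, Derivation.map_smul, LBb_D2_Xt]

private theorem LBb_CkB_sq : CkB (Xt ^ 2) 4 4 (Box 2) := by
  apply LBb_CkB_succ
  · intro p hp
    show |p.2 ^ 2| ≤ 4
    have := hp.2
    rw [abs_pow]
    nlinarith [abs_nonneg p.2]
  · rw [LBb_D1_sq]; exact LBb_CkB_zero _ _ (by norm_num) _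
  · rw [LBb_D2_sq]
    have := LBb_CkB_smul 2 Xt 3 2 (Box 2) (LBb_CkB_Xt 2 2 le_rfl)
    refine LBb_CkB_mono this ?_
    rw [abs_of_pos (by norm_num : (0:ℝ) < 2)]; norm_num

/-- the number of Boolean vectors beats the pigeonhole numbers (`e^{C √n log n} N0 < 2^n`), and
the lower bound of the pair theorem beats the upper bound, for `n` large. -/
theorem growth (ε δ C2 c C3 : ℝ) (N0 N : ℕ) (hε : 0 < ε) (hδ : 0 < δ) (hC2 : 0 < C2) (hc : 0 < c)
    (hC3 : 0 < C3) :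
    ∃ n1 : ℕ, ∀ n : ℕ, n1 ≤ n →
      Real.exp (C2 * √n * Real.log n) * N0 < 2 ^ n ∧
      C2 / (√n) ^ (2 * (4 * N + 21)) < c * ((sp ε n) ^ (2 * N + 7)) ^ 2 * (sp ε n) ^ 6 ∧
      C3 * ((sp ε n) ^ (2 * N + 7) / (sp ε n) ^ (2 * N)) ≤ δ ∧ 0 < sp ε n ∧ sp ε n ≤ 1 := by
  have hK : 0 < √ε / 2000 := by positivity
  have hsp : ∀ n : ℕ, 0 < sp ε n := fun n => by unfold sp; positivity
  have hsplim : Filter.Tendsto (fun n : ℕ => sp ε n) Filter.atTop (nhds 0) := by
    unfold sp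
    exact tendsto_const_nhds.div_atTop
      (Filter.tendsto_atTop_add_const_right _ 1 tendsto_natCast_atTop_atTop)
  have hcast : Filter.Tendsto (fun n : ℕ => (n : ℝ)) Filter.atTop Filter.atTop :=
    tendsto_natCast_atTop_atTop
  have hlog2 : 0 < Real.log 2 := Real.log_pos (by norm_num)
  -- (1)
  have e1 : ∀ᶠ n : ℕ in Filter.atTop, Real.exp (C2 * √n * Real.log n) * N0 < 2 ^ n := by
    have hlo := (isLittleO_log_rpow_atTop (r := 1/2) (by norm_num)).comp_tendsto hcast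
    have hb := hlo.bound (c := Real.log 2 / (2 * C2)) (by positivity)
    have h2 : ∀ᶠ n : ℕ in Filter.atTop, (N0 : ℝ) < Real.exp ((Real.log 2 / 2) * n) := by
      have : Filter.Tendsto (fun n : ℕ => Real.exp ((Real.log 2 / 2) * n)) Filter.atTop
          Filter.atTop :=
        Real.tendsto_exp_atTop.comp (hcast.const_mul_atTop (by positivity))
      exact this.eventually_gt_atTop _
    filter_upwards [hb, h2, Filter.eventually_ge_atTop 1] with n hn1 hn2 hn3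
    have hn0 : (1 : ℝ) ≤ n := by exact_mod_cast hn3
    have hl : Real.log n ≤ Real.log 2 / (2 * C2) * √n := by
      have h3 : ‖Real.log n‖ ≤ Real.log 2 / (2 * C2) * ‖(n : ℝ) ^ (1/2 : ℝ)‖ := hn1
      rw [← Real.sqrt_eq_rpow, Real.norm_of_nonneg (Real.sqrt_nonneg _)] at h3
      exact (le_abs_self _).trans h3
    have hs : √(n : ℝ) * √(n : ℝ) = n := Real.mul_self_sqrt (by linarith)
    have h4 : C2 * √n * Real.log n ≤ Real.log 2 / 2 * n := by
      calc C2 * √n * Real.log n ≤ C2 * √n * (Real.log 2 / (2 * C2) * √n) := by gcongr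
        _ = Real.log 2 / 2 * (√n * √n) := by field_simp
        _ = Real.log 2 / 2 * n := by rw [hs]
    have h5 : (2 : ℝ) ^ n = Real.exp (Real.log 2 / 2 * n) * Real.exp (Real.log 2 / 2 * n) := by
      rw [← Real.exp_add, ← Real.rpow_natCast, Real.rpow_def_of_pos (by norm_num)]
      congr 1; ring
    rw [h5]
    calc Real.exp (C2 * √n * Real.log n) * N0 ≤ Real.exp (Real.log 2 / 2 * n) * N0 := by
          gcongr
      _ < _ := by
          exact mul_lt_mul_of_pos_left hn2 (Real.exp_pos _)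
  -- (2)
  have e2 : ∀ᶠ n : ℕ in Filter.atTop,
      C2 / (√n) ^ (2 * (4 * N + 21)) < c * ((sp ε n) ^ (2 * N + 7)) ^ 2 * (sp ε n) ^ 6 := by
    have h1 : ∀ᶠ n : ℕ in Filter.atTop,
        C2 * 2 ^ (4 * N + 20) / (c * (√ε / 2000) ^ (4 * N + 20)) < (n : ℝ) :=
      hcast.eventually_gt_atTop _
    filter_upwards [h1, Filter.eventually_ge_atTop 1] with n hn1 hn3
    have hn0 : (1 : ℝ) ≤ n := by exact_mod_cast hn3
    have hnpos : (0 : ℝ) < n := by linarith
    have hs : √(n : ℝ) ^ (2 * (4 * N + 21)) = (n : ℝ) ^ (4 * N + 21) := by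
      rw [pow_mul, Real.sq_sqrt hnpos.le]
    have hr : c * ((sp ε n) ^ (2 * N + 7)) ^ 2 * (sp ε n) ^ 6 =
        c * (√ε / 2000) ^ (4 * N + 20) / ((n : ℝ) + 1) ^ (4 * N + 20) := by
      have : c * ((sp ε n) ^ (2 * N + 7)) ^ 2 * (sp ε n) ^ 6 = c * (sp ε n) ^ (4 * N + 20) := by
        rw [← pow_mul, mul_assoc, ← pow_add]
        congr 2; ring
      rw [this]
      unfold sp
      rw [div_pow (√ε / 2000)]
      ring
    rw [hs, hr, div_lt_div_iff₀ (by positivity) (by positivity)]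
    rw [div_lt_iff₀ (by positivity)] at hn1
    calc C2 * ((n : ℝ) + 1) ^ (4 * N + 20) ≤ C2 * (2 * n) ^ (4 * N + 20) := by
          gcongr; linarith
      _ = (C2 * 2 ^ (4 * N + 20)) * (n : ℝ) ^ (4 * N + 20) := by rw [mul_pow]; ring
      _ < (n * (c * (√ε / 2000) ^ (4 * N + 20))) * (n : ℝ) ^ (4 * N + 20) := by
          exact mul_lt_mul_of_pos_right hn1 (by positivity)
      _ = c * (√ε / 2000) ^ (4 * N + 20) * (n : ℝ) ^ (4 * N + 21) := by ring
  have e4 : ∀ᶠ n : ℕ in Filter.atTop, sp ε n < 1 := hsplim.eventually_lt_const (by norm_num)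
  have e3 : ∀ᶠ n : ℕ in Filter.atTop, sp ε n < δ / C3 :=
    hsplim.eventually_lt_const (by positivity)
  have hall := e1.and (e2.and (e3.and e4))
  rw [Filter.eventually_atTop] at hall
  obtain ⟨n1, hn1⟩ := hall
  refine ⟨n1, fun n hn => ?_⟩
  obtain ⟨g1, g2, g3, g4⟩ := hn1 n hn
  refine ⟨g1, g2, ?_, hsp n, g4.le⟩
  have h0 := hsp n
  have : (sp ε n) ^ (2 * N + 7) / (sp ε n) ^ (2 * N) = (sp ε n) ^ 7 := by
    rw [pow_add]; field_simp
  rw [this]
  have h7 : (sp ε n) ^ 7 ≤ sp ε n := by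
    have : (sp ε n) ^ 7 ≤ (sp ε n) ^ 1 := pow_le_pow_of_le_one h0.le g4.le (by norm_num)
    simpa using this
  have h8 : sp ε n * C3 ≤ δ := by
    rw [lt_div_iff₀ hC3] at g3
    exact g3.le
  calc C3 * (sp ε n) ^ 7 ≤ C3 * sp ε n := by gcongr
    _ ≤ δ := by rw [mul_comm]; exact h8

/-- two maps near models with parameters `lam, lam'` and `C³`-close to each other: the second one
is near the model with parameter `lam` (look at `D2 D2` of the third component at the origin). -/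
theorem common_lam (lam0 lam lam' η κ : ℝ) (F F' : Fin 3 → Sm) (h0 : 0 < lam0) (h1 : lam0 ≤ lam)
    (h2 : lam0 ≤ lam') (hη : 0 < η) (hη1 : η ≤ 1 / 16) (hκ : κ ≤ η * lam0)
    (hF : ∀ i, CkB (F i - F0 lam i) 4 (η * lam) (Box 2))
    (hF' : ∀ i, CkB (F' i - F0 lam' i) 4 (η * lam') (Box 2))
    (hc : ∀ i, CkB (F i - F' i) 3 κ (Box 2)) :
    ∀ i, CkB (F' i - F0 lam i) 4 (20 * η * lam) (Box 2) := by
  have hO : ((0 : ℝ), (0 : ℝ)) ∈ Box 2 := by
    constructor <;> simp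
  have hD : ∀ (l : ℝ) (G : Fin 3 → Sm), Dab 0 2 (G 2 - F0 l 2) (0, 0) = Dab 0 2 (G 2) (0, 0) - l := by
    intro l G
    rw [N1_Dab_sub, sub_ap]
    have : Dab 0 2 (F0 l 2) (0, 0) = l := by
      show (D2 (D2 ((l / 2) • Xt ^ 2 : Sm))) (0, 0) = l
      rw [Derivation.map_smul, Derivation.map_smul, LBb_D2D2_sq]
      show (l / 2) * (2 * 1) = l
      ring
    rw [this]
  have k1 := hF 2 0 2 (by norm_num) (0, 0) hO
  have k2 := hF' 2 0 2 (by norm_num) (0, 0) hO
  have k3 := hc 2 0 2 (by norm_num) (0, 0) hO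
  rw [hD] at k1 k2
  rw [N1_Dab_sub, sub_ap] at k3
  have hlam : 0 < lam := h0.trans_le h1
  have hlam' : 0 < lam' := h0.trans_le h2
  have hηl0 : η * lam0 ≤ η * lam := by gcongr
  -- |lam - lam'| ≤ η (2 lam + lam')
  have k4 : |lam' - lam| ≤ 2 * (η * lam) + η * lam' := by
    rw [abs_le] at k1 k2 k3 ⊢
    constructor <;> linarith [k1.1, k1.2, k2.1, k2.2, k3.1, k3.2]
  have k5 : lam' ≤ lam * (5 / 4) := by
    have := (abs_le.1 k4).2
    have e1 : η * lam ≤ 1 / 16 * lam := by gcongr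
    have e2 : η * lam' ≤ 1 / 16 * lam' := by gcongr
    nlinarith
  have k6 : |lam' - lam| ≤ 4 * (η * lam) := by
    have : η * lam' ≤ η * (lam * (5 / 4)) := by gcongr
    have h3 : 0 ≤ η * lam := by positivity
    nlinarith
  have hdiff : ∀ i, CkB (F0 lam' i - F0 lam i) 4 (8 * (η * lam)) (Box 2) := by
    intro i
    fin_cases i
    · have : F0 lam' 0 - F0 lam 0 = 0 := by
        show Xs - Xs = 0
        ring
      show CkB (F0 lam' 0 - F0 lam 0) 4 _ _
      rw [this]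
      exact LBb_CkB_zero _ _ (by positivity) _
    · have : F0 lam' 1 - F0 lam 1 = 0 := by
        show Xt - Xt = 0
        ring
      show CkB (F0 lam' 1 - F0 lam 1) 4 _ _
      rw [this]
      exact LBb_CkB_zero _ _ (by positivity) _
    · have : F0 lam' 2 - F0 lam 2 = ((lam' - lam) / 2) • Xt ^ 2 := by
        show (lam' / 2) • Xt ^ 2 - (lam / 2) • Xt ^ 2 = _
        module
      show CkB (F0 lam' 2 - F0 lam 2) 4 _ _
      rw [this]
      refine LBb_CkB_mono (LBb_CkB_smul _ _ _ _ _ LBb_CkB_sq) ?_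
      rw [abs_div, abs_of_pos (by norm_num : (0:ℝ) < 2)]
      linarith
  intro i a b hab p hp
  have e : F' i - F0 lam i = (F' i - F0 lam' i) + (F0 lam' i - F0 lam i) := by ring
  rw [e, LBb_Dab_add, add_ap]
  have m1 := hF' i a b hab p hp
  have m2 := hdiff i a b hab p hp
  have m3 : η * lam' ≤ η * (lam * (5 / 4)) := by gcongr
  have h3 : 0 ≤ η * lam := by positivity
  calc _ ≤ |Dab a b (F' i - F0 lam' i) p| + |Dab a b (F0 lam' i - F0 lam i) p| := abs_add_le _ _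
    _ ≤ 20 * η * lam := by nlinarith

/-- a map near the model is bounded with its derivatives -/
theorem near_bound (lam η : ℝ) (F : Fin 3 → Sm) (h1 : 0 < lam) (h2 : lam ≤ 1) (hη : 0 < η)
    (hη1 : η ≤ 1) (hF : ∀ i, CkB (F i - F0 lam i) 4 (η * lam) (Box 2)) :
    ∀ i, CkB (F i) 4 3 (Box 2) := by
  have h0 : ∀ i, CkB (F0 lam i) 4 2 (Box 2) := by
    intro i
    fin_cases i
    · exact LBb_CkB_Xs 3 2 le_rfl
    · exact LBb_CkB_Xt 3 2 le_rfl
    · show CkB ((lam / 2) • Xt ^ 2) 4 2 (Box 2)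
      refine LBb_CkB_mono (LBb_CkB_smul _ _ _ _ _ LBb_CkB_sq) ?_
      rw [abs_of_pos (by positivity)]
      linarith
  intro i a b hab p hp
  have e : F i = (F i - F0 lam i) + F0 lam i := by ring
  rw [e, LBb_Dab_add, add_ap]
  have m1 := hF i a b hab p hp
  have m2 := h0 i a b hab p hp
  have m3 : η * lam ≤ 1 := by nlinarith
  calc _ ≤ |Dab a b (F i - F0 lam i) p| + |Dab a b (F0 lam i) p| := abs_add_le _ _
    _ ≤ 3 := by linarith

theorem Good_mono {lam η η' : ℝ} {F : Fin 3 → Sm} (hlam : 0 ≤ lam) (h : η ≤ η')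
    (hF : Good lam η F) : Good lam η' F :=
  ⟨hF.1, fun i a b hab p hp => (hF.2 i a b hab p hp).trans (by gcongr)⟩

end NI
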