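import Crest.Agent.NI_P1

set_option autoImplicit false
open scoped ContDiff
open MeasureTheory

namespace NI

/-- Caccioppoli property of a family in the ring -/
def RingCac {ι : Type*} (C1 : ℝ) (T : Finset ι) (G : ι → Sm) : Prop :=
  ∀ i ∈ T, ∀ j ∈ T, ∀ r g R : ℝ, 1.1 ≤ r → 0 < g → r + g < R → R + g ≤ 1.5 →
    ∫ p in Ring (r + g) R, ((D1 (G i - G j) p) ^ 2 + (D2 (G i - G j) p) ^ 2)
      ≤ C1 / g ^ 2 * ∫ p in Ring r (R + g), ((G i - G j : Sm) p) ^ 2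

namespace P2

theorem ring_meas (r R : ℝ) : MeasurableSet (Ring r R) := by
  have : IsOpen (Ring r R) := by
    have h1 : Continuous (fun p : ℝ × ℝ => max |p.1| |p.2|) := by fun_prop
    exact (isOpen_lt continuous_const h1).inter (isOpen_lt h1 continuous_const)
  exact this.measurableSet

theorem ring_sub_box (r R : ℝ) : Ring r R ⊆ Set.Icc (-R) R ×ˢ Set.Icc (-R) R := by
  rintro ⟨x, y⟩ ⟨_, h2⟩
  simp only [max_lt_iff] at h2
  obtain ⟨hx, hy⟩ := h2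
  rw [abs_lt] at hx hy
  exact ⟨⟨hx.1.le, hx.2.le⟩, ⟨hy.1.le, hy.2.le⟩⟩

theorem ring_sub {r R r' R' : ℝ} (h1 : r ≤ r') (h2 : R' ≤ R) : Ring r' R' ⊆ Ring r R := by
  rintro p ⟨a, b⟩
  exact ⟨lt_of_le_of_lt h1 a, lt_of_lt_of_le b h2⟩

theorem ring_int {f : ℝ × ℝ → ℝ} (hf : Continuous f) (r R : ℝ) : IntegrableOn f (Ring r R) := by
  have hc : IsCompact (Set.Icc (-R) R ×ˢ Set.Icc (-R) R : Set (ℝ × ℝ)) :=
    isCompact_Icc.prod isCompact_Icc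
  exact (hf.continuousOn.integrableOn_compact hc).mono_set (ring_sub_box r R)

theorem ring_mono {f : ℝ × ℝ → ℝ} (hf : Continuous f) (h0 : ∀ p, 0 ≤ f p)
    {r R r' R' : ℝ} (h1 : r ≤ r') (h2 : R' ≤ R) :
    ∫ p in Ring r' R', f p ≤ ∫ p in Ring r R, f p := by
  apply setIntegral_mono_set (ring_int hf r R)
  · exact Filter.Eventually.of_forall h0
  · exact (ring_sub h1 h2).eventuallyLE

theorem ring_vol : (volume : Measure (ℝ × ℝ)).real (Ring 1.1 1.5) ≤ 9 := by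
  have h := ring_sub_box 1.1 1.5
  have hfin : (volume : Measure (ℝ × ℝ)) (Set.Icc (-1.5) 1.5 ×ˢ Set.Icc (-1.5) 1.5) ≠ ⊤ := by
    rw [Measure.volume_eq_prod, Measure.prod_prod]
    simp [Real.volume_Icc, ENNReal.mul_eq_top]
  have h1 := measureReal_mono h hfin
  refine h1.trans ?_
  rw [Measure.real, Measure.volume_eq_prod, Measure.prod_prod, Real.volume_Icc,
    ENNReal.toReal_mul, ENNReal.toReal_ofReal (by norm_num)]
  norm_num

theorem init {ι : Type*} (M : ℝ) (_hM : 0 < M) (T : Finset ι) (G : ι → Sm)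
    (hG : ∀ i ∈ T, ∀ p ∈ Box 2, |G i p| ≤ M) :
    ∀ i ∈ T, ∀ j ∈ T, ∫ p in Ring 1.1 1.5, ((G i - G j : Sm) p) ^ 2 ≤ 36 * M ^ 2 := by
  intro i hi j hj
  have hb : ∀ p ∈ Ring 1.1 1.5, ‖((G i - G j : Sm) p) ^ 2‖ ≤ 4 * M ^ 2 := by
    intro p hp
    have hp2 : p ∈ Box 2 := by
      obtain ⟨_, h2⟩ := hp
      rw [max_lt_iff] at h2
      exact ⟨by linarith [h2.1], by linarith [h2.2]⟩
    have h1 := hG i hi p hp2
    have h2 := hG j hj p hp2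
    rw [abs_le] at h1 h2
    rw [Real.norm_eq_abs, abs_of_nonneg (sq_nonneg _), sub_ap]
    nlinarith [h1.1, h1.2, h2.1, h2.2]
  have hfin : (volume : Measure (ℝ × ℝ)) (Ring 1.1 1.5) < ⊤ := by
    have hfin : (volume : Measure (ℝ × ℝ)) (Set.Icc (-1.5) 1.5 ×ˢ Set.Icc (-1.5) 1.5) ≠ ⊤ := by
      rw [Measure.volume_eq_prod, Measure.prod_prod]
      simp [Real.volume_Icc, ENNReal.mul_eq_top]
    exact lt_of_le_of_lt (measure_mono (ring_sub_box 1.1 1.5)) (lt_top_iff_ne_top.2 hfin)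
  have h := norm_setIntegral_le_of_norm_le_const hfin hb
  have h3 := ring_vol
  have h4 := le_trans (Real.le_norm_self _) h
  have h5 : (0:ℝ) ≤ 4 * M ^ 2 := by positivity
  nlinarith [mul_le_mul_of_nonneg_left h3 h5]

theorem sm_cont (f : Sm) : Continuous (f : ℝ × ℝ → ℝ) := (smooth f).continuous

theorem card_bd (J0 : ℕ) (A M κ : ℝ) (n : ℕ) (hA0 : 0 < A) (hn2 : (400 : ℝ) ≤ n)
    (hκ2 : κ ^ 2 = 1 / √(n : ℝ)) :
    ((20 / κ ^ 2) ^ (⌈25 / κ ^ 2⌉₊)) ^ J0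
      ≤ Real.exp ((27 * (J0 + 1) + A ^ J0 * (36 * M ^ 2)) * √n * Real.log n) := by
  have hn0 : (0 : ℝ) < n := by linarith
  have hJ : (0:ℝ) ≤ (J0 : ℝ) := Nat.cast_nonneg _
  have hs : 0 < √(n : ℝ) := Real.sqrt_pos.2 hn0
  have h20 : (20 : ℝ) ≤ √(n : ℝ) := by
    apply Real.le_sqrt_of_sq_le
    linarith
  have hlog : 0 < Real.log n := Real.log_pos (by linarith)
  have h1 : 20 / κ ^ 2 = 20 * √(n : ℝ) := by rw [hκ2]; field_simp
  have h2 : 25 / κ ^ 2 = 25 * √(n : ℝ) := by rw [hκ2]; field_simp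
  rw [h1, h2, ← pow_mul]
  have h3 : 20 * √(n : ℝ) ≤ n := by
    have : √(n : ℝ) * √(n : ℝ) = n := Real.mul_self_sqrt hn0.le
    nlinarith
  have h5 : ((⌈25 * √(n : ℝ)⌉₊ : ℕ) : ℝ) ≤ 26 * √(n : ℝ) := by
    have := (Nat.ceil_lt_add_one (show (0:ℝ) ≤ 25 * √(n : ℝ) by positivity)).le
    linarith
  have h6 : ((⌈25 * √(n : ℝ)⌉₊ : ℕ) : ℝ) * (J0 : ℝ) ≤ 27 * ((J0 : ℝ) + 1) * √(n : ℝ) := by
    have := mul_le_mul_of_nonneg_right h5 hJ
    have h61 : 0 ≤ (J0 : ℝ) * √(n : ℝ) := mul_nonneg hJ hs.le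
    linarith
  have h7 : 0 ≤ A ^ J0 * (36 * M ^ 2) * √(n : ℝ) := by positivity
  have h8 : ((⌈25 * √(n : ℝ)⌉₊ : ℕ) : ℝ) * (J0 : ℝ)
      ≤ (27 * ((J0 : ℝ) + 1) + A ^ J0 * (36 * M ^ 2)) * √(n : ℝ) := by
    linarith
  calc (20 * √(n : ℝ)) ^ (⌈25 * √(n : ℝ)⌉₊ * J0)
      ≤ (n : ℝ) ^ (⌈25 * √(n : ℝ)⌉₊ * J0) := pow_le_pow_left₀ (by positivity) h3 _
    _ = Real.exp (Real.log n * ((⌈25 * √(n : ℝ)⌉₊ * J0 : ℕ) : ℝ)) := by
        rw [← Real.rpow_def_of_pos hn0, Real.rpow_natCast]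
    _ ≤ _ := by
        apply Real.exp_le_exp.2
        rw [Nat.cast_mul, mul_comm (_ * √(n:ℝ)) (Real.log n)]
        exact mul_le_mul_of_nonneg_left h8 hlog.le

end P2

open P2 in
set_option maxHeartbeats 1600000 in
/-- iterate `one_step` `J0` times with `κ = n^{-1/4}`, the radii moving from `(1.1,1.5)` to
`(1.12,1.38)`. -/
theorem ring_pigeonhole (C1 M : ℝ) (hC1 : 0 < C1) (hM : 0 < M) (J0 : ℕ) :
    ∃ C2 : ℝ, 0 < C2 ∧ ∃ n0 : ℕ, ∀ n : ℕ, n0 ≤ n → ∀ {ι : Type} (T : Finset ι) (G : ι → Sm),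
      (∀ i ∈ T, ∀ p ∈ Box 2, |G i p| ≤ M) → RingCac C1 T G →
      Real.exp (C2 * √n * Real.log n) < (T.card : ℝ) →
      ∃ i ∈ T, ∃ j ∈ T, i ≠ j ∧
        ∫ p in Ring 1.12 1.38, ((G i - G j : Sm) p) ^ 2 ≤ C2 / (√n) ^ J0 := by
  obtain ⟨g, hg⟩ : ∃ g : ℝ, g = 1 / (200 * ((J0 : ℝ) + 1)) := ⟨_, rfl⟩
  have hJ : (0:ℝ) ≤ (J0 : ℝ) := Nat.cast_nonneg _
  have hg0 : 0 < g := by rw [hg]; positivity
  have hgJ : g * ((J0 : ℝ) + 1) = 1 / 200 := by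
    rw [hg]; field_simp
  have hg40 : g ≤ 1 / 200 := by nlinarith
  obtain ⟨A, hA⟩ : ∃ A : ℝ, A = 2 * (C1 / g ^ 2) + 1 := ⟨_, rfl⟩
  have hA0 : 0 < A := by rw [hA]; positivity
  refine ⟨27 * (J0 + 1) + A ^ J0 * (36 * M ^ 2), by positivity,
    ⌈(1 / g) ^ 4⌉₊ + 400, ?_⟩
  intro n hn ι T G hG hCac hcard
  have hn1 : (1 / g) ^ 4 ≤ (n : ℝ) := by
    have h1 : (1 / g) ^ 4 ≤ (⌈(1 / g) ^ 4⌉₊ : ℝ) := Nat.le_ceil _
    have h2 : ((⌈(1 / g) ^ 4⌉₊ + 400 : ℕ) : ℝ) ≤ n := by exact_mod_cast hn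
    push_cast at h2
    linarith
  have hn2 : (400 : ℝ) ≤ n := by
    have h2 : 400 ≤ n := by omega
    exact_mod_cast h2
  have hn0 : (0 : ℝ) < n := by linarith
  have hs : 0 < √(n : ℝ) := Real.sqrt_pos.2 hn0
  have hss : 0 < √(√(n : ℝ)) := Real.sqrt_pos.2 hs
  obtain ⟨κ, hκdef⟩ : ∃ κ : ℝ, κ = 1 / √(√(n : ℝ)) := ⟨_, rfl⟩
  have hκ0 : 0 < κ := by rw [hκdef]; positivity
  have hκ2 : κ ^ 2 = 1 / √(n : ℝ) := by
    rw [hκdef, div_pow, one_pow, Real.sq_sqrt hs.le]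
  have hκg : κ ≤ g := by
    have h1 : 1 / g ≤ √(√(n : ℝ)) := by
      apply Real.le_sqrt_of_sq_le
      apply Real.le_sqrt_of_sq_le
      have h0 : ((1 / g) ^ 2) ^ 2 = (1 / g) ^ 4 := by ring
      rw [h0]
      exact hn1
    rw [hκdef]
    rw [div_le_iff₀ hss]
    rw [div_le_iff₀ hg0] at h1
    linarith
  have hκ20 : κ ≤ 1 / 20 := by linarith
  have h20 : (20 : ℝ) ≤ √(n : ℝ) := by
    apply Real.le_sqrt_of_sq_le; linarith
  -- the main induction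
  have main : ∀ j : ℕ, j ≤ J0 → ∃ T' ⊆ T, T'.Nonempty ∧
      (T.card : ℝ) ≤ ((20 / κ ^ 2) ^ (⌈25 / κ ^ 2⌉₊)) ^ j * (T'.card : ℝ) ∧
      ∀ a ∈ T', ∀ b ∈ T', ∫ p in Ring (1.1 + 2 * g * j) (1.5 - 2 * g * j),
        ((G a - G b : Sm) p) ^ 2 ≤ (A * κ ^ 2) ^ j * (36 * M ^ 2) := by
    intro j
    induction j with
    | zero =>
      intro _
      refine ⟨T, Finset.Subset.refl _, ?_, by simp, ?_⟩
      · rw [← Finset.card_pos]
        have : (0 : ℝ) < T.card := lt_trans (Real.exp_pos _) hcard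
        exact_mod_cast this
      · intro a ha b hb
        have := init M hM T G hG a ha b hb
        simpa using this
    | succ j ih =>
      intro hj
      obtain ⟨T1, hT1, hne, hc1, hi1⟩ := ih (by omega)
      have hjJ : ((j : ℝ) + 1) ≤ J0 := by exact_mod_cast hj
      have hj0 : (0 : ℝ) ≤ j := Nat.cast_nonneg _
      have hgj : g * ((j : ℝ) + 1) ≤ 1 / 200 := by nlinarith
      have hgj0 : 0 ≤ g * (j : ℝ) := by positivity
      have hm2 : 0 < (A * κ ^ 2) ^ j * (36 * M ^ 2) := by positivity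
      obtain ⟨m, hm⟩ : ∃ m : ℝ, m = √((A * κ ^ 2) ^ j * (36 * M ^ 2)) := ⟨_, rfl⟩
      have hm0 : 0 < m := by rw [hm]; exact Real.sqrt_pos.2 hm2
      have hmsq : m ^ 2 = (A * κ ^ 2) ^ j * (36 * M ^ 2) := by
        rw [hm, Real.sq_sqrt hm2.le]
      have hB : (√C1 / g) ^ 2 = C1 / g ^ 2 := by
        rw [div_pow, Real.sq_sqrt hC1.le]
      have hcont : ∀ a b, Continuous (fun p => ((G a - G b : Sm) p) ^ 2) := by
        intro a b
        exact (sm_cont (G a - G b)).pow 2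
      have hnn : ∀ a b p, 0 ≤ ((G a - G b : Sm) p) ^ 2 := fun a b p => sq_nonneg _
      obtain ⟨T2, hT2, hne2, hc2, hi2⟩ := one_step κ (1.1 + 2 * g * j + g + κ)
        (1.5 - 2 * g * j - g - κ) m (√C1 / g) hκ0 hκ20
        (by nlinarith) (by norm_num; nlinarith) hm0 (by positivity) T1 hne G
        (by
          intro a ha b hb
          rw [hmsq]
          refine le_trans ?_ (hi1 a ha b hb)
          apply ring_mono (hcont a b) (hnn a b) <;> linarith)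
        (by
          intro a ha b hb
          have h1 := hCac a (hT1 ha) b (hT1 hb) (1.1 + 2 * g * j) g (1.5 - 2 * g * j - g)
            (by nlinarith) hg0 (by norm_num; nlinarith) (by nlinarith)
          have e1 : 1.1 + 2 * g * (j:ℝ) + g + κ - κ = 1.1 + 2 * g * j + g := by ring
          have e2 : 1.5 - 2 * g * (j:ℝ) - g - κ + κ = 1.5 - 2 * g * j - g := by ring
          have e3 : 1.5 - 2 * g * (j:ℝ) - g + g = 1.5 - 2 * g * j := by ring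
          rw [e1, e2]
          rw [e3] at h1
          refine h1.trans ?_
          rw [hB, hmsq]
          exact mul_le_mul_of_nonneg_left (hi1 a ha b hb) (by positivity))
      refine ⟨T2, hT2.trans hT1, hne2, ?_, ?_⟩
      · rw [pow_succ]
        refine hc1.trans ?_
        have hK : 0 ≤ ((20 / κ ^ 2) ^ (⌈25 / κ ^ 2⌉₊)) ^ j := by positivity
        calc ((20 / κ ^ 2) ^ (⌈25 / κ ^ 2⌉₊)) ^ j * (T1.card : ℝ)
            ≤ ((20 / κ ^ 2) ^ (⌈25 / κ ^ 2⌉₊)) ^ j *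
              ((20 / κ ^ 2) ^ (⌈25 / κ ^ 2⌉₊) * (T2.card : ℝ)) :=
              mul_le_mul_of_nonneg_left hc2 hK
          _ = _ := by ring
      · intro a ha b hb
        have h1 := hi2 a ha b hb
        rw [hB, hmsq] at h1
        calc ∫ p in Ring (1.1 + 2 * g * ((j + 1 : ℕ) : ℝ)) (1.5 - 2 * g * ((j + 1 : ℕ) : ℝ)),
              ((G a - G b : Sm) p) ^ 2
            ≤ ∫ p in Ring (1.1 + 2 * g * j + g + κ) (1.5 - 2 * g * j - g - κ),
              ((G a - G b : Sm) p) ^ 2 := by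
              apply ring_mono (hcont a b) (hnn a b) <;> push_cast <;> nlinarith
          _ ≤ (2 * (C1 / g ^ 2) + 1) * κ ^ 2 * ((A * κ ^ 2) ^ j * (36 * M ^ 2)) := h1
          _ = (A * κ ^ 2) ^ (j + 1) * (36 * M ^ 2) := by
              rw [← hA]; ring
  obtain ⟨T', hT', hne', hc', hi'⟩ := main J0 le_rfl
  -- the cardinality
  have hK : ((20 / κ ^ 2) ^ (⌈25 / κ ^ 2⌉₊)) ^ J0
      ≤ Real.exp ((27 * (J0 + 1) + A ^ J0 * (36 * M ^ 2)) * √n * Real.log n) := by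
    exact P2.card_bd J0 A M κ n hA0 hn2 hκ2
  have h2card : 1 < T'.card := by
    by_contra hcon
    have h1 : (T'.card : ℝ) ≤ 1 := by exact_mod_cast (not_lt.1 hcon)
    have hKpos : 0 ≤ ((20 / κ ^ 2) ^ (⌈25 / κ ^ 2⌉₊)) ^ J0 := by positivity
    have h3 : (T.card : ℝ) ≤ ((20 / κ ^ 2) ^ (⌈25 / κ ^ 2⌉₊)) ^ J0 := by
      nlinarith [mul_le_mul_of_nonneg_left h1 hKpos]
    linarith
  obtain ⟨a, ha, b, hb, hab⟩ := Finset.one_lt_card.1 h2card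
  refine ⟨a, hT' ha, b, hT' hb, hab, ?_⟩
  have hcont : Continuous (fun p => ((G a - G b : Sm) p) ^ 2) :=
    (sm_cont (G a - G b)).pow 2
  have h1 := hi' a ha b hb
  calc ∫ p in Ring 1.12 1.38, ((G a - G b : Sm) p) ^ 2
      ≤ ∫ p in Ring (1.1 + 2 * g * J0) (1.5 - 2 * g * J0), ((G a - G b : Sm) p) ^ 2 := by
        apply ring_mono hcont (fun p => sq_nonneg _) <;> norm_num <;> nlinarith
    _ ≤ (A * κ ^ 2) ^ J0 * (36 * M ^ 2) := h1
    _ = A ^ J0 * (36 * M ^ 2) / (√n) ^ J0 := by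
        rw [mul_pow, hκ2, one_div, inv_pow]
        field_simp
    _ ≤ _ := by
        apply div_le_div_of_nonneg_right _ (by positivity)
        have : 0 ≤ 27 * ((J0 : ℝ) + 1) := by positivity
        linarith

end NI
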