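import Crest.Agent.NI_D1
import Crest.Agent.NI_D2
import Crest.Agent.NI_B1

set_option autoImplicit false
open scoped ContDiff
open MeasureTheory

namespace NI

namespace PCaux

theorem sp_pos {ε : ℝ} (he : 0 < ε) (n : ℕ) : 0 < sp ε n := by
  unfold sp
  have : 0 < √ε := Real.sqrt_pos.2 he
  positivity

theorem sp_mul {ε : ℝ} (n : ℕ) : sp ε n * (n + 1) = √ε / 2000 := by
  unfold sp
  have : (n : ℝ) + 1 ≠ 0 := by positivity
  field_simp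

theorem sqrt_le_one' {ε : ℝ} (he1 : ε ≤ 1) : √ε ≤ 1 := Real.sqrt_le_one.2 he1

theorem sp_le {ε : ℝ} (he : 0 < ε) (he1 : ε ≤ 1) (n : ℕ) : sp ε n ≤ 1 / 2000 := by
  have h1 := sp_mul (ε := ε) n
  have h2 := sp_pos he n
  have h3 : √ε ≤ 1 := sqrt_le_one' he1
  have h4 : (0:ℝ) ≤ n := Nat.cast_nonneg n
  nlinarith

theorem Et_sub_phi (ε A : ℝ) (n : ℕ) (t : Fin n → Bool) :
    Et ε A n t - 1 - ε • phi = hh A ((sp ε n) ^ 2) (sp ε n) n (b01 t) := by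
  unfold Et; abel

theorem Et_sub_Et (ε A : ℝ) (n : ℕ) (t t' : Fin n → Bool) :
    Et ε A n t - Et ε A n t' = hh A ((sp ε n) ^ 2) (sp ε n) n (b01 t - b01 t') := by
  rw [← hh_sub]; unfold Et; abel

theorem b01_abs {n : ℕ} (t : Fin n → Bool) (i : Fin n) : |b01 t i| ≤ 1 := by
  unfold b01; split_ifs <;> simp

theorem Et_zero_far {ε : ℝ} (he : 0 < ε) (he1 : ε ≤ 1) (A : ℝ) (n : ℕ) (t t' : Fin n → Bool) :
    ∀ p ∈ Ring 1.1 1.5, (Et ε A n t - Et ε A n t' : Sm) p = 0 := by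
  intro p hp
  rw [Et_sub_Et]
  apply image_eq_zero_of_notMem_tsupport
  intro hcon
  have hs := sp_pos he n
  have hs1 := sp_le he he1 n
  obtain ⟨h1, h2, h3⟩ := hh_support A _ _ n _ (by positivity) hs p hcon
  have h4 := sp_mul (ε := ε) n
  have h5 : √ε ≤ 1 := sqrt_le_one' he1
  have h6 : p.2 ≤ 1 := by nlinarith
  have h7 : |p.2| ≤ 1 := by
    rw [abs_of_nonneg (by linarith)]; exact h6
  have h8 : |p.1| ≤ 1 := by nlinarith
  have h9 := hp.1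
  rcases lt_max_iff.1 h9 with h | h <;> norm_num at h <;> linarith

end PCaux

open PCaux

/-- Caccioppoli property in the ring for a pair (to feed `RingCac`).
`exists_data` (with `E = Et ..`; `Et - 1 - ε•phi = hh ..`, its `C³` bound `C A/(sp²)³ ≤ C sp ≤ ε²`
by `hh_C3` for `n` large, `b01 ≤ 1`) gives `D : Data lam ε F F' (E - E')`;
`E - E' = hh A .. (b01 t - b01 t')` (`hh_sub`) vanishes on `Ring 1.1 1.5` by `hh_support`
(`|s| ≤ sp²`, `0 ≤ t ≤ (n+1/8) sp ≤ √ε/2000`), then `ring_cac`, `C1 = C lam²/ε ≤ C/ε`. -/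
theorem pair_cac : ∃ η8 : ℝ, 0 < η8 ∧ ∃ ε8 : ℝ, 0 < ε8 ∧ ∀ lam0 ε : ℝ, 0 < lam0 → lam0 ≤ 1 →
    0 < ε → ε ≤ ε8 → ∃ C1 : ℝ, 0 < C1 ∧ ∃ n8 : ℕ, ∀ n : ℕ, n8 ≤ n →
    ∀ A : ℝ, 0 < A → A ≤ (sp ε n) ^ 7 → ∀ lam : ℝ, lam0 ≤ lam → lam ≤ 1 →
    ∀ F F' : Fin 3 → Sm, Good lam η8 F → Good lam η8 F' → ∀ t t' : Fin n → Bool,
    Isom (Et ε A n t) F (Box 1.8) → Isom (Et ε A n t') F' (Box 1.8) →
    (∀ c, CkB (F c - F' c) 3 (ε ^ 2) Set.univ) →
    ∀ r g R : ℝ, 1.1 ≤ r → 0 < g → r + g < R → R + g ≤ 1.5 →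
    ∫ p in Ring (r + g) R, ((D1 (F 2 - F' 2) p) ^ 2 + (D2 (F 2 - F' 2) p) ^ 2)
      ≤ C1 / g ^ 2 * ∫ p in Ring r (R + g), ((F 2 - F' 2 : Sm) p) ^ 2 := by
  obtain ⟨η7, hη7, ε7, hε7, CH, hCH, hdata⟩ := exists_data
  obtain ⟨C, hC, hcac⟩ := ring_cac
  obtain ⟨C3, hC3, hhC3⟩ := hh_C3
  refine ⟨η7, hη7, min ε7 1, lt_min hε7 one_pos, ?_⟩
  intro lam0 ε hl0 hl01 he hee
  have he7 : ε ≤ ε7 := hee.trans (min_le_left _ _)
  have he1 : ε ≤ 1 := hee.trans (min_le_right _ _)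
  obtain ⟨n8, hn8⟩ := exists_nat_ge (C3 * (√ε / 2000) / ε ^ 2)
  refine ⟨C / ε, by positivity, n8, ?_⟩
  intro n hn A hA hAs lam hlam hlam1 F F' hF hF' t t' hI hI' hc r g R hr hg hrR hRg
  have hl : 0 < lam := hl0.trans_le hlam
  have hs := sp_pos he n
  have hs1 := sp_le he he1 n
  have hspn : C3 * sp ε n ≤ ε ^ 2 := by
    have h1 : C3 * (√ε / 2000) / ε ^ 2 ≤ (n : ℝ) + 1 := by
      have : (n8 : ℝ) ≤ n := by exact_mod_cast hn
      linarith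
    rw [div_le_iff₀ (by positivity)] at h1
    have h2 : C3 * sp ε n * (n + 1) ≤ ε ^ 2 * (n + 1) := by
      have := sp_mul (ε := ε) n
      calc C3 * sp ε n * (n + 1) = C3 * (sp ε n * (n + 1)) := by ring
        _ = C3 * (√ε / 2000) := by rw [this]
        _ ≤ _ := by linarith
    exact le_of_mul_le_mul_right h2 (by positivity)
  have hCk : CkB (Et ε A n t - 1 - ε • phi) 3 (ε ^ 2) (Box 1.8) := by
    rw [Et_sub_phi]
    intro a b hab p _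
    have h1 := hhC3 A ((sp ε n) ^ 2) (sp ε n) n (b01 t) hA (by positivity)
      (by nlinarith) (by linarith) (b01_abs t) a b hab p (Set.mem_univ _)
    refine h1.trans ?_
    calc C3 * A / ((sp ε n) ^ 2) ^ 3 ≤ C3 * (sp ε n) ^ 7 / ((sp ε n) ^ 2) ^ 3 := by gcongr
      _ = C3 * sp ε n := by field_simp
      _ ≤ ε ^ 2 := hspn
  obtain ⟨D, -⟩ := hdata lam ε F F' (Et ε A n t) (Et ε A n t') hl hlam1 he he7 hF hF' hI hI' hCk hc
  have h := hcac lam ε F F' _ D hl hlam1 he he1 (Et_zero_far he he1 A n t t') r g R hr hg hrR hRg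
  refine h.trans ?_
  apply mul_le_mul_of_nonneg_right
  · have : C * lam ^ 2 / ε ≤ C / ε := by
      apply div_le_div_of_nonneg_right _ he.le
      nlinarith [pow_le_one₀ (n := 2) hl.le hlam1]
    exact div_le_div_of_nonneg_right this (by positivity)
  · apply integral_nonneg; intro p; positivity

end NI
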