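import Crest.Agent.NI_D1
import Crest.Agent.NI_D2
import Crest.Agent.NI_D3
import Crest.Agent.NI_D3b
import Crest.Agent.NI_D4
import Crest.Agent.NI_D4b
import Crest.Agent.NI_D5
import Crest.Agent.NI_B1

set_option autoImplicit false
open scoped ContDiff
open MeasureTheory

namespace NI

/-- final algebra of the pair theorem -/
private theorem PT_final (A ϖ lam lam0 Cp M CS CL CH C1 K1 I W1 W2 N P : ℝ)
    (hA : 0 < A) (hϖ : 0 < ϖ) (hϖ1 : ϖ ≤ 1) (hl0 : 0 < lam0) (hl : lam0 ≤ lam)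
    (hCp : 0 < Cp) (hM : 0 < M) (hCS : 0 < CS) (hCL : 0 < CL) (hCH : 0 < CH) (hC1 : 0 < C1)
    (hK1 : 0 < K1) (hP0 : 0 ≤ P)
    (h1 : A * ϖ ^ 2 * ϖ / 20 ≤ Cp * M * (√(ϖ ^ 2 * ϖ) * √(W1 / lam) + √(W2 / lam)))
    (hW1 : W1 ≤ CS * ((ϖ ^ 2) ^ 4 * N + P)) (hW2 : W2 ≤ CS * P)
    (hN : N ≤ CL * CH ^ 2 * A ^ 2 / (lam * ϖ ^ 2)) (hP : P ≤ C1 * (K1 * I))
    (hsm : Cp * M * (√(CS * CL) * CH / lam0) * ϖ ≤ 1 / 40) :
    lam0 / (6400 * Cp ^ 2 * M ^ 2 * CS * C1 * K1) * A ^ 2 * ϖ ^ 6 ≤ I := by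
  have hlam : 0 < lam := by linarith
  set X : ℝ := √(CS * P / lam) with hX
  have hX0 : 0 ≤ X := Real.sqrt_nonneg _
  have hXsq : X ^ 2 = CS * P / lam := Real.sq_sqrt (by positivity)
  set S : ℝ := √(CS * CL) with hS
  have hS0 : 0 ≤ S := Real.sqrt_nonneg _
  have hSsq : S ^ 2 = CS * CL := Real.sq_sqrt (by positivity)
  have hr : √(ϖ ^ 2 * ϖ) ≤ ϖ := by
    rw [Real.sqrt_le_left hϖ.le]
    nlinarith
  have hr0 : 0 ≤ √(ϖ ^ 2 * ϖ) := Real.sqrt_nonneg _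
  have hw2 : √(W2 / lam) ≤ X := by
    apply Real.sqrt_le_sqrt
    gcongr
  have hw1 : √(W1 / lam) ≤ S * CH * A * ϖ ^ 3 / lam + X := by
    rw [Real.sqrt_le_left (by positivity)]
    have e1 : W1 / lam ≤ S ^ 2 * CH ^ 2 * A ^ 2 * ϖ ^ 6 / lam ^ 2 + X ^ 2 := by
      rw [hXsq, hSsq]
      calc W1 / lam ≤ CS * ((ϖ ^ 2) ^ 4 * N + P) / lam := by gcongr
        _ ≤ CS * ((ϖ ^ 2) ^ 4 * (CL * CH ^ 2 * A ^ 2 / (lam * ϖ ^ 2)) + P) / lam := by gcongr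
        _ = CS * CL * CH ^ 2 * A ^ 2 * ϖ ^ 6 / lam ^ 2 + CS * P / lam := by
          field_simp
    have e2 : (S * CH * A * ϖ ^ 3 / lam + X) ^ 2 = S ^ 2 * CH ^ 2 * A ^ 2 * ϖ ^ 6 / lam ^ 2 + X ^ 2
        + 2 * (S * CH * A * ϖ ^ 3 / lam) * X := by
      field_simp
      ring
    rw [e2]
    have : 0 ≤ 2 * (S * CH * A * ϖ ^ 3 / lam) * X := by positivity
    linarith
  have h2 : A * ϖ ^ 3 / 20 ≤ Cp * M * (ϖ * (S * CH * A * ϖ ^ 3 / lam + X) + X) := by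
    calc A * ϖ ^ 3 / 20 = A * ϖ ^ 2 * ϖ / 20 := by ring
      _ ≤ Cp * M * (√(ϖ ^ 2 * ϖ) * √(W1 / lam) + √(W2 / lam)) := h1
      _ ≤ _ := by gcongr
  have h3 : Cp * M * (ϖ * (S * CH * A * ϖ ^ 3 / lam)) ≤ A * ϖ ^ 3 / 40 := by
    have e : Cp * M * (ϖ * (S * CH * A * ϖ ^ 3 / lam)) =
        Cp * M * (S * CH / lam) * ϖ * (A * ϖ ^ 3) := by ring
    rw [e]
    have h4 : Cp * M * (S * CH / lam) * ϖ ≤ 1 / 40 := by
      refine le_trans ?_ hsm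
      gcongr
    calc Cp * M * (S * CH / lam) * ϖ * (A * ϖ ^ 3) ≤ 1 / 40 * (A * ϖ ^ 3) := by
          gcongr
      _ = A * ϖ ^ 3 / 40 := by ring
  have h5 : Cp * M * (ϖ * X + X) ≤ 2 * (Cp * M * X) := by
    have : ϖ * X ≤ X := by nlinarith
    have hCM : 0 < Cp * M := by positivity
    nlinarith
  have h6 : A * ϖ ^ 3 / 80 ≤ Cp * M * X := by
    have e : Cp * M * (ϖ * (S * CH * A * ϖ ^ 3 / lam + X) + X) =
      Cp * M * (ϖ * (S * CH * A * ϖ ^ 3 / lam)) + Cp * M * (ϖ * X + X) := by ring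
    rw [e] at h2
    linarith
  have h7 : (A * ϖ ^ 3 / 80) ^ 2 ≤ (Cp * M * X) ^ 2 := pow_le_pow_left₀ (by positivity) h6 2
  have h8 : (Cp * M * X) ^ 2 ≤ Cp ^ 2 * M ^ 2 * (CS * (C1 * (K1 * I)) / lam0) := by
    have e : (Cp * M * X) ^ 2 = Cp ^ 2 * M ^ 2 * (CS * P / lam) := by rw [← hXsq]; ring
    rw [e]
    have h9 : CS * P / lam ≤ CS * (C1 * (K1 * I)) / lam0 := by
      apply div_le_div₀ _ _ hl0 hl
      · have := le_trans hP0 hP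
        positivity
      · gcongr
    gcongr
  have h10 : (A * ϖ ^ 3 / 80) ^ 2 = A ^ 2 * ϖ ^ 6 / 6400 := by ring
  rw [h10] at h7
  have h11 := h7.trans h8
  have e3 : lam0 / (6400 * Cp ^ 2 * M ^ 2 * CS * C1 * K1) * A ^ 2 * ϖ ^ 6 =
      (A ^ 2 * ϖ ^ 6 / 6400) * (lam0 / (Cp ^ 2 * M ^ 2 * CS * C1 * K1)) := by
    field_simp
  rw [e3]
  calc (A ^ 2 * ϖ ^ 6 / 6400) * (lam0 / (Cp ^ 2 * M ^ 2 * CS * C1 * K1))
      ≤ (Cp ^ 2 * M ^ 2 * (CS * (C1 * (K1 * I)) / lam0)) * (lam0 / (Cp ^ 2 * M ^ 2 * CS * C1 * K1)) := by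
        gcongr
    _ = I := by field_simp

private theorem PT_cont (f : Sm) : Continuous (f : ℝ × ℝ → ℝ) := (smooth f).continuous

private theorem PT_ring_int (f : ℝ × ℝ → ℝ) (hf : Continuous f) (a b : ℝ) : IntegrableOn f (Ring a b) := by
  have hK : IsCompact (Set.Icc (-b) b ×ˢ Set.Icc (-b) b) := isCompact_Icc.prod isCompact_Icc
  refine (hf.continuousOn.integrableOn_compact hK).mono_set ?_
  intro p hp
  have h := hp.2
  rw [max_lt_iff, abs_lt, abs_lt] at h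
  exact ⟨⟨h.1.1.le, h.1.2.le⟩, ⟨h.2.1.le, h.2.2.le⟩⟩

/-- Caccioppoli plus the zero order term -/
private theorem PT_energy (C lam ε : ℝ) (w : Sm) (hC : 0 < C) (hl : 0 < lam) (hl1 : lam ≤ 1) (hε : 0 < ε)
    (h : ∫ p in Ring (1.12 + 0.03) 1.35, ((D1 w p) ^ 2 + (D2 w p) ^ 2)
      ≤ C * lam ^ 2 / ε / 0.03 ^ 2 * ∫ p in Ring 1.12 (1.35 + 0.03), (w p) ^ 2) :
    ∫ p in Ring 1.15 1.35, ((D1 w p) ^ 2 + (D2 w p) ^ 2 + (w p) ^ 2)
      ≤ (C / ε / 0.03 ^ 2 + 1) * ∫ p in Ring 1.12 1.38, (w p) ^ 2 := by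
  have e1 : (1.12 + 0.03 : ℝ) = 1.15 := by norm_num
  have e2 : (1.35 + 0.03 : ℝ) = 1.38 := by norm_num
  rw [e1, e2] at h
  have c1 : Continuous fun p : ℝ × ℝ => (D1 w p) ^ 2 + (D2 w p) ^ 2 :=
    ((PT_cont (D1 w)).pow 2).add ((PT_cont (D2 w)).pow 2)
  have c2 : Continuous fun p : ℝ × ℝ => (w p) ^ 2 := (PT_cont w).pow 2
  rw [integral_add (PT_ring_int _ c1 _ _) (PT_ring_int _ c2 _ _)]
  have hI0 : 0 ≤ ∫ p in Ring 1.12 1.38, (w p) ^ 2 :=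
    integral_nonneg fun p => sq_nonneg _
  have h3 : ∫ p in Ring 1.15 1.35, (w p) ^ 2 ≤ ∫ p in Ring 1.12 1.38, (w p) ^ 2 := by
    apply setIntegral_mono_set (PT_ring_int _ c2 _ _)
    · exact Filter.Eventually.of_forall fun p => sq_nonneg _
    · apply LE.le.eventuallyLE
      intro p hp
      exact ⟨lt_trans (by norm_num) hp.1, lt_trans hp.2 (by norm_num)⟩
  have h4 : C * lam ^ 2 / ε / 0.03 ^ 2 * ∫ p in Ring 1.12 1.38, (w p) ^ 2 ≤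
      C / ε / 0.03 ^ 2 * ∫ p in Ring 1.12 1.38, (w p) ^ 2 := by
    apply mul_le_mul_of_nonneg_right _ hI0
    have : C * lam ^ 2 ≤ C := mul_le_of_le_one_right hC.le (pow_le_one₀ hl.le hl1)
    gcongr
  calc (∫ p in Ring 1.15 1.35, ((D1 w p) ^ 2 + (D2 w p) ^ 2)) + ∫ p in Ring 1.15 1.35, (w p) ^ 2
      ≤ C / ε / 0.03 ^ 2 * (∫ p in Ring 1.12 1.38, (w p) ^ 2) + ∫ p in Ring 1.12 1.38, (w p) ^ 2 := by
        linarith
    _ = _ := by ring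

/-- points of the lens -/
private theorem PT_lens_pt {lam ε : ℝ} {F F' : Fin 3 → Sm} {h : Sm} (D : Data lam ε F F' h) {e : ℝ}
    (he : e ≤ 1/100) {p : ℝ × ℝ} (hp : p ∈ Lens2 D.d e) :
    |p.1| ≤ 0.26 ∧ |p.2| ≤ 1 ∧ |D.d.x p| < 1.2 ∧ |D.d.Q p| < 1.2 := by
  obtain ⟨h1, h2⟩ := hp
  have hsq : √e ≤ 1/10 := by
    rw [show (1/10 : ℝ) = √(1/100) by
      rw [show (1/100 : ℝ) = (1/10) ^ 2 by norm_num, Real.sqrt_sq (by norm_num)]]
    exact Real.sqrt_le_sqrt he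
  have h3 := D.x_bd p
  rw [← D.dx] at h3
  have h4 := D.Q_bd p
  have h5 : |p.1| ≤ 0.26 := by
    have := abs_sub_abs_le_abs_sub (p.1) (D.d.x p)
    rw [abs_sub_comm] at this
    linarith
  have h6 : |D.d.Q p| ≤ 1/1600 := by
    refine h2.trans ?_
    linarith
  have h7 : |p.2| ≤ 1 := by
    have := abs_sub_abs_le_abs_sub (p.2) (D.d.Q p)
    rw [abs_sub_comm] at this
    have := abs_nonneg p.2
    linarith
  refine ⟨h5, h7, ?_, ?_⟩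
  · exact lt_of_le_of_lt h1 (by norm_num)
  · exact lt_of_le_of_lt h6 (by norm_num)

private theorem PT_lens_compact {lam ε : ℝ} {F F' : Fin 3 → Sm} {h : Sm} (D : Data lam ε F F' h) {e : ℝ}
    (he : e ≤ 1/100) : IsCompact (Lens2 D.d e) := by
  have hcl : IsClosed (Lens2 D.d e) := by
    apply IsClosed.and
    · exact isClosed_le (smooth D.d.x).continuous.abs continuous_const
    · exact isClosed_le (smooth D.d.Q).continuous.abs continuous_const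
  have hsub : Lens2 D.d e ⊆ Set.Icc (-1 : ℝ) 1 ×ˢ Set.Icc (-1 : ℝ) 1 := by
    intro p hp
    obtain ⟨b1, b2, -, -⟩ := PT_lens_pt D he hp
    rw [abs_le] at b1 b2
    refine ⟨⟨?_, ?_⟩, ⟨?_, ?_⟩⟩ <;> linarith [b1.1, b1.2, b2.1, b2.2]
  exact (isCompact_Icc.prod isCompact_Icc).of_isClosed_subset hcl hsub

private theorem PT_XQ_int {lam ε : ℝ} {F F' : Fin 3 → Sm} {h : Sm} (D : Data lam ε F F' h) (f : Sm) :
    IntegrableOn (f : ℝ × ℝ → ℝ) (XQ D.d 1.2) := by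
  have hK : IsCompact (Set.Icc (-2 : ℝ) 2 ×ˢ Set.Icc (-2 : ℝ) 2) := isCompact_Icc.prod isCompact_Icc
  refine ((PT_cont f).continuousOn.integrableOn_compact hK).mono_set ?_
  intro p hp
  obtain ⟨h1, h2⟩ := hp
  have h3 := D.x_bd p
  rw [← D.dx] at h3
  have h4 := D.Q_bd p
  have h5 : |p.1| ≤ 1.3 := by
    have := abs_sub_abs_le_abs_sub (p.1) (D.d.x p)
    rw [abs_sub_comm] at this
    norm_num at h1 ⊢
    linarith
  have h7 : |p.2| ≤ 1.3 := by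
    have := abs_sub_abs_le_abs_sub (p.2) (D.d.Q p)
    rw [abs_sub_comm] at this
    norm_num at h1 h2 h5 ⊢
    linarith
  rw [abs_le] at h5 h7
  norm_num at h5 h7
  refine ⟨⟨?_, ?_⟩, ⟨?_, ?_⟩⟩ <;> linarith [h5.1, h5.2, h7.1, h7.2]

private theorem PT_integrand_nonneg (d : VY) (e : ℝ) (he : 0 ≤ e) (w : Sm) (p : ℝ × ℝ) :
    0 ≤ (d.mu * (d.PsiQ (√e/10) * ((d.V w) ^ 2 + e • (d.Y w) ^ 2 + w ^ 2)) : Sm) p := by
  have h1 := (d.mupos p).le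
  have h2 : 0 ≤ (d.PsiQ (√e/10)) p := add_nonneg (thp_nonneg _ _) (thp_nonneg _ _)
  rw [mul_ap, mul_ap, add_ap, add_ap, pow_ap, smul_ap, pow_ap, pow_ap]
  positivity

private theorem PT_mono {lam ε : ℝ} {F F' : Fin 3 → Sm} {h : Sm} (D : Data lam ε F F' h) {e : ℝ}
    (he0 : 0 ≤ e) (he : e ≤ 1/100) (w : Sm) :
    ∫ p in Lens2 D.d e, (D.d.mu * (D.d.PsiQ (√e/10) * ((D.d.V w) ^ 2 + e • (D.d.Y w) ^ 2 + w ^ 2)) : Sm) p
    ≤ ∫ p in XQ D.d 1.2, (D.d.mu * (D.d.PsiQ (√e/10) * ((D.d.V w) ^ 2 + e • (D.d.Y w) ^ 2 + w ^ 2)) : Sm) p := by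
  apply setIntegral_mono_set (PT_XQ_int D _)
  · exact Filter.Eventually.of_forall fun p => PT_integrand_nonneg _ _ he0 _ _
  · apply LE.le.eventuallyLE
    intro p hp
    exact (PT_lens_pt D he hp).2.2

/-- the right-hand side vanishes off the support of `h` -/
private theorem PT_L_support {lam ε : ℝ} {F F' : Fin 3 → Sm} {h : Sm} (D : Data lam ε F F' h)
    (hlam : 0 < lam) {p : ℝ × ℝ} (hp : p ∈ Box 1.8)
    (hne : (D.d.L (ε / lam ^ 2) D.k (F 2 - F' 2)) p ≠ 0) : p ∈ tsupport (h : ℝ × ℝ → ℝ) := by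
  by_contra hsup
  obtain ⟨z1, z2, z3, z4⟩ := D3b_not_tsupport h hsup
  have hH := D.H_bd h p
  rw [z1, z2, z3, z4] at hH
  simp only [abs_zero, add_zero, mul_zero] at hH
  have hH0 : D.fr.H h p = 0 := abs_nonpos_iff.1 hH
  have hpde := D.pde p hp
  have hL := congrArg (fun f : Sm => f p) (D.L_eq (F 2 - F' 2))
  simp only [mul_ap] at hL
  rw [hpde, hH0] at hL
  have ha := abs_le.mp (D.a_bd p)
  have ha0 : D.fr.a (avg F F' 2) p ≠ 0 := by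
    have : 0 < D.fr.a (avg F F' 2) p := by linarith [ha.1]
    exact this.ne'
  rcases mul_eq_zero.mp hL.symm with h0 | h0
  · exact ha0 h0
  · exact hne h0

/-- the test function -/
private theorem PT_tst {lam ε : ℝ} {F F' : Fin 3 → Sm} {h : Sm} (D : Data lam ε F F' h) {σ' ϖ t0 : ℝ}
    (hσ : 0 < σ') (hσ1 : σ' ≤ 1) (hϖ : 0 < ϖ) (hϖ1 : ϖ ≤ 1/100) (ht0 : 0 ≤ t0) (ht1 : t0 ≤ 1/2000) :
    HasCompactSupport ((tst D.fr.y σ' ϖ (D.fr.y (0, t0)) : Sm) : ℝ × ℝ → ℝ) ∧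
      ∀ p, p ∉ Box 1.8 → (tst D.fr.y σ' ϖ (D.fr.y (0, t0))) p = 0 := by
  have key : ∀ p : ℝ × ℝ, (tst D.fr.y σ' ϖ (D.fr.y (0, t0))) p ≠ 0 → |p.1| < 1 ∧ |p.2| < 1 := by
    intro p hne
    have hup : (tst D.fr.y σ' ϖ (D.fr.y (0, t0))) p =
      ct (σ'/2) σ' p.1 * f00s ϖ (D.fr.y p - D.fr.y (0, t0) * 1) := rfl
    rw [hup, mul_one] at hne
    have h1 : |p.1| < σ' := by
      by_contra hc
      rw [not_lt] at hc
      exact hne (by rw [ct_zero (by linarith) (by linarith) hc, zero_mul])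
    have h2 : |D.fr.y p - D.fr.y (0, t0)| < ϖ := by
      by_contra hc
      rw [not_lt] at hc
      apply hne
      have : F00 ((D.fr.y p - D.fr.y (0, t0)) / ϖ) = 0 := by
        apply F00_zero
        rw [abs_div, abs_of_pos hϖ, le_div_iff₀ hϖ]
        linarith
      rw [f00s, this, mul_zero, mul_zero]
    have h3 := D.y_bd p
    have h4 := D.y_bd (0, t0)
    simp only at h4
    refine ⟨lt_of_lt_of_le h1 hσ1, ?_⟩
    rw [abs_le] at h3 h4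
    rw [abs_lt] at h2 ⊢
    constructor <;> linarith [h2.1, h2.2, h3.1, h3.2, h4.1, h4.2]
  constructor
  · refine HasCompactSupport.intro
      ((isCompact_Icc (a := (-1 : ℝ)) (b := 1)).prod
        (isCompact_Icc (a := (-1 : ℝ)) (b := 1))) ?_
    intro p hp
    by_contra hne
    apply hp
    obtain ⟨h1, h2⟩ := key p hne
    rw [abs_lt] at h1 h2
    exact ⟨⟨h1.1.le, h1.2.le⟩, ⟨h2.1.le, h2.2.le⟩⟩
  · intro p hp
    by_contra hne
    apply hp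
    obtain ⟨h1, h2⟩ := key p hne
    exact ⟨by norm_num; linarith, by norm_num; linarith⟩

set_option maxHeartbeats 1600000 in
/-- PAIR THEOREM. Write `ϖ = sp ε n`, `r = ϖ²`, `w = F 2 - F' 2`, `τ = b01 t - b01 t'`,
`I = ∫_{Ring 1.12 1.38} w²`, `E = ∫_{Ring 1.15 1.35} (|∇w|² + w²)`.
`exists_data` (with `E = Et ..`, closeness from `hh_C3`, `hh_sub`) gives `D`.
`ring_cac` (r=1.12,g=0.03,R=1.35): `E ≤ (C lam²/ε + 1) I`.
`apply_S1`: `∫_{XQ 1.2} .. ≤ C E`. `Lens2 ⊆ XQ 1.2`, `S2`: `W1 ≤ C (r⁴ N + C E)`, `W2 ≤ C E`,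
`rhs_L2`: `N ≤ C A²/(lam ϖ²)`. `pair_lower` for an index with `|τ i| = 1`:
`A ϖ³/20 ≤ |∫ J (H h) u| = |∫ J (L w) u|` (`D.pde`, support of `u` in `Box 1.8`)
`= |∫ J w (L u)|` (`Frame.selfadj`) `≤ C M (√(rϖ) √(W1/lam) + √(W2/lam))` (`pair_upper`, `Lu_bound`
with `σ' = √ε/1000`, `G = avg F F'`, `Good_avg`). Hence `A ϖ³/20 ≤ C' (A ϖ^{9/2} + √E)`, and for
large `n` (small `ϖ`) `A ϖ³/40 ≤ C' √E`. -/
theorem pair_thm : ∃ η8 : ℝ, 0 < η8 ∧ ∃ ε8 : ℝ, 0 < ε8 ∧ ∀ lam0 ε : ℝ, 0 < lam0 → lam0 ≤ 1 →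
    0 < ε → ε ≤ ε8 → ε ≤ lam0 ^ 2 / 100 → ∃ c : ℝ, 0 < c ∧ ∃ n8 : ℕ, ∀ n : ℕ, n8 ≤ n →
    ∀ A : ℝ, 0 < A → A ≤ (sp ε n) ^ 7 → ∀ lam : ℝ, lam0 ≤ lam → lam ≤ 1 →
    ∀ F F' : Fin 3 → Sm, Good lam η8 F → Good lam η8 F' → ∀ t t' : Fin n → Bool, t ≠ t' →
    Isom (Et ε A n t) F (Box 1.8) → Isom (Et ε A n t') F' (Box 1.8) →
    (∀ c, CkB (F c - F' c) 3 (ε ^ 2) Set.univ) →
    c * A ^ 2 * (sp ε n) ^ 6 ≤ ∫ p in Ring 1.12 1.38, ((F 2 - F' 2 : Sm) p) ^ 2 := by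
  obtain ⟨η7, hη7, ε7, hε7, CH, hCH, Hdata⟩ := exists_data
  obtain ⟨η6, hη6, HLu⟩ := Lu_bound
  obtain ⟨Cc, hCc, Hcac⟩ := ring_cac
  obtain ⟨C1, hC1, HS1⟩ := apply_S1
  obtain ⟨CS, hCS, HS2⟩ := S2
  obtain ⟨CL, hCL, HL2⟩ := rhs_L2
  obtain ⟨Cp, hCp, Hup⟩ := pair_upper
  obtain ⟨C3, hC3, H3⟩ := hh_C3
  refine ⟨min η7 η6, lt_min hη7 hη6, min ε7 (1/100), lt_min hε7 (by norm_num), ?_⟩
  intro lam0 ε hlam0 hlam01 hε hε8 hεl
  have hε7' : ε ≤ ε7 := hε8.trans (min_le_left _ _)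
  have hε1 : ε ≤ 1/100 := hε8.trans (min_le_right _ _)
  have hsε : 0 < √ε := Real.sqrt_pos.mpr hε
  have hsε1 : √ε ≤ 1/10 := by
    rw [Real.sqrt_le_left (by norm_num)]
    linarith
  obtain ⟨M, hM, HM⟩ := HLu (√ε / 1000) (by positivity)
  set K1 : ℝ := Cc / ε / 0.03 ^ 2 + 1 with hK1
  have hK10 : 0 < K1 := by positivity
  -- smallness of the spacing
  set B : ℝ := Cp * M * (√(CS * CL) * CH / lam0) with hB
  have hB0 : 0 ≤ B := by positivity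
  set δ : ℝ := min (1/100) (min (√ε / 4000) (min (ε ^ 2 / C3) (1 / (40 * (B + 1))))) with hδ
  have hδ0 : 0 < δ := by
    refine lt_min (by norm_num) (lt_min (by positivity) (lt_min (by positivity) (by positivity)))
  obtain ⟨n8, hn8⟩ := exists_nat_ge (√ε / 2000 / δ)
  refine ⟨lam0 / (6400 * Cp ^ 2 * M ^ 2 * CS * C1 * K1), by positivity, n8, ?_⟩
  intro n hn A hA hAϖ lam hlam hlam1 F F' hF hF' t t' htt hI hI' hclose
  set ϖ : ℝ := sp ε n with hϖdef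
  have hlam' : 0 < lam := by linarith
  have hn1 : (0 : ℝ) < (n : ℝ) + 1 := by positivity
  have hϖ : 0 < ϖ := by rw [hϖdef, sp]; positivity
  have hϖδ : ϖ ≤ δ := by
    rw [hϖdef, sp, div_le_iff₀ hn1]
    rw [div_le_iff₀ hδ0] at hn8
    have : (n8 : ℝ) ≤ n := by exact_mod_cast hn
    calc √ε / 2000 ≤ n8 * δ := hn8
      _ ≤ δ * (n + 1) := by nlinarith
  have hϖ1 : ϖ ≤ 1/100 := hϖδ.trans (min_le_left _ _)
  have hϖ2 : ϖ ≤ √ε / 4000 := hϖδ.trans ((min_le_right _ _).trans (min_le_left _ _))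
  have hϖ3 : ϖ ≤ ε ^ 2 / C3 :=
    hϖδ.trans ((min_le_right _ _).trans ((min_le_right _ _).trans (min_le_left _ _)))
  have hϖ4 : ϖ ≤ 1 / (40 * (B + 1)) :=
    hϖδ.trans ((min_le_right _ _).trans ((min_le_right _ _).trans (min_le_right _ _)))
  have hnϖ : ((n : ℝ) + 1) * ϖ = √ε / 2000 := by
    rw [hϖdef, sp]
    field_simp
  have hnϖ1 : ((n : ℝ) + 1) * ϖ ≤ 1/2000 := by
    rw [hnϖ]
    linarith
  have hr0 : 0 < ϖ ^ 2 := by positivity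
  have hrϖ : ϖ ^ 2 ≤ ϖ := by nlinarith
  have hBϖ : B * ϖ ≤ 1/40 := by
    have hB1 : 0 < 40 * (B + 1) := by positivity
    rw [le_div_iff₀ hB1] at hϖ4
    nlinarith
  have he0 : 0 < ε / lam ^ 2 := by positivity
  have hεlam : ε ≤ lam ^ 2 / 100 := by
    have : lam0 ^ 2 ≤ lam ^ 2 := pow_le_pow_left₀ hlam0.le hlam 2
    linarith
  have he1 : ε / lam ^ 2 ≤ 1/100 := by
    rw [div_le_iff₀ (by positivity)]
    linarith
  -- the bump sums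
  set τ : Fin n → ℝ := b01 t - b01 t' with hτ
  have hb01 : ∀ (s : Fin n → Bool) (i : Fin n), b01 s i = 0 ∨ b01 s i = 1 := by
    intro s i
    unfold b01
    by_cases hs : s i <;> simp [hs]
  have hb01' : ∀ (s : Fin n → Bool) (i : Fin n), |b01 s i| ≤ 1 := by
    intro s i
    rcases hb01 s i with h | h <;> rw [h] <;> simp
  have hτ1 : ∀ i, |τ i| ≤ 1 := by
    intro i
    show |b01 t i - b01 t' i| ≤ 1
    rcases hb01 t i with h | h <;> rcases hb01 t' i with h' | h' <;> rw [h, h'] <;> norm_num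
  obtain ⟨i, hi⟩ : ∃ i, |τ i| = 1 := by
    obtain ⟨i, hi⟩ := Function.ne_iff.mp htt
    refine ⟨i, ?_⟩
    show |b01 t i - b01 t' i| = 1
    unfold b01
    cases h1 : t i <;> cases h2 : t' i
    · exact absurd (h1.trans h2.symm) hi
    · simp
    · simp
    · exact absurd (h1.trans h2.symm) hi
  have hEE : Et ε A n t - Et ε A n t' = hh A (ϖ ^ 2) ϖ n τ := by
    rw [hτ, ← hh_sub]
    unfold Et
    abel
  have hE1 : CkB (Et ε A n t - 1 - ε • phi) 3 (ε ^ 2) (Box 1.8) := by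
    have e : Et ε A n t - 1 - ε • phi = hh A (ϖ ^ 2) ϖ n (b01 t) := by
      unfold Et
      abel
    rw [e]
    intro a b hab p _
    have h1 := H3 A (ϖ ^ 2) ϖ n (b01 t) hA hr0 hrϖ (by linarith) (hb01' t) a b hab p trivial
    refine h1.trans ?_
    have h2 : C3 * A / (ϖ ^ 2) ^ 3 ≤ C3 * ϖ := by
      rw [div_le_iff₀ (by positivity)]
      calc C3 * A ≤ C3 * ϖ ^ 7 := by gcongr
        _ = C3 * ϖ * (ϖ ^ 2) ^ 3 := by ring
    refine h2.trans ?_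
    rw [le_div_iff₀ hC3] at hϖ3
    linarith
  have hG7 : Good lam η7 F := ⟨hF.1, fun i a b hab p hp => (hF.2 i a b hab p hp).trans
    (mul_le_mul_of_nonneg_right (min_le_left _ _) hlam'.le)⟩
  have hG7' : Good lam η7 F' := ⟨hF'.1, fun i a b hab p hp => (hF'.2 i a b hab p hp).trans
    (mul_le_mul_of_nonneg_right (min_le_left _ _) hlam'.le)⟩
  have hG6 : Good lam η6 F := ⟨hF.1, fun i a b hab p hp => (hF.2 i a b hab p hp).trans
    (mul_le_mul_of_nonneg_right (min_le_right _ _) hlam'.le)⟩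
  have hG6' : Good lam η6 F' := ⟨hF'.1, fun i a b hab p hp => (hF'.2 i a b hab p hp).trans
    (mul_le_mul_of_nonneg_right (min_le_right _ _) hlam'.le)⟩
  have hD := Hdata lam ε F F' (Et ε A n t) (Et ε A n t') hlam' hlam1 hε hε7' hG7 hG7' hI hI' hE1 hclose
  rw [hEE] at hD
  obtain ⟨D, hDCH⟩ := hD
  set w : Sm := F 2 - F' 2 with hw
  -- support of `h`
  have hsupp := hh_support A (ϖ ^ 2) ϖ n τ hr0 hϖ
  have hsupp' : tsupport (hh A (ϖ ^ 2) ϖ n τ : ℝ × ℝ → ℝ) ⊆ Slit (ϖ ^ 2) (√ε / 2000) := by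
    intro p hp
    obtain ⟨h1, h2, h3⟩ := hsupp p hp
    refine ⟨h1, ?_⟩
    rw [abs_le]
    constructor
    · linarith
    · rw [← hnϖ]
      refine h3.trans ?_
      nlinarith
  have hring : ∀ p ∈ Ring 1.1 1.5, hh A (ϖ ^ 2) ϖ n τ p = 0 := by
    intro p hp
    by_contra hne
    have hpt : p ∈ tsupport (hh A (ϖ ^ 2) ϖ n τ : ℝ × ℝ → ℝ) := by
      by_contra hcon
      exact hne (image_eq_zero_of_notMem_tsupport hcon)
    obtain ⟨h1, h2⟩ := hsupp' hpt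
    have h3 := hp.1
    rw [lt_max_iff] at h3
    rcases h3 with h3 | h3
    · have : |p.1| ≤ 1 := h1.trans (by nlinarith)
      norm_num at h3
      linarith
    · have : |p.2| ≤ 1 := h2.trans (by linarith)
      norm_num at h3
      linarith
  -- energy
  have hE := PT_energy Cc lam ε w hCc hlam' hlam1 hε
    (Hcac lam ε F F' _ D hlam' hlam1 hε (by linarith) hring 1.12 0.03 1.35 (by norm_num) (by norm_num)
      (by norm_num) (by norm_num))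
  have hS1 := HS1 lam ε (ϖ ^ 2) F F' _ D hlam' hlam1 hε hεlam hr0 (by nlinarith) hsupp'
  have hmono := PT_mono D he0.le he1 w
  set P : ℝ := ∫ p in XQ D.d 1.2, (D.d.mu * (D.d.PsiQ (√(ε / lam ^ 2)/10) *
        ((D.d.V w) ^ 2 + (ε / lam ^ 2) • (D.d.Y w) ^ 2 + w ^ 2)) : Sm) p with hPdef
  set I : ℝ := ∫ p in Ring 1.12 1.38, (w p) ^ 2 with hIdef
  have hP0 : 0 ≤ P := integral_nonneg fun p => PT_integrand_nonneg _ _ he0.le _ _
  have hPI : P ≤ C1 * (K1 * I) := by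
    refine hS1.trans ?_
    gcongr
  -- step 2
  obtain ⟨hW1, hW2⟩ := HS2 D.d (ε / lam ^ 2) (ϖ ^ 2) D.k w he0 he1 hr0 (by nlinarith)
    (PT_lens_compact D he1)
    (by
      intro p hp
      obtain ⟨b1, b2, -, -⟩ := PT_lens_pt D he1 hp
      exact D.kclose p ⟨by norm_num at b1 ⊢; linarith, by norm_num at b2 ⊢; linarith⟩)
    (by
      intro p hp
      obtain ⟨a1, a2, a3, a4⟩ := D.A_bd p
      have hx := D.x_bd p
      rw [← D.dx, abs_sub_comm] at hx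
      exact ⟨a1.trans (by norm_num), a3.trans (by norm_num), hx.trans (by norm_num)⟩)
    (by
      intro p hp hne
      obtain ⟨b1, b2, -, -⟩ := PT_lens_pt D he1 hp
      exact (hsupp p (PT_L_support D hlam' ⟨by norm_num at b1 ⊢; linarith, by norm_num at b2 ⊢; linarith⟩ hne)).1)
  have hN := HL2 lam ε ϖ A n τ F F' D hlam' hlam1 hε hεlam hA hϖ hϖ1 hnϖ1 hτ1
  rw [hDCH] at hN
  -- the pairing
  set t0 : ℝ := ((i : ℕ) + 1 : ℝ) * ϖ with ht0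
  have ht00 : 0 ≤ t0 := by positivity
  have ht01 : t0 ≤ √ε / 2000 := by
    rw [← hnϖ, ht0]
    have : ((i : ℕ) : ℝ) ≤ n := by exact_mod_cast i.2.le
    gcongr
  have hlow := pair_lower lam ε (ϖ ^ 2) ϖ A (√ε / 1000) n τ F F' _ D hA hϖ hϖ1 hr0 le_rfl
    (by nlinarith) i hi
  obtain ⟨hcs, hbox⟩ := PT_tst D (σ' := √ε / 1000) (ϖ := ϖ) (t0 := t0) (by positivity) (by linarith) hϖ
    hϖ1 ht00 (by linarith)
  have hup := Hup lam ε (ϖ ^ 2) ϖ t0 M F F' _ D hlam' hlam1 hε hεlam hr0 hϖ hϖ2 hrϖ ht00 ht01 hM.le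
    (HM lam (avg F F') D.fr hlam' hlam1 (Good_avg _ _ _ _ hG6 hG6') D.isfr ϖ (D.fr.y (0, t0)) hϖ
      (by linarith))
  have hsa := Frame.selfadj D.fr D.comm D.int1 D.int2 (avg F F' 2) w
    (tst D.fr.y (√ε / 1000) ϖ (D.fr.y (0, t0))) hcs
  have hpde : ∫ p, (D.fr.J * (D.fr.H (hh A (ϖ ^ 2) ϖ n τ)
      * tst D.fr.y (√ε / 1000) ϖ (D.fr.y (0, t0))) : Sm) p =
      ∫ p, (D.fr.J * (D.fr.L (avg F F' 2) w * tst D.fr.y (√ε / 1000) ϖ (D.fr.y (0, t0))) : Sm) p := by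
    apply integral_congr_ae
    filter_upwards with p
    simp only [mul_ap]
    by_cases hp : p ∈ Box 1.8
    · rw [D.pde p hp]
    · rw [hbox p hp]
      ring
  rw [hpde, hsa] at hlow
  have hfin := hlow.trans hup
  exact PT_final A ϖ lam lam0 Cp M CS CL CH C1 K1 I _ _ _ P hA hϖ (by linarith) hlam0 hlam hCp hM hCS hCL
    hCH hC1 hK10 hP0 hfin (hW1.trans (by gcongr)) (hW2.trans (by gcongr)) hN hPI
    (by rw [← hB]; exact hBϖ)

end NI
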