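import Crest.Agent.NI_LBa
import Crest.Agent.NI_LBb
import Crest.Agent.NI_P2
import Crest.Agent.NI_N1
import Crest.Agent.NI_PT
import Crest.Agent.NI_PC

set_option autoImplicit false
open scoped ContDiff
open MeasureTheory

namespace NI

private theorem LB_mono {f : Sm} {k l : ℕ} {M N : ℝ} {Ω : Set (ℝ × ℝ)} (h : CkB f k M Ω)
    (hl : l ≤ k) (hMN : M ≤ N) : CkB f l N Ω :=
  fun a b hab p hp => (h a b (hab.trans hl) p hp).trans hMN

private theorem LB_box {r R : ℝ} (h : r ≤ R) : Box r ⊆ Box R :=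
  fun _ hp => ⟨lt_of_lt_of_le hp.1 h, lt_of_lt_of_le hp.2 h⟩

private theorem LB_bound {lam η8 : ℝ} {G : Fin 3 → Sm} (hL0 : 0 < lam) (hL1 : lam ≤ 1)
    (hη8 : 0 < η8) (hG : Good lam η8 G) (p : ℝ × ℝ) (hp : p ∈ Box 2) : |G 2 p| ≤ 2 + η8 := by
  have h1 := hG.2 2 0 0 (by norm_num) p trivial
  have h2 : |G 2 p - F0 lam 2 p| ≤ η8 * lam := h1
  have h3 : F0 lam 2 p = lam / 2 * p.2 ^ 2 := rfl
  have h4 : |p.2| < 2 := hp.2
  have h5 : p.2 ^ 2 ≤ 4 := by
    rw [← sq_abs]; nlinarith [abs_nonneg p.2]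
  rw [h3, abs_le] at h2
  have h6 : 0 ≤ lam / 2 * p.2 ^ 2 := by positivity
  have h7 : lam / 2 * p.2 ^ 2 ≤ 2 := by
    calc lam / 2 * p.2 ^ 2 ≤ 1 / 2 * 4 :=
          mul_le_mul (by linarith) h5 (sq_nonneg _) (by norm_num)
      _ = 2 := by norm_num
  have h8 : η8 * lam ≤ η8 := by
    calc η8 * lam ≤ η8 * 1 := mul_le_mul_of_nonneg_left hL1 hη8.le
      _ = η8 := mul_one _
  rw [abs_le]
  constructor
  · linarith [h2.1]
  · linarith [h2.2]

/-- LOCAL BAD METRICS. For every `lam0, N, δ` there is a metric coefficient `1 + H`, `H` compactly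
supported and `δ`-small in `C^N`, such that no `F` close to a model `F0 lam`, `lam0 ≤ lam ≤ 1`,
satisfies `Isom (1 + H) F (Box 2)`. Proof: `η9 = min (1/16) (η8/(20 C))` (`C` from `ext_good`,
`η8` the smaller of the two in `pair_thm`, `pair_cac`; `Good_mono`). If `lam0 > 1` take `H = 0`.
Otherwise choose `ε ≤ ε8`, `ε ≤ lam0²/100`, `ε ≤ 1`, `C_N ε ≤ δ/2`, `2 ε ≤ δ`;
`A = (sp ε n)^(2N+7)`, `n` large. Suppose every `H = HH ε A n t` fails, choose `F t`, `lam t`.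
`net_pigeonhole` with `M = 3` (`near_bound`) and `κ = min (ε²/C) (η9 lam0)` gives `T'` with
`2^n ≤ N0 |T'|`; fix `lam = lam t0`, `t0 ∈ T'`; `common_lam`, `G t = ext lam (F t)`, `ext_good`,
`ext_close`, `ext_isom` (with `Isom (Et ..)` from `HH_Et`); `pair_cac` gives `RingCac` for
`t ↦ G t 2`; `ring_pigeonhole` with `J0 = 2(4N+21)` gives `t ≠ t'` contradicting `pair_thm`
by `growth`. -/
theorem local_bad : ∃ η9 : ℝ, 0 < η9 ∧ ∀ lam0 : ℝ, 0 < lam0 → ∀ (N : ℕ) (δ : ℝ), 0 < δ →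
    ∃ H : Sm, (∀ p, p ∉ Box 4 → H p = 0) ∧
      (∀ k ≤ N, ∀ p, ‖iteratedFDeriv ℝ k (H : ℝ × ℝ → ℝ) p‖ ≤ δ) ∧
      H (0, 0) = 0 ∧ D1 H (0, 0) = 0 ∧ D2 H (0, 0) = 0 ∧ |D2 (D2 H) (0, 0)| ≤ δ ∧
      ∀ (F : Fin 3 → Sm) (lam : ℝ), lam0 ≤ lam → lam ≤ 1 →
        (∀ i, CkB (F i - F0 lam i) 4 (η9 * lam) (Box 2)) → ¬ Isom (1 + H) F (Box 2) := by
  classical
  obtain ⟨Cg, hCg1, hgood⟩ := ext_good
  obtain ⟨Cc, hCc1, hclose⟩ := ext_close
  obtain ⟨η8, hη8, ε8, hε8, hPT⟩ := pair_thm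
  obtain ⟨η8', hη8', ε8', hε8', hPC⟩ := pair_cac
  have hCg0 : 0 < Cg := by linarith
  have hCc0 : 0 < Cc := by linarith
  obtain ⟨η9, hη9def⟩ : ∃ η9 : ℝ, η9 = min (1 / 16) (min η8 η8' / (20 * Cg)) := ⟨_, rfl⟩
  have hη9 : 0 < η9 := by
    rw [hη9def]; exact lt_min (by norm_num) (div_pos (lt_min hη8 hη8') (by positivity))
  have hη9a : η9 ≤ 1 / 16 := by rw [hη9def]; exact min_le_left _ _
  have hη9b : Cg * (20 * η9) ≤ min η8 η8' := by
    have h1 : η9 ≤ min η8 η8' / (20 * Cg) := by rw [hη9def]; exact min_le_right _ _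
    rw [le_div_iff₀ (by positivity)] at h1
    linarith
  refine ⟨η9, hη9, ?_⟩
  intro lam0 hlam0 N δ hδ
  rcases lt_or_ge 1 lam0 with hl | hl
  · refine ⟨0, fun p _ => rfl, ?_, rfl, ?_, ?_, ?_, ?_⟩
    · intro k _ p
      have h0 : ((0 : Sm) : ℝ × ℝ → ℝ) = fun _ => 0 := rfl
      rw [h0, iteratedFDeriv_fun_zero]
      simp [hδ.le]
    · rw [map_zero]; rfl
    · rw [map_zero]; rfl
    · rw [map_zero, map_zero]
      show |(0:ℝ)| ≤ δ
      rw [abs_zero]; exact hδ.le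
    · intro F lam h1 h2
      linarith
  · obtain ⟨CN, hCN0, hCN⟩ := HH_CN N
    obtain ⟨ε, hεdef⟩ : ∃ ε : ℝ, ε = min (min ε8 ε8') (min (min (lam0 ^ 2 / 100) 1)
      (min (δ / 2 / CN) (δ / 2))) := ⟨_, rfl⟩
    have hε : 0 < ε := by
      rw [hεdef]
      refine lt_min (lt_min hε8 hε8') (lt_min (lt_min (by positivity) one_pos)
        (lt_min (by positivity) (by positivity)))
    have e1 : ε ≤ ε8 := by rw [hεdef]; exact (min_le_left _ _).trans (min_le_left _ _)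
    have e2 : ε ≤ ε8' := by rw [hεdef]; exact (min_le_left _ _).trans (min_le_right _ _)
    have e3 : ε ≤ lam0 ^ 2 / 100 := by
      rw [hεdef]; exact (min_le_right _ _).trans ((min_le_left _ _).trans (min_le_left _ _))
    have e4 : ε ≤ 1 := by
      rw [hεdef]; exact (min_le_right _ _).trans ((min_le_left _ _).trans (min_le_right _ _))
    have e5 : ε ≤ δ / 2 / CN := by
      rw [hεdef]; exact (min_le_right _ _).trans ((min_le_right _ _).trans (min_le_left _ _))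
    have e6 : ε ≤ δ / 2 := by
      rw [hεdef]; exact (min_le_right _ _).trans ((min_le_right _ _).trans (min_le_right _ _))
    have e7 : CN * ε ≤ δ / 2 := by
      rw [le_div_iff₀ hCN0] at e5; linarith
    obtain ⟨c, hc, n8, hPT'⟩ := hPT lam0 ε hlam0 hl hε e1 e3
    obtain ⟨C1, hC1, n8', hPC'⟩ := hPC lam0 ε hlam0 hl hε e2
    obtain ⟨κ, hκdef⟩ : ∃ κ : ℝ, κ = min (ε ^ 2 / Cc) (η9 * lam0) := ⟨_, rfl⟩
    have hκ : 0 < κ := by rw [hκdef]; exact lt_min (by positivity) (by positivity)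
    have hκ1 : Cc * κ ≤ ε ^ 2 := by
      have h1 : κ ≤ ε ^ 2 / Cc := by rw [hκdef]; exact min_le_left _ _
      rw [le_div_iff₀ hCc0] at h1; linarith
    have hκ2 : κ ≤ η9 * lam0 := by rw [hκdef]; exact min_le_right _ _
    obtain ⟨N0, hN0, hnet⟩ := net_pigeonhole 3 κ (by norm_num) hκ
    obtain ⟨C2, hC2, n0, hring⟩ := ring_pigeonhole C1 (2 + η8) hC1 (by linarith) (2 * (4 * N + 21))
    obtain ⟨n1, hgrow⟩ := growth ε (δ / 2) C2 c CN N0 N hε (by linarith) hC2 hc hCN0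
    obtain ⟨n, hn⟩ : ∃ n : ℕ, n = max (max n8 n8') (max n0 n1) := ⟨_, rfl⟩
    have hn8 : n8 ≤ n := by rw [hn]; exact (le_max_left _ _).trans (le_max_left _ _)
    have hn8' : n8' ≤ n := by rw [hn]; exact (le_max_right _ _).trans (le_max_left _ _)
    have hn0 : n0 ≤ n := by rw [hn]; exact (le_max_left _ _).trans (le_max_right _ _)
    have hn1 : n1 ≤ n := by rw [hn]; exact (le_max_right _ _).trans (le_max_right _ _)
    obtain ⟨g1, g2, g3, g4, g5⟩ := hgrow n hn1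
    obtain ⟨A, hA⟩ : ∃ A : ℝ, A = (sp ε n) ^ (2 * N + 7) := ⟨_, rfl⟩
    have hA0 : 0 < A := by rw [hA]; positivity
    have hA7 : A ≤ (sp ε n) ^ 7 := by
      rw [hA]; exact pow_le_pow_of_le_one g4.le g5 (by omega)
    by_contra hcon
    push Not at hcon
    have hbad : ∀ t : Fin n → Bool, ∃ (F : Fin 3 → Sm) (lam : ℝ), lam0 ≤ lam ∧ lam ≤ 1 ∧
        (∀ i, CkB (F i - F0 lam i) 4 (η9 * lam) (Box 2)) ∧ Isom (1 + HH ε A n t) F (Box 2) := by
      intro t
      obtain ⟨z1, z2, z3, z4⟩ := HH_zero ε A n t hε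
      refine hcon (HH ε A n t) ?_ ?_ z1 z2 z3 ?_
      · intro p hp
        exact HH_off ε A n t hε e4 p (fun h => hp (LB_box (by norm_num) h))
      · intro k hk p
        refine (hCN ε A n t hε e4 hA0 k hk p).trans ?_
        rw [hA, mul_add]
        linarith
      · rw [z4, abs_of_pos (by linarith)]; linarith
    choose F lam hF1 hF2 hF3 hF4 using hbad
    obtain ⟨T', hT', hcard, hclo⟩ := hnet (Finset.univ : Finset (Fin n → Bool)) F
      (fun t _ => near_bound (lam t) η9 (F t) (lt_of_lt_of_le hlam0 (hF1 t)) (hF2 t) hη9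
        (by linarith) (hF3 t))
    have hcardu : (Finset.univ : Finset (Fin n → Bool)).card = 2 ^ n := by
      rw [Finset.card_univ, Fintype.card_fun, Fintype.card_bool, Fintype.card_fin]
    rw [hcardu] at hcard
    have hTpos : 0 < T'.card := by
      rcases Nat.eq_zero_or_pos T'.card with h | h
      · rw [h, mul_zero] at hcard
        have : 0 < 2 ^ n := by positivity
        omega
      · exact h
    obtain ⟨t0, ht0⟩ := Finset.card_pos.mp hTpos
    have hL0 : 0 < lam t0 := lt_of_lt_of_le hlam0 (hF1 t0)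
    have hcl : ∀ t ∈ T', ∀ i, CkB (F t i - F0 (lam t0) i) 4 (20 * η9 * lam t0) (Box 2) := by
      intro t ht
      exact common_lam lam0 (lam t0) (lam t) η9 κ (F t0) (F t) hlam0 (hF1 t0) (hF1 t) hη9 hη9a
        hκ2 (hF3 t0) (hF3 t) (fun i => hclo t0 ht0 t ht i)
    have hG0 : ∀ t ∈ T', Good (lam t0) (Cg * (20 * η9)) (ext (lam t0) (F t)) := fun t ht =>
      hgood (lam t0) (20 * η9) (F t) hL0 (by positivity) (hcl t ht)
    have hG1 : ∀ t ∈ T', Good (lam t0) η8 (ext (lam t0) (F t)) := fun t ht =>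
      Good_mono hL0.le (hη9b.trans (min_le_left _ _)) (hG0 t ht)
    have hG2 : ∀ t ∈ T', Good (lam t0) η8' (ext (lam t0) (F t)) := fun t ht =>
      Good_mono hL0.le (hη9b.trans (min_le_right _ _)) (hG0 t ht)
    have hGc : ∀ t ∈ T', ∀ t' ∈ T', ∀ i,
        CkB (ext (lam t0) (F t) i - ext (lam t0) (F t') i) 3 (ε ^ 2) Set.univ := fun t ht t' ht' i =>
      LB_mono (hclose (lam t0) κ (F t) (F t') hκ.le (fun i => hclo t ht t' ht' i) i) le_rfl hκ1
    have hGi : ∀ t, Isom (Et ε A n t) (ext (lam t0) (F t)) (Box 1.8) := by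
      intro t p hp
      have h1 := ext_isom (lam t0) (F t) (1 + HH ε A n t) (hF4 t) p hp
      have h2 := HH_Et ε A n t p (LB_box (by norm_num) hp)
      rw [← h2]
      exact h1
    have hcardR : Real.exp (C2 * √n * Real.log n) < (T'.card : ℝ) := by
      have h1 : ((2 : ℝ) ^ n) ≤ N0 * (T'.card : ℝ) := by exact_mod_cast hcard
      have h2 : (0 : ℝ) < N0 := by exact_mod_cast hN0
      have h3 := lt_of_lt_of_le g1 h1
      rw [mul_comm] at h3
      exact lt_of_mul_lt_mul_left h3 h2.le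
    obtain ⟨i, hi, j, hj, hij, hint⟩ := hring n hn0 T' (fun t => ext (lam t0) (F t) 2)
      (by
        exact fun t ht p hp => LB_bound hL0 (hF2 t0) hη8 (hG1 t ht) p hp)
      (by
        intro i hi j hj r g R h1 h2 h3 h4
        exact hPC' n hn8' A hA0 hA7 (lam t0) (hF1 t0) (hF2 t0) _ _ (hG2 i hi) (hG2 j hj) i j
          (hGi i) (hGi j) (hGc i hi j hj) r g R h1 h2 h3 h4)
      hcardR
    have hlow := hPT' n hn8 A hA0 hA7 (lam t0) (hF1 t0) (hF2 t0) _ _ (hG1 i hi) (hG1 j hj) i j hij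
      (hGi i) (hGi j) (hGc i hi j hj)
    rw [hA] at hlow
    linarith

end NI
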