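import Crest.Agent.NI_E5
import Crest.Agent.NI_E6
import Crest.Agent.NI_E7
import Crest.Agent.NI_E8
import Crest.Agent.NI_LB

set_option autoImplicit false
open scoped ContDiff
open MeasureTheory

namespace NI

/-- the bumps of level 2: sum over the centres `c k j` of the pushed copies of `H` in the direction
`v j`, with coefficient `w j`. -/
noncomputable def bumps (K m : ℕ) (c : Fin K → Fin m → ℝ × ℝ) (v : Fin m → ℝ × ℝ) (r : ℝ)
    (w : Fin m → ℝ) (H : Sm) : Sm :=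
  ∑ k : Fin K, ∑ j : Fin m, w j • push (c k j) r (v j).1 (v j).2 H

private theorem sum_ap {ι : Type} (s : Finset ι) (f : ι → Sm) (p : ℝ × ℝ) :
    (∑ i ∈ s, f i : Sm) p = ∑ i ∈ s, f i p := by
  classical
  induction s using Finset.induction_on with
  | empty => simp
  | insert a s ha ih => rw [Finset.sum_insert ha, Finset.sum_insert ha, add_ap, ih]

private theorem bumps_ap (K m : ℕ) (c : Fin K → Fin m → ℝ × ℝ) (v : Fin m → ℝ × ℝ) (r : ℝ)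
    (w : Fin m → ℝ) (H : Sm) (p : ℝ × ℝ) : bumps K m c v r w H p =
      ∑ k : Fin K, ∑ j : Fin m, w j * push (c k j) r (v j).1 (v j).2 H p := by
  unfold bumps
  rw [sum_ap]
  refine Finset.sum_congr rfl fun k _ => ?_
  rw [sum_ap]
  rfl

private theorem push_zero (c : ℝ × ℝ) (v : ℝ × ℝ) (r r1 : ℝ) (H : Sm) (hr : 0 < r)
    (hr1 : 8 * r ≤ r1) (hv : v.1 ^ 2 + v.2 ^ 2 = 1) (hH : ∀ p, p ∉ Box 4 → H p = 0)
    (p : ℝ × ℝ) (hp : r1 < ‖p - c‖) : push c r v.1 v.2 H p = 0 := by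
  refine push_off c r v.1 v.2 4 H hr hv hH p ?_
  rw [Prod.norm_def, lt_max_iff, Real.norm_eq_abs, Real.norm_eq_abs] at hp
  rcases hp with h | h
  · left
    have h' : r1 < |p.1 - c.1| := h
    linarith
  · right
    have h' : r1 < |p.2 - c.2| := h
    linarith

theorem bumps_near (K m : ℕ) (c : Fin K → Fin m → ℝ × ℝ) (v : Fin m → ℝ × ℝ) (r r1 : ℝ)
    (w : Fin m → ℝ) (H : Sm) (hr : 0 < r) (hr1 : 8 * r ≤ r1)
    (hv : ∀ j, (v j).1 ^ 2 + (v j).2 ^ 2 = 1) (hH : ∀ p, p ∉ Box 4 → H p = 0)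
    (hc : ∀ k j k' j', (k ≠ k' ∨ j ≠ j') → 2 * r1 < ‖c k j - c k' j'‖) (k : Fin K) (j : Fin m) :
    ∀ p, ‖p - c k j‖ ≤ r1 →
      bumps K m c v r w H p = w j * push (c k j) r (v j).1 (v j).2 H p := by
  intro p hp
  have key : ∀ k' j', (k' ≠ k ∨ j' ≠ j) → push (c k' j') r (v j').1 (v j').2 H p = 0 := by
    intro k' j' hkj
    refine push_zero (c k' j') (v j') r r1 H hr hr1 (hv j') hH p ?_
    have h1 := hc k' j' k j hkj
    have h2 : ‖c k' j' - c k j‖ ≤ ‖p - c k j‖ + ‖p - c k' j'‖ := by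
      have h3 : c k' j' - c k j = (p - c k j) - (p - c k' j') := by abel
      rw [h3]; exact norm_sub_le _ _
    linarith
  rw [bumps_ap, Finset.sum_eq_single k, Finset.sum_eq_single j]
  · intro j' _ hj'
    rw [key k j' (Or.inr hj'), mul_zero]
  · intro h; exact absurd (Finset.mem_univ _) h
  · intro k' _ hk'
    refine Finset.sum_eq_zero fun j' _ => ?_
    rw [key k' j' (Or.inl hk'), mul_zero]
  · intro h; exact absurd (Finset.mem_univ _) h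

theorem bumps_far (K m : ℕ) (c : Fin K → Fin m → ℝ × ℝ) (v : Fin m → ℝ × ℝ) (r r1 : ℝ)
    (w : Fin m → ℝ) (H : Sm) (hr : 0 < r) (hr1 : 8 * r ≤ r1)
    (hv : ∀ j, (v j).1 ^ 2 + (v j).2 ^ 2 = 1) (hH : ∀ p, p ∉ Box 4 → H p = 0) :
    ∀ p, (∀ k j, r1 < ‖p - c k j‖) → bumps K m c v r w H p = 0 := by
  intro p hp
  rw [bumps_ap]
  refine Finset.sum_eq_zero fun k _ => Finset.sum_eq_zero fun j _ => ?_
  rw [push_zero (c k j) (v j) r r1 H hr hr1 (hv j) hH p (hp k j), mul_zero]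

private theorem iter_smul_bound (k : ℕ) (a M : ℝ) (f : Sm) (ha : |a| ≤ 1)
    (hf : ∀ p, ‖iteratedFDeriv ℝ k (f : ℝ × ℝ → ℝ) p‖ ≤ M) (p : ℝ × ℝ) :
    ‖iteratedFDeriv ℝ k ((a • f : Sm) : ℝ × ℝ → ℝ) p‖ ≤ M := by
  have h0 : ((a • f : Sm) : ℝ × ℝ → ℝ) = a • (f : ℝ × ℝ → ℝ) := rfl
  have hs : ContDiffAt ℝ k (f : ℝ × ℝ → ℝ) p :=
    ((smooth f).of_le (by exact_mod_cast le_top)).contDiffAt
  rw [h0, iteratedFDeriv_const_smul_apply hs, norm_smul, Real.norm_eq_abs]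
  have h1 := hf p
  have h2 : 0 ≤ ‖iteratedFDeriv ℝ k (f : ℝ × ℝ → ℝ) p‖ := norm_nonneg _
  nlinarith [abs_nonneg a]

private theorem iter_sum_bound {ι : Type} (s : Finset ι) (f : ι → Sm) (k : ℕ) (M : ℝ) (p : ℝ × ℝ)
    (h : ∀ i ∈ s, ‖iteratedFDeriv ℝ k (f i : ℝ × ℝ → ℝ) p‖ ≤ M) :
    ‖iteratedFDeriv ℝ k ((∑ i ∈ s, f i : Sm) : ℝ × ℝ → ℝ) p‖ ≤ s.card * M := by
  classical
  have h0 : ((∑ i ∈ s, f i : Sm) : ℝ × ℝ → ℝ) = fun q => ∑ i ∈ s, f i q := by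
    funext q; exact sum_ap s f q
  have hs : ∀ i ∈ s, ContDiffAt ℝ k (f i : ℝ × ℝ → ℝ) p := fun i _ =>
    ((smooth (f i)).of_le (by exact_mod_cast le_top)).contDiffAt
  rw [h0, iteratedFDeriv_fun_sum_apply hs]
  calc ‖∑ i ∈ s, iteratedFDeriv ℝ k (f i : ℝ × ℝ → ℝ) p‖
      ≤ ∑ i ∈ s, ‖iteratedFDeriv ℝ k (f i : ℝ × ℝ → ℝ) p‖ := norm_sum_le _ _
    _ ≤ ∑ _i ∈ s, M := Finset.sum_le_sum h
    _ = s.card * M := by rw [Finset.sum_const, nsmul_eq_mul]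

theorem bumps_CN (K m : ℕ) (c : Fin K → Fin m → ℝ × ℝ) (v : Fin m → ℝ × ℝ) (r : ℝ)
    (w : Fin m → ℝ) (H : Sm) (hr : 0 < r) (hr1 : r ≤ 1) (N : ℕ) (δ : ℝ)
    (hv : ∀ j, (v j).1 ^ 2 + (v j).2 ^ 2 = 1) (hw : ∀ j, |w j| ≤ 1)
    (hH : ∀ k ≤ N, ∀ p, ‖iteratedFDeriv ℝ k (H : ℝ × ℝ → ℝ) p‖ ≤ δ) :
    ∀ k ≤ N, ∀ p, ‖iteratedFDeriv ℝ k (bumps K m c v r w H : ℝ × ℝ → ℝ) p‖
      ≤ K * m * (2 / r) ^ N * δ := by
  intro n hn p
  have hδ : 0 ≤ δ := (norm_nonneg _).trans (hH 0 (Nat.zero_le _) 0)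
  have h2r : 1 ≤ 2 / r := by rw [le_div_iff₀ hr]; linarith
  have h1 : ∀ k j, ‖iteratedFDeriv ℝ n
      ((w j • push (c k j) r (v j).1 (v j).2 H : Sm) : ℝ × ℝ → ℝ) p‖ ≤ (2 / r) ^ N * δ := by
    intro k j
    refine iter_smul_bound n (w j) _ _ (hw j) (fun q => ?_) p
    refine (push_CN (c k j) r (v j).1 (v j).2 H hr (hv j) n δ (hH n hn) q).trans ?_
    exact mul_le_mul_of_nonneg_right (pow_le_pow_right₀ h2r hn) hδ
  have h2 : ∀ k, ‖iteratedFDeriv ℝ n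
      ((∑ j : Fin m, w j • push (c k j) r (v j).1 (v j).2 H : Sm) : ℝ × ℝ → ℝ) p‖
        ≤ m * ((2 / r) ^ N * δ) := by
    intro k
    have := iter_sum_bound (Finset.univ : Finset (Fin m))
      (fun j => w j • push (c k j) r (v j).1 (v j).2 H) n _ p (fun j _ => h1 k j)
    rwa [Finset.card_univ, Fintype.card_fin] at this
  have h3 := iter_sum_bound (Finset.univ : Finset (Fin K))
      (fun k => ∑ j : Fin m, w j • push (c k j) r (v j).1 (v j).2 H) n _ p (fun k _ => h2 k)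
  rw [Finset.card_univ, Fintype.card_fin] at h3
  have h4 : (K : ℝ) * (m * ((2 / r) ^ N * δ)) = K * m * (2 / r) ^ N * δ := by ring
  rw [h4] at h3
  exact h3

end NI
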