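import Crest.Agent.NI_E9

set_option autoImplicit false
open scoped ContDiff
open MeasureTheory

namespace NI

private theorem EB_dot_bound (X Y : Fin 3 → Sm) (p : ℝ × ℝ) (A B : ℝ) (hA : 0 ≤ A)
    (hX : ∀ i, |X i p| ≤ A) (hY : ∀ i, |Y i p| ≤ B) : |dot X Y p| ≤ 3 * (A * B) := by
  have h : ∀ i, |X i p * Y i p| ≤ A * B := fun i => by
    rw [abs_mul]
    exact mul_le_mul (hX i) (hY i) (abs_nonneg _) hA
  have h0 := h 0
  have h1 := h 1
  have h2 := h 2
  simp only [dot, add_ap, mul_ap]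
  rw [abs_le] at *
  constructor <;> linarith [h0.1, h0.2, h1.1, h1.2, h2.1, h2.2]

private theorem EB_crs_bound (X Y : Fin 3 → Sm) (p : ℝ × ℝ) (A B : ℝ) (hA : 0 ≤ A)
    (hX : ∀ i, |X i p| ≤ A) (hY : ∀ i, |Y i p| ≤ B) (i : Fin 3) :
    |crs X Y i p| ≤ 2 * (A * B) := by
  have h : ∀ i j, |X i p * Y j p| ≤ A * B := fun i j => by
    rw [abs_mul]
    exact mul_le_mul (hX i) (hY j) (abs_nonneg _) hA
  have key : ∀ i j k l, |X i p * Y j p - X k p * Y l p| ≤ 2 * (A * B) := fun i j k l => by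
    have h1 := h i j
    have h2 := h k l
    rw [abs_le] at *
    constructor <;> linarith [h1.1, h1.2, h2.1, h2.2]
  fin_cases i
  · exact key 1 2 2 1
  · exact key 2 0 0 2
  · exact key 0 1 1 0

private theorem EB_D_dot (D : Derivation ℝ Sm Sm) (X Y : Fin 3 → Sm) :
    D (dot X Y) = dot (fun i => D (X i)) Y + dot X (fun i => D (Y i)) := by
  simp only [dot, map_add, Derivation.leibniz, smul_eq_mul]; ring

private theorem EB_D_crs (D : Derivation ℝ Sm Sm) (X Y : Fin 3 → Sm) (i : Fin 3) :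
    D (crs X Y i) = crs (fun i => D (X i)) Y i + crs X (fun i => D (Y i)) i := by
  fin_cases i
  · show D (X 1 * Y 2 - X 2 * Y 1) = (D (X 1) * Y 2 - D (X 2) * Y 1) + (X 1 * D (Y 2) - X 2 * D (Y 1))
    simp only [map_sub, Derivation.leibniz, smul_eq_mul]; ring
  · show D (X 2 * Y 0 - X 0 * Y 2) = (D (X 2) * Y 0 - D (X 0) * Y 2) + (X 2 * D (Y 0) - X 0 * D (Y 2))
    simp only [map_sub, Derivation.leibniz, smul_eq_mul]; ring
  · show D (X 0 * Y 1 - X 1 * Y 0) = (D (X 0) * Y 1 - D (X 1) * Y 0) + (X 0 * D (Y 1) - X 1 * D (Y 0))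
    simp only [map_sub, Derivation.leibniz, smul_eq_mul]; ring

/-- second fundamental form is Lipschitz: with `|D F i| ≤ 2` and derivatives of orders 2, 3
bounded by `m ≤ 1`. -/
theorem l_lip : ∃ C : ℝ, 0 < C ∧ ∀ (F : Fin 3 → Sm),
    (∀ i, ∀ p ∈ Box 2, |D1 (F i) p| ≤ 2 ∧ |D2 (F i) p| ≤ 2) →
    (∀ i, ∀ a b : ℕ, 2 ≤ a + b → a + b ≤ 3 → ∀ p ∈ Box 2, |Dab a b (F i) p| ≤ 1) →
    ∀ p ∈ Box 2, ∀ q ∈ Box 2, |l11 F p - l11 F q| ≤ C * ‖p - q‖ ∧
      |l12 F p - l12 F q| ≤ C * ‖p - q‖ ∧ |l22 F p - l22 F q| ≤ C * ‖p - q‖ := by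
  refine ⟨2 * 48, by norm_num, ?_⟩
  intro F h1 h2
  have hn : ∀ p ∈ Box 2, ∀ i, |nrm F i p| ≤ 8 := fun p hp i => by
    have := EB_crs_bound (fun i => D1 (F i)) (fun i => D2 (F i)) p 2 2 (by norm_num)
      (fun i => (h1 i p hp).1) (fun i => (h1 i p hp).2) i
    unfold nrm
    linarith
  have hD1n : ∀ p ∈ Box 2, ∀ i, |D1 (nrm F i) p| ≤ 8 := fun p hp i => by
    unfold nrm
    rw [EB_D_crs, add_ap]
    have e1 := EB_crs_bound (fun i => D1 (D1 (F i))) (fun i => D2 (F i)) p 1 2 (by norm_num)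
      (fun i => h2 i 2 0 (by norm_num) (by norm_num) p hp) (fun i => (h1 i p hp).2) i
    have e2 := EB_crs_bound (fun i => D1 (F i)) (fun i => D1 (D2 (F i))) p 2 1 (by norm_num)
      (fun i => (h1 i p hp).1) (fun i => h2 i 1 1 (by norm_num) (by norm_num) p hp) i
    refine (abs_add_le _ _).trans ?_
    linarith
  have hD2n : ∀ p ∈ Box 2, ∀ i, |D2 (nrm F i) p| ≤ 8 := fun p hp i => by
    unfold nrm
    rw [EB_D_crs, add_ap]
    have e1 := EB_crs_bound (fun i => D2 (D1 (F i))) (fun i => D2 (F i)) p 1 2 (by norm_num)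
      (fun i => by
        simp only [← D1_D2_comm]
        exact h2 i 1 1 (by norm_num) (by norm_num) p hp) (fun i => (h1 i p hp).2) i
    have e2 := EB_crs_bound (fun i => D1 (F i)) (fun i => D2 (D2 (F i))) p 2 1 (by norm_num)
      (fun i => (h1 i p hp).1) (fun i => h2 i 0 2 (by norm_num) (by norm_num) p hp) i
    refine (abs_add_le _ _).trans ?_
    linarith
  have key : ∀ a b : ℕ, a + b = 2 → ∀ p ∈ Box 2, ∀ q ∈ Box 2,
      |dot (nrm F) (fun i => Dab a b (F i)) p - dot (nrm F) (fun i => Dab a b (F i)) q|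
        ≤ 2 * 48 * ‖p - q‖ := by
    intro a b hab p hp q hq
    refine N1_lip _ 48 2 ?_ ?_ p q hp hq
    · intro p hp
      rw [EB_D_dot, add_ap]
      simp only [N1_D1_Dab]
      have e1 := EB_dot_bound (fun i => D1 (nrm F i)) (fun i => Dab a b (F i)) p 8 1 (by norm_num)
        (hD1n p hp) (fun i => h2 i a b (by omega) (by omega) p hp)
      have e2 := EB_dot_bound (nrm F) (fun i => Dab (a + 1) b (F i)) p 8 1 (by norm_num)
        (hn p hp) (fun i => h2 i (a + 1) b (by omega) (by omega) p hp)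
      refine (abs_add_le _ _).trans ?_
      linarith
    · intro p hp
      rw [EB_D_dot, add_ap]
      simp only [N1_D2_Dab]
      have e1 := EB_dot_bound (fun i => D2 (nrm F i)) (fun i => Dab a b (F i)) p 8 1 (by norm_num)
        (hD2n p hp) (fun i => h2 i a b (by omega) (by omega) p hp)
      have e2 := EB_dot_bound (nrm F) (fun i => Dab a (b + 1) (F i)) p 8 1 (by norm_num)
        (hn p hp) (fun i => h2 i a (b + 1) (by omega) (by omega) p hp)
      refine (abs_add_le _ _).trans ?_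
      linarith
  intro p hp q hq
  exact ⟨key 2 0 rfl p hp q hq, key 1 1 rfl p hp q hq, key 0 2 rfl p hp q hq⟩


private theorem EB_sq (x y z : ℝ) (h : x * x + y * y + z * z ≤ 2) :
    |x| ≤ 2 ∧ |y| ≤ 2 ∧ |z| ≤ 2 := by
  refine ⟨?_, ?_, ?_⟩ <;> apply abs_le_of_sq_le_sq _ (by norm_num) <;>
    nlinarith [sq_nonneg x, sq_nonneg y, sq_nonneg z]

private theorem EB_unit (x y : ℝ) (h : x ^ 2 + y ^ 2 = 1) : |x| ≤ 1 ∧ |y| ≤ 1 := by
  constructor
  · rw [← sq_le_one_iff_abs_le_one]; nlinarith [sq_nonneg y]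
  · rw [← sq_le_one_iff_abs_le_one]; nlinarith [sq_nonneg x]

set_option maxHeartbeats 1000000 in
/-- UNIT SCALE BAD METRICS. Proof: `η9` from `local_bad`; `Δ, Cn` from `normal_form η9`;
`m, v, c1` from `robust_angle Δ`; `m0, τ0` from `side_curved` (use `min m0 (1/100)`).
Given `N, δ`: `τ ≤ τ0` with `C_N τ ≤ δ/2` (`EP_CN`), `μ` from `side_curved`, `ρ = c1 μ/C`
(`l_lip`), `K, c, r1` from `centers ρ m`; `r0` with `8 r0 ≤ r1`, `r0 ≤ 1`, `Cn r0 ≤ μ/4`;
`lam0 = r0 μ/4`; `δ'` with `K m (2/r0)^N δ' ≤ δ/2`, `Cn δ' ≤ (r0 μ/4)²`, `δ' ≤ 1/2`, `δ' ≤ δ`;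
`H` from `local_bad lam0 (max N 1) δ'`;
`h11 = (EP τ - 1) + bumps (v j).1²`, `h12 = bumps (v j).1 (v j).2`, `h22 = bumps (v j).2²`.
Given `F`: `Isom (EP τ) F Ro` (`bumps_far`: the balls of radius `r1` avoid the rectangle), so
`side_curved` gives `q ∈ UU`; `l11 l22 = l12²` at `q` (`gauss` on `Ro`, `eq_closure`, `EP_out`).
`M = μ`; `robust_angle`: `j`; `centers`: `k`; `l_lip` on `c k j` and `q`. `pullF_isom` with
`Ω = {p | ‖p - c k j‖ < r1}` (`sim` maps `Box 2` into it), `bumps_near`, `EP_out`; `pullF_Dab`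
(`(2 r0)³ m0/r0 ≤ r0²`, `(2r0)⁴ m0/r0 ≤ r0²`); `pullF_l22`, `pullF_l12`; `normal_form` with
`r = r0`, `μ/4`, `δ'`; contradiction with `local_bad` (`lam ≤ 1`: `|l22 F̃ (0,0)| ≤ 1`). -/
theorem bad_unit : ∃ m0 : ℝ, 0 < m0 ∧ ∀ (N : ℕ) (δ : ℝ), 0 < δ → ∃ h11 h12 h22 : Sm,
    (∀ p, p ∉ Box 3 → h11 p = 0 ∧ h12 p = 0 ∧ h22 p = 0) ∧
    (∀ k ≤ N, ∀ p, ‖iteratedFDeriv ℝ k (h11 : ℝ × ℝ → ℝ) p‖ ≤ δ ∧
      ‖iteratedFDeriv ℝ k (h12 : ℝ × ℝ → ℝ) p‖ ≤ δ ∧
      ‖iteratedFDeriv ℝ k (h22 : ℝ × ℝ → ℝ) p‖ ≤ δ) ∧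
    ∀ F : Fin 3 → Sm,
      (∀ i, ∀ a b : ℕ, 2 ≤ a + b → a + b ≤ 4 → ∀ p ∈ Box 3, |Dab a b (F i) p| ≤ m0) →
      ¬ IsomG (1 + h11) h12 (1 + h22) F (Box 3) := by
  obtain ⟨η9, hη9, LB⟩ := local_bad
  obtain ⟨Δ, Cn, hΔ, hCn, NF⟩ := normal_form η9 hη9
  obtain ⟨m, v, c1, hc1, hc1', hv, RA⟩ := robust_angle Δ hΔ
  obtain ⟨m0', hm0', τ0, hτ0, hτ01, SC⟩ := side_curved
  obtain ⟨CL, hCL, LL⟩ := l_lip
  have hCn0 : 0 < Cn := by linarith
  refine ⟨min m0' (1/100), by positivity, ?_⟩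
  intro N δ0 hδ0
  obtain ⟨δ, hδ, hδ1, hδδ0⟩ : ∃ δ : ℝ, 0 < δ ∧ δ ≤ 1 ∧ δ ≤ δ0 :=
    ⟨min δ0 1, by positivity, min_le_right _ _, min_le_left _ _⟩
  obtain ⟨CE, hCE, hE⟩ := EP_CN N
  obtain ⟨τ, hτ, hττ0, hτδ⟩ : ∃ τ : ℝ, 0 < τ ∧ τ ≤ τ0 ∧ CE * τ ≤ δ / 2 := by
    refine ⟨min τ0 (δ / 2 / CE), by positivity, min_le_left _ _, ?_⟩
    calc CE * min τ0 (δ / 2 / CE) ≤ CE * (δ / 2 / CE) :=
          mul_le_mul_of_nonneg_left (min_le_right _ _) hCE.le
      _ = δ / 2 := by field_simp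
  obtain ⟨μ, hμ, hμ1, SC'⟩ := SC τ hτ hττ0
  obtain ⟨ρ, hρ, hρC⟩ : ∃ ρ : ℝ, 0 < ρ ∧ CL * ρ = c1 * μ :=
    ⟨c1 * μ / CL, by positivity, by field_simp⟩
  obtain ⟨K, c, r1, hr1, hnet, hsep, hcb⟩ := centers ρ hρ m
  obtain ⟨r0, hr0, hr01, h8, hCr⟩ : ∃ r0 : ℝ, 0 < r0 ∧ r0 ≤ 1 ∧ 8 * r0 ≤ r1 ∧ Cn * r0 ≤ μ / 4 := by
    refine ⟨min 1 (min (r1 / 8) (μ / 4 / Cn)), by positivity, min_le_left _ _, ?_, ?_⟩
    · have : min 1 (min (r1 / 8) (μ / 4 / Cn)) ≤ r1 / 8 :=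
        (min_le_right _ _).trans (min_le_left _ _)
      linarith
    · have : min 1 (min (r1 / 8) (μ / 4 / Cn)) ≤ μ / 4 / Cn :=
        (min_le_right _ _).trans (min_le_right _ _)
      calc Cn * min 1 (min (r1 / 8) (μ / 4 / Cn)) ≤ Cn * (μ / 4 / Cn) :=
            mul_le_mul_of_nonneg_left this hCn0.le
        _ = μ / 4 := by field_simp
  obtain ⟨δ', hδ', hKδ, hCδ⟩ : ∃ δ' : ℝ, 0 < δ' ∧ K * m * (2 / r0) ^ N * δ' ≤ δ / 2 ∧
      Cn * δ' ≤ (r0 * (μ / 4)) ^ 2 := by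
    refine ⟨min (δ / 2 / (K * m * (2 / r0) ^ N + 1)) ((r0 * (μ / 4)) ^ 2 / Cn), by positivity,
      ?_, ?_⟩
    · have h0 : (0 : ℝ) ≤ K * m * (2 / r0) ^ N := by positivity
      calc K * m * (2 / r0) ^ N * min (δ / 2 / (K * m * (2 / r0) ^ N + 1)) ((r0 * (μ / 4)) ^ 2 / Cn)
          ≤ (K * m * (2 / r0) ^ N + 1) * (δ / 2 / (K * m * (2 / r0) ^ N + 1)) := by
            refine mul_le_mul (by linarith) (min_le_left _ _) (by positivity) (by linarith)
        _ = δ / 2 := by field_simp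
    · calc Cn * min (δ / 2 / (K * m * (2 / r0) ^ N + 1)) ((r0 * (μ / 4)) ^ 2 / Cn)
          ≤ Cn * ((r0 * (μ / 4)) ^ 2 / Cn) :=
            mul_le_mul_of_nonneg_left (min_le_right _ _) hCn0.le
        _ = (r0 * (μ / 4)) ^ 2 := by field_simp
  obtain ⟨H, hH0, hHN, hH1, hH2, hH3, hH4, hHF⟩ := LB (r0 * (μ / 4)) (by positivity) N δ' hδ'
  have hv1 : ∀ j, |(v j).1| ≤ 1 := fun j => (EB_unit _ _ (hv j)).1
  have hv2 : ∀ j, |(v j).2| ≤ 1 := fun j => (EB_unit _ _ (hv j)).2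
  have hw : ∀ x y : ℝ, |x| ≤ 1 → |y| ≤ 1 → |x * y| ≤ 1 := fun x y hx hy => by
    rw [abs_mul]; exact mul_le_one₀ hx (abs_nonneg _) hy
  have hbN : ∀ w : Fin m → ℝ, (∀ j, |w j| ≤ 1) → ∀ k ≤ N, ∀ p,
      ‖iteratedFDeriv ℝ k (bumps K m c v r0 w H : ℝ × ℝ → ℝ) p‖ ≤ δ / 2 := fun w hw k hk p =>
    (bumps_CN K m c v r0 w H hr0 hr01 N δ' hv hw hHN k hk p).trans hKδ
  have hb0 : ∀ w : Fin m → ℝ, ∀ p, (∀ k j, r1 < ‖p - c k j‖) → bumps K m c v r0 w H p = 0 :=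
    fun w => bumps_far K m c v r0 r1 w H hr0 h8 hv hH0
  have hbn : ∀ (w : Fin m → ℝ) (k : Fin K) (j : Fin m), ∀ p, ‖p - c k j‖ ≤ r1 →
      bumps K m c v r0 w H p = w j * push (c k j) r0 (v j).1 (v j).2 H p :=
    fun w => bumps_near K m c v r0 r1 w H hr0 h8 hv hH0 hsep
  have hbabs : ∀ w : Fin m → ℝ, (∀ j, |w j| ≤ 1) → ∀ p, |bumps K m c v r0 w H p| ≤ 1 / 2 := by
    intro w hw p
    have h := hbN w hw 0 (Nat.zero_le _) p
    rw [norm_iteratedFDeriv_zero, Real.norm_eq_abs] at h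
    linarith
  have hEabs : ∀ p, |(EP τ - 1 : Sm) p| ≤ 1 / 2 := by
    intro p
    have h := hE τ hτ 0 (Nat.zero_le _) p
    rw [norm_iteratedFDeriv_zero, Real.norm_eq_abs] at h
    linarith
  have hw11 : ∀ j, |(v j).1 ^ 2| ≤ 1 := fun j => by
    rw [sq]; exact hw _ _ (hv1 j) (hv1 j)
  have hw12 : ∀ j, |(v j).1 * (v j).2| ≤ 1 := fun j => hw _ _ (hv1 j) (hv2 j)
  have hw22 : ∀ j, |(v j).2 ^ 2| ≤ 1 := fun j => by
    rw [sq]; exact hw _ _ (hv2 j) (hv2 j)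
  refine ⟨(EP τ - 1) + bumps K m c v r0 (fun j => (v j).1 ^ 2) H,
    bumps K m c v r0 (fun j => (v j).1 * (v j).2) H,
    bumps K m c v r0 (fun j => (v j).2 ^ 2) H, ?_, ?_, ?_⟩
  · intro p hp
    have hfar : ∀ k j, r1 < ‖p - c k j‖ := by
      intro k j
      by_contra hcon
      push Not at hcon
      have := (hcb k j p hcon).1
      exact hp ⟨this.1.trans (by norm_num), this.2.trans (by norm_num)⟩
    have hEP : EP τ p = 1 := by
      refine (EP_out τ p ?_).1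
      by_contra hcon
      push Not at hcon
      refine hp ⟨?_, ?_⟩ <;> rw [abs_lt] <;> constructor <;> linarith [hcon.1, hcon.2.1, hcon.2.2.1,
        hcon.2.2.2]
    refine ⟨?_, hb0 _ p hfar, hb0 _ p hfar⟩
    rw [add_ap, sub_ap, one_ap, hEP, hb0 _ p hfar]
    norm_num
  · intro k hk p
    refine ⟨?_, ?_, ?_⟩
    · have e : ((EP τ - 1 + bumps K m c v r0 (fun j => (v j).1 ^ 2) H : Sm) : ℝ × ℝ → ℝ)
          = ((EP τ - 1 : Sm) : ℝ × ℝ → ℝ)
            + (bumps K m c v r0 (fun j => (v j).1 ^ 2) H : ℝ × ℝ → ℝ) := rfl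
      rw [e, iteratedFDeriv_add]
      · refine (norm_add_le _ _).trans ?_
        have h1 := hE τ hτ k hk p
        have h2 := hbN _ hw11 k hk p
        linarith
      · exact ((smooth (EP τ - 1)).of_le (by exact_mod_cast le_top))
      · exact ((smooth (bumps K m c v r0 (fun j => (v j).1 ^ 2) H)).of_le
          (by exact_mod_cast le_top))
    · have h2 := hbN _ hw12 k hk p
      linarith
    · have h2 := hbN _ hw22 k hk p
      linarith
  · intro F hFm hIso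
    have hB23 : Box 2 ⊆ Box 3 := fun p hp => ⟨hp.1.trans (by norm_num), hp.2.trans (by norm_num)⟩
    -- the metric on the rectangle
    have hRo : Isom (EP τ) F Ro := by
      intro p hp
      have hp1 : 0 < p.1 ∧ p.1 < 1 := hp.1
      have hp2 : 0 < p.2 ∧ p.2 < 1/4 := hp.2
      have hfar : ∀ k j, r1 < ‖p - c k j‖ := by
        intro k j
        by_contra hcon
        push Not at hcon
        rcases (hcb k j p hcon).2 with h | h | h | h <;> linarith [hp1.1, hp1.2, hp2.1, hp2.2]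
      have hp3 : p ∈ Box 3 := by
        refine ⟨?_, ?_⟩ <;> rw [abs_lt] <;> constructor <;> linarith [hp1.1, hp1.2, hp2.1, hp2.2]
      obtain ⟨i1, i2, i3⟩ := hIso p hp3
      refine ⟨?_, ?_, ?_⟩
      · rw [i1, add_ap, add_ap, sub_ap, one_ap, hb0 _ p hfar]; ring
      · rw [i2, hb0 _ p hfar]
      · rw [i3, add_ap, one_ap, hb0 _ p hfar]; ring
    -- first derivatives
    have hF1 : ∀ i, ∀ p ∈ Box 2, |D1 (F i) p| ≤ 2 ∧ |D2 (F i) p| ≤ 2 := by
      intro i p hp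
      obtain ⟨i1, i2, i3⟩ := hIso p (hB23 hp)
      have h1 := hEabs p
      have h2 := hbabs _ hw11 p
      have h3 := hbabs _ hw22 p
      rw [add_ap, one_ap, add_ap] at i1
      rw [add_ap, one_ap] at i3
      simp only [dot, add_ap, mul_ap] at i1 i3
      rw [abs_le] at h1 h2 h3
      have j1 := EB_sq _ _ _ (by linarith [h1.2, h2.2] : D1 (F 0) p * D1 (F 0) p
        + D1 (F 1) p * D1 (F 1) p + D1 (F 2) p * D1 (F 2) p ≤ 2)
      have j2 := EB_sq _ _ _ (by linarith [h3.2] : D2 (F 0) p * D2 (F 0) p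
        + D2 (F 1) p * D2 (F 1) p + D2 (F 2) p * D2 (F 2) p ≤ 2)
      fin_cases i
      · exact ⟨j1.1, j2.1⟩
      · exact ⟨j1.2.1, j2.2.1⟩
      · exact ⟨j1.2.2, j2.2.2⟩
    have hm1 : ∀ i, ∀ a b : ℕ, 2 ≤ a + b → a + b ≤ 4 → ∀ p ∈ Box 3, |Dab a b (F i) p| ≤ 1/100 :=
      fun i a b h1 h2 p hp => (hFm i a b h1 h2 p hp).trans (min_le_right _ _)
    have hLip := LL F hF1 (fun i a b h1 h2 p hp =>
      (hm1 i a b h1 (by omega) p (hB23 hp)).trans (by norm_num))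
    -- a curved point
    obtain ⟨q, hq, hql⟩ := SC' F (fun i a b h1 h2 p hp =>
      (hFm i a b h1 h2 p (hB23 hp)).trans (min_le_left _ _)) hRo
    have hqB : q ∈ Box 2 := by
      rcases hq with ⟨h1, h2, h3⟩ | ⟨h1, h2, h3⟩ | ⟨h1, h2, h3⟩ <;>
        refine ⟨?_, ?_⟩ <;> rw [abs_lt] <;> constructor <;> linarith
    have hqcl : q ∈ closure Ro := by
      unfold Ro
      rw [closure_prod_eq, closure_Ioo (by norm_num), closure_Ioo (by norm_num)]
      rcases hq with ⟨h1, h2, h3⟩ | ⟨h1, h2, h3⟩ | ⟨h1, h2, h3⟩ <;>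
        refine ⟨⟨?_, ?_⟩, ⟨?_, ?_⟩⟩ <;> linarith
    have hdet : l11 F q * l22 F q = l12 F q ^ 2 := by
      have h1 := eq_closure _ _ Ro (gauss (EP τ) F Ro (isOpen_Ioo.prod isOpen_Ioo) hRo) q hqcl
      obtain ⟨h2, h3, h4, h5⟩ := EP_out τ q (by
        rcases hq with ⟨h1, h2, h3⟩ | ⟨h1, h2, h3⟩ | ⟨h1, h2, h3⟩
        · left; linarith
        · right; left; linarith
        · right; right; left; linarith)
      rw [add_ap, smul_ap, mul_ap, smul_ap, pow_ap, h4, h5, Bdet_l, sub_ap, mul_ap, pow_ap] at h1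
      linarith
    obtain ⟨j, hj⟩ := RA (l11 F q) (l12 F q) (l22 F q) μ hμ hdet (by
      rcases hql with h | h | h
      · left; exact h.le
      · right; left; exact h.le
      · right; right; exact h.le)
    obtain ⟨k, hk⟩ := hnet q hq
    have hcB : c k j ∈ Box 2 := (hcb k j (c k j) (by simpa using hr1.le)).1
    have hcq : CL * ‖c k j - q‖ ≤ c1 * μ := by
      rw [← hρC]; exact mul_le_mul_of_nonneg_left (hk j) hCL.le
    obtain ⟨L1, L2, L3⟩ := hLip (c k j) hcB q hqB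
    obtain ⟨A1, A2⟩ := hj (l11 F (c k j)) (l12 F (c k j)) (l22 F (c k j)) (L1.trans hcq)
      (L2.trans hcq) (L3.trans hcq)
    obtain ⟨a, ha⟩ : ∃ a, a = (v j).1 := ⟨_, rfl⟩
    obtain ⟨b, hb⟩ : ∃ b, b = (v j).2 := ⟨_, rfl⟩
    have hab : a ^ 2 + b ^ 2 = 1 := by rw [ha, hb]; exact hv j
    have ha1 : |a| ≤ 1 := by rw [ha]; exact hv1 j
    have hb1 : |b| ≤ 1 := by rw [hb]; exact hv2 j
    rw [← ha, ← hb] at A1 A2
    -- the similarity
    have hsim : ∀ p ∈ Box 2, sim (c k j) r0 a b p ∈ {p : ℝ × ℝ | ‖p - c k j‖ ≤ r1} := by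
      intro p hp
      have h1 := hp.1
      have h2 := hp.2
      have e1 : |a * p.1 - b * p.2| ≤ 4 := by
        have x1 : |a * p.1| ≤ 1 * 2 := by
          rw [abs_mul]; exact mul_le_mul ha1 h1.le (abs_nonneg _) (by norm_num)
        have x2 : |b * p.2| ≤ 1 * 2 := by
          rw [abs_mul]; exact mul_le_mul hb1 h2.le (abs_nonneg _) (by norm_num)
        rw [abs_le] at *
        constructor <;> linarith [x1.1, x1.2, x2.1, x2.2]
      have e2 : |b * p.1 + a * p.2| ≤ 4 := by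
        have x1 : |b * p.1| ≤ 1 * 2 := by
          rw [abs_mul]; exact mul_le_mul hb1 h1.le (abs_nonneg _) (by norm_num)
        have x2 : |a * p.2| ≤ 1 * 2 := by
          rw [abs_mul]; exact mul_le_mul ha1 h2.le (abs_nonneg _) (by norm_num)
        rw [abs_le] at *
        constructor <;> linarith [x1.1, x1.2, x2.1, x2.2]
      show ‖sim (c k j) r0 a b p - c k j‖ ≤ r1
      rw [Prod.norm_def]
      refine max_le ?_ ?_
      · show |(c k j).1 + r0 * (a * p.1 - b * p.2) - (c k j).1| ≤ r1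
        rw [add_sub_cancel_left, abs_mul, abs_of_pos hr0]
        have := mul_le_mul_of_nonneg_left e1 hr0.le
        linarith
      · show |(c k j).2 + r0 * (b * p.1 + a * p.2) - (c k j).2| ≤ r1
        rw [add_sub_cancel_left, abs_mul, abs_of_pos hr0]
        have := mul_le_mul_of_nonneg_left e2 hr0.le
        linarith
    have hballB : ∀ p ∈ {p : ℝ × ℝ | ‖p - c k j‖ ≤ r1}, p ∈ Box 3 := fun p hp =>
      hB23 (hcb k j p hp).1
    have hEP1 : ∀ p ∈ {p : ℝ × ℝ | ‖p - c k j‖ ≤ r1}, EP τ p = 1 := fun p hp => by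
      refine (EP_out τ p ?_).1
      rcases (hcb k j p hp).2 with h | h | h | h
      · left; exact h.le
      · right; left; exact h.le
      · right; right; left; exact h.le
      · right; right; right; exact h.le
    have hIso' := pullF_isom (c k j) r0 a b _ _ _ H F {p : ℝ × ℝ | ‖p - c k j‖ ≤ r1} (Box 2) hr0
      hab hsim (fun p hp => hIso p (hballB p hp))
      (fun p hp => by
        rw [add_ap, one_ap, add_ap, sub_ap, one_ap, hEP1 p hp, hbn _ k j p hp, ← ha, ← hb]; ring)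
      (fun p hp => by rw [hbn _ k j p hp, ← ha, ← hb])
      (fun p hp => by rw [add_ap, one_ap, hbn _ k j p hp, ← ha, ← hb])
    have h22 : l22 (pullF (c k j) r0 a b F) (0, 0)
        = r0 * rtt a b (l11 F (c k j)) (l12 F (c k j)) (l22 F (c k j)) := by
      rw [pullF_l22 (c k j) r0 a b F hr0 hab]; rfl
    have h12 : l12 (pullF (c k j) r0 a b F) (0, 0)
        = r0 * rst a b (l11 F (c k j)) (l12 F (c k j)) (l22 F (c k j)) := by
      rw [pullF_l12 (c k j) r0 a b F hr0 hab]; rfl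
    have hlow : r0 * (μ / 4) ≤ |l22 (pullF (c k j) r0 a b F) (0, 0)| := by
      rw [h22, abs_mul, abs_of_pos hr0]
      exact mul_le_mul_of_nonneg_left A2 hr0.le
    have hang : |l12 (pullF (c k j) r0 a b F) (0, 0)|
        ≤ Δ * |l22 (pullF (c k j) r0 a b F) (0, 0)| := by
      rw [h12, h22, abs_mul, abs_mul, abs_of_pos hr0]
      have := mul_le_mul_of_nonneg_left A1 hr0.le
      linarith
    have hder : ∀ i, ∀ a' b' : ℕ, 3 ≤ a' + b' → a' + b' ≤ 4 → ∀ p ∈ Box 2,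
        |Dab a' b' (pullF (c k j) r0 a b F i) p| ≤ r0 ^ 2 := by
      intro i a' b' h3 h4 p hp
      have h := pullF_Dab (c k j) r0 a b F hr0 hab (a' + b') (1/100) i p
        (fun u v huv => hm1 i u v (by omega) (by omega) _ (hballB _ (hsim p hp))) a' b' rfl
      refine h.trans ?_
      rcases (by omega : a' + b' = 3 ∨ a' + b' = 4) with h5 | h5
      · rw [h5, div_le_iff₀ hr0]
        have h7 : 0 < r0 ^ 3 := by positivity
        have h8 : (2 * r0) ^ 3 * (1/100) = 8/100 * r0 ^ 3 := by ring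
        have h9 : r0 ^ 2 * r0 = r0 ^ 3 := by ring
        rw [h8, h9]
        linarith
      · rw [h5, div_le_iff₀ hr0]
        have h7 : 0 < r0 ^ 3 := by positivity
        have h6 : r0 ^ 4 ≤ r0 ^ 3 := pow_le_pow_of_le_one hr0.le hr01 (by norm_num)
        have h8 : (2 * r0) ^ 4 * (1/100) = 16/100 * r0 ^ 4 := by ring
        have h9 : r0 ^ 2 * r0 = r0 ^ 3 := by ring
        rw [h8, h9]
        linarith
    have hup : |l22 (pullF (c k j) r0 a b F) (0, 0)| ≤ 1 := by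
      rw [pullF_l22 (c k j) r0 a b F hr0 hab, abs_mul, abs_of_pos hr0]
      have hn : ∀ i, |nrm F i (c k j)| ≤ 8 := fun i => by
        have := EB_crs_bound (fun i => D1 (F i)) (fun i => D2 (F i)) (c k j) 2 2 (by norm_num)
          (fun i => (hF1 i _ hcB).1) (fun i => (hF1 i _ hcB).2) i
        unfold nrm
        linarith
      have b11 : |l11 F (c k j)| ≤ 1/4 := by
        have := EB_dot_bound (nrm F) (fun i => D1 (D1 (F i))) (c k j) 8 (1/100) (by norm_num) hn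
          (fun i => hm1 i 2 0 (by norm_num) (by norm_num) _ (hB23 hcB))
        unfold l11
        linarith
      have b12 : |l12 F (c k j)| ≤ 1/4 := by
        have := EB_dot_bound (nrm F) (fun i => D1 (D2 (F i))) (c k j) 8 (1/100) (by norm_num) hn
          (fun i => hm1 i 1 1 (by norm_num) (by norm_num) _ (hB23 hcB))
        unfold l12
        linarith
      have b22 : |l22 F (c k j)| ≤ 1/4 := by
        have := EB_dot_bound (nrm F) (fun i => D2 (D2 (F i))) (c k j) 8 (1/100) (by norm_num) hn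
          (fun i => hm1 i 0 2 (by norm_num) (by norm_num) _ (hB23 hcB))
        unfold l22
        linarith
      have e1 : |b ^ 2 * l11 F (c k j)| ≤ 1 * (1/4) := by
        rw [abs_mul]
        exact mul_le_mul (by rw [sq]; exact hw _ _ hb1 hb1) b11 (abs_nonneg _) (by norm_num)
      have e2 : |a * b * l12 F (c k j)| ≤ 1 * (1/4) := by
        rw [abs_mul]
        exact mul_le_mul (hw _ _ ha1 hb1) b12 (abs_nonneg _) (by norm_num)
      have e3 : |a ^ 2 * l22 F (c k j)| ≤ 1 * (1/4) := by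
        rw [abs_mul]
        exact mul_le_mul (by rw [sq]; exact hw _ _ ha1 ha1) b22 (abs_nonneg _) (by norm_num)
      have e4 : |b ^ 2 * l11 F (c k j) - 2 * a * b * l12 F (c k j) + a ^ 2 * l22 F (c k j)| ≤ 1 := by
        have : b ^ 2 * l11 F (c k j) - 2 * a * b * l12 F (c k j) + a ^ 2 * l22 F (c k j)
          = b ^ 2 * l11 F (c k j) - 2 * (a * b * l12 F (c k j)) + a ^ 2 * l22 F (c k j) := by ring
        rw [this]
        rw [abs_le] at *
        constructor <;> linarith [e1.1, e1.2, e2.1, e2.2, e3.1, e3.2]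
      exact mul_le_one₀ hr01 (abs_nonneg _) e4
    obtain ⟨G, hG1, hG2⟩ := NF r0 (μ / 4) δ' H (pullF (c k j) r0 a b F) hr0 (by positivity) hCr
      hδ'.le hCδ hH1 hH2 hH3 hH4 hIso' hder hlow hang
    exact hHF G _ hlow hup hG1 hG2

end NI
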