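import Crest.Agent.NI_E1

set_option autoImplicit false
open scoped ContDiff
open MeasureTheory

namespace NI

/-- centres and radii of the final metric -/
noncomputable def cj (j : ℕ) : ℝ × ℝ := ((1/2 : ℝ) ^ j, 0)
noncomputable def Rj (j : ℕ) : ℝ := (1/2 : ℝ) ^ (j + 5)

theorem F1_Rj_pos (j : ℕ) : 0 < Rj j := by unfold Rj; positivity

theorem F1_Rj_le (j : ℕ) : Rj j / 2 ≤ 1 := by
  have h : Rj j ≤ 1 := by
    unfold Rj
    exact pow_le_one₀ (by norm_num) (by norm_num)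
  linarith

/-- distance of the centres -/
theorem F1_dist (i j : ℕ) (hij : i < j) : 6 * Rj i + 6 * Rj j < (1/2 : ℝ) ^ i - (1/2 : ℝ) ^ j := by
  have h1 : (1/2 : ℝ) ^ j ≤ (1/2 : ℝ) ^ (i + 1) :=
    pow_le_pow_of_le_one (by norm_num) (by norm_num) hij
  have h2 : (0 : ℝ) < (1/2 : ℝ) ^ i := by positivity
  unfold Rj
  rw [pow_add, pow_add _ j]
  rw [pow_succ] at h1
  norm_num at h1 ⊢
  linarith

theorem F1_norm_cj (i j : ℕ) : ‖cj i - cj j‖ = |(1/2 : ℝ) ^ i - (1/2 : ℝ) ^ j| := by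
  unfold cj
  rw [Prod.norm_def]
  simp

/-- the sets `‖p - cj j‖ ≤ 6 Rj j` are disjoint -/
theorem cj_disj (i j : ℕ) (hij : i ≠ j) (p : ℝ × ℝ) (h : ‖p - cj j‖ ≤ 6 * Rj j) :
    6 * Rj i < ‖p - cj i‖ := by
  have h1 : 6 * Rj i + 6 * Rj j < ‖cj i - cj j‖ := by
    rw [F1_norm_cj]
    rcases lt_or_gt_of_ne hij with h2 | h2
    · exact (F1_dist i j h2).trans_le (le_abs_self _)
    · have := F1_dist j i h2
      rw [abs_sub_comm]
      exact (by linarith : 6 * Rj i + 6 * Rj j < (1/2 : ℝ) ^ j - (1/2 : ℝ) ^ i).trans_le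
        (le_abs_self _)
  have h2 : ‖cj i - cj j‖ ≤ ‖p - cj j‖ + ‖p - cj i‖ := by
    have : cj i - cj j = (p - cj j) - (p - cj i) := by abel
    rw [this]
    exact norm_sub_le _ _
  linarith

theorem F1_term (j k : ℕ) (hk : k ≤ j) (f : Sm)
    (hN : ∀ p, ‖iteratedFDeriv ℝ k (f : ℝ × ℝ → ℝ) p‖ ≤ (Rj j / 2) ^ j * (1/2) ^ (j + 3))
    (p : ℝ × ℝ) :
    ‖iteratedFDeriv ℝ k (push (cj j) (Rj j) 1 0 f : ℝ × ℝ → ℝ) p‖ ≤ (1/2 : ℝ) ^ (j + 3) := by
  have hR := F1_Rj_pos j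
  have h1 := push_CN (cj j) (Rj j) 1 0 f hR (by norm_num) k _ hN p
  refine h1.trans ?_
  have h2 : (2 / Rj j) ^ k * ((Rj j / 2) ^ j * (1/2) ^ (j + 3)) =
      (Rj j / 2) ^ (j - k) * (1/2) ^ (j + 3) := by
    have h3 : (Rj j / 2) ^ j = (Rj j / 2) ^ (j - k) * (Rj j / 2) ^ k := by
      rw [← pow_add, Nat.sub_add_cancel hk]
    have h4 : (2 / Rj j) ^ k * (Rj j / 2) ^ k = 1 := by
      rw [← mul_pow]
      have : 2 / Rj j * (Rj j / 2) = 1 := by field_simp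
      rw [this, one_pow]
    rw [h3]
    calc (2 / Rj j) ^ k * ((Rj j / 2) ^ (j - k) * (Rj j / 2) ^ k * (1/2) ^ (j + 3))
        = ((2 / Rj j) ^ k * (Rj j / 2) ^ k) * ((Rj j / 2) ^ (j - k) * (1/2) ^ (j + 3)) := by ring
      _ = _ := by rw [h4, one_mul]
  rw [h2]
  have h5 : (Rj j / 2) ^ (j - k) ≤ 1 := pow_le_one₀ (by positivity) (F1_Rj_le j)
  calc (Rj j / 2) ^ (j - k) * (1/2 : ℝ) ^ (j + 3) ≤ 1 * (1/2 : ℝ) ^ (j + 3) :=
        mul_le_mul_of_nonneg_right h5 (by positivity)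
    _ = _ := one_mul _

theorem F1_summable : Summable (fun j : ℕ => (1/2 : ℝ) ^ (j + 3)) := by
  have h := (summable_geometric_of_lt_one (r := (1/2 : ℝ)) (by norm_num) (by norm_num)).mul_right
    ((1/2 : ℝ) ^ 3)
  refine h.congr fun j => ?_
  rw [pow_add]

theorem F1_tsum : ∑' j : ℕ, (1/2 : ℝ) ^ (j + 3) = 1/4 := by
  have h : ∀ j : ℕ, (1/2 : ℝ) ^ (j + 3) = (1/2 : ℝ) ^ j * (1/2 : ℝ) ^ 3 := fun j => pow_add _ _ _
  rw [tsum_congr h, tsum_mul_right, tsum_geometric_of_lt_one (by norm_num) (by norm_num)]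
  norm_num

/-- a series of rescaled bumps with fast decreasing sizes defines a smooth function
(`contDiff_tsum_of_eventually`, `push_CN`: the `k`-th derivative of the `j`-th term is at most
`(2/Rj j)^j (Rj j/2)^j (1/2)^(j+3)` if `k ≤ j`). -/
theorem series_smooth (h : ℕ → Sm)
    (hN : ∀ j, ∀ k ≤ j, ∀ p, ‖iteratedFDeriv ℝ k (h j : ℝ × ℝ → ℝ) p‖
      ≤ (Rj j / 2) ^ j * (1/2) ^ (j + 3)) :
    ContDiff ℝ ∞ (fun p : ℝ × ℝ => ∑' j, push (cj j) (Rj j) 1 0 (h j) p) := by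
  refine contDiff_tsum_of_eventually (v := fun _ j => (1/2 : ℝ) ^ (j + 3))
    (fun j => smooth (push (cj j) (Rj j) 1 0 (h j))) (fun k _ => F1_summable) ?_
  intro k _
  rw [Nat.cofinite_eq_atTop]
  filter_upwards [Filter.eventually_ge_atTop k] with j hj
  intro p
  exact F1_term j k hj (h j) (hN j k hj) p

/-- near the centre `cj j` only the `j`-th term is non-zero -/
theorem series_near (h : ℕ → Sm) (hs : ∀ j, ∀ p, p ∉ Box 3 → h j p = 0) (j : ℕ) (p : ℝ × ℝ)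
    (hp : ‖p - cj j‖ ≤ 6 * Rj j) :
    ∑' i, push (cj i) (Rj i) 1 0 (h i) p = push (cj j) (Rj j) 1 0 (h j) p := by
  refine tsum_eq_single j fun i hij => ?_
  have h1 := cj_disj i j hij p hp
  refine push_off (cj i) (Rj i) 1 0 3 (h i) (F1_Rj_pos i) (by norm_num) (hs i) p ?_
  rw [Prod.norm_def, lt_max_iff] at h1
  rcases h1 with h1 | h1
  · left
    have : ‖(p - cj i).1‖ = |p.1 - (cj i).1| := rfl
    rw [this] at h1
    linarith
  · right
    have : ‖(p - cj i).2‖ = |p.2 - (cj i).2| := rfl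
    rw [this] at h1
    linarith

/-- the sum is at most `1/4`. -/
theorem series_small (h : ℕ → Sm)
    (hN : ∀ j, ∀ k ≤ j, ∀ p, ‖iteratedFDeriv ℝ k (h j : ℝ × ℝ → ℝ) p‖
      ≤ (Rj j / 2) ^ j * (1/2) ^ (j + 3)) (p : ℝ × ℝ) :
    |∑' i, push (cj i) (Rj i) 1 0 (h i) p| ≤ 1/4 := by
  have h1 : ∀ i, ‖push (cj i) (Rj i) 1 0 (h i) p‖ ≤ (1/2 : ℝ) ^ (i + 3) := by
    intro i
    have h2 := F1_term i 0 (Nat.zero_le i) (h i) (hN i 0 (Nat.zero_le i)) p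
    rwa [norm_iteratedFDeriv_zero] at h2
  have h3 := tsum_of_norm_bounded F1_summable.hasSum h1
  rw [F1_tsum] at h3
  exact h3

/-- smooth functions have bounded derivatives on boxes -/
theorem Dab_bdd (F : Fin 3 → Sm) (r : ℝ) (N : ℕ) : ∃ m : ℝ, 0 < m ∧ ∀ i, ∀ a b : ℕ, a + b ≤ N →
    ∀ p ∈ Box r, |Dab a b (F i) p| ≤ m := by
  have h1 : ∀ (i : Fin 3) (a b : ℕ), ∃ m : ℝ, 0 ≤ m ∧ ∀ p ∈ Box r, |Dab a b (F i) p| ≤ m := by
    intro i a b
    have hc : IsCompact (Set.Icc (-r) r ×ˢ Set.Icc (-r) r : Set (ℝ × ℝ)) :=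
      isCompact_Icc.prod isCompact_Icc
    have hcont : Continuous (Dab a b (F i) : ℝ × ℝ → ℝ) := (smooth _).continuous
    obtain ⟨C, hC⟩ := hc.exists_bound_of_continuousOn hcont.continuousOn
    refine ⟨max C 0, le_max_right _ _, fun p hp => ?_⟩
    have hp' : p ∈ (Set.Icc (-r) r ×ˢ Set.Icc (-r) r : Set (ℝ × ℝ)) := by
      obtain ⟨hp1, hp2⟩ := hp
      rw [abs_lt] at hp1 hp2
      exact ⟨⟨hp1.1.le, hp1.2.le⟩, ⟨hp2.1.le, hp2.2.le⟩⟩
    exact (hC p hp').trans (le_max_left _ _)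
  choose m hm0 hm using h1
  refine ⟨1 + ∑ i, ∑ a ∈ Finset.range (N + 1), ∑ b ∈ Finset.range (N + 1), m i a b, ?_, ?_⟩
  · have : 0 ≤ ∑ i, ∑ a ∈ Finset.range (N + 1), ∑ b ∈ Finset.range (N + 1), m i a b :=
      Finset.sum_nonneg fun i _ => Finset.sum_nonneg fun a _ => Finset.sum_nonneg fun b _ =>
        hm0 i a b
    linarith
  · intro i a b hab p hp
    have h2 : m i a b ≤ ∑ b ∈ Finset.range (N + 1), m i a b :=
      Finset.single_le_sum (fun b _ => hm0 i a b) (Finset.mem_range.2 (by omega))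
    have h3 : ∑ b ∈ Finset.range (N + 1), m i a b ≤
        ∑ a ∈ Finset.range (N + 1), ∑ b ∈ Finset.range (N + 1), m i a b :=
      Finset.single_le_sum (f := fun a => ∑ b ∈ Finset.range (N + 1), m i a b)
        (fun a _ => Finset.sum_nonneg fun b _ => hm0 i a b) (Finset.mem_range.2 (by omega))
    have h4 : ∑ a ∈ Finset.range (N + 1), ∑ b ∈ Finset.range (N + 1), m i a b ≤
        ∑ i, ∑ a ∈ Finset.range (N + 1), ∑ b ∈ Finset.range (N + 1), m i a b :=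
      Finset.single_le_sum
        (f := fun i => ∑ a ∈ Finset.range (N + 1), ∑ b ∈ Finset.range (N + 1), m i a b)
        (fun i _ => Finset.sum_nonneg fun a _ => Finset.sum_nonneg fun b _ => hm0 i a b)
        (Finset.mem_univ i)
    have h5 := hm i a b p hp
    linarith

end NI
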