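import Crest.Agent.NI_F1
import Crest.Agent.NI_EB

set_option autoImplicit false
open scoped ContDiff
open MeasureTheory

namespace NI

private theorem FB_Rj_pos (j : ℕ) : 0 < Rj j := by unfold Rj; positivity

private theorem FB_Rj_le (j : ℕ) : Rj j ≤ (1/2 : ℝ) ^ j / 32 := by
  unfold Rj
  rw [pow_add]
  norm_num
  linarith

/-- points near the centre are in a small box -/
private theorem FB_near (r : ℝ) (j : ℕ) (hj : 2 * (1/2 : ℝ) ^ j < r) (p : ℝ × ℝ)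
    (hp : ‖p - cj j‖ ≤ 6 * Rj j) : p ∈ Box r := by
  have h1 := FB_Rj_le j
  have h0 : 0 < (1/2 : ℝ) ^ j := by positivity
  have h2 : |p.1 - (1/2 : ℝ) ^ j| ≤ 6 * Rj j := (norm_fst_le (p - cj j)).trans hp
  have h3 : |p.2 - 0| ≤ 6 * Rj j := (norm_snd_le (p - cj j)).trans hp
  rw [sub_zero] at h3
  rw [abs_le] at h2
  constructor
  · rw [abs_lt]; constructor <;> linarith
  · linarith

private theorem FB_sim (c : ℝ × ℝ) (R : ℝ) (hR : 0 < R) (p : ℝ × ℝ) (hp : p ∈ Box 3) :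
    ‖sim c R 1 0 p - c‖ ≤ 6 * R := by
  obtain ⟨h1, h2⟩ := hp
  have e : sim c R 1 0 p - c = (R * p.1, R * p.2) := by
    unfold sim
    ext
    · simp
    · simp
  rw [e, Prod.norm_def]
  refine max_le ?_ ?_
  · show ‖R * p.1‖ ≤ 6 * R
    rw [Real.norm_eq_abs, abs_mul, abs_of_pos hR]
    nlinarith
  · show ‖R * p.2‖ ≤ 6 * R
    rw [Real.norm_eq_abs, abs_mul, abs_of_pos hR]
    nlinarith

/-- BAD METRIC IN THE PLANE. `bad_unit` with `N = j`, `δ = (Rj j/2)^j (1/2)^(j+3)` gives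
`h11 j, ..`; `k11 = Σ' push (cj j) (Rj j) 1 0 (h11 j)`, .... Given `F` on `Box r` take `j` large:
`‖p - cj j‖ ≤ 6 Rj j → p ∈ Box (min r 1)`, `16 m Rj j ≤ m0` (`Dab_bdd F 1 4`), and
`pullF (cj j) (Rj j) 1 0 F` with `pullF_isomG`, `pullF_Dab`, `series_near`. -/
theorem bad_metric : ∃ k11 k12 k22 : Sm,
    (∀ p, |k11 p| ≤ 1/4 ∧ |k12 p| ≤ 1/4 ∧ |k22 p| ≤ 1/4) ∧
    ∀ r : ℝ, 0 < r → ∀ F : Fin 3 → Sm, ¬ IsomG (1 + k11) k12 (1 + k22) F (Box r) := by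
  obtain ⟨m0, hm0, hbad⟩ := bad_unit
  have hδ : ∀ j : ℕ, 0 < (Rj j / 2) ^ j * (1/2 : ℝ) ^ (j + 3) := fun j => by
    have := FB_Rj_pos j
    positivity
  choose h11 h12 h22 hsup hder hno using fun j : ℕ => hbad j _ (hδ j)
  have b11 : ∀ j, ∀ k ≤ j, ∀ p, ‖iteratedFDeriv ℝ k (h11 j : ℝ × ℝ → ℝ) p‖
      ≤ (Rj j / 2) ^ j * (1/2) ^ (j + 3) := fun j k hk p => (hder j k hk p).1
  have b12 : ∀ j, ∀ k ≤ j, ∀ p, ‖iteratedFDeriv ℝ k (h12 j : ℝ × ℝ → ℝ) p‖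
      ≤ (Rj j / 2) ^ j * (1/2) ^ (j + 3) := fun j k hk p => (hder j k hk p).2.1
  have b22 : ∀ j, ∀ k ≤ j, ∀ p, ‖iteratedFDeriv ℝ k (h22 j : ℝ × ℝ → ℝ) p‖
      ≤ (Rj j / 2) ^ j * (1/2) ^ (j + 3) := fun j k hk p => (hder j k hk p).2.2
  refine ⟨⟨_, mem_smAlg (series_smooth h11 b11)⟩, ⟨_, mem_smAlg (series_smooth h12 b12)⟩,
    ⟨_, mem_smAlg (series_smooth h22 b22)⟩,
    fun p => ⟨series_small h11 b11 p, series_small h12 b12 p, series_small h22 b22 p⟩, ?_⟩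
  intro r hr F hF
  obtain ⟨m, hm, hmF⟩ := Dab_bdd F 1 4
  -- the choice of `j`
  obtain ⟨j, hj⟩ : ∃ j : ℕ, 2 * (1/2 : ℝ) ^ j < min (min r 1) (m0 / m) := by
    have h1 : 0 < min (min r 1) (m0 / m) / 2 := by positivity
    obtain ⟨j, hj⟩ := exists_pow_lt_of_lt_one h1 (by norm_num : (1/2 : ℝ) < 1)
    exact ⟨j, by linarith⟩
  have hj1 : 2 * (1/2 : ℝ) ^ j < min r 1 := lt_of_lt_of_le hj (min_le_left _ _)
  have hj2 : 2 * (1/2 : ℝ) ^ j < m0 / m := lt_of_lt_of_le hj (min_le_right _ _)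
  have hR := FB_Rj_pos j
  have hR2 := FB_Rj_le j
  have h0 : 0 < (1/2 : ℝ) ^ j := by positivity
  have h01 : (1/2 : ℝ) ^ j ≤ 1 := pow_le_one₀ (by norm_num) (by norm_num)
  have hR1 : Rj j ≤ 1 := by linarith
  have hRm : 16 * m * Rj j ≤ m0 := by
    rw [lt_div_iff₀ hm] at hj2
    nlinarith
  have hsim : ∀ p ∈ Box 3, ‖sim (cj j) (Rj j) 1 0 p - cj j‖ ≤ 6 * Rj j := fun p hp =>
    FB_sim _ _ hR p hp
  have hbox : ∀ p ∈ Box 3, sim (cj j) (Rj j) 1 0 p ∈ Box (min r 1) := fun p hp =>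
    FB_near _ j hj1 _ (hsim p hp)
  have hboxr : ∀ p ∈ Box 3, sim (cj j) (Rj j) 1 0 p ∈ Box r := fun p hp =>
    ⟨lt_of_lt_of_le (hbox p hp).1 (min_le_left _ _), lt_of_lt_of_le (hbox p hp).2 (min_le_left _ _)⟩
  have hbox1 : ∀ p ∈ Box 3, sim (cj j) (Rj j) 1 0 p ∈ Box 1 := fun p hp =>
    ⟨lt_of_lt_of_le (hbox p hp).1 (min_le_right _ _),
      lt_of_lt_of_le (hbox p hp).2 (min_le_right _ _)⟩
  have hab : (1:ℝ) ^ 2 + 0 ^ 2 = 1 := by norm_num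
  refine hno j (pullF (cj j) (Rj j) 1 0 F) ?_ ?_
  · intro i a b hab2 hab4 p hp
    have h := pullF_Dab (cj j) (Rj j) 1 0 F hR hab (a + b) m i p
      (fun u v huv => hmF i u v (by omega) _ (hbox1 p hp)) a b rfl
    refine h.trans (le_trans ?_ hRm)
    rw [div_le_iff₀ hR]
    have hk : a + b = 2 ∨ a + b = 3 ∨ a + b = 4 := by omega
    have hRR : Rj j * Rj j ≤ Rj j := by nlinarith
    have hRRR : Rj j * Rj j * Rj j ≤ Rj j * Rj j := by nlinarith [mul_pos hR hR]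
    have hRRRR : Rj j * Rj j * Rj j * Rj j ≤ Rj j * Rj j * Rj j := by
      nlinarith [mul_pos (mul_pos hR hR) hR]
    have hmm : 0 ≤ m := hm.le
    rcases hk with hk | hk | hk <;> rw [hk]
    · nlinarith [mul_nonneg hmm (mul_nonneg hR.le hR.le)]
    · have : (2 * Rj j) ^ 3 * m = 8 * m * (Rj j * Rj j * Rj j) := by ring
      rw [this]
      nlinarith [mul_nonneg hmm (mul_nonneg hR.le hR.le),
        mul_le_mul_of_nonneg_left hRRR hmm]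
    · have : (2 * Rj j) ^ 4 * m = 16 * m * (Rj j * Rj j * Rj j * Rj j) := by ring
      rw [this]
      nlinarith [mul_nonneg hmm (mul_nonneg hR.le hR.le),
        mul_le_mul_of_nonneg_left hRRR hmm, mul_le_mul_of_nonneg_left hRRRR hmm]
  · have hI := pullF_isomG (cj j) (Rj j) 1 0 _ _ _ F (Box r) (Box 3) hR hab hboxr hF
    intro p hp
    obtain ⟨e1, e2, e3⟩ := hI p hp
    have s11 := series_near h11 (fun i p hp => (hsup i p hp).1) j _ (hsim p hp)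
    have s12 := series_near h12 (fun i p hp => (hsup i p hp).2.1) j _ (hsim p hp)
    have s22 := series_near h22 (fun i p hp => (hsup i p hp).2.2) j _ (hsim p hp)
    rw [push_ap, simi_sim _ _ _ _ hR.ne' hab] at s11 s12 s22
    refine ⟨?_, ?_, ?_⟩
    · rw [e1]
      simp only [pull_ap, add_ap, smul_ap, one_ap]
      show (1:ℝ) ^ 2 * (1 + ∑' i, push (cj i) (Rj i) 1 0 (h11 i) (sim (cj j) (Rj j) 1 0 p)) +
        2 * 1 * 0 * (∑' i, push (cj i) (Rj i) 1 0 (h12 i) (sim (cj j) (Rj j) 1 0 p)) +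
        (0:ℝ) ^ 2 * (1 + ∑' i, push (cj i) (Rj i) 1 0 (h22 i) (sim (cj j) (Rj j) 1 0 p)) = _
      rw [s11]; ring
    · rw [e2]
      simp only [pull_ap, add_ap, smul_ap, one_ap]
      show (-((1:ℝ) * 0)) * (1 + ∑' i, push (cj i) (Rj i) 1 0 (h11 i) (sim (cj j) (Rj j) 1 0 p)) +
        ((1:ℝ) ^ 2 - 0 ^ 2) * (∑' i, push (cj i) (Rj i) 1 0 (h12 i) (sim (cj j) (Rj j) 1 0 p)) +
        ((1:ℝ) * 0) * (1 + ∑' i, push (cj i) (Rj i) 1 0 (h22 i) (sim (cj j) (Rj j) 1 0 p)) = _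
      rw [s12]; ring
    · rw [e3]
      simp only [pull_ap, add_ap, smul_ap, one_ap]
      show ((0:ℝ) ^ 2) * (1 + ∑' i, push (cj i) (Rj i) 1 0 (h11 i) (sim (cj j) (Rj j) 1 0 p)) +
        (-(2 * 1 * 0)) * (∑' i, push (cj i) (Rj i) 1 0 (h12 i) (sim (cj j) (Rj j) 1 0 p)) +
        ((1:ℝ) ^ 2) * (1 + ∑' i, push (cj i) (Rj i) 1 0 (h22 i) (sim (cj j) (Rj j) 1 0 p)) = _
      rw [s22]; ring

end NI
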