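import Crest.Agent.NI_E1

set_option autoImplicit false
open scoped ContDiff
open MeasureTheory

namespace NI

/-- coordinate functional -/
noncomputable def pr (i : Fin 2) : EuclideanSpace ℝ (Fin 2) →L[ℝ] ℝ := EuclideanSpace.proj i

@[simp] theorem pr_ap (i : Fin 2) (v : EuclideanSpace ℝ (Fin 2)) : pr i v = v i := rfl

/-- the metric `|v|² + k11 v0 w0 + k12 (v0 w1 + v1 w0) + k22 v1 w1` on `EuclideanSpace ℝ (Fin 2)` -/
noncomputable def gE (k11 k12 k22 : Sm) (x : EuclideanSpace ℝ (Fin 2)) :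
    EuclideanSpace ℝ (Fin 2) →L[ℝ] EuclideanSpace ℝ (Fin 2) →L[ℝ] ℝ :=
  (1 + k11 (x 0, x 1)) • ContinuousLinearMap.smulRight (pr 0) (pr 0)
  + k12 (x 0, x 1) • ContinuousLinearMap.smulRight (pr 0) (pr 1)
  + k12 (x 0, x 1) • ContinuousLinearMap.smulRight (pr 1) (pr 0)
  + (1 + k22 (x 0, x 1)) • ContinuousLinearMap.smulRight (pr 1) (pr 1)

theorem gE_ap (k11 k12 k22 : Sm) (x v w : EuclideanSpace ℝ (Fin 2)) :
    gE k11 k12 k22 x v w = (1 + k11 (x 0, x 1)) * (v 0 * w 0) + k12 (x 0, x 1) * (v 0 * w 1)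
      + k12 (x 0, x 1) * (v 1 * w 0) + (1 + k22 (x 0, x 1)) * (v 1 * w 1) := by
  simp [gE]

private theorem ni_fc_coord_smooth (k : Sm) :
    ContDiff ℝ ∞ (fun x : EuclideanSpace ℝ (Fin 2) => k (x 0, x 1)) := by
  have h : ContDiff ℝ ∞ (fun x : EuclideanSpace ℝ (Fin 2) => ((pr 0 x, pr 1 x) : ℝ × ℝ)) :=
    ((pr 0).contDiff).prodMk ((pr 1).contDiff)
  exact (smooth k).comp h

theorem gE_smooth (k11 k12 k22 : Sm) : ContDiff ℝ ∞ (gE k11 k12 k22) := by
  rw [contDiff_clm_apply_iff]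
  intro v
  rw [contDiff_clm_apply_iff]
  intro w
  simp only [gE_ap]
  exact ((((contDiff_const.add (ni_fc_coord_smooth k11)).mul contDiff_const).add
    ((ni_fc_coord_smooth k12).mul contDiff_const)).add
    ((ni_fc_coord_smooth k12).mul contDiff_const)).add
    ((contDiff_const.add (ni_fc_coord_smooth k22)).mul contDiff_const)

theorem gE_pos (k11 k12 k22 : Sm)
    (hk : ∀ p, |k11 p| ≤ 1/4 ∧ |k12 p| ≤ 1/4 ∧ |k22 p| ≤ 1/4)
    (x v : EuclideanSpace ℝ (Fin 2)) (hv : v ≠ 0) : 0 < gE k11 k12 k22 x v v := by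
  rw [gE_ap]
  obtain ⟨h1, h2, h3⟩ := hk (x 0, x 1)
  rw [abs_le] at h1 h2 h3
  have hv' : v 0 ≠ 0 ∨ v 1 ≠ 0 := by
    by_contra h
    push Not at h
    apply hv
    ext i
    fin_cases i
    · simpa using h.1
    · simpa using h.2
  set a := v 0
  set b := v 1
  set A := k11 (x 0, x 1)
  set B := k12 (x 0, x 1)
  set C := k22 (x 0, x 1)
  have hpos : 0 < a * a + b * b := by
    rcases hv' with h | h
    · have := mul_self_pos.mpr h
      nlinarith [mul_self_nonneg b]
    · have := mul_self_pos.mpr h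
      nlinarith [mul_self_nonneg a]
  have e1 : (1 + A) * (a * a) ≥ 3 / 4 * (a * a) := by nlinarith [mul_self_nonneg a]
  have e2 : (1 + C) * (b * b) ≥ 3 / 4 * (b * b) := by nlinarith [mul_self_nonneg b]
  have e3 : B * (a * b) + B * (b * a) ≥ - (1/4) * (a * a + b * b) := by
    have h4 : |B * (a * b + b * a)| ≤ 1/4 * (a * a + b * b) := by
      rw [abs_mul]
      have h5 : |a * b + b * a| ≤ a * a + b * b := by
        rw [abs_le]; constructor <;> nlinarith [mul_self_nonneg (a + b), mul_self_nonneg (a - b)]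
      have h6 : |B| ≤ 1/4 := abs_le.mpr h2
      exact mul_le_mul h6 h5 (abs_nonneg _) (by norm_num)
    have h7 := (abs_le.mp h4).1
    nlinarith
  nlinarith

/-- the linear identification of the plane with `EuclideanSpace ℝ (Fin 2)` -/
private noncomputable def niL : ℝ × ℝ →L[ℝ] EuclideanSpace ℝ (Fin 2) :=
  (ContinuousLinearMap.fst ℝ ℝ ℝ).smulRight (EuclideanSpace.single (0 : Fin 2) (1 : ℝ))
  + (ContinuousLinearMap.snd ℝ ℝ ℝ).smulRight (EuclideanSpace.single (1 : Fin 2) (1 : ℝ))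

private theorem niL_0 (p : ℝ × ℝ) : niL p 0 = p.1 := by
  simp [niL]

private theorem niL_1 (p : ℝ × ℝ) : niL p 1 = p.2 := by
  simp [niL]

private theorem niL_norm (p : ℝ × ℝ) : ‖niL p‖ ≤ |p.1| + |p.2| := by
  simp only [niL, _root_.add_apply, ContinuousLinearMap.smulRight_apply]
  refine (norm_add_le _ _).trans ?_
  simp [norm_smul]

/-- a smooth map `F` on a neighbourhood of `0` coincides near `0` with a triple of globally smooth
functions (multiply the components by a bump function `ct r (2r) (s) ct r (2r) (t)` whose support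
lies in the neighbourhood); then the isometry condition for `gE` gives `IsomG` on a small box
(`fderiv` in the directions `e0, e1` in coordinates, inner product = sum over components). -/
theorem local_to_IsomG (k11 k12 k22 : Sm) (U : Set (EuclideanSpace ℝ (Fin 2))) (hU : IsOpen U)
    (h0 : (0 : EuclideanSpace ℝ (Fin 2)) ∈ U)
    (F : EuclideanSpace ℝ (Fin 2) → EuclideanSpace ℝ (Fin 3)) (hF : ContDiffOn ℝ ∞ F U)
    (hi : ∀ x ∈ U, ∀ v w, @inner ℝ (EuclideanSpace ℝ (Fin 3)) _ (fderiv ℝ F x v) (fderiv ℝ F x w)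
      = gE k11 k12 k22 x v w) :
    ∃ r : ℝ, 0 < r ∧ ∃ G : Fin 3 → Sm, IsomG (1 + k11) k12 (1 + k22) G (Box r) := by
  classical
  obtain ⟨ε, hε, hball⟩ := Metric.isOpen_iff.mp hU 0 h0
  let χ : ContDiffBump (0 : EuclideanSpace ℝ (Fin 2)) :=
    ⟨ε / 4, ε / 2, by positivity, by linarith⟩
  have hsupp : tsupport (χ : EuclideanSpace ℝ (Fin 2) → ℝ) ⊆ U := by
    rw [χ.tsupport_eq]
    refine (Metric.closedBall_subset_ball ?_).trans hball
    show ε / 2 < ε
    linarith
  -- components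
  have hcomp : ∀ i : Fin 3, ContDiffOn ℝ ∞ (fun x => F x i) U := fun i => by
    have := (EuclideanSpace.proj (𝕜 := ℝ) i : EuclideanSpace ℝ (Fin 3) →L[ℝ] ℝ).contDiff
      (n := ∞)
    exact this.comp_contDiffOn hF
  have hglob : ∀ i : Fin 3, ContDiff ℝ ∞ (fun x => χ x * F x i) := by
    intro i
    have hU1 : ContDiffOn ℝ ∞ (fun x => χ x * F x i) U :=
      (χ.contDiff).contDiffOn.mul (hcomp i)
    have hU2 : ContDiffOn ℝ ∞ (fun x => χ x * F x i)
        (tsupport (χ : EuclideanSpace ℝ (Fin 2) → ℝ))ᶜ := by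
      have : ContDiffOn ℝ ∞ (fun _ : EuclideanSpace ℝ (Fin 2) => (0 : ℝ))
        (tsupport (χ : EuclideanSpace ℝ (Fin 2) → ℝ))ᶜ := contDiffOn_const
      refine this.congr ?_
      intro x hx
      have : χ x = 0 := image_eq_zero_of_notMem_tsupport hx
      simp [this]
    rw [contDiff_iff_contDiffAt]
    intro x
    by_cases hx : x ∈ U
    · exact hU1.contDiffAt (hU.mem_nhds hx)
    · have hx' : x ∈ (tsupport (χ : EuclideanSpace ℝ (Fin 2) → ℝ))ᶜ := fun h => hx (hsupp h)
      exact hU2.contDiffAt ((isClosed_tsupport _).isOpen_compl.mem_nhds hx')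
  let G : Fin 3 → Sm := fun i =>
    ⟨fun p => χ (niL p) * F (niL p) i, mem_smAlg ((hglob i).comp niL.contDiff)⟩
  refine ⟨ε / 8, by positivity, G, ?_⟩
  intro p hp
  obtain ⟨hp1, hp2⟩ := hp
  have hn : ‖niL p‖ < ε / 4 := (niL_norm p).trans_lt (by linarith)
  have hpU : niL p ∈ U := hball (by
    rw [Metric.mem_ball, dist_zero_right]; linarith)
  -- near `p` the bump is one
  have hev : ∀ i, (G i : ℝ × ℝ → ℝ) =ᶠ[nhds p] fun q => F (niL q) i := by
    intro i
    have hopen : IsOpen {q : ℝ × ℝ | ‖niL q‖ < ε / 4} :=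
      isOpen_lt (niL.continuous.norm) continuous_const
    filter_upwards [hopen.mem_nhds hn] with q hq
    show χ (niL q) * F (niL q) i = F (niL q) i
    have : χ (niL q) = 1 := by
      apply χ.one_of_mem_closedBall
      rw [Metric.mem_closedBall, dist_zero_right]
      exact le_of_lt hq
    rw [this, one_mul]
  have hFd : DifferentiableAt ℝ F (niL p) :=
    (hF.contDiffAt (hU.mem_nhds hpU)).differentiableAt (by simp)
  have hder : ∀ (i : Fin 3) (v : ℝ × ℝ), fderiv ℝ (G i : ℝ × ℝ → ℝ) p v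
      = (fderiv ℝ F (niL p) (niL v)) i := by
    intro i v
    rw [(hev i).fderiv_eq]
    have h1 : HasFDerivAt F (fderiv ℝ F (niL p)) (niL p) := hFd.hasFDerivAt
    have h2 : HasFDerivAt (fun q => F (niL q)) ((fderiv ℝ F (niL p)).comp niL) p :=
      h1.comp p niL.hasFDerivAt
    have h3 := (EuclideanSpace.proj (𝕜 := ℝ) i : EuclideanSpace ℝ (Fin 3) →L[ℝ] ℝ).hasFDerivAt.comp
      p h2
    have h4 : fderiv ℝ (fun q => F (niL q) i) p = _ := h3.fderiv
    rw [h4]
    rfl
  have hin : ∀ v w : ℝ × ℝ,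
      (fderiv ℝ F (niL p) (niL v)) 0 * (fderiv ℝ F (niL p) (niL w)) 0
      + (fderiv ℝ F (niL p) (niL v)) 1 * (fderiv ℝ F (niL p) (niL w)) 1
      + (fderiv ℝ F (niL p) (niL v)) 2 * (fderiv ℝ F (niL p) (niL w)) 2
      = gE k11 k12 k22 (niL p) (niL v) (niL w) := by
    intro v w
    rw [← hi (niL p) hpU (niL v) (niL w), PiLp.inner_apply, Fin.sum_univ_three]
    simp only [RCLike.inner_apply, conj_trivial]
    ring
  have hdot : ∀ v w : ℝ × ℝ, dot (fun i => Dv v (G i)) (fun i => Dv w (G i)) p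
      = gE k11 k12 k22 (niL p) (niL v) (niL w) := by
    intro v w
    rw [← hin v w]
    simp only [dot, add_ap, mul_ap, Dv_ap, hder]
  have hp' : ((niL p 0, niL p 1) : ℝ × ℝ) = p := by rw [niL_0, niL_1]
  refine ⟨?_, ?_, ?_⟩
  · have := hdot (1, 0) (1, 0)
    rw [gE_ap, hp'] at this
    simp only [niL_0, niL_1] at this
    show dot (fun i => Dv (1, 0) (G i)) (fun i => Dv (1, 0) (G i)) p = _
    rw [this, add_ap, one_ap]; ring
  · have := hdot (1, 0) (0, 1)
    rw [gE_ap, hp'] at this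
    simp only [niL_0, niL_1] at this
    show dot (fun i => Dv (1, 0) (G i)) (fun i => Dv (0, 1) (G i)) p = _
    rw [this]; ring
  · have := hdot (0, 1) (0, 1)
    rw [gE_ap, hp'] at this
    simp only [niL_0, niL_1] at this
    show dot (fun i => Dv (0, 1) (G i)) (fun i => Dv (0, 1) (G i)) p = _
    rw [this, add_ap, one_ap]; ring

end NI
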