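import Crest.Agent.NI_Defs

set_option autoImplicit false
open scoped ContDiff
open MeasureTheory

namespace NI

/-- two coordinate functions with positive Jacobian -/
structure Frame where
  x : Sm
  y : Sm
  J : Sm
  Ji : Sm
  hJ : J = D1 x * D2 y - D2 x * D1 y
  hJi : J * Ji = 1
  hpos : ∀ p, 0 < J p

namespace Frame

/-- `∂/∂x` in the coordinates `(x,y)` -/
noncomputable def d1 (fr : Frame) : Derivation ℝ Sm Sm :=
  vf (D2 fr.y * fr.Ji) (-(D1 fr.y * fr.Ji))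

/-- `∂/∂y` in the coordinates `(x,y)` -/
noncomputable def d2 (fr : Frame) : Derivation ℝ Sm Sm :=
  vf (-(D2 fr.x * fr.Ji)) (D1 fr.x * fr.Ji)

noncomputable def p (fr : Frame) (z : Sm) : Sm := fr.d1 z
noncomputable def q (fr : Frame) (z : Sm) : Sm := fr.d2 z
noncomputable def a (fr : Frame) (z : Sm) : Sm := fr.d2 (fr.d2 z)
noncomputable def b (fr : Frame) (z : Sm) : Sm := fr.d1 (fr.d2 z)
noncomputable def c (fr : Frame) (z : Sm) : Sm := fr.d1 (fr.d1 z)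
/-- the Hessian determinant -/
noncomputable def Dt (fr : Frame) (z : Sm) : Sm := fr.a z * fr.c z - fr.b z ^ 2
/-- the operator `a ∂x∂x - 2 b ∂x∂y + c ∂y∂y` -/
noncomputable def L (fr : Frame) (z w : Sm) : Sm :=
  fr.a z * fr.d1 (fr.d1 w) - 2 * fr.b z * fr.d1 (fr.d2 w) + fr.c z * fr.d2 (fr.d2 w)

end Frame

/-- data of two commuting vector fields `V = ∂_x|_Q`, `Y = ∂_Q|_x` and a weight -/
structure VY where
  A11 : Sm
  A12 : Sm
  A21 : Sm
  A22 : Sm
  x : Sm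
  Q : Sm
  mu : Sm
  Vx : vf A11 A12 x = 1
  VQ : vf A11 A12 Q = 0
  Yx : vf A21 A22 x = 0
  YQ : vf A21 A22 Q = 1
  comm : ∀ f : Sm, vf A11 A12 (vf A21 A22 f) = vf A21 A22 (vf A11 A12 f)
  mupos : ∀ p, 0 < mu p
  intV : ∀ f : Sm, HasCompactSupport (f : ℝ × ℝ → ℝ) → ∫ p, (mu * vf A11 A12 f) p = 0
  intY : ∀ f : Sm, HasCompactSupport (f : ℝ × ℝ → ℝ) → ∫ p, (mu * vf A21 A22 f) p = 0

namespace VY
noncomputable def V (d : VY) : Derivation ℝ Sm Sm := vf d.A11 d.A12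
noncomputable def Y (d : VY) : Derivation ℝ Sm Sm := vf d.A21 d.A22
/-- the operator `V V w + Y (e k Y w)` -/
noncomputable def L (d : VY) (e : ℝ) (k w : Sm) : Sm := d.V (d.V w) + d.Y (e • (k * d.Y w))
end VY

end NI
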