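import Crest.Agent.NI_Mult

set_option autoImplicit false
open scoped ContDiff
open MeasureTheory

namespace NI

/-- average of two maps -/
noncomputable def avg (F F' : Fin 3 → Sm) : Fin 3 → Sm := fun i => (1/2 : ℝ) • (F i + F' i)

/-- first order metric perturbation: `-(1/2) ∂_t² phi = s²+t²-1` -/
noncomputable def phi : Sm := Xt ^ 2 - Xs ^ 2 * Xt ^ 2 - (1/6 : ℝ) • Xt ^ 4

/-- `s²+t²-1` -/
noncomputable def kk : Sm := Xs ^ 2 + Xt ^ 2 - 1

/-- `fr` is the frame of the first two components of `G`. -/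
def IsFr (fr : Frame) (G : Fin 3 → Sm) : Prop := fr.x = G 0 ∧ fr.y = G 1

/-- cross product -/
noncomputable def crs (X Y : Fin 3 → Sm) : Fin 3 → Sm :=
  ![X 1 * Y 2 - X 2 * Y 1, X 2 * Y 0 - X 0 * Y 2, X 0 * Y 1 - X 1 * Y 0]

/-- unnormalised normal -/
noncomputable def nrm (F : Fin 3 → Sm) : Fin 3 → Sm :=
  crs (fun i => D1 (F i)) (fun i => D2 (F i))

/-- determinant of the unnormalised second fundamental form -/
noncomputable def Bdet (F : Fin 3 → Sm) : Sm :=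
  dot (nrm F) (fun i => D1 (D1 (F i))) * dot (nrm F) (fun i => D2 (D2 (F i)))
    - (dot (nrm F) (fun i => D1 (D2 (F i)))) ^ 2

namespace Frame
/-- `y_t/J` -/
noncomputable def al (fr : Frame) : Sm := D2 fr.y * fr.Ji
/-- `x_t/J` -/
noncomputable def be (fr : Frame) : Sm := D2 fr.x * fr.Ji
/-- right-hand side of the difference equation for the metric difference `h ds²` -/
noncomputable def H (fr : Frame) (h : Sm) : Sm :=
  -((1/2:ℝ) • fr.d2 (fr.d2 (h * fr.al ^ 2)) + (1/2:ℝ) • fr.d1 (fr.d1 (h * fr.be ^ 2))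
    - fr.d1 (fr.d2 (-(h * fr.al * fr.be))))
end Frame

/-- standard bump on the line: `1` on `[-1/2,1/2]`, `0` outside `(-1,1)` -/
noncomputable def bb (r : ℝ) : ℝ := ct (1/2) 1 r

/-- bump of half-widths `r` (in `s`) and `ϖ/8` (in `t`) centred at `(0,t0)` -/
noncomputable def zeta (r ϖ t0 : ℝ) : Sm :=
  cmp bb ct_contDiff (r⁻¹ • Xs) * cmp bb ct_contDiff ((8 / ϖ) • (Xt - t0 • (1 : Sm)))

/-- `A Σ τ_i ζ_i`, bumps centred at `(0,(i+1)ϖ)`. -/
noncomputable def hh (A r ϖ : ℝ) (n : ℕ) (τ : Fin n → ℝ) : Sm :=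
  A • ∑ i : Fin n, τ i • zeta r ϖ (((i : ℕ) + 1 : ℝ) * ϖ)

/-- spacing of the bumps -/
noncomputable def sp (ε : ℝ) (n : ℕ) : ℝ := √ε / 2000 / (n + 1)

/-- `0/1` vector of a Boolean vector -/
def b01 {n : ℕ} (t : Fin n → Bool) : Fin n → ℝ := fun i => if t i then 1 else 0

/-- the metric coefficient `E_t = 1 + ε phi + A Σ t_i ζ_i` -/
noncomputable def Et (ε A : ℝ) (n : ℕ) (t : Fin n → Bool) : Sm :=
  1 + ε • phi + hh A ((sp ε n) ^ 2) (sp ε n) n (b01 t)

end NI
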