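import Crest.Agent.NI_B1
import Crest.Agent.NI_B2

set_option autoImplicit false
open scoped ContDiff
open MeasureTheory

namespace NI

/-- cutoff: `1` on `|s|,|t| ≤ 2`, `0` if `max ≥ 3`. -/
noncomputable def cut23 : Sm := cmp (ct 2 3) ct_contDiff Xs * cmp (ct 2 3) ct_contDiff Xt

/-- compactly supported version of `Et - 1` -/
noncomputable def HH (ε A : ℝ) (n : ℕ) (t : Fin n → Bool) : Sm :=
  cut23 * (ε • phi) + hh A ((sp ε n) ^ 2) (sp ε n) n (b01 t)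

private theorem LBa_cut_ap (p : ℝ × ℝ) : cut23 p = ct 2 3 p.1 * ct 2 3 p.2 := rfl

private theorem LBa_cut_one {p : ℝ × ℝ} (h1 : |p.1| ≤ 2) (h2 : |p.2| ≤ 2) : cut23 p = 1 := by
  rw [LBa_cut_ap, ct_one (by norm_num) (by norm_num) h1, ct_one (by norm_num) (by norm_num) h2,
    one_mul]

private theorem LBa_cut_zero {p : ℝ × ℝ} (h : p ∉ Box 3) : cut23 p = 0 := by
  rw [LBa_cut_ap]
  by_cases h1 : |p.1| < 3
  · have h2 : ¬ |p.2| < 3 := fun h2 => h ⟨h1, h2⟩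
    rw [ct_zero (r := p.2) (by norm_num) (by norm_num) (not_lt.mp h2), mul_zero]
  · rw [ct_zero (r := p.1) (by norm_num) (by norm_num) (not_lt.mp h1), zero_mul]

private theorem LBa_sp_pos {ε : ℝ} (n : ℕ) (hε : 0 < ε) : 0 < sp ε n := by
  unfold sp
  have := Real.sqrt_pos.2 hε
  positivity

private theorem LBa_sp_le {ε : ℝ} (n : ℕ) (hε1 : ε ≤ 1) : ((n : ℝ) + 1) * sp ε n ≤ 1 / 2000 := by
  unfold sp
  have h1 : √ε ≤ 1 := by rw [Real.sqrt_le_one]; exact hε1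
  have h2 : (0:ℝ) < (n : ℝ) + 1 := by positivity
  rw [mul_div_cancel₀ _ h2.ne']
  linarith

private theorem LBa_sp_le1 {ε : ℝ} (n : ℕ) (hε : 0 < ε) (hε1 : ε ≤ 1) : sp ε n ≤ 1 / 2000 := by
  have h := LBa_sp_le n hε1
  have h0 := LBa_sp_pos n hε
  have hn : (0:ℝ) ≤ n := Nat.cast_nonneg n
  nlinarith [mul_nonneg hn h0.le]

private theorem LBa_b01 {n : ℕ} (t : Fin n → Bool) (i : Fin n) : |b01 t i| ≤ 1 := by
  unfold b01
  split_ifs <;> simp

/-- support: `cut23 = 0` off `Box 3`, and `hh_support` (`(n+1/8) sp ≤ 1/2000`). -/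
theorem HH_off (ε A : ℝ) (n : ℕ) (t : Fin n → Bool) (hε : 0 < ε) (hε1 : ε ≤ 1) :
    ∀ p : ℝ × ℝ, p ∉ Box 3 → HH ε A n t p = 0 := by
  intro p hp
  have h1 : hh A ((sp ε n) ^ 2) (sp ε n) n (b01 t) p = 0 := by
    by_contra hne
    have hmem : p ∈ tsupport (hh A ((sp ε n) ^ 2) (sp ε n) n (b01 t) : ℝ × ℝ → ℝ) :=
      subset_tsupport _ hne
    have h0 := LBa_sp_pos n hε
    obtain ⟨ha, hb, hc⟩ := hh_support A ((sp ε n) ^ 2) (sp ε n) n (b01 t) (by positivity) h0 p hmem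
    have h2 := LBa_sp_le n hε1
    have h3 := LBa_sp_le1 n hε hε1
    apply hp
    refine ⟨?_, ?_⟩
    · have : (sp ε n) ^ 2 ≤ 1 := by nlinarith
      linarith
    · rw [abs_lt]
      constructor
      · linarith
      · have : ((n : ℝ) + 1 / 8) * sp ε n ≤ ((n : ℝ) + 1) * sp ε n := by
          apply mul_le_mul_of_nonneg_right _ h0.le
          linarith
        linarith
  show cut23 p * (ε * phi p) + hh A ((sp ε n) ^ 2) (sp ε n) n (b01 t) p = 0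
  rw [h1, LBa_cut_zero hp]
  ring

/-- on `Box 2` the metric coefficient is `Et`. -/
theorem HH_Et (ε A : ℝ) (n : ℕ) (t : Fin n → Bool) :
    ∀ p ∈ Box 2, (1 + HH ε A n t : Sm) p = Et ε A n t p := by
  intro p hp
  show 1 + (cut23 p * (ε * phi p) + hh A ((sp ε n) ^ 2) (sp ε n) n (b01 t) p)
    = 1 + ε * phi p + hh A ((sp ε n) ^ 2) (sp ε n) n (b01 t) p
  rw [LBa_cut_one hp.1.le hp.2.le]
  ring

private theorem LBa_Dv_congr {U : Set (ℝ × ℝ)} (hU : IsOpen U) {f g : Sm}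
    (h : ∀ p ∈ U, f p = g p) (v : ℝ × ℝ) : ∀ p ∈ U, Dv v f p = Dv v g p := by
  intro p hp
  rw [Dv_ap, Dv_ap]
  have : (f : ℝ × ℝ → ℝ) =ᶠ[nhds p] (g : ℝ × ℝ → ℝ) :=
    Filter.eventually_of_mem (hU.mem_nhds hp) h
  rw [this.fderiv_eq]

private theorem LBa_Dv_Xs (v : ℝ × ℝ) : Dv v Xs = v.1 • (1 : Sm) := by
  apply sm_ext; intro p
  rw [Dv_ap]
  have : (Xs : ℝ × ℝ → ℝ) = Prod.fst := rfl
  rw [this, fderiv_fst]
  simp

private theorem LBa_Dv_Xt (v : ℝ × ℝ) : Dv v Xt = v.2 • (1 : Sm) := by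
  apply sm_ext; intro p
  rw [Dv_ap]
  have : (Xt : ℝ × ℝ → ℝ) = Prod.snd := rfl
  rw [this, fderiv_snd]
  simp

private theorem LBa_two (p : ℝ × ℝ) : (2 : Sm) p = 2 := by
  have : (2 : Sm) = 1 + 1 := by norm_num
  rw [this, add_ap, one_ap]; norm_num

private theorem LBa_three (p : ℝ × ℝ) : (3 : Sm) p = 3 := by
  have : (3 : Sm) = 1 + 1 + 1 := by norm_num
  rw [this, add_ap, add_ap, one_ap]; norm_num

private theorem LBa_four (p : ℝ × ℝ) : (4 : Sm) p = 4 := by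
  have : (4 : Sm) = 1 + 1 + 1 + 1 := by norm_num
  rw [this, add_ap, add_ap, add_ap, one_ap]; norm_num

private theorem LBa_D1_phi : D1 phi = -((2:ℝ) • (Xs * Xt ^ 2)) := by
  unfold phi D1
  rw [map_sub, map_sub, Derivation.map_smul, Derivation.leibniz, Derivation.leibniz_pow,
    Derivation.leibniz_pow, Derivation.leibniz_pow, LBa_Dv_Xs, LBa_Dv_Xt]
  apply sm_ext; intro p
  simp [LBa_two, LBa_three, LBa_four]
  try ring

private theorem LBa_D2_phi : D2 phi = (2:ℝ) • Xt - (2:ℝ) • (Xs ^ 2 * Xt) - (2/3 : ℝ) • Xt ^ 3 := by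
  unfold phi D2
  rw [map_sub, map_sub, Derivation.map_smul, Derivation.leibniz, Derivation.leibniz_pow,
    Derivation.leibniz_pow, Derivation.leibniz_pow, LBa_Dv_Xs, LBa_Dv_Xt]
  apply sm_ext; intro p
  simp [LBa_two, LBa_three, LBa_four]
  try ring

private theorem LBa_D22_phi : D2 (D2 phi) = (2:ℝ) • 1 - (2:ℝ) • (Xs ^ 2) - (2 : ℝ) • Xt ^ 2 := by
  rw [LBa_D2_phi]
  unfold D2
  rw [map_sub, map_sub, Derivation.map_smul, Derivation.map_smul, Derivation.map_smul,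
    Derivation.leibniz, Derivation.leibniz_pow,
    Derivation.leibniz_pow, LBa_Dv_Xs, LBa_Dv_Xt]
  apply sm_ext; intro p
  simp [LBa_two, LBa_three, LBa_four]
  try ring

/-- 2-jet at the origin: `hh` vanishes near the origin (`hh_support`), `cut23 = 1` there,
`D2 D2 phi (0,0) = 2`. -/
theorem HH_zero (ε A : ℝ) (n : ℕ) (t : Fin n → Bool) (hε : 0 < ε) :
    HH ε A n t (0, 0) = 0 ∧ D1 (HH ε A n t) (0, 0) = 0 ∧ D2 (HH ε A n t) (0, 0) = 0 ∧
      D2 (D2 (HH ε A n t)) (0, 0) = 2 * ε := by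
  have h0 := LBa_sp_pos n hε
  set U : Set (ℝ × ℝ) := {p | |p.1| < 2} ∩ ({p | |p.2| < 2} ∩ {p | p.2 < 7 * sp ε n / 8}) with hU
  have hUo : IsOpen U :=
    (isOpen_lt continuous_fst.abs continuous_const).inter
      ((isOpen_lt continuous_snd.abs continuous_const).inter
        (isOpen_lt continuous_snd continuous_const))
  have h00 : ((0, 0) : ℝ × ℝ) ∈ U := by
    refine ⟨?_, ?_, ?_⟩
    · show |(0:ℝ)| < 2; simp
    · show |(0:ℝ)| < 2; simp
    · show (0:ℝ) < 7 * sp ε n / 8; positivity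
  have hE : ∀ p ∈ U, HH ε A n t p = (ε • phi : Sm) p := by
    intro p hp
    have h1 : hh A ((sp ε n) ^ 2) (sp ε n) n (b01 t) p = 0 := by
      by_contra hne
      have hmem : p ∈ tsupport (hh A ((sp ε n) ^ 2) (sp ε n) n (b01 t) : ℝ × ℝ → ℝ) :=
        subset_tsupport _ hne
      obtain ⟨ha, hb, hc⟩ :=
        hh_support A ((sp ε n) ^ 2) (sp ε n) n (b01 t) (by positivity) h0 p hmem
      have h3 : p.2 < 7 * sp ε n / 8 := hp.2.2
      linarith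
    show cut23 p * (ε * phi p) + hh A ((sp ε n) ^ 2) (sp ε n) n (b01 t) p = ε * phi p
    rw [h1, LBa_cut_one (le_of_lt hp.1) (le_of_lt hp.2.1)]
    ring
  have e2 := LBa_Dv_congr hUo hE (0, 1)
  refine ⟨?_, ?_, ?_, ?_⟩
  · rw [hE _ h00]
    simp [phi]
  · have := LBa_Dv_congr hUo hE (1, 0) _ h00
    rw [D1, this]
    show D1 (ε • phi) (0, 0) = 0
    rw [Derivation.map_smul, LBa_D1_phi]
    simp
  · rw [D2, e2 _ h00]
    show D2 (ε • phi) (0, 0) = 0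
    rw [Derivation.map_smul, LBa_D2_phi]
    simp
  · have := LBa_Dv_congr hUo e2 (0, 1) _ h00
    rw [D2, this]
    show D2 (D2 (ε • phi)) (0, 0) = 2 * ε
    rw [Derivation.map_smul, Derivation.map_smul, LBa_D22_phi]
    simp
    ring

private theorem LBa_cut_compact : HasCompactSupport ((cut23 * phi : Sm) : ℝ × ℝ → ℝ) := by
  apply HasCompactSupport.intro ((isCompact_Icc (a := (-3 : ℝ)) (b := 3)).prod
    (isCompact_Icc (a := (-3 : ℝ)) (b := 3)))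
  intro q hq
  have h : q ∉ Box 3 := by
    intro hb
    exact hq ⟨abs_le.mp hb.1.le, abs_le.mp hb.2.le⟩
  show cut23 q * phi q = 0
  rw [LBa_cut_zero h, zero_mul]

private theorem LBa_bound (k : ℕ) :
    ∃ C : ℝ, 0 < C ∧ ∀ q, ‖iteratedFDeriv ℝ k ((cut23 * phi : Sm) : ℝ × ℝ → ℝ) q‖ ≤ C := by
  have hc : Continuous (iteratedFDeriv ℝ k ((cut23 * phi : Sm) : ℝ × ℝ → ℝ)) :=
    (smooth (cut23 * phi)).continuous_iteratedFDeriv (by exact_mod_cast le_top)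
  obtain ⟨C, hC⟩ := hc.bounded_above_of_compact_support (LBa_cut_compact.iteratedFDeriv k)
  exact ⟨|C| + 1, by positivity, fun q => (hC q).trans (by have := le_abs_self C; linarith)⟩

/-- size of all derivatives up to order `N` (`hh_CN`, and `cut23 * phi` has compact support). -/
theorem HH_CN (N : ℕ) : ∃ C : ℝ, 0 < C ∧ ∀ (ε A : ℝ) (n : ℕ) (t : Fin n → Bool), 0 < ε → ε ≤ 1 →
    0 < A → ∀ k ≤ N, ∀ p : ℝ × ℝ,
    ‖iteratedFDeriv ℝ k (HH ε A n t : ℝ × ℝ → ℝ) p‖ ≤ C * (ε + A / (sp ε n) ^ (2 * N)) := by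
  choose C1 hC1 h1 using LBa_bound
  obtain ⟨C2, hC2, h2⟩ := hh_CN N
  have hS : ∀ k ≤ N, C1 k ≤ ∑ k ∈ Finset.range (N + 1), C1 k := fun k hk =>
    Finset.single_le_sum (f := C1) (fun i _ => (hC1 i).le) (Finset.mem_range.2 (by omega))
  have hS0 : (0:ℝ) < ∑ k ∈ Finset.range (N + 1), C1 k :=
    Finset.sum_pos (fun k _ => hC1 k) ⟨0, by simp⟩
  refine ⟨(∑ k ∈ Finset.range (N + 1), C1 k) + C2, by positivity, ?_⟩
  intro ε A n t hε hε1 hA k hk p
  have hs0 := LBa_sp_pos n hε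
  have hs1 := LBa_sp_le1 n hε hε1
  have hf : (HH ε A n t : ℝ × ℝ → ℝ) = (ε • ((cut23 * phi : Sm) : ℝ × ℝ → ℝ)) +
      (hh A ((sp ε n) ^ 2) (sp ε n) n (b01 t) : ℝ × ℝ → ℝ) := by
    funext q
    show cut23 q * (ε * phi q) + hh A ((sp ε n) ^ 2) (sp ε n) n (b01 t) q =
      ε * (cut23 q * phi q) + hh A ((sp ε n) ^ 2) (sp ε n) n (b01 t) q
    ring
  have c1 : ContDiffAt ℝ k ((cut23 * phi : Sm) : ℝ × ℝ → ℝ) p :=
    ((smooth (cut23 * phi)).of_le (by exact_mod_cast le_top)).contDiffAt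
  have c2 : ContDiffAt ℝ k (ε • ((cut23 * phi : Sm) : ℝ × ℝ → ℝ)) p := c1.const_smul ε
  have c3 : ContDiffAt ℝ k (hh A ((sp ε n) ^ 2) (sp ε n) n (b01 t) : ℝ × ℝ → ℝ) p :=
    ((smooth (hh A ((sp ε n) ^ 2) (sp ε n) n (b01 t))).of_le
      (by exact_mod_cast le_top)).contDiffAt
  rw [hf, iteratedFDeriv_add_apply c2 c3, iteratedFDeriv_const_smul_apply c1]
  refine (norm_add_le _ _).trans ?_
  rw [norm_smul, Real.norm_of_nonneg hε.le]
  have e1 := h1 k p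
  have e2 := h2 A ((sp ε n) ^ 2) (sp ε n) n (b01 t) hA (by positivity)
    (by nlinarith) (by linarith) (LBa_b01 t) k hk p
  rw [← pow_mul] at e2
  have e3 := hS k hk
  have e4 : 0 ≤ A / (sp ε n) ^ (2 * N) := by positivity
  have e5 : C2 * A / (sp ε n) ^ (2 * N) = C2 * (A / (sp ε n) ^ (2 * N)) := by ring
  rw [e5] at e2
  have e6 : ε * ‖iteratedFDeriv ℝ k ((cut23 * phi : Sm) : ℝ × ℝ → ℝ) p‖ ≤
      ε * ∑ k ∈ Finset.range (N + 1), C1 k := mul_le_mul_of_nonneg_left (e1.trans e3) hε.le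
  nlinarith [mul_nonneg hS0.le e4, mul_pos hC2 hε]

end NI
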