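import Crest.Agent.NI_T05

set_option autoImplicit false
open scoped ContDiff
open MeasureTheory

namespace NI
namespace VY

/-- `rho σ (x)` as an element of `Sm` -/
noncomputable def rhoS (d : VY) (σ : ℝ) : Sm := σ • ((1/64 : ℝ) • (1 : Sm) - d.x ^ 2)
/-- `ψ(x,Q)` as an element of `Sm` -/
noncomputable def Psi (d : VY) (σ : ℝ) : Sm :=
  cmp (th (σ/64)) (th_contDiff _) (d.Q - d.rhoS σ) - cmp (th (σ/64)) (th_contDiff _) (-d.Q - d.rhoS σ)
/-- `ψ_Q(x,Q)` -/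
noncomputable def PsiQ (d : VY) (σ : ℝ) : Sm :=
  cmp (thp (σ/64)) (thp_contDiff _) (d.Q - d.rhoS σ)
    + cmp (thp (σ/64)) (thp_contDiff _) (-d.Q - d.rhoS σ)
/-- `β(x)` -/
noncomputable def Bet (d : VY) : Sm := cmp bet bet_contDiff d.x
/-- cutoff in `x` and `Q` -/
noncomputable def Cut (d : VY) (a b a' b' : ℝ) : Sm :=
  cmp (ct a b) ct_contDiff d.x * cmp (ct a' b') ct_contDiff d.Q

end VY

/-- the curvature factor `k` is close to `x²+Q²-1` in `C¹` at `p` -/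
def Kclose (d : VY) (k : Sm) (p : ℝ × ℝ) : Prop :=
  |k p - ((d.x p) ^ 2 + (d.Q p) ^ 2 - 1)| ≤ 1/100 ∧ |d.V k p - 2 * d.x p| ≤ 1/100 ∧
    |d.Y k p - 2 * d.Q p| ≤ 1/100

end NI
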