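import Crest.Agent.NI_Real

set_option autoImplicit false
open scoped ContDiff
open MeasureTheory

namespace NI

theorem P0_cs (h : ℝ → ℝ) (hh : Continuous h) (c d : ℝ) (hcd : c ≤ d) :
    (∫ u in c..d, h u) ^ 2 ≤ (d - c) * ∫ u in c..d, h u ^ 2 := by
  rcases eq_or_lt_of_le hcd with rfl | hlt
  · simp
  have hL : 0 < d - c := by linarith
  set m := ∫ u in c..d, h u with hm
  have h0 : 0 ≤ ∫ u in c..d, (h u - m / (d - c)) ^ 2 :=
    intervalIntegral.integral_nonneg hcd (fun u _ => sq_nonneg _)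
  have i1 : IntervalIntegrable (fun u => h u ^ 2) volume c d := (hh.pow 2).intervalIntegrable _ _
  have i2 : IntervalIntegrable (fun u => 2 * (m / (d - c)) * h u) volume c d :=
    (continuous_const.mul hh).intervalIntegrable _ _
  have i3 : IntervalIntegrable (fun _ : ℝ => (m / (d - c)) ^ 2) volume c d :=
    continuous_const.intervalIntegrable _ _
  have h1 : ∫ u in c..d, (h u - m / (d - c)) ^ 2 =
      (∫ u in c..d, h u ^ 2) - 2 * (m / (d - c)) * m + (d - c) * (m / (d - c)) ^ 2 := by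
    have : (fun u => (h u - m / (d - c)) ^ 2) =
        fun u => (h u ^ 2 - 2 * (m / (d - c)) * h u) + (m / (d - c)) ^ 2 := by
      funext u; ring
    rw [this, intervalIntegral.integral_add (i1.sub i2) i3, intervalIntegral.integral_sub i1 i2,
      intervalIntegral.integral_const_mul, intervalIntegral.integral_const, smul_eq_mul]
  rw [h1] at h0
  have h2 : (d - c) * (m / (d - c)) ^ 2 = m ^ 2 / (d - c) := by field_simp
  have h3 : 2 * (m / (d - c)) * m = 2 * (m ^ 2 / (d - c)) := by ring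
  rw [h2, h3] at h0
  have h4 : m ^ 2 / (d - c) ≤ ∫ u in c..d, h u ^ 2 := by linarith
  rw [div_le_iff₀ hL] at h4
  linarith

theorem P0_line (g g' : ℝ → ℝ) (hg : ∀ x, HasDerivAt g (g' x) x) (hc : Continuous g')
    (a κ : ℝ) (hκ : 0 < κ) (x y : ℝ) (hx : x ∈ Set.Icc a (a + κ)) (hy : y ∈ Set.Icc a (a + κ)) :
    (g x - g y) ^ 2 ≤ κ * ∫ u in a..(a + κ), g' u ^ 2 := by
  wlog hxy : y ≤ x generalizing x y with H
  · have := H y x hy hx (le_of_not_ge hxy)
    have e : (g x - g y) ^ 2 = (g y - g x) ^ 2 := by ring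
    rw [e]; exact this
  have h1 : ∫ u in y..x, g' u = g x - g y :=
    intervalIntegral.integral_eq_sub_of_hasDerivAt (fun u _ => hg u) (hc.intervalIntegrable _ _)
  rw [← h1]
  have h2 := P0_cs g' hc y x hxy
  have hnn : ∀ c d : ℝ, c ≤ d → 0 ≤ ∫ u in c..d, g' u ^ 2 := fun c d hcd =>
    intervalIntegral.integral_nonneg hcd (fun u _ => sq_nonneg _)
  have ii : ∀ c d : ℝ, IntervalIntegrable (fun u => g' u ^ 2) volume c d := fun c d =>
    (hc.pow 2).intervalIntegrable _ _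
  have h3 : ∫ u in a..(a + κ), g' u ^ 2 = (∫ u in a..y, g' u ^ 2) + (∫ u in y..x, g' u ^ 2) +
      ∫ u in x..(a + κ), g' u ^ 2 := by
    rw [intervalIntegral.integral_add_adjacent_intervals (ii _ _) (ii _ _),
      intervalIntegral.integral_add_adjacent_intervals (ii _ _) (ii _ _)]
  have h4 := hnn a y hy.1
  have h5 := hnn x (a + κ) hx.2
  have h6 := hnn y x hxy
  calc _ ≤ (x - y) * ∫ u in y..x, g' u ^ 2 := h2
    _ ≤ κ * ∫ u in y..x, g' u ^ 2 := by
        apply mul_le_mul_of_nonneg_right _ h6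
        have := hx.2; have := hy.1; linarith
    _ ≤ κ * ∫ u in a..(a + κ), g' u ^ 2 := by
        apply mul_le_mul_of_nonneg_left _ hκ.le
        linarith

theorem P0_hasDeriv1 (f : Sm) (x y : ℝ) :
    HasDerivAt (fun u => f (u, y)) (D1 f (x, y)) x := by
  have h1 : HasFDerivAt (f : ℝ × ℝ → ℝ) (fderiv ℝ (f : ℝ × ℝ → ℝ) (x, y)) (x, y) :=
    (diffAt f (x, y)).hasFDerivAt
  have h2 : HasDerivAt (fun u : ℝ => (u, y)) ((1 : ℝ), (0 : ℝ)) x :=
    (hasDerivAt_id x).prodMk (hasDerivAt_const x y)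
  exact h1.comp_hasDerivAt x h2

theorem P0_hasDeriv2 (f : Sm) (x y : ℝ) :
    HasDerivAt (fun v => f (x, v)) (D2 f (x, y)) y := by
  have h1 : HasFDerivAt (f : ℝ × ℝ → ℝ) (fderiv ℝ (f : ℝ × ℝ → ℝ) (x, y)) (x, y) :=
    (diffAt f (x, y)).hasFDerivAt
  have h2 : HasDerivAt (fun v : ℝ => (x, v)) ((0 : ℝ), (1 : ℝ)) y :=
    (hasDerivAt_const y x).prodMk (hasDerivAt_id y)
  exact h1.comp_hasDerivAt y h2

theorem P0_cont (f : Sm) : Continuous (f : ℝ × ℝ → ℝ) := (smooth f).continuous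

theorem P0_intOn {F : ℝ × ℝ → ℝ} (hF : Continuous F) (a b κ : ℝ) :
    IntegrableOn F (Set.Ico a (a + κ) ×ˢ Set.Ico b (b + κ)) := by
  have h1 : IsCompact (Set.Icc a (a + κ) ×ˢ Set.Icc b (b + κ)) := isCompact_Icc.prod isCompact_Icc
  exact (hF.continuousOn.integrableOn_compact h1).mono_set
    (Set.prod_mono Set.Ico_subset_Icc_self Set.Ico_subset_Icc_self)

theorem P0_fubini1 {F : ℝ × ℝ → ℝ} (hF : Continuous F) (a b κ : ℝ) :
    ∫ p in Set.Ico a (a + κ) ×ˢ Set.Ico b (b + κ), F p =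
      ∫ x in Set.Ico a (a + κ), ∫ y in Set.Ico b (b + κ), F (x, y) := by
  have := P0_intOn hF a b κ
  rw [Measure.volume_eq_prod] at this ⊢
  exact setIntegral_prod F this

theorem P0_fubini2 {F : ℝ × ℝ → ℝ} (hF : Continuous F) (a b κ : ℝ) :
    ∫ p in Set.Ico a (a + κ) ×ˢ Set.Ico b (b + κ), F p =
      ∫ y in Set.Ico b (b + κ), ∫ x in Set.Ico a (a + κ), F (x, y) := by
  have h1 := P0_intOn hF a b κ
  rw [Measure.volume_eq_prod] at h1 ⊢
  unfold IntegrableOn at h1
  rw [← Measure.prod_restrict] at h1 ⊢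
  exact integral_prod_symm F h1

theorem P0_meas (a b κ : ℝ) (hκ : 0 < κ) :
    (volume (Set.Ico a (a + κ) ×ˢ Set.Ico b (b + κ))).toReal = κ ^ 2 := by
  rw [Measure.volume_eq_prod, Measure.prod_prod, Real.volume_Ico, Real.volume_Ico,
    ENNReal.toReal_mul, ENNReal.toReal_ofReal (by linarith), ENNReal.toReal_ofReal (by linarith)]
  ring

/-- Poincaré inequality on a square of side `κ`. -/
theorem poincare_square (f : Sm) (a b κ : ℝ) (hκ : 0 < κ) :
    ∫ p in Set.Ico a (a + κ) ×ˢ Set.Ico b (b + κ), (f p) ^ 2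
      ≤ 2 * κ ^ 2 * (∫ p in Set.Ico a (a + κ) ×ˢ Set.Ico b (b + κ), ((D1 f p) ^ 2 + (D2 f p) ^ 2))
        + (∫ p in Set.Ico a (a + κ) ×ˢ Set.Ico b (b + κ), f p) ^ 2 / κ ^ 2 := by
  set Q := Set.Ico a (a + κ) ×ˢ Set.Ico b (b + κ) with hQ
  have hQm : MeasurableSet Q := measurableSet_Ico.prod measurableSet_Ico
  set A : ℝ → ℝ := fun y => ∫ u in a..(a + κ), (D1 f (u, y)) ^ 2 with hA
  set B : ℝ → ℝ := fun x => ∫ v in b..(b + κ), (D2 f (x, v)) ^ 2 with hB
  have hAc : Continuous A := by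
    apply intervalIntegral.continuous_parametric_intervalIntegral_of_continuous'
    exact ((P0_cont (D1 f)).comp (continuous_snd.prodMk continuous_fst)).pow 2
  have hBc : Continuous B := by
    apply intervalIntegral.continuous_parametric_intervalIntegral_of_continuous'
    exact (P0_cont (D2 f)).pow 2
  -- pointwise bound
  have hpt : ∀ p ∈ Q, ∀ q ∈ Q, (f p - f q) ^ 2 ≤ 2 * κ * A p.2 + 2 * κ * B q.1 := by
    rintro ⟨x, y⟩ hp ⟨x', y'⟩ hq
    have hx : x ∈ Set.Icc a (a + κ) := ⟨hp.1.1, hp.1.2.le⟩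
    have hy : y ∈ Set.Icc b (b + κ) := ⟨hp.2.1, hp.2.2.le⟩
    have hx' : x' ∈ Set.Icc a (a + κ) := ⟨hq.1.1, hq.1.2.le⟩
    have hy' : y' ∈ Set.Icc b (b + κ) := ⟨hq.2.1, hq.2.2.le⟩
    have h1 := P0_line (fun u => f (u, y)) (fun u => D1 f (u, y)) (fun u => P0_hasDeriv1 f u y)
      ((P0_cont (D1 f)).comp (continuous_id.prodMk continuous_const)) a κ hκ x x' hx hx'
    have h2 := P0_line (fun v => f (x', v)) (fun v => D2 f (x', v)) (fun v => P0_hasDeriv2 f x' v)
      ((P0_cont (D2 f)).comp (continuous_const.prodMk continuous_id)) b κ hκ y y' hy hy'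
    show (f (x, y) - f (x', y')) ^ 2 ≤ 2 * κ * A y + 2 * κ * B x'
    have e : f (x, y) - f (x', y') = (f (x, y) - f (x', y)) + (f (x', y) - f (x', y')) := by ring
    rw [e]
    have h3 : ((f (x, y) - f (x', y)) + (f (x', y) - f (x', y'))) ^ 2 ≤
        2 * (f (x, y) - f (x', y)) ^ 2 + 2 * (f (x', y) - f (x', y')) ^ 2 := by
      nlinarith [sq_nonneg ((f (x, y) - f (x', y)) - (f (x', y) - f (x', y')))]
    have h4 : κ * A y = κ * ∫ u in a..(a + κ), (D1 f (u, y)) ^ 2 := rfl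
    have h5 : κ * B x' = κ * ∫ v in b..(b + κ), (D2 f (x', v)) ^ 2 := rfl
    linarith
  have hfc := P0_cont f
  have If : IntegrableOn (fun p : ℝ × ℝ => f p) Q := P0_intOn hfc a b κ
  have If2 : IntegrableOn (fun p : ℝ × ℝ => (f p) ^ 2) Q := P0_intOn (hfc.pow 2) a b κ
  have Ic : ∀ c : ℝ, IntegrableOn (fun _ : ℝ × ℝ => c) Q := fun c => P0_intOn continuous_const a b κ
  have IA : IntegrableOn (fun p : ℝ × ℝ => A p.2) Q := P0_intOn (hAc.comp continuous_snd) a b κ
  have IB : IntegrableOn (fun p : ℝ × ℝ => B p.1) Q := P0_intOn (hBc.comp continuous_fst) a b κ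
  have hvol : (volume.restrict Q).real Set.univ = κ ^ 2 := by
    rw [Measure.real, Measure.restrict_apply MeasurableSet.univ, Set.univ_inter]
    exact P0_meas a b κ hκ
  set m := ∫ p in Q, f p with hm
  set s := ∫ p in Q, (f p) ^ 2 with hs
  set IAv := ∫ p in Q, A p.2 with hIA
  set IBv := ∫ p in Q, B p.1 with hIB
  have hconst : ∀ c : ℝ, ∫ p in Q, c = κ ^ 2 * c := by
    intro c
    rw [integral_const, hvol, smul_eq_mul]
  -- inner integration
  have hin : ∀ q ∈ Q, s - 2 * f q * m + κ ^ 2 * (f q) ^ 2 ≤ 2 * κ * IAv + κ ^ 2 * (2 * κ * B q.1) := by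
    intro q hq
    have h1 : ∫ p in Q, (f p - f q) ^ 2 ≤ ∫ p in Q, (2 * κ * A p.2 + 2 * κ * B q.1) := by
      apply setIntegral_mono_on _ _ hQm (fun p hp => hpt p hp q hq)
      · exact P0_intOn ((hfc.sub continuous_const).pow 2) a b κ
      · exact (IA.const_mul (2 * κ)).add (Ic _)
    have h2 : ∫ p in Q, (f p - f q) ^ 2 = s - 2 * f q * m + κ ^ 2 * (f q) ^ 2 := by
      have e : (fun p : ℝ × ℝ => (f p - f q) ^ 2) =
          fun p => ((f p) ^ 2 - 2 * f q * f p) + (f q) ^ 2 := by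
        funext p; ring
      have j1 : IntegrableOn (fun p : ℝ × ℝ => 2 * f q * f p) Q := If.const_mul _
      have j2 : IntegrableOn (fun p : ℝ × ℝ => (f p) ^ 2 - 2 * f q * f p) Q := If2.sub j1
      rw [e, integral_add j2 (Ic _), integral_sub If2 j1, integral_const_mul, hconst]
    have h3 : ∫ p in Q, (2 * κ * A p.2 + 2 * κ * B q.1) = 2 * κ * IAv + κ ^ 2 * (2 * κ * B q.1) := by
      rw [integral_add (IA.const_mul (2 * κ)) (Ic _), integral_const_mul, hconst]
    rw [h2, h3] at h1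
    exact h1
  -- outer integration
  have hout : κ ^ 2 * s - 2 * m * m + κ ^ 2 * s ≤ κ ^ 2 * (2 * κ * IAv) + κ ^ 2 * (2 * κ * IBv) := by
    have i1 : IntegrableOn (fun q : ℝ × ℝ => 2 * m * f q) Q := If.const_mul _
    have i2 : IntegrableOn (fun q : ℝ × ℝ => κ ^ 2 * (f q) ^ 2) Q := If2.const_mul _
    have i3 : IntegrableOn (fun q : ℝ × ℝ => κ ^ 2 * (2 * κ) * B q.1) Q := IB.const_mul _
    have i4 : IntegrableOn (fun q : ℝ × ℝ => s - 2 * m * f q) Q := (Ic s).sub i1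
    have i5 : IntegrableOn (fun q : ℝ × ℝ => (s - 2 * m * f q) + κ ^ 2 * (f q) ^ 2) Q := i4.add i2
    have i6 : IntegrableOn (fun q : ℝ × ℝ => 2 * κ * IAv + κ ^ 2 * (2 * κ) * B q.1) Q :=
      (Ic _).add i3
    have h1 : ∫ q in Q, ((s - 2 * m * f q) + κ ^ 2 * (f q) ^ 2) ≤
        ∫ q in Q, (2 * κ * IAv + κ ^ 2 * (2 * κ) * B q.1) := by
      apply setIntegral_mono_on i5 i6 hQm
      intro q hq
      have := hin q hq
      linarith
    rw [integral_add i4 i2, integral_sub (Ic s) i1, integral_const_mul,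
      integral_const_mul, hconst, integral_add (Ic _) i3, hconst, integral_const_mul] at h1
    linarith
  have hIAv : IAv = κ * ∫ p in Q, (D1 f p) ^ 2 := by
    have h1 : ∫ p in Q, (D1 f p) ^ 2 = ∫ y in Set.Ico b (b + κ), A y := by
      have e := P0_fubini2 (F := fun p => (D1 f p) ^ 2) ((P0_cont (D1 f)).pow 2) a b κ
      rw [hQ, e]
      apply setIntegral_congr_fun measurableSet_Ico
      intro y _
      simp only [hA]
      rw [intervalIntegral.integral_of_le (by linarith), integral_Ico_eq_integral_Ioc]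
    have h2 : IAv = ∫ x in Set.Ico a (a + κ), ∫ y in Set.Ico b (b + κ), A y := by
      have e := P0_fubini1 (F := fun p => A p.2) (hAc.comp continuous_snd) a b κ
      rw [hIA, hQ, e]
    rw [h2, h1, integral_const, smul_eq_mul, Measure.real,
      Measure.restrict_apply MeasurableSet.univ, Set.univ_inter, Real.volume_Ico,
      ENNReal.toReal_ofReal (by linarith)]
    ring
  have hIBv : IBv = κ * ∫ p in Q, (D2 f p) ^ 2 := by
    have h1 : ∫ p in Q, (D2 f p) ^ 2 = ∫ x in Set.Ico a (a + κ), B x := by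
      have e := P0_fubini1 (F := fun p => (D2 f p) ^ 2) ((P0_cont (D2 f)).pow 2) a b κ
      rw [hQ, e]
      apply setIntegral_congr_fun measurableSet_Ico
      intro x _
      simp only [hB]
      rw [intervalIntegral.integral_of_le (by linarith), integral_Ico_eq_integral_Ioc]
    have h2 : IBv = ∫ y in Set.Ico b (b + κ), ∫ x in Set.Ico a (a + κ), B x := by
      have e := P0_fubini2 (F := fun p => B p.1) (hBc.comp continuous_fst) a b κ
      rw [hIB, hQ, e]
    rw [h2, h1, integral_const, smul_eq_mul, Measure.real,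
      Measure.restrict_apply MeasurableSet.univ, Set.univ_inter, Real.volume_Ico,
      ENNReal.toReal_ofReal (by linarith)]
    ring
  have hsum : ∫ p in Q, ((D1 f p) ^ 2 + (D2 f p) ^ 2) =
      (∫ p in Q, (D1 f p) ^ 2) + ∫ p in Q, (D2 f p) ^ 2 :=
    integral_add (P0_intOn ((P0_cont (D1 f)).pow 2) a b κ) (P0_intOn ((P0_cont (D2 f)).pow 2) a b κ)
  rw [hsum]
  set d1 := ∫ p in Q, (D1 f p) ^ 2 with hd1
  set d2 := ∫ p in Q, (D2 f p) ^ 2 with hd2
  have hd1n : 0 ≤ d1 := integral_nonneg (fun p => sq_nonneg _)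
  have hd2n : 0 ≤ d2 := integral_nonneg (fun p => sq_nonneg _)
  rw [hIAv, hIBv] at hout
  have hκ2 : 0 < κ ^ 2 := by positivity
  have h1 : κ ^ 2 * s ≤ κ ^ 2 * (κ ^ 2 * (d1 + d2) + m ^ 2 / κ ^ 2) := by
    have e : κ ^ 2 * (κ ^ 2 * (d1 + d2) + m ^ 2 / κ ^ 2) = κ ^ 4 * (d1 + d2) + m ^ 2 := by
      field_simp
    rw [e]
    nlinarith
  have h2 := le_of_mul_le_mul_left h1 hκ2
  have h3 : 0 ≤ κ ^ 2 * (d1 + d2) := by positivity
  linarith

end NI
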