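import Crest.Agent.NI_P0

set_option autoImplicit false
open scoped ContDiff
open MeasureTheory

namespace NI

/-- grid squares -/
def P1sq (κ : ℝ) (s : ℤ × ℤ) : Set (ℝ × ℝ) :=
  Set.Ico (κ * s.1) (κ * s.1 + κ) ×ˢ Set.Ico (κ * s.2) (κ * s.2 + κ)

theorem P1_cont (f : Sm) : Continuous (f : ℝ × ℝ → ℝ) := (smooth f).continuous

theorem P1_intOn {g : ℝ × ℝ → ℝ} (hg : Continuous g) {S : Set (ℝ × ℝ)}
    (hS : S ⊆ Set.Icc (-2) 2 ×ˢ Set.Icc (-2) 2) : IntegrableOn g S :=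
  (hg.continuousOn.integrableOn_compact (isCompact_Icc.prod isCompact_Icc)).mono_set hS

theorem P1_ring_sub {r R : ℝ} (hR : R ≤ 2) : Ring r R ⊆ Set.Icc (-2) 2 ×ˢ Set.Icc (-2) 2 := by
  intro p hp
  obtain ⟨_, h2⟩ := hp
  have h3 := abs_lt.1 ((le_max_left _ _).trans_lt h2)
  have h4 := abs_lt.1 ((le_max_right _ _).trans_lt h2)
  exact ⟨⟨by linarith [h3.1], by linarith [h3.2]⟩, ⟨by linarith [h4.1], by linarith [h4.2]⟩⟩

theorem P1_meas_sq (κ : ℝ) (s : ℤ × ℤ) : MeasurableSet (P1sq κ s) :=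
  measurableSet_Ico.prod measurableSet_Ico

theorem P1_vol_sq {κ : ℝ} (hκ : 0 < κ) (s : ℤ × ℤ) : volume.real (P1sq κ s) = κ ^ 2 := by
  unfold P1sq
  rw [Measure.volume_eq_prod, measureReal_prod_prod]
  simp only [Measure.real, Real.volume_Ico]
  rw [add_sub_cancel_left, add_sub_cancel_left, ENNReal.toReal_ofReal hκ.le]
  ring

theorem P1_sq_sub {κ r R : ℝ} {s : ℤ × ℤ} (h : (P1sq κ s ∩ Ring r R).Nonempty) :
    P1sq κ s ⊆ Ring (r - κ) (R + κ) := by
  obtain ⟨q, hq, hq2⟩ := h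
  obtain ⟨hq3, hq4⟩ := hq2
  intro p hp
  obtain ⟨⟨a1, a2⟩, ⟨b1, b2⟩⟩ := hp
  obtain ⟨⟨c1, c2⟩, ⟨d1, d2⟩⟩ := hq
  have e1 : |p.1 - q.1| < κ := by rw [abs_lt]; constructor <;> linarith
  have e2 : |p.2 - q.2| < κ := by rw [abs_lt]; constructor <;> linarith
  have f1 := abs_sub_abs_le_abs_sub p.1 q.1
  have f2 := abs_sub_abs_le_abs_sub p.2 q.2
  have g1 := abs_sub_abs_le_abs_sub q.1 p.1
  have g2 := abs_sub_abs_le_abs_sub q.2 p.2
  rw [abs_sub_comm] at g1 g2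
  refine ⟨?_, ?_⟩
  · rcases le_total |q.1| |q.2| with h | h
    · rw [max_eq_right h] at hq3
      exact lt_of_lt_of_le (by linarith) (le_max_right _ _)
    · rw [max_eq_left h] at hq3
      exact lt_of_lt_of_le (by linarith) (le_max_left _ _)
  · have h1 : |q.1| < R := (le_max_left _ _).trans_lt hq4
    have h2 : |q.2| < R := (le_max_right _ _).trans_lt hq4
    rw [max_lt_iff]
    constructor <;> linarith

theorem P1_floor {κ : ℝ} (hκ : 0 < κ) (p : ℝ × ℝ) :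
    p ∈ P1sq κ (⌊p.1 / κ⌋, ⌊p.2 / κ⌋) := by
  have h1 := Int.floor_le (p.1 / κ)
  have h2 := Int.lt_floor_add_one (p.1 / κ)
  have h3 := Int.floor_le (p.2 / κ)
  have h4 := Int.lt_floor_add_one (p.2 / κ)
  rw [le_div_iff₀ hκ] at h1 h3
  rw [div_lt_iff₀ hκ] at h2 h4
  refine ⟨⟨?_, ?_⟩, ⟨?_, ?_⟩⟩ <;> simp only <;> linarith

theorem P1_disj {κ : ℝ} (hκ : 0 < κ) {s t : ℤ × ℤ} (hst : s ≠ t) :
    Disjoint (P1sq κ s) (P1sq κ t) := by
  rw [Set.disjoint_left]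
  intro p hp hq
  obtain ⟨⟨a1, a2⟩, ⟨b1, b2⟩⟩ := hp
  obtain ⟨⟨c1, c2⟩, ⟨d1, d2⟩⟩ := hq
  apply hst
  have key : ∀ x y : ℤ, ∀ z : ℝ, κ * x ≤ z → z < κ * x + κ → κ * y ≤ z → z < κ * y + κ → x = y := by
    intro x y z h1 h2 h3 h4
    have h5 : κ * (x : ℝ) < κ * ((y : ℝ) + 1) := by linarith
    have h6 : κ * (y : ℝ) < κ * ((x : ℝ) + 1) := by linarith
    have h7 : (x : ℝ) < (y : ℝ) + 1 := lt_of_mul_lt_mul_left h5 hκ.le
    have h8 : (y : ℝ) < (x : ℝ) + 1 := lt_of_mul_lt_mul_left h6 hκ.le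
    have h9 : x < y + 1 := by exact_mod_cast h7
    have h10 : y < x + 1 := by exact_mod_cast h8
    omega
  exact Prod.ext (key _ _ _ a1 a2 c1 c2) (key _ _ _ b1 b2 d1 d2)

/-- Cauchy-Schwarz on a square -/
theorem P1_cs {κ : ℝ} (hκ : 0 < κ) (s : ℤ × ℤ) (hs : P1sq κ s ⊆ Set.Icc (-2) 2 ×ˢ Set.Icc (-2) 2)
    {f : ℝ × ℝ → ℝ} (hf : Continuous f) :
    (∫ p in P1sq κ s, f p) ^ 2 ≤ κ ^ 2 * ∫ p in P1sq κ s, (f p) ^ 2 := by
  have i1 : IntegrableOn f (P1sq κ s) := P1_intOn hf hs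
  have i2 : IntegrableOn (fun p => (f p) ^ 2) (P1sq κ s) := P1_intOn (hf.pow 2) hs
  set I := ∫ p in P1sq κ s, f p with hI
  set J := ∫ p in P1sq κ s, (f p) ^ 2 with hJ
  have h0 : 0 ≤ ∫ p in P1sq κ s, (f p - I / κ ^ 2) ^ 2 :=
    integral_nonneg (fun p => sq_nonneg _)
  have h1 : ∫ p in P1sq κ s, (f p - I / κ ^ 2) ^ 2 = J - 2 * (I / κ ^ 2) * I + (I / κ ^ 2) ^ 2 * κ ^ 2 := by
    have e1 : ∀ p, (f p - I / κ ^ 2) ^ 2 = ((f p) ^ 2 - (2 * (I / κ ^ 2)) * f p) + (I / κ ^ 2) ^ 2 := by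
      intro p; ring
    simp_rw [e1]
    have hfin : volume (P1sq κ s) ≠ ⊤ :=
      ((measure_mono hs).trans_lt (isCompact_Icc.prod isCompact_Icc).measure_lt_top).ne
    have ic : IntegrableOn (fun _ : ℝ × ℝ => (I / κ ^ 2) ^ 2) (P1sq κ s) :=
      integrableOn_const hfin
    have im : IntegrableOn (fun p => (2 * (I / κ ^ 2)) * f p) (P1sq κ s) := i1.const_mul _
    have ia : IntegrableOn (fun p => (f p) ^ 2 - (2 * (I / κ ^ 2)) * f p) (P1sq κ s) := i2.sub im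
    rw [integral_add ia ic, integral_sub i2 im,
      integral_const_mul, setIntegral_const, P1_vol_sq hκ]
    simp only [smul_eq_mul]
    ring
  rw [h1] at h0
  have hk : (0:ℝ) < κ ^ 2 := by positivity
  have h2 : J - 2 * (I / κ ^ 2) * I + (I / κ ^ 2) ^ 2 * κ ^ 2 = J - I ^ 2 / κ ^ 2 := by
    field_simp
    ring
  rw [h2] at h0
  have h3 : I ^ 2 / κ ^ 2 ≤ J := by linarith
  rw [div_le_iff₀ hk] at h3
  linarith

/-- One pigeonhole step. Cover `Ring r R` by half-open squares of side `κ` (grid `κℤ × κℤ`)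
meeting it; they are contained in `Ring (r-κ) (R+κ)` and there are at most `25/κ²` of them.
Code `i ∈ T` by the integer parts of `∫_square (G i - G i₀) / (κ³ m / 5)`; each is bounded by
`κ m` in absolute value; choose the largest fibre. Then `poincare_square` for pairs. -/
theorem one_step {ι : Type*} (κ r R m B : ℝ) (hκ : 0 < κ) (hκ1 : κ ≤ 1/20)
    (hr : 1 ≤ r) (hR : R ≤ 3/2) (hm : 0 < m) (hB : 0 ≤ B)
    (T : Finset ι) (hT : T.Nonempty) (G : ι → Sm)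
    (h1 : ∀ i ∈ T, ∀ j ∈ T, ∫ p in Ring (r - κ) (R + κ), ((G i - G j : Sm) p) ^ 2 ≤ m ^ 2)
    (h2 : ∀ i ∈ T, ∀ j ∈ T, ∫ p in Ring (r - κ) (R + κ),
      ((D1 (G i - G j) p) ^ 2 + (D2 (G i - G j) p) ^ 2) ≤ B ^ 2 * m ^ 2) :
    ∃ T' ⊆ T, T'.Nonempty ∧
      (T.card : ℝ) ≤ (20 / κ ^ 2) ^ (⌈25 / κ ^ 2⌉₊) * (T'.card : ℝ) ∧
      ∀ i ∈ T', ∀ j ∈ T', ∫ p in Ring r R, ((G i - G j : Sm) p) ^ 2
        ≤ (2 * B ^ 2 + 1) * κ ^ 2 * m ^ 2 := by
  classical
  obtain ⟨i₀, hi₀⟩ := hT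
  -- the grid
  set N : ℕ := ⌈3 / (2 * κ)⌉₊ with hN
  set S : Finset (ℤ × ℤ) := (Finset.Icc (-(N:ℤ)) N ×ˢ Finset.Icc (-(N:ℤ)) N).filter
    (fun s => (P1sq κ s ∩ Ring r R).Nonempty) with hS
  have hSsub : ∀ s ∈ S, P1sq κ s ⊆ Ring (r - κ) (R + κ) := by
    intro s hs
    exact P1_sq_sub (Finset.mem_filter.1 hs).2
  have hbig : Ring (r - κ) (R + κ) ⊆ Set.Icc (-2) 2 ×ˢ Set.Icc (-2) 2 :=
    P1_ring_sub (by linarith)
  have hNk : (N : ℝ) < 3 / (2 * κ) + 1 := Nat.ceil_lt_add_one (by positivity)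
  have hNk2 : (3 / (2 * κ) : ℝ) ≤ N := Nat.le_ceil _
  have hκinv : (20 : ℝ) ≤ 1 / κ := by
    rw [le_div_iff₀ hκ]; linarith
  have hScard : (S.card : ℝ) ≤ 25 / κ ^ 2 := by
    have hc : S.card ≤ (2 * N + 1) * (2 * N + 1) := by
      refine (Finset.card_filter_le _ _).trans ?_
      rw [Finset.card_product]
      simp only [Int.card_Icc]
      apply le_of_eq
      have : ((N : ℤ) + 1 - -(N : ℤ)).toNat = 2 * N + 1 := by omega
      rw [this]
    have hcR : (S.card : ℝ) ≤ (2 * N + 1) * (2 * N + 1) := by exact_mod_cast hc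
    have h3 : (2 * (N : ℝ) + 1) ≤ 5 * (1 / κ) := by
      have : 3 / (2 * κ) = 3 / 2 * (1 / κ) := by field_simp
      rw [this] at hNk
      linarith
    have h4 : (0 : ℝ) ≤ 2 * (N : ℝ) + 1 := by positivity
    calc (S.card : ℝ) ≤ (2 * N + 1) * (2 * N + 1) := hcR
      _ ≤ (5 * (1 / κ)) * (5 * (1 / κ)) := by gcongr
      _ = 25 / κ ^ 2 := by field_simp; ring
  have hcover : Ring r R ⊆ ⋃ s ∈ S, P1sq κ s := by
    intro p hp
    simp only [Set.mem_iUnion]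
    refine ⟨(⌊p.1 / κ⌋, ⌊p.2 / κ⌋), ?_, P1_floor hκ p⟩
    rw [hS, Finset.mem_filter]
    refine ⟨?_, ⟨p, P1_floor hκ p, hp⟩⟩
    obtain ⟨_, hp2⟩ := hp
    have a1 := abs_lt.1 ((le_max_left _ _).trans_lt hp2)
    have a2 := abs_lt.1 ((le_max_right _ _).trans_lt hp2)
    have key : ∀ x : ℝ, -R < x → x < R → ⌊x / κ⌋ ∈ Finset.Icc (-(N:ℤ)) N := by
      intro x hx1 hx2
      rw [Finset.mem_Icc]
      have hNR : R / κ ≤ N := by
        refine le_trans ?_ hNk2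
        rw [div_le_div_iff₀ hκ (by positivity)]
        nlinarith
      constructor
      · rw [Int.le_floor]
        push_cast
        have : -(R / κ) ≤ x / κ := by
          rw [← neg_div]; gcongr
        linarith
      · have : x / κ ≤ R / κ := by gcongr
        have h5 : ((⌊x / κ⌋ : ℤ) : ℝ) ≤ (N : ℝ) := (Int.floor_le _).trans (this.trans hNR)
        exact_mod_cast h5
    rw [Finset.mem_product]
    exact ⟨key _ a1.1 a1.2, key _ a2.1 a2.2⟩
  -- codes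
  set q : ℝ := κ ^ 3 * m / 5 with hq
  have hqpos : 0 < q := by positivity
  set c : ι → (ℤ × ℤ) → ℤ := fun i s => ⌊(∫ p in P1sq κ s, ((G i - G i₀ : Sm) p)) / q⌋ with hc
  set K : ℤ := ⌈5 / κ ^ 2⌉ with hK
  have hkap2 : (400 : ℝ) ≤ 1 / κ ^ 2 := by
    have : (1 / κ ^ 2 : ℝ) = (1 / κ) * (1 / κ) := by field_simp
    rw [this]; nlinarith
  have hcint : ∀ i ∈ T, ∀ s ∈ S, |∫ p in P1sq κ s, ((G i - G i₀ : Sm) p)| ≤ κ * m := by
    intro i hi s hs
    have hsub := hSsub s hs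
    have hcs := P1_cs hκ s (hsub.trans hbig) (P1_cont (G i - G i₀))
    have hle : ∫ p in P1sq κ s, ((G i - G i₀ : Sm) p) ^ 2
        ≤ ∫ p in Ring (r - κ) (R + κ), ((G i - G i₀ : Sm) p) ^ 2 := by
      apply setIntegral_mono_set
      · exact P1_intOn ((P1_cont _).pow 2) hbig
      · exact Filter.Eventually.of_forall (fun p => sq_nonneg _)
      · exact Filter.Eventually.of_forall hsub
    have h3 : (∫ p in P1sq κ s, ((G i - G i₀ : Sm) p)) ^ 2 ≤ (κ * m) ^ 2 := by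
      refine hcs.trans ?_
      rw [mul_pow]
      exact mul_le_mul_of_nonneg_left (hle.trans (h1 i hi i₀ hi₀)) (by positivity)
    exact abs_le_of_sq_le_sq h3 (by positivity)
  have hcK : ∀ i ∈ T, ∀ s ∈ S, c i s ∈ Finset.Icc (-K) K := by
    intro i hi s hs
    have h3 := abs_le.1 (hcint i hi s hs)
    have hkq : κ * m / q = 5 / κ ^ 2 := by
      rw [hq]; field_simp
    have hKle : (5 / κ ^ 2 : ℝ) ≤ K := Int.le_ceil _
    rw [Finset.mem_Icc]
    constructor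
    · have : -(κ * m / q) ≤ (∫ p in P1sq κ s, ((G i - G i₀ : Sm) p)) / q := by
        rw [← neg_div]
        exact div_le_div_of_nonneg_right h3.1 hqpos.le
      rw [hkq] at this
      have h4 : ((-K : ℤ) : ℝ) ≤ (∫ p in P1sq κ s, ((G i - G i₀ : Sm) p)) / q := by
        rw [Int.cast_neg]
        exact (neg_le_neg hKle).trans this
      exact Int.le_floor.2 h4
    · have h4 : ((c i s : ℤ) : ℝ) ≤ (K : ℝ) := by
        have : (∫ p in P1sq κ s, ((G i - G i₀ : Sm) p)) / q ≤ κ * m / q :=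
          div_le_div_of_nonneg_right h3.2 hqpos.le
        rw [hkq] at this
        exact (Int.floor_le _).trans (this.trans hKle)
      exact_mod_cast h4
  -- pigeonhole
  set codes : Finset ((s : ℤ × ℤ) → s ∈ S → ℤ) := S.pi (fun _ => Finset.Icc (-K) K) with hcodes
  set φ : ι → ((s : ℤ × ℤ) → s ∈ S → ℤ) := fun i s _ => c i s with hφ
  have hmaps : ∀ i ∈ T, φ i ∈ codes := by
    intro i hi
    rw [hcodes, Finset.mem_pi]
    intro s hs
    exact hcK i hi s hs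
  have hKpos : 0 ≤ K := by
    rw [hK]; exact Int.ceil_nonneg (by positivity)
  have hLcard : ((Finset.Icc (-K) K).card : ℝ) ≤ 20 / κ ^ 2 := by
    rw [Int.card_Icc]
    have h3 : (((K + 1 - -K).toNat : ℕ) : ℝ) = 2 * (K : ℝ) + 1 := by
      have h4 : (((K + 1 - -K).toNat : ℕ) : ℤ) = 2 * K + 1 := by
        rw [Int.toNat_of_nonneg (by omega)]; ring
      rw [← Int.cast_natCast (R := ℝ), h4]
      push_cast
      ring
    rw [h3]
    have h6 : (K : ℝ) < 5 / κ ^ 2 + 1 := Int.ceil_lt_add_one _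
    have h7 : (5 / κ ^ 2 : ℝ) = 5 * (1 / κ ^ 2) := by ring
    have h8 : (20 / κ ^ 2 : ℝ) = 20 * (1 / κ ^ 2) := by ring
    rw [h7] at h6
    rw [h8]
    linarith
  have hone : (1 : ℝ) ≤ 20 / κ ^ 2 := by
    have h8 : (20 / κ ^ 2 : ℝ) = 20 * (1 / κ ^ 2) := by ring
    rw [h8]; linarith
  have hcodescard : (codes.card : ℝ) ≤ (20 / κ ^ 2) ^ (⌈25 / κ ^ 2⌉₊) := by
    rw [hcodes, Finset.card_pi, Finset.prod_const]
    push_cast
    calc (((Finset.Icc (-K) K).card : ℝ)) ^ S.card ≤ (20 / κ ^ 2) ^ S.card := by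
          gcongr
      _ ≤ (20 / κ ^ 2) ^ (⌈25 / κ ^ 2⌉₊) := by
          apply pow_le_pow_right₀ hone
          have : (S.card : ℝ) ≤ (⌈25 / κ ^ 2⌉₊ : ℝ) := hScard.trans (Nat.le_ceil _)
          exact_mod_cast this
  obtain ⟨y, hy, hmax⟩ := Finset.exists_max_image codes
    (fun y => (T.filter (fun i => φ i = y)).card) ⟨φ i₀, hmaps i₀ hi₀⟩
  refine ⟨T.filter (fun i => φ i = y), Finset.filter_subset _ _, ?_, ?_, ?_⟩
  · have h3 := hmax (φ i₀) (hmaps i₀ hi₀)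
    have h4 : 0 < (T.filter (fun i => φ i = φ i₀)).card :=
      Finset.card_pos.2 ⟨i₀, by simp [hi₀]⟩
    exact Finset.card_pos.1 (h4.trans_le h3)
  · have h3 : T.card = ∑ y' ∈ codes, (T.filter (fun i => φ i = y')).card :=
      Finset.card_eq_sum_card_fiberwise hmaps
    have h4 : ∑ y' ∈ codes, (T.filter (fun i => φ i = y')).card
        ≤ codes.card * (T.filter (fun i => φ i = y)).card := by
      rw [← smul_eq_mul]
      exact Finset.sum_le_card_nsmul _ _ _ hmax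
    have h5 : (T.card : ℝ) ≤ (codes.card : ℝ) * ((T.filter (fun i => φ i = y)).card : ℝ) := by
      rw [h3]
      exact_mod_cast h4
    exact h5.trans (mul_le_mul_of_nonneg_right hcodescard (by positivity))
  · intro i hi j hj
    rw [Finset.mem_filter] at hi hj
    have hdiff : ∀ s ∈ S, (∫ p in P1sq κ s, ((G i - G j : Sm) p)) ^ 2 ≤ q ^ 2 := by
      intro s hs
      have e1 : c i s = c j s := by
        have := congrFun (congrFun (hi.2.trans hj.2.symm) s) hs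
        exact this
      have ii : IntegrableOn (fun p => (G i - G i₀ : Sm) p) (P1sq κ s) :=
        P1_intOn (P1_cont _) ((hSsub s hs).trans hbig)
      have ij : IntegrableOn (fun p => (G j - G i₀ : Sm) p) (P1sq κ s) :=
        P1_intOn (P1_cont _) ((hSsub s hs).trans hbig)
      have e2 : ∫ p in P1sq κ s, ((G i - G j : Sm) p)
          = (∫ p in P1sq κ s, ((G i - G i₀ : Sm) p)) - ∫ p in P1sq κ s, ((G j - G i₀ : Sm) p) := by
        rw [← integral_sub ii ij]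
        congr 1
        ext p
        simp only [sub_ap]
        ring
      have e3 := Int.abs_sub_lt_one_of_floor_eq_floor e1
      rw [← sub_div, ← e2, abs_div, abs_of_pos hqpos, div_lt_one hqpos] at e3
      exact sq_le_sq' (by linarith [(abs_lt.1 e3).1]) (by linarith [(abs_lt.1 e3).2])
    have hpw : (S : Set (ℤ × ℤ)).Pairwise (fun s t => Disjoint (P1sq κ s) (P1sq κ t)) :=
      fun s _ t _ hst => P1_disj hκ hst
    have hUsub : (⋃ s ∈ S, P1sq κ s) ⊆ Ring (r - κ) (R + κ) := by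
      intro p hp
      simp only [Set.mem_iUnion] at hp
      obtain ⟨s, hs, hp⟩ := hp
      exact hSsub s hs hp
    have hcontG : Continuous (fun p => ((G i - G j : Sm) p) ^ 2) := (P1_cont _).pow 2
    have step1 : ∫ p in Ring r R, ((G i - G j : Sm) p) ^ 2
        ≤ ∑ s ∈ S, ∫ p in P1sq κ s, ((G i - G j : Sm) p) ^ 2 := by
      rw [← integral_biUnion_finset S (fun s _ => P1_meas_sq κ s) hpw
        (fun s hs => P1_intOn hcontG ((hSsub s hs).trans hbig))]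
      apply setIntegral_mono_set
      · exact P1_intOn hcontG (hUsub.trans hbig)
      · exact Filter.Eventually.of_forall (fun p => sq_nonneg _)
      · exact Filter.Eventually.of_forall hcover
    have step2 : ∑ s ∈ S, ∫ p in P1sq κ s, ((D1 (G i - G j) p) ^ 2 + (D2 (G i - G j) p) ^ 2)
        ≤ B ^ 2 * m ^ 2 := by
      have hcontD : Continuous (fun p => (D1 (G i - G j) p) ^ 2 + (D2 (G i - G j) p) ^ 2) :=
        ((P1_cont _).pow 2).add ((P1_cont _).pow 2)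
      rw [← integral_biUnion_finset S (fun s _ => P1_meas_sq κ s) hpw
        (fun s hs => P1_intOn hcontD ((hSsub s hs).trans hbig))]
      refine le_trans ?_ (h2 i hi.1 j hj.1)
      apply setIntegral_mono_set
      · exact P1_intOn hcontD hbig
      · exact Filter.Eventually.of_forall (fun p => by positivity)
      · exact Filter.Eventually.of_forall hUsub
    have step3 : ∀ s ∈ S, ∫ p in P1sq κ s, ((G i - G j : Sm) p) ^ 2
        ≤ 2 * κ ^ 2 * (∫ p in P1sq κ s, ((D1 (G i - G j) p) ^ 2 + (D2 (G i - G j) p) ^ 2))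
          + q ^ 2 / κ ^ 2 := by
      intro s hs
      have h3 := poincare_square (G i - G j) (κ * s.1) (κ * s.2) κ hκ
      refine h3.trans ?_
      have h4 : (∫ p in P1sq κ s, ((G i - G j : Sm) p)) ^ 2 / κ ^ 2 ≤ q ^ 2 / κ ^ 2 :=
        div_le_div_of_nonneg_right (hdiff s hs) (by positivity)
      have h5 := add_le_add_right h4
        (2 * κ ^ 2 * (∫ p in P1sq κ s, ((D1 (G i - G j) p) ^ 2 + (D2 (G i - G j) p) ^ 2)))
      exact h5
    calc ∫ p in Ring r R, ((G i - G j : Sm) p) ^ 2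
        ≤ ∑ s ∈ S, ∫ p in P1sq κ s, ((G i - G j : Sm) p) ^ 2 := step1
      _ ≤ ∑ s ∈ S, (2 * κ ^ 2 *
          (∫ p in P1sq κ s, ((D1 (G i - G j) p) ^ 2 + (D2 (G i - G j) p) ^ 2)) + q ^ 2 / κ ^ 2) :=
          Finset.sum_le_sum step3
      _ = 2 * κ ^ 2 * (∑ s ∈ S, ∫ p in P1sq κ s,
            ((D1 (G i - G j) p) ^ 2 + (D2 (G i - G j) p) ^ 2)) + S.card * (q ^ 2 / κ ^ 2) := by
          rw [Finset.sum_add_distrib, ← Finset.mul_sum, Finset.sum_const, nsmul_eq_mul]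
      _ ≤ 2 * κ ^ 2 * (B ^ 2 * m ^ 2) + (25 / κ ^ 2) * (q ^ 2 / κ ^ 2) := by
          gcongr
      _ = (2 * B ^ 2 + 1) * κ ^ 2 * m ^ 2 := by
          rw [hq]
          field_simp
          ring

end NI
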