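import Crest.Agent.NI_Frame

set_option autoImplicit false
open scoped ContDiff
open MeasureTheory

namespace NI

/-- smooth step: `0` for `r ≤ 0`, `1` for `r ≥ 1`. -/
noncomputable def SS (r : ℝ) : ℝ := Real.smoothTransition r

/-- `θ'` -/
noncomputable def thp (τ0 τ : ℝ) : ℝ := SS (τ / τ0)
/-- `θ` -/
noncomputable def th (τ0 τ : ℝ) : ℝ := ∫ r in (0:ℝ)..τ, thp τ0 r
/-- `β'` -/
noncomputable def betp (x : ℝ) : ℝ := (1/2) * SS (32 * x ^ 2 - 1)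
/-- `β` -/
noncomputable def bet (x : ℝ) : ℝ := ∫ r in (0:ℝ)..x, betp r
/-- half height of the lens -/
noncomputable def rho (σ x : ℝ) : ℝ := σ * (1/64 - x ^ 2)
/-- the multiplier `ψ(x,Q)` (zero on the lens `|Q| ≤ rho σ x`) -/
noncomputable def psi (σ x Q : ℝ) : ℝ := th (σ/64) (Q - rho σ x) - th (σ/64) (-Q - rho σ x)
/-- `∂ψ/∂Q` -/
noncomputable def psiQ (σ x Q : ℝ) : ℝ := thp (σ/64) (Q - rho σ x) + thp (σ/64) (-Q - rho σ x)
/-- `∂ψ/∂x` -/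
noncomputable def psix (σ x Q : ℝ) : ℝ :=
  2 * σ * x * (thp (σ/64) (Q - rho σ x) - thp (σ/64) (-Q - rho σ x))

/-- smooth even cutoff: `1` for `|r| ≤ a`, `0` for `|r| ≥ b` (`0 ≤ a < b`). -/
noncomputable def ct (a b r : ℝ) : ℝ := SS ((b ^ 2 - r ^ 2) / (b ^ 2 - a ^ 2))

/-- `F00(r) = r²/2` for `|r| ≤ 1/4`, `0` for `|r| ≥ 1/2`. -/
noncomputable def F00 (r : ℝ) : ℝ := (1/2) * r ^ 2 * ct (1/4) (1/2) r

end NI
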