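import Crest.Agent.NI_Real
import Crest.Agent.NI_T00

set_option autoImplicit false
open scoped ContDiff
open MeasureTheory

namespace NI

private theorem t04_smul (V : Derivation ℝ Sm Sm) (c : ℝ) (f : Sm) : V (c • f) = c • V f :=
  V.map_smul c f

private theorem t04_pointwise (V Y : Derivation ℝ Sm Sm)
    (comm : ∀ f : Sm, V (Y f) = Y (V f)) (e : ℝ) (k w Ψ B : Sm) :
    (V (V w) + Y (e • (k * Y w))) * (Ψ * Y w + B * V w) =
    ((1/2 : ℝ) • ((Y Ψ - V B) * (V w) ^ 2)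
      + (e/2) • ((Ψ * Y k - k * Y Ψ + B * V k + k * V B) * (Y w) ^ 2)
      - (V Ψ + e • (k * Y B)) * (V w * Y w))
      + V (Ψ * (V w * Y w) + (1/2 : ℝ) • (B * (V w * V w)) - (e/2) • (k * (B * (Y w * Y w))))
      + Y ((e/2) • (k * (Ψ * (Y w * Y w))) + e • (k * (B * (Y w * V w)))
          - (1/2 : ℝ) • (Ψ * (V w * V w))) := by
  apply sm_ext; intro p
  simp only [map_add, map_sub, t04_smul, Derivation.leibniz, smul_eq_mul, comm, add_ap, sub_ap,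
    mul_ap, smul_ap, pow_ap]
  ring

private theorem t04_cpt_V (d : VY) (f : Sm) (hf : HasCompactSupport (f : ℝ × ℝ → ℝ)) :
    HasCompactSupport (d.V f : ℝ × ℝ → ℝ) := cpt_vf _ _ _ hf

private theorem t04_cpt_Y (d : VY) (f : Sm) (hf : HasCompactSupport (f : ℝ × ℝ → ℝ)) :
    HasCompactSupport (d.Y f : ℝ × ℝ → ℝ) := cpt_vf _ _ _ hf

private theorem t04_cpt_sub (g f : Sm) (hg : HasCompactSupport (g : ℝ × ℝ → ℝ))
    (hf : HasCompactSupport (f : ℝ × ℝ → ℝ)) :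
    HasCompactSupport ((g - f : Sm) : ℝ × ℝ → ℝ) := by
  have h : (g - f : Sm) = g + (-1 : ℝ) • f := by
    apply sm_ext; intro p
    simp only [sub_ap, add_ap, smul_ap]; ring
  rw [h]
  exact cpt_add _ _ hg (cpt_smul _ _ hf)

/-- the fundamental multiplier identity (integrate
`V V w·ΨYw = V(Ψ Vw Yw) - ½Y(Ψ (Vw)²) - VΨ Vw Yw + ½ YΨ (Vw)²`, etc.) -/
theorem mult_identity (d : VY) (e : ℝ) (k w Ψ B : Sm)
    (hw : HasCompactSupport (w : ℝ × ℝ → ℝ)) :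
    ∫ p, (d.mu * (d.L e k w * (Ψ * d.Y w + B * d.V w)) : Sm) p =
    ∫ p, (d.mu * ((1/2 : ℝ) • ((d.Y Ψ - d.V B) * (d.V w) ^ 2)
      + (e/2) • ((Ψ * d.Y k - k * d.Y Ψ + B * d.V k + k * d.V B) * (d.Y w) ^ 2)
      - (d.V Ψ + e • (k * d.Y B)) * (d.V w * d.Y w)) : Sm) p := by
  have hV := t04_cpt_V d w hw
  have hY := t04_cpt_Y d w hw
  set F1 : Sm := Ψ * (d.V w * d.Y w) + (1/2 : ℝ) • (B * (d.V w * d.V w))
    - (e/2) • (k * (B * (d.Y w * d.Y w))) with hF1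
  set F2 : Sm := (e/2) • (k * (Ψ * (d.Y w * d.Y w))) + e • (k * (B * (d.Y w * d.V w)))
          - (1/2 : ℝ) • (Ψ * (d.V w * d.V w)) with hF2
  set R : Sm := (1/2 : ℝ) • ((d.Y Ψ - d.V B) * (d.V w) ^ 2)
      + (e/2) • ((Ψ * d.Y k - k * d.Y Ψ + B * d.V k + k * d.V B) * (d.Y w) ^ 2)
      - (d.V Ψ + e • (k * d.Y B)) * (d.V w * d.Y w) with hR
  have hVV : HasCompactSupport ((d.V w * d.V w : Sm) : ℝ × ℝ → ℝ) := cpt_mul_left _ _ hV
  have hYY : HasCompactSupport ((d.Y w * d.Y w : Sm) : ℝ × ℝ → ℝ) := cpt_mul_left _ _ hY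
  have hVY : HasCompactSupport ((d.V w * d.Y w : Sm) : ℝ × ℝ → ℝ) := cpt_mul_left _ _ hY
  have hYV : HasCompactSupport ((d.Y w * d.V w : Sm) : ℝ × ℝ → ℝ) := cpt_mul_left _ _ hV
  have cF1 : HasCompactSupport (F1 : ℝ × ℝ → ℝ) :=
    t04_cpt_sub _ _ (cpt_add _ _ (cpt_mul_left _ _ hVY) (cpt_smul _ _ (cpt_mul_left _ _ hVV)))
      (cpt_smul _ _ (cpt_mul_left _ _ (cpt_mul_left _ _ hYY)))
  have cF2 : HasCompactSupport (F2 : ℝ × ℝ → ℝ) :=
    t04_cpt_sub _ _ (cpt_add _ _ (cpt_smul _ _ (cpt_mul_left _ _ (cpt_mul_left _ _ hYY)))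
      (cpt_smul _ _ (cpt_mul_left _ _ (cpt_mul_left _ _ hYV))))
      (cpt_smul _ _ (cpt_mul_left _ _ hVV))
  have cR : HasCompactSupport (R : ℝ × ℝ → ℝ) := by
    refine t04_cpt_sub _ _ (cpt_add _ _ (cpt_smul _ _ (cpt_mul_left _ _ ?_))
      (cpt_smul _ _ (cpt_mul_left _ _ ?_))) (cpt_mul_left _ _ hVY)
    · rw [pow_two]; exact hVV
    · rw [pow_two]; exact hYY
  have key : d.mu * (d.L e k w * (Ψ * d.Y w + B * d.V w))
      = d.mu * R + d.mu * d.V F1 + d.mu * d.Y F2 := by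
    have h := t04_pointwise d.V d.Y d.comm e k w Ψ B
    have hL : d.L e k w = d.V (d.V w) + d.Y (e • (k * d.Y w)) := rfl
    rw [hL, h]
    ring
  have i1 : Integrable (fun p => (d.mu * R : Sm) p) := int_of_cpt _ (cpt_mul_left _ _ cR)
  have i2 : Integrable (fun p => (d.mu * d.V F1 : Sm) p) :=
    int_of_cpt _ (cpt_mul_left _ _ (t04_cpt_V d _ cF1))
  have i3 : Integrable (fun p => (d.mu * d.Y F2 : Sm) p) :=
    int_of_cpt _ (cpt_mul_left _ _ (t04_cpt_Y d _ cF2))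
  rw [key]
  have e1 : ∫ p, (d.mu * R + d.mu * d.V F1 + d.mu * d.Y F2 : Sm) p
      = (∫ p, ((d.mu * R : Sm) p + (d.mu * d.V F1 : Sm) p)) + ∫ p, (d.mu * d.Y F2 : Sm) p :=
    integral_add (i1.add i2) i3
  rw [e1]
  have e2 : ∫ p, ((d.mu * R : Sm) p + (d.mu * d.V F1 : Sm) p)
      = (∫ p, (d.mu * R : Sm) p) + ∫ p, (d.mu * d.V F1 : Sm) p := integral_add i1 i2
  have e3 : ∫ p, (d.mu * d.V F1 : Sm) p = 0 := d.intV F1 cF1
  have e4 : ∫ p, (d.mu * d.Y F2 : Sm) p = 0 := d.intY F2 cF2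
  rw [e2, e3, e4]
  ring

/-- Poincaré type inequality: from `∫ mu V(G w²) = 0`. -/
theorem poincare_V (d : VY) (w G : Sm) (hw : HasCompactSupport (w : ℝ × ℝ → ℝ)) :
    ∫ p, (d.mu * (d.V G * w ^ 2) : Sm) p = - 2 * ∫ p, (d.mu * (G * (w * d.V w)) : Sm) p := by
  have hV := t04_cpt_V d w hw
  have c1 : HasCompactSupport ((G * (w * w) : Sm) : ℝ × ℝ → ℝ) :=
    cpt_mul_left _ _ (cpt_mul_left _ _ hw)
  have c2 : HasCompactSupport ((d.mu * (d.V G * w ^ 2) : Sm) : ℝ × ℝ → ℝ) := by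
    rw [pow_two]
    exact cpt_mul_left _ _ (cpt_mul_left _ _ (cpt_mul_left _ _ hw))
  have c3 : HasCompactSupport ((d.mu * (G * (w * d.V w)) : Sm) : ℝ × ℝ → ℝ) :=
    cpt_mul_left _ _ (cpt_mul_left _ _ (cpt_mul_left _ _ hV))
  have h0 : ∫ p, (d.mu * d.V (G * (w * w)) : Sm) p = 0 := d.intV _ c1
  have key : d.mu * d.V (G * (w * w))
      = d.mu * (d.V G * w ^ 2) + (2 : ℝ) • (d.mu * (G * (w * d.V w))) := by
    apply sm_ext; intro p
    simp only [Derivation.leibniz, smul_eq_mul, add_ap, mul_ap, smul_ap, pow_ap]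
    ring
  rw [key] at h0
  have e1 : ∫ p, (d.mu * (d.V G * w ^ 2) + (2 : ℝ) • (d.mu * (G * (w * d.V w))) : Sm) p
      = ∫ p, (d.mu * (d.V G * w ^ 2) : Sm) p + 2 * (d.mu * (G * (w * d.V w)) : Sm) p := rfl
  rw [e1, integral_add (int_of_cpt _ c2) ((int_of_cpt _ c3).const_mul 2),
    integral_const_mul] at h0
  linarith

end NI
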