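import Crest.Agent.NI_T05a

set_option autoImplicit false
open scoped ContDiff
open MeasureTheory

namespace NI

theorem betp_contDiff : ContDiff ℝ ∞ betp := by
  unfold betp
  exact contDiff_const.mul (SS_contDiff.comp ((contDiff_const.mul (contDiff_id.pow 2)).sub
    contDiff_const))
private theorem betp_cont : Continuous betp := betp_contDiff.continuous
private theorem bet_hasDeriv (x : ℝ) : HasDerivAt bet (betp x) x := by
  unfold bet
  exact intervalIntegral.integral_hasDerivAt_right (betp_cont.intervalIntegrable _ _)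
    (betp_cont.stronglyMeasurableAtFilter _ _) betp_cont.continuousAt
theorem bet_deriv : deriv bet = betp := by
  funext x
  exact (bet_hasDeriv x).deriv
theorem bet_contDiff : ContDiff ℝ ∞ bet := by
  rw [contDiff_infty_iff_deriv]
  refine ⟨fun τ => (bet_hasDeriv τ).differentiableAt, ?_⟩
  rw [bet_deriv]
  exact betp_contDiff

theorem betp_nonneg (x : ℝ) : 0 ≤ betp x := by
  unfold betp
  have := SS_nonneg (32 * x ^ 2 - 1)
  positivity
theorem betp_le (x : ℝ) : betp x ≤ 1/2 := by
  unfold betp
  linarith [SS_le_one (32 * x ^ 2 - 1)]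
theorem betp_zero {x : ℝ} (h : x ^ 2 ≤ 1/32) : betp x = 0 := by
  unfold betp
  rw [SS_zero (by linarith), mul_zero]
theorem betp_half {x : ℝ} (h : 1/16 ≤ x ^ 2) : betp x = 1/2 := by
  unfold betp
  rw [SS_one (by linarith), mul_one]
theorem bet_zero {x : ℝ} (h : x ^ 2 ≤ 1/32) : bet x = 0 := by
  unfold bet
  rw [intervalIntegral.integral_congr (g := fun _ => (0:ℝ))]
  · simp
  · intro r hr
    apply betp_zero
    have hr' : |r| ≤ |x| := by
      have := Set.abs_sub_left_of_mem_uIcc hr
      simpa using this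
    have : r ^ 2 ≤ x ^ 2 := sq_le_sq.mpr hr'
    linarith
theorem bet_odd (x : ℝ) : bet (-x) = - bet x := by
  unfold bet
  have h1 : ∫ r in (0:ℝ)..x, betp (-r) = ∫ r in (-x)..(-0:ℝ), betp r :=
    intervalIntegral.integral_comp_neg (fun r => betp r)
  have h2 : ∀ r : ℝ, betp (-r) = betp r := fun r => by unfold betp; rw [neg_sq]
  simp only [h2, neg_zero] at h1
  rw [intervalIntegral.integral_symm, h1]
theorem bet_abs_le (x : ℝ) : |bet x| ≤ |x| / 2 := by
  have h := intervalIntegral.norm_integral_le_of_norm_le_const (a := 0) (b := x) (C := 1/2)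
    (f := betp) (fun r _ => by
      rw [Real.norm_eq_abs, abs_of_nonneg (betp_nonneg r)]
      exact betp_le r)
  rw [Real.norm_eq_abs, sub_zero] at h
  unfold bet
  linarith
private theorem bet_nonneg {x : ℝ} (h : 0 ≤ x) : 0 ≤ bet x :=
  intervalIntegral.integral_nonneg h (fun r _ => betp_nonneg r)
/-- `β(x) ≥ (x-1/4)/2` for `x ≥ 1/4` -/
theorem bet_ge {x : ℝ} (h : 1/4 ≤ x) : (x - 1/4) / 2 ≤ bet x := by
  have h1 : bet x = bet (1/4) + ∫ r in (1/4:ℝ)..x, betp r := by
    unfold bet
    rw [intervalIntegral.integral_add_adjacent_intervals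
      (betp_cont.intervalIntegrable _ _) (betp_cont.intervalIntegrable _ _)]
  have h2 : ∫ r in (1/4:ℝ)..x, betp r = ∫ r in (1/4:ℝ)..x, (1/2:ℝ) := by
    refine intervalIntegral.integral_congr fun r hr => ?_
    rw [Set.uIcc_of_le h] at hr
    exact betp_half (by nlinarith [hr.1])
  rw [h1, h2, intervalIntegral.integral_const, smul_eq_mul]
  linarith [bet_nonneg (x := 1/4) (by norm_num)]
theorem x_bet_nonneg (x : ℝ) : 0 ≤ x * bet x := by
  rcases le_total 0 x with h | h
  · exact mul_nonneg h (bet_nonneg h)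
  · have h1 : 0 ≤ bet (-x) := bet_nonneg (by linarith)
    rw [bet_odd] at h1
    nlinarith

end NI
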