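import Crest.Agent.NI_T05a

set_option autoImplicit false
open scoped ContDiff
open MeasureTheory

namespace NI

theorem ct_contDiff {a b : ℝ} : ContDiff ℝ ∞ (ct a b) := by
  have h : ContDiff ℝ ∞ (fun r : ℝ => (b ^ 2 - r ^ 2) / (b ^ 2 - a ^ 2)) :=
    (contDiff_const.sub (contDiff_id.pow 2)).div_const _
  exact SS_contDiff.comp h
theorem ct_nonneg (a b r : ℝ) : 0 ≤ ct a b r := SS_nonneg _
theorem ct_le_one (a b r : ℝ) : ct a b r ≤ 1 := SS_le_one _
theorem ct_one {a b r : ℝ} (ha : 0 ≤ a) (hab : a < b) (hr : |r| ≤ a) : ct a b r = 1 := by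
  have h1 : 0 < b ^ 2 - a ^ 2 := by nlinarith
  have h2 : r ^ 2 ≤ a ^ 2 := by rw [← sq_abs r]; exact pow_le_pow_left₀ (abs_nonneg r) hr 2
  exact SS_one (by rw [le_div_iff₀ h1]; linarith)
theorem ct_zero {a b r : ℝ} (ha : 0 ≤ a) (hab : a < b) (hr : b ≤ |r|) : ct a b r = 0 := by
  have h1 : 0 < b ^ 2 - a ^ 2 := by nlinarith
  have h2 : b ^ 2 ≤ r ^ 2 := by rw [← sq_abs r]; exact pow_le_pow_left₀ (by linarith) hr 2
  exact SS_zero (div_nonpos_of_nonpos_of_nonneg (by linarith) h1.le)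

private theorem bdd_aux (g : ℝ → ℝ) (hg : Continuous g) (u v : ℝ)
    (h : ∀ r, r ∉ Set.Icc u v → g r = 0) : ∃ C : ℝ, 0 < C ∧ ∀ r, |g r| ≤ C := by
  obtain ⟨C, hC⟩ := (isCompact_Icc (a := u) (b := v)).exists_bound_of_continuousOn hg.continuousOn
  refine ⟨|C| + 1, by positivity, fun r => ?_⟩
  by_cases hr : r ∈ Set.Icc u v
  · have := hC r hr
    rw [Real.norm_eq_abs] at this
    have := le_abs_self C
    linarith
  · rw [h r hr, abs_zero]; positivity

private theorem deriv_zero_of (g : ℝ → ℝ) (c : ℝ) (s : Set ℝ) (hs : IsOpen s) (h : ∀ r ∈ s, g r = c)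
    (r : ℝ) (hr : r ∈ s) : deriv g r = 0 := by
  have : g =ᶠ[nhds r] fun _ => c := by
    filter_upwards [hs.mem_nhds hr] with x hx
    exact h x hx
  rw [this.deriv_eq, deriv_const]

private theorem SS_d_zero (r : ℝ) (hr : r ∉ Set.Icc (0:ℝ) 1) : deriv SS r = 0 := by
  rw [Set.mem_Icc, not_and_or, not_le, not_le] at hr
  rcases hr with h | h
  · exact deriv_zero_of SS 0 (Set.Iio 0) isOpen_Iio (fun x hx => SS_zero (le_of_lt hx)) r h
  · exact deriv_zero_of SS 1 (Set.Ioi 1) isOpen_Ioi (fun x hx => SS_one (le_of_lt hx)) r h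

private theorem SS_dd_zero (r : ℝ) (hr : r ∉ Set.Icc (0:ℝ) 1) : deriv (deriv SS) r = 0 :=
  deriv_zero_of (deriv SS) 0 (Set.Icc (0:ℝ) 1)ᶜ isClosed_Icc.isOpen_compl
    (fun x hx => SS_d_zero x hx) r hr

private theorem SSd_contDiff : ContDiff ℝ ∞ (deriv SS) := contDiff_deriv SS_contDiff

/-- bounds of first and second derivative, scale invariant: there is a universal constant for
`a = 4b/5 .. ` type ratios. -/
theorem ct_deriv_bound : ∃ C : ℝ, 0 < C ∧ ∀ a b : ℝ, 0 < a → a < b → b ≤ 2 * a → ∀ r : ℝ,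
    |deriv (ct a b) r| ≤ C * b / (b ^ 2 - a ^ 2) ∧
    |deriv (deriv (ct a b)) r| ≤ C * b ^ 2 / (b ^ 2 - a ^ 2) ^ 2 := by
  obtain ⟨C1, hC1, h1⟩ := bdd_aux (deriv SS) SSd_contDiff.continuous 0 1 SS_d_zero
  obtain ⟨C2, hC2, h2⟩ := bdd_aux (deriv (deriv SS)) (contDiff_deriv SSd_contDiff).continuous 0 1
    SS_dd_zero
  refine ⟨4 * C2 + 2 * C1, by positivity, fun a b ha hab _ r => ?_⟩
  have hD : 0 < b ^ 2 - a ^ 2 := by nlinarith
  have hb : 0 < b := by linarith
  set D := b ^ 2 - a ^ 2 with hDdef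
  have hu : ∀ x : ℝ, HasDerivAt (fun r : ℝ => (b ^ 2 - r ^ 2) / D) (-(2 * x) / D) x := by
    intro x
    have h := (((hasDerivAt_id x).pow 2).const_sub (b^2)).div_const D
    simpa using h
  have hd1 : ∀ x : ℝ, HasDerivAt (ct a b) (deriv SS ((b ^ 2 - x ^ 2) / D) * (-(2 * x) / D)) x := by
    intro x
    have hSS : HasDerivAt SS (deriv SS ((b ^ 2 - x ^ 2) / D)) ((b ^ 2 - x ^ 2) / D) :=
      ((SS_contDiff.differentiable (by simp)) _).hasDerivAt
    exact hSS.comp x (hu x)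
  have hde : deriv (ct a b) = fun x => deriv SS ((b ^ 2 - x ^ 2) / D) * (-(2 * x) / D) :=
    funext fun x => (hd1 x).deriv
  have hd2 : ∀ x : ℝ, HasDerivAt (deriv (ct a b))
      (deriv (deriv SS) ((b ^ 2 - x ^ 2) / D) * (-(2 * x) / D) * (-(2 * x) / D)
        + deriv SS ((b ^ 2 - x ^ 2) / D) * (-2 / D)) x := by
    intro x
    rw [hde]
    have hSS : HasDerivAt (deriv SS) (deriv (deriv SS) ((b ^ 2 - x ^ 2) / D)) ((b ^ 2 - x ^ 2) / D) :=
      ((SSd_contDiff.differentiable (by simp)) _).hasDerivAt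
    have h3 := hSS.comp x (hu x)
    have h4 : HasDerivAt (fun x : ℝ => -(2 * x) / D) (-2 / D) x := by
      have := (((hasDerivAt_id x).const_mul 2).neg).div_const D
      simpa using this
    exact h3.mul h4
  -- outside the support
  by_cases hr : b < |r|
  · have hlt : (b ^ 2 - r ^ 2) / D ∉ Set.Icc (0:ℝ) 1 := by
      have : b ^ 2 < r ^ 2 := by
        rw [← sq_abs r]; exact pow_lt_pow_left₀ hr hb.le (by norm_num)
      intro h
      have h0 := h.1
      have : (b ^ 2 - r ^ 2) / D < 0 := div_neg_of_neg_of_pos (by linarith) hD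
      linarith
    rw [(hd2 r).deriv, (hd1 r).deriv, SS_d_zero _ hlt, SS_dd_zero _ hlt]
    simp only [zero_mul, add_zero, abs_zero]
    constructor <;> positivity
  · have hr' : |r| ≤ b := not_lt.mp hr
    have e1 : |(-(2 * r) / D)| ≤ 2 * b / D := by
      rw [abs_div, abs_neg, abs_mul, abs_of_pos hD, abs_two]
      gcongr
    constructor
    · rw [(hd1 r).deriv, abs_mul]
      calc |deriv SS ((b ^ 2 - r ^ 2) / D)| * |(-(2 * r) / D)|
          ≤ C1 * (2 * b / D) := by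
            apply mul_le_mul (h1 _) e1 (abs_nonneg _) hC1.le
        _ ≤ (4 * C2 + 2 * C1) * b / D := by
            have e : C1 * (2 * b / D) = (2 * C1) * b / D := by ring
            rw [e]
            gcongr
            linarith
    · rw [(hd2 r).deriv]
      have e2 : |deriv (deriv SS) ((b ^ 2 - r ^ 2) / D) * (-(2 * r) / D) * (-(2 * r) / D)|
          ≤ C2 * (2 * b / D) * (2 * b / D) := by
        rw [abs_mul, abs_mul]
        apply mul_le_mul _ e1 (abs_nonneg _) (by positivity)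
        exact mul_le_mul (h2 _) e1 (abs_nonneg _) hC2.le
      have e3 : |deriv SS ((b ^ 2 - r ^ 2) / D) * (-2 / D)| ≤ C1 * (2 / D) := by
        rw [abs_mul]
        apply mul_le_mul (h1 _) _ (abs_nonneg _) hC1.le
        rw [abs_div, abs_neg, abs_two, abs_of_pos hD]
      have e4 : C1 * (2 / D) ≤ 2 * C1 * b ^ 2 / D ^ 2 := by
        have hDb : D ≤ b ^ 2 := by rw [hDdef]; nlinarith
        rw [le_div_iff₀ (by positivity)]
        have : C1 * (2 / D) * D ^ 2 = 2 * C1 * D := by field_simp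
        rw [this]
        have : 0 < 2 * C1 := by positivity
        nlinarith
      have e5 : C2 * (2 * b / D) * (2 * b / D) = 4 * C2 * b ^ 2 / D ^ 2 := by
        field_simp; ring
      calc _ ≤ C2 * (2 * b / D) * (2 * b / D) + C1 * (2 / D) := (abs_add_le _ _).trans (add_le_add e2 e3)
        _ ≤ 4 * C2 * b ^ 2 / D ^ 2 + 2 * C1 * b ^ 2 / D ^ 2 := by rw [e5]; linarith
        _ = (4 * C2 + 2 * C1) * b ^ 2 / D ^ 2 := by ring

theorem F00_contDiff : ContDiff ℝ ∞ F00 := by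
  unfold F00
  exact (contDiff_const.mul (contDiff_id.pow 2)).mul ct_contDiff
theorem F00_zero {r : ℝ} (h : 1/2 ≤ |r|) : F00 r = 0 := by
  rw [F00, ct_zero (by norm_num) (by norm_num) h, mul_zero]
theorem F00_eq {r : ℝ} (h : |r| ≤ 1/4) : F00 r = (1/2) * r ^ 2 := by
  rw [F00, ct_one (by norm_num) (by norm_num) h, mul_one]
theorem F00_dd_one {r : ℝ} (h : |r| < 1/4) : deriv (deriv F00) r = 1 := by
  have ho : IsOpen {x : ℝ | |x| < 1/4} := isOpen_lt continuous_abs continuous_const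
  have h1 : ∀ x : ℝ, |x| < 1/4 → deriv F00 x = x := by
    intro x hx
    have : F00 =ᶠ[nhds x] fun y => (1/2) * y ^ 2 := by
      filter_upwards [ho.mem_nhds hx] with y hy
      exact F00_eq (le_of_lt hy)
    rw [this.deriv_eq]
    have h2 : HasDerivAt (fun y : ℝ => (1/2) * y ^ 2) x x := by
      have := ((hasDerivAt_id x).pow 2).const_mul (1/2 : ℝ)
      simpa using this
    exact h2.deriv
  have : deriv F00 =ᶠ[nhds r] fun y => y := by
    filter_upwards [ho.mem_nhds h] with y hy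
    exact h1 y hy
  rw [this.deriv_eq]
  simp
theorem F00_bound : ∃ C : ℝ, 0 < C ∧ ∀ r : ℝ, |F00 r| ≤ C ∧ |deriv F00 r| ≤ C ∧
    |deriv (deriv F00) r| ≤ C := by
  have hc1 : ContDiff ℝ ∞ (deriv F00) := contDiff_deriv F00_contDiff
  have hc2 : ContDiff ℝ ∞ (deriv (deriv F00)) := contDiff_deriv hc1
  have hz : ∀ r, r ∉ Set.Icc (-(1/2:ℝ)) (1/2) → F00 r = 0 := by
    intro r hr
    apply F00_zero
    by_contra hcon
    rw [not_le, abs_lt] at hcon
    exact hr ⟨hcon.1.le, hcon.2.le⟩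
  have hz1 : ∀ r, r ∉ Set.Icc (-(1/2:ℝ)) (1/2) → deriv F00 r = 0 := fun r hr =>
    deriv_zero_of F00 0 _ isClosed_Icc.isOpen_compl hz r hr
  have hz2 : ∀ r, r ∉ Set.Icc (-(1/2:ℝ)) (1/2) → deriv (deriv F00) r = 0 := fun r hr =>
    deriv_zero_of (deriv F00) 0 _ isClosed_Icc.isOpen_compl hz1 r hr
  obtain ⟨C0, hC0, h0⟩ := bdd_aux F00 F00_contDiff.continuous _ _ hz
  obtain ⟨C1, hC1, h1⟩ := bdd_aux _ hc1.continuous _ _ hz1
  obtain ⟨C2, hC2, h2⟩ := bdd_aux _ hc2.continuous _ _ hz2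
  refine ⟨C0 + C1 + C2, by positivity, fun r => ⟨?_, ?_, ?_⟩⟩
  · have := h0 r; linarith
  · have := h1 r; linarith
  · have := h2 r; linarith

end NI
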