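import Crest.Agent.NI_Real

set_option autoImplicit false
open scoped ContDiff
open MeasureTheory

namespace NI

theorem SS_nonneg (r : ℝ) : 0 ≤ SS r := Real.smoothTransition.nonneg r
theorem SS_le_one (r : ℝ) : SS r ≤ 1 := Real.smoothTransition.le_one r
theorem SS_zero {r : ℝ} (h : r ≤ 0) : SS r = 0 := Real.smoothTransition.zero_of_nonpos h
theorem SS_one {r : ℝ} (h : 1 ≤ r) : SS r = 1 := Real.smoothTransition.one_of_one_le h
theorem SS_mono : Monotone SS := Real.smoothTransition.monotone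
theorem SS_contDiff : ContDiff ℝ ∞ SS := Real.smoothTransition.contDiff

theorem thp_contDiff (τ0 : ℝ) : ContDiff ℝ ∞ (thp τ0) := by
  unfold thp
  exact SS_contDiff.comp (contDiff_id.div_const _)
private theorem thp_cont (τ0 : ℝ) : Continuous (thp τ0) := (thp_contDiff τ0).continuous
theorem th_deriv (τ0 : ℝ) : deriv (th τ0) = thp τ0 := by
  funext τ
  unfold th
  exact Continuous.deriv_integral _ (thp_cont τ0) _ _
private theorem th_hasDeriv (τ0 τ : ℝ) : HasDerivAt (th τ0) (thp τ0 τ) τ := by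
  unfold th
  exact intervalIntegral.integral_hasDerivAt_right ((thp_cont τ0).intervalIntegrable _ _)
    ((thp_cont τ0).stronglyMeasurableAtFilter _ _) (thp_cont τ0).continuousAt
theorem th_contDiff (τ0 : ℝ) : ContDiff ℝ ∞ (th τ0) := by
  rw [contDiff_infty_iff_deriv]
  refine ⟨fun τ => (th_hasDeriv τ0 τ).differentiableAt, ?_⟩
  rw [th_deriv]
  exact thp_contDiff τ0
theorem thp_nonneg (τ0 τ : ℝ) : 0 ≤ thp τ0 τ := SS_nonneg _
theorem thp_le_one (τ0 τ : ℝ) : thp τ0 τ ≤ 1 := SS_le_one _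
theorem thp_zero {τ0 τ : ℝ} (h0 : 0 < τ0) (h : τ ≤ 0) : thp τ0 τ = 0 :=
  SS_zero (div_nonpos_of_nonpos_of_nonneg h h0.le)
theorem thp_one {τ0 τ : ℝ} (h0 : 0 < τ0) (h : τ0 ≤ τ) : thp τ0 τ = 1 :=
  SS_one ((one_le_div h0).mpr h)
theorem thp_mono {τ0 : ℝ} (h0 : 0 < τ0) : Monotone (thp τ0) := by
  intro a b hab
  exact SS_mono (div_le_div_of_nonneg_right hab h0.le)
/-- `θ'' ≥ 0` -/
theorem thpp_nonneg {τ0 : ℝ} (h0 : 0 < τ0) (τ : ℝ) : 0 ≤ deriv (thp τ0) τ :=
  (thp_mono h0).deriv_nonneg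
theorem th_zero {τ0 τ : ℝ} (h0 : 0 < τ0) (h : τ ≤ 0) : th τ0 τ = 0 := by
  unfold th
  rw [intervalIntegral.integral_congr (g := fun _ => (0:ℝ))]
  · simp
  · intro r hr
    rw [Set.uIcc_of_ge h] at hr
    exact thp_zero h0 hr.2
theorem th_nonneg {τ0 : ℝ} (h0 : 0 < τ0) (τ : ℝ) : 0 ≤ th τ0 τ := by
  rcases le_total τ 0 with h | h
  · rw [th_zero h0 h]
  · exact intervalIntegral.integral_nonneg h (fun r _ => thp_nonneg _ _)
theorem th_mono {τ0 : ℝ} (h0 : 0 < τ0) : Monotone (th τ0) := by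
  refine monotone_of_deriv_nonneg (fun τ => (th_hasDeriv τ0 τ).differentiableAt) (fun τ => ?_)
  rw [th_deriv]
  exact thp_nonneg _ _
/-- `θ(τ) ≤ τ θ'(τ)` for `τ ≥ 0` -/
theorem th_le {τ0 τ : ℝ} (h0 : 0 < τ0) (h : 0 ≤ τ) : th τ0 τ ≤ τ * thp τ0 τ := by
  have h1 : th τ0 τ ≤ ∫ r in (0:ℝ)..τ, thp τ0 τ := by
    refine intervalIntegral.integral_mono_on h ((thp_cont τ0).intervalIntegrable _ _)
      intervalIntegrable_const (fun r hr => thp_mono h0 hr.2)
  rw [intervalIntegral.integral_const, smul_eq_mul, sub_zero] at h1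
  exact h1
/-- `θ(τ) ≥ τ - τ0` -/
theorem th_ge {τ0 τ : ℝ} (h0 : 0 < τ0) : τ - τ0 ≤ th τ0 τ := by
  rcases le_total τ τ0 with h | h
  · linarith [th_nonneg h0 τ]
  · have h1 : th τ0 τ = th τ0 τ0 + ∫ r in τ0..τ, thp τ0 r := by
      unfold th
      rw [intervalIntegral.integral_add_adjacent_intervals
        ((thp_cont τ0).intervalIntegrable _ _) ((thp_cont τ0).intervalIntegrable _ _)]
    have h2 : ∫ r in τ0..τ, thp τ0 r = ∫ r in τ0..τ, (1:ℝ) := by
      refine intervalIntegral.integral_congr fun r hr => ?_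
      rw [Set.uIcc_of_le h] at hr
      exact thp_one h0 hr.1
    rw [h1, h2, intervalIntegral.integral_const, smul_eq_mul, mul_one]
    linarith [th_nonneg h0 τ0]

end NI
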