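import Crest.Agent.NI_T05

set_option autoImplicit false
open scoped ContDiff
open MeasureTheory

namespace NI

theorem pos_quad {a b c : ℝ} (ha : 0 ≤ a) (hb : 0 ≤ b) (hc : c ^ 2 ≤ 100 * a * b) (A B : ℝ) :
    0 ≤ a * A ^ 2 + 100 * b * B ^ 2 - 2 * c * A * B := by
  rcases ha.eq_or_lt with h | h
  · subst h
    have hc0 : c = 0 := by
      have h2 : c ^ 2 ≤ 0 := by linarith
      exact pow_eq_zero_iff (n := 2) (two_ne_zero) |>.1 (le_antisymm h2 (sq_nonneg c))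
    subst hc0
    have := mul_nonneg hb (sq_nonneg B)
    linarith
  · have h1 : 0 ≤ a * (a * A ^ 2 + 100 * b * B ^ 2 - 2 * c * A * B) := by
      have h3 : a * (a * A ^ 2 + 100 * b * B ^ 2 - 2 * c * A * B)
          = (a * A - c * B) ^ 2 + (100 * a * b - c ^ 2) * B ^ 2 := by ring
      rw [h3]
      exact add_nonneg (sq_nonneg _) (mul_nonneg (sub_nonneg.2 hc) (sq_nonneg B))
    exact nonneg_of_mul_nonneg_right h1 h

/-- final step: from lower bounds of `b` to the inequality -/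
theorem pos_fin {σ x p m Kc bp A B e : ℝ} (he : e = 100 * σ ^ 2)
    (ha : 0 ≤ 19/40 * (p + m) - bp / 2) (hb : 0 ≤ 1/2 * Kc - (p + m) / 40)
    (hc : (x * (p - m)) ^ 2 ≤ 100 * (19/40 * (p + m) - bp / 2) * (1/2 * Kc - (p + m) / 40)) :
    (1/40) * (p + m) * (A^2 + e*B^2) ≤
      (1/2) * (p + m - bp) * A^2 + (e/2) * Kc * B^2 - 2 * σ * x * (p - m) * (A * B) := by
  have h := pos_quad ha hb hc A (σ * B)
  have h2 : (1/2) * (p + m - bp) * A^2 + (e/2) * Kc * B^2 - 2 * σ * x * (p - m) * (A * B)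
      - (1/40) * (p + m) * (A^2 + e*B^2)
      = (19/40 * (p + m) - bp / 2) * A ^ 2
        + 100 * (1/2 * Kc - (p + m) / 40) * (σ * B) ^ 2 - 2 * (x * (p - m)) * A * (σ * B) := by
    rw [he]; ring
  linarith

/-- the version with a lower bound `K0` of `Kc` -/
theorem pos_fin2 {σ x p m Kc K0 bp A B : ℝ} (hK : K0 ≤ Kc)
    (ha : 0 ≤ 19/40 * (p + m) - bp / 2) (hb : 0 ≤ 1/2 * K0 - (p + m) / 40)
    (hc : (x * (p - m)) ^ 2 ≤ 100 * (19/40 * (p + m) - bp / 2) * (1/2 * K0 - (p + m) / 40)) :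
    (1/40) * (p + m) * (A^2 + (100 * σ ^ 2)*B^2) ≤
      (1/2) * (p + m - bp) * A^2 + ((100 * σ ^ 2)/2) * Kc * B^2
        - 2 * σ * x * (p - m) * (A * B) := by
  refine pos_fin rfl ha (by linarith) (hc.trans ?_)
  exact mul_le_mul_of_nonneg_left (by linarith) (by linarith)

theorem pf_bk {x b kx : ℝ} (b0 : 0 ≤ b) (kx1 : -(1/100) ≤ kx - 2*x) : 2 * x * b - b / 100 ≤ b * kx := by
  have := mul_le_mul_of_nonneg_left kx1 b0
  linarith

theorem pf_F3 {Q ψ kQ : ℝ} (hQ0 : 0 ≤ Q) (ψ0 : 0 ≤ ψ) (ψ1 : Q - 0.0183 ≤ ψ) (ψ2 : ψ ≤ Q + 0.0181)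
    (kQ1 : -(1/100) ≤ kQ - 2*Q) : Q ^ 2 - 0.001 ≤ ψ * kQ := by
  rcases le_total 0.005 Q with h | h
  · have h1 : ψ * (2 * Q - 1/100) ≤ ψ * kQ := mul_le_mul_of_nonneg_left (by linarith) ψ0
    have h2 : (Q - 0.0183) * (2 * Q - 1/100) ≤ ψ * (2 * Q - 1/100) :=
      mul_le_mul_of_nonneg_right ψ1 (by linarith)
    clear ψ1 ψ2 kQ1 ψ0
    nlinarith [sq_nonneg (Q - 0.0233)]
  · have h1 : ψ * (-1/100) ≤ ψ * kQ := mul_le_mul_of_nonneg_left (by linarith) ψ0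
    have h2 : Q ^ 2 ≤ 0.005 ^ 2 := pow_le_pow_left₀ hQ0 h 2
    norm_num at h2
    linarith

theorem pf_F4 {p ψ kQ Q : ℝ} (hQ0 : 0 ≤ Q) (ψ0 : 0 ≤ ψ) (ψ3 : ψ ≤ 0.0364 * p)
    (kQ1 : -(1/100) ≤ kQ - 2*Q) : -(0.00037 : ℝ) * p ≤ ψ * kQ := by
  have h1 : ψ * (-1/100) ≤ ψ * kQ := mul_le_mul_of_nonneg_left (by linarith) ψ0
  linarith

theorem pf_sq {x c : ℝ} (hx0 : 0 ≤ x) (hc : 0 ≤ c) (h : x ^ 2 ≤ c ^ 2) : x ≤ c := by
  exact (pow_le_pow_iff_left₀ hx0 hc two_ne_zero).1 h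

theorem pf_bk2 {x b kx : ℝ} (hx0 : 0 ≤ x) (hx4 : x ≤ 1/4) (b0 : 0 ≤ b) (b1 : b ≤ x / 2)
    (bk : 2 * x * b - b / 100 ≤ b * kx) : -(0.0013 : ℝ) ≤ b * kx := by
  have := mul_nonneg hx0 b0
  linarith

theorem pf_bk3 {x b kx : ℝ} (hx0 : 0 ≤ x) (b1 : b ≤ x / 2) (hb2 : (x - 1/4) / 2 ≤ b)
    (bk : 2 * x * b - b / 100 ≤ b * kx) : x * (x - 1/4) - 0.005 * x ≤ b * kx := by
  have := mul_le_mul_of_nonneg_left hb2 hx0
  linarith

/-- (I, small x) -/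
theorem pf_I1 {x Q k ψk : ℝ} (k2 : k - (x^2 + Q^2 - 1) ≤ 1/100) (hx32 : x ^ 2 ≤ 1/32)
    (F3 : Q ^ 2 - 0.001 ≤ ψk) : 0.957 ≤ ψk - k * 1 := by
  linarith

theorem pf_I2 {x Q k ψk b' bkx : ℝ} (k2 : k - (x^2 + Q^2 - 1) ≤ 1/100)
    (hx16 : x ^ 2 ≤ 1/16) (b'0 : 0 ≤ b') (b'1 : b' ≤ 1/2)
    (F3 : Q ^ 2 - 0.001 ≤ ψk) (h2 : -(0.0013 : ℝ) ≤ bkx) :
    0.457 ≤ ψk - k * 1 + bkx + k * b' := by
  have h3 : (0.99 - x ^ 2 - Q ^ 2) * (1 - b') ≤ -k * (1 - b') :=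
    mul_le_mul_of_nonneg_right (by linarith) (by linarith)
  have h4 : Q ^ 2 * (1 - b') ≤ Q ^ 2 * 1 := mul_le_mul_of_nonneg_left (by linarith) (sq_nonneg Q)
  have h1 : (0.9275 : ℝ) * (1/2) ≤ (0.99 - x ^ 2) * (1 - b') :=
    mul_le_mul (by linarith) (by linarith) (by norm_num) (by linarith)
  linarith

theorem pf_I3 {x Q k ψk bkx : ℝ} (k2 : k - (x^2 + Q^2 - 1) ≤ 1/100)
    (F3 : Q ^ 2 - 0.001 ≤ ψk) (h2 : x * (x - 1/4) - 0.005 * x ≤ bkx) :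
    x ^ 2 / 2 - 0.255 * x + 0.494 ≤ ψk - k * 1 + bkx + k * (1/2) := by
  have := sq_nonneg Q
  linarith

theorem pf_II1 {x Q k ψk s p : ℝ} (k2 : k - (x^2 + Q^2 - 1) ≤ 1/100) (hx32 : x ^ 2 ≤ 1/32)
    (hQ2 : Q ^ 2 ≤ 0.00034) (hs0 : 0 ≤ s) (hps : p ≤ s)
    (F4 : -(0.00037 : ℝ) * p ≤ ψk) : 0.957 * s ≤ ψk - k * s := by
  have h3 : (0.99 - 1/32 - 0.00034) * s ≤ -k * s :=
    mul_le_mul_of_nonneg_right (by linarith) hs0
  linarith

theorem pf_II2 {x Q k ψk m b' bkx : ℝ} (k2 : k - (x^2 + Q^2 - 1) ≤ 1/100) (hx16 : x ^ 2 ≤ 1/16)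
    (hQ2 : Q ^ 2 ≤ 0.00034) (m0 : 0 ≤ m) (m1 : m ≤ 1) (b'0 : 0 ≤ b') (b'1 : b' ≤ 1/2)
    (F4 : -(0.00037 : ℝ) * 1 ≤ ψk) (h2 : -(0.0013 : ℝ) ≤ bkx) :
    0.46 * (1 + m) ≤ ψk - k * (1 + m) + bkx + k * b' := by
  have h3 : (0.99 - x ^ 2 - 0.00034) * (1 + m - b') ≤ -k * (1 + m - b') :=
    mul_le_mul_of_nonneg_right (by linarith) (by linarith)
  have h1 : (0.9275 : ℝ) * (1 / 2 * (1 + m)) ≤ (0.99 - x ^ 2) * (1 + m - b') :=
    mul_le_mul (by linarith) (by linarith) (by linarith) (by linarith)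
  linarith

theorem pf_II3 {x Q k ψk m bkx : ℝ} (k2 : k - (x^2 + Q^2 - 1) ≤ 1/100)
    (hQ2 : Q ^ 2 ≤ 0.00034) (m0 : 0 ≤ m) (m1 : m ≤ 1)
    (F4 : -(0.00037 : ℝ) * 1 ≤ ψk) (h2 : x * (x - 1/4) - 0.005 * x ≤ bkx) :
    (0.99 - x ^ 2) * (1/2 + m) + x ^ 2 - 0.255 * x - 0.0011 ≤
      ψk - k * (1 + m) + bkx + k * (1/2) := by
  have h3 : (0.99 - x ^ 2 - 0.00034) * (1/2 + m) ≤ -k * (1/2 + m) :=
    mul_le_mul_of_nonneg_right (by linarith) (by linarith)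
  linarith

/-- positivity of the last form -/
theorem pf_II3b {x m : ℝ} (hx : x ≤ 1.35) (hx2 : x ^ 2 ≤ 1.8225) (m0 : 0 ≤ m)
    (m1 : m ≤ 1) :
    0.2 * (1 - m) + 0.064 * m ≤
      1/2 * ((0.99 - x ^ 2) * (1/2 + m) + x ^ 2 - 0.255 * x - 0.0011) - (1 + m) / 40 := by
  have e0 : (0.2 : ℝ) ≤ 0.25 * x ^ 2 - 0.1275 * x + 0.22195 := by
    have := sq_nonneg (x - 0.255); linarith
  have e1 : (0.064 : ℝ) ≤ 0.69195 - 0.25 * x ^ 2 - 0.1275 * x := by linarith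
  have h0 := mul_le_mul_of_nonneg_left e0 (sub_nonneg.2 m1)
  have h1 := mul_le_mul_of_nonneg_left e1 m0
  linarith

theorem pf_II3c {x m w : ℝ} (hx2 : x ^ 2 ≤ 1.8225) (m0 : 0 ≤ m) (m1 : m ≤ 1)
    (hw : 0.2 * (1 - m) + 0.064 * m ≤ w) :
    (x * (1 - m)) ^ 2 ≤ 100 * (19/40 * (1 + m) - (1/2) / 2) * w := by
  have h1 : (x * (1 - m)) ^ 2 ≤ 1.8225 := by
    have h : (1 - m) ^ 2 ≤ 1 := by
      have := mul_nonneg m0 (sub_nonneg.2 m1)
      linarith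
    rw [mul_pow]
    have := mul_le_mul hx2 h (sq_nonneg _) (by norm_num)
    linarith
  have h2 : 100 * (19/40 * (1 + m) - (1/2) / 2) * (0.2 * (1 - m) + 0.064 * m) ≤
      100 * (19/40 * (1 + m) - (1/2) / 2) * w :=
    mul_le_mul_of_nonneg_left hw (by linarith)
  have h3 := mul_nonneg m0 (sub_nonneg.2 m1)
  linarith


/-- the inequality in the quadrant `x, Q ≥ 0` -/
theorem pos_form_quadrant (σ : ℝ) (hσ : 0 < σ) (hσ1 : σ ≤ 1/100) (x Q k kx kQ A B : ℝ)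
    (hx0 : 0 ≤ x) (hQ0 : 0 ≤ Q)
    (hx : x ≤ 1.35) (hk : |k - (x^2 + Q^2 - 1)| ≤ 1/100)
    (hkx : |kx - 2*x| ≤ 1/100) (hkQ : |kQ - 2*Q| ≤ 1/100) :
    (1/40) * psiQ σ x Q * (A^2 + (100 * σ ^ 2)*B^2) ≤
      (1/2) * (psiQ σ x Q - betp x) * A^2
      + ((100 * σ ^ 2)/2) *
        (psi σ x Q * kQ - k * psiQ σ x Q + bet x * kx + k * betp x) * B^2
      - psix σ x Q * (A * B) := by
  have hτ : 0 < σ / 64 := by positivity
  -- abbreviations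
  obtain ⟨ρ, hρ⟩ : ∃ ρ, ρ = rho σ x := ⟨_, rfl⟩
  obtain ⟨p, hp⟩ : ∃ p, p = thp (σ/64) (Q - ρ) := ⟨_, rfl⟩
  obtain ⟨m, hm⟩ : ∃ m, m = thp (σ/64) (-Q - ρ) := ⟨_, rfl⟩
  obtain ⟨t1, ht1⟩ : ∃ t, t = th (σ/64) (Q - ρ) := ⟨_, rfl⟩
  obtain ⟨t2, ht2⟩ : ∃ t, t = th (σ/64) (-Q - ρ) := ⟨_, rfl⟩
  have e1 : psiQ σ x Q = p + m := by rw [psiQ, hp, hm, hρ]
  have e2 : psi σ x Q = t1 - t2 := by rw [psi, ht1, ht2, hρ]
  have e3 : psix σ x Q = 2 * σ * x * (p - m) := by rw [psix, hp, hm, hρ]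
  have p0 : 0 ≤ p := hp ▸ thp_nonneg _ _
  have p1 : p ≤ 1 := hp ▸ thp_le_one _ _
  have m0 : 0 ≤ m := hm ▸ thp_nonneg _ _
  have m1 : m ≤ 1 := hm ▸ thp_le_one _ _
  have hmp : m ≤ p := by rw [hm, hp]; exact thp_mono hτ (by linarith)
  have t12 : t2 ≤ t1 := by rw [ht1, ht2]; exact th_mono hτ (by linarith)
  have t20 : 0 ≤ t2 := by rw [ht2]; exact th_nonneg hτ _
  have hρe : ρ = σ * (1/64 - x ^ 2) := hρ
  have hx2 : x ^ 2 ≤ 1.8225 := by
    have := mul_le_mul hx hx hx0 (by norm_num)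
    linarith
  have hρa : |ρ| ≤ 0.0181 := by
    rw [hρe, abs_mul, abs_of_pos hσ]
    have h1 : |1/64 - x ^ 2| ≤ 1.81 := by
      rw [abs_le]; constructor <;> linarith [sq_nonneg x]
    have := mul_le_mul hσ1 h1 (abs_nonneg _) (by norm_num)
    linarith
  have hrho0 := abs_nonneg ρ
  have t1p : t1 ≤ (Q + |ρ|) * p := by
    rcases le_total 0 (Q - ρ) with h | h
    · have h1 := th_le hτ h
      rw [← ht1, ← hp] at h1
      refine h1.trans (mul_le_mul_of_nonneg_right ?_ p0)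
      linarith [neg_abs_le ρ]
    · have : t1 = 0 := by rw [ht1]; exact th_zero hτ h
      rw [this]
      exact mul_nonneg (by linarith) p0
  obtain ⟨ψ, hψ⟩ : ∃ ψ, ψ = t1 - t2 := ⟨_, rfl⟩
  have ψ0 : 0 ≤ ψ := by rw [hψ]; linarith
  have ψp : ψ ≤ (Q + |ρ|) * p := by rw [hψ]; linarith
  obtain ⟨b', hb'⟩ : ∃ b', b' = betp x := ⟨_, rfl⟩
  obtain ⟨b, hb⟩ : ∃ b, b = bet x := ⟨_, rfl⟩
  have b'0 : 0 ≤ b' := hb' ▸ betp_nonneg x
  have b'1 : b' ≤ 1/2 := hb' ▸ betp_le x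
  have b1 : b ≤ x / 2 := by
    have := bet_abs_le x
    rw [← hb, abs_of_nonneg hx0] at this
    exact (abs_le.1 this).2
  have b0 : 0 ≤ b := by
    rcases hx0.eq_or_lt with h | h
    · rw [hb, ← h, bet_zero (by norm_num)]
    · have := x_bet_nonneg x
      rw [← hb] at this
      exact nonneg_of_mul_nonneg_right this h
  rw [e1, e2, e3, ← hψ, ← hb', ← hb]
  have k2 := (abs_le.1 hk).2
  have kx1 := (abs_le.1 hkx).1
  have kQ1 := (abs_le.1 hkQ).1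
  have bk : 2 * x * b - b / 100 ≤ b * kx := pf_bk b0 kx1
  rcases le_or_gt (|ρ| + σ / 64) Q with hI | hII
  · -- Case I
    have hp1 : p = 1 := by
      rw [hp]; exact thp_one hτ (by linarith [le_abs_self ρ])
    have hm0 : m = 0 := by
      rw [hm]; exact thp_zero hτ (by linarith [neg_abs_le ρ])
    have ht1' : Q - |ρ| - σ/64 ≤ t1 := by
      rw [ht1]
      have := th_ge (τ := Q - ρ) hτ
      linarith [le_abs_self ρ]
    have ht2' : t2 = 0 := by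
      rw [ht2]; exact th_zero hτ (by linarith [neg_abs_le ρ])
    have ψ1 : Q - 0.0183 ≤ ψ := by
      rw [hψ, ht2']; linarith
    have ψ2 : ψ ≤ Q + 0.0181 := by
      rw [hp1] at ψp; linarith
    have F3 : Q ^ 2 - 0.001 ≤ ψ * kQ := pf_F3 hQ0 ψ0 ψ1 ψ2 kQ1
    rw [hp1, hm0]
    have hs : x * (1 - 0) = x := by ring
    rcases le_total (x ^ 2) (1/32) with hx32 | hx32
    · have hb'0 : b' = 0 := hb' ▸ betp_zero hx32
      have hb00 : b = 0 := hb ▸ bet_zero hx32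
      rw [hb'0, hb00]
      have h := pf_I1 k2 hx32 F3
      refine pos_fin2 (K0 := 0.957) (by linarith) (by norm_num) (by norm_num) ?_
      rw [hs]; norm_num; linarith
    · rcases le_total (x ^ 2) (1/16) with hx16 | hx16
      · have hx4 : x ≤ 1/4 := pf_sq hx0 (by norm_num) (by norm_num; linarith)
        have h := pf_I2 k2 hx16 b'0 b'1 F3 (pf_bk2 hx0 hx4 b0 b1 bk)
        refine pos_fin2 (K0 := 0.457) (by linarith) (by linarith) (by norm_num) ?_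
        rw [hs]; norm_num; linarith
      · have hb'h : b' = 1/2 := hb' ▸ betp_half hx16
        have hx4 : 1/4 ≤ x := pf_sq (by norm_num) hx0 (by norm_num; linarith)
        have hb2 : (x - 1/4) / 2 ≤ b := hb ▸ bet_ge hx4
        rw [hb'h]
        have h := pf_I3 k2 F3 (pf_bk3 hx0 b1 hb2 bk)
        have h5 := sq_nonneg (x - 0.255)
        refine pos_fin2 (K0 := x ^ 2 / 2 - 0.255 * x + 0.494) (by linarith) (by norm_num)
          (by linarith) ?_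
        have h6 := sq_nonneg (x - 0.3)
        rw [hs]; linarith
  · -- Case II
    have hQs : Q ≤ 0.0183 := by linarith
    have hQ2 : Q ^ 2 ≤ 0.00034 := by
      have := mul_le_mul hQs hQs hQ0 (by norm_num)
      linarith
    have ψ3 : ψ ≤ 0.0364 * p := ψp.trans (mul_le_mul_of_nonneg_right (by linarith) p0)
    have F4 : -(0.00037 : ℝ) * p ≤ ψ * kQ := pf_F4 hQ0 ψ0 ψ3 kQ1
    rcases le_total (x ^ 2) (1/32) with hx32 | hx32
    · have hb'0 : b' = 0 := hb' ▸ betp_zero hx32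
      have hb00 : b = 0 := hb ▸ bet_zero hx32
      rw [hb'0, hb00]
      have h := pf_II1 k2 hx32 hQ2 (by linarith : 0 ≤ p + m) (by linarith : p ≤ p + m) F4
      have hpm : (p - m) ^ 2 ≤ (p + m) ^ 2 := by
        have := mul_nonneg p0 m0
        linarith
      have h5 : (x * (p - m)) ^ 2 ≤ 1/32 * (p + m) ^ 2 := by
        rw [mul_pow]
        exact mul_le_mul hx32 hpm (sq_nonneg _) (by norm_num)
      refine pos_fin2 (K0 := 0.957 * (p + m)) (by linarith) (by linarith) (by linarith) ?_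
      have := sq_nonneg (p + m)
      linarith
    · have hp1 : p = 1 := by
        rw [hp]; apply thp_one hτ
        rw [hρe]
        have := mul_le_mul_of_nonneg_left hx32 hσ.le
        linarith
      rw [hp1] at F4 ⊢
      rcases le_total (x ^ 2) (1/16) with hx16 | hx16
      · have hx4 : x ≤ 1/4 := pf_sq hx0 (by norm_num) (by norm_num; linarith)
        have h := pf_II2 k2 hx16 hQ2 m0 m1 b'0 b'1 F4 (pf_bk2 hx0 hx4 b0 b1 bk)
        refine pos_fin2 (K0 := 0.46 * (1 + m)) (by linarith) (by linarith) (by linarith) ?_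
        have h6 : (0.225 : ℝ) ≤ 19/40 * (1 + m) - b' / 2 := by linarith
        have h7 : (0.2 : ℝ) ≤ 1/2 * (0.46 * (1 + m)) - (1 + m) / 40 := by linarith
        have h8 := mul_le_mul h6 h7 (by norm_num) (by linarith)
        have h9 : (x * (1 - m)) ^ 2 ≤ x ^ 2 * 1 := by
          rw [mul_pow]
          apply mul_le_mul_of_nonneg_left _ (sq_nonneg x)
          have := mul_nonneg m0 (sub_nonneg.2 m1)
          linarith
        linarith
      · have hb'h : b' = 1/2 := hb' ▸ betp_half hx16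
        have hx4 : 1/4 ≤ x := pf_sq (by norm_num) hx0 (by norm_num; linarith)
        have hb2 : (x - 1/4) / 2 ≤ b := hb ▸ bet_ge hx4
        rw [hb'h]
        have h := pf_II3 k2 hQ2 m0 m1 F4 (pf_bk3 hx0 b1 hb2 bk)
        have h2 := pf_II3b hx hx2 m0 m1
        exact pos_fin2 h (by linarith) (by linarith) (pf_II3c hx2 m0 m1 h2)

/-- POSITIVITY of the multiplier form (numerically the best constant is `0.069 > 1/40`).
Cases: (I) `|Q| ≥ |rho| + σ/64`: then `psiQ = 1`; (II) `|Q|` smaller (so `Q² = O(e)`), where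
`betp x ≤ psiQ/2`, `|psix| ≤ 2 σ |x| psiQ`. -/
theorem pos_form (e : ℝ) (he : 0 < e) (he1 : e ≤ 1/100) (x Q k kx kQ A B : ℝ)
    (hx : |x| ≤ 1.35) (hQ : |Q| ≤ 1.35) (hk : |k - (x^2 + Q^2 - 1)| ≤ 1/100)
    (hkx : |kx - 2*x| ≤ 1/100) (hkQ : |kQ - 2*Q| ≤ 1/100) :
    (1/40) * psiQ (√e/10) x Q * (A^2 + e*B^2) ≤
      (1/2) * (psiQ (√e/10) x Q - betp x) * A^2
      + (e/2) * (psi (√e/10) x Q * kQ - k * psiQ (√e/10) x Q + bet x * kx + k * betp x) * B^2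
      - psix (√e/10) x Q * (A * B) := by
  obtain ⟨σ, hσe⟩ : ∃ σ, σ = √e/10 := ⟨_, rfl⟩
  have hσ : 0 < σ := by rw [hσe]; have := Real.sqrt_pos.2 he; positivity
  have hσ1 : σ ≤ 1/100 := by
    rw [hσe]
    have : √e ≤ 1/10 := by
      rw [Real.sqrt_le_left (by norm_num)]; norm_num; linarith
    linarith
  have hee : e = 100 * σ ^ 2 := by
    rw [hσe, div_pow, Real.sq_sqrt he.le]; ring
  rw [← hσe]
  clear hσe he he1
  rw [hee]
  clear hee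
  -- symmetries
  have rho_neg : ∀ x, rho σ (-x) = rho σ x := fun x => by unfold rho; ring
  have betp_neg : ∀ x, betp (-x) = betp x := fun x => by unfold betp; rw [neg_sq]
  have s1 : ∀ x Q, psiQ σ (-x) Q = psiQ σ x Q := fun x Q => by unfold psiQ; rw [rho_neg]
  have s2 : ∀ x Q, psi σ (-x) Q = psi σ x Q := fun x Q => by unfold psi; rw [rho_neg]
  have s3 : ∀ x Q, psix σ (-x) Q = -psix σ x Q := fun x Q => by
    unfold psix; rw [rho_neg]; ring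
  have s4 : ∀ x Q, psiQ σ x (-Q) = psiQ σ x Q := fun x Q => by
    unfold psiQ; rw [neg_neg, add_comm]
  have s5 : ∀ x Q, psi σ x (-Q) = -psi σ x Q := fun x Q => by
    unfold psi; rw [neg_neg]; ring
  have s6 : ∀ x Q, psix σ x (-Q) = -psix σ x Q := fun x Q => by
    unfold psix; rw [neg_neg]; ring
  -- Q ≥ 0
  have stepQ : ∀ (x Q k kx kQ A B : ℝ), 0 ≤ Q → |x| ≤ 1.35 → |k - (x^2 + Q^2 - 1)| ≤ 1/100 →
      |kx - 2*x| ≤ 1/100 → |kQ - 2*Q| ≤ 1/100 →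
      (1/40) * psiQ σ x Q * (A^2 + (100 * σ ^ 2)*B^2) ≤
      (1/2) * (psiQ σ x Q - betp x) * A^2
      + ((100 * σ ^ 2)/2) *
        (psi σ x Q * kQ - k * psiQ σ x Q + bet x * kx + k * betp x) * B^2
      - psix σ x Q * (A * B) := by
    intro x Q k kx kQ A B hQ0 hx hk hkx hkQ
    rcases le_total 0 x with h | h
    · rw [abs_of_nonneg h] at hx
      exact pos_form_quadrant σ hσ hσ1 x Q k kx kQ A B h hQ0 hx hk hkx hkQ
    · rw [abs_of_nonpos h] at hx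
      have hkx' : |-kx - 2 * (-x)| ≤ 1/100 := by
        rw [show -kx - 2 * (-x) = -(kx - 2 * x) by ring, abs_neg]; exact hkx
      have := pos_form_quadrant σ hσ hσ1 (-x) Q k (-kx) kQ A (-B) (by linarith) hQ0 hx
        (by rw [neg_sq]; exact hk) hkx' hkQ
      rw [s1, s2, s3, betp_neg, bet_odd] at this
      have e1 : (-B) ^ 2 = B ^ 2 := neg_sq B
      rw [e1] at this
      have e2 : -bet x * -kx = bet x * kx := by ring
      have e3 : -psix σ x Q * (A * -B) = psix σ x Q * (A * B) := by ring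
      rw [e2, e3] at this
      exact this
  rcases le_total 0 Q with h | h
  · exact stepQ x Q k kx kQ A B h hx hk hkx hkQ
  · have hkQ' : |-kQ - 2 * (-Q)| ≤ 1/100 := by
      rw [show -kQ - 2 * (-Q) = -(kQ - 2 * Q) by ring, abs_neg]; exact hkQ
    have := stepQ x (-Q) k kx (-kQ) A (-B) (by linarith) hx (by rw [neg_sq]; exact hk) hkx hkQ'
    rw [s4, s5, s6] at this
    have e1 : (-B) ^ 2 = B ^ 2 := neg_sq B
    have e2 : -psi σ x Q * -kQ = psi σ x Q * kQ := by ring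
    have e3 : -psix σ x Q * (A * -B) = psix σ x Q * (A * B) := by ring
    rw [e1, e2, e3] at this
    exact this

end NI
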