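import Crest.Agent.NI_T05

set_option autoImplicit false
open scoped ContDiff
open MeasureTheory

namespace NI

/-- on the lens the multiplier vanishes -/
theorem psi_lens {σ x Q : ℝ} (hσ : 0 < σ) (hQ : |Q| ≤ rho σ x) : psi σ x Q = 0 := by
  have h := abs_le.mp hQ
  unfold psi
  rw [th_zero (by positivity) (by linarith [h.2]), th_zero (by positivity) (by linarith [h.1]),
    sub_zero]
theorem psiQ_nonneg (σ x Q : ℝ) : 0 ≤ psiQ σ x Q := by
  unfold psiQ
  exact add_nonneg (thp_nonneg _ _) (thp_nonneg _ _)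
theorem psiQ_le (σ x Q : ℝ) : psiQ σ x Q ≤ 2 := by
  unfold psiQ
  linarith [thp_le_one (σ/64) (Q - rho σ x), thp_le_one (σ/64) (-Q - rho σ x)]
/-- outside the bigger lens `psiQ ≥ 1` -/
theorem psiQ_ge_one {σ x Q : ℝ} (hσ : 0 < σ) (h : 1/32 ≤ x^2 ∨ σ/32 ≤ |Q|) : 1 ≤ psiQ σ x Q := by
  have key : σ/64 ≤ |Q| - rho σ x := by
    unfold rho
    rcases h with h | h
    · have h1 : σ * (1/32) ≤ σ * x^2 := mul_le_mul_of_nonneg_left h hσ.le
      have h2 := abs_nonneg Q
      linarith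
    · have h1 : 0 ≤ σ * x^2 := by positivity
      linarith
  have h64 : 0 < σ/64 := by positivity
  unfold psiQ
  rcases le_total 0 Q with hQ | hQ
  · rw [abs_of_nonneg hQ] at key
    have h1 := thp_one h64 key
    have h2 := thp_nonneg (σ/64) (-Q - rho σ x)
    linarith
  · rw [abs_of_nonpos hQ] at key
    have h1 := thp_one h64 key
    have h2 := thp_nonneg (σ/64) (Q - rho σ x)
    linarith

theorem th_le_of_le {τ0 τ c : ℝ} (h0 : 0 < τ0) (hc : 0 ≤ c) (h : τ ≤ c) : th τ0 τ ≤ c := by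
  rcases le_total τ 0 with h1 | h1
  · rw [th_zero h0 h1]; exact hc
  · have h2 := th_le h0 h1
    have h3 := mul_le_mul_of_nonneg_left (thp_le_one τ0 τ) h1
    linarith

/-- `|ψ| ≤ 2(|Q| + |rho|)` -/
theorem psi_abs_le {σ x Q : ℝ} (hσ : 0 < σ) : |psi σ x Q| ≤ |Q| + |rho σ x| := by
  have h64 : 0 < σ/64 := by positivity
  have hc : 0 ≤ |Q| + |rho σ x| := by positivity
  have hr := neg_abs_le (rho σ x)
  have h1 : th (σ/64) (Q - rho σ x) ≤ |Q| + |rho σ x| :=
    th_le_of_le h64 hc (by linarith [le_abs_self Q])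
  have h2 : th (σ/64) (-Q - rho σ x) ≤ |Q| + |rho σ x| :=
    th_le_of_le h64 hc (by linarith [neg_le_abs Q])
  have h3 := th_nonneg h64 (Q - rho σ x)
  have h4 := th_nonneg h64 (-Q - rho σ x)
  unfold psi
  rw [abs_le]
  constructor <;> linarith

end NI
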