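import Crest.Agent.NI_Mult
import Crest.Agent.NI_T05

set_option autoImplicit false
open scoped ContDiff
open MeasureTheory

namespace NI
namespace VY

private theorem rhoS_ap (d : VY) (σ : ℝ) (p : ℝ × ℝ) : d.rhoS σ p = rho σ (d.x p) := by
  simp only [rhoS, rho, smul_ap, sub_ap, one_ap, pow_ap, mul_one]

theorem Psi_ap (d : VY) (σ : ℝ) (p : ℝ × ℝ) : d.Psi σ p = psi σ (d.x p) (d.Q p) := by
  simp only [Psi, psi, sub_ap, cmp_ap, neg_ap, rhoS_ap]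
theorem PsiQ_ap (d : VY) (σ : ℝ) (p : ℝ × ℝ) : d.PsiQ σ p = psiQ σ (d.x p) (d.Q p) := by
  simp only [PsiQ, psiQ, add_ap, sub_ap, cmp_ap, neg_ap, rhoS_ap]
theorem Bet_ap (d : VY) (p : ℝ × ℝ) : d.Bet p = bet (d.x p) := by
  simp only [Bet, cmp_ap]
theorem Cut_ap (d : VY) (a b a' b' : ℝ) (p : ℝ × ℝ) :
    d.Cut a b a' b' p = ct a b (d.x p) * ct a' b' (d.Q p) := by
  simp only [Cut, mul_ap, cmp_ap]

private theorem V_x (d : VY) : d.V d.x = 1 := d.Vx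
private theorem V_Q (d : VY) : d.V d.Q = 0 := d.VQ
private theorem Y_x (d : VY) : d.Y d.x = 0 := d.Yx
private theorem Y_Q (d : VY) : d.Y d.Q = 1 := d.YQ

private theorem V_cmp (d : VY) (g : ℝ → ℝ) (hg : ContDiff ℝ ∞ g) (f : Sm) :
    d.V (cmp g hg f) = cmp (deriv g) (contDiff_deriv hg) f * d.V f := vf_cmp _ _ g hg f
private theorem Y_cmp (d : VY) (g : ℝ → ℝ) (hg : ContDiff ℝ ∞ g) (f : Sm) :
    d.Y (cmp g hg f) = cmp (deriv g) (contDiff_deriv hg) f * d.Y f := vf_cmp _ _ g hg f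

private theorem V_rhoS (d : VY) (σ : ℝ) : d.V (d.rhoS σ) = -(2 * σ) • d.x := by
  have h : d.V ((1/64 : ℝ) • (1 : Sm)) = 0 := by
    rw [Derivation.map_smul, Derivation.map_one_eq_zero, smul_zero]
  rw [rhoS, Derivation.map_smul, map_sub, h, pow_two, Derivation.leibniz, V_x]
  apply sm_ext; intro p
  simp only [smul_ap, sub_ap, zero_ap, add_ap, smul_eq_mul, mul_ap, one_ap]
  ring

private theorem Y_rhoS (d : VY) (σ : ℝ) : d.Y (d.rhoS σ) = 0 := by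
  have h : d.Y ((1/64 : ℝ) • (1 : Sm)) = 0 := by
    rw [Derivation.map_smul, Derivation.map_one_eq_zero, smul_zero]
  rw [rhoS, Derivation.map_smul, map_sub, h, pow_two, Derivation.leibniz, Y_x]
  apply sm_ext; intro p
  simp only [smul_ap, sub_ap, zero_ap, add_ap, smul_eq_mul, mul_ap]
  ring

theorem Y_Psi (d : VY) (σ : ℝ) : d.Y (d.Psi σ) = d.PsiQ σ := by
  rw [Psi, map_sub, Y_cmp, Y_cmp, map_sub, map_sub, map_neg, Y_Q, Y_rhoS]
  apply sm_ext; intro p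
  simp only [PsiQ, sub_ap, add_ap, mul_ap, cmp_ap, th_deriv, neg_ap, one_ap, zero_ap]
  ring
theorem V_Psi (d : VY) (σ : ℝ) (p : ℝ × ℝ) : d.V (d.Psi σ) p = psix σ (d.x p) (d.Q p) := by
  rw [Psi, map_sub, V_cmp, V_cmp, map_sub, map_sub, map_neg, V_Q, V_rhoS]
  simp only [psix, sub_ap, mul_ap, cmp_ap, th_deriv, neg_ap, zero_ap, smul_ap, rhoS_ap]
  ring
theorem V_Bet (d : VY) (p : ℝ × ℝ) : d.V d.Bet p = betp (d.x p) := by
  rw [Bet, V_cmp, V_x]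
  simp only [mul_ap, cmp_ap, one_ap, bet_deriv, mul_one]
theorem Y_Bet (d : VY) : d.Y d.Bet = 0 := by
  rw [Bet, Y_cmp, Y_x, mul_zero]
/-- `x ψ_{Qx} ≥ 0` -/
theorem x_V_PsiQ (d : VY) (σ : ℝ) (hσ : 0 < σ) (p : ℝ × ℝ) : 0 ≤ d.x p * d.V (d.PsiQ σ) p := by
  rw [PsiQ, map_add, V_cmp, V_cmp, map_sub, map_sub, map_neg, V_Q, V_rhoS]
  have h1 := thpp_nonneg (τ0 := σ/64) (by positivity) ((d.Q - d.rhoS σ) p)
  have h2 := thpp_nonneg (τ0 := σ/64) (by positivity) ((-d.Q - d.rhoS σ) p)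
  have e : d.x p * (cmp (deriv (thp (σ/64))) (contDiff_deriv (thp_contDiff _)) (d.Q - d.rhoS σ)
      * (0 - -(2 * σ) • d.x) + cmp (deriv (thp (σ/64))) (contDiff_deriv (thp_contDiff _))
      (-d.Q - d.rhoS σ) * (-0 - -(2 * σ) • d.x) : Sm) p
      = (2 * σ * (d.x p)^2) * (deriv (thp (σ/64)) ((d.Q - d.rhoS σ) p)
        + deriv (thp (σ/64)) ((-d.Q - d.rhoS σ) p)) := by
    simp only [add_ap, mul_ap, cmp_ap, sub_ap, neg_ap, zero_ap, smul_ap]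
    ring
  rw [e]
  positivity

/-- `V` and `Y` on functions of `x` and of `Q` -/
theorem V_cmp_x (d : VY) (g : ℝ → ℝ) (hg : ContDiff ℝ ∞ g) (p : ℝ × ℝ) :
    d.V (cmp g hg d.x) p = deriv g (d.x p) := by
  rw [V_cmp, V_x]; simp only [mul_ap, cmp_ap, one_ap, mul_one]
theorem Y_cmp_x (d : VY) (g : ℝ → ℝ) (hg : ContDiff ℝ ∞ g) (p : ℝ × ℝ) :
    d.Y (cmp g hg d.x) p = 0 := by
  rw [Y_cmp, Y_x]; simp only [mul_ap, zero_ap, mul_zero]
theorem V_cmp_Q (d : VY) (g : ℝ → ℝ) (hg : ContDiff ℝ ∞ g) (p : ℝ × ℝ) :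
    d.V (cmp g hg d.Q) p = 0 := by
  rw [V_cmp, V_Q]; simp only [mul_ap, zero_ap, mul_zero]
theorem Y_cmp_Q (d : VY) (g : ℝ → ℝ) (hg : ContDiff ℝ ∞ g) (p : ℝ × ℝ) :
    d.Y (cmp g hg d.Q) p = deriv g (d.Q p) := by
  rw [Y_cmp, Y_Q]; simp only [mul_ap, cmp_ap, one_ap, mul_one]

/-- commutator with a cutoff -/
theorem L_mul (d : VY) (e : ℝ) (k g w : Sm) :
    d.L e k (g * w) = g * d.L e k w + 2 * (d.V g * d.V w) + (2 * e) • (k * (d.Y g * d.Y w))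
      + w * (d.V (d.V g) + e • (d.Y k * d.Y g) + e • (k * d.Y (d.Y g))) := by
  have two_eq : (2 : Sm) = 1 + 1 := by norm_num
  have lV : ∀ a b : Sm, d.V (a * b) = a * d.V b + b * d.V a := fun a b => by
    rw [Derivation.leibniz, smul_eq_mul, smul_eq_mul]
  have lY : ∀ a b : Sm, d.Y (a * b) = a * d.Y b + b * d.Y a := fun a b => by
    rw [Derivation.leibniz, smul_eq_mul, smul_eq_mul]
  have e1 : d.V (d.V (g * w)) = g * d.V (d.V w) + d.V w * d.V g + (w * d.V (d.V g) + d.V g * d.V w) := by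
    rw [lV, map_add, lV, lV]
  have e2 : d.Y (e • (k * d.Y (g * w))) = e • (k * (g * d.Y (d.Y w) + d.Y w * d.Y g
      + (w * d.Y (d.Y g) + d.Y g * d.Y w)) + (g * d.Y w + w * d.Y g) * d.Y k) := by
    rw [Derivation.map_smul, lY k, lY g w, map_add, lY g, lY w]
  have e3 : d.Y (e • (k * d.Y w)) = e • (k * d.Y (d.Y w) + d.Y w * d.Y k) := by
    rw [Derivation.map_smul, lY k]
  rw [L, L, e1, e2, e3, two_eq]
  apply sm_ext; intro p
  simp only [add_ap, mul_ap, smul_ap, one_ap]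
  ring

end VY
end NI
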