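import Crest.Agent.NI_Mult
import Crest.Agent.NI_T00
import Crest.Agent.NI_T04
import Crest.Agent.NI_T06
import Crest.Agent.NI_T06b
import Crest.Agent.NI_T07

set_option autoImplicit false
open scoped ContDiff
open MeasureTheory

namespace NI

private theorem t08_V_zero (d : VY) (w : Sm) (p : ℝ × ℝ) (hp : p ∉ tsupport (w : ℝ × ℝ → ℝ)) :
    d.V w p = 0 := by
  have h : p ∉ tsupport (vf d.A11 d.A12 w : ℝ × ℝ → ℝ) := fun h => hp (tsupport_vf _ _ _ h)
  exact image_eq_zero_of_notMem_tsupport h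

private theorem t08_Y_zero (d : VY) (w : Sm) (p : ℝ × ℝ) (hp : p ∉ tsupport (w : ℝ × ℝ → ℝ)) :
    d.Y w p = 0 := by
  have h : p ∉ tsupport (vf d.A21 d.A22 w : ℝ × ℝ → ℝ) := fun h => hp (tsupport_vf _ _ _ h)
  exact image_eq_zero_of_notMem_tsupport h

private theorem t08_w_zero (w : Sm) (p : ℝ × ℝ) (hp : p ∉ tsupport (w : ℝ × ℝ → ℝ)) :
    w p = 0 := image_eq_zero_of_notMem_tsupport hp

private theorem t08_int (w F : Sm) (hw : HasCompactSupport (w : ℝ × ℝ → ℝ))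
    (h : ∀ p, p ∉ tsupport (w : ℝ × ℝ → ℝ) → F p = 0) : Integrable (fun p => F p) :=
  int_of_cpt F (HasCompactSupport.intro hw h)

/-- STEP 1, integrated form (uses `mult_identity`, `pos_form`, NI_T07). -/
theorem step1_est (d : VY) (e : ℝ) (he : 0 < e) (he1 : e ≤ 1/100) (k w : Sm)
    (hw : HasCompactSupport (w : ℝ × ℝ → ℝ))
    (hreg : ∀ p ∈ tsupport (w : ℝ × ℝ → ℝ), |d.x p| ≤ 1.35 ∧ |d.Q p| ≤ 1.35 ∧ Kclose d k p) :
    (1/40) * ∫ p, (d.mu * (d.PsiQ (√e/10) * ((d.V w) ^ 2 + e • (d.Y w) ^ 2)) : Sm) p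
      ≤ ∫ p, (d.mu * (d.L e k w * (d.Psi (√e/10) * d.Y w + d.Bet * d.V w)) : Sm) p := by
  rw [mult_identity d e k w (d.Psi (√e/10)) d.Bet hw, ← integral_const_mul]
  refine integral_mono ?_ ?_ ?_
  · refine Integrable.const_mul (t08_int w _ hw fun p hp => ?_) _
    simp [t08_V_zero d w p hp, t08_Y_zero d w p hp]
  · refine t08_int w _ hw fun p hp => ?_
    simp [t08_V_zero d w p hp, t08_Y_zero d w p hp]
  · intro p
    by_cases hp : p ∈ tsupport (w : ℝ × ℝ → ℝ)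
    · obtain ⟨h1, h2, h3, h4, h5⟩ := hreg p hp
      have hpos := pos_form e he he1 (d.x p) (d.Q p) (k p) (d.V k p) (d.Y k p) (d.V w p) (d.Y w p)
        h1 h2 h3 h4 h5
      have hm := mul_le_mul_of_nonneg_left hpos (d.mupos p).le
      simp only [mul_ap, add_ap, sub_ap, smul_ap, pow_ap, VY.Y_Psi, VY.Y_Bet, zero_ap,
        VY.Psi_ap, VY.PsiQ_ap, VY.V_Psi, VY.V_Bet, VY.Bet_ap]
      linarith
    · simp only [mul_ap, add_ap, sub_ap, smul_ap, pow_ap]
      rw [t08_V_zero d w p hp, t08_Y_zero d w p hp]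
      simp

/-- Poincaré inequality with weight `PsiQ` (uses `poincare_V` with `G = x PsiQ`, `x_V_PsiQ`). -/
theorem step1_poincare (d : VY) (σ : ℝ) (hσ : 0 < σ) (w : Sm)
    (hw : HasCompactSupport (w : ℝ × ℝ → ℝ))
    (hreg : ∀ p ∈ tsupport (w : ℝ × ℝ → ℝ), |d.x p| ≤ 1.35) :
    ∫ p, (d.mu * (d.PsiQ σ * w ^ 2) : Sm) p ≤ 8 * ∫ p, (d.mu * (d.PsiQ σ * (d.V w) ^ 2) : Sm) p := by
  have hVG : d.V (d.x * d.PsiQ σ) = d.x * d.V (d.PsiQ σ) + d.PsiQ σ := by
    have h1 : d.V d.x = 1 := d.Vx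
    rw [Derivation.leibniz, h1, smul_eq_mul, smul_eq_mul, mul_one]
  have hI := poincare_V d w (d.x * d.PsiQ σ) hw
  have iI : Integrable (fun p => (d.mu * (d.PsiQ σ * w ^ 2) : Sm) p) :=
    t08_int w _ hw fun p hp => by simp [t08_w_zero w p hp]
  have iJ : Integrable (fun p => (d.mu * (d.PsiQ σ * (d.V w) ^ 2) : Sm) p) :=
    t08_int w _ hw fun p hp => by simp [t08_V_zero d w p hp]
  have iG : Integrable (fun p => (d.mu * (d.V (d.x * d.PsiQ σ) * w ^ 2) : Sm) p) :=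
    t08_int w _ hw fun p hp => by simp [t08_w_zero w p hp]
  have iH : Integrable (fun p => (d.mu * (d.x * d.PsiQ σ * (w * d.V w)) : Sm) p) :=
    t08_int w _ hw fun p hp => by simp [t08_w_zero w p hp]
  have e1 : ∫ p, (d.mu * (d.PsiQ σ * w ^ 2) : Sm) p ≤
      ∫ p, (d.mu * (d.V (d.x * d.PsiQ σ) * w ^ 2) : Sm) p := by
    refine integral_mono iI iG fun p => ?_
    rw [hVG]
    simp only [mul_ap, add_ap, pow_ap]
    refine mul_le_mul_of_nonneg_left ?_ (d.mupos p).le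
    refine mul_le_mul_of_nonneg_right ?_ (sq_nonneg _)
    linarith [VY.x_V_PsiQ d σ hσ p]
  have e2 : - 2 * ∫ p, (d.mu * (d.x * d.PsiQ σ * (w * d.V w)) : Sm) p ≤
      (1/2) * (∫ p, (d.mu * (d.PsiQ σ * w ^ 2) : Sm) p) +
      4 * (∫ p, (d.mu * (d.PsiQ σ * (d.V w) ^ 2) : Sm) p) := by
    rw [← integral_const_mul, ← integral_const_mul, ← integral_const_mul,
      ← integral_add (iI.const_mul _) (iJ.const_mul _)]
    refine integral_mono (iH.const_mul _) ((iI.const_mul _).add (iJ.const_mul _)) fun p => ?_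
    simp only [mul_ap, pow_ap]
    by_cases hp : p ∈ tsupport (w : ℝ × ℝ → ℝ)
    · have hx := hreg p hp
      have hq : 0 ≤ d.PsiQ σ p := by rw [VY.PsiQ_ap]; exact psiQ_nonneg _ _ _
      have hx2 : (d.x p)^2 ≤ 1.35^2 := by rw [← sq_abs]; exact pow_le_pow_left₀ (abs_nonneg _) hx 2
      have key : -2 * (d.x p * (w p * d.V w p)) ≤ (1/2) * (w p)^2 + 4 * (d.V w p)^2 := by
        have h2 : 2 * (d.x p)^2 * (d.V w p)^2 ≤ 4 * (d.V w p)^2 := by
          refine mul_le_mul_of_nonneg_right ?_ (sq_nonneg _)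
          norm_num at hx2 ⊢
          linarith
        nlinarith [sq_nonneg (w p + 2 * (d.x p * d.V w p))]
      have h3 := mul_le_mul_of_nonneg_left key (mul_nonneg (d.mupos p).le hq)
      linarith
    · rw [t08_w_zero w p hp, t08_V_zero d w p hp]
      simp
  linarith

end NI
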