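import Mathlib
/-!
# S0021: definitions for the elementary proof (prefix PG)

`EM M f`   : average of `f` over `range M` (a full period)
`hit P m`  : elements of the finite set `P` (of primes) dividing `m`
`bon k w`  : value of the Bonferroni truncation of depth `2k` when `w` primes divide
`E1 P g`   : expectation of `g S` when each `p ∈ P` is in `S` independently with probability `1/p`
`LL f A`   : `f` is a finite combination of indicators of residue classes, coefficients with l1 norm ≤ A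
`SD`       : sieve data
-/
set_option autoImplicit false
namespace Crest.Agent.PG
open Finset

/-- average over `range M` -/
noncomputable def EM (M : ℕ) (f : ℕ → ℝ) : ℝ := (∑ n ∈ range M, f n) / M

/-- elements of `P` dividing `m` -/
def hit (P : Finset ℕ) (m : ℕ) : Finset ℕ := P.filter (· ∣ m)

/-- Bonferroni truncation value: `∑_{j ≤ 2k} (-1)^j C(w,j)` -/
noncomputable def bon (k w : ℕ) : ℝ := if w = 0 then 1 else ((w - 1).choose (2 * k) : ℝ)

/-- product measure expectation -/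
noncomputable def E1 (P : Finset ℕ) (g : Finset ℕ → ℝ) : ℝ :=
  ∑ S ∈ P.powerset, ((∏ p ∈ S, (1 / (p : ℝ))) * ∏ p ∈ P \ S, (1 - 1 / (p : ℝ))) * g S

/-- finite combinations of indicators of residue classes with l1 norm of coefficients at most `A` -/
def LL (f : ℕ → ℝ) (A : ℝ) : Prop :=
  ∃ (ι : Type) (_ : Fintype ι) (a : ι → ℝ) (d c : ι → ℕ), (∀ i, 0 < d i) ∧
    (∀ n, f n = ∑ i, if n % d i = c i then a i else 0) ∧ ∑ i, |a i| ≤ A

/-- sieve data (no axioms; see `SD.Good`) -/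
structure SD where
  Q : ℕ
  W : ℕ
  I : ℕ
  L : ℕ
  k : ℕ
  z : ℝ
  sb : ℕ → Finset ℕ
  lb : ℕ → Finset ℕ

namespace SD
variable (D : SD)

/-- primes of the small blocks -/
def Ps : Finset ℕ := (range D.I).biUnion D.sb
/-- primes of the large blocks -/
def Pl : Finset ℕ := (range D.L).biUnion D.lb
/-- all sieving primes -/
def P : Finset ℕ := D.Ps ∪ D.Pl
/-- the modulus -/
def Mp : ℕ := ∏ p ∈ D.P, p
noncomputable def Vs : ℝ := ∏ p ∈ D.Ps, (1 - 1 / (p : ℝ))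
/-- the small-prime sieve weight as a function of the set of primes dividing -/
noncomputable def beta (S : Finset ℕ) : ℝ := ∏ i ∈ range D.I, bon (D.k + i) (S ∩ D.sb i).card
/-- Bonferroni function of the large block `i` -/
noncomputable def bl (i : ℕ) (S : Finset ℕ) : ℝ := bon D.k (S ∩ D.lb i).card
/-- mean of the Bonferroni function of the large block `i` -/
noncomputable def bm (i : ℕ) : ℝ := E1 (D.lb i) (fun S => bon D.k S.card)
/-- martingale -/
noncomputable def Mf (a : ℕ) (S : Finset ℕ) : ℝ := ∏ i ∈ range a, D.bl i S / D.bm i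
/-- martingale differences -/
noncomputable def Df (a : ℕ) (S : Finset ℕ) : ℝ := D.Mf (a + 1) S - D.Mf a S
noncomputable def cf (a : ℕ) : ℝ := 1 / (D.L * D.Df a ∅)
/-- the local functions: trivial, or level `a` -/
noncomputable def Xf : Option (Fin D.L) → Finset ℕ → ℝ
  | none => fun _ => 1
  | some a => fun S => - D.cf a * (D.beta S * D.Df a S)
/-- majorant of the indicator of the primes -/
noncomputable def Gf (S : Finset ℕ) : ℝ := D.beta S * ∏ i ∈ range D.L, D.bl i S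
noncomputable def sg (o : Option (Fin D.L)) : ℝ := E1 D.P (fun S => (D.Xf o S) ^ 2)
/-- level of an assignment at one position -/
def lev : Option (Fin D.L) → ℕ
  | none => 0
  | some a => 2 ^ (a.val + 1)
def Lam : ℕ := 4 * 2 ^ D.L
def Lev {ι : Type} [Fintype ι] (j : ι → Option (Fin D.L)) : ℕ := ∑ i, D.lev (j i)
noncomputable def br (s : ℕ) : ℝ :=
  (((range D.L).filter (fun a => D.Lam < s + 2 ^ (a + 1))).card : ℝ) / D.L
/-- the amplitude -/
noncomputable def Psi {ι : Type} [Fintype ι] [DecidableEq ι] (pos : ι → ℕ) (n : ℕ) : ℝ :=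
  ∑ j : ι → Option (Fin D.L),
    if D.Lev j ≤ D.Lam then ∏ i, D.Xf (j i) (hit D.P (n + pos i)) else 0
/-- the amplitude seen when `n + pos h0` has no prime factor in `P` -/
noncomputable def Psit {ι : Type} [Fintype ι] [DecidableEq ι] (h0 : ι) (pos : ι → ℕ) (n : ℕ) : ℝ :=
  ∑ j : ι → Option (Fin D.L),
    if j h0 = none ∧ D.Lev j ≤ D.Lam then
      D.br (D.Lev j) * ∏ i, D.Xf (j i) (hit D.P (n + pos i)) else 0
/-- the normalisation (main term of the second moment of `Psi`) -/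
noncomputable def Zn (ι : Type) [Fintype ι] [DecidableEq ι] : ℝ :=
  ∑ j : ι → Option (Fin D.L), if D.Lev j ≤ D.Lam then ∏ i, D.sg (j i) else 0

/-- the axioms on the sieve data -/
structure Good (D : SD) (CM : ℝ) : Prop where
  hk : 10 ≤ D.k
  hW : 100 ≤ D.W
  hL : 1 ≤ D.L
  hLk : (D.L : ℝ) * (Real.exp 17 / 16 ^ D.k) ≤ 1 / 10
  hQ : 0 < D.Q
  hz : 1 ≤ D.z
  prime : ∀ p ∈ D.P, p.Prime
  big : ∀ p ∈ D.P, D.W < p
  cop : ∀ p ∈ D.P, ¬ p ∣ D.Q
  ss : ∀ i < D.I, ∀ j < D.I, i ≠ j → Disjoint (D.sb i) (D.sb j)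
  ll : ∀ i < D.L, ∀ j < D.L, i ≠ j → Disjoint (D.lb i) (D.lb j)
  sl : ∀ i < D.I, ∀ j < D.L, Disjoint (D.sb i) (D.lb j)
  ssum : ∀ i < D.I, ∑ p ∈ D.sb i, 1 / (p : ℝ) ≤ 11 / 10
  lsum1 : ∀ i < D.L, 9 / 20 ≤ ∑ p ∈ D.lb i, 1 / (p : ℝ)
  lsum2 : ∀ i < D.L, ∑ p ∈ D.lb i, 1 / (p : ℝ) ≤ 11 / 10
  scard : ∀ i < D.I, ((D.sb i).card : ℝ) + 1 ≤ D.z ^ ((1 / 2 : ℝ) ^ i)
  lcard : ∀ i < D.L, ((D.lb i).card : ℝ) + 1 ≤ D.z ^ (2 ^ (i + 1))
  hCM : 1 ≤ CM
  hMert : ∀ a ≤ D.L, ∏ i ∈ range a, ∏ p ∈ D.lb i, (1 - 1 / (p : ℝ)) ≤ CM * (1 / 2) ^ a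

/-- `φ` is a (nontrivial) local function -/
def IsLoc (D : SD) (φ : Finset ℕ → ℝ) (A ρ : ℝ) : Prop :=
  ∃ a : ℕ, 1 ≤ a ∧ a ≤ 4 ∧ ∃ g : Finset ℕ → ℝ,
    (∀ S ⊆ D.P, φ S = (D.beta (S ∩ D.Ps)) ^ a * g (S ∩ D.Pl)) ∧
    ∀ S ⊆ D.Pl, |g S| ≤ A * ρ ^ S.card

/-- admissible positions of the window `(n, n+w0]` -/
def Hs (w0 n : ℕ) : Finset ℕ := (Icc 1 w0).filter (fun h => Nat.Coprime (n + h) D.Q)

/-- the weight attached to a set `S` of positions (zero if there are too many positions) -/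
noncomputable def wtS (Kmax : ℝ) (S : Finset ℕ) (n : ℕ) : ℝ :=
  if (S.card : ℝ) ≤ Kmax then (D.Psi (fun h : ↥S => (h : ℕ)) n) ^ 2 / D.Zn ↥S else 0

/-- good indicator attached to a set of positions -/
noncomputable def gmS (Kmax : ℝ) (S : Finset ℕ) : ℝ := if (S.card : ℝ) ≤ Kmax then 1 else 0

/-- the weight -/
noncomputable def wt (w0 : ℕ) (Kmax : ℝ) (n : ℕ) : ℝ := D.wtS Kmax (D.Hs w0 n) n
/-- the good indicator -/
noncomputable def gm (w0 : ℕ) (Kmax : ℝ) (n : ℕ) : ℝ := gmS Kmax (D.Hs w0 n)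

end SD

/-! ### The concrete data -/

/-- primes in `(u, v]` -/
noncomputable def prs (u v : ℝ) : Finset ℕ :=
  (range (⌊v⌋₊ + 1)).filter (fun p => p.Prime ∧ u < (p : ℝ))

noncomputable def w0 (C : ℝ) (X : ℕ) : ℕ := ⌈C * Real.log (4 * X)⌉₊
noncomputable def HH (Dd : ℝ) (X : ℕ) : ℕ := ⌈Dd * Real.log X⌉₊

noncomputable def zz (L k X : ℕ) : ℝ := (X : ℝ) ^ (1 / (320 * k * 2 ^ L) : ℝ)

noncomputable def mkSD (C Dd : ℝ) (L k X : ℕ) : SD where
  Q := primorial ⌊Real.log X / 100⌋₊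
  W := 2 * HH Dd X + w0 C X
  I := ⌈Real.log X⌉₊
  L := L
  k := k
  z := zz L k X
  sb i := (prs ((zz L k X) ^ ((1 / 2 : ℝ) ^ (i + 1))) ((zz L k X) ^ ((1 / 2 : ℝ) ^ i))).filter
    (fun p => 2 * HH Dd X + w0 C X < p)
  lb i := prs ((zz L k X) ^ (2 ^ i)) ((zz L k X) ^ (2 ^ (i + 1)))

/-- the cut-off for the number of admissible positions -/
noncomputable def Kmx (C T : ℝ) (X : ℕ) : ℝ :=
  T * w0 C X * ((Nat.totient (primorial ⌊Real.log X / 100⌋₊) : ℝ) / primorial ⌊Real.log X / 100⌋₊)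

end Crest.Agent.PG
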