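import Crest.Agent.PG_T09
/-!
# PG-T13 (S0021): combinatorics of assignments

* `two_mul_card_le_Lev`: each nontrivial position has level at least `2`.
* `level_markov`: for `σ ≥ 0`, `σ none = 1`:
  `∑_{Λ0 < Lev j ≤ Λ} ∏ σ(j i) ≤ (1/Λ0) ∑_{Lev j ≤ Λ} Lev j ∏ σ(j i) = (1/Λ0) ∑_i ∑_a lev a σ a ∑_{j : j i = some a, ..} ∏_{i' ≠ i} σ`
  and for fixed `i, a` the inner sum is at most `∑_{Lev j ≤ Λ} ∏ σ (j i)` (replace the value at `i` by `none`:
  this is injective on assignments with `j i = some a`, lowers the level and changes the product by the factor `σ a`).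
* `Psi_eq_Psit`: group the assignments by their restriction to the positions `≠ h0`; as `Xf (some a) ∅ = -1/L`
  the sum over the value at `h0` of `Xf (·) ∅` with total level `≤ Lam` is `1 - #{a : Lev + 2^(a+1) ≤ Lam}/L = br (Lev)`.
* `br_eq_zero`: `br s ≠ 0` implies `s > Lam - 2^L = 3·2^L`.
* `sum_err_le`: `∑_{c : ι → κ} B^{#{i : c i ≠ c0}} = (1 + (|κ|-1) B)^|ι| ≤ exp(|κ| B |ι|)`.
-/
set_option autoImplicit false
namespace Crest.Agent.PG
open Finset

theorem sum_err_le {ι κ : Type} [Fintype ι] [DecidableEq ι] [Fintype κ] [DecidableEq κ] (c0 : κ) (B : ℝ)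
    (hB : 0 ≤ B) :
    ∑ c : ι → κ, B ^ (univ.filter (fun i => c i ≠ c0)).card ≤
      Real.exp (Fintype.card κ * B * Fintype.card ι) := by
  have h1 : ∀ c : ι → κ, B ^ (univ.filter (fun i => c i ≠ c0)).card
      = ∏ i, (if c i ≠ c0 then B else 1) := by
    intro c
    rw [Finset.prod_ite, Finset.prod_const, Finset.prod_const_one, mul_one]
  have h2 : ∑ c : ι → κ, ∏ i, (if c i ≠ c0 then B else 1)
      = ∏ _i : ι, ∑ x : κ, (if x ≠ c0 then B else 1) := by
    rw [Finset.prod_univ_sum]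
    simp
  rw [Finset.sum_congr rfl (fun c _ => h1 c), h2, Finset.prod_const, Finset.card_univ]
  have h3 : ∑ x : κ, (if x ≠ c0 then B else 1) ≤ Fintype.card κ * B + 1 := by
    have : ∀ x : κ, (if x ≠ c0 then B else 1) ≤ B + (if x = c0 then 1 else 0) := by
      intro x
      by_cases hx : x = c0 <;> simp [hx, hB]
    refine (Finset.sum_le_sum fun x _ => this x).trans ?_
    rw [Finset.sum_add_distrib]
    simp
  have h4 : 0 ≤ ∑ x : κ, (if x ≠ c0 then B else 1) := by
    refine Finset.sum_nonneg fun x _ => ?_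
    split_ifs <;> [exact hB; exact zero_le_one]
  calc (∑ x : κ, (if x ≠ c0 then B else 1)) ^ Fintype.card ι
      ≤ (Real.exp (Fintype.card κ * B)) ^ Fintype.card ι :=
        pow_le_pow_left₀ h4 (h3.trans (Real.add_one_le_exp _)) _
    _ = Real.exp (Fintype.card κ * B * Fintype.card ι) := by
        rw [← Real.exp_nat_mul]; ring_nf

namespace SD
variable (D : SD) (CM : ℝ)

theorem two_mul_card_le_Lev {ι : Type} [Fintype ι] [DecidableEq ι] (j : ι → Option (Fin D.L)) :
    2 * (univ.filter (fun i => j i ≠ none)).card ≤ D.Lev j := by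
  unfold Lev
  rw [Finset.card_filter, Finset.mul_sum]
  refine Finset.sum_le_sum fun i _ => ?_
  rcases h : j i with _ | a
  · simp
  · simp only [ne_eq, reduceCtorEq, not_false_eq_true, if_true, mul_one, lev]
    calc 2 = 2 ^ 1 := by norm_num
      _ ≤ 2 ^ (a.val + 1) := Nat.pow_le_pow_right (by norm_num) (by omega)

theorem br_eq_zero (s : ℕ) (hs : s ≤ 3 * 2 ^ D.L) : D.br s = 0 := by
  unfold br
  have : (range D.L).filter (fun a => D.Lam < s + 2 ^ (a + 1)) = ∅ := by
    rw [Finset.filter_eq_empty_iff]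
    intro a ha
    rw [Finset.mem_range] at ha
    have h1 : 2 ^ (a + 1) ≤ 2 ^ D.L := Nat.pow_le_pow_right (by norm_num) (by omega)
    unfold Lam
    omega
  rw [this]; simp

theorem T13_Lev_update {ι : Type} [Fintype ι] [DecidableEq ι] (j : ι → Option (Fin D.L)) (i : ι) :
    D.Lev (Function.update j i none) ≤ D.Lev j := by
  unfold Lev
  refine Finset.sum_le_sum fun x _ => ?_
  by_cases hx : x = i
  · subst hx; simp [lev]
  · simp [Function.update_of_ne hx]

theorem T13_inner {ι : Type} [Fintype ι] [DecidableEq ι] (σ : Option (Fin D.L) → ℝ)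
    (hσ : ∀ a, 0 ≤ σ a) (hσ0 : σ none = 1) (i : ι) (a : Fin D.L) :
    ∑ j : ι → Option (Fin D.L), (if j i = some a ∧ D.Lev j ≤ D.Lam then ∏ x, σ (j x) else 0) ≤
      σ (some a) * ∑ j : ι → Option (Fin D.L), (if D.Lev j ≤ D.Lam then ∏ x, σ (j x) else 0) := by
  rw [← Finset.sum_filter, ← Finset.sum_filter]
  have h1 : ∀ j ∈ univ.filter (fun j : ι → Option (Fin D.L) => j i = some a ∧ D.Lev j ≤ D.Lam),
      ∏ x, σ (j x) = σ (some a) * ∏ x, σ (Function.update j i none x) := by
    intro j hj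
    rw [Finset.mem_filter] at hj
    rw [Fintype.prod_eq_mul_prod_subtype_ne _ i,
      Fintype.prod_eq_mul_prod_subtype_ne (fun x => σ (Function.update j i none x)) i]
    rw [Function.update_self, hσ0, one_mul, hj.2.1]
    congr 1
    refine Finset.prod_congr rfl fun x _ => ?_
    rw [Function.update_of_ne x.2]
  rw [Finset.sum_congr rfl h1, ← Finset.mul_sum]
  refine mul_le_mul_of_nonneg_left ?_ (hσ _)
  have h2 : ∑ j ∈ univ.filter (fun j : ι → Option (Fin D.L) => j i = some a ∧ D.Lev j ≤ D.Lam),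
      ∏ x, σ (Function.update j i none x)
      = ∑ j' ∈ (univ.filter (fun j : ι → Option (Fin D.L) => j i = some a ∧ D.Lev j ≤ D.Lam)).image
        (fun j => Function.update j i none), ∏ x, σ (j' x) := by
    rw [Finset.sum_image]
    intro j hj j2 hj2 he
    rw [Finset.mem_coe, Finset.mem_filter] at hj hj2
    funext x
    by_cases hx : x = i
    · subst hx; rw [hj.2.1, hj2.2.1]
    · have := congrFun he x
      simpa [Function.update_of_ne hx] using this
  rw [h2]
  refine Finset.sum_le_sum_of_subset_of_nonneg ?_ (fun j _ _ => Finset.prod_nonneg fun x _ => hσ _)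
  intro j' hj'
  rw [Finset.mem_image] at hj'
  obtain ⟨j, hj, rfl⟩ := hj'
  rw [Finset.mem_filter] at hj ⊢
  exact ⟨Finset.mem_univ _, (D.T13_Lev_update j i).trans hj.2.2⟩

theorem level_markov {ι : Type} [Fintype ι] [DecidableEq ι] (σ : Option (Fin D.L) → ℝ)
    (hσ : ∀ a, 0 ≤ σ a) (hσ0 : σ none = 1) (Λ0 : ℕ) (hΛ0 : 0 < Λ0) :
    ∑ j : ι → Option (Fin D.L), (if Λ0 < D.Lev j ∧ D.Lev j ≤ D.Lam then ∏ i, σ (j i) else 0) ≤
      (Fintype.card ι / Λ0 : ℝ) * (∑ a : Fin D.L, (D.lev (some a) : ℝ) * σ (some a)) *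
        ∑ j : ι → Option (Fin D.L), (if D.Lev j ≤ D.Lam then ∏ i, σ (j i) else 0) := by
  have hΛ : (0:ℝ) < Λ0 := by exact_mod_cast hΛ0
  set S : ℝ := ∑ j : ι → Option (Fin D.L), (if D.Lev j ≤ D.Lam then ∏ i, σ (j i) else 0) with hS
  -- step 1
  have h1 : ∀ j : ι → Option (Fin D.L),
      (if Λ0 < D.Lev j ∧ D.Lev j ≤ D.Lam then ∏ i, σ (j i) else 0) ≤
      (1 / Λ0 : ℝ) * ∑ i, ∑ a : Fin D.L, (D.lev (some a) : ℝ) *
        (if j i = some a ∧ D.Lev j ≤ D.Lam then ∏ x, σ (j x) else 0) := by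
    intro j
    have hp : 0 ≤ ∏ i, σ (j i) := Finset.prod_nonneg fun i _ => hσ _
    have hin : ∀ i, ∑ a : Fin D.L, (D.lev (some a) : ℝ) *
        (if j i = some a ∧ D.Lev j ≤ D.Lam then ∏ x, σ (j x) else 0)
        = (D.lev (j i) : ℝ) * (if D.Lev j ≤ D.Lam then ∏ x, σ (j x) else 0) := by
      intro i
      rcases hji : j i with _ | b
      · simp [lev]
      · rw [Finset.sum_eq_single b]
        · simp
        · intro a _ hab
          have : ¬ ((some b : Option (Fin D.L)) = some a ∧ D.Lev j ≤ D.Lam) := by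
            rintro ⟨h, _⟩
            exact hab (Option.some.inj h).symm
          rw [if_neg this, mul_zero]
        · intro h; exact absurd (Finset.mem_univ _) h
    rw [Finset.sum_congr rfl (fun i _ => hin i), ← Finset.sum_mul]
    have hL : ∑ i, (D.lev (j i) : ℝ) = (D.Lev j : ℝ) := by
      unfold Lev; push_cast; rfl
    rw [hL]
    by_cases hc : D.Lev j ≤ D.Lam
    · by_cases hc2 : Λ0 < D.Lev j
      · rw [if_pos ⟨hc2, hc⟩, if_pos hc, ← mul_assoc]
        have : (1:ℝ) ≤ 1 / Λ0 * (D.Lev j : ℝ) := by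
          rw [one_div, inv_mul_eq_div, le_div_iff₀ hΛ, one_mul]
          exact_mod_cast hc2.le
        nlinarith
      · rw [if_neg (fun h => hc2 h.1), if_pos hc]
        positivity
    · rw [if_neg (fun h => hc h.2), if_neg hc]
      simp
  refine (Finset.sum_le_sum fun j _ => h1 j).trans ?_
  rw [← Finset.mul_sum, Finset.sum_comm]
  have h2 : ∀ i : ι, ∑ j : ι → Option (Fin D.L), ∑ a : Fin D.L, (D.lev (some a) : ℝ) *
        (if j i = some a ∧ D.Lev j ≤ D.Lam then ∏ x, σ (j x) else 0)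
      ≤ (∑ a : Fin D.L, (D.lev (some a) : ℝ) * σ (some a)) * S := by
    intro i
    rw [Finset.sum_comm, Finset.sum_mul]
    refine Finset.sum_le_sum fun a _ => ?_
    rw [← Finset.mul_sum, mul_assoc]
    exact mul_le_mul_of_nonneg_left (D.T13_inner σ hσ hσ0 i a) (Nat.cast_nonneg _)
  have h3 := Finset.sum_le_sum (s := (Finset.univ : Finset ι)) (fun i _ => h2 i)
  rw [Finset.sum_const, Finset.card_univ, nsmul_eq_mul] at h3
  calc (1 / Λ0 : ℝ) * _ ≤ (1 / Λ0 : ℝ) *
        ((Fintype.card ι : ℝ) * ((∑ a : Fin D.L, (D.lev (some a) : ℝ) * σ (some a)) * S)) :=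
        mul_le_mul_of_nonneg_left h3 (by positivity)
    _ = _ := by ring

theorem T13_Lev_split {ι : Type} [Fintype ι] [DecidableEq ι] (h0 : ι) (o : Option (Fin D.L))
    (r : {i // i ≠ h0} → Option (Fin D.L)) :
    D.Lev ((Equiv.funSplitAt h0 (Option (Fin D.L))).symm (o, r)) = D.lev o + D.Lev r := by
  unfold Lev
  rw [Fintype.sum_eq_add_sum_subtype_ne _ h0]
  congr 1
  · simp [Equiv.funSplitAt]
  · refine Finset.sum_congr rfl fun x _ => ?_
    simp [Equiv.funSplitAt, x.2]

theorem T13_sum_option (hD : D.Good CM) (s : ℕ) :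
    ∑ o : Option (Fin D.L), (if D.lev o + s ≤ D.Lam then D.Xf o ∅ else 0)
      = if s ≤ D.Lam then D.br s else 0 := by
  have hL : (0:ℝ) < D.L := by exact_mod_cast hD.hL
  rw [Fintype.sum_option]
  have h1 : ∀ a : Fin D.L, (if D.lev (some a) + s ≤ D.Lam then D.Xf (some a) ∅ else 0)
      = if 2 ^ (a.val + 1) + s ≤ D.Lam then - (1 / (D.L : ℝ)) else 0 := by
    intro a
    rw [D.Xf_some_empty CM hD a]
    rfl
  rw [Finset.sum_congr rfl (fun a _ => h1 a)]
  have h2 : ∑ a : Fin D.L, (if 2 ^ (a.val + 1) + s ≤ D.Lam then - (1 / (D.L : ℝ)) else 0)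
      = ∑ a ∈ range D.L, (if 2 ^ (a + 1) + s ≤ D.Lam then - (1 / (D.L : ℝ)) else 0) := by
    rw [← Fin.sum_univ_eq_sum_range
      (fun a => (if 2 ^ (a + 1) + s ≤ D.Lam then - (1 / (D.L : ℝ)) else 0)) D.L]
  rw [h2]
  have h0 : D.lev none + s = s := by simp [lev]
  rw [h0]
  by_cases hs : s ≤ D.Lam
  · rw [if_pos hs, if_pos hs]
    unfold br
    rw [← Finset.sum_filter, Finset.sum_const, nsmul_eq_mul]
    have hx : D.Xf none ∅ = 1 := rfl
    rw [hx]
    have hcard : ((range D.L).filter (fun a => 2 ^ (a + 1) + s ≤ D.Lam)).card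
        + ((range D.L).filter (fun a => D.Lam < s + 2 ^ (a + 1))).card = D.L := by
      have h3 : (range D.L).filter (fun a => D.Lam < s + 2 ^ (a + 1))
          = (range D.L).filter (fun a => ¬ (2 ^ (a + 1) + s ≤ D.Lam)) := by
        refine Finset.filter_congr fun a _ => ?_
        rw [not_le, add_comm]
      rw [h3, Finset.card_filter_add_card_filter_not, Finset.card_range]
    have hcard' : (((range D.L).filter (fun a => 2 ^ (a + 1) + s ≤ D.Lam)).card : ℝ)
        + (((range D.L).filter (fun a => D.Lam < s + 2 ^ (a + 1))).card : ℝ) = D.L := by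
      exact_mod_cast hcard
    field_simp
    linarith
  · rw [if_neg hs, if_neg hs, zero_add]
    refine Finset.sum_eq_zero fun a _ => ?_
    rw [if_neg]
    intro hh
    exact hs (le_trans (Nat.le_add_left _ _) hh)

theorem Psi_eq_Psit (hD : D.Good CM) {ι : Type} [Fintype ι] [DecidableEq ι] (h0 : ι) (pos : ι → ℕ) (n : ℕ)
    (h : hit D.P (n + pos h0) = ∅) : D.Psi pos n = D.Psit h0 pos n := by
  unfold Psi Psit
  rw [← (Equiv.funSplitAt h0 (Option (Fin D.L))).symm.sum_comp,
    ← (Equiv.funSplitAt h0 (Option (Fin D.L))).symm.sum_comp]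
  rw [Fintype.sum_prod_type_right, Fintype.sum_prod_type_right]
  refine Finset.sum_congr rfl fun r _ => ?_
  -- the product over the positions different from h0
  set Pr0 : ℝ := ∏ i : {i // i ≠ h0}, D.Xf (r i) (hit D.P (n + pos i)) with hPr0
  have hval : ∀ o : Option (Fin D.L),
      (Equiv.funSplitAt h0 (Option (Fin D.L))).symm (o, r) h0 = o := by
    intro o; simp [Equiv.funSplitAt]
  have hprod : ∀ o : Option (Fin D.L),
      ∏ i, D.Xf ((Equiv.funSplitAt h0 (Option (Fin D.L))).symm (o, r) i) (hit D.P (n + pos i))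
        = D.Xf o ∅ * Pr0 := by
    intro o
    rw [Fintype.prod_eq_mul_prod_subtype_ne _ h0, hval, h]
    congr 1
    refine Finset.prod_congr rfl fun x _ => ?_
    simp [Equiv.funSplitAt, x.2]
  have hl : ∑ o : Option (Fin D.L),
      (if D.Lev ((Equiv.funSplitAt h0 (Option (Fin D.L))).symm (o, r)) ≤ D.Lam then
        ∏ i, D.Xf ((Equiv.funSplitAt h0 (Option (Fin D.L))).symm (o, r) i) (hit D.P (n + pos i))
        else 0) = (∑ o : Option (Fin D.L), (if D.lev o + D.Lev r ≤ D.Lam then D.Xf o ∅ else 0)) * Pr0 := by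
    rw [Finset.sum_mul]
    refine Finset.sum_congr rfl fun o _ => ?_
    rw [D.T13_Lev_split, hprod]
    split_ifs <;> ring
  rw [hl, D.T13_sum_option CM hD]
  rw [Fintype.sum_option]
  have hz : ∑ a : Fin D.L,
      (if (Equiv.funSplitAt h0 (Option (Fin D.L))).symm (some a, r) h0 = none ∧
        D.Lev ((Equiv.funSplitAt h0 (Option (Fin D.L))).symm (some a, r)) ≤ D.Lam then
        D.br (D.Lev ((Equiv.funSplitAt h0 (Option (Fin D.L))).symm (some a, r))) *
        ∏ i, D.Xf ((Equiv.funSplitAt h0 (Option (Fin D.L))).symm (some a, r) i)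
          (hit D.P (n + pos i)) else 0) = 0 := by
    refine Finset.sum_eq_zero fun a _ => ?_
    rw [if_neg]
    rintro ⟨h1, _⟩
    rw [hval] at h1
    exact absurd h1 (by simp)
  rw [hz, add_zero, D.T13_Lev_split, hprod, hval]
  have h00 : D.lev (none : Option (Fin D.L)) + D.Lev r = D.Lev r := by simp [lev]
  rw [h00]
  have hx : D.Xf none ∅ = 1 := rfl
  by_cases hs : D.Lev r ≤ D.Lam
  · rw [if_pos hs, if_pos ⟨rfl, hs⟩, hx, one_mul]
  · rw [if_neg hs, if_neg (fun h => hs h.2), zero_mul]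

theorem one_le_Zn (hD : D.Good CM) (ι : Type) [Fintype ι] [DecidableEq ι] : 1 ≤ D.Zn ι := by
  unfold Zn
  have hnn : ∀ j ∈ (Finset.univ : Finset (ι → Option (Fin D.L))),
      0 ≤ (if D.Lev j ≤ D.Lam then ∏ i, D.sg (j i) else 0) := by
    intro j _
    split_ifs
    · exact Finset.prod_nonneg fun i _ => D.sg_nonneg CM hD _
    · exact le_rfl
  have := Finset.single_le_sum hnn (Finset.mem_univ (fun _ : ι => (none : Option (Fin D.L))))
  refine le_trans (le_of_eq ?_) this
  have hl : D.Lev (fun _ : ι => (none : Option (Fin D.L))) = 0 := by simp [Lev, lev]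
  simp only [hl, Nat.zero_le, if_true, D.sg_none CM hD, Finset.prod_const_one]

end SD
end Crest.Agent.PG
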