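import Crest.Agent.PG_T11
import Crest.Agent.PG_T13
/-!
# PG-T18 (S0021): from averages modulo `Q·Mp` to intervals

`engine`: `F n = Φ (n % Q) n` has period `Q * Mp`, `EM (Q*Mp) F = (∑_b EM Mp (Φ b))/Q` (`EM_coprime2`, `Q_coprime_Mp`),
`LL F (Q*A)` (`LL_class`), `LL_avg`.
The remaining lemmas: `Hs` depends only on `n % Q`; periodicity and `LL` norm of `wtS`;
the weight of positions `≤ w0`.
-/
set_option autoImplicit false
namespace Crest.Agent.PG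
open Finset
namespace SD
variable (D : SD) (CM : ℝ)

theorem T18_aux (hD : D.Good CM) (Φ : ℕ → ℕ → ℝ) (A : ℝ) (hper : ∀ b < D.Q, ∀ n, Φ b (n + D.Mp) = Φ b n)
    (hLL : ∀ b < D.Q, LL (Φ b) A) (Y N : ℕ) :
    |∑ n ∈ Ioc Y (Y + N), Φ (n % D.Q) n - N * ((∑ b ∈ range D.Q, EM D.Mp (Φ b)) / D.Q)| ≤ D.Q * A := by
  have hQ : 0 < D.Q := hD.hQ
  have hM : 0 < D.Mp := Mp_pos D CM hD
  have h1 := EM_coprime2 D.Q D.Mp hQ hM (Q_coprime_Mp D CM hD) Φ hper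
  have hper' : ∀ b < D.Q, ∀ K n, Φ b (n + K * D.Mp) = Φ b n := by
    intro b hb K
    induction K with
    | zero => intro n; simp
    | succ K ih =>
      intro n
      rw [Nat.succ_mul, ← add_assoc, hper b hb, ih]
  have hF : ∀ n, (fun n => Φ (n % D.Q) n) (n + D.Q * D.Mp) = (fun n => Φ (n % D.Q) n) n := by
    intro n
    show Φ ((n + D.Q * D.Mp) % D.Q) (n + D.Q * D.Mp) = Φ (n % D.Q) n
    rw [Nat.add_mul_mod_self_left]
    exact hper' _ (Nat.mod_lt n hQ) _ _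
  have h2 := LL_avg (LL_class D.Q hQ Φ A hLL) (D.Q * D.Mp) (Nat.mul_pos hQ hM) hF Y N
  rw [h1] at h2
  exact h2

theorem engine (hD : D.Good CM) (Φ : ℕ → ℕ → ℝ) (A : ℝ) (hper : ∀ b < D.Q, ∀ n, Φ b (n + D.Mp) = Φ b n)
    (hLL : ∀ b < D.Q, LL (Φ b) A) (E δ : ℝ) (hE : ∀ b < D.Q, |EM D.Mp (Φ b) - E| ≤ δ) (Y N : ℕ) :
    |∑ n ∈ Ioc Y (Y + N), Φ (n % D.Q) n - N * E| ≤ N * δ + D.Q * A := by
  have hQ : 0 < D.Q := hD.hQ
  have hQr : (0 : ℝ) < D.Q := by exact_mod_cast hQ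
  have h1 := T18_aux D CM hD Φ A hper hLL Y N
  have h2 : |(∑ b ∈ range D.Q, EM D.Mp (Φ b)) / D.Q - E| ≤ δ := by
    have e1 : (∑ b ∈ range D.Q, EM D.Mp (Φ b)) / D.Q - E = (∑ b ∈ range D.Q, (EM D.Mp (Φ b) - E)) / D.Q := by
      rw [Finset.sum_sub_distrib, Finset.sum_const, Finset.card_range, nsmul_eq_mul]
      field_simp
    rw [e1, abs_div, abs_of_pos hQr, div_le_iff₀ hQr]
    refine (Finset.abs_sum_le_sum_abs _ _).trans ?_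
    refine (Finset.sum_le_sum fun b hb => hE b (Finset.mem_range.1 hb)).trans ?_
    rw [Finset.sum_const, Finset.card_range, nsmul_eq_mul, mul_comm]
  have h3 : |(N : ℝ) * ((∑ b ∈ range D.Q, EM D.Mp (Φ b)) / D.Q) - N * E| ≤ N * δ := by
    rw [← mul_sub, abs_mul, abs_of_nonneg (Nat.cast_nonneg N)]
    exact mul_le_mul_of_nonneg_left h2 (Nat.cast_nonneg N)
  have h4 := abs_sub_le (∑ n ∈ Ioc Y (Y + N), Φ (n % D.Q) n)
    ((N : ℝ) * ((∑ b ∈ range D.Q, EM D.Mp (Φ b)) / D.Q)) (N * E)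
  linarith

theorem engine_upper (hD : D.Good CM) (Φ : ℕ → ℕ → ℝ) (A : ℝ)
    (hper : ∀ b < D.Q, ∀ n, Φ b (n + D.Mp) = Φ b n)
    (hLL : ∀ b < D.Q, LL (Φ b) A) (E : ℝ) (hE : ∀ b < D.Q, EM D.Mp (Φ b) ≤ E) (Y N : ℕ) :
    ∑ n ∈ Ioc Y (Y + N), Φ (n % D.Q) n ≤ N * E + D.Q * A := by
  have hQ : 0 < D.Q := hD.hQ
  have hQr : (0 : ℝ) < D.Q := by exact_mod_cast hQ
  have h1 := (abs_le.1 (T18_aux D CM hD Φ A hper hLL Y N)).2
  have h2 : (∑ b ∈ range D.Q, EM D.Mp (Φ b)) / D.Q ≤ E := by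
    rw [div_le_iff₀ hQr]
    refine (Finset.sum_le_sum fun b hb => hE b (Finset.mem_range.1 hb)).trans ?_
    rw [Finset.sum_const, Finset.card_range, nsmul_eq_mul, mul_comm]
  have h3 : (N : ℝ) * ((∑ b ∈ range D.Q, EM D.Mp (Φ b)) / D.Q) ≤ N * E :=
    mul_le_mul_of_nonneg_left h2 (Nat.cast_nonneg N)
  linarith

theorem Hs_mod (w0 n : ℕ) : D.Hs w0 (n % D.Q) = D.Hs w0 n := by
  simpa using (show D.Hs w0 (n % D.Q + 0) = D.Hs w0 (n + 0) by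
    unfold Hs
    refine Finset.filter_congr fun h _ => ?_
    have e : n % D.Q + 0 + h ≡ n + 0 + h [MOD D.Q] :=
      Nat.ModEq.add_right _ (Nat.ModEq.add_right _ (Nat.mod_modEq n D.Q))
    unfold Nat.Coprime
    rw [e.gcd_eq])

theorem Hs_mod_add (w0 n d : ℕ) : D.Hs w0 (n % D.Q + d) = D.Hs w0 (n + d) := by
  unfold Hs
  refine Finset.filter_congr fun h _ => ?_
  have e : n % D.Q + d + h ≡ n + d + h [MOD D.Q] :=
    Nat.ModEq.add_right _ (Nat.ModEq.add_right _ (Nat.mod_modEq n D.Q))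
  unfold Nat.Coprime
  rw [e.gcd_eq]

theorem wt_eq (w0 : ℕ) (K : ℝ) (n : ℕ) : D.wt w0 K n = D.wtS K (D.Hs w0 (n % D.Q)) n := by
  unfold wt
  rw [Hs_mod]

theorem wtS_periodic (K : ℝ) (S : Finset ℕ) (n : ℕ) : D.wtS K S (n + D.Mp) = D.wtS K S n := by
  unfold wtS
  rw [Psi_periodic]

theorem T18_Zn_pos (hD : D.Good CM) (S : Finset ℕ) : 0 < D.Zn ↥S :=
  lt_of_lt_of_le one_pos (one_le_Zn D CM hD ↥S)

theorem wtS_nonneg (hD : D.Good CM) (K : ℝ) (S : Finset ℕ) (n : ℕ) : 0 ≤ D.wtS K S n := by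
  unfold wtS
  split_ifs
  · exact div_nonneg (sq_nonneg _) (T18_Zn_pos D CM hD S).le
  · exact le_refl _

theorem wt_nonneg (hD : D.Good CM) (w0 : ℕ) (K : ℝ) (n : ℕ) : 0 ≤ D.wt w0 K n :=
  wtS_nonneg D CM hD K _ n

theorem T18_const_ge (hD : D.Good CM) :
    1 ≤ ((4 : ℝ) ^ (D.L + 1)) ^ (2 ^ (D.L + 1)) * D.z ^ ((16 * D.k + 16) * 2 ^ D.L) := by
  have h1 : (1 : ℝ) ≤ ((4 : ℝ) ^ (D.L + 1)) ^ (2 ^ (D.L + 1)) :=
    one_le_pow₀ (one_le_pow₀ (by norm_num))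
  have h2 : (1 : ℝ) ≤ D.z ^ ((16 * D.k + 16) * 2 ^ D.L) := one_le_pow₀ hD.hz
  nlinarith

theorem NB_mono (hD : D.Good CM) {M N : ℕ} (h : M ≤ N) : D.NB M ≤ D.NB N := by
  unfold NB
  have h0 : (0 : ℝ) ≤ D.L := Nat.cast_nonneg _
  have h1 : ((D.L : ℝ) + 1) ^ M ≤ ((D.L : ℝ) + 1) ^ N := pow_le_pow_right₀ (by linarith) h
  have h2 := T18_const_ge D CM hD
  rw [mul_assoc, mul_assoc]
  exact mul_le_mul_of_nonneg_right h1 (by linarith)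

theorem one_le_NB (hD : D.Good CM) (N : ℕ) : 1 ≤ D.NB N := by
  unfold NB
  have h0 : (0 : ℝ) ≤ D.L := Nat.cast_nonneg _
  have h1 : (1 : ℝ) ≤ ((D.L : ℝ) + 1) ^ N := one_le_pow₀ (by linarith)
  have h2 := T18_const_ge D CM hD
  rw [mul_assoc]
  nlinarith

/-- `K ≥ 0`; norm of the weight attached to a set of positions -/
theorem LL_wtS (hD : D.Good CM) (K : ℝ) (hK : 0 ≤ K) (S : Finset ℕ) :
    LL (D.wtS K S) ((D.NB ⌊K⌋₊) ^ 2) := by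
  have hNB : 1 ≤ D.NB ⌊K⌋₊ := one_le_NB D CM hD _
  by_cases hS : (S.card : ℝ) ≤ K
  · have e1 : D.wtS K S = fun n => (1 / D.Zn ↥S) * (D.Psi (fun h : ↥S => (h : ℕ)) n) ^ 2 := by
      funext n
      unfold wtS
      rw [if_pos hS]
      ring
    rw [e1]
    have hZ : 1 ≤ D.Zn ↥S := one_le_Zn D CM hD ↥S
    have h1 := LL_pow (LL_Psi D CM hD (fun h : ↥S => (h : ℕ))) 2
    have h2 := LL_const_mul (1 / D.Zn ↥S) h1
    refine LL_mono h2 ?_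
    rw [Fintype.card_coe]
    have h3 : D.NB S.card ≤ D.NB ⌊K⌋₊ := NB_mono D CM hD (Nat.le_floor hS)
    have h4 : 1 ≤ D.NB S.card := one_le_NB D CM hD _
    have h5 : |1 / D.Zn ↥S| ≤ 1 := by
      rw [abs_of_nonneg (by positivity)]
      rw [div_le_one (by linarith)]
      exact hZ
    have h6 : D.NB S.card ^ 2 ≤ D.NB ⌊K⌋₊ ^ 2 := pow_le_pow_left₀ (by linarith) h3 2
    have h7 : 0 ≤ D.NB S.card ^ 2 := sq_nonneg _
    calc |1 / D.Zn ↥S| * D.NB S.card ^ 2 ≤ 1 * D.NB S.card ^ 2 := mul_le_mul_of_nonneg_right h5 h7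
      _ ≤ _ := by linarith
  · have e1 : D.wtS K S = fun _ => 0 := by
      funext n
      unfold wtS
      rw [if_neg hS]
    rw [e1]
    exact LL_mono LL_zero (sq_nonneg _)

end SD
end Crest.Agent.PG
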