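import Crest.Agent.PG_N9
import Crest.Agent.PG_T18
/-!
# PG-F1 (S0021): few `n` are bad (too many admissible positions)

Markov: `∑_{n ∈ (Y,Y+2X]} #Hs(n) ≤ (2X/Q + 1) ∑_{b<Q} #Hs(b) = (2X/Q+1) w0 φ(Q)` (`sum_Hs`) and `Q ≤ X`
(`norm_small` or `primorial_le_four_pow`), so `#{n : #Hs n > T w0 φ(Q)/Q} ≤ (2X + Q)/T ≤ 4X/T`.
(`Kmx = T w0 φ(Q)/Q > 0`.)
-/
set_option autoImplicit false
namespace Crest.Agent.PG
open Finset Filter

theorem F1_sum_Hs (D : SD) (hQ : 0 < D.Q) (w Y N : ℕ) :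
    ∑ n ∈ Ioc Y (Y + N), ((D.Hs w n).card : ℝ) ≤
      w * ((Nat.totient D.Q : ℝ) * ((N : ℝ) / D.Q + 1)) := by
  classical
  have h1 : ∑ n ∈ Ioc Y (Y + N), ((D.Hs w n).card : ℝ) =
      ∑ h ∈ Icc 1 w, (((Ioc Y (Y + N)).filter (fun n => Nat.Coprime (n + h) D.Q)).card : ℝ) := by
    unfold SD.Hs
    simp only [Finset.card_filter]
    push_cast
    rw [Finset.sum_comm]
  rw [h1]
  have h2 : ∀ h ∈ Icc 1 w, (((Ioc Y (Y + N)).filter (fun n => Nat.Coprime (n + h) D.Q)).card : ℝ) ≤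
      (Nat.totient D.Q : ℝ) * ((N : ℝ) / D.Q + 1) := by
    intro h _
    have h3 : ((Ioc Y (Y + N)).filter (fun n => Nat.Coprime (n + h) D.Q)).card ≤
        ((Ico (Y + h + 1) (Y + h + 1 + N)).filter (Nat.Coprime D.Q)).card := by
      apply Finset.card_le_card_of_injOn (fun n => n + h)
      · intro n hn
        simp only [coe_filter, mem_Ioc, mem_Ico, Set.mem_setOf_eq] at hn ⊢
        exact ⟨⟨by omega, by omega⟩, hn.2.symm⟩
      · intro a _ b _ hab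
        exact Nat.add_right_cancel hab
    have h4 := Nat.Ico_filter_coprime_le (Y + h + 1) N hQ.ne'
    have h5 : (((Ioc Y (Y + N)).filter (fun n => Nat.Coprime (n + h) D.Q)).card : ℝ) ≤
        ((Nat.totient D.Q * (N / D.Q + 1) : ℕ) : ℝ) := by exact_mod_cast h3.trans h4
    refine h5.trans ?_
    push_cast
    have h6 : ((N / D.Q : ℕ) : ℝ) ≤ (N : ℝ) / D.Q := Nat.cast_div_le
    gcongr
  calc _ ≤ ∑ h ∈ Icc 1 w, (Nat.totient D.Q : ℝ) * ((N : ℝ) / D.Q + 1) := Finset.sum_le_sum h2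
    _ = _ := by rw [Finset.sum_const, Nat.card_Icc, nsmul_eq_mul]; simp

theorem F1_Q_le (X : ℕ) (hX : 1 ≤ X) : ((primorial ⌊Real.log X / 100⌋₊ : ℕ) : ℝ) ≤ X := by
  have hX0 : (0 : ℝ) < X := by exact_mod_cast hX
  have hlog : 0 ≤ Real.log X := Real.log_natCast_nonneg X
  have h1 : ((primorial ⌊Real.log X / 100⌋₊ : ℕ) : ℝ) ≤ (4 : ℝ) ^ ⌊Real.log X / 100⌋₊ := by
    exact_mod_cast primorial_le_four_pow _
  have h2 : ((⌊Real.log X / 100⌋₊ : ℕ) : ℝ) ≤ Real.log X / 100 := Nat.floor_le (by positivity)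
  have hl4 : Real.log 4 ≤ 3 := by
    have := Real.log_le_sub_one_of_pos (show (0 : ℝ) < 4 by norm_num)
    linarith
  calc _ ≤ (4 : ℝ) ^ ⌊Real.log X / 100⌋₊ := h1
    _ = Real.exp (Real.log 4 * ((⌊Real.log X / 100⌋₊ : ℕ) : ℝ)) := by
        rw [← Real.rpow_natCast, Real.rpow_def_of_pos (by norm_num)]
    _ ≤ Real.exp (Real.log X) := by
        apply Real.exp_le_exp.mpr
        have h0 : (0 : ℝ) ≤ ((⌊Real.log X / 100⌋₊ : ℕ) : ℝ) := Nat.cast_nonneg _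
        nlinarith
    _ = X := Real.exp_log hX0

theorem F_bad (C Dd T : ℝ) (L k : ℕ) (hC : 1 ≤ C) (hDd : 1 ≤ Dd) (hT : 1 ≤ T) (hL : 1 ≤ L) (hk : 10 ≤ k) :
    ∀ᶠ X : ℕ in atTop, ∀ Y : ℕ,
      ∑ n ∈ Ioc Y (Y + 2 * X), (1 - (mkSD C Dd L k X).gm (w0 C X) (Kmx C T X) n) ≤ 4 / T * X := by
  filter_upwards [eventually_ge_atTop 1] with X hX Y
  set D := mkSD C Dd L k X with hD
  have hX0 : (0 : ℝ) < X := by exact_mod_cast hX
  have hQeq : D.Q = primorial ⌊Real.log X / 100⌋₊ := rfl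
  have hQ : 0 < D.Q := by rw [hQeq]; exact primorial_pos _
  have hQ0 : (0 : ℝ) < D.Q := by exact_mod_cast hQ
  have hQX : (D.Q : ℝ) ≤ X := by rw [hQeq]; exact F1_Q_le X hX
  have hphi : (0 : ℝ) < (Nat.totient D.Q : ℝ) := by exact_mod_cast Nat.totient_pos.mpr hQ
  have hlog : 0 < Real.log (4 * X) := by
    apply Real.log_pos
    have : (1 : ℝ) ≤ X := by exact_mod_cast hX
    linarith
  have hw : 0 < w0 C X := by
    unfold w0
    rw [Nat.ceil_pos]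
    positivity
  have hw0 : (0 : ℝ) < (w0 C X : ℝ) := by exact_mod_cast hw
  have hK : Kmx C T X = T * w0 C X * ((Nat.totient D.Q : ℝ) / D.Q) := rfl
  have hKpos : 0 < Kmx C T X := by rw [hK]; positivity
  have h1 : ∀ n ∈ Ioc Y (Y + 2 * X), 1 - D.gm (w0 C X) (Kmx C T X) n ≤
      ((D.Hs (w0 C X) n).card : ℝ) / Kmx C T X := by
    intro n _
    unfold SD.gm SD.gmS
    split_ifs with h
    · rw [sub_self]; positivity
    · rw [sub_zero, le_div_iff₀ hKpos]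
      linarith
  calc ∑ n ∈ Ioc Y (Y + 2 * X), (1 - D.gm (w0 C X) (Kmx C T X) n)
      ≤ ∑ n ∈ Ioc Y (Y + 2 * X), ((D.Hs (w0 C X) n).card : ℝ) / Kmx C T X := Finset.sum_le_sum h1
    _ = (∑ n ∈ Ioc Y (Y + 2 * X), ((D.Hs (w0 C X) n).card : ℝ)) / Kmx C T X := by
        rw [Finset.sum_div]
    _ ≤ ((w0 C X : ℝ) * ((Nat.totient D.Q : ℝ) * (((2 * X : ℕ) : ℝ) / D.Q + 1))) / Kmx C T X :=
        div_le_div_of_nonneg_right (F1_sum_Hs D hQ _ Y (2 * X)) hKpos.le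
    _ ≤ 4 / T * X := by
        rw [div_le_iff₀ hKpos, hK]
        push_cast
        have h2 : (2 * (X : ℝ)) / D.Q + 1 ≤ 4 * X / D.Q := by
          rw [div_add_one hQ0.ne', div_le_div_iff_of_pos_right hQ0]
          linarith
        calc (w0 C X : ℝ) * ((Nat.totient D.Q : ℝ) * (2 * (X : ℝ) / D.Q + 1))
            ≤ (w0 C X : ℝ) * ((Nat.totient D.Q : ℝ) * (4 * X / D.Q)) := by gcongr
          _ = 4 / T * X * (T * w0 C X * ((Nat.totient D.Q : ℝ) / D.Q)) := by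
              field_simp

end Crest.Agent.PG
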