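import Crest.Agent.PG_T14
/-!
# PG-T16 (S0021): fourth moment bound

`Psi⁴ = ∑_{c : ι → (Fin 4 → Option)} [all four levels ≤ Lam] ∏_i ∏_s Xf (c i s) (hit P (n+pos i))`.
`gen` with `U = {i : c i ≠ (fun _ => none)}` (card ≤ 8·2^L), `m = 8·2^L`; main term bounded by
`∑_c ∏_{i ∈ U} |E1 ..| ≤ ∑_c (B' Vs)^|U|` (`IsLoc_E1_le`), error similarly; `sum_err_le` with `κ = Fin 4 → Option (Fin L)`.
-/
set_option autoImplicit false
namespace Crest.Agent.PG
open Finset
namespace SD

/-- expansion of the fourth power -/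
theorem T16_expand (D : SD) (ι : Type) [Fintype ι] [DecidableEq ι] (pos : ι → ℕ) (n : ℕ) :
    (D.Psi pos n) ^ 4 = ∑ c : ι → (Fin 4 → Option (Fin D.L)),
      (if ∀ s, D.Lev (fun i => c i s) ≤ D.Lam then (1 : ℝ) else 0) *
        ∏ i, (fun S => ∏ s, D.Xf (c i s) S) (hit D.P (n + pos i)) := by
  have h1 : (D.Psi pos n) ^ 4 = ∏ _s : Fin 4, D.Psi pos n := by
    rw [Finset.prod_const, Finset.card_univ, Fintype.card_fin]
  rw [h1]
  unfold Psi
  rw [Finset.prod_univ_sum, Fintype.piFinset_univ]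
  refine Fintype.sum_equiv (Equiv.piComm (fun (_ : Fin 4) (_ : ι) => Option (Fin D.L))) _ _ ?_
  intro g
  rw [Finset.prod_ite_zero]
  simp only [Equiv.piComm_apply, Function.swap, Finset.mem_univ, forall_true_left]
  by_cases h : ∀ s, D.Lev (g s) ≤ D.Lam
  · rw [if_pos h, if_pos h, one_mul, Finset.prod_comm]
  · rw [if_neg h, if_neg h, zero_mul]

theorem T16_card (D : SD) (ι : Type) [Fintype ι] [DecidableEq ι] (c : ι → (Fin 4 → Option (Fin D.L)))
    (hc : ∀ s, D.Lev (fun i => c i s) ≤ D.Lam) :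
    (univ.filter (fun i => c i ≠ (fun _ => none))).card ≤ 8 * 2 ^ D.L := by
  have h1 : (univ.filter (fun i => c i ≠ (fun _ => none))) ⊆
      (univ : Finset (Fin 4)).biUnion (fun s => univ.filter (fun i => c i s ≠ none)) := by
    intro i hi
    simp only [Finset.mem_filter, Finset.mem_univ, true_and] at hi
    obtain ⟨s, hs⟩ := Function.ne_iff.mp hi
    simp only [Finset.mem_biUnion, Finset.mem_filter, Finset.mem_univ, true_and]
    exact ⟨s, hs⟩
  have h2 : ∀ s : Fin 4, (univ.filter (fun i => c i s ≠ none)).card ≤ 2 * 2 ^ D.L := by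
    intro s
    have := D.two_mul_card_le_Lev (fun i => c i s)
    have h3 := hc s
    unfold Lam at h3
    omega
  calc (univ.filter (fun i => c i ≠ (fun _ => none))).card
      ≤ ((univ : Finset (Fin 4)).biUnion (fun s => univ.filter (fun i => c i s ≠ none))).card :=
        Finset.card_le_card h1
    _ ≤ ∑ s : Fin 4, (univ.filter (fun i => c i s ≠ none)).card := Finset.card_biUnion_le
    _ ≤ ∑ _s : Fin 4, 2 * 2 ^ D.L := Finset.sum_le_sum (fun s _ => h2 s)
    _ = 8 * 2 ^ D.L := by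
        rw [Finset.sum_const, Finset.card_univ, Fintype.card_fin]
        ring

theorem Psi_four (L : ℕ) : ∃ B : ℝ, 0 < B ∧ ∀ (D : SD) (CM : ℝ), D.Good CM → D.L = L → 64 * 2 ^ L ≤ D.W →
    ∀ (ι : Type) [Fintype ι] [DecidableEq ι] (pos : ι → ℕ), Function.Injective pos → (∀ i, pos i ≤ D.W) →
    EM D.Mp (fun n => (D.Psi pos n) ^ 4) ≤ B * Real.exp (B * (D.Vs * Fintype.card ι)) := by
  obtain ⟨Kc, hKc, hgen⟩ := gen (8 * 2 ^ L) L 32 (by norm_num)
  set A : ℝ := ((4 : ℝ) ^ (L + 1)) ^ 4 with hA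
  have hA0 : 0 ≤ A := by positivity
  set E : ℝ := Real.exp (Real.exp 70) * Real.exp (32 * (11 / 10) * L) with hE
  have hE1 : 1 ≤ E := by
    have h1 : 1 ≤ Real.exp (Real.exp 70) := Real.one_le_exp (Real.exp_pos _).le
    have h2 : 1 ≤ Real.exp (32 * (11 / 10) * (L : ℝ)) := Real.one_le_exp (by positivity)
    calc (1 : ℝ) = 1 * 1 := by ring
      _ ≤ E := mul_le_mul h1 h2 (by norm_num) (by positivity)
  set K4 : ℝ := ((L : ℝ) + 1) ^ 4 with hK4
  have hK40 : 0 ≤ K4 := by positivity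
  refine ⟨1 + Kc + K4 * (E * A), by positivity, ?_⟩
  intro D CM hD hDL hW ι _ _ pos hinj hpos
  subst hDL
  have hVs : 0 < D.Vs := D.Vs_pos CM hD
  have hVs0 : 0 ≤ D.Vs := hVs.le
  have hWpos : (1 : ℝ) ≤ D.W := by
    have := hD.hW
    exact_mod_cast (by omega : 1 ≤ D.W)
  -- the data
  let J := ι → (Fin 4 → Option (Fin D.L))
  let α : J → ℝ := fun c => if ∀ s, D.Lev (fun i => c i s) ≤ D.Lam then (1 : ℝ) else 0
  let φ : J → ι → Finset ℕ → ℝ := fun c i S => ∏ s, D.Xf (c i s) S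
  let U : J → Finset ι := fun c => univ.filter (fun i => c i ≠ (fun _ => none))
  have hα : ∀ c, α c ≠ 0 → ∀ s, D.Lev (fun i => c i s) ≤ D.Lam := by
    intro c hc
    by_contra h
    exact hc (if_neg h)
  have hαabs : ∀ c, |α c| ≤ 1 := by
    intro c
    simp only [α]
    split_ifs <;> simp
  have hU1 : ∀ c, α c ≠ 0 → (U c).card ≤ 8 * 2 ^ D.L := fun c hc => T16_card D ι c (hα c hc)
  have hφ1 : ∀ c, ∀ i, i ∉ U c → φ c i = fun _ => 1 := by
    intro c i hi
    simp only [U, Finset.mem_filter, Finset.mem_univ, true_and, not_not] at hi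
    funext S
    simp only [φ, hi]
    simp [Xf]
  have hφ2 : ∀ c, ∀ i ∈ U c, D.IsLoc (φ c i) A 32 := by
    intro c i hi
    simp only [U, Finset.mem_filter, Finset.mem_univ, true_and] at hi
    obtain ⟨s, hs⟩ := Function.ne_iff.mp hi
    exact Xf_isLoc D CM hD 4 le_rfl (c i) ⟨s, hs⟩
  have hmain := hgen D CM hD rfl (by omega) ι pos hinj hpos J α φ U A hA0 hU1
    (fun c _ => hφ1 c) (fun c _ => hφ2 c)
  have hexp : (fun n => (D.Psi pos n) ^ 4) =
      fun n => ∑ c : J, α c * ∏ i, φ c i (hit D.P (n + pos i)) := by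
    funext n
    exact T16_expand D ι pos n
  rw [hexp]
  have hcard : (Fintype.card (Fin 4 → Option (Fin D.L)) : ℝ) = K4 := by
    simp [hK4]
  -- main term
  have hm1 : ∑ c : J, α c * ∏ i, E1 D.P (φ c i) ≤ ∑ c : J, (D.Vs * (E * A)) ^ (U c).card := by
    refine Finset.sum_le_sum (fun c _ => ?_)
    have hprod : ∏ i, E1 D.P (φ c i) = ∏ i ∈ U c, E1 D.P (φ c i) := by
      symm
      refine Finset.prod_subset (Finset.subset_univ _) (fun i _ hi => ?_)
      rw [hφ1 c i hi]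
      exact E1_const _ _
    calc α c * ∏ i, E1 D.P (φ c i) ≤ |α c * ∏ i, E1 D.P (φ c i)| := le_abs_self _
      _ = |α c| * |∏ i, E1 D.P (φ c i)| := abs_mul _ _
      _ ≤ 1 * |∏ i, E1 D.P (φ c i)| := mul_le_mul_of_nonneg_right (hαabs c) (abs_nonneg _)
      _ = ∏ i ∈ U c, |E1 D.P (φ c i)| := by rw [one_mul, hprod, Finset.abs_prod]
      _ ≤ ∏ _i ∈ U c, (D.Vs * (E * A)) := by
          refine Finset.prod_le_prod (fun i _ => abs_nonneg _) (fun i hi => ?_)
          have := IsLoc_E1_le D CM hD (φ c i) A 32 hA0 (by norm_num) (hφ2 c i hi)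
          calc |E1 D.P (φ c i)| ≤ _ := this
            _ = D.Vs * (E * A) := by rw [hE]; ring
      _ = (D.Vs * (E * A)) ^ (U c).card := by rw [Finset.prod_const]
  have hEA : A ≤ E * A := by nlinarith
  have hm2 : ∑ c : J, (D.Vs * (E * A)) ^ (U c).card ≤
      Real.exp (K4 * (D.Vs * (E * A)) * Fintype.card ι) := by
    rw [← hcard]
    exact sum_err_le (ι := ι) (fun _ => none) (D.Vs * (E * A)) (by positivity)
  have hm3 : ∑ c : J, |α c| * (D.Vs * A) ^ (U c).card ≤
      Real.exp (K4 * (D.Vs * (E * A)) * Fintype.card ι) := by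
    refine le_trans (Finset.sum_le_sum (fun c _ => ?_)) hm2
    calc |α c| * (D.Vs * A) ^ (U c).card ≤ 1 * (D.Vs * A) ^ (U c).card :=
          mul_le_mul_of_nonneg_right (hαabs c) (by positivity)
      _ = (D.Vs * A) ^ (U c).card := one_mul _
      _ ≤ (D.Vs * (E * A)) ^ (U c).card :=
          pow_le_pow_left₀ (by positivity) (mul_le_mul_of_nonneg_left hEA hVs0) _
  set X : ℝ := Real.exp (K4 * (D.Vs * (E * A)) * Fintype.card ι) with hX
  have hX0 : 0 < X := Real.exp_pos _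
  have hle : EM D.Mp (fun n => ∑ c : J, α c * ∏ i, φ c i (hit D.P (n + pos i))) ≤
      X + Kc * X := by
    have h1 := (abs_le.mp hmain).2
    have h2 : Kc / D.W * ∑ c : J, |α c| * (D.Vs * A) ^ (U c).card ≤ Kc * X := by
      have h3 : Kc / D.W ≤ Kc := div_le_self hKc.le hWpos
      exact mul_le_mul h3 hm3 (Finset.sum_nonneg (fun c _ => by positivity)) hKc.le
    linarith [hm1.trans hm2]
  refine hle.trans ?_
  have hc0 : (0 : ℝ) ≤ D.Vs * Fintype.card ι := by positivity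
  have hXle : X ≤ Real.exp ((1 + Kc + K4 * (E * A)) * (D.Vs * Fintype.card ι)) := by
    rw [hX]
    apply Real.exp_le_exp.mpr
    have : K4 * (D.Vs * (E * A)) * Fintype.card ι = (K4 * (E * A)) * (D.Vs * Fintype.card ι) := by ring
    rw [this]
    apply mul_le_mul_of_nonneg_right _ hc0
    linarith
  calc X + Kc * X = (1 + Kc) * X := by ring
    _ ≤ (1 + Kc + K4 * (E * A)) * Real.exp ((1 + Kc + K4 * (E * A)) * (D.Vs * Fintype.card ι)) := by
        refine mul_le_mul ?_ hXle hX0.le (by positivity)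
        have : 0 ≤ K4 * (E * A) := by positivity
        linarith

end SD
end Crest.Agent.PG
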