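import Crest.Agent.PG_N9
import Crest.Agent.PG_T16
import Crest.Agent.PG_T18
/-!
# PG-F2 (S0021): second moment of the weight

`wt² = Φ (n % Q) n` with `Φ b = (wtS K (Hs b))²`; `EM Mp (Φ b) ≤ EM (Psi⁴) ≤ B exp(B Vs |ι|) ≤ B exp(B κ)` (`Psi_four`,
`Zn ≥ 1`, `|ι| = #Hs b ≤ Kmx`, `kappa_le`: `κ = 1280 T C k 2^L`); `LL` norm `≤ NB(⌊Kmx⌋)^4`, `norm_small`, `engine_upper`.
Here `M₂` must not depend on `Dd`.
-/
set_option autoImplicit false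
namespace Crest.Agent.PG
open Finset Filter

theorem F2_Vs_nonneg (D : SD) : 0 ≤ D.Vs := by
  unfold SD.Vs
  apply Finset.prod_nonneg
  intro p _
  rcases Nat.eq_zero_or_pos p with h | h
  · subst h; simp
  · have : (1 : ℝ) ≤ p := by exact_mod_cast h
    rw [sub_nonneg, div_le_one (by linarith)]
    exact this

theorem F_sq (C T : ℝ) (L k : ℕ) (hC : 1 ≤ C) (hT : 1 ≤ T) (hL : 1 ≤ L) (hk : 10 ≤ k)
    (hLk : (L : ℝ) * (Real.exp 17 / 16 ^ k) ≤ 1 / 10) :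
    ∃ M₂ : ℝ, 1 ≤ M₂ ∧ ∀ Dd : ℝ, 1 ≤ Dd → ∀ᶠ X : ℕ in atTop, ∀ Y : ℕ,
      ∑ n ∈ Ioc Y (Y + 2 * X), ((mkSD C Dd L k X).wt (w0 C X) (Kmx C T X) n) ^ 2 ≤ M₂ * X := by
  obtain ⟨B, hB0, hB⟩ := SD.Psi_four L
  obtain ⟨CM, hCM, hgood⟩ := mkSD_good
  set κ : ℝ := 1280 * T * C * k * 2 ^ L with hκ
  set E : ℝ := B * Real.exp (B * κ) with hE
  have hE0 : 0 < E := by positivity
  refine ⟨2 * E + 1, by linarith, ?_⟩
  intro Dd hDd
  filter_upwards [hgood C Dd L k hC hDd hL hk hLk, kappa_le C Dd T L k hC hDd hT hL hk,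
    W_large C Dd L k hC hDd (64 * 2 ^ L), norm_small C Dd T L k hC hDd hT hL hk 1 one_pos,
    w0_HH_small C Dd hC hDd, eventually_ge_atTop 1] with X hD hkap hW hnorm hsm hX Y
  set D := mkSD C Dd L k X with hDdef
  obtain ⟨-, -, -, -, -, hw1, hlog1, -⟩ := hsm
  have hX0 : (0 : ℝ) < X := by exact_mod_cast hX
  have hDL : D.L = L := rfl
  have hDk : D.k = k := rfl
  have hWeq : D.W = 2 * HH Dd X + w0 C X := rfl
  have hQ : 0 < D.Q := hD.hQ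
  have hQ0 : (0 : ℝ) < D.Q := by exact_mod_cast hQ
  have hK : Kmx C T X = T * w0 C X * ((Nat.totient D.Q : ℝ) / D.Q) := rfl
  have hK0 : 0 ≤ Kmx C T X := by rw [hK]; positivity
  have hVs := F2_Vs_nonneg D
  have hW' : 64 * 2 ^ L ≤ D.W := by exact_mod_cast hW
  have hEM : ∀ b < D.Q, EM D.Mp (fun n => (D.wtS (Kmx C T X) (D.Hs (w0 C X) b) n) ^ 2) ≤ E := by
    intro b _
    by_cases hc : ((D.Hs (w0 C X) b).card : ℝ) ≤ Kmx C T X
    · have h1 := hB D CM hD hDL hW' ↥(D.Hs (w0 C X) b) (fun h => (h : ℕ)) Subtype.val_injective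
        (fun h => by
          have := h.2
          unfold SD.Hs at this
          rw [mem_filter, mem_Icc] at this
          rw [hWeq]
          omega)
      have hZ := SD.one_le_Zn D CM hD ↥(D.Hs (w0 C X) b)
      have h2 : EM D.Mp (fun n => (D.wtS (Kmx C T X) (D.Hs (w0 C X) b) n) ^ 2) ≤
          EM D.Mp (fun n => (D.Psi (fun h : ↥(D.Hs (w0 C X) b) => (h : ℕ)) n) ^ 4) := by
        unfold EM
        apply div_le_div_of_nonneg_right _ (Nat.cast_nonneg _)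
        apply Finset.sum_le_sum
        intro n _
        unfold SD.wtS
        rw [if_pos hc, div_pow]
        have h3 : (1 : ℝ) ≤ (D.Zn ↥(D.Hs (w0 C X) b)) ^ 2 := one_le_pow₀ hZ
        calc _ ≤ ((D.Psi (fun h : ↥(D.Hs (w0 C X) b) => (h : ℕ)) n) ^ 2) ^ 2 :=
              div_le_self (by positivity) h3
          _ = _ := by ring
      refine h2.trans (h1.trans ?_)
      rw [hE]
      apply mul_le_mul_of_nonneg_left _ hB0.le
      apply Real.exp_le_exp.mpr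
      apply mul_le_mul_of_nonneg_left _ hB0.le
      rw [Fintype.card_coe]
      calc D.Vs * ((D.Hs (w0 C X) b).card : ℝ) ≤ D.Vs * Kmx C T X :=
            mul_le_mul_of_nonneg_left hc hVs
        _ ≤ κ := hkap
    · have h2 : EM D.Mp (fun n => (D.wtS (Kmx C T X) (D.Hs (w0 C X) b) n) ^ 2) = 0 := by
        unfold EM SD.wtS
        simp only [if_neg hc]
        simp
      rw [h2]; exact hE0.le
  have hmain := SD.engine_upper D CM hD
    (fun b n => (D.wtS (Kmx C T X) (D.Hs (w0 C X) b) n) ^ 2)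
    (((D.NB ⌊Kmx C T X⌋₊) ^ 2) ^ 2)
    (fun b _ n => by
      show (D.wtS (Kmx C T X) (D.Hs (w0 C X) b) (n + D.Mp)) ^ 2 = _
      rw [SD.wtS_periodic])
    (fun b _ => LL_pow (SD.LL_wtS D CM hD (Kmx C T X) hK0 (D.Hs (w0 C X) b)) 2)
    E hEM Y (2 * X)
  have hsumeq : ∑ n ∈ Ioc Y (Y + 2 * X), (D.wt (w0 C X) (Kmx C T X) n) ^ 2 =
      ∑ n ∈ Ioc Y (Y + 2 * X), (D.wtS (Kmx C T X) (D.Hs (w0 C X) (n % D.Q)) n) ^ 2 := by
    apply Finset.sum_congr rfl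
    intro n _
    rw [SD.wt_eq]
  rw [hsumeq]
  refine hmain.trans ?_
  have hNB := SD.one_le_NB D CM hD ⌊Kmx C T X⌋₊
  have hz := hD.hz
  have hn1 := hnorm ⌊Kmx C T X⌋₊ (Nat.floor_le hK0)
  have hA : (D.Q : ℝ) * ((D.NB ⌊Kmx C T X⌋₊) ^ 2) ^ 2 ≤ X := by
    have h1 : ((D.NB ⌊Kmx C T X⌋₊) ^ 2) ^ 2 ≤ ((w0 C X : ℝ) + 1) *
        (1 + D.NB ⌊Kmx C T X⌋₊) ^ 4 * D.z ^ ((4 * k + 4) * 2 ^ L) := by
      have h2 : ((D.NB ⌊Kmx C T X⌋₊) ^ 2) ^ 2 ≤ (1 + D.NB ⌊Kmx C T X⌋₊) ^ 4 := by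
        rw [← pow_mul]
        apply pow_le_pow_left₀ (by linarith)
        linarith
      have h3 : (1 : ℝ) ≤ D.z ^ ((4 * k + 4) * 2 ^ L) := one_le_pow₀ hz
      have h4 : (1 : ℝ) ≤ (w0 C X : ℝ) + 1 := by
        have : (0 : ℝ) ≤ (w0 C X : ℝ) := Nat.cast_nonneg _
        linarith
      have h5 : (0 : ℝ) ≤ (1 + D.NB ⌊Kmx C T X⌋₊) ^ 4 := by positivity
      calc _ ≤ (1 + D.NB ⌊Kmx C T X⌋₊) ^ 4 := h2
        _ = 1 * (1 + D.NB ⌊Kmx C T X⌋₊) ^ 4 * 1 := by ring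
        _ ≤ _ := by
            apply mul_le_mul _ h3 (by norm_num) (by positivity)
            exact mul_le_mul_of_nonneg_right h4 h5
    calc (D.Q : ℝ) * ((D.NB ⌊Kmx C T X⌋₊) ^ 2) ^ 2 ≤ (D.Q : ℝ) * (((w0 C X : ℝ) + 1) *
        (1 + D.NB ⌊Kmx C T X⌋₊) ^ 4 * D.z ^ ((4 * k + 4) * 2 ^ L)) :=
          mul_le_mul_of_nonneg_left h1 hQ0.le
      _ ≤ 1 * X / (Real.log X) ^ 2 := hn1
      _ ≤ X := by
          rw [one_mul]
          exact div_le_self hX0.le (one_le_pow₀ hlog1)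
  push_cast
  linarith

end Crest.Agent.PG
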