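import Crest.Agent.PG_T14
/-!
# PG-T17 (S0021): two windows with disjoint positions

`Psi(pos)² Psi(pos')²` with `Sum.elim pos pos'` injective: index set `ι ⊕ ι'`, assignments
`c : ι ⊕ ι' → Option × Option`; `gen` with `m = 8·2^L`; main term `Zn ι * Zn ι'` by `E1_Xf_mul`; error as in `Psi_sq`.
-/
set_option autoImplicit false
namespace Crest.Agent.PG
open Finset

/-- expansion of a product of two bilinear sums over assignments -/
theorem T17_expand {O : Type} [Fintype O] {ι ι' : Type} [Fintype ι] [DecidableEq ι]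
    [Fintype ι'] [DecidableEq ι'] (p : (ι → O) → Prop) (p' : (ι' → O) → Prop)
    [DecidablePred p] [DecidablePred p'] (K : ι ⊕ ι' → O → O → ℝ) :
    ∑ c : ι ⊕ ι' → O × O,
      (if (p (fun i => (c (Sum.inl i)).1) ∧ p (fun i => (c (Sum.inl i)).2)) ∧
          (p' (fun i => (c (Sum.inr i)).1) ∧ p' (fun i => (c (Sum.inr i)).2)) then (1 : ℝ) else 0) *
        ∏ s, K s (c s).1 (c s).2 =
    (∑ j1 : ι → O, ∑ j2 : ι → O, (if p j1 ∧ p j2 then ∏ i, K (Sum.inl i) (j1 i) (j2 i) else 0)) *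
    (∑ j1 : ι' → O, ∑ j2 : ι' → O, (if p' j1 ∧ p' j2 then ∏ i, K (Sum.inr i) (j1 i) (j2 i) else 0)) := by
  classical
  have e1 : (∑ j1 : ι → O, ∑ j2 : ι → O,
      (if p j1 ∧ p j2 then ∏ i, K (Sum.inl i) (j1 i) (j2 i) else 0)) =
      ∑ c : ι → O × O, (if p (fun i => (c i).1) ∧ p (fun i => (c i).2) then
        ∏ i, K (Sum.inl i) (c i).1 (c i).2 else 0) := by
    rw [← Fintype.sum_prod_type']
    symm
    apply Fintype.sum_equiv (Equiv.arrowProdEquivProdArrow ι (fun _ => O) (fun _ => O))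
    intro c
    rfl
  have e2 : (∑ j1 : ι' → O, ∑ j2 : ι' → O,
      (if p' j1 ∧ p' j2 then ∏ i, K (Sum.inr i) (j1 i) (j2 i) else 0)) =
      ∑ c : ι' → O × O, (if p' (fun i => (c i).1) ∧ p' (fun i => (c i).2) then
        ∏ i, K (Sum.inr i) (c i).1 (c i).2 else 0) := by
    rw [← Fintype.sum_prod_type']
    symm
    apply Fintype.sum_equiv (Equiv.arrowProdEquivProdArrow ι' (fun _ => O) (fun _ => O))
    intro c
    rfl
  rw [e1, e2, Finset.sum_mul_sum, ← Fintype.sum_prod_type']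
  apply Fintype.sum_equiv (Equiv.sumArrowEquivProdArrow ι ι' (O × O))
  intro c
  rw [Fintype.prod_sum_type]
  simp only [Equiv.sumArrowEquivProdArrow_apply_fst, Equiv.sumArrowEquivProdArrow_apply_snd]
  by_cases h1 : p (fun i => (c (Sum.inl i)).1) ∧ p (fun i => (c (Sum.inl i)).2)
  · by_cases h2 : p' (fun i => (c (Sum.inr i)).1) ∧ p' (fun i => (c (Sum.inr i)).2)
    · simp [h1, h2]
    · simp [h2]
  · simp [h1]

namespace SD

theorem T17_Vs_nonneg (D : SD) (CM : ℝ) (hD : D.Good CM) : 0 ≤ D.Vs := by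
  unfold SD.Vs
  apply Finset.prod_nonneg
  intro p hp
  have h1 : D.W < p := hD.big p (by unfold SD.P; exact Finset.mem_union_left _ hp)
  have h2 : (1 : ℝ) ≤ p := by exact_mod_cast (by omega : 1 ≤ p)
  have h3 : 1 / (p : ℝ) ≤ 1 := by rw [div_le_one (by linarith)]; exact h2
  linarith

theorem Psi_two (L : ℕ) : ∃ B : ℝ, 0 < B ∧ ∀ (D : SD) (CM : ℝ), D.Good CM → D.L = L → 64 * 2 ^ L ≤ D.W →
    ∀ (ι ι' : Type) [Fintype ι] [DecidableEq ι] [Fintype ι'] [DecidableEq ι'] (pos : ι → ℕ) (pos' : ι' → ℕ),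
    Function.Injective (Sum.elim pos pos') → (∀ i, pos i ≤ D.W) → (∀ i, pos' i ≤ D.W) →
    |EM D.Mp (fun n => (D.Psi pos n) ^ 2 * (D.Psi pos' n) ^ 2) - D.Zn ι * D.Zn ι'| ≤
      B / D.W * Real.exp (B * (D.Vs * (Fintype.card ι + Fintype.card ι'))) := by
  classical
  obtain ⟨Kc, hKc, hgen⟩ := gen (8 * 2 ^ L) L 32 (by norm_num)
  refine ⟨max Kc (((L : ℝ) + 1) ^ 2 * ((4 : ℝ) ^ (L + 1)) ^ 4), lt_of_lt_of_le hKc (le_max_left _ _), ?_⟩
  intro D CM hD hL hW ι ι' _ _ _ _ pos pos' hinj hpos hpos'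
  set O := Option (Fin D.L) with hO
  set A : ℝ := ((4 : ℝ) ^ (L + 1)) ^ 4 with hA
  have hA0 : 0 ≤ A := by positivity
  set p : (ι → O) → Prop := fun j => D.Lev j ≤ D.Lam with hp
  set p' : (ι' → O) → Prop := fun j => D.Lev j ≤ D.Lam with hp'
  set q : ι ⊕ ι' → ℕ := Sum.elim pos pos' with hq
  have hVs := T17_Vs_nonneg D CM hD
  have hg := hgen D CM hD hL (by nlinarith) (ι ⊕ ι') q hinj
    (by rintro (i | i)
        · exact hpos i
        · exact hpos' i)
    (ι ⊕ ι' → O × O)
    (fun c => if (p (fun i => (c (Sum.inl i)).1) ∧ p (fun i => (c (Sum.inl i)).2)) ∧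
          (p' (fun i => (c (Sum.inr i)).1) ∧ p' (fun i => (c (Sum.inr i)).2)) then (1 : ℝ) else 0)
    (fun c s S => D.Xf (c s).1 S * D.Xf (c s).2 S)
    (fun c => univ.filter (fun s => c s ≠ (none, none))) A hA0 ?_ ?_ ?_
  · have hmain : ∑ c : ι ⊕ ι' → O × O,
        (if (p (fun i => (c (Sum.inl i)).1) ∧ p (fun i => (c (Sum.inl i)).2)) ∧
          (p' (fun i => (c (Sum.inr i)).1) ∧ p' (fun i => (c (Sum.inr i)).2)) then (1 : ℝ) else 0) *
          ∏ s, E1 D.P (fun S => D.Xf (c s).1 S * D.Xf (c s).2 S) = D.Zn ι * D.Zn ι' := by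
      have h0 := T17_expand p p' (fun _ a b => E1 D.P (fun S => D.Xf a S * D.Xf b S))
      rw [h0]
      have hz : ∀ (κ : Type) [Fintype κ] [DecidableEq κ], (∑ j1 : κ → O, ∑ j2 : κ → O,
          (if D.Lev j1 ≤ D.Lam ∧ D.Lev j2 ≤ D.Lam then
            ∏ i, E1 D.P (fun S => D.Xf (j1 i) S * D.Xf (j2 i) S) else 0)) = D.Zn κ := by
        intro κ _ _
        unfold SD.Zn
        refine Finset.sum_congr rfl fun j1 _ => ?_
        rw [Finset.sum_eq_single j1]
        · simp only [and_self]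
          congr 1
          refine Finset.prod_congr rfl fun i _ => ?_
          rw [E1_Xf_mul D CM hD]
          simp
        · intro j2 _ hj2
          split_ifs
          · obtain ⟨i, hi⟩ := Function.ne_iff.1 hj2
            apply Finset.prod_eq_zero (Finset.mem_univ i)
            rw [E1_Xf_mul D CM hD]
            rw [if_neg (Ne.symm hi)]
          · rfl
        · intro h
          exact absurd (Finset.mem_univ _) h
      simp only [hp, hp']
      congr 1
      · exact hz ι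
      · exact hz ι'
    rw [hmain] at hg
    have hfun : (fun n => (D.Psi pos n) ^ 2 * (D.Psi pos' n) ^ 2) = (fun n => ∑ c : ι ⊕ ι' → O × O,
        (if (p (fun i => (c (Sum.inl i)).1) ∧ p (fun i => (c (Sum.inl i)).2)) ∧
          (p' (fun i => (c (Sum.inr i)).1) ∧ p' (fun i => (c (Sum.inr i)).2)) then (1 : ℝ) else 0) *
          ∏ s, (fun c s S => D.Xf (c s).1 S * D.Xf (c s).2 S : (ι ⊕ ι' → O × O) → ι ⊕ ι' → Finset ℕ → ℝ) c s (hit D.P (n + q s))) := by
      funext n
      have h0 := T17_expand p p' (fun s a b => D.Xf a (hit D.P (n + q s)) * D.Xf b (hit D.P (n + q s)))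
      simp only
      rw [h0]
      have hz : ∀ (κ : Type) [Fintype κ] [DecidableEq κ] (r : κ → ℕ), (∑ j1 : κ → O, ∑ j2 : κ → O,
          (if D.Lev j1 ≤ D.Lam ∧ D.Lev j2 ≤ D.Lam then
            ∏ i, (D.Xf (j1 i) (hit D.P (n + r i)) * D.Xf (j2 i) (hit D.P (n + r i))) else 0)) =
              (D.Psi r n) ^ 2 := by
        intro κ _ _ r
        unfold SD.Psi
        rw [sq, Finset.sum_mul_sum]
        refine Finset.sum_congr rfl fun j1 _ => Finset.sum_congr rfl fun j2 _ => ?_
        rw [Finset.prod_mul_distrib]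
        by_cases h1 : D.Lev j1 ≤ D.Lam
        · by_cases h2 : D.Lev j2 ≤ D.Lam
          · simp [h1, h2]
          · simp [h2]
        · simp [h1]
      rw [← hz ι pos, ← hz ι' pos']
      rfl
    rw [hfun]
    refine hg.trans ?_
    have hWpos : (0 : ℝ) < D.W := by
      have := hD.hW
      exact_mod_cast (by omega : 0 < D.W)
    have hsum : ∑ c : ι ⊕ ι' → O × O,
        |(if (p (fun i => (c (Sum.inl i)).1) ∧ p (fun i => (c (Sum.inl i)).2)) ∧
          (p' (fun i => (c (Sum.inr i)).1) ∧ p' (fun i => (c (Sum.inr i)).2)) then (1 : ℝ) else 0)| *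
          (D.Vs * A) ^ (univ.filter (fun s => c s ≠ ((none, none) : O × O))).card ≤
        Real.exp (Fintype.card (O × O) * (D.Vs * A) * Fintype.card (ι ⊕ ι')) := by
      refine le_trans ?_ (sum_err_le ((none, none) : O × O) (D.Vs * A) (mul_nonneg hVs hA0))
      refine Finset.sum_le_sum fun c _ => ?_
      have h1 : |(if (p (fun i => (c (Sum.inl i)).1) ∧ p (fun i => (c (Sum.inl i)).2)) ∧
          (p' (fun i => (c (Sum.inr i)).1) ∧ p' (fun i => (c (Sum.inr i)).2)) then (1 : ℝ) else 0)| ≤ 1 := by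
        split_ifs <;> simp
      have h2 : 0 ≤ (D.Vs * A) ^ (univ.filter (fun s => c s ≠ ((none, none) : O × O))).card := by positivity
      nlinarith [abs_nonneg (if (p (fun i => (c (Sum.inl i)).1) ∧ p (fun i => (c (Sum.inl i)).2)) ∧
          (p' (fun i => (c (Sum.inr i)).1) ∧ p' (fun i => (c (Sum.inr i)).2)) then (1 : ℝ) else 0)]
    have hcard : (Fintype.card (O × O) : ℝ) = ((L : ℝ) + 1) ^ 2 := by
      have hcO : Fintype.card O = L + 1 := by
        rw [← hL]
        exact Fintype.card_option.trans (by rw [Fintype.card_fin])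
      rw [Fintype.card_prod, hcO]
      push_cast
      ring
    have hcard2 : (Fintype.card (ι ⊕ ι') : ℝ) = Fintype.card ι + Fintype.card ι' := by
      rw [Fintype.card_sum]; push_cast; ring
    set B : ℝ := max Kc (((L : ℝ) + 1) ^ 2 * A) with hB
    have hB1 : Kc ≤ B := le_max_left _ _
    have hB2 : ((L : ℝ) + 1) ^ 2 * A ≤ B := le_max_right _ _
    have hB0 : 0 ≤ B := hKc.le.trans hB1
    have hexp : Real.exp (Fintype.card (O × O) * (D.Vs * A) * Fintype.card (ι ⊕ ι')) ≤
        Real.exp (B * (D.Vs * (Fintype.card ι + Fintype.card ι'))) := by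
      apply Real.exp_le_exp.2
      rw [hcard, hcard2]
      have h3 : 0 ≤ D.Vs * ((Fintype.card ι : ℝ) + Fintype.card ι') := by positivity
      calc ((L : ℝ) + 1) ^ 2 * (D.Vs * A) * ((Fintype.card ι : ℝ) + Fintype.card ι')
          = (((L : ℝ) + 1) ^ 2 * A) * (D.Vs * ((Fintype.card ι : ℝ) + Fintype.card ι')) := by ring
        _ ≤ B * (D.Vs * (Fintype.card ι + Fintype.card ι')) := mul_le_mul_of_nonneg_right hB2 h3
    have hdiv : Kc / D.W ≤ B / D.W := by
      apply div_le_div_of_nonneg_right hB1 hWpos.le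
    exact mul_le_mul hdiv (hsum.trans hexp) (Finset.sum_nonneg fun c _ => by positivity) (by positivity)
  · intro c hc
    have hc' : (p (fun i => (c (Sum.inl i)).1) ∧ p (fun i => (c (Sum.inl i)).2)) ∧
          (p' (fun i => (c (Sum.inr i)).1) ∧ p' (fun i => (c (Sum.inr i)).2)) := by
      by_contra h
      exact hc (if_neg h)
    obtain ⟨⟨h1, h2⟩, h3, h4⟩ := hc'
    have k1 := two_mul_card_le_Lev D (fun i => (c (Sum.inl i)).1)
    have k2 := two_mul_card_le_Lev D (fun i => (c (Sum.inl i)).2)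
    have k3 := two_mul_card_le_Lev D (fun i => (c (Sum.inr i)).1)
    have k4 := two_mul_card_le_Lev D (fun i => (c (Sum.inr i)).2)
    simp only [hp, hp'] at h1 h2 h3 h4
    have hsub : (univ.filter (fun s => c s ≠ ((none, none) : O × O))) ⊆
        (((univ.filter (fun i => (c (Sum.inl i)).1 ≠ none)).map ⟨Sum.inl, Sum.inl_injective⟩ ∪
         (univ.filter (fun i => (c (Sum.inl i)).2 ≠ none)).map ⟨Sum.inl, Sum.inl_injective⟩) ∪
        ((univ.filter (fun i => (c (Sum.inr i)).1 ≠ none)).map ⟨Sum.inr, Sum.inr_injective⟩ ∪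
         (univ.filter (fun i => (c (Sum.inr i)).2 ≠ none)).map ⟨Sum.inr, Sum.inr_injective⟩)) := by
      intro s hs
      rw [Finset.mem_filter] at hs
      have hs2 : (c s).1 ≠ none ∨ (c s).2 ≠ none := by
        by_contra h
        push Not at h
        exact hs.2 (Prod.ext h.1 h.2)
      rcases s with i | i
      · rcases hs2 with h | h
        · simp [h]
        · simp [h]
      · rcases hs2 with h | h
        · simp [h]
        · simp [h]
    have hcard := Finset.card_le_card hsub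
    have hu1 := Finset.card_union_le (((univ.filter (fun i => (c (Sum.inl i)).1 ≠ none)).map ⟨Sum.inl, Sum.inl_injective⟩ ∪
         (univ.filter (fun i => (c (Sum.inl i)).2 ≠ none)).map ⟨Sum.inl, Sum.inl_injective⟩) : Finset (ι ⊕ ι'))
        ((univ.filter (fun i => (c (Sum.inr i)).1 ≠ none)).map ⟨Sum.inr, Sum.inr_injective⟩ ∪
         (univ.filter (fun i => (c (Sum.inr i)).2 ≠ none)).map ⟨Sum.inr, Sum.inr_injective⟩)
    have hu2 := Finset.card_union_le ((univ.filter (fun i => (c (Sum.inl i)).1 ≠ none)).map ⟨Sum.inl, Sum.inl_injective⟩ : Finset (ι ⊕ ι'))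
         ((univ.filter (fun i => (c (Sum.inl i)).2 ≠ none)).map ⟨Sum.inl, Sum.inl_injective⟩)
    have hu3 := Finset.card_union_le ((univ.filter (fun i => (c (Sum.inr i)).1 ≠ none)).map ⟨Sum.inr, Sum.inr_injective⟩ : Finset (ι ⊕ ι'))
         ((univ.filter (fun i => (c (Sum.inr i)).2 ≠ none)).map ⟨Sum.inr, Sum.inr_injective⟩)
    simp only [Finset.card_map] at hu1 hu2 hu3
    have hLam : D.Lam = 4 * 2 ^ L := by unfold SD.Lam; rw [hL]
    rw [hLam] at h1 h2 h3 h4
    have hP : 0 < 2 ^ L := by positivity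
    omega
  · intro c _ s hs
    rw [Finset.mem_filter] at hs
    have hs2 : c s = (none, none) := by
      by_contra h
      exact hs ⟨Finset.mem_univ _, h⟩
    funext S
    simp only [hs2]
    unfold SD.Xf
    norm_num
  · intro c _ s hs
    rw [Finset.mem_filter] at hs
    have := Xf_mul_isLoc D CM hD (c s).1 (c s).2 (by simpa using hs.2)
    rw [hL] at this
    exact this

end SD
end Crest.Agent.PG
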