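import Crest.Agent.PG_N9
import Crest.Agent.PG_T17
import Crest.Agent.PG_T18
/-!
# PG-F3 (S0021): decorrelation of the weight at distance `d > w0`

For `n % Q = b`, `S = Hs b`, `S' = Hs (b+d)` (`Hs_mod`, `Hs_mod_add`):
`(wt n - gm n)(wt (n+d) - gm (n+d)) = Φ b n`, `Φ b n = (wtS K S n - gmS K S)(wtS K S' (n+d) - gmS K S')`.
If `S` or `S'` has more than `K` elements this is `0`.  Otherwise with `pos = id` on `S`, `pos' = d + ·` on `S'`
(disjoint ranges: `[1,w0]` and `[d+1,d+w0]`, `d > w0`; all `≤ HH + w0 ≤ W`), `Psi_two` and `Psi_sq` (for `S`, `S'`) give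
`|EM Mp (Φ b)| ≤ 3 (B/W) exp(2 B κ)`, → 0 (`W_large`).  `Psi (id) (n+d) = Psi (d + ·) n`.
`LL` norm `≤ (NB^2+1)^2 ≤ (1+NB)^4`; `engine` with `E = 0`; `norm_small`.
-/
set_option autoImplicit false
namespace Crest.Agent.PG
open Finset Filter

theorem F3_gmS_of_le (K : ℝ) (S : Finset ℕ) (h : (S.card : ℝ) ≤ K) : SD.gmS K S = 1 := by
  unfold SD.gmS; rw [if_pos h]

theorem F3_gmS_of_lt (K : ℝ) (S : Finset ℕ) (h : ¬ (S.card : ℝ) ≤ K) : SD.gmS K S = 0 := by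
  unfold SD.gmS; rw [if_neg h]

theorem F3_gmS_abs (K : ℝ) (S : Finset ℕ) : |SD.gmS K S| ≤ 1 := by
  unfold SD.gmS; split_ifs <;> simp

theorem F3_LL_dev (D : SD) (CM : ℝ) (hD : D.Good CM) (K : ℝ) (hK : 0 ≤ K) (S : Finset ℕ) :
    LL (fun n => D.wtS K S n - SD.gmS K S) (D.NB ⌊K⌋₊ ^ 2 + 1) := by
  have h1 := D.LL_wtS CM hD K hK S
  have h2 : LL (fun _ => SD.gmS K S) 1 := LL_mono (LL_const _) (F3_gmS_abs K S)
  exact LL_sub h1 h2

/-- the main term for two sets of positions -/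
theorem F3_EM (D : SD) (CM : ℝ) (hD : D.Good CM) (K : ℝ) (S S' : Finset ℕ) (w d : ℕ)
    (hS : ∀ h ∈ S, h ≤ w) (hS' : ∀ h ∈ S', 1 ≤ h ∧ h ≤ w) (hwd : w < d) (hdw : d + w ≤ D.W)
    (B κ : ℝ) (hB : 0 ≤ B) (hκ : D.Vs * K ≤ κ) (hVs : 0 ≤ D.Vs) (hW : 0 < (D.W : ℝ))
    (hsq : ∀ (ι : Type) [Fintype ι] [DecidableEq ι] (pos : ι → ℕ), Function.Injective pos →
      (∀ i, pos i ≤ D.W) →
      |EM D.Mp (fun n => (D.Psi pos n) ^ 2) - D.Zn ι| ≤ B / D.W * Real.exp (B * (D.Vs * Fintype.card ι)))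
    (htwo : ∀ (ι ι' : Type) [Fintype ι] [DecidableEq ι] [Fintype ι'] [DecidableEq ι']
      (pos : ι → ℕ) (pos' : ι' → ℕ),
      Function.Injective (Sum.elim pos pos') → (∀ i, pos i ≤ D.W) → (∀ i, pos' i ≤ D.W) →
      |EM D.Mp (fun n => (D.Psi pos n) ^ 2 * (D.Psi pos' n) ^ 2) - D.Zn ι * D.Zn ι'| ≤
        B / D.W * Real.exp (B * (D.Vs * (Fintype.card ι + Fintype.card ι')))) :
    |EM D.Mp (fun n => (D.wtS K S n - SD.gmS K S) * (D.wtS K S' (n + d) - SD.gmS K S'))| ≤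
      3 * (B / D.W * Real.exp (B * (2 * κ))) := by
  have hpos : 0 ≤ 3 * (B / D.W * Real.exp (B * (2 * κ))) := by positivity
  have hMp : 0 < D.Mp := D.Mp_pos CM hD
  by_cases h1 : (S.card : ℝ) ≤ K
  swap
  · have : (fun n => (D.wtS K S n - SD.gmS K S) * (D.wtS K S' (n + d) - SD.gmS K S')) =
        fun _ => (0 : ℝ) := by
      funext n
      rw [F3_gmS_of_lt K S h1]
      unfold SD.wtS
      rw [if_neg h1]
      ring
    rw [this, EM_const _ hMp, abs_zero]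
    exact hpos
  by_cases h2 : (S'.card : ℝ) ≤ K
  swap
  · have : (fun n => (D.wtS K S n - SD.gmS K S) * (D.wtS K S' (n + d) - SD.gmS K S')) =
        fun _ => (0 : ℝ) := by
      funext n
      rw [F3_gmS_of_lt K S' h2]
      have : D.wtS K S' (n + d) = 0 := by
        unfold SD.wtS
        rw [if_neg h2]
      rw [this]
      ring
    rw [this, EM_const _ hMp, abs_zero]
    exact hpos
  -- the two amplitudes
  have hZ : 1 ≤ D.Zn ↥S := D.one_le_Zn CM hD ↥S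
  have hZ' : 1 ≤ D.Zn ↥S' := D.one_le_Zn CM hD ↥S'
  set pos : ↥S → ℕ := fun h => (h : ℕ) with hpos_def
  set pos' : ↥S' → ℕ := fun h => d + (h : ℕ) with hpos'_def
  have hshift : ∀ n, D.Psi (fun h : ↥S' => (h : ℕ)) (n + d) = D.Psi pos' n := by
    intro n
    unfold SD.Psi
    simp only [hpos'_def, add_assoc]
  have hw1 : ∀ n, D.wtS K S n = (D.Psi pos n) ^ 2 / D.Zn ↥S := by
    intro n
    unfold SD.wtS
    rw [if_pos h1]
  have hw2 : ∀ n, D.wtS K S' (n + d) = (D.Psi pos' n) ^ 2 / D.Zn ↥S' := by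
    intro n
    unfold SD.wtS
    rw [if_pos h2, hshift]
  have hinj : Function.Injective (Sum.elim pos pos') := by
    rintro (a | a) (b | b) hab
    · simp only [Sum.elim_inl, hpos_def] at hab
      rw [Subtype.ext hab]
    · exfalso
      simp only [Sum.elim_inl, Sum.elim_inr, hpos_def, hpos'_def] at hab
      have := hS a a.2
      omega
    · exfalso
      simp only [Sum.elim_inl, Sum.elim_inr, hpos_def, hpos'_def] at hab
      have := hS b b.2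
      omega
    · simp only [Sum.elim_inr, hpos'_def] at hab
      have : (a : ℕ) = b := by omega
      rw [Subtype.ext this]
  have hi1 : Function.Injective pos := fun a b hab => Subtype.ext hab
  have hi2 : Function.Injective pos' := by
    intro a b hab
    simp only [hpos'_def] at hab
    exact Subtype.ext (by omega)
  have hb1 : ∀ i, pos i ≤ D.W := fun i => by
    have := hS i i.2
    simp only [hpos_def]; omega
  have hb2 : ∀ i, pos' i ≤ D.W := fun i => by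
    have := (hS' i i.2).2
    simp only [hpos'_def]; omega
  have e1 := hsq ↥S pos hi1 hb1
  have e2 := hsq ↥S' pos' hi2 hb2
  have e3 := htwo ↥S ↥S' pos pos' hinj hb1 hb2
  rw [Fintype.card_coe] at e1 e2
  rw [Fintype.card_coe, Fintype.card_coe] at e3
  set err := B / D.W * Real.exp (B * (2 * κ)) with herr
  have herr0 : 0 ≤ err := by positivity
  have hκ0 : 0 ≤ D.Vs * K := mul_nonneg hVs (le_trans (Nat.cast_nonneg _) h1)
  have hc1 : D.Vs * S.card ≤ κ := le_trans (mul_le_mul_of_nonneg_left h1 hVs) hκ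
  have hc2 : D.Vs * S'.card ≤ κ := le_trans (mul_le_mul_of_nonneg_left h2 hVs) hκ
  have hexp : ∀ x : ℝ, x ≤ 2 * κ → B / D.W * Real.exp (B * x) ≤ err := by
    intro x hx
    exact mul_le_mul_of_nonneg_left (Real.exp_le_exp.2 (mul_le_mul_of_nonneg_left hx hB))
      (by positivity)
  have f1 : |EM D.Mp (fun n => (D.Psi pos n) ^ 2) - D.Zn ↥S| ≤ err :=
    le_trans e1 (hexp _ (by linarith))
  have f2 : |EM D.Mp (fun n => (D.Psi pos' n) ^ 2) - D.Zn ↥S'| ≤ err :=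
    le_trans e2 (hexp _ (by linarith))
  have f3 : |EM D.Mp (fun n => (D.Psi pos n) ^ 2 * (D.Psi pos' n) ^ 2) - D.Zn ↥S * D.Zn ↥S'| ≤ err :=
    le_trans e3 (hexp _ (by rw [mul_add]; linarith))
  have hZp : 0 < D.Zn ↥S := by linarith
  have hZp' : 0 < D.Zn ↥S' := by linarith
  -- the algebra
  have hfun : (fun n => (D.wtS K S n - SD.gmS K S) * (D.wtS K S' (n + d) - SD.gmS K S')) =
      fun n => ((D.Zn ↥S * D.Zn ↥S')⁻¹ * ((D.Psi pos n) ^ 2 * (D.Psi pos' n) ^ 2) -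
        (D.Zn ↥S)⁻¹ * (D.Psi pos n) ^ 2) - ((D.Zn ↥S')⁻¹ * (D.Psi pos' n) ^ 2 - 1) := by
    funext n
    rw [F3_gmS_of_le K S h1, F3_gmS_of_le K S' h2, hw1, hw2]
    field_simp
  rw [hfun, EM_sub, EM_sub, EM_sub, EM_const_mul, EM_const_mul, EM_const_mul, EM_const _ hMp]
  set E3 := EM D.Mp (fun n => (D.Psi pos n) ^ 2 * (D.Psi pos' n) ^ 2)
  set E1' := EM D.Mp (fun n => (D.Psi pos n) ^ 2)
  set E2' := EM D.Mp (fun n => (D.Psi pos' n) ^ 2)
  have g1 : |(D.Zn ↥S)⁻¹ * E1' - 1| ≤ err := by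
    have : (D.Zn ↥S)⁻¹ * E1' - 1 = (D.Zn ↥S)⁻¹ * (E1' - D.Zn ↥S) := by field_simp
    rw [this, abs_mul, abs_of_pos (inv_pos.2 hZp)]
    calc (D.Zn ↥S)⁻¹ * |E1' - D.Zn ↥S| ≤ 1 * err :=
          mul_le_mul (inv_le_one_of_one_le₀ hZ) f1 (abs_nonneg _) zero_le_one
      _ = err := one_mul _
  have g2 : |(D.Zn ↥S')⁻¹ * E2' - 1| ≤ err := by
    have : (D.Zn ↥S')⁻¹ * E2' - 1 = (D.Zn ↥S')⁻¹ * (E2' - D.Zn ↥S') := by field_simp
    rw [this, abs_mul, abs_of_pos (inv_pos.2 hZp')]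
    calc (D.Zn ↥S')⁻¹ * |E2' - D.Zn ↥S'| ≤ 1 * err :=
          mul_le_mul (inv_le_one_of_one_le₀ hZ') f2 (abs_nonneg _) zero_le_one
      _ = err := one_mul _
  have hZZ : 1 ≤ D.Zn ↥S * D.Zn ↥S' := one_le_mul_of_one_le_of_one_le hZ hZ'
  have hZZp : 0 < D.Zn ↥S * D.Zn ↥S' := by positivity
  have g3 : |(D.Zn ↥S * D.Zn ↥S')⁻¹ * E3 - 1| ≤ err := by
    have : (D.Zn ↥S * D.Zn ↥S')⁻¹ * E3 - 1 =
        (D.Zn ↥S * D.Zn ↥S')⁻¹ * (E3 - D.Zn ↥S * D.Zn ↥S') := by field_simp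
    rw [this, abs_mul, abs_of_pos (inv_pos.2 hZZp)]
    calc (D.Zn ↥S * D.Zn ↥S')⁻¹ * |E3 - D.Zn ↥S * D.Zn ↥S'| ≤ 1 * err :=
          mul_le_mul (inv_le_one_of_one_le₀ hZZ) f3 (abs_nonneg _) zero_le_one
      _ = err := one_mul _
  rw [abs_le] at g1 g2 g3 ⊢
  constructor <;> linarith [g1.1, g1.2, g2.1, g2.2, g3.1, g3.2]

set_option maxHeartbeats 1000000 in
theorem F_corr (C Dd T : ℝ) (L k : ℕ) (hC : 1 ≤ C) (hDd : 1 ≤ Dd) (hT : 1 ≤ T) (hL : 1 ≤ L) (hk : 10 ≤ k)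
    (hLk : (L : ℝ) * (Real.exp 17 / 16 ^ k) ≤ 1 / 10) (ε : ℝ) (hε : 0 < ε) :
    ∀ᶠ X : ℕ in atTop, ∀ Y d : ℕ, w0 C X < d → d ≤ HH Dd X →
      |∑ n ∈ Ioc Y (Y + 2 * X),
        ((mkSD C Dd L k X).wt (w0 C X) (Kmx C T X) n - (mkSD C Dd L k X).gm (w0 C X) (Kmx C T X) n) *
        ((mkSD C Dd L k X).wt (w0 C X) (Kmx C T X) (n + d) - (mkSD C Dd L k X).gm (w0 C X) (Kmx C T X) (n + d))| ≤
        ε * X := by
  obtain ⟨CM, hCM, hgood⟩ := mkSD_good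
  obtain ⟨B1, hB1, hsq⟩ := SD.Psi_sq L
  obtain ⟨B2, hB2, htwo⟩ := SD.Psi_two L
  set B := max B1 B2 with hBdef
  have hB : 0 < B := lt_max_of_lt_left hB1
  set κ : ℝ := 1280 * T * C * k * 2 ^ L with hκdef
  set K0 : ℝ := max (64 * 2 ^ L) (12 * B * Real.exp (B * (2 * κ)) / ε) with hK0
  filter_upwards [hgood C Dd L k hC hDd hL hk hLk, kappa_le C Dd T L k hC hDd hT hL hk,
    W_large C Dd L k hC hDd K0, norm_small C Dd T L k hC hDd hT hL hk (ε / 2) (by positivity),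
    w0_HH_small C Dd hC hDd] with X hG hκ hW hN hw Y d hd1 hd2
  set D := mkSD C Dd L k X with hD
  obtain ⟨hw1, hw2, hw3, hw4, hw5, hw6, hw7, hw8⟩ := hw
  set K := Kmx C T X with hKdef
  have hDL : D.L = L := rfl
  have hDW : D.W = 2 * HH Dd X + w0 C X := rfl
  have hK : 0 ≤ K := by
    rw [hKdef]; unfold Kmx; positivity
  have hWpos : 0 < (D.W : ℝ) := by
    have : (0 : ℝ) < 64 * 2 ^ L := by positivity
    exact lt_of_lt_of_le (lt_of_lt_of_le this (le_max_left _ _)) hW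
  have hW64 : 64 * 2 ^ L ≤ D.W := by
    have : (64 * 2 ^ L : ℝ) ≤ D.W := le_trans (le_max_left _ _) hW
    exact_mod_cast this
  have hVs : 0 ≤ D.Vs := by
    unfold SD.Vs
    refine Finset.prod_nonneg fun p hp => ?_
    have hp' : p.Prime := hG.prime p (by
      unfold SD.P
      exact Finset.mem_union_left _ hp)
    have : (1 : ℝ) ≤ p := by exact_mod_cast hp'.one_lt.le
    have : 1 / (p : ℝ) ≤ 1 := by
      rw [div_le_one (by linarith)]; exact this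
    linarith
  have hsq' : ∀ (ι : Type) [Fintype ι] [DecidableEq ι] (pos : ι → ℕ), Function.Injective pos →
      (∀ i, pos i ≤ D.W) →
      |EM D.Mp (fun n => (D.Psi pos n) ^ 2) - D.Zn ι| ≤
        B / D.W * Real.exp (B * (D.Vs * Fintype.card ι)) := by
    intro ι _ _ pos h1 h2
    refine le_trans (hsq D CM hG hDL hW64 ι pos h1 h2) ?_
    have h3 : 0 ≤ D.Vs * (Fintype.card ι : ℝ) := by positivity
    gcongr
    · exact le_max_left _ _
    · exact le_max_left _ _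
  have htwo' : ∀ (ι ι' : Type) [Fintype ι] [DecidableEq ι] [Fintype ι'] [DecidableEq ι']
      (pos : ι → ℕ) (pos' : ι' → ℕ),
      Function.Injective (Sum.elim pos pos') → (∀ i, pos i ≤ D.W) → (∀ i, pos' i ≤ D.W) →
      |EM D.Mp (fun n => (D.Psi pos n) ^ 2 * (D.Psi pos' n) ^ 2) - D.Zn ι * D.Zn ι'| ≤
        B / D.W * Real.exp (B * (D.Vs * (Fintype.card ι + Fintype.card ι'))) := by
    intro ι ι' _ _ _ _ pos pos' h1 h2 h3
    refine le_trans (htwo D CM hG hDL hW64 ι ι' pos pos' h1 h2 h3) ?_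
    have h4 : 0 ≤ D.Vs * ((Fintype.card ι : ℝ) + Fintype.card ι') := by positivity
    gcongr
    · exact le_max_right _ _
    · exact le_max_right _ _
  set Φ : ℕ → ℕ → ℝ := fun b n => (D.wtS K (D.Hs (w0 C X) b) n - SD.gmS K (D.Hs (w0 C X) b)) *
    (D.wtS K (D.Hs (w0 C X) (b + d)) (n + d) - SD.gmS K (D.Hs (w0 C X) (b + d))) with hΦ
  have hEM : ∀ b < D.Q, |EM D.Mp (Φ b) - 0| ≤ 3 * (B / D.W * Real.exp (B * (2 * κ))) := by
    intro b _
    rw [sub_zero]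
    refine F3_EM D CM hG K _ _ (w0 C X) d ?_ ?_ hd1 ?_ B κ hB.le hκ hVs hWpos hsq' htwo'
    · intro h hh
      exact (Finset.mem_Icc.1 (Finset.mem_filter.1 hh).1).2
    · intro h hh
      exact Finset.mem_Icc.1 (Finset.mem_filter.1 hh).1
    · rw [hDW]; omega
  have hper : ∀ b < D.Q, ∀ n, Φ b (n + D.Mp) = Φ b n := by
    intro b _ n
    simp only [hΦ]
    rw [D.wtS_periodic, show n + D.Mp + d = n + d + D.Mp by ring, D.wtS_periodic]
  have hLL : ∀ b < D.Q, LL (Φ b) ((D.NB ⌊K⌋₊ ^ 2 + 1) * (D.NB ⌊K⌋₊ ^ 2 + 1)) := by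
    intro b _
    exact LL_mul (F3_LL_dev D CM hG K hK _) (LL_shift (F3_LL_dev D CM hG K hK (D.Hs (w0 C X) (b + d))) d)
  have hmain := D.engine CM hG Φ _ hper hLL 0 _ hEM Y (2 * X)
  rw [mul_zero, sub_zero] at hmain
  have hsum : ∑ n ∈ Ioc Y (Y + 2 * X),
        (D.wt (w0 C X) K n - D.gm (w0 C X) K n) * (D.wt (w0 C X) K (n + d) - D.gm (w0 C X) K (n + d)) =
      ∑ n ∈ Ioc Y (Y + 2 * X), Φ (n % D.Q) n := by
    refine Finset.sum_congr rfl fun n _ => ?_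
    simp only [hΦ]
    rw [D.Hs_mod, D.Hs_mod_add]
    rfl
  rw [hsum]
  refine le_trans hmain ?_
  -- error terms
  have hNB := D.one_le_NB CM hG ⌊K⌋₊
  have hN' := hN ⌊K⌋₊ (Nat.floor_le hK)
  have hz : 1 ≤ D.z ^ ((4 * k + 4) * 2 ^ L) := one_le_pow₀ hG.hz
  have hX0 : (0 : ℝ) ≤ X := Nat.cast_nonneg X
  have hlog : 1 ≤ (Real.log X) ^ 2 := one_le_pow₀ hw7
  have hq1 : (D.Q : ℝ) * ((D.NB ⌊K⌋₊ ^ 2 + 1) * (D.NB ⌊K⌋₊ ^ 2 + 1)) ≤ ε / 2 * X := by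
    calc (D.Q : ℝ) * ((D.NB ⌊K⌋₊ ^ 2 + 1) * (D.NB ⌊K⌋₊ ^ 2 + 1))
        ≤ (D.Q : ℝ) * (1 + D.NB ⌊K⌋₊) ^ 4 := by
          refine mul_le_mul_of_nonneg_left ?_ (Nat.cast_nonneg _)
          have : D.NB ⌊K⌋₊ ^ 2 + 1 ≤ (1 + D.NB ⌊K⌋₊) ^ 2 := by nlinarith
          calc (D.NB ⌊K⌋₊ ^ 2 + 1) * (D.NB ⌊K⌋₊ ^ 2 + 1)
              ≤ (1 + D.NB ⌊K⌋₊) ^ 2 * (1 + D.NB ⌊K⌋₊) ^ 2 :=
                mul_le_mul this this (by positivity) (by positivity)
            _ = _ := by ring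
      _ ≤ (D.Q : ℝ) * (((w0 C X : ℝ) + 1) * (1 + D.NB ⌊K⌋₊) ^ 4 * D.z ^ ((4 * k + 4) * 2 ^ L)) := by
          refine mul_le_mul_of_nonneg_left ?_ (Nat.cast_nonneg _)
          have h5 : (0 : ℝ) ≤ w0 C X := Nat.cast_nonneg _
          have h6 : 0 ≤ (1 + D.NB ⌊K⌋₊) ^ 4 := by positivity
          calc (1 + D.NB ⌊K⌋₊) ^ 4 = 1 * (1 + D.NB ⌊K⌋₊) ^ 4 * 1 := by ring
            _ ≤ ((w0 C X : ℝ) + 1) * (1 + D.NB ⌊K⌋₊) ^ 4 * D.z ^ ((4 * k + 4) * 2 ^ L) := by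
              refine mul_le_mul ?_ hz zero_le_one (by positivity)
              exact mul_le_mul_of_nonneg_right (by linarith) h6
      _ ≤ ε / 2 * X / (Real.log X) ^ 2 := hN'
      _ ≤ ε / 2 * X := div_le_self (by positivity) hlog
  have hq2 : ((2 * X : ℕ) : ℝ) * (3 * (B / D.W * Real.exp (B * (2 * κ)))) ≤ ε / 2 * X := by
    have h7 : 12 * B * Real.exp (B * (2 * κ)) / ε ≤ D.W := le_trans (le_max_right _ _) hW
    rw [div_le_iff₀ hε] at h7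
    have h8 : B / D.W * Real.exp (B * (2 * κ)) ≤ ε / 12 := by
      rw [div_mul_eq_mul_div, div_le_iff₀ hWpos]
      linarith
    have h9 : (X : ℝ) * (6 * (B / D.W * Real.exp (B * (2 * κ)))) ≤ X * (6 * (ε / 12)) :=
      mul_le_mul_of_nonneg_left (mul_le_mul_of_nonneg_left h8 (by norm_num)) hX0
    calc ((2 * X : ℕ) : ℝ) * (3 * (B / D.W * Real.exp (B * (2 * κ))))
        = (X : ℝ) * (6 * (B / D.W * Real.exp (B * (2 * κ)))) := by push_cast; ring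
      _ ≤ X * (6 * (ε / 12)) := h9
      _ = ε / 2 * X := by ring
  calc _ ≤ ε / 2 * X + ε / 2 * X := add_le_add hq2 hq1
    _ = ε * X := by ring

end Crest.Agent.PG
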