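import Crest.Agent.PG_T14
/-!
# PG-T15 (S0021): the main estimate (prime at position `h0`)

For fixed `h0`: `Psit h0 ² · Gf(n+pos h0) = ∑_{(j,j'), j h0 = j' h0 = none} br br' ∏_i φ_i`, with
`φ_i = Xf (j i) Xf (j' i)` for `i ≠ h0` and `φ_{h0} = Gf`.  `gen` (m = 4·2^L+1) and `E1_Xf_mul`: main term
`E1 Gf · ∑_{j h0 = none, Lev j ≤ Lam} br(Lev j)² ∏_{i} sg (j i)` (note `sg none = 1`)
`≤ E1 Gf · ∑_{3·2^L < Lev j ≤ Lam} ∏ sg (j i) ≤ 4 CM Vs 2^{-L} · |ι|/(3·2^L) · (∑_a lev a sg a) · Zn`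
(`br_eq_zero`, `0 ≤ br ≤ 1`, `level_markov`), and `∑_a lev (some a) sg (some a) ≤ 128 CM Vs / L` by `sg_le`.
Sum over `h0 ∈ ι`.  Error for one `h0`: `(Kc/W) (Vs A) exp((L+1)² A Vs |ι|)`; sum over `h0`: use `x ≤ exp x`.
(The value `512/3 ≤ 171`.)
-/
set_option autoImplicit false
namespace Crest.Agent.PG
open Finset
namespace SD

theorem sum_lev_sg_le (D : SD) (CM : ℝ) (hD : D.Good CM) :
    ∑ a : Fin D.L, (D.lev (some a) : ℝ) * D.sg (some a) ≤ 128 * CM * D.Vs / D.L := by
  have hL : (0 : ℝ) < D.L := by exact_mod_cast (lt_of_lt_of_le one_pos hD.hL)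
  have h1 : ∀ a ∈ (univ : Finset (Fin D.L)), (D.lev (some a) : ℝ) * D.sg (some a) ≤
      128 * CM * D.Vs / (D.L : ℝ) ^ 2 := by
    intro a _
    have h2 := sg_le D CM hD a
    have h3 : (D.lev (some a) : ℝ) = 2 * 2 ^ (a : ℕ) := by
      show ((2 ^ (a.val + 1) : ℕ) : ℝ) = _
      push_cast
      ring
    rw [h3]
    have h4 : (0 : ℝ) ≤ 2 * 2 ^ (a : ℕ) := by positivity
    refine (mul_le_mul_of_nonneg_left h2 h4).trans (le_of_eq ?_)
    have h5 : (2 : ℝ) ^ (a : ℕ) * (1 / 2) ^ (a : ℕ) = 1 := by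
      rw [← mul_pow]; norm_num
    calc 2 * 2 ^ (a : ℕ) * (64 * CM * D.Vs * (1 / 2) ^ (a : ℕ) / (D.L : ℝ) ^ 2)
        = 128 * CM * D.Vs / (D.L : ℝ) ^ 2 * ((2 : ℝ) ^ (a : ℕ) * (1 / 2) ^ (a : ℕ)) := by ring
      _ = _ := by rw [h5, mul_one]
  refine (Finset.sum_le_sum h1).trans (le_of_eq ?_)
  rw [Finset.sum_const, Finset.card_univ, Fintype.card_fin, nsmul_eq_mul]
  field_simp

section core
variable (D : SD) {ι : Type} [Fintype ι] [DecidableEq ι]

/-- coefficients -/
noncomputable def T15al (h0 : ι) (c : (ι → Option (Fin D.L)) × (ι → Option (Fin D.L))) : ℝ :=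
  (if c.1 h0 = none ∧ D.Lev c.1 ≤ D.Lam then D.br (D.Lev c.1) else 0) *
    (if c.2 h0 = none ∧ D.Lev c.2 ≤ D.Lam then D.br (D.Lev c.2) else 0)

/-- local functions -/
noncomputable def T15ph (h0 : ι) (c : (ι → Option (Fin D.L)) × (ι → Option (Fin D.L))) (i : ι) :
    Finset ℕ → ℝ :=
  if i = h0 then D.Gf else fun S => D.Xf (c.1 i) S * D.Xf (c.2 i) S

/-- nontrivial positions -/
def T15N (c : (ι → Option (Fin D.L)) × (ι → Option (Fin D.L))) : Finset ι :=
  univ.filter (fun i => (c.1 i, c.2 i) ≠ (none, none))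

/-- active positions -/
def T15U (h0 : ι) (c : (ι → Option (Fin D.L)) × (ι → Option (Fin D.L))) : Finset ι :=
  insert h0 (T15N D c)

theorem T15al_ne {h0 : ι} {c : (ι → Option (Fin D.L)) × (ι → Option (Fin D.L))}
    (h : D.T15al h0 c ≠ 0) : (c.1 h0 = none ∧ D.Lev c.1 ≤ D.Lam) ∧
      (c.2 h0 = none ∧ D.Lev c.2 ≤ D.Lam) := by
  unfold T15al at h
  constructor
  · by_contra h1
    rw [if_neg h1, zero_mul] at h
    exact h rfl
  · by_contra h1
    rw [if_neg h1, mul_zero] at h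
    exact h rfl

theorem T15al_abs (h0 : ι) (c : (ι → Option (Fin D.L)) × (ι → Option (Fin D.L))) :
    |D.T15al h0 c| ≤ 1 := by
  unfold T15al
  rw [abs_mul]
  have h1 : ∀ (p : Prop) [Decidable p] (s : ℕ), |if p then D.br s else 0| ≤ 1 := by
    intro p _ s
    split_ifs
    · rw [abs_of_nonneg (br_nonneg D s)]
      exact br_le_one D s
    · simp
  exact mul_le_one₀ (h1 _ _) (abs_nonneg _) (h1 _ _)

theorem T15_ptw (h0 : ι) (x : ι → Finset ℕ) :
    ∑ c, D.T15al h0 c * ∏ i, D.T15ph h0 c i (x i) =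
      (∑ j : ι → Option (Fin D.L), if j h0 = none ∧ D.Lev j ≤ D.Lam then
        D.br (D.Lev j) * ∏ i, D.Xf (j i) (x i) else 0) ^ 2 * D.Gf (x h0) := by
  rw [sq, Finset.sum_mul_sum, Fintype.sum_prod_type, Finset.sum_mul]
  refine Finset.sum_congr rfl fun j _ => ?_
  rw [Finset.sum_mul]
  refine Finset.sum_congr rfl fun j' _ => ?_
  by_cases h1 : j h0 = none ∧ D.Lev j ≤ D.Lam
  · by_cases h2 : j' h0 = none ∧ D.Lev j' ≤ D.Lam
    · have h3 : D.T15al h0 (j, j') = D.br (D.Lev j) * D.br (D.Lev j') := by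
        unfold T15al
        rw [if_pos h1, if_pos h2]
      rw [h3, if_pos h1, if_pos h2]
      have h4 : ∀ i, D.T15ph h0 (j, j') i (x i) = (if i = h0 then D.Gf (x i) else 1) *
          (D.Xf (j i) (x i) * D.Xf (j' i) (x i)) := by
        intro i
        unfold T15ph
        by_cases hi : i = h0
        · subst hi
          rw [if_pos rfl, if_pos rfl]
          simp only [h1.1, h2.1]
          show D.Gf (x i) = D.Gf (x i) * (1 * 1)
          ring
        · rw [if_neg hi, if_neg hi, one_mul]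
      rw [Finset.prod_congr rfl fun i _ => h4 i, Finset.prod_mul_distrib, Finset.prod_mul_distrib,
        Finset.prod_ite_eq' univ h0 (fun i => D.Gf (x i)), if_pos (mem_univ _)]
      ring
    · have h3 : D.T15al h0 (j, j') = 0 := by
        by_contra h3
        exact h2 (D.T15al_ne h3).2
      rw [h3, if_neg h2]
      ring
  · have h3 : D.T15al h0 (j, j') = 0 := by
      by_contra h3
      exact h1 (D.T15al_ne h3).1
    rw [h3, if_neg h1]
    ring

theorem T15_main (CM : ℝ) (hD : D.Good CM) (h0 : ι) :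
    ∑ c, D.T15al h0 c * ∏ i, E1 D.P (D.T15ph h0 c i) ≤
      E1 D.P D.Gf * ∑ j : ι → Option (Fin D.L),
        (if 3 * 2 ^ D.L < D.Lev j ∧ D.Lev j ≤ D.Lam then ∏ i, D.sg (j i) else 0) := by
  have hG := E1_Gf_nonneg D CM hD
  have h1 : ∀ j j' : ι → Option (Fin D.L), D.T15al h0 (j, j') * ∏ i, E1 D.P (D.T15ph h0 (j, j') i) =
      if j' = j then D.T15al h0 (j, j) * (E1 D.P D.Gf * ∏ i, D.sg (j i)) else 0 := by
    intro j j'
    by_cases h2 : D.T15al h0 (j, j') = 0
    · rw [h2, zero_mul]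
      split_ifs with h3
      · subst h3
        rw [h2, zero_mul]
      · rfl
    · obtain ⟨ha, hb⟩ := D.T15al_ne h2
      have h4 : ∀ i, E1 D.P (D.T15ph h0 (j, j') i) = (if i = h0 then E1 D.P D.Gf else 1) *
          (if j i = j' i then D.sg (j i) else 0) := by
        intro i
        unfold T15ph
        by_cases hi : i = h0
        · subst hi
          rw [if_pos rfl, if_pos rfl]
          have e1 : j i = none := ha.1
          have e2 : j' i = none := hb.1
          rw [e1, e2, if_pos rfl, sg_none D CM hD, mul_one]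
        · rw [if_neg hi, if_neg hi, one_mul]
          exact E1_Xf_mul D CM hD (j i) (j' i)
      rw [Finset.prod_congr rfl fun i _ => h4 i, Finset.prod_mul_distrib,
        Finset.prod_ite_eq' univ h0 (fun _ => E1 D.P D.Gf), if_pos (mem_univ _)]
      by_cases h5 : j' = j
      · subst h5
        rw [if_pos rfl]
        simp only [if_true]
      · rw [if_neg h5]
        obtain ⟨i, hi⟩ := Function.ne_iff.1 h5
        have h6 : ∏ i, (if j i = j' i then D.sg (j i) else 0) = 0 := by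
          apply Finset.prod_eq_zero (mem_univ i)
          rw [if_neg (fun h => hi h.symm)]
        rw [h6]
        ring
  rw [Fintype.sum_prod_type, Finset.mul_sum]
  refine Finset.sum_le_sum fun j _ => ?_
  rw [Finset.sum_congr rfl fun j' _ => h1 j j', Finset.sum_ite_eq' univ j, if_pos (mem_univ _)]
  have hp : 0 ≤ ∏ i, D.sg (j i) := Finset.prod_nonneg fun i _ => sg_nonneg D CM hD _
  by_cases h2 : 3 * 2 ^ D.L < D.Lev j ∧ D.Lev j ≤ D.Lam
  · rw [if_pos h2]
    have h3 := (le_abs_self _).trans (D.T15al_abs h0 (j, j))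
    calc D.T15al h0 (j, j) * (E1 D.P D.Gf * ∏ i, D.sg (j i)) ≤ 1 * (E1 D.P D.Gf * ∏ i, D.sg (j i)) :=
          mul_le_mul_of_nonneg_right h3 (mul_nonneg hG hp)
      _ = _ := one_mul _
  · rw [if_neg h2, mul_zero]
    have h3 : D.T15al h0 (j, j) = 0 := by
      by_contra h3
      have h4 := (D.T15al_ne h3).1
      have h5 : D.Lev j ≤ 3 * 2 ^ D.L := by
        by_contra h6
        exact h2 ⟨not_le.1 h6, h4.2⟩
      apply h3
      unfold T15al
      rw [if_pos h4, br_eq_zero D _ h5, mul_zero]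
    rw [h3, zero_mul]

theorem T15_err (h0 : ι) (V : ℝ) (hV : 0 ≤ V) :
    ∑ c, |D.T15al h0 c| * V ^ (D.T15U h0 c).card ≤
      V * Real.exp (((D.L : ℝ) + 1) ^ 2 * V * Fintype.card ι) := by
  have h1 : ∀ c, |D.T15al h0 c| * V ^ (D.T15U h0 c).card ≤ V * V ^ (D.T15N c).card := by
    intro c
    by_cases h2 : D.T15al h0 c = 0
    · rw [h2, abs_zero, zero_mul]
      positivity
    · obtain ⟨ha, hb⟩ := D.T15al_ne h2
      have h3 : h0 ∉ D.T15N c := by
        unfold T15N
        rw [mem_filter]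
        rintro ⟨_, h4⟩
        apply h4
        rw [ha.1, hb.1]
      have h4 : (D.T15U h0 c).card = (D.T15N c).card + 1 := by
        unfold T15U
        exact Finset.card_insert_of_notMem h3
      rw [h4, pow_succ, mul_comm (V ^ _) V]
      calc |D.T15al h0 c| * (V * V ^ (D.T15N c).card) ≤ 1 * (V * V ^ (D.T15N c).card) :=
            mul_le_mul_of_nonneg_right (D.T15al_abs h0 c) (by positivity)
        _ = _ := one_mul _
  refine (Finset.sum_le_sum fun c _ => h1 c).trans ?_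
  rw [← Finset.mul_sum]
  apply mul_le_mul_of_nonneg_left _ hV
  have h2 := sum_err_le (ι := ι) (κ := Option (Fin D.L) × Option (Fin D.L)) (none, none) V hV
  have h3 : (Fintype.card (Option (Fin D.L) × Option (Fin D.L)) : ℝ) = ((D.L : ℝ) + 1) ^ 2 := by
    rw [Fintype.card_prod, Fintype.card_option, Fintype.card_fin]
    push_cast
    ring
  rw [h3] at h2
  refine le_trans (le_of_eq ?_) h2
  rw [← Equiv.sum_comp (Equiv.arrowProdEquivProdArrow ι (fun _ => Option (Fin D.L))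
    (fun _ => Option (Fin D.L))).symm]
  rfl

theorem T15N_card (c : (ι → Option (Fin D.L)) × (ι → Option (Fin D.L)))
    (h1 : D.Lev c.1 ≤ D.Lam) (h2 : D.Lev c.2 ≤ D.Lam) : (D.T15N c).card ≤ 4 * 2 ^ D.L := by
  have e1 := two_mul_card_le_Lev D c.1
  have e2 := two_mul_card_le_Lev D c.2
  have e3 : D.T15N c ⊆ univ.filter (fun i => c.1 i ≠ none) ∪ univ.filter (fun i => c.2 i ≠ none) := by
    intro i hi
    unfold T15N at hi
    simp only [mem_filter, mem_univ, true_and, mem_union] at hi ⊢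
    by_contra h
    push Not at h
    apply hi
    rw [h.1, h.2]
  have e4 := (Finset.card_le_card e3).trans (Finset.card_union_le _ _)
  have e5 : D.Lam = 4 * 2 ^ D.L := rfl
  omega

end core

theorem T15_real {E4 G M Z CM V s l q : ℝ} (hG0 : 0 ≤ G) (hZ : 0 ≤ Z)
    (hs : 0 ≤ s) (hl : 0 < l) (hq : 0 < q)
    (hE : E4 ≤ G * ((s / (3 * q)) * M * Z)) (hG : G ≤ 4 * CM * V * (1 / q))
    (hM : M ≤ 128 * CM * V / l) (hM0 : 0 ≤ M) :
    s * E4 ≤ 171 * CM ^ 2 * (V * s) ^ 2 / (l * q ^ 2) * Z := by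
  have h1 : G * M ≤ (4 * CM * V * (1 / q)) * (128 * CM * V / l) :=
    mul_le_mul hG hM hM0 (hG0.trans hG)
  have h2 : s * E4 ≤ s * (G * ((s / (3 * q)) * M * Z)) := mul_le_mul_of_nonneg_left hE hs
  refine h2.trans ?_
  have h3 : s * (G * ((s / (3 * q)) * M * Z)) = (s ^ 2 / (3 * q) * Z) * (G * M) := by
    field_simp
  rw [h3]
  have h4 : 0 ≤ s ^ 2 / (3 * q) * Z := by positivity
  refine (mul_le_mul_of_nonneg_left h1 h4).trans ?_
  have h5 : s ^ 2 / (3 * q) * Z * (4 * CM * V * (1 / q) * (128 * CM * V / l)) =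
      512 / 3 * (CM ^ 2 * (V * s) ^ 2 / (l * q ^ 2) * Z) := by
    field_simp
    ring
  have h6 : 171 * CM ^ 2 * (V * s) ^ 2 / (l * q ^ 2) * Z =
      171 * (CM ^ 2 * (V * s) ^ 2 / (l * q ^ 2) * Z) := by ring
  rw [h5, h6]
  have h7 : 0 ≤ CM ^ 2 * (V * s) ^ 2 / (l * q ^ 2) * Z := by positivity
  nlinarith

theorem T15_err_real {Kc A V s w q : ℝ} (hKc : 0 < Kc) (hA : 0 ≤ A) (hV : 0 ≤ V) (hs : 0 ≤ s)
    (hw : 0 < w) (hq : 0 ≤ q) :
    s * (Kc / w * (V * A * Real.exp (q * (V * A) * s))) ≤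
      (Kc + (q + 1) * A) / w * Real.exp ((Kc + (q + 1) * A) * (V * s)) := by
  have h1 : V * A * s ≤ Real.exp (V * A * s) := by
    have := Real.add_one_le_exp (V * A * s)
    linarith
  have h2 : s * (Kc / w * (V * A * Real.exp (q * (V * A) * s))) =
      Kc / w * ((V * A * s) * Real.exp (q * (V * A) * s)) := by ring
  rw [h2]
  have h3 : (V * A * s) * Real.exp (q * (V * A) * s) ≤ Real.exp ((q + 1) * A * (V * s)) := by
    calc (V * A * s) * Real.exp (q * (V * A) * s) ≤ Real.exp (V * A * s) * Real.exp (q * (V * A) * s) :=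
          mul_le_mul_of_nonneg_right h1 (Real.exp_pos _).le
      _ = Real.exp ((q + 1) * A * (V * s)) := by
          rw [← Real.exp_add]
          congr 1
          ring
  have h4 : Real.exp ((q + 1) * A * (V * s)) ≤ Real.exp ((Kc + (q + 1) * A) * (V * s)) := by
    apply Real.exp_le_exp.2
    apply mul_le_mul_of_nonneg_right _ (by positivity)
    linarith
  have h5 : Kc / w ≤ (Kc + (q + 1) * A) / w := by
    apply div_le_div_of_nonneg_right _ hw.le
    have : 0 ≤ (q + 1) * A := by positivity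
    linarith
  exact mul_le_mul h5 (h3.trans h4) (by positivity) (by positivity)

theorem Psit_main (L : ℕ) : ∃ B : ℝ, 0 < B ∧ ∀ (D : SD) (CM : ℝ), D.Good CM → D.L = L → 64 * 2 ^ L ≤ D.W →
    ∀ (ι : Type) [Fintype ι] [DecidableEq ι] (pos : ι → ℕ), Function.Injective pos → (∀ i, pos i ≤ D.W) →
    ∑ h0 : ι, EM D.Mp (fun n => (D.Psit h0 pos n) ^ 2 * D.Gf (hit D.P (n + pos h0))) ≤
      171 * CM ^ 2 * (D.Vs * Fintype.card ι) ^ 2 / (D.L * 4 ^ D.L) * D.Zn ι +
        B / D.W * Real.exp (B * (D.Vs * Fintype.card ι)) := by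
  obtain ⟨Kc, hKc, hgen⟩ := gen (4 * 2 ^ L + 1) L 32 (by norm_num)
  refine ⟨Kc + (((L : ℝ) + 1) ^ 2 + 1) * ((4 : ℝ) ^ (L + 1)) ^ 4, by positivity, ?_⟩
  intro D CM hD hDL hW ι _ _ pos hpos hposW
  subst hDL
  set A : ℝ := ((4 : ℝ) ^ (D.L + 1)) ^ 4 with hA
  have hA0 : 0 ≤ A := by positivity
  have hVs : 0 < D.Vs := Vs_pos D CM hD
  have hW0 : (0 : ℝ) < D.W := by
    have := hD.hW
    exact_mod_cast (by omega : 0 < D.W)
  have hL0 : (0 : ℝ) < D.L := by exact_mod_cast (lt_of_lt_of_le one_pos hD.hL)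
  have hZ := one_le_Zn D CM hD ι
  -- one position
  have key : ∀ h0 : ι, EM D.Mp (fun n => (D.Psit h0 pos n) ^ 2 * D.Gf (hit D.P (n + pos h0))) ≤
      E1 D.P D.Gf * (((Fintype.card ι : ℝ) / (3 * 2 ^ D.L)) *
        (∑ a : Fin D.L, (D.lev (some a) : ℝ) * D.sg (some a)) * D.Zn ι) +
      Kc / D.W * (D.Vs * A * Real.exp (((D.L : ℝ) + 1) ^ 2 * (D.Vs * A) * Fintype.card ι)) := by
    intro h0
    have h1 := hgen D CM hD rfl (by
      have : 1 ≤ 2 ^ D.L := Nat.one_le_two_pow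
      omega) ι pos hpos hposW
      ((ι → Option (Fin D.L)) × (ι → Option (Fin D.L))) (D.T15al h0) (D.T15ph h0) (D.T15U h0) A hA0
      (by
        intro c hc
        obtain ⟨ha, hb⟩ := D.T15al_ne hc
        have h2 := D.T15N_card c ha.2 hb.2
        have h3 : (D.T15U h0 c).card ≤ (D.T15N c).card + 1 := Finset.card_insert_le _ _
        omega)
      (by
        intro c hc i hi
        unfold T15U T15N at hi
        rw [mem_insert, mem_filter, not_or] at hi
        have h2 : (c.1 i, c.2 i) = (none, none) := by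
          by_contra h3
          exact hi.2 ⟨mem_univ _, h3⟩
        have e1 : c.1 i = none := congrArg Prod.fst h2
        have e2 : c.2 i = none := congrArg Prod.snd h2
        unfold T15ph
        rw [if_neg hi.1, e1, e2]
        funext S
        show (1 : ℝ) * 1 = 1
        norm_num)
      (by
        intro c hc i hi
        unfold T15ph
        by_cases h2 : i = h0
        · rw [if_pos h2]
          exact Gf_isLoc D CM hD
        · rw [if_neg h2]
          unfold T15U T15N at hi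
          rw [mem_insert, mem_filter] at hi
          rcases hi with hi | hi
          · exact absurd hi h2
          · exact Xf_mul_isLoc D CM hD (c.1 i) (c.2 i) hi.2)
    have h2 : (fun n => (D.Psit h0 pos n) ^ 2 * D.Gf (hit D.P (n + pos h0))) =
        fun n => ∑ c, D.T15al h0 c * ∏ i, D.T15ph h0 c i (hit D.P (n + pos i)) := by
      funext n
      rw [D.T15_ptw h0 (fun i => hit D.P (n + pos i))]
      rfl
    rw [h2]
    have h3 := (abs_le.1 h1).2
    have h4 := D.T15_main (ι := ι) CM hD h0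
    have h5 := D.T15_err (ι := ι) h0 (D.Vs * A) (by positivity)
    have h6 := level_markov D (ι := ι) D.sg (sg_nonneg D CM hD) (sg_none D CM hD) (3 * 2 ^ D.L)
      (by positivity)
    have h7 : Kc / D.W * ∑ c, |D.T15al h0 c| * (D.Vs * A) ^ (D.T15U h0 c).card ≤
        Kc / D.W * (D.Vs * A * Real.exp (((D.L : ℝ) + 1) ^ 2 * (D.Vs * A) * Fintype.card ι)) :=
      mul_le_mul_of_nonneg_left h5 (by positivity)
    have h8 : E1 D.P D.Gf * ∑ j : ι → Option (Fin D.L),
        (if 3 * 2 ^ D.L < D.Lev j ∧ D.Lev j ≤ D.Lam then ∏ i, D.sg (j i) else 0) ≤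
        E1 D.P D.Gf * (((Fintype.card ι : ℝ) / (3 * 2 ^ D.L)) *
        (∑ a : Fin D.L, (D.lev (some a) : ℝ) * D.sg (some a)) * D.Zn ι) := by
      apply mul_le_mul_of_nonneg_left _ (E1_Gf_nonneg D CM hD)
      refine h6.trans (le_of_eq ?_)
      have e : ((3 * 2 ^ D.L : ℕ) : ℝ) = 3 * 2 ^ D.L := by push_cast; ring
      rw [e]
      rfl
    linarith
  have hsum := Finset.sum_le_sum fun h0 (_ : h0 ∈ (univ : Finset ι)) => key h0
  rw [Finset.sum_const, Finset.card_univ, nsmul_eq_mul] at hsum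
  refine hsum.trans ?_
  rw [mul_add]
  have hM0 : 0 ≤ ∑ a : Fin D.L, (D.lev (some a) : ℝ) * D.sg (some a) :=
    Finset.sum_nonneg fun a _ => mul_nonneg (Nat.cast_nonneg _) (sg_nonneg D CM hD _)
  have hG : E1 D.P D.Gf ≤ 4 * CM * D.Vs * (1 / 2 ^ D.L) := by
    have := E1_Gf_le D CM hD
    rwa [one_div_pow] at this
  have h4L : (4 : ℝ) ^ D.L = (2 ^ D.L) ^ 2 := by
    rw [← pow_mul, mul_comm, pow_mul]; norm_num
  apply add_le_add
  · rw [h4L]
    exact T15_real (E1_Gf_nonneg D CM hD) (by linarith) (Nat.cast_nonneg _) hL0 (by positivity)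
      (le_refl _) hG (sum_lev_sg_le D CM hD) hM0
  · exact T15_err_real hKc hA0 hVs.le (Nat.cast_nonneg _) hW0 (by positivity)

end SD
end Crest.Agent.PG
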