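import Crest.Agent.PG_N9
import Crest.Agent.PG_T15
import Crest.Agent.PG_T18
/-!
# PG-F4 (S0021): the weighted number of primes in the window is small

For `n > Y ≥ X`: a prime `n + h`, `1 ≤ h ≤ w0`, is larger than all primes dividing `Q` and all primes in `P` (`primes_le`), so
`h ∈ Hs n` and `hit P (n+h) = ∅`; hence (`Psi_eq_Psit`, `Gf_empty`, `Gf_nonneg`)
`wt n · #{primes in (n,n+w0]} ≤ ∑_{h0 ∈ Hs n} Psit h0 (n)² Gf(hit P (n+h0)) / Zn = Φ (n%Q) n` (if `#Hs n ≤ Kmx`; else `0`).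
`Psit_main` : `EM Mp (Φ b) ≤ 171 CM² κ²/(L 4^L) + (B/W) exp(B κ)`, `κ = 1280 T C k 2^L` (`kappa_le`, `Zn ≥ 1`), and
`κ²/4^L = (1280 T C k)²`; norm: `w0 · NB² · z^((4k+4)2^L)`, `norm_small`, `engine_upper` with `N = 2X`.
-/
set_option autoImplicit false
namespace Crest.Agent.PG
open Finset Filter

/-- the majorant attached to a set of positions -/
noncomputable def F4_Phi (D : SD) (K : ℝ) (S : Finset ℕ) (n : ℕ) : ℝ :=
  if (S.card : ℝ) ≤ K then
    (1 / D.Zn ↥S) * ∑ h0 : ↥S, (D.Psit h0 (fun h : ↥S => (h : ℕ)) n) ^ 2 *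
      D.Gf (hit D.P (n + (h0 : ℕ)))
  else 0

theorem F4_periodic (D : SD) (K : ℝ) (S : Finset ℕ) (n : ℕ) :
    F4_Phi D K S (n + D.Mp) = F4_Phi D K S n := by
  unfold F4_Phi
  split_ifs
  · congr 1
    refine Finset.sum_congr rfl fun h0 _ => ?_
    rw [D.Psit_periodic]
    have : n + D.Mp + (h0 : ℕ) = (n + (h0 : ℕ)) + D.Mp := by ring
    rw [this, D.hitP_periodic]
  · rfl

theorem F4_LL (D : SD) (CM : ℝ) (hD : D.Good CM) (K : ℝ) (S : Finset ℕ) :
    LL (F4_Phi D K S) ((S.card : ℝ) * ((D.NB ⌊K⌋₊) ^ 2 * D.z ^ ((4 * D.k + 4) * 2 ^ D.L))) := by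
  have hz : 1 ≤ D.z := hD.hz
  have hzp : 0 ≤ D.z ^ ((4 * D.k + 4) * 2 ^ D.L) := pow_nonneg (by linarith) _
  by_cases hS : (S.card : ℝ) ≤ K
  · have h1 : F4_Phi D K S = fun n => (1 / D.Zn ↥S) * ∑ h0 : ↥S,
        (D.Psit h0 (fun h : ↥S => (h : ℕ)) n) ^ 2 * D.Gf (hit D.P (n + (h0 : ℕ))) := by
      funext n
      unfold F4_Phi
      rw [if_pos hS]
    rw [h1]
    have h2 : LL (fun n => ∑ h0 : ↥S, (D.Psit h0 (fun h : ↥S => (h : ℕ)) n) ^ 2 *
        D.Gf (hit D.P (n + (h0 : ℕ))))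
        (∑ h0 : ↥S, (D.NB (Fintype.card ↥S)) ^ 2 * D.z ^ ((4 * D.k + 4) * 2 ^ D.L)) := by
      refine LL_sum (univ : Finset ↥S) (fun h0 n => (D.Psit h0 (fun h : ↥S => (h : ℕ)) n) ^ 2 *
        D.Gf (hit D.P (n + (h0 : ℕ)))) _ fun h0 _ => ?_
      exact LL_mul (LL_pow (D.LL_Psit CM hD h0 _) 2) (D.LL_Gf CM hD (h0 : ℕ))
    have h3 := LL_const_mul (1 / D.Zn ↥S) h2
    refine LL_mono h3 ?_
    have hZ := D.one_le_Zn CM hD ↥S
    have hZ1 : |1 / D.Zn ↥S| ≤ 1 := by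
      rw [abs_of_pos (by positivity)]
      rw [div_le_one (by linarith)]
      exact hZ
    rw [Finset.sum_const, Finset.card_univ, Fintype.card_coe, nsmul_eq_mul]
    have hNB : D.NB S.card ≤ D.NB ⌊K⌋₊ := D.NB_mono CM hD (Nat.le_floor hS)
    have hNB1 : 1 ≤ D.NB S.card := D.one_le_NB CM hD _
    have h4 : (S.card : ℝ) * ((D.NB S.card) ^ 2 * D.z ^ ((4 * D.k + 4) * 2 ^ D.L)) ≤
        (S.card : ℝ) * ((D.NB ⌊K⌋₊) ^ 2 * D.z ^ ((4 * D.k + 4) * 2 ^ D.L)) := by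
      refine mul_le_mul_of_nonneg_left ?_ (Nat.cast_nonneg _)
      refine mul_le_mul_of_nonneg_right ?_ hzp
      exact pow_le_pow_left₀ (by linarith) hNB 2
    have h5 : 0 ≤ (S.card : ℝ) * ((D.NB S.card) ^ 2 * D.z ^ ((4 * D.k + 4) * 2 ^ D.L)) := by
      positivity
    calc |1 / D.Zn ↥S| * ((S.card : ℝ) * ((D.NB S.card) ^ 2 * D.z ^ ((4 * D.k + 4) * 2 ^ D.L)))
        ≤ 1 * ((S.card : ℝ) * ((D.NB S.card) ^ 2 * D.z ^ ((4 * D.k + 4) * 2 ^ D.L))) :=
          mul_le_mul_of_nonneg_right hZ1 h5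
      _ ≤ _ := by rw [one_mul]; exact h4
  · have h1 : F4_Phi D K S = fun _ => (0 : ℝ) := by
      funext n
      unfold F4_Phi
      rw [if_neg hS]
    rw [h1]
    refine LL_mono LL_zero ?_
    have : 0 ≤ (D.NB ⌊K⌋₊) ^ 2 := sq_nonneg _
    positivity

theorem F4_pointwise (D : SD) (CM : ℝ) (hD : D.Good CM) (K : ℝ) (w X n : ℕ)
    (hP : ∀ p ∈ D.P, p ≤ X) (hQ : ∀ p : ℕ, p.Prime → p ∣ D.Q → p ≤ X) (hn : X < n) :
    D.wt w K n * (((Ioc n (n + w)).filter Nat.Prime).card : ℝ) ≤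
      F4_Phi D K (D.Hs w (n % D.Q)) n := by
  rw [D.wt_eq]
  set S := D.Hs w (n % D.Q) with hS
  have hS' : S = D.Hs w n := D.Hs_mod w n
  unfold SD.wtS F4_Phi
  by_cases hK : (S.card : ℝ) ≤ K
  · rw [if_pos hK, if_pos hK]
    have hZ := D.one_le_Zn CM hD ↥S
    have hZ0 : 0 < D.Zn ↥S := by linarith
    -- number of primes
    have hcard : (((Ioc n (n + w)).filter Nat.Prime).card : ℝ) ≤
        ∑ h0 : ↥S, (if (n + (h0 : ℕ)).Prime then (1 : ℝ) else 0) := by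
      have h1 : ((Ioc n (n + w)).filter Nat.Prime).card ≤
          (S.filter (fun h => (n + h).Prime)).card := by
        refine Finset.card_le_card_of_injOn (fun p => p - n) ?_ ?_
        · intro p hp
          simp only [coe_filter, mem_Ioc, Set.mem_setOf_eq] at hp
          simp only [coe_filter, Set.mem_setOf_eq]
          have e : n + (p - n) = p := by omega
          refine ⟨?_, by rw [e]; exact hp.2⟩
          rw [hS']
          unfold SD.Hs
          rw [mem_filter, mem_Icc, e]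
          refine ⟨⟨by omega, by omega⟩, ?_⟩
          rw [Nat.Prime.coprime_iff_not_dvd hp.2]
          intro hdvd
          have := hQ p hp.2 hdvd
          omega
        · intro p hp q hq h
          simp only [coe_filter, mem_Ioc, Set.mem_setOf_eq] at hp hq
          simp only at h
          omega
      have h2 : ((S.filter (fun h => (n + h).Prime)).card : ℝ) =
          ∑ h0 : ↥S, (if (n + (h0 : ℕ)).Prime then (1 : ℝ) else 0) := by
        rw [Finset.card_filter]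
        push_cast
        rw [← Finset.sum_coe_sort S (fun h => if (n + h).Prime then (1 : ℝ) else 0)]
      rw [← h2]
      exact_mod_cast h1
    have hterm : ∀ h0 : ↥S, (D.Psi (fun h : ↥S => (h : ℕ)) n) ^ 2 *
        (if (n + (h0 : ℕ)).Prime then (1 : ℝ) else 0) ≤
        (D.Psit h0 (fun h : ↥S => (h : ℕ)) n) ^ 2 * D.Gf (hit D.P (n + (h0 : ℕ))) := by
      intro h0
      by_cases hp : (n + (h0 : ℕ)).Prime
      · have hhit : hit D.P (n + (h0 : ℕ)) = ∅ := by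
          unfold hit
          rw [Finset.filter_eq_empty_iff]
          intro q hq hdvd
          have hqp := hD.prime q hq
          have hqX := hP q hq
          rcases (Nat.dvd_prime hp).mp hdvd with h | h
          · exact hqp.one_lt.ne' h
          · omega
        rw [if_pos hp, mul_one, hhit, D.Gf_empty, mul_one,
          D.Psi_eq_Psit CM hD h0 (fun h : ↥S => (h : ℕ)) n hhit]
      · rw [if_neg hp, mul_zero]
        exact mul_nonneg (sq_nonneg _) (D.Gf_nonneg _)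
    have hPsi : 0 ≤ (D.Psi (fun h : ↥S => (h : ℕ)) n) ^ 2 := sq_nonneg _
    calc (D.Psi (fun h : ↥S => (h : ℕ)) n) ^ 2 / D.Zn ↥S *
          (((Ioc n (n + w)).filter Nat.Prime).card : ℝ)
        ≤ (D.Psi (fun h : ↥S => (h : ℕ)) n) ^ 2 / D.Zn ↥S *
          ∑ h0 : ↥S, (if (n + (h0 : ℕ)).Prime then (1 : ℝ) else 0) :=
          mul_le_mul_of_nonneg_left hcard (div_nonneg hPsi hZ0.le)
      _ = (1 / D.Zn ↥S) * ∑ h0 : ↥S, (D.Psi (fun h : ↥S => (h : ℕ)) n) ^ 2 *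
          (if (n + (h0 : ℕ)).Prime then (1 : ℝ) else 0) := by
          rw [← Finset.mul_sum]; ring
      _ ≤ _ := mul_le_mul_of_nonneg_left (Finset.sum_le_sum fun h0 _ => hterm h0) (by positivity)
  · rw [if_neg hK, if_neg hK, zero_mul]

theorem F4_EM (D : SD) (CM : ℝ) (hD : D.Good CM) (K κ B : ℝ) (S : Finset ℕ) (hB : 0 < B)
    (hκ : D.Vs * K ≤ κ) (hκ0 : 0 ≤ κ)
    (hmain : ∑ h0 : ↥S, EM D.Mp (fun n => (D.Psit h0 (fun h : ↥S => (h : ℕ)) n) ^ 2 *
        D.Gf (hit D.P (n + (h0 : ℕ)))) ≤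
      171 * CM ^ 2 * (D.Vs * Fintype.card ↥S) ^ 2 / (D.L * 4 ^ D.L) * D.Zn ↥S +
        B / D.W * Real.exp (B * (D.Vs * Fintype.card ↥S))) :
    EM D.Mp (F4_Phi D K S) ≤ 171 * CM ^ 2 * κ ^ 2 / (D.L * 4 ^ D.L) + B / D.W * Real.exp (B * κ) := by
  have hL : (0 : ℝ) < D.L := by exact_mod_cast hD.hL
  have hW : (0 : ℝ) < D.W := by
    have := hD.hW
    exact_mod_cast (by omega : 0 < D.W)
  by_cases hS : (S.card : ℝ) ≤ K
  · have h1 : F4_Phi D K S = fun n => (1 / D.Zn ↥S) * ∑ h0 : ↥S,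
        (D.Psit h0 (fun h : ↥S => (h : ℕ)) n) ^ 2 * D.Gf (hit D.P (n + (h0 : ℕ))) := by
      funext n
      unfold F4_Phi
      rw [if_pos hS]
    rw [h1, EM_const_mul, EM_sum]
    have hZ := D.one_le_Zn CM hD ↥S
    have hZ0 : 0 < D.Zn ↥S := by linarith
    rw [Fintype.card_coe] at hmain
    have hVs := D.Vs_pos CM hD
    have hVc : D.Vs * S.card ≤ κ := (mul_le_mul_of_nonneg_left hS hVs.le).trans hκ
    have hVc0 : 0 ≤ D.Vs * S.card := by positivity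
    have a1 : 171 * CM ^ 2 * (D.Vs * S.card) ^ 2 / (D.L * 4 ^ D.L) ≤
        171 * CM ^ 2 * κ ^ 2 / (D.L * 4 ^ D.L) := by
      refine div_le_div_of_nonneg_right ?_ (by positivity)
      refine mul_le_mul_of_nonneg_left ?_ (by positivity)
      exact pow_le_pow_left₀ hVc0 hVc 2
    have a2 : B / D.W * Real.exp (B * (D.Vs * S.card)) ≤ B / D.W * Real.exp (B * κ) := by
      refine mul_le_mul_of_nonneg_left ?_ (by positivity)
      exact Real.exp_le_exp.mpr (mul_le_mul_of_nonneg_left hVc hB.le)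
    have a3 : 0 ≤ B / D.W * Real.exp (B * κ) := by positivity
    calc _ ≤ (1 / D.Zn ↥S) * (171 * CM ^ 2 * (D.Vs * S.card) ^ 2 / (D.L * 4 ^ D.L) * D.Zn ↥S +
        B / D.W * Real.exp (B * (D.Vs * S.card))) :=
          mul_le_mul_of_nonneg_left hmain (by positivity)
      _ ≤ (1 / D.Zn ↥S) * (171 * CM ^ 2 * κ ^ 2 / (D.L * 4 ^ D.L) * D.Zn ↥S +
        B / D.W * Real.exp (B * κ)) := by
          refine mul_le_mul_of_nonneg_left ?_ (by positivity)
          exact add_le_add (mul_le_mul_of_nonneg_right a1 hZ0.le) a2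
      _ = 171 * CM ^ 2 * κ ^ 2 / (D.L * 4 ^ D.L) + (1 / D.Zn ↥S) *
        (B / D.W * Real.exp (B * κ)) := by field_simp
      _ ≤ _ := by
          have : (1 / D.Zn ↥S) ≤ 1 := by rw [div_le_one hZ0]; exact hZ
          nlinarith
  · have h1 : F4_Phi D K S = fun _ => (0 : ℝ) := by
      funext n
      unfold F4_Phi
      rw [if_neg hS]
    rw [h1, EM_const _ (D.Mp_pos CM hD)]
    positivity

theorem F_primes (C Dd T CM : ℝ) (L k : ℕ) (hC : 1 ≤ C) (hDd : 1 ≤ Dd) (hT : 1 ≤ T) (hL : 1 ≤ L) (hk : 10 ≤ k)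
    (hgood : ∀ᶠ X : ℕ in atTop, (mkSD C Dd L k X).Good CM) (ε : ℝ) (hε : 0 < ε) :
    ∀ᶠ X : ℕ in atTop, ∀ Y : ℕ, X ≤ Y →
      ∑ n ∈ Ioc Y (Y + 2 * X), (mkSD C Dd L k X).wt (w0 C X) (Kmx C T X) n *
        (((Ioc n (n + w0 C X)).filter Nat.Prime).card : ℝ) ≤
        (342 * CM ^ 2 * (1280 * T * C * k) ^ 2 / L + ε) * X := by
  obtain ⟨B, hB, hmain⟩ := SD.Psit_main L
  set κ : ℝ := 1280 * T * C * k * 2 ^ L with hκ
  have hκ0 : 0 ≤ κ := by positivity
  filter_upwards [hgood, primes_le C Dd L k hL hk, kappa_le C Dd T L k hC hDd hT hL hk,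
    W_large C Dd L k hC hDd (max (64 * 2 ^ L) (4 * B * Real.exp (B * κ) / ε)),
    norm_small C Dd T L k hC hDd hT hL hk (ε / 2) (by positivity),
    w0_HH_small C Dd hC hDd, eventually_ge_atTop 1] with X hG hpr hka hWl hns hw hX1 Y hY
  set D := mkSD C Dd L k X with hD
  set K := Kmx C T X with hK
  set w := w0 C X with hwdef
  obtain ⟨hP, hQ⟩ := hpr
  obtain ⟨-, -, -, -, -, -, hlog, -⟩ := hw
  have hXpos : (0 : ℝ) < X := by exact_mod_cast hX1
  have hK0 : 0 ≤ K := by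
    rw [hK]; unfold Kmx; positivity
  have hLR : (1 : ℝ) ≤ L := by exact_mod_cast hL
  have hDL : D.L = L := rfl
  have hW1 : (64 * 2 ^ L : ℝ) ≤ D.W := (le_max_left _ _).trans hWl
  have hW2 : 4 * B * Real.exp (B * κ) / ε ≤ D.W := (le_max_right _ _).trans hWl
  have hW1' : 64 * 2 ^ L ≤ D.W := by exact_mod_cast hW1
  have hWpos : (0 : ℝ) < D.W := lt_of_lt_of_le (by positivity) hW1
  -- bound by engine
  set Φ : ℕ → ℕ → ℝ := fun b n => F4_Phi D K (D.Hs w b) n with hΦ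
  set A : ℝ := (w : ℝ) * ((D.NB ⌊K⌋₊) ^ 2 * D.z ^ ((4 * D.k + 4) * 2 ^ D.L)) with hA
  set E : ℝ := 171 * CM ^ 2 * κ ^ 2 / (D.L * 4 ^ D.L) + B / D.W * Real.exp (B * κ) with hE
  have hz : 1 ≤ D.z := hG.hz
  have hzp : 0 ≤ D.z ^ ((4 * D.k + 4) * 2 ^ D.L) := pow_nonneg (by linarith) _
  have hNB1 : 1 ≤ D.NB ⌊K⌋₊ := D.one_le_NB CM hG _
  have hcardS : ∀ b, (D.Hs w b).card ≤ w := by
    intro b
    unfold SD.Hs
    refine (Finset.card_filter_le _ _).trans ?_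
    rw [Nat.card_Icc]
    omega
  have heng := D.engine_upper CM hG Φ A (fun b _ n => F4_periodic D K _ n)
    (fun b _ => by
      refine LL_mono (F4_LL D CM hG K (D.Hs w b)) ?_
      refine mul_le_mul_of_nonneg_right ?_ (by positivity)
      exact_mod_cast hcardS b) E
    (fun b _ => by
      refine F4_EM D CM hG K κ B (D.Hs w b) hB hka hκ0 ?_
      refine hmain D CM hG hDL hW1' ↥(D.Hs w b) (fun h => (h : ℕ)) Subtype.val_injective ?_
      intro i
      have h1 := i.2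
      have h2 : (i : ℕ) ≤ w := by
        have : (i : ℕ) ∈ D.Hs w b := h1
        unfold SD.Hs at this
        rw [mem_filter, mem_Icc] at this
        exact this.1.2
      have h3 : w ≤ D.W := by
        show w0 C X ≤ 2 * HH Dd X + w0 C X
        omega
      exact h2.trans h3) Y (2 * X)
  have hsum : ∑ n ∈ Ioc Y (Y + 2 * X), D.wt w K n *
        (((Ioc n (n + w)).filter Nat.Prime).card : ℝ) ≤
      ∑ n ∈ Ioc Y (Y + 2 * X), Φ (n % D.Q) n := by
    refine Finset.sum_le_sum fun n hn => ?_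
    rw [mem_Ioc] at hn
    exact F4_pointwise D CM hG K w X n hP hQ (by omega)
  refine hsum.trans (heng.trans ?_)
  -- numerics
  have hQA : (D.Q : ℝ) * A ≤ ε / 2 * X := by
    have h1 := hns ⌊K⌋₊ (Nat.floor_le hK0)
    have h2 : (D.Q : ℝ) * A ≤ (D.Q : ℝ) * (((w : ℝ) + 1) * (1 + D.NB ⌊K⌋₊) ^ 4 *
        D.z ^ ((4 * k + 4) * 2 ^ L)) := by
      refine mul_le_mul_of_nonneg_left ?_ (Nat.cast_nonneg _)
      rw [hA]
      have e1 : D.k = k := rfl
      rw [e1, hDL, ← mul_assoc]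
      refine mul_le_mul_of_nonneg_right ?_ hzp
      have e2 : (D.NB ⌊K⌋₊) ^ 2 ≤ (1 + D.NB ⌊K⌋₊) ^ 4 := by
        calc (D.NB ⌊K⌋₊) ^ 2 ≤ (1 + D.NB ⌊K⌋₊) ^ 2 :=
              pow_le_pow_left₀ (by linarith) (by linarith) 2
          _ ≤ (1 + D.NB ⌊K⌋₊) ^ 4 := pow_le_pow_right₀ (by linarith) (by norm_num)
      exact mul_le_mul (by linarith) e2 (by positivity) (by positivity)
    have h3 : ε / 2 * X / (Real.log X) ^ 2 ≤ ε / 2 * X := by
      refine div_le_self (by positivity) ?_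
      exact one_le_pow₀ hlog
    exact h2.trans (h1.trans h3)
  have hBW : B / D.W * Real.exp (B * κ) ≤ ε / 4 := by
    rw [div_mul_eq_mul_div, div_le_iff₀ hWpos]
    rw [div_le_iff₀ hε] at hW2
    linarith
  have hmainterm : 171 * CM ^ 2 * κ ^ 2 / (D.L * 4 ^ D.L) =
      171 * CM ^ 2 * (1280 * T * C * k) ^ 2 / L := by
    rw [hDL, hκ]
    have h4 : (4 : ℝ) ^ L = (2 ^ L) ^ 2 := by
      rw [← pow_mul, mul_comm, pow_mul]; norm_num
    rw [h4]
    field_simp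
  rw [hE, hmainterm]
  push_cast
  have hfin : 2 * (X : ℝ) * (171 * CM ^ 2 * (1280 * T * C * k) ^ 2 / L +
      B / D.W * Real.exp (B * κ)) ≤ 2 * (X : ℝ) * (171 * CM ^ 2 * (1280 * T * C * k) ^ 2 / L +
      ε / 4) := by
    refine mul_le_mul_of_nonneg_left ?_ (by positivity)
    linarith
  calc 2 * (X : ℝ) * (171 * CM ^ 2 * (1280 * T * C * k) ^ 2 / L +
      B / D.W * Real.exp (B * κ)) + D.Q * A
      ≤ 2 * (X : ℝ) * (171 * CM ^ 2 * (1280 * T * C * k) ^ 2 / L + ε / 4) + ε / 2 * X :=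
        add_le_add hfin hQA
    _ = _ := by ring

end Crest.Agent.PG
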