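import Crest.Agent.PG_Defs
/-!
# PG-N6 (S0021): average of `l/φ(l)`

`l/φ(l) = ∏_{p∣l} (1-1/p)⁻¹ = ∏_{p | l} (1+1/p) (1-1/p²)⁻¹ ≤ (σ(l)/l) · ∏_{p∣l} (1-1/p²)⁻¹ ≤ 2 σ(l)/l`
(`∏_{p ≤ N} (1-1/p²)⁻¹ ≤ ∏_{m=2}^{N} (1-1/m²)⁻¹ = 2N/(N+1) ≤ 2`) and
`∑_{l ≤ H} σ(l)/l = ∑_{l≤H} ∑_{d ∣ l} 1/d ≤ H ∑ 1/d² ≤ 2H`.
-/
set_option autoImplicit false
namespace Crest.Agent.PG
open Finset

theorem N6_telescope (n : ℕ) :
    ∏ m ∈ Icc 2 (n + 1), (1 - 1 / (m : ℝ) ^ 2) = ((n : ℝ) + 2) / (2 * ((n : ℝ) + 1)) := by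
  induction n with
  | zero => norm_num
  | succ n ih =>
    rw [Finset.prod_Icc_succ_top (by omega), ih]
    push_cast
    have h1 : (n : ℝ) + 1 ≠ 0 := by positivity
    have h2 : (n : ℝ) + 1 + 1 ≠ 0 := by positivity
    field_simp
    ring

theorem N6_prod_sq (S : Finset ℕ) (hS : ∀ p ∈ S, 2 ≤ p) :
    1 / 2 ≤ ∏ p ∈ S, (1 - 1 / (p : ℝ) ^ 2) := by
  classical
  obtain ⟨N, hN⟩ : ∃ N : ℕ, ∀ p ∈ S, p ≤ N + 1 := by
    refine ⟨S.sup id, fun p hp => ?_⟩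
    have := Finset.le_sup (f := id) hp
    simp only [id] at this
    omega
  have hsub : S ⊆ Icc 2 (N + 1) := fun p hp => mem_Icc.mpr ⟨hS p hp, hN p hp⟩
  have hfac : ∀ m ∈ Icc 2 (N + 1), (0 : ℝ) ≤ 1 - 1 / (m : ℝ) ^ 2 ∧ 1 - 1 / (m : ℝ) ^ 2 ≤ 1 := by
    intro m hm
    rw [mem_Icc] at hm
    have hm2 : (2 : ℝ) ≤ m := by exact_mod_cast hm.1
    have h1 : (1 : ℝ) ≤ (m : ℝ) ^ 2 := by nlinarith
    constructor
    · rw [sub_nonneg, div_le_one (by positivity)]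
      exact h1
    · have : (0 : ℝ) ≤ 1 / (m : ℝ) ^ 2 := by positivity
      linarith
  have h2 : ∏ m ∈ Icc 2 (N + 1), (1 - 1 / (m : ℝ) ^ 2) ≤ ∏ p ∈ S, (1 - 1 / (p : ℝ) ^ 2) := by
    rw [← Finset.prod_sdiff hsub]
    have h3 : ∏ m ∈ Icc 2 (N + 1) \ S, (1 - 1 / (m : ℝ) ^ 2) ≤ 1 :=
      Finset.prod_le_one (fun m hm => (hfac m (Finset.sdiff_subset hm)).1)
        (fun m hm => (hfac m (Finset.sdiff_subset hm)).2)
    have h4 : 0 ≤ ∏ p ∈ S, (1 - 1 / (p : ℝ) ^ 2) :=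
      Finset.prod_nonneg fun m hm => (hfac m (hsub hm)).1
    exact mul_le_of_le_one_left h4 h3
  refine le_trans ?_ h2
  rw [N6_telescope, div_le_div_iff₀ (by norm_num) (by positivity)]
  linarith

theorem N6_prod_one_add (l : ℕ) (hl : l ≠ 0) :
    ∏ p ∈ l.primeFactors, (1 + 1 / (p : ℝ)) ≤ ∑ d ∈ l.divisors, 1 / (d : ℝ) := by
  classical
  rw [Finset.prod_one_add]
  have hinj : Set.InjOn (fun t : Finset ℕ => ∏ i ∈ t, i) (l.primeFactors.powerset : Set (Finset ℕ)) := by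
    intro s hs t ht hst
    simp only [Finset.coe_powerset, Set.mem_preimage, Set.mem_powerset_iff, Finset.coe_subset] at hs ht
    have h1 := Nat.primeFactors_prod (s := s) (fun p hp => Nat.prime_of_mem_primeFactors (hs hp))
    have h2 := Nat.primeFactors_prod (s := t) (fun p hp => Nat.prime_of_mem_primeFactors (ht hp))
    rw [← h1, ← h2]
    exact congrArg Nat.primeFactors hst
  have h1 : ∑ t ∈ l.primeFactors.powerset, ∏ i ∈ t, 1 / (i : ℝ) =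
      ∑ d ∈ l.primeFactors.powerset.image (fun t : Finset ℕ => ∏ i ∈ t, i), 1 / (d : ℝ) := by
    rw [Finset.sum_image hinj]
    apply Finset.sum_congr rfl
    intro t _
    push_cast
    simp only [one_div]
    rw [Finset.prod_inv_distrib]
  rw [h1]
  apply Finset.sum_le_sum_of_subset_of_nonneg
  · intro d hd
    rw [Finset.mem_image] at hd
    obtain ⟨t, ht, rfl⟩ := hd
    rw [Finset.mem_powerset] at ht
    rw [Nat.mem_divisors]
    exact ⟨(Finset.prod_dvd_prod_of_subset _ _ _ ht).trans (Nat.prod_primeFactors_dvd l), hl⟩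
  · intro d _ _
    positivity

theorem N6_ratio (l : ℕ) (hl : l ≠ 0) :
    (l : ℝ) / (Nat.totient l : ℝ) ≤ 2 * ∑ d ∈ l.divisors, 1 / (d : ℝ) := by
  have h1 : ((Nat.totient l : ℕ) : ℝ) = l * ∏ p ∈ l.primeFactors, (1 - 1 / (p : ℝ)) := by
    have h := Nat.totient_eq_mul_prod_factors l
    have h' : (((Nat.totient l : ℕ) : ℚ) : ℝ) =
        ((l * ∏ p ∈ l.primeFactors, (1 - (p : ℚ)⁻¹) : ℚ) : ℝ) := by rw [h]
    push_cast at h'
    rw [h']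
    simp only [one_div]
  have hl0 : (0 : ℝ) < l := by exact_mod_cast Nat.pos_of_ne_zero hl
  have hp2 : ∀ p ∈ l.primeFactors, (2 : ℝ) ≤ p := by
    intro p hp
    exact_mod_cast (Nat.prime_of_mem_primeFactors hp).two_le
  have hPpos : 0 < ∏ p ∈ l.primeFactors, (1 - 1 / (p : ℝ)) := by
    apply Finset.prod_pos
    intro p hp
    have := hp2 p hp
    rw [sub_pos, div_lt_one (by linarith)]
    linarith
  have hmul : (∏ p ∈ l.primeFactors, (1 - 1 / (p : ℝ))) * (∏ p ∈ l.primeFactors, (1 + 1 / (p : ℝ)))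
      = ∏ p ∈ l.primeFactors, (1 - 1 / (p : ℝ) ^ 2) := by
    rw [← Finset.prod_mul_distrib]
    apply Finset.prod_congr rfl
    intro p hp
    have := hp2 p hp
    have hp0 : (p : ℝ) ≠ 0 := by linarith
    field_simp
    ring
  have hsq := N6_prod_sq l.primeFactors (fun p hp => (Nat.prime_of_mem_primeFactors hp).two_le)
  have hadd := N6_prod_one_add l hl
  rw [h1, div_le_iff₀ (by positivity)]
  have h3 : (1 : ℝ) ≤ 2 * ((∏ p ∈ l.primeFactors, (1 - 1 / (p : ℝ))) *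
      ∏ p ∈ l.primeFactors, (1 + 1 / (p : ℝ))) := by rw [hmul]; linarith
  calc (l : ℝ) = l * 1 := by ring
    _ ≤ l * (2 * ((∏ p ∈ l.primeFactors, (1 - 1 / (p : ℝ))) *
      ∏ p ∈ l.primeFactors, (1 + 1 / (p : ℝ)))) := mul_le_mul_of_nonneg_left h3 hl0.le
    _ ≤ l * (2 * ((∏ p ∈ l.primeFactors, (1 - 1 / (p : ℝ))) *
      ∑ d ∈ l.divisors, 1 / (d : ℝ))) := by gcongr
    _ = _ := by ring

theorem N6_sum_sq (n : ℕ) : ∑ d ∈ Icc 1 (n + 1), 1 / (d : ℝ) ^ 2 ≤ 2 - 1 / ((n : ℝ) + 1) := by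
  induction n with
  | zero => norm_num
  | succ n ih =>
    rw [Finset.sum_Icc_succ_top (by omega)]
    push_cast
    have h1 : 1 / ((n : ℝ) + 1 + 1) ^ 2 ≤ 1 / ((n : ℝ) + 1) - 1 / ((n : ℝ) + 1 + 1) := by
      rw [div_sub_div _ _ (by positivity) (by positivity), div_le_div_iff₀ (by positivity)
        (by positivity)]
      ring_nf
      nlinarith
    linarith

theorem sum_l_div_phi (H : ℕ) : ∑ l ∈ Icc 1 H, (l : ℝ) / (Nat.totient l : ℝ) ≤ 4 * H := by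
  classical
  have h1 : ∑ l ∈ Icc 1 H, (l : ℝ) / (Nat.totient l : ℝ) ≤
      ∑ l ∈ Icc 1 H, 2 * ∑ d ∈ l.divisors, 1 / (d : ℝ) := by
    apply Finset.sum_le_sum
    intro l hl
    rw [mem_Icc] at hl
    exact N6_ratio l (by omega)
  have h2 : ∑ l ∈ Icc 1 H, ∑ d ∈ l.divisors, 1 / (d : ℝ) =
      ∑ d ∈ Icc 1 H, ∑ l ∈ (Ioc 0 H).filter (fun l => d ∣ l), 1 / (d : ℝ) := by
    apply Finset.sum_comm'
    intro l d
    rw [mem_Icc, Nat.mem_divisors, mem_filter, mem_Ioc, mem_Icc]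
    constructor
    · rintro ⟨⟨h1, h2⟩, h3, h4⟩
      have := Nat.le_of_dvd (by omega) h3
      have := Nat.pos_of_dvd_of_pos h3 (by omega)
      exact ⟨⟨⟨by omega, h2⟩, h3⟩, by omega, by omega⟩
    · rintro ⟨⟨⟨h1, h2⟩, h3⟩, h4, h5⟩
      exact ⟨⟨by omega, h2⟩, h3, by omega⟩
  have h3 : ∑ d ∈ Icc 1 H, ∑ l ∈ (Ioc 0 H).filter (fun l => d ∣ l), 1 / (d : ℝ) ≤
      ∑ d ∈ Icc 1 H, (H : ℝ) * (1 / (d : ℝ) ^ 2) := by
    apply Finset.sum_le_sum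
    intro d hd
    rw [mem_Icc] at hd
    have hd0 : (0 : ℝ) < d := by exact_mod_cast (by omega : 0 < d)
    rw [Finset.sum_const, nsmul_eq_mul, Nat.Ioc_filter_dvd_card_eq_div]
    have h4 : ((H / d : ℕ) : ℝ) ≤ (H : ℝ) / d := Nat.cast_div_le
    calc ((H / d : ℕ) : ℝ) * (1 / (d : ℝ)) ≤ (H : ℝ) / d * (1 / (d : ℝ)) :=
          mul_le_mul_of_nonneg_right h4 (by positivity)
      _ = (H : ℝ) * (1 / (d : ℝ) ^ 2) := by
          field_simp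
  have h4 : ∑ d ∈ Icc 1 H, 1 / (d : ℝ) ^ 2 ≤ 2 := by
    rcases Nat.eq_zero_or_pos H with h | h
    · subst h; simp
    · obtain ⟨n, rfl⟩ : ∃ n, H = n + 1 := ⟨H - 1, by omega⟩
      have := N6_sum_sq n
      have h5 : (0 : ℝ) ≤ 1 / ((n : ℝ) + 1) := by positivity
      linarith
  rw [← Finset.mul_sum] at h1 h3
  rw [h2] at h1
  have hH : (0 : ℝ) ≤ H := Nat.cast_nonneg _
  nlinarith [mul_le_mul_of_nonneg_left h4 hH]

end Crest.Agent.PG
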