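import Crest.Agent.PG_N1
/-!
# PG-N2 (S0021): consequences of Mertens' first theorem

* `block_sum`: for `y < p ≤ y²`: `log y < log p ≤ 2 log y` and `∑_{y<p≤y²} log p/p = log y + O(1)`, so
  `(log y - C)/(2 log y) ≤ ∑ 1/p ≤ (log y + C)/log y`.
* `V_lower`: `∑_{p ≤ y} 1/p ≤ log log y + C` by Abel summation: with `A(n) = ∑_{p≤n} log p/p ≤ log n + C`,
  `∑_{2≤p≤N} (log p/p)/log p = A(N)/log N + ∑_{n=2}^{N-1} A(n) (1/log n - 1/log(n+1))` and
  `log n (1/log n - 1/log(n+1)) = (log(n+1) - log n)/log(n+1) ≤ log log(n+1) - log log n`.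
  Then `1 - x ≥ exp(-x - x²)` for `0 ≤ x ≤ 1/2` (`∑ 1/p²` converges).
-/
set_option autoImplicit false
namespace Crest.Agent.PG
open Finset

/-- primes up to `N` -/
def N2P (N : ℕ) : Finset ℕ := (range (N + 1)).filter Nat.Prime

theorem N2_mem (N p : ℕ) : p ∈ N2P N ↔ p.Prime ∧ p ≤ N := by
  unfold N2P
  rw [mem_filter, mem_range, Nat.lt_succ_iff]
  tauto

theorem N2_prs0 (y : ℝ) (hy : 0 ≤ y) : prs 0 y = N2P ⌊y⌋₊ := by
  ext p
  rw [mem_prs 0 y hy, N2_mem, Nat.le_floor_iff hy]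
  constructor
  · rintro ⟨h1, -, h3⟩
    exact ⟨h1, h3⟩
  · rintro ⟨h1, h3⟩
    exact ⟨h1, by exact_mod_cast h1.pos, h3⟩

theorem N2_prs0_nat (n : ℕ) : prs 0 (n : ℝ) = N2P n := by
  rw [N2_prs0 _ (Nat.cast_nonneg n), Nat.floor_natCast]

theorem N2_prs (u v : ℝ) (hu : 0 ≤ u) (huv : u ≤ v) : prs u v = N2P ⌊v⌋₊ \ N2P ⌊u⌋₊ := by
  have hv : 0 ≤ v := hu.trans huv
  ext p
  rw [mem_prs u v hv, mem_sdiff, N2_mem, N2_mem, Nat.le_floor_iff hv, Nat.le_floor_iff hu]
  constructor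
  · rintro ⟨h1, h2, h3⟩
    exact ⟨⟨h1, h3⟩, fun h => absurd h.2 (not_le.mpr h2)⟩
  · rintro ⟨⟨h1, h3⟩, h4⟩
    refine ⟨h1, ?_, h3⟩
    by_contra h5
    exact h4 ⟨h1, not_lt.mp h5⟩

theorem N2_mono {a b : ℕ} (h : a ≤ b) : N2P a ⊆ N2P b := by
  intro p hp
  rw [N2_mem] at hp ⊢
  exact ⟨hp.1, hp.2.trans h⟩

theorem N2_succ (f : ℕ → ℝ) (N : ℕ) :
    ∑ p ∈ N2P (N + 1), f p = ∑ p ∈ N2P N, f p + if (N + 1).Prime then f (N + 1) else 0 := by
  unfold N2P
  rw [sum_filter, sum_filter, sum_range_succ]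

theorem block_sum : ∃ y0 : ℝ, 1 < y0 ∧ ∀ y : ℝ, y0 ≤ y →
    9 / 20 ≤ ∑ p ∈ prs y (y ^ 2), 1 / (p : ℝ) ∧ ∑ p ∈ prs y (y ^ 2), 1 / (p : ℝ) ≤ 11 / 10 := by
  obtain ⟨Cm, hCm, hm⟩ := mertens1
  set C' : ℝ := 2 * Cm + 2 with hC'
  have hC'pos : 0 < C' := by positivity
  refine ⟨Real.exp (10 * C'), ?_, fun y hy => ?_⟩
  · rw [← Real.exp_zero]
    exact Real.exp_lt_exp.mpr (by positivity)
  have hexp1 : 1 < Real.exp (10 * C') := by
    rw [← Real.exp_zero]
    exact Real.exp_lt_exp.mpr (by positivity)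
  have hy1 : 1 < y := lt_of_lt_of_le hexp1 hy
  have hy0 : 0 < y := by linarith
  have hlog : 10 * C' ≤ Real.log y := by
    rw [Real.le_log_iff_exp_le hy0]
    exact hy
  have hlogpos : 0 < Real.log y := by linarith
  have hyy : y ≤ y ^ 2 := by nlinarith
  -- floor logs
  have hfl : ∀ z : ℝ, 1 < z → |Real.log (⌊z⌋₊ : ℝ) - Real.log z| ≤ Real.log 2 := by
    intro z hz
    have h1 : (1 : ℕ) ≤ ⌊z⌋₊ := Nat.le_floor (by exact_mod_cast hz.le)
    have h1' : (1 : ℝ) ≤ (⌊z⌋₊ : ℝ) := by exact_mod_cast h1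
    have h2 : (⌊z⌋₊ : ℝ) ≤ z := Nat.floor_le (by linarith)
    have h3 : z < (⌊z⌋₊ : ℝ) + 1 := Nat.lt_floor_add_one z
    have h4 : Real.log (⌊z⌋₊ : ℝ) ≤ Real.log z := Real.log_le_log (by linarith) h2
    have h5 : Real.log z ≤ Real.log 2 + Real.log (⌊z⌋₊ : ℝ) := by
      rw [← Real.log_mul (by norm_num) (by linarith)]
      exact Real.log_le_log (by linarith) (by linarith)
    rw [abs_le]
    have h6 : 0 ≤ Real.log 2 := Real.log_nonneg (by norm_num)
    constructor <;> linarith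
  have hlog2 : Real.log 2 ≤ 1 / 2 + 1 / 4 := by
    have := Real.log_two_lt_d9
    linarith
  have hfly := hfl y hy1
  have hfly2 := hfl (y ^ 2) (by nlinarith)
  have hlogsq : Real.log (y ^ 2) = 2 * Real.log y := by
    rw [Real.log_pow]; norm_num
  have hn1 : 1 ≤ ⌊y⌋₊ := Nat.le_floor (by exact_mod_cast hy1.le)
  have hn2 : 1 ≤ ⌊y ^ 2⌋₊ := Nat.le_floor (by exact_mod_cast (hy1.le.trans hyy))
  have hm1 := hm _ hn1
  have hm2 := hm _ hn2
  rw [N2_prs0_nat] at hm1 hm2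
  -- the block sum of `log p / p`
  have hsub : N2P ⌊y⌋₊ ⊆ N2P ⌊y ^ 2⌋₊ := N2_mono (Nat.floor_le_floor hyy)
  have hB : ∑ p ∈ prs y (y ^ 2), Real.log p / p =
      ∑ p ∈ N2P ⌊y ^ 2⌋₊, Real.log p / p - ∑ p ∈ N2P ⌊y⌋₊, Real.log p / p := by
    rw [N2_prs y (y ^ 2) hy0.le hyy, eq_sub_iff_add_eq]
    exact sum_sdiff hsub
  set B : ℝ := ∑ p ∈ prs y (y ^ 2), Real.log p / p with hBdef
  rw [abs_le] at hm1 hm2 hfly hfly2
  have hB1 : Real.log y - (2 * Cm + 2 * Real.log 2) ≤ B := by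
    rw [hB]
    linarith [hm1.1, hm1.2, hm2.1, hm2.2, hfly.1, hfly.2, hfly2.1, hfly2.2]
  have hB2 : B ≤ Real.log y + (2 * Cm + 2 * Real.log 2) := by
    rw [hB]
    linarith [hm1.1, hm1.2, hm2.1, hm2.2, hfly.1, hfly.2, hfly2.1, hfly2.2]
  have hmem : ∀ p ∈ prs y (y ^ 2), (y < p ∧ (p : ℝ) ≤ y ^ 2) := by
    intro p hp
    rw [mem_prs y (y ^ 2) (by positivity)] at hp
    exact hp.2
  have hup : ∀ p ∈ prs y (y ^ 2), 1 / (p : ℝ) * Real.log y ≤ Real.log p / p := by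
    intro p hp
    have h := hmem p hp
    have hp0 : (0 : ℝ) < p := hy0.trans h.1
    rw [div_mul_eq_mul_div, one_mul]
    gcongr
    exact h.1.le
  have hlo : ∀ p ∈ prs y (y ^ 2), Real.log p / p ≤ 1 / (p : ℝ) * (2 * Real.log y) := by
    intro p hp
    have h := hmem p hp
    have hp0 : (0 : ℝ) < p := hy0.trans h.1
    rw [div_mul_eq_mul_div, one_mul, ← hlogsq]
    gcongr
    exact h.2
  have h1 := sum_le_sum hup
  have h2 := sum_le_sum hlo
  rw [← sum_mul] at h1 h2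
  constructor
  · have h3 : 9 / 20 * (2 * Real.log y) ≤ (∑ p ∈ prs y (y ^ 2), 1 / (p : ℝ)) * (2 * Real.log y) := by
      refine le_trans ?_ h2
      refine le_trans ?_ hB1
      nlinarith
    exact le_of_mul_le_mul_right h3 (by positivity)
  · have h3 : (∑ p ∈ prs y (y ^ 2), 1 / (p : ℝ)) * Real.log y ≤ 11 / 10 * Real.log y := by
      refine h1.trans (hB2.trans ?_)
      nlinarith
    exact le_of_mul_le_mul_right h3 hlogpos

/-- Abel summation: `∑_{p ≤ N} 1/p ≤ log log N + C`. -/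
theorem N2_sum_inv : ∃ C : ℝ, ∀ N : ℕ, 2 ≤ N →
    ∑ p ∈ N2P N, 1 / (p : ℝ) ≤ Real.log (Real.log N) + C := by
  obtain ⟨Cm, hCm, hm⟩ := mertens1
  have hl2 : 0 < Real.log 2 := Real.log_pos (by norm_num)
  set A : ℕ → ℝ := fun N => ∑ p ∈ N2P N, Real.log p / p with hA
  set Sf : ℕ → ℝ := fun N => ∑ p ∈ N2P N, 1 / (p : ℝ) with hS
  have hAle : ∀ N : ℕ, 1 ≤ N → A N ≤ Real.log N + Cm := by
    intro N hN
    have := hm N hN
    rw [N2_prs0_nat, abs_le] at this
    simp only [hA]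
    linarith [this.2]
  have hP1 : N2P 1 = ∅ := by decide
  have hind : ∀ N : ℕ, 2 ≤ N → Sf N - A N / Real.log N ≤
      Real.log (Real.log N) - Real.log (Real.log 2) + Cm * (1 / Real.log 2 - 1 / Real.log N) := by
    intro N hN
    induction N, hN using Nat.le_induction with
    | base =>
      have h1 : Sf 2 = 1 / 2 := by
        simp only [hS]
        rw [N2_succ (fun p => 1 / (p : ℝ)) 1, hP1]
        norm_num [Nat.prime_two]
      have h2 : A 2 = Real.log 2 / 2 := by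
        simp only [hA]
        rw [N2_succ (fun p => Real.log p / p) 1, hP1]
        norm_num [Nat.prime_two]
      rw [h1, h2]
      have : Real.log 2 / 2 / Real.log ((2 : ℕ) : ℝ) = 1 / 2 := by
        push_cast
        field_simp
      rw [this]
      push_cast
      simp
    | succ N hN ih =>
      have hN1 : (1 : ℝ) < N := by exact_mod_cast (by omega : 1 < N)
      have hlN : 0 < Real.log N := Real.log_pos hN1
      have hlN1 : 0 < Real.log ((N + 1 : ℕ) : ℝ) := Real.log_pos (by push_cast; linarith)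
      have hmono : Real.log N ≤ Real.log ((N + 1 : ℕ) : ℝ) :=
        Real.log_le_log (by linarith) (by push_cast; linarith)
      set a := Real.log (N : ℝ) with ha
      set b := Real.log ((N + 1 : ℕ) : ℝ) with hb
      have hstepS : Sf (N + 1) = Sf N + if (N + 1).Prime then 1 / (((N + 1 : ℕ)) : ℝ) else 0 :=
        N2_succ (fun p => 1 / (p : ℝ)) N
      have hstepA : A (N + 1) = A N + if (N + 1).Prime then b / (((N + 1 : ℕ)) : ℝ) else 0 :=
        N2_succ (fun p => Real.log p / p) N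
      have hrel : Sf (N + 1) - A (N + 1) / b = Sf N - A N / b := by
        rw [hstepS, hstepA]
        split_ifs with hp
        · have : b / (((N + 1 : ℕ)) : ℝ) / b = 1 / (((N + 1 : ℕ)) : ℝ) := by
            field_simp
          rw [add_div, this]
          ring
        · ring
      rw [hrel]
      have hinv : 0 ≤ 1 / a - 1 / b := sub_nonneg.mpr (one_div_le_one_div_of_le hlN hmono)
      have hA' : A N * (1 / a - 1 / b) ≤ (a + Cm) * (1 / a - 1 / b) :=
        mul_le_mul_of_nonneg_right (hAle N (by omega)) hinv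
      have hlog : a * (1 / a - 1 / b) ≤ Real.log b - Real.log a := by
        have h1 : a * (1 / a - 1 / b) = 1 - a / b := by
          field_simp
        rw [h1, ← Real.log_div hlN1.ne' hlN.ne']
        have h2 := Real.one_sub_inv_le_log_of_pos (div_pos hlN1 hlN)
        rw [inv_div] at h2
        exact h2
      have e1 : Sf N - A N / b = (Sf N - A N / a) + A N * (1 / a - 1 / b) := by
        field_simp
        ring
      rw [e1]
      have e2 : (a + Cm) * (1 / a - 1 / b) = a * (1 / a - 1 / b) + Cm * (1 / a - 1 / b) := by ring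
      have e3 : Cm * (1 / Real.log 2 - 1 / b) =
          Cm * (1 / Real.log 2 - 1 / a) + Cm * (1 / a - 1 / b) := by ring
      rw [e3]
      linarith
  refine ⟨1 + 2 * Cm / Real.log 2 - Real.log (Real.log 2), fun N hN => ?_⟩
  have h1 := hind N hN
  have hN2 : (2 : ℝ) ≤ N := by exact_mod_cast hN
  have hlN : Real.log 2 ≤ Real.log N := Real.log_le_log (by norm_num) hN2
  have hlN0 : 0 < Real.log N := by linarith
  have h2 : A N / Real.log N ≤ 1 + Cm / Real.log 2 := by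
    have h3 : A N / Real.log N ≤ (Real.log N + Cm) / Real.log N := by
      have := hAle N (by omega)
      gcongr
    have h4 : (Real.log N + Cm) / Real.log N = 1 + Cm / Real.log N := by
      field_simp
    have h5 : Cm / Real.log N ≤ Cm / Real.log 2 := by gcongr
    linarith
  have h6 : Cm * (1 / Real.log 2 - 1 / Real.log N) ≤ Cm / Real.log 2 := by
    have : 0 < 1 / Real.log N := by positivity
    have e : Cm / Real.log 2 = Cm * (1 / Real.log 2) := by ring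
    rw [e]
    exact mul_le_mul_of_nonneg_left (by linarith) hCm.le
  have e : 2 * Cm / Real.log 2 = Cm / Real.log 2 + Cm / Real.log 2 := by ring
  change Sf N ≤ _
  rw [e]
  linarith

theorem N2_sum_sq (N : ℕ) : ∑ p ∈ N2P N, 1 / (p : ℝ) ^ 2 ≤ 1 := by
  have h : ∀ N : ℕ, 1 ≤ N → ∑ p ∈ N2P N, 1 / (p : ℝ) ^ 2 ≤ 1 - 1 / (N : ℝ) := by
    intro N hN
    induction N, hN using Nat.le_induction with
    | base =>
      have hP1 : N2P 1 = ∅ := by decide
      rw [hP1]; norm_num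
    | succ N hN ih =>
      rw [N2_succ (fun p => 1 / (p : ℝ) ^ 2) N]
      have hN' : (1 : ℝ) ≤ N := by exact_mod_cast hN
      have h1 : (if (N + 1).Prime then 1 / (((N + 1 : ℕ) : ℝ)) ^ 2 else 0) ≤
          1 / (((N + 1 : ℕ) : ℝ)) ^ 2 := by
        split_ifs
        · exact le_rfl
        · positivity
      have h2 : 1 / (((N + 1 : ℕ) : ℝ)) ^ 2 ≤ 1 / (N : ℝ) - 1 / ((N + 1 : ℕ) : ℝ) := by
        push_cast
        rw [div_sub_div _ _ (by positivity) (by positivity), div_le_div_iff₀ (by positivity) (by positivity)]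
        nlinarith
      linarith
  rcases Nat.eq_zero_or_pos N with h0 | h0
  · subst h0
    have : N2P 0 = ∅ := by decide
    rw [this]; norm_num
  · have h1 := h N h0
    have : (0 : ℝ) ≤ 1 / (N : ℝ) := by positivity
    linarith

theorem N2_one_sub {x : ℝ} (h0 : 0 ≤ x) (h1 : x ≤ 1 / 2) : Real.exp (-(x + 2 * x ^ 2)) ≤ 1 - x := by
  have h2 : 0 < 1 - x := by linarith
  rw [← Real.le_log_iff_exp_le h2]
  have h3 := Real.one_sub_inv_le_log_of_pos h2
  refine le_trans ?_ h3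
  have h4 : 1 - (1 - x)⁻¹ = -(x / (1 - x)) := by
    field_simp
    ring
  rw [h4, neg_le_neg_iff, div_le_iff₀ h2]
  nlinarith [mul_nonneg h0 h0]

theorem V_lower : ∃ c : ℝ, 0 < c ∧ ∀ y : ℝ, 2 ≤ y →
    c / Real.log y ≤ ∏ p ∈ prs 0 y, (1 - 1 / (p : ℝ)) := by
  obtain ⟨C, hC⟩ := N2_sum_inv
  refine ⟨Real.exp (-(C + 2)), Real.exp_pos _, fun y hy => ?_⟩
  rw [N2_prs0 y (by linarith)]
  set N := ⌊y⌋₊ with hN
  have hN2 : 2 ≤ N := Nat.le_floor (by exact_mod_cast hy)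
  have hNy : (N : ℝ) ≤ y := Nat.floor_le (by linarith)
  have hN2' : (2 : ℝ) ≤ N := by exact_mod_cast hN2
  have hlN : 0 < Real.log N := Real.log_pos (by linarith)
  have h1 : ∏ p ∈ N2P N, Real.exp (-(1 / (p : ℝ) + 2 * (1 / (p : ℝ)) ^ 2)) ≤
      ∏ p ∈ N2P N, (1 - 1 / (p : ℝ)) := by
    refine prod_le_prod (fun p _ => (Real.exp_pos _).le) fun p hp => ?_
    rw [N2_mem] at hp
    have h2p : (2 : ℝ) ≤ p := by exact_mod_cast hp.1.two_le
    refine N2_one_sub (by positivity) ?_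
    exact one_div_le_one_div_of_le (by norm_num) h2p
  refine le_trans ?_ h1
  rw [← Real.exp_sum]
  have h2 : ∑ p ∈ N2P N, -(1 / (p : ℝ) + 2 * (1 / (p : ℝ)) ^ 2) =
      -(∑ p ∈ N2P N, 1 / (p : ℝ) + 2 * ∑ p ∈ N2P N, 1 / (p : ℝ) ^ 2) := by
    rw [sum_neg_distrib, sum_add_distrib, mul_sum]
    simp only [one_div, inv_pow]
  rw [h2]
  have h3 := hC N hN2
  have h4 := N2_sum_sq N
  have h5 : Real.exp (-(C + 2)) / Real.log y ≤ Real.exp (-(C + 2)) / Real.log N := by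
    gcongr
  refine h5.trans ?_
  have h6 : Real.exp (-(C + 2)) / Real.log N = Real.exp (-(C + 2) - Real.log (Real.log N)) := by
    rw [Real.exp_sub, Real.exp_log hlN]
  rw [h6, Real.exp_le_exp]
  linarith

end Crest.Agent.PG
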