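import Crest.Agent.PG_Defs
/-!
# PG-N3 (S0021): upper bound for `∏_{p ≤ y} (1 - 1/p)` and short tails

* `V_upper`: `∏_{p ≤ y} (1-1/p)⁻¹ ≥ ∑_{n ≤ y} 1/n ≥ log y` (every `n ≤ y` is a product of primes `≤ y`; Mathlib has
  `Nat.smoothNumbers`/`EulerProduct` tools, `prod_primesBelow_tsum_eq_tsum_smoothNumbers`, and `Real.log_le_harmonic`…).
* `tail_sum`: `∑_{y<p≤W} 1/p ≤ #{y<p≤W}/y ≤ θ(W)/(y log y) ≤ (W/y) log 4 / log y`.
* `tail_prod`: `∏ (1-x_i) ≥ 1 - ∑ x_i`.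
-/
set_option autoImplicit false
namespace Crest.Agent.PG
open Finset

/-- `n ↦ 1/n` as a monoid hom. -/
noncomputable def N3f : ℕ →* ℝ where
  toFun n := (n : ℝ)⁻¹
  map_one' := by simp
  map_mul' a b := by push_cast; rw [mul_inv]

theorem N3_prs (y : ℝ) (hy : 0 ≤ y) : prs 0 y = (⌊y⌋₊ + 1).primesBelow := by
  ext p
  unfold prs
  rw [mem_filter, mem_range, Nat.mem_primesBelow]
  constructor
  · rintro ⟨h1, h2, -⟩; exact ⟨h1, h2⟩
  · rintro ⟨h1, h2⟩; exact ⟨h1, h2, by exact_mod_cast h2.pos⟩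

theorem V_upper (y : ℝ) (hy : 2 ≤ y) : ∏ p ∈ prs 0 y, (1 - 1 / (p : ℝ)) ≤ 1 / Real.log y := by
  have hlog : 0 < Real.log y := Real.log_pos (by linarith)
  have hf : ∀ {p : ℕ}, p.Prime → ‖N3f p‖ < 1 := by
    intro p hp
    show ‖(p : ℝ)⁻¹‖ < 1
    rw [norm_inv, Real.norm_natCast]
    exact inv_lt_one_of_one_lt₀ (by exact_mod_cast hp.one_lt)
  obtain ⟨hs, hh⟩ := EulerProduct.summable_and_hasSum_smoothNumbers_prod_primesBelow_geometric
    hf (⌊y⌋₊ + 1)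
  have hnn : ∀ m : (⌊y⌋₊ + 1).smoothNumbers, 0 ≤ N3f m := by
    intro m
    show (0 : ℝ) ≤ ((m : ℕ) : ℝ)⁻¹
    positivity
  have hharm : (harmonic ⌊y⌋₊ : ℝ) ≤ ∏ p ∈ (⌊y⌋₊ + 1).primesBelow, (1 - N3f p)⁻¹ := by
    rw [harmonic_eq_sum_Icc]
    push_cast
    have hmem : ∀ i ∈ Icc 1 ⌊y⌋₊, i ∈ (⌊y⌋₊ + 1).smoothNumbers := by
      intro i hi
      rw [mem_Icc] at hi
      exact Nat.mem_smoothNumbers_of_lt (by omega) (by omega)
    have h1 : ∑ i ∈ Icc 1 ⌊y⌋₊, ((i : ℝ))⁻¹ =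
        ∑ m ∈ (Icc 1 ⌊y⌋₊).attach.map ⟨fun i => (⟨i.1, hmem i.1 i.2⟩ :
          (⌊y⌋₊ + 1).smoothNumbers), fun a b h => by
            simp only [Subtype.mk.injEq] at h
            exact Subtype.ext h⟩, N3f m := by
      rw [Finset.sum_map]
      rw [← Finset.sum_attach]
      rfl
    rw [h1]
    exact sum_le_hasSum _ (fun m _ => hnn m) hh
  have h2 : Real.log y ≤ ∏ p ∈ prs 0 y, (1 - 1 / (p : ℝ))⁻¹ := by
    rw [N3_prs y (by linarith)]
    refine (log_le_harmonic_floor y (by linarith)).trans (hharm.trans (le_of_eq ?_))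
    apply Finset.prod_congr rfl
    intro p _
    show (1 - (p : ℝ)⁻¹)⁻¹ = _
    rw [one_div]
  rw [Finset.prod_inv_distrib] at h2
  have hpos : 0 < ∏ p ∈ prs 0 y, (1 - 1 / (p : ℝ)) := by
    apply Finset.prod_pos
    intro p hp
    rw [N3_prs y (by linarith), Nat.mem_primesBelow] at hp
    have : (2 : ℝ) ≤ p := by exact_mod_cast hp.2.two_le
    rw [sub_pos, div_lt_one (by linarith)]
    linarith
  rw [le_div_iff₀ hlog]
  calc _ ≤ (∏ p ∈ prs 0 y, (1 - 1 / (p : ℝ))) * (∏ p ∈ prs 0 y, (1 - 1 / (p : ℝ)))⁻¹ :=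
        mul_le_mul_of_nonneg_left h2 hpos.le
    _ = 1 := mul_inv_cancel₀ hpos.ne'

theorem N3_mem {u v : ℝ} (hv : 0 ≤ v) {p : ℕ} : p ∈ prs u v ↔ p.Prime ∧ u < p ∧ (p : ℝ) ≤ v := by
  unfold prs
  rw [mem_filter, mem_range, Nat.lt_succ_iff, Nat.le_floor_iff hv]
  tauto

theorem tail_sum (y W : ℝ) (hy : 1 < y) (hW : y ≤ W) :
    ∑ p ∈ prs y W, 1 / (p : ℝ) ≤ (W / y) * (Real.log 4 / Real.log y) := by
  have hlog : 0 < Real.log y := Real.log_pos hy
  have hy0 : 0 < y := by linarith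
  have hW0 : 0 ≤ W := by linarith
  have h1 : ∑ p ∈ prs y W, 1 / (p : ℝ) ≤ ∑ p ∈ prs y W, Real.log p / (y * Real.log y) := by
    apply Finset.sum_le_sum
    intro p hp
    rw [N3_mem hW0] at hp
    have hp0 : (0 : ℝ) < p := by linarith [hp.2.1]
    rw [div_le_div_iff₀ hp0 (by positivity)]
    have hl : Real.log y ≤ Real.log p := Real.log_le_log hy0 hp.2.1.le
    calc 1 * (y * Real.log y) = y * Real.log y := one_mul _
      _ ≤ p * Real.log p := mul_le_mul hp.2.1.le hl hlog.le hp0.le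
      _ = Real.log p * p := mul_comm _ _
  have h2 : ∑ p ∈ prs y W, Real.log p ≤ Chebyshev.theta W := by
    unfold Chebyshev.theta
    apply Finset.sum_le_sum_of_subset_of_nonneg
    · intro p hp
      rw [N3_mem hW0] at hp
      rw [mem_filter, mem_Ioc, Nat.le_floor_iff hW0]
      exact ⟨⟨hp.1.pos, hp.2.2⟩, hp.1⟩
    · intro p _ _
      exact Real.log_natCast_nonneg p
  have h3 := Chebyshev.theta_le_log4_mul_x hW0
  calc ∑ p ∈ prs y W, 1 / (p : ℝ) ≤ ∑ p ∈ prs y W, Real.log p / (y * Real.log y) := h1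
    _ = (∑ p ∈ prs y W, Real.log p) / (y * Real.log y) := by rw [Finset.sum_div]
    _ ≤ (Real.log 4 * W) / (y * Real.log y) :=
        div_le_div_of_nonneg_right (h2.trans h3) (by positivity)
    _ = (W / y) * (Real.log 4 / Real.log y) := by
        field_simp

theorem N3_prod (s : Finset ℕ) (x : ℕ → ℝ) (h0 : ∀ i ∈ s, 0 ≤ x i) (h1 : ∀ i ∈ s, x i ≤ 1) :
    1 - ∑ i ∈ s, x i ≤ ∏ i ∈ s, (1 - x i) := by
  classical
  induction s using Finset.induction_on with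
  | empty => simp
  | insert a s ha ih =>
    rw [Finset.sum_insert ha, Finset.prod_insert ha]
    have ih' := ih (fun i hi => h0 i (Finset.mem_insert_of_mem hi))
      (fun i hi => h1 i (Finset.mem_insert_of_mem hi))
    have ha0 := h0 a (Finset.mem_insert_self _ _)
    have ha1 := h1 a (Finset.mem_insert_self _ _)
    have hs : 0 ≤ ∑ i ∈ s, x i := Finset.sum_nonneg fun i hi => h0 i (Finset.mem_insert_of_mem hi)
    calc 1 - (x a + ∑ i ∈ s, x i) ≤ (1 - x a) * (1 - ∑ i ∈ s, x i) := by nlinarith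
      _ ≤ _ := mul_le_mul_of_nonneg_left ih' (by linarith)

theorem tail_prod (y W : ℝ) (hy : 1 < y) (hW : y ≤ W) :
    1 - (W / y) * (Real.log 4 / Real.log y) ≤ ∏ p ∈ prs y W, (1 - 1 / (p : ℝ)) := by
  have hW0 : 0 ≤ W := by linarith
  have h1 := N3_prod (prs y W) (fun p => 1 / (p : ℝ)) (fun p _ => by positivity) (fun p hp => by
    rw [N3_mem hW0] at hp
    have hp0 : (1 : ℝ) ≤ p := by linarith [hp.2.1]
    exact (div_le_one (by linarith)).mpr hp0)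
  have h2 := tail_sum y W hy hW
  linarith

end Crest.Agent.PG
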