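import Crest.Agent.PG_T02
/-!
# PG-N7 (S0021): counting residues

`Q = primorial y`, `φ(Q)/Q = ∏_{p ≤ y} (1-1/p)`.
* `sum_Hs`: `∑_{b<Q} #{h ∈ [1,w] : (b+h,Q)=1} = w φ(Q)`.
* `pair_count`: for `h < h'`, `l = h' - h`:
  `#{b < Q : (b+h,Q) = (b+h',Q) = 1}/Q = ∏_{p∣Q} (1 - ν_p/p)`, `ν_p = 1` if `p ∣ l`, `2` otherwise (CRT, e.g. `EM_prod` of
  PG_T02), and `1-2/p ≤ (1-1/p)²`, so it is `≤ (φ(Q)/Q)² ∏_{p ∣ l} (1-1/p)⁻¹ = (φ(Q)/Q)² l/φ(l)`.
-/
set_option autoImplicit false
namespace Crest.Agent.PG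
open Finset

theorem N7_totient_div (n : ℕ) (hn : n ≠ 0) :
    (Nat.totient n : ℝ) / n = ∏ p ∈ n.primeFactors, (1 - 1 / (p : ℝ)) := by
  have h := Nat.totient_eq_mul_prod_factors n
  have h2 : (Nat.totient n : ℝ) = n * ∏ p ∈ n.primeFactors, (1 - (p : ℝ)⁻¹) := by
    have := congrArg (fun q : ℚ => (q : ℝ)) h
    push_cast at this
    exact this
  rw [h2, mul_comm, mul_div_assoc, div_self (by exact_mod_cast hn), mul_one]
  simp only [one_div]

theorem totient_primorial (y : ℕ) :
    (Nat.totient (primorial y) : ℝ) / primorial y = ∏ p ∈ (range (y + 1)).filter Nat.Prime, (1 - 1 / (p : ℝ)) := by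
  rw [N7_totient_div _ (primorial_ne_zero y), primeFactors_primorial]
  rfl

theorem sum_Hs (Q w : ℕ) (hQ : 0 < Q) :
    ∑ b ∈ range Q, ((Icc 1 w).filter (fun h => Nat.Coprime (b + h) Q)).card = w * Nat.totient Q := by
  have h1 : ∀ h : ℕ, ((range Q).filter (fun b => Nat.Coprime (b + h) Q)).card = Nat.totient Q := by
    intro h
    rw [← Nat.filter_coprime_Ico_eq_totient Q h]
    refine Finset.card_bij (fun b _ => b + h) ?_ ?_ ?_
    · intro b hb
      rw [mem_filter, mem_range] at hb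
      rw [mem_filter, mem_Ico]
      exact ⟨⟨by omega, by omega⟩, hb.2.symm⟩
    · intro a _ b _ hab
      omega
    · intro x hx
      rw [mem_filter, mem_Ico] at hx
      refine ⟨x - h, ?_, by omega⟩
      rw [mem_filter, mem_range]
      refine ⟨by omega, ?_⟩
      rw [Nat.sub_add_cancel hx.1.1]
      exact hx.2.symm
  calc ∑ b ∈ range Q, ((Icc 1 w).filter (fun h => Nat.Coprime (b + h) Q)).card
      = ∑ b ∈ range Q, ∑ h ∈ Icc 1 w, if Nat.Coprime (b + h) Q then 1 else 0 := by
        refine sum_congr rfl fun b _ => ?_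
        rw [card_filter]
    _ = ∑ h ∈ Icc 1 w, ∑ b ∈ range Q, if Nat.Coprime (b + h) Q then 1 else 0 := sum_comm
    _ = ∑ h ∈ Icc 1 w, Nat.totient Q := by
        refine sum_congr rfl fun h _ => ?_
        rw [← card_filter, h1]
    _ = w * Nat.totient Q := by simp

/-- The indicator at one prime. -/
noncomputable def N7_ind (h h' p n : ℕ) : ℝ := if ¬ p ∣ n + h ∧ ¬ p ∣ n + h' then 1 else 0

theorem N7_ind_nonneg (h h' p n : ℕ) : 0 ≤ N7_ind h h' p n := by
  unfold N7_ind; split_ifs <;> norm_num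

theorem N7_local (h h' p : ℕ) (hh : h < h') (hp : p.Prime) :
    EM p (N7_ind h h' p) ≤ (1 - 1 / (p : ℝ)) ^ 2 * (if p ∣ h' - h then (1 - 1 / (p : ℝ))⁻¹ else 1) := by
  have hp0 : 0 < p := hp.pos
  have hpR : (2 : ℝ) ≤ p := by exact_mod_cast hp.two_le
  have hex : ∀ a : ℕ, (p - a % p) % p < p ∧ p ∣ (p - a % p) % p + a := by
    intro a
    refine ⟨Nat.mod_lt _ hp0, ?_⟩
    have h1 : a % p < p := Nat.mod_lt _ hp0
    rw [Nat.dvd_iff_mod_eq_zero, Nat.add_mod, Nat.mod_mod, ← Nat.add_mod]
    have h2 : a = p * (a / p) + a % p := (Nat.div_add_mod a p).symm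
    have h3 : p - a % p + a = p * (1 + a / p) := by
      rw [Nat.mul_add, Nat.mul_one]
      omega
    rw [h3, Nat.mul_mod_right]
  set n1 := (p - h % p) % p with hn1
  set n2 := (p - h' % p) % p with hn2
  obtain ⟨l1, d1⟩ := hex h
  obtain ⟨l2, d2⟩ := hex h'
  have hEM : EM p (N7_ind h h' p)
      = (((range p).filter (fun n => ¬ p ∣ n + h ∧ ¬ p ∣ n + h')).card : ℝ) / p := by
    unfold EM N7_ind
    rw [card_filter]
    push_cast
    rfl
  have hsub : (range p).filter (fun n => ¬ p ∣ n + h ∧ ¬ p ∣ n + h') ⊆ range p \ {n1, n2} := by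
    intro n hn
    rw [mem_filter] at hn
    rw [mem_sdiff]
    refine ⟨hn.1, ?_⟩
    rw [mem_insert, mem_singleton]
    rintro (rfl | rfl)
    · exact hn.2.1 d1
    · exact hn.2.2 d2
  have hsub2 : ({n1, n2} : Finset ℕ) ⊆ range p := by
    intro n hn
    rw [mem_insert, mem_singleton] at hn
    rw [mem_range]
    rcases hn with rfl | rfl
    · exact l1
    · exact l2
  have hcard : ((range p).filter (fun n => ¬ p ∣ n + h ∧ ¬ p ∣ n + h')).card
      + ({n1, n2} : Finset ℕ).card ≤ p := by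
    have := card_le_card hsub
    rw [card_sdiff_of_subset hsub2, card_range] at this
    have h4 := card_le_card hsub2
    rw [card_range] at h4
    omega
  rw [hEM]
  have hpos : (0 : ℝ) < 1 - 1 / (p : ℝ) := by
    rw [sub_pos, div_lt_one (by linarith)]; linarith
  split_ifs with hd
  · rw [pow_two, mul_assoc, mul_inv_cancel₀ hpos.ne', mul_one]
    have h5 : 1 ≤ ({n1, n2} : Finset ℕ).card := card_pos.2 ⟨n1, by simp⟩
    have h6 : (((range p).filter (fun n => ¬ p ∣ n + h ∧ ¬ p ∣ n + h')).card : ℝ) + 1 ≤ p := by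
      exact_mod_cast le_trans (Nat.add_le_add_left h5 _) hcard
    rw [div_le_iff₀ (by linarith), sub_mul, one_div, inv_mul_cancel₀ (by linarith)]
    linarith
  · rw [mul_one]
    have hne : n1 ≠ n2 := by
      intro he
      apply hd
      have d1' : p ∣ n1 + h := d1
      have d2' : p ∣ n2 + h' := d2
      rw [← he] at d2'
      have := (Nat.dvd_sub d2' d1')
      have h7 : n1 + h' - (n1 + h) = h' - h := by omega
      rwa [h7] at this
    have h5 : ({n1, n2} : Finset ℕ).card = 2 := card_pair hne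
    rw [h5] at hcard
    have h6 : (((range p).filter (fun n => ¬ p ∣ n + h ∧ ¬ p ∣ n + h')).card : ℝ) + 2 ≤ p := by
      exact_mod_cast hcard
    rw [div_le_iff₀ (by linarith)]
    have h8 : (1 - 1 / (p : ℝ)) ^ 2 * p = p - 2 + 1 / p := by
      field_simp; ring
    rw [h8]
    have : 0 < 1 / (p : ℝ) := by positivity
    linarith

theorem N7_one_le (p : ℕ) (hp : p.Prime) : 1 ≤ (1 - 1 / (p : ℝ))⁻¹ := by
  have hp2 : (2 : ℝ) ≤ p := by exact_mod_cast hp.two_le
  have h1 : (0 : ℝ) < 1 - 1 / (p : ℝ) := by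
    rw [sub_pos, div_lt_one (by linarith)]; linarith
  rw [one_le_inv₀ h1]
  have : 0 < 1 / (p : ℝ) := by positivity
  linarith

theorem pair_count (y h h' : ℕ) (hh : h < h') :
    (((range (primorial y)).filter (fun b => Nat.Coprime (b + h) (primorial y) ∧
      Nat.Coprime (b + h') (primorial y))).card : ℝ) / primorial y ≤
      ((Nat.totient (primorial y) : ℝ) / primorial y) ^ 2 * (((h' - h : ℕ) : ℝ) / (Nat.totient (h' - h) : ℝ)) := by
  set P := (range (y + 1)).filter Nat.Prime with hP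
  have hprime : ∀ p ∈ P, p.Prime := fun p hp => (mem_filter.1 hp).2
  have hcop : ∀ a, Nat.Coprime a (primorial y) ↔ ∀ p ∈ P, ¬ p ∣ a := by
    intro a
    rw [show primorial y = ∏ p ∈ P, p from rfl, Nat.coprime_prod_right_iff]
    refine forall₂_congr fun p hp => ?_
    rw [Nat.coprime_comm, (hprime p hp).coprime_iff_not_dvd]
  have h1 : (((range (primorial y)).filter (fun b => Nat.Coprime (b + h) (primorial y) ∧
      Nat.Coprime (b + h') (primorial y))).card : ℝ) / primorial y
      = EM (∏ p ∈ P, p) (fun n => ∏ p ∈ P, N7_ind h h' p n) := by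
    unfold EM
    rw [card_filter, show primorial y = ∏ p ∈ P, p from rfl, Nat.cast_sum]
    congr 1
    refine sum_congr rfl fun n _ => ?_
    have h2 := hcop (n + h)
    have h3 := hcop (n + h')
    rw [show primorial y = ∏ p ∈ P, p from rfl] at h2 h3
    push_cast
    split_ifs with hc
    · rw [h2, h3] at hc
      symm
      refine prod_eq_one fun p hp => ?_
      unfold N7_ind
      rw [if_pos ⟨hc.1 p hp, hc.2 p hp⟩]
    · symm
      rw [h2, h3] at hc
      have : ∃ p ∈ P, p ∣ n + h ∨ p ∣ n + h' := by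
        by_contra hcon
        push Not at hcon
        exact hc ⟨fun p hp => (hcon p hp).1, fun p hp => (hcon p hp).2⟩
      obtain ⟨p, hp, hd⟩ := this
      refine prod_eq_zero hp ?_
      unfold N7_ind
      rw [if_neg]
      tauto
  rw [h1, EM_prod P (fun p => p) (fun p hp => (hprime p hp).pos)
    (fun p hp q hq hpq => (Nat.coprime_primes (hprime p hp) (hprime q hq)).2 hpq)
    (fun p => N7_ind h h' p)]
  · calc ∏ p ∈ P, EM p (N7_ind h h' p)
        ≤ ∏ p ∈ P, ((1 - 1 / (p : ℝ)) ^ 2 * (if p ∣ h' - h then (1 - 1 / (p : ℝ))⁻¹ else 1)) := by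
          refine prod_le_prod (fun p _ => ?_) (fun p hp => N7_local h h' p hh (hprime p hp))
          exact EM_nonneg _ _ (fun n => N7_ind_nonneg _ _ _ _)
      _ = (∏ p ∈ P, (1 - 1 / (p : ℝ))) ^ 2 *
            ∏ p ∈ P, (if p ∣ h' - h then (1 - 1 / (p : ℝ))⁻¹ else 1) := by
          rw [prod_mul_distrib, prod_pow]
      _ ≤ _ := by
          rw [← totient_primorial]
          refine mul_le_mul_of_nonneg_left ?_ (sq_nonneg _)
          have hl : h' - h ≠ 0 := by omega
          have h4 : ((h' - h : ℕ) : ℝ) / (Nat.totient (h' - h) : ℝ)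
              = ∏ p ∈ (h' - h).primeFactors, (1 - 1 / (p : ℝ))⁻¹ := by
            rw [prod_inv_distrib, ← N7_totient_div _ hl, inv_div]
          rw [h4, ← prod_filter]
          refine Finset.prod_le_prod_of_subset_of_one_le ?_ ?_ ?_
          · intro p hp
            rw [mem_filter] at hp
            exact Nat.mem_primeFactors.2 ⟨hprime p hp.1, hp.2, hl⟩
          · intro p hp
            rw [mem_filter] at hp
            exact (zero_le_one).trans (N7_one_le p (hprime p hp.1))
          · intro p hp _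
            exact N7_one_le p (Nat.prime_of_mem_primeFactors hp)
  · intro p hp n
    unfold N7_ind
    have e1 : p ∣ n + p + h ↔ p ∣ n + h := by
      rw [show n + p + h = (n + h) + p by ring, Nat.dvd_add_self_right]
    have e2 : p ∣ n + p + h' ↔ p ∣ n + h' := by
      rw [show n + p + h' = (n + h') + p by ring, Nat.dvd_add_self_right]
    simp only [e1, e2]

end Crest.Agent.PG
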