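import Crest.Agent.PG_N1
import Crest.Agent.PG_N2
import Crest.Agent.PG_N3
import Crest.Agent.PG_N7
/-!
# PG-N8 (S0021): the concrete sieve data `mkSD` are good, for large `X`

`z = X^(1/(320 k 2^L))`; small blocks `(z^(2^-(i+1)), z^(2^-i)] ∩ (W,∞)`, large blocks `(z^(2^i), z^(2^(i+1))]`.
* `CM` comes from `V_lower`, `V_upper`: `∏_{z<p≤z^(2^a)} (1-1/p) = V(z^(2^a))/V(z) ≤ (1/(2^a log z)) (log z/c)`.
* `ssum`: the block is empty unless `z^(2^-i) > W`, and then `y = z^(2^-(i+1)) > √W → ∞` (`block_sum`).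
* `scard`, `lcard`: at most `⌊v⌋ - 1` primes `≤ v`.
* `cop`: the primes of `P` are `> W ≥ 2 log X`, the primes dividing `primorial ⌊log X/100⌋` are smaller.
* the union of the small blocks is the set of primes in `(W, z]` (as `z^(2^-I) ≤ W`, `I = ⌈log X⌉`), so
  `(φ(Q)/Q) Vs = ∏_{p≤z}(1-1/p) / ∏_{y<p≤W}(1-1/p) ≤ 2/log z`, `y = log X/100` (`tail_prod`, `W/y = O(1)`).
-/
set_option autoImplicit false
namespace Crest.Agent.PG
open Finset Filter

theorem N8_split (f : ℕ → ℝ) {a b c : ℝ} (ha : 0 ≤ a) (hab : a ≤ b) (hbc : b ≤ c) :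
    ∏ p ∈ prs a c, f p = (∏ p ∈ prs a b, f p) * ∏ p ∈ prs b c, f p := by
  have hb : 0 ≤ b := ha.trans hab
  have hc : 0 ≤ c := hb.trans hbc
  have h1 : prs a c = prs a b ∪ prs b c := by
    ext p
    rw [mem_union, mem_prs _ _ hc, mem_prs _ _ hb, mem_prs _ _ hc]
    constructor
    · rintro ⟨h1, h2, h3⟩
      rcases le_or_gt (p : ℝ) b with h | h
      · exact Or.inl ⟨h1, h2, h⟩
      · exact Or.inr ⟨h1, h, h3⟩
    · rintro (⟨h1, h2, h3⟩ | ⟨h1, h2, h3⟩)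
      · exact ⟨h1, h2, h3.trans hbc⟩
      · exact ⟨h1, lt_of_le_of_lt hab h2, h3⟩
  have h2 : Disjoint (prs a b) (prs b c) := by
    rw [Finset.disjoint_left]
    intro p hp hp'
    rw [mem_prs _ _ hb] at hp
    rw [mem_prs _ _ hc] at hp'
    exact absurd hp.2.2 (not_le.mpr hp'.2.1)
  rw [h1, prod_union h2]

theorem N8_card (u v : ℝ) (hv : 1 ≤ v) : ((prs u v).card : ℝ) + 1 ≤ v := by
  have hn : 1 ≤ ⌊v⌋₊ := Nat.le_floor (by exact_mod_cast hv)
  have h1 : prs u v ⊆ Icc 2 ⌊v⌋₊ := by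
    intro p hp
    rw [mem_prs _ _ (by linarith)] at hp
    rw [mem_Icc]
    exact ⟨hp.1.two_le, Nat.le_floor hp.2.2⟩
  have h2 := card_le_card h1
  rw [Nat.card_Icc] at h2
  have h3 : (prs u v).card + 1 ≤ ⌊v⌋₊ := by omega
  calc ((prs u v).card : ℝ) + 1 = (((prs u v).card + 1 : ℕ) : ℝ) := by push_cast; ring
    _ ≤ (⌊v⌋₊ : ℝ) := by exact_mod_cast h3
    _ ≤ v := Nat.floor_le (by linarith)

theorem N8_one_sub_pos {u v : ℝ} (hv : 0 ≤ v) {p : ℕ} (hp : p ∈ prs u v) :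
    0 < 1 - 1 / (p : ℝ) := by
  rw [mem_prs _ _ hv] at hp
  have h2 : (2 : ℝ) ≤ p := by exact_mod_cast hp.1.two_le
  have h3 : 1 / (p : ℝ) ≤ 1 / 2 := one_div_le_one_div_of_le (by norm_num) h2
  linarith

theorem N8_prod_pos {u v : ℝ} (hv : 0 ≤ v) : 0 < ∏ p ∈ prs u v, (1 - 1 / (p : ℝ)) :=
  prod_pos fun _ hp => N8_one_sub_pos hv hp

theorem N8_half_pow {z : ℝ} (hz : 0 ≤ z) (i : ℕ) :
    (z ^ ((1 / 2 : ℝ) ^ (i + 1))) ^ 2 = z ^ ((1 / 2 : ℝ) ^ i) := by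
  rw [← Real.rpow_natCast, ← Real.rpow_mul hz]
  congr 1
  rw [pow_succ]
  push_cast
  ring

/-- `W` -/
noncomputable def N8W (C Dd : ℝ) (X : ℕ) : ℕ := 2 * HH Dd X + w0 C X

theorem N8_W_lower {C Dd : ℝ} (hDd : 1 ≤ Dd) {X : ℕ} (hX : 1 ≤ X) :
    2 * Real.log X ≤ (N8W C Dd X : ℝ) := by
  have hl : 0 ≤ Real.log X := Real.log_nonneg (by exact_mod_cast hX)
  unfold N8W HH w0
  push_cast
  have h1 : Dd * Real.log X ≤ (⌈Dd * Real.log X⌉₊ : ℝ) := Nat.le_ceil _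
  have h2 : (0 : ℝ) ≤ (⌈C * Real.log (4 * X)⌉₊ : ℝ) := Nat.cast_nonneg _
  nlinarith

theorem N8_W_upper {C Dd : ℝ} (hC : 1 ≤ C) (hDd : 1 ≤ Dd) {X : ℕ} (hX : 2 ≤ Real.log X) :
    (N8W C Dd X : ℝ) ≤ (2 * Dd + 2 * C + 3) * Real.log X := by
  have hX0 : (0 : ℝ) < X := by
    by_contra h
    have : (X : ℝ) = 0 := le_antisymm (not_lt.mp h) (Nat.cast_nonneg X)
    rw [this, Real.log_zero] at hX
    linarith
  have hl4 : Real.log (4 * X) = Real.log 4 + Real.log X := Real.log_mul (by norm_num) hX0.ne'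
  have hlog4 : Real.log 4 ≤ 2 := by
    have : Real.log 4 = 2 * Real.log 2 := by
      rw [show (4 : ℝ) = 2 ^ 2 by norm_num, Real.log_pow]; norm_num
    have := Real.log_two_lt_d9
    linarith
  have hlog4' : 0 ≤ Real.log 4 := Real.log_nonneg (by norm_num)
  unfold N8W HH w0
  push_cast
  have h1 : (⌈Dd * Real.log X⌉₊ : ℝ) < Dd * Real.log X + 1 := Nat.ceil_lt_add_one (by positivity)
  have h2 : (⌈C * Real.log (4 * X)⌉₊ : ℝ) < C * Real.log (4 * X) + 1 := by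
    refine Nat.ceil_lt_add_one ?_
    rw [hl4]
    positivity
  rw [hl4] at h2 ⊢
  have h3 : 0 ≤ C * (Real.log X - 2) := mul_nonneg (by linarith) (by linarith)
  have h4 : 0 ≤ C * (2 - Real.log 4) := mul_nonneg (by linarith) (by linarith)
  nlinarith

/-- all the eventual facts on `X` -/
theorem N8_eventually (C Dd : ℝ) (L k : ℕ) (hC : 1 ≤ C) (hDd : 1 ≤ Dd) (hk : 10 ≤ k) (M : ℝ) :
    ∀ᶠ X : ℕ in atTop, 1 ≤ X ∧ M ≤ Real.log X ∧ M ≤ zz L k X ∧ (N8W C Dd X : ℝ) ≤ zz L k X := by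
  have he : (0 : ℝ) < 1 / (320 * k * 2 ^ L) := by
    have : (0 : ℝ) < k := by exact_mod_cast (by omega : 0 < k)
    positivity
  have hlog : Tendsto (fun X : ℕ => Real.log X) atTop atTop :=
    Real.tendsto_log_atTop.comp tendsto_natCast_atTop_atTop
  have hz : Tendsto (fun X : ℕ => zz L k X) atTop atTop := by
    have := (tendsto_rpow_atTop he).comp (tendsto_natCast_atTop_atTop (R := ℝ))
    exact this
  have hK : (0 : ℝ) < 2 * Dd + 2 * C + 3 := by linarith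
  have hlo := (isLittleO_log_rpow_atTop he).bound (c := 1 / (2 * Dd + 2 * C + 3)) (by positivity)
  have hlo' := (tendsto_natCast_atTop_atTop (R := ℝ)).eventually hlo
  filter_upwards [eventually_ge_atTop 1, hlog.eventually_ge_atTop M, hz.eventually_ge_atTop M, hlo',
    hlog.eventually_ge_atTop 2] with X h1 h2 h3 h4 h5
  refine ⟨h1, h2, h3, ?_⟩
  refine (N8_W_upper hC hDd h5).trans ?_
  have hX0 : (0 : ℝ) ≤ X := Nat.cast_nonneg X
  rw [Real.norm_of_nonneg (by linarith), Real.norm_of_nonneg (Real.rpow_nonneg hX0 _)] at h4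
  have h6 : (2 * Dd + 2 * C + 3) * Real.log X ≤
      (2 * Dd + 2 * C + 3) * (1 / (2 * Dd + 2 * C + 3) * (X : ℝ) ^ (1 / (320 * k * 2 ^ L) : ℝ)) :=
    mul_le_mul_of_nonneg_left h4 hK.le
  refine h6.trans (le_of_eq ?_)
  unfold zz
  field_simp

theorem N8_mem_sb {C Dd : ℝ} {L k X i p : ℕ} (hz : 0 ≤ zz L k X)
    (hp : p ∈ (mkSD C Dd L k X).sb i) :
    p.Prime ∧ (zz L k X) ^ ((1 / 2 : ℝ) ^ (i + 1)) < p ∧ (p : ℝ) ≤ (zz L k X) ^ ((1 / 2 : ℝ) ^ i) ∧
      N8W C Dd X < p := by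
  have h : p ∈ (prs ((zz L k X) ^ ((1 / 2 : ℝ) ^ (i + 1))) ((zz L k X) ^ ((1 / 2 : ℝ) ^ i))).filter
    (fun p => 2 * HH Dd X + w0 C X < p) := hp
  rw [mem_filter, mem_prs _ _ (Real.rpow_nonneg hz _)] at h
  exact ⟨h.1.1, h.1.2.1, h.1.2.2, h.2⟩

theorem N8_mem_lb {C Dd : ℝ} {L k X i p : ℕ} (hz : 0 ≤ zz L k X)
    (hp : p ∈ (mkSD C Dd L k X).lb i) :
    p.Prime ∧ (zz L k X) ^ (2 ^ i) < p ∧ (p : ℝ) ≤ (zz L k X) ^ (2 ^ (i + 1)) := by
  have h : p ∈ prs ((zz L k X) ^ (2 ^ i)) ((zz L k X) ^ (2 ^ (i + 1))) := hp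
  rwa [mem_prs _ _ (pow_nonneg hz _)] at h

theorem N8_pow_mono {z : ℝ} (hz : 1 ≤ z) {i j : ℕ} (hij : i ≤ j) : z ^ (2 ^ i) ≤ z ^ (2 ^ j) :=
  pow_le_pow_right₀ hz (Nat.pow_le_pow_right (by norm_num) hij)

theorem N8_rpow_mono {z : ℝ} (hz : 1 ≤ z) {i j : ℕ} (hij : i ≤ j) :
    z ^ ((1 / 2 : ℝ) ^ j) ≤ z ^ ((1 / 2 : ℝ) ^ i) :=
  Real.rpow_le_rpow_of_exponent_le hz (pow_le_pow_of_le_one (by norm_num) (by norm_num) hij)

theorem N8_ge_self {z : ℝ} (hz : 1 ≤ z) (i : ℕ) : z ≤ z ^ (2 ^ i) := by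
  have := N8_pow_mono hz (Nat.zero_le i)
  simpa using this

theorem N8_le_self {z : ℝ} (hz : 1 ≤ z) (i : ℕ) : z ^ ((1 / 2 : ℝ) ^ i) ≤ z := by
  have := N8_rpow_mono hz (Nat.zero_le i)
  simpa using this

theorem N8_mem_P {C Dd : ℝ} {L k X p : ℕ} (hz : 1 ≤ zz L k X) (hzW : (N8W C Dd X : ℝ) ≤ zz L k X)
    (hp : p ∈ (mkSD C Dd L k X).P) : p.Prime ∧ N8W C Dd X < p := by
  have hz0 : 0 ≤ zz L k X := by linarith
  unfold SD.P SD.Ps SD.Pl at hp
  rw [mem_union, mem_biUnion, mem_biUnion] at hp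
  rcases hp with ⟨i, -, hi⟩ | ⟨i, -, hi⟩
  · have h := N8_mem_sb hz0 hi
    exact ⟨h.1, h.2.2.2⟩
  · have h := N8_mem_lb hz0 hi
    refine ⟨h.1, ?_⟩
    have h2 : (N8W C Dd X : ℝ) < p := lt_of_le_of_lt (hzW.trans (N8_ge_self hz i)) h.2.1
    exact_mod_cast h2

theorem N8_mert (z : ℝ) (hz : 1 ≤ z) (f : ℕ → ℝ) (a : ℕ) :
    (∏ i ∈ range a, ∏ p ∈ prs (z ^ (2 ^ i)) (z ^ (2 ^ (i + 1))), f p) * ∏ p ∈ prs 0 z, f p =
      ∏ p ∈ prs 0 (z ^ (2 ^ a)), f p := by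
  induction a with
  | zero => simp
  | succ a ih =>
    rw [prod_range_succ, mul_right_comm, ih,
      N8_split f le_rfl (pow_nonneg (by linarith) _) (N8_pow_mono hz (Nat.le_succ a))]

theorem mkSD_good : ∃ CM : ℝ, 1 ≤ CM ∧ ∀ (C Dd : ℝ) (L k : ℕ), 1 ≤ C → 1 ≤ Dd → 1 ≤ L → 10 ≤ k →
    (L : ℝ) * (Real.exp 17 / 16 ^ k) ≤ 1 / 10 → ∀ᶠ X : ℕ in atTop, (mkSD C Dd L k X).Good CM := by
  obtain ⟨y0, hy0, hblk⟩ := block_sum
  obtain ⟨c, hc, hV⟩ := V_lower
  refine ⟨max 1 (1 / c), le_max_left _ _, fun C Dd L k hC hDd hL hk hLk => ?_⟩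
  filter_upwards [N8_eventually C Dd L k hC hDd hk (100 + y0 ^ 2)] with X hX
  obtain ⟨hX1, hlX, hzM, hzW⟩ := hX
  have hlX0 : 0 ≤ Real.log X := by nlinarith
  have hWl := N8_W_lower (C := C) hDd hX1
  have hz2 : 2 ≤ zz L k X := by nlinarith
  have hz1 : 1 ≤ zz L k X := by linarith
  have hz0 : 0 ≤ zz L k X := by linarith
  have hzy : y0 ≤ zz L k X := by nlinarith
  have hzpos : ∀ n : ℕ, 1 ≤ (zz L k X) ^ n := fun n => one_le_pow₀ hz1
  have hrpow1 : ∀ i : ℕ, 1 ≤ (zz L k X) ^ ((1 / 2 : ℝ) ^ i) := fun i =>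
    Real.one_le_rpow hz1 (by positivity)
  have hlb : ∀ i : ℕ, (mkSD C Dd L k X).lb i =
      prs ((zz L k X) ^ (2 ^ i)) (((zz L k X) ^ (2 ^ i)) ^ 2) := by
    intro i
    change prs ((zz L k X) ^ (2 ^ i)) ((zz L k X) ^ (2 ^ (i + 1))) = _
    rw [← pow_mul, ← pow_succ]
  refine
    { hk := hk, hW := ?_, hL := hL, hLk := hLk, hQ := primorial_pos _, hz := hz1
      prime := fun p hp => (N8_mem_P hz1 hzW hp).1
      big := fun p hp => (N8_mem_P hz1 hzW hp).2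
      cop := ?_, ss := ?_, ll := ?_, sl := ?_, ssum := ?_, lsum1 := ?_, lsum2 := ?_
      scard := ?_, lcard := ?_, hCM := le_max_left _ _, hMert := ?_ }
  · change 100 ≤ N8W C Dd X
    have : (100 : ℝ) ≤ N8W C Dd X := by nlinarith
    exact_mod_cast this
  · intro p hp hdvd
    have h1 := N8_mem_P hz1 hzW hp
    have h2 : p ∣ primorial ⌊Real.log X / 100⌋₊ := hdvd
    rw [primorial] at h2
    rw [Prime.dvd_finsetProd_iff h1.1.prime] at h2
    obtain ⟨q, hq, hpq⟩ := h2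
    rw [mem_filter, mem_range] at hq
    have h3 : p = q := (Nat.prime_dvd_prime_iff_eq h1.1 hq.2).1 hpq
    have h4 : p ≤ ⌊Real.log X / 100⌋₊ := by omega
    have h5 : (p : ℝ) ≤ Real.log X / 100 := by
      have : ((p : ℕ) : ℝ) ≤ (⌊Real.log X / 100⌋₊ : ℝ) := by exact_mod_cast h4
      exact this.trans (Nat.floor_le (by positivity))
    have h6 : (N8W C Dd X : ℝ) < p := by exact_mod_cast h1.2
    linarith
  · -- ss
    have key : ∀ i j : ℕ, i < j →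
        Disjoint ((mkSD C Dd L k X).sb i) ((mkSD C Dd L k X).sb j) := by
      intro i j hij
      rw [Finset.disjoint_left]
      intro p hp hp'
      have h1 := N8_mem_sb hz0 hp
      have h2 := N8_mem_sb hz0 hp'
      have h3 := N8_rpow_mono hz1 (Nat.succ_le_of_lt hij)
      have h4 : (p : ℝ) < p := lt_of_le_of_lt (h2.2.2.1.trans h3) h1.2.1
      exact absurd h4 (lt_irrefl _)
    intro i _ j _ hij
    rcases lt_or_gt_of_ne hij with h | h
    · exact key i j h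
    · exact (key j i h).symm
  · -- ll
    have key : ∀ i j : ℕ, i < j →
        Disjoint ((mkSD C Dd L k X).lb i) ((mkSD C Dd L k X).lb j) := by
      intro i j hij
      rw [Finset.disjoint_left]
      intro p hp hp'
      have h1 := N8_mem_lb hz0 hp
      have h2 := N8_mem_lb hz0 hp'
      have h3 := N8_pow_mono hz1 (Nat.succ_le_of_lt hij)
      have h4 : (p : ℝ) < p := lt_of_le_of_lt (h1.2.2.trans h3) h2.2.1
      exact absurd h4 (lt_irrefl _)
    intro i _ j _ hij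
    rcases lt_or_gt_of_ne hij with h | h
    · exact key i j h
    · exact (key j i h).symm
  · -- sl
    intro i _ j _
    rw [Finset.disjoint_left]
    intro p hp hp'
    have h1 := N8_mem_sb hz0 hp
    have h2 := N8_mem_lb hz0 hp'
    have h3 := N8_le_self hz1 i
    have h4 := N8_ge_self hz1 j
    have h5 : (p : ℝ) < p := lt_of_le_of_lt (h1.2.2.1.trans (h3.trans h4)) h2.2.1
    exact absurd h5 (lt_irrefl _)
  · -- ssum
    intro i _
    rcases ((mkSD C Dd L k X).sb i).eq_empty_or_nonempty with he | ⟨p, hp⟩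
    · rw [he]; norm_num
    · have h1 := N8_mem_sb hz0 hp
      set y : ℝ := (zz L k X) ^ ((1 / 2 : ℝ) ^ (i + 1)) with hy
      have hy1 : 1 ≤ y := hrpow1 (i + 1)
      have hyy : y ^ 2 = (zz L k X) ^ ((1 / 2 : ℝ) ^ i) := N8_half_pow hz0 i
      have h2 : (N8W C Dd X : ℝ) < p := by exact_mod_cast h1.2.2.2
      have h3 : y0 ^ 2 ≤ y ^ 2 := by
        rw [hyy]
        linarith [h1.2.2.1]
      have h4 : y0 ≤ y := le_of_sq_le_sq h3 (by linarith)
      have h5 := (hblk y h4).2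
      refine le_trans ?_ h5
      refine sum_le_sum_of_subset_of_nonneg ?_ fun _ _ _ => by positivity
      intro q hq
      have h6 := N8_mem_sb hz0 hq
      rw [mem_prs _ _ (by positivity), hyy]
      exact ⟨h6.1, h6.2.1, h6.2.2.1⟩
  · intro i _
    rw [hlb i]
    exact (hblk _ (hzy.trans (N8_ge_self hz1 i))).1
  · intro i _
    rw [hlb i]
    exact (hblk _ (hzy.trans (N8_ge_self hz1 i))).2
  · intro i _
    change (((mkSD C Dd L k X).sb i).card : ℝ) + 1 ≤ (zz L k X) ^ ((1 / 2 : ℝ) ^ i)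
    have h1 := N8_card ((zz L k X) ^ ((1 / 2 : ℝ) ^ (i + 1))) ((zz L k X) ^ ((1 / 2 : ℝ) ^ i))
      (hrpow1 i)
    refine le_trans ?_ h1
    have h2 : ((mkSD C Dd L k X).sb i).card ≤
        (prs ((zz L k X) ^ ((1 / 2 : ℝ) ^ (i + 1))) ((zz L k X) ^ ((1 / 2 : ℝ) ^ i))).card :=
      card_le_card (filter_subset _ _)
    have h3 : (((mkSD C Dd L k X).sb i).card : ℝ) ≤
        ((prs ((zz L k X) ^ ((1 / 2 : ℝ) ^ (i + 1))) ((zz L k X) ^ ((1 / 2 : ℝ) ^ i))).card : ℝ) := by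
      exact_mod_cast h2
    linarith
  · intro i _
    exact N8_card _ _ (hzpos _)
  · -- hMert
    intro a _
    have h1 := N8_mert (zz L k X) hz1 (fun p => 1 - 1 / (p : ℝ)) a
    change ∏ i ∈ range a, ∏ p ∈ prs ((zz L k X) ^ (2 ^ i)) ((zz L k X) ^ (2 ^ (i + 1))),
      (1 - 1 / (p : ℝ)) ≤ _
    set Pr := ∏ i ∈ range a, ∏ p ∈ prs ((zz L k X) ^ (2 ^ i)) ((zz L k X) ^ (2 ^ (i + 1))),
      (1 - 1 / (p : ℝ)) with hPr
    have hlz : 0 < Real.log (zz L k X) := Real.log_pos (by linarith)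
    have h2 := V_upper ((zz L k X) ^ (2 ^ a)) (hz2.trans (N8_ge_self hz1 a))
    have h3 := hV (zz L k X) hz2
    rw [← h1, Real.log_pow] at h2
    push_cast at h2
    have hPr0 : 0 ≤ Pr := prod_nonneg fun i _ =>
      (N8_prod_pos (pow_nonneg hz0 _)).le
    have h4 : Pr * (c / Real.log (zz L k X)) ≤ 1 / (2 ^ a * Real.log (zz L k X)) :=
      (mul_le_mul_of_nonneg_left h3 hPr0).trans h2
    have h5 : Pr ≤ 1 / c * (1 / 2) ^ a := by
      have h6 : Pr * (c / Real.log (zz L k X)) * (Real.log (zz L k X) / c) ≤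
          1 / (2 ^ a * Real.log (zz L k X)) * (Real.log (zz L k X) / c) :=
        mul_le_mul_of_nonneg_right h4 (by positivity)
      have h7 : Pr * (c / Real.log (zz L k X)) * (Real.log (zz L k X) / c) = Pr := by
        field_simp
      have h8 : 1 / (2 ^ a * Real.log (zz L k X)) * (Real.log (zz L k X) / c) =
          1 / c * (1 / 2) ^ a := by
        rw [one_div_pow]
        field_simp
      rwa [h7, h8] at h6
    refine h5.trans ?_
    exact mul_le_mul_of_nonneg_right (le_max_right _ _) (by positivity)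

theorem mkSD_phi (C Dd : ℝ) (L k : ℕ) (hC : 1 ≤ C) (hDd : 1 ≤ Dd) (hL : 1 ≤ L) (hk : 10 ≤ k) :
    ∀ᶠ X : ℕ in atTop, ((Nat.totient (mkSD C Dd L k X).Q : ℝ) / (mkSD C Dd L k X).Q) * (mkSD C Dd L k X).Vs ≤
      640 * k * 2 ^ L / Real.log X := by
  set K : ℝ := 2 * Dd + 2 * C + 3 with hK
  have hK0 : 0 < K := by linarith
  filter_upwards [N8_eventually C Dd L k hC hDd hk (200 * Real.exp (400 * K * Real.log 4) + 400)]
    with X hX
  obtain ⟨hX1, hlX, hzM, hzW⟩ := hX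
  have hlog4 : 0 < Real.log 4 := Real.log_pos (by norm_num)
  have hexp1 : 1 ≤ Real.exp (400 * K * Real.log 4) := Real.one_le_exp (by positivity)
  have hl400 : 400 ≤ Real.log X := by linarith
  have hX0 : (0 : ℝ) < X := by exact_mod_cast hX1
  have hWl := N8_W_lower (C := C) hDd hX1
  have hWu := N8_W_upper (X := X) hC hDd (by linarith)
  have hz2 : 2 ≤ zz L k X := by linarith
  have hz1 : 1 ≤ zz L k X := by linarith
  have hz0 : 0 ≤ zz L k X := by linarith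
  set W : ℝ := (N8W C Dd X : ℝ) with hW
  set y : ℕ := ⌊Real.log X / 100⌋₊ with hy
  have hy1 : Real.log X / 200 ≤ (y : ℝ) := by
    have := Nat.lt_floor_add_one (Real.log X / 100)
    rw [← hy] at this
    linarith
  have hy2 : (y : ℝ) ≤ Real.log X / 100 := Nat.floor_le (by linarith)
  have hyexp : Real.exp (400 * K * Real.log 4) ≤ (y : ℝ) := by linarith
  have hy0 : 1 < (y : ℝ) := by linarith
  have hyW : (y : ℝ) ≤ W := by linarith
  have hlogy : 400 * K * Real.log 4 ≤ Real.log y := by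
    rw [Real.le_log_iff_exp_le (by linarith)]
    exact hyexp
  -- the tail product
  have htail := tail_prod (y : ℝ) W hy0 hyW
  have hWy : W / y ≤ 200 * K := by
    rw [div_le_iff₀ (by linarith)]
    nlinarith
  have hly0 : 0 < Real.log y := lt_of_lt_of_le (by positivity) hlogy
  have hsmall : (W / y) * (Real.log 4 / Real.log y) ≤ 1 / 2 := by
    have h1 : Real.log 4 / Real.log y ≤ 1 / (400 * K) := by
      rw [div_le_div_iff₀ hly0 (by positivity)]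
      linarith
    calc (W / y) * (Real.log 4 / Real.log y) ≤ (200 * K) * (1 / (400 * K)) :=
          mul_le_mul hWy h1 (by positivity) (by positivity)
      _ = 1 / 2 := by field_simp; norm_num
  have htail2 : 1 / 2 ≤ ∏ p ∈ prs (y : ℝ) W, (1 - 1 / (p : ℝ)) := by linarith
  -- the small blocks
  have hI : (zz L k X) ^ ((1 / 2 : ℝ) ^ ⌈Real.log X⌉₊) ≤ W := by
    have hzX : zz L k X ≤ X := by
      unfold zz
      have h1 : (X : ℝ) ^ (1 / (320 * k * 2 ^ L) : ℝ) ≤ (X : ℝ) ^ (1 : ℝ) := by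
        refine Real.rpow_le_rpow_of_exponent_le (by exact_mod_cast hX1) ?_
        rw [div_le_one (by positivity)]
        have h2 : (1 : ℝ) ≤ k := by exact_mod_cast (by omega : 1 ≤ k)
        have h3 : (1 : ℝ) ≤ 2 ^ L := one_le_pow₀ (by norm_num)
        nlinarith
      rwa [Real.rpow_one] at h1
    have h1 : (zz L k X) ^ ((1 / 2 : ℝ) ^ ⌈Real.log X⌉₊) ≤ (X : ℝ) ^ ((1 / 2 : ℝ) ^ ⌈Real.log X⌉₊) :=
      Real.rpow_le_rpow hz0 hzX (by positivity)
    have h2 : (X : ℝ) ^ ((1 / 2 : ℝ) ^ ⌈Real.log X⌉₊) ≤ Real.exp 1 := by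
      rw [Real.rpow_def_of_pos hX0, Real.exp_le_exp]
      have h3 : Real.log X ≤ (⌈Real.log X⌉₊ : ℝ) := Nat.le_ceil _
      have h4 : ((⌈Real.log X⌉₊ : ℕ) : ℝ) ≤ (2 : ℝ) ^ ⌈Real.log X⌉₊ := by
        exact_mod_cast (Nat.lt_two_pow_self).le
      rw [one_div_pow, mul_one_div, div_le_one (by positivity)]
      linarith
    have h5 := Real.exp_one_lt_d9
    linarith
  have hPs : (mkSD C Dd L k X).Ps = prs W (zz L k X) := by
    ext p
    unfold SD.Ps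
    rw [mem_biUnion, mem_prs _ _ hz0]
    constructor
    · rintro ⟨i, -, hi⟩
      have h := N8_mem_sb hz0 hi
      have h5 : (N8W C Dd X : ℝ) < p := by exact_mod_cast h.2.2.2
      exact ⟨h.1, h5, h.2.2.1.trans (N8_le_self hz1 i)⟩
    · rintro ⟨h1, h2, h3⟩
      -- least `i` with `z^(2^-(i+1)) < p`
      have hex : ∃ i : ℕ, (zz L k X) ^ ((1 / 2 : ℝ) ^ i) < p :=
        ⟨⌈Real.log X⌉₊, lt_of_le_of_lt hI h2⟩
      classical
      obtain ⟨i, hi, hmin⟩ : ∃ i, (zz L k X) ^ ((1 / 2 : ℝ) ^ i) < p ∧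
          ∀ j < i, ¬ (zz L k X) ^ ((1 / 2 : ℝ) ^ j) < p :=
        ⟨Nat.find hex, Nat.find_spec hex, fun j hj => Nat.find_min hex hj⟩
      have hipos : i ≠ 0 := by
        rintro rfl
        have h4 : (zz L k X) ^ ((1 / 2 : ℝ) ^ 0) = zz L k X := by simp
        rw [h4] at hi
        linarith
      obtain ⟨i', rfl⟩ := Nat.exists_eq_succ_of_ne_zero hipos
      have hle : i' + 1 ≤ ⌈Real.log X⌉₊ := by
        by_contra hcon
        exact hmin _ (not_le.mp hcon) (lt_of_le_of_lt hI h2)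
      refine ⟨i', ?_, ?_⟩
      · rw [mem_range]
        change i' < ⌈Real.log X⌉₊
        omega
      · change p ∈ (prs ((zz L k X) ^ ((1 / 2 : ℝ) ^ (i' + 1))) ((zz L k X) ^ ((1 / 2 : ℝ) ^ i'))).filter
          (fun p => 2 * HH Dd X + w0 C X < p)
        rw [mem_filter, mem_prs _ _ (Real.rpow_nonneg hz0 _)]
        refine ⟨⟨h1, hi, not_lt.mp (hmin i' (Nat.lt_succ_self i'))⟩, ?_⟩
        have : (N8W C Dd X : ℝ) < p := h2
        have h5 : N8W C Dd X < p := by exact_mod_cast this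
        exact h5
  have hQ : (Nat.totient (mkSD C Dd L k X).Q : ℝ) / (mkSD C Dd L k X).Q =
      ∏ p ∈ prs 0 (y : ℝ), (1 - 1 / (p : ℝ)) := by
    change (Nat.totient (primorial y) : ℝ) / primorial y = _
    rw [totient_primorial, N2_prs0_nat]
    rfl
  have hVs : (mkSD C Dd L k X).Vs = ∏ p ∈ prs W (zz L k X), (1 - 1 / (p : ℝ)) := by
    unfold SD.Vs
    rw [hPs]
  rw [hQ, hVs]
  have hsplit1 := N8_split (fun p => 1 - 1 / (p : ℝ)) (le_refl (0 : ℝ)) (by linarith : (0 : ℝ) ≤ W) hzW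
  have hsplit2 := N8_split (fun p => 1 - 1 / (p : ℝ)) (le_refl (0 : ℝ)) (by linarith : (0 : ℝ) ≤ y) hyW
  have hVu := V_upper (zz L k X) hz2
  rw [hsplit1, hsplit2] at hVu
  have hA : 0 < ∏ p ∈ prs 0 (y : ℝ), (1 - 1 / (p : ℝ)) := N8_prod_pos (by linarith)
  have hB : 0 < ∏ p ∈ prs W (zz L k X), (1 - 1 / (p : ℝ)) := N8_prod_pos hz0
  set A := ∏ p ∈ prs 0 (y : ℝ), (1 - 1 / (p : ℝ))
  set B := ∏ p ∈ prs W (zz L k X), (1 - 1 / (p : ℝ))
  set T := ∏ p ∈ prs (y : ℝ) W, (1 - 1 / (p : ℝ))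
  have hlz : Real.log (zz L k X) = Real.log X / (320 * k * 2 ^ L) := by
    unfold zz
    rw [Real.log_rpow hX0]
    ring
  have h1 : A * B * (1 / 2) ≤ 1 / Real.log (zz L k X) := by
    refine le_trans ?_ hVu
    have : A * B * (1 / 2) ≤ A * B * T := mul_le_mul_of_nonneg_left htail2 (by positivity)
    linarith
  have h2 : 1 / Real.log (zz L k X) = 320 * k * 2 ^ L / Real.log X := by
    rw [hlz, one_div_div]
  rw [h2] at h1
  have h3 : 640 * k * 2 ^ L / Real.log X = 2 * (320 * k * 2 ^ L / Real.log X) := by ring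
  rw [h3]
  linarith

end Crest.Agent.PG
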