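import Crest.Agent.PG_T11
import Crest.Agent.PG_N8
/-!
# PG-N9 (S0021): sizes and asymptotics for the concrete data

* `kappa_le`: `Vs · Kmx ≤ T (2 C log X) (640 k 2^L/log X)` (`mkSD_phi`, `w0 ≤ 2 C log X` for large `X`).
* `primes_le`: all primes in play are `≤ X`.
* `W_large`: `W ≥ 2 log X`.
* `norm_small`: `Q ≤ 4^(log X/100) ≤ X^(1/50)` (`primorial_le_four_pow`), `w0 + 1 = X^{o(1)}`,
  `(L+1)^(4N) ≤ X^{o(1)}` as `N ≤ T w0 φ(Q)/Q` and `φ(Q)/Q ≤ 1/log(log X/100) → 0` (`V_upper`),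
  `z^(4 (16k+16) 2^L) = X^((k+1)/(5k)) ≤ X^(0.22)`, `z^((4k+4) 2^L) ≤ X^(0.014)`.
* `HH_small`.
-/
set_option autoImplicit false
namespace Crest.Agent.PG
open Finset Filter

theorem N9_log_tendsto : Tendsto (fun X : ℕ => Real.log (X : ℝ)) atTop atTop :=
  Real.tendsto_log_atTop.comp tendsto_natCast_atTop_atTop

theorem N9_log_ge (K : ℝ) : ∀ᶠ X : ℕ in atTop, K ≤ Real.log (X : ℝ) :=
  N9_log_tendsto.eventually_ge_atTop K

/-- sizes of `w0` and `HH` -/
theorem w0_HH_small (C Dd : ℝ) (hC : 1 ≤ C) (hDd : 1 ≤ Dd) :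
    ∀ᶠ X : ℕ in atTop, 2 * HH Dd X + w0 C X ≤ X ∧ (w0 C X : ℝ) ≤ 2 * C * Real.log X ∧
      (HH Dd X : ℝ) ≤ 2 * Dd * Real.log X ∧ Dd * Real.log X ≤ HH Dd X ∧ 1 ≤ HH Dd X ∧
      1 ≤ w0 C X ∧ 1 ≤ Real.log X ∧ C * Real.log (4 * X) ≤ w0 C X := by
  have h1 : ∀ᶠ X : ℕ in atTop, (4 * Dd + 2 * C) * Real.log (X : ℝ) ≤ X := by
    have h := (Real.isLittleO_log_id_atTop.comp_tendsto
      (tendsto_natCast_atTop_atTop (R := ℝ))).def
      (c := 1 / (4 * Dd + 2 * C)) (by positivity)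
    filter_upwards [h, N9_log_ge 1] with X hX hX1
    simp only [Function.comp, id, Real.norm_eq_abs] at hX
    rw [abs_of_pos (by linarith), abs_of_nonneg (Nat.cast_nonneg X)] at hX
    rw [div_mul_eq_mul_div, le_div_iff₀ (by positivity)] at hX
    linarith
  filter_upwards [h1, N9_log_ge 3, eventually_ge_atTop 1] with X hX1 hX3 hX0
  have hXpos : (0 : ℝ) < X := by exact_mod_cast hX0
  have hlog4X : Real.log (4 * X) = Real.log 4 + Real.log X := Real.log_mul (by norm_num) hXpos.ne'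
  have hlog4 : Real.log 4 ≤ 2 := by
    have : Real.log 4 = 2 * Real.log 2 := by
      rw [show (4 : ℝ) = 2 ^ 2 by norm_num, Real.log_pow]; norm_num
    have h2 := Real.log_two_lt_d9
    linarith
  have hlog4' : 0 ≤ Real.log 4 := Real.log_nonneg (by norm_num)
  have hw_lt : (w0 C X : ℝ) < C * Real.log (4 * X) + 1 := by
    unfold w0
    apply Nat.ceil_lt_add_one
    rw [hlog4X]; nlinarith
  have hw_ge : C * Real.log (4 * X) ≤ w0 C X := Nat.le_ceil _
  have hH_lt : (HH Dd X : ℝ) < Dd * Real.log X + 1 := by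
    unfold HH
    apply Nat.ceil_lt_add_one
    nlinarith
  have hH_ge : Dd * Real.log X ≤ HH Dd X := Nat.le_ceil _
  rw [hlog4X] at hw_lt
  have hw2 : (w0 C X : ℝ) ≤ 2 * C * Real.log X := by nlinarith
  have hH2 : (HH Dd X : ℝ) ≤ 2 * Dd * Real.log X := by nlinarith
  refine ⟨?_, hw2, hH2, hH_ge, ?_, ?_, by linarith, hw_ge⟩
  · have : (2 * (HH Dd X : ℝ) + w0 C X) ≤ X := by nlinarith
    exact_mod_cast this
  · have : (0 : ℝ) < HH Dd X := by nlinarith
    exact_mod_cast this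
  · have : (0 : ℝ) < w0 C X := by
      rw [hlog4X] at hw_ge
      nlinarith
    exact_mod_cast this

theorem kappa_le (C Dd T : ℝ) (L k : ℕ) (hC : 1 ≤ C) (hDd : 1 ≤ Dd) (hT : 1 ≤ T) (hL : 1 ≤ L) (hk : 10 ≤ k) :
    ∀ᶠ X : ℕ in atTop, (mkSD C Dd L k X).Vs * Kmx C T X ≤ 1280 * T * C * k * 2 ^ L := by
  filter_upwards [mkSD_phi C Dd L k hC hDd hL hk, w0_HH_small C Dd hC hDd] with X h1 h2
  obtain ⟨-, hw, -, -, -, -, hlog, -⟩ := h2
  have hQ : (mkSD C Dd L k X).Q = primorial ⌊Real.log X / 100⌋₊ := rfl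
  rw [hQ] at h1
  unfold Kmx
  have hlog0 : 0 < Real.log X := by linarith
  have hw0 : (0 : ℝ) ≤ w0 C X := Nat.cast_nonneg _
  calc (mkSD C Dd L k X).Vs * (T * w0 C X *
        ((Nat.totient (primorial ⌊Real.log X / 100⌋₊) : ℝ) / primorial ⌊Real.log X / 100⌋₊))
      = T * w0 C X * (((Nat.totient (primorial ⌊Real.log X / 100⌋₊) : ℝ) /
          primorial ⌊Real.log X / 100⌋₊) * (mkSD C Dd L k X).Vs) := by ring
    _ ≤ T * w0 C X * (640 * k * 2 ^ L / Real.log X) := by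
        apply mul_le_mul_of_nonneg_left h1 (by positivity)
    _ ≤ T * (2 * C * Real.log X) * (640 * k * 2 ^ L / Real.log X) := by
        gcongr
    _ = 1280 * T * C * k * 2 ^ L := by
        field_simp
        ring

theorem N9_zz_ge_one (L k X : ℕ) (hX : 1 ≤ X) : 1 ≤ zz L k X := by
  unfold zz
  apply Real.one_le_rpow (by exact_mod_cast hX)
  positivity

theorem N9_zz_exp (L k X : ℕ) (hX : 1 ≤ X) :
    zz L k X = Real.exp (Real.log X * (1 / (320 * k * 2 ^ L))) := by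
  unfold zz
  rw [Real.rpow_def_of_pos (by exact_mod_cast hX)]

theorem N9_zz_pow (L k X n : ℕ) (hX : 1 ≤ X) :
    zz L k X ^ n = Real.exp (Real.log X * (n * (1 / (320 * k * 2 ^ L)))) := by
  rw [N9_zz_exp L k X hX, ← Real.exp_nat_mul]
  congr 1
  ring

theorem primes_le (C Dd : ℝ) (L k : ℕ) (hL : 1 ≤ L) (hk : 10 ≤ k) :
    ∀ᶠ X : ℕ in atTop, (∀ p ∈ (mkSD C Dd L k X).P, p ≤ X) ∧
      ∀ p : ℕ, p.Prime → p ∣ (mkSD C Dd L k X).Q → p ≤ X := by
  filter_upwards [eventually_ge_atTop 1] with X hX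
  have hXpos : (0 : ℝ) < X := by exact_mod_cast hX
  have hX1 : (1 : ℝ) ≤ X := by exact_mod_cast hX
  have hz1 : 1 ≤ zz L k X := N9_zz_ge_one L k X hX
  have hlogX : 0 ≤ Real.log X := Real.log_nonneg hX1
  have hkR : (10 : ℝ) ≤ k := by exact_mod_cast hk
  have hzpow : zz L k X ^ (2 ^ L) ≤ X := by
    rw [N9_zz_pow L k X _ hX]
    calc Real.exp (Real.log X * (((2 ^ L : ℕ) : ℝ) * (1 / (320 * k * 2 ^ L))))
        ≤ Real.exp (Real.log X * 1) := by
          apply Real.exp_le_exp.mpr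
          apply mul_le_mul_of_nonneg_left _ hlogX
          push_cast
          have : (2 : ℝ) ^ L * (1 / (320 * k * 2 ^ L)) = 1 / (320 * k) := by
            field_simp
          rw [this, div_le_one (by positivity)]
          linarith
      _ = X := by rw [mul_one, Real.exp_log hXpos]
  have hz : zz L k X ≤ X := by
    refine le_trans ?_ hzpow
    exact le_self_pow₀ hz1 (by positivity)
  refine ⟨?_, ?_⟩
  · intro p hp
    unfold SD.P at hp
    rw [mem_union] at hp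
    rcases hp with hp | hp
    · unfold SD.Ps at hp
      rw [mem_biUnion] at hp
      obtain ⟨i, hi, hp⟩ := hp
      have hp' : p ∈ (prs ((zz L k X) ^ ((1 / 2 : ℝ) ^ (i + 1))) ((zz L k X) ^ ((1 / 2 : ℝ) ^ i))).filter
        (fun p => 2 * HH Dd X + w0 C X < p) := hp
      rw [mem_filter, mem_prs _ _ (by positivity)] at hp'
      have h1 : (p : ℝ) ≤ zz L k X ^ ((1 / 2 : ℝ) ^ i) := hp'.1.2.2
      have h2 : zz L k X ^ ((1 / 2 : ℝ) ^ i) ≤ zz L k X ^ (1 : ℝ) := by
        apply Real.rpow_le_rpow_of_exponent_le hz1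
        exact pow_le_one₀ (by norm_num) (by norm_num)
      rw [Real.rpow_one] at h2
      have h3 : (p : ℝ) ≤ X := h1.trans (h2.trans hz)
      exact_mod_cast h3
    · unfold SD.Pl at hp
      rw [mem_biUnion] at hp
      obtain ⟨i, hi, hp⟩ := hp
      have hi' : i < L := by
        have : i ∈ range L := hi
        exact mem_range.mp this
      have hp' : p ∈ prs ((zz L k X) ^ (2 ^ i)) ((zz L k X) ^ (2 ^ (i + 1))) := hp
      rw [mem_prs _ _ (by positivity)] at hp'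
      have h1 : (p : ℝ) ≤ zz L k X ^ (2 ^ (i + 1)) := hp'.2.2
      have h2 : zz L k X ^ (2 ^ (i + 1)) ≤ zz L k X ^ (2 ^ L) :=
        pow_le_pow_right₀ hz1 (Nat.pow_le_pow_right (by norm_num) (by omega))
      have h3 : (p : ℝ) ≤ X := h1.trans (h2.trans hzpow)
      exact_mod_cast h3
  · intro p hp hpQ
    have hpQ' : p ∣ primorial ⌊Real.log X / 100⌋₊ := hpQ
    rw [hp.dvd_primorial_iff] at hpQ'
    have h1 : (⌊Real.log X / 100⌋₊ : ℝ) ≤ Real.log X / 100 := Nat.floor_le (by positivity)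
    have h2 : Real.log X ≤ X := (Real.log_le_sub_one_of_pos hXpos).trans (by linarith)
    have h3 : (p : ℝ) ≤ X := by
      have : (p : ℝ) ≤ (⌊Real.log X / 100⌋₊ : ℝ) := by exact_mod_cast hpQ'
      linarith
    exact_mod_cast h3

theorem W_large (C Dd : ℝ) (L k : ℕ) (hC : 1 ≤ C) (hDd : 1 ≤ Dd) (K : ℝ) :
    ∀ᶠ X : ℕ in atTop, K ≤ ((mkSD C Dd L k X).W : ℝ) := by
  filter_upwards [w0_HH_small C Dd hC hDd, N9_log_ge (max K 1)] with X h1 h2
  obtain ⟨-, -, -, h3, -, -, hlog, -⟩ := h1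
  have hW : ((mkSD C Dd L k X).W : ℝ) = 2 * HH Dd X + w0 C X := by
    show ((2 * HH Dd X + w0 C X : ℕ) : ℝ) = _
    push_cast; ring
  rw [hW]
  have h4 : (0 : ℝ) ≤ w0 C X := Nat.cast_nonneg _
  have h5 := le_max_left K 1
  nlinarith

/-- the density `φ(Q)/Q` tends to zero -/
theorem N9_phi_small (δ : ℝ) (hδ : 0 < δ) : ∀ᶠ X : ℕ in atTop,
    (Nat.totient (primorial ⌊Real.log X / 100⌋₊) : ℝ) / primorial ⌊Real.log X / 100⌋₊ ≤ δ := by
  have h1 : Tendsto (fun X : ℕ => Real.log (Real.log (X : ℝ) / 100)) atTop atTop :=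
    Real.tendsto_log_atTop.comp (N9_log_tendsto.atTop_div_const (by norm_num))
  filter_upwards [h1.eventually_ge_atTop (1 / δ), N9_log_ge 300] with X hX hX1
  rw [totient_primorial]
  have h2 := V_upper (Real.log X / 100) (by linarith)
  have h3 : prs 0 (Real.log X / 100) = (range (⌊Real.log X / 100⌋₊ + 1)).filter Nat.Prime := by
    ext p
    unfold prs
    rw [mem_filter, mem_filter]
    constructor
    · rintro ⟨a, b, c⟩; exact ⟨a, b⟩
    · rintro ⟨a, b⟩; exact ⟨a, b, by exact_mod_cast b.pos⟩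
  rw [h3] at h2
  refine h2.trans ?_
  have h4 : 0 < 1 / δ := by positivity
  rw [div_le_iff₀ (by linarith)]
  have := mul_le_mul_of_nonneg_left hX hδ.le
  rwa [mul_one_div_cancel hδ.ne'] at this

theorem norm_small (C Dd T : ℝ) (L k : ℕ) (hC : 1 ≤ C) (hDd : 1 ≤ Dd) (hT : 1 ≤ T) (hL : 1 ≤ L) (hk : 10 ≤ k)
    (δ : ℝ) (hδ : 0 < δ) :
    ∀ᶠ X : ℕ in atTop, ∀ N : ℕ, (N : ℝ) ≤ Kmx C T X →
      ((mkSD C Dd L k X).Q : ℝ) * ((w0 C X + 1) * (1 + (mkSD C Dd L k X).NB N) ^ 4 *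
        (mkSD C Dd L k X).z ^ ((4 * k + 4) * 2 ^ L)) ≤ δ * X / (Real.log X) ^ 2 := by
  set ℓ : ℝ := Real.log ((L : ℝ) + 1) with hℓ
  have hLR : (1 : ℝ) ≤ L := by exact_mod_cast hL
  have hℓ0 : 0 < ℓ := Real.log_pos (by linarith)
  set K1 : ℝ := ((4 : ℝ) ^ (L + 1)) ^ (2 ^ (L + 1)) with hK1
  have hK1pos : 1 ≤ K1 := by
    rw [hK1]
    exact one_le_pow₀ (one_le_pow₀ (by norm_num))
  set η : ℝ := 1 / (80 * ℓ * T * C) with hη
  have hη0 : 0 < η := by positivity
  have hlim : ∀ᶠ X : ℕ in atTop, (Real.log (X : ℝ)) ^ 3 ≤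
      δ / (48 * C * K1 ^ 4) * Real.exp (64 / 100 * Real.log (X : ℝ)) := by
    have h := ((isLittleO_pow_exp_pos_mul_atTop (k := 3) (b := 64 / 100) (by norm_num)).comp_tendsto
      N9_log_tendsto).def (c := δ / (48 * C * K1 ^ 4)) (by positivity)
    filter_upwards [h, N9_log_ge 1] with X hX hX1
    simp only [Function.comp, Real.norm_eq_abs] at hX
    rw [abs_of_pos (by positivity), abs_of_pos (Real.exp_pos _)] at hX
    exact hX
  filter_upwards [w0_HH_small C Dd hC hDd, N9_phi_small η hη0, hlim, eventually_ge_atTop 1]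
    with X h1 h2 h3 hX1 N hN
  obtain ⟨-, hw, -, -, -, hw1, hlog, -⟩ := h1
  have hXpos : (0 : ℝ) < X := by exact_mod_cast hX1
  set x : ℝ := Real.log X with hx
  have hXe : (X : ℝ) = Real.exp x := (Real.exp_log hXpos).symm
  have hkR : (10 : ℝ) ≤ k := by exact_mod_cast hk
  have hx0 : 0 < x := by linarith
  -- Q
  have hQ : ((mkSD C Dd L k X).Q : ℝ) ≤ Real.exp (x / 50) := by
    have e1 : (mkSD C Dd L k X).Q ≤ 4 ^ ⌊x / 100⌋₊ := primorial_le_four_pow _
    have e2 : ((mkSD C Dd L k X).Q : ℝ) ≤ (4 : ℝ) ^ ⌊x / 100⌋₊ := by exact_mod_cast e1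
    refine e2.trans ?_
    have e3 : (4 : ℝ) ^ ⌊x / 100⌋₊ = Real.exp (⌊x / 100⌋₊ * Real.log 4) := by
      rw [Real.exp_nat_mul, Real.exp_log (by norm_num)]
    rw [e3]
    apply Real.exp_le_exp.mpr
    have e4 : (⌊x / 100⌋₊ : ℝ) ≤ x / 100 := Nat.floor_le (by positivity)
    have e5 : Real.log 4 ≤ 2 := by
      have : Real.log 4 = 2 * Real.log 2 := by
        rw [show (4 : ℝ) = 2 ^ 2 by norm_num, Real.log_pow]; norm_num
      have h2 := Real.log_two_lt_d9
      linarith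
    have e6 : 0 ≤ Real.log 4 := Real.log_nonneg (by norm_num)
    calc (⌊x / 100⌋₊ : ℝ) * Real.log 4 ≤ x / 100 * 2 := mul_le_mul e4 e5 e6 (by positivity)
      _ = x / 50 := by ring
  -- w0 + 1
  have hw' : (w0 C X : ℝ) + 1 ≤ 3 * C * x := by
    have : 1 ≤ C * x := by nlinarith
    linarith
  -- N
  have hNle : (N : ℝ) * ℓ ≤ x / 40 := by
    have e1 : (N : ℝ) ≤ T * (2 * C * x) * η := by
      refine hN.trans ?_
      unfold Kmx
      have e0 : (0 : ℝ) ≤ (Nat.totient (primorial ⌊Real.log X / 100⌋₊) : ℝ) /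
        primorial ⌊Real.log X / 100⌋₊ := by positivity
      have hw00 : (0 : ℝ) ≤ w0 C X := Nat.cast_nonneg _
      apply mul_le_mul _ h2 e0 (by positivity)
      exact mul_le_mul_of_nonneg_left hw (by linarith)
    calc (N : ℝ) * ℓ ≤ (T * (2 * C * x) * η) * ℓ := mul_le_mul_of_nonneg_right e1 hℓ0.le
      _ = x / 40 := by rw [hη]; field_simp; ring
  have hLN : ((L : ℝ) + 1) ^ N ≤ Real.exp (x / 40) := by
    have e3 : ((L : ℝ) + 1) ^ N = Real.exp (N * ℓ) := by
      rw [Real.exp_nat_mul, hℓ, Real.exp_log (by linarith)]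
    rw [e3]
    exact Real.exp_le_exp.mpr hNle
  -- z powers
  have hkk : (16 * (k : ℝ) + 16) * (1 / (320 * k)) ≤ 55 / 1000 := by
    rw [mul_one_div, div_le_iff₀ (by positivity)]
    linarith
  have hz1 : (mkSD C Dd L k X).z ^ ((16 * k + 16) * 2 ^ L) ≤ Real.exp (x * (55 / 1000)) := by
    have e1 : (mkSD C Dd L k X).z = zz L k X := rfl
    rw [e1, N9_zz_pow L k X _ hX1]
    apply Real.exp_le_exp.mpr
    apply mul_le_mul_of_nonneg_left _ hx0.le
    push_cast
    refine le_trans (le_of_eq ?_) hkk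
    field_simp
  have hz2 : (mkSD C Dd L k X).z ^ ((4 * k + 4) * 2 ^ L) ≤ Real.exp (x * (1 / 50)) := by
    have e1 : (mkSD C Dd L k X).z = zz L k X := rfl
    rw [e1, N9_zz_pow L k X _ hX1]
    apply Real.exp_le_exp.mpr
    apply mul_le_mul_of_nonneg_left _ hx0.le
    push_cast
    have e2 : ((4 * (k : ℝ) + 4) * 2 ^ L) * (1 / (320 * k * 2 ^ L)) =
      (16 * (k : ℝ) + 16) * (1 / (320 * k)) / 4 := by field_simp; ring
    rw [e2]
    linarith
  -- NB
  have hNB1 : 1 ≤ (mkSD C Dd L k X).NB N := by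
    unfold SD.NB
    have e1 : (1 : ℝ) ≤ (((mkSD C Dd L k X).L : ℝ) + 1) ^ N := by
      apply one_le_pow₀
      have : (0 : ℝ) ≤ ((mkSD C Dd L k X).L : ℝ) := Nat.cast_nonneg _
      linarith
    have e2 : (1 : ℝ) ≤ ((4 : ℝ) ^ ((mkSD C Dd L k X).L + 1)) ^ (2 ^ ((mkSD C Dd L k X).L + 1)) :=
      one_le_pow₀ (one_le_pow₀ (by norm_num))
    have e3 : (1 : ℝ) ≤ (mkSD C Dd L k X).z ^
        ((16 * (mkSD C Dd L k X).k + 16) * 2 ^ (mkSD C Dd L k X).L) :=
      one_le_pow₀ (N9_zz_ge_one L k X hX1)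
    have e12 := one_le_mul_of_one_le_of_one_le e1 e2
    exact one_le_mul_of_one_le_of_one_le e12 e3
  have hNB : (mkSD C Dd L k X).NB N ≤ Real.exp (x / 40) * K1 * Real.exp (x * (55 / 1000)) := by
    have e0 : (mkSD C Dd L k X).NB N = ((L : ℝ) + 1) ^ N * K1 *
        (mkSD C Dd L k X).z ^ ((16 * k + 16) * 2 ^ L) := rfl
    rw [e0]
    have hzpos : 0 ≤ (mkSD C Dd L k X).z ^ ((16 * k + 16) * 2 ^ L) := by
      apply pow_nonneg
      exact le_trans zero_le_one (N9_zz_ge_one L k X hX1)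
    apply mul_le_mul _ hz1 hzpos (by positivity)
    exact mul_le_mul_of_nonneg_right hLN (by positivity)
  have hNB4 : (1 + (mkSD C Dd L k X).NB N) ^ 4 ≤
      16 * (Real.exp (x / 40) * K1 * Real.exp (x * (55 / 1000))) ^ 4 := by
    have e1 : 1 + (mkSD C Dd L k X).NB N ≤
      2 * (Real.exp (x / 40) * K1 * Real.exp (x * (55 / 1000))) := by linarith
    calc (1 + (mkSD C Dd L k X).NB N) ^ 4
        ≤ (2 * (Real.exp (x / 40) * K1 * Real.exp (x * (55 / 1000)))) ^ 4 :=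
          pow_le_pow_left₀ (by linarith) e1 4
      _ = _ := by ring
  have hzz0 : 0 ≤ (mkSD C Dd L k X).z ^ ((4 * k + 4) * 2 ^ L) := by
    apply pow_nonneg
    exact le_trans zero_le_one (N9_zz_ge_one L k X hX1)
  calc ((mkSD C Dd L k X).Q : ℝ) * ((w0 C X + 1) * (1 + (mkSD C Dd L k X).NB N) ^ 4 *
        (mkSD C Dd L k X).z ^ ((4 * k + 4) * 2 ^ L))
      ≤ Real.exp (x / 50) * ((3 * C * x) *
          (16 * (Real.exp (x / 40) * K1 * Real.exp (x * (55 / 1000))) ^ 4) *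
          Real.exp (x * (1 / 50))) := by
        apply mul_le_mul hQ _ _ (Real.exp_pos _).le
        · apply mul_le_mul _ hz2 hzz0 (by positivity)
          apply mul_le_mul hw' hNB4 (by positivity) (by positivity)
        · have : (0 : ℝ) ≤ w0 C X := Nat.cast_nonneg _
          positivity
    _ = 48 * C * K1 ^ 4 * x * Real.exp (36 / 100 * x) := by
        have e1 : (Real.exp (x / 40) * K1 * Real.exp (x * (55 / 1000))) ^ 4 =
          K1 ^ 4 * Real.exp (x * (32 / 100)) := by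
          have : Real.exp (x * (32 / 100)) = (Real.exp (x / 40) * Real.exp (x * (55 / 1000))) ^ 4 := by
            rw [← Real.exp_add, ← Real.exp_nat_mul]
            congr 1
            push_cast
            ring
          rw [this]
          ring
        rw [e1]
        have e2 : Real.exp (36 / 100 * x) =
          Real.exp (x / 50) * Real.exp (x * (32 / 100)) * Real.exp (x * (1 / 50)) := by
          rw [← Real.exp_add, ← Real.exp_add]
          congr 1
          ring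
        rw [e2]
        ring
    _ ≤ δ * X / x ^ 2 := by
        rw [le_div_iff₀ (by positivity)]
        have e1 : 48 * C * K1 ^ 4 * x * Real.exp (36 / 100 * x) * x ^ 2 =
          48 * C * K1 ^ 4 * Real.exp (36 / 100 * x) * x ^ 3 := by ring
        rw [e1]
        calc 48 * C * K1 ^ 4 * Real.exp (36 / 100 * x) * x ^ 3
            ≤ 48 * C * K1 ^ 4 * Real.exp (36 / 100 * x) *
              (δ / (48 * C * K1 ^ 4) * Real.exp (64 / 100 * x)) :=
              mul_le_mul_of_nonneg_left h3 (by positivity)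
          _ = δ * (Real.exp (36 / 100 * x) * Real.exp (64 / 100 * x)) := by
              field_simp
          _ = δ * X := by
              rw [← Real.exp_add, hXe]
              congr 2
              ring

end Crest.Agent.PG
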