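import Crest.Agent.PG_T12a
/-!
# PG-T12b (S0021): joint averages of local functions factor up to `O(1/W)` (relative to `Vs^|U|`)

For `φ i` local of type `(a_i, g_i)`: `EM Mp (∏ φ i (hit P (n+pos i)))` is the product (`EM_coprime`) of
`EM (∏ Ps) (∏ beta^a_i)` (`small_part`) and `EM (∏ Pl) (∏ g_i (hit Pl (n+pos i)))` (`compare` with `P = Pl`, `∑_{Pl} 1/p ≤ 1.1 L`,
`∑_{Pl} 1/p² ≤ 1/W`), `hit P m ∩ Ps = hit Ps m` etc.; `E1 P (φ i) = E1 Ps (beta^a_i) * E1 Pl g_i` (`E1_split`).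
Bounds: `E1 Ps (beta^a) ≤ exp(exp 70) Vs`, `|E1 Pl g_i| ≤ A exp(1.1 ρ L)`.
-/
set_option autoImplicit false
namespace Crest.Agent.PG
open Finset

private theorem T12b_Ps_subset (D : SD) : D.Ps ⊆ D.P := Finset.subset_union_left

private theorem T12b_Pl_subset (D : SD) : D.Pl ⊆ D.P := Finset.subset_union_right

private theorem T12b_disj (D : SD) (CM : ℝ) (hD : D.Good CM) : Disjoint D.Ps D.Pl := by
  unfold SD.Ps SD.Pl
  rw [Finset.disjoint_biUnion_left]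
  intro i hi
  rw [Finset.disjoint_biUnion_right]
  intro j hj
  exact hD.sl i (Finset.mem_range.1 hi) j (Finset.mem_range.1 hj)

private theorem T12b_sumPl (D : SD) (CM : ℝ) (hD : D.Good CM) :
    ∑ p ∈ D.Pl, 1 / (p : ℝ) ≤ (11 / 10) * D.L := by
  unfold SD.Pl
  rw [Finset.sum_biUnion]
  · calc ∑ i ∈ range D.L, ∑ p ∈ D.lb i, 1 / (p : ℝ) ≤ ∑ _i ∈ range D.L, (11 / 10 : ℝ) :=
          Finset.sum_le_sum (fun i hi => hD.lsum2 i (Finset.mem_range.1 hi))
      _ = (11 / 10) * D.L := by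
          rw [Finset.sum_const, Finset.card_range, nsmul_eq_mul]
          ring
  · intro i hi j hj hij
    exact hD.ll i (by simpa using hi) j (by simpa using hj) hij

private theorem T12b_one_le (D : SD) (CM : ℝ) (hD : D.Good CM) : ∀ p ∈ D.P, 1 ≤ p :=
  fun p hp => (hD.prime p hp).one_lt.le

private theorem T12b_E1g (D : SD) (CM : ℝ) (hD : D.Good CM) (g : Finset ℕ → ℝ) (A ρ : ℝ) (hA : 0 ≤ A)
    (hρ : 1 ≤ ρ) (hg : ∀ S ⊆ D.Pl, |g S| ≤ A * ρ ^ S.card) :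
    |E1 D.Pl g| ≤ Real.exp (ρ * (11 / 10) * D.L) * A := by
  have h1 : ∀ p ∈ D.Pl, 1 ≤ p := fun p hp => T12b_one_le D CM hD p (T12b_Pl_subset D hp)
  calc |E1 D.Pl g| ≤ E1 D.Pl (fun S => |g S|) := E1_abs_le _ h1 _
    _ ≤ E1 D.Pl (fun S => A * ρ ^ S.card) := E1_mono _ h1 _ _ hg
    _ = A * E1 D.Pl (fun S => ρ ^ S.card) := E1_const_mul _ _ _
    _ ≤ A * Real.exp ((ρ - 1) * ∑ p ∈ D.Pl, 1 / (p : ℝ)) :=
        mul_le_mul_of_nonneg_left (E1_pow_le _ _ hρ) hA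
    _ ≤ A * Real.exp (ρ * (11 / 10) * D.L) := by
        apply mul_le_mul_of_nonneg_left _ hA
        apply Real.exp_le_exp.2
        have h2 := T12b_sumPl D CM hD
        have h3 : (0 : ℝ) ≤ ∑ p ∈ D.Pl, 1 / (p : ℝ) :=
          Finset.sum_nonneg (fun p _ => by positivity)
        have h4 : (ρ - 1) * ∑ p ∈ D.Pl, 1 / (p : ℝ) ≤ (ρ - 1) * ((11 / 10) * D.L) :=
          mul_le_mul_of_nonneg_left h2 (by linarith)
        have h5 : (0 : ℝ) ≤ D.L := by positivity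
        nlinarith
    _ = Real.exp (ρ * (11 / 10) * D.L) * A := by ring

private theorem T12b_E1beta (D : SD) (CM : ℝ) (hD : D.Good CM) (a : ℕ) (ha : 1 ≤ a) (ha4 : a ≤ 4) :
    |E1 D.Ps (fun S => (D.beta S) ^ a)| ≤ Real.exp (Real.exp 70) * D.Vs := by
  rw [abs_of_nonneg]
  · exact D.beta_moment_le4 CM hD a ha ha4
  · exact le_trans (D.Vs_pos CM hD).le (D.beta_moment_ge CM hD a ha)

private theorem T12b_E1phi (D : SD) (CM : ℝ) (hD : D.Good CM) (φ : Finset ℕ → ℝ) (a : ℕ)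
    (g : Finset ℕ → ℝ) (h : ∀ S ⊆ D.P, φ S = (D.beta (S ∩ D.Ps)) ^ a * g (S ∩ D.Pl)) :
    E1 D.P φ = E1 D.Ps (fun S => (D.beta S) ^ a) * E1 D.Pl g := by
  rw [E1_congr D.P φ (fun S => (D.beta (S ∩ D.Ps)) ^ a * g (S ∩ D.Pl)) h]
  exact D.E1_split CM hD (fun S => (D.beta S) ^ a) g

theorem IsLoc_E1_le (D : SD) (CM : ℝ) (hD : D.Good CM) (φ : Finset ℕ → ℝ) (A ρ : ℝ) (hA : 0 ≤ A) (hρ : 1 ≤ ρ)
    (h : D.IsLoc φ A ρ) :
    |E1 D.P φ| ≤ Real.exp (Real.exp 70) * Real.exp (ρ * (11 / 10) * D.L) * (D.Vs * A) := by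
  obtain ⟨a, ha, ha4, g, hφ, hg⟩ := h
  rw [T12b_E1phi D CM hD φ a g hφ, abs_mul]
  have h1 := T12b_E1beta D CM hD a ha ha4
  have h2 := T12b_E1g D CM hD g A ρ hA hρ hg
  calc |E1 D.Ps (fun S => (D.beta S) ^ a)| * |E1 D.Pl g|
      ≤ (Real.exp (Real.exp 70) * D.Vs) * (Real.exp (ρ * (11 / 10) * D.L) * A) :=
        mul_le_mul h1 h2 (abs_nonneg _) (le_trans (abs_nonneg _) h1)
    _ = Real.exp (Real.exp 70) * Real.exp (ρ * (11 / 10) * D.L) * (D.Vs * A) := by ring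

private theorem T12b_factor (D : SD) (CM : ℝ) (hD : D.Good CM) (ι : Type) [DecidableEq ι] (U : Finset ι)
    (pos : ι → ℕ) (φ : ι → Finset ℕ → ℝ) (a : ι → ℕ) (g : ι → Finset ℕ → ℝ)
    (h : ∀ i ∈ U, ∀ S ⊆ D.P, φ i S = (D.beta (S ∩ D.Ps)) ^ (a i) * g i (S ∩ D.Pl)) :
    EM D.Mp (fun n => ∏ i ∈ U, φ i (hit D.P (n + pos i))) =
      EM (∏ p ∈ D.Ps, p) (fun n => ∏ i ∈ U, (D.beta (hit D.Ps (n + pos i))) ^ (a i)) *
      EM (∏ p ∈ D.Pl, p) (fun n => ∏ i ∈ U, g i (hit D.Pl (n + pos i))) := by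
  have hMp : D.Mp = (∏ p ∈ D.Ps, p) * (∏ p ∈ D.Pl, p) := by
    unfold SD.Mp SD.P
    exact Finset.prod_union (T12b_disj D CM hD)
  have hpr1 : ∀ p ∈ D.Ps, p.Prime := fun p hp => hD.prime p (T12b_Ps_subset D hp)
  have hpr2 : ∀ p ∈ D.Pl, p.Prime := fun p hp => hD.prime p (T12b_Pl_subset D hp)
  have hM1 : 0 < ∏ p ∈ D.Ps, p := Finset.prod_pos (fun p hp => (hpr1 p hp).pos)
  have hM2 : 0 < ∏ p ∈ D.Pl, p := Finset.prod_pos (fun p hp => (hpr2 p hp).pos)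
  have hcop : Nat.Coprime (∏ p ∈ D.Ps, p) (∏ p ∈ D.Pl, p) := by
    apply Nat.Coprime.prod_left
    intro p hp
    apply Nat.Coprime.prod_right
    intro q hq
    rw [Nat.coprime_primes (hpr1 p hp) (hpr2 q hq)]
    rintro rfl
    exact (Finset.disjoint_left.1 (T12b_disj D CM hD)) hp hq
  rw [hMp, ← EM_coprime _ _ hM1 hM2 hcop]
  · congr 1
    funext n
    rw [← Finset.prod_mul_distrib]
    apply Finset.prod_congr rfl
    intro i hi
    rw [h i hi _ (hit_subset _ _), hit_inter _ _ _ (T12b_Ps_subset D), hit_inter _ _ _ (T12b_Pl_subset D)]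
  · intro n
    apply Finset.prod_congr rfl
    intro i _
    rw [Nat.add_right_comm, hit_periodic _ _ _ (dvd_refl _)]
  · intro n
    apply Finset.prod_congr rfl
    intro i _
    rw [Nat.add_right_comm, hit_periodic _ _ _ (dvd_refl _)]

private theorem T12b_combine (X x Y y K K2 B' E' w V : ℝ) (hw : 0 < w) (hw1 : 1 ≤ w) (hV : 0 ≤ V) (A' : ℝ)
    (hA' : 0 ≤ A') (hK2 : 0 ≤ K2)
    (hX : |X - x| ≤ K / w * V) (hY : |Y - y| ≤ K2 / w * A') (hx : |x| ≤ B' * V) (hy : |y| ≤ E' * A')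
    (hK : 0 ≤ K) :
    |X * Y - x * y| ≤ (K * (E' + K2) + B' * K2) / w * (V * A') := by
  have h1 : X * Y - x * y = (X - x) * Y + x * (Y - y) := by ring
  have hYb : |Y| ≤ (E' + K2) * A' := by
    have h2 : Y = (Y - y) + y := by ring
    have h3 : K2 / w * A' ≤ K2 * A' := by
      apply mul_le_mul_of_nonneg_right _ hA'
      exact div_le_self hK2 hw1
    calc |Y| = |(Y - y) + y| := by rw [← h2]
      _ ≤ |Y - y| + |y| := abs_add_le _ _
      _ ≤ K2 * A' + E' * A' := by linarith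
      _ = (E' + K2) * A' := by ring
  rw [h1]
  calc |(X - x) * Y + x * (Y - y)| ≤ |(X - x) * Y| + |x * (Y - y)| := abs_add_le _ _
    _ = |X - x| * |Y| + |x| * |Y - y| := by rw [abs_mul, abs_mul]
    _ ≤ (K / w * V) * ((E' + K2) * A') + (B' * V) * (K2 / w * A') := by
        apply add_le_add
        · exact mul_le_mul hX hYb (abs_nonneg _) (by positivity)
        · exact mul_le_mul hx hY (abs_nonneg _) (le_trans (abs_nonneg _) hx)
    _ = (K * (E' + K2) + B' * K2) / w * (V * A') := by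
        field_simp

theorem thmA (m L : ℕ) (ρ : ℝ) (hρ : 1 ≤ ρ) : ∃ Kc : ℝ, 0 < Kc ∧ ∀ (D : SD) (CM : ℝ), D.Good CM → D.L = L →
    2 * m ≤ D.W →
    ∀ (ι : Type) [DecidableEq ι] (U : Finset ι) (pos : ι → ℕ), U.card ≤ m →
    Set.InjOn pos U → (∀ i ∈ U, pos i ≤ D.W) →
    ∀ (φ : ι → Finset ℕ → ℝ) (A : ℝ), 0 ≤ A → (∀ i ∈ U, D.IsLoc (φ i) A ρ) →
    |EM D.Mp (fun n => ∏ i ∈ U, φ i (hit D.P (n + pos i))) - ∏ i ∈ U, E1 D.P (φ i)| ≤
      Kc / D.W * (D.Vs * A) ^ U.card := by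
  obtain ⟨K, hK, hsmall⟩ := small_part m
  set K2 : ℝ := 8 * (m : ℝ) ^ 2 * ρ ^ m * Real.exp (2 * m * ρ * ((11 / 10) * L)) with hK2
  set E : ℝ := Real.exp (ρ * (11 / 10) * L) with hE
  set B : ℝ := Real.exp (Real.exp 70) with hB
  have hρ0 : 0 < ρ := by linarith
  have hK20 : 0 ≤ K2 := by positivity
  have hE1 : 1 ≤ E := Real.one_le_exp (by positivity)
  have hB1 : 1 ≤ B := Real.one_le_exp (Real.exp_pos _).le
  refine ⟨K * (E ^ m + K2) + B ^ m * K2, by positivity, ?_⟩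
  intro D CM hD hDL hW ι _ U pos hU hinj hpos φ A hA hloc
  have hloc' := hloc
  unfold SD.IsLoc at hloc'
  choose! a ha1 ha4 g hφ hg using hloc'
  have hWpos : (0 : ℝ) < D.W := by
    have := hD.hW
    have h2 : 0 < D.W := by omega
    exact_mod_cast h2
  have hW1 : (1 : ℝ) ≤ D.W := by
    have := hD.hW
    have h2 : 1 ≤ D.W := by omega
    exact_mod_cast h2
  have hV0 : 0 < D.Vs := D.Vs_pos CM hD
  rw [T12b_factor D CM hD ι U pos φ a g hφ]
  have hprod : ∏ i ∈ U, E1 D.P (φ i) =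
      (∏ i ∈ U, E1 D.Ps (fun S => (D.beta S) ^ (a i))) * ∏ i ∈ U, E1 D.Pl (g i) := by
    rw [← Finset.prod_mul_distrib]
    apply Finset.prod_congr rfl
    intro i hi
    exact T12b_E1phi D CM hD (φ i) (a i) (g i) (hφ i hi)
  rw [hprod, mul_pow]
  apply T12b_combine _ _ _ _ K K2 (B ^ m) (E ^ m) D.W _ hWpos hW1 (by positivity) _ (by positivity) hK20
    _ _ _ _ hK.le
  · exact hsmall D CM hD hW ι U pos a hU hinj hpos (fun i hi => ⟨ha1 i hi, ha4 i hi⟩)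
  · have hcomp := compare U pos hinj ρ hρ D.Pl (fun p hp => hD.prime p (T12b_Pl_subset D hp))
      (fun p hp => by
        have := hD.big p (T12b_Pl_subset D hp)
        omega)
      (fun i hi p hp => by
        have := hD.big p (T12b_Pl_subset D hp)
        have := hpos i hi
        omega) g (fun _ => A) (fun _ _ => hA) hg
    rw [Finset.prod_const] at hcomp
    refine le_trans hcomp ?_
    apply mul_le_mul_of_nonneg_right _ (by positivity)
    have hs1 : ∑ p ∈ D.Pl, 1 / (p : ℝ) ^ 2 ≤ 1 / (D.W : ℝ) :=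
      sum_inv_sq_le D.Pl D.W (by have := hD.hW; omega) (fun p hp => hD.big p (T12b_Pl_subset D hp))
    have hs2 : ∑ p ∈ D.Pl, 1 / (p : ℝ) ≤ (11 / 10) * L := by
      rw [← hDL]
      exact T12b_sumPl D CM hD
    have hs0 : (0 : ℝ) ≤ ∑ p ∈ D.Pl, 1 / (p : ℝ) := Finset.sum_nonneg (fun p _ => by positivity)
    have hs20 : (0 : ℝ) ≤ ∑ p ∈ D.Pl, 1 / (p : ℝ) ^ 2 := Finset.sum_nonneg (fun p _ => by positivity)
    have hUm : (U.card : ℝ) ≤ m := by exact_mod_cast hU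
    have hUc : (0 : ℝ) ≤ U.card := by positivity
    calc 8 * (U.card : ℝ) ^ 2 * ρ ^ U.card * Real.exp (2 * U.card * ρ * ∑ p ∈ D.Pl, 1 / (p : ℝ)) *
        (∑ p ∈ D.Pl, 1 / (p : ℝ) ^ 2) ≤ K2 * (1 / D.W) := by
          apply mul_le_mul _ hs1 hs20 hK20
          rw [hK2]
          have e1 : (U.card : ℝ) ^ 2 ≤ (m : ℝ) ^ 2 := pow_le_pow_left₀ hUc hUm 2
          have e2 : ρ ^ U.card ≤ ρ ^ m := pow_le_pow_right₀ hρ hU
          have e3 : Real.exp (2 * U.card * ρ * ∑ p ∈ D.Pl, 1 / (p : ℝ)) ≤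
              Real.exp (2 * m * ρ * ((11 / 10) * L)) := by
            apply Real.exp_le_exp.2
            apply mul_le_mul _ hs2 hs0 (by positivity)
            apply mul_le_mul_of_nonneg_right _ hρ0.le
            linarith
          apply mul_le_mul _ e3 (Real.exp_pos _).le (by positivity)
          apply mul_le_mul _ e2 (by positivity) (by positivity)
          linarith
      _ = K2 / D.W := by ring
  · rw [Finset.abs_prod]
    calc ∏ i ∈ U, |E1 D.Ps (fun S => (D.beta S) ^ (a i))| ≤ ∏ _i ∈ U, (B * D.Vs) :=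
          Finset.prod_le_prod (fun i _ => abs_nonneg _)
            (fun i hi => T12b_E1beta D CM hD (a i) (ha1 i hi) (ha4 i hi))
      _ = B ^ U.card * D.Vs ^ U.card := by rw [Finset.prod_const, mul_pow]
      _ ≤ B ^ m * D.Vs ^ U.card := by
          apply mul_le_mul_of_nonneg_right _ (by positivity)
          exact pow_le_pow_right₀ hB1 hU
  · rw [Finset.abs_prod]
    calc ∏ i ∈ U, |E1 D.Pl (g i)| ≤ ∏ _i ∈ U, (E * A) := by
          apply Finset.prod_le_prod (fun i _ => abs_nonneg _)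
          intro i hi
          have := T12b_E1g D CM hD (g i) A ρ hA hρ (hg i hi)
          rw [hDL] at this
          exact this
      _ = E ^ U.card * A ^ U.card := by rw [Finset.prod_const, mul_pow]
      _ ≤ E ^ m * A ^ U.card := by
          apply mul_le_mul_of_nonneg_right _ (by positivity)
          exact pow_le_pow_right₀ hE1 hU

/-- general form: finite combination of products of local functions -/
theorem gen (m L : ℕ) (ρ : ℝ) (hρ : 1 ≤ ρ) : ∃ Kc : ℝ, 0 < Kc ∧ ∀ (D : SD) (CM : ℝ), D.Good CM → D.L = L →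
    2 * m ≤ D.W →
    ∀ (ι : Type) [Fintype ι] [DecidableEq ι] (pos : ι → ℕ), Function.Injective pos → (∀ i, pos i ≤ D.W) →
    ∀ (J : Type) [Fintype J] (α : J → ℝ) (φ : J → ι → Finset ℕ → ℝ) (U : J → Finset ι) (A : ℝ), 0 ≤ A →
    (∀ c, α c ≠ 0 → (U c).card ≤ m) → (∀ c, α c ≠ 0 → ∀ i, i ∉ U c → φ c i = fun _ => 1) →
    (∀ c, α c ≠ 0 → ∀ i ∈ U c, D.IsLoc (φ c i) A ρ) →
    |EM D.Mp (fun n => ∑ c, α c * ∏ i, φ c i (hit D.P (n + pos i))) - ∑ c, α c * ∏ i, E1 D.P (φ c i)| ≤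
      Kc / D.W * ∑ c, |α c| * (D.Vs * A) ^ (U c).card := by
  obtain ⟨Kc, hKc, hthm⟩ := thmA m L ρ hρ
  refine ⟨Kc, hKc, ?_⟩
  intro D CM hD hDL hW ι _ _ pos hinj hpos J _ α φ U A hA hU h1 hloc
  rw [EM_sum, ← Finset.sum_sub_distrib, Finset.mul_sum]
  refine le_trans (Finset.abs_sum_le_sum_abs _ _) ?_
  apply Finset.sum_le_sum
  intro c _
  rw [EM_const_mul, ← mul_sub, abs_mul]
  by_cases hc : α c = 0
  · simp [hc]
  · have e1 : (fun n => ∏ i, φ c i (hit D.P (n + pos i))) =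
        fun n => ∏ i ∈ U c, φ c i (hit D.P (n + pos i)) := by
      funext n
      symm
      apply Finset.prod_subset (Finset.subset_univ _)
      intro i _ hi
      rw [h1 c hc i hi]
    have e2 : ∏ i, E1 D.P (φ c i) = ∏ i ∈ U c, E1 D.P (φ c i) := by
      symm
      apply Finset.prod_subset (Finset.subset_univ _)
      intro i _ hi
      rw [h1 c hc i hi]
      exact E1_const _ _
    rw [e1, e2]
    have := hthm D CM hD hDL hW ι (U c) pos (hU c hc) (hinj.injOn) (fun i _ => hpos i) (φ c) A hA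
      (hloc c hc)
    calc |α c| * |EM D.Mp (fun n => ∏ i ∈ U c, φ c i (hit D.P (n + pos i))) - ∏ i ∈ U c, E1 D.P (φ c i)|
        ≤ |α c| * (Kc / D.W * (D.Vs * A) ^ (U c).card) :=
          mul_le_mul_of_nonneg_left this (abs_nonneg _)
      _ = Kc / D.W * (|α c| * (D.Vs * A) ^ (U c).card) := by ring

end Crest.Agent.PG
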