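import Crest.Agent.PG_N5
import Crest.Agent.PG_N6
import Crest.Agent.PG_N9
import Crest.Agent.PG_T12b
import Crest.Agent.PG_T18
/-!
# PG-F5 (S0021): upper bound sieve for pairs; a positive proportion of short intervals contains a prime

`pair_bound`: with `D = mkSD 1 1 1 10 X`, `1_{n+h, n+h' prime} ≤ Φ(n%Q) n`,
`Φ b n = 1_{(b+h,Q)=(b+h',Q)=1} beta(hit P (n+h)) beta(hit P (n+h'))` (`n > X ≥` all primes in play, `beta ∅ = 1`, `beta ≥ 0`).
`thmA` (`m = 2`, `L = 1`, `ρ = 1`, `φ = beta`, `A = 1`) and `beta_moment_le2`: `EM Mp (..) ≤ (4 + Kc/W) Vs²`.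
With `pair_count` and `mkSD_phi`: `(φ(Q)/Q)² Vs² ≤ (12800/log X)²`.  Use `EM_coprime2`, `LL_avg`/`LL_class` (norm `Q z^(8k+8)`, `norm_small`).
`pos_prop`: `f(n) = #{primes in (n,n+H₁]}`, `H₁ = HH 1 X`: `∑_{n∈(X,3X]} f ≥ H₁ (π(3X) - π(X) - H₁) ≥ c X` (`cheb_lower`),
`∑ f² ≤ ∑ f + 2 ∑_{h<h'} #{..} ≤ H₁ π(4X) + 2 Cp X/log²X · H₁ ∑_{l ≤ H₁} l/φ(l) ≤ C' X` (`cheb_upper`, `sum_l_div_phi`).
Cauchy-Schwarz.  For `Dd ≥ 1` use `HH 1 X ≤ HH Dd X`.
-/
set_option autoImplicit false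
namespace Crest.Agent.PG
open Finset Filter

private theorem F5_loc (D : SD) : D.IsLoc D.beta 1 1 := by
  refine ⟨1, le_rfl, by norm_num, fun _ => 1, ?_, ?_⟩
  · intro S _
    rw [pow_one, D.beta_inter, mul_one]
  · intro S _
    simp

private theorem F5_E1 (D : SD) (CM : ℝ) (hD : D.Good CM) :
    0 ≤ E1 D.P D.beta ∧ E1 D.P D.beta ≤ 2 * D.Vs := by
  have h1 := D.E1_split CM hD D.beta (fun _ => 1)
  have h2 : E1 D.P (fun S => D.beta (S ∩ D.Ps) * (fun _ : Finset ℕ => (1 : ℝ)) (S ∩ D.Pl))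
      = E1 D.P D.beta := by
    congr 1
    funext S
    rw [D.beta_inter, mul_one]
  rw [h2, E1_const, mul_one] at h1
  have h3 := D.beta_moment_ge CM hD 1 le_rfl
  have h4 := D.beta_moment_le2 CM hD 1 le_rfl (by norm_num)
  simp only [pow_one] at h3 h4
  rw [h1]
  exact ⟨(D.Vs_pos CM hD).le.trans h3, h4⟩

private theorem F5_EM : ∃ Kc : ℝ, 0 < Kc ∧ ∀ (D : SD) (CM : ℝ), D.Good CM → D.L = 1 →
    ∀ h h' : ℕ, h < h' → h' ≤ D.W →
    EM D.Mp (fun n => D.beta (hit D.P (n + h)) * D.beta (hit D.P (n + h'))) ≤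
      (4 + Kc / D.W) * D.Vs ^ 2 := by
  obtain ⟨Kc, hKc, hA⟩ := thmA 2 1 1 le_rfl
  refine ⟨Kc, hKc, ?_⟩
  intro D CM hD hL h h' hh hW
  have hW100 := hD.hW
  have h1 := hA D CM hD hL (by omega) Bool Finset.univ (fun b => if b then h' else h)
    (by simp) (by
      intro a _ b _ hab
      cases a <;> cases b <;> simp at hab ⊢ <;> omega)
    (by
      intro b _
      cases b
      · simp; omega
      · simpa using hW) (fun _ => D.beta) 1 zero_le_one (fun _ _ => F5_loc D)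
  simp only [Fintype.prod_bool, Finset.card_univ, Fintype.card_bool, mul_one, if_true,
    Bool.false_eq_true, if_false] at h1
  obtain ⟨h2, h3⟩ := F5_E1 D CM hD
  have h4 : E1 D.P D.beta * E1 D.P D.beta ≤ (2 * D.Vs) * (2 * D.Vs) :=
    mul_le_mul h3 h3 h2 (h2.trans h3)
  have h5 := (abs_le.1 h1).2
  have h6 : (fun n => D.beta (hit D.P (n + h)) * D.beta (hit D.P (n + h')))
      = fun n => D.beta (hit D.P (n + h')) * D.beta (hit D.P (n + h)) := by
    funext n; ring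
  rw [h6]
  have h7 : (4 + Kc / D.W) * D.Vs ^ 2 = Kc / D.W * D.Vs ^ 2 + (2 * D.Vs) * (2 * D.Vs) := by ring
  rw [h7]
  linarith

private theorem F5_coprime (Q n h : ℕ) : Nat.Coprime (n % Q + h) Q ↔ Nat.Coprime (n + h) Q := by
  have h1 : n + h = (n % Q + h) + Q * (n / Q) := by
    have := Nat.mod_add_div n Q
    omega
  rw [h1, Nat.coprime_add_mul_left_left]

/-- the main inequality, before inserting the asymptotics -/
private theorem F5_main (D : SD) (CM : ℝ) (hD : D.Good CM) (X h h' : ℕ)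
    (hP : ∀ p ∈ D.P, p ≤ X) (hQ : ∀ p : ℕ, p.Prime → p ∣ D.Q → p ≤ X) (B : ℝ)
    (hB : EM D.Mp (fun n => D.beta (hit D.P (n + h)) * D.beta (hit D.P (n + h'))) ≤ B) :
    (((Ioc X (3 * X)).filter (fun n => (n + h).Prime ∧ (n + h').Prime)).card : ℝ) ≤
      2 * X * ((((range D.Q).filter (fun b => Nat.Coprime (b + h) D.Q ∧
        Nat.Coprime (b + h') D.Q)).card : ℝ) / D.Q * B) +
        D.Q * (D.z ^ (4 * D.k + 4) * D.z ^ (4 * D.k + 4)) := by
  classical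
  have hz := hD.hz
  set ψ : ℕ → ℝ := fun n => D.beta (hit D.P (n + h)) * D.beta (hit D.P (n + h')) with hψ
  set c : ℕ → ℝ := fun b => if Nat.Coprime (b + h) D.Q ∧ Nat.Coprime (b + h') D.Q then 1 else 0
    with hc
  set Φ : ℕ → ℕ → ℝ := fun b n => c b * ψ n with hΦ
  have hψ0 : ∀ n, 0 ≤ ψ n := fun n => mul_nonneg (D.beta_nonneg _) (D.beta_nonneg _)
  have hc0 : ∀ b, 0 ≤ c b := fun b => by
    rw [hc]; simp only; split_ifs <;> norm_num
  have hc1 : ∀ b, |c b| ≤ 1 := fun b => by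
    rw [hc]; simp only; split_ifs <;> norm_num
  -- majorant
  have hemp : ∀ m : ℕ, X < m → m.Prime → hit D.P m = ∅ := by
    intro m hm hmp
    unfold hit
    rw [Finset.filter_eq_empty_iff]
    intro p hp hdv
    have h1 := (Nat.prime_dvd_prime_iff_eq (hD.prime p hp) hmp).1 hdv
    have h2 := hP p hp
    omega
  have hcop : ∀ m : ℕ, X < m → m.Prime → Nat.Coprime m D.Q := by
    intro m hm hmp
    rw [Nat.Prime.coprime_iff_not_dvd hmp]
    intro hdv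
    have := hQ m hmp hdv
    omega
  have hstep1 : (((Ioc X (3 * X)).filter (fun n => (n + h).Prime ∧ (n + h').Prime)).card : ℝ) ≤
      ∑ n ∈ Ioc X (X + 2 * X), Φ (n % D.Q) n := by
    rw [show 3 * X = X + 2 * X by ring, ← Finset.sum_boole]
    refine Finset.sum_le_sum fun n hn => ?_
    rw [Finset.mem_Ioc] at hn
    split_ifs with hpr
    · have e1 : c (n % D.Q) = 1 := by
        rw [hc]
        simp only
        rw [if_pos]
        rw [F5_coprime, F5_coprime]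
        exact ⟨hcop _ (by omega) hpr.1, hcop _ (by omega) hpr.2⟩
      have e2 : ψ n = 1 := by
        rw [hψ]
        simp only
        rw [hemp _ (by omega) hpr.1, hemp _ (by omega) hpr.2, D.beta_empty]
        norm_num
      rw [hΦ]
      simp only
      rw [e1, e2]; norm_num
    · exact mul_nonneg (hc0 _) (hψ0 _)
  -- period and norm
  have hMp := D.Mp_pos CM hD
  have hper : ∀ M : ℕ, D.Mp ∣ M → ∀ n, ψ (n + M) = ψ n := by
    intro M hM n
    rw [hψ]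
    simp only
    rw [show n + M + h = (n + h) + M by ring, show n + M + h' = (n + h') + M by ring,
      hit_periodic D.P M (n + h) hM, hit_periodic D.P M (n + h') hM]
  have hLL : LL (fun n => Φ (n % D.Q) n) (D.Q * (D.z ^ (4 * D.k + 4) * D.z ^ (4 * D.k + 4))) := by
    refine LL_class D.Q hD.hQ Φ _ fun b _ => ?_
    have h1 := LL_mul (LL_const (c b)) (LL_mul (D.LL_beta CM hD h) (D.LL_beta CM hD h'))
    refine LL_mono h1 ?_
    have : 0 ≤ D.z ^ (4 * D.k + 4) * D.z ^ (4 * D.k + 4) := by positivity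
    nlinarith [hc1 b]
  have hperF : ∀ n, (fun n => Φ (n % D.Q) n) (n + D.Q * D.Mp) = (fun n => Φ (n % D.Q) n) n := by
    intro n
    simp only [hΦ]
    rw [hper (D.Q * D.Mp) (Dvd.intro_left _ rfl) n, Nat.add_mul_mod_self_left]
  have havg := LL_avg hLL (D.Q * D.Mp) (Nat.mul_pos hD.hQ hMp) hperF X (2 * X)
  have hEM : EM (D.Q * D.Mp) (fun n => Φ (n % D.Q) n) ≤
      (((range D.Q).filter (fun b => Nat.Coprime (b + h) D.Q ∧
        Nat.Coprime (b + h') D.Q)).card : ℝ) / D.Q * B := by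
    rw [EM_coprime2 D.Q D.Mp hD.hQ hMp (D.Q_coprime_Mp CM hD) Φ
      (fun b _ n => by simp only [hΦ]; rw [hper D.Mp dvd_rfl n])]
    have h1 : ∀ b, EM D.Mp (Φ b) = c b * EM D.Mp ψ := fun b => EM_const_mul D.Mp (c b) ψ
    rw [Finset.sum_congr rfl fun b _ => h1 b, ← Finset.sum_mul]
    have h2 : ∑ b ∈ range D.Q, c b = (((range D.Q).filter (fun b => Nat.Coprime (b + h) D.Q ∧
        Nat.Coprime (b + h') D.Q)).card : ℝ) := by
      rw [hc, Finset.sum_boole]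
    rw [h2, mul_div_right_comm]
    exact mul_le_mul_of_nonneg_left hB (by positivity)
  have h3 := (abs_le.1 havg).2
  have h4 : ((2 * X : ℕ) : ℝ) * EM (D.Q * D.Mp) (fun n => Φ (n % D.Q) n) ≤
      2 * X * ((((range D.Q).filter (fun b => Nat.Coprime (b + h) D.Q ∧
        Nat.Coprime (b + h') D.Q)).card : ℝ) / D.Q * B) := by
    push_cast
    exact mul_le_mul_of_nonneg_left hEM (by positivity)
  linarith

theorem pair_bound : ∃ Cp : ℝ, 0 < Cp ∧ ∀ᶠ X : ℕ in atTop, ∀ h h' : ℕ, 1 ≤ h → h < h' → h' ≤ HH 1 X →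
    (((Ioc X (3 * X)).filter (fun n => (n + h).Prime ∧ (n + h').Prime)).card : ℝ) ≤
      Cp * X / (Real.log X) ^ 2 * (((h' - h : ℕ) : ℝ) / (Nat.totient (h' - h) : ℝ)) := by
  obtain ⟨CM, hCM, hgood⟩ := mkSD_good
  obtain ⟨Kc, hKc, hEM⟩ := F5_EM
  have hnum : ((1 : ℕ) : ℝ) * (Real.exp 17 / 16 ^ 10) ≤ 1 / 10 := by
    have h1 : Real.exp 17 ≤ 3 ^ 17 := by
      have h2 : Real.exp 17 = Real.exp 1 ^ 17 := by
        rw [← Real.exp_nat_mul]; norm_num
      rw [h2]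
      exact pow_le_pow_left₀ (Real.exp_pos 1).le (Real.exp_one_lt_three.le) 17
    rw [Nat.cast_one, one_mul, div_le_div_iff₀ (by norm_num) (by norm_num)]
    calc Real.exp 17 * 10 ≤ 3 ^ 17 * 10 := by linarith
      _ ≤ 1 * 16 ^ 10 := by norm_num
  refine ⟨10 * 12800 ^ 2 + 1, by norm_num, ?_⟩
  filter_upwards [hgood 1 1 1 10 le_rfl le_rfl le_rfl le_rfl hnum,
    mkSD_phi 1 1 1 10 le_rfl le_rfl le_rfl le_rfl, primes_le 1 1 1 10 le_rfl le_rfl,
    W_large 1 1 1 10 le_rfl le_rfl Kc, norm_small 1 1 1 1 10 le_rfl le_rfl le_rfl le_rfl le_rfl 1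
      one_pos, w0_HH_small 1 1 le_rfl le_rfl] with X hG hphi hpr hWl hns hw
  intro h h' h1 hh hH
  obtain ⟨D, hDdef⟩ : ∃ D : SD, D = mkSD 1 1 1 10 X := ⟨_, rfl⟩
  have hDQ : D.Q = primorial ⌊Real.log X / 100⌋₊ := by rw [hDdef]; rfl
  have hDL : D.L = 1 := by rw [hDdef]; rfl
  have hDk : D.k = 10 := by rw [hDdef]; rfl
  have hDW : D.W = 2 * HH 1 X + w0 1 X := by rw [hDdef]; rfl
  rw [← hDdef] at hG hphi hpr hWl hns
  obtain ⟨hw1, hw2, hw3, hw4, hw5, hw6, hw7, hw8⟩ := hw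
  have hV := D.Vs_pos CM hG
  have hW0 : (0 : ℝ) < D.W := by
    have := hG.hW
    exact_mod_cast (by omega : 0 < D.W)
  have hEM' := hEM D CM hG hDL h h' hh (by omega)
  have hB : EM D.Mp (fun n => D.beta (hit D.P (n + h)) * D.beta (hit D.P (n + h'))) ≤
      5 * D.Vs ^ 2 := by
    refine hEM'.trans ?_
    have h2 : Kc / D.W ≤ 1 := by rw [div_le_one hW0]; exact hWl
    have h3 : 0 ≤ D.Vs ^ 2 := by positivity
    nlinarith
  have hmain := F5_main D CM hG X h h' hpr.1 hpr.2 _ hB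
  obtain ⟨ψl, hψl⟩ : ∃ y : ℝ, y = ((h' - h : ℕ) : ℝ) / (Nat.totient (h' - h) : ℝ) := ⟨_, rfl⟩
  have hψ1 : 1 ≤ ψl := by
    have h2 : 0 < h' - h := by omega
    have h3 : 0 < Nat.totient (h' - h) := Nat.totient_pos.2 h2
    rw [hψl, le_div_iff₀ (by exact_mod_cast h3), one_mul]
    exact_mod_cast Nat.totient_le _
  have hpc := pair_count ⌊Real.log X / 100⌋₊ h h' hh
  rw [← hDQ, ← hψl] at hpc
  rw [← hψl]
  -- sizes
  have hlog : 0 < Real.log X := by linarith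
  obtain ⟨f, hf⟩ : ∃ f : ℝ, f = (Nat.totient D.Q : ℝ) / D.Q := ⟨_, rfl⟩
  rw [← hf] at hpc hphi
  have hf0 : 0 ≤ f := by rw [hf]; positivity
  have hphi' : f * D.Vs ≤ 12800 / Real.log X := by
    refine hphi.trans (le_of_eq ?_)
    norm_num
  have hsq : (f * D.Vs) ^ 2 ≤ (12800 / Real.log X) ^ 2 :=
    pow_le_pow_left₀ (by positivity) hphi' 2
  have hns' := hns 0 (by
    unfold Kmx
    simp only [Nat.cast_zero]
    positivity)
  have hz := hG.hz
  have hNB : 0 ≤ D.NB 0 := by unfold SD.NB; positivity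
  have hterm2 : (D.Q : ℝ) * (D.z ^ (4 * D.k + 4) * D.z ^ (4 * D.k + 4)) ≤
      X / (Real.log X) ^ 2 := by
    have e1 : D.z ^ (4 * D.k + 4) * D.z ^ (4 * D.k + 4) = D.z ^ ((4 * 10 + 4) * 2 ^ 1) := by
      rw [hDk, ← pow_add]
      norm_num
    rw [e1]
    have e2 : (1 : ℝ) ≤ (w0 1 X + 1) * (1 + D.NB 0) ^ 4 := by
      have a1 : (1 : ℝ) ≤ (w0 1 X : ℝ) + 1 := by
        have : (0 : ℝ) ≤ (w0 1 X : ℝ) := by positivity
        linarith
      have a2 : (1 : ℝ) ≤ (1 + D.NB 0) ^ 4 := one_le_pow₀ (by linarith)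
      nlinarith
    have e3 : (0 : ℝ) ≤ D.z ^ ((4 * 10 + 4) * 2 ^ 1) := by positivity
    have e4 : D.z ^ ((4 * 10 + 4) * 2 ^ 1) ≤
        (w0 1 X + 1) * (1 + D.NB 0) ^ 4 * D.z ^ ((4 * 10 + 4) * 2 ^ 1) :=
      le_mul_of_one_le_left e3 e2
    have e5 := mul_le_mul_of_nonneg_left e4 (Nat.cast_nonneg D.Q : (0 : ℝ) ≤ D.Q)
    refine e5.trans (hns'.trans (le_of_eq (by ring)))
  have hterm1 : 2 * (X : ℝ) * ((((range D.Q).filter (fun b => Nat.Coprime (b + h) D.Q ∧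
        Nat.Coprime (b + h') D.Q)).card : ℝ) / D.Q * (5 * D.Vs ^ 2)) ≤
      10 * 12800 ^ 2 * X / (Real.log X) ^ 2 * ψl := by
    have a1 : (((range D.Q).filter (fun b => Nat.Coprime (b + h) D.Q ∧
        Nat.Coprime (b + h') D.Q)).card : ℝ) / D.Q * (5 * D.Vs ^ 2) ≤
        (f ^ 2 * ψl) * (5 * D.Vs ^ 2) :=
      mul_le_mul_of_nonneg_right hpc (by positivity)
    have a2 : (f ^ 2 * ψl) * (5 * D.Vs ^ 2) = 5 * ψl * (f * D.Vs) ^ 2 := by ring
    have a3 : 5 * ψl * (f * D.Vs) ^ 2 ≤ 5 * ψl * (12800 / Real.log X) ^ 2 :=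
      mul_le_mul_of_nonneg_left hsq (by positivity)
    have a4 : 2 * (X : ℝ) * (5 * ψl * (12800 / Real.log X) ^ 2) =
        10 * 12800 ^ 2 * X / (Real.log X) ^ 2 * ψl := by
      field_simp
      ring
    rw [← a4]
    exact mul_le_mul_of_nonneg_left (a1.trans (a2.le.trans a3)) (by positivity)
  have hfin : (X : ℝ) / (Real.log X) ^ 2 ≤ X / (Real.log X) ^ 2 * ψl :=
    le_mul_of_one_le_right (by positivity) hψ1
  have e : (10 * 12800 ^ 2 + 1) * (X : ℝ) / (Real.log X) ^ 2 * ψl =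
      10 * 12800 ^ 2 * X / (Real.log X) ^ 2 * ψl + X / (Real.log X) ^ 2 * ψl := by ring
  rw [e]
  linarith

end Crest.Agent.PG
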