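import Crest.Agent.PG_F5
/-!
# PG-F6 (S0021): a positive proportion of short intervals contains a prime

`f(n) = #{primes in (n,n+H₁]}`, `H₁ = HH 1 X`: `∑_{n∈(X,3X]} f ≥ H₁ (π(3X) - π(X) - H₁) ≥ c X` (`cheb_lower`),
`∑ f² ≤ ∑ f + 2 ∑_{h<h'} #{..} ≤ H₁ π(4X) + 2 Cp X/log²X · H₁ ∑_{l ≤ H₁} l/φ(l) ≤ C' X` (`cheb_upper`, `sum_l_div_phi`,
`pair_bound`).  Cauchy-Schwarz: `#{n : f n > 0} ≥ (c X)²/(C' X)`.  For `Dd ≥ 1` use `HH 1 X ≤ HH Dd X`.
-/
set_option autoImplicit false
namespace Crest.Agent.PG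
open Finset Filter

theorem F6_gt (g : ℕ → ℝ) (hg : ∀ l, 0 ≤ g l) (H h : ℕ) :
    ∑ h' ∈ (Icc 1 H).filter (fun h' => h < h'), g (h' - h) ≤ ∑ l ∈ Icc 1 H, g l := by
  have hinj : Set.InjOn (fun h' => h' - h) ((Icc 1 H).filter (fun h' => h < h') : Finset ℕ) := by
    intro a ha b hb hab
    simp only [coe_filter, mem_Icc, Set.mem_ofPred_eq] at ha hb
    simp only at hab
    omega
  rw [← Finset.sum_image (g := fun h' => h' - h) (f := g) hinj]
  apply Finset.sum_le_sum_of_subset_of_nonneg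
  · intro l hl
    simp only [mem_image, mem_filter, mem_Icc] at hl ⊢
    obtain ⟨a, ha, rfl⟩ := hl
    omega
  · intro l _ _
    exact hg l

theorem F6_lt (g : ℕ → ℝ) (hg : ∀ l, 0 ≤ g l) (H h : ℕ) (hh : h ≤ H) :
    ∑ h' ∈ (Icc 1 H).filter (fun h' => h' < h), g (h - h') ≤ ∑ l ∈ Icc 1 H, g l := by
  have hinj : Set.InjOn (fun h' => h - h') ((Icc 1 H).filter (fun h' => h' < h) : Finset ℕ) := by
    intro a ha b hb hab
    simp only [coe_filter, mem_Icc, Set.mem_ofPred_eq] at ha hb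
    simp only at hab
    omega
  rw [← Finset.sum_image (g := fun h' => h - h') (f := g) hinj]
  apply Finset.sum_le_sum_of_subset_of_nonneg
  · intro l hl
    simp only [mem_image, mem_filter, mem_Icc] at hl ⊢
    obtain ⟨a, ha, rfl⟩ := hl
    omega
  · intro l _ _
    exact hg l

/-- the double sum over pairs. -/
theorem F6_double (N : ℕ → ℕ → ℝ) (g : ℕ → ℝ) (hg : ∀ l, 0 ≤ g l) (a : ℝ) (H : ℕ)
    (hd : ∀ h ∈ Icc 1 H, N h h ≤ a)
    (h1 : ∀ h h', 1 ≤ h → h < h' → h' ≤ H → N h h' ≤ g (h' - h))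
    (h2 : ∀ h h', N h h' = N h' h) :
    ∑ h ∈ Icc 1 H, ∑ h' ∈ Icc 1 H, N h h' ≤ H * (a + 2 * ∑ l ∈ Icc 1 H, g l) := by
  have key : ∀ h ∈ Icc 1 H, ∑ h' ∈ Icc 1 H, N h h' ≤ a + 2 * ∑ l ∈ Icc 1 H, g l := by
    intro h hh
    have hh' := mem_Icc.1 hh
    have e : ∑ h' ∈ Icc 1 H, N h h' = N h h + (∑ h' ∈ (Icc 1 H).filter (fun h' => h < h'), N h h' +
        ∑ h' ∈ (Icc 1 H).filter (fun h' => h' < h), N h h') := by
      have e1 := Finset.sum_filter_add_sum_filter_not (Icc 1 H) (fun h' => h' = h) (fun h' => N h h')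
      have e2 : (Icc 1 H).filter (fun h' => h' = h) = {h} := by
        ext x
        simp only [mem_filter, mem_Icc, mem_singleton]
        constructor
        · exact fun hx => hx.2
        · rintro rfl
          exact ⟨hh', rfl⟩
      rw [e2, sum_singleton] at e1
      have e3 := Finset.sum_filter_add_sum_filter_not ((Icc 1 H).filter (fun h' => ¬ h' = h))
        (fun h' => h < h') (fun h' => N h h')
      have e4 : ((Icc 1 H).filter (fun h' => ¬ h' = h)).filter (fun h' => h < h') =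
          (Icc 1 H).filter (fun h' => h < h') := by
        ext x
        simp only [mem_filter]
        constructor
        · exact fun hx => ⟨hx.1.1, hx.2⟩
        · exact fun hx => ⟨⟨hx.1, by omega⟩, hx.2⟩
      have e5 : ((Icc 1 H).filter (fun h' => ¬ h' = h)).filter (fun h' => ¬ h < h') =
          (Icc 1 H).filter (fun h' => h' < h) := by
        ext x
        simp only [mem_filter]
        constructor
        · exact fun hx => ⟨hx.1.1, by omega⟩
        · exact fun hx => ⟨⟨hx.1, by omega⟩, by omega⟩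
      rw [e4, e5] at e3
      rw [← e1, ← e3]
    have b1 : ∑ h' ∈ (Icc 1 H).filter (fun h' => h < h'), N h h' ≤ ∑ l ∈ Icc 1 H, g l := by
      refine le_trans (Finset.sum_le_sum fun h' hx => ?_) (F6_gt g hg H h)
      simp only [mem_filter, mem_Icc] at hx
      exact h1 h h' hh'.1 hx.2 hx.1.2
    have b2 : ∑ h' ∈ (Icc 1 H).filter (fun h' => h' < h), N h h' ≤ ∑ l ∈ Icc 1 H, g l := by
      refine le_trans (Finset.sum_le_sum fun h' hx => ?_) (F6_lt g hg H h hh'.2)
      simp only [mem_filter, mem_Icc] at hx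
      rw [h2]
      exact h1 h' h hx.1.1 hx.2 hh'.2
    have b3 := hd h hh
    rw [e]
    linarith
  calc ∑ h ∈ Icc 1 H, ∑ h' ∈ Icc 1 H, N h h' ≤ ∑ h ∈ Icc 1 H, (a + 2 * ∑ l ∈ Icc 1 H, g l) :=
        Finset.sum_le_sum key
    _ = _ := by
      rw [Finset.sum_const, Nat.card_Icc, nsmul_eq_mul]
      simp

/-- number of primes in the shifted interval. -/
theorem F6_lower (X H h : ℕ) (hh : h ≤ H) :
    (((Ioc X (3 * X)).filter Nat.Prime).card : ℝ) - H ≤
      (((Ioc X (3 * X)).filter (fun n => (n + h).Prime)).card : ℝ) := by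
  have h1 : (Ioc X (3 * X)).filter Nat.Prime ⊆
      ((Ioc X (3 * X)).filter (fun n => (n + h).Prime)).image (fun n => n + h) ∪ Ioc X (X + h) := by
    intro p hp
    simp only [mem_filter, mem_Ioc, mem_union, mem_image] at hp ⊢
    rcases le_or_gt p (X + h) with h2 | h2
    · right
      exact ⟨hp.1.1, h2⟩
    · left
      refine ⟨p - h, ⟨⟨by omega, by omega⟩, ?_⟩, by omega⟩
      have : p - h + h = p := by omega
      rw [this]
      exact hp.2
  have h2 := (Finset.card_le_card h1).trans (Finset.card_union_le _ _)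
  have h3 : (((Ioc X (3 * X)).filter (fun n => (n + h).Prime)).image (fun n => n + h)).card ≤
      ((Ioc X (3 * X)).filter (fun n => (n + h).Prime)).card := Finset.card_image_le
  rw [Nat.card_Ioc] at h2
  have h4 : ((Ioc X (3 * X)).filter Nat.Prime).card ≤
      ((Ioc X (3 * X)).filter (fun n => (n + h).Prime)).card + H := by omega
  have h5 : (((Ioc X (3 * X)).filter Nat.Prime).card : ℝ) ≤
      ((Ioc X (3 * X)).filter (fun n => (n + h).Prime)).card + H := by exact_mod_cast h4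
  linarith

theorem F6_upper (X H h : ℕ) (hh : h ≤ H) (hH : H ≤ X) :
    ((Ioc X (3 * X)).filter (fun n => (n + h).Prime)).card ≤
      ((range (4 * X + 1)).filter Nat.Prime).card := by
  apply Finset.card_le_card_of_injOn (fun n => n + h)
  · intro n hn
    simp only [coe_filter, mem_Ioc, Set.mem_ofPred_eq, mem_range] at hn ⊢
    exact ⟨by omega, hn.2⟩
  · intro a _ b _ hab
    simp only at hab
    omega

/-- Cauchy-Schwarz. -/
theorem F6_cs (S : Finset ℕ) (f : ℕ → ℝ) (A B : ℝ) (hA : 0 ≤ A) (hB : 0 < B)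
    (h1 : A ≤ ∑ n ∈ S, f n) (h2 : ∑ n ∈ S, f n ^ 2 ≤ B) :
    A ^ 2 / B ≤ ((S.filter (fun n => f n ≠ 0)).card : ℝ) := by
  rw [div_le_iff₀ hB]
  have e1 : ∑ n ∈ S, f n = ∑ n ∈ S.filter (fun n => f n ≠ 0), f n := by
    rw [Finset.sum_filter_ne_zero]
  have e2 : ∑ n ∈ S.filter (fun n => f n ≠ 0), f n ^ 2 ≤ ∑ n ∈ S, f n ^ 2 :=
    Finset.sum_le_sum_of_subset_of_nonneg (Finset.filter_subset _ _) fun _ _ _ => sq_nonneg _
  have e3 := sq_sum_le_card_mul_sum_sq (s := S.filter (fun n => f n ≠ 0)) (f := f)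
  rw [← e1] at e3
  calc A ^ 2 ≤ (∑ n ∈ S, f n) ^ 2 := pow_le_pow_left₀ hA h1 2
    _ ≤ _ := e3
    _ ≤ _ := mul_le_mul_of_nonneg_left (e2.trans h2) (Nat.cast_nonneg _)

/-- the analytic facts for large `X`. -/
theorem F6_ev (ε : ℝ) (hε : 0 < ε) : ∀ᶠ X : ℕ in atTop, 1 ≤ Real.log X ∧
    Real.log X ≤ (HH 1 X : ℝ) ∧ (HH 1 X : ℝ) ≤ 2 * Real.log X ∧ HH 1 X ≤ X ∧
    4 * Real.log X ^ 2 ≤ ε * X ∧ 2 ≤ X := by
  have hlog : Tendsto (fun X : ℕ => Real.log (X : ℝ)) atTop atTop :=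
    Real.tendsto_log_atTop.comp tendsto_natCast_atTop_atTop
  have h1 : ∀ᶠ X : ℕ in atTop, 1 ≤ Real.log (X : ℝ) := hlog.eventually (eventually_ge_atTop 1)
  have h2 : ∀ᶠ X : ℕ in atTop, Real.log (X : ℝ) ^ 2 ≤ (min ε 1 / 4) * X := by
    have h3 := (Real.isLittleO_pow_log_id_atTop (n := 2)).bound
      (show (0 : ℝ) < min ε 1 / 4 by positivity)
    have h4 := tendsto_natCast_atTop_atTop (R := ℝ) |>.eventually h3
    filter_upwards [h4] with X hX
    simp only [id_eq, Real.norm_eq_abs] at hX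
    rw [abs_of_nonneg (sq_nonneg _), abs_of_nonneg (Nat.cast_nonneg X)] at hX
    exact hX
  filter_upwards [h1, h2, eventually_ge_atTop 2] with X ha hb hc
  have hX0 : (0 : ℝ) ≤ X := Nat.cast_nonneg _
  have hH : HH 1 X = ⌈1 * Real.log X⌉₊ := rfl
  have e1 : Real.log X ≤ (HH 1 X : ℝ) := by
    rw [hH, one_mul]; exact Nat.le_ceil _
  have e2 : (HH 1 X : ℝ) ≤ 2 * Real.log X := by
    have := (Nat.ceil_lt_add_one (show 0 ≤ 1 * Real.log X by linarith)).le
    rw [hH]
    linarith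
  have hm1 : min ε 1 ≤ 1 := min_le_right _ _
  have hm2 : min ε 1 ≤ ε := min_le_left _ _
  have hm0 : 0 < min ε 1 := by positivity
  refine ⟨ha, e1, e2, ?_, ?_, hc⟩
  · have : (HH 1 X : ℝ) ≤ X := by
      nlinarith
    exact_mod_cast this
  · nlinarith

theorem F6_real {c c' Cp X l H s P : ℝ} (hc : 0 < c) (hc' : 0 < c') (hCp : 0 < Cp) (hX : 0 < X)
    (hl : 1 ≤ l) (hH1 : l ≤ H) (hH2 : H ≤ 2 * l) (hP : P ≤ c' * (4 * X) / l) (hs : s ≤ 4 * H) :
    H * (P + 2 * (Cp * X / l ^ 2 * s)) ≤ (8 * c' + 32 * Cp) * X := by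
  have hl0 : 0 < l := by linarith
  have hH0 : 0 < H := by linarith
  have h1 : H * P ≤ 8 * c' * X := by
    calc H * P ≤ H * (c' * (4 * X) / l) := mul_le_mul_of_nonneg_left hP hH0.le
      _ ≤ (2 * l) * (c' * (4 * X) / l) := mul_le_mul_of_nonneg_right hH2 (by positivity)
      _ = 8 * c' * X := by field_simp; ring
  have h2 : H * (2 * (Cp * X / l ^ 2 * s)) ≤ 32 * Cp * X := by
    have h3 : H * s ≤ 16 * l ^ 2 := by nlinarith
    calc H * (2 * (Cp * X / l ^ 2 * s)) = 2 * (Cp * X / l ^ 2) * (H * s) := by ring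
      _ ≤ 2 * (Cp * X / l ^ 2) * (16 * l ^ 2) := mul_le_mul_of_nonneg_left h3 (by positivity)
      _ = 32 * Cp * X := by field_simp; ring
  linarith

theorem pos_prop : ∃ c₁ : ℝ, 0 < c₁ ∧ c₁ ≤ 1 ∧ ∀ Dd : ℝ, 1 ≤ Dd → ∀ᶠ X : ℕ in atTop,
    c₁ * X ≤ (((Ioc X (3 * X)).filter (fun n => ∃ p ∈ Ioc n (n + HH Dd X), p.Prime)).card : ℝ) := by
  obtain ⟨c, hc, X₀, hlow⟩ := cheb_lower
  obtain ⟨c', hc', hup⟩ := cheb_upper
  obtain ⟨Cp, hCp, hpair⟩ := pair_bound
  set K : ℝ := 8 * c' + 32 * Cp with hK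
  have hK0 : 0 < K := by positivity
  refine ⟨min 1 ((c / 2) ^ 2 / K), by positivity, min_le_left _ _, fun Dd hDd => ?_⟩
  filter_upwards [hpair, F6_ev (c / 2) (by positivity), eventually_ge_atTop X₀] with X hp hev hX0
  obtain ⟨hl1, hH1, hH2, hHX, hsm, hX2⟩ := hev
  set H : ℕ := HH 1 X with hHdef
  have hXpos : (0 : ℝ) < X := by exact_mod_cast (by omega : 0 < X)
  have hlpos : 0 < Real.log X := by linarith
  set f : ℕ → ℝ := fun n => ∑ h ∈ Icc 1 H, if (n + h).Prime then (1 : ℝ) else 0 with hf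
  -- first moment
  have hA : c / 2 * X ≤ ∑ n ∈ Ioc X (3 * X), f n := by
    rw [hf, Finset.sum_comm]
    have h1 : ∀ h ∈ Icc 1 H, c * X / Real.log X - H ≤
        ∑ n ∈ Ioc X (3 * X), (if (n + h).Prime then (1 : ℝ) else 0) := by
      intro h hh
      rw [mem_Icc] at hh
      rw [Finset.sum_boole]
      have := F6_lower X H h hh.2
      have h2 := hlow X hX0
      linarith
    have h2 := Finset.sum_le_sum h1
    rw [Finset.sum_const, Nat.card_Icc, nsmul_eq_mul, Nat.add_sub_cancel] at h2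
    refine le_trans ?_ h2
    have h3 : c * X ≤ H * (c * X / Real.log X) := by
      calc c * X = Real.log X * (c * X / Real.log X) := by field_simp
        _ ≤ _ := mul_le_mul_of_nonneg_right hH1 (by positivity)
    have h4 : (H : ℝ) * H ≤ c / 2 * X := by
      refine le_trans ?_ hsm
      nlinarith
    nlinarith
  -- second moment
  have hB : ∑ n ∈ Ioc X (3 * X), f n ^ 2 ≤ K * X := by
    have e1 : ∑ n ∈ Ioc X (3 * X), f n ^ 2 = ∑ h ∈ Icc 1 H, ∑ h' ∈ Icc 1 H,
        ∑ n ∈ Ioc X (3 * X), (if (n + h).Prime ∧ (n + h').Prime then (1 : ℝ) else 0) := by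
      have e2 : ∀ n, f n ^ 2 = ∑ h ∈ Icc 1 H, ∑ h' ∈ Icc 1 H,
          (if (n + h).Prime ∧ (n + h').Prime then (1 : ℝ) else 0) := by
        intro n
        rw [hf, sq, Finset.sum_mul_sum]
        refine Finset.sum_congr rfl fun h _ => Finset.sum_congr rfl fun h' _ => ?_
        by_cases h1 : (n + h).Prime <;> by_cases h2 : (n + h').Prime <;> simp [h1, h2]
      rw [Finset.sum_congr rfl fun n _ => e2 n, Finset.sum_comm]
      refine Finset.sum_congr rfl fun h _ => ?_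
      rw [Finset.sum_comm]
    rw [e1]
    set P : ℝ := (((range (4 * X + 1)).filter Nat.Prime).card : ℝ) with hP
    have hPle : P ≤ c' * (4 * X) / Real.log X := by
      have h1 := hup (4 * X) (by omega)
      push_cast at h1
      refine h1.trans ?_
      apply div_le_div_of_nonneg_left (by positivity) hlpos
      apply Real.log_le_log hXpos
      linarith
    have hdbl := F6_double (fun h h' => ∑ n ∈ Ioc X (3 * X),
        (if (n + h).Prime ∧ (n + h').Prime then (1 : ℝ) else 0))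
      (fun l => Cp * X / Real.log X ^ 2 * ((l : ℝ) / (Nat.totient l : ℝ)))
      (fun l => by positivity) P H ?_ ?_ ?_
    · refine hdbl.trans ?_
      rw [← Finset.mul_sum]
      exact F6_real hc hc' hCp hXpos hl1 hH1 hH2 hPle (sum_l_div_phi H)
    · intro h hh
      rw [mem_Icc] at hh
      simp only [and_self]
      rw [Finset.sum_boole, hP]
      exact_mod_cast F6_upper X H h hh.2 hHX
    · intro h h' h1 h2 h3
      rw [Finset.sum_boole]
      exact hp h h' h1 h2 h3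
    · intro h h'
      refine Finset.sum_congr rfl fun n _ => ?_
      simp only [and_comm]
  have hcs := F6_cs (Ioc X (3 * X)) f (c / 2 * X) (K * X) (by positivity) (by positivity) hA hB
  have hsub : (Ioc X (3 * X)).filter (fun n => f n ≠ 0) ⊆
      (Ioc X (3 * X)).filter (fun n => ∃ p ∈ Ioc n (n + HH Dd X), p.Prime) := by
    intro n hn
    rw [mem_filter] at hn ⊢
    refine ⟨hn.1, ?_⟩
    by_contra hcon
    apply hn.2
    rw [hf]
    apply Finset.sum_eq_zero
    intro h hh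
    rw [mem_Icc] at hh
    rw [if_neg]
    intro hpr
    apply hcon
    refine ⟨n + h, ?_, hpr⟩
    rw [mem_Ioc]
    have : H ≤ HH Dd X := by
      rw [hHdef]
      unfold HH
      apply Nat.ceil_le_ceil
      nlinarith
    omega
  have hcard : (((Ioc X (3 * X)).filter (fun n => f n ≠ 0)).card : ℝ) ≤
      (((Ioc X (3 * X)).filter (fun n => ∃ p ∈ Ioc n (n + HH Dd X), p.Prime)).card : ℝ) := by
    exact_mod_cast Finset.card_le_card hsub
  refine le_trans ?_ (hcs.trans hcard)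
  calc min 1 ((c / 2) ^ 2 / K) * X ≤ (c / 2) ^ 2 / K * X :=
        mul_le_mul_of_nonneg_right (min_le_right _ _) hXpos.le
    _ = (c / 2 * X) ^ 2 / (K * X) := by field_simp

end Crest.Agent.PG
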