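import Crest.Agent.PG_Defs
/-!
# PG-F7 (S0021): the combinatorial endgame (no number theory)

`second_moment`: expand the square; the pairs `(i,j) ∈ (H,2H]²` with `|i-j| ≤ v` (at most `H(2v+1)` of them) contribute
`≤ M X` each (`|xy| ≤ (x²+y²)/2`, with `Y = X + i`, `X ≤ Y ≤ 8X`), the others `≤ ε X` (shift to `Y = X + min i j`).

`endgame`: `S = (X,3X]`, `u = w - γ` (`∑ u² ≤ (2M₂+4)X`).
* `Bad1 = {n ∈ S : ∑_{i∈(H,2H]} u(n+i) < -H/4}`: `#Bad1 · H²/16 ≤ H(2v+1)(2M₂+4)X + H² ε X`, so `#Bad1 ≤ c₁X/4` by `h6`.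
* `Bad2 = {n ∈ S : ∑_i (1-γ(n+i)) > H/2}`: `#Bad2 ≤ (2/H)·H·(c₁/32)X ≤ c₁X/4`.
* `G` = the `n ∈ S` with a prime in `(n,n+H]`, not bad: `#G ≥ c₁X/2`, `∑_i w(n+i) ≥ H/4` on `G`.
* the part with a prime in `(m,m+v]`, `m = n+i`, is `≤ H (c₁/16) X` by `h2`; so
  `∑_{n∈G} ∑_i w(n+i) 1[no prime in (m,m+v]] ≥ c₁XH/16`.
* `R = {m ∈ (X,4X] : no prime in (m,m+v], some prime in (m-2H,m] which is > X}`; each `m` arises from at most `H` values of `i`:
  `∑_{m∈R} w(m) ≥ c₁X/16`; Cauchy-Schwarz with `h3` on `(X,3X]` and `(3X,5X]`: `#R ≥ c₁²X/(512 M₂)`.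
* `m ↦` largest prime `p ≤ m`: then `X < p ≤ 4X`, `m - 2H < p ≤ m` and every prime `q > p` satisfies `q > m + v ≥ p + v`; fibres have
  size `≤ 2H`.
-/
set_option autoImplicit false
namespace Crest.Agent.PG
open Finset

/-- primes `p ∈ (X,4X]` such that there is no prime in `(p, p+v]` -/
noncomputable def GP (X v : ℕ) : Finset ℕ := by
  classical exact (Ioc X (4 * X)).filter (fun p => p.Prime ∧ ∀ q : ℕ, q.Prime → p < q → p + v < q)

theorem F7_shift (X i : ℕ) (f : ℕ → ℝ) :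
    ∑ n ∈ Ioc X (3 * X), f (n + i) = ∑ n ∈ Ioc (X + i) (X + i + 2 * X), f n := by
  have h : Ioc (X + i) (X + i + 2 * X) = (Ioc X (3 * X)).map (addRightEmbedding i) := by
    rw [Finset.map_add_right_Ioc]
    congr 1
    ring
  rw [h, Finset.sum_map]
  rfl

theorem F7_close_card (i v H : ℕ) :
    (((Ioc H (2 * H)).filter (fun j => i ≤ j + v ∧ j ≤ i + v)).card : ℝ) ≤ 2 * v + 1 := by
  have h1 : (Ioc H (2 * H)).filter (fun j => i ≤ j + v ∧ j ≤ i + v) ⊆ Icc (i - v) (i + v) := by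
    intro j hj
    rw [mem_filter] at hj
    rw [mem_Icc]
    omega
  have h2 := Finset.card_le_card h1
  rw [Nat.card_Icc] at h2
  have h3 : ((Ioc H (2 * H)).filter (fun j => i ≤ j + v ∧ j ≤ i + v)).card ≤ 2 * v + 1 := by omega
  exact_mod_cast h3

theorem second_moment (X H v : ℕ) (M ε : ℝ) (hH : 1 ≤ H) (hHX : 2 * H ≤ X) (hε : 0 ≤ ε) (hM : 0 ≤ M) (u : ℕ → ℝ)
    (h1 : ∀ Y, X ≤ Y → Y ≤ 8 * X → ∑ n ∈ Ioc Y (Y + 2 * X), (u n) ^ 2 ≤ M * X)
    (h2 : ∀ Y, X ≤ Y → Y ≤ 8 * X → ∀ d, v < d → d ≤ H → |∑ n ∈ Ioc Y (Y + 2 * X), u n * u (n + d)| ≤ ε * X) :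
    ∑ n ∈ Ioc X (3 * X), (∑ i ∈ Ioc H (2 * H), u (n + i)) ^ 2 ≤ (H * (2 * v + 1) * M + (H : ℝ) ^ 2 * ε) * X := by
  have hexp : ∑ n ∈ Ioc X (3 * X), (∑ i ∈ Ioc H (2 * H), u (n + i)) ^ 2 =
      ∑ i ∈ Ioc H (2 * H), ∑ j ∈ Ioc H (2 * H), ∑ n ∈ Ioc X (3 * X), u (n + i) * u (n + j) := by
    have e1 : ∀ n, (∑ i ∈ Ioc H (2 * H), u (n + i)) ^ 2 =
        ∑ i ∈ Ioc H (2 * H), ∑ j ∈ Ioc H (2 * H), u (n + i) * u (n + j) := by
      intro n
      rw [sq, Finset.sum_mul_sum]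
    rw [Finset.sum_congr rfl fun n _ => e1 n, Finset.sum_comm]
    refine Finset.sum_congr rfl fun i _ => ?_
    rw [Finset.sum_comm]
  have hX0 : (0 : ℝ) ≤ X := Nat.cast_nonneg X
  have hsq : ∀ i ∈ Ioc H (2 * H), ∑ n ∈ Ioc X (3 * X), (u (n + i)) ^ 2 ≤ M * X := by
    intro i hi
    rw [mem_Ioc] at hi
    rw [F7_shift X i (fun n => (u n) ^ 2)]
    exact h1 (X + i) (by omega) (by omega)
  have hpair : ∀ i ∈ Ioc H (2 * H), ∀ j ∈ Ioc H (2 * H), i < j → v < j - i →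
      ∑ n ∈ Ioc X (3 * X), u (n + i) * u (n + j) ≤ ε * X := by
    intro i hi j hj hij hd
    rw [mem_Ioc] at hi hj
    have e1 := F7_shift X i (fun n => u n * u (n + (j - i)))
    have e2 : ∀ n, u (n + i) * u (n + i + (j - i)) = u (n + i) * u (n + j) := by
      intro n
      have : n + i + (j - i) = n + j := by omega
      rw [this]
    rw [Finset.sum_congr rfl fun n _ => e2 n] at e1
    rw [e1]
    exact (le_abs_self _).trans (h2 (X + i) (by omega) (by omega) (j - i) hd (by omega))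
  have hterm : ∀ i ∈ Ioc H (2 * H), ∀ j ∈ Ioc H (2 * H),
      ∑ n ∈ Ioc X (3 * X), u (n + i) * u (n + j) ≤
        (if i ≤ j + v ∧ j ≤ i + v then M * X else 0) + ε * X := by
    intro i hi j hj
    have hεX : 0 ≤ ε * X := mul_nonneg hε hX0
    by_cases hc : i ≤ j + v ∧ j ≤ i + v
    · rw [if_pos hc]
      have e1 : ∑ n ∈ Ioc X (3 * X), u (n + i) * u (n + j) ≤
          ∑ n ∈ Ioc X (3 * X), ((1 / 2) * (u (n + i)) ^ 2 + (1 / 2) * (u (n + j)) ^ 2) := by
        refine Finset.sum_le_sum fun n _ => ?_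
        nlinarith [sq_nonneg (u (n + i) - u (n + j))]
      rw [Finset.sum_add_distrib, ← Finset.mul_sum, ← Finset.mul_sum] at e1
      have e2 := hsq i hi
      have e3 := hsq j hj
      linarith
    · rw [if_neg hc, zero_add]
      rcases lt_trichotomy i j with h | h | h
      · exact hpair i hi j hj h (by omega)
      · exfalso
        apply hc
        omega
      · have := hpair j hj i hi h (by omega)
        rw [Finset.sum_congr rfl fun n _ => mul_comm (u (n + i)) (u (n + j))]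
        exact this
  rw [hexp]
  calc ∑ i ∈ Ioc H (2 * H), ∑ j ∈ Ioc H (2 * H), ∑ n ∈ Ioc X (3 * X), u (n + i) * u (n + j)
      ≤ ∑ i ∈ Ioc H (2 * H), ∑ j ∈ Ioc H (2 * H),
        ((if i ≤ j + v ∧ j ≤ i + v then M * X else 0) + ε * X) :=
        Finset.sum_le_sum fun i hi => Finset.sum_le_sum fun j hj => hterm i hi j hj
    _ ≤ ∑ i ∈ Ioc H (2 * H), ((2 * v + 1) * (M * X) + H * (ε * X)) := by
        refine Finset.sum_le_sum fun i _ => ?_
        rw [Finset.sum_add_distrib, ← Finset.sum_filter, Finset.sum_const, Finset.sum_const,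
          nsmul_eq_mul, nsmul_eq_mul]
        have e1 := F7_close_card i v H
        have e2 : ((Ioc H (2 * H)).card : ℝ) = H := by
          rw [Nat.card_Ioc]
          congr 1
          omega
        rw [e2]
        have e3 : 0 ≤ M * X := mul_nonneg hM hX0
        have e4 := mul_le_mul_of_nonneg_right e1 e3
        linarith
    _ = (H * (2 * v + 1) * M + (H : ℝ) ^ 2 * ε) * X := by
        rw [Finset.sum_const, nsmul_eq_mul]
        have e2 : ((Ioc H (2 * H)).card : ℝ) = H := by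
          rw [Nat.card_Ioc]
          congr 1
          omega
        rw [e2]
        ring

theorem endgame (X H v : ℕ) (c₁ M₂ ε : ℝ) (hH : 1 ≤ H) (hHX : 2 * H + v ≤ X) (hc₁ : 0 < c₁) (hM₂ : 1 ≤ M₂)
    (hε : 0 ≤ ε) (w γ : ℕ → ℝ) (hw : ∀ n, 0 ≤ w n) (hγ : ∀ n, γ n = 0 ∨ γ n = 1)
    (h1 : c₁ * X ≤ (((Ioc X (3 * X)).filter (fun n => ∃ p ∈ Ioc n (n + H), p.Prime)).card : ℝ))
    (h2 : ∀ Y, X ≤ Y → Y ≤ 8 * X →
      ∑ n ∈ Ioc Y (Y + 2 * X), w n * (((Ioc n (n + v)).filter Nat.Prime).card : ℝ) ≤ c₁ / 16 * X)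
    (h3 : ∀ Y, X ≤ Y → Y ≤ 8 * X → ∑ n ∈ Ioc Y (Y + 2 * X), (w n) ^ 2 ≤ M₂ * X)
    (h4 : ∀ Y, X ≤ Y → Y ≤ 8 * X → ∀ d, v < d → d ≤ H →
      |∑ n ∈ Ioc Y (Y + 2 * X), (w n - γ n) * (w (n + d) - γ (n + d))| ≤ ε * X)
    (h5 : ∀ Y, X ≤ Y → Y ≤ 8 * X → ∑ n ∈ Ioc Y (Y + 2 * X), (1 - γ n) ≤ c₁ / 32 * X)
    (h6 : 16 * ((2 * v + 1) * (2 * M₂ + 4) / H + ε) ≤ c₁ / 4) :
    c₁ ^ 2 * X / (1024 * M₂ * H) ≤ ((GP X v).card : ℝ) := by
  classical
  have hX0 : (0 : ℝ) < X := by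
    have : 0 < X := by omega
    exact_mod_cast this
  have hH0 : (0 : ℝ) < H := by exact_mod_cast hH
  set S := Ioc X (3 * X) with hS
  set J := Ioc H (2 * H) with hJ
  have hJc : (J.card : ℝ) = H := by
    rw [hJ, Nat.card_Ioc]
    congr 1
    omega
  set u : ℕ → ℝ := fun n => w n - γ n with hu
  have hγ0 : ∀ n, 0 ≤ γ n := fun n => by rcases hγ n with h | h <;> rw [h] <;> norm_num
  have hγ1 : ∀ n, γ n ≤ 1 := fun n => by rcases hγ n with h | h <;> rw [h] <;> norm_num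
  -- second moment
  have hu2 : ∀ Y, X ≤ Y → Y ≤ 8 * X → ∑ n ∈ Ioc Y (Y + 2 * X), (u n) ^ 2 ≤ (2 * M₂ + 4) * X := by
    intro Y hY hY'
    have e1 : ∑ n ∈ Ioc Y (Y + 2 * X), (u n) ^ 2 ≤ ∑ n ∈ Ioc Y (Y + 2 * X), (2 * (w n) ^ 2 + 2) := by
      refine Finset.sum_le_sum fun n _ => ?_
      have := hγ0 n
      have := hγ1 n
      simp only [hu]
      nlinarith [sq_nonneg (w n + γ n)]
    rw [Finset.sum_add_distrib, ← Finset.mul_sum, Finset.sum_const, nsmul_eq_mul, Nat.card_Ioc] at e1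
    have e2 := h3 Y hY hY'
    have e3 : ((Y + 2 * X - Y : ℕ) : ℝ) = 2 * X := by
      rw [Nat.add_sub_cancel_left]
      push_cast
      ring
    rw [e3] at e1
    nlinarith
  have hSM := second_moment X H v (2 * M₂ + 4) ε hH (by omega) hε (by linarith) u hu2 h4
  -- Bad1
  set B1 := S.filter (fun n => ∑ i ∈ J, u (n + i) < -(H : ℝ) / 4) with hB1
  have hB1c : (B1.card : ℝ) ≤ c₁ / 4 * X := by
    have e1 : (B1.card : ℝ) * ((H : ℝ) ^ 2 / 16) ≤ ∑ n ∈ S, (∑ i ∈ J, u (n + i)) ^ 2 := by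
      calc (B1.card : ℝ) * ((H : ℝ) ^ 2 / 16) = ∑ n ∈ B1, ((H : ℝ) ^ 2 / 16) := by
            rw [Finset.sum_const, nsmul_eq_mul]
        _ ≤ ∑ n ∈ B1, (∑ i ∈ J, u (n + i)) ^ 2 := by
            refine Finset.sum_le_sum fun n hn => ?_
            have := (mem_filter.1 hn).2
            nlinarith
        _ ≤ ∑ n ∈ S, (∑ i ∈ J, u (n + i)) ^ 2 :=
            Finset.sum_le_sum_of_subset_of_nonneg (Finset.filter_subset _ _)
              fun n _ _ => sq_nonneg _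
    have e2 := e1.trans hSM
    have e3 : (H * (2 * v + 1) * (2 * M₂ + 4) + (H : ℝ) ^ 2 * ε) * X =
        (16 * ((2 * v + 1) * (2 * M₂ + 4) / H + ε)) * X * ((H : ℝ) ^ 2 / 16) := by
      field_simp
    rw [e3] at e2
    have e4 : (B1.card : ℝ) ≤ (16 * ((2 * v + 1) * (2 * M₂ + 4) / H + ε)) * X :=
      le_of_mul_le_mul_right e2 (by positivity)
    exact e4.trans (mul_le_mul_of_nonneg_right h6 hX0.le)
  -- Bad2
  set B2 := S.filter (fun n => (H : ℝ) / 2 < ∑ i ∈ J, (1 - γ (n + i))) with hB2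
  have hB2c : (B2.card : ℝ) ≤ c₁ / 4 * X := by
    have e1 : (B2.card : ℝ) * ((H : ℝ) / 2) ≤ ∑ n ∈ S, ∑ i ∈ J, (1 - γ (n + i)) := by
      calc (B2.card : ℝ) * ((H : ℝ) / 2) = ∑ n ∈ B2, ((H : ℝ) / 2) := by
            rw [Finset.sum_const, nsmul_eq_mul]
        _ ≤ ∑ n ∈ B2, ∑ i ∈ J, (1 - γ (n + i)) :=
            Finset.sum_le_sum fun n hn => (mem_filter.1 hn).2.le
        _ ≤ ∑ n ∈ S, ∑ i ∈ J, (1 - γ (n + i)) :=
            Finset.sum_le_sum_of_subset_of_nonneg (Finset.filter_subset _ _)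
              fun n _ _ => Finset.sum_nonneg fun i _ => by have := hγ1 (n + i); linarith
    have e2 : ∑ n ∈ S, ∑ i ∈ J, (1 - γ (n + i)) ≤ H * (c₁ / 32 * X) := by
      rw [Finset.sum_comm]
      calc ∑ i ∈ J, ∑ n ∈ S, (1 - γ (n + i)) ≤ ∑ i ∈ J, c₁ / 32 * X := by
            refine Finset.sum_le_sum fun i hi => ?_
            rw [hJ, mem_Ioc] at hi
            rw [hS, F7_shift X i (fun n => 1 - γ n)]
            exact h5 (X + i) (by omega) (by omega)
        _ = H * (c₁ / 32 * X) := by rw [Finset.sum_const, nsmul_eq_mul, hJc]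
    have e3 := e1.trans e2
    have e4 : (B2.card : ℝ) ≤ c₁ / 16 * X := by
      have : (B2.card : ℝ) * ((H : ℝ) / 2) ≤ (c₁ / 16 * X) * ((H : ℝ) / 2) := by
        have : (H : ℝ) * (c₁ / 32 * X) = (c₁ / 16 * X) * ((H : ℝ) / 2) := by ring
        linarith
      exact le_of_mul_le_mul_right this (by positivity)
    have : c₁ / 16 * X ≤ c₁ / 4 * X := by
      apply mul_le_mul_of_nonneg_right _ hX0.le
      linarith
    linarith
  -- the good set
  set P0 := S.filter (fun n => ∃ p ∈ Ioc n (n + H), p.Prime) with hP0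
  set G := P0 \ (B1 ∪ B2) with hG
  have hGc : c₁ / 2 * X ≤ (G.card : ℝ) := by
    have e1 : P0.card ≤ G.card + (B1 ∪ B2).card := by
      rw [hG]
      have := Finset.le_card_sdiff (B1 ∪ B2) P0
      omega
    have e2 : (B1 ∪ B2).card ≤ B1.card + B2.card := Finset.card_union_le _ _
    have e3 : (P0.card : ℝ) ≤ G.card + (B1.card + B2.card) := by exact_mod_cast e1.trans (by omega)
    have e4 : c₁ * X ≤ (P0.card : ℝ) := h1
    linarith
  have hGS : G ⊆ S := fun n hn => (mem_filter.1 (mem_sdiff.1 hn).1).1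
  have hGw : ∀ n ∈ G, (H : ℝ) / 4 ≤ ∑ i ∈ J, w (n + i) := by
    intro n hn
    have hnS := hGS hn
    have hnB := (mem_sdiff.1 hn).2
    rw [mem_union, not_or] at hnB
    have e1 : -(H : ℝ) / 4 ≤ ∑ i ∈ J, u (n + i) := by
      by_contra hlt
      push Not at hlt
      exact hnB.1 (mem_filter.2 ⟨hnS, hlt⟩)
    have e2 : ∑ i ∈ J, (1 - γ (n + i)) ≤ (H : ℝ) / 2 := by
      by_contra hlt
      push Not at hlt
      exact hnB.2 (mem_filter.2 ⟨hnS, hlt⟩)
    rw [Finset.sum_sub_distrib, Finset.sum_const, nsmul_eq_mul, hJc] at e2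
    simp only [hu] at e1
    rw [Finset.sum_sub_distrib] at e1
    linarith
  -- indicator of no prime in `(m, m+v]`
  set np : ℕ → Prop := fun m => ∀ p ∈ Ioc m (m + v), ¬ p.Prime with hnp
  have hsum1 : c₁ / 16 * X * H ≤ ∑ n ∈ G, ∑ i ∈ J, (if np (n + i) then w (n + i) else 0) := by
    have e1 : c₁ / 8 * X * H ≤ ∑ n ∈ G, ∑ i ∈ J, w (n + i) := by
      calc c₁ / 8 * X * H = (c₁ / 2 * X) * (H / 4) := by ring
        _ ≤ (G.card : ℝ) * (H / 4) := by gcongr
        _ = ∑ n ∈ G, ((H : ℝ) / 4) := by rw [Finset.sum_const, nsmul_eq_mul]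
        _ ≤ _ := Finset.sum_le_sum hGw
    have e2 : ∑ n ∈ G, ∑ i ∈ J, (w (n + i) - (if np (n + i) then w (n + i) else 0)) ≤
        H * (c₁ / 16 * X) := by
      calc ∑ n ∈ G, ∑ i ∈ J, (w (n + i) - (if np (n + i) then w (n + i) else 0))
          ≤ ∑ n ∈ G, ∑ i ∈ J, w (n + i) * (((Ioc (n + i) (n + i + v)).filter Nat.Prime).card : ℝ) := by
            refine Finset.sum_le_sum fun n _ => Finset.sum_le_sum fun i _ => ?_
            have hwn := hw (n + i)
            by_cases hc : np (n + i)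
            · rw [if_pos hc, sub_self]
              positivity
            · rw [if_neg hc, sub_zero]
              simp only [hnp] at hc
              push Not at hc
              obtain ⟨p, hp, hpp⟩ := hc
              have hpos : 0 < ((Ioc (n + i) (n + i + v)).filter Nat.Prime).card :=
                Finset.card_pos.2 ⟨p, mem_filter.2 ⟨hp, hpp⟩⟩
              have : (1 : ℝ) ≤ (((Ioc (n + i) (n + i + v)).filter Nat.Prime).card : ℝ) := by
                exact_mod_cast hpos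
              nlinarith
        _ ≤ ∑ n ∈ S, ∑ i ∈ J, w (n + i) * (((Ioc (n + i) (n + i + v)).filter Nat.Prime).card : ℝ) :=
            Finset.sum_le_sum_of_subset_of_nonneg hGS fun n _ _ =>
              Finset.sum_nonneg fun i _ => mul_nonneg (hw _) (Nat.cast_nonneg _)
        _ = ∑ i ∈ J, ∑ n ∈ S, w (n + i) * (((Ioc (n + i) (n + i + v)).filter Nat.Prime).card : ℝ) :=
            Finset.sum_comm
        _ ≤ ∑ i ∈ J, c₁ / 16 * X := by
            refine Finset.sum_le_sum fun i hi => ?_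
            rw [hJ, mem_Ioc] at hi
            rw [hS, F7_shift X i (fun n => w n * (((Ioc n (n + v)).filter Nat.Prime).card : ℝ))]
            exact h2 (X + i) (by omega) (by omega)
        _ = H * (c₁ / 16 * X) := by rw [Finset.sum_const, nsmul_eq_mul, hJc]
    simp only [Finset.sum_sub_distrib] at e2
    linarith
  -- the set R
  set R := (Ioc X (4 * X)).filter (fun m => np m ∧ ∃ p : ℕ, p.Prime ∧ X < p ∧ m < p + 2 * H ∧ p ≤ m)
    with hR
  have hsum2 : c₁ / 16 * X ≤ ∑ m ∈ R, w m := by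
    have e1 : ∑ n ∈ G, ∑ i ∈ J, (if np (n + i) then w (n + i) else 0) ≤ ∑ i ∈ J, ∑ m ∈ R, w m := by
      rw [Finset.sum_comm]
      refine Finset.sum_le_sum fun i hi => ?_
      rw [hJ, mem_Ioc] at hi
      rw [← Finset.sum_filter]
      have e2 : ∑ n ∈ G.filter (fun n => np (n + i)), w (n + i) =
          ∑ m ∈ (G.filter (fun n => np (n + i))).map (addRightEmbedding i), w m := by
        rw [Finset.sum_map]
        rfl
      rw [e2]
      refine Finset.sum_le_sum_of_subset_of_nonneg ?_ fun m _ _ => hw m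
      intro m hm
      rw [mem_map] at hm
      obtain ⟨n, hn, rfl⟩ := hm
      rw [mem_filter] at hn
      have hnS := hGS hn.1
      rw [hS, mem_Ioc] at hnS
      have hnP := (mem_filter.1 (mem_sdiff.1 hn.1).1).2
      obtain ⟨p, hp, hpp⟩ := hnP
      rw [mem_Ioc] at hp
      rw [hR, mem_filter, mem_Ioc]
      simp only [addRightEmbedding_apply]
      refine ⟨⟨by omega, by omega⟩, hn.2, p, hpp, by omega, by omega, by omega⟩
    rw [Finset.sum_const, nsmul_eq_mul, hJc] at e1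
    have e3 : c₁ / 16 * X * H ≤ (∑ m ∈ R, w m) * H := by linarith
    exact le_of_mul_le_mul_right e3 hH0
  have hRc : c₁ ^ 2 * X / (512 * M₂) ≤ (R.card : ℝ) := by
    have e1 : (∑ m ∈ R, w m) ^ 2 ≤ R.card * ∑ m ∈ R, (w m) ^ 2 := sq_sum_le_card_mul_sum_sq
    have e2 : ∑ m ∈ R, (w m) ^ 2 ≤ 2 * M₂ * X := by
      calc ∑ m ∈ R, (w m) ^ 2 ≤ ∑ m ∈ Ioc X (X + 2 * X) ∪ Ioc (3 * X) (3 * X + 2 * X), (w m) ^ 2 := by
            refine Finset.sum_le_sum_of_subset_of_nonneg ?_ fun m _ _ => sq_nonneg _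
            intro m hm
            have := (mem_filter.1 hm).1
            rw [mem_Ioc] at this
            rw [mem_union, mem_Ioc, mem_Ioc]
            omega
        _ ≤ ∑ m ∈ Ioc X (X + 2 * X), (w m) ^ 2 + ∑ m ∈ Ioc (3 * X) (3 * X + 2 * X), (w m) ^ 2 := by
            rw [← Finset.sum_union_inter]
            have : 0 ≤ ∑ x ∈ Ioc X (X + 2 * X) ∩ Ioc (3 * X) (3 * X + 2 * X), (w x) ^ 2 :=
              Finset.sum_nonneg fun _ _ => sq_nonneg _
            linarith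
        _ ≤ M₂ * X + M₂ * X := add_le_add (h3 X le_rfl (by omega)) (h3 (3 * X) (by omega) (by omega))
        _ = 2 * M₂ * X := by ring
    have e3 : (c₁ / 16 * X) ^ 2 ≤ (∑ m ∈ R, w m) ^ 2 := by
      have : 0 ≤ c₁ / 16 * X := by positivity
      gcongr
    have e4 : (c₁ / 16 * X) ^ 2 ≤ R.card * (2 * M₂ * X) :=
      e3.trans (e1.trans (mul_le_mul_of_nonneg_left e2 (Nat.cast_nonneg _)))
    rw [div_le_iff₀ (by positivity)]
    have e5 : (c₁ ^ 2 * X) * X ≤ (R.card * (512 * M₂)) * X := by nlinarith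
    exact le_of_mul_le_mul_right e5 hX0
  -- largest prime below `m`
  have hex : ∀ m ∈ R, ∃ p ∈ GP X v, m < p + 2 * H ∧ p ≤ m := by
    intro m hm
    rw [hR, mem_filter, mem_Ioc] at hm
    obtain ⟨⟨hm1, hm2⟩, hm3, p₀, hp₀, hp₀X, hp₀m, hp₀m'⟩ := hm
    set F := (range (m + 1)).filter Nat.Prime with hF
    have hne : F.Nonempty := ⟨p₀, mem_filter.2 ⟨mem_range.2 (by omega), hp₀⟩⟩
    set p := F.max' hne with hp
    have hpF := F.max'_mem hne
    rw [← hp, hF, mem_filter, mem_range] at hpF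
    have hpp₀ : p₀ ≤ p := F.le_max' p₀ (mem_filter.2 ⟨mem_range.2 (by omega), hp₀⟩)
    refine ⟨p, ?_, by omega, by omega⟩
    unfold GP
    rw [mem_filter, mem_Ioc]
    refine ⟨⟨by omega, by omega⟩, hpF.2, fun q hq hpq => ?_⟩
    have hqm : m < q := by
      by_contra hle
      push Not at hle
      have := F.le_max' q (mem_filter.2 ⟨mem_range.2 (by omega), hq⟩)
      omega
    by_contra hle
    push Not at hle
    exact hm3 q (mem_Ioc.2 ⟨hqm, by omega⟩) hq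
  have hRGP : R.card ≤ (2 * H) * (GP X v).card := by
    have e1 : R ⊆ (GP X v).biUnion (fun p => Ico p (p + 2 * H)) := by
      intro m hm
      obtain ⟨p, hp, h1, h2⟩ := hex m hm
      exact mem_biUnion.2 ⟨p, hp, mem_Ico.2 ⟨h2, h1⟩⟩
    calc R.card ≤ ((GP X v).biUnion (fun p => Ico p (p + 2 * H))).card := Finset.card_le_card e1
      _ ≤ (GP X v).card * (2 * H) := by
          refine Finset.card_biUnion_le_card_mul _ _ _ fun p _ => ?_
          rw [Nat.card_Ico]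
          omega
      _ = _ := by ring
  have hfin : (R.card : ℝ) ≤ 2 * H * ((GP X v).card : ℝ) := by exact_mod_cast hRGP
  rw [div_le_iff₀ (by positivity)]
  rw [div_le_iff₀ (by positivity)] at hRc
  nlinarith

end Crest.Agent.PG
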