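import Crest.Agent.PG_N5
import Crest.Agent.PG_F7
/-!
# PG-F8 (S0021): from counting large gaps below `4X` to the statement about indices

For large `N` put `x = Nat.nth Nat.Prime N`, `X = x / 5`: then `4X < x`, `X ≥ x/6`.  For `p ∈ GP X (w0 C X)` the index
`n = Nat.count Nat.Prime p` satisfies `n < N`, `nth n = p` (`Nat.nth_count`), and `nth (n+1)` is a prime `> p`, so it is
`> p + w0 C X ≥ p + C log(4X) ≥ p + C log p`.  So the index set has at least `#GP ≥ c₂ X/log X` elements, and
`N = #{primes < x} ≤ c x/log x` (`cheb_upper`) gives `c₂ X/log X ≥ c N`.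
-/
set_option autoImplicit false
namespace Crest.Agent.PG
open Finset Filter

theorem from_GP (C : ℝ) (hC : 1 ≤ C) (c₂ : ℝ) (hc₂ : 0 < c₂)
    (h : ∀ᶠ X : ℕ in atTop, c₂ * X / Real.log X ≤ ((GP X (w0 C X)).card : ℝ)) :
    ∃ c : ℝ, 0 < c ∧ ∃ N₀ : ℕ, ∀ N : ℕ, N₀ ≤ N →
    c * (N : ℝ) ≤ (((Finset.range N).filter fun n =>
      C * Real.log ((Nat.nth Nat.Prime n : ℕ) : ℝ) <
        ((Nat.nth Nat.Prime (n + 1) : ℕ) : ℝ) - ((Nat.nth Nat.Prime n : ℕ) : ℝ)).card : ℝ) := by
  classical
  obtain ⟨c', hc', hup⟩ := cheb_upper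
  obtain ⟨X₀, hX₀⟩ := eventually_atTop.1 h
  refine ⟨c₂ / (6 * c'), by positivity, 5 * X₀ + 30, fun N hN => ?_⟩
  have hmono := Nat.nth_strictMono Nat.infinite_setOfPred_prime
  set x := Nat.nth Nat.Prime N with hx
  have hxN : N ≤ x := hmono.le_apply
  set X := x / 5 with hX
  have hXX₀ : X₀ ≤ X := by omega
  have hX5 : 5 ≤ X := by omega
  have hGP := hX₀ X hXX₀
  -- the injection
  have hinj : (GP X (w0 C X)).card ≤ ((Finset.range N).filter fun n =>
      C * Real.log ((Nat.nth Nat.Prime n : ℕ) : ℝ) <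
        ((Nat.nth Nat.Prime (n + 1) : ℕ) : ℝ) - ((Nat.nth Nat.Prime n : ℕ) : ℝ)).card := by
    refine Finset.card_le_card_of_injOn (fun p => Nat.count Nat.Prime p) ?_ ?_
    · intro p hp
      have hp' : p ∈ GP X (w0 C X) := hp
      unfold GP at hp'
      rw [mem_filter, mem_Ioc] at hp'
      obtain ⟨⟨hp1, hp2⟩, hpp, hgap⟩ := hp'
      have hnth : Nat.nth Nat.Prime (Nat.count Nat.Prime p) = p := Nat.nth_count hpp
      rw [mem_coe, mem_filter, mem_range]
      simp only
      have hlt : Nat.count Nat.Prime p < N := by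
        rw [← hmono.lt_iff_lt, hnth, ← hx]
        omega
      refine ⟨hlt, ?_⟩
      rw [hnth]
      have hq : (Nat.nth Nat.Prime (Nat.count Nat.Prime p + 1)).Prime := Nat.prime_nth_prime _
      have hpq : p < Nat.nth Nat.Prime (Nat.count Nat.Prime p + 1) := by
        have h1 : Nat.nth Nat.Prime (Nat.count Nat.Prime p) <
          Nat.nth Nat.Prime (Nat.count Nat.Prime p + 1) := hmono (Nat.lt_succ_self _)
        rwa [hnth] at h1
      have h2 := hgap _ hq hpq
      have h3 : (p : ℝ) + (w0 C X : ℝ) <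
          ((Nat.nth Nat.Prime (Nat.count Nat.Prime p + 1) : ℕ) : ℝ) := by exact_mod_cast h2
      have h4 : C * Real.log (4 * X) ≤ (w0 C X : ℝ) := Nat.le_ceil _
      have h5 : Real.log p ≤ Real.log (4 * X) := by
        apply Real.log_le_log
        · exact_mod_cast hpp.pos
        · exact_mod_cast hp2
      have h6 : C * Real.log p ≤ C * Real.log (4 * X) :=
        mul_le_mul_of_nonneg_left h5 (by linarith)
      linarith
    · intro p hp q hq hpq
      have hp' : p ∈ GP X (w0 C X) := hp
      have hq' : q ∈ GP X (w0 C X) := hq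
      unfold GP at hp' hq'
      rw [mem_filter] at hp' hq'
      have h1 : Nat.nth Nat.Prime (Nat.count Nat.Prime p) = p := Nat.nth_count hp'.2.1
      have h2 : Nat.nth Nat.Prime (Nat.count Nat.Prime q) = q := Nat.nth_count hq'.2.1
      simp only at hpq
      rw [← h1, ← h2, hpq]
  have hinj' : ((GP X (w0 C X)).card : ℝ) ≤ (((Finset.range N).filter fun n =>
      C * Real.log ((Nat.nth Nat.Prime n : ℕ) : ℝ) <
        ((Nat.nth Nat.Prime (n + 1) : ℕ) : ℝ) - ((Nat.nth Nat.Prime n : ℕ) : ℝ)).card : ℝ) := by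
    exact_mod_cast hinj
  refine le_trans ?_ (hGP.trans hinj')
  -- `N ≤ c' x / log x`
  have hN1 : (N : ℝ) ≤ c' * x / Real.log x := by
    have h1 := hup x (by omega)
    have h2 : N ≤ ((range (x + 1)).filter Nat.Prime).card := by
      have h3 : Nat.count Nat.Prime x = N := Nat.count_nth_of_infinite Nat.infinite_setOfPred_prime N
      have h4 : Nat.count Nat.Prime x ≤ Nat.count Nat.Prime (x + 1) :=
        Nat.count_monotone _ (Nat.le_succ x)
      rw [h3, Nat.count_eq_card_filter_range] at h4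
      exact h4
    have h3 : (N : ℝ) ≤ (((range (x + 1)).filter Nat.Prime).card : ℝ) := by exact_mod_cast h2
    exact h3.trans h1
  have hx1 : (1 : ℝ) < x := by
    have : 1 < x := by omega
    exact_mod_cast this
  have hX1 : (1 : ℝ) < X := by
    have : 1 < X := by omega
    exact_mod_cast this
  have hlx : 0 < Real.log x := Real.log_pos hx1
  have hlX : 0 < Real.log X := Real.log_pos hX1
  have hxX : (x : ℝ) ≤ 6 * X := by
    have : x ≤ 6 * X := by omega
    exact_mod_cast this
  have hlog : Real.log X ≤ Real.log x := by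
    apply Real.log_le_log (by linarith)
    have : X ≤ x := by omega
    exact_mod_cast this
  calc c₂ / (6 * c') * (N : ℝ) ≤ c₂ / (6 * c') * (c' * x / Real.log x) := by gcongr
    _ = c₂ * (x / 6) / Real.log x := by field_simp
    _ ≤ c₂ * X / Real.log x := by
        gcongr
        linarith
    _ ≤ c₂ * X / Real.log X := by
        gcongr

end Crest.Agent.PG
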