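import Crest.Agent.PG_F1
import Crest.Agent.PG_F2
import Crest.Agent.PG_F3
import Crest.Agent.PG_F4
import Crest.Agent.PG_F6
import Crest.Agent.PG_F7
import Crest.Agent.PG_F8
/-!
# PG-Main (S0021): assembly
-/
set_option autoImplicit false
namespace Crest.Agent.PG
open Finset Filter

/-- the choice of `L` and `k = log₂ L + 10` -/
theorem choose_L (A ε : ℝ) (hA : 0 ≤ A) (hε : 0 < ε) : ∃ L k : ℕ, 1 ≤ L ∧ 10 ≤ k ∧
    (L : ℝ) * (Real.exp 17 / 16 ^ k) ≤ 1 / 10 ∧ A * (k : ℝ) ^ 2 / L ≤ ε := by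
  have h1 : Tendsto (fun n : ℕ => ((n : ℝ)) ^ 2 / (2 : ℝ) ^ n) atTop (nhds 0) :=
    tendsto_pow_const_div_const_pow_of_one_lt 2 (by norm_num)
  have h2 : Tendsto (fun n : ℕ => (((n + 10 : ℕ) : ℝ)) ^ 2 / (2 : ℝ) ^ (n + 10)) atTop (nhds 0) :=
    h1.comp (tendsto_add_atTop_nat 10)
  have h3 : Tendsto (fun n : ℕ => A * 2 ^ 10 * ((((n + 10 : ℕ) : ℝ)) ^ 2 / (2 : ℝ) ^ (n + 10))) atTop (nhds 0) := by
    simpa using h2.const_mul (A * 2 ^ 10)
  obtain ⟨n, hn⟩ := (h3.eventually (gt_mem_nhds hε)).exists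
  refine ⟨2 ^ n, n + 10, Nat.one_le_two_pow, by omega, ?_, ?_⟩
  · have e1 : Real.exp 17 ≤ 3 ^ 17 := by
      have h := Real.exp_one_lt_three
      calc Real.exp 17 = (Real.exp 1) ^ 17 := by rw [← Real.exp_nat_mul]; norm_num
        _ ≤ 3 ^ 17 := pow_le_pow_left₀ (Real.exp_pos 1).le h.le 17
    have e2 : ((2 ^ n : ℕ) : ℝ) * (Real.exp 17 / 16 ^ (n + 10)) = Real.exp 17 / 16 ^ 10 * ((2 : ℝ) ^ n / 16 ^ n) := by
      push_cast; rw [pow_add]; field_simp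
    rw [e2]
    have e3 : (2 : ℝ) ^ n / 16 ^ n ≤ 1 := by
      rw [div_le_one (by positivity)]
      exact pow_le_pow_left₀ (by norm_num) (by norm_num) n
    have e4 : Real.exp 17 / 16 ^ 10 ≤ 1 / 10 := by
      rw [div_le_div_iff₀ (by positivity) (by norm_num)]
      have : (3 : ℝ) ^ 17 * 10 ≤ 1 * 16 ^ 10 := by norm_num
      linarith
    calc Real.exp 17 / 16 ^ 10 * ((2 : ℝ) ^ n / 16 ^ n) ≤ Real.exp 17 / 16 ^ 10 * 1 :=
          mul_le_mul_of_nonneg_left e3 (by positivity)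
      _ ≤ 1 / 10 := by rw [mul_one]; exact e4
  · have e5 : A * ((n + 10 : ℕ) : ℝ) ^ 2 / ((2 ^ n : ℕ) : ℝ) =
        A * 2 ^ 10 * ((((n + 10 : ℕ) : ℝ)) ^ 2 / (2 : ℝ) ^ (n + 10)) := by
      push_cast; rw [pow_add]; field_simp
    rw [e5]; exact hn.le

theorem gp_lower (C : ℝ) (hC : 1 ≤ C) : ∃ c₂ : ℝ, 0 < c₂ ∧
    ∀ᶠ X : ℕ in atTop, c₂ * X / Real.log X ≤ ((GP X (w0 C X)).card : ℝ) := by
  obtain ⟨c₁, hc₁, hc₁', hpos⟩ := pos_prop
  obtain ⟨CM, hCM, hgood⟩ := mkSD_good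
  set T : ℝ := 128 / c₁ with hT
  have hT1 : 1 ≤ T := by
    rw [hT, le_div_iff₀ hc₁]; linarith
  obtain ⟨L, k, hL, hk, hLk, hsmall⟩ := choose_L (342 * CM ^ 2 * (1280 * T * C) ^ 2) (c₁ / 32)
    (by positivity) (by positivity)
  obtain ⟨M₂, hM₂, hsq⟩ := F_sq C T L k hC hT1 hL hk hLk
  set Dd : ℝ := 1 + 640 * C * (2 * M₂ + 4) / c₁ with hDd
  have hDd1 : 1 ≤ Dd := by
    have : 0 ≤ 640 * C * (2 * M₂ + 4) / c₁ := by positivity
    linarith
  have hg := hgood C Dd L k hC hDd1 hL hk hLk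
  refine ⟨c₁ ^ 2 / (2048 * M₂ * Dd), by positivity, ?_⟩
  filter_upwards [hg, hpos Dd hDd1, hsq Dd hDd1, F_bad C Dd T L k hC hDd1 hT1 hL hk,
    F_corr C Dd T L k hC hDd1 hT1 hL hk hLk (c₁ / 256) (by positivity),
    F_primes C Dd T CM L k hC hDd1 hT1 hL hk hg (c₁ / 32) (by positivity),
    w0_HH_small C Dd hC hDd1] with X hgX h1 h3 h5 h4 h2 hw
  obtain ⟨hw1, hw2, hw3, hw4, hw5, hw6, hw7, hw8⟩ := hw
  have hH0 : (0 : ℝ) < HH Dd X := by exact_mod_cast hw5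
  have key := endgame X (HH Dd X) (w0 C X) c₁ M₂ (c₁ / 256) hw5 hw1 hc₁ hM₂ (by positivity)
    ((mkSD C Dd L k X).wt (w0 C X) (Kmx C T X)) ((mkSD C Dd L k X).gm (w0 C X) (Kmx C T X))
    (fun n => SD.wt_nonneg _ CM hgX _ _ n) ?_ h1 ?_ (fun Y _ _ => h3 Y) (fun Y _ _ d hd hd' => h4 Y d hd hd') ?_ ?_
  · refine le_trans ?_ key
    have hlog : 0 < Real.log X := by linarith
    rw [div_mul_eq_mul_div, div_div, div_le_div_iff₀ (by positivity) (by positivity)]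
    have : 1024 * M₂ * (HH Dd X : ℝ) ≤ 2048 * M₂ * Dd * Real.log X := by nlinarith
    have h0 : 0 ≤ c₁ ^ 2 * (X : ℝ) := by positivity
    nlinarith
  · intro n
    unfold SD.gm SD.gmS
    split_ifs
    · right; rfl
    · left; rfl
  · intro Y hY _
    refine le_trans (h2 Y hY) ?_
    have : 342 * CM ^ 2 * (1280 * T * C * k) ^ 2 / L = 342 * CM ^ 2 * (1280 * T * C) ^ 2 * (k : ℝ) ^ 2 / L := by ring
    rw [this]
    have hX0 : (0 : ℝ) ≤ X := by positivity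
    nlinarith
  · intro Y hY _
    refine le_trans (h5 Y) ?_
    have : 4 / T = c₁ / 32 := by rw [hT]; field_simp; norm_num
    rw [this]
  · have hlog : 0 < Real.log X := by linarith
    have e1 : (2 * (w0 C X : ℝ) + 1) * (2 * M₂ + 4) / HH Dd X ≤ c₁ / 128 := by
      rw [div_le_iff₀ hH0]
      have a1 : (2 * (w0 C X : ℝ) + 1) ≤ 5 * C * Real.log X := by nlinarith
      have a2 : c₁ / 128 * (Dd * Real.log X) ≤ c₁ / 128 * (HH Dd X : ℝ) :=
        mul_le_mul_of_nonneg_left hw4 (by positivity)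
      have a3 : 5 * C * Real.log X * (2 * M₂ + 4) ≤ c₁ / 128 * (Dd * Real.log X) := by
        rw [hDd]
        have : c₁ / 128 * ((1 + 640 * C * (2 * M₂ + 4) / c₁) * Real.log X)
          = c₁ / 128 * Real.log X + 5 * C * Real.log X * (2 * M₂ + 4) := by
          field_simp; ring
        rw [this]
        have : 0 ≤ c₁ / 128 * Real.log X := by positivity
        linarith
      calc (2 * (w0 C X : ℝ) + 1) * (2 * M₂ + 4) ≤ 5 * C * Real.log X * (2 * M₂ + 4) :=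
            mul_le_mul_of_nonneg_right a1 (by positivity)
        _ ≤ _ := a3.trans a2
    have : 16 * ((2 * (w0 C X : ℝ) + 1) * (2 * M₂ + 4) / HH Dd X + c₁ / 256) ≤ c₁ / 4 := by
      nlinarith
    exact this

theorem main (C : ℝ) (hC : 0 < C) :
    ∃ c : ℝ, 0 < c ∧ ∃ N₀ : ℕ, ∀ N : ℕ, N₀ ≤ N →
    c * (N : ℝ) ≤ (((Finset.range N).filter fun n =>
      C * Real.log ((Nat.nth Nat.Prime n : ℕ) : ℝ) <
        ((Nat.nth Nat.Prime (n + 1) : ℕ) : ℝ) - ((Nat.nth Nat.Prime n : ℕ) : ℝ)).card : ℝ) := by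
  obtain ⟨c₂, hc₂, h⟩ := gp_lower (max C 1) (le_max_right _ _)
  obtain ⟨c, hc, N₀, hN⟩ := from_GP (max C 1) (le_max_right _ _) c₂ hc₂ h
  refine ⟨c, hc, N₀, fun N hNN => (hN N hNN).trans ?_⟩
  norm_cast
  apply Finset.card_le_card
  intro n hn
  simp only [Finset.mem_filter] at hn ⊢
  refine ⟨hn.1, lt_of_le_of_lt ?_ hn.2⟩
  have : 0 ≤ Real.log ((Nat.nth Nat.Prime n : ℕ) : ℝ) :=
    Real.log_natCast_nonneg _
  exact mul_le_mul_of_nonneg_right (le_max_left _ _) this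

end Crest.Agent.PG
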