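import Crest.Agent.PG_Defs
/-!
# PG-N1 (S0021): Mertens' first theorem

`∑_{p ≤ n} log p / p = log n + O(1)`.  Standard: `log n! = ∑_{d ≤ n} Λ(d) ⌊n/d⌋ = n ∑ Λ(d)/d + O(ψ(n))`,
`ψ(n) = O(n)` (`Chebyshev.psi_le_const_mul_self`), `log n! = n log n + O(n)`, and the prime powers contribute `O(1)`
(`∑_p log p/(p(p-1))` converges).  `prs 0 n` is the set of primes `≤ n`.
-/
set_option autoImplicit false
namespace Crest.Agent.PG
open Finset

theorem mem_prs (u v : ℝ) (hv : 0 ≤ v) (p : ℕ) : p ∈ prs u v ↔ p.Prime ∧ u < p ∧ (p : ℝ) ≤ v := by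
  unfold prs
  rw [mem_filter, mem_range, Nat.lt_succ_iff, Nat.le_floor_iff hv]
  tauto

theorem N1_mem (n p : ℕ) : p ∈ prs 0 n ↔ p.Prime ∧ p ≤ n := by
  rw [mem_prs 0 n (Nat.cast_nonneg _)]
  constructor
  · rintro ⟨h1, -, h3⟩
    exact ⟨h1, by exact_mod_cast h3⟩
  · rintro ⟨h1, h2⟩
    exact ⟨h1, by exact_mod_cast h1.pos, by exact_mod_cast h2⟩

/-- Factorisation of `log n!`. -/
theorem N1_log_factorial (n : ℕ) :
    Real.log (n.factorial : ℕ) = ∑ p ∈ prs 0 n, ((n.factorial).factorization p : ℝ) * Real.log p := by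
  rw [Real.log_nat_eq_sum_factorization]
  apply Finsupp.sum_of_support_subset
  · intro p hp
    rw [Nat.support_factorization, Nat.mem_primeFactors] at hp
    rw [N1_mem]
    exact ⟨hp.1, (hp.1.dvd_factorial).mp hp.2.1⟩
  · intro p _
    simp

theorem N1_fact_lower {n p : ℕ} (hp : p.Prime) (hpn : p ≤ n) :
    (n : ℝ) / p - 1 ≤ ((n.factorial).factorization p : ℝ) := by
  have h1 : (n.factorial).factorization p = ∑ i ∈ Ico 1 (Nat.log p n + 1), n / p ^ i :=
    Nat.factorization_factorial hp (Nat.lt_succ_self _)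
  have hlog : 1 ≤ Nat.log p n := Nat.log_pos hp.one_lt hpn
  have h2 : n / p ≤ (n.factorial).factorization p := by
    rw [h1]
    calc n / p = n / p ^ 1 := by rw [pow_one]
      _ ≤ _ := Finset.single_le_sum (f := fun i => n / p ^ i) (fun i _ => Nat.zero_le _)
          (mem_Ico.mpr ⟨le_refl 1, by omega⟩)
  have h3 : (n : ℝ) / p < ((n / p : ℕ) : ℝ) + 1 := by
    have := Nat.lt_floor_add_one ((n : ℝ) / p)
    rwa [Nat.floor_div_eq_div] at this
  have h4 : ((n / p : ℕ) : ℝ) ≤ ((n.factorial).factorization p : ℝ) := by exact_mod_cast h2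
  linarith

theorem N1_fact_upper {n p : ℕ} (hp : p.Prime) :
    ((n.factorial).factorization p : ℝ) ≤ (n : ℝ) / p + 2 * n / (p : ℝ) ^ 2 := by
  have h1 := Nat.sub_one_mul_factorization_factorial (n := n) hp
  have h2 : (p - 1) * (n.factorial).factorization p ≤ n := by omega
  have hp2 : (2 : ℝ) ≤ p := by exact_mod_cast hp.two_le
  have h3 : ((p : ℝ) - 1) * ((n.factorial).factorization p : ℝ) ≤ n := by
    have : (((p - 1) * (n.factorial).factorization p : ℕ) : ℝ) ≤ (n : ℝ) := by exact_mod_cast h2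
    rw [Nat.cast_mul, Nat.cast_sub hp.one_le, Nat.cast_one] at this
    exact this
  have hp0 : (0 : ℝ) < (p : ℝ) - 1 := by linarith
  have h4 : ((n.factorial).factorization p : ℝ) ≤ n / ((p : ℝ) - 1) := by
    rw [le_div_iff₀ hp0]; linarith
  refine h4.trans ?_
  rw [div_add_div _ _ (by positivity) (by positivity), div_le_div_iff₀ hp0 (by positivity)]
  have hn : (0 : ℝ) ≤ n := Nat.cast_nonneg _
  have hpp : (0 : ℝ) < p := by linarith
  -- n * (p * p^2) ≤ (n * p^2 + p * (2n)) * (p - 1)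
  have : 0 ≤ (n : ℝ) * p * (p - 2) := by
    have : (0 : ℝ) ≤ (p : ℝ) - 2 := by linarith
    positivity
  nlinarith

theorem N1_log_le (p : ℕ) (hp : 1 ≤ p) : Real.log p / (p : ℝ) ^ 2 ≤ 2 * (p : ℝ) ^ (-(3 / 2) : ℝ) := by
  have hp0 : (0 : ℝ) < p := by exact_mod_cast hp
  have h1 := Real.log_le_rpow_div (x := p) (ε := 1 / 2) hp0.le (by norm_num)
  have h2 : Real.log p ≤ 2 * (p : ℝ) ^ (1 / 2 : ℝ) := by
    calc Real.log p ≤ (p : ℝ) ^ (1 / 2 : ℝ) / (1 / 2) := h1
      _ = _ := by ring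
  rw [div_le_iff₀ (by positivity)]
  calc Real.log p ≤ 2 * (p : ℝ) ^ (1 / 2 : ℝ) := h2
    _ = 2 * (p : ℝ) ^ (-(3 / 2) : ℝ) * (p : ℝ) ^ 2 := by
        rw [mul_assoc, ← Real.rpow_natCast (p : ℝ) 2, ← Real.rpow_add hp0]
        norm_num

theorem mertens1 : ∃ Cm : ℝ, 0 < Cm ∧ ∀ n : ℕ, 1 ≤ n →
    |∑ p ∈ prs 0 n, Real.log p / p - Real.log n| ≤ Cm := by
  have hsum : Summable (fun m : ℕ => (m : ℝ) ^ (-(3 / 2) : ℝ)) :=
    Real.summable_nat_rpow.mpr (by norm_num)
  set S : ℝ := ∑' m : ℕ, (m : ℝ) ^ (-(3 / 2) : ℝ) with hS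
  have hS0 : 0 ≤ S := tsum_nonneg fun m => Real.rpow_nonneg (Nat.cast_nonneg _) _
  have hlog4 : 0 < Real.log 4 := Real.log_pos (by norm_num)
  refine ⟨Real.log 4 + 1 + 4 * S, by positivity, ?_⟩
  intro n hn
  have hn0 : (0 : ℝ) < n := by exact_mod_cast hn
  set A : ℝ := ∑ p ∈ prs 0 n, Real.log p / p with hA
  have hlognn : ∀ p ∈ prs 0 n, 0 ≤ Real.log p := by
    intro p hp
    exact Real.log_natCast_nonneg p
  -- theta
  have htheta : ∑ p ∈ prs 0 n, Real.log p ≤ Real.log 4 * n := by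
    have h1 := Chebyshev.theta_le_log4_mul_x (x := n) hn0.le
    have h2 : Chebyshev.theta n = ∑ p ∈ prs 0 n, Real.log p := by
      unfold Chebyshev.theta
      apply Finset.sum_congr _ (fun _ _ => rfl)
      ext p
      rw [N1_mem, mem_filter, mem_Ioc, Nat.floor_natCast]
      constructor
      · rintro ⟨⟨_, h⟩, hp⟩; exact ⟨hp, h⟩
      · rintro ⟨hp, h⟩; exact ⟨⟨hp.pos, h⟩, hp⟩
    rw [← h2]; exact h1
  -- log factorial
  have hfup : Real.log (n.factorial : ℕ) ≤ n * Real.log n := by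
    have h1 : ((n.factorial : ℕ) : ℝ) ≤ (n : ℝ) ^ n := by exact_mod_cast Nat.factorial_le_pow n
    calc Real.log (n.factorial : ℕ) ≤ Real.log ((n : ℝ) ^ n) :=
          Real.log_le_log (by exact_mod_cast Nat.factorial_pos n) h1
      _ = n * Real.log n := by rw [Real.log_pow]
  have hflo : n * Real.log n - n ≤ Real.log (n.factorial : ℕ) := by
    have h1 := Stirling.le_log_factorial_stirling (n := n) (by omega)
    have h2 : 0 ≤ Real.log n := Real.log_natCast_nonneg n
    have h3 : 0 ≤ Real.log (2 * Real.pi) := Real.log_nonneg (by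
      have := Real.pi_gt_three
      linarith)
    linarith
  have hfac := N1_log_factorial n
  -- lower bound on log n!
  have hl : n * A - Real.log 4 * n ≤ Real.log (n.factorial : ℕ) := by
    rw [hfac]
    calc n * A - Real.log 4 * n ≤ n * A - ∑ p ∈ prs 0 n, Real.log p := by linarith
      _ = ∑ p ∈ prs 0 n, ((n : ℝ) / p - 1) * Real.log p := by
          rw [hA, Finset.mul_sum, ← Finset.sum_sub_distrib]
          apply Finset.sum_congr rfl
          intro p hp
          ring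
      _ ≤ _ := by
          apply Finset.sum_le_sum
          intro p hp
          have hp' := (N1_mem n p).mp hp
          exact mul_le_mul_of_nonneg_right (N1_fact_lower hp'.1 hp'.2) (hlognn p hp)
  have hu : Real.log (n.factorial : ℕ) ≤ n * A + n * (4 * S) := by
    rw [hfac]
    calc ∑ p ∈ prs 0 n, ((n.factorial).factorization p : ℝ) * Real.log p
        ≤ ∑ p ∈ prs 0 n, ((n : ℝ) / p + 2 * n / (p : ℝ) ^ 2) * Real.log p := by
          apply Finset.sum_le_sum
          intro p hp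
          have hp' := (N1_mem n p).mp hp
          exact mul_le_mul_of_nonneg_right (N1_fact_upper hp'.1) (hlognn p hp)
      _ = n * A + 2 * n * ∑ p ∈ prs 0 n, Real.log p / (p : ℝ) ^ 2 := by
          rw [hA, Finset.mul_sum, Finset.mul_sum, ← Finset.sum_add_distrib]
          apply Finset.sum_congr rfl
          intro p hp
          ring
      _ ≤ n * A + 2 * n * ∑ p ∈ prs 0 n, 2 * (p : ℝ) ^ (-(3 / 2) : ℝ) := by
          have : ∑ p ∈ prs 0 n, Real.log p / (p : ℝ) ^ 2 ≤
              ∑ p ∈ prs 0 n, 2 * (p : ℝ) ^ (-(3 / 2) : ℝ) := by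
            apply Finset.sum_le_sum
            intro p hp
            exact N1_log_le p ((N1_mem n p).mp hp).1.one_le
          have h2n : (0 : ℝ) ≤ 2 * n := by positivity
          linarith [mul_le_mul_of_nonneg_left this h2n]
      _ ≤ n * A + n * (4 * S) := by
          rw [← Finset.mul_sum]
          have h1 : ∑ p ∈ prs 0 n, (p : ℝ) ^ (-(3 / 2) : ℝ) ≤ S :=
            hsum.sum_le_tsum _ (fun m _ => Real.rpow_nonneg (Nat.cast_nonneg _) _)
          have h2n : (0 : ℝ) ≤ 4 * n := by positivity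
          linarith [mul_le_mul_of_nonneg_left h1 h2n]
  rw [abs_le]
  constructor
  · -- lower bound
    have h1 : n * (Real.log n - 1 - 4 * S) ≤ n * A := by linarith
    have h2 := le_of_mul_le_mul_left h1 hn0
    linarith
  · have h1 : n * A ≤ n * (Real.log n + Real.log 4) := by linarith
    have h2 := le_of_mul_le_mul_left h1 hn0
    linarith

end Crest.Agent.PG
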