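import Crest.Agent.PG_Defs
/-!
# PG-N5 (S0021): Chebyshev bounds

From Mathlib's `Mathlib/NumberTheory/Chebyshev.lean` (`Chebyshev.theta_ge`, `theta_le_log4_mul_x`, `pi_le_log4_mul_div`, ...).
* `cheb_lower`: `π(3X) - π(X) ≥ (θ(3X) - θ(X))/log(3X)`, `θ(3X) ≥ 3X log 2 - o(X)`, `θ(X) ≤ X log 4 = 2 X log 2`.
* `cheb_upper`.
-/
set_option autoImplicit false
namespace Crest.Agent.PG
open Finset

private theorem n5_theta_nat (n : ℕ) :
    Chebyshev.theta n = ∑ p ∈ (Ioc 0 n).filter Nat.Prime, Real.log p := by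
  unfold Chebyshev.theta
  rw [Nat.floor_natCast]

private theorem n5_theta_diff (X : ℕ) :
    Chebyshev.theta ((3 * X : ℕ) : ℝ) - Chebyshev.theta X ≤
      (((Ioc X (3 * X)).filter Nat.Prime).card : ℝ) * Real.log ((3 * X : ℕ) : ℝ) := by
  rw [n5_theta_nat, n5_theta_nat]
  have h1 : (Ioc 0 (3 * X)).filter Nat.Prime =
      (Ioc 0 X).filter Nat.Prime ∪ (Ioc X (3 * X)).filter Nat.Prime := by
    rw [← filter_union]
    congr 1
    ext p; simp only [mem_union, mem_Ioc]; omega
  have hd : Disjoint ((Ioc 0 X).filter Nat.Prime) ((Ioc X (3 * X)).filter Nat.Prime) := by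
    rw [disjoint_left]
    intro p hp hq
    simp only [mem_filter, mem_Ioc] at hp hq
    omega
  rw [h1, sum_union hd, add_sub_cancel_left]
  have : ∀ p ∈ (Ioc X (3 * X)).filter Nat.Prime, Real.log p ≤ Real.log ((3 * X : ℕ) : ℝ) := by
    intro p hp
    simp only [mem_filter, mem_Ioc] at hp
    apply Real.log_le_log (by exact_mod_cast hp.2.pos)
    exact_mod_cast hp.1.2
  have := Finset.sum_le_card_nsmul _ _ _ this
  rwa [nsmul_eq_mul] at this

theorem cheb_lower : ∃ c : ℝ, 0 < c ∧ ∃ X₀ : ℕ, ∀ X : ℕ, X₀ ≤ X →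
    c * X / Real.log X ≤ (((Ioc X (3 * X)).filter Nat.Prime).card : ℝ) := by
  have hl2 : (0 : ℝ) < Real.log 2 := Real.log_pos (by norm_num)
  -- log y ≤ 4 y^{1/4}-type bound through eventual smallness
  have hlim : ∀ᶠ X : ℕ in Filter.atTop,
      Real.log (3 * X + 1) + 2 * √(3 * X) * Real.log (3 * X) ≤ (Real.log 2 / 2) * X := by
    have h1 : Filter.Tendsto (fun x : ℝ => Real.log x / x ^ (1/4 : ℝ)) Filter.atTop (nhds 0) := by
      have := (isLittleO_log_rpow_atTop (r := 1/4) (by norm_num)).tendsto_div_nhds_zero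
      exact this
    have h2 := h1.eventually (gt_mem_nhds (show (0:ℝ) < 1 by norm_num))
    obtain ⟨A, hA⟩ := Filter.eventually_atTop.1 h2
    -- log x ≤ x^{1/4} for x ≥ A'
    have h3 : ∀ x : ℝ, max A 1 ≤ x → Real.log x ≤ x ^ (1/4 : ℝ) := by
      intro x hx
      have hx1 : 1 ≤ x := le_trans (le_max_right _ _) hx
      have h := hA x (le_trans (le_max_left _ _) hx)
      rw [div_lt_one (Real.rpow_pos_of_pos (by linarith) _)] at h
      exact h.le
    have h4 : Filter.Tendsto (fun x : ℝ => x ^ (1/4 : ℝ)) Filter.atTop Filter.atTop :=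
      tendsto_rpow_atTop (by norm_num)
    have h5 : ∀ᶠ x : ℝ in Filter.atTop, 16 * 6 / Real.log 2 ≤ x ^ (1/4 : ℝ) :=
      h4.eventually_ge_atTop _
    have h6 : ∀ᶠ x : ℝ in Filter.atTop, max A 1 ≤ x := Filter.eventually_ge_atTop _
    have h7 : ∀ᶠ X : ℕ in Filter.atTop, (16 * 6 / Real.log 2 ≤ (X : ℝ) ^ (1/4 : ℝ) ∧
        max A 1 ≤ (X : ℝ)) := tendsto_natCast_atTop_atTop.eventually (h5.and h6)
    filter_upwards [h7] with X hX
    obtain ⟨hX1, hX2⟩ := hX
    have hX3 : (1 : ℝ) ≤ X := le_trans (le_max_right _ _) hX2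
    set y : ℝ := (X : ℝ) ^ (1/4 : ℝ) with hy
    have hy0 : 0 < y := Real.rpow_pos_of_pos (by linarith) _
    have hy4 : y ^ 4 = X := by
      rw [hy, ← Real.rpow_natCast, ← Real.rpow_mul (by linarith)]
      norm_num
    have hy1 : 1 ≤ y := Real.one_le_rpow hX3 (by norm_num)
    have g1 : Real.log (3 * X) ≤ 2 * y := by
      have a := h3 (3 * X) (by linarith)
      refine a.trans ?_
      rw [Real.mul_rpow (by norm_num) (by linarith)]
      apply mul_le_mul_of_nonneg_right _ hy0.le
      calc (3 : ℝ) ^ (1/4 : ℝ) ≤ (3 : ℝ) ^ (1/2 : ℝ) :=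
            Real.rpow_le_rpow_of_exponent_le (by norm_num) (by norm_num)
        _ ≤ 2 := by
            rw [← Real.sqrt_eq_rpow]
            rw [Real.sqrt_le_left (by norm_num)]; norm_num
    have g2 : Real.log (3 * X + 1) ≤ 2 * y := by
      have a := h3 (3 * X + 1) (by linarith)
      refine a.trans ?_
      calc (3 * (X:ℝ) + 1) ^ (1/4 : ℝ) ≤ (4 * X) ^ (1/4 : ℝ) :=
            Real.rpow_le_rpow (by linarith) (by linarith) (by norm_num)
        _ = (4 : ℝ) ^ (1/4 : ℝ) * y := by rw [Real.mul_rpow (by norm_num) (by linarith)]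
        _ ≤ 2 * y := by
            apply mul_le_mul_of_nonneg_right _ hy0.le
            calc (4 : ℝ) ^ (1/4 : ℝ) ≤ (4 : ℝ) ^ (1/2 : ℝ) :=
                  Real.rpow_le_rpow_of_exponent_le (by norm_num) (by norm_num)
              _ ≤ 2 := by
                  rw [← Real.sqrt_eq_rpow]
                  rw [Real.sqrt_le_left (by norm_num)]; norm_num
    have g3 : √(3 * X) ≤ 2 * y ^ 2 := by
      rw [Real.sqrt_le_left (by positivity)]
      nlinarith [hy4]
    have g4 : 0 ≤ Real.log (3 * X) := Real.log_nonneg (by linarith)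
    have g5 : 2 * √(3 * X) * Real.log (3 * X) ≤ 2 * (2 * y ^ 2) * (2 * y) := by
      apply mul_le_mul _ g1 g4 (by positivity)
      linarith
    have g6 : 16 * 6 ≤ y * Real.log 2 := by
      rw [div_le_iff₀ hl2] at hX1; exact hX1
    have g7 : y ^ 3 * (16 * 6) ≤ y ^ 3 * (y * Real.log 2) :=
      mul_le_mul_of_nonneg_left g6 (by positivity)
    have g8 : y ≤ y ^ 3 := by nlinarith [mul_nonneg hy0.le (sub_nonneg.2 hy1), sq_nonneg (y - 1)]
    have g9 : Real.log 2 / 2 * (X : ℝ) = (y ^ 3 * (y * Real.log 2)) / 2 := by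
      rw [← hy4]; ring
    have g10 : (0:ℝ) < y ^ 3 := by positivity
    rw [g9]
    linarith
  obtain ⟨X₀, hX₀⟩ := Filter.eventually_atTop.1 hlim
  refine ⟨Real.log 2 / 4, by positivity, max X₀ 3, fun X hX => ?_⟩
  have hX1 : X₀ ≤ X := le_trans (le_max_left _ _) hX
  have hX3 : 3 ≤ X := le_trans (le_max_right _ _) hX
  have hX3R : (3 : ℝ) ≤ X := by exact_mod_cast hX3
  have h1 := hX₀ X hX1
  have h2 := Chebyshev.theta_ge (3 * X)
  have h3 := Chebyshev.theta_le_log4_mul_x (x := X) (by linarith)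
  have h4 := n5_theta_diff X
  have hlog4 : Real.log 4 = 2 * Real.log 2 := by
    rw [show (4:ℝ) = 2 ^ 2 by norm_num, Real.log_pow]; norm_num
  have hlX : 0 < Real.log X := Real.log_pos (by linarith)
  have h5 : Real.log ((3 * X : ℕ) : ℝ) ≤ 2 * Real.log X := by
    push_cast
    rw [Real.log_mul (by norm_num) (by linarith)]
    have : Real.log 3 ≤ Real.log X := Real.log_le_log (by norm_num) hX3R
    linarith
  push_cast at h2 h4
  have h6 : Real.log 2 / 2 * X ≤
      (((Ioc X (3 * X)).filter Nat.Prime).card : ℝ) * Real.log (3 * X) := by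
    rw [hlog4] at h3
    nlinarith
  push_cast at h5
  have h7 : Real.log 2 / 2 * X ≤
      (((Ioc X (3 * X)).filter Nat.Prime).card : ℝ) * (2 * Real.log X) :=
    h6.trans (mul_le_mul_of_nonneg_left h5 (Nat.cast_nonneg _))
  rw [div_le_iff₀ hlX]
  linarith

theorem cheb_upper : ∃ c : ℝ, 0 < c ∧ ∀ n : ℕ, 2 ≤ n →
    (((range (n + 1)).filter Nat.Prime).card : ℝ) ≤ c * n / Real.log n := by
  have hl4 : (0 : ℝ) < Real.log 4 := Real.log_pos (by norm_num)
  refine ⟨2 + 2 * Real.log 4, by positivity, fun n hn => ?_⟩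
  have hn2 : (2 : ℝ) ≤ n := by exact_mod_cast hn
  have hln : 0 < Real.log n := Real.log_pos (by linarith)
  have hth := Chebyshev.theta_le_log4_mul_x (x := n) (by linarith)
  rw [n5_theta_nat] at hth
  set s := Nat.sqrt n with hs
  -- primes up to sqrt n
  have hsub : (range (n + 1)).filter Nat.Prime ⊆
      (Ioc 0 s) ∪ (Ioc s n).filter Nat.Prime := by
    intro p hp
    simp only [mem_filter, mem_range, mem_union, mem_Ioc] at hp ⊢
    have := hp.2.pos
    by_cases h : p ≤ s
    · left; omega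
    · right; exact ⟨⟨by omega, by omega⟩, hp.2⟩
  have hcard : (((range (n + 1)).filter Nat.Prime).card : ℝ) ≤
      s + (((Ioc s n).filter Nat.Prime).card : ℝ) := by
    have h1 := (card_le_card hsub).trans (card_union_le _ _)
    rw [Nat.card_Ioc] at h1
    have h1' : ((range (n + 1)).filter Nat.Prime).card ≤ s + ((Ioc s n).filter Nat.Prime).card := by
      simpa using h1
    exact_mod_cast h1'
  have hlow : (((Ioc s n).filter Nat.Prime).card : ℝ) * (Real.log n / 2) ≤
      ∑ p ∈ (Ioc 0 n).filter Nat.Prime, Real.log p := by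
    have h1 : ∀ p ∈ (Ioc s n).filter Nat.Prime, Real.log n / 2 ≤ Real.log p := by
      intro p hp
      simp only [mem_filter, mem_Ioc] at hp
      have hp2 : n < p * p := Nat.sqrt_lt.1 hp.1.1
      have hp0 : (0 : ℝ) < p := by exact_mod_cast hp.2.pos
      have : Real.log n ≤ Real.log ((p : ℝ) * p) := by
        apply Real.log_le_log (by linarith)
        exact_mod_cast hp2.le
      rw [Real.log_mul hp0.ne' hp0.ne'] at this
      linarith
    have h2 := Finset.card_nsmul_le_sum _ _ _ h1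
    rw [nsmul_eq_mul] at h2
    refine h2.trans ?_
    apply Finset.sum_le_sum_of_subset_of_nonneg
    · intro p hp
      simp only [mem_filter, mem_Ioc] at hp ⊢
      exact ⟨⟨by omega, by omega⟩, hp.2⟩
    · intro p hp _
      simp only [mem_filter, mem_Ioc] at hp
      apply Real.log_nonneg
      exact_mod_cast hp.2.one_lt.le
  have hs2 : (s : ℝ) * Real.log n ≤ 2 * n := by
    have hsn : (s : ℝ) ≤ √n := by
      apply Real.le_sqrt_of_sq_le
      have : s * s ≤ n := Nat.sqrt_le n
      rw [sq]; exact_mod_cast this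
    have hlog : Real.log n ≤ 2 * √n := by
      have h1 : Real.log (√n) = Real.log n / 2 := Real.log_sqrt (by linarith)
      have h2 : Real.log (√n) ≤ √n - 1 := Real.log_le_sub_one_of_pos (Real.sqrt_pos.2 (by linarith))
      linarith
    calc (s : ℝ) * Real.log n ≤ √n * (2 * √n) := by
          apply mul_le_mul hsn hlog hln.le (by positivity)
      _ = 2 * n := by
          have := Real.mul_self_sqrt (show (0:ℝ) ≤ n by linarith)
          linear_combination 2 * this
  rw [le_div_iff₀ hln]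
  nlinarith [mul_le_mul_of_nonneg_right hcard hln.le]

end Crest.Agent.PG
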