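import Crest.Agent.PG_Defs
/-!
# PG-T01 (S0021): facts about the Bonferroni function `bon k w`

`bon k w = 1` if `w = 0`, and `C(w-1, 2k)` otherwise.  So `bon k w = 0` for `1 ≤ w ≤ 2k` and
`0 ≤ bon k w ≤ 2^w`.  For `bon_pow_le`: if `w ≥ 2k+1` then
`(bon k w)^a ≤ 2^(a w) ≤ 4^(-(2k+1)) * 4^w * 2^(a w)`.
`bon_eq_alt` : the alternating partial sum of binomials (e.g. `Int.alternating_sum_range_choose...`, or
induction on `2k` with Pascal's rule: `∑_{j≤m} (-1)^j C(w,j) = (-1)^m C(w-1,m)` for `w ≥ 1`).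
`bon_card` rewrites it as a sum over subsets: `∑_{T ⊆ S, |T| ≤ 2k} (-1)^|T|`.
-/
set_option autoImplicit false
namespace Crest.Agent.PG
open Finset

theorem bon_zero (k : ℕ) : bon k 0 = 1 := by simp [bon]

theorem bon_nonneg (k w : ℕ) : 0 ≤ bon k w := by
  unfold bon
  split_ifs <;> positivity

theorem bon_le_two_pow (k w : ℕ) : bon k w ≤ 2 ^ w := by
  unfold bon
  split_ifs with h
  · subst h; simp
  · have h1 : (w - 1).choose (2 * k) ≤ 2 ^ (w - 1) := Nat.choose_le_two_pow _ _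
    have h2 : 2 ^ (w - 1) ≤ 2 ^ w := Nat.pow_le_pow_right (by norm_num) (by omega)
    exact_mod_cast h1.trans h2

theorem T01_bon_small (k w : ℕ) (h0 : w ≠ 0) (h : w ≤ 2 * k) : bon k w = 0 := by
  unfold bon
  rw [if_neg h0, Nat.choose_eq_zero_of_lt (by omega)]
  simp

theorem bon_pow_le (k w a : ℕ) (ha : 1 ≤ a) :
    (bon k w) ^ a ≤ (if w = 0 then 1 else 0) + (1 / 4 : ℝ) ^ (2 * k + 1) * ((2 : ℝ) ^ (a + 2)) ^ w := by
  by_cases h0 : w = 0
  · subst h0
    rw [bon_zero, if_pos rfl, one_pow]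
    have : (0 : ℝ) ≤ (1 / 4 : ℝ) ^ (2 * k + 1) * ((2 : ℝ) ^ (a + 2)) ^ 0 := by positivity
    linarith
  · rw [if_neg h0, zero_add]
    rcases Nat.lt_or_ge (2 * k) w with h | h
    · have h1 : (bon k w) ^ a ≤ ((2 : ℝ) ^ w) ^ a :=
        pow_le_pow_left₀ (bon_nonneg k w) (bon_le_two_pow k w) a
      have h2 : ((2 : ℝ) ^ (a + 2)) ^ w = ((2 : ℝ) ^ w) ^ a * 4 ^ w := by
        rw [pow_add, mul_pow, ← pow_mul 2 a w, ← pow_mul 2 w a, mul_comm a w]
        norm_num
      have h3 : (4 : ℝ) ^ (2 * k + 1) ≤ 4 ^ w := pow_le_pow_right₀ (by norm_num) (by omega)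
      have h4 : (1 : ℝ) ≤ (1 / 4 : ℝ) ^ (2 * k + 1) * 4 ^ w := by
        rw [one_div, inv_pow, inv_mul_eq_div, le_div_iff₀ (by positivity), one_mul]
        exact h3
      rw [h2]
      calc (bon k w) ^ a ≤ ((2 : ℝ) ^ w) ^ a := h1
        _ = ((2 : ℝ) ^ w) ^ a * 1 := (mul_one _).symm
        _ ≤ ((2 : ℝ) ^ w) ^ a * ((1 / 4 : ℝ) ^ (2 * k + 1) * 4 ^ w) :=
            mul_le_mul_of_nonneg_left h4 (by positivity)
        _ = _ := by ring
    · rw [T01_bon_small k w h0 h, zero_pow (by omega)]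
      positivity

theorem T01_alt (w : ℕ) : ∀ m : ℕ,
    ∑ j ∈ range (m + 1), (-1 : ℝ) ^ j * ((w + 1).choose j : ℝ) = (-1) ^ m * (w.choose m : ℝ) := by
  intro m
  induction m with
  | zero => simp
  | succ m ih =>
    rw [sum_range_succ, ih, Nat.choose_succ_succ]
    push_cast
    ring

theorem bon_eq_alt (k w : ℕ) :
    bon k w = ∑ j ∈ range (2 * k + 1), (-1 : ℝ) ^ j * (w.choose j : ℝ) := by
  cases w with
  | zero =>
    rw [bon_zero, sum_range_succ']
    simp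
  | succ w =>
    rw [T01_alt w (2 * k)]
    unfold bon
    rw [if_neg (by omega), pow_mul]
    simp

theorem bon_card (k : ℕ) (S : Finset ℕ) :
    bon k S.card = ∑ T ∈ S.powerset, if T.card ≤ 2 * k then (-1 : ℝ) ^ T.card else 0 := by
  rw [bon_eq_alt, sum_powerset_apply_card (fun m => if m ≤ 2 * k then (-1 : ℝ) ^ m else 0)]
  set N := S.card + 2 * k + 1 with hN
  have h1 : ∑ j ∈ range (2 * k + 1), (-1 : ℝ) ^ j * (S.card.choose j : ℝ) =
      ∑ j ∈ range N, if j ≤ 2 * k then (-1 : ℝ) ^ j * (S.card.choose j : ℝ) else 0 := by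
    rw [← sum_filter]
    apply sum_congr _ fun _ _ => rfl
    ext j
    simp only [mem_range, mem_filter]
    omega
  have h2 : ∑ m ∈ range (S.card + 1), S.card.choose m • (if m ≤ 2 * k then (-1 : ℝ) ^ m else 0) =
      ∑ m ∈ range N, S.card.choose m • (if m ≤ 2 * k then (-1 : ℝ) ^ m else 0) := by
    apply sum_subset
    · intro j
      simp only [mem_range]
      omega
    · intro j _ hj
      simp only [mem_range] at hj
      rw [Nat.choose_eq_zero_of_lt (by omega), zero_smul]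
  rw [h1, h2]
  refine sum_congr rfl fun j _ => ?_
  split_ifs
  · rw [nsmul_eq_mul]; ring
  · simp

end Crest.Agent.PG
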