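import Crest.Agent.PG_Defs
/-!
# PG-T02 (S0021): basic facts about averages over a period

`EM_coprime2` is the class splitting: for coprime `Q, M` the pairs `(n % Q, n % M)` are equidistributed for
`n < Q*M` (chinese remainder); `EM_coprime` and `EM_prod` follow from it.
-/
set_option autoImplicit false
namespace Crest.Agent.PG
open Finset

theorem EM_add (M : ℕ) (f g : ℕ → ℝ) : EM M (fun n => f n + g n) = EM M f + EM M g := by
  unfold EM; rw [sum_add_distrib, add_div]

theorem EM_sub (M : ℕ) (f g : ℕ → ℝ) : EM M (fun n => f n - g n) = EM M f - EM M g := by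
  unfold EM; rw [sum_sub_distrib, sub_div]

theorem EM_const_mul (M : ℕ) (c : ℝ) (f : ℕ → ℝ) : EM M (fun n => c * f n) = c * EM M f := by
  unfold EM; rw [← mul_sum, mul_div_assoc]

theorem EM_sum {κ : Type*} (M : ℕ) (s : Finset κ) (f : κ → ℕ → ℝ) :
    EM M (fun n => ∑ i ∈ s, f i n) = ∑ i ∈ s, EM M (f i) := by
  unfold EM; rw [sum_comm, sum_div]

theorem EM_const (M : ℕ) (hM : 0 < M) (c : ℝ) : EM M (fun _ => c) = c := by
  have : (M : ℝ) ≠ 0 := by exact_mod_cast hM.ne'
  unfold EM; rw [sum_const, card_range, nsmul_eq_mul]; field_simp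

theorem EM_mono (M : ℕ) (f g : ℕ → ℝ) (h : ∀ n, f n ≤ g n) : EM M f ≤ EM M g := by
  unfold EM
  exact div_le_div_of_nonneg_right (sum_le_sum fun n _ => h n) (Nat.cast_nonneg M)

theorem EM_nonneg (M : ℕ) (f : ℕ → ℝ) (h : ∀ n, 0 ≤ f n) : 0 ≤ EM M f := by
  unfold EM
  exact div_nonneg (sum_nonneg fun n _ => h n) (Nat.cast_nonneg M)

theorem EM_abs_le (M : ℕ) (f : ℕ → ℝ) : |EM M f| ≤ EM M (fun n => |f n|) := by
  unfold EM
  rw [abs_div, Nat.abs_cast]
  exact div_le_div_of_nonneg_right (abs_sum_le_sum_abs _ _) (Nat.cast_nonneg M)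

/-- averages over a period are shift invariant -/
theorem EM_shift (M : ℕ) (f : ℕ → ℝ) (hf : ∀ n, f (n + M) = f n) (h : ℕ) :
    EM M (fun n => f (n + h)) = EM M f := by
  unfold EM
  congr 1
  induction h with
  | zero => simp
  | succ h ih =>
    rw [← ih]
    have h1 := Finset.sum_range_succ (fun n => f (n + h)) M
    have h2 := Finset.sum_range_succ' (fun n => f (n + h)) M
    have h3 : f (M + h) = f (0 + h) := by
      rw [Nat.add_comm M h, hf, Nat.zero_add]
    have h4 : ∑ n ∈ range M, f (n + 1 + h) = ∑ n ∈ range M, f (n + (h + 1)) := by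
      apply sum_congr rfl
      intro n _
      congr 1
      omega
    rw [h4] at h2
    rw [h1, h3] at h2
    linarith

private theorem T02_per_mul (M : ℕ) (f : ℕ → ℝ) (hf : ∀ n, f (n + M) = f n) (R n : ℕ) :
    f (R * M + n) = f n := by
  induction R with
  | zero => simp
  | succ R ih =>
    rw [← ih, ← hf (R * M + n)]
    congr 1
    ring

private theorem T02_mod (M : ℕ) (f : ℕ → ℝ) (hf : ∀ n, f (n + M) = f n) (n : ℕ) :
    f (n % M) = f n := by
  rw [← T02_per_mul M f hf (n / M) (n % M)]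
  congr 1
  rw [Nat.mul_comm]
  exact Nat.div_add_mod n M

/-- average over a multiple of the period -/
theorem EM_mul_left (M R : ℕ) (hM : 0 < M) (hR : 0 < R) (f : ℕ → ℝ) (hf : ∀ n, f (n + M) = f n) :
    EM (R * M) f = EM M f := by
  have key : ∀ R : ℕ, ∑ n ∈ range (R * M), f n = R * ∑ n ∈ range M, f n := by
    intro R
    induction R with
    | zero => simp
    | succ R ih =>
      rw [Nat.succ_mul, Finset.sum_range_add, ih]
      have : ∑ x ∈ range M, f (R * M + x) = ∑ x ∈ range M, f x :=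
        sum_congr rfl fun x _ => T02_per_mul M f hf R x
      rw [this]
      push_cast
      ring
  unfold EM
  rw [key R]
  have h1 : (R : ℝ) ≠ 0 := by exact_mod_cast hR.ne'
  have h2 : (M : ℝ) ≠ 0 := by exact_mod_cast hM.ne'
  push_cast
  field_simp

/-- class splitting -/
theorem EM_coprime2 (Q M : ℕ) (hQ : 0 < Q) (hM : 0 < M) (hc : Nat.Coprime Q M) (Φ : ℕ → ℕ → ℝ)
    (hΦ : ∀ b < Q, ∀ n, Φ b (n + M) = Φ b n) :
    EM (Q * M) (fun n => Φ (n % Q) n) = (∑ b ∈ range Q, EM M (Φ b)) / Q := by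
  have key : ∑ n ∈ range (Q * M), Φ (n % Q) n = ∑ x ∈ range Q ×ˢ range M, Φ x.1 x.2 := by
    refine Finset.sum_bij' (fun n _ => (n % Q, n % M))
      (fun x _ => (Nat.chineseRemainder hc x.1 x.2 : ℕ)) ?_ ?_ ?_ ?_ ?_
    · intro n _
      simp only [mem_product, mem_range]
      exact ⟨Nat.mod_lt _ hQ, Nat.mod_lt _ hM⟩
    · intro x _
      simp only [mem_range]
      exact Nat.chineseRemainder_lt_mul hc _ _ hQ.ne' hM.ne'
    · intro n hn
      simp only [mem_range] at hn
      have h1 := (Nat.chineseRemainder hc (n % Q) (n % M)).2.1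
      have h2 := (Nat.chineseRemainder hc (n % Q) (n % M)).2.2
      have h3 := Nat.chineseRemainder_lt_mul hc (n % Q) (n % M) hQ.ne' hM.ne'
      have h4 : (Nat.chineseRemainder hc (n % Q) (n % M) : ℕ) ≡ n [MOD Q * M] := by
        rw [← Nat.modEq_and_modEq_iff_modEq_mul hc]
        exact ⟨h1.trans (Nat.mod_modEq _ _), h2.trans (Nat.mod_modEq _ _)⟩
      exact Nat.ModEq.eq_of_lt_of_lt h4 h3 hn
    · intro x hx
      simp only [mem_product, mem_range] at hx
      have h1 := (Nat.chineseRemainder hc x.1 x.2).2.1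
      have h2 := (Nat.chineseRemainder hc x.1 x.2).2.2
      apply Prod.ext
      · show (Nat.chineseRemainder hc x.1 x.2 : ℕ) % Q = x.1
        rw [h1, Nat.mod_eq_of_lt hx.1]
      · show (Nat.chineseRemainder hc x.1 x.2 : ℕ) % M = x.2
        rw [h2, Nat.mod_eq_of_lt hx.2]
    · intro n _
      show Φ (n % Q) n = Φ (n % Q) (n % M)
      rw [T02_mod M (Φ (n % Q)) (hΦ _ (Nat.mod_lt _ hQ))]
  unfold EM
  rw [key, Finset.sum_product, ← Finset.sum_div, div_div]
  push_cast
  rw [mul_comm (M : ℝ)]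

theorem EM_coprime (M N : ℕ) (hM : 0 < M) (hN : 0 < N) (hc : Nat.Coprime M N) (f g : ℕ → ℝ)
    (hf : ∀ n, f (n + M) = f n) (hg : ∀ n, g (n + N) = g n) :
    EM (M * N) (fun n => f n * g n) = EM M f * EM N g := by
  have h1 : (fun n => f n * g n) = (fun n => (fun b m => f b * g m) (n % M) n) := by
    funext n
    show f n * g n = f (n % M) * g n
    rw [T02_mod M f hf]
  rw [h1, EM_coprime2 M N hM hN hc (fun b m => f b * g m)]
  · have h2 : ∀ b, EM N ((fun b m => f b * g m) b) = f b * EM N g := fun b =>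
      EM_const_mul N (f b) g
    rw [Finset.sum_congr rfl fun b _ => h2 b, ← Finset.sum_mul]
    unfold EM
    ring
  · intro b _ n
    show f b * g (n + N) = f b * g n
    rw [hg]

private theorem T02_per_dvd (M N : ℕ) (h : M ∣ N) (f : ℕ → ℝ) (hf : ∀ n, f (n + M) = f n) (n : ℕ) :
    f (n + N) = f n := by
  obtain ⟨R, rfl⟩ := h
  rw [Nat.add_comm, Nat.mul_comm]
  exact T02_per_mul M f hf R n

theorem EM_prod {κ : Type*} [DecidableEq κ] (s : Finset κ) (M : κ → ℕ) (hM : ∀ i ∈ s, 0 < M i)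
    (hc : ∀ i ∈ s, ∀ j ∈ s, i ≠ j → Nat.Coprime (M i) (M j)) (f : κ → ℕ → ℝ)
    (hf : ∀ i ∈ s, ∀ n, f i (n + M i) = f i n) :
    EM (∏ i ∈ s, M i) (fun n => ∏ i ∈ s, f i n) = ∏ i ∈ s, EM (M i) (f i) := by
  induction s using Finset.induction_on with
  | empty =>
    simp only [prod_empty]
    exact EM_const 1 one_pos 1
  | insert a s ha ih =>
    rw [prod_insert ha, prod_insert ha]
    have h1 : (fun n => ∏ i ∈ insert a s, f i n) = (fun n => f a n * (fun n => ∏ i ∈ s, f i n) n) := by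
      funext n
      exact prod_insert ha
    rw [h1, EM_coprime (M a) (∏ i ∈ s, M i) (hM a (mem_insert_self a s))
      (prod_pos fun i hi => hM i (mem_insert_of_mem hi))
      (Nat.Coprime.prod_right fun i hi => hc a (mem_insert_self a s) i (mem_insert_of_mem hi)
        (fun h => ha (h ▸ hi)))
      (f a) (fun n => ∏ i ∈ s, f i n) (hf a (mem_insert_self a s))
      (fun n => prod_congr rfl fun i hi =>
        T02_per_dvd (M i) _ (dvd_prod_of_mem M hi) (f i) (hf i (mem_insert_of_mem hi)) n)]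
    rw [ih (fun i hi => hM i (mem_insert_of_mem hi))
      (fun i hi j hj => hc i (mem_insert_of_mem hi) j (mem_insert_of_mem hj))
      (fun i hi => hf i (mem_insert_of_mem hi))]

theorem hit_periodic (P : Finset ℕ) (M m : ℕ) (hM : (∏ p ∈ P, p) ∣ M) : hit P (m + M) = hit P m := by
  unfold hit
  apply filter_congr
  intro p hp
  exact (Nat.dvd_add_left ((dvd_prod_of_mem (fun p => p) hp).trans hM))

theorem hit_inter (P B : Finset ℕ) (m : ℕ) (hB : B ⊆ P) : hit P m ∩ B = hit B m := by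
  unfold hit
  ext p
  simp only [mem_inter, mem_filter]
  constructor
  · rintro ⟨⟨_, h⟩, h2⟩
    exact ⟨h2, h⟩
  · rintro ⟨h, h2⟩
    exact ⟨⟨hB h, h2⟩, h⟩

theorem hit_subset (P : Finset ℕ) (m : ℕ) : hit P m ⊆ P := filter_subset _ _

end Crest.Agent.PG
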