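import Crest.Agent.PG_T02
import Crest.Agent.PG_Defs
/-!
# PG-T03 (S0021): the product expectation `E1`

`E1 P g` is the expectation of `g S`, where `S ⊆ P` contains each `p` independently with probability `1/p`.
Everything follows from `E1_insert` by induction on `P` (e.g. `Finset.sum_powerset_insert`).
For `EM_single`: `EM (∏ P)` of a function of `hit P (n+h)` is `E1 P` of it (CRT; induction on `P` with
`EM_coprime2` of PG_T02 with the roles `Q = p`, or directly from `PG_T04.EM_step` with one position if you prefer to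
import it; or count the residues).
-/
set_option autoImplicit false
namespace Crest.Agent.PG
open Finset

theorem E1_empty (g : Finset ℕ → ℝ) : E1 ∅ g = g ∅ := by
  simp [E1]

theorem E1_insert (P : Finset ℕ) (p : ℕ) (hp : p ∉ P) (g : Finset ℕ → ℝ) :
    E1 (insert p P) g = (1 - 1 / (p : ℝ)) * E1 P g + (1 / (p : ℝ)) * E1 P (fun S => g (insert p S)) := by
  unfold E1
  rw [sum_powerset_insert hp, mul_sum, mul_sum]
  congr 1
  · apply sum_congr rfl
    intro S hS
    have hS' := mem_powerset.mp hS
    have hpS : p ∉ S := fun h => hp (hS' h)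
    rw [insert_sdiff_of_notMem P hpS, prod_insert (fun h => hp (mem_sdiff.mp h).1)]
    ring
  · apply sum_congr rfl
    intro S hS
    have hS' := mem_powerset.mp hS
    have hpS : p ∉ S := fun h => hp (hS' h)
    have h1 : insert p P \ insert p S = P \ S := by
      ext x
      simp only [mem_sdiff, mem_insert, not_or]
      constructor
      · rintro ⟨h1 | h1, h2, h3⟩
        · exact absurd h1 h2
        · exact ⟨h1, h3⟩
      · rintro ⟨h1, h2⟩
        exact ⟨Or.inr h1, fun h => hp (h ▸ h1), h2⟩
    rw [h1, prod_insert hpS]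
    ring

theorem E1_const (P : Finset ℕ) (c : ℝ) : E1 P (fun _ => c) = c := by
  induction P using Finset.induction_on with
  | empty => rw [E1_empty]
  | insert p P hp ih => rw [E1_insert P p hp, ih]; ring

theorem E1_add (P : Finset ℕ) (f g : Finset ℕ → ℝ) :
    E1 P (fun S => f S + g S) = E1 P f + E1 P g := by
  unfold E1
  rw [← sum_add_distrib]
  exact sum_congr rfl (fun S _ => by ring)

theorem E1_sub (P : Finset ℕ) (f g : Finset ℕ → ℝ) :
    E1 P (fun S => f S - g S) = E1 P f - E1 P g := by
  unfold E1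
  rw [← sum_sub_distrib]
  exact sum_congr rfl (fun S _ => by ring)

theorem E1_const_mul (P : Finset ℕ) (c : ℝ) (f : Finset ℕ → ℝ) :
    E1 P (fun S => c * f S) = c * E1 P f := by
  unfold E1
  rw [mul_sum]
  exact sum_congr rfl (fun S _ => by ring)

theorem E1_congr (P : Finset ℕ) (f g : Finset ℕ → ℝ) (h : ∀ S ⊆ P, f S = g S) : E1 P f = E1 P g := by
  unfold E1
  exact sum_congr rfl (fun S hS => by rw [h S (mem_powerset.mp hS)])

theorem E1_mono (P : Finset ℕ) (hP : ∀ p ∈ P, 1 ≤ p) (f g : Finset ℕ → ℝ) (h : ∀ S ⊆ P, f S ≤ g S) :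
    E1 P f ≤ E1 P g := by
  unfold E1
  apply sum_le_sum
  intro S hS
  have hS' := mem_powerset.mp hS
  apply mul_le_mul_of_nonneg_left (h S hS')
  apply mul_nonneg
  · exact prod_nonneg (fun p _ => by positivity)
  · apply prod_nonneg
    intro p hp
    have h1 : 1 ≤ p := hP p (mem_sdiff.mp hp).1
    have h2 : (1 : ℝ) ≤ p := by exact_mod_cast h1
    have h3 : 1 / (p : ℝ) ≤ 1 := by rw [div_le_one (by linarith)]; exact h2
    linarith

theorem E1_nonneg (P : Finset ℕ) (hP : ∀ p ∈ P, 1 ≤ p) (f : Finset ℕ → ℝ) (h : ∀ S ⊆ P, 0 ≤ f S) :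
    0 ≤ E1 P f := by
  have h1 := E1_mono P hP (fun _ => 0) f h
  rw [E1_const] at h1
  exact h1

theorem E1_abs_le (P : Finset ℕ) (hP : ∀ p ∈ P, 1 ≤ p) (f : Finset ℕ → ℝ) :
    |E1 P f| ≤ E1 P (fun S => |f S|) := by
  rw [abs_le]
  constructor
  · have h1 := E1_mono P hP (fun S => (-1) * |f S|) f (fun S _ => by
      have := neg_abs_le (f S); linarith)
    rw [E1_const_mul] at h1
    linarith
  · exact E1_mono P hP f _ (fun S _ => le_abs_self _)

theorem E1_union (P1 P2 : Finset ℕ) (h : Disjoint P1 P2) (f g : Finset ℕ → ℝ) :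
    E1 (P1 ∪ P2) (fun S => f (S ∩ P1) * g (S ∩ P2)) = E1 P1 f * E1 P2 g := by
  induction P1 using Finset.induction_on generalizing f with
  | empty =>
    rw [E1_empty, empty_union, ← E1_const_mul]
    apply E1_congr
    intro S hS
    rw [inter_empty, inter_eq_left.mpr hS]
  | insert p P1 hp ih =>
    rw [disjoint_insert_left] at h
    obtain ⟨hp2, hd⟩ := h
    have hpU : p ∉ P1 ∪ P2 := by
      rw [mem_union]; tauto
    rw [insert_union, E1_insert _ p hpU, E1_insert P1 p hp]
    have h1 : E1 (P1 ∪ P2) (fun S => f (S ∩ insert p P1) * g (S ∩ P2)) =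
        E1 (P1 ∪ P2) (fun S => f (S ∩ P1) * g (S ∩ P2)) := by
      apply E1_congr
      intro S hS
      have hpS : p ∉ S := fun h => hpU (hS h)
      rw [inter_insert_of_notMem hpS]
    have h2 : E1 (P1 ∪ P2) (fun S => f (insert p S ∩ insert p P1) * g (insert p S ∩ P2)) =
        E1 (P1 ∪ P2) (fun S => (fun T => f (insert p T)) (S ∩ P1) * g (S ∩ P2)) := by
      apply E1_congr
      intro S hS
      rw [insert_inter_of_notMem hp2, ← insert_inter_distrib]
    have h3 := ih hd (fun T => f (insert p T))
    rw [h1, h2, ih hd f, h3]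
    ring

theorem E1_biUnion {κ : Type*} [DecidableEq κ] (s : Finset κ) (B : κ → Finset ℕ)
    (h : ∀ i ∈ s, ∀ j ∈ s, i ≠ j → Disjoint (B i) (B j)) (f : κ → Finset ℕ → ℝ) :
    E1 (s.biUnion B) (fun S => ∏ i ∈ s, f i (S ∩ B i)) = ∏ i ∈ s, E1 (B i) (f i) := by
  induction s using Finset.induction_on with
  | empty => simp [E1_empty]
  | insert i s hi ih =>
    have hd : Disjoint (B i) (s.biUnion B) := by
      rw [disjoint_biUnion_right]
      intro j hj
      exact h i (mem_insert_self i s) j (mem_insert_of_mem hj) (fun hij => hi (hij ▸ hj))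
    rw [biUnion_insert, prod_insert hi]
    have h1 : E1 (B i ∪ s.biUnion B) (fun S => ∏ j ∈ insert i s, f j (S ∩ B j)) =
        E1 (B i ∪ s.biUnion B) (fun S => f i (S ∩ B i) *
          (fun T => ∏ j ∈ s, f j (T ∩ B j)) (S ∩ s.biUnion B)) := by
      apply E1_congr
      intro S _
      rw [prod_insert hi]
      congr 1
      apply prod_congr rfl
      intro j hj
      rw [inter_assoc, inter_eq_right.mpr (subset_biUnion_of_mem B hj)]
    have h2 := E1_union (B i) (s.biUnion B) hd (f i) (fun T => ∏ j ∈ s, f j (T ∩ B j))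
    rw [h1, h2, ih (fun j hj k hk => h j (mem_insert_of_mem hj) k (mem_insert_of_mem hk))]

theorem E1_pow (P : Finset ℕ) (ρ : ℝ) :
    E1 P (fun S => ρ ^ S.card) = ∏ p ∈ P, (1 + (ρ - 1) / (p : ℝ)) := by
  induction P using Finset.induction_on with
  | empty => simp [E1_empty]
  | insert p P hp ih =>
    rw [E1_insert P p hp, prod_insert hp]
    have h1 : E1 P (fun S => ρ ^ (insert p S).card) = ρ * E1 P (fun S => ρ ^ S.card) := by
      rw [← E1_const_mul]
      apply E1_congr
      intro S hS
      rw [card_insert_of_notMem (fun h => hp (hS h)), pow_succ]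
      ring
    rw [h1, ih]
    ring

theorem E1_pow_le (P : Finset ℕ) (ρ : ℝ) (hρ : 1 ≤ ρ) :
    E1 P (fun S => ρ ^ S.card) ≤ Real.exp ((ρ - 1) * ∑ p ∈ P, 1 / (p : ℝ)) := by
  rw [E1_pow, mul_sum, Real.exp_sum]
  apply prod_le_prod
  · intro p _
    have : 0 ≤ (ρ - 1) / (p : ℝ) := div_nonneg (by linarith) (by positivity)
    linarith
  · intro p _
    have := Real.add_one_le_exp ((ρ - 1) * (1 / (p : ℝ)))
    calc 1 + (ρ - 1) / (p : ℝ) = (ρ - 1) * (1 / (p : ℝ)) + 1 := by ring
      _ ≤ _ := this

theorem E1_ind_empty (P : Finset ℕ) :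
    E1 P (fun S => if S.card = 0 then 1 else 0) = ∏ p ∈ P, (1 - 1 / (p : ℝ)) := by
  have h1 := E1_pow P 0
  have h2 : E1 P (fun S => (0 : ℝ) ^ S.card) = E1 P (fun S => if S.card = 0 then 1 else 0) := by
    apply E1_congr
    intro S _
    by_cases h : S.card = 0
    · simp [h]
    · rw [if_neg h, zero_pow h]
  rw [← h2, h1]
  apply prod_congr rfl
  intro p _
  ring

private theorem T03_dvd_iff (p h b : ℕ) (hp : 0 < p) (hb : b < p) :
    p ∣ b + h ↔ b = (p - h % p) % p := by
  have hh : h % p < p := Nat.mod_lt h hp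
  have h1 : p ∣ b + h ↔ p ∣ b + h % p := by
    constructor
    · intro hd
      have h2 : b + h = b + h % p + p * (h / p) := by
        have := Nat.mod_add_div h p; omega
      rw [h2] at hd
      exact (Nat.dvd_add_iff_left (Dvd.intro _ rfl)).mpr hd
    · intro hd
      have h2 : b + h = b + h % p + p * (h / p) := by
        have := Nat.mod_add_div h p; omega
      rw [h2]
      exact dvd_add hd (Dvd.intro _ rfl)
  rw [h1]
  constructor
  · rintro ⟨c, hc⟩
    have hc2 : c < 2 := by
      by_contra hcon
      have : p * 2 ≤ p * c := Nat.mul_le_mul_left p (by omega)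
      omega
    interval_cases c
    · have hb0 : b = 0 := by omega
      have hh0 : h % p = 0 := by omega
      rw [hb0, hh0]
      simp
    · by_cases h0 : h % p = 0
      · omega
      · rw [Nat.mod_eq_of_lt (by omega)]
        omega
  · intro hb'
    by_cases h0 : h % p = 0
    · rw [h0] at hb'
      simp at hb'
      rw [hb', h0]
      simp
    · rw [Nat.mod_eq_of_lt (by omega)] at hb'
      rw [hb']
      have : p - h % p + h % p = p := by omega
      rw [this]

theorem EM_single (P : Finset ℕ) (hP : ∀ p ∈ P, p.Prime) (g : Finset ℕ → ℝ) (h : ℕ) :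
    EM (∏ p ∈ P, p) (fun n => g (hit P (n + h))) = E1 P g := by
  induction P using Finset.induction_on generalizing g with
  | empty =>
    rw [E1_empty]
    simp [EM, hit]
  | insert p P hp ih =>
    have hpp : p.Prime := hP p (mem_insert_self p P)
    have hP' : ∀ q ∈ P, q.Prime := fun q hq => hP q (mem_insert_of_mem hq)
    have hM : 0 < ∏ q ∈ P, q := prod_pos (fun q hq => (hP' q hq).pos)
    have hcop : Nat.Coprime p (∏ q ∈ P, q) := by
      apply Nat.Coprime.prod_right
      intro q hq
      exact (Nat.coprime_primes hpp (hP' q hq)).mpr (fun hpq => hp (hpq ▸ hq))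
    rw [prod_insert hp, E1_insert P p hp]
    have key := EM_coprime2 p (∏ q ∈ P, q) hpp.pos hM hcop
      (fun b n => if p ∣ b + h then g (insert p (hit P (n + h))) else g (hit P (n + h)))
      (by
        intro b _ n
        have h1 : hit P (n + (∏ q ∈ P, q) + h) = hit P (n + h) := by
          rw [add_right_comm]
          exact hit_periodic P _ _ dvd_rfl
        simp only [h1])
    have h2 : (fun n => g (hit (insert p P) (n + h))) =
        (fun n => (fun b n => if p ∣ b + h then g (insert p (hit P (n + h))) else g (hit P (n + h)))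
          (n % p) n) := by
      funext n
      have h3 : p ∣ n % p + h ↔ p ∣ n + h := by
        have h4 : n + h = n % p + h + p * (n / p) := by
          have := Nat.mod_add_div n p; omega
        rw [h4]
        exact Nat.dvd_add_iff_left (Dvd.intro _ rfl)
      simp only [h3]
      by_cases h5 : p ∣ n + h
      · rw [if_pos h5, hit, filter_insert, if_pos h5, hit]
      · rw [if_neg h5, hit, filter_insert, if_neg h5, hit]
    rw [h2, key]
    set x := EM (∏ q ∈ P, q) (fun n => g (insert p (hit P (n + h)))) with hx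
    set y := EM (∏ q ∈ P, q) (fun n => g (hit P (n + h))) with hy
    have h6 : ∀ b ∈ range p, EM (∏ q ∈ P, q)
        (fun n => if p ∣ b + h then g (insert p (hit P (n + h))) else g (hit P (n + h))) =
        y + (if b = (p - h % p) % p then (x - y) else 0) := by
      intro b hb
      have h7 := T03_dvd_iff p h b hpp.pos (mem_range.mp hb)
      by_cases h8 : p ∣ b + h
      · rw [if_pos (h7.mp h8)]
        simp only [h8, if_true]
        rw [← hx]; ring
      · rw [if_neg (fun h9 => h8 (h7.mpr h9))]
        simp only [h8, if_false]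
        rw [← hy]; ring
    have hmem : (p - h % p) % p ∈ range p := mem_range.mpr (Nat.mod_lt _ hpp.pos)
    rw [sum_congr rfl h6, sum_add_distrib, sum_const, card_range, sum_ite_eq' (range p),
      if_pos hmem, hx, hy, ih hP' (fun S => g (insert p S)), ih hP' g]
    have hp0 : (p : ℝ) ≠ 0 := by exact_mod_cast hpp.ne_zero
    rw [nsmul_eq_mul]
    field_simp
    ring

end Crest.Agent.PG
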