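import Crest.Agent.PG_T03
/-!
# PG-T04 (S0021): exact one-prime step for several positions

`U` is a finite set of positions with distinct `pos i < p`.  Modulo `p` at most one `n + pos i` is divisible by `p`
(each with probability `1/p`), independently of the residue modulo `∏ P`.
Use `EM_coprime2` (class splitting with `Q = p`, `M = ∏ P`), `hit (insert p P) m = if p ∣ m then insert p (hit P m) else hit P m`,
and sum over `b < p`: for each `y ∈ U` exactly one `b < p` with `p ∣ b + pos y`, these `b` are distinct.
-/
set_option autoImplicit false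
namespace Crest.Agent.PG
open Finset

private theorem T04_hit_insert (P : Finset ℕ) (p m : ℕ) :
    hit (insert p P) m = if p ∣ m then insert p (hit P m) else hit P m := by
  unfold hit
  rw [Finset.filter_insert]

private theorem T04_dvd_mod (p n a : ℕ) : p ∣ n + a ↔ p ∣ n % p + a := by
  constructor
  · intro h
    have h1 : n + a = p * (n / p) + (n % p + a) := by
      have := Nat.div_add_mod n p
      omega
    rw [h1] at h
    exact (Nat.dvd_add_right (Dvd.intro _ rfl)).1 h
  · intro h
    have h1 : n + a = p * (n / p) + (n % p + a) := by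
      have := Nat.div_add_mod n p
      omega
    rw [h1]
    exact (Nat.dvd_add_right (Dvd.intro _ rfl)).2 h

private theorem T04_count (p a : ℕ) (hp : 0 < p) (ha : a < p) :
    ((range p).filter (fun b => p ∣ b + a)).card = 1 := by
  rw [Finset.card_eq_one]
  refine ⟨(p - a) % p, ?_⟩
  ext b
  simp only [mem_filter, mem_range, mem_singleton]
  constructor
  · rintro ⟨hb, c, hc⟩
    rcases Nat.eq_zero_or_pos a with h0 | h0
    · subst h0
      have : c = 0 := by
        by_contra hne
        have : 1 ≤ c := Nat.one_le_iff_ne_zero.mpr hne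
        nlinarith
      subst this
      simp at hc ⊢
      exact hc
    · have hc1 : c = 1 := by
        have h1 : c < 2 := by
          by_contra hge
          have : 2 ≤ c := by omega
          nlinarith
        have h2 : c ≠ 0 := by
          rintro rfl
          omega
        omega
      subst hc1
      have : (p - a) % p = p - a := Nat.mod_eq_of_lt (by omega)
      omega
  · rintro rfl
    refine ⟨Nat.mod_lt _ hp, ?_⟩
    rw [← T04_dvd_mod]
    have : p - a + a = p := by omega
    rw [this]

theorem EM_step {ι : Type} [DecidableEq ι] (P : Finset ℕ) (hP : ∀ q ∈ P, q.Prime) (p : ℕ) (hp : p.Prime)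
    (hpP : p ∉ P) (U : Finset ι) (pos : ι → ℕ) (hinj : Set.InjOn pos U) (hpos : ∀ i ∈ U, pos i < p)
    (f : ι → Finset ℕ → ℝ) :
    EM (∏ q ∈ insert p P, q) (fun n => ∏ i ∈ U, f i (hit (insert p P) (n + pos i))) =
      (1 - U.card / (p : ℝ)) * EM (∏ q ∈ P, q) (fun n => ∏ i ∈ U, f i (hit P (n + pos i))) +
      (1 / (p : ℝ)) * ∑ y ∈ U, EM (∏ q ∈ P, q) (fun n => ∏ i ∈ U,
        (if i = y then f i (insert p (hit P (n + pos i))) else f i (hit P (n + pos i)))) := by
  classical
  set M : ℕ := ∏ q ∈ P, q with hM
  have hM0 : 0 < M := Finset.prod_pos (fun q hq => (hP q hq).pos)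
  have hp0 : 0 < p := hp.pos
  have hpR : (p : ℝ) ≠ 0 := by exact_mod_cast hp0.ne'
  have hcop : Nat.Coprime p M := by
    rw [hM]
    apply Nat.Coprime.prod_right
    intro q hq
    rw [Nat.coprime_primes hp (hP q hq)]
    rintro rfl
    exact hpP hq
  rw [Finset.prod_insert hpP]
  set Φ : ℕ → ℕ → ℝ := fun b n => ∏ i ∈ U,
    f i (if p ∣ b + pos i then insert p (hit P (n + pos i)) else hit P (n + pos i)) with hΦ
  set Φ0 : ℕ → ℝ := fun n => ∏ i ∈ U, f i (hit P (n + pos i)) with hΦ0
  set Φy : ι → ℕ → ℝ := fun y n => ∏ i ∈ U,
        (if i = y then f i (insert p (hit P (n + pos i))) else f i (hit P (n + pos i))) with hΦy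
  have hF : (fun n => ∏ i ∈ U, f i (hit (insert p P) (n + pos i))) = fun n => Φ (n % p) n := by
    funext n
    simp only [hΦ]
    refine Finset.prod_congr rfl (fun i _ => ?_)
    rw [T04_hit_insert]
    by_cases h : p ∣ n + pos i
    · rw [if_pos h, if_pos ((T04_dvd_mod p n (pos i)).1 h)]
    · rw [if_neg h, if_neg (fun h' => h ((T04_dvd_mod p n (pos i)).2 h'))]
  rw [hF, EM_coprime2 p M hp0 hM0 hcop Φ]
  · change _ = (1 - U.card / (p : ℝ)) * EM M Φ0 + (1 / (p : ℝ)) * ∑ y ∈ U, EM M (Φy y)
    have key : ∀ b ∈ range p, EM M (Φ b) = EM M Φ0 +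
        ∑ y ∈ U, if p ∣ b + pos y then (EM M (Φy y) - EM M Φ0) else 0 := by
      intro b hb
      by_cases hex : ∃ y ∈ U, p ∣ b + pos y
      · obtain ⟨y, hy, hyd⟩ := hex
        have huniq : ∀ i ∈ U, p ∣ b + pos i → i = y := by
          intro i hi hid
          apply hinj hi hy
          have h1 := hpos i hi
          have h2 := hpos y hy
          rcases le_total (pos i) (pos y) with hle | hle
          · have h3 : p ∣ pos y - pos i := by
              have := Nat.dvd_sub hyd hid
              have h4 : b + pos y - (b + pos i) = pos y - pos i := by omega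
              rwa [h4] at this
            have := Nat.eq_zero_of_dvd_of_lt h3 (by omega)
            omega
          · have h3 : p ∣ pos i - pos y := by
              have := Nat.dvd_sub hid hyd
              have h4 : b + pos i - (b + pos y) = pos i - pos y := by omega
              rwa [h4] at this
            have := Nat.eq_zero_of_dvd_of_lt h3 (by omega)
            omega
        have hsum : ∑ y' ∈ U, (if p ∣ b + pos y' then (EM M (Φy y') - EM M Φ0) else 0) =
            EM M (Φy y) - EM M Φ0 := by
          rw [Finset.sum_eq_single y]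
          · rw [if_pos hyd]
          · intro i hi hne
            rw [if_neg (fun h => hne (huniq i hi h))]
          · intro h; exact absurd hy h
        rw [hsum]
        have : Φ b = Φy y := by
          funext n
          simp only [hΦ, hΦy]
          refine Finset.prod_congr rfl (fun i hi => ?_)
          by_cases h : i = y
          · subst h
            rw [if_pos hyd, if_pos rfl]
          · rw [if_neg (fun h' => h (huniq i hi h')), if_neg h]
        rw [this]; ring
      · push Not at hex
        have hsum : ∑ y' ∈ U, (if p ∣ b + pos y' then (EM M (Φy y') - EM M Φ0) else 0) = 0 := by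
          apply Finset.sum_eq_zero
          intro i hi
          rw [if_neg (hex i hi)]
        rw [hsum, add_zero]
        congr 1
        funext n
        simp only [hΦ, hΦ0]
        refine Finset.prod_congr rfl (fun i hi => ?_)
        rw [if_neg (hex i hi)]
    rw [Finset.sum_congr rfl key, Finset.sum_add_distrib, Finset.sum_comm]
    have hcount : ∀ y ∈ U, ∑ b ∈ range p, (if p ∣ b + pos y then (EM M (Φy y) - EM M Φ0) else 0) =
        EM M (Φy y) - EM M Φ0 := by
      intro y hy
      rw [← Finset.sum_filter, Finset.sum_const, T04_count p (pos y) hp0 (hpos y hy), one_smul]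
    rw [Finset.sum_congr rfl hcount, Finset.sum_sub_distrib, Finset.sum_const, Finset.sum_const,
      Finset.card_range, nsmul_eq_mul, nsmul_eq_mul]
    field_simp
    ring
  · intro b _ n
    simp only [hΦ]
    refine Finset.prod_congr rfl (fun i _ => ?_)
    have : n + M + pos i = (n + pos i) + M := by ring
    rw [this, hit_periodic P M (n + pos i) (by rw [hM])]

end Crest.Agent.PG
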