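import Crest.Agent.PG_Defs
/-!
# PG-T05 (S0021): a product inequality

`|∏ ((1-t) a_i + t b_i) - ((1 - m t) ∏ a_i + t ∑_y b_y ∏_{i≠y} a_i)| ≤ 8 m² t² ∏ N_i`, `m = |U|`, `2 m t ≤ 1`.
Proof: write `c_i = b_i - a_i`, `|c_i| ≤ 2 N_i`; `∏ (a_i + t c_i) = ∑_{T ⊆ U} t^|T| ∏_T c ∏_{U∖T} a`
(`Finset.prod_add`), the terms `|T| ≤ 1` are exactly the subtracted expression and the others are bounded by
`∏ N * ((1+2t)^m - 1 - 2mt) ≤ ∏ N * (exp x - 1 - x) ≤ ∏ N * x²`, `x = 2mt ≤ 1`.
(Or: induction on `U`.)
-/
set_option autoImplicit false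
namespace Crest.Agent.PG
open Finset

theorem prod_compare {ι : Type} [DecidableEq ι] (U : Finset ι) (t : ℝ) (ht : 0 ≤ t)
    (hmt : 2 * U.card * t ≤ 1) (a b N : ι → ℝ) (ha : ∀ i ∈ U, |a i| ≤ N i) (hb : ∀ i ∈ U, |b i| ≤ N i) :
    |∏ i ∈ U, ((1 - t) * a i + t * b i) -
      ((1 - U.card * t) * ∏ i ∈ U, a i + t * ∑ y ∈ U, ∏ i ∈ U, (if i = y then b i else a i))| ≤
      8 * (U.card : ℝ) ^ 2 * t ^ 2 * ∏ i ∈ U, N i := by
  induction U using Finset.induction_on with
  | empty => simp
  | insert x U hx ih =>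
    rw [Finset.card_insert_of_notMem hx] at hmt ⊢
    push_cast at hmt ⊢
    have hU0 : (0 : ℝ) ≤ U.card := by positivity
    have ih' := ih (by nlinarith) (fun i hi => ha i (Finset.mem_insert_of_mem hi))
      (fun i hi => hb i (Finset.mem_insert_of_mem hi))
    have hsum : ∑ y ∈ insert x U, ∏ i ∈ insert x U, (if i = y then b i else a i) =
        b x * ∏ i ∈ U, a i + a x * ∑ y ∈ U, ∏ i ∈ U, (if i = y then b i else a i) := by
      rw [Finset.sum_insert hx, Finset.prod_insert hx, if_pos rfl, Finset.mul_sum]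
      congr 1
      · congr 1
        apply Finset.prod_congr rfl
        intro i hi
        rw [if_neg]
        rintro rfl
        exact hx hi
      · apply Finset.sum_congr rfl
        intro y hy
        rw [Finset.prod_insert hx, if_neg]
        rintro rfl
        exact hx hy
    rw [hsum, Finset.prod_insert hx, Finset.prod_insert hx, Finset.prod_insert hx]
    set P := ∏ i ∈ U, ((1 - t) * a i + t * b i) with hP
    set Pa := ∏ i ∈ U, a i with hPa
    set S := ∑ y ∈ U, ∏ i ∈ U, (if i = y then b i else a i) with hS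
    set NU := ∏ i ∈ U, N i with hNU
    have hPaN : |Pa| ≤ NU := by
      rw [hPa, Finset.abs_prod]
      exact Finset.prod_le_prod (fun i _ => abs_nonneg _) (fun i hi => ha i (Finset.mem_insert_of_mem hi))
    have hSN : |S| ≤ U.card * NU := by
      calc |S| ≤ ∑ y ∈ U, |∏ i ∈ U, (if i = y then b i else a i)| := Finset.abs_sum_le_sum_abs _ _
        _ ≤ ∑ _y ∈ U, NU := by
            apply Finset.sum_le_sum
            intro y _
            rw [Finset.abs_prod]
            apply Finset.prod_le_prod (fun i _ => abs_nonneg _)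
            intro i hi
            split_ifs
            · exact hb i (Finset.mem_insert_of_mem hi)
            · exact ha i (Finset.mem_insert_of_mem hi)
        _ = U.card * NU := by rw [Finset.sum_const, nsmul_eq_mul]
    have hNU0 : 0 ≤ NU := le_trans (abs_nonneg _) hPaN
    have hax := ha x (Finset.mem_insert_self _ _)
    have hbx := hb x (Finset.mem_insert_self _ _)
    have hNx : 0 ≤ N x := le_trans (abs_nonneg _) hax
    have hRP : |((1 - U.card * t) * Pa + t * S) - Pa| ≤ 2 * U.card * t * NU := by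
      have e : ((1 - U.card * t) * Pa + t * S) - Pa = t * S + -(U.card * t * Pa) := by ring
      rw [e]
      calc |t * S + -(U.card * t * Pa)| ≤ |t * S| + |-(U.card * t * Pa)| := abs_add_le _ _
        _ = t * |S| + U.card * t * |Pa| := by
            rw [abs_neg, abs_mul, abs_mul, abs_of_nonneg ht, abs_of_nonneg (by positivity : (0:ℝ) ≤ U.card * t)]
        _ ≤ t * (U.card * NU) + U.card * t * NU := by gcongr
        _ = 2 * U.card * t * NU := by ring
    have hPPa : |P - Pa| ≤ (8 * (U.card : ℝ) ^ 2 * t ^ 2 + 2 * U.card * t) * NU := by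
      have e : P - Pa = (P - ((1 - U.card * t) * Pa + t * S)) + (((1 - U.card * t) * Pa + t * S) - Pa) := by
        ring
      rw [e]
      calc |(P - ((1 - U.card * t) * Pa + t * S)) + (((1 - U.card * t) * Pa + t * S) - Pa)|
          ≤ |P - ((1 - U.card * t) * Pa + t * S)| + |((1 - U.card * t) * Pa + t * S) - Pa| := abs_add_le _ _
        _ ≤ 8 * (U.card : ℝ) ^ 2 * t ^ 2 * NU + 2 * U.card * t * NU := add_le_add ih' hRP
        _ = _ := by ring
    have hkey : ((1 - t) * a x + t * b x) * P -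
        ((1 - ((U.card : ℝ) + 1) * t) * (a x * Pa) + t * (b x * Pa + a x * S)) =
        a x * (P - ((1 - U.card * t) * Pa + t * S)) + t * (b x - a x) * (P - Pa) := by ring
    rw [hkey]
    have hcx : |b x - a x| ≤ 2 * N x := by
      have h1 := abs_le.1 hax
      have h2 := abs_le.1 hbx
      rw [abs_le]
      constructor <;> linarith
    have hmt' : (U.card : ℝ) * t ≤ 1 / 2 := by nlinarith
    calc |a x * (P - ((1 - U.card * t) * Pa + t * S)) + t * (b x - a x) * (P - Pa)|
        ≤ |a x * (P - ((1 - U.card * t) * Pa + t * S))| + |t * (b x - a x) * (P - Pa)| := abs_add_le _ _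
      _ = |a x| * |P - ((1 - U.card * t) * Pa + t * S)| + t * |b x - a x| * |P - Pa| := by
          rw [abs_mul, abs_mul, abs_mul, abs_of_nonneg ht]
      _ ≤ N x * (8 * (U.card : ℝ) ^ 2 * t ^ 2 * NU) +
          t * (2 * N x) * ((8 * (U.card : ℝ) ^ 2 * t ^ 2 + 2 * U.card * t) * NU) := by
          gcongr
      _ = (t ^ 2 * (N x * NU)) * (8 * (U.card : ℝ) ^ 2 + 4 * U.card + 16 * U.card * (U.card * t)) := by ring
      _ ≤ (t ^ 2 * (N x * NU)) * (8 * ((U.card : ℝ) + 1) ^ 2) := by
          apply mul_le_mul_of_nonneg_left _ (by positivity)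
          nlinarith
      _ = 8 * ((U.card : ℝ) + 1) ^ 2 * t ^ 2 * (N x * NU) := by ring

end Crest.Agent.PG
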