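import Crest.Agent.PG_T03
import Crest.Agent.PG_T04
import Crest.Agent.PG_T05
/-!
# PG-T06 (S0021): comparison of a joint average with the product of the single-position averages

Induction on `P` (for all `f, A` simultaneously). Let `m = |U|`, `X(P,f) = EM (∏ P) (∏_i f i (hit P (n+pos i)))`,
`B(P) = 8 m² ρ^m exp(2 m ρ ∑_P 1/p) ∑_P 1/p²`.  For `P = insert p P'`, by `EM_step`
`X(P,f) = (1 - m/p) X(P',f) + (1/p) ∑_y X(P', f^y)`, `f^y` = `f` with `f y` replaced by `f y ∘ insert p`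
(bounded by `(ρ A_y) ρ^|S|`), while `E1 P (f i) = (1-1/p) a_i + (1/p) b_i` with `a_i = E1 P' (f i)`,
`b_i = E1 P' (f i ∘ insert p)`, `|a_i|, |b_i| ≤ N_i := ρ A_i exp(ρ ∑_{P'} 1/q)`.  With `prod_compare` (`t = 1/p`):
error(P) ≤ (1 - m/p) B(P') ∏A + (m/p) ρ B(P') ∏A + 8 m²/p² ρ^m exp(m ρ ∑_{P'}) ∏A ≤ B(P) ∏ A.
(`U` empty is fine.)
-/
set_option autoImplicit false
namespace Crest.Agent.PG
open Finset

private theorem T06_E1_bound (P : Finset ℕ) (hP : ∀ p ∈ P, 1 ≤ p) (ρ : ℝ) (hρ : 1 ≤ ρ)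
    (g : Finset ℕ → ℝ) (A : ℝ) (hA : 0 ≤ A) (hg : ∀ S ⊆ P, |g S| ≤ A * ρ ^ S.card) :
    |E1 P g| ≤ A * Real.exp ((ρ - 1) * ∑ p ∈ P, 1 / (p : ℝ)) := by
  calc |E1 P g| ≤ E1 P (fun S => |g S|) := E1_abs_le P hP g
    _ ≤ E1 P (fun S => A * ρ ^ S.card) := E1_mono P hP _ _ hg
    _ = A * E1 P (fun S => ρ ^ S.card) := E1_const_mul P A _
    _ ≤ A * Real.exp ((ρ - 1) * ∑ p ∈ P, 1 / (p : ℝ)) :=
        mul_le_mul_of_nonneg_left (E1_pow_le P ρ hρ) hA

theorem compare {ι : Type} [DecidableEq ι] (U : Finset ι) (pos : ι → ℕ) (hinj : Set.InjOn pos U)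
    (ρ : ℝ) (hρ : 1 ≤ ρ) (P : Finset ℕ) (hP : ∀ p ∈ P, p.Prime) (hbig : ∀ p ∈ P, 2 * U.card ≤ p)
    (hpos : ∀ i ∈ U, ∀ p ∈ P, pos i < p) (f : ι → Finset ℕ → ℝ) (A : ι → ℝ) (hA : ∀ i ∈ U, 0 ≤ A i)
    (hf : ∀ i ∈ U, ∀ S ⊆ P, |f i S| ≤ A i * ρ ^ S.card) :
    |EM (∏ q ∈ P, q) (fun n => ∏ i ∈ U, f i (hit P (n + pos i))) - ∏ i ∈ U, E1 P (f i)| ≤
      8 * (U.card : ℝ) ^ 2 * ρ ^ U.card * Real.exp (2 * U.card * ρ * ∑ p ∈ P, 1 / (p : ℝ)) *
        (∑ p ∈ P, 1 / (p : ℝ) ^ 2) * ∏ i ∈ U, A i := by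
  induction P using Finset.induction_on generalizing f A with
  | empty =>
    have h1 : EM (∏ q ∈ (∅ : Finset ℕ), q) (fun n => ∏ i ∈ U, f i (hit ∅ (n + pos i))) =
        ∏ i ∈ U, f i ∅ := by
      simp [EM, hit]
    rw [h1]
    simp [E1_empty]
  | insert p P' hpP' ih =>
    have hpp : p.Prime := hP p (mem_insert_self p P')
    have hp0 : (0 : ℝ) < p := by exact_mod_cast hpp.pos
    have hP' : ∀ q ∈ P', q.Prime := fun q hq => hP q (mem_insert_of_mem hq)
    have hP1 : ∀ q ∈ P', 1 ≤ q := fun q hq => (hP' q hq).one_lt.le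
    have hbig' : ∀ q ∈ P', 2 * U.card ≤ q := fun q hq => hbig q (mem_insert_of_mem hq)
    have hpos' : ∀ i ∈ U, ∀ q ∈ P', pos i < q := fun i hi q hq => hpos i hi q (mem_insert_of_mem hq)
    have hstep := EM_step P' hP' p hpp hpP' U pos hinj
      (fun i hi => hpos i hi p (mem_insert_self p P')) f
    set m : ℝ := (U.card : ℝ) with hm
    set t : ℝ := 1 / (p : ℝ) with ht
    have ht0 : 0 ≤ t := by positivity
    have hm0 : 0 ≤ m := by positivity
    have h2m : 2 * m ≤ p := by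
      have := hbig p (mem_insert_self p P')
      rw [hm]; exact_mod_cast this
    have hmt : 2 * m * t ≤ 1 := by
      rw [ht, mul_one_div, div_le_one hp0]; exact h2m
    have hfP' : ∀ i ∈ U, ∀ S ⊆ P', |f i S| ≤ A i * ρ ^ S.card := fun i hi S hS =>
      hf i hi S (hS.trans (subset_insert p P'))
    have hfp : ∀ i ∈ U, ∀ S ⊆ P', |f i (insert p S)| ≤ ρ * A i * ρ ^ S.card := by
      intro i hi S hS
      have h1 := hf i hi (insert p S) (insert_subset_insert p hS)
      have h2 : (insert p S).card = S.card + 1 := card_insert_of_notMem (fun h => hpP' (hS h))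
      rw [h2, pow_succ] at h1
      calc |f i (insert p S)| ≤ A i * (ρ ^ S.card * ρ) := h1
        _ = ρ * A i * ρ ^ S.card := by ring
    -- the sums
    set σ : ℝ := ∑ q ∈ P', 1 / (q : ℝ) with hσ
    set τ : ℝ := ∑ q ∈ P', 1 / (q : ℝ) ^ 2 with hτ
    have hσ0 : 0 ≤ σ := sum_nonneg (fun q _ => by positivity)
    have hτ0 : 0 ≤ τ := sum_nonneg (fun q _ => by positivity)
    have hsσ : ∑ q ∈ insert p P', 1 / (q : ℝ) = t + σ := by rw [sum_insert hpP']
    have hsτ : ∑ q ∈ insert p P', 1 / (q : ℝ) ^ 2 = t ^ 2 + τ := by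
      rw [sum_insert hpP', ht, one_div_pow]
    set a : ι → ℝ := fun i => E1 P' (f i) with ha
    set b : ι → ℝ := fun i => E1 P' (fun S => f i (insert p S)) with hb
    set N : ι → ℝ := fun i => ρ * A i * Real.exp ((ρ - 1) * σ) with hN
    have hρ0 : 0 ≤ ρ := by linarith
    have haN : ∀ i ∈ U, |a i| ≤ N i := by
      intro i hi
      have h1 := T06_E1_bound P' hP1 ρ hρ (f i) (A i) (hA i hi) (hfP' i hi)
      have h2 : A i ≤ ρ * A i := by nlinarith [hA i hi]
      calc |a i| ≤ A i * Real.exp ((ρ - 1) * σ) := h1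
        _ ≤ ρ * A i * Real.exp ((ρ - 1) * σ) :=
          mul_le_mul_of_nonneg_right h2 (Real.exp_pos _).le
    have hbN : ∀ i ∈ U, |b i| ≤ N i := by
      intro i hi
      exact T06_E1_bound P' hP1 ρ hρ (fun S => f i (insert p S)) (ρ * A i)
        (mul_nonneg hρ0 (hA i hi)) (hfp i hi)
    have hpc := prod_compare U t ht0 hmt a b N haN hbN
    have hE : ∀ i, E1 (insert p P') (f i) = (1 - t) * a i + t * b i := fun i =>
      E1_insert P' p hpP' (f i)
    have hprodE : ∏ i ∈ U, E1 (insert p P') (f i) = ∏ i ∈ U, ((1 - t) * a i + t * b i) :=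
      prod_congr rfl (fun i _ => hE i)
    -- induction hypotheses
    set B : ℝ := 8 * m ^ 2 * ρ ^ U.card * Real.exp (2 * m * ρ * σ) * τ with hB
    have hB0 : 0 ≤ B := by positivity
    have hAprod0 : 0 ≤ ∏ i ∈ U, A i := prod_nonneg hA
    have ih0 := ih hP' hbig' hpos' f A hA hfP'
    have ihy : ∀ y ∈ U, |EM (∏ q ∈ P', q) (fun n => ∏ i ∈ U,
        (if i = y then f i (insert p (hit P' (n + pos i))) else f i (hit P' (n + pos i)))) -
        ∏ i ∈ U, (if i = y then b i else a i)| ≤ B * (ρ * ∏ i ∈ U, A i) := by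
      intro y hy
      have h1 := ih hP' hbig' hpos' (fun i S => if i = y then f i (insert p S) else f i S)
        (fun i => if i = y then ρ * A i else A i)
        (by
          intro i hi
          by_cases h : i = y
          · simp only [h, if_true]; exact mul_nonneg hρ0 (hA y hy)
          · simp only [h, if_false]; exact hA i hi)
        (by
          intro i hi S hS
          by_cases h : i = y
          · simp only [h, if_true]; exact hfp y hy S hS
          · simp only [h, if_false]; exact hfP' i hi S hS)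
      have h2 : ∏ i ∈ U, E1 P' (fun S => if i = y then f i (insert p S) else f i S) =
          ∏ i ∈ U, (if i = y then b i else a i) := by
        apply prod_congr rfl
        intro i _
        by_cases h : i = y
        · simp only [h, if_true, hb]
        · simp only [h, if_false, ha]
      have h3 : ∏ i ∈ U, (if i = y then ρ * A i else A i) = ρ * ∏ i ∈ U, A i := by
        rw [← mul_prod_erase U _ hy, ← mul_prod_erase U A hy]
        simp only [if_true]
        rw [mul_assoc]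
        congr 2
        apply prod_congr rfl
        intro i hi
        rw [if_neg (ne_of_mem_erase hi)]
      rw [h2, h3] at h1
      exact h1
    -- combine
    have hX := hstep
    have e1 : 1 - m / (p : ℝ) = 1 - m * t := by rw [ht]; ring
    rw [e1] at hX
    rw [hX, hprodE, hsσ, hsτ]
    set X0 := EM (∏ q ∈ P', q) (fun n => ∏ i ∈ U, f i (hit P' (n + pos i))) with hX0
    set Xy : ι → ℝ := fun y => EM (∏ q ∈ P', q) (fun n => ∏ i ∈ U,
        (if i = y then f i (insert p (hit P' (n + pos i))) else f i (hit P' (n + pos i)))) with hXy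
    have h1mt : 0 ≤ 1 - m * t := by nlinarith
    have hsplit : (1 - m * t) * X0 + t * ∑ y ∈ U, Xy y - ∏ i ∈ U, ((1 - t) * a i + t * b i) =
        (1 - m * t) * (X0 - ∏ i ∈ U, a i) +
        t * ∑ y ∈ U, (Xy y - ∏ i ∈ U, (if i = y then b i else a i)) -
        (∏ i ∈ U, ((1 - t) * a i + t * b i) -
      ((1 - m * t) * ∏ i ∈ U, a i + t * ∑ y ∈ U, ∏ i ∈ U, (if i = y then b i else a i))) := by
      rw [sum_sub_distrib]; ring
    have hb1 : |(1 - m * t) * (X0 - ∏ i ∈ U, a i)| ≤ (1 - m * t) * (B * ∏ i ∈ U, A i) := by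
      rw [abs_mul, abs_of_nonneg h1mt]
      exact mul_le_mul_of_nonneg_left ih0 h1mt
    have hb2 : |t * ∑ y ∈ U, (Xy y - ∏ i ∈ U, (if i = y then b i else a i))| ≤
        t * (m * (B * (ρ * ∏ i ∈ U, A i))) := by
      rw [abs_mul, abs_of_nonneg ht0]
      apply mul_le_mul_of_nonneg_left _ ht0
      calc |∑ y ∈ U, (Xy y - ∏ i ∈ U, (if i = y then b i else a i))|
          ≤ ∑ y ∈ U, |Xy y - ∏ i ∈ U, (if i = y then b i else a i)| := abs_sum_le_sum_abs _ _
        _ ≤ ∑ y ∈ U, (B * (ρ * ∏ i ∈ U, A i)) := sum_le_sum ihy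
        _ = m * (B * (ρ * ∏ i ∈ U, A i)) := by rw [sum_const, nsmul_eq_mul]
    have hNprod : ∏ i ∈ U, N i = ρ ^ U.card * Real.exp (m * ((ρ - 1) * σ)) * ∏ i ∈ U, A i := by
      rw [hN]
      rw [prod_mul_distrib, prod_mul_distrib, prod_const, prod_const, ← Real.exp_nat_mul]
      ring
    rw [hNprod] at hpc
    rw [hsplit]
    have htri : ∀ x y z : ℝ, |x + y - z| ≤ |x| + |y| + |z| := fun x y z =>
      (abs_sub _ _).trans (add_le_add_left (abs_add_le x y) _)
    refine (htri _ _ _).trans ?_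
    have hfin : (1 - m * t) * (B * ∏ i ∈ U, A i) + t * (m * (B * (ρ * ∏ i ∈ U, A i))) +
        8 * m ^ 2 * t ^ 2 * (ρ ^ U.card * Real.exp (m * ((ρ - 1) * σ)) * ∏ i ∈ U, A i) ≤
        8 * m ^ 2 * ρ ^ U.card * Real.exp (2 * m * ρ * (t + σ)) * (t ^ 2 + τ) * ∏ i ∈ U, A i := by
      have q1 : (1 - m * t) + t * m * ρ ≤ Real.exp (2 * m * ρ * t) := by
        have := Real.add_one_le_exp (2 * m * ρ * t)
        nlinarith [mul_nonneg hm0 ht0, mul_nonneg (mul_nonneg hm0 ht0) hρ0]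
      have q2 : Real.exp (m * ((ρ - 1) * σ)) ≤ Real.exp (2 * m * ρ * (t + σ)) := by
        apply Real.exp_le_exp.mpr
        nlinarith [mul_nonneg hm0 hσ0, mul_nonneg (mul_nonneg hm0 hσ0) hρ0,
          mul_nonneg (mul_nonneg hm0 ht0) hρ0]
      have q3 : Real.exp (2 * m * ρ * (t + σ)) =
          Real.exp (2 * m * ρ * t) * Real.exp (2 * m * ρ * σ) := by
        rw [← Real.exp_add]; ring_nf
      have c0 : 0 ≤ 8 * m ^ 2 * ρ ^ U.card := by positivity
      have r1 : ((1 - m * t) + t * m * ρ) * (B * ∏ i ∈ U, A i) ≤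
          Real.exp (2 * m * ρ * t) * (B * ∏ i ∈ U, A i) :=
        mul_le_mul_of_nonneg_right q1 (mul_nonneg hB0 hAprod0)
      have r2 : 8 * m ^ 2 * t ^ 2 * (ρ ^ U.card * Real.exp (m * ((ρ - 1) * σ)) * ∏ i ∈ U, A i) ≤
          8 * m ^ 2 * t ^ 2 * (ρ ^ U.card * Real.exp (2 * m * ρ * (t + σ)) * ∏ i ∈ U, A i) := by
        apply mul_le_mul_of_nonneg_left _ (by positivity)
        apply mul_le_mul_of_nonneg_right _ hAprod0
        exact mul_le_mul_of_nonneg_left q2 (by positivity)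
      calc _ = ((1 - m * t) + t * m * ρ) * (B * ∏ i ∈ U, A i) +
            8 * m ^ 2 * t ^ 2 * (ρ ^ U.card * Real.exp (m * ((ρ - 1) * σ)) * ∏ i ∈ U, A i) := by ring
        _ ≤ Real.exp (2 * m * ρ * t) * (B * ∏ i ∈ U, A i) +
            8 * m ^ 2 * t ^ 2 * (ρ ^ U.card * Real.exp (2 * m * ρ * (t + σ)) * ∏ i ∈ U, A i) :=
            add_le_add r1 r2
        _ = _ := by rw [hB, q3]; ring
    exact (add_le_add (add_le_add hb1 hb2) hpc).trans hfin

end Crest.Agent.PG
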