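import Crest.Agent.PG_T01
import Crest.Agent.PG_T03
/-!
# PG-T07 (S0021): moments of the Bonferroni function of one block

`P` a finite set of primes `> 100` with `∑ 1/p ≤ 11/10`, `V = ∏ (1-1/p)`.
* `V_ge`: `1 - x ≥ exp(-x - x²)` for `0 ≤ x ≤ 1/100`, so `V ≥ exp(-1.01 * 1.1) ≥ 3/10`.
* `V_le`: `V ≤ exp(-9/20) ≤ 16/25`.
* `bon_moment_ge`: `bon^a ≥ 1_{S = ∅}`, `E1_ind_empty`.
* `bon_moment_le`: `bon_pow_le` and `E1_pow_le`.
* `bon_moment_rel`: relative form: `(1/4)^(2k+1) exp(15*1.1) ≤ V * exp 17 / 16^k` since `V ≥ 3/10`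
  (`(10/3)(1/4) exp(16.5) ≤ exp 17`); `bon_moment_rel4`: `(10/3)(1/4) exp(63*1.1) ≤ exp 70`.
* `bm_ge, bm_le`: `3/10 ≤ E1 (bon) ≤ 13/20` for `k ≥ 10`, using `exp(7.7)/4^21` tiny.
-/
set_option autoImplicit false
namespace Crest.Agent.PG
open Finset

private theorem t07_factor {p : ℕ} (hp : 100 < p) :
    Real.exp (-(51 / 50 * (1 / (p : ℝ)))) ≤ 1 - 1 / (p : ℝ) := by
  have hp' : (100 : ℝ) < p := by exact_mod_cast hp
  have hx0 : 0 ≤ 1 / (p : ℝ) := by positivity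
  have hx1 : 1 / (p : ℝ) ≤ 1 / 100 := by
    apply one_div_le_one_div_of_le <;> linarith
  set x := 1 / (p : ℝ) with hx
  have h := Real.abs_exp_sub_one_sub_id_le (x := -(51 / 50 * x)) (by
    rw [abs_le]; constructor <;> linarith)
  have h2 := (abs_le.mp h).2
  nlinarith

theorem V_ge (P : Finset ℕ) (hP : ∀ p ∈ P, 100 < p) (hs : ∑ p ∈ P, 1 / (p : ℝ) ≤ 11 / 10) :
    3 / 10 ≤ ∏ p ∈ P, (1 - 1 / (p : ℝ)) := by
  have h1 : Real.exp (∑ p ∈ P, (-(51 / 50 * (1 / (p : ℝ))))) ≤ ∏ p ∈ P, (1 - 1 / (p : ℝ)) := by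
    rw [Real.exp_sum]
    exact Finset.prod_le_prod (fun p _ => (Real.exp_pos _).le) (fun p hp => t07_factor (hP p hp))
  refine le_trans ?_ h1
  rw [Finset.sum_neg_distrib, ← Finset.mul_sum]
  have h2 : Real.exp (-(561 / 500)) ≤ Real.exp (-(51 / 50 * ∑ p ∈ P, 1 / (p : ℝ))) := by
    apply Real.exp_le_exp.mpr
    linarith
  refine le_trans ?_ h2
  have h3 : Real.exp (561 / 500) ≤ 10 / 3 := by
    have : Real.exp (561 / 500) = Real.exp 1 * Real.exp (61 / 500) := by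
      rw [← Real.exp_add]; norm_num
    rw [this]
    have e1 := Real.exp_one_lt_d9
    have e2 : Real.exp (61 / 500) ≤ 1 + 61 / 500 + (61 / 500) ^ 2 := by
      have h := Real.abs_exp_sub_one_sub_id_le (x := (61 / 500 : ℝ)) (by
        rw [abs_le]; constructor <;> norm_num)
      have := (abs_le.mp h).2
      linarith
    have e3 := Real.exp_pos (61 / 500)
    have e4 := Real.exp_pos 1
    nlinarith
  rw [Real.exp_neg]
  have h4 := Real.exp_pos (561 / 500)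
  rw [le_inv_comm₀ (by norm_num) h4]
  linarith

theorem V_le (P : Finset ℕ) (hP : ∀ p ∈ P, 100 < p) (hs : 9 / 20 ≤ ∑ p ∈ P, 1 / (p : ℝ)) :
    ∏ p ∈ P, (1 - 1 / (p : ℝ)) ≤ 16 / 25 := by
  have h1 : ∏ p ∈ P, (1 - 1 / (p : ℝ)) ≤ Real.exp (∑ p ∈ P, (-(1 / (p : ℝ)))) := by
    rw [Real.exp_sum]
    refine Finset.prod_le_prod (fun p hp => ?_) (fun p _ => ?_)
    · have hp' : (100 : ℝ) < p := by exact_mod_cast hP p hp
      have : 1 / (p : ℝ) ≤ 1 := by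
        rw [div_le_one (by linarith)]; linarith
      linarith
    · have := Real.add_one_le_exp (-(1 / (p : ℝ)))
      linarith
  refine h1.trans ?_
  rw [Finset.sum_neg_distrib]
  have h2 : Real.exp (-∑ p ∈ P, 1 / (p : ℝ)) ≤ Real.exp (-(9 / 20)) := by
    apply Real.exp_le_exp.mpr
    linarith
  refine h2.trans ?_
  have h3 : (25 / 16 : ℝ) ≤ Real.exp (9 / 20) := by
    have h := Real.sum_le_exp_of_nonneg (x := (9 / 20 : ℝ)) (by norm_num) 5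
    refine le_trans ?_ h
    norm_num [Finset.sum_range_succ, Nat.factorial]
  rw [Real.exp_neg]
  have h4 : (0 : ℝ) < 25 / 16 := by norm_num
  calc (Real.exp (9 / 20))⁻¹ ≤ (25 / 16 : ℝ)⁻¹ := inv_anti₀ h4 h3
    _ = 16 / 25 := by norm_num

theorem bon_moment_ge (P : Finset ℕ) (hP : ∀ p ∈ P, 100 < p) (k a : ℕ) (ha : 1 ≤ a) :
    ∏ p ∈ P, (1 - 1 / (p : ℝ)) ≤ E1 P (fun S => (bon k S.card) ^ a) := by
  rw [← E1_ind_empty]
  refine E1_mono P (fun p hp => by have := hP p hp; omega) _ _ fun S _ => ?_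
  split_ifs with h
  · rw [h, bon_zero, one_pow]
  · exact pow_nonneg (bon_nonneg _ _) _

theorem bon_moment_le (P : Finset ℕ) (hP : ∀ p ∈ P, 100 < p) (hs : ∑ p ∈ P, 1 / (p : ℝ) ≤ 11 / 10)
    (k a : ℕ) (ha : 1 ≤ a) :
    E1 P (fun S => (bon k S.card) ^ a) ≤
      ∏ p ∈ P, (1 - 1 / (p : ℝ)) + (1 / 4 : ℝ) ^ (2 * k + 1) * Real.exp (((2 : ℝ) ^ (a + 2) - 1) * (11 / 10)) := by
  have hP1 : ∀ p ∈ P, 1 ≤ p := fun p hp => by have := hP p hp; omega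
  have h1 : E1 P (fun S => (bon k S.card) ^ a) ≤
      E1 P (fun S => (if S.card = 0 then 1 else 0) +
        (1 / 4 : ℝ) ^ (2 * k + 1) * ((2 : ℝ) ^ (a + 2)) ^ S.card) :=
    E1_mono P hP1 _ _ fun S _ => bon_pow_le k S.card a ha
  refine h1.trans ?_
  rw [E1_add, E1_const_mul, E1_ind_empty]
  have hρ : (1 : ℝ) ≤ 2 ^ (a + 2) := one_le_pow₀ (by norm_num)
  have h2 : E1 P (fun S => ((2 : ℝ) ^ (a + 2)) ^ S.card) ≤
      Real.exp (((2 : ℝ) ^ (a + 2) - 1) * (11 / 10)) := by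
    refine (E1_pow_le P _ hρ).trans ?_
    apply Real.exp_le_exp.mpr
    exact mul_le_mul_of_nonneg_left hs (by linarith)
  have h3 : (0 : ℝ) ≤ (1 / 4 : ℝ) ^ (2 * k + 1) := by positivity
  have := mul_le_mul_of_nonneg_left h2 h3
  linarith

private theorem t07_rel (P : Finset ℕ) (hP : ∀ p ∈ P, 100 < p)
    (hs : ∑ p ∈ P, 1 / (p : ℝ) ≤ 11 / 10) (k a : ℕ) (ha : 1 ≤ a) (c : ℝ)
    (hc : ((2 : ℝ) ^ (a + 2) - 1) * (11 / 10) ≤ c) :
    E1 P (fun S => (bon k S.card) ^ a) ≤ (∏ p ∈ P, (1 - 1 / (p : ℝ))) * (1 + Real.exp c / 16 ^ k) := by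
  refine (bon_moment_le P hP hs k a ha).trans ?_
  have hV := V_ge P hP hs
  set V := ∏ p ∈ P, (1 - 1 / (p : ℝ)) with hVdef
  have h1 : (1 / 4 : ℝ) ^ (2 * k + 1) = 1 / 4 * (1 / 16 ^ k) := by
    rw [pow_succ, pow_mul, one_div_pow, one_div_pow]
    norm_num
    ring
  have h2 : Real.exp (((2 : ℝ) ^ (a + 2) - 1) * (11 / 10)) ≤ Real.exp c := Real.exp_le_exp.mpr hc
  have h3 : (0 : ℝ) ≤ 1 / 16 ^ k := by positivity
  have h4 := Real.exp_pos c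
  have h5 : 1 / 4 * (1 / 16 ^ k) * Real.exp (((2 : ℝ) ^ (a + 2) - 1) * (11 / 10)) ≤
      1 / 4 * (1 / 16 ^ k) * Real.exp c := mul_le_mul_of_nonneg_left h2 (by positivity)
  have h6 : 1 / 4 * (1 / 16 ^ k * Real.exp c) ≤ V * (1 / 16 ^ k * Real.exp c) :=
    mul_le_mul_of_nonneg_right (by linarith) (by positivity)
  rw [h1]
  have h7 : V * (1 + Real.exp c / 16 ^ k) = V + V * (1 / 16 ^ k * Real.exp c) := by ring
  rw [h7]
  have h8 : 1 / 4 * (1 / 16 ^ k) * Real.exp c = 1 / 4 * (1 / 16 ^ k * Real.exp c) := by ring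
  linarith

theorem bon_moment_rel (P : Finset ℕ) (hP : ∀ p ∈ P, 100 < p) (hs : ∑ p ∈ P, 1 / (p : ℝ) ≤ 11 / 10)
    (k a : ℕ) (ha : 1 ≤ a) (ha2 : a ≤ 2) :
    E1 P (fun S => (bon k S.card) ^ a) ≤ (∏ p ∈ P, (1 - 1 / (p : ℝ))) * (1 + Real.exp 17 / 16 ^ k) := by
  refine t07_rel P hP hs k a ha 17 ?_
  have : (2 : ℝ) ^ (a + 2) ≤ 2 ^ 4 := pow_le_pow_right₀ (by norm_num) (by omega)
  norm_num at this ⊢
  linarith

theorem bon_moment_rel4 (P : Finset ℕ) (hP : ∀ p ∈ P, 100 < p) (hs : ∑ p ∈ P, 1 / (p : ℝ) ≤ 11 / 10)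
    (k a : ℕ) (ha : 1 ≤ a) (ha4 : a ≤ 4) :
    E1 P (fun S => (bon k S.card) ^ a) ≤ (∏ p ∈ P, (1 - 1 / (p : ℝ))) * (1 + Real.exp 70 / 16 ^ k) := by
  refine t07_rel P hP hs k a ha 70 ?_
  have : (2 : ℝ) ^ (a + 2) ≤ 2 ^ 6 := pow_le_pow_right₀ (by norm_num) (by omega)
  norm_num at this ⊢
  linarith

theorem bm_ge (P : Finset ℕ) (hP : ∀ p ∈ P, 100 < p) (hs : ∑ p ∈ P, 1 / (p : ℝ) ≤ 11 / 10) (k : ℕ) :
    3 / 10 ≤ E1 P (fun S => bon k S.card) := by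
  have h := bon_moment_ge P hP k 1 le_rfl
  simp only [pow_one] at h
  exact (V_ge P hP hs).trans h

theorem bm_le (P : Finset ℕ) (hP : ∀ p ∈ P, 100 < p) (hs1 : 9 / 20 ≤ ∑ p ∈ P, 1 / (p : ℝ))
    (hs : ∑ p ∈ P, 1 / (p : ℝ) ≤ 11 / 10) (k : ℕ) (hk : 10 ≤ k) :
    E1 P (fun S => bon k S.card) ≤ 13 / 20 := by
  have h := bon_moment_le P hP hs k 1 le_rfl
  simp only [pow_one] at h
  have hV := V_le P hP hs1
  have h1 : (1 / 4 : ℝ) ^ (2 * k + 1) ≤ (1 / 4) ^ 21 :=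
    pow_le_pow_of_le_one (by norm_num) (by norm_num) (by omega)
  have h2 : Real.exp (((2 : ℝ) ^ (1 + 2) - 1) * (11 / 10)) ≤ 3 ^ 8 := by
    have h3 : Real.exp (((2 : ℝ) ^ (1 + 2) - 1) * (11 / 10)) ≤ Real.exp ((8 : ℕ) * 1) := by
      apply Real.exp_le_exp.mpr
      norm_num
    refine h3.trans ?_
    rw [Real.exp_nat_mul]
    exact pow_le_pow_left₀ (Real.exp_pos _).le (by have := Real.exp_one_lt_d9; linarith) 8
  have h4 : (1 / 4 : ℝ) ^ (2 * k + 1) * Real.exp (((2 : ℝ) ^ (1 + 2) - 1) * (11 / 10)) ≤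
      (1 / 4) ^ 21 * 3 ^ 8 :=
    mul_le_mul h1 h2 (Real.exp_pos _).le (by positivity)
  have h5 : (1 / 4 : ℝ) ^ 21 * 3 ^ 8 ≤ 1 / 100 := by norm_num
  linarith

end Crest.Agent.PG
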