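import Crest.Agent.PG_T07
/-!
# PG-T08 (S0021): moments of `D.beta` (small blocks)

`D.beta S = ∏_{i<I} bon (k+i) |S ∩ sb i|`; `E1_biUnion` gives `E1 Ps (beta^a) = ∏_i E1 (sb i) (bon (k+i) ^ a)` and
`D.Vs = ∏_i ∏_{sb i} (1-1/p)` (`Finset.prod_biUnion`).  `bon_moment_rel` gives for `a ≤ 2` the factor
`∏_i (1 + e^17/16^(k+i)) ≤ exp(e^17/16^10 * 16/15) ≤ 2`, and `bon_moment_rel4` for `a ≤ 4` the factor `≤ exp(exp 70)`.
The primes of `D.P` are `> D.W ≥ 100`.
-/
set_option autoImplicit false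
namespace Crest.Agent.PG
open Finset
namespace SD
variable (D : SD) (CM : ℝ)

theorem T08_sb_P (i : ℕ) (hi : i < D.I) (p : ℕ) (hp : p ∈ D.sb i) : p ∈ D.P := by
  unfold P Ps
  exact Finset.mem_union_left _ (Finset.mem_biUnion.mpr ⟨i, Finset.mem_range.mpr hi, hp⟩)

theorem T08_P_big (hD : D.Good CM) (p : ℕ) (hp : p ∈ D.P) : 100 < p :=
  lt_of_le_of_lt hD.hW (hD.big p hp)

theorem T08_sb_big (hD : D.Good CM) (i : ℕ) (hi : i < D.I) : ∀ p ∈ D.sb i, 100 < p :=
  fun p hp => T08_P_big D CM hD p (T08_sb_P D i hi p hp)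

theorem T08_factor (p : ℕ) (hp : 100 < p) : 0 < 1 - 1 / (p : ℝ) ∧ 1 - 1 / (p : ℝ) ≤ 1 := by
  have h1 : (100 : ℝ) < p := by exact_mod_cast hp
  constructor
  · have : 1 / (p : ℝ) < 1 := by
      rw [div_lt_one (by linarith)]
      linarith
    linarith
  · have : 0 ≤ 1 / (p : ℝ) := by positivity
    linarith

theorem Vs_pos (hD : D.Good CM) : 0 < D.Vs := by
  unfold Vs
  refine Finset.prod_pos (fun p hp => ?_)
  exact (T08_factor p (T08_P_big D CM hD p (Finset.mem_union_left _ hp))).1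

theorem Vs_le_one (hD : D.Good CM) : D.Vs ≤ 1 := by
  unfold Vs
  refine Finset.prod_le_one (fun p hp => ?_) (fun p hp => ?_)
  · exact (T08_factor p (T08_P_big D CM hD p (Finset.mem_union_left _ hp))).1.le
  · exact (T08_factor p (T08_P_big D CM hD p (Finset.mem_union_left _ hp))).2

theorem beta_nonneg (S : Finset ℕ) : 0 ≤ D.beta S := by
  unfold beta
  exact Finset.prod_nonneg (fun i _ => bon_nonneg _ _)

theorem beta_empty : D.beta ∅ = 1 := by
  unfold beta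
  refine Finset.prod_eq_one (fun i _ => ?_)
  rw [Finset.empty_inter, Finset.card_empty, bon_zero]

theorem T08_sb_sub (i : ℕ) (hi : i < D.I) : D.sb i ⊆ D.Ps := by
  intro p hp
  exact Finset.mem_biUnion.mpr ⟨i, Finset.mem_range.mpr hi, hp⟩

theorem beta_inter (S : Finset ℕ) : D.beta (S ∩ D.Ps) = D.beta S := by
  unfold beta
  refine Finset.prod_congr rfl (fun i hi => ?_)
  rw [Finset.inter_assoc, Finset.inter_eq_right.mpr (T08_sb_sub D i (Finset.mem_range.mp hi))]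

theorem beta_moment_prod (hD : D.Good CM) (a : ℕ) :
    E1 D.Ps (fun S => (D.beta S) ^ a) = ∏ i ∈ range D.I, E1 (D.sb i) (fun S => (bon (D.k + i) S.card) ^ a) := by
  rw [← E1_biUnion (range D.I) D.sb
    (fun i hi j hj hij => hD.ss i (Finset.mem_range.mp hi) j (Finset.mem_range.mp hj) hij)
    (fun i S => (bon (D.k + i) S.card) ^ a)]
  unfold Ps
  congr 1
  funext S
  unfold beta
  rw [Finset.prod_pow]

theorem Vs_prod (hD : D.Good CM) : D.Vs = ∏ i ∈ range D.I, ∏ p ∈ D.sb i, (1 - 1 / (p : ℝ)) := by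
  unfold Vs Ps
  refine Finset.prod_biUnion ?_
  intro i hi j hj hij
  exact hD.ss i (Finset.mem_range.mp hi) j (Finset.mem_range.mp hj) hij

theorem beta_moment_ge (hD : D.Good CM) (a : ℕ) (ha : 1 ≤ a) :
    D.Vs ≤ E1 D.Ps (fun S => (D.beta S) ^ a) := by
  rw [D.beta_moment_prod CM hD a, D.Vs_prod CM hD]
  refine Finset.prod_le_prod (fun i hi => ?_) (fun i hi => ?_)
  · exact Finset.prod_nonneg (fun p hp =>
      (T08_factor p (T08_sb_big D CM hD i (Finset.mem_range.mp hi) p hp)).1.le)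
  · exact bon_moment_ge (D.sb i) (T08_sb_big D CM hD i (Finset.mem_range.mp hi)) (D.k + i) a ha

theorem T08_geom (n : ℕ) : ∑ i ∈ range n, (1 / 16 : ℝ) ^ i ≤ 16 / 15 := by
  have h : ∀ n : ℕ, ∑ i ∈ range n, (1 / 16 : ℝ) ^ i = 16 / 15 * (1 - (1 / 16 : ℝ) ^ n) := by
    intro n
    induction n with
    | zero => simp
    | succ n ih => rw [Finset.sum_range_succ, ih, pow_succ]; ring
  rw [h]
  have : 0 ≤ (1 / 16 : ℝ) ^ n := by positivity
  linarith

theorem T08_prod_le (c : ℝ) (hc : 0 ≤ c) (k n : ℕ) :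
    ∏ i ∈ range n, (1 + c / 16 ^ (k + i)) ≤ Real.exp (c / 16 ^ k * (16 / 15)) := by
  have h1 : ∏ i ∈ range n, (1 + c / 16 ^ (k + i)) ≤ ∏ i ∈ range n, Real.exp (c / 16 ^ (k + i)) := by
    refine Finset.prod_le_prod (fun i _ => by positivity) (fun i _ => ?_)
    have := Real.add_one_le_exp (c / 16 ^ (k + i))
    linarith
  refine h1.trans ?_
  rw [← Real.exp_sum]
  apply Real.exp_le_exp.mpr
  have h2 : ∑ i ∈ range n, c / 16 ^ (k + i) = c / 16 ^ k * ∑ i ∈ range n, (1 / 16 : ℝ) ^ i := by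
    rw [Finset.mul_sum]
    refine Finset.sum_congr rfl (fun i _ => ?_)
    rw [pow_add, div_pow, one_pow]
    field_simp
  rw [h2]
  exact mul_le_mul_of_nonneg_left (T08_geom n) (by positivity)

theorem T08_moment (hD : D.Good CM) (a : ℕ) (c : ℝ) (hc : 0 ≤ c)
    (h : ∀ i < D.I, E1 (D.sb i) (fun S => (bon (D.k + i) S.card) ^ a) ≤
      (∏ p ∈ D.sb i, (1 - 1 / (p : ℝ))) * (1 + c / 16 ^ (D.k + i))) :
    E1 D.Ps (fun S => (D.beta S) ^ a) ≤ Real.exp (c / 16 ^ 10 * (16 / 15)) * D.Vs := by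
  rw [D.beta_moment_prod CM hD a]
  calc ∏ i ∈ range D.I, E1 (D.sb i) (fun S => (bon (D.k + i) S.card) ^ a)
      ≤ ∏ i ∈ range D.I, ((∏ p ∈ D.sb i, (1 - 1 / (p : ℝ))) * (1 + c / 16 ^ (D.k + i))) := by
        refine Finset.prod_le_prod (fun i hi => ?_) (fun i hi => h i (Finset.mem_range.mp hi))
        refine E1_nonneg (D.sb i) (fun p hp => ?_) _ (fun S _ => pow_nonneg (bon_nonneg _ _) _)
        have := T08_sb_big D CM hD i (Finset.mem_range.mp hi) p hp
        omega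
    _ = D.Vs * ∏ i ∈ range D.I, (1 + c / 16 ^ (D.k + i)) := by
        rw [Finset.prod_mul_distrib, D.Vs_prod CM hD]
    _ ≤ D.Vs * Real.exp (c / 16 ^ 10 * (16 / 15)) := by
        refine mul_le_mul_of_nonneg_left ?_ (D.Vs_pos CM hD).le
        refine (T08_prod_le c hc D.k D.I).trans ?_
        apply Real.exp_le_exp.mpr
        refine mul_le_mul_of_nonneg_right ?_ (by norm_num)
        refine div_le_div_of_nonneg_left hc (by positivity) ?_
        exact pow_le_pow_right₀ (by norm_num) hD.hk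
    _ = Real.exp (c / 16 ^ 10 * (16 / 15)) * D.Vs := mul_comm _ _

theorem beta_moment_le2 (hD : D.Good CM) (a : ℕ) (ha : 1 ≤ a) (ha2 : a ≤ 2) :
    E1 D.Ps (fun S => (D.beta S) ^ a) ≤ 2 * D.Vs := by
  have h := T08_moment D CM hD a (Real.exp 17) (Real.exp_pos _).le
    (fun i hi => bon_moment_rel (D.sb i) (T08_sb_big D CM hD i hi) (hD.ssum i hi) (D.k + i) a ha ha2)
  refine h.trans (mul_le_mul_of_nonneg_right ?_ (D.Vs_pos CM hD).le)
  have h3 : Real.exp 17 ≤ 3 ^ 17 := by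
    have h1 : Real.exp 17 = Real.exp 1 ^ 17 := by
      rw [← Real.exp_nat_mul]; norm_num
    rw [h1]
    exact pow_le_pow_left₀ (Real.exp_pos _).le (by linarith [Real.exp_one_lt_d9]) _
  have h0 : 0 ≤ Real.exp 17 / 16 ^ 10 * (16 / 15) := by positivity
  have h4 : Real.exp 17 / 16 ^ 10 * (16 / 15) ≤ 1 / 2 := by
    calc Real.exp 17 / 16 ^ 10 * (16 / 15) ≤ 3 ^ 17 / 16 ^ 10 * (16 / 15) := by gcongr
      _ ≤ 1 / 2 := by norm_num
  have h5 := Real.abs_exp_sub_one_le (x := Real.exp 17 / 16 ^ 10 * (16 / 15)) (by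
    rw [abs_of_nonneg h0]; linarith)
  rw [abs_of_nonneg h0] at h5
  have h6 := (abs_le.mp h5).2
  linarith

theorem beta_moment_le4 (hD : D.Good CM) (a : ℕ) (ha : 1 ≤ a) (ha4 : a ≤ 4) :
    E1 D.Ps (fun S => (D.beta S) ^ a) ≤ Real.exp (Real.exp 70) * D.Vs := by
  have h := T08_moment D CM hD a (Real.exp 70) (Real.exp_pos _).le
    (fun i hi => bon_moment_rel4 (D.sb i) (T08_sb_big D CM hD i hi) (hD.ssum i hi) (D.k + i) a ha ha4)
  refine h.trans (mul_le_mul_of_nonneg_right ?_ (D.Vs_pos CM hD).le)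
  apply Real.exp_le_exp.mpr
  have h0 : 0 < Real.exp 70 := Real.exp_pos _
  calc Real.exp 70 / 16 ^ 10 * (16 / 15) = Real.exp 70 * (1 / 16 ^ 10 * (16 / 15)) := by ring
    _ ≤ Real.exp 70 * 1 := mul_le_mul_of_nonneg_left (by norm_num) h0.le
    _ = Real.exp 70 := mul_one _

/-- splitting of expectations over small and large primes -/
theorem E1_split (hD : D.Good CM) (f g : Finset ℕ → ℝ) :
    E1 D.P (fun S => f (S ∩ D.Ps) * g (S ∩ D.Pl)) = E1 D.Ps f * E1 D.Pl g := by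
  have hdis : Disjoint D.Ps D.Pl := by
    unfold Ps Pl
    rw [Finset.disjoint_biUnion_left]
    intro i hi
    rw [Finset.disjoint_biUnion_right]
    intro j hj
    exact hD.sl i (Finset.mem_range.mp hi) j (Finset.mem_range.mp hj)
  unfold P
  exact E1_union D.Ps D.Pl hdis f g

end SD
end Crest.Agent.PG
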