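import Crest.Agent.PG_T08
/-!
# PG-T09 (S0021): the large blocks: means, the martingale, orthogonality, second moments

Write `V_i = ∏_{lb i} (1-1/p)`, `b_i = D.bm i`, `s_i = E1 (lb i) (bon k ^2)`, `δ = e^17/16^k`, `L δ ≤ 1/10`.
`V_i ≤ b_i`, `b_i ≤ (1+δ) V_i`, `s_i ≤ (1+δ) V_i`, `3/10 ≤ b_i ≤ 13/20`.
* `Df a S = Mf a S * (bl a S / b_a - 1)`; `Df a ∅ = ∏_{i<a} b_i⁻¹ (1/b_a - 1) ≥ 1/2 ∏_{i<a} b_i⁻¹ ≥ 1/2`.
* `E1 Pl` of a product of functions of different blocks factorises (`E1_biUnion`); the factor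
  `bl a S/b_a - 1` has mean zero, whence `E1_Xf_zero` and orthogonality `E1_Xf_mul` (split off `beta` with `E1_split`).
* `sg_le`: `E1 Pl (Df a ^2) ≤ ∏_{i ≤ a} s_i/b_i² ≤ (1+δ)^(a+1) ∏_{i≤a} 1/V_i`,
  `cf a ^2 ≤ (4/L²) (1+δ)^(2a) ∏_{i<a} V_i²`, `E1 Ps (beta^2) ≤ 2 Vs`, `V_a ≥ 3/10`, `hMert`.
  Total `≤ 2 Vs * (4/L²) e^0.3 (10/3) CM 2^{-a} ≤ 64 CM Vs 2^{-a}/L²`.
* `E1_Gf_le`: `E1 Ps beta ≤ 2 Vs`, `∏ b_i ≤ (1+δ)^L ∏ V_i ≤ 2 CM 2^{-L}`.
-/
set_option autoImplicit false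
namespace Crest.Agent.PG
open Finset
namespace SD
variable (D : SD) (CM : ℝ)

theorem T09_lb_sub_Pl {i : ℕ} (hi : i < D.L) : D.lb i ⊆ D.Pl := by
  intro p hp
  unfold Pl
  exact mem_biUnion.2 ⟨i, mem_range.2 hi, hp⟩

theorem T09_lb_sub_P {i : ℕ} (hi : i < D.L) : D.lb i ⊆ D.P :=
  (D.T09_lb_sub_Pl hi).trans subset_union_right

theorem T09_lb_big (hD : D.Good CM) {i : ℕ} (hi : i < D.L) : ∀ p ∈ D.lb i, 100 < p := by
  intro p hp
  exact lt_of_le_of_lt hD.hW (hD.big p (D.T09_lb_sub_P hi hp))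

theorem T09_P_one (hD : D.Good CM) : ∀ p ∈ D.P, 1 ≤ p := fun p hp => (hD.prime p hp).one_lt.le

theorem bm_ge (hD : D.Good CM) (i : ℕ) (hi : i < D.L) : 3 / 10 ≤ D.bm i :=
  PG.bm_ge (D.lb i) (D.T09_lb_big CM hD hi) (hD.lsum2 i hi) D.k

theorem bm_le (hD : D.Good CM) (i : ℕ) (hi : i < D.L) : D.bm i ≤ 13 / 20 :=
  PG.bm_le (D.lb i) (D.T09_lb_big CM hD hi) (hD.lsum1 i hi) (hD.lsum2 i hi) D.k hD.hk

theorem T09_bm_pos (hD : D.Good CM) {i : ℕ} (hi : i < D.L) : 0 < D.bm i :=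
  lt_of_lt_of_le (by norm_num) (D.bm_ge CM hD i hi)

theorem T09_bl_empty (i : ℕ) : D.bl i ∅ = 1 := by
  unfold bl
  rw [empty_inter, card_empty, bon_zero]

theorem T09_Df_eq (a : ℕ) (S : Finset ℕ) : D.Df a S = D.Mf a S * (D.bl a S / D.bm a - 1) := by
  unfold Df Mf
  rw [prod_range_succ]
  ring

theorem T09_Mf_empty (a : ℕ) : D.Mf a ∅ = ∏ i ∈ range a, 1 / D.bm i := by
  unfold Mf
  exact prod_congr rfl fun i _ => by rw [T09_bl_empty]

theorem T09_Mf_empty_ge (hD : D.Good CM) (a : ℕ) (ha : a < D.L) : 1 ≤ D.Mf a ∅ := by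
  rw [T09_Mf_empty]
  have h1 : ∏ i ∈ range a, (1 : ℝ) ≤ ∏ i ∈ range a, 1 / D.bm i := by
    refine prod_le_prod (fun i _ => zero_le_one) fun i hi => ?_
    have hiL : i < D.L := (mem_range.1 hi).trans ha
    rw [le_div_iff₀ (D.T09_bm_pos CM hD hiL)]
    have := D.bm_le CM hD i hiL
    linarith
  rwa [prod_const_one] at h1

theorem T09_Df_empty_ge' (hD : D.Good CM) (a : ℕ) (ha : a < D.L) :
    (1 / 2) * ∏ i ∈ range a, 1 / D.bm i ≤ D.Df a ∅ := by
  rw [T09_Df_eq, T09_bl_empty, ← T09_Mf_empty, mul_comm]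
  have h1 := D.T09_Mf_empty_ge CM hD a ha
  refine mul_le_mul_of_nonneg_left ?_ (by linarith)
  have h2 : 3 / 2 ≤ 1 / D.bm a := by
    rw [le_div_iff₀ (D.T09_bm_pos CM hD ha)]
    have := D.bm_le CM hD a ha
    linarith
  linarith

theorem Df_empty_ge (hD : D.Good CM) (a : ℕ) (ha : a < D.L) : 1 / 2 ≤ D.Df a ∅ := by
  have h1 := D.T09_Df_empty_ge' CM hD a ha
  have h2 := D.T09_Mf_empty_ge CM hD a ha
  rw [T09_Mf_empty] at h2
  linarith

theorem T09_L_pos (hD : D.Good CM) : (0 : ℝ) < D.L := by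
  have := hD.hL
  exact_mod_cast this

theorem cf_pos (hD : D.Good CM) (a : ℕ) (ha : a < D.L) : 0 < D.cf a := by
  unfold cf
  have h1 := D.Df_empty_ge CM hD a ha
  have h2 := D.T09_L_pos CM hD
  positivity

theorem cf_le (hD : D.Good CM) (a : ℕ) (ha : a < D.L) : D.cf a ≤ 2 := by
  unfold cf
  have h1 := D.Df_empty_ge CM hD a ha
  have h2 : (1 : ℝ) ≤ D.L := by exact_mod_cast hD.hL
  rw [div_le_iff₀ (by positivity)]
  nlinarith

theorem bl_inter (a : ℕ) (ha : a < D.L) (S : Finset ℕ) : D.bl a (S ∩ D.Pl) = D.bl a S := by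
  unfold bl
  rw [inter_assoc, inter_eq_right.2 (D.T09_lb_sub_Pl ha)]

theorem T09_Mf_inter (a : ℕ) (ha : a ≤ D.L) (S : Finset ℕ) : D.Mf a (S ∩ D.Pl) = D.Mf a S := by
  unfold Mf
  refine prod_congr rfl fun i hi => ?_
  rw [bl_inter D i (lt_of_lt_of_le (mem_range.1 hi) ha)]

theorem Df_inter (a : ℕ) (ha : a < D.L) (S : Finset ℕ) : D.Df a (S ∩ D.Pl) = D.Df a S := by
  rw [T09_Df_eq, T09_Df_eq, T09_Mf_inter D a ha.le, bl_inter D a ha]

theorem Xf_some_empty (hD : D.Good CM) (a : Fin D.L) : D.Xf (some a) ∅ = - (1 / (D.L : ℝ)) := by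
  have h1 := D.Df_empty_ge CM hD a a.2
  have h2 := D.T09_L_pos CM hD
  show - D.cf a * (D.beta ∅ * D.Df a ∅) = _
  rw [beta_empty]
  unfold cf
  field_simp

/-- the block factors of `Df a` -/
noncomputable def T09_psi (a i : ℕ) (T : Finset ℕ) : ℝ :=
  if i < a then bon D.k T.card / D.bm i else if i = a then bon D.k T.card / D.bm a - 1 else 1

theorem T09_prod_psi (a : ℕ) (ha : a < D.L) (g : ℕ → ℝ) (x : ℝ) (hg : ∀ i, a < i → g i = 1)
    (hx : g a = x) :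
    ∏ i ∈ range D.L, g i = (∏ i ∈ range a, g i) * x := by
  have h1 : range (a + 1) ⊆ range D.L := range_subset_range.2 ha
  rw [← prod_subset h1, prod_range_succ, hx]
  intro i _ hi
  have : a < i := by
    rw [mem_range] at hi
    omega
  exact hg i this

theorem T09_Df_prod (a : ℕ) (ha : a < D.L) (S : Finset ℕ) :
    D.Df a S = ∏ i ∈ range D.L, D.T09_psi a i (S ∩ D.lb i) := by
  rw [T09_prod_psi D a ha (fun i => D.T09_psi a i (S ∩ D.lb i)) (D.bl a S / D.bm a - 1),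
    T09_Df_eq]
  · congr 1
    unfold Mf
    refine prod_congr rfl fun i hi => ?_
    unfold T09_psi bl
    rw [if_pos (mem_range.1 hi)]
  · intro i hi
    unfold T09_psi
    rw [if_neg (by omega), if_neg (by omega)]
  · show T09_psi D a a (S ∩ D.lb a) = _
    unfold T09_psi bl
    rw [if_neg (lt_irrefl a), if_pos rfl]

theorem T09_E1_Pl (hD : D.Good CM) (f : ℕ → Finset ℕ → ℝ) :
    E1 D.Pl (fun S => ∏ i ∈ range D.L, f i (S ∩ D.lb i)) =
      ∏ i ∈ range D.L, E1 (D.lb i) (f i) := by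
  unfold Pl
  exact E1_biUnion (range D.L) D.lb
    (fun i hi j hj hij => hD.ll i (mem_range.1 hi) j (mem_range.1 hj) hij) f

theorem T09_psi_zero (hD : D.Good CM) (a : ℕ) (ha : a < D.L) :
    E1 (D.lb a) (D.T09_psi a a) = 0 := by
  have h1 : E1 (D.lb a) (D.T09_psi a a) =
      E1 (D.lb a) (fun S => (1 / D.bm a) * bon D.k S.card - 1) := by
    refine E1_congr _ _ _ fun S _ => ?_
    unfold T09_psi
    rw [if_neg (lt_irrefl a), if_pos rfl]
    ring
  rw [h1, E1_sub, E1_const_mul, E1_const]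
  have h2 : E1 (D.lb a) (fun S => bon D.k S.card) = D.bm a := rfl
  rw [h2]
  have := D.T09_bm_pos CM hD ha
  field_simp
  ring

theorem T09_E1_Df (hD : D.Good CM) (a : ℕ) (ha : a < D.L) : E1 D.Pl (D.Df a) = 0 := by
  have h1 : D.Df a = fun S => ∏ i ∈ range D.L, D.T09_psi a i (S ∩ D.lb i) :=
    funext fun S => D.T09_Df_prod a ha S
  rw [h1, T09_E1_Pl D CM hD]
  exact prod_eq_zero (mem_range.2 ha) (D.T09_psi_zero CM hD a ha)

theorem T09_E1_Df_mul (hD : D.Good CM) (a b : ℕ) (hab : a < b) (hb : b < D.L) :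
    E1 D.Pl (fun S => D.Df a S * D.Df b S) = 0 := by
  have h1 : (fun S => D.Df a S * D.Df b S) =
      fun S => ∏ i ∈ range D.L, (fun T => D.T09_psi a i T * D.T09_psi b i T) (S ∩ D.lb i) := by
    funext S
    rw [D.T09_Df_prod a (hab.trans hb) S, D.T09_Df_prod b hb S, ← prod_mul_distrib]
  rw [h1, T09_E1_Pl D CM hD (fun i T => D.T09_psi a i T * D.T09_psi b i T)]
  refine prod_eq_zero (mem_range.2 hb) ?_
  rw [← D.T09_psi_zero CM hD b hb]
  refine E1_congr _ _ _ fun S _ => ?_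
  have : D.T09_psi a b S = 1 := by
    unfold T09_psi
    rw [if_neg (by omega), if_neg (by omega)]
  rw [this, one_mul]

theorem T09_split (hD : D.Good CM) (c : ℝ) (f g : Finset ℕ → ℝ)
    (hf : ∀ S, f (S ∩ D.Ps) = f S) (hg : ∀ S, g (S ∩ D.Pl) = g S) (h : Finset ℕ → ℝ)
    (hh : ∀ S, h S = c * (f S * g S)) : E1 D.P h = c * (E1 D.Ps f * E1 D.Pl g) := by
  rw [← E1_split D CM hD, ← E1_const_mul]
  refine E1_congr _ _ _ fun S _ => ?_
  rw [hh, hf, hg]

theorem E1_Xf_zero (hD : D.Good CM) (a : Fin D.L) : E1 D.P (D.Xf (some a)) = 0 := by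
  have h := D.T09_split CM hD (-D.cf a) D.beta (D.Df a) D.beta_inter (D.Df_inter a a.2)
    (D.Xf (some a)) (fun S => rfl)
  rw [h, T09_E1_Df D CM hD a a.2, mul_zero, mul_zero]

theorem T09_Xf_mul (hD : D.Good CM) (a b : Fin D.L) :
    E1 D.P (fun S => D.Xf (some a) S * D.Xf (some b) S) =
      (D.cf a * D.cf b) * (E1 D.Ps (fun S => (D.beta S) ^ 2) *
        E1 D.Pl (fun S => D.Df a S * D.Df b S)) := by
  refine D.T09_split CM hD (D.cf a * D.cf b) _ _ ?_ ?_ _ ?_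
  · intro S
    rw [beta_inter]
  · intro S
    rw [Df_inter D a a.2, Df_inter D b b.2]
  · intro S
    show (-D.cf a * (D.beta S * D.Df a S)) * (-D.cf b * (D.beta S * D.Df b S)) = _
    ring

theorem sg_none (hD : D.Good CM) : D.sg none = 1 := by
  unfold sg
  have : E1 D.P (fun S => (D.Xf none S) ^ 2) = E1 D.P (fun _ => 1) := by
    refine E1_congr _ _ _ fun S _ => ?_
    show ((1 : ℝ)) ^ 2 = 1
    norm_num
  rw [this, E1_const]

theorem E1_Xf_mul (hD : D.Good CM) (a b : Option (Fin D.L)) :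
    E1 D.P (fun S => D.Xf a S * D.Xf b S) = if a = b then D.sg a else 0 := by
  cases a with
  | none =>
    cases b with
    | none =>
      rw [if_pos rfl]
      unfold sg
      exact E1_congr _ _ _ fun S _ => by ring
    | some b =>
      rw [if_neg (by simp), ← E1_Xf_zero D CM hD b]
      refine E1_congr _ _ _ fun S _ => ?_
      show (1 : ℝ) * _ = _
      rw [one_mul]
  | some a =>
    cases b with
    | none =>
      rw [if_neg (by simp), ← E1_Xf_zero D CM hD a]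
      refine E1_congr _ _ _ fun S _ => ?_
      show _ * (1 : ℝ) = _
      rw [mul_one]
    | some b =>
      by_cases hab : a = b
      · rw [hab, if_pos rfl]
        unfold sg
        exact E1_congr _ _ _ fun S _ => by ring
      · rw [if_neg (by simpa using hab), T09_Xf_mul D CM hD a b]
        have hne : (a : ℕ) ≠ (b : ℕ) := fun h => hab (Fin.ext h)
        rcases lt_or_gt_of_ne hne with h | h
        · rw [T09_E1_Df_mul D CM hD a b h b.2, mul_zero, mul_zero]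
        · have h2 : E1 D.Pl (fun S => D.Df a S * D.Df b S) =
              E1 D.Pl (fun S => D.Df b S * D.Df a S) :=
            E1_congr _ _ _ fun S _ => mul_comm _ _
          rw [h2, T09_E1_Df_mul D CM hD b a h a.2, mul_zero, mul_zero]

theorem sg_nonneg (hD : D.Good CM) (a : Option (Fin D.L)) : 0 ≤ D.sg a := by
  unfold sg
  exact E1_nonneg _ (D.T09_P_one CM hD) _ fun S _ => sq_nonneg _

/-- `V_i` -/
noncomputable def T09_V (i : ℕ) : ℝ := ∏ p ∈ D.lb i, (1 - 1 / (p : ℝ))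

theorem T09_V_ge (hD : D.Good CM) {i : ℕ} (hi : i < D.L) : 3 / 10 ≤ D.T09_V i :=
  V_ge (D.lb i) (D.T09_lb_big CM hD hi) (hD.lsum2 i hi)

theorem T09_V_le_bm (hD : D.Good CM) {i : ℕ} (hi : i < D.L) : D.T09_V i ≤ D.bm i := by
  have h := bon_moment_ge (D.lb i) (D.T09_lb_big CM hD hi) D.k 1 le_rfl
  simp only [pow_one] at h
  exact h

theorem T09_bm_le_V (hD : D.Good CM) {i : ℕ} (hi : i < D.L) :
    D.bm i ≤ D.T09_V i * (1 + Real.exp 17 / 16 ^ D.k) := by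
  have h := bon_moment_rel (D.lb i) (D.T09_lb_big CM hD hi) (hD.lsum2 i hi) D.k 1 le_rfl
    (by norm_num)
  simp only [pow_one] at h
  exact h

theorem T09_s_le_V (hD : D.Good CM) {i : ℕ} (hi : i < D.L) :
    E1 (D.lb i) (fun S => (bon D.k S.card) ^ 2) ≤
      D.T09_V i * (1 + Real.exp 17 / 16 ^ D.k) :=
  bon_moment_rel (D.lb i) (D.T09_lb_big CM hD hi) (hD.lsum2 i hi) D.k 2 (by norm_num) le_rfl

theorem T09_s_nonneg (hD : D.Good CM) {i : ℕ} (hi : i < D.L) :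
    0 ≤ E1 (D.lb i) (fun S => (bon D.k S.card) ^ 2) :=
  E1_nonneg _ (fun p hp => le_trans (by norm_num) (D.T09_lb_big CM hD hi p hp).le) _
    fun S _ => sq_nonneg _

theorem T09_delta_pow (hD : D.Good CM) (a : ℕ) (ha : a ≤ D.L) :
    (1 + Real.exp 17 / 16 ^ D.k) ^ a ≤ 6 / 5 := by
  set δ : ℝ := Real.exp 17 / 16 ^ D.k with hδ
  have hδ0 : 0 ≤ δ := by positivity
  have h1 : (1 + δ) ^ a ≤ Real.exp (δ * a) := by
    rw [mul_comm, Real.exp_nat_mul]
    refine pow_le_pow_left₀ (by positivity) ?_ a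
    have := Real.add_one_le_exp δ
    linarith
  have h2 : δ * a ≤ 1 / 10 := by
    refine le_trans ?_ hD.hLk
    rw [mul_comm]
    refine mul_le_mul_of_nonneg_right ?_ hδ0
    exact_mod_cast ha
  have h3 : Real.exp (1 / 10 : ℝ) ≤ 6 / 5 := by
    have h4 : Real.exp (1 / 10 : ℝ) < 1 / (1 - 1 / 10) :=
      Real.exp_bound_div_one_sub_of_interval' (by norm_num) (by norm_num)
    refine h4.le.trans (by norm_num)
  exact h1.trans ((Real.exp_le_exp.2 h2).trans h3)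

theorem T09_E1_Df_sq (hD : D.Good CM) (a : ℕ) (ha : a < D.L) :
    E1 D.Pl (fun S => D.Df a S * D.Df a S) ≤
      (∏ i ∈ range a, E1 (D.lb i) (fun S => (bon D.k S.card) ^ 2) * (1 / D.bm i) ^ 2) *
        (E1 (D.lb a) (fun S => (bon D.k S.card) ^ 2) * (1 / D.bm a) ^ 2) := by
  have h1 : (fun S => D.Df a S * D.Df a S) =
      fun S => ∏ i ∈ range D.L, (fun T => D.T09_psi a i T * D.T09_psi a i T) (S ∩ D.lb i) := by
    funext S
    rw [D.T09_Df_prod a ha S, ← prod_mul_distrib]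
  rw [h1, T09_E1_Pl D CM hD (fun i T => D.T09_psi a i T * D.T09_psi a i T)]
  have hb := D.T09_bm_pos CM hD ha
  have h2 : E1 (D.lb a) (fun T => D.T09_psi a a T * D.T09_psi a a T) =
      E1 (D.lb a) (fun S => (bon D.k S.card) ^ 2) * (1 / D.bm a) ^ 2 - 1 := by
    have e1 : E1 (D.lb a) (fun T => D.T09_psi a a T * D.T09_psi a a T) =
        E1 (D.lb a) (fun S => ((1 / D.bm a) ^ 2 * (bon D.k S.card) ^ 2 -
          (2 * (1 / D.bm a)) * bon D.k S.card) + 1) := by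
      refine E1_congr _ _ _ fun S _ => ?_
      unfold T09_psi
      rw [if_neg (lt_irrefl a), if_pos rfl]
      ring
    rw [e1, E1_add, E1_sub, E1_const_mul, E1_const_mul, E1_const]
    have e2 : E1 (D.lb a) (fun S => bon D.k S.card) = D.bm a := rfl
    rw [e2]
    field_simp
    ring
  rw [T09_prod_psi D a ha (fun i => E1 (D.lb i) (fun T => D.T09_psi a i T * D.T09_psi a i T))
    (E1 (D.lb a) (fun S => (bon D.k S.card) ^ 2) * (1 / D.bm a) ^ 2 - 1) ?_ h2]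
  · have h3 : ∏ i ∈ range a, E1 (D.lb i) (fun T => D.T09_psi a i T * D.T09_psi a i T) =
        ∏ i ∈ range a, E1 (D.lb i) (fun S => (bon D.k S.card) ^ 2) * (1 / D.bm i) ^ 2 := by
      refine prod_congr rfl fun i hi => ?_
      rw [mul_comm, ← E1_const_mul]
      refine E1_congr _ _ _ fun S _ => ?_
      unfold T09_psi
      rw [if_pos (mem_range.1 hi)]
      ring
    rw [h3]
    refine mul_le_mul_of_nonneg_left (by linarith) (prod_nonneg fun i hi => ?_)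
    exact mul_nonneg (D.T09_s_nonneg CM hD ((mem_range.1 hi).trans ha)) (sq_nonneg _)
  · intro i hi
    have h4 : E1 (D.lb i) (fun T => D.T09_psi a i T * D.T09_psi a i T) =
        E1 (D.lb i) (fun _ => 1) := by
      refine E1_congr _ _ _ fun S _ => ?_
      unfold T09_psi
      rw [if_neg (by omega), if_neg (by omega)]
      norm_num
    rw [h4, E1_const]

theorem T09_cf_Q (hD : D.Good CM) (a : ℕ) (ha : a < D.L) :
    D.cf a * ∏ i ∈ range a, 1 / D.bm i ≤ 2 / D.L := by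
  have hL := D.T09_L_pos CM hD
  have h1 := D.T09_Df_empty_ge' CM hD a ha
  have h2 := D.Df_empty_ge CM hD a ha
  unfold cf
  generalize (∏ i ∈ range a, 1 / D.bm i) = Q at h1
  generalize D.Df a ∅ = x at h1 h2
  generalize (D.L : ℝ) = l at hL
  have hx : 0 < x := by linarith
  have h3 : 1 / (l * x) * Q = (Q / x) / l := by
    field_simp
  rw [h3]
  refine div_le_div_of_nonneg_right ?_ hL.le
  rw [div_le_iff₀ hx]
  linarith

theorem T09_ps (hD : D.Good CM) (a : ℕ) (ha : a < D.L) :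
    ∏ i ∈ range a, E1 (D.lb i) (fun S => (bon D.k S.card) ^ 2) ≤
      (1 + Real.exp 17 / 16 ^ D.k) ^ a * (CM * (1 / 2) ^ a) := by
  calc ∏ i ∈ range a, E1 (D.lb i) (fun S => (bon D.k S.card) ^ 2)
      ≤ ∏ i ∈ range a, D.T09_V i * (1 + Real.exp 17 / 16 ^ D.k) :=
        prod_le_prod (fun i hi => D.T09_s_nonneg CM hD ((mem_range.1 hi).trans ha))
          fun i hi => D.T09_s_le_V CM hD ((mem_range.1 hi).trans ha)
    _ = (1 + Real.exp 17 / 16 ^ D.k) ^ a * ∏ i ∈ range a, D.T09_V i := by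
        rw [prod_mul_distrib, prod_const, card_range]
        ring
    _ ≤ _ := mul_le_mul_of_nonneg_left (hD.hMert a ha.le) (by positivity)

theorem T09_sa (hD : D.Good CM) (a : ℕ) (ha : a < D.L) :
    E1 (D.lb a) (fun S => (bon D.k S.card) ^ 2) * (1 / D.bm a) ^ 2 ≤
      (1 + Real.exp 17 / 16 ^ D.k) * (10 / 3) := by
  have hV : 0 < D.T09_V a := lt_of_lt_of_le (by norm_num) (D.T09_V_ge CM hD ha)
  have hba := D.T09_bm_pos CM hD ha
  have h1 : (1 / D.bm a) ≤ 1 / D.T09_V a :=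
    one_div_le_one_div_of_le hV (D.T09_V_le_bm CM hD ha)
  have h2 : (1 / D.bm a) ^ 2 ≤ (1 / D.T09_V a) ^ 2 :=
    pow_le_pow_left₀ (one_div_pos.2 hba).le h1 2
  have h3 : 1 / D.T09_V a ≤ 10 / 3 := by
    rw [div_le_iff₀ hV]
    have := D.T09_V_ge CM hD ha
    linarith
  have hδ : (0 : ℝ) ≤ 1 + Real.exp 17 / 16 ^ D.k := by positivity
  calc E1 (D.lb a) (fun S => (bon D.k S.card) ^ 2) * (1 / D.bm a) ^ 2
      ≤ (D.T09_V a * (1 + Real.exp 17 / 16 ^ D.k)) * (1 / D.T09_V a) ^ 2 :=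
        mul_le_mul (D.T09_s_le_V CM hD ha) h2 (sq_nonneg _) (mul_nonneg hV.le hδ)
    _ = (1 + Real.exp 17 / 16 ^ D.k) * (1 / D.T09_V a) := by
        field_simp
    _ ≤ _ := mul_le_mul_of_nonneg_left h3 hδ

theorem T09_main (hD : D.Good CM) (a : ℕ) (ha : a < D.L) :
    (∏ i ∈ range a, E1 (D.lb i) (fun S => (bon D.k S.card) ^ 2)) *
      (E1 (D.lb a) (fun S => (bon D.k S.card) ^ 2) * (1 / D.bm a) ^ 2) ≤
      4 * (CM * (1 / 2) ^ a) := by
  have hCM := hD.hCM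
  have hps := D.T09_ps CM hD a ha
  have hsa := D.T09_sa CM hD a ha
  have hδ : (1 + Real.exp 17 / 16 ^ D.k) ^ (a + 1) ≤ 6 / 5 := D.T09_delta_pow CM hD _ ha
  have hsa0 : 0 ≤ E1 (D.lb a) (fun S => (bon D.k S.card) ^ 2) * (1 / D.bm a) ^ 2 :=
    mul_nonneg (D.T09_s_nonneg CM hD ha) (sq_nonneg _)
  have hδ0 : (0 : ℝ) ≤ 1 + Real.exp 17 / 16 ^ D.k := by positivity
  have hCM0 : (0 : ℝ) ≤ CM * (1 / 2) ^ a := by positivity
  calc (∏ i ∈ range a, E1 (D.lb i) (fun S => (bon D.k S.card) ^ 2)) *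
        (E1 (D.lb a) (fun S => (bon D.k S.card) ^ 2) * (1 / D.bm a) ^ 2)
      ≤ ((1 + Real.exp 17 / 16 ^ D.k) ^ a * (CM * (1 / 2) ^ a)) *
          ((1 + Real.exp 17 / 16 ^ D.k) * (10 / 3)) :=
        mul_le_mul hps hsa hsa0 (mul_nonneg (pow_nonneg hδ0 _) hCM0)
    _ = (1 + Real.exp 17 / 16 ^ D.k) ^ (a + 1) * (10 / 3) *
          (CM * (1 / 2) ^ a) := by ring
    _ ≤ (6 / 5) * (10 / 3) * (CM * (1 / 2) ^ a) := by
        refine mul_le_mul_of_nonneg_right ?_ hCM0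
        linarith
    _ = 4 * (CM * (1 / 2) ^ a) := by ring

theorem sg_le (hD : D.Good CM) (a : Fin D.L) :
    D.sg (some a) ≤ 64 * CM * D.Vs * (1 / 2 : ℝ) ^ (a : ℕ) / (D.L : ℝ) ^ 2 := by
  have hL := D.T09_L_pos CM hD
  have hVs := D.Vs_pos CM hD
  have hCM := hD.hCM
  have h0 : D.sg (some a) = E1 D.P (fun S => D.Xf (some a) S * D.Xf (some a) S) := by
    unfold sg
    exact E1_congr _ _ _ fun S _ => by ring
  rw [h0, T09_Xf_mul D CM hD a a]
  have hbeta := D.beta_moment_le2 CM hD 2 (by norm_num) le_rfl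
  have hcf0 := D.cf_pos CM hD a a.2
  have hcf := D.T09_cf_Q CM hD a a.2
  have hQ0 : 0 ≤ ∏ i ∈ range (a : ℕ), 1 / D.bm i :=
    prod_nonneg fun i hi => (one_div_pos.2 (D.T09_bm_pos CM hD ((mem_range.1 hi).trans a.2))).le
  have hDfle : E1 D.Pl (fun S => D.Df a S * D.Df a S) ≤
      ((∏ i ∈ range (a : ℕ), E1 (D.lb i) (fun S => (bon D.k S.card) ^ 2)) *
        (E1 (D.lb a) (fun S => (bon D.k S.card) ^ 2) * (1 / D.bm a) ^ 2)) *
        (∏ i ∈ range (a : ℕ), 1 / D.bm i) ^ 2 := by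
    refine (D.T09_E1_Df_sq CM hD a a.2).trans (le_of_eq ?_)
    rw [prod_mul_distrib, prod_pow]
    ring
  have hDf0 : 0 ≤ E1 D.Pl (fun S => D.Df a S * D.Df a S) := by
    refine E1_nonneg _ (fun p hp => ?_) _ fun S _ => mul_self_nonneg _
    exact D.T09_P_one CM hD p (subset_union_right hp)
  have hmain := D.T09_main CM hD a a.2
  generalize (∏ i ∈ range (a : ℕ), E1 (D.lb i) (fun S => (bon D.k S.card) ^ 2)) *
        (E1 (D.lb a) (fun S => (bon D.k S.card) ^ 2) * (1 / D.bm a) ^ 2) = M at hDfle hmain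
  generalize (∏ i ∈ range (a : ℕ), 1 / D.bm i) = Q at hQ0 hDfle hcf
  generalize E1 D.Pl (fun S => D.Df a S * D.Df a S) = F at hDfle hDf0
  generalize E1 D.Ps (fun S => (D.beta S) ^ 2) = B at hbeta
  generalize D.cf a = c at hcf0 hcf
  generalize D.Vs = v at hVs hbeta
  generalize (D.L : ℝ) = l at hL hcf
  have hh : (0 : ℝ) ≤ (1 / 2 : ℝ) ^ (a : ℕ) := by positivity
  generalize (1 / 2 : ℝ) ^ (a : ℕ) = h at hmain hh
  have hcQ : (c * Q) ^ 2 ≤ (2 / l) ^ 2 := pow_le_pow_left₀ (mul_nonneg hcf0.le hQ0) hcf 2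
  have hCMh : 0 ≤ CM * h := mul_nonneg (by linarith) hh
  calc (c * c) * (B * F)
      ≤ (c * c) * ((2 * v) * (M * Q ^ 2)) := by
        refine mul_le_mul_of_nonneg_left ?_ (mul_self_nonneg _)
        exact mul_le_mul hbeta hDfle hDf0 (by linarith)
    _ = ((2 * v) * M) * (c * Q) ^ 2 := by ring
    _ ≤ ((2 * v) * (4 * (CM * h))) * (2 / l) ^ 2 := by
        refine mul_le_mul ?_ hcQ (sq_nonneg _) ?_
        · exact mul_le_mul_of_nonneg_left hmain (by linarith)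
        · exact mul_nonneg (by linarith) (by linarith)
    _ = 32 * (CM * v * h / l ^ 2) := by
        field_simp
        ring
    _ ≤ 64 * (CM * v * h / l ^ 2) := by
        refine mul_le_mul_of_nonneg_right (by norm_num) ?_
        have : CM * v * h = (CM * h) * v := by ring
        rw [this]
        exact div_nonneg (mul_nonneg hCMh hVs.le) (sq_nonneg _)
    _ = _ := by ring

theorem T09_bl_nonneg (i : ℕ) (S : Finset ℕ) : 0 ≤ D.bl i S := bon_nonneg _ _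

theorem Gf_nonneg (S : Finset ℕ) : 0 ≤ D.Gf S := by
  unfold Gf
  exact mul_nonneg (D.beta_nonneg S) (prod_nonneg fun i _ => D.T09_bl_nonneg i S)

theorem E1_Gf_nonneg (hD : D.Good CM) : 0 ≤ E1 D.P D.Gf :=
  E1_nonneg _ (D.T09_P_one CM hD) _ fun S _ => D.Gf_nonneg S

theorem E1_Gf_le (hD : D.Good CM) : E1 D.P D.Gf ≤ 4 * CM * D.Vs * (1 / 2 : ℝ) ^ D.L := by
  have hVs := D.Vs_pos CM hD
  have hCM := hD.hCM
  have h1 : E1 D.P D.Gf = 1 * (E1 D.Ps D.beta *
      E1 D.Pl (fun S => ∏ i ∈ range D.L, D.bl i S)) := by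
    refine D.T09_split CM hD 1 _ _ D.beta_inter ?_ _ ?_
    · intro S
      exact prod_congr rfl fun i hi => D.bl_inter i (mem_range.1 hi) S
    · intro S
      unfold Gf
      ring
  have h2 : E1 D.Pl (fun S => ∏ i ∈ range D.L, D.bl i S) = ∏ i ∈ range D.L, D.bm i :=
    D.T09_E1_Pl CM hD (fun _ T => bon D.k T.card)
  have h3 : E1 D.Ps D.beta ≤ 2 * D.Vs := by
    have := D.beta_moment_le2 CM hD 1 le_rfl (by norm_num)
    simp only [pow_one] at this
    exact this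
  have h4 : ∏ i ∈ range D.L, D.bm i ≤ (6 / 5) * (CM * (1 / 2) ^ D.L) := by
    calc ∏ i ∈ range D.L, D.bm i
        ≤ ∏ i ∈ range D.L, D.T09_V i * (1 + Real.exp 17 / 16 ^ D.k) :=
          prod_le_prod (fun i hi => (D.T09_bm_pos CM hD (mem_range.1 hi)).le)
            fun i hi => D.T09_bm_le_V CM hD (mem_range.1 hi)
      _ = (1 + Real.exp 17 / 16 ^ D.k) ^ D.L * ∏ i ∈ range D.L, D.T09_V i := by
          rw [prod_mul_distrib, prod_const, card_range]
          ring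
      _ ≤ (6 / 5) * (CM * (1 / 2) ^ D.L) := by
          refine mul_le_mul (D.T09_delta_pow CM hD _ le_rfl) (hD.hMert D.L le_rfl) ?_
            (by norm_num)
          exact prod_nonneg fun i hi =>
            (lt_of_lt_of_le (by norm_num) (D.T09_V_ge CM hD (mem_range.1 hi))).le
  have h5 : 0 ≤ ∏ i ∈ range D.L, D.bm i :=
    prod_nonneg fun i hi => (D.T09_bm_pos CM hD (mem_range.1 hi)).le
  rw [h1, h2, one_mul]
  calc E1 D.Ps D.beta * ∏ i ∈ range D.L, D.bm i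
      ≤ (2 * D.Vs) * ((6 / 5) * (CM * (1 / 2) ^ D.L)) := mul_le_mul h3 h4 h5 (by positivity)
    _ = (12 / 5) * (CM * D.Vs * (1 / 2 : ℝ) ^ D.L) := by ring
    _ ≤ 4 * (CM * D.Vs * (1 / 2 : ℝ) ^ D.L) :=
        mul_le_mul_of_nonneg_right (by norm_num) (by positivity)
    _ = _ := by ring

theorem Gf_empty : D.Gf ∅ = 1 := by
  unfold Gf
  rw [beta_empty, one_mul]
  exact prod_eq_one fun i _ => D.T09_bl_empty i

end SD
end Crest.Agent.PG
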