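import Crest.Agent.PG_T01
import Crest.Agent.PG_T02
/-!
# PG-T10 (S0021): the class `LL` of "divisor sums" is closed under algebra; averages over intervals

`LL f A`: `f = ∑ a_i 1[n ≡ c_i mod d_i]`, `∑ |a_i| ≤ A`.
* product: `1[n ≡ c mod d] 1[n ≡ c' mod d']` is `0` or the indicator of a class modulo `lcm d d'`.
* shift: `1[(n+h) ≡ c mod d]` is an indicator of a class modulo `d` (or zero, if `c ≥ d`).
* `LL_avg`: for one class function the number of `n ∈ (Y, Y+N]` in the class differs from `N/d` by at most `1`;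
  the average over a period `M` of `f` equals `∑ a_i/d_i` (let the number of periods tend to infinity,
  or average over `M ∏ d_i`).  (If `c_i ≥ d_i` the indicator vanishes; treat the density as `0`.)
* `LL_bon`: from `bon_card`: `bon k |hit P n| = ∑_{T ⊆ P, |T| ≤ 2k} (-1)^|T| 1[∏ T ∣ n]` and there are at most
  `(|P|+1)^(2k)` such `T`.
-/
set_option autoImplicit false
namespace Crest.Agent.PG
open Finset

theorem LL_mono {f : ℕ → ℝ} {A B : ℝ} (h : LL f A) (hAB : A ≤ B) : LL f B := by
  obtain ⟨ι, _, a, d, c, hd, hf, ha⟩ := h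
  exact ⟨ι, _, a, d, c, hd, hf, ha.trans hAB⟩

theorem LL_nonneg {f : ℕ → ℝ} {A : ℝ} (h : LL f A) : 0 ≤ A := by
  obtain ⟨ι, _, a, d, c, hd, hf, ha⟩ := h
  exact (Finset.sum_nonneg fun i _ => abs_nonneg _).trans ha

theorem LL_zero : LL (fun _ => 0) 0 :=
  ⟨Empty, inferInstance, fun _ => 0, fun _ => 1, fun _ => 0, fun _ => one_pos, fun n => by simp, by simp⟩

theorem LL_const (c : ℝ) : LL (fun _ => c) |c| :=
  ⟨Unit, inferInstance, fun _ => c, fun _ => 1, fun _ => 0, fun _ => one_pos,
    fun n => by simp [Nat.mod_one], by simp⟩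

theorem LL_add {f g : ℕ → ℝ} {A B : ℝ} (hf : LL f A) (hg : LL g B) : LL (fun n => f n + g n) (A + B) := by
  obtain ⟨ι, _, a, d, c, hd, hf, ha⟩ := hf
  obtain ⟨ι', _, a', d', c', hd', hf', ha'⟩ := hg
  refine ⟨ι ⊕ ι', inferInstance, Sum.elim a a', Sum.elim d d', Sum.elim c c', ?_, ?_, ?_⟩
  · rintro (i | i)
    · exact hd i
    · exact hd' i
  · intro n
    rw [Fintype.sum_sum_type]
    exact congrArg₂ (· + ·) (hf n) (hf' n)
  · rw [Fintype.sum_sum_type]
    simp only [Sum.elim_inl, Sum.elim_inr]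
    linarith

theorem LL_const_mul {f : ℕ → ℝ} {A : ℝ} (c : ℝ) (hf : LL f A) : LL (fun n => c * f n) (|c| * A) := by
  obtain ⟨ι, _, a, d, e, hd, hf, ha⟩ := hf
  refine ⟨ι, inferInstance, fun i => c * a i, d, e, hd, ?_, ?_⟩
  · intro n
    simp only [hf n, Finset.mul_sum, mul_ite, mul_zero]
  · simp only [abs_mul, ← Finset.mul_sum]
    exact mul_le_mul_of_nonneg_left ha (abs_nonneg _)

theorem LL_sub {f g : ℕ → ℝ} {A B : ℝ} (hf : LL f A) (hg : LL g B) : LL (fun n => f n - g n) (A + B) := by
  have h := LL_add hf (LL_const_mul (-1) hg)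
  have e1 : (fun n => f n + -1 * g n) = fun n => f n - g n := by
    funext n; ring
  rw [e1] at h
  simpa using h

theorem T10_ind_mul (d c d' c' : ℕ) (hd : 0 < d) (hd' : 0 < d') :
    ∃ e : ℕ, ∀ n : ℕ, (n % d = c ∧ n % d' = c') ↔ n % (Nat.lcm d d') = e := by
  classical
  have hl : 0 < Nat.lcm d d' := Nat.lcm_pos hd hd'
  by_cases h : ∃ n₀ : ℕ, n₀ % d = c ∧ n₀ % d' = c'
  · obtain ⟨n₀, h1, h2⟩ := h
    refine ⟨n₀ % Nat.lcm d d', fun n => ?_⟩
    constructor
    · rintro ⟨h3, h4⟩
      have e1 : n ≡ n₀ [MOD d] := by rw [Nat.ModEq, h3, h1]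
      have e2 : n ≡ n₀ [MOD d'] := by rw [Nat.ModEq, h4, h2]
      rw [Nat.modEq_iff_dvd, Int.natCast_dvd] at e1 e2
      have e3 : n ≡ n₀ [MOD Nat.lcm d d'] := by
        rw [Nat.modEq_iff_dvd, Int.natCast_dvd]
        exact Nat.lcm_dvd e1 e2
      exact e3
    · intro h3
      have h4 : n ≡ n₀ [MOD Nat.lcm d d'] := h3
      have e1 : n ≡ n₀ [MOD d] := h4.of_dvd (Nat.dvd_lcm_left d d')
      have e2 : n ≡ n₀ [MOD d'] := h4.of_dvd (Nat.dvd_lcm_right d d')
      exact ⟨by rw [← h1]; exact e1, by rw [← h2]; exact e2⟩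
  · refine ⟨Nat.lcm d d', fun n => ?_⟩
    constructor
    · intro h3
      exact absurd ⟨n, h3⟩ h
    · intro h3
      exact absurd h3 (Nat.mod_lt n hl).ne

theorem LL_mul {f g : ℕ → ℝ} {A B : ℝ} (hf : LL f A) (hg : LL g B) : LL (fun n => f n * g n) (A * B) := by
  classical
  have hA := LL_nonneg hf
  obtain ⟨ι, _, a, d, c, hd, hf, ha⟩ := hf
  obtain ⟨ι', _, a', d', c', hd', hf', ha'⟩ := hg
  choose e he using fun (x : ι × ι') => T10_ind_mul (d x.1) (c x.1) (d' x.2) (c' x.2) (hd x.1) (hd' x.2)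
  refine ⟨ι × ι', inferInstance, fun x => a x.1 * a' x.2, fun x => Nat.lcm (d x.1) (d' x.2), e,
    fun x => Nat.lcm_pos (hd x.1) (hd' x.2), ?_, ?_⟩
  · intro n
    simp only [hf n, hf' n]
    rw [Finset.sum_mul_sum, Fintype.sum_prod_type]
    refine Finset.sum_congr rfl fun i _ => Finset.sum_congr rfl fun j _ => ?_
    have := he (i, j) n
    by_cases h1 : n % d i = c i <;> by_cases h2 : n % d' j = c' j
    · have h3 : n % (Nat.lcm (d i) (d' j)) = e (i, j) := this.1 ⟨h1, h2⟩
      simp only [h1, h2, h3, if_true]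
    · have h3 : ¬ n % (Nat.lcm (d i) (d' j)) = e (i, j) := fun h => h2 (this.2 h).2
      simp only [h2, h3, if_false, mul_zero]
    · have h3 : ¬ n % (Nat.lcm (d i) (d' j)) = e (i, j) := fun h => h1 (this.2 h).1
      simp only [h1, h3, if_false, zero_mul]
    · have h3 : ¬ n % (Nat.lcm (d i) (d' j)) = e (i, j) := fun h => h1 (this.2 h).1
      simp only [h1, h3, if_false, zero_mul]
  · rw [Fintype.sum_prod_type]
    simp only [abs_mul]
    rw [← Finset.sum_mul_sum]
    exact mul_le_mul ha ha' (Finset.sum_nonneg fun i _ => abs_nonneg _) hA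

theorem LL_pow {f : ℕ → ℝ} {A : ℝ} (hf : LL f A) (r : ℕ) : LL (fun n => f n ^ r) (A ^ r) := by
  induction r with
  | zero => simpa using LL_const 1
  | succ r ih => simpa only [pow_succ] using LL_mul ih hf

theorem LL_sum {κ : Type} (s : Finset κ) (f : κ → ℕ → ℝ) (A : κ → ℝ) (h : ∀ i ∈ s, LL (f i) (A i)) :
    LL (fun n => ∑ i ∈ s, f i n) (∑ i ∈ s, A i) := by
  classical
  induction s using Finset.induction_on with
  | empty => simpa using LL_zero
  | insert i s hi ih =>
    simp only [Finset.sum_insert hi]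
    exact LL_add (h i (Finset.mem_insert_self _ _)) (ih fun j hj => h j (Finset.mem_insert_of_mem hj))

theorem LL_prod {κ : Type} (s : Finset κ) (f : κ → ℕ → ℝ) (A : κ → ℝ) (h : ∀ i ∈ s, LL (f i) (A i)) :
    LL (fun n => ∏ i ∈ s, f i n) (∏ i ∈ s, A i) := by
  classical
  induction s using Finset.induction_on with
  | empty => simpa using LL_const 1
  | insert i s hi ih =>
    simp only [Finset.prod_insert hi]
    exact LL_mul (h i (Finset.mem_insert_self _ _)) (ih fun j hj => h j (Finset.mem_insert_of_mem hj))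

theorem T10_ind_shift (d c h : ℕ) (hd : 0 < d) : ∃ e : ℕ, ∀ n : ℕ, (n + h) % d = c ↔ n % d = e := by
  by_cases hc : c < d
  · refine ⟨(c + (d - h % d)) % d, fun n => ?_⟩
    have hh : h % d ≤ d := (Nat.mod_lt h hd).le
    have e1 : (n + h) % d = c ↔ n + h ≡ c [MOD d] := by
      rw [Nat.ModEq, Nat.mod_eq_of_lt hc]
    rw [e1]
    have e2 : n % d = (c + (d - h % d)) % d ↔ n ≡ c + (d - h % d) [MOD d] := Iff.rfl
    rw [e2]
    have e3 : h + (d - h % d) ≡ 0 [MOD d] := by
      have : h % d + (d - h % d) = d := by omega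
      have h4 : h + (d - h % d) ≡ h % d + (d - h % d) [MOD d] :=
        Nat.ModEq.add_right _ (Nat.mod_modEq h d).symm
      rw [this] at h4
      exact h4.trans (by simp [Nat.ModEq])
    constructor
    · intro h5
      have h6 : n + h + (d - h % d) ≡ c + (d - h % d) [MOD d] := Nat.ModEq.add_right _ h5
      have h7 : n + (h + (d - h % d)) ≡ n + 0 [MOD d] := Nat.ModEq.add_left _ e3
      have h8 : n ≡ n + h + (d - h % d) [MOD d] := by
        rw [add_assoc]; simpa using h7.symm
      exact h8.trans h6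
    · intro h5
      have h6 : n + h ≡ c + (d - h % d) + h [MOD d] := Nat.ModEq.add_right _ h5
      have h7 : c + (h + (d - h % d)) ≡ c + 0 [MOD d] := Nat.ModEq.add_left _ e3
      have h8 : c + (d - h % d) + h = c + (h + (d - h % d)) := by ring
      rw [h8] at h6
      exact h6.trans (by simpa using h7)
  · refine ⟨d, fun n => ?_⟩
    constructor
    · intro h1
      exact absurd (h1 ▸ Nat.mod_lt (n + h) hd) hc
    · intro h1
      exact absurd h1 (Nat.mod_lt n hd).ne

theorem LL_shift {f : ℕ → ℝ} {A : ℝ} (hf : LL f A) (h : ℕ) : LL (fun n => f (n + h)) A := by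
  obtain ⟨ι, _, a, d, c, hd, hf, ha⟩ := hf
  choose e he using fun (i : ι) => T10_ind_shift (d i) (c i) h (hd i)
  refine ⟨ι, inferInstance, a, d, e, hd, ?_, ha⟩
  intro n
  simp only [hf (n + h)]
  refine Finset.sum_congr rfl fun i _ => ?_
  simp only [he i n]

theorem LL_ind (d c : ℕ) (hd : 0 < d) : LL (fun n => if n % d = c then 1 else 0) 1 :=
  ⟨Unit, inferInstance, fun _ => 1, fun _ => d, fun _ => c, fun _ => hd, fun n => by simp, by simp⟩

/-- density of a class -/
noncomputable def T10_den (d c : ℕ) : ℝ := if c < d then 1 / (d : ℝ) else 0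

theorem T10_count (d c : ℕ) (hd : 0 < d) (Y N : ℕ) :
    |∑ n ∈ Ioc Y (Y + N), (if n % d = c then (1 : ℝ) else 0) - N * T10_den d c| ≤ 1 := by
  unfold T10_den
  by_cases hc : c < d
  · rw [if_pos hc]
    have e1 : ∑ n ∈ Ioc Y (Y + N), (if n % d = c then (1 : ℝ) else 0) =
        ((((Ioc Y (Y + N)).filter (fun n => n ≡ c [MOD d])).card : ℤ) : ℝ) := by
      rw [← Finset.sum_filter, Finset.sum_const, nsmul_eq_mul, mul_one]
      have : (Ioc Y (Y + N)).filter (fun n => n % d = c) =
          (Ioc Y (Y + N)).filter (fun n => n ≡ c [MOD d]) := by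
        refine Finset.filter_congr fun n _ => ?_
        rw [Nat.ModEq, Nat.mod_eq_of_lt hc]
      rw [this]
      simp
    rw [e1, Nat.Ioc_filter_modEq_card _ _ hd]
    set x : ℚ := (((Y + N : ℕ) : ℚ) - c) / d with hx
    set y : ℚ := ((Y : ℚ) - c) / d with hy
    have hdq : (0 : ℚ) < d := by exact_mod_cast hd
    have hxy : x - y = N / d := by
      rw [hx, hy]; push_cast; field_simp; ring
    have hxy0 : y ≤ x := by
      have : 0 ≤ x - y := by rw [hxy]; positivity
      linarith
    have hfl : (⌊y⌋ : ℤ) ≤ ⌊x⌋ := Int.floor_le_floor hxy0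
    have hmax : max (⌊x⌋ - ⌊y⌋) 0 = ⌊x⌋ - ⌊y⌋ := max_eq_left (by linarith)
    rw [hmax]
    have h1 := Int.floor_le x
    have h2 := Int.lt_floor_add_one x
    have h3 := Int.floor_le y
    have h4 := Int.lt_floor_add_one y
    have h5 : |((⌊x⌋ : ℚ) - ⌊y⌋) - N / d| ≤ 1 := by
      rw [abs_le]; constructor <;> linarith
    have h6 : |(((⌊x⌋ - ⌊y⌋ : ℤ) : ℝ)) - N * (1 / (d : ℝ))| = ((|((⌊x⌋ : ℚ) - ⌊y⌋) - N / d| : ℚ) : ℝ) := by
      push_cast
      congr 1
      ring
    rw [h6]
    exact_mod_cast h5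
  · rw [if_neg hc]
    have e1 : ∑ n ∈ Ioc Y (Y + N), (if n % d = c then (1 : ℝ) else 0) = 0 := by
      refine Finset.sum_eq_zero fun n _ => ?_
      rw [if_neg]
      intro h
      exact hc (h ▸ Nat.mod_lt n hd)
    rw [e1]
    simp

theorem LL_avg {f : ℕ → ℝ} {A : ℝ} (hf : LL f A) (M : ℕ) (hM : 0 < M) (hper : ∀ n, f (n + M) = f n)
    (Y N : ℕ) : |∑ n ∈ Ioc Y (Y + N), f n - N * EM M f| ≤ A := by
  have hA := LL_nonneg hf
  obtain ⟨ι, _, a, d, c, hd, hf, ha⟩ := hf
  set δ : ℝ := ∑ i, a i * T10_den (d i) (c i) with hδ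
  have key : ∀ Y N : ℕ, |∑ n ∈ Ioc Y (Y + N), f n - N * δ| ≤ A := by
    intro Y N
    have e1 : ∑ n ∈ Ioc Y (Y + N), f n - N * δ =
        ∑ i, a i * (∑ n ∈ Ioc Y (Y + N), (if n % d i = c i then (1 : ℝ) else 0) -
          N * T10_den (d i) (c i)) := by
      simp only [hf, hδ]
      rw [Finset.sum_comm, Finset.mul_sum, ← Finset.sum_sub_distrib]
      refine Finset.sum_congr rfl fun i _ => ?_
      rw [mul_sub, Finset.mul_sum]
      congr 1
      · refine Finset.sum_congr rfl fun n _ => ?_
        split_ifs <;> simp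
      · ring
    rw [e1]
    refine (Finset.abs_sum_le_sum_abs _ _).trans (le_trans (Finset.sum_le_sum fun i _ => ?_) ha)
    rw [abs_mul]
    have := T10_count (d i) (c i) (hd i) Y N
    nlinarith [abs_nonneg (a i)]
  have hEM : EM M f = δ := by
    by_contra hne
    have hpos : 0 < |EM M f - δ| := abs_pos.2 (sub_ne_zero.2 hne)
    obtain ⟨K, hK⟩ := exists_nat_gt (A / |EM M f - δ|)
    have hK1 : A < K * |EM M f - δ| := by
      rwa [div_lt_iff₀ hpos] at hK
    have hK0 : 0 < K := by
      rcases Nat.eq_zero_or_pos K with h | h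
      · subst h; simp at hK1; linarith
      · exact h
    have h1 := key 0 (K * M)
    have hperK : ∀ n, f (n + K * M) = f n := by
      intro n
      clear h1 hK hK1 hK0
      induction K with
      | zero => simp
      | succ K ih =>
        rw [Nat.succ_mul, ← add_assoc, hper, ih]
    have h2 : ∑ n ∈ Ioc 0 (0 + K * M), f n = (K * M : ℕ) * EM M f := by
      have h3 : EM (K * M) (fun n => f (n + 1)) = EM M f := by
        rw [EM_shift (K * M) f hperK 1, EM_mul_left M K hM hK0 f hper]
      unfold EM at h3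
      have hKM : ((K * M : ℕ) : ℝ) ≠ 0 := by positivity
      rw [div_eq_iff hKM] at h3
      unfold EM
      rw [mul_comm ((K * M : ℕ) : ℝ), ← h3]
      rw [zero_add, Finset.range_eq_Ico, Finset.sum_Ico_add' f 0 (K * M) 1]
      refine Finset.sum_congr ?_ fun _ _ => rfl
      ext n
      simp only [Finset.mem_Ioc, Finset.mem_Ico]
      omega
    rw [h2, ← mul_sub, abs_mul] at h1
    have h4 : (K : ℝ) ≤ |((K * M : ℕ) : ℝ)| := by
      rw [abs_of_nonneg (Nat.cast_nonneg _)]
      have : K ≤ K * M := Nat.le_mul_of_pos_right K hM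
      exact_mod_cast this
    have h5 : (K : ℝ) * |EM M f - δ| ≤ |((K * M : ℕ) : ℝ)| * |EM M f - δ| :=
      mul_le_mul_of_nonneg_right h4 (abs_nonneg _)
    linarith
  rw [hEM]
  exact key Y N

theorem T10_prod_dvd (T : Finset ℕ) (hT : ∀ p ∈ T, p.Prime) (n : ℕ) :
    (∏ p ∈ T, p) ∣ n ↔ ∀ p ∈ T, p ∣ n := by
  constructor
  · intro h p hp
    exact (Finset.dvd_prod_of_mem _ hp).trans h
  · intro h
    exact Finset.prod_primes_dvd n (fun p hp => (hT p hp).prime) h

theorem T10_card_le (P : Finset ℕ) (m : ℕ) :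
    ((P.powerset.filter (fun T => T.card ≤ m)).card : ℝ) ≤ ((P.card : ℝ) + 1) ^ m := by
  have h : (P.powerset.filter (fun T => T.card ≤ m)).card ≤ (P.card + 1) ^ m := by
    have h1 : (P.powerset.filter (fun T => T.card ≤ m)).card ≤
        (Fintype.piFinset (fun _ : Fin m => insert none (P.image some))).card := by
      classical
      -- map a function to its set of values
      have hsurj : (P.powerset.filter (fun T => T.card ≤ m)) ⊆
          (Fintype.piFinset (fun _ : Fin m => insert none (P.image some))).image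
            (fun g : Fin m → Option ℕ => P.filter (fun p => ∃ i, g i = some p)) := by
        intro T hT
        rw [Finset.mem_filter, Finset.mem_powerset] at hT
        obtain ⟨hTP, hTm⟩ := hT
        rw [Finset.mem_image]
        let e := T.equivFin
        refine ⟨fun i => if h : i.val < T.card then some (e.symm ⟨i.val, h⟩ : ℕ) else none, ?_, ?_⟩
        · rw [Fintype.mem_piFinset]
          intro i
          by_cases h : i.val < T.card
          · rw [dif_pos h]
            refine Finset.mem_insert_of_mem (Finset.mem_image.2 ⟨_, ?_, rfl⟩)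
            exact hTP (e.symm ⟨i.val, h⟩).2
          · rw [dif_neg h]
            exact Finset.mem_insert_self _ _
        · ext p
          rw [Finset.mem_filter]
          constructor
          · rintro ⟨_, i, hi⟩
            by_cases h : i.val < T.card
            · have hi' : (some ((e.symm ⟨i.val, h⟩ : T) : ℕ) : Option ℕ) = some p := by
                rw [← hi]; simp only [dif_pos h]
              have := Option.some.inj hi'
              rw [← this]
              exact (e.symm ⟨i.val, h⟩).2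
            · exfalso
              have hi' : (none : Option ℕ) = some p := by
                rw [← hi]; simp only [dif_neg h]
              exact absurd hi' (by simp)
          · intro hp
            refine ⟨hTP hp, ⟨⟨(e ⟨p, hp⟩).val, lt_of_lt_of_le (e ⟨p, hp⟩).2 hTm⟩, ?_⟩⟩
            have h0 : ((e ⟨p, hp⟩ : Fin T.card) : ℕ) < T.card := (e ⟨p, hp⟩).2
            have : (if h : ((e ⟨p, hp⟩ : Fin T.card) : ℕ) < T.card then
                some ((e.symm ⟨((e ⟨p, hp⟩ : Fin T.card) : ℕ), h⟩ : T) : ℕ) else none) = some p := by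
              rw [dif_pos h0]
              simp
            exact this
      exact (Finset.card_le_card hsurj).trans Finset.card_image_le
    refine h1.trans ?_
    rw [Fintype.card_piFinset]
    simp only [Finset.prod_const, Finset.card_univ, Fintype.card_fin]
    refine Nat.pow_le_pow_left ?_ m
    refine (Finset.card_insert_le _ _).trans ?_
    have := Finset.card_image_le (s := P) (f := (some : ℕ → Option ℕ))
    omega
  exact_mod_cast h

theorem LL_bon (P : Finset ℕ) (hP : ∀ p ∈ P, p.Prime) (k : ℕ) :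
    LL (fun n => bon k (hit P n).card) (((P.card : ℝ) + 1) ^ (2 * k)) := by
  classical
  have e1 : (fun n => bon k (hit P n).card) = fun n => ∑ T ∈ P.powerset.filter (fun T => T.card ≤ 2 * k),
      (-1 : ℝ) ^ T.card * (if n % (∏ p ∈ T, p) = 0 then 1 else 0) := by
    funext n
    rw [bon_card, Finset.sum_filter]
    have hsub : (hit P n).powerset ⊆ P.powerset := Finset.powerset_mono.2 (hit_subset P n)
    rw [← Finset.sum_subset hsub]
    · refine Finset.sum_congr rfl fun T hT => ?_
      rw [Finset.mem_powerset] at hT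
      have hTp : ∀ p ∈ T, p.Prime := fun p hp => hP p (hit_subset P n (hT hp))
      have hdvd : (∏ p ∈ T, p) ∣ n := by
        rw [T10_prod_dvd T hTp]
        intro p hp
        have := hT hp
        unfold hit at this
        exact (Finset.mem_filter.1 this).2
      rw [if_pos (Nat.mod_eq_zero_of_dvd hdvd)]
      simp
    · intro T hT hT'
      rw [Finset.mem_powerset] at hT hT'
      have hTp : ∀ p ∈ T, p.Prime := fun p hp => hP p (hT hp)
      have hdvd : ¬ (∏ p ∈ T, p) ∣ n := by
        rw [T10_prod_dvd T hTp]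
        intro h
        apply hT'
        intro p hp
        unfold hit
        exact Finset.mem_filter.2 ⟨hT hp, h p hp⟩
      rw [if_neg (fun h => hdvd (Nat.dvd_of_mod_eq_zero h))]
      simp
  rw [e1]
  have h2 : LL (fun n => ∑ T ∈ P.powerset.filter (fun T => T.card ≤ 2 * k),
      (-1 : ℝ) ^ T.card * (if n % (∏ p ∈ T, p) = 0 then 1 else 0))
      (∑ T ∈ P.powerset.filter (fun T => T.card ≤ 2 * k), 1) := by
    refine LL_sum _ (fun T n => (-1 : ℝ) ^ T.card * (if n % (∏ p ∈ T, p) = 0 then 1 else 0)) (fun _ => 1) ?_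
    intro T hT
    rw [Finset.mem_filter, Finset.mem_powerset] at hT
    have hpos : 0 < ∏ p ∈ T, p := Finset.prod_pos fun p hp => (hP p (hT.1 hp)).pos
    have := LL_const_mul ((-1 : ℝ) ^ T.card) (LL_ind (∏ p ∈ T, p) 0 hpos)
    simpa using this
  refine LL_mono h2 ?_
  simp only [Finset.sum_const, nsmul_eq_mul, mul_one]
  exact T10_card_le P (2 * k)

/-- functions `Φ (n % Q) n` -/
theorem LL_class (Q : ℕ) (hQ : 0 < Q) (Φ : ℕ → ℕ → ℝ) (A : ℝ) (h : ∀ b < Q, LL (Φ b) A) :
    LL (fun n => Φ (n % Q) n) (Q * A) := by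
  have e1 : (fun n => Φ (n % Q) n) = fun n => ∑ b ∈ range Q, (if n % Q = b then 1 else 0) * Φ b n := by
    funext n
    rw [Finset.sum_eq_single (n % Q)]
    · simp
    · intro b _ hb
      rw [if_neg (fun h => hb h.symm), zero_mul]
    · intro h
      exact absurd (Finset.mem_range.2 (Nat.mod_lt n hQ)) h
  rw [e1]
  have h2 := LL_sum (range Q) (fun b n => (if n % Q = b then (1 : ℝ) else 0) * Φ b n) (fun _ => 1 * A)
    (fun b hb => LL_mul (LL_ind Q b hQ) (h b (Finset.mem_range.1 hb)))
  simpa using h2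

end Crest.Agent.PG
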