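import Crest.Agent.PG_T09
import Crest.Agent.PG_T10
/-!
# PG-T11 (S0021): `LL` norms of the objects attached to the sieve data

`hit D.P m ∩ D.sb i = hit (D.sb i) m` for `i < I` (`hit_inter`).
* `LL_beta`: `∏_{i<I} (z^((1/2)^i))^(2(k+i)) = z^(∑ 2(k+i)/2^i) ≤ z^(4k+4)` (real powers; `z ≥ 1`).
* `LL_Xf`: `Mf a` has norm `≤ ∏_{i<a} (10/3) z^(2k 2^(i+1)) ≤ (10/3)^a z^(4k(2^a-1))`, `cf a ≤ 2`.
* `LL_Psi`, `LL_Psit`: an assignment with `Lev j ≤ Lam = 4·2^L` has at most `2^(L+1)` nontrivial positions,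
  there are `(L+1)^|ι|` assignments, `0 ≤ br ≤ 1`.
-/
set_option autoImplicit false
namespace Crest.Agent.PG
open Finset
namespace SD
variable (D : SD) (CM : ℝ)

/-- the bound for the norm of `Psi` with `N` positions -/
noncomputable def NB (N : ℕ) : ℝ :=
  ((D.L : ℝ) + 1) ^ N * ((4 : ℝ) ^ (D.L + 1)) ^ (2 ^ (D.L + 1)) * D.z ^ ((16 * D.k + 16) * 2 ^ D.L)

theorem hit_inter_sb (i : ℕ) (hi : i < D.I) (m : ℕ) : hit D.P m ∩ D.sb i = hit (D.sb i) m := by
  ext p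
  simp only [hit, mem_inter, mem_filter]
  constructor
  · rintro ⟨⟨_, h2⟩, h3⟩; exact ⟨h3, h2⟩
  · rintro ⟨h1, h2⟩
    refine ⟨⟨?_, h2⟩, h1⟩
    exact mem_union_left _ (mem_biUnion.mpr ⟨i, mem_range.mpr hi, h1⟩)

theorem hit_inter_lb (i : ℕ) (hi : i < D.L) (m : ℕ) : hit D.P m ∩ D.lb i = hit (D.lb i) m := by
  ext p
  simp only [hit, mem_inter, mem_filter]
  constructor
  · rintro ⟨⟨_, h2⟩, h3⟩; exact ⟨h3, h2⟩
  · rintro ⟨h1, h2⟩
    refine ⟨⟨?_, h2⟩, h1⟩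
    exact mem_union_right _ (mem_biUnion.mpr ⟨i, mem_range.mpr hi, h1⟩)

/-- `∑_{i<n} 2(k+i)/2^i ≤ 4k+4`. -/
theorem sum_exp_le (k n : ℕ) :
    ∑ i ∈ range n, (1 / 2 : ℝ) ^ i * ((2 * (k + i) : ℕ) : ℝ) ≤ ((4 * k + 4 : ℕ) : ℝ) := by
  have h : ∀ n : ℕ, ∑ i ∈ range n, (1 / 2 : ℝ) ^ i * ((2 * (k + i) : ℕ) : ℝ)
      = 4 * k + 4 - (4 * k + 4 + 4 * n) * (1 / 2 : ℝ) ^ n := by
    intro n
    induction n with
    | zero => simp
    | succ n ih =>
      rw [sum_range_succ, ih]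
      push_cast
      rw [pow_succ]
      ring
  rw [h]
  push_cast
  have : 0 ≤ (4 * (k : ℝ) + 4 + 4 * n) * (1 / 2 : ℝ) ^ n := by positivity
  linarith

theorem LL_beta (hD : D.Good CM) (h : ℕ) :
    LL (fun n => D.beta (hit D.P (n + h))) (D.z ^ (4 * D.k + 4)) := by
  have h1 : LL (fun n => ∏ i ∈ range D.I, bon (D.k + i) (hit (D.sb i) (n + h)).card)
      (∏ i ∈ range D.I, (((D.sb i).card : ℝ) + 1) ^ (2 * (D.k + i))) := by
    refine LL_prod (range D.I) (fun i n => bon (D.k + i) (hit (D.sb i) (n + h)).card) _ ?_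
    intro i hi
    have hi' := mem_range.mp hi
    have := LL_bon (D.sb i) (fun p hp => hD.prime p
      (mem_union_left _ (mem_biUnion.mpr ⟨i, hi, hp⟩))) (D.k + i)
    exact LL_shift this h
  have h2 : (fun n => D.beta (hit D.P (n + h)))
      = (fun n => ∏ i ∈ range D.I, bon (D.k + i) (hit (D.sb i) (n + h)).card) := by
    funext n
    unfold beta
    refine prod_congr rfl fun i hi => ?_
    rw [D.hit_inter_sb i (mem_range.mp hi)]
  rw [h2]
  refine LL_mono h1 ?_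
  have hz0 : 0 ≤ D.z := le_trans zero_le_one hD.hz
  have hz1 : 0 < D.z := lt_of_lt_of_le zero_lt_one hD.hz
  calc ∏ i ∈ range D.I, (((D.sb i).card : ℝ) + 1) ^ (2 * (D.k + i))
      ≤ ∏ i ∈ range D.I, D.z ^ ((1 / 2 : ℝ) ^ i * ((2 * (D.k + i) : ℕ) : ℝ)) := by
        refine prod_le_prod (fun i _ => by positivity) fun i hi => ?_
        rw [Real.rpow_mul hz0, Real.rpow_natCast]
        exact pow_le_pow_left₀ (by positivity) (hD.scard i (mem_range.mp hi)) _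
    _ = D.z ^ (∑ i ∈ range D.I, (1 / 2 : ℝ) ^ i * ((2 * (D.k + i) : ℕ) : ℝ)) := by
        rw [Real.rpow_sum_of_pos hz1]
    _ ≤ D.z ^ (((4 * D.k + 4 : ℕ)) : ℝ) :=
        Real.rpow_le_rpow_of_exponent_le hD.hz (sum_exp_le _ _)
    _ = D.z ^ (4 * D.k + 4) := by rw [Real.rpow_natCast]

theorem LL_bl (hD : D.Good CM) (i : ℕ) (hi : i < D.L) (h : ℕ) :
    LL (fun n => D.bl i (hit D.P (n + h))) (D.z ^ (4 * D.k * 2 ^ i)) := by
  have h1 := LL_shift (LL_bon (D.lb i) (fun p hp => hD.prime p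
      (mem_union_right _ (mem_biUnion.mpr ⟨i, mem_range.mpr hi, hp⟩))) D.k) h
  have h2 : (fun n => D.bl i (hit D.P (n + h))) = (fun n => bon D.k (hit (D.lb i) (n + h)).card) := by
    funext n
    unfold bl
    rw [D.hit_inter_lb i hi]
  rw [h2]
  refine LL_mono h1 ?_
  calc (((D.lb i).card : ℝ) + 1) ^ (2 * D.k) ≤ (D.z ^ (2 ^ (i + 1))) ^ (2 * D.k) :=
        pow_le_pow_left₀ (by positivity) (hD.lcard i hi) _
    _ = D.z ^ (4 * D.k * 2 ^ i) := by rw [← pow_mul]; congr 1; ring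

theorem pow_z_le (hD : D.Good CM) {a b : ℕ} (h : a ≤ b) : D.z ^ a ≤ D.z ^ b :=
  pow_le_pow_right₀ hD.hz h

theorem prod_z_pow (c n : ℕ) : ∏ i ∈ range n, D.z ^ (c * 2 ^ i) = D.z ^ (c * (2 ^ n - 1)) := by
  induction n with
  | zero => simp
  | succ n ih =>
    rw [prod_range_succ, ih, ← pow_add]
    congr 1
    have h1 : 1 ≤ 2 ^ n := Nat.one_le_two_pow
    rw [← Nat.mul_add]
    congr 1
    rw [pow_succ]; omega

theorem LL_Mf (hD : D.Good CM) (a : ℕ) (ha : a ≤ D.L) (h : ℕ) :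
    LL (fun n => D.Mf a (hit D.P (n + h))) ((10 / 3 : ℝ) ^ a * D.z ^ (4 * D.k * (2 ^ a - 1))) := by
  have hz0 : 0 ≤ D.z := le_trans zero_le_one hD.hz
  have h1 : LL (fun n => ∏ i ∈ range a, D.bl i (hit D.P (n + h)) / D.bm i)
      (∏ i ∈ range a, ((10 / 3 : ℝ) * D.z ^ (4 * D.k * 2 ^ i))) := by
    refine LL_prod (range a) (fun i n => D.bl i (hit D.P (n + h)) / D.bm i) _ ?_
    intro i hi
    have hi' : i < D.L := lt_of_lt_of_le (mem_range.mp hi) ha
    have hb := D.bm_ge CM hD i hi'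
    have h2 := LL_const_mul (1 / D.bm i) (D.LL_bl CM hD i hi' h)
    have h3 : (fun n => D.bl i (hit D.P (n + h)) / D.bm i)
        = (fun n => 1 / D.bm i * D.bl i (hit D.P (n + h))) := by
      funext n; ring
    rw [h3]
    refine LL_mono h2 ?_
    refine mul_le_mul_of_nonneg_right ?_ (pow_nonneg hz0 _)
    rw [abs_of_pos (by positivity), div_le_iff₀ (by linarith)]
    nlinarith
  have h2 : (fun n => D.Mf a (hit D.P (n + h)))
      = (fun n => ∏ i ∈ range a, D.bl i (hit D.P (n + h)) / D.bm i) := rfl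
  rw [h2]
  refine LL_mono h1 (le_of_eq ?_)
  rw [prod_mul_distrib, prod_const, card_range, D.prod_z_pow]

theorem LL_Xf (hD : D.Good CM) (a : Fin D.L) (h : ℕ) :
    LL (fun n => D.Xf (some a) (hit D.P (n + h))) ((4 : ℝ) ^ (D.L + 1) * D.z ^ ((4 * D.k + 4) * 2 ^ (a.val + 1))) := by
  have hz0 : 0 ≤ D.z := le_trans zero_le_one hD.hz
  have hz1 := hD.hz
  have ha := a.isLt
  have h1 := LL_sub (D.LL_Mf CM hD (a.val + 1) ha h) (D.LL_Mf CM hD a.val ha.le h)
  have h2 := LL_const_mul (- D.cf a) (LL_mul (D.LL_beta CM hD h) h1)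
  have h3 : (fun n => D.Xf (some a) (hit D.P (n + h)))
      = (fun n => - D.cf a * (D.beta (hit D.P (n + h)) * (D.Mf (a.val + 1) (hit D.P (n + h))
          - D.Mf a.val (hit D.P (n + h))))) := rfl
  rw [h3]
  refine LL_mono h2 ?_
  have hc0 := D.cf_pos CM hD a.val ha
  have hc2 := D.cf_le CM hD a.val ha
  rw [abs_neg, abs_of_pos hc0]
  have hs1 : 1 ≤ 2 ^ a.val := Nat.one_le_two_pow
  have hpow : 2 ^ (a.val + 1) = 2 * 2 ^ a.val := by rw [pow_succ]; ring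
  have e1 : (10 / 3 : ℝ) ^ a.val * D.z ^ (4 * D.k * (2 ^ a.val - 1))
      ≤ (10 / 3 : ℝ) ^ (a.val + 1) * D.z ^ (4 * D.k * (2 ^ (a.val + 1) - 1)) := by
    refine mul_le_mul ?_ (D.pow_z_le CM hD ?_) (pow_nonneg hz0 _) (by positivity)
    · exact pow_le_pow_right₀ (by norm_num) (by omega)
    · exact Nat.mul_le_mul_left _ (by omega)
  have e2 : (10 / 3 : ℝ) ^ (a.val + 1) ≤ 4 ^ D.L :=
    calc (10 / 3 : ℝ) ^ (a.val + 1) ≤ 4 ^ (a.val + 1) := pow_le_pow_left₀ (by norm_num) (by norm_num) _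
      _ ≤ 4 ^ D.L := pow_le_pow_right₀ (by norm_num) (by omega)
  have e3 : D.z ^ (4 * D.k + 4) * D.z ^ (4 * D.k * (2 ^ (a.val + 1) - 1))
      ≤ D.z ^ ((4 * D.k + 4) * 2 ^ (a.val + 1)) := by
    rw [← pow_add]
    refine D.pow_z_le CM hD ?_
    have h5 : 1 ≤ 2 ^ (a.val + 1) := Nat.one_le_two_pow
    obtain ⟨x, hx⟩ := Nat.exists_eq_add_of_le h5
    rw [hx]
    have : 1 + x - 1 = x := by omega
    rw [this]
    ring_nf
    omega
  have hA : 0 ≤ D.z ^ (4 * D.k * (2 ^ (a.val + 1) - 1)) := pow_nonneg hz0 _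
  have hB : 0 ≤ D.z ^ (4 * D.k + 4) := pow_nonneg hz0 _
  have hC : 0 ≤ (10 / 3 : ℝ) ^ (a.val + 1) := by positivity
  calc D.cf a.val * (D.z ^ (4 * D.k + 4) * ((10 / 3 : ℝ) ^ (a.val + 1) * D.z ^ (4 * D.k * (2 ^ (a.val + 1) - 1))
        + (10 / 3 : ℝ) ^ a.val * D.z ^ (4 * D.k * (2 ^ a.val - 1))))
      ≤ 2 * (D.z ^ (4 * D.k + 4) * ((10 / 3 : ℝ) ^ (a.val + 1) * D.z ^ (4 * D.k * (2 ^ (a.val + 1) - 1))
        + (10 / 3 : ℝ) ^ (a.val + 1) * D.z ^ (4 * D.k * (2 ^ (a.val + 1) - 1)))) := by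
        refine mul_le_mul hc2 ?_ ?_ (by norm_num)
        · refine mul_le_mul_of_nonneg_left ?_ hB
          linarith
        · refine mul_nonneg hB (add_nonneg (mul_nonneg hC hA) ?_)
          exact mul_nonneg (by positivity) (pow_nonneg hz0 _)
    _ = 4 * (10 / 3 : ℝ) ^ (a.val + 1) * (D.z ^ (4 * D.k + 4) * D.z ^ (4 * D.k * (2 ^ (a.val + 1) - 1))) := by
        ring
    _ ≤ 4 * 4 ^ D.L * D.z ^ ((4 * D.k + 4) * 2 ^ (a.val + 1)) := by
        refine mul_le_mul ?_ e3 (mul_nonneg hB hA) (by positivity)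
        linarith
    _ = (4 : ℝ) ^ (D.L + 1) * D.z ^ ((4 * D.k + 4) * 2 ^ (a.val + 1)) := by rw [pow_succ]; ring

theorem LL_Gf (hD : D.Good CM) (h : ℕ) :
    LL (fun n => D.Gf (hit D.P (n + h))) (D.z ^ ((4 * D.k + 4) * 2 ^ D.L)) := by
  have h1 : LL (fun n => ∏ i ∈ range D.L, D.bl i (hit D.P (n + h)))
      (∏ i ∈ range D.L, D.z ^ (4 * D.k * 2 ^ i)) :=
    LL_prod (range D.L) (fun i n => D.bl i (hit D.P (n + h))) _
      (fun i hi => D.LL_bl CM hD i (mem_range.mp hi) h)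
  have h2 := LL_mul (D.LL_beta CM hD h) h1
  have h3 : (fun n => D.Gf (hit D.P (n + h)))
      = (fun n => D.beta (hit D.P (n + h)) * ∏ i ∈ range D.L, D.bl i (hit D.P (n + h))) := rfl
  rw [h3]
  refine LL_mono h2 ?_
  rw [D.prod_z_pow, ← pow_add]
  refine D.pow_z_le CM hD ?_
  have h5 : 1 ≤ 2 ^ D.L := Nat.one_le_two_pow
  obtain ⟨x, hx⟩ := Nat.exists_eq_add_of_le h5
  rw [hx]
  have : 1 + x - 1 = x := by omega
  rw [this]
  ring_nf
  omega

theorem br_nonneg (s : ℕ) : 0 ≤ D.br s := by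
  unfold br; positivity

theorem br_le_one (s : ℕ) : D.br s ≤ 1 := by
  unfold br
  rcases Nat.eq_zero_or_pos D.L with h | h
  · rw [h]; simp
  · rw [div_le_one (by exact_mod_cast h)]
    have := card_filter_le (range D.L) (fun a => D.Lam < s + 2 ^ (a + 1))
    rw [card_range] at this
    exact_mod_cast this

/-- the norm of a local function at one position -/
theorem LL_Xf_opt (hD : D.Good CM) (o : Option (Fin D.L)) (h : ℕ) :
    LL (fun n => D.Xf o (hit D.P (n + h)))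
      (((4 : ℝ) ^ (D.L + 1)) ^ (D.lev o / 2) * D.z ^ ((4 * D.k + 4) * D.lev o)) := by
  have hz0 : 0 ≤ D.z := le_trans zero_le_one hD.hz
  cases o with
  | none =>
    have h1 := LL_const (1 : ℝ)
    have h2 : (fun n => D.Xf none (hit D.P (n + h))) = (fun _ => (1:ℝ)) := rfl
    rw [h2]
    refine LL_mono h1 ?_
    simp [lev]
  | some a =>
    refine LL_mono (D.LL_Xf CM hD a h) ?_
    have h1 : D.lev (some a) = 2 ^ (a.val + 1) := rfl
    rw [h1]
    refine mul_le_mul_of_nonneg_right ?_ (pow_nonneg hz0 _)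
    have h2 : 2 ^ (a.val + 1) / 2 = 2 ^ a.val := by rw [pow_succ]; omega
    rw [h2]
    exact le_self_pow₀ (one_le_pow₀ (by norm_num)) (by positivity)

theorem LL_term (hD : D.Good CM) {ι : Type} [Fintype ι] [DecidableEq ι] (pos : ι → ℕ)
    (j : ι → Option (Fin D.L)) (hj : D.Lev j ≤ D.Lam) :
    LL (fun n => ∏ i, D.Xf (j i) (hit D.P (n + pos i)))
      (((4 : ℝ) ^ (D.L + 1)) ^ (2 ^ (D.L + 1)) * D.z ^ ((16 * D.k + 16) * 2 ^ D.L)) := by
  have hz0 : 0 ≤ D.z := le_trans zero_le_one hD.hz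
  have h1 := LL_prod (univ : Finset ι) (fun i n => D.Xf (j i) (hit D.P (n + pos i))) _
    (fun i _ => D.LL_Xf_opt CM hD (j i) (pos i))
  refine LL_mono h1 ?_
  rw [prod_mul_distrib, prod_pow_eq_pow_sum, prod_pow_eq_pow_sum, ← mul_sum]
  have h2 : ∑ i, D.lev (j i) = D.Lev j := rfl
  rw [h2]
  have hLam : D.Lam = 4 * 2 ^ D.L := rfl
  refine mul_le_mul ?_ ?_ (pow_nonneg hz0 _) (by positivity)
  · refine pow_le_pow_right₀ (one_le_pow₀ (by norm_num)) ?_
    have h3 : (∑ i, D.lev (j i) / 2) * 2 ≤ D.Lev j := by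
      rw [sum_mul]
      exact sum_le_sum fun i _ => Nat.div_mul_le_self _ _
    have h4 : 2 ^ (D.L + 1) = 2 * 2 ^ D.L := by rw [pow_succ]; ring
    omega
  · refine D.pow_z_le CM hD ?_
    calc (4 * D.k + 4) * D.Lev j ≤ (4 * D.k + 4) * D.Lam := Nat.mul_le_mul_left _ hj
      _ = (16 * D.k + 16) * 2 ^ D.L := by rw [hLam]; ring

theorem card_assign {ι : Type} [Fintype ι] [DecidableEq ι] :
    (Fintype.card (ι → Option (Fin D.L)) : ℝ) = ((D.L : ℝ) + 1) ^ (Fintype.card ι) := by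
  rw [Fintype.card_fun, Fintype.card_option, Fintype.card_fin]
  push_cast; rfl

theorem LL_Psi (hD : D.Good CM) {ι : Type} [Fintype ι] [DecidableEq ι] (pos : ι → ℕ) :
    LL (D.Psi pos) (D.NB (Fintype.card ι)) := by
  have hz0 : 0 ≤ D.z := le_trans zero_le_one hD.hz
  have h1 := LL_sum (univ : Finset (ι → Option (Fin D.L)))
    (fun j n => if D.Lev j ≤ D.Lam then ∏ i, D.Xf (j i) (hit D.P (n + pos i)) else 0)
    (fun _ => ((4 : ℝ) ^ (D.L + 1)) ^ (2 ^ (D.L + 1)) * D.z ^ ((16 * D.k + 16) * 2 ^ D.L))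
    (fun j _ => by
      by_cases hj : D.Lev j ≤ D.Lam
      · simp only [if_pos hj]
        exact D.LL_term CM hD pos j hj
      · simp only [if_neg hj]
        exact LL_mono LL_zero (by positivity))
  refine LL_mono h1 (le_of_eq ?_)
  rw [sum_const, card_univ, nsmul_eq_mul, D.card_assign]
  unfold NB; ring

theorem LL_Psit (hD : D.Good CM) {ι : Type} [Fintype ι] [DecidableEq ι] (h0 : ι) (pos : ι → ℕ) :
    LL (D.Psit h0 pos) (D.NB (Fintype.card ι)) := by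
  have hz0 : 0 ≤ D.z := le_trans zero_le_one hD.hz
  have h1 := LL_sum (univ : Finset (ι → Option (Fin D.L)))
    (fun j n => if j h0 = none ∧ D.Lev j ≤ D.Lam then
      D.br (D.Lev j) * ∏ i, D.Xf (j i) (hit D.P (n + pos i)) else 0)
    (fun _ => ((4 : ℝ) ^ (D.L + 1)) ^ (2 ^ (D.L + 1)) * D.z ^ ((16 * D.k + 16) * 2 ^ D.L))
    (fun j _ => by
      by_cases hj : j h0 = none ∧ D.Lev j ≤ D.Lam
      · simp only [if_pos hj]
        refine LL_mono (LL_const_mul (D.br (D.Lev j)) (D.LL_term CM hD pos j hj.2)) ?_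
        rw [abs_of_nonneg (D.br_nonneg _)]
        exact mul_le_of_le_one_left (by positivity) (D.br_le_one _)
      · simp only [if_neg hj]
        exact LL_mono LL_zero (by positivity))
  refine LL_mono h1 (le_of_eq ?_)
  rw [sum_const, card_univ, nsmul_eq_mul, D.card_assign]
  unfold NB; ring

theorem hitP_periodic (m : ℕ) : hit D.P (m + D.Mp) = hit D.P m := by
  unfold hit
  refine filter_congr fun p hp => ?_
  have h1 : p ∣ D.Mp := dvd_prod_of_mem (fun p => p) hp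
  constructor
  · intro h; exact (Nat.dvd_add_left h1).mp h
  · intro h; exact (Nat.dvd_add_left h1).mpr h

theorem Psi_periodic {ι : Type} [Fintype ι] [DecidableEq ι] (pos : ι → ℕ) (n : ℕ) :
    D.Psi pos (n + D.Mp) = D.Psi pos n := by
  unfold Psi
  refine sum_congr rfl fun j _ => ?_
  have h1 : ∀ i, hit D.P (n + D.Mp + pos i) = hit D.P (n + pos i) := by
    intro i
    rw [← D.hitP_periodic (n + pos i)]
    congr 1; ring
  simp only [h1]

theorem Psit_periodic {ι : Type} [Fintype ι] [DecidableEq ι] (h0 : ι) (pos : ι → ℕ) (n : ℕ) :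
    D.Psit h0 pos (n + D.Mp) = D.Psit h0 pos n := by
  unfold Psit
  refine sum_congr rfl fun j _ => ?_
  have h1 : ∀ i, hit D.P (n + D.Mp + pos i) = hit D.P (n + pos i) := by
    intro i
    rw [← D.hitP_periodic (n + pos i)]
    congr 1; ring
  simp only [h1]

theorem Mp_pos (hD : D.Good CM) : 0 < D.Mp :=
  prod_pos fun p hp => (hD.prime p hp).pos

theorem Q_coprime_Mp (hD : D.Good CM) : Nat.Coprime D.Q D.Mp := by
  unfold Mp
  refine Nat.Coprime.prod_right fun p hp => ?_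
  exact ((Nat.Prime.coprime_iff_not_dvd (hD.prime p hp)).mpr (hD.cop p hp)).symm

end SD
end Crest.Agent.PG
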