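import Crest.Agent.PG_T06
import Crest.Agent.PG_T08
/-!
# PG-T12a (S0021): joint moments of `beta` at several positions

`EM (∏ Ps) = ` product over the blocks `s < I` (`EM_prod`, moduli `∏ sb s`) of
`X_s = EM (∏ sb s) (∏_{i∈U} bon (k+s) |hit (sb s) (n+pos i)| ^ a_i) ≥ 0`.  `compare` with `ρ = 16`, `A = 1`
(`bon^a ≤ 2^(a w) ≤ 16^w`) gives `|X_s - m_s| ≤ K₁ σ_s`, `m_s = ∏_{i∈U} E1 (sb s) (bon^a_i) ≥ (3/10)^m`,
`σ_s = ∑_{sb s} 1/p²`, `K₁ = 8 m² 16^m exp(2·m·16·1.1)`; so `|X_s/m_s - 1| ≤ K₂ σ_s`, `K₂ = K₁ (10/3)^m`, and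
`|∏ X_s - ∏ m_s| ≤ ∏ m_s (exp(K₂ ∑ σ_s) - 1) ≤ ∏ m_s K₂ e^{K₂} / W`, as `∑_{p > W} 1/p² ≤ 1/W`.
`∏_s m_s = ∏_{i∈U} E1 Ps (beta^a_i) ≤ (exp(exp 70) Vs)^|U|`.
-/
set_option autoImplicit false
namespace Crest.Agent.PG
open Finset

/-- `∑_{p ∈ P} 1/p² ≤ 1/W` if all elements of `P` are `> W` -/
theorem sum_inv_sq_le (P : Finset ℕ) (W : ℕ) (hW : 0 < W) (hP : ∀ p ∈ P, W < p) :
    ∑ p ∈ P, 1 / (p : ℝ) ^ 2 ≤ 1 / (W : ℝ) := by
  have hsub : P ⊆ Ioc W (max W (P.sup id)) := by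
    intro p hp
    rw [mem_Ioc]
    exact ⟨hP p hp, le_trans (Finset.le_sup (f := id) hp) (le_max_right _ _)⟩
  calc ∑ p ∈ P, 1 / (p : ℝ) ^ 2
      ≤ ∑ p ∈ Ioc W (max W (P.sup id)), 1 / (p : ℝ) ^ 2 :=
        Finset.sum_le_sum_of_subset_of_nonneg hsub (fun i _ _ => by positivity)
    _ = ∑ p ∈ Ioc W (max W (P.sup id)), ((p : ℝ) ^ 2)⁻¹ := by simp [one_div]
    _ ≤ (W : ℝ)⁻¹ - ((max W (P.sup id) : ℕ) : ℝ)⁻¹ :=
        sum_Ioc_inv_sq_le_sub (by omega) (le_max_left _ _)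
    _ ≤ 1 / (W : ℝ) := by
        rw [one_div]
        have : 0 ≤ ((max W (P.sup id) : ℕ) : ℝ)⁻¹ := by positivity
        linarith

/-- products of nearly equal factors -/
theorem prod_near {κ : Type*} [DecidableEq κ] (s : Finset κ) (X M e : κ → ℝ) (hM : ∀ i ∈ s, 0 ≤ M i)
    (he : ∀ i ∈ s, 0 ≤ e i) (h : ∀ i ∈ s, |X i - M i| ≤ M i * e i) :
    |∏ i ∈ s, X i - ∏ i ∈ s, M i| ≤ (∏ i ∈ s, M i) * (Real.exp (∑ i ∈ s, e i) - 1) := by
  induction s using Finset.induction_on with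
  | empty => simp
  | insert a s ha ih =>
    have ih' := ih (fun i hi => hM i (mem_insert_of_mem hi)) (fun i hi => he i (mem_insert_of_mem hi))
      (fun i hi => h i (mem_insert_of_mem hi))
    rw [prod_insert ha, prod_insert ha, sum_insert ha]
    set PX := ∏ i ∈ s, X i with hPX
    set PM := ∏ i ∈ s, M i with hPM
    set E := ∑ i ∈ s, e i with hE
    have hPM0 : 0 ≤ PM := prod_nonneg (fun i hi => hM i (mem_insert_of_mem hi))
    have hMa := hM a (mem_insert_self _ _)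
    have hea := he a (mem_insert_self _ _)
    have hXa := h a (mem_insert_self _ _)
    have hXa2 : |X a| ≤ M a * (1 + e a) := by
      have := abs_sub_abs_le_abs_sub (X a) (M a)
      rw [abs_of_nonneg hMa] at this
      linarith
    have hPX2 : |PX - PM| ≤ PM * (Real.exp E - 1) := ih'
    have e1 : X a * PX - M a * PM = X a * (PX - PM) + (X a - M a) * PM := by ring
    rw [e1]
    have hexpE : 1 ≤ Real.exp E := Real.one_le_exp (sum_nonneg (fun i hi => he i (mem_insert_of_mem hi)))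
    calc |X a * (PX - PM) + (X a - M a) * PM|
        ≤ |X a| * |PX - PM| + |X a - M a| * |PM| := by
          refine (abs_add_le _ _).trans ?_
          rw [abs_mul, abs_mul]
      _ ≤ (M a * (1 + e a)) * (PM * (Real.exp E - 1)) + (M a * e a) * PM := by
          rw [abs_of_nonneg hPM0]
          refine add_le_add (mul_le_mul hXa2 hPX2 (abs_nonneg _) (by positivity)) ?_
          exact mul_le_mul_of_nonneg_right hXa hPM0
      _ = M a * PM * ((1 + e a) * Real.exp E - 1) := by ring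
      _ ≤ M a * PM * (Real.exp (e a + E) - 1) := by
          refine mul_le_mul_of_nonneg_left ?_ (by positivity)
          rw [Real.exp_add]
          have : 1 + e a ≤ Real.exp (e a) := by
            have := Real.add_one_le_exp (e a)
            linarith
          nlinarith [Real.exp_pos E]

theorem small_part (m : ℕ) : ∃ K : ℝ, 0 < K ∧ ∀ (D : SD) (CM : ℝ), D.Good CM → 2 * m ≤ D.W →
    ∀ (ι : Type) [DecidableEq ι] (U : Finset ι) (pos : ι → ℕ) (a : ι → ℕ), U.card ≤ m →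
    Set.InjOn pos U → (∀ i ∈ U, pos i ≤ D.W) → (∀ i ∈ U, 1 ≤ a i ∧ a i ≤ 4) →
    |EM (∏ p ∈ D.Ps, p) (fun n => ∏ i ∈ U, (D.beta (hit D.Ps (n + pos i))) ^ (a i)) -
      ∏ i ∈ U, E1 D.Ps (fun S => (D.beta S) ^ (a i))| ≤ K / D.W * D.Vs ^ U.card := by
  set K₁ : ℝ := 8 * (m : ℝ) ^ 2 * 16 ^ m * Real.exp (2 * m * 16 * (11 / 10)) with hK₁
  set K₂ : ℝ := K₁ * (10 / 3) ^ m with hK₂
  have hK₁0 : 0 ≤ K₁ := by positivity
  have hK₂0 : 0 ≤ K₂ := by positivity
  refine ⟨Real.exp (Real.exp 70) ^ m * (K₂ * Real.exp K₂) + 1, by positivity, ?_⟩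
  intro D CM hD hm ι _ U pos a hUm hinj hpos ha
  have hW0 : 0 < D.W := by have := hD.hW; omega
  have hWR : (100 : ℝ) ≤ D.W := by exact_mod_cast hD.hW
  have hsbP : ∀ s ∈ range D.I, ∀ p ∈ D.sb s, p ∈ D.P := by
    intro s hs p hp
    rw [SD.P, mem_union]
    left
    rw [SD.Ps, mem_biUnion]
    exact ⟨s, hs, hp⟩
  have hdis : ∀ i ∈ range D.I, ∀ j ∈ range D.I, i ≠ j → Disjoint (D.sb i) (D.sb j) := by
    intro i hi j hj hij
    exact hD.ss i (mem_range.1 hi) j (mem_range.1 hj) hij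
  -- the block averages
  set X : ℕ → ℝ := fun s => EM (∏ p ∈ D.sb s, p)
    (fun n => ∏ i ∈ U, (bon (D.k + s) (hit (D.sb s) (n + pos i)).card) ^ (a i)) with hX
  set Mm : ℕ → ℝ := fun s => ∏ i ∈ U, E1 (D.sb s) (fun S => (bon (D.k + s) S.card) ^ (a i)) with hMm
  set sg : ℕ → ℝ := fun s => ∑ p ∈ D.sb s, 1 / (p : ℝ) ^ 2 with hsg
  -- product formula for the joint average
  have h1 : EM (∏ p ∈ D.Ps, p) (fun n => ∏ i ∈ U, (D.beta (hit D.Ps (n + pos i))) ^ (a i)) =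
      ∏ s ∈ range D.I, X s := by
    have hmod : ∏ p ∈ D.Ps, p = ∏ s ∈ range D.I, ∏ p ∈ D.sb s, p := by
      rw [SD.Ps, prod_biUnion]
      intro i hi j hj hij
      exact hdis i hi j hj hij
    have hfun : (fun n => ∏ i ∈ U, (D.beta (hit D.Ps (n + pos i))) ^ (a i)) =
        fun n => ∏ s ∈ range D.I,
          ∏ i ∈ U, (bon (D.k + s) (hit (D.sb s) (n + pos i)).card) ^ (a i) := by
      funext n
      rw [prod_comm]
      refine prod_congr rfl (fun i hi => ?_)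
      rw [SD.beta, prod_pow]
      congr 1
      refine prod_congr rfl (fun s hs => ?_)
      rw [hit_inter]
      intro p hp
      rw [SD.Ps, mem_biUnion]
      exact ⟨s, hs, hp⟩
    rw [hmod, hfun]
    refine EM_prod (range D.I) (fun s => ∏ p ∈ D.sb s, p) ?_ ?_
      (fun s n => ∏ i ∈ U, (bon (D.k + s) (hit (D.sb s) (n + pos i)).card) ^ (a i)) ?_
    · intro s hs
      exact prod_pos (fun p hp => (hD.prime p (hsbP s hs p hp)).pos)
    · intro i hi j hj hij
      refine Nat.Coprime.prod_left (fun p hp => Nat.Coprime.prod_right (fun q hq => ?_))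
      rw [Nat.coprime_primes (hD.prime p (hsbP i hi p hp)) (hD.prime q (hsbP j hj q hq))]
      rintro rfl
      exact (Finset.disjoint_left.1 (hdis i hi j hj hij)) hp hq
    · intro s hs n
      refine prod_congr rfl (fun i hi => ?_)
      have : n + (∏ p ∈ D.sb s, p) + pos i = (n + pos i) + ∏ p ∈ D.sb s, p := by ring
      rw [this, hit_periodic _ _ _ (dvd_refl _)]
  have h2 : ∏ i ∈ U, E1 D.Ps (fun S => (D.beta S) ^ (a i)) = ∏ s ∈ range D.I, Mm s := by
    rw [hMm]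
    simp only
    rw [prod_comm]
    exact prod_congr rfl (fun i _ => D.beta_moment_prod CM hD (a i))
  -- lower bound for the means
  have hMmge : ∀ s ∈ range D.I, (3 / 10 : ℝ) ^ m ≤ Mm s := by
    intro s hs
    have hb : ∀ p ∈ D.sb s, 100 < p := fun p hp =>
      lt_of_le_of_lt hD.hW (hD.big p (hsbP s hs p hp))
    have h3 : ∀ i ∈ U, (3 / 10 : ℝ) ≤ E1 (D.sb s) (fun S => (bon (D.k + s) S.card) ^ (a i)) := by
      intro i hi
      exact (V_ge _ hb (hD.ssum s (mem_range.1 hs))).trans (bon_moment_ge _ hb _ _ (ha i hi).1)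
    calc (3 / 10 : ℝ) ^ m ≤ (3 / 10 : ℝ) ^ U.card :=
          pow_le_pow_of_le_one (by norm_num) (by norm_num) hUm
      _ = ∏ i ∈ U, (3 / 10 : ℝ) := by rw [prod_const]
      _ ≤ Mm s := prod_le_prod (fun i _ => by norm_num) h3
  have hMm0 : ∀ s ∈ range D.I, 0 ≤ Mm s := fun s hs => le_trans (by positivity) (hMmge s hs)
  have hsg0 : ∀ s, 0 ≤ sg s := fun s => sum_nonneg (fun p _ => by positivity)
  -- comparison in one block
  have h4 : ∀ s ∈ range D.I, |X s - Mm s| ≤ K₁ * sg s := by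
    intro s hs
    have hc := compare U pos hinj 16 (by norm_num) (D.sb s)
      (fun p hp => hD.prime p (hsbP s hs p hp))
      (fun p hp => by
        have := hD.big p (hsbP s hs p hp)
        omega)
      (fun i hi p hp => lt_of_le_of_lt (hpos i hi) (hD.big p (hsbP s hs p hp)))
      (fun i S => (bon (D.k + s) S.card) ^ (a i)) (fun _ => 1) (fun _ _ => zero_le_one)
      (by
        intro i hi S _
        have hb0 := bon_nonneg (D.k + s) S.card
        rw [abs_of_nonneg (pow_nonneg hb0 _), one_mul]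
        calc (bon (D.k + s) S.card) ^ (a i) ≤ ((2 : ℝ) ^ S.card) ^ (a i) :=
              pow_le_pow_left₀ hb0 (bon_le_two_pow _ _) _
          _ ≤ ((2 : ℝ) ^ S.card) ^ 4 :=
              pow_le_pow_right₀ (one_le_pow₀ (by norm_num)) (ha i hi).2
          _ = 16 ^ S.card := by
              rw [← pow_mul, mul_comm, pow_mul]
              norm_num)
    refine hc.trans ?_
    simp only [prod_const_one, mul_one]
    refine mul_le_mul_of_nonneg_right ?_ (hsg0 s)
    have hcm : (U.card : ℝ) ≤ m := by exact_mod_cast hUm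
    have hc0 : (0 : ℝ) ≤ U.card := Nat.cast_nonneg _
    have hss : ∑ p ∈ D.sb s, 1 / (p : ℝ) ≤ 11 / 10 := hD.ssum s (mem_range.1 hs)
    have hss0 : 0 ≤ ∑ p ∈ D.sb s, 1 / (p : ℝ) := sum_nonneg (fun p _ => by positivity)
    have e1 : 8 * (U.card : ℝ) ^ 2 ≤ 8 * (m : ℝ) ^ 2 := by gcongr
    have e2 : (16 : ℝ) ^ U.card ≤ 16 ^ m := pow_le_pow_right₀ (by norm_num) hUm
    have e3 : Real.exp (2 * U.card * 16 * ∑ p ∈ D.sb s, 1 / (p : ℝ)) ≤
        Real.exp (2 * m * 16 * (11 / 10)) := by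
      apply Real.exp_le_exp.2
      gcongr
    rw [hK₁]
    exact mul_le_mul (mul_le_mul e1 e2 (by positivity) (by positivity)) e3 (Real.exp_pos _).le
      (by positivity)
  have h5 : ∀ s ∈ range D.I, |X s - Mm s| ≤ Mm s * (K₂ * sg s) := by
    intro s hs
    refine (h4 s hs).trans ?_
    have h6 : (1 : ℝ) ≤ Mm s * (10 / 3) ^ m := by
      have : (3 / 10 : ℝ) ^ m * (10 / 3) ^ m = 1 := by
        rw [← mul_pow]; norm_num
      calc (1 : ℝ) = (3 / 10 : ℝ) ^ m * (10 / 3) ^ m := this.symm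
        _ ≤ Mm s * (10 / 3) ^ m := mul_le_mul_of_nonneg_right (hMmge s hs) (by positivity)
    calc K₁ * sg s = 1 * (K₁ * sg s) := by ring
      _ ≤ (Mm s * (10 / 3) ^ m) * (K₁ * sg s) :=
          mul_le_mul_of_nonneg_right h6 (mul_nonneg hK₁0 (hsg0 s))
      _ = Mm s * (K₂ * sg s) := by rw [hK₂]; ring
  have h7 := prod_near (range D.I) X Mm (fun s => K₂ * sg s) hMm0
    (fun s _ => mul_nonneg hK₂0 (hsg0 s)) h5
  rw [← h1, ← h2] at h7
  refine h7.trans ?_
  -- the sum of the errors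
  have h8 : ∑ s ∈ range D.I, K₂ * sg s ≤ K₂ / D.W := by
    rw [← mul_sum, div_eq_mul_one_div]
    refine mul_le_mul_of_nonneg_left ?_ hK₂0
    have : ∑ s ∈ range D.I, sg s = ∑ p ∈ D.Ps, 1 / (p : ℝ) ^ 2 := by
      rw [SD.Ps, sum_biUnion]
      intro i hi j hj hij
      exact hdis i hi j hj hij
    rw [this]
    refine sum_inv_sq_le _ _ hW0 (fun p hp => hD.big p ?_)
    rw [SD.P, mem_union]
    exact Or.inl hp
  have hx0 : 0 ≤ ∑ s ∈ range D.I, K₂ * sg s := sum_nonneg (fun s _ => mul_nonneg hK₂0 (hsg0 s))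
  have h9 : Real.exp (∑ s ∈ range D.I, K₂ * sg s) - 1 ≤ K₂ / D.W * Real.exp K₂ := by
    set x := ∑ s ∈ range D.I, K₂ * sg s with hx
    have hx1 : x ≤ K₂ := h8.trans (div_le_self hK₂0 (by linarith))
    have h10 : Real.exp x - 1 ≤ x * Real.exp x := by
      have := Real.add_one_le_exp (-x)
      have h11 : Real.exp (-x) * Real.exp x = 1 := by rw [← Real.exp_add]; simp
      nlinarith [Real.exp_pos x]
    calc Real.exp x - 1 ≤ x * Real.exp x := h10
      _ ≤ K₂ / D.W * Real.exp K₂ :=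
          mul_le_mul h8 (Real.exp_le_exp.2 hx1) (Real.exp_pos _).le (by positivity)
  have hVs0 : 0 < D.Vs := D.Vs_pos CM hD
  have h12 : ∏ i ∈ U, E1 D.Ps (fun S => (D.beta S) ^ (a i)) ≤
      Real.exp (Real.exp 70) ^ m * D.Vs ^ U.card := by
    calc ∏ i ∈ U, E1 D.Ps (fun S => (D.beta S) ^ (a i))
        ≤ ∏ i ∈ U, (Real.exp (Real.exp 70) * D.Vs) :=
          prod_le_prod
            (fun i hi => hVs0.le.trans (D.beta_moment_ge CM hD (a i) (ha i hi).1))
            (fun i hi => D.beta_moment_le4 CM hD (a i) (ha i hi).1 (ha i hi).2)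
      _ = Real.exp (Real.exp 70) ^ U.card * D.Vs ^ U.card := by rw [prod_const, mul_pow]
      _ ≤ Real.exp (Real.exp 70) ^ m * D.Vs ^ U.card := by
          refine mul_le_mul_of_nonneg_right ?_ (by positivity)
          exact pow_le_pow_right₀ (Real.one_le_exp (Real.exp_pos _).le) hUm
  have hP0 : 0 ≤ ∏ i ∈ U, E1 D.Ps (fun S => (D.beta S) ^ (a i)) :=
    prod_nonneg (fun i hi => hVs0.le.trans (D.beta_moment_ge CM hD (a i) (ha i hi).1))
  calc (∏ i ∈ U, E1 D.Ps (fun S => (D.beta S) ^ (a i))) *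
        (Real.exp (∑ s ∈ range D.I, K₂ * sg s) - 1)
      ≤ (Real.exp (Real.exp 70) ^ m * D.Vs ^ U.card) * (K₂ / D.W * Real.exp K₂) := by
        refine mul_le_mul h12 h9 ?_ (by positivity)
        have := Real.one_le_exp hx0
        linarith
    _ = (Real.exp (Real.exp 70) ^ m * (K₂ * Real.exp K₂)) / D.W * D.Vs ^ U.card := by ring
    _ ≤ (Real.exp (Real.exp 70) ^ m * (K₂ * Real.exp K₂) + 1) / D.W * D.Vs ^ U.card := by
        gcongr
        linarith

end Crest.Agent.PG
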