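import Crest.Agent.PG_T11
import Crest.Agent.PG_T12b
import Crest.Agent.PG_T13
/-!
# PG-T14 (S0021): local functions `Xf`, `Gf`; second moment of `Psi`

* `Xf_isLoc`: a product of `r ≤ 4` functions `Xf (o s)`, not all trivial, is local with `A = (4^(L+1))^4`, `ρ = 32`:
  `|cf a · Df a S| ≤ 2·(2^|S|)·2·(10/3)^L ≤ 4^(L+1) 2^|S|` (`bon k w ≤ 2^w`, disjoint blocks, `bm ≥ 3/10`), the power of `beta`
  is the number of nontrivial `o s`.
* `Gf_isLoc`.
* `Psi_sq`: expand `Psi² = ∑_{(j,j')} ...`, apply `gen` with `J = (ι → Option) × (ι → Option)` (or `ι → Option × Option`),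
  `U = {i : (j i, j' i) ≠ (none, none)}` (`card ≤ 4·2^L` by `two_mul_card_le_Lev`), `E1_Xf_mul` diagonalises:
  main term `Zn ι`; the error sum is bounded with `sum_err_le` (`κ = Option × Option`, `card = (L+1)²`).
-/
set_option autoImplicit false
namespace Crest.Agent.PG
open Finset
namespace SD

/-- the product of the Bonferroni functions of disjoint large blocks is at most `2^|S|` -/
theorem T14_prod_bl_le (D : SD) (CM : ℝ) (hD : D.Good CM) (a : ℕ) (ha : a ≤ D.L) (S : Finset ℕ) :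
    ∏ i ∈ range a, D.bl i S ≤ (2 : ℝ) ^ S.card := by
  have h1 : ∏ i ∈ range a, D.bl i S ≤ ∏ i ∈ range a, (2 : ℝ) ^ (S ∩ D.lb i).card :=
    Finset.prod_le_prod (fun i _ => bon_nonneg _ _) (fun i _ => bon_le_two_pow _ _)
  refine h1.trans ?_
  rw [Finset.prod_pow_eq_pow_sum]
  refine pow_le_pow_right₀ (by norm_num) ?_
  rw [← Finset.card_biUnion]
  · exact Finset.card_le_card (Finset.biUnion_subset.2 fun i _ => Finset.inter_subset_left)
  · intro i hi j hj hij
    have hi' : i < D.L := lt_of_lt_of_le (by simpa using hi) ha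
    have hj' : j < D.L := lt_of_lt_of_le (by simpa using hj) ha
    exact (hD.ll i hi' j hj' hij).mono Finset.inter_subset_right Finset.inter_subset_right

theorem T14_prod_bl_nonneg (D : SD) (a : ℕ) (S : Finset ℕ) : 0 ≤ ∏ i ∈ range a, D.bl i S :=
  Finset.prod_nonneg fun _ _ => bon_nonneg _ _

theorem T14_Mf_nonneg (D : SD) (CM : ℝ) (hD : D.Good CM) (a : ℕ) (ha : a ≤ D.L) (S : Finset ℕ) :
    0 ≤ D.Mf a S := by
  unfold Mf
  refine Finset.prod_nonneg fun i hi => ?_
  have hi' : i < D.L := lt_of_lt_of_le (by simpa using hi) ha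
  have := D.bm_ge CM hD i hi'
  exact div_nonneg (bon_nonneg _ _) (by linarith)

theorem T14_Mf_le (D : SD) (CM : ℝ) (hD : D.Good CM) (a : ℕ) (ha : a ≤ D.L) (S : Finset ℕ) :
    D.Mf a S ≤ 4 ^ D.L * (2 : ℝ) ^ S.card := by
  unfold Mf
  have h1 : ∏ i ∈ range a, D.bl i S / D.bm i ≤ ∏ i ∈ range a, 4 * D.bl i S := by
    refine Finset.prod_le_prod (fun i hi => ?_) (fun i hi => ?_)
    · have hi' : i < D.L := lt_of_lt_of_le (by simpa using hi) ha
      have := D.bm_ge CM hD i hi'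
      exact div_nonneg (bon_nonneg _ _) (by linarith)
    · have hi' : i < D.L := lt_of_lt_of_le (by simpa using hi) ha
      have h3 := D.bm_ge CM hD i hi'
      have h4 : 0 ≤ D.bl i S := bon_nonneg _ _
      rw [div_le_iff₀ (by linarith)]
      nlinarith
  refine h1.trans ?_
  rw [Finset.prod_mul_distrib, Finset.prod_const, Finset.card_range]
  refine mul_le_mul (pow_le_pow_right₀ (by norm_num) ha) (D.T14_prod_bl_le CM hD a ha S)
    (D.T14_prod_bl_nonneg a S) (by positivity)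

/-- the part of `Xf` living on the large primes -/
noncomputable def T14_Y (D : SD) : Option (Fin D.L) → Finset ℕ → ℝ
  | none => fun _ => 1
  | some a => fun S => - D.cf a * D.Df a S

theorem T14_Y_le (D : SD) (CM : ℝ) (hD : D.Good CM) (o : Option (Fin D.L)) (S : Finset ℕ) :
    |D.T14_Y o S| ≤ 4 ^ (D.L + 1) * (2 : ℝ) ^ S.card := by
  rcases o with _ | a
  · simp only [T14_Y, abs_one]
    have h1 : (1 : ℝ) ≤ 4 ^ (D.L + 1) := one_le_pow₀ (by norm_num)
    have h2 : (1 : ℝ) ≤ 2 ^ S.card := one_le_pow₀ (by norm_num)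
    nlinarith
  · simp only [T14_Y]
    have hc := D.cf_pos CM hD a a.2
    have hc2 := D.cf_le CM hD a a.2
    have hM1 := D.T14_Mf_nonneg CM hD (a + 1) a.2 S
    have hM0 := D.T14_Mf_nonneg CM hD a a.2.le S
    have hM1' := D.T14_Mf_le CM hD (a + 1) a.2 S
    have hM0' := D.T14_Mf_le CM hD a a.2.le S
    have hDf : |D.Df a S| ≤ 4 ^ D.L * (2 : ℝ) ^ S.card := by
      unfold Df
      rw [abs_le]
      constructor <;> linarith
    rw [abs_mul, abs_neg, abs_of_pos hc, pow_succ]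
    have h5 : (0 : ℝ) ≤ 4 ^ D.L * (2 : ℝ) ^ S.card := by positivity
    calc D.cf a * |D.Df a S| ≤ 2 * (4 ^ D.L * (2 : ℝ) ^ S.card) :=
          mul_le_mul hc2 hDf (abs_nonneg _) (by norm_num)
      _ ≤ 4 ^ D.L * 4 * (2 : ℝ) ^ S.card := by nlinarith

theorem T14_Y_inter (D : SD) (o : Option (Fin D.L)) (S : Finset ℕ) :
    D.T14_Y o (S ∩ D.Pl) = D.T14_Y o S := by
  rcases o with _ | a
  · rfl
  · simp only [T14_Y, D.Df_inter a a.2]

theorem T14_Xf_eq (D : SD) (o : Option (Fin D.L)) (S : Finset ℕ) :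
    D.Xf o S = (if o = none then 1 else D.beta S) * D.T14_Y o S := by
  rcases o with _ | a
  · simp [Xf, T14_Y]
  · simp only [Xf, T14_Y, reduceCtorEq, if_false]
    ring

theorem Xf_isLoc (D : SD) (CM : ℝ) (hD : D.Good CM) (r : ℕ) (hr : r ≤ 4) (o : Fin r → Option (Fin D.L))
    (ho : ∃ s, o s ≠ none) :
    D.IsLoc (fun S => ∏ s, D.Xf (o s) S) (((4 : ℝ) ^ (D.L + 1)) ^ 4) 32 := by
  classical
  refine ⟨(univ.filter (fun s => ¬ (o s = none))).card, ?_, ?_, fun S => ∏ s, D.T14_Y (o s) S, ?_, ?_⟩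
  · obtain ⟨s, hs⟩ := ho
    exact Finset.card_pos.2 ⟨s, by simpa using hs⟩
  · refine (Finset.card_filter_le _ _).trans ?_
    simpa using hr
  · intro S hS
    have h1 : ∀ s, D.Xf (o s) S = (if o s = none then 1 else D.beta S) * D.T14_Y (o s) S :=
      fun s => D.T14_Xf_eq (o s) S
    simp only [h1, Finset.prod_mul_distrib, Finset.prod_ite, Finset.prod_const, one_pow, one_mul,
      D.beta_inter, D.T14_Y_inter]
  · intro S hS
    rw [Finset.abs_prod]
    have h1 : ∏ s : Fin r, |D.T14_Y (o s) S| ≤ ∏ s : Fin r, (4 ^ (D.L + 1) * (2 : ℝ) ^ S.card) :=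
      Finset.prod_le_prod (fun s _ => abs_nonneg _) (fun s _ => D.T14_Y_le CM hD (o s) S)
    refine h1.trans ?_
    rw [Finset.prod_const, Finset.card_univ, Fintype.card_fin]
    have h2 : (1 : ℝ) ≤ 4 ^ (D.L + 1) * (2 : ℝ) ^ S.card := by
      have h1 : (1 : ℝ) ≤ 4 ^ (D.L + 1) := one_le_pow₀ (by norm_num)
      have h2 : (1 : ℝ) ≤ 2 ^ S.card := one_le_pow₀ (by norm_num)
      nlinarith
    calc (4 ^ (D.L + 1) * (2 : ℝ) ^ S.card) ^ r ≤ (4 ^ (D.L + 1) * (2 : ℝ) ^ S.card) ^ 4 :=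
          pow_le_pow_right₀ h2 hr
      _ = ((4 : ℝ) ^ (D.L + 1)) ^ 4 * (16 : ℝ) ^ S.card := by
          rw [mul_pow]
          congr 1
          rw [← pow_mul, mul_comm, pow_mul]
          norm_num
      _ ≤ ((4 : ℝ) ^ (D.L + 1)) ^ 4 * (32 : ℝ) ^ S.card := by
          gcongr
          norm_num

theorem Xf_mul_isLoc (D : SD) (CM : ℝ) (hD : D.Good CM) (a b : Option (Fin D.L))
    (ho : (a, b) ≠ (none, none)) :
    D.IsLoc (fun S => D.Xf a S * D.Xf b S) (((4 : ℝ) ^ (D.L + 1)) ^ 4) 32 := by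
  have h := D.Xf_isLoc CM hD 2 (by norm_num) ![a, b] (by
    by_contra hcon
    push Not at hcon
    have h0 := hcon 0
    have h1 := hcon 1
    simp at h0 h1
    exact ho (by rw [h0, h1]))
  simpa [Fin.prod_univ_two] using h

theorem Gf_isLoc (D : SD) (CM : ℝ) (hD : D.Good CM) :
    D.IsLoc D.Gf (((4 : ℝ) ^ (D.L + 1)) ^ 4) 32 := by
  refine ⟨1, le_rfl, by norm_num, fun S => ∏ i ∈ range D.L, D.bl i S, ?_, ?_⟩
  · intro S hS
    unfold Gf
    rw [pow_one, D.beta_inter]
    congr 1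
    refine Finset.prod_congr rfl fun i hi => ?_
    rw [D.bl_inter i (by simpa using hi)]
  · intro S hS
    rw [abs_of_nonneg (D.T14_prod_bl_nonneg _ _)]
    refine (D.T14_prod_bl_le CM hD D.L le_rfl S).trans ?_
    have h1 : (1 : ℝ) ≤ ((4 : ℝ) ^ (D.L + 1)) ^ 4 := one_le_pow₀ (one_le_pow₀ (by norm_num))
    calc (2 : ℝ) ^ S.card ≤ 32 ^ S.card := by gcongr; norm_num
      _ = 1 * 32 ^ S.card := (one_mul _).symm
      _ ≤ _ := by gcongr

/-- an assignment of level at most `Lam` has at most `2·2^L` nontrivial positions -/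
theorem T14_card_le (D : SD) {ι : Type} [Fintype ι] [DecidableEq ι] (j : ι → Option (Fin D.L))
    (hj : D.Lev j ≤ D.Lam) : (univ.filter (fun i => j i ≠ none)).card ≤ 2 * 2 ^ D.L := by
  have h := D.two_mul_card_le_Lev j
  unfold Lam at hj
  omega

theorem Psi_sq (L : ℕ) : ∃ B : ℝ, 0 < B ∧ ∀ (D : SD) (CM : ℝ), D.Good CM → D.L = L → 64 * 2 ^ L ≤ D.W →
    ∀ (ι : Type) [Fintype ι] [DecidableEq ι] (pos : ι → ℕ), Function.Injective pos → (∀ i, pos i ≤ D.W) →
    |EM D.Mp (fun n => (D.Psi pos n) ^ 2) - D.Zn ι| ≤ B / D.W * Real.exp (B * (D.Vs * Fintype.card ι)) := by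
  obtain ⟨Kc, hKc, hgen⟩ := gen (4 * 2 ^ L) L 32 (by norm_num)
  refine ⟨max Kc (((L : ℝ) + 1) ^ 2 * ((4 : ℝ) ^ (L + 1)) ^ 4), lt_max_of_lt_left hKc, ?_⟩
  intro D CM hD hL hW ι _ _ pos hinj hpos
  have hWpos : (0 : ℝ) < D.W := by
    have := hD.hW
    exact_mod_cast (by omega : 0 < D.W)
  set A : ℝ := ((4 : ℝ) ^ (L + 1)) ^ 4 with hA
  have hA0 : 0 ≤ A := by positivity
  have hAL : A = ((4 : ℝ) ^ (D.L + 1)) ^ 4 := by rw [hL]
  have hV := D.Vs_pos CM hD
  have key := hgen D CM hD hL (by omega) ι pos hinj hpos (ι → Option (Fin D.L) × Option (Fin D.L))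
    (fun c => if D.Lev (fun i => (c i).1) ≤ D.Lam ∧ D.Lev (fun i => (c i).2) ≤ D.Lam then 1 else 0)
    (fun c i S => D.Xf (c i).1 S * D.Xf (c i).2 S)
    (fun c => univ.filter (fun i => c i ≠ (none, none))) A hA0
    (by
      intro c hc
      have hc' : D.Lev (fun i => (c i).1) ≤ D.Lam ∧ D.Lev (fun i => (c i).2) ≤ D.Lam := by
        by_contra hcon
        exact hc (if_neg hcon)
      have h1 := D.T14_card_le _ hc'.1
      have h2 := D.T14_card_le _ hc'.2
      have h3 : univ.filter (fun i => c i ≠ (none, none)) ⊆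
          univ.filter (fun i => (c i).1 ≠ none) ∪ univ.filter (fun i => (c i).2 ≠ none) := by
        intro i hi
        simp only [mem_filter, mem_univ, true_and, mem_union, ne_eq] at hi ⊢
        by_contra hcon
        push Not at hcon
        exact hi (Prod.ext hcon.1 hcon.2)
      have h4 := (Finset.card_le_card h3).trans (Finset.card_union_le _ _)
      have h5 : 2 ^ D.L = 2 ^ L := by rw [hL]
      omega)
    (by
      intro c hc i hi
      have : c i = (none, none) := by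
        simpa using hi
      funext S
      simp [this, Xf])
    (by
      intro c hc i hi
      rw [hAL]
      refine D.Xf_mul_isLoc CM hD _ _ ?_
      simpa using hi)
  -- the expansion of the square
  have hexp : ∀ n, (D.Psi pos n) ^ 2 = ∑ c : ι → Option (Fin D.L) × Option (Fin D.L),
      (if D.Lev (fun i => (c i).1) ≤ D.Lam ∧ D.Lev (fun i => (c i).2) ≤ D.Lam then (1 : ℝ) else 0) *
        ∏ i, (D.Xf (c i).1 (hit D.P (n + pos i)) * D.Xf (c i).2 (hit D.P (n + pos i))) := by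
    intro n
    have e := Fintype.sum_equiv (Equiv.arrowProdEquivProdArrow ι (fun _ => Option (Fin D.L))
      (fun _ => Option (Fin D.L)))
      (fun c : ι → Option (Fin D.L) × Option (Fin D.L) =>
      (if D.Lev (fun i => (c i).1) ≤ D.Lam ∧ D.Lev (fun i => (c i).2) ≤ D.Lam then (1 : ℝ) else 0) *
        ∏ i, (D.Xf (c i).1 (hit D.P (n + pos i)) * D.Xf (c i).2 (hit D.P (n + pos i))))
      (fun p : (ι → Option (Fin D.L)) × (ι → Option (Fin D.L)) =>
      (if D.Lev p.1 ≤ D.Lam ∧ D.Lev p.2 ≤ D.Lam then (1 : ℝ) else 0) *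
        ∏ i, (D.Xf (p.1 i) (hit D.P (n + pos i)) * D.Xf (p.2 i) (hit D.P (n + pos i))))
      (fun c => rfl)
    rw [e, Fintype.sum_prod_type, pow_two]
    unfold Psi
    rw [Finset.sum_mul_sum]
    refine Finset.sum_congr rfl fun j _ => Finset.sum_congr rfl fun j' _ => ?_
    rw [Finset.prod_mul_distrib]
    by_cases h1 : D.Lev j ≤ D.Lam <;> by_cases h2 : D.Lev j' ≤ D.Lam <;> simp [h1, h2]
  -- the main term
  have hmain : ∑ c : ι → Option (Fin D.L) × Option (Fin D.L),
      (if D.Lev (fun i => (c i).1) ≤ D.Lam ∧ D.Lev (fun i => (c i).2) ≤ D.Lam then (1 : ℝ) else 0) *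
        ∏ i, E1 D.P (fun S => D.Xf (c i).1 S * D.Xf (c i).2 S) = D.Zn ι := by
    simp only [D.E1_Xf_mul CM hD]
    have e := Fintype.sum_equiv (Equiv.arrowProdEquivProdArrow ι (fun _ => Option (Fin D.L))
      (fun _ => Option (Fin D.L)))
      (fun c : ι → Option (Fin D.L) × Option (Fin D.L) =>
      (if D.Lev (fun i => (c i).1) ≤ D.Lam ∧ D.Lev (fun i => (c i).2) ≤ D.Lam then (1 : ℝ) else 0) *
        ∏ i, (if (c i).1 = (c i).2 then D.sg (c i).1 else 0))
      (fun p : (ι → Option (Fin D.L)) × (ι → Option (Fin D.L)) =>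
      (if D.Lev p.1 ≤ D.Lam ∧ D.Lev p.2 ≤ D.Lam then (1 : ℝ) else 0) *
        ∏ i, (if p.1 i = p.2 i then D.sg (p.1 i) else 0))
      (fun c => rfl)
    rw [e, Fintype.sum_prod_type]
    unfold Zn
    refine Finset.sum_congr rfl fun j _ => ?_
    rw [Finset.sum_eq_single j]
    · by_cases h1 : D.Lev j ≤ D.Lam <;> simp [h1]
    · intro j' _ hne
      have : ∃ i, j i ≠ j' i := by
        by_contra hcon
        push Not at hcon
        exact hne (funext fun i => (hcon i).symm)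
      obtain ⟨i, hi⟩ := this
      rw [Finset.prod_eq_zero (Finset.mem_univ i) (if_neg hi), mul_zero]
    · intro h
      exact absurd (Finset.mem_univ j) h
  -- the error term
  have herr : ∑ c : ι → Option (Fin D.L) × Option (Fin D.L),
      |(if D.Lev (fun i => (c i).1) ≤ D.Lam ∧ D.Lev (fun i => (c i).2) ≤ D.Lam then (1 : ℝ) else 0)| *
        (D.Vs * A) ^ (univ.filter (fun i => c i ≠ (none, none))).card ≤
      Real.exp (((L : ℝ) + 1) ^ 2 * (D.Vs * A) * Fintype.card ι) := by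
    have h1 := sum_err_le (ι := ι) (κ := Option (Fin D.L) × Option (Fin D.L)) (none, none) (D.Vs * A)
      (by positivity)
    have hcard : (Fintype.card (Option (Fin D.L) × Option (Fin D.L)) : ℝ) = ((L : ℝ) + 1) ^ 2 := by
      rw [Fintype.card_prod, Fintype.card_option, Fintype.card_fin, hL]
      push_cast
      ring
    rw [hcard] at h1
    refine le_trans (Finset.sum_le_sum fun c _ => ?_) h1
    have h2 : 0 ≤ (D.Vs * A) ^ (univ.filter (fun i => c i ≠ (none, none))).card := by positivity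
    split_ifs
    · simp
    · simpa using h2
  have hEM : (fun n => (D.Psi pos n) ^ 2) = fun n => ∑ c : ι → Option (Fin D.L) × Option (Fin D.L),
      (if D.Lev (fun i => (c i).1) ≤ D.Lam ∧ D.Lev (fun i => (c i).2) ≤ D.Lam then (1 : ℝ) else 0) *
        ∏ i, (D.Xf (c i).1 (hit D.P (n + pos i)) * D.Xf (c i).2 (hit D.P (n + pos i))) := by
    funext n
    exact hexp n
  rw [hEM, ← hmain]
  refine key.trans ?_
  set B := max Kc (((L : ℝ) + 1) ^ 2 * A) with hB
  have hB1 : Kc ≤ B := le_max_left _ _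
  have hB2 : ((L : ℝ) + 1) ^ 2 * A ≤ B := le_max_right _ _
  have hcard0 : (0 : ℝ) ≤ Fintype.card ι := Nat.cast_nonneg _
  calc Kc / D.W * _ ≤ B / D.W * Real.exp (((L : ℝ) + 1) ^ 2 * (D.Vs * A) * Fintype.card ι) := by
        refine mul_le_mul (by gcongr) herr ?_ (by positivity)
        refine Finset.sum_nonneg fun c _ => ?_
        positivity
    _ ≤ B / D.W * Real.exp (B * (D.Vs * Fintype.card ι)) := by
        have hB0 : 0 < B := lt_of_lt_of_le hKc hB1
        refine mul_le_mul_of_nonneg_left (Real.exp_le_exp.2 ?_) (by positivity)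
        calc ((L : ℝ) + 1) ^ 2 * (D.Vs * A) * Fintype.card ι
            = (((L : ℝ) + 1) ^ 2 * A) * (D.Vs * Fintype.card ι) := by ring
          _ ≤ B * (D.Vs * Fintype.card ι) := by gcongr

end SD
end Crest.Agent.PG
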