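import Crest.Agent.PIS_Defs

/-!
# S0145 blueprint, task PIS-A1a (calculus API, part 1)

Replace the `sorry`s IN THIS FILE (do not change statements or names; helper lemmas are welcome, if they
are of general use put them in a new file `PIS_x*.lean`).  See `PIS_Defs.lean` for the definitions.
-/

set_option autoImplicit false

universe u

namespace PIS

section

variable {A : Type u} [NonUnitalCStarAlgebra A]

/-! ## real functions -/

lemma continuous_rampf (a b : ℝ) : Continuous (rampf a b) := by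
  unfold rampf
  exact continuous_const.max (continuous_const.min ((continuous_id.sub continuous_const).div_const _))
lemma rampf_zero {a b : ℝ} (ha : 0 ≤ a) (hab : a < b) : rampf a b 0 = 0 := by
  unfold rampf
  refine max_eq_left ((min_le_right _ _).trans ?_)
  exact div_nonpos_of_nonpos_of_nonneg (by linarith) (by linarith)
lemma rampf_nonneg (a b t : ℝ) : 0 ≤ rampf a b t := le_max_left _ _
lemma rampf_le_one (a b t : ℝ) : rampf a b t ≤ 1 := max_le zero_le_one (min_le_left _ _)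
lemma rampf_eq_one {a b t : ℝ} (hab : a < b) (h : b ≤ t) : rampf a b t = 1 := by
  unfold rampf
  have h1 : 1 ≤ (t - a) / (b - a) := by
    rw [le_div_iff₀ (by linarith)]
    linarith
  rw [min_eq_left h1, max_eq_right zero_le_one]
lemma rampf_eq_zero {a b t : ℝ} (hab : a < b) (h : t ≤ a) : rampf a b t = 0 := by
  unfold rampf
  refine max_eq_left ((min_le_right _ _).trans ?_)
  exact div_nonpos_of_nonpos_of_nonneg (by linarith) (by linarith)
lemma rampf_le_div {a b t : ℝ} (ha : 0 ≤ a) (hab : a < b) (ht : 0 ≤ t) : rampf a b t ≤ t / b := by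
  have hb : 0 < b := by linarith
  unfold rampf
  refine max_le (by positivity) ?_
  rcases le_total t b with h | h
  · refine (min_le_right _ _).trans ?_
    rw [div_le_div_iff₀ (by linarith) hb]
    nlinarith
  · refine (min_le_left _ _).trans ?_
    rw [le_div_iff₀ hb]
    linarith
lemma continuous_cutf (κ : ℝ) : Continuous (cutf κ) := by
  unfold cutf
  exact continuous_const.max (continuous_id.sub continuous_const)
lemma cutf_zero {κ : ℝ} (hκ : 0 ≤ κ) : cutf κ 0 = 0 := by
  unfold cutf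
  exact max_eq_left (by linarith)
lemma cutf_nonneg (κ t : ℝ) : 0 ≤ cutf κ t := le_max_left _ _
lemma continuous_sgf {σ : ℝ} (hσ : 0 < σ) : Continuous (sgf σ) := by
  unfold sgf
  refine (continuous_const.max continuous_id).div
    ((continuous_const.max continuous_id).add continuous_const) fun t => ?_
  have : (0 : ℝ) ≤ max 0 t := le_max_left _ _
  have h2 : (0 : ℝ) < max 0 (id t) + σ := by
    show (0 : ℝ) < max 0 t + σ
    linarith
  exact h2.ne'
lemma sgf_zero (σ : ℝ) : sgf σ 0 = 0 := by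
  unfold sgf
  simp
lemma sgf_nonneg {σ : ℝ} (hσ : 0 < σ) (t : ℝ) : 0 ≤ sgf σ t := by
  unfold sgf
  have : (0 : ℝ) ≤ max 0 t := le_max_left _ _
  positivity
lemma sgf_le_one {σ : ℝ} (hσ : 0 < σ) (t : ℝ) : sgf σ t ≤ 1 := by
  unfold sgf
  have : (0 : ℝ) ≤ max 0 t := le_max_left _ _
  rw [div_le_one (by linarith)]
  linarith


/-! ## homomorphisms -/

/-- ⋆-homomorphisms are contractive (no surjectivity or unit needed). -/
lemma A1a_norm_map_le {B : Type u} [NonUnitalCStarAlgebra B] (π : A →⋆ₙₐ[ℂ] B) (x : A) :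
    ‖π x‖ ≤ ‖x‖ := NonUnitalStarAlgHom.norm_apply_le π x

/-- ⋆-homomorphisms commute with the functional calculus. -/
lemma map_cfcn {B : Type u} [NonUnitalCStarAlgebra B] (π : A →⋆ₙₐ[ℂ] B) {f : ℝ → ℝ}
    (hf : Continuous f) (hf0 : f 0 = 0) {x : A} (hx : IsSelfAdjoint x) :
    π (cfcₙ f x) = cfcₙ f (π x) := by
  have hc : Continuous π := AddMonoidHomClass.continuous_of_bound π 1 (by
    simpa using fun x => A1a_norm_map_le π x)
  exact NonUnitalStarAlgHomClass.map_cfcₙ (R := ℝ) (S := ℂ) π f x hf.continuousOn hf0 hc hx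
    (hx.map π)

lemma map_rmp {B : Type u} [NonUnitalCStarAlgebra B] (π : A →⋆ₙₐ[ℂ] B) {a b : ℝ} (ha : 0 ≤ a)
    (hab : a < b) {x : A} (hx : IsSelfAdjoint x) : π (rmp a b x) = rmp a b (π x) :=
  map_cfcn π (continuous_rampf a b) (rampf_zero ha hab) hx

lemma map_cut {B : Type u} [NonUnitalCStarAlgebra B] (π : A →⋆ₙₐ[ℂ] B) {κ : ℝ} (hκ : 0 ≤ κ)
    {x : A} (hx : IsSelfAdjoint x) : π (cut κ x) = cut κ (π x) :=
  map_cfcn π (continuous_cutf κ) (cutf_zero hκ) hx

lemma map_rt {B : Type u} [NonUnitalCStarAlgebra B] (π : A →⋆ₙₐ[ℂ] B)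
    {x : A} (hx : IsSelfAdjoint x) : π (rt x) = rt (π x) :=
  map_cfcn π Real.continuous_sqrt Real.sqrt_zero hx

lemma map_sg {B : Type u} [NonUnitalCStarAlgebra B] (π : A →⋆ₙₐ[ℂ] B) {σ : ℝ} (hσ : 0 < σ)
    {x : A} (hx : IsSelfAdjoint x) : π (sg σ x) = sg σ (π x) :=
  map_cfcn π (continuous_sgf hσ) (sgf_zero σ) hx

/-- ⋆-homomorphisms are contractive (no surjectivity or unit needed). -/
lemma norm_map_le {B : Type u} [NonUnitalCStarAlgebra B] (π : A →⋆ₙₐ[ℂ] B) (x : A) :
    ‖π x‖ ≤ ‖x‖ := A1a_norm_map_le π x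

/-! ## self-adjointness -/

lemma isSelfAdjoint_rmp (a b : ℝ) (x : A) : IsSelfAdjoint (rmp a b x) := cfcₙ_predicate _ _
lemma isSelfAdjoint_cut (κ : ℝ) (x : A) : IsSelfAdjoint (cut κ x) := cfcₙ_predicate _ _
lemma isSelfAdjoint_rt (x : A) : IsSelfAdjoint (rt x) := cfcₙ_predicate _ _
lemma isSelfAdjoint_sg (σ : ℝ) (x : A) : IsSelfAdjoint (sg σ x) := cfcₙ_predicate _ _
lemma star_rmp (a b : ℝ) (x : A) : star (rmp a b x) = rmp a b x := isSelfAdjoint_rmp a b x
lemma star_cut (κ : ℝ) (x : A) : star (cut κ x) = cut κ x := isSelfAdjoint_cut κ x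
lemma star_rt (x : A) : star (rt x) = rt x := isSelfAdjoint_rt x
lemma star_sg (σ : ℝ) (x : A) : star (sg σ x) = sg σ x := isSelfAdjoint_sg σ x

end

end PIS
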