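import Crest.Agent.PIS_A1a

/-!
# S0145 blueprint, task PIS-A1b (calculus API, part 2: products, norms, absorption)

Replace the `sorry`s IN THIS FILE (do not change statements or names; helper lemmas are welcome, if they
are of general use put them in a new file `PIS_x*.lean`).  See `PIS_Defs.lean` for the definitions.
-/

set_option autoImplicit false

universe u

namespace PIS

section

variable {A : Type u} [NonUnitalCStarAlgebra A]

/-! ## products -/

lemma rmp_mul_rmp {a b c d : ℝ} (ha : 0 ≤ a) (hab : a < b) (hbc : b ≤ c) (hcd : c < d) {x : A}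
    (hx : IsSelfAdjoint x) : rmp a b x * rmp c d x = rmp c d x := by
  have _ := hx
  unfold rmp
  have h1 := continuous_rampf a b
  have h2 := continuous_rampf c d
  have h3 := rampf_zero ha hab
  have h4 := rampf_zero (show 0 ≤ c by linarith) hcd
  rw [← cfcₙ_mul (rampf a b) (rampf c d) x h1.continuousOn h3 h2.continuousOn h4]
  refine cfcₙ_congr fun t _ => ?_
  change rampf a b t * rampf c d t = rampf c d t
  rcases le_total t c with h | h
  · rw [rampf_eq_zero hcd h, mul_zero]
  · rw [rampf_eq_one hab (hbc.trans h), one_mul]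

lemma rmp_mul_rmp' {a b c d : ℝ} (ha : 0 ≤ a) (hab : a < b) (hbc : b ≤ c) (hcd : c < d) {x : A}
    (hx : IsSelfAdjoint x) : rmp c d x * rmp a b x = rmp c d x := by
  have h := congrArg star (rmp_mul_rmp ha hab hbc hcd hx)
  rwa [star_mul, star_rmp, star_rmp] at h

lemma rmp_mul_cut {a b κ : ℝ} (ha : 0 ≤ a) (hab : a < b) (hbc : b ≤ κ) {x : A}
    (hx : IsSelfAdjoint x) : rmp a b x * cut κ x = cut κ x := by
  have _ := hx
  unfold rmp cut
  have h1 := continuous_rampf a b
  have h2 := continuous_cutf κ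
  have h3 := rampf_zero ha hab
  have h4 := cutf_zero (show 0 ≤ κ by linarith)
  rw [← cfcₙ_mul (rampf a b) (cutf κ) x h1.continuousOn h3 h2.continuousOn h4]
  refine cfcₙ_congr fun t _ => ?_
  change rampf a b t * cutf κ t = cutf κ t
  rcases le_total t κ with h | h
  · have : cutf κ t = 0 := by unfold cutf; exact max_eq_left (by linarith)
    rw [this, mul_zero]
  · rw [rampf_eq_one hab (hbc.trans h), one_mul]

lemma cut_mul_rmp {a b κ : ℝ} (ha : 0 ≤ a) (hab : a < b) (hbc : b ≤ κ) {x : A}
    (hx : IsSelfAdjoint x) : cut κ x * rmp a b x = cut κ x := by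
  have h := congrArg star (rmp_mul_cut ha hab hbc hx)
  rwa [star_mul, star_rmp, star_cut] at h

/-! ## norms (no order) -/

lemma norm_rmp_le_one (a b : ℝ) (x : A) : ‖rmp a b x‖ ≤ 1 := by
  unfold rmp
  refine norm_cfcₙ_le fun t _ => ?_
  rw [Real.norm_eq_abs, abs_of_nonneg (rampf_nonneg a b t)]
  exact rampf_le_one a b t

lemma norm_sg_le_one {σ : ℝ} (hσ : 0 < σ) (x : A) : ‖sg σ x‖ ≤ 1 := by
  unfold sg
  refine norm_cfcₙ_le fun t _ => ?_
  rw [Real.norm_eq_abs, abs_of_nonneg (sgf_nonneg hσ t)]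
  exact sgf_le_one hσ t

/-- If `‖ramp(x)‖ < 1` then the cut at the upper end vanishes (`x` self-adjoint: only the positive
part matters). -/
lemma cut_eq_zero_of_norm_rmp_lt_one {a b : ℝ} (ha : 0 ≤ a) (hab : a < b) {x : A}
    (hx : IsSelfAdjoint x) (h : ‖rmp a b x‖ < 1) : cut b x = 0 := by
  unfold cut
  have h1 := continuous_rampf a b
  have h3 := rampf_zero ha hab
  rw [← cfcₙ_const_zero ℝ x]
  refine cfcₙ_congr fun t ht => ?_
  have h5 : ‖rampf a b t‖ ≤ ‖rmp a b x‖ :=
    norm_apply_le_norm_cfcₙ (rampf a b) x ht h1.continuousOn h3 hx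
  rw [Real.norm_eq_abs, abs_of_nonneg (rampf_nonneg a b t)] at h5
  have h6 : t < b := by
    by_contra hcon
    rw [rampf_eq_one hab (not_lt.1 hcon)] at h5
    linarith
  change cutf b t = 0
  unfold cutf
  exact max_eq_left (by linarith)

/-! ## ideals and absorption -/

/-- A closed right ideal (here: closed `ℂ`-submodule closed under right multiplication) that
contains a self-adjoint `x` contains `f(x)`.  (Approximate `f(t)` by `t · (f(t) t / (t² + σ))`.) -/
lemma cfcn_mem (S : Submodule ℂ A) (hS : IsClosed (S : Set A)) (hmul : ∀ z ∈ S, ∀ w, z * w ∈ S)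
    {x : A} (hx : IsSelfAdjoint x) (hxS : x ∈ S) {f : ℝ → ℝ} (hf : Continuous f) (hf0 : f 0 = 0) :
    cfcₙ f x ∈ S := by
  have hmem : cfcₙ f x ∈ closure (S : Set A) := by
    rw [Metric.mem_closure_iff]
    intro ε hε
    have hε2 : 0 < ε / 2 := half_pos hε
    -- continuity at `0`
    obtain ⟨δ, hδ, hδf⟩ := (Metric.continuous_iff.1 hf) 0 (ε / 2) hε2
    -- boundedness on the quasispectrum
    obtain ⟨M, hM⟩ : ∃ M : ℝ, ∀ t ∈ quasispectrum ℝ x, ‖f t‖ ≤ M := by
      have hcomp : IsCompact (quasispectrum ℝ x) :=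
        NonUnitalContinuousFunctionalCalculus.isCompact_quasispectrum x
      obtain ⟨M, hM⟩ := (hcomp.image hf).isBounded.exists_norm_le
      exact ⟨M, fun t ht => hM _ ⟨t, ht, rfl⟩⟩
    have hM0 : 0 ≤ M := (norm_nonneg _).trans (hM 0 (quasispectrum.zero_mem ℝ x))
    set σ : ℝ := ε / 2 * δ ^ 2 / (M + 1) with hσdef
    have hσ : 0 < σ := by positivity
    set g : ℝ → ℝ := fun t => f t * t / (t ^ 2 + σ) with hg
    have hpos : ∀ t : ℝ, 0 < t ^ 2 + σ := fun t => by positivity
    have hgc : Continuous g := by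
      refine Continuous.div (hf.mul continuous_id) (by fun_prop) fun t => (hpos t).ne'
    have hg0 : g 0 = 0 := by simp [hg]
    refine ⟨x * cfcₙ g x, hmul x hxS _, ?_⟩
    rw [dist_eq_norm]
    have e1 : x * cfcₙ g x = cfcₙ (fun t => t * g t) x := by
      rw [cfcₙ_mul (fun t : ℝ => t) g x (by fun_prop) rfl hgc.continuousOn hg0, cfcₙ_id' ℝ x hx]
    rw [e1, ← cfcₙ_sub f (fun t => t * g t) x hf.continuousOn hf0
      (by fun_prop) (by simp)]
    refine lt_of_le_of_lt (norm_cfcₙ_le (c := ε / 2) fun t ht => ?_) (by linarith)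
    have hpt := hpos t
    have e2 : f t - t * g t = f t * (σ / (t ^ 2 + σ)) := by
      simp only [hg]
      field_simp
      ring
    rw [e2, norm_mul, Real.norm_eq_abs (σ / (t ^ 2 + σ)), abs_of_nonneg (by positivity)]
    rcases lt_or_ge |t| δ with h | h
    · have h7 : ‖f t‖ < ε / 2 := by
        have := hδf t (by rwa [Real.dist_eq, sub_zero])
        rwa [hf0, dist_zero_right] at this
      have h8 : σ / (t ^ 2 + σ) ≤ 1 := by
        rw [div_le_one hpt]
        nlinarith [sq_nonneg t]
      calc ‖f t‖ * (σ / (t ^ 2 + σ)) ≤ ε / 2 * 1 :=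
            mul_le_mul h7.le h8 (by positivity) hε2.le
        _ = ε / 2 := mul_one _
    · have h9 : δ ^ 2 ≤ t ^ 2 := by
        rw [← sq_abs t]
        exact pow_le_pow_left₀ hδ.le h 2
      have h10 : σ / (t ^ 2 + σ) ≤ σ / δ ^ 2 := by
        apply div_le_div_of_nonneg_left hσ.le (by positivity)
        linarith
      calc ‖f t‖ * (σ / (t ^ 2 + σ)) ≤ M * (σ / δ ^ 2) :=
            mul_le_mul (hM t ht) h10 (by positivity) hM0
        _ = M * (ε / 2) / (M + 1) := by
            rw [hσdef]
            field_simp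
        _ ≤ ε / 2 := by
            rw [div_le_iff₀ (by linarith)]
            nlinarith
  rw [hS.closure_eq] at hmem
  exact hmem

/-- `a x = x ⟹ a f(x) = f(x)` (any `a`). -/
lemma mul_cfcn_of_mul_eq {a x : A} (hx : IsSelfAdjoint x) (h : a * x = x) {f : ℝ → ℝ}
    (hf : Continuous f) (hf0 : f 0 = 0) : a * cfcₙ f x = cfcₙ f x := by
  let S : Submodule ℂ A :=
    { carrier := {z | a * z = z}
      zero_mem' := mul_zero a
      add_mem' := by
        intro u v hu hv
        change a * (u + v) = u + v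
        rw [mul_add]
        exact congrArg₂ (· + ·) hu hv
      smul_mem' := by
        intro c u hu
        change a * (c • u) = c • u
        rw [mul_smul_comm]
        exact congrArg (c • ·) hu }
  have hS : IsClosed (S : Set A) := isClosed_eq (continuous_const.mul continuous_id) continuous_id
  exact cfcn_mem S hS (fun z hz w => by
    change a * (z * w) = z * w
    rw [← mul_assoc]
    exact congrArg (· * w) hz) hx h hf hf0

/-- `a x = 0 ⟹ a f(x) = 0` (any `a`). -/
lemma mul_cfcn_of_mul_eq_zero {a x : A} (hx : IsSelfAdjoint x) (h : a * x = 0) {f : ℝ → ℝ}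
    (hf : Continuous f) (hf0 : f 0 = 0) : a * cfcₙ f x = 0 := by
  let S : Submodule ℂ A :=
    { carrier := {z | a * z = 0}
      zero_mem' := mul_zero a
      add_mem' := by
        intro u v hu hv
        change a * (u + v) = 0
        rw [mul_add, show a * u = 0 from hu, show a * v = 0 from hv, add_zero]
      smul_mem' := by
        intro c u hu
        change a * (c • u) = 0
        rw [mul_smul_comm, show a * u = 0 from hu, smul_zero] }
  have hS : IsClosed (S : Set A) :=
    isClosed_eq (continuous_const.mul continuous_id) continuous_const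
  exact cfcn_mem S hS (fun z hz w => by
    change a * (z * w) = 0
    rw [← mul_assoc, show a * z = 0 from hz, zero_mul]) hx h hf hf0

lemma mul_rmp_of_mul_eq {e x : A} (hx : IsSelfAdjoint x) (h : e * x = x) {a b : ℝ} (ha : 0 ≤ a)
    (hab : a < b) : e * rmp a b x = rmp a b x :=
  mul_cfcn_of_mul_eq hx h (continuous_rampf a b) (rampf_zero ha hab)

lemma mul_cut_of_mul_eq {e x : A} (hx : IsSelfAdjoint x) (h : e * x = x) {κ : ℝ} (hκ : 0 ≤ κ) :
    e * cut κ x = cut κ x :=
  mul_cfcn_of_mul_eq hx h (continuous_cutf κ) (cutf_zero hκ)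

lemma mul_rt_of_mul_eq {e x : A} (hx : IsSelfAdjoint x) (h : e * x = x) :
    e * rt x = rt x :=
  mul_cfcn_of_mul_eq hx h Real.continuous_sqrt Real.sqrt_zero

lemma mul_sg_of_mul_eq {e x : A} (hx : IsSelfAdjoint x) (h : e * x = x) {σ : ℝ} (hσ : 0 < σ) :
    e * sg σ x = sg σ x :=
  mul_cfcn_of_mul_eq hx h (continuous_sgf hσ) (sgf_zero σ)

end

end PIS
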