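import Crest.Agent.PIS_A1b

/-!
# S0145 blueprint, task PIS-A1c (domination, trivial facts)

Replace the `sorry`s IN THIS FILE (do not change statements or names; helper lemmas are welcome, if they
are of general use put them in a new file `PIS_x*.lean`).  See `PIS_Defs.lean` for the definitions.
-/

set_option autoImplicit false

universe u

namespace PIS

section

variable {A : Type u} [NonUnitalCStarAlgebra A]

/-! ## domination, trivial facts -/

lemma Dom.refl (x : A) : Dom x x := fun _ _ _ h => h
lemma Dom.trans {x y z : A} (h₁ : Dom x y) (h₂ : Dom y z) : Dom x z :=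
  fun B _ π h => h₂ B π (h₁ B π h)
lemma Dom.mul_right {x y : A} (h : Dom x y) (z : A) : Dom x (y * z) :=
  fun B _ π h' => by rw [map_mul, h B π h', zero_mul]
lemma Dom.mul_left {x y : A} (h : Dom x y) (z : A) : Dom x (z * y) :=
  fun B _ π h' => by rw [map_mul, h B π h', mul_zero]
lemma Dom.add {x y z : A} (h₁ : Dom x y) (h₂ : Dom x z) : Dom x (y + z) :=
  fun B _ π h' => by rw [map_add, h₁ B π h', h₂ B π h', add_zero]
lemma Dom.sub {x y z : A} (h₁ : Dom x y) (h₂ : Dom x z) : Dom x (y - z) :=
  fun B _ π h' => by rw [map_sub, h₁ B π h', h₂ B π h', sub_zero]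
lemma Dom.star {x y : A} (h : Dom x y) : Dom x (star y) :=
  fun B _ π h' => by rw [map_star, h B π h', star_zero]
lemma Dom.zero (x : A) : Dom x 0 := fun _ _ π _ => map_zero π
lemma Dom.cfcn {x y : A} (h : Dom x y) (hy : IsSelfAdjoint y) {f : ℝ → ℝ}
    (hf : Continuous f) (hf0 : f 0 = 0) : Dom x (cfcₙ f y) :=
  fun B _ π h' => by rw [map_cfcn π hf hf0 hy, h B π h', cfcₙ_apply_zero]

end

end PIS
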