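import Crest.Agent.PIS_A1c

/-!
# S0145 blueprint, task PIS-A1d (calculus API with order, part 1)

Replace the `sorry`s IN THIS FILE (do not change statements or names; helper lemmas are welcome, if they
are of general use put them in a new file `PIS_x*.lean`).  See `PIS_Defs.lean` for the definitions.
-/

set_option autoImplicit false

universe u

namespace PIS

section

variable {A : Type u} [NonUnitalCStarAlgebra A] [PartialOrder A] [StarOrderedRing A]

lemma A1d_qs_nonneg {x : A} (hx : 0 ≤ x) {t : ℝ} (ht : t ∈ quasispectrum ℝ x) : 0 ≤ t :=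
  quasispectrum_nonneg_of_nonneg x hx t ht

lemma A1d_qs_le {x : A} (hx : 0 ≤ x) {t : ℝ} (ht : t ∈ quasispectrum ℝ x) : t ≤ ‖x‖ := by
  have hsa : IsSelfAdjoint x := IsSelfAdjoint.of_nonneg hx
  have := NonUnitalIsometricContinuousFunctionalCalculus.norm_quasispectrum_le x ht hsa
  exact (le_abs_self t).trans this

lemma A1d_norm_mem {x : A} (hx : 0 ≤ x) : ‖x‖ ∈ quasispectrum ℝ x := by
  have hsa : IsSelfAdjoint x := IsSelfAdjoint.of_nonneg hx
  obtain ⟨t, ht, hteq⟩ :=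
    (NonUnitalIsometricContinuousFunctionalCalculus.isGreatest_norm_quasispectrum (𝕜 := ℝ) x hsa).1
  have h0 := A1d_qs_nonneg hx ht
  have : ‖x‖ = t := by
    rw [← hteq]
    exact abs_of_nonneg h0
  rwa [this]

lemma map_nonneg' {B : Type u} [NonUnitalCStarAlgebra B] [PartialOrder B] [StarOrderedRing B]
    (π : A →⋆ₙₐ[ℂ] B) {x : A} (hx : 0 ≤ x) : 0 ≤ π x := by
  obtain ⟨y, rfl⟩ := CStarAlgebra.nonneg_iff_eq_star_mul_self.mp hx
  rw [map_mul, map_star]
  exact star_mul_self_nonneg _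

lemma map_mono' {B : Type u} [NonUnitalCStarAlgebra B] [PartialOrder B] [StarOrderedRing B]
    (π : A →⋆ₙₐ[ℂ] B) {x y : A} (hx : x ≤ y) : π x ≤ π y := by
  have := map_nonneg' π (sub_nonneg.2 hx)
  rw [map_sub] at this
  exact sub_nonneg.1 this

lemma rmp_nonneg (a b : ℝ) (x : A) : 0 ≤ rmp a b x :=
  cfcₙ_nonneg fun t _ => rampf_nonneg a b t
lemma cut_nonneg (κ : ℝ) (x : A) : 0 ≤ cut κ x :=
  cfcₙ_nonneg fun t _ => cutf_nonneg κ t
lemma rt_nonneg (x : A) : 0 ≤ rt x :=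
  cfcₙ_nonneg fun t _ => Real.sqrt_nonneg t
lemma sg_nonneg {σ : ℝ} (hσ : 0 < σ) (x : A) : 0 ≤ sg σ x :=
  cfcₙ_nonneg fun t _ => sgf_nonneg hσ t

lemma rt_mul_rt {x : A} (hx : 0 ≤ x) : rt x * rt x = x := by
  have hsa : IsSelfAdjoint x := IsSelfAdjoint.of_nonneg hx
  unfold rt
  rw [← cfcₙ_mul Real.sqrt Real.sqrt x Real.continuous_sqrt.continuousOn Real.sqrt_zero
    Real.continuous_sqrt.continuousOn Real.sqrt_zero]
  conv_rhs => rw [← cfcₙ_id ℝ x hsa]
  refine cfcₙ_congr fun t ht => ?_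
  exact Real.mul_self_sqrt (A1d_qs_nonneg hx ht)

lemma norm_rt_sq {x : A} (hx : 0 ≤ x) : ‖rt x‖ ^ 2 = ‖x‖ := by
  have h1 : ‖star (rt x) * rt x‖ = ‖rt x‖ * ‖rt x‖ := CStarRing.norm_star_mul_self
  rw [star_rt, rt_mul_rt hx] at h1
  rw [h1, sq]

lemma norm_le_of_norm_rmp_lt_one {a b : ℝ} (ha : 0 ≤ a) (hab : a < b) {x : A} (hx : 0 ≤ x)
    (h : ‖rmp a b x‖ < 1) : ‖x‖ ≤ b := by
  have hsa : IsSelfAdjoint x := IsSelfAdjoint.of_nonneg hx
  by_contra hb
  push Not at hb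
  have h1 : ‖rampf a b ‖x‖‖ ≤ ‖rmp a b x‖ :=
    norm_apply_le_norm_cfcₙ (rampf a b) x (A1d_norm_mem hx)
      (continuous_rampf a b).continuousOn (rampf_zero ha hab) hsa
  rw [rampf_eq_one hab hb.le, norm_one] at h1
  linarith

/-- ramp from `0` to `b` is `t / b` up to `b`. -/
lemma norm_le_of_norm_rmp_zero_le {b s : ℝ} (hb : 0 < b) (hs : s < 1) {x : A} (hx : 0 ≤ x)
    (h : ‖rmp 0 b x‖ ≤ s) : ‖x‖ ≤ s * b := by
  have hsa : IsSelfAdjoint x := IsSelfAdjoint.of_nonneg hx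
  have h1 : ‖rampf 0 b ‖x‖‖ ≤ ‖rmp 0 b x‖ :=
    norm_apply_le_norm_cfcₙ (rampf 0 b) x (A1d_norm_mem hx)
      (continuous_rampf 0 b).continuousOn (rampf_zero le_rfl hb) hsa
  have h2 : rampf 0 b ‖x‖ ≤ s := (le_abs_self _).trans (h1.trans h)
  unfold rampf at h2
  rw [sub_zero, sub_zero] at h2
  have h3 : min 1 (‖x‖ / b) ≤ s := (le_max_right _ _).trans h2
  rcases min_le_iff.1 h3 with h4 | h4
  · linarith
  · rwa [div_le_iff₀ hb] at h4

lemma rmp_eq_zero_of_norm_le {a b : ℝ} (ha : 0 ≤ a) (hab : a < b) {x : A} (hx : 0 ≤ x)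
    (h : ‖x‖ ≤ a) : rmp a b x = 0 := by
  have _ := ha
  unfold rmp
  rw [cfcₙ_congr (g := fun _ => (0 : ℝ)) (fun t ht =>
    rampf_eq_zero hab ((A1d_qs_le hx ht).trans h))]
  exact cfcₙ_const_zero ℝ x

lemma norm_cut {κ : ℝ} (hκ : 0 ≤ κ) {x : A} (hx : 0 ≤ x) : ‖cut κ x‖ = max 0 (‖x‖ - κ) := by
  have hsa : IsSelfAdjoint x := IsSelfAdjoint.of_nonneg hx
  apply le_antisymm
  · refine norm_cfcₙ_le fun t ht => ?_
    rw [Real.norm_eq_abs, abs_of_nonneg (cutf_nonneg κ t)]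
    unfold cutf
    exact max_le_max le_rfl (sub_le_sub_right (A1d_qs_le hx ht) κ)
  · have h1 : ‖cutf κ ‖x‖‖ ≤ ‖cut κ x‖ :=
      norm_apply_le_norm_cfcₙ (cutf κ) x (A1d_norm_mem hx)
        (continuous_cutf κ).continuousOn (cutf_zero hκ) hsa
    exact (le_abs_self _).trans h1

lemma cut_eq_zero_iff {κ : ℝ} (hκ : 0 ≤ κ) {x : A} (hx : 0 ≤ x) : cut κ x = 0 ↔ ‖x‖ ≤ κ := by
  rw [← norm_eq_zero, norm_cut hκ hx]
  constructor
  · intro h
    have := le_max_right 0 (‖x‖ - κ)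
    rw [h] at this
    linarith
  · intro h
    exact max_eq_left (by linarith)

lemma norm_sub_cut_le {κ : ℝ} (hκ : 0 ≤ κ) {x : A} (hx : 0 ≤ x) : ‖x - cut κ x‖ ≤ κ := by
  have hsa : IsSelfAdjoint x := IsSelfAdjoint.of_nonneg hx
  have h1 : x - cut κ x = cfcₙ (fun t => t - cutf κ t) x := by
    rw [cfcₙ_sub (fun t => t) (cutf κ) x continuous_id.continuousOn rfl
      (continuous_cutf κ).continuousOn (cutf_zero hκ), cfcₙ_id' ℝ x hsa]
    rfl
  rw [h1]
  refine norm_cfcₙ_le fun t ht => ?_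
  have h0 := A1d_qs_nonneg hx ht
  rw [Real.norm_eq_abs, abs_le]
  unfold cutf
  rcases le_total t κ with h | h
  · rw [max_eq_left (by linarith)]
    constructor <;> linarith
  · rw [max_eq_right (by linarith)]
    constructor <;> linarith

/-- `t - ramp₀ᵥ(t) t ≤ ν / 4`. -/
lemma norm_sub_rmp_mul_le {ν : ℝ} (hν : 0 < ν) {x : A} (hx : 0 ≤ x) :
    ‖x - rmp 0 ν x * x‖ ≤ ν / 4 := by
  have hsa : IsSelfAdjoint x := IsSelfAdjoint.of_nonneg hx
  have h1 : x - rmp 0 ν x * x = cfcₙ (fun t => t - rampf 0 ν t * t) x := by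
    rw [cfcₙ_sub (fun t => t) (fun t => rampf 0 ν t * t) x continuous_id.continuousOn rfl
      ((continuous_rampf 0 ν).mul continuous_id).continuousOn (by simp),
      cfcₙ_mul (rampf 0 ν) (fun t => t) x (continuous_rampf 0 ν).continuousOn
        (rampf_zero le_rfl hν) continuous_id.continuousOn rfl, cfcₙ_id' ℝ x hsa]
    rfl
  rw [h1]
  refine norm_cfcₙ_le fun t ht => ?_
  have h0 := A1d_qs_nonneg hx ht
  rw [Real.norm_eq_abs]
  rcases le_total t ν with h | h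
  · have h2 : rampf 0 ν t = t / ν := by
      unfold rampf
      rw [sub_zero, sub_zero, min_eq_right (by rw [div_le_one hν]; exact h),
        max_eq_right (by positivity)]
    rw [h2]
    have h3 : t - t / ν * t = t * (ν - t) / ν := by field_simp
    rw [h3, abs_of_nonneg (by
      apply div_nonneg _ hν.le
      exact mul_nonneg h0 (by linarith)), div_le_div_iff₀ hν (by norm_num)]
    nlinarith [sq_nonneg (ν - 2 * t)]
  · rw [rampf_eq_one hν h]
    simp only [one_mul, sub_self, abs_zero]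
    positivity

end

end PIS
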