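import Crest.Agent.PIS_A1d

/-!
# S0145 blueprint, task PIS-A1e (calculus API with order, part 2)

Replace the `sorry`s IN THIS FILE (do not change statements or names; helper lemmas are welcome, if they
are of general use put them in a new file `PIS_x*.lean`).  See `PIS_Defs.lean` for the definitions.
-/

set_option autoImplicit false

universe u

namespace PIS

section

variable {A : Type u} [NonUnitalCStarAlgebra A] [PartialOrder A] [StarOrderedRing A]

/-- comparison of two functions of `x ≥ 0`. -/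
lemma cfcn_le_cfcn {x : A} (hx : 0 ≤ x) {f g : ℝ → ℝ} (hf : Continuous f) (hf0 : f 0 = 0)
    (hg : Continuous g) (hg0 : g 0 = 0) (hfg : ∀ t, 0 ≤ t → t ≤ ‖x‖ → f t ≤ g t) :
    cfcₙ f x ≤ cfcₙ g x :=
  cfcₙ_mono (fun t ht => hfg t (A1d_qs_nonneg hx ht) (A1d_qs_le hx ht)) hf.continuousOn
    hg.continuousOn hf0 hg0

/-- norm of a function of `x ≥ 0`. -/
lemma norm_cfcn_le {x : A} (hx : 0 ≤ x) {f : ℝ → ℝ} (hf : Continuous f) (hf0 : f 0 = 0) {C : ℝ}
    (hfC : ∀ t, 0 ≤ t → t ≤ ‖x‖ → |f t| ≤ C) : ‖cfcₙ f x‖ ≤ C := by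
  have _ := hf
  have _ := hf0
  exact norm_cfcₙ_le fun t ht => hfC t (A1d_qs_nonneg hx ht) (A1d_qs_le hx ht)

lemma A1e_smul_eq (r : ℝ) {x : A} (hx : 0 ≤ x) : r • x = cfcₙ (fun t : ℝ => r * t) x := by
  have hsa : IsSelfAdjoint x := IsSelfAdjoint.of_nonneg hx
  exact (cfcₙ_const_mul_id r x hsa).symm

lemma rmp_le_smul {a b : ℝ} (ha : 0 ≤ a) (hab : a < b) {x : A} (hx : 0 ≤ x) :
    rmp a b x ≤ (1 / b) • x := by
  rw [A1e_smul_eq _ hx]
  refine cfcn_le_cfcn hx (continuous_rampf a b) (rampf_zero ha hab)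
    (continuous_const.mul continuous_id) (mul_zero _) fun t ht _ => ?_
  have := rampf_le_div ha hab ht
  rwa [one_div, inv_mul_eq_div]

lemma cut_le {κ : ℝ} (hκ : 0 ≤ κ) {x : A} (hx : 0 ≤ x) : cut κ x ≤ x := by
  have hsa : IsSelfAdjoint x := IsSelfAdjoint.of_nonneg hx
  have h : cfcₙ (cutf κ) x ≤ cfcₙ (fun t : ℝ => t) x := by
    refine cfcn_le_cfcn hx (continuous_cutf κ) (cutf_zero hκ) continuous_id rfl fun t ht _ => ?_
    exact max_le ht (by linarith)
  rwa [cfcₙ_id' ℝ x hsa] at h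

lemma sg_le_smul {σ : ℝ} (hσ : 0 < σ) {x : A} (hx : 0 ≤ x) : sg σ x ≤ (1 / σ) • x := by
  rw [A1e_smul_eq _ hx]
  refine cfcn_le_cfcn hx (continuous_sgf hσ) (sgf_zero σ)
    (continuous_const.mul continuous_id) (mul_zero _) fun t ht _ => ?_
  unfold sgf
  rw [max_eq_right ht, one_div, inv_mul_eq_div]
  exact div_le_div_of_nonneg_left ht hσ (by linarith)

/-- contractions: `x² ≤ x`. -/
lemma mul_self_le {x : A} (hx : 0 ≤ x) (h1 : ‖x‖ ≤ 1) : x * x ≤ x := by
  have hsa : IsSelfAdjoint x := IsSelfAdjoint.of_nonneg hx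
  have h : cfcₙ (fun t : ℝ => t * t) x ≤ cfcₙ (fun t : ℝ => t) x := by
    refine cfcn_le_cfcn hx (continuous_id.mul continuous_id) (mul_zero _) continuous_id rfl
      fun t ht ht1 => ?_
    nlinarith
  rwa [cfcₙ_mul (fun t => t) (fun t => t) x continuous_id.continuousOn rfl
    continuous_id.continuousOn rfl, cfcₙ_id' ℝ x hsa] at h

lemma norm_le_of_le {x y : A} (hx : 0 ≤ x) (hxy : x ≤ y) : ‖x‖ ≤ ‖y‖ :=
  CStarAlgebra.norm_le_norm_of_nonneg_of_le hx hxy

/-- conjugation is monotone. -/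
lemma conj_mono {x y : A} (hxy : x ≤ y) (z : A) : star z * x * z ≤ star z * y * z :=
  star_left_conjugate_le_conjugate hxy z

lemma conj_mono' {x y : A} (hxy : x ≤ y) (z : A) : z * x * star z ≤ z * y * star z :=
  star_right_conjugate_le_conjugate hxy z

lemma conj_nonneg' {x : A} (hx : 0 ≤ x) (z : A) : 0 ≤ star z * x * z :=
  star_left_conjugate_nonneg hx z

lemma conj_le_norm_smul {x : A} (hx : 0 ≤ x) (z : A) : star z * x * z ≤ ‖x‖ • (star z * z) :=
  CStarAlgebra.star_left_conjugate_le_norm_smul (IsSelfAdjoint.of_nonneg hx)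

lemma smul_nonneg' {x : A} (hx : 0 ≤ x) {r : ℝ} (hr : 0 ≤ r) : 0 ≤ r • x := by
  rw [A1e_smul_eq _ hx]
  exact cfcₙ_nonneg fun t ht => mul_nonneg hr (A1d_qs_nonneg hx ht)

/-- Positive sums: if a sum of two positive elements vanishes, both do. -/
lemma eq_zero_of_add_eq_zero {x y : A} (hx : 0 ≤ x) (hy : 0 ≤ y) (h : x + y = 0) :
    x = 0 ∧ y = 0 := by
  constructor
  · refine le_antisymm ?_ hx
    rw [← h]
    exact le_add_of_nonneg_right hy
  · refine le_antisymm ?_ hy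
    rw [← h]
    exact le_add_of_nonneg_left hx

end

end PIS
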