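import Crest.Agent.PIS_A1e

/-!
# S0145 blueprint, task PIS-A2a (square roots and domination)

Hint for most of them: for `h ≥ 0`, `‖rt h * y‖² = ‖star y * h * y‖`, and `0 ≤ h' ≤ C • h` gives
`0 ≤ star y * h' * y ≤ C • (star y * h * y)`.
In the `Unitization` lemmas work in the C⋆-algebra `Unitization ℂ A` (Mathlib has the instances
`Unitization.instCStarAlgebra`, order `Unitization.instPartialOrder`, `StarOrderedRing`,
`Unitization.inr_nonneg_iff`, `Unitization.norm_inr`).


Replace the `sorry`s IN THIS FILE (do not change statements or names; helper lemmas are welcome, if they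
are of general use put them in a new file `PIS_x*.lean`).  See `PIS_Defs.lean` for the definitions.
-/

set_option autoImplicit false

universe u

namespace PIS

open scoped CStarAlgebra

section

variable {A : Type u} [NonUnitalCStarAlgebra A] [PartialOrder A] [StarOrderedRing A]

lemma norm_rt_mul_sq {h : A} (hh : 0 ≤ h) (y : A) : ‖rt h * y‖ ^ 2 = ‖star y * h * y‖ := by
  rw [pow_two, ← CStarRing.norm_star_mul_self, star_mul, star_rt]
  have : star y * rt h * (rt h * y) = star y * (rt h * rt h) * y := by simp only [mul_assoc]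
  rw [this, rt_mul_rt hh]

lemma norm_mul_rt_sq {h : A} (hh : 0 ≤ h) (y : A) : ‖y * rt h‖ ^ 2 = ‖y * h * star y‖ := by
  rw [pow_two, ← CStarRing.norm_self_mul_star, star_mul, star_rt]
  have : y * rt h * (rt h * star y) = y * (rt h * rt h) * star y := by simp only [mul_assoc]
  rw [this, rt_mul_rt hh]

lemma A2a_sqrt_aux {a b C : ℝ} (ha : 0 ≤ a) (hb : 0 ≤ b) (hC : 0 ≤ C) (h : a ^ 2 ≤ C * b ^ 2) :
    a ≤ √C * b := by
  refine (sq_le_sq₀ ha (by positivity)).1 ?_
  rwa [mul_pow, Real.sq_sqrt hC]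

lemma norm_rt_mul_le {h h' : A} {C : ℝ} (hC : 0 ≤ C) (hh : 0 ≤ h) (hh' : 0 ≤ h')
    (hle : h' ≤ C • h) (y : A) : ‖rt h' * y‖ ≤ √C * ‖rt h * y‖ := by
  apply A2a_sqrt_aux (norm_nonneg _) (norm_nonneg _) hC
  rw [norm_rt_mul_sq hh, norm_rt_mul_sq hh']
  have h1 := norm_le_of_le (conj_nonneg' hh' y) (conj_mono hle y)
  rw [mul_smul_comm, smul_mul_assoc, norm_smul, Real.norm_eq_abs, abs_of_nonneg hC] at h1
  exact h1

lemma norm_mul_rt_le {h h' : A} {C : ℝ} (hC : 0 ≤ C) (hh : 0 ≤ h) (hh' : 0 ≤ h')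
    (hle : h' ≤ C • h) (y : A) : ‖y * rt h'‖ ≤ √C * ‖y * rt h‖ := by
  apply A2a_sqrt_aux (norm_nonneg _) (norm_nonneg _) hC
  rw [norm_mul_rt_sq hh, norm_mul_rt_sq hh']
  have h0 : 0 ≤ y * h' * star y := by
    have := conj_nonneg' hh' (star y)
    rwa [star_star] at this
  have h1 := norm_le_of_le h0 (conj_mono' hle y)
  rw [mul_smul_comm, smul_mul_assoc, norm_smul, Real.norm_eq_abs, abs_of_nonneg hC] at h1
  exact h1

/-- `‖(z z⋆)^{1/2} y‖ = ‖z⋆ y‖`. -/
lemma norm_rt_mul_star_mul (z y : A) : ‖rt (z * star z) * y‖ = ‖star z * y‖ := by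
  rw [← sq_eq_sq₀ (norm_nonneg _) (norm_nonneg _), norm_rt_mul_sq (mul_star_self_nonneg z),
    pow_two, ← CStarRing.norm_star_mul_self, star_mul, star_star]
  simp only [mul_assoc]

/-- `‖y (z z⋆)^{1/2}‖ = ‖y z‖`. -/
lemma norm_mul_rt_mul_star (z y : A) : ‖y * rt (z * star z)‖ = ‖y * z‖ := by
  rw [← sq_eq_sq₀ (norm_nonneg _) (norm_nonneg _), norm_mul_rt_sq (mul_star_self_nonneg z),
    pow_two, ← CStarRing.norm_self_mul_star, star_mul]
  simp only [mul_assoc]

lemma A2a_rt_inr {k : A} (hk : 0 ≤ k) :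
    rt (k : Unitization ℂ A) = ((rt k : A) : Unitization ℂ A) :=
  (map_rt (Unitization.inrNonUnitalStarAlgHom ℂ A) (IsSelfAdjoint.of_nonneg hk)).symm

/-- version of `norm_mul_rt_le` with an arbitrary left multiplier `L` in the unitization, e.g.
`L = 1 - w`. -/
lemma norm_unit_mul_rt_le {h h' : A} {C : ℝ} (hC : 0 ≤ C) (hh : 0 ≤ h) (hh' : 0 ≤ h')
    (hle : h' ≤ C • h) (L : Unitization ℂ A) :
    ‖L * (rt h' : Unitization ℂ A)‖ ≤ √C * ‖L * (rt h : Unitization ℂ A)‖ := by
  apply A2a_sqrt_aux (norm_nonneg _) (norm_nonneg _) hC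
  have key : ∀ k : A, 0 ≤ k → ‖L * rt (k : Unitization ℂ A)‖ ^ 2
      = ‖L * (k : Unitization ℂ A) * star L‖ := by
    intro k hk
    rw [pow_two, ← CStarRing.norm_self_mul_star, star_mul, star_rt]
    have : L * rt (k : Unitization ℂ A) * (rt (k : Unitization ℂ A) * star L)
        = L * (rt (k : Unitization ℂ A) * rt (k : Unitization ℂ A)) * star L := by
      simp only [mul_assoc]
    rw [this, rt_mul_rt (Unitization.inr_nonneg_iff.2 hk)]
  rw [key h hh, key h' hh']
  have h0 : 0 ≤ L * (h' : Unitization ℂ A) * star L := by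
    have := star_left_conjugate_nonneg (Unitization.inr_nonneg_iff.2 hh') (star L)
    rwa [star_star] at this
  have h1 : (h' : Unitization ℂ A) ≤ C • (h : Unitization ℂ A) := by
    rw [← Unitization.inr_smul]
    rw [Unitization.inr_le_iff _ _ (IsSelfAdjoint.of_nonneg hh')
      (IsSelfAdjoint.of_nonneg (hh'.trans hle))]
    exact hle
  have h2 : L * (h' : Unitization ℂ A) * star L ≤ C • (L * (h : Unitization ℂ A) * star L) := by
    have := star_left_conjugate_le_conjugate h1 (star L)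
    rw [star_star, mul_smul_comm, smul_mul_assoc] at this
    exact this
  have h3 := CStarAlgebra.norm_le_norm_of_nonneg_of_le h0 h2
  rw [norm_smul, Real.norm_eq_abs, abs_of_nonneg hC] at h3
  exact h3

lemma norm_sub_mul_rt_le {h h' : A} {C : ℝ} (hC : 0 ≤ C) (hh : 0 ≤ h) (hh' : 0 ≤ h')
    (hle : h' ≤ C • h) (w : A) : ‖rt h' - w * rt h'‖ ≤ √C * ‖rt h - w * rt h‖ := by
  have h1 := norm_unit_mul_rt_le hC hh hh' hle (1 - (w : Unitization ℂ A))
  rw [A2a_rt_inr hh, A2a_rt_inr hh'] at h1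
  have key : ∀ k : A, (1 - (w : Unitization ℂ A)) * (k : Unitization ℂ A)
      = ((k - w * k : A) : Unitization ℂ A) := by
    intro k
    rw [sub_mul, one_mul, Unitization.inr_sub, Unitization.inr_mul]
  rw [key, key, Unitization.norm_inr, Unitization.norm_inr] at h1
  exact h1

/-- `‖z' - w z'‖` for `z' = (z z⋆)^{1/2}` -/
lemma norm_sub_mul_rt_mul_star (z w : A) :
    ‖rt (z * star z) - w * rt (z * star z)‖ = ‖z - w * z‖ := by
  rw [← sq_eq_sq₀ (norm_nonneg _) (norm_nonneg _), pow_two, pow_two,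
    ← CStarRing.norm_self_mul_star, ← CStarRing.norm_self_mul_star]
  congr 1
  simp only [star_sub, star_mul, star_rt, sub_mul, mul_sub]
  have h1 := rt_mul_rt (mul_star_self_nonneg z)
  rw [h1]
  have h2 : rt (z * star z) * (rt (z * star z) * star w) = z * (star z * star w) := by
    rw [← mul_assoc, h1, mul_assoc]
  have h3 : w * rt (z * star z) * rt (z * star z) = w * z * star z := by
    rw [mul_assoc, h1, mul_assoc]
  have h4 : w * rt (z * star z) * (rt (z * star z) * star w) = w * z * (star z * star w) := by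
    rw [mul_assoc, h2, mul_assoc]
  rw [h2, h3, h4]

/-- absorption passes to dominated elements: `e h = h`, `0 ≤ h' ≤ C h` imply `e h' = h'`. -/
lemma mul_eq_of_le {e h h' : A} {C : ℝ} (hC : 0 ≤ C) (hh : 0 ≤ h) (hh' : 0 ≤ h')
    (hle : h' ≤ C • h) (he : e * h = h) : e * h' = h' := by
  have h1 := norm_sub_mul_rt_le hC hh hh' hle e
  rw [mul_rt_of_mul_eq (IsSelfAdjoint.of_nonneg hh) he, sub_self, norm_zero, mul_zero] at h1
  have h2 : e * rt h' = rt h' := by
    have := norm_le_zero_iff.1 h1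
    exact (sub_eq_zero.1 this).symm
  calc e * h' = e * (rt h' * rt h') := by rw [rt_mul_rt hh']
    _ = h' := by rw [← mul_assoc, h2, rt_mul_rt hh']

lemma mul_eq_zero_of_le {e h h' : A} {C : ℝ} (hC : 0 ≤ C) (hh : 0 ≤ h) (hh' : 0 ≤ h')
    (hle : h' ≤ C • h) (he : e * h = 0) : e * h' = 0 := by
  have h1 := norm_mul_rt_le hC hh hh' hle e
  have h3 : e * rt h = 0 :=
    mul_cfcn_of_mul_eq_zero (IsSelfAdjoint.of_nonneg hh) he Real.continuous_sqrt Real.sqrt_zero
  rw [h3, norm_zero, mul_zero] at h1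
  have h2 : e * rt h' = 0 := norm_le_zero_iff.1 h1
  calc e * h' = e * (rt h' * rt h') := by rw [rt_mul_rt hh']
    _ = 0 := by rw [← mul_assoc, h2, zero_mul]

end

end PIS
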