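import Crest.Agent.PIS_A2a

/-!
# S0145 blueprint, task PIS-A2b (links)

Replace the `sorry`s IN THIS FILE (do not change statements or names; helper lemmas are welcome, if they
are of general use put them in a new file `PIS_x*.lean`).  See `PIS_Defs.lean` for the definitions.
-/

set_option autoImplicit false

universe u

namespace PIS

open scoped CStarAlgebra

section

variable {A : Type u} [NonUnitalCStarAlgebra A] [PartialOrder A] [StarOrderedRing A]

/-! ## links -/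

lemma lk_nonneg (h c g : A) : 0 ≤ lk h c g := norm_nonneg _

lemma lk_comm (h c g : A) : lk h c g = lk g (star c) h := by
  unfold lk
  rw [← norm_star (rt h * c * rt g), star_mul, star_mul, star_rt, star_rt, mul_assoc]

lemma lk_sq_left {h : A} (hh : 0 ≤ h) (c g : A) :
    lk h c g ^ 2 = ‖rt g * (star c * h * c) * rt g‖ := by
  unfold lk
  rw [mul_assoc (rt h), norm_rt_mul_sq hh, star_mul, star_rt]
  simp only [mul_assoc]

lemma lk_sq_right {g : A} (hg : 0 ≤ g) (h c : A) :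
    lk h c g ^ 2 = ‖rt h * (c * g * star c) * rt h‖ := by
  unfold lk
  rw [norm_mul_rt_sq hg, star_mul, star_rt]
  simp only [mul_assoc]

lemma lk_mono_left {h h' : A} {C : ℝ} (hC : 0 ≤ C) (hh : 0 ≤ h) (hh' : 0 ≤ h')
    (hle : h' ≤ C • h) (c g : A) : lk h' c g ≤ √C * lk h c g := by
  unfold lk
  rw [mul_assoc, mul_assoc]
  exact norm_rt_mul_le hC hh hh' hle _

lemma lk_mono_right {g g' : A} {C : ℝ} (hC : 0 ≤ C) (hg : 0 ≤ g) (hg' : 0 ≤ g')
    (hle : g' ≤ C • g) (h c : A) : lk h c g' ≤ √C * lk h c g := by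
  unfold lk
  exact norm_mul_rt_le hC hg hg' hle _

/-- if `g ≤ C • ∑ g_x` then `lk² ≤ C ∑ lk²` (right variable). -/
lemma lk_sq_le_sum_right {ι : Type*} (s : Finset ι) {g : A} {G : ι → A} {C : ℝ} (hC : 0 ≤ C)
    (hg : 0 ≤ g) (hG : ∀ i ∈ s, 0 ≤ G i) (hle : g ≤ C • ∑ i ∈ s, G i) (h c : A) :
    lk h c g ^ 2 ≤ C * ∑ i ∈ s, lk h c (G i) ^ 2 := by
  unfold lk
  rw [norm_mul_rt_sq hg]
  set y : A := rt h * c with hy
  have h1 : y * g * star y ≤ y * (C • ∑ i ∈ s, G i) * star y := conj_mono' hle y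
  have h0 : 0 ≤ y * g * star y := by
    have := conj_nonneg' hg (star y)
    rwa [star_star] at this
  refine (norm_le_of_le h0 h1).trans ?_
  have h2 : y * (C • ∑ i ∈ s, G i) * star y = C • ∑ i ∈ s, y * G i * star y := by
    rw [mul_smul_comm, smul_mul_assoc, Finset.mul_sum, Finset.sum_mul]
  rw [h2, norm_smul, Real.norm_eq_abs, abs_of_nonneg hC]
  refine mul_le_mul_of_nonneg_left ?_ hC
  refine (norm_sum_le _ _).trans (Finset.sum_le_sum fun i hi => ?_)
  rw [norm_mul_rt_sq (hG i hi)]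

lemma lk_sq_le_sum_left {ι : Type*} (s : Finset ι) {h : A} {H : ι → A} {C : ℝ} (hC : 0 ≤ C)
    (hh : 0 ≤ h) (hH : ∀ i ∈ s, 0 ≤ H i) (hle : h ≤ C • ∑ i ∈ s, H i) (c g : A) :
    lk h c g ^ 2 ≤ C * ∑ i ∈ s, lk (H i) c g ^ 2 := by
  rw [lk_comm]
  refine (lk_sq_le_sum_right s hC hh hH hle g (star c)).trans (le_of_eq ?_)
  congr 1
  refine Finset.sum_congr rfl fun i _ => ?_
  rw [lk_comm g, star_star]

end

end PIS
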