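import Crest.Agent.PIS_A2b

/-!
# S0145 blueprint, task PIS-A2c (projections and corners)

Replace the `sorry`s IN THIS FILE (do not change statements or names; helper lemmas are welcome, if they
are of general use put them in a new file `PIS_x*.lean`).  See `PIS_Defs.lean` for the definitions.
-/

set_option autoImplicit false

universe u

namespace PIS

open scoped CStarAlgebra

section

variable {A : Type u} [NonUnitalCStarAlgebra A] [PartialOrder A] [StarOrderedRing A]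

/-! ## projections and corners -/

lemma proj_nonneg {p : A} (hp : IsStarProjection p) : 0 ≤ p := hp.nonneg

lemma proj_eq_zero_of_norm_lt_one {p : A} (hp : IsStarProjection p) (h : ‖p‖ < 1) : p = 0 := by
  have h1 : ‖p‖ = ‖p‖ * ‖p‖ := by
    conv_lhs => rw [← hp.isIdempotentElem.eq]
    rw [← CStarRing.norm_star_mul_self, hp.isSelfAdjoint.star_eq]
  have h2 : ‖p‖ = 0 := by
    have h0 := norm_nonneg p
    by_contra hne
    have hpos : 0 < ‖p‖ := lt_of_le_of_ne h0 (Ne.symm hne)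
    nlinarith
  exact norm_eq_zero.1 h2

lemma norm_proj_le_one {p : A} (hp : IsStarProjection p) : ‖p‖ ≤ 1 := hp.norm_le

/-- `0 ≤ h ≤ C p ⟹ p h = h`. -/
lemma proj_mul_of_le {p h : A} (hp : IsStarProjection p) (hh : 0 ≤ h) {C : ℝ} (hC : 0 ≤ C)
    (hle : h ≤ C • p) : p * h = h :=
  mul_eq_of_le hC hp.nonneg hh hle hp.isIdempotentElem.eq

/-- `x ≥ 0`, `p x = x` and `‖x‖ ≤ C` imply `x ≤ C p`. -/
lemma le_smul_proj {p x : A} (hp : IsStarProjection p) (hx : 0 ≤ x) (hpx : p * x = x) {C : ℝ}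
    (hC : ‖x‖ ≤ C) : x ≤ C • p := by
  have hsx : star x = x := (IsSelfAdjoint.of_nonneg hx).star_eq
  have hsp : star p = p := hp.isSelfAdjoint.star_eq
  have hxp : x * p = x := by
    have := congrArg star hpx
    rwa [star_mul, hsx, hsp] at this
  have h1 := conj_le_norm_smul hx p
  rw [hsp, hp.isIdempotentElem.eq, hpx, hxp] at h1
  refine h1.trans ?_
  have h2 : 0 ≤ (C - ‖x‖) • p := smul_nonneg' hp.nonneg (by linarith)
  rw [sub_smul] at h2
  exact sub_nonneg.1 h2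

/-- If `k ≥ 0`, `‖k‖ ≤ 1` and `k p = p` then `p ≤ k`. -/
lemma proj_le_of_mul_eq {p k : A} (hp : IsStarProjection p) (hk : 0 ≤ k) (hk1 : ‖k‖ ≤ 1)
    (hkp : k * p = p) : p ≤ k := by
  have hsk : star k = k := (IsSelfAdjoint.of_nonneg hk).star_eq
  have hsp : star p = p := hp.isSelfAdjoint.star_eq
  have hpk : p * k = p := by
    have := congrArg star hkp
    rwa [star_mul, hsk, hsp] at this
  have h1 : k * k ≤ k := mul_self_le hk hk1
  have h2 : 0 ≤ star (k - p) * (k - p) := star_mul_self_nonneg _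
  have h3 : star (k - p) * (k - p) = k * k - p := by
    rw [star_sub, hsk, hsp, sub_mul, mul_sub, mul_sub, hkp, hpk, hp.isIdempotentElem.eq]
    abel
  rw [h3] at h2
  exact (sub_nonneg.1 h2).trans h1

lemma sg_le_proj {p x : A} (hp : IsStarProjection p) (hx : 0 ≤ x) (hpx : p * x = x) {σ : ℝ}
    (hσ : 0 < σ) : sg σ x ≤ p := by
  have h := le_smul_proj hp (sg_nonneg hσ x)
    (mul_sg_of_mul_eq (IsSelfAdjoint.of_nonneg hx) hpx hσ) (norm_sg_le_one hσ x)
  rwa [one_smul] at h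

/-- `x (x/(x+σ)) + σ (x/(x+σ)) = x`. -/
lemma A2c_sg_id {x : A} (hx : 0 ≤ x) {σ : ℝ} (hσ : 0 < σ) :
    x * sg σ x + σ • sg σ x = x := by
  have hf : Continuous (sgf σ) := continuous_sgf hσ
  have hf0 : sgf σ 0 = 0 := sgf_zero σ
  have hsa : IsSelfAdjoint x := IsSelfAdjoint.of_nonneg hx
  have e1 : x * sg σ x = cfcₙ (fun t : ℝ => t * sgf σ t) x := by
    rw [cfcₙ_mul (fun t : ℝ => t) (sgf σ) x (by fun_prop) (by rfl)
      (hf.continuousOn) hf0, cfcₙ_id' ℝ x hsa]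
    rfl
  have e2 : σ • sg σ x = cfcₙ (fun t : ℝ => σ • sgf σ t) x := by
    rw [cfcₙ_smul σ (sgf σ) x hf.continuousOn hf0]
    rfl
  rw [e1, e2, ← cfcₙ_add (a := x) (f := fun t : ℝ => t * sgf σ t) (g := fun t : ℝ => σ • sgf σ t)
    (by fun_prop) (by simp) (by fun_prop) (by simp [hf0])]
  conv_rhs => rw [← cfcₙ_id' ℝ x hsa]
  apply cfcₙ_congr
  intro t ht
  have ht0 : 0 ≤ t := quasispectrum_nonneg_of_nonneg x hx t ht
  simp only [sgf, max_eq_right ht0, smul_eq_mul]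
  field_simp

omit [PartialOrder A] [StarOrderedRing A] in
lemma A2c_comm {x : A} {σ : ℝ} : sg σ x * x = x * sg σ x :=
  ((Commute.refl x).cfcₙ_real (sgf σ)).eq

/-- basic facts on `d = p - sg σ x`. -/
lemma A2c_basic {p x : A} (hp : IsStarProjection p) (hx : 0 ≤ x)
    (hpx : p * x = x) {σ : ℝ} (hσ : 0 < σ) :
    0 ≤ p - sg σ x ∧ p * (p - sg σ x) = p - sg σ x ∧ (p - sg σ x) * p = p - sg σ x ∧
      x * (p - sg σ x) + σ • (p - sg σ x) = σ • p ∧ x * p = x ∧
      (p - sg σ x) * x = x * (p - sg σ x) ∧ x * (p - sg σ x) = σ • sg σ x := by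
  have hsx : star x = x := (IsSelfAdjoint.of_nonneg hx).star_eq
  have hsp : star p = p := hp.isSelfAdjoint.star_eq
  have hxp : x * p = x := by
    have := congrArg star hpx
    rwa [star_mul, hsx, hsp] at this
  have hps : p * sg σ x = sg σ x := mul_sg_of_mul_eq (IsSelfAdjoint.of_nonneg hx) hpx hσ
  have hsp' : sg σ x * p = sg σ x := by
    have := congrArg star hps
    rwa [star_mul, star_sg, hsp] at this
  have hid := A2c_sg_id hx hσ
  have hxd : x * (p - sg σ x) = σ • sg σ x := by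
    rw [mul_sub, hxp]
    exact sub_eq_of_eq_add' hid.symm
  refine ⟨sub_nonneg.2 (sg_le_proj hp hx hpx hσ), ?_, ?_, ?_, hxp, ?_, hxd⟩
  · rw [mul_sub, hp.isIdempotentElem.eq, hps]
  · rw [sub_mul, hp.isIdempotentElem.eq, hsp']
  · rw [hxd, ← smul_add]; congr 1; abel
  · rw [sub_mul, mul_sub, hpx, hxp, A2c_comm]

/-- Corner lemma: `σ p ≤ x` in the corner `pAp` means `x (x+σ)⁻¹ ≥ p / 2`. -/
lemma norm_proj_sub_sg_le_half {p x : A} (hp : IsStarProjection p) (hx : 0 ≤ x)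
    (hpx : p * x = x) {σ : ℝ} (hσ : 0 < σ) (hle : σ • p ≤ x) : ‖p - sg σ x‖ ≤ 1 / 2 := by
  obtain ⟨hd0, hpd, hdp, hxd, hxp, hcomm, hxs⟩ := A2c_basic hp hx hpx hσ
  set d := p - sg σ x with hd
  have hsd : star d = d := (IsSelfAdjoint.of_nonneg hd0).star_eq
  -- conjugate `σ p ≤ x` by `d`
  have h1 := conj_mono hle d
  rw [hsd] at h1
  have e1 : d * (σ • p) * d = σ • (d * d) := by
    rw [mul_smul_comm, hdp, smul_mul_assoc]
  have e2 : d * x * d = σ • d - σ • (d * d) := by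
    rw [mul_assoc, eq_sub_of_add_eq hxd, mul_sub, mul_smul_comm, mul_smul_comm, hdp]
  rw [e1, e2] at h1
  have h2 : (2 : ℝ) • (d * d) ≤ d := by
    have h3 : 0 ≤ σ • d - σ • (d * d) - σ • (d * d) := sub_nonneg.2 h1
    have h4 : 0 ≤ (1 / σ) • (σ • d - σ • (d * d) - σ • (d * d)) :=
      smul_nonneg' h3 (by positivity)
    have h5 : (1 / σ) • (σ • d - σ • (d * d) - σ • (d * d)) = d - (2 : ℝ) • (d * d) := by
      rw [smul_sub, smul_sub, smul_smul, smul_smul, one_div, inv_mul_cancel₀ hσ.ne', one_smul,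
        one_smul, two_smul]
      abel
    rw [h5] at h4
    exact sub_nonneg.1 h4
  have h6 : 0 ≤ (2 : ℝ) • (d * d) := by
    apply smul_nonneg' _ (by norm_num)
    have := star_mul_self_nonneg d
    rwa [hsd] at this
  have h7 := norm_le_of_le h6 h2
  rw [norm_smul, Real.norm_of_nonneg (by norm_num : (0:ℝ) ≤ 2)] at h7
  have h8 : ‖d * d‖ = ‖d‖ * ‖d‖ := by
    conv_lhs => rw [← hsd]
    rw [hsd, ← CStarRing.norm_star_mul_self, hsd]
  rw [h8] at h7
  by_contra hcon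
  push Not at hcon
  nlinarith [norm_nonneg d]

/-- Corner lemma, converse. -/
lemma smul_proj_le_of_norm_proj_sub_sg {p x : A} (hp : IsStarProjection p) (hx : 0 ≤ x)
    (hpx : p * x = x) {σ : ℝ} (hσ : 0 < σ) (h : ‖p - sg σ x‖ ≤ 1 / 2) : σ • p ≤ x := by
  obtain ⟨hd0, hpd, hdp, hxd, hxp, hcomm, hxs⟩ := A2c_basic hp hx hpx hσ
  have hd1 : p - sg σ x ≤ (1 / 2 : ℝ) • p := le_smul_proj hp hd0 hpd h
  -- `0 ≤ 2 s - p`
  have h1 : 0 ≤ (2 : ℝ) • sg σ x - p := by
    have h2 : 0 ≤ (2 : ℝ) • ((1 / 2 : ℝ) • p - (p - sg σ x)) :=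
      smul_nonneg' (sub_nonneg.2 hd1) (by norm_num)
    have h3 : (2 : ℝ) • ((1 / 2 : ℝ) • p - (p - sg σ x)) = (2 : ℝ) • sg σ x - p := by
      rw [smul_sub, smul_sub, smul_smul]
      norm_num
      rw [two_smul ℝ p]
      abel
    rwa [h3] at h2
  have hsr : star (rt x) = rt x := star_rt x
  have h4 := conj_nonneg' h1 (rt x)
  have hprt : p * rt x = rt x := mul_rt_of_mul_eq (IsSelfAdjoint.of_nonneg hx) hpx
  have hc : rt x * sg σ x = sg σ x * rt x := (cfcₙ_commute_cfcₙ Real.sqrt (sgf σ) x).eq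
  have e1 : star (rt x) * ((2 : ℝ) • sg σ x - p) * rt x = (2 : ℝ) • (x * sg σ x) - x := by
    rw [hsr, mul_sub, sub_mul, mul_smul_comm, smul_mul_assoc, hc, mul_assoc, rt_mul_rt hx,
      mul_assoc, hprt, rt_mul_rt hx, A2c_comm]
  rw [e1] at h4
  have h5 : 0 ≤ σ • ((2 : ℝ) • sg σ x - p) := smul_nonneg' h1 hσ.le
  have h6 := add_nonneg h4 h5
  have e2 : (2 : ℝ) • (x * sg σ x) - x + σ • ((2 : ℝ) • sg σ x - p) = x - σ • p := by
    have hid := A2c_sg_id hx hσ
    rw [smul_sub, smul_comm σ (2 : ℝ) (sg σ x)]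
    have : (2 : ℝ) • (x * sg σ x) - x + ((2 : ℝ) • σ • sg σ x - σ • p) =
        (2 : ℝ) • (x * sg σ x + σ • sg σ x) - x - σ • p := by
      rw [smul_add]; abel
    rw [this, hid, two_smul]
    abel
  rw [e2] at h6
  exact sub_nonneg.1 h6

/-- `‖(p - sg_σ(y y⋆))^{1/2} y‖² ≤ σ` if `p y = y` (function `t σ / (t + σ) ≤ σ`). -/
lemma norm_rt_proj_sub_sg_mul_sq_le {p y : A} (hp : IsStarProjection p) (hpy : p * y = y) {σ : ℝ}
    (hσ : 0 < σ) : ‖rt (p - sg σ (y * star y)) * y‖ ^ 2 ≤ σ := by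
  have hx : 0 ≤ y * star y := mul_star_self_nonneg y
  have hpx : p * (y * star y) = y * star y := by rw [← mul_assoc, hpy]
  obtain ⟨hd0, hpd, hdp, hxd, hxp, hcomm, hxs⟩ := A2c_basic hp hx hpx hσ
  set d := p - sg σ (y * star y) with hd
  have hc : rt d * (y * star y) = (y * star y) * rt d :=
    ((show Commute d (y * star y) from hcomm).cfcₙ_real Real.sqrt).eq
  have h1 : ‖rt d * y‖ ^ 2 = ‖(rt d * y) * star (rt d * y)‖ := by
    rw [CStarRing.norm_self_mul_star, sq]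
  have h2 : (rt d * y) * star (rt d * y) = σ • sg σ (y * star y) := by
    rw [star_mul, star_rt]
    calc rt d * y * (star y * rt d) = (rt d * (y * star y)) * rt d := by
          simp only [mul_assoc]
      _ = (y * star y) * (rt d * rt d) := by rw [hc, mul_assoc]
      _ = _ := by rw [rt_mul_rt hd0, hxs]
  rw [h1, h2, norm_smul, Real.norm_of_nonneg hσ.le]
  have := norm_sg_le_one hσ (y * star y)
  nlinarith

end

end PIS
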