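import Mathlib
import Crest.Prelude.Def_PurelyInfinite

/-!
# S0145 blueprint: definitions (namespace `PIS`)

Everything is written in a (non-unital) C⋆-algebra `A` with a `PartialOrder` and `StarOrderedRing`
(in applications: the spectral order).  Real functions are applied with `cfcₙ` (non-unital continuous
functional calculus over `ℝ`), always for functions that are continuous on all of `ℝ` with `f 0 = 0`.

"domination" and "fullness" are formulated by quantifying over all ⋆-homomorphisms `π : A →⋆ₙₐ[ℂ] B`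
into C⋆-algebras of the same universe, so that no ideals are needed.
-/

set_option autoImplicit false

universe u

namespace PIS

/-! ## real functions -/

/-- The ramp from `a` to `b`: `0` for `t ≤ a`, `1` for `t ≥ b`, linear in between (`a < b`). -/
noncomputable def rampf (a b t : ℝ) : ℝ := max 0 (min 1 ((t - a) / (b - a)))

/-- `(t - κ)₊`. -/
noncomputable def cutf (κ t : ℝ) : ℝ := max 0 (t - κ)

/-- `t₊ / (t₊ + σ)`. -/
noncomputable def sgf (σ t : ℝ) : ℝ := max 0 t / (max 0 t + σ)

section Defs

variable {A : Type u} [NonUnitalCStarAlgebra A]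

/-- `ramp(x)`. -/
noncomputable def rmp (a b : ℝ) (x : A) : A := cfcₙ (rampf a b) x

/-- `(x - κ)₊` (`κ ≥ 0`). -/
noncomputable def cut (κ : ℝ) (x : A) : A := cfcₙ (cutf κ) x

/-- the positive square root. -/
noncomputable def rt (x : A) : A := cfcₙ Real.sqrt x

/-- `x (x + σ)⁻¹`. -/
noncomputable def sg (σ : ℝ) (x : A) : A := cfcₙ (sgf σ) x

/-- the "link" `‖h^{1/2} c g^{1/2}‖`. -/
noncomputable def lk (h c g : A) : ℝ := ‖rt h * c * rt g‖

/-- every positive element of `A` is properly infinite. -/
def PI (A : Type u) [NonUnitalCStarAlgebra A] : Prop :=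
  ∀ x : A, Crest.OpAlg.IsProperlyInfinite (star x * x)

/-- Cuntz comparison `x ≾ y` (for positive `y`): `x = lim r⋆ y r`. -/
def Cz (x y : A) : Prop := ∀ ε : ℝ, 0 < ε → ∃ r : A, ‖star r * y * r - x‖ < ε

/-- `x` is dominated by `y`: `x` vanishes in every quotient in which `y` vanishes
(i.e. `x` is in the closed ideal generated by `y`). -/
def Dom (y x : A) : Prop :=
  ∀ (B : Type u) [NonUnitalCStarAlgebra B] (π : A →⋆ₙₐ[ℂ] B), π y = 0 → π x = 0

/-- Quantitative fullness: in every quotient, `‖g'‖ ≤ κ` implies `‖g‖ ≤ t`. -/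
def Full (κ : ℝ) (g' : A) (t : ℝ) (g : A) : Prop :=
  ∀ (B : Type u) [NonUnitalCStarAlgebra B] (π : A →⋆ₙₐ[ℂ] B), ‖π g'‖ ≤ κ → ‖π g‖ ≤ t

end Defs

end PIS
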