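import Crest.Agent.QA_Defs

/-!
# S0539: basic API for `sp`, `leP`, `gtP`, `onesP`
-/

set_option autoImplicit false

namespace Crest.Agent.QA

open Matrix
open scoped Matrix.Norms.L2Operator

variable {N : ℕ}

theorem mul_star_u {M : Mat N} (hM : M ∈ unitary (Mat N)) : M * star M = 1 :=
  (Unitary.mem_iff.mp hM).2

theorem star_mul_u {M : Mat N} (hM : M ∈ unitary (Mat N)) : star M * M = 1 :=
  (Unitary.mem_iff.mp hM).1

theorem star_mem_u {M : Mat N} (hM : M ∈ unitary (Mat N)) : star M ∈ unitary (Mat N) :=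
  Unitary.star_mem hM

theorem sp_mul {M : Mat N} (hM : M ∈ unitary (Mat N)) (f g : Om N → ℂ) :
    sp M f * sp M g = sp M (fun σ => f σ * g σ) := by
  unfold sp
  calc M * diagonal f * star M * (M * diagonal g * star M)
      = M * diagonal f * (star M * M) * diagonal g * star M := by simp only [Matrix.mul_assoc]
    _ = M * (diagonal f * diagonal g) * star M := by
        rw [star_mul_u hM, Matrix.mul_one]; simp only [Matrix.mul_assoc]
    _ = _ := by rw [diagonal_mul_diagonal]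

theorem sp_one {M : Mat N} (hM : M ∈ unitary (Mat N)) : sp M (fun _ => 1) = 1 := by
  unfold sp
  rw [diagonal_one, Matrix.mul_one, mul_star_u hM]

theorem star_sp (M : Mat N) (f : Om N → ℂ) : star (sp M f) = sp M (fun σ => star (f σ)) := by
  unfold sp
  rw [star_mul, star_mul, star_star, ← Matrix.mul_assoc]
  congr 2
  rw [star_eq_conjTranspose, diagonal_conjTranspose]
  rfl

theorem sp_add (M : Mat N) (f g : Om N → ℂ) : sp M f + sp M g = sp M (fun σ => f σ + g σ) := by
  unfold sp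
  rw [← Matrix.add_mul, ← Matrix.mul_add, diagonal_add]

theorem sp_sub (M : Mat N) (f g : Om N → ℂ) : sp M f - sp M g = sp M (fun σ => f σ - g σ) := by
  unfold sp
  rw [← Matrix.sub_mul, ← Matrix.mul_sub, diagonal_sub]

theorem sp_smul (M : Mat N) (c : ℂ) (f : Om N → ℂ) : c • sp M f = sp M (fun σ => c * f σ) := by
  unfold sp
  rw [← Matrix.smul_mul, ← Matrix.mul_smul, ← diagonal_smul]
  rfl

theorem sp_zero (M : Mat N) : sp M (fun _ => 0) = 0 := by
  unfold sp
  rw [diagonal_zero, Matrix.mul_zero, Matrix.zero_mul]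

theorem sp_sum {ι : Type*} (M : Mat N) (s : Finset ι) (F : ι → Om N → ℂ) :
    ∑ i ∈ s, sp M (F i) = sp M (fun σ => ∑ i ∈ s, F i σ) := by
  classical
  induction s using Finset.induction_on with
  | empty => simp [sp_zero]
  | insert a s ha ih =>
    rw [Finset.sum_insert ha, ih, sp_add]
    congr 1
    funext σ
    rw [Finset.sum_insert ha]

theorem sp_congr (M : Mat N) {f g : Om N → ℂ} (h : ∀ σ, f σ = g σ) : sp M f = sp M g := by
  rw [funext h]

/-- Conjugation of `sp`. -/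
theorem conj_sp (U M : Mat N) (f : Om N → ℂ) : U * sp M f * star U = sp (U * M) f := by
  unfold sp
  rw [star_mul]
  simp only [Matrix.mul_assoc]

theorem norm_unitary_conj {U : Mat N} (hU : U ∈ unitary (Mat N)) (X : Mat N) :
    ‖U * X * star U‖ = ‖X‖ := by
  rw [CStarRing.norm_mul_mem_unitary _ (star_mem_u hU), CStarRing.norm_mem_unitary_mul _ hU]

theorem norm_unitary_conj' {U : Mat N} (hU : U ∈ unitary (Mat N)) (X : Mat N) :
    ‖star U * X * U‖ = ‖X‖ := by
  rw [CStarRing.norm_mul_mem_unitary _ hU, CStarRing.norm_mem_unitary_mul _ (star_mem_u hU)]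

theorem norm_diag_le (f : Om N → ℂ) (c : ℝ) (hc : 0 ≤ c) (h : ∀ σ, ‖f σ‖ ≤ c) :
    ‖(diagonal f : Mat N)‖ ≤ c := by
  rw [l2_opNorm_diagonal]
  exact (pi_norm_le_iff_of_nonneg hc).mpr h

theorem norm_sp_le {M : Mat N} (hM : M ∈ unitary (Mat N)) (f : Om N → ℂ) (c : ℝ) (hc : 0 ≤ c)
    (h : ∀ σ, ‖f σ‖ ≤ c) : ‖sp M f‖ ≤ c := by
  unfold sp
  rw [norm_unitary_conj hM]
  exact norm_diag_le f c hc h

theorem norm_entry_le (X : Mat N) (σ τ : Om N) : ‖X σ τ‖ ≤ ‖X‖ := by
  have h := l2_opNorm_mulVec X (WithLp.toLp 2 (Pi.single τ (1 : ℂ)))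
  have h1 : ‖(WithLp.toLp 2 (Pi.single τ (1 : ℂ)) : EuclideanSpace ℂ (Om N))‖ = 1 := by
    simp
  rw [h1, mul_one] at h
  refine le_trans ?_ h
  have h2 := PiLp.norm_apply_le
    ((EuclideanSpace.equiv (Om N) ℂ).symm <| X *ᵥ (Pi.single τ (1 : ℂ))) σ
  refine le_trans (le_of_eq ?_) h2
  congr 1
  simp [Matrix.mulVec, dotProduct, Pi.single_apply]

theorem star_leP (M : Mat N) (S : Finset (Fin N)) (k : ℕ) : star (leP M S k) = leP M S k := by
  unfold leP
  rw [star_sp]
  apply sp_congr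
  intro σ
  split_ifs <;> simp

theorem star_gtP (M : Mat N) (S : Finset (Fin N)) (k : ℕ) : star (gtP M S k) = gtP M S k := by
  unfold gtP
  rw [star_sp]
  apply sp_congr
  intro σ
  split_ifs <;> simp

theorem star_onesP (M : Mat N) (R : Finset (Fin N)) : star (onesP M R) = onesP M R := by
  unfold onesP
  rw [star_sp]
  apply sp_congr
  intro σ
  split_ifs <;> simp

theorem norm_leP_le {M : Mat N} (hM : M ∈ unitary (Mat N)) (S : Finset (Fin N)) (k : ℕ) :
    ‖leP M S k‖ ≤ 1 :=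
  norm_sp_le hM _ 1 zero_le_one fun σ => by split_ifs <;> simp

theorem norm_gtP_le {M : Mat N} (hM : M ∈ unitary (Mat N)) (S : Finset (Fin N)) (k : ℕ) :
    ‖gtP M S k‖ ≤ 1 :=
  norm_sp_le hM _ 1 zero_le_one fun σ => by split_ifs <;> simp

theorem norm_onesP_le {M : Mat N} (hM : M ∈ unitary (Mat N)) (R : Finset (Fin N)) :
    ‖onesP M R‖ ≤ 1 :=
  norm_sp_le hM _ 1 zero_le_one fun σ => by split_ifs <;> simp

theorem leP_add_gtP {M : Mat N} (hM : M ∈ unitary (Mat N)) (S : Finset (Fin N)) (k : ℕ) :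
    leP M S k + gtP M S k = 1 := by
  unfold leP gtP
  rw [sp_add, ← sp_one hM]
  apply sp_congr
  intro σ
  by_cases h : wt S σ ≤ k
  · simp [h, not_lt.mpr h]
  · simp [h, not_le.mp h]

theorem leP_mul_self {M : Mat N} (hM : M ∈ unitary (Mat N)) (S : Finset (Fin N)) (k : ℕ) :
    leP M S k * leP M S k = leP M S k := by
  unfold leP
  rw [sp_mul hM]
  apply sp_congr
  intro σ
  split_ifs <;> simp

theorem gtP_mul_self {M : Mat N} (hM : M ∈ unitary (Mat N)) (S : Finset (Fin N)) (k : ℕ) :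
    gtP M S k * gtP M S k = gtP M S k := by
  unfold gtP
  rw [sp_mul hM]
  apply sp_congr
  intro σ
  split_ifs <;> simp

theorem gtP_mul_leP {M : Mat N} (hM : M ∈ unitary (Mat N)) (S : Finset (Fin N)) {k a : ℕ}
    (h : k ≤ a) : gtP M S a * leP M S k = 0 := by
  unfold gtP leP
  rw [sp_mul hM, ← sp_zero M]
  apply sp_congr
  intro σ
  by_cases h1 : wt S σ ≤ k
  · have : ¬ a < wt S σ := by omega
    simp [this]
  · simp [h1]

theorem gtP_mul_gtP {M : Mat N} (hM : M ∈ unitary (Mat N)) (S : Finset (Fin N)) {a b : ℕ}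
    (h : a ≤ b) : gtP M S b * gtP M S a = gtP M S b := by
  unfold gtP
  rw [sp_mul hM]
  apply sp_congr
  intro σ
  by_cases h1 : b < wt S σ
  · have : a < wt S σ := by omega
    simp [h1, this]
  · simp [h1]

theorem wt_le_card (S : Finset (Fin N)) (σ : Om N) : wt S σ ≤ S.card :=
  Finset.card_filter_le _ _

theorem wt_le (S : Finset (Fin N)) (σ : Om N) : wt S σ ≤ N :=
  le_trans (wt_le_card S σ) (by simpa using Finset.card_le_univ S)

theorem gtP_eq_zero (M : Mat N) (S : Finset (Fin N)) {a : ℕ} (h : N ≤ a) : gtP M S a = 0 := by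
  unfold gtP
  rw [← sp_zero M]
  apply sp_congr
  intro σ
  have := wt_le S σ
  have h1 : ¬ a < wt S σ := by omega
  simp [h1]

/-- Spectral projections are monotone: a bound for `gtP M S a * Y` gives one for
`gtP M S b * Y`, `a ≤ b`. -/
theorem norm_gtP_mul_mono {M : Mat N} (hM : M ∈ unitary (Mat N)) (S : Finset (Fin N)) {a b : ℕ}
    (h : a ≤ b) (Y : Mat N) : ‖gtP M S b * Y‖ ≤ ‖gtP M S a * Y‖ := by
  rw [← gtP_mul_gtP hM S h, Matrix.mul_assoc]
  calc ‖gtP M S b * (gtP M S a * Y)‖ ≤ ‖gtP M S b‖ * ‖gtP M S a * Y‖ := norm_mul_le _ _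
    _ ≤ 1 * ‖gtP M S a * Y‖ := by gcongr; exact norm_gtP_le hM S b
    _ = _ := one_mul _

/-- Conjugating a spectral projection. -/
theorem conj_gtP (U M : Mat N) (S : Finset (Fin N)) (k : ℕ) :
    U * gtP M S k * star U = gtP (U * M) S k := conj_sp _ _ _

theorem conj_leP (U M : Mat N) (S : Finset (Fin N)) (k : ℕ) :
    U * leP M S k * star U = leP (U * M) S k := conj_sp _ _ _

theorem conj_onesP (U M : Mat N) (R : Finset (Fin N)) :
    U * onesP M R * star U = onesP (U * M) R := conj_sp _ _ _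

/-- Heisenberg picture: `‖f(U K U⋆) X g(U K' U⋆)‖ = ‖f(K) (U⋆ X U) g(K')‖`. -/
theorem norm_sp_conj {U : Mat N} (hU : U ∈ unitary (Mat N)) (M M' X : Mat N) (f g : Om N → ℂ) :
    ‖sp (U * M) f * X * sp (U * M') g‖ = ‖sp M f * (star U * X * U) * sp M' g‖ := by
  rw [← conj_sp, ← conj_sp]
  have : U * sp M f * star U * X * (U * sp M' g * star U)
      = U * (sp M f * (star U * X * U) * sp M' g) * star U := by
    simp only [Matrix.mul_assoc]
  rw [this, norm_unitary_conj hU]

end Crest.Agent.QA
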