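import Mathlib

/-!
# S0539, task QA-Params: choice of the parameters (purely numerical)
-/

set_option autoImplicit false

namespace Crest.Agent.QA

/-- Purely numerical. Given `δ > 0` there are `I` and `δ' > 0` such that for all large `N` and all
`A ≤ N^{δ'}` there are `L, G` with the properties needed in `good_succ` and
`12 G^I G^I A ≤ N^δ`. Choose `I ≥ 2` with `I - 1 ≥ 16/δ`, `m = I(I-1)/2`,
`δ' = min (1/(4m)) (δ/4)`, `L = Nat.clog 2 N` (so `N ≤ 2^L`, `L ≤ log₂ N + 1`) and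
`G = ⌈N^{1/m}⌉₊`. Then `G^m ≥ N`; `3·43²·L⁴ ≤ N^{1/(4m)}` eventually, so
`3 A (43 L²)² ≤ N^{1/(2m)} ≤ G`; `G ≤ 2 N^{1/m}`, so
`12 G^{2I} A ≤ 12·4^I·N^{2I/m}·N^{δ/4}`, `2I/m = 4/(I-1) ≤ δ/4`, and `12·4^I ≤ N^{δ/2}`
eventually. -/
theorem exists_params (δ : ℝ) (hδ : 0 < δ) :
    ∃ (I : ℕ) (δ' : ℝ), 0 < δ' ∧ ∃ N₀ : ℕ, ∀ N : ℕ, N₀ ≤ N → ∀ A : ℕ, 1 ≤ A →
      (A : ℝ) ≤ (N : ℝ) ^ δ' →
      ∃ L G : ℕ, 1 ≤ L ∧ N ≤ 2 ^ L ∧ 3 * A * (43 * L ^ 2) ^ 2 ≤ G ∧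
        N ≤ G ^ (I * (I - 1) / 2) ∧
        ((12 * G ^ I * G ^ I * A : ℕ) : ℝ) ≤ (N : ℝ) ^ δ := by
  obtain ⟨J, hJ1, hJ⟩ : ∃ J : ℕ, 1 ≤ J ∧ 16 / δ ≤ (J : ℝ) := by
    refine ⟨⌈16 / δ⌉₊ + 1, by omega, ?_⟩
    push_cast
    linarith [Nat.le_ceil (16 / δ)]
  have hJ0 : (0 : ℝ) < J := by exact_mod_cast hJ1
  have hm2 : (J + 1) * (J + 1 - 1) / 2 * 2 = (J + 1) * J := by
    rw [Nat.add_sub_cancel]
    apply Nat.div_mul_cancel
    rw [mul_comm]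
    exact (Nat.even_mul_succ_self J).two_dvd
  set m : ℕ := (J + 1) * (J + 1 - 1) / 2 with hm
  have hm1 : 1 ≤ m := by
    by_contra hcon
    have h0 : m = 0 := by omega
    rw [h0, zero_mul] at hm2
    have : 0 < (J + 1) * J := by positivity
    omega
  have hmR : (m : ℝ) * 2 = ((J : ℝ) + 1) * J := by exact_mod_cast hm2
  have hm0 : (0 : ℝ) < m := by exact_mod_cast hm1
  have hJm : 2 * ((J : ℝ) + 1) / m ≤ δ / 4 := by
    rw [div_le_iff₀ hm0]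
    rw [div_le_iff₀ hδ] at hJ
    nlinarith
  set e : ℝ := 1 / (4 * (m : ℝ)) with he
  have he0 : 0 < e := by positivity
  -- eventual inequalities
  have ev1 : ∀ᶠ N : ℕ in Filter.atTop,
      3 * 43 ^ 2 * 81 * (Real.log (N : ℝ)) ^ 4 ≤ (N : ℝ) ^ e := by
    have h1 := (isLittleO_log_rpow_rpow_atTop (4 : ℝ) he0).def
      (show (0 : ℝ) < 1 / (3 * 43 ^ 2 * 81) by norm_num)
    have h2 := tendsto_natCast_atTop_atTop (R := ℝ) |>.eventually h1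
    filter_upwards [h2] with N hN
    rw [Real.norm_eq_abs, Real.norm_eq_abs] at hN
    have h3 : Real.log (N : ℝ) ^ (4 : ℝ) = Real.log (N : ℝ) ^ 4 := by
      have := Real.rpow_natCast (Real.log (N : ℝ)) 4
      push_cast at this
      exact this
    rw [h3] at hN
    have h4 : |Real.log (N : ℝ) ^ 4| = Real.log (N : ℝ) ^ 4 := abs_of_nonneg (by positivity)
    have h5 : |(N : ℝ) ^ e| = (N : ℝ) ^ e := abs_of_nonneg (by positivity)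
    rw [h4, h5, div_mul_eq_mul_div, one_mul, le_div_iff₀ (by norm_num)] at hN
    linarith
  have ev2 : ∀ᶠ N : ℕ in Filter.atTop, 12 * 4 ^ (J + 1) ≤ (N : ℝ) ^ (δ / 2) := by
    have h1 := (tendsto_rpow_atTop (show 0 < δ / 2 by positivity)).comp
      (tendsto_natCast_atTop_atTop (R := ℝ))
    exact h1.eventually_ge_atTop _
  obtain ⟨N₀, hN₀⟩ := Filter.eventually_atTop.1 (ev1.and (ev2.and (Filter.eventually_ge_atTop 3)))
  refine ⟨J + 1, min e (δ / 4), lt_min he0 (by positivity), N₀, ?_⟩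
  intro N hN A hA hAN
  obtain ⟨h1, h2, h3⟩ := hN₀ N hN
  have hN1 : (1 : ℝ) ≤ N := by exact_mod_cast (by omega : 1 ≤ N)
  have hN0 : (0 : ℝ) < N := by linarith
  have hN3 : (3 : ℝ) ≤ N := by exact_mod_cast h3
  have hlog1 : 1 ≤ Real.log (N : ℝ) := by
    rw [Real.le_log_iff_exp_le hN0]
    linarith [Real.exp_one_lt_d9]
  have hLbound : ((Nat.clog 2 N : ℕ) : ℝ) ≤ 3 * Real.log (N : ℝ) := by
    have h4 : 2 ^ (Nat.clog 2 N).pred < N := Nat.pow_pred_clog_lt_self (by norm_num) (by omega)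
    have h5 : (2 : ℝ) ^ (Nat.clog 2 N).pred ≤ N := by exact_mod_cast h4.le
    have h6 := Real.log_le_log (by positivity) h5
    rw [Real.log_pow] at h6
    have h7 : (0.6931471803 : ℝ) < Real.log 2 := Real.log_two_gt_d9
    have h8 : ((Nat.clog 2 N : ℕ) : ℝ) ≤ ((Nat.clog 2 N).pred : ℝ) + 1 := by
      have : Nat.clog 2 N ≤ (Nat.clog 2 N).pred + 1 := by
        rw [Nat.pred_eq_sub_one]
        omega
      exact_mod_cast this
    have h9 : (0 : ℝ) ≤ ((Nat.clog 2 N).pred : ℝ) := Nat.cast_nonneg _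
    nlinarith
  have hGle : (N : ℝ) ^ (1 / (m : ℝ)) ≤ (⌈(N : ℝ) ^ (1 / (m : ℝ))⌉₊ : ℝ) := Nat.le_ceil _
  have hGlt : (⌈(N : ℝ) ^ (1 / (m : ℝ))⌉₊ : ℝ) ≤ 2 * (N : ℝ) ^ (1 / (m : ℝ)) := by
    have h4 := Nat.ceil_lt_add_one (show 0 ≤ (N : ℝ) ^ (1 / (m : ℝ)) by positivity)
    have h5 : 1 ≤ (N : ℝ) ^ (1 / (m : ℝ)) := Real.one_le_rpow hN1 (by positivity)
    linarith
  refine ⟨Nat.clog 2 N, ⌈(N : ℝ) ^ (1 / (m : ℝ))⌉₊, ?_, Nat.le_pow_clog (by norm_num) N, ?_, ?_, ?_⟩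
  · exact Nat.clog_pos (by norm_num) (by omega)
  · have h4 : ((3 * A * (43 * (Nat.clog 2 N) ^ 2) ^ 2 : ℕ) : ℝ) ≤
        (⌈(N : ℝ) ^ (1 / (m : ℝ))⌉₊ : ℝ) := by
      refine le_trans ?_ hGle
      push_cast
      have h5 : (A : ℝ) ≤ (N : ℝ) ^ e :=
        hAN.trans (Real.rpow_le_rpow_of_exponent_le hN1 (min_le_left _ _))
      have h6 : ((Nat.clog 2 N : ℕ) : ℝ) ^ 4 ≤ (3 * Real.log (N : ℝ)) ^ 4 :=
        pow_le_pow_left₀ (Nat.cast_nonneg _) hLbound 4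
      have h7 : 3 * 43 ^ 2 * ((Nat.clog 2 N : ℕ) : ℝ) ^ 4 ≤ (N : ℝ) ^ e := by
        refine le_trans ?_ h1
        nlinarith
      calc 3 * (A : ℝ) * (43 * (Nat.clog 2 N : ℝ) ^ 2) ^ 2 =
          (3 * 43 ^ 2 * ((Nat.clog 2 N : ℕ) : ℝ) ^ 4) * A := by ring
        _ ≤ (N : ℝ) ^ e * (N : ℝ) ^ e := by
            apply mul_le_mul h7 h5 (by positivity) (by positivity)
        _ = (N : ℝ) ^ (e + e) := by rw [Real.rpow_add hN0]
        _ ≤ (N : ℝ) ^ (1 / (m : ℝ)) := by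
            apply Real.rpow_le_rpow_of_exponent_le hN1
            rw [he]
            have h8 : 1 / (4 * (m : ℝ)) + 1 / (4 * (m : ℝ)) = (1 / (m : ℝ)) / 2 := by
              field_simp
              norm_num
            rw [h8]
            have : 0 < 1 / (m : ℝ) := by positivity
            linarith
    exact_mod_cast h4
  · have h4 : (N : ℝ) ≤ ((⌈(N : ℝ) ^ (1 / (m : ℝ))⌉₊ : ℕ) : ℝ) ^ m := by
      calc (N : ℝ) = ((N : ℝ) ^ (1 / (m : ℝ))) ^ m := by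
            rw [← Real.rpow_natCast, ← Real.rpow_mul hN0.le, one_div, inv_mul_cancel₀ hm0.ne',
              Real.rpow_one]
        _ ≤ ((⌈(N : ℝ) ^ (1 / (m : ℝ))⌉₊ : ℕ) : ℝ) ^ m :=
            pow_le_pow_left₀ (by positivity) hGle m
    exact_mod_cast h4
  · push_cast
    have h5 : (A : ℝ) ≤ (N : ℝ) ^ (δ / 4) :=
      hAN.trans (Real.rpow_le_rpow_of_exponent_le hN1 (min_le_right _ _))
    have h6 : (⌈(N : ℝ) ^ (1 / (m : ℝ))⌉₊ : ℝ) ^ (J + 1) * (⌈(N : ℝ) ^ (1 / (m : ℝ))⌉₊ : ℝ) ^ (J + 1)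
        ≤ 4 ^ (J + 1) * (N : ℝ) ^ (δ / 4) := by
      calc (⌈(N : ℝ) ^ (1 / (m : ℝ))⌉₊ : ℝ) ^ (J + 1) * (⌈(N : ℝ) ^ (1 / (m : ℝ))⌉₊ : ℝ) ^ (J + 1)
          ≤ (2 * (N : ℝ) ^ (1 / (m : ℝ))) ^ (J + 1) * (2 * (N : ℝ) ^ (1 / (m : ℝ))) ^ (J + 1) := by
            apply mul_le_mul (pow_le_pow_left₀ (by positivity) hGlt _)
              (pow_le_pow_left₀ (by positivity) hGlt _) (by positivity) (by positivity)
        _ = 4 ^ (J + 1) * ((N : ℝ) ^ (1 / (m : ℝ))) ^ (2 * (J + 1)) := by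
            rw [mul_pow, two_mul, pow_add]
            have : (4 : ℝ) ^ (J + 1) = 2 ^ (J + 1) * 2 ^ (J + 1) := by
              rw [← mul_pow]
              norm_num
            rw [this]
            ring
        _ = 4 ^ (J + 1) * (N : ℝ) ^ (2 * ((J : ℝ) + 1) / m) := by
            rw [← Real.rpow_natCast ((N : ℝ) ^ (1 / (m : ℝ))), ← Real.rpow_mul hN0.le]
            congr 2
            push_cast
            ring
        _ ≤ 4 ^ (J + 1) * (N : ℝ) ^ (δ / 4) := by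
            apply mul_le_mul_of_nonneg_left _ (by positivity)
            exact Real.rpow_le_rpow_of_exponent_le hN1 hJm
    calc 12 * (⌈(N : ℝ) ^ (1 / (m : ℝ))⌉₊ : ℝ) ^ (J + 1) *
          (⌈(N : ℝ) ^ (1 / (m : ℝ))⌉₊ : ℝ) ^ (J + 1) * (A : ℝ) =
        12 * ((⌈(N : ℝ) ^ (1 / (m : ℝ))⌉₊ : ℝ) ^ (J + 1) *
          (⌈(N : ℝ) ^ (1 / (m : ℝ))⌉₊ : ℝ) ^ (J + 1)) * A := by ring
      _ ≤ 12 * (4 ^ (J + 1) * (N : ℝ) ^ (δ / 4)) * (N : ℝ) ^ (δ / 4) := by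
          apply mul_le_mul _ h5 (by positivity) (by positivity)
          apply mul_le_mul_of_nonneg_left h6 (by norm_num)
      _ = (12 * 4 ^ (J + 1)) * ((N : ℝ) ^ (δ / 4) * (N : ℝ) ^ (δ / 4)) := by ring
      _ ≤ (N : ℝ) ^ (δ / 2) * ((N : ℝ) ^ (δ / 4) * (N : ℝ) ^ (δ / 4)) :=
          mul_le_mul_of_nonneg_right h2 (by positivity)
      _ = (N : ℝ) ^ δ := by
          rw [← Real.rpow_add hN0, ← Real.rpow_add hN0]
          congr 1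
          ring

end Crest.Agent.QA
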