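import Crest.Agent.QA_Succ
import Crest.Agent.QA_Params

/-!
# S0539, task QA-Asym: for every depth `s`, `Good N s A` holds with `A = N^{o(1)}`
-/

set_option autoImplicit false

namespace Crest.Agent.QA

/-- Induction on `s` with `good_zero`, `good_succ` and `exists_params`. -/
theorem good_small (s : ℕ) : ∀ δ : ℝ, 0 < δ →
    ∃ N₀ : ℕ, ∀ N : ℕ, N₀ ≤ N → ∃ A : ℕ, 1 ≤ A ∧ (A : ℝ) ≤ (N : ℝ) ^ δ ∧ Good N s A := by
  induction s with
  | zero =>
    intro δ hδ
    refine ⟨1, fun N hN => ⟨1, le_rfl, ?_, good_zero N⟩⟩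
    have h1 : (1 : ℝ) ≤ (N : ℝ) := by exact_mod_cast hN
    rw [Nat.cast_one]
    exact Real.one_le_rpow h1 hδ.le
  | succ s ih =>
    intro δ hδ
    obtain ⟨I, δ', hδ', N₁, h₁⟩ := exists_params δ hδ
    obtain ⟨N₂, h₂⟩ := ih δ' hδ'
    refine ⟨max (max N₁ N₂) 1, fun N hN => ?_⟩
    have hN1 : N₁ ≤ N := le_trans (le_trans (le_max_left _ _) (le_max_left _ _)) hN
    have hN2 : N₂ ≤ N := le_trans (le_trans (le_max_right _ _) (le_max_left _ _)) hN
    have hN3 : 1 ≤ N := le_trans (le_max_right _ _) hN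
    obtain ⟨A, hA1, hA2, hA3⟩ := h₂ N hN2
    obtain ⟨L, G, hL, hNL, hG, hI, hle⟩ := h₁ N hN1 A hA1 hA2
    refine ⟨12 * G ^ I * G ^ I * A, ?_, hle, good_succ hA3 hA1 hL hNL hG hI⟩
    have hGpos : 1 ≤ G := by
      by_contra hcon
      have hG0 : G = 0 := by omega
      rw [hG0] at hG
      have : 0 < 3 * A * (43 * L ^ 2) ^ 2 := by positivity
      omega
    have : 0 < 12 * G ^ I * G ^ I * A := by positivity
    omega

end Crest.Agent.QA
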