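import Mathlib

/-!
# S0539, task QA-Cheb: the damping polynomial (Chebyshev)

Mathlib: `Polynomial.Chebyshev.T ℝ (m : ℤ)`, `Polynomial.Chebyshev.abs_eval_T_real_le_one`,
`Polynomial.Chebyshev.T_real_cosh`, `Polynomial.Chebyshev.T_eval_neg` (or similar).
-/

set_option autoImplicit false

namespace Crest.Agent.QA

open Polynomial

/-- For `z > 0`: `T_m((z + 1/z)/2) = (z^m + z^{-m})/2` (induction using the recursion
`T (n+2) = 2 X T (n+1) - T n`, or `T_real_cosh` with `z = exp θ`). -/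
theorem T_eval_half (m : ℕ) (z : ℝ) (hz : 0 < z) :
    (Chebyshev.T ℝ (m : ℤ)).eval ((z + z⁻¹) / 2) = (z ^ m + (z⁻¹) ^ m) / 2 := by
  have h1 : (z + z⁻¹) / 2 = Real.cosh (Real.log z) := by
    rw [Real.cosh_eq, Real.exp_log hz, Real.exp_neg, Real.exp_log hz]
  have h2 : Real.exp ((m : ℝ) * Real.log z) = z ^ m := by
    rw [Real.exp_nat_mul, Real.exp_log hz]
  rw [h1, Chebyshev.T_real_cosh, Real.cosh_eq]
  have h3 : (((m : ℤ) : ℝ)) * Real.log z = (m : ℝ) * Real.log z := by push_cast; ring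
  rw [h3, Real.exp_neg, h2, inv_pow]

private theorem cheb_z (y : ℝ) (hy : 1 ≤ y) :
    ∃ z : ℝ, 0 < z ∧ 1 ≤ z ∧ (z + z⁻¹) / 2 = y ∧ z = y + Real.sqrt (y ^ 2 - 1) := by
  have h0 : 0 ≤ y ^ 2 - 1 := by nlinarith
  have hs := Real.sq_sqrt h0
  have hs0 := Real.sqrt_nonneg (y ^ 2 - 1)
  have hz : 1 ≤ y + Real.sqrt (y ^ 2 - 1) := by linarith
  have hz0 : 0 < y + Real.sqrt (y ^ 2 - 1) := by linarith
  refine ⟨y + Real.sqrt (y ^ 2 - 1), hz0, hz, ?_, rfl⟩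
  field_simp
  nlinarith

/-- `T_m(y) ≥ (1 + √(2δ))^m / 2` for `y ≥ 1 + δ`, `δ ≥ 0`: put `z = y + √(y² - 1) ≥ 1`, so
`y = (z + 1/z)/2`, and `y² - 1 = (y-1)(y+1) ≥ 2δ`. -/
theorem cheb_lower (m : ℕ) (δ y : ℝ) (hδ : 0 ≤ δ) (hy : 1 + δ ≤ y) :
    (1 + Real.sqrt (2 * δ)) ^ m / 2 ≤ (Chebyshev.T ℝ (m : ℤ)).eval y := by
  obtain ⟨z, hz0, hz1, hzy, hz⟩ := cheb_z y (by linarith)
  rw [← hzy, T_eval_half m z hz0]
  have h1 : Real.sqrt (2 * δ) ≤ Real.sqrt (y ^ 2 - 1) := Real.sqrt_le_sqrt (by nlinarith)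
  have h2 : 1 + Real.sqrt (2 * δ) ≤ z := by rw [hz]; linarith
  have h3 : (1 + Real.sqrt (2 * δ)) ^ m ≤ z ^ m :=
    pow_le_pow_left₀ (by linarith [Real.sqrt_nonneg (2 * δ)]) h2 m
  have h4 : 0 ≤ (z⁻¹) ^ m := by positivity
  linarith

private theorem cheb_upper_aux (m : ℕ) (y W : ℝ) (hy1 : 1 ≤ y) (hy : y ≤ W) :
    |(Chebyshev.T ℝ (m : ℤ)).eval y| ≤ (2 * W) ^ m := by
  obtain ⟨z, hz0, hz1, hzy, hz⟩ := cheb_z y hy1
  have h1 : Real.sqrt (y ^ 2 - 1) ≤ y := by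
    rw [Real.sqrt_le_left (by linarith)]
    linarith
  have h2 : z ≤ 2 * W := by rw [hz]; linarith
  have h3 : z ^ m ≤ (2 * W) ^ m := pow_le_pow_left₀ hz0.le h2 m
  have h4 : z⁻¹ ≤ z := by
    rw [inv_le_comm₀ hz0 hz0]
    exact le_trans (inv_le_one_of_one_le₀ hz1) hz1
  have h5 : (z⁻¹) ^ m ≤ z ^ m := pow_le_pow_left₀ (by positivity) h4 m
  have h6 : 0 ≤ (z⁻¹) ^ m := by positivity
  have h7 : 0 ≤ z ^ m := by positivity
  rw [← hzy, T_eval_half m z hz0, abs_of_nonneg (by linarith)]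
  linarith

/-- `|T_m(y)| ≤ (2 W)^m` for `|y| ≤ W`, `1 ≤ W`. (If `|y| ≤ 1` the left side is `≤ 1`; if `|y| ≥ 1`,
by parity we may take `y ≥ 1`, and `T_m(y) = (z^m + z^{-m})/2 ≤ z^m ≤ (2y)^m` with
`z = y + √(y²-1) ≤ 2y`.) -/
theorem cheb_upper (m : ℕ) (y W : ℝ) (hW : 1 ≤ W) (hy : |y| ≤ W) :
    |(Chebyshev.T ℝ (m : ℤ)).eval y| ≤ (2 * W) ^ m := by
  rcases le_or_gt |y| 1 with h | h
  · refine (Chebyshev.abs_eval_T_real_le_one (m : ℤ) h).trans ?_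
    exact one_le_pow₀ (by linarith)
  · rcases le_total 0 y with h0 | h0
    · rw [abs_of_nonneg h0] at h hy
      exact cheb_upper_aux m y W h.le hy
    · rw [abs_of_nonpos h0] at h hy
      have h8 := cheb_upper_aux m (-y) W h.le hy
      rw [Chebyshev.T_eval_neg, abs_mul] at h8
      have h9 : |(((m : ℤ).negOnePow : ℤˣ) : ℝ)| = 1 := by
        rcases Int.units_eq_one_or ((m : ℤ).negOnePow) with h | h <;> rw [h] <;> simp
      rw [h9, one_mul] at h8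
      exact h8

end Crest.Agent.QA
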