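import Crest.Agent.QA_Loc

/-!
# S0539, task QA-Circ: the class of circuits `Circ s` is closed under inverses
-/

set_option autoImplicit false

namespace Crest.Agent.QA

open Matrix
open scoped Matrix.Norms.L2Operator

variable {N : ℕ}

/-- `gatef` takes values `±1`. -/
theorem gatef_mul_self (𝒢 : Finset (Finset (Fin N))) (σ : Om N) : gatef 𝒢 σ * gatef 𝒢 σ = 1 := by
  unfold gatef
  rw [← Finset.prod_mul_distrib]
  refine Finset.prod_eq_one fun g _ => ?_
  split_ifs <;> norm_num

theorem star_gatef (𝒢 : Finset (Finset (Fin N))) (σ : Om N) : star (gatef 𝒢 σ) = gatef 𝒢 σ := by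
  unfold gatef
  rw [star_prod]
  refine Finset.prod_congr rfl fun g _ => ?_
  split_ifs <;> simp

theorem norm_gatef (𝒢 : Finset (Finset (Fin N))) (σ : Om N) : ‖gatef 𝒢 σ‖ = 1 := by
  unfold gatef
  rw [norm_prod]
  refine Finset.prod_eq_one fun g _ => ?_
  split_ifs <;> simp

private theorem Circ_star_spgate (M : Mat N) (𝒢 : Finset (Finset (Fin N))) :
    star (sp M (gatef 𝒢)) = sp M (gatef 𝒢) := by
  rw [star_sp]
  exact sp_congr M (star_gatef 𝒢)

private theorem Circ_spgate_sq {M : Mat N} (hM : M ∈ unitary (Mat N))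
    (𝒢 : Finset (Finset (Fin N))) : sp M (gatef 𝒢) * sp M (gatef 𝒢) = 1 := by
  rw [sp_mul hM, ← sp_one hM]
  exact sp_congr M (gatef_mul_self 𝒢)

/-- `sp M (gatef 𝒢)` is unitary (and self-adjoint). -/
theorem spgate_mem {M : Mat N} (hM : M ∈ unitary (Mat N)) (𝒢 : Finset (Finset (Fin N))) :
    sp M (gatef 𝒢) ∈ unitary (Mat N) := by
  rw [Unitary.mem_iff, Circ_star_spgate]
  exact ⟨Circ_spgate_sq hM 𝒢, Circ_spgate_sq hM 𝒢⟩

theorem layer_mem {v m : Fin N → Matrix Bool Bool ℂ} (hv : UV v) (hm : UV m)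
    (𝒢 : Finset (Finset (Fin N))) : layer v m 𝒢 ∈ unitary (Mat N) :=
  mul_mem (prodOp_mem hv) (spgate_mem (prodOp_mem hm) 𝒢)

theorem Circ_mem {s : ℕ} {U : Mat N} (hU : Circ s U) : U ∈ unitary (Mat N) := by
  induction hU with
  | base v hv => exact prodOp_mem hv
  | step s U v m 𝒢 hU hv hm hG ih => exact mul_mem (layer_mem hv hm 𝒢) ih

theorem Circ_mul_prodOp {s : ℕ} {U : Mat N} (hU : Circ s U) {v : Fin N → Matrix Bool Bool ℂ}
    (hv : UV v) : Circ s (U * prodOp v) := by
  induction hU with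
  | base w hw =>
    rw [prodOp_mul]
    exact Circ.base _ (UV_mul hw hv)
  | step s U w m 𝒢 hU hw hm hG ih =>
    rw [Matrix.mul_assoc]
    exact Circ.step s _ w m 𝒢 ih hw hm hG

theorem Circ_prodOp_mul {s : ℕ} {U : Mat N} (hU : Circ s U) {v : Fin N → Matrix Bool Bool ℂ}
    (hv : UV v) : Circ s (prodOp v * U) := by
  cases hU with
  | base w hw =>
    rw [prodOp_mul]
    exact Circ.base _ (UV_mul hv hw)
  | step s U w m 𝒢 hU hw hm hG =>
    rw [← Matrix.mul_assoc]
    have : prodOp v * layer w m 𝒢 = layer (fun i => v i * w i) m 𝒢 := by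
      unfold layer
      rw [← Matrix.mul_assoc, prodOp_mul]
    rw [this]
    exact Circ.step s _ _ m 𝒢 hU (UV_mul hv hw) hm hG

/-- Right multiplication by a layer (induction on `s`; for `s = 0`:
`prodOp w * layer v m 𝒢 = layer (w v) m 𝒢 * prodOp 1`). -/
theorem Circ_mul_layer {s : ℕ} {U : Mat N} (hU : Circ s U) {v m : Fin N → Matrix Bool Bool ℂ}
    (hv : UV v) (hm : UV m) (𝒢 : Finset (Finset (Fin N)))
    (hG : (𝒢 : Set (Finset (Fin N))).PairwiseDisjoint id) :
    Circ (s + 1) (U * layer v m 𝒢) := by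
  induction hU with
  | base w hw =>
    have : prodOp w * layer v m 𝒢 = layer (fun i => w i * v i) m 𝒢 * prodOp (fun _ => 1) := by
      unfold layer
      rw [← Matrix.mul_assoc, prodOp_mul, prodOp_one, Matrix.mul_one]
    rw [this]
    exact Circ.step 0 _ _ m 𝒢 (Circ.base _ UV_one) (UV_mul hw hv) hm hG
  | step s U w m' 𝒢' hU hw hm' hG' ih =>
    rw [Matrix.mul_assoc]
    exact Circ.step (s + 1) _ w m' 𝒢' ih hw hm' hG'

/-- The inverse of a layer is a layer: `(V G)⋆ = G V⋆ = V⋆ (V G V⋆)` and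
`V sp (prodOp m) f V⋆ = sp (prodOp (v m)) f` (`conj_sp`, `prodOp_mul`). -/
theorem star_layer {v m : Fin N → Matrix Bool Bool ℂ} (hv : UV v) (hm : UV m)
    (𝒢 : Finset (Finset (Fin N))) :
    star (layer v m 𝒢) = layer (fun i => star (v i)) (fun i => v i * m i) 𝒢 := by
  have hV := prodOp_mem hv
  unfold layer
  rw [star_mul, Circ_star_spgate, ← star_prodOp, ← prodOp_mul, ← conj_sp, ← Matrix.mul_assoc,
    ← Matrix.mul_assoc, star_mul_u hV, Matrix.one_mul]

theorem Circ_star {s : ℕ} {U : Mat N} (hU : Circ s U) : Circ s (star U) := by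
  induction hU with
  | base v hv =>
    rw [star_prodOp]
    exact Circ.base _ (UV_star hv)
  | step s U v m 𝒢 hU hv hm hG ih =>
    rw [star_mul, star_layer hv hm]
    exact Circ_mul_layer ih (UV_star hv) (UV_mul hv hm) 𝒢 hG

/-- A trivial layer (`𝒢 = ∅`, `v = m = 1`) may be added. -/
theorem Circ_succ {s : ℕ} {U : Mat N} (hU : Circ s U) : Circ (s + 1) U := by
  have h1 : (1 : Mat N) ∈ unitary (Mat N) := one_mem _
  have : U = layer (fun _ => 1) (fun _ => 1) ∅ * U := by
    have h2 : layer (fun _ => 1) (fun _ => 1) ∅ = (1 : Mat N) := by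
      unfold layer
      rw [prodOp_one, Matrix.one_mul]
      exact (sp_congr 1 fun σ => Finset.prod_empty).trans (sp_one h1)
    rw [h2, Matrix.one_mul]
  have h3 := Circ.step s U (fun _ => 1) (fun _ => 1) ∅ hU UV_one UV_one
    (by rw [Finset.coe_empty]; exact Set.pairwiseDisjoint_empty)
  rw [← this] at h3
  exact h3

theorem Circ_mono {s t : ℕ} (h : s ≤ t) {U : Mat N} (hU : Circ s U) : Circ t U := by
  induction h with
  | refl => exact hU
  | step _ ih => exact Circ_succ ih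

end Crest.Agent.QA
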