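import Crest.Agent.QA_Cheb

/-!
# S0539, task QA-Damp: the damping polynomial
-/

set_option autoImplicit false

namespace Crest.Agent.QA

open Polynomial

/-- The damping polynomial. With `X = t²E`, `q = 2E`, take
`τ(s) = T_{tu}((X + q - 2s)/(X - q))`.
* degree `≤ t u`;
* for `q ≤ i ≤ X` the argument is in `[-1, 1]`, so `|τ(i)| ≤ 1`;
* for `l ≤ E` the argument is `1 + (2q - 2l)/(X - q) ≥ 1 + 2E/((t²-2)E) ≥ 1 + 2/t²`, so by
  `cheb_lower` (`δ = 2/t²`, `√(2δ) = 2/t`) `τ(l) ≥ (1 + 2/t)^{tu}/2 ≥ 3^u/2 ≥ 2^u/2`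
  (Bernoulli: `(1 + 2/t)^t ≥ 3`);
* for `i ≤ W`, `X ≤ W`: `|X + q - 2i| ≤ 2W` and `X - q = (t² - 2)E ≥ 2`, so the argument is at most
  `W` in absolute value, and `cheb_upper` gives the last bound. -/
theorem exists_damping (t E u : ℕ) (ht : 2 ≤ t) (hE : 1 ≤ E) :
    ∃ τ : Polynomial ℝ, τ.natDegree ≤ t * u ∧
      (∀ i : ℕ, 2 * E ≤ i → i ≤ t ^ 2 * E → |τ.eval (i : ℝ)| ≤ 1) ∧
      (∀ l : ℕ, l ≤ E → (2 : ℝ) ^ u / 2 ≤ τ.eval (l : ℝ)) ∧
      (∀ i W : ℕ, i ≤ W → t ^ 2 * E ≤ W → |τ.eval (i : ℝ)| ≤ (2 * (W : ℝ)) ^ (t * u)) := by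
  have htR : (2 : ℝ) ≤ t := by exact_mod_cast ht
  have hER : (1 : ℝ) ≤ E := by exact_mod_cast hE
  have ht4 : (4 : ℝ) ≤ (t : ℝ) ^ 2 := by nlinarith
  obtain ⟨D, hD⟩ : ∃ D : ℝ, D = ((t : ℝ) ^ 2 - 2) * E := ⟨_, rfl⟩
  have hD2 : 2 ≤ D := by rw [hD]; nlinarith
  have hD0 : 0 < D := by linarith
  obtain ⟨N, hN⟩ : ∃ N : ℝ, N = ((t : ℝ) ^ 2 + 2) * E := ⟨_, rfl⟩
  have hev : ∀ s : ℝ, ((Chebyshev.T ℝ ((t * u : ℕ) : ℤ)).comp
      (C (N / D) - C (2 / D) * X)).eval s =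
      (Chebyshev.T ℝ ((t * u : ℕ) : ℤ)).eval ((N - 2 * s) / D) := by
    intro s
    rw [eval_comp]
    congr 1
    simp only [eval_sub, eval_mul, eval_C, eval_X]
    field_simp
  refine ⟨(Chebyshev.T ℝ ((t * u : ℕ) : ℤ)).comp (C (N / D) - C (2 / D) * X), ?_, ?_, ?_, ?_⟩
  · refine (natDegree_comp_le).trans ?_
    have h1 : (Chebyshev.T ℝ ((t * u : ℕ) : ℤ)).natDegree ≤ t * u := by
      rw [Chebyshev.natDegree_T, Int.natAbs_natCast]
    have h2 : (C (N / D) - C (2 / D) * X : Polynomial ℝ).natDegree ≤ 1 := by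
      refine (natDegree_sub_le _ _).trans ?_
      refine max_le ?_ ?_
      · rw [natDegree_C]; exact Nat.zero_le _
      · exact (natDegree_C_mul_le _ _).trans natDegree_X_le
    calc _ ≤ (t * u) * 1 := Nat.mul_le_mul h1 h2
      _ = t * u := Nat.mul_one _
  · intro i h1 h2
    rw [hev]
    have h1' : 2 * (E : ℝ) ≤ i := by exact_mod_cast h1
    have h2' : (i : ℝ) ≤ (t : ℝ) ^ 2 * E := by exact_mod_cast h2
    apply Chebyshev.abs_eval_T_real_le_one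
    rw [abs_le]
    constructor
    · rw [le_div_iff₀ hD0, hD, hN]
      nlinarith
    · rw [div_le_one hD0, hD, hN]
      nlinarith
  · intro l hl
    rw [hev]
    have hl' : (l : ℝ) ≤ E := by exact_mod_cast hl
    have hy : 1 + 2 / (t : ℝ) ^ 2 ≤ (N - 2 * l) / D := by
      rw [le_div_iff₀ hD0, hD, hN]
      have e : (1 + 2 / (t : ℝ) ^ 2) * (((t : ℝ) ^ 2 - 2) * E) =
          (t : ℝ) ^ 2 * E - 4 / (t : ℝ) ^ 2 * E := by
        field_simp
        ring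
      rw [e]
      have h4 : 0 ≤ 4 / (t : ℝ) ^ 2 * E := by positivity
      nlinarith
    have h0 : (0 : ℝ) ≤ 2 / (t : ℝ) ^ 2 := by positivity
    refine le_trans ?_ (cheb_lower (t * u) (2 / (t : ℝ) ^ 2) _ h0 hy)
    have hsq : Real.sqrt (2 * (2 / (t : ℝ) ^ 2)) = 2 / t := by
      have : 2 * (2 / (t : ℝ) ^ 2) = (2 / (t : ℝ)) ^ 2 := by
        ring
      rw [this, Real.sqrt_sq (by positivity)]
    rw [hsq]
    have hb : (3 : ℝ) ≤ (1 + 2 / (t : ℝ)) ^ t := by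
      have h1 := one_add_mul_le_pow (a := 2 / (t : ℝ)) (by
        have : 0 ≤ 2 / (t : ℝ) := by positivity
        linarith) t
      have h2 : 1 + (t : ℝ) * (2 / t) = 3 := by
        field_simp
        norm_num
      linarith
    rw [pow_mul]
    have h5 : (2 : ℝ) ^ u ≤ ((1 + 2 / (t : ℝ)) ^ t) ^ u :=
      pow_le_pow_left₀ (by norm_num) (by linarith) u
    linarith
  · intro i W hi hW
    rw [hev]
    have hi' : (i : ℝ) ≤ W := by exact_mod_cast hi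
    have hi0 : (0 : ℝ) ≤ i := Nat.cast_nonneg i
    have hW' : (t : ℝ) ^ 2 * E ≤ W := by exact_mod_cast hW
    have hW1 : (1 : ℝ) ≤ W := by nlinarith
    refine cheb_upper (t * u) _ W hW1 ?_
    rw [abs_div, abs_of_pos hD0, div_le_iff₀ hD0]
    have h6 : |N - 2 * (i : ℝ)| ≤ 2 * W := by
      rw [abs_le, hN]
      constructor
      · nlinarith
      · nlinarith
    refine h6.trans ?_
    nlinarith

end Crest.Agent.QA
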