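import Mathlib
import Crest.Prelude.Def_QCircuit

/-!
# S0539 (parity is not in QAC⁰): common definitions

All operators are matrices indexed by bit strings `Om N = Fin N → Bool`, with the `ℓ²` operator
norm (`open scoped Matrix.Norms.L2Operator`).

* `wt S σ` is the number of ones of `σ` inside the set `S` of wires;
* `sp M f = M * diagonal f * star M` ("function `f` of the number operators in the frame `M`"; `M`
  is always unitary);
* `leP M S k`, `gtP M S k`: the spectral projections `1[K ≤ k]`, `1[K > k]` of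
  `K = M diag(wt S) M⋆`;
* `onesP M R = ∏_{i ∈ R} (M n_i M⋆)`, the product of the projections `M diag(σ i = 1) M⋆`, `i ∈ R`;
* `prodOp v = ⨂ v i`, product operators; `UV v` says that all `v i` are unitary; `oneQ j u` is the
  operator `u` on wire `j`;
* `Loc R X`: `X` is supported on the wires `R` (it commutes with all one-wire operators on wires
  outside `R`);
* `layer v m 𝒢 = prodOp v * sp (prodOp m) (gatef 𝒢)`: one layer of one-qubit gates and (generalised)
  Toffoli gates (a Toffoli gate is `-1` on one product vector and `1` on its complement);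
* `Circ s U`: `U` is (a product unitary followed by) `s` layers;
* `Good N s A`: the locality statement which is proved by induction on the depth `s`;
* `FHyp`, `TB`: hypothesis and conclusion of the "bandwidth lemma".
-/

set_option autoImplicit false

namespace Crest.Agent.QA

open Matrix
open scoped Matrix.Norms.L2Operator

/-- Bit strings. -/
abbrev Om (N : ℕ) : Type := Fin N → Bool

/-- Operators on `N` qubits, as matrices. -/
abbrev Mat (N : ℕ) : Type := Matrix (Om N) (Om N) ℂ

variable {N : ℕ}

/-- The number of ones of `σ` in `S`. -/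
def wt (S : Finset (Fin N)) (σ : Om N) : ℕ := (S.filter fun i => σ i = true).card

/-- `M diag(f) M⋆`. -/
def sp (M : Mat N) (f : Om N → ℂ) : Mat N := M * diagonal f * star M

/-- The projection `1[K ≤ k]` for `K = M diag(wt S) M⋆`. -/
def leP (M : Mat N) (S : Finset (Fin N)) (k : ℕ) : Mat N :=
  sp M (fun σ => if wt S σ ≤ k then 1 else 0)

/-- The projection `1[K > k]` for `K = M diag(wt S) M⋆`. -/
def gtP (M : Mat N) (S : Finset (Fin N)) (k : ℕ) : Mat N :=
  sp M (fun σ => if k < wt S σ then 1 else 0)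

/-- The product of the projections `M diag(σ i = 1) M⋆`, `i ∈ R`. -/
def onesP (M : Mat N) (R : Finset (Fin N)) : Mat N :=
  sp M (fun σ => if ∀ i ∈ R, σ i = true then 1 else 0)

/-- The product operator `⨂ v i`. -/
def prodOp (v : Fin N → Matrix Bool Bool ℂ) : Mat N :=
  Matrix.of fun σ τ => ∏ i, v i (σ i) (τ i)

/-- All one-wire operators `v i` are unitary. -/
def UV (v : Fin N → Matrix Bool Bool ℂ) : Prop := ∀ i, v i ∈ unitary (Matrix Bool Bool ℂ)

/-- The operator `u` on wire `j`. -/
def oneQ (j : Fin N) (u : Matrix Bool Bool ℂ) : Mat N :=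
  prodOp (Function.update (fun _ => 1) j u)

/-- `X` is supported on the wires `R`. -/
def Loc (R : Finset (Fin N)) (X : Mat N) : Prop :=
  ∀ j ∉ R, ∀ u : Matrix Bool Bool ℂ, X * oneQ j u = oneQ j u * X

/-- The sign function of a family of gates: each gate `g` (a set of wires) contributes `-1` on the
strings which vanish on `g`. -/
def gatef (𝒢 : Finset (Finset (Fin N))) (σ : Om N) : ℂ :=
  ∏ g ∈ 𝒢, if wt g σ = 0 then (-1) else 1

/-- A layer. -/
def layer (v m : Fin N → Matrix Bool Bool ℂ) (𝒢 : Finset (Finset (Fin N))) : Mat N :=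
  prodOp v * sp (prodOp m) (gatef 𝒢)

/-- Circuits of depth `s` (right-multiplied by a product unitary). -/
inductive Circ {N : ℕ} : ℕ → Mat N → Prop
  | base (v : Fin N → Matrix Bool Bool ℂ) (hv : UV v) : Circ 0 (prodOp v)
  | step (s : ℕ) (U : Mat N) (v m : Fin N → Matrix Bool Bool ℂ) (𝒢 : Finset (Finset (Fin N)))
      (hU : Circ s U) (hv : UV v) (hm : UV m)
      (hG : (𝒢 : Set (Finset (Fin N))).PairwiseDisjoint id) : Circ (s + 1) (layer v m 𝒢 * U)

/-- The locality statement: in the Heisenberg picture by a circuit of depth `s`, an operator on at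
most `Λ` wires changes a product number operator from `≤ k` to at most `A (k + Λ)`, up to an
exponentially small error. -/
def Good (N s A : ℕ) : Prop :=
  ∀ U : Mat N, Circ s U → ∀ (S R : Finset (Fin N)) (X : Mat N) (k Λ : ℕ),
    Loc R X → ‖X‖ ≤ 1 → R.card ≤ Λ → 1 ≤ Λ →
      ‖gtP U S (A * (k + Λ)) * X * leP U S k‖ ≤ (1 / 2 : ℝ) ^ Λ

/-- Hypothesis (one half) of the bandwidth lemma. -/
def FHyp (M M' : Mat N) (S' : Finset (Fin N)) (A : ℕ) : Prop :=
  ∀ (R : Finset (Fin N)) (x Λ : ℕ), R.card ≤ Λ → 1 ≤ Λ →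
    ‖gtP M' S' (A * (x + Λ)) * onesP M R * leP M' S' x‖ ≤ (1 / 2 : ℝ) ^ Λ

/-- Conclusion (one half) of the bandwidth lemma: with `K = M diag(wt S) M⋆`,
`K' = M' diag(wt S') M'⋆`, we have `‖1[K' > a] 1[K ≤ k] 1[K' ≤ x]‖ ≤ 2^{-E}` for `k, x ≤ E`. -/
def TB (M : Mat N) (S : Finset (Fin N)) (M' : Mat N) (S' : Finset (Fin N)) (E a : ℕ) : Prop :=
  ∀ k x : ℕ, k ≤ E → x ≤ E → ‖gtP M' S' a * leP M S k * leP M' S' x‖ ≤ (1 / 2 : ℝ) ^ E

end Crest.Agent.QA
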