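import Crest.Agent.QA_Tensor

/-!
# S0539, task QA-Out: outcome probabilities as matrix entries
-/

set_option autoImplicit false

namespace Crest.Agent.QA

open Matrix Crest.Quantum.Circuit
open scoped Matrix.Norms.L2Operator

variable {N : ℕ}

/-- The Pauli matrix `Z`. -/
def Zm : Matrix Bool Bool ℂ := diagonal fun b => if b then -1 else 1

private theorem out_oneQ (o : Fin N) :
    oneQ o Zm = diagonal (fun σ : Om N => if σ o then (-1 : ℂ) else 1) := by
  ext σ τ
  rw [oneQ_apply, diagonal_apply]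
  by_cases h : σ = τ
  · subst h
    simp [Zm, diagonal_apply]
  · rw [if_neg h]
    by_cases h2 : ∀ i, i ≠ o → σ i = τ i
    · rw [if_pos h2]
      have h3 : σ o ≠ τ o := by
        intro h4
        apply h
        funext i
        by_cases hi : i = o
        · rw [hi]; exact h4
        · exact h2 i hi
      unfold Zm
      exact diagonal_apply_ne _ h3
    · rw [if_neg h2]

private theorem out_basis (U : Mat N) (ξ σ : Om N) : (U *ᵥ basisState ξ) σ = U σ ξ := by
  simp [Matrix.mulVec, dotProduct, basisState]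

/-- `⟨x|U⋆ Z_o U|x⟩ = P(0) - P(1)`. -/
theorem outcome_diff (U : Mat N) (o : Fin N) (ξ : Om N) :
    (star U * oneQ o Zm * U) ξ ξ
      = ((outcomeProb o false (U *ᵥ basisState ξ) - outcomeProb o true (U *ᵥ basisState ξ) : ℝ) : ℂ)
      := by
  rw [out_oneQ, Matrix.mul_apply]
  unfold outcomeProb
  rw [← Finset.sum_sub_distrib, Complex.ofReal_sum]
  refine Finset.sum_congr rfl fun σ _ => ?_
  rw [out_basis, Matrix.mul_diagonal, Matrix.star_apply]
  have hn : star (U σ ξ) * U σ ξ = ((‖U σ ξ‖ ^ 2 : ℝ) : ℂ) := by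
    rw [← Complex.normSq_eq_norm_sq, Complex.normSq_eq_conj_mul_self]
    rfl
  rcases h : σ o with _ | _
  · simp only [Bool.false_eq_true, if_false, if_true, mul_one, sub_zero, reduceCtorEq]
    exact hn
  · simp only [if_true, reduceCtorEq, if_false, zero_sub]
    rw [Complex.ofReal_neg, ← hn]
    ring

theorem outcome_sum {U : Mat N} (hU : U ∈ unitary (Mat N)) (o : Fin N) (ξ : Om N) :
    outcomeProb o false (U *ᵥ basisState ξ) + outcomeProb o true (U *ᵥ basisState ξ) = 1 := by
  have h := congrFun (congrFun (star_mul_u hU) ξ) ξ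
  rw [Matrix.one_apply_eq, Matrix.mul_apply] at h
  have h2 : (∑ σ : Om N, ‖U σ ξ‖ ^ 2 : ℝ) = 1 := by
    have : ((∑ σ : Om N, ‖U σ ξ‖ ^ 2 : ℝ) : ℂ) = 1 := by
      rw [Complex.ofReal_sum, ← h]
      refine Finset.sum_congr rfl fun σ _ => ?_
      rw [Matrix.star_apply, ← Complex.normSq_eq_norm_sq, Complex.normSq_eq_conj_mul_self]
      rfl
    exact_mod_cast this
  rw [← h2]
  unfold outcomeProb
  rw [← Finset.sum_add_distrib]
  refine Finset.sum_congr rfl fun σ _ => ?_
  rw [out_basis]
  rcases h : σ o with _ | _ <;> simp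

end Crest.Agent.QA
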