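import Crest.Agent.QA_Sum
import Crest.Agent.QA_Out
import Crest.Agent.QA_Circ

/-!
# S0539, task QA-Final: the parity argument
-/

set_option autoImplicit false

namespace Crest.Agent.QA

open Matrix Crest.Quantum.Circuit
open scoped Matrix.Norms.L2Operator

variable {N : ℕ}

private theorem final_Zm_mem : Zm ∈ unitary (Matrix Bool Bool ℂ) := by
  have hs : star Zm = Zm := by
    unfold Zm
    rw [star_eq_conjTranspose, diagonal_conjTranspose]
    congr 1
    funext b
    cases b <;> simp
  have hm : Zm * Zm = 1 := by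
    unfold Zm
    rw [diagonal_mul_diagonal, ← diagonal_one]
    congr 1
    funext b
    cases b <;> simp
  rw [Unitary.mem_iff, hs]
  exact ⟨hm, hm⟩

private theorem final_norm_unitary_le {M : Mat N} (hM : M ∈ unitary (Mat N)) : ‖M‖ ≤ 1 := by
  have h := CStarRing.norm_mem_unitary_mul (1 : Mat N) hM
  rw [mul_one] at h
  rw [h, ← diagonal_one]
  exact norm_diag_le _ 1 zero_le_one fun σ => by simp

private theorem final_norm_oneQ_le (o : Fin N) : ‖(oneQ o Zm : Mat N)‖ ≤ 1 := by
  apply final_norm_unitary_le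
  unfold oneQ
  apply prodOp_mem
  intro i
  by_cases h : i = o
  · subst h
    rw [Function.update_self]
    exact final_Zm_mem
  · rw [Function.update_of_ne h]
    exact one_mem _

private theorem final_card {n : ℕ} (hn : n ≤ N) :
    (Finset.univ.filter fun i : Fin N => (i : ℕ) < n).card = n := by
  rw [Fin.card_filter_val_lt, min_eq_right hn]

private theorem final_wt_true {n : ℕ} (hn : n ≤ N) :
    wt (Finset.univ.filter fun i : Fin N => (i : ℕ) < n) (cst (N := N) n true) = n := by
  unfold wt
  rw [Finset.filter_filter]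
  have : (Finset.univ.filter fun i : Fin N => (i : ℕ) < n ∧ cst (N := N) n true i = true)
      = Finset.univ.filter fun i : Fin N => (i : ℕ) < n := by
    apply Finset.filter_congr
    intro i _
    unfold cst
    constructor
    · exact fun h => h.1
    · intro h
      exact ⟨h, by simp [h]⟩
  rw [this, final_card hn]

private theorem final_wt_false {n : ℕ} (S : Finset (Fin N)) :
    wt S (cst (N := N) n false) = 0 := by
  unfold wt
  rw [Finset.card_eq_zero, Finset.filter_eq_empty_iff]
  intro i _
  unfold cst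
  split_ifs <;> simp

/-- Each term of the sum over `θ`. -/
private theorem final_term {n s A Λ : ℕ} (hn : n ≤ N) (hgood : Good N s A) (hΛ : 1 ≤ Λ)
    (hA : A * Λ < n) {U : Mat N} (hU : Circ s U) (o : Fin N) (θ : Fin n → Bool) :
    ‖(star (prodOp (fr (N := N) n θ)) * (star U * oneQ o Zm * U) * prodOp (fr (N := N) n θ))
        (cst n true) (cst n false)‖ ≤ (1 / 2 : ℝ) ^ Λ := by
  set V : Mat N := prodOp (fr (N := N) n θ) with hV
  have hVm : V ∈ unitary (Mat N) := prodOp_mem (fr_UV n θ)
  have hUm : U ∈ unitary (Mat N) := Circ_mem hU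
  set S : Finset (Fin N) := Finset.univ.filter fun i : Fin N => (i : ℕ) < n with hS
  set f : Om N → ℂ := fun σ => if A * (0 + Λ) < wt S σ then 1 else 0 with hf
  set g : Om N → ℂ := fun σ => if wt S σ ≤ 0 then 1 else 0 with hg
  have hG := hgood (U * V) (Circ_mul_prodOp hU (fr_UV n θ)) S {o} (oneQ o Zm) 0 Λ
    (Loc_oneQ o Zm) (final_norm_oneQ_le o) (by rw [Finset.card_singleton]; exact hΛ) hΛ
  have h1 : ‖sp 1 f * (star V * (star U * oneQ o Zm * U) * V) * sp 1 g‖
      = ‖gtP (U * V) S (A * (0 + Λ)) * oneQ o Zm * leP (U * V) S 0‖ := by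
    have e1 := norm_sp_conj hVm 1 1 (star U * oneQ o Zm * U) f g
    rw [Matrix.mul_one] at e1
    rw [← e1]
    have e2 := norm_sp_conj hUm V V (oneQ o Zm) f g
    rw [← e2]
    rfl
  rw [← h1] at hG
  refine le_trans ?_ hG
  have h2 : (sp 1 f * (star V * (star U * oneQ o Zm * U) * V) * sp 1 g) (cst n true) (cst n false)
      = (star V * (star U * oneQ o Zm * U) * V) (cst n true) (cst n false) := by
    have hsf : ∀ f' : Om N → ℂ, sp (1 : Mat N) f' = diagonal f' := by
      intro f'
      unfold sp
      rw [star_one, Matrix.mul_one, Matrix.one_mul]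
    rw [hsf, hsf, Matrix.mul_diagonal, Matrix.diagonal_mul]
    have hf1 : f (cst n true) = 1 := by
      simp only [hf]
      rw [if_pos]
      rw [hS, final_wt_true hn, Nat.zero_add]
      exact hA
    have hg1 : g (cst n false) = 1 := by
      simp only [hg]
      rw [if_pos]
      rw [final_wt_false]
    rw [hf1, hg1, one_mul, mul_one]
  rw [← h2]
  exact norm_entry_le _ _ _

/-- **Fourier bound.** If `Good N s A` and `A * Λ < n ≤ N` then
`|∑_x (-1)^{|x|} ⟨x|U⋆ Z_o U|x⟩| ≤ 2^n 2^{-Λ}`: each term of the sum over `θ` in `sum_theta` is an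
entry of `gtP V_θ S (A Λ) * (U⋆ Z_o U) * leP V_θ S 0` in the frame `V_θ`, `S` = input wires
(`wt S (cst true) = n > A Λ`, `wt S (cst false) = 0`), whose norm is (conjugating with `U`,
`norm_sp_conj` backwards) `‖gtP (U V_θ) S (A (0+Λ)) * Z_o * leP (U V_θ) S 0‖ ≤ 2^{-Λ}` by `Good`
(`U V_θ ∈ Circ s` by `Circ_mul_prodOp`, `Z_o` is supported on `{o}` and has norm `≤ 1`). -/
theorem fourier_bound {n s A Λ : ℕ} (hn : n ≤ N) (hgood : Good N s A) (hΛ : 1 ≤ Λ)
    (hA : A * Λ < n) {U : Mat N} (hU : Circ s U) (o : Fin N) :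
    ‖∑ x : Fin n → Bool, (if parity x then (-1 : ℂ) else 1) *
        (star U * oneQ o Zm * U) (inputString n x) (inputString n x)‖
      ≤ 2 ^ n * (1 / 2 : ℝ) ^ Λ := by
  rw [← sum_theta hn]
  refine le_trans (norm_sum_le _ _) ?_
  refine le_trans (Finset.sum_le_sum fun θ _ => final_term hn hgood hΛ hA hU o θ) ?_
  rw [Finset.sum_const, Finset.card_univ, nsmul_eq_mul]
  apply le_of_eq
  congr 1
  simp

/-- If every `x` has success probability `≥ 1/2 + ε` then the Fourier sum is `≥ 2^n · 2ε`. -/
theorem exists_bad_input {n s A Λ : ℕ} (hn : n ≤ N) (hgood : Good N s A) (hΛ : 1 ≤ Λ)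
    (hA : A * Λ < n) {U : Mat N} (hU : Circ s U) (o : Fin N) (ε : ℝ)
    (hε : (1 / 2 : ℝ) ^ Λ < 2 * ε) :
    ∃ x : Fin n → Bool,
      outcomeProb o (parity x) (U *ᵥ basisState (inputString n x)) < 1 / 2 + ε := by
  by_contra hcon
  push Not at hcon
  have hb := fourier_bound hn hgood hΛ hA hU o
  have hUm : U ∈ unitary (Mat N) := Circ_mem hU
  have hterm : ∀ x : Fin n → Bool, (if parity x then (-1 : ℂ) else 1) *
      (star U * oneQ o Zm * U) (inputString n x) (inputString n x)
      = ((2 * outcomeProb o (parity x) (U *ᵥ basisState (inputString n x)) - 1 : ℝ) : ℂ) := by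
    intro x
    rw [outcome_diff]
    have hsum := outcome_sum hUm o (inputString n x)
    cases hp : parity x
    · simp only [Bool.false_eq_true, if_false, one_mul]
      congr 1
      linarith
    · simp only [if_true, neg_one_mul]
      rw [← Complex.ofReal_neg]
      congr 1
      linarith
  rw [Finset.sum_congr rfl fun x _ => hterm x, ← Complex.ofReal_sum, Complex.norm_real] at hb
  have h1 : (2 : ℝ) ^ n * (2 * ε)
      ≤ ∑ x : Fin n → Bool,
        (2 * outcomeProb o (parity x) (U *ᵥ basisState (inputString n x)) - 1) := by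
    calc (2 : ℝ) ^ n * (2 * ε) = ∑ _x : Fin n → Bool, (2 * ε) := by
          rw [Finset.sum_const, Finset.card_univ, nsmul_eq_mul]
          congr 1
          simp
      _ ≤ _ := by
          apply Finset.sum_le_sum
          intro x _
          have := hcon x
          linarith
  have h2 : (2 : ℝ) ^ n * (2 * ε) ≤ 2 ^ n * (1 / 2 : ℝ) ^ Λ :=
    le_trans (le_trans h1 (Real.le_norm_self _)) hb
  have h3 : 2 * ε ≤ (1 / 2 : ℝ) ^ Λ := le_of_mul_le_mul_left h2 (by positivity)
  linarith

end Crest.Agent.QA
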