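import Crest.Agent.QA_Tensor

/-!
# S0539, task QA-Fr: the frames `Z^θ |±⟩` on the input wires
-/

set_option autoImplicit false

namespace Crest.Agent.QA

open Matrix Crest.Quantum.Circuit
open scoped Matrix.Norms.L2Operator

variable {N : ℕ}

/-- The frame: on the input wires `i < n` the columns are `Z^{θ_i}|+⟩` (at `false`) and
`Z^{θ_i}|-⟩` (at `true`); on the other wires the identity. -/
noncomputable def fr (n : ℕ) (θ : Fin n → Bool) : Fin N → Matrix Bool Bool ℂ :=
  fun i => if h : (i : ℕ) < n then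
      Matrix.of fun b c => (if b && xor (θ ⟨i, h⟩) c then -1 else 1) * ((Real.sqrt 2 : ℝ) : ℂ)⁻¹
    else 1

private theorem fr_sqrt : (((Real.sqrt 2 : ℝ) : ℂ)⁻¹) * (((Real.sqrt 2 : ℝ) : ℂ)⁻¹) = 1 / 2 := by
  rw [← mul_inv, ← Complex.ofReal_mul, Real.mul_self_sqrt (by norm_num)]
  norm_num

private theorem fr_unit (t : Bool) :
    (Matrix.of fun b c : Bool => (if b && xor t c then (-1 : ℂ) else 1) *
      ((Real.sqrt 2 : ℝ) : ℂ)⁻¹) ∈ unitary (Matrix Bool Bool ℂ) := by
  have h2 := fr_sqrt
  rw [Unitary.mem_iff]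
  constructor
  · ext b c
    rw [Matrix.mul_apply, Fintype.sum_bool]
    cases t <;> cases b <;> cases c <;>
      simp [Matrix.star_apply, Matrix.one_apply, h2] <;> norm_num
  · ext b c
    rw [Matrix.mul_apply, Fintype.sum_bool]
    cases t <;> cases b <;> cases c <;>
      simp [Matrix.star_apply, Matrix.one_apply, h2] <;> norm_num

theorem fr_UV (n : ℕ) (θ : Fin n → Bool) : UV (fr (N := N) n θ) := by
  intro i
  unfold fr
  by_cases h : (i : ℕ) < n
  · rw [dif_pos h]
    exact fr_unit _
  · rw [dif_neg h]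
    exact one_mem _

/-- The strings on `N` wires which are `c` on the input wires and `false` elsewhere. -/
def cst (n : ℕ) (c : Bool) : Om N := fun i => if (i : ℕ) < n then c else false

/-- For `n ≤ N`: the entry of the frame at `(σ, cst n c)` is `0` unless `σ = inputString n x`, in which
case it is `2^{-n/2} ∏_{i<n} (-1)^{x_i (θ_i + c)}`. -/
theorem fr_apply {n : ℕ} (hn : n ≤ N) (θ : Fin n → Bool) (c : Bool) (x : Fin n → Bool) :
    prodOp (fr (N := N) n θ) (inputString n x) (cst n c)
      = (∏ i : Fin n, (if x i && xor (θ i) c then (-1 : ℂ) else 1)) * (((Real.sqrt 2 : ℝ) : ℂ)⁻¹) ^ n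
      := by
  obtain ⟨m, rfl⟩ := Nat.exists_eq_add_of_le hn
  unfold prodOp
  rw [Matrix.of_apply, Fin.prod_univ_add]
  have h1 : (∏ i : Fin m, fr (N := n + m) n θ (Fin.natAdd n i)
      (inputString (N := n + m) n x (Fin.natAdd n i)) (cst (N := n + m) n c (Fin.natAdd n i))) = 1 := by
    apply Finset.prod_eq_one
    intro i _
    have hi : ¬ ((Fin.natAdd n i : Fin (n + m)) : ℕ) < n := by simp
    unfold fr inputString cst
    rw [dif_neg hi, dif_neg hi, if_neg hi, Matrix.one_apply_eq]
  have h2 : ∀ i : Fin n, fr (N := n + m) n θ (Fin.castAdd m i)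
      (inputString (N := n + m) n x (Fin.castAdd m i)) (cst (N := n + m) n c (Fin.castAdd m i))
      = (if x i && xor (θ i) c then (-1 : ℂ) else 1) * ((Real.sqrt 2 : ℝ) : ℂ)⁻¹ := by
    intro i
    have hi : ((Fin.castAdd m i : Fin (n + m)) : ℕ) < n := by simp
    unfold fr inputString cst
    rw [dif_pos hi, dif_pos hi, if_pos hi]
    rfl
  rw [h1, mul_one, Finset.prod_congr rfl (fun i _ => h2 i), Finset.prod_mul_distrib,
    Finset.prod_const, Finset.card_univ, Fintype.card_fin]

theorem fr_apply_zero {n : ℕ} (θ : Fin n → Bool) (c : Bool) (σ : Om N)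
    (hσ : ∀ x : Fin n → Bool, σ ≠ inputString n x) :
    prodOp (fr (N := N) n θ) σ (cst n c) = 0 := by
  have h := hσ (fun j => if h : (j : ℕ) < N then σ ⟨j, h⟩ else false)
  obtain ⟨i, hi⟩ := Function.ne_iff.mp h
  have hin : ¬ (i : ℕ) < n := by
    intro hlt
    apply hi
    unfold inputString
    rw [dif_pos hlt]
    simp [i.2]
  have hσi : σ i = true := by
    unfold inputString at hi
    rw [dif_neg hin] at hi
    simpa using hi
  unfold prodOp
  rw [Matrix.of_apply]
  apply Finset.prod_eq_zero (Finset.mem_univ i)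
  unfold fr cst
  rw [dif_neg hin, if_neg hin, hσi]
  exact Matrix.one_apply_ne (by decide)

end Crest.Agent.QA
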