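import Crest.Agent.QA_API

/-!
# S0539, task QA-GExp: expanding a product of gates
-/

set_option autoImplicit false

namespace Crest.Agent.QA

open Matrix
open scoped Matrix.Norms.L2Operator

variable {N : ℕ}

private lemma qaGExp_wt_zero (S : Finset (Fin N)) (σ : Om N) :
    wt S σ = 0 ↔ ∀ i ∈ S, σ i ≠ true := by
  unfold wt
  rw [Finset.card_eq_zero, Finset.filter_eq_empty_iff]

/-- `∏_{g ∈ 𝒜} (1 - 2·1[wt g σ = 0]) = ∑_{B ⊆ 𝒜} (-2)^{|B|} 1[wt (⋃ B) σ = 0]`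
(`Finset.prod_one_add` or `Finset.prod_add`; `wt (B.sup id) σ = 0 ↔ ∀ g ∈ B, wt g σ = 0`;
write the condition as `≤ 0` in order to match `leP`). -/
theorem gatef_expand (𝒜 : Finset (Finset (Fin N))) (σ : Om N) :
    gatef 𝒜 σ = ∑ B ∈ 𝒜.powerset,
      (-2 : ℂ) ^ B.card * (if wt (B.sup id) σ ≤ 0 then 1 else 0) := by
  unfold gatef
  have h1 : ∀ g ∈ 𝒜, (if wt g σ = 0 then (-1 : ℂ) else 1)
      = 1 + (-2 : ℂ) * (if wt g σ = 0 then 1 else 0) := by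
    intro g _
    split_ifs <;> norm_num
  rw [Finset.prod_congr rfl h1, Finset.prod_one_add]
  apply Finset.sum_congr rfl
  intro B _
  rw [Finset.prod_mul_distrib, Finset.prod_const]
  congr 1
  have h2 : wt (B.sup id) σ ≤ 0 ↔ ∀ g ∈ B, wt g σ = 0 := by
    rw [Nat.le_zero, qaGExp_wt_zero]
    constructor
    · intro h g hg
      rw [qaGExp_wt_zero]
      intro i hi
      exact h i (Finset.mem_sup.mpr ⟨g, hg, hi⟩)
    · intro h i hi
      obtain ⟨g, hg, hi'⟩ := Finset.mem_sup.mp hi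
      exact (qaGExp_wt_zero g σ).mp (h g hg) i hi'
  by_cases h3 : ∀ g ∈ B, wt g σ = 0
  · rw [if_pos (h2.mpr h3)]
    apply Finset.prod_eq_one
    intro g hg
    rw [if_pos (h3 g hg)]
  · rw [if_neg (fun h => h3 (h2.mp h))]
    push Not at h3
    obtain ⟨g, hg, hgσ⟩ := h3
    apply Finset.prod_eq_zero hg
    rw [if_neg hgσ]

/-- `G_𝒜 = ∑_B (-2)^{|B|} leP (prodOp m) (⋃ B) 0`, hence the norm is at most
`∑_B 2^{|B|} ε = 3^{|𝒜|} ε` (`Finset.sum_pow_mul_eq_add_pow`). -/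
theorem norm_gates_le {M W W' : Mat N} (𝒜 : Finset (Finset (Fin N))) (ε : ℝ)
    (h : ∀ T : Finset (Fin N), ‖W * leP M T 0 * W'‖ ≤ ε) :
    ‖W * sp M (gatef 𝒜) * W'‖ ≤ 3 ^ 𝒜.card * ε := by
  have h1 : sp M (gatef 𝒜) = ∑ B ∈ 𝒜.powerset, (-2 : ℂ) ^ B.card • leP M (B.sup id) 0 := by
    unfold leP
    simp_rw [sp_smul]
    rw [sp_sum]
    apply sp_congr
    intro σ
    exact gatef_expand 𝒜 σ
  rw [h1, Matrix.mul_sum, Matrix.sum_mul]
  refine le_trans (norm_sum_le _ _) ?_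
  have h2 : ∀ B ∈ 𝒜.powerset,
      ‖W * ((-2 : ℂ) ^ B.card • leP M (B.sup id) 0) * W'‖ ≤ 2 ^ B.card * ε := by
    intro B _
    rw [Matrix.mul_smul, Matrix.smul_mul, norm_smul, norm_pow, norm_neg]
    have : ‖(2 : ℂ)‖ = 2 := by norm_num
    rw [this]
    gcongr
    exact h _
  refine le_trans (Finset.sum_le_sum h2) ?_
  rw [← Finset.sum_mul]
  have h3 : ∑ B ∈ 𝒜.powerset, (2 : ℝ) ^ B.card = 3 ^ 𝒜.card := by
    have := Finset.sum_pow_mul_eq_add_pow (2 : ℝ) 1 𝒜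
    simp only [one_pow, mul_one] at this
    rw [this]
    norm_num
  rw [h3]

end Crest.Agent.QA
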