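import Crest.Agent.QA_API

set_option autoImplicit false

namespace Crest.Agent.QA

open Matrix
open scoped Matrix.Norms.L2Operator

variable {N : ℕ}

private theorem key_real (w d B z e : ℝ) (he : 0 < e) (hw0 : 0 ≤ w) (hd : 2 * d ≤ e / 4)
    (hBz : B * z ≤ e ^ 2 / 2) (h : w * w ≤ d * w + B * z + d * w) : w ≤ e := by
  by_contra hc
  push Not at hc
  have h1 : 2 * d * w ≤ e / 4 * w := mul_le_mul_of_nonneg_right hd hw0
  nlinarith [mul_pos he he, mul_pos (lt_trans he hc) (sub_pos.2 hc)]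

/-- Let `ω = ‖G Q Pr‖ = ‖Pr Q G‖` (adjoint). By the C⋆-identity
`ω² = ‖(G Q Pr)(G Q Pr)⋆‖ = ‖G Q Pr Q G‖` (`Pr Pr = Pr`), and
`G Q Pr Q G = G (Q-P) H (Pr Q G) + G (Q-P) H' (H' Pr Q) G + (G P Pr)(Pr Q G)`, so
`ω² ≤ 2 δ ω + B ζ ≤ (ε/4) ω + ε²/2`; if `ω > ε` the right side is `< ω²/4 + ω²/2`. -/
theorem key_ineq {G Pr Q P H H' : Mat N} (hG : star G = G) (hG1 : ‖G‖ ≤ 1)
    (hPr : star Pr = Pr) (hPr2 : Pr * Pr = Pr) (hQ : star Q = Q)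
    (hH : H + H' = 1) (hH2 : H' * H' = H')
    (δ B ζ ε : ℝ) (hε : 0 < ε) (hB0 : 0 ≤ B)
    (h1 : ‖G * P * Pr‖ ≤ δ) (h2 : ‖(Q - P) * H‖ ≤ δ) (h3 : ‖(Q - P) * H'‖ ≤ B)
    (h4 : ‖H' * Pr * Q‖ ≤ ζ) (hδ : 2 * δ ≤ ε / 4) (hBζ : B * ζ ≤ ε ^ 2 / 2) :
    ‖G * Q * Pr‖ ≤ ε := by
  have hδ0 : 0 ≤ δ := le_trans (norm_nonneg _) h1
  have hst : star (G * Q * Pr) = Pr * Q * G := by
    rw [star_mul, star_mul, hG, hPr, hQ, Matrix.mul_assoc]
  have hω : ‖Pr * Q * G‖ = ‖G * Q * Pr‖ := by rw [← hst, norm_star]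
  have hsq : ‖G * Q * Pr‖ * ‖G * Q * Pr‖ = ‖G * Q * Pr * (Pr * Q * G)‖ := by
    rw [← hst, CStarRing.norm_self_mul_star]
  have hid : G * Q * Pr * (Pr * Q * G) =
      G * ((Q - P) * H) * (Pr * Q * G) + G * ((Q - P) * H') * (H' * Pr * Q) * G +
        (G * P * Pr) * (Pr * Q * G) := by
    have e1 : G * ((Q - P) * H') * (H' * Pr * Q) * G =
        G * ((Q - P) * H') * (Pr * Q * G) := by
      calc G * ((Q - P) * H') * (H' * Pr * Q) * G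
          = G * ((Q - P) * (H' * H')) * (Pr * Q * G) := by noncomm_ring
        _ = _ := by rw [hH2]
    rw [e1, ← Matrix.add_mul, ← Matrix.mul_add, ← Matrix.mul_add, hH, Matrix.mul_one,
      ← Matrix.add_mul]
    have e2 : G * (Q - P) + G * P * Pr = G * (Q - P) + G * P * Pr := rfl
    have e3 : (G * P * Pr) * (Pr * Q * G) = (G * P) * (Pr * Q * G) := by
      calc (G * P * Pr) * (Pr * Q * G) = G * P * (Pr * Pr) * Q * G := by noncomm_ring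
        _ = G * P * Pr * Q * G := by rw [hPr2]
        _ = _ := by noncomm_ring
    have e4 : G * Q * Pr * (Pr * Q * G) = (G * Q) * (Pr * Q * G) := by
      calc (G * Q * Pr) * (Pr * Q * G) = G * Q * (Pr * Pr) * Q * G := by noncomm_ring
        _ = G * Q * Pr * Q * G := by rw [hPr2]
        _ = _ := by noncomm_ring
    rw [Matrix.add_mul, e3, e4]
    noncomm_ring
  have b1 : ‖G * ((Q - P) * H) * (Pr * Q * G)‖ ≤ δ * ‖G * Q * Pr‖ := by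
    calc ‖G * ((Q - P) * H) * (Pr * Q * G)‖
        ≤ ‖G * ((Q - P) * H)‖ * ‖Pr * Q * G‖ := norm_mul_le _ _
      _ ≤ (‖G‖ * ‖(Q - P) * H‖) * ‖Pr * Q * G‖ :=
          mul_le_mul_of_nonneg_right (norm_mul_le _ _) (norm_nonneg _)
      _ ≤ (1 * δ) * ‖Pr * Q * G‖ :=
          mul_le_mul_of_nonneg_right (mul_le_mul hG1 h2 (norm_nonneg _) zero_le_one)
            (norm_nonneg _)
      _ = δ * ‖G * Q * Pr‖ := by rw [one_mul, hω]
  have b2 : ‖G * ((Q - P) * H') * (H' * Pr * Q) * G‖ ≤ B * ζ := by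
    calc ‖G * ((Q - P) * H') * (H' * Pr * Q) * G‖
        ≤ ‖G * ((Q - P) * H') * (H' * Pr * Q)‖ * ‖G‖ := norm_mul_le _ _
      _ ≤ ‖G * ((Q - P) * H') * (H' * Pr * Q)‖ * 1 :=
          mul_le_mul_of_nonneg_left hG1 (norm_nonneg _)
      _ = ‖G * ((Q - P) * H') * (H' * Pr * Q)‖ := mul_one _
      _ ≤ ‖G * ((Q - P) * H')‖ * ‖H' * Pr * Q‖ := norm_mul_le _ _
      _ ≤ (‖G‖ * ‖(Q - P) * H'‖) * ‖H' * Pr * Q‖ :=
          mul_le_mul_of_nonneg_right (norm_mul_le _ _) (norm_nonneg _)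
      _ ≤ (1 * B) * ζ :=
          mul_le_mul (mul_le_mul hG1 h3 (norm_nonneg _) zero_le_one) h4 (norm_nonneg _)
            (by rw [one_mul]; exact hB0)
      _ = B * ζ := by rw [one_mul]
  have b3 : ‖(G * P * Pr) * (Pr * Q * G)‖ ≤ δ * ‖G * Q * Pr‖ := by
    calc ‖(G * P * Pr) * (Pr * Q * G)‖ ≤ ‖G * P * Pr‖ * ‖Pr * Q * G‖ := norm_mul_le _ _
      _ ≤ δ * ‖Pr * Q * G‖ := mul_le_mul_of_nonneg_right h1 (norm_nonneg _)
      _ = _ := by rw [hω]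
  refine key_real ‖G * Q * Pr‖ δ B ζ ε hε (norm_nonneg _) hδ hBζ ?_
  rw [hsq, hid]
  refine le_trans (norm_add_le _ _) ?_
  refine add_le_add (le_trans (norm_add_le _ _) (add_le_add b1 b2)) b3

end Crest.Agent.QA
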