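import Crest.Agent.QA_Step

/-!
# S0539, task QA-Iter: the bandwidth lemma
-/

set_option autoImplicit false

namespace Crest.Agent.QA

open Matrix
open scoped Matrix.Norms.L2Operator

variable {N : ℕ}

/-- `TB` is monotone in `a`. -/
theorem TB_mono {M M' : Mat N} (hM' : M' ∈ unitary (Mat N)) (S S' : Finset (Fin N))
    {E a b : ℕ} (h : a ≤ b) (hT : TB M S M' S' E a) : TB M S M' S' E b := by
  intro k x hk hx
  have h1 := hT k x hk hx
  rw [← gtP_mul_gtP hM' S' h, Matrix.mul_assoc (gtP M' S' b), Matrix.mul_assoc (gtP M' S' b)]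
  calc ‖gtP M' S' b * (gtP M' S' a * leP M S k * leP M' S' x)‖
      ≤ ‖gtP M' S' b‖ * ‖gtP M' S' a * leP M S k * leP M' S' x‖ := norm_mul_le _ _
    _ ≤ 1 * (1 / 2 : ℝ) ^ E :=
        mul_le_mul (norm_gtP_le hM' S' b) h1 (norm_nonneg _) zero_le_one
    _ = (1 / 2 : ℝ) ^ E := one_mul _

/-- **The bandwidth lemma.** Induction on `i`, for both directions simultaneously.
`i = 0`: `E ≥ N`, and `gtP _ _ E = 0`. Step: let `κ = (43 L²)²`, `ρ = G^i`, `Z = κ ρ E`. Since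
`(i+1) i / 2 = i (i-1)/2 + i` we have `N ≤ E G^i G^{i(i-1)/2} ≤ Z G^{i(i-1)/2}`, so the induction
hypothesis gives `TB .. Z (ρ Z)` in both directions; `band_step` gives `TB .. E (3 A κ ρ E)`, and
`3 A κ ρ E ≤ G^{i+1} E`. -/
theorem band_iter {M M' : Mat N} (hM : M ∈ unitary (Mat N)) (hM' : M' ∈ unitary (Mat N))
    (S S' : Finset (Fin N)) (A L G : ℕ) (hA : 1 ≤ A) (hL : 1 ≤ L) (hN : N ≤ 2 ^ L)
    (hG : 3 * A * (43 * L ^ 2) ^ 2 ≤ G) (hF : FHyp M M' S' A) (hF' : FHyp M' M S A) (i : ℕ) :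
    ∀ E : ℕ, 1 ≤ E → N ≤ E * G ^ (i * (i - 1) / 2) →
      TB M S M' S' E (G ^ i * E) ∧ TB M' S' M S E (G ^ i * E) := by
  have hκ : 1 ≤ (43 * L ^ 2) ^ 2 := by
    apply Nat.one_le_pow
    positivity
  have hG1 : 1 ≤ G := by
    refine le_trans ?_ hG
    calc 1 = 1 * 1 := rfl
      _ ≤ 3 * A * (43 * L ^ 2) ^ 2 := Nat.mul_le_mul (by omega) hκ
  induction i with
  | zero =>
    intro E hE hNE
    have hNE' : N ≤ G ^ 0 * E := by simpa using hNE
    constructor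
    · intro k x _ _
      rw [gtP_eq_zero M' S' hNE']
      simp
    · intro k x _ _
      rw [gtP_eq_zero M S hNE']
      simp
  | succ i ih =>
    intro E hE hNE
    have hρ : 1 ≤ G ^ i := Nat.one_le_pow _ _ hG1
    have hZ : 1 ≤ (43 * L ^ 2) ^ 2 * G ^ i * E := by
      calc 1 = 1 * 1 * 1 := rfl
        _ ≤ (43 * L ^ 2) ^ 2 * G ^ i * E :=
          Nat.mul_le_mul (Nat.mul_le_mul hκ hρ) hE
    have hexp : (i + 1) * (i + 1 - 1) / 2 = i * (i - 1) / 2 + i := by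
      have h1 : (i + 1) * (i + 1 - 1) = i * (i - 1) + i * 2 := by
        rcases i with _ | j
        · simp
        · simp only [Nat.add_sub_cancel]
          ring
      rw [h1, Nat.add_mul_div_right _ _ (by norm_num)]
    have hNZ : N ≤ (43 * L ^ 2) ^ 2 * G ^ i * E * G ^ (i * (i - 1) / 2) := by
      refine le_trans hNE ?_
      rw [hexp, pow_add]
      calc E * (G ^ (i * (i - 1) / 2) * G ^ i)
          = 1 * G ^ i * E * G ^ (i * (i - 1) / 2) := by ring
        _ ≤ (43 * L ^ 2) ^ 2 * G ^ i * E * G ^ (i * (i - 1) / 2) := by gcongr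
    obtain ⟨h1, h2⟩ := ih _ hZ hNZ
    have hle : 3 * A * (43 * L ^ 2) ^ 2 * G ^ i * E ≤ G ^ (i + 1) * E := by
      have h3 : G ^ (i + 1) = G * G ^ i := pow_succ' G i
      rw [h3]
      exact Nat.mul_le_mul (Nat.mul_le_mul hG le_rfl) le_rfl
    exact ⟨TB_mono hM' S S' hle (band_step hM hM' S S' A E (G ^ i) L hA hE hρ hL hN hF h2),
      TB_mono hM S' S hle (band_step hM' hM S' S A E (G ^ i) L hA hE hρ hL hN hF' h1)⟩

end Crest.Agent.QA
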