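import Crest.Agent.QA_Circ

/-!
# S0539, task QA-LConj: conjugating a local operator by a layer
-/

set_option autoImplicit false

namespace Crest.Agent.QA

open Matrix
open scoped Matrix.Norms.L2Operator

variable {N : ℕ}

/-- Splitting the gates of a layer. Let `X' = V⋆ X V` (`V = prodOp v`), supported on `R`
(`Loc_conj`). `𝒜` = the sets `g ∈ 𝒢` meeting `R` (at most `|R|` many, since the `g` are disjoint:
choose an element of `g ∩ R`), `gatef 𝒢 = gatef 𝒜 * gatef (𝒢 \ 𝒜)`, and `gatef (𝒢 \ 𝒜)` does not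
depend on the bits in `R`, so `sp (prodOp m) (gatef (𝒢 \ 𝒜))` commutes with `X'`
(`Loc_comm_sp`) and squares to `1` (`gatef_mul_self`). `(layer)⋆ X layer = G⋆ V⋆ X V G`,
`G⋆ = G = G_𝒜 G_{𝒢∖𝒜} = G_{𝒢∖𝒜} G_𝒜`. -/
theorem layer_conj {R : Finset (Fin N)} {X : Mat N} (hX : Loc R X)
    {v m : Fin N → Matrix Bool Bool ℂ} (hv : UV v) (hm : UV m) (𝒢 : Finset (Finset (Fin N)))
    (hG : (𝒢 : Set (Finset (Fin N))).PairwiseDisjoint id) :
    ∃ 𝒜 : Finset (Finset (Fin N)), 𝒜.card ≤ R.card ∧ ∃ X' : Mat N, Loc R X' ∧ ‖X'‖ ≤ ‖X‖ ∧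
      star (layer v m 𝒢) * X * layer v m 𝒢
        = sp (prodOp m) (gatef 𝒜) * X' * sp (prodOp m) (gatef 𝒜) := by
  have hV : prodOp v ∈ unitary (Mat N) := prodOp_mem hv
  have hM : prodOp m ∈ unitary (Mat N) := prodOp_mem hm
  refine ⟨𝒢.filter fun g => (g ∩ R).Nonempty, ?_, star (prodOp v) * X * prodOp v,
    Loc_conj hX hv, (norm_unitary_conj' hV X).le, ?_⟩
  · -- choose an element of `g ∩ R`
    refine Finset.card_le_card_of_forall_subsingleton (fun (g : Finset (Fin N)) (i : Fin N) => i ∈ g)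
      ?_ ?_
    · intro g hg
      obtain ⟨i, hi⟩ := (Finset.mem_filter.mp hg).2
      exact ⟨i, (Finset.mem_inter.mp hi).2, (Finset.mem_inter.mp hi).1⟩
    · intro i hi g hg g' hg'
      by_contra hne
      have h1 := hG (Finset.mem_coe.mpr (Finset.mem_filter.mp hg.1).1)
        (Finset.mem_coe.mpr (Finset.mem_filter.mp hg'.1).1) hne
      exact (Finset.disjoint_left.mp h1) hg.2 hg'.2
  · have hfac : sp (prodOp m) (gatef 𝒢)
        = sp (prodOp m) (gatef (𝒢.filter fun g => (g ∩ R).Nonempty))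
          * sp (prodOp m) (gatef (𝒢.filter fun g => ¬ (g ∩ R).Nonempty)) := by
      rw [sp_mul hM]
      apply sp_congr
      intro σ
      unfold gatef
      rw [Finset.prod_filter_mul_prod_filter_not]
    have hfac' : sp (prodOp m) (gatef 𝒢)
        = sp (prodOp m) (gatef (𝒢.filter fun g => ¬ (g ∩ R).Nonempty))
          * sp (prodOp m) (gatef (𝒢.filter fun g => (g ∩ R).Nonempty)) := by
      rw [hfac, sp_mul hM, sp_mul hM]
      apply sp_congr
      intro σ
      exact mul_comm _ _
    have hstar : star (sp (prodOp m) (gatef 𝒢)) = sp (prodOp m) (gatef 𝒢) := by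
      rw [star_sp]
      apply sp_congr
      intro σ
      exact star_gatef 𝒢 σ
    have hcomm : (star (prodOp v) * X * prodOp v)
          * sp (prodOp m) (gatef (𝒢.filter fun g => ¬ (g ∩ R).Nonempty))
        = sp (prodOp m) (gatef (𝒢.filter fun g => ¬ (g ∩ R).Nonempty))
          * (star (prodOp v) * X * prodOp v) := by
      apply Loc_comm_sp (Loc_conj hX hv) hm
      intro σ τ hστ
      unfold gatef
      apply Finset.prod_congr rfl
      intro g hg
      have hg2 := (Finset.mem_filter.mp hg).2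
      have hw : wt g σ = wt g τ := by
        unfold wt
        congr 1
        apply Finset.filter_congr
        intro i hi
        have hiR : i ∉ R := by
          intro hiR
          exact hg2 ⟨i, Finset.mem_inter.mpr ⟨hi, hiR⟩⟩
        rw [hστ i hiR]
      rw [hw]
    have hsq : sp (prodOp m) (gatef (𝒢.filter fun g => ¬ (g ∩ R).Nonempty))
        * sp (prodOp m) (gatef (𝒢.filter fun g => ¬ (g ∩ R).Nonempty)) = 1 := by
      rw [sp_mul hM, ← sp_one hM]
      apply sp_congr
      intro σ
      exact gatef_mul_self _ σ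
    unfold layer
    rw [star_mul, hstar]
    calc sp (prodOp m) (gatef 𝒢) * star (prodOp v) * X * (prodOp v * sp (prodOp m) (gatef 𝒢))
        = sp (prodOp m) (gatef 𝒢) * (star (prodOp v) * X * prodOp v)
            * sp (prodOp m) (gatef 𝒢) := by simp only [Matrix.mul_assoc]
      _ = (sp (prodOp m) (gatef (𝒢.filter fun g => (g ∩ R).Nonempty))
          * sp (prodOp m) (gatef (𝒢.filter fun g => ¬ (g ∩ R).Nonempty)))
          * (star (prodOp v) * X * prodOp v)
          * (sp (prodOp m) (gatef (𝒢.filter fun g => ¬ (g ∩ R).Nonempty))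
          * sp (prodOp m) (gatef (𝒢.filter fun g => (g ∩ R).Nonempty))) := by
          rw [← hfac, ← hfac']
      _ = sp (prodOp m) (gatef (𝒢.filter fun g => (g ∩ R).Nonempty))
          * (sp (prodOp m) (gatef (𝒢.filter fun g => ¬ (g ∩ R).Nonempty))
          * ((star (prodOp v) * X * prodOp v)
          * sp (prodOp m) (gatef (𝒢.filter fun g => ¬ (g ∩ R).Nonempty))))
          * sp (prodOp m) (gatef (𝒢.filter fun g => (g ∩ R).Nonempty)) := by
          simp only [Matrix.mul_assoc]
      _ = sp (prodOp m) (gatef (𝒢.filter fun g => (g ∩ R).Nonempty))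
          * ((sp (prodOp m) (gatef (𝒢.filter fun g => ¬ (g ∩ R).Nonempty))
          * sp (prodOp m) (gatef (𝒢.filter fun g => ¬ (g ∩ R).Nonempty)))
          * (star (prodOp v) * X * prodOp v))
          * sp (prodOp m) (gatef (𝒢.filter fun g => (g ∩ R).Nonempty)) := by
          rw [hcomm, Matrix.mul_assoc (sp (prodOp m) (gatef (𝒢.filter fun g => ¬ (g ∩ R).Nonempty)))]
      _ = sp (prodOp m) (gatef (𝒢.filter fun g => (g ∩ R).Nonempty))
          * (star (prodOp v) * X * prodOp v)
          * sp (prodOp m) (gatef (𝒢.filter fun g => (g ∩ R).Nonempty)) := by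
          rw [hsq, Matrix.one_mul]

end Crest.Agent.QA
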