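import Crest.Agent.QA_Tensor

/-!
# S0539, task QA-Loc: operators supported on a set of wires

`Loc R X` means that `X` commutes with `oneQ j u` for all `j ∉ R` and all `u`.
-/

set_option autoImplicit false

namespace Crest.Agent.QA

open Matrix
open scoped Matrix.Norms.L2Operator

variable {N : ℕ}

/-- Conjugation by product unitaries: for `j ∉ R`,
`star V * X * V * oneQ j u = star V * X * oneQ j (v_j u v_j⋆) * V = star V * oneQ j (..) * X * V
 = oneQ j u * star V * X * V`. -/
theorem Loc_conj {R : Finset (Fin N)} {X : Mat N} (hX : Loc R X)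
    {v : Fin N → Matrix Bool Bool ℂ} (hv : UV v) :
    Loc R (star (prodOp v) * X * prodOp v) := by
  intro j hj u
  have h1 := prodOp_mul_oneQ hv j u
  have h2 := prodOp_mul_oneQ (UV_star hv) j (v j * u * star (v j))
  have h3 : star (v j) * (v j * u * star (v j)) * star (star (v j)) = u := by
    have h4 : star (v j) * v j = 1 := (Unitary.mem_iff.mp (hv j)).1
    rw [star_star]
    calc star (v j) * (v j * u * star (v j)) * v j
        = (star (v j) * v j) * u * (star (v j) * v j) := by simp only [Matrix.mul_assoc]
      _ = u := by rw [h4, Matrix.one_mul, Matrix.mul_one]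
  rw [h3, ← star_prodOp] at h2
  calc star (prodOp v) * X * prodOp v * oneQ j u
      = star (prodOp v) * X * (prodOp v * oneQ j u) := by simp only [Matrix.mul_assoc]
    _ = star (prodOp v) * (X * oneQ j (v j * u * star (v j))) * prodOp v := by
        rw [h1]; simp only [Matrix.mul_assoc]
    _ = (star (prodOp v) * oneQ j (v j * u * star (v j))) * X * prodOp v := by
        rw [hX j hj]; simp only [Matrix.mul_assoc]
    _ = oneQ j u * (star (prodOp v) * X * prodOp v) := by
        rw [h2]; simp only [Matrix.mul_assoc]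

/-- Same with the stars exchanged (apply `Loc_conj` to `star v`). -/
theorem Loc_conj' {R : Finset (Fin N)} {X : Mat N} (hX : Loc R X)
    {v : Fin N → Matrix Bool Bool ℂ} (hv : UV v) :
    Loc R (prodOp v * X * star (prodOp v)) := by
  have h := Loc_conj hX (UV_star hv)
  rw [← star_prodOp, star_star] at h
  exact h

private theorem Loc_oneQ_diag (j : Fin N) :
    (oneQ j (diagonal (fun b : Bool => if b = true then (1 : ℂ) else 0)) : Mat N) =
      diagonal (fun σ : Om N => if σ j = true then 1 else 0) := by
  ext σ τ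
  rw [oneQ_apply, diagonal_apply, diagonal_apply]
  by_cases h : σ = τ
  · subst h
    simp
  · rw [if_neg h]
    by_cases h1 : ∀ i, i ≠ j → σ i = τ i
    · rw [if_pos h1, if_neg]
      intro h2
      apply h
      funext i
      by_cases hi : i = j
      · rw [hi]; exact h2
      · exact h1 i hi
    · rw [if_neg h1]

/-- Entries of local operators: for `j ∉ R` with `σ j ≠ τ j` use the commutation with
`oneQ j u`, `u = diagonal (fun b => if b then 1 else 0)` (a diagonal matrix):
`X σ τ * [τ j] = [σ j] * X σ τ`. -/
theorem Loc_entry {R : Finset (Fin N)} {X : Mat N} (hX : Loc R X) {σ τ : Om N} {j : Fin N}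
    (hj : j ∉ R) (h : σ j ≠ τ j) : X σ τ = 0 := by
  have h1 := hX j hj (diagonal (fun b : Bool => if b = true then (1 : ℂ) else 0))
  rw [Loc_oneQ_diag] at h1
  have h2 := congrFun (congrFun h1 σ) τ
  rw [Matrix.mul_diagonal, Matrix.diagonal_mul] at h2
  cases hs : σ j <;> cases ht : τ j
  · exact absurd (hs.trans ht.symm) h
  · simpa [hs, ht] using h2
  · simpa [hs, ht] using h2.symm
  · exact absurd (hs.trans ht.symm) h

/-- Diagonal operators which depend only on the bits in `R` are supported on `R`. -/
theorem Loc_diag {R : Finset (Fin N)} (f : Om N → ℂ)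
    (hf : ∀ σ τ : Om N, (∀ i ∈ R, σ i = τ i) → f σ = f τ) : Loc R (diagonal f) := by
  intro j hj u
  ext σ τ
  rw [Matrix.mul_diagonal, Matrix.diagonal_mul, oneQ_apply]
  by_cases h : ∀ i, i ≠ j → σ i = τ i
  · rw [if_pos h, hf σ τ, mul_comm]
    intro i hi
    exact h i (fun hij => hj (hij ▸ hi))
  · rw [if_neg h, mul_zero, zero_mul]

/-- `sp (prodOp m) f` is supported on `R` if `f` depends only on the bits in `R`. -/
theorem Loc_sp {R : Finset (Fin N)} {m : Fin N → Matrix Bool Bool ℂ} (hm : UV m) (f : Om N → ℂ)
    (hf : ∀ σ τ : Om N, (∀ i ∈ R, σ i = τ i) → f σ = f τ) : Loc R (sp (prodOp m) f) :=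
  Loc_conj' (Loc_diag f hf) hm

/-- An operator supported on `R` commutes with diagonal operators which do not depend on the bits
in `R`: compare entries, using `Loc_entry`. -/
theorem Loc_comm_diag {R : Finset (Fin N)} {X : Mat N} (hX : Loc R X) (f : Om N → ℂ)
    (hf : ∀ σ τ : Om N, (∀ i, i ∉ R → σ i = τ i) → f σ = f τ) :
    X * diagonal f = diagonal f * X := by
  ext σ τ
  rw [Matrix.mul_diagonal, Matrix.diagonal_mul]
  by_cases h : ∀ i, i ∉ R → σ i = τ i
  · rw [hf σ τ h, mul_comm]
  · push Not at h
    obtain ⟨j, hj, hne⟩ := h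
    rw [Loc_entry hX hj hne, zero_mul, mul_zero]

/-- Same in a product frame. (Conjugate: `prodOp m⋆ X prodOp m` is supported on `R`.) -/
theorem Loc_comm_sp {R : Finset (Fin N)} {X : Mat N} (hX : Loc R X)
    {m : Fin N → Matrix Bool Bool ℂ} (hm : UV m) (f : Om N → ℂ)
    (hf : ∀ σ τ : Om N, (∀ i, i ∉ R → σ i = τ i) → f σ = f τ) :
    X * sp (prodOp m) f = sp (prodOp m) f * X := by
  have h1 := Loc_comm_diag (Loc_conj hX hm) f hf
  have hu : prodOp m * star (prodOp m) = 1 := mul_star_u (prodOp_mem hm)
  unfold sp
  calc X * (prodOp m * diagonal f * star (prodOp m))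
      = (prodOp m * star (prodOp m)) * X * (prodOp m * diagonal f * star (prodOp m)) := by
        rw [hu, Matrix.one_mul]
    _ = prodOp m * (star (prodOp m) * X * prodOp m * diagonal f) * star (prodOp m) := by
        simp only [Matrix.mul_assoc]
    _ = prodOp m * (diagonal f * (star (prodOp m) * X * prodOp m)) * star (prodOp m) := by
        rw [h1]
    _ = prodOp m * diagonal f * star (prodOp m) * X * (prodOp m * star (prodOp m)) := by
        simp only [Matrix.mul_assoc]
    _ = prodOp m * diagonal f * star (prodOp m) * X := by rw [hu, Matrix.mul_one]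

/-- `onesP (prodOp m) R` is supported on `R`. -/
theorem Loc_onesP {m : Fin N → Matrix Bool Bool ℂ} (hm : UV m) (R : Finset (Fin N)) :
    Loc R (onesP (prodOp m) R) := by
  refine Loc_sp hm _ fun σ τ h => ?_
  have : (∀ i ∈ R, σ i = true) ↔ (∀ i ∈ R, τ i = true) :=
    ⟨fun h1 i hi => (h i hi) ▸ h1 i hi, fun h1 i hi => (h i hi).symm ▸ h1 i hi⟩
  simp only [this]

/-- `oneQ j u` is supported on `{j}`. -/
theorem Loc_oneQ (j : Fin N) (u : Matrix Bool Bool ℂ) : Loc {j} (oneQ j u) := by
  intro i hi w
  exact oneQ_comm (fun h => hi (by rw [h]; exact Finset.mem_singleton_self _)) u w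

/-- The base case `Good N 0 1`: let `U = prodOp v`, `X' = U⋆ X U` (supported on `R`, `Loc_conj`).
By `norm_sp_conj` (with `M = M' = 1`) it suffices that
`D = diag(1[wt S > k + Λ]) * X' * diag(1[wt S ≤ k]) = 0`. Its entry at `(σ, τ)` vanishes unless
`wt S σ > k + Λ`, `wt S τ ≤ k` and (by `Loc_entry`) `σ = τ` outside `R`; but then
`wt S σ ≤ wt S τ + R.card ≤ k + Λ`. -/
theorem good_zero (N : ℕ) : Good N 0 1 := by
  intro U hU S R X k L hX _ hR _
  cases hU with
  | base v hv =>
    have hX' := Loc_conj hX hv
    have h0 : gtP (prodOp v) S (1 * (k + L)) * X * leP (prodOp v) S k =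
        sp (prodOp v * 1) (fun σ => if 1 * (k + L) < wt S σ then 1 else 0) * X *
          sp (prodOp v * 1) (fun σ => if wt S σ ≤ k then 1 else 0) := by
      rw [Matrix.mul_one]
      rfl
    rw [h0, norm_sp_conj (prodOp_mem hv)]
    have hsp : ∀ f : Om N → ℂ, sp 1 f = diagonal f := by
      intro f
      unfold sp
      rw [star_one, Matrix.one_mul, Matrix.mul_one]
    rw [hsp, hsp]
    have hz : diagonal (fun σ : Om N => if 1 * (k + L) < wt S σ then (1 : ℂ) else 0) *
        (star (prodOp v) * X * prodOp v) *
        diagonal (fun σ : Om N => if wt S σ ≤ k then (1 : ℂ) else 0) = 0 := by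
      ext σ τ
      rw [Matrix.mul_diagonal, Matrix.diagonal_mul, Matrix.zero_apply]
      by_cases h : ∀ i, i ∉ R → σ i = τ i
      · by_cases h1 : 1 * (k + L) < wt S σ
        · have h2 : ¬ wt S τ ≤ k := by
            intro h2
            have h3 : wt S σ ≤ wt S τ + R.card := by
              unfold wt
              refine le_trans (Finset.card_le_card ?_) (Finset.card_union_le _ _)
              intro i hi
              rw [Finset.mem_filter] at hi
              rw [Finset.mem_union, Finset.mem_filter]
              by_cases hiR : i ∈ R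
              · exact Or.inr hiR
              · exact Or.inl ⟨hi.1, (h i hiR) ▸ hi.2⟩
            omega
          rw [if_neg h2, mul_zero]
        · rw [if_neg h1, zero_mul, zero_mul]
      · push Not at h
        obtain ⟨j, hj, hne⟩ := h
        rw [Loc_entry hX' hj hne, mul_zero, zero_mul]
    rw [hz, norm_zero]
    positivity

end Crest.Agent.QA
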