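import Mathlib

set_option autoImplicit false

namespace Crest.Agent.QA

open Polynomial

/-- Gregory–Newton: `c r = Δ^r p(0) = ∑_{j ≤ r} (-1)^{r-j} C(r,j) p(j)` for `r ≤ N`, and `c r = 0` for
`r > N`. Mathlib: `shift_eq_sum_fwdDiff_iter`, `fwdDiff_iter_eq_sum_shift`,
`Polynomial.fwdDiff_iter_eq_zero_of_degree_lt`. -/
theorem newton_expansion (N D : ℕ) (p : Polynomial ℝ) (hp : p.natDegree ≤ D) (B : ℝ)
    (hB : ∀ i : ℕ, i ≤ N → |p.eval (i : ℝ)| ≤ B) :
    ∃ c : ℕ → ℝ, (∀ r, |c r| ≤ 2 ^ r * B) ∧
      ∀ n : ℕ, n ≤ N → p.eval (n : ℝ) = ∑ r ∈ Finset.range (D + 1), c r * (n.choose r : ℝ) := by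
  classical
  have hB0 : 0 ≤ B := le_trans (abs_nonneg _) (hB 0 (Nat.zero_le N))
  let e : ℕ → ℝ := fun r => (fwdDiff (1 : ℝ))^[r] (fun x : ℝ => p.eval x) 0
  refine ⟨fun r => if r ≤ N then e r else 0, ?_, ?_⟩
  · intro r
    dsimp only
    split_ifs with hr
    · have h1 : e r = ∑ k ∈ Finset.range (r + 1),
          (((-1 : ℤ) ^ (r - k) * (r.choose k : ℤ)) • (p.eval (k : ℝ))) := by
        show (fwdDiff (1 : ℝ))^[r] (fun x : ℝ => p.eval x) 0 = _
        rw [fwdDiff_iter_eq_sum_shift]
        refine Finset.sum_congr rfl (fun k _ => ?_)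
        simp
      rw [h1]
      refine le_trans (Finset.abs_sum_le_sum_abs _ _) ?_
      have h2 : ∀ k ∈ Finset.range (r + 1),
          |(((-1 : ℤ) ^ (r - k) * (r.choose k : ℤ)) • (p.eval (k : ℝ)))| ≤
            (r.choose k : ℝ) * B := by
        intro k hk
        have hk' : k ≤ N := le_trans (Nat.lt_succ_iff.1 (Finset.mem_range.1 hk)) hr
        rw [zsmul_eq_mul, abs_mul]
        push_cast
        rw [abs_mul, abs_pow, abs_neg, abs_one, one_pow, one_mul, Nat.abs_cast]
        exact mul_le_mul_of_nonneg_left (hB k hk') (Nat.cast_nonneg _)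
      refine le_trans (Finset.sum_le_sum h2) ?_
      rw [← Finset.sum_mul]
      have h3 : (∑ k ∈ Finset.range (r + 1), (r.choose k : ℝ)) = 2 ^ r := by
        exact_mod_cast Nat.sum_range_choose r
      rw [h3]
    · rw [abs_zero]
      positivity
  · intro n hn
    have h1 : p.eval (n : ℝ) = ∑ k ∈ Finset.range (n + 1), n.choose k • e k := by
      have := shift_eq_sum_fwdDiff_iter (1 : ℝ) (fun x : ℝ => p.eval x) n 0
      simpa using this
    have hz : ∀ k, D < k → e k = 0 := by
      intro k hk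
      have := Polynomial.fwdDiff_iter_eq_zero_of_degree_lt (P := p) (n := k) (lt_of_le_of_lt hp hk)
      exact congrFun this 0
    have h2 : ∀ (A : ℕ), n ≤ A → D ≤ A →
        (∑ k ∈ Finset.range (n + 1), n.choose k • e k) =
          ∑ k ∈ Finset.range (A + 1), n.choose k • e k := by
      intro A hA _
      refine Finset.sum_subset (fun x hx => ?_) (fun x _ hx => ?_)
      · simp only [Finset.mem_range] at hx ⊢; omega
      · simp only [Finset.mem_range, not_lt] at hx
        rw [Nat.choose_eq_zero_of_lt (by omega), zero_smul]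
    have h3 : (∑ r ∈ Finset.range (D + 1), (if r ≤ N then e r else 0) * (n.choose r : ℝ)) =
        ∑ k ∈ Finset.range (max n D + 1), n.choose k • e k := by
      have h4 : (∑ r ∈ Finset.range (D + 1), (if r ≤ N then e r else 0) * (n.choose r : ℝ)) =
          ∑ r ∈ Finset.range (D + 1), n.choose r • e r := by
        refine Finset.sum_congr rfl (fun r _ => ?_)
        rw [nsmul_eq_mul, mul_comm]
        split_ifs with h
        · rfl
        · rw [Nat.choose_eq_zero_of_lt (by omega)]; simp
      rw [h4]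
      refine Finset.sum_subset (fun x hx => ?_) (fun x _ hx => ?_)
      · simp only [Finset.mem_range] at hx ⊢; omega
      · simp only [Finset.mem_range, not_lt] at hx
        rw [hz x (by omega), smul_zero]
    rw [h1, h2 (max n D) (le_max_left _ _) (le_max_right _ _), ← h3]

end Crest.Agent.QA
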