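import Crest.Agent.QA_API
import Crest.Agent.QA_Newton

/-!
# S0539, task QA-OpPoly: polynomials of the number operator
-/

set_option autoImplicit false

namespace Crest.Agent.QA

open Matrix Polynomial
open scoped Matrix.Norms.L2Operator

variable {N : ℕ}

/-- `∑_{R ⊆ S, |R| = r} 1[R ⊆ ones σ] = C(wt S σ, r)`. -/
theorem sum_powersetCard_ones (S : Finset (Fin N)) (r : ℕ) (σ : Om N) :
    (∑ R ∈ S.powersetCard r, (if ∀ i ∈ R, σ i = true then (1 : ℂ) else 0))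
      = ((wt S σ).choose r : ℂ) := by
  classical
  rw [Finset.sum_boole]
  congr 1
  have : (S.powersetCard r).filter (fun R => ∀ i ∈ R, σ i = true)
      = (S.filter fun i => σ i = true).powersetCard r := by
    ext R
    simp only [Finset.mem_filter, Finset.mem_powersetCard]
    constructor
    · rintro ⟨⟨h1, h2⟩, h3⟩
      exact ⟨fun i hi => Finset.mem_filter.mpr ⟨h1 hi, h3 i hi⟩, h2⟩
    · rintro ⟨h1, h2⟩
      exact ⟨⟨fun i hi => (Finset.mem_filter.mp (h1 hi)).1, h2⟩,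
        fun i hi => (Finset.mem_filter.mp (h1 hi)).2⟩
  rw [this, Finset.card_powersetCard]
  rfl

/-- `p(K) = ∑_{r ≤ D} c_r ∑_{R ⊆ S, |R| = r} κ_R`, so that by the hypothesis `FHyp`
`‖1[K'>a] p(K) 1[K' ≤ x]‖ ≤ ∑_{r ≤ D} 2^r B · C(|S|, r) · 2^{-Λ} ≤ B 2^{-Λ} ∑_{r ≤ D} (2N)^r
 ≤ B (2N+1)^D 2^{-Λ}`. (First reduce from `a` to `A (x + Λ)` with `norm_gtP_mul_mono`.) -/
theorem norm_poly_le {M M' : Mat N} (hM : M ∈ unitary (Mat N)) (hM' : M' ∈ unitary (Mat N))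
    (S S' : Finset (Fin N)) (A x Λ D a : ℕ) (p : Polynomial ℝ) (B : ℝ)
    (hF : FHyp M M' S' A) (hp : p.natDegree ≤ D)
    (hB : ∀ i : ℕ, i ≤ N → |p.eval (i : ℝ)| ≤ B) (hD : D ≤ Λ) (hΛ : 1 ≤ Λ)
    (ha : A * (x + Λ) ≤ a) :
    ‖gtP M' S' a * sp M (fun σ => ((p.eval (wt S σ : ℝ) : ℝ) : ℂ)) * leP M' S' x‖
      ≤ B * (2 * (N : ℝ) + 1) ^ D * (1 / 2 : ℝ) ^ Λ := by
  classical
  obtain ⟨c, hc, hexp⟩ := newton_expansion N D p hp B hB
  have hB0 : 0 ≤ B := le_trans (abs_nonneg _) (hB 0 (Nat.zero_le _))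
  -- expansion of the operator
  have hsp : sp M (fun σ => ((p.eval (wt S σ : ℝ) : ℝ) : ℂ))
      = ∑ r ∈ Finset.range (D + 1), ∑ R ∈ S.powersetCard r, (c r : ℂ) • onesP M R := by
    have h1 : ∀ r, ∑ R ∈ S.powersetCard r, (c r : ℂ) • onesP M R
        = sp M (fun σ => (c r : ℂ) * ((wt S σ).choose r : ℂ)) := by
      intro r
      unfold onesP
      simp_rw [sp_smul]
      rw [sp_sum]
      apply sp_congr
      intro σ
      rw [← Finset.mul_sum, sum_powersetCard_ones]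
    simp_rw [h1]
    rw [sp_sum]
    apply sp_congr
    intro σ
    rw [hexp _ (wt_le S σ)]
    push_cast
    rfl
  rw [Matrix.mul_assoc]
  refine le_trans (norm_gtP_mul_mono hM' S' ha _) ?_
  rw [← Matrix.mul_assoc, hsp, Finset.mul_sum, Finset.sum_mul]
  have hterm : ∀ r ∈ Finset.range (D + 1),
      ‖gtP M' S' (A * (x + Λ)) * (∑ R ∈ S.powersetCard r, (c r : ℂ) • onesP M R) * leP M' S' x‖
        ≤ B * (1 / 2 : ℝ) ^ Λ * (2 * (N : ℝ)) ^ r := by
    intro r hr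
    have hr' : r ≤ D := Nat.lt_succ_iff.mp (Finset.mem_range.mp hr)
    rw [Finset.mul_sum, Finset.sum_mul]
    have h2 : ∀ R ∈ S.powersetCard r,
        ‖gtP M' S' (A * (x + Λ)) * ((c r : ℂ) • onesP M R) * leP M' S' x‖
          ≤ 2 ^ r * B * (1 / 2 : ℝ) ^ Λ := by
      intro R hR
      rw [Matrix.mul_smul, Matrix.smul_mul, norm_smul]
      have h3 : ‖(c r : ℂ)‖ ≤ 2 ^ r * B := by
        rw [Complex.norm_real]
        exact hc r
      have h4 := hF R x Λ (by rw [(Finset.mem_powersetCard.mp hR).2]; omega) hΛ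
      exact mul_le_mul h3 h4 (norm_nonneg _) (by positivity)
    refine le_trans (norm_sum_le_of_le _ h2) ?_
    rw [Finset.sum_const, Finset.card_powersetCard, nsmul_eq_mul]
    have h5 : ((S.card.choose r : ℕ) : ℝ) ≤ (N : ℝ) ^ r := by
      have h6 : S.card ≤ N := by simpa using Finset.card_le_univ S
      calc ((S.card.choose r : ℕ) : ℝ) ≤ ((S.card ^ r : ℕ) : ℝ) := by
            exact_mod_cast Nat.choose_le_pow _ _
        _ ≤ (N : ℝ) ^ r := by
            push_cast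
            gcongr
    calc ((S.card.choose r : ℕ) : ℝ) * (2 ^ r * B * (1 / 2 : ℝ) ^ Λ)
        ≤ (N : ℝ) ^ r * (2 ^ r * B * (1 / 2 : ℝ) ^ Λ) := by gcongr
      _ = _ := by rw [mul_pow]; ring
  refine le_trans (norm_sum_le_of_le _ hterm) ?_
  rw [← Finset.mul_sum]
  have hgeom : ∑ r ∈ Finset.range (D + 1), (2 * (N : ℝ)) ^ r ≤ (2 * (N : ℝ) + 1) ^ D := by
    rw [add_pow]
    apply Finset.sum_le_sum
    intro r hr
    have hr' : r ≤ D := Nat.lt_succ_iff.mp (Finset.mem_range.mp hr)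
    have h7 : (1 : ℝ) ≤ (D.choose r : ℝ) := by
      exact_mod_cast Nat.choose_pos hr'
    have h8 : 0 ≤ (2 * (N : ℝ)) ^ r := by positivity
    simp only [one_pow, mul_one]
    nlinarith
  calc B * (1 / 2 : ℝ) ^ Λ * ∑ r ∈ Finset.range (D + 1), (2 * (N : ℝ)) ^ r
      ≤ B * (1 / 2 : ℝ) ^ Λ * (2 * (N : ℝ) + 1) ^ D := by gcongr
    _ = _ := by ring

end Crest.Agent.QA
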