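import Crest.Agent.QA_Iter
import Crest.Agent.QA_Circ

/-!
# S0539, task QA-PS: product projectors are local
-/

set_option autoImplicit false

namespace Crest.Agent.QA

open Matrix
open scoped Matrix.Norms.L2Operator

variable {N : ℕ}

/-- `FHyp` for a circuit `U` as source and a product frame as target, from `Good`: conjugating by
`U⋆` turns `onesP U R` into `onesP 1 R` (which is `onesP (prodOp 1) R`, supported on `R`), and
`prodOp m` into `U⋆ prodOp m ∈ Circ s`. -/
theorem FHyp_left {s A : ℕ} (hgood : Good N s A) {U : Mat N} (hU : Circ s U)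
    {m : Fin N → Matrix Bool Bool ℂ} (hm : UV m) (T : Finset (Fin N)) :
    FHyp U (prodOp m) T A := by
  intro R x Λ hR hΛ
  have hUm := Circ_mem hU
  have e1 : prodOp m = U * (star U * prodOp m) := by
    rw [← Matrix.mul_assoc, mul_star_u hUm, Matrix.one_mul]
  have e2 : star U * onesP U R * U = onesP (prodOp fun _ => 1) R := by
    have h := conj_onesP (star U) U R
    rw [star_star, star_mul_u hUm] at h
    rw [h, prodOp_one]
  have h3 : ‖gtP (prodOp m) T (A * (x + Λ)) * onesP U R * leP (prodOp m) T x‖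
      = ‖gtP (star U * prodOp m) T (A * (x + Λ)) * (star U * onesP U R * U)
          * leP (star U * prodOp m) T x‖ := by
    have h := norm_sp_conj hUm (star U * prodOp m) (star U * prodOp m) (onesP U R)
      (fun σ => if A * (x + Λ) < wt T σ then (1 : ℂ) else 0)
      (fun σ => if wt T σ ≤ x then (1 : ℂ) else 0)
    rw [← e1] at h
    exact h
  rw [h3, e2]
  refine hgood (star U * prodOp m) (Circ_mul_prodOp (Circ_star hU) hm) T R _ x Λ
    (Loc_onesP UV_one R) ?_ hR hΛ
  exact norm_onesP_le (prodOp_mem UV_one) R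

/-- `FHyp` for a product frame as source and a circuit as target: `onesP (prodOp m) R` is supported
on `R` and has norm at most `1`. -/
theorem FHyp_right {s A : ℕ} (hgood : Good N s A) {U : Mat N} (hU : Circ s U)
    {m : Fin N → Matrix Bool Bool ℂ} (hm : UV m) (S : Finset (Fin N)) :
    FHyp (prodOp m) U S A := by
  intro R x Λ hR hΛ
  exact hgood U hU S R _ x Λ (Loc_onesP hm R) (norm_onesP_le (prodOp_mem hm) R) hR hΛ

/-- **Product projectors are local for `U diag(wt S) U⋆`**, of whatever support `T`: apply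
`band_iter` to `(M, S) = (prodOp m, T)`, `(M', S') = (U, S)`, `E = k + Λ`, with `0, k ≤ E`. -/
theorem prodProj_local {s A L G I : ℕ} (hgood : Good N s A) (hA : 1 ≤ A) (hL : 1 ≤ L)
    (hN : N ≤ 2 ^ L) (hG : 3 * A * (43 * L ^ 2) ^ 2 ≤ G) (hI : N ≤ G ^ (I * (I - 1) / 2))
    {U : Mat N} (hU : Circ s U) {m : Fin N → Matrix Bool Bool ℂ} (hm : UV m)
    (T S : Finset (Fin N)) (k Λ : ℕ) (hΛ : 1 ≤ Λ) :
    ‖gtP U S (G ^ I * (k + Λ)) * leP (prodOp m) T 0 * leP U S k‖ ≤ (1 / 2 : ℝ) ^ Λ := by
  have hE : 1 ≤ k + Λ := by omega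
  have hNE : N ≤ (k + Λ) * G ^ (I * (I - 1) / 2) :=
    le_trans hI (Nat.le_mul_of_pos_left _ (by omega))
  obtain ⟨h, -⟩ := band_iter (prodOp_mem hm) (Circ_mem hU) T S A L G hA hL hN hG
    (FHyp_right hgood hU hm S) (FHyp_left hgood hU hm T) I (k + Λ) hE hNE
  refine le_trans (h 0 k (Nat.zero_le _) (by omega)) ?_
  exact pow_le_pow_of_le_one (by norm_num) (by norm_num) (by omega)

end Crest.Agent.QA
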