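import Crest.Agent.QA_Damp

/-!
# S0539, task QA-Poly: a low-degree polynomial approximating the threshold `1[i ≤ k]`
-/

set_option autoImplicit false

namespace Crest.Agent.QA

open Polynomial

private theorem polyQ_basis_bound (q l i : ℕ) (hl : l < q) (hi : q ≤ i) (B : ℝ)
    (hB : (i : ℝ) ≤ B) :
    |(Lagrange.basis (Finset.range q) (fun j : ℕ => (j : ℝ)) l).eval (i : ℝ)| ≤ B ^ (q - 1) := by
  have hB0 : 0 ≤ B := (Nat.cast_nonneg i).trans hB
  rw [Lagrange.basis, eval_prod, Finset.abs_prod]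
  have h1 : ∀ j ∈ (Finset.range q).erase l,
      |(Lagrange.basisDivisor ((l : ℕ) : ℝ) (j : ℝ)).eval (i : ℝ)| ≤ B := by
    intro j hj
    rw [Finset.mem_erase, Finset.mem_range] at hj
    have hji : (j : ℝ) ≤ (i : ℝ) := by exact_mod_cast (le_of_lt (lt_of_lt_of_le hj.2 hi))
    have hlj : 1 ≤ |((l : ℕ) : ℝ) - (j : ℝ)| := by
      have h2 : (1 : ℤ) ≤ |(l : ℤ) - (j : ℤ)| := by
        apply Int.one_le_abs
        intro h3
        apply hj.1
        omega
      exact_mod_cast h2
    rw [Lagrange.basisDivisor]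
    simp only [eval_mul, eval_C, eval_sub, eval_X, abs_mul, abs_inv]
    have h3 : |(i : ℝ) - (j : ℝ)| ≤ B := by
      rw [abs_of_nonneg (by linarith)]
      have : (0 : ℝ) ≤ (j : ℝ) := Nat.cast_nonneg j
      linarith
    calc |((l : ℕ) : ℝ) - (j : ℝ)|⁻¹ * |(i : ℝ) - (j : ℝ)| ≤ 1 * B := by
          apply mul_le_mul (inv_le_one_of_one_le₀ hlj) h3 (abs_nonneg _) zero_le_one
      _ = B := one_mul B
  calc ∏ j ∈ (Finset.range q).erase l,
      |(Lagrange.basisDivisor ((l : ℕ) : ℝ) (j : ℝ)).eval (i : ℝ)| ≤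
      ∏ _j ∈ (Finset.range q).erase l, B :=
        Finset.prod_le_prod (fun _ _ => abs_nonneg _) h1
    _ = B ^ (q - 1) := by
        rw [Finset.prod_const, Finset.card_erase_of_mem (Finset.mem_range.2 hl),
          Finset.card_range]

/-- **The polynomial lemma.** Let `X = t²E`, `q = 2E`, `u = 12 L E`, `τ` from
`exists_damping t E u`, and
`p(s) = ∑_{l ≤ k} (∏_{j < q, j ≠ l} (s - j)/(l - j)) * τ(s)/τ(l)`.
* degree `≤ q - 1 + t u ≤ 2E + 12 t L E ≤ 14 t L E`;
* `i < q`: `p(i) = 1` for `i ≤ k`, `p(i) = 0` for `k < i < q` exactly (note `k ≤ E < q`);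
* `q ≤ i ≤ X`: every factor satisfies `|(i-j)/(l-j)| ≤ X`, `|τ(i)| ≤ 1`, `τ(l) ≥ 2^u/2`, so
  `|p(i)| ≤ (k+1) X^{q-1} 2/2^u ≤ 2^E 2^{3L(2E)} 2^{1-12LE} ≤ 2^{-E-3}`
  (`E + 6LE + 1 - 12LE ≤ -E-3` since `6LE ≥ 6E ≥ 2E + 4`);
* `i ≤ 2^L`: if `i ≤ X` then `|p(i)| ≤ 1 + 1/8 ≤ 2`; if `X < i` then each factor is `≤ 2^L`,
  `|τ(i)| ≤ (2·2^L)^{tu}`, `1/τ(l) ≤ 2/2^u ≤ 1`, so
  `|p(i)| ≤ 2^E 2^{2LE} 2^{(L+1)·12tLE} ≤ 2^{(1+2+24) t L² E}`. -/
theorem exists_poly (t E L k : ℕ) (ht : 2 ≤ t) (hE : 1 ≤ E) (hL : 1 ≤ L) (hk : k ≤ E)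
    (hX : t ^ 2 * E ≤ 2 ^ (3 * L)) :
    ∃ p : Polynomial ℝ, p.natDegree ≤ 14 * t * L * E ∧
      (∀ i : ℕ, i ≤ t ^ 2 * E →
        |p.eval (i : ℝ) - (if i ≤ k then 1 else 0)| ≤ (1 / 2 : ℝ) ^ (E + 3)) ∧
      (∀ i : ℕ, i ≤ 2 ^ L → |p.eval (i : ℝ)| ≤ (2 : ℝ) ^ (40 * t * L ^ 2 * E)) := by
  obtain ⟨τ, hτd, hτ1, hτ2, hτ3⟩ := exists_damping t E (12 * L * E) ht hE
  set u := 12 * L * E with hu
  set q := 2 * E with hq
  have hLE : 1 ≤ L * E := Nat.one_le_iff_ne_zero.2 (by positivity)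
  have hEX : q ≤ t ^ 2 * E := by
    have : 4 ≤ t ^ 2 := by nlinarith
    nlinarith
  have hτpos : ∀ l : ℕ, l ≤ E → 0 < τ.eval (l : ℝ) := fun l hl =>
    lt_of_lt_of_le (by positivity) (hτ2 l hl)
  have hτinv : ∀ l : ℕ, l ≤ E → (τ.eval (l : ℝ))⁻¹ ≤ 2 / 2 ^ u := by
    intro l hl
    rw [inv_le_comm₀ (hτpos l hl) (by positivity), inv_div]
    exact hτ2 l hl
  let p : Polynomial ℝ := ∑ l ∈ Finset.range (k + 1),
    C ((τ.eval (l : ℝ))⁻¹) * (Lagrange.basis (Finset.range q) (fun j : ℕ => (j : ℝ)) l * τ)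
  have hinj : Set.InjOn (fun j : ℕ => (j : ℝ)) (Finset.range q : Set ℕ) :=
    fun a _ b _ h => Nat.cast_injective h
  have hlq : ∀ l ∈ Finset.range (k + 1), l ≤ E ∧ l < q := by
    intro l hl
    rw [Finset.mem_range] at hl
    omega
  have heval : ∀ x : ℝ, p.eval x = ∑ l ∈ Finset.range (k + 1),
      (τ.eval (l : ℝ))⁻¹ *
        ((Lagrange.basis (Finset.range q) (fun j : ℕ => (j : ℝ)) l).eval x * τ.eval x) := by
    intro x
    simp only [p, eval_finset_sum, eval_mul, eval_C]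
  -- the general bound
  have hbound : ∀ (i : ℕ) (B : ℝ), q ≤ i → (i : ℝ) ≤ B →
      |p.eval (i : ℝ)| ≤ 2 ^ E * (2 / 2 ^ u * (B ^ (q - 1) * |τ.eval (i : ℝ)|)) := by
    intro i B hi hB
    have hB0 : 0 ≤ B := (Nat.cast_nonneg i).trans hB
    rw [heval]
    calc |∑ l ∈ Finset.range (k + 1), (τ.eval (l : ℝ))⁻¹ *
          ((Lagrange.basis (Finset.range q) (fun j : ℕ => (j : ℝ)) l).eval (i : ℝ) *
            τ.eval (i : ℝ))| ≤
        ∑ l ∈ Finset.range (k + 1), |(τ.eval (l : ℝ))⁻¹ *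
          ((Lagrange.basis (Finset.range q) (fun j : ℕ => (j : ℝ)) l).eval (i : ℝ) *
            τ.eval (i : ℝ))| := Finset.abs_sum_le_sum_abs _ _
      _ ≤ ∑ l ∈ Finset.range (k + 1), (2 / 2 ^ u * (B ^ (q - 1) * |τ.eval (i : ℝ)|)) := by
          apply Finset.sum_le_sum
          intro l hl
          obtain ⟨h1, h2⟩ := hlq l hl
          rw [abs_mul, abs_mul, abs_of_pos (inv_pos.2 (hτpos l h1))]
          apply mul_le_mul (hτinv l h1) _ (by positivity) (by positivity)
          apply mul_le_mul_of_nonneg_right (polyQ_basis_bound q l i h2 hi B hB) (abs_nonneg _)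
      _ = ((k + 1 : ℕ) : ℝ) * (2 / 2 ^ u * (B ^ (q - 1) * |τ.eval (i : ℝ)|)) := by
          rw [Finset.sum_const, Finset.card_range, nsmul_eq_mul]
      _ ≤ 2 ^ E * (2 / 2 ^ u * (B ^ (q - 1) * |τ.eval (i : ℝ)|)) := by
          apply mul_le_mul_of_nonneg_right _ (by positivity)
          have h1 : k + 1 ≤ 2 ^ E := by
            have := Nat.lt_two_pow_self (n := E)
            omega
          exact_mod_cast h1
  have hfirst : ∀ i : ℕ, i ≤ t ^ 2 * E →
      |p.eval (i : ℝ) - (if i ≤ k then 1 else 0)| ≤ (1 / 2 : ℝ) ^ (E + 3) := by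
    intro i hi
    by_cases hiq : i < q
    · have hval : p.eval (i : ℝ) = if i ≤ k then 1 else 0 := by
        rw [heval]
        by_cases hik : i ≤ k
        · rw [if_pos hik, Finset.sum_eq_single_of_mem i (Finset.mem_range.2 (by omega))]
          · have h1 := Lagrange.eval_basis_self hinj (Finset.mem_range.2 hiq)
            rw [h1, one_mul, inv_mul_cancel₀ (hτpos i (by omega)).ne']
          · intro l _ hne
            have h1 := Lagrange.eval_basis_of_ne (v := fun j : ℕ => (j : ℝ)) hne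
              (Finset.mem_range.2 hiq)
            rw [h1, zero_mul, mul_zero]
        · rw [if_neg hik]
          apply Finset.sum_eq_zero
          intro l hl
          have hne : l ≠ i := by
            rw [Finset.mem_range] at hl
            omega
          have h1 := Lagrange.eval_basis_of_ne (v := fun j : ℕ => (j : ℝ)) hne
            (Finset.mem_range.2 hiq)
          rw [h1, zero_mul, mul_zero]
      rw [hval, sub_self, abs_zero]
      positivity
    · have hqi : q ≤ i := not_lt.1 hiq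
      rw [if_neg (by omega), sub_zero]
      have hB : (i : ℝ) ≤ (2 : ℝ) ^ (3 * L) := by
        have : i ≤ 2 ^ (3 * L) := hi.trans hX
        exact_mod_cast this
      refine (hbound i _ hqi hB).trans ?_
      have h1 : |τ.eval (i : ℝ)| ≤ 1 := hτ1 i hqi hi
      have h2 : ((2 : ℝ) ^ (3 * L)) ^ (q - 1) * |τ.eval (i : ℝ)| ≤ 2 ^ (3 * L * q) := by
        calc ((2 : ℝ) ^ (3 * L)) ^ (q - 1) * |τ.eval (i : ℝ)| ≤
            ((2 : ℝ) ^ (3 * L)) ^ (q - 1) * 1 := mul_le_mul_of_nonneg_left h1 (by positivity)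
          _ = 2 ^ (3 * L * (q - 1)) := by rw [mul_one, ← pow_mul]
          _ ≤ 2 ^ (3 * L * q) := by
              apply pow_le_pow_right₀ (by norm_num)
              apply Nat.mul_le_mul_left
              omega
      calc (2 : ℝ) ^ E * (2 / 2 ^ u * (((2 : ℝ) ^ (3 * L)) ^ (q - 1) * |τ.eval (i : ℝ)|)) ≤
          (2 : ℝ) ^ E * (2 / 2 ^ u * 2 ^ (3 * L * q)) := by
            apply mul_le_mul_of_nonneg_left _ (by positivity)
            apply mul_le_mul_of_nonneg_left h2 (by positivity)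
        _ ≤ (1 / 2 : ℝ) ^ (E + 3) := by
            rw [one_div, inv_pow, ← one_div, le_div_iff₀ (by positivity)]
            have h3 : (2 : ℝ) ^ E * (2 / 2 ^ u * 2 ^ (3 * L * q)) * 2 ^ (E + 3) =
                2 ^ (E + 1 + 3 * L * q + (E + 3)) / 2 ^ u := by
              rw [pow_add, pow_add, pow_add]
              ring
            rw [h3, div_le_one (by positivity)]
            apply pow_le_pow_right₀ (by norm_num)
            rw [hq, hu]
            nlinarith
  refine ⟨p, ?_, hfirst, ?_⟩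
  · apply natDegree_sum_le_of_forall_le
    intro l hl
    obtain ⟨h1, h2⟩ := hlq l hl
    refine (natDegree_C_mul_le _ _).trans ?_
    refine natDegree_mul_le.trans ?_
    have h3 : (Lagrange.basis (Finset.range q) (fun j : ℕ => (j : ℝ)) l).natDegree = q - 1 := by
      rw [Lagrange.natDegree_basis hinj (Finset.mem_range.2 h2), Finset.card_range]
    rw [h3]
    have h4 : q - 1 + t * u ≤ 14 * t * L * E := by
      have h5 : E ≤ t * L * E := by
        have : 1 ≤ t * L := Nat.one_le_iff_ne_zero.2 (by positivity)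
        nlinarith
      rw [hq, hu]
      have h6 : t * (12 * L * E) = 12 * (t * L * E) := by ring
      have h7 : 14 * t * L * E = 14 * (t * L * E) := by ring
      rw [h6, h7]
      omega
    omega
  · intro i hi
    by_cases hiX : i ≤ t ^ 2 * E
    · have h1 := hfirst i hiX
      have h2 : |(if i ≤ k then (1 : ℝ) else 0)| ≤ 1 := by
        split_ifs <;> simp
      have h3 : ((1 : ℝ) / 2) ^ (E + 3) ≤ 1 := pow_le_one₀ (by norm_num) (by norm_num)
      have h4 : |p.eval (i : ℝ)| ≤ 2 := by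
        calc |p.eval (i : ℝ)| = |(p.eval (i : ℝ) - (if i ≤ k then 1 else 0)) +
              (if i ≤ k then 1 else 0)| := by rw [sub_add_cancel]
          _ ≤ |p.eval (i : ℝ) - (if i ≤ k then 1 else 0)| + |(if i ≤ k then (1 : ℝ) else 0)| :=
              abs_add_le _ _
          _ ≤ 2 := by linarith
      refine h4.trans ?_
      calc (2 : ℝ) = 2 ^ 1 := (pow_one 2).symm
        _ ≤ 2 ^ (40 * t * L ^ 2 * E) := by
            apply pow_le_pow_right₀ (by norm_num)
            exact Nat.one_le_iff_ne_zero.2 (by positivity)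
    · have hXi : t ^ 2 * E < i := not_le.1 hiX
      have hB : (i : ℝ) ≤ (2 : ℝ) ^ L := by exact_mod_cast hi
      refine (hbound i _ (by omega) hB).trans ?_
      have h1 : |τ.eval (i : ℝ)| ≤ (2 * ((2 ^ L : ℕ) : ℝ)) ^ (t * u) :=
        hτ3 i (2 ^ L) hi (by omega)
      have h1' : |τ.eval (i : ℝ)| ≤ 2 ^ ((L + 1) * (t * u)) := by
        refine h1.trans (le_of_eq ?_)
        push_cast
        rw [← pow_succ', ← pow_mul]
      have h2 : (2 : ℝ) / 2 ^ u ≤ 1 := by
        rw [div_le_one (by positivity)]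
        calc (2 : ℝ) = 2 ^ 1 := (pow_one 2).symm
          _ ≤ 2 ^ u := by
            apply pow_le_pow_right₀ (by norm_num)
            rw [hu]
            nlinarith
      have h3 : ((2 : ℝ) ^ L) ^ (q - 1) ≤ 2 ^ (L * q) := by
        rw [← pow_mul]
        apply pow_le_pow_right₀ (by norm_num)
        apply Nat.mul_le_mul_left
        omega
      calc (2 : ℝ) ^ E * (2 / 2 ^ u * (((2 : ℝ) ^ L) ^ (q - 1) * |τ.eval (i : ℝ)|)) ≤
          (2 : ℝ) ^ E * (1 * (2 ^ (L * q) * 2 ^ ((L + 1) * (t * u)))) := by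
            apply mul_le_mul_of_nonneg_left _ (by positivity)
            apply mul_le_mul h2 _ (by positivity) zero_le_one
            apply mul_le_mul h3 h1' (abs_nonneg _) (by positivity)
        _ = 2 ^ (E + L * q + (L + 1) * (t * u)) := by
            rw [pow_add, pow_add]
            ring
        _ ≤ 2 ^ (40 * t * L ^ 2 * E) := by
            apply pow_le_pow_right₀ (by norm_num)
            rw [hq, hu]
            have h5 : E ≤ t * L ^ 2 * E := by
              have : 1 ≤ t * L ^ 2 := Nat.one_le_iff_ne_zero.2 (by positivity)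
              nlinarith
            have h6 : L * E ≤ t * L ^ 2 * E := by
              have h7 : L ≤ t * L ^ 2 := by nlinarith
              exact Nat.mul_le_mul_right _ h7
            have h8 : t * L * E ≤ t * L ^ 2 * E := by
              apply Nat.mul_le_mul_right
              apply Nat.mul_le_mul_left
              nlinarith
            have h9 : E + L * (2 * E) + (L + 1) * (t * (12 * L * E)) =
                E + 2 * (L * E) + 12 * (t * L ^ 2 * E) + 12 * (t * L * E) := by ring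
            rw [h9]
            have h10 : 40 * t * L ^ 2 * E = 40 * (t * L ^ 2 * E) := by ring
            rw [h10]
            omega

end Crest.Agent.QA
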