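import Crest.Agent.QA_Poly
import Crest.Agent.QA_OpPoly
import Crest.Agent.QA_Ineq

/-!
# S0539, task QA-Step: one step of the bandwidth lemma
-/

set_option autoImplicit false

namespace Crest.Agent.QA

open Matrix
open scoped Matrix.Norms.L2Operator

variable {N : ℕ}

private lemma qaStep_pow (a e l : ℕ) (h : a + e ≤ l) :
    (2 : ℝ) ^ a * (1 / 2 : ℝ) ^ l ≤ (1 / 2 : ℝ) ^ e := by
  calc (2 : ℝ) ^ a * (1 / 2 : ℝ) ^ l ≤ (2 : ℝ) ^ a * (1 / 2 : ℝ) ^ (a + e) := by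
        gcongr ?_ * ?_
        exact pow_le_pow_of_le_one (by norm_num) (by norm_num) h
    _ = (1 / 2 : ℝ) ^ e := by
        rw [pow_add, ← mul_assoc, ← mul_pow]
        norm_num

/-- **One step of the bandwidth lemma.** Put `h = 43 L²`, `t = h ρ`, `X = t² E = h² ρ² E`,
`Z = h² ρ E`, `Λ = 2 h² ρ E = 86 t L² E`, `a = 3 A h² ρ E`.

If `N ≤ a` then `gtP M' S' a = 0` (`gtP_eq_zero`) and there is nothing to prove. Otherwise
`h ρ E ≤ a < N ≤ 2^L` and `ρ < 2^L`,... so `X = t² E ≤ 2^{3L}` (`t ≤ 2^L`, `t E ≤ 2^L`).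
Fix `k, x ≤ E`; let `p` be the polynomial from `exists_poly t E L k`. Apply `key_ineq` with
`G = gtP M' S' a`, `Pr = leP M' S' x`, `Q = leP M S k`, `P = sp M (p ∘ wt S)`, `H = leP M S X`,
`H' = gtP M S X`, `δ = 2^{-E-3}`, `B = 2^b`, `b = 40 t L² E`, `ζ = 2^{-Z}`, `ε = 2^{-E}`:
* `h1`: `norm_poly_le` with `D = 14 t L E ≤ Λ`, `A (x + Λ) ≤ A (E + 2 h² ρ E) ≤ a`:
  `2^b (2N+1)^D 2^{-Λ} ≤ 2^{b + (L+2) D - Λ} ≤ 2^{(40 + 42 - 86) t L² E} = 2^{-4 t L² E} ≤ 2^{-E-3}`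
  (note `2N + 1 ≤ 2^{L+2}`, `(L+2) ≤ 3L`);
* `h2`: `(Q - P) H = sp M ((1[wt ≤ k] - p(wt)) 1[wt ≤ X])`, `norm_sp_le`;
* `h3`: `(Q - P) H' = sp M (-p(wt) 1[wt > X])` (since `k ≤ E ≤ X`), bounded by `2^b` (`wt ≤ N ≤ 2^L`);
* `h4`: this is the hypothesis `hT` with `(k, x)` (both `≤ E ≤ Z`);
* `B ζ = 2^{b - Z}` and `Z - b = h² ρ E - 40 h ρ L² E = h ρ E (43 L² - 40 L²) ≥ 2E + 1`. -/
theorem band_step {M M' : Mat N} (hM : M ∈ unitary (Mat N)) (hM' : M' ∈ unitary (Mat N))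
    (S S' : Finset (Fin N)) (A E ρ L : ℕ) (hA : 1 ≤ A) (hE : 1 ≤ E) (hρ : 1 ≤ ρ) (hL : 1 ≤ L)
    (hN : N ≤ 2 ^ L) (hF : FHyp M M' S' A)
    (hT : TB M' S' M S ((43 * L ^ 2) ^ 2 * ρ * E) (ρ * ((43 * L ^ 2) ^ 2 * ρ * E))) :
    TB M S M' S' E (3 * A * (43 * L ^ 2) ^ 2 * ρ * E) := by
  intro k x hk hx
  obtain ⟨h, hh⟩ : ∃ h, h = 43 * L ^ 2 := ⟨_, rfl⟩
  rw [← hh] at hT ⊢
  obtain ⟨t, ht⟩ : ∃ t, t = h * ρ := ⟨_, rfl⟩
  have hL2 : 1 ≤ L ^ 2 := Nat.one_le_pow _ _ hL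
  have hh43 : 43 ≤ h := by rw [hh]; omega
  have ht43 : 43 ≤ t := by
    rw [ht]
    calc 43 = 43 * 1 := rfl
      _ ≤ h * ρ := Nat.mul_le_mul hh43 hρ
  have hρt : ρ ≤ t := by
    rw [ht]; exact Nat.le_mul_of_pos_left _ (by omega)
  by_cases hbig : N ≤ 3 * A * h ^ 2 * ρ * E
  · rw [gtP_eq_zero M' S' hbig]
    simp
  push Not at hbig
  -- sizes
  have hZ : h ^ 2 * ρ * E = h * (t * E) := by rw [ht]; ring
  have hXeq : ρ * (h ^ 2 * ρ * E) = t ^ 2 * E := by rw [ht]; ring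
  have ha : 3 * A * h ^ 2 * ρ * E = 3 * A * (h * (t * E)) := by rw [ht]; ring
  have htE : t * E ≤ 2 ^ L := by
    have h1 : t * E ≤ 3 * A * (h * (t * E)) := by
      calc t * E = 1 * (1 * (t * E)) := by ring
        _ ≤ 3 * A * (h * (t * E)) :=
            Nat.mul_le_mul (by omega) (Nat.mul_le_mul (by omega) le_rfl)
    omega
  have ht1 : t ≤ 2 ^ L := le_trans (Nat.le_mul_of_pos_right _ hE) htE
  have hX : t ^ 2 * E ≤ 2 ^ (3 * L) := by
    calc t ^ 2 * E = t * (t * E) := by ring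
      _ ≤ 2 ^ L * 2 ^ L := Nat.mul_le_mul ht1 htE
      _ = 2 ^ (L + L) := by rw [pow_add]
      _ ≤ 2 ^ (3 * L) := Nat.pow_le_pow_right (by norm_num) (by omega)
  have hEX : E ≤ t ^ 2 * E := Nat.le_mul_of_pos_left _ (by positivity)
  obtain ⟨p, hpdeg, hp1, hp2⟩ := exists_poly t E L k (by omega) hE hL hk hX
  rw [hXeq] at hT
  obtain ⟨Y, hY⟩ : ∃ Y, Y = t * L ^ 2 * E := ⟨_, rfl⟩
  have hYZ : h ^ 2 * ρ * E = 43 * Y := by rw [hZ, hY, hh]; ring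
  have hb : 40 * t * L ^ 2 * E = 40 * Y := by rw [hY]; ring
  have hEY : 43 * E ≤ Y := by
    rw [hY]
    calc 43 * E = 43 * 1 * E := by ring
      _ ≤ t * L ^ 2 * E := Nat.mul_le_mul (Nat.mul_le_mul ht43 hL2) le_rfl
  have htLE : t * L * E ≤ Y := by
    rw [hY]
    have : L ≤ L ^ 2 := by nlinarith
    exact Nat.mul_le_mul (Nat.mul_le_mul le_rfl this) le_rfl
  have hD : (L + 2) * (14 * t * L * E) ≤ 42 * Y := by
    have e1 : (L + 2) * (14 * t * L * E) = 14 * (t * L ^ 2 * E) + 28 * (t * L * E) := by ring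
    rw [e1, ← hY]
    omega
  have hEZ : E ≤ h ^ 2 * ρ * E := by rw [hYZ]; omega
  have hBpos : (0 : ℝ) ≤ 2 ^ (40 * t * L ^ 2 * E) := by positivity
  refine key_ineq (P := sp M (fun σ => ((p.eval (wt S σ : ℝ) : ℝ) : ℂ)))
    (H := leP M S (t ^ 2 * E)) (H' := gtP M S (t ^ 2 * E)) (star_gtP _ _ _) (norm_gtP_le hM' _ _)
    (star_leP _ _ _) (leP_mul_self hM' _ _) (star_leP _ _ _) (leP_add_gtP hM _ _)
    (gtP_mul_self hM _ _) ((1 / 2 : ℝ) ^ (E + 3)) (2 ^ (40 * t * L ^ 2 * E))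
    ((1 / 2 : ℝ) ^ (h ^ 2 * ρ * E)) _ (by positivity) hBpos ?_ ?_ ?_ ?_ ?_ ?_
  · -- h1
    have hND : ((2 * (N : ℝ) + 1)) ^ (14 * t * L * E) ≤ (2 : ℝ) ^ ((L + 2) * (14 * t * L * E)) := by
      rw [pow_mul (2 : ℝ) (L + 2)]
      have hN' : 2 * (N : ℝ) + 1 ≤ 2 ^ (L + 2) := by
        have h1 : (N : ℝ) ≤ 2 ^ L := by exact_mod_cast hN
        have h2 : (1 : ℝ) ≤ 2 ^ L := one_le_pow₀ (by norm_num)
        rw [pow_add]
        nlinarith
      exact pow_le_pow_left₀ (by positivity) hN' _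
    have hkey := norm_poly_le hM hM' S S' A x (2 * (h ^ 2 * ρ * E)) (14 * t * L * E)
      (3 * A * h ^ 2 * ρ * E) p (2 ^ (40 * t * L ^ 2 * E)) hF hpdeg
      (fun i hi => hp2 i (le_trans hi hN)) (by
        rw [hYZ]
        have : 14 * t * L * E = 14 * (t * L * E) := by ring
        rw [this]; omega) (by rw [hYZ]; omega) (by
        have e1 : 3 * A * h ^ 2 * ρ * E = A * (3 * (h ^ 2 * ρ * E)) := by ring
        rw [e1]
        exact Nat.mul_le_mul le_rfl (by omega))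
    refine le_trans hkey ?_
    calc (2 : ℝ) ^ (40 * t * L ^ 2 * E) * (2 * (N : ℝ) + 1) ^ (14 * t * L * E)
          * (1 / 2 : ℝ) ^ (2 * (h ^ 2 * ρ * E))
        ≤ (2 : ℝ) ^ (40 * t * L ^ 2 * E) * (2 : ℝ) ^ ((L + 2) * (14 * t * L * E))
          * (1 / 2 : ℝ) ^ (2 * (h ^ 2 * ρ * E)) := by gcongr
      _ = (2 : ℝ) ^ (40 * t * L ^ 2 * E + (L + 2) * (14 * t * L * E))
          * (1 / 2 : ℝ) ^ (2 * (h ^ 2 * ρ * E)) := by rw [pow_add]
      _ ≤ (1 / 2 : ℝ) ^ (E + 3) := by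
          apply qaStep_pow
          rw [hb, hYZ]
          omega
  · -- h2
    unfold leP
    rw [sp_sub, sp_mul hM]
    apply norm_sp_le hM _ _ (by positivity)
    intro σ
    by_cases hw : wt S σ ≤ t ^ 2 * E
    · have h1 := hp1 (wt S σ) hw
      simp only [hw, if_true, mul_one]
      rw [abs_sub_comm] at h1
      refine le_trans (le_of_eq ?_) h1
      by_cases hwk : wt S σ ≤ k
      · simp only [hwk, if_true]
        rw [← Complex.ofReal_one, ← Complex.ofReal_sub, Complex.norm_real, Real.norm_eq_abs]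
      · simp only [hwk, if_false]
        rw [← Complex.ofReal_zero, ← Complex.ofReal_sub, Complex.norm_real, Real.norm_eq_abs]
    · simp only [hw, if_false, mul_zero, norm_zero]
      positivity
  · -- h3
    unfold leP gtP
    rw [sp_sub, sp_mul hM]
    apply norm_sp_le hM _ _ (by positivity)
    intro σ
    by_cases hw : t ^ 2 * E < wt S σ
    · have h1 : ¬ wt S σ ≤ k := by omega
      simp only [hw, h1, if_true, if_false, mul_one, zero_sub, norm_neg]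
      rw [Complex.norm_real, Real.norm_eq_abs]
      exact hp2 _ (le_trans (wt_le S σ) hN)
    · simp only [hw, if_false, mul_zero, norm_zero]
      positivity
  · -- h4
    exact hT x k (le_trans hx hEZ) (le_trans hk hEZ)
  · -- 2 δ ≤ ε / 4
    rw [pow_add]
    apply le_of_eq
    ring
  · -- B ζ ≤ ε² / 2
    have h1 : (2 : ℝ) ^ (40 * t * L ^ 2 * E) * (1 / 2 : ℝ) ^ (h ^ 2 * ρ * E)
        ≤ (1 / 2 : ℝ) ^ (E * 2 + 1) := by
      apply qaStep_pow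
      rw [hb, hYZ]
      omega
    refine le_trans h1 (le_of_eq ?_)
    rw [pow_add, pow_mul]
    ring

end Crest.Agent.QA
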