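import Crest.Agent.QA_PS
import Crest.Agent.QA_GExp
import Crest.Agent.QA_LConj

/-!
# S0539, task QA-Succ: the induction step `Good s → Good (s+1)`
-/

set_option autoImplicit false

namespace Crest.Agent.QA

open Matrix
open scoped Matrix.Norms.L2Operator

variable {N : ℕ}

/-- Chaining three almost-local operators. If `‖gt(a₁) Y₁ le(k)‖ ≤ ε₁`,
`‖gt(a₂) Y₂ le(a₁)‖ ≤ ε₂`, `‖gt(a₃) Y₃ le(a₂)‖ ≤ ε₃` and `‖Y₁‖, ‖Y₂‖, ‖Y₃‖ ≤ 1`, then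
`‖gt(a₃) Y₃ Y₂ Y₁ le(k)‖ ≤ ε₁ + ε₂ + ε₃`: insert `1 = le(a₁) + gt(a₁)` after `Y₁` (to its left) and
`1 = le(a₂) + gt(a₂)` to the left of `Y₂`. -/
theorem chain_three {U : Mat N} (hU : U ∈ unitary (Mat N)) (S : Finset (Fin N))
    (k a₁ a₂ a₃ : ℕ) (Y₁ Y₂ Y₃ : Mat N) (ε₁ ε₂ ε₃ : ℝ)
    (n₁ : ‖Y₁‖ ≤ 1) (n₂ : ‖Y₂‖ ≤ 1) (n₃ : ‖Y₃‖ ≤ 1)
    (h₁ : ‖gtP U S a₁ * Y₁ * leP U S k‖ ≤ ε₁)
    (h₂ : ‖gtP U S a₂ * Y₂ * leP U S a₁‖ ≤ ε₂)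
    (h₃ : ‖gtP U S a₃ * Y₃ * leP U S a₂‖ ≤ ε₃) :
    ‖gtP U S a₃ * (Y₃ * Y₂ * Y₁) * leP U S k‖ ≤ ε₁ + ε₂ + ε₃ := by
  have e1 := leP_add_gtP hU S a₁
  have e2 := leP_add_gtP hU S a₂
  have key : gtP U S a₃ * (Y₃ * Y₂ * Y₁) * leP U S k
      = (gtP U S a₃ * (Y₃ * Y₂)) * (gtP U S a₁ * Y₁ * leP U S k)
        + ((gtP U S a₃ * Y₃) * (gtP U S a₂ * Y₂ * leP U S a₁)) * (Y₁ * leP U S k)
        + (gtP U S a₃ * Y₃ * leP U S a₂) * (Y₂ * leP U S a₁ * (Y₁ * leP U S k)) := by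
    have h1 : gtP U S a₃ * (Y₃ * Y₂ * Y₁) * leP U S k
        = gtP U S a₃ * (Y₃ * Y₂) * (leP U S a₁ + gtP U S a₁) * Y₁ * leP U S k := by
      rw [e1, Matrix.mul_one]
      simp only [Matrix.mul_assoc]
    have h2 : gtP U S a₃ * (Y₃ * Y₂) * leP U S a₁ * Y₁ * leP U S k
        = gtP U S a₃ * Y₃ * (leP U S a₂ + gtP U S a₂) * Y₂ * leP U S a₁ * Y₁ * leP U S k := by
      rw [e2, Matrix.mul_one]
      simp only [Matrix.mul_assoc]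
    rw [h1, Matrix.mul_add, Matrix.add_mul, Matrix.add_mul, h2, Matrix.mul_add, Matrix.add_mul,
      Matrix.add_mul, Matrix.add_mul, Matrix.add_mul]
    simp only [Matrix.mul_assoc]
    abel
  have hε₁ : 0 ≤ ε₁ := le_trans (norm_nonneg _) h₁
  have hε₂ : 0 ≤ ε₂ := le_trans (norm_nonneg _) h₂
  have hε₃ : 0 ≤ ε₃ := le_trans (norm_nonneg _) h₃
  have g3 := norm_gtP_le hU S a₃
  have l1 := norm_leP_le hU S a₁
  have lk := norm_leP_le hU S k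
  have b1 : ‖(gtP U S a₃ * (Y₃ * Y₂)) * (gtP U S a₁ * Y₁ * leP U S k)‖ ≤ ε₁ := by
    have c1 : ‖gtP U S a₃ * (Y₃ * Y₂)‖ ≤ 1 := by
      refine (norm_mul_le _ _).trans ?_
      refine mul_le_one₀ g3 (norm_nonneg _) ?_
      exact (norm_mul_le _ _).trans (mul_le_one₀ n₃ (norm_nonneg _) n₂)
    refine (norm_mul_le _ _).trans ?_
    calc _ ≤ 1 * ε₁ := mul_le_mul c1 h₁ (norm_nonneg _) zero_le_one
      _ = ε₁ := one_mul _
  have b2 : ‖((gtP U S a₃ * Y₃) * (gtP U S a₂ * Y₂ * leP U S a₁)) * (Y₁ * leP U S k)‖ ≤ ε₂ := by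
    have c1 : ‖gtP U S a₃ * Y₃‖ ≤ 1 :=
      (norm_mul_le _ _).trans (mul_le_one₀ g3 (norm_nonneg _) n₃)
    have c2 : ‖Y₁ * leP U S k‖ ≤ 1 :=
      (norm_mul_le _ _).trans (mul_le_one₀ n₁ (norm_nonneg _) lk)
    refine (norm_mul_le _ _).trans ?_
    have c3 : ‖(gtP U S a₃ * Y₃) * (gtP U S a₂ * Y₂ * leP U S a₁)‖ ≤ ε₂ := by
      refine (norm_mul_le _ _).trans ?_
      calc _ ≤ 1 * ε₂ := mul_le_mul c1 h₂ (norm_nonneg _) zero_le_one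
        _ = ε₂ := one_mul _
    calc _ ≤ ε₂ * 1 := mul_le_mul c3 c2 (norm_nonneg _) hε₂
      _ = ε₂ := mul_one _
  have b3 : ‖(gtP U S a₃ * Y₃ * leP U S a₂) * (Y₂ * leP U S a₁ * (Y₁ * leP U S k))‖ ≤ ε₃ := by
    have c1 : ‖Y₂ * leP U S a₁‖ ≤ 1 :=
      (norm_mul_le _ _).trans (mul_le_one₀ n₂ (norm_nonneg _) l1)
    have c2 : ‖Y₁ * leP U S k‖ ≤ 1 :=
      (norm_mul_le _ _).trans (mul_le_one₀ n₁ (norm_nonneg _) lk)
    have c3 : ‖Y₂ * leP U S a₁ * (Y₁ * leP U S k)‖ ≤ 1 :=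
      (norm_mul_le _ _).trans (mul_le_one₀ c1 (norm_nonneg _) c2)
    refine (norm_mul_le _ _).trans ?_
    calc _ ≤ ε₃ * 1 := mul_le_mul h₃ c3 (norm_nonneg _) hε₃
      _ = ε₃ := mul_one _
  rw [key]
  refine (norm_add_le _ _).trans ?_
  refine add_le_add ((norm_add_le _ _).trans (add_le_add b1 b2)) b3

/-- **Induction step.** Let `U' = layer v m 𝒢 * U`. By `norm_sp_conj` (conjugation by the layer)
`‖gtP U' S a X leP U' S k‖ = ‖gtP U S a (L⋆ X L) leP U S k‖` and `L⋆XL = G_𝒜 X' G_𝒜` by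
`layer_conj`. Put `Λ' = 4Λ`, `A' = G^I`, `a₁ = A'(k + Λ')`, `a₂ = A (a₁ + Λ')`,
`a₃ = A' (a₂ + Λ') ≤ 12 A' A' A (k + Λ)`. `chain_three` with `Y₁ = Y₃ = G_𝒜`, `Y₂ = X'`,
`ε₁ = ε₃ = 3^{|𝒜|} 2^{-Λ'}` (`norm_gates_le` + `prodProj_local`), `ε₂ = 2^{-Λ'}` (`hgood`), and
`2·3^Λ + 1 ≤ 8^Λ`. (`A' ≥ 1` because `G ≥ 1`.) The circuit `U` in `prodProj_local` is `U ∈ Circ s`. -/
theorem good_succ {s A L G I : ℕ} (hgood : Good N s A) (hA : 1 ≤ A) (hL : 1 ≤ L)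
    (hN : N ≤ 2 ^ L) (hG : 3 * A * (43 * L ^ 2) ^ 2 ≤ G) (hI : N ≤ G ^ (I * (I - 1) / 2)) :
    Good N (s + 1) (12 * G ^ I * G ^ I * A) := by
  intro U' hU' S R X k Λ hX hXn hR hΛ
  cases hU' with
  | step _ U v m 𝒢 hU hv hm hG' =>
    have hLm := layer_mem hv hm 𝒢
    have hUm := Circ_mem hU
    obtain ⟨𝒜, h𝒜, X', hX', hX'n, hconj⟩ := layer_conj hX hv hm 𝒢 hG'
    set W : Mat N := layer v m 𝒢 with hW
    have e0 : ‖gtP (W * U) S (12 * G ^ I * G ^ I * A * (k + Λ)) * X * leP (W * U) S k‖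
        = ‖gtP U S (12 * G ^ I * G ^ I * A * (k + Λ)) * (star W * X * W) * leP U S k‖ := by
      unfold gtP leP
      exact norm_sp_conj hLm U U X _ _
    rw [e0, hconj]
    have hprod : prodOp m ∈ unitary (Mat N) := Circ_mem (Circ.base m hm)
    have hGn : ‖sp (prodOp m) (gatef 𝒜)‖ ≤ 1 :=
      norm_sp_le hprod _ 1 zero_le_one fun σ => le_of_eq (norm_gatef 𝒜 σ)
    have hG1 : 1 ≤ G := by
      refine le_trans ?_ hG
      have : 1 ≤ (43 * L ^ 2) ^ 2 := Nat.one_le_pow _ _ (by positivity)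
      nlinarith [Nat.mul_le_mul hA this]
    have hA' : 1 ≤ G ^ I := Nat.one_le_pow _ _ hG1
    have h4Λ : 1 ≤ 4 * Λ := by omega
    have hloc : ∀ k' : ℕ, ∀ T : Finset (Fin N),
        ‖gtP U S (G ^ I * (k' + 4 * Λ)) * leP (prodOp m) T 0 * leP U S k'‖ ≤ (1 / 2 : ℝ) ^ (4 * Λ) :=
      fun k' T => prodProj_local hgood hA hL hN hG hI hU hm T S k' (4 * Λ) h4Λ
    have hgl : ∀ k' : ℕ,
        ‖gtP U S (G ^ I * (k' + 4 * Λ)) * sp (prodOp m) (gatef 𝒜) * leP U S k'‖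
          ≤ 3 ^ Λ * (1 / 2 : ℝ) ^ (4 * Λ) := by
      intro k'
      refine (norm_gates_le 𝒜 _ (hloc k')).trans ?_
      refine mul_le_mul_of_nonneg_right ?_ (by positivity)
      exact pow_le_pow_right₀ (by norm_num) (h𝒜.trans hR)
    set a₁ : ℕ := G ^ I * (k + 4 * Λ) with ha₁
    set a₂ : ℕ := A * (a₁ + 4 * Λ) with ha₂
    set a₃ : ℕ := G ^ I * (a₂ + 4 * Λ) with ha₃
    have hc := chain_three hUm S k a₁ a₂ a₃ (sp (prodOp m) (gatef 𝒜)) X'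
      (sp (prodOp m) (gatef 𝒜)) (3 ^ Λ * (1 / 2 : ℝ) ^ (4 * Λ)) ((1 / 2 : ℝ) ^ (4 * Λ))
      (3 ^ Λ * (1 / 2 : ℝ) ^ (4 * Λ)) hGn (hX'n.trans hXn) hGn (hgl k)
      (hgood U hU S R X' a₁ (4 * Λ) hX' (hX'n.trans hXn) (hR.trans (by omega)) h4Λ) (hgl a₂)
    have hale : a₃ ≤ 12 * G ^ I * G ^ I * A * (k + Λ) := by
      have q1 : a₁ + 4 * Λ ≤ G ^ I * (k + 8 * Λ) := by
        rw [ha₁]; nlinarith
      have q2 : a₂ ≤ A * (G ^ I * (k + 8 * Λ)) := by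
        rw [ha₂]; exact Nat.mul_le_mul_left _ q1
      have q3 : a₂ + 4 * Λ ≤ A * G ^ I * (k + 12 * Λ) := by
        have : 1 ≤ A * G ^ I := Nat.one_le_iff_ne_zero.mpr (by positivity)
        nlinarith
      calc a₃ = G ^ I * (a₂ + 4 * Λ) := ha₃
        _ ≤ G ^ I * (A * G ^ I * (k + 12 * Λ)) := Nat.mul_le_mul_left _ q3
        _ ≤ G ^ I * (A * G ^ I * (12 * (k + Λ))) := by
            refine Nat.mul_le_mul_left _ (Nat.mul_le_mul_left _ (by omega))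
        _ = _ := by ring
    have hassoc : gtP U S (12 * G ^ I * G ^ I * A * (k + Λ))
          * (sp (prodOp m) (gatef 𝒜) * X' * sp (prodOp m) (gatef 𝒜)) * leP U S k
        = gtP U S (12 * G ^ I * G ^ I * A * (k + Λ))
          * ((sp (prodOp m) (gatef 𝒜) * X' * sp (prodOp m) (gatef 𝒜)) * leP U S k) := by
      rw [Matrix.mul_assoc]
    rw [hassoc]
    refine (norm_gtP_mul_mono hUm S hale _).trans ?_
    rw [← Matrix.mul_assoc]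
    refine hc.trans ?_
    have hp : ∀ n : ℕ, 1 ≤ n → (2 : ℝ) * 3 ^ n + 1 ≤ 8 ^ n := by
      intro n hn
      induction n, hn using Nat.le_induction with
      | base => norm_num
      | succ n hn ih =>
        have : (0 : ℝ) < 3 ^ n := by positivity
        have : (0 : ℝ) < 8 ^ n := by positivity
        rw [pow_succ, pow_succ]
        linarith
    have h16 : (1 / 2 : ℝ) ^ (4 * Λ) = (1 / 16) ^ Λ := by
      rw [pow_mul]; norm_num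
    have h2 : (1 / 2 : ℝ) ^ Λ = 8 ^ Λ * (1 / 16) ^ Λ := by
      rw [← mul_pow]; norm_num
    rw [h16, h2]
    have := hp Λ hΛ
    have h0 : (0 : ℝ) < (1 / 16) ^ Λ := by positivity
    nlinarith

end Crest.Agent.QA
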