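import Crest.Agent.QA_Fr

/-!
# S0539, task QA-Sum: averaging over `θ`
-/

set_option autoImplicit false

namespace Crest.Agent.QA

open Matrix Crest.Quantum.Circuit
open scoped Matrix.Norms.L2Operator

variable {N : ℕ}

theorem QASum_inputString_inj {n : ℕ} (hn : n ≤ N) :
    Function.Injective (inputString (N := N) n) := by
  intro x y h
  funext i
  have h1 := congrFun h ⟨i, lt_of_lt_of_le i.2 hn⟩
  simpa [inputString] using h1

theorem QASum_sum_input {n : ℕ} (hn : n ≤ N) (F : Om N → ℂ)
    (hF : ∀ σ : Om N, (∀ x : Fin n → Bool, σ ≠ inputString n x) → F σ = 0) :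
    ∑ σ, F σ = ∑ x : Fin n → Bool, F (inputString n x) := by
  classical
  rw [← Finset.sum_image (s := Finset.univ) (g := inputString (N := N) n) (f := F)
    (fun x _ y _ h => QASum_inputString_inj hn h)]
  symm
  apply Finset.sum_subset (Finset.subset_univ _)
  intro σ _ hσ
  apply hF
  intro x hx
  exact hσ (Finset.mem_image.mpr ⟨x, Finset.mem_univ _, hx.symm⟩)

theorem QASum_prod_parity {n : ℕ} (x : Fin n → Bool) :
    (∏ i : Fin n, (if x i then (-1 : ℂ) else 1)) = if parity x then -1 else 1 := by
  classical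
  rw [Finset.prod_ite, Finset.prod_const, Finset.prod_const_one, mul_one]
  unfold parity
  generalize (Finset.univ.filter fun i => x i = true).card = k
  induction k with
  | zero => simp
  | succ k ih =>
    rw [pow_succ, ih, Nat.bodd_succ]
    cases Nat.bodd k <;> simp

theorem QASum_theta {n : ℕ} (x y : Fin n → Bool) :
    ∑ θ : Fin n → Bool, ((∏ i : Fin n, (if x i && xor (θ i) true then (-1 : ℂ) else 1)) *
      (∏ i : Fin n, (if y i && xor (θ i) false then (-1 : ℂ) else 1)))
      = if x = y then 2 ^ n * (if parity x then -1 else 1) else 0 := by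
  classical
  have h1 : ∀ θ : Fin n → Bool, ((∏ i : Fin n, (if x i && xor (θ i) true then (-1 : ℂ) else 1)) *
      (∏ i : Fin n, (if y i && xor (θ i) false then (-1 : ℂ) else 1)))
      = ∏ i : Fin n, ((if x i && xor (θ i) true then (-1 : ℂ) else 1) *
        (if y i && xor (θ i) false then (-1 : ℂ) else 1)) := by
    intro θ
    rw [Finset.prod_mul_distrib]
  simp_rw [h1]
  have h2 := Finset.prod_univ_sum (t := fun _ : Fin n => (Finset.univ : Finset Bool))
    (f := fun i b => ((if x i && xor b true then (-1 : ℂ) else 1) *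
        (if y i && xor b false then (-1 : ℂ) else 1)))
  rw [Fintype.piFinset_univ] at h2
  rw [← h2]
  by_cases hxy : x = y
  · subst hxy
    rw [if_pos rfl, ← QASum_prod_parity]
    have : (2 : ℂ) ^ n = ∏ _i : Fin n, (2 : ℂ) := by simp
    rw [this, ← Finset.prod_mul_distrib]
    apply Finset.prod_congr rfl
    intro i _
    cases x i <;> simp <;> norm_num
  · rw [if_neg hxy]
    obtain ⟨i, hi⟩ := Function.ne_iff.mp hxy
    apply Finset.prod_eq_zero (Finset.mem_univ i)
    revert hi
    cases x i <;> cases y i <;> simp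

/-- Averaging over `θ`: for any matrix `Y`,
`∑_θ (V_θ⋆ Y V_θ)(cst 1, cst 0) = ∑_x (-1)^{|x|} Y(x, x)`.
Expand the entries with `fr_apply`, `fr_apply_zero` (`inputString n` is injective for `n ≤ N`):
`(V⋆YV)(cst 1, cst 0) = 2^{-n} ∑_{x,y} (-1)^{θ·x + |x| + θ·y} Y(x,y)`, and
`∑_θ (-1)^{θ·(x+y)} = 2^n [x = y]`. -/
theorem sum_theta {n : ℕ} (hn : n ≤ N) (Y : Mat N) :
    ∑ θ : Fin n → Bool,
        (star (prodOp (fr (N := N) n θ)) * Y * prodOp (fr (N := N) n θ)) (cst n true) (cst n false)
      = ∑ x : Fin n → Bool, (if parity x then -1 else 1) * Y (inputString n x) (inputString n x) := by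
  classical
  have hs : ((((Real.sqrt 2 : ℝ) : ℂ)⁻¹) ^ n) * ((((Real.sqrt 2 : ℝ) : ℂ)⁻¹) ^ n) = ((2 : ℂ) ^ n)⁻¹ := by
    rw [← mul_pow, ← mul_inv, ← Complex.ofReal_mul, Real.mul_self_sqrt (by norm_num)]
    simp
  have hent : ∀ θ : Fin n → Bool,
      (star (prodOp (fr (N := N) n θ)) * Y * prodOp (fr (N := N) n θ)) (cst n true) (cst n false)
      = ∑ y : Fin n → Bool, ∑ x : Fin n → Bool, ((2 : ℂ) ^ n)⁻¹ *
        (((∏ i : Fin n, (if x i && xor (θ i) true then (-1 : ℂ) else 1)) *
      (∏ i : Fin n, (if y i && xor (θ i) false then (-1 : ℂ) else 1))) *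
        Y (inputString n x) (inputString n y)) := by
    intro θ
    rw [Matrix.mul_apply]
    rw [QASum_sum_input hn]
    · apply Finset.sum_congr rfl
      intro y _
      rw [Matrix.mul_apply, QASum_sum_input hn, Finset.sum_mul]
      · apply Finset.sum_congr rfl
        intro x _
        rw [fr_apply hn]
        rw [Matrix.star_apply, fr_apply hn]
        rw [← hs]
        have hr : ∀ (z : Fin n → Bool) (c : Bool),
            star ((∏ i : Fin n, (if z i && xor (θ i) c then (-1 : ℂ) else 1)) *
              (((Real.sqrt 2 : ℝ) : ℂ)⁻¹) ^ n) =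
              ((∏ i : Fin n, (if z i && xor (θ i) c then (-1 : ℂ) else 1)) *
              (((Real.sqrt 2 : ℝ) : ℂ)⁻¹) ^ n) := by
          intro z c
          rw [star_mul', star_pow]
          congr 1
          · simp only [Complex.star_def, map_prod]
            apply Finset.prod_congr rfl
            intro i _
            split_ifs <;> simp
          · simp
        rw [hr]
        ring
      · intro σ hσ
        rw [Matrix.star_apply, fr_apply_zero θ _ σ hσ]
        simp
    · intro σ hσ
      rw [fr_apply_zero θ _ σ hσ, mul_zero]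
  simp_rw [hent]
  rw [Finset.sum_comm]
  apply Finset.sum_congr rfl
  intro y _
  rw [Finset.sum_comm]
  have h3 : ∀ x : Fin n → Bool, ∑ θ : Fin n → Bool, ((2 : ℂ) ^ n)⁻¹ *
        (((∏ i : Fin n, (if x i && xor (θ i) true then (-1 : ℂ) else 1)) *
      (∏ i : Fin n, (if y i && xor (θ i) false then (-1 : ℂ) else 1))) *
        Y (inputString n x) (inputString n y))
      = if x = y then (if parity x then -1 else 1) * Y (inputString n x) (inputString n y) else 0 := by
    intro x
    rw [← Finset.mul_sum, ← Finset.sum_mul, QASum_theta]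
    split_ifs with h1 h2
    · have : (2 : ℂ) ^ n ≠ 0 := pow_ne_zero _ two_ne_zero
      field_simp
    · have : (2 : ℂ) ^ n ≠ 0 := pow_ne_zero _ two_ne_zero
      field_simp
    · simp
  simp_rw [h3]
  simp

end Crest.Agent.QA
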