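import Crest.Agent.QA_API

/-!
# S0539, task QA-Tensor: product operators

All statements are about the matrix `prodOp v σ τ = ∏ i, v i (σ i) (τ i)`. The multiplication rule is
`∑ τ, ∏ i, v i (σ i) (τ i) * w i (τ i) (ρ i) = ∏ i, ∑ b, v i (σ i) b * w i b (ρ i)`
(`Finset.prod_univ_sum` with `Fintype.piFinset_univ`, or `Fintype.sum_prod...`).
`oneQ j u = prodOp (Function.update (fun _ => 1) j u)` so everything about `oneQ` follows from
`prodOp_mul` and case distinctions `i = j`.
-/

set_option autoImplicit false

namespace Crest.Agent.QA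

open Matrix
open scoped Matrix.Norms.L2Operator

variable {N : ℕ}

theorem prodOp_mul (v w : Fin N → Matrix Bool Bool ℂ) :
    prodOp v * prodOp w = prodOp (fun i => v i * w i) := by
  ext σ ρ
  simp only [prodOp, Matrix.mul_apply, Matrix.of_apply]
  rw [Finset.prod_univ_sum, Fintype.piFinset_univ]
  exact Finset.sum_congr rfl fun τ _ => Finset.prod_mul_distrib.symm

theorem prodOp_one : prodOp (fun _ => 1) = (1 : Mat N) := by
  ext σ τ
  simp only [prodOp, Matrix.of_apply, Matrix.one_apply]
  rw [Finset.prod_ite_zero]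
  simp only [Finset.mem_univ, true_implies, Finset.prod_const_one, funext_iff]

theorem star_prodOp (v : Fin N → Matrix Bool Bool ℂ) :
    star (prodOp v) = prodOp (fun i => star (v i)) := by
  ext σ τ
  simp only [prodOp, Matrix.star_apply, Matrix.of_apply]
  exact map_prod (starRingEnd ℂ) _ _

theorem UV_one : UV (fun _ : Fin N => (1 : Matrix Bool Bool ℂ)) := fun _ => one_mem _

theorem UV_mul {v w : Fin N → Matrix Bool Bool ℂ} (hv : UV v) (hw : UV w) :
    UV (fun i => v i * w i) := fun i => mul_mem (hv i) (hw i)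

theorem UV_star {v : Fin N → Matrix Bool Bool ℂ} (hv : UV v) : UV (fun i => star (v i)) :=
  fun i => Unitary.star_mem (hv i)

theorem prodOp_mem {v : Fin N → Matrix Bool Bool ℂ} (hv : UV v) :
    prodOp v ∈ unitary (Mat N) := by
  rw [Unitary.mem_iff, star_prodOp, prodOp_mul, prodOp_mul]
  constructor
  · rw [← prodOp_one]
    congr 1
    funext i
    exact Unitary.star_mul_self_of_mem (hv i)
  · rw [← prodOp_one]
    congr 1
    funext i
    exact Unitary.mul_star_self_of_mem (hv i)

/-- Entries of `oneQ`. -/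
theorem oneQ_apply (j : Fin N) (u : Matrix Bool Bool ℂ) (σ τ : Om N) :
    oneQ j u σ τ = if ∀ i, i ≠ j → σ i = τ i then u (σ j) (τ j) else 0 := by
  simp only [oneQ, prodOp, Matrix.of_apply]
  rw [← Finset.mul_prod_erase Finset.univ _ (Finset.mem_univ j), Function.update_self]
  have h : ∏ i ∈ Finset.univ.erase j,
      (Function.update (fun _ => (1 : Matrix Bool Bool ℂ)) j u) i (σ i) (τ i) =
      if ∀ i, i ≠ j → σ i = τ i then 1 else 0 := by
    have h1 : ∏ i ∈ Finset.univ.erase j,
        (Function.update (fun _ => (1 : Matrix Bool Bool ℂ)) j u) i (σ i) (τ i) =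
        ∏ i ∈ Finset.univ.erase j, if σ i = τ i then (1 : ℂ) else 0 := by
      refine Finset.prod_congr rfl fun i hi => ?_
      rw [Function.update_of_ne (Finset.ne_of_mem_erase hi), Matrix.one_apply]
    rw [h1, Finset.prod_ite_zero]
    simp only [Finset.mem_erase, Finset.mem_univ, and_true, Finset.prod_const_one]
  rw [h]
  split_ifs <;> simp

theorem oneQ_one (j : Fin N) : oneQ j 1 = 1 := by
  unfold oneQ
  rw [Function.update_eq_self_iff.2 rfl, prodOp_one]

theorem oneQ_mul (j : Fin N) (u w : Matrix Bool Bool ℂ) :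
    oneQ j u * oneQ j w = oneQ j (u * w) := by
  unfold oneQ
  rw [prodOp_mul]
  congr 1
  funext i
  by_cases h : i = j
  · subst h; simp
  · simp [Function.update_of_ne h]

theorem star_oneQ (j : Fin N) (u : Matrix Bool Bool ℂ) : star (oneQ j u) = oneQ j (star u) := by
  unfold oneQ
  rw [star_prodOp]
  congr 1
  funext i
  by_cases h : i = j
  · subst h; simp
  · simp [Function.update_of_ne h]

theorem oneQ_comm {i j : Fin N} (h : i ≠ j) (u w : Matrix Bool Bool ℂ) :
    oneQ i u * oneQ j w = oneQ j w * oneQ i u := by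
  unfold oneQ
  rw [prodOp_mul, prodOp_mul]
  congr 1
  funext l
  by_cases h1 : l = i
  · subst h1; simp [Function.update_of_ne h]
  · simp [Function.update_of_ne h1]

/-- If `v j = 1` then `prodOp v` commutes with all operators on wire `j`. -/
theorem prodOp_comm_oneQ (v : Fin N → Matrix Bool Bool ℂ) (j : Fin N) (hv : v j = 1)
    (u : Matrix Bool Bool ℂ) : prodOp v * oneQ j u = oneQ j u * prodOp v := by
  unfold oneQ
  rw [prodOp_mul, prodOp_mul]
  congr 1
  funext l
  by_cases h1 : l = j
  · subst h1; simp [hv]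
  · simp [Function.update_of_ne h1]

/-- `prodOp v * oneQ j u = oneQ j (v j * u * star (v j)) * prodOp v` for unitary `v`. -/
theorem prodOp_mul_oneQ {v : Fin N → Matrix Bool Bool ℂ} (hv : UV v) (j : Fin N)
    (u : Matrix Bool Bool ℂ) :
    prodOp v * oneQ j u = oneQ j (v j * u * star (v j)) * prodOp v := by
  unfold oneQ
  rw [prodOp_mul, prodOp_mul]
  congr 1
  funext l
  by_cases h1 : l = j
  · subst h1
    simp only [Function.update_self]
    rw [mul_assoc (v l * u), Unitary.star_mul_self_of_mem (hv l), mul_one]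
  · simp [Function.update_of_ne h1]

/-- `oneQ j u * prodOp v = prodOp v * oneQ j (star (v j) * u * v j)` for unitary `v`. -/
theorem oneQ_mul_prodOp {v : Fin N → Matrix Bool Bool ℂ} (hv : UV v) (j : Fin N)
    (u : Matrix Bool Bool ℂ) :
    oneQ j u * prodOp v = prodOp v * oneQ j (star (v j) * u * v j) := by
  unfold oneQ
  rw [prodOp_mul, prodOp_mul]
  congr 1
  funext l
  by_cases h1 : l = j
  · subst h1
    simp only [Function.update_self]
    rw [← mul_assoc, ← mul_assoc, Unitary.mul_star_self_of_mem (hv l), one_mul]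
  · simp [Function.update_of_ne h1]

end Crest.Agent.QA
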