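import Crest.Agent.QA_Tensor

/-!
# S0539, task QA-TrG: the matrices of the gates of `Def_QCircuit`
-/

set_option autoImplicit false

namespace Crest.Agent.QA

open Matrix Crest.Quantum.Circuit
open scoped Matrix.Norms.L2Operator

variable {N : ℕ}

/-- A one-qubit gate is `oneQ`. (`oneQ_apply`; the sum over `τ` reduces to the two strings
`Function.update σ i b`.) -/
theorem apply_oneQubit (i : Fin N) (u : Matrix Bool Bool ℂ) (ψ : QState N) :
    (Gate.oneQubit i u).apply ψ = oneQ i u *ᵥ ψ := by
  funext σ
  change ∑ b : Bool, u (σ i) b * ψ (Function.update σ i b) = ∑ τ, oneQ i u σ τ * ψ τ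
  rw [← Finset.sum_subset (Finset.subset_univ (Finset.univ.image (Function.update σ i)))]
  · rw [Finset.sum_image (fun a _ b _ h => Function.update_injective σ i h)]
    apply Finset.sum_congr rfl
    intro b _
    rw [oneQ_apply, if_pos]
    · simp
    · intro j hj
      rw [Function.update_of_ne hj]
  · intro τ _ hτ
    rw [oneQ_apply, if_neg, zero_mul]
    intro h
    apply hτ
    rw [Finset.mem_image]
    refine ⟨τ i, Finset.mem_univ _, ?_⟩
    funext j
    by_cases hj : j = i
    · subst hj; simp
    · rw [Function.update_of_ne hj, h j hj]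

/-- The bit flip. -/
def Xm : Matrix Bool Bool ℂ := Matrix.of fun b b' => if b = b' then 0 else 1

/-- The unitary with columns `|-⟩` (at `false`) and `|+⟩` (at `true`). -/
noncomputable def Hm : Matrix Bool Bool ℂ :=
  Matrix.of fun b b' => if b = true ∧ b' = false then -((Real.sqrt 2 : ℝ) : ℂ)⁻¹
    else ((Real.sqrt 2 : ℝ) : ℂ)⁻¹

theorem Xm_mem : Xm ∈ unitary (Matrix Bool Bool ℂ) := by
  rw [Unitary.mem_iff]
  constructor
  · ext a b
    cases a <;> cases b <;>
      simp [Xm, Matrix.mul_apply, Matrix.star_apply, Matrix.one_apply]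
  · ext a b
    cases a <;> cases b <;>
      simp [Xm, Matrix.mul_apply, Matrix.star_apply, Matrix.one_apply]

private theorem QATG_sqrt2 : ((Real.sqrt 2 : ℝ) : ℂ)⁻¹ * ((Real.sqrt 2 : ℝ) : ℂ)⁻¹ = 1 / 2 := by
  rw [← mul_inv, ← Complex.ofReal_mul, Real.mul_self_sqrt (by norm_num)]
  norm_num

theorem Hm_mem : Hm ∈ unitary (Matrix Bool Bool ℂ) := by
  have h := QATG_sqrt2
  rw [Unitary.mem_iff]
  constructor
  · ext a b
    cases a <;> cases b <;>
      simp only [Hm, Matrix.mul_apply, Matrix.star_apply, Matrix.one_apply, Matrix.of_apply,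
        Fintype.sum_bool] <;>
      simp [h] <;> norm_num
  · ext a b
    cases a <;> cases b <;>
      simp only [Hm, Matrix.mul_apply, Matrix.star_apply, Matrix.one_apply, Matrix.of_apply,
        Fintype.sum_bool] <;>
      simp [h] <;> norm_num

/-- The local projection. -/
private def QATG_D : Matrix Bool Bool ℂ := Matrix.of fun b b' => if b = false ∧ b' = false then 1 else 0

/-- Sum over strings agreeing off `t`. -/
private theorem QATG_sum (P : Mat N) (t : Fin N) (ψ : QState N) (σ : Om N)
    (hP : ∀ τ, (∃ i, i ≠ t ∧ σ i ≠ τ i) → P σ τ = 0) :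
    (P *ᵥ ψ) σ = ∑ b : Bool, P σ (Function.update σ t b) * ψ (Function.update σ t b) := by
  change ∑ τ, P σ τ * ψ τ = _
  rw [← Finset.sum_subset (Finset.subset_univ (Finset.univ.image (Function.update σ t)))]
  · rw [Finset.sum_image (fun a _ b _ h => Function.update_injective σ t h)]
  · intro τ _ hτ
    rw [hP, zero_mul]
    by_contra h
    push Not at h
    apply hτ
    rw [Finset.mem_image]
    refine ⟨τ t, Finset.mem_univ _, ?_⟩
    funext j
    by_cases hj : j = t
    · subst hj; simp
    · rw [Function.update_of_ne hj, h j hj]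

private theorem QATG_diag (g : Finset (Fin N)) :
    (Matrix.diagonal fun σ : Om N => if wt g σ = 0 then (1 : ℂ) else 0)
      = prodOp (fun i => if i ∈ g then QATG_D else 1) := by
  ext σ τ
  change _ = ∏ i, (if i ∈ g then QATG_D else 1 : Matrix Bool Bool ℂ) (σ i) (τ i)
  rw [Matrix.diagonal_apply]
  by_cases h : σ = τ
  · subst h
    rw [if_pos rfl]
    by_cases h0 : wt g σ = 0
    · rw [if_pos h0]
      symm
      apply Finset.prod_eq_one
      intro i _
      have h1 : ∀ i ∈ g, σ i = false := by
        intro i hi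
        unfold wt at h0
        rw [Finset.card_eq_zero, Finset.filter_eq_empty_iff] at h0
        simpa using h0 hi
      by_cases hi : i ∈ g
      · rw [if_pos hi, h1 i hi]
        simp [QATG_D]
      · rw [if_neg hi]
        simp
    · rw [if_neg h0]
      symm
      have h1 : ∃ i ∈ g, σ i = true := by
        unfold wt at h0
        by_contra hc
        push Not at hc
        apply h0
        rw [Finset.card_eq_zero, Finset.filter_eq_empty_iff]
        exact fun i hi => hc i hi
      obtain ⟨i, hi, hσ⟩ := h1
      apply Finset.prod_eq_zero (Finset.mem_univ i)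
      rw [if_pos hi, hσ]
      simp [QATG_D]
  · rw [if_neg h]
    symm
    have h1 : ∃ i, σ i ≠ τ i := by
      by_contra hc
      push Not at hc
      exact h (funext hc)
    obtain ⟨i, hi⟩ := h1
    apply Finset.prod_eq_zero (Finset.mem_univ i)
    by_cases hg : i ∈ g
    · rw [if_pos hg]
      unfold QATG_D
      rw [Matrix.of_apply, if_neg]
      rintro ⟨h1, h2⟩
      exact hi (h1.trans h2.symm)
    · rw [if_neg hg, Matrix.one_apply_ne hi]

private theorem QATG_XD : Xm * QATG_D * star Xm
    = Matrix.of fun b b' => if b = true ∧ b' = true then 1 else 0 := by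
  ext a b
  cases a <;> cases b <;>
    simp [Xm, QATG_D, Matrix.mul_apply, Matrix.star_apply]

private theorem QATG_HD : Hm * QATG_D * star Hm
    = Matrix.of fun b b' => if b = b' then 1 / 2 else - (1 / 2) := by
  have h := QATG_sqrt2
  ext a b
  cases a <;> cases b <;>
    simp only [Hm, QATG_D, Matrix.mul_apply, Matrix.star_apply, Matrix.of_apply,
        Fintype.sum_bool] <;>
    simp [h] <;> norm_num

/-- The frame of a Toffoli gate with controls `S` and target `t`. -/
noncomputable def mT (S : Finset (Fin N)) (t : Fin N) : Fin N → Matrix Bool Bool ℂ :=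
  fun i => if i = t then Hm else if i ∈ S then Xm else 1

/-- A Toffoli gate is `sp (prodOp m) (gatef {insert t S})`, i.e. `1 - 2 P` with `P` the rank-one
projection (times the identity on the other wires) on `|1..1⟩_S ⊗ |-⟩_t`. Suggested proof:
`gatef {g} = 1 - 2·1[wt g σ = 0]`, and `sp (prodOp m) (1[wt g σ = 0])
= prodOp (fun i => if i ∈ g then m i * diag(1,0) * star (m i) else 1)` with
`Xm * diag(1,0) * star Xm = diag(0,1)` and `Hm * diag(1,0) * star Hm = (1/2) [[1,-1],[-1,1]]`
(the diagonal matrix `1[wt g σ = 0]` is itself a `prodOp`; use `prodOp_mul`, `star_prodOp`). -/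
theorem apply_toffoli (S : Finset (Fin N)) (t : Fin N) (ht : t ∉ S) (ψ : QState N) :
    (Gate.toffoli S t).apply ψ = sp (prodOp (mT S t)) (gatef {insert t S}) *ᵥ ψ := by
  have hmT : UV (mT S t) := by
    intro i
    unfold mT
    split_ifs
    · exact Hm_mem
    · exact Xm_mem
    · exact one_mem _
  have hU : prodOp (mT S t) ∈ unitary (Mat N) := prodOp_mem hmT
  set P : Mat N := sp (prodOp (mT S t)) (fun σ => if wt (insert t S) σ = 0 then 1 else 0) with hPdef
  have hP : P = prodOp (fun i => mT S t i * (if i ∈ insert t S then QATG_D else 1)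
      * star (mT S t i)) := by
    rw [hPdef]
    unfold sp
    rw [QATG_diag, prodOp_mul, star_prodOp, prodOp_mul]
  have hsp : sp (prodOp (mT S t)) (gatef {insert t S}) = 1 - (2 : ℂ) • P := by
    rw [hPdef, sp_smul, ← sp_one hU, sp_sub]
    apply sp_congr
    intro σ
    unfold gatef
    rw [Finset.prod_singleton]
    split_ifs <;> norm_num
  have hloc : ∀ i, i ≠ t → mT S t i * (if i ∈ insert t S then QATG_D else 1)
      * star (mT S t i) = if i ∈ S then (Matrix.of fun b b' => if b = true ∧ b' = true then 1 else 0)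
        else 1 := by
    intro i hi
    by_cases hS : i ∈ S
    · rw [if_pos (Finset.mem_insert_of_mem hS), if_pos hS]
      unfold mT
      rw [if_neg hi, if_pos hS]
      exact QATG_XD
    · rw [if_neg (by rw [Finset.mem_insert]; push Not; exact ⟨hi, hS⟩), if_neg hS]
      unfold mT
      rw [if_neg hi, if_neg hS]
      simp
  have hloct : mT S t t * (if t ∈ insert t S then QATG_D else 1)
      * star (mT S t t) = Matrix.of fun b b' => if b = b' then 1 / 2 else - (1 / 2) := by
    rw [if_pos (Finset.mem_insert_self _ _)]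
    unfold mT
    rw [if_pos rfl]
    exact QATG_HD
  have hentry : ∀ σ τ : Om N, P σ τ = ∏ i, (mT S t i * (if i ∈ insert t S then QATG_D else 1)
      * star (mT S t i)) (σ i) (τ i) := by
    intro σ τ
    rw [hP]
    rfl
  have hzero : ∀ σ τ : Om N, (∃ i, i ≠ t ∧ σ i ≠ τ i) → P σ τ = 0 := by
    rintro σ τ ⟨i, hi, hστ⟩
    rw [hentry]
    apply Finset.prod_eq_zero (Finset.mem_univ i)
    rw [hloc i hi]
    by_cases hS : i ∈ S
    · rw [if_pos hS, Matrix.of_apply, if_neg]
      rintro ⟨h1, h2⟩
      exact hστ (h1.trans h2.symm)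
    · rw [if_neg hS, Matrix.one_apply_ne hστ]
  have hval : ∀ (σ : Om N) (b : Bool), P σ (Function.update σ t b)
      = (if σ t = b then 1 / 2 else - (1 / 2)) * (if ∀ i ∈ S, σ i = true then 1 else 0) := by
    intro σ b
    rw [hentry, ← Finset.mul_prod_erase _ _ (Finset.mem_univ t), hloct]
    congr 1
    · rw [Matrix.of_apply, Function.update_self]
    · by_cases hc : ∀ i ∈ S, σ i = true
      · rw [if_pos hc]
        apply Finset.prod_eq_one
        intro i hi
        have hit : i ≠ t := Finset.ne_of_mem_erase hi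
        rw [hloc i hit, Function.update_of_ne hit]
        by_cases hS : i ∈ S
        · rw [if_pos hS, hc i hS]; simp
        · rw [if_neg hS]; simp
      · rw [if_neg hc]
        push Not at hc
        obtain ⟨i, hiS, hσ⟩ := hc
        have hit : i ≠ t := fun h => ht (h ▸ hiS)
        apply Finset.prod_eq_zero (Finset.mem_erase.mpr ⟨hit, Finset.mem_univ i⟩)
        rw [hloc i hit, Function.update_of_ne hit, if_pos hiS, Matrix.of_apply, if_neg]
        rintro ⟨h1, -⟩
        exact hσ h1
  funext σ
  rw [hsp, Matrix.sub_mulVec, Matrix.one_mulVec, Matrix.smul_mulVec, Pi.sub_apply, Pi.smul_apply,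
    QATG_sum P t ψ σ (hzero σ)]
  change ψ (Function.update σ t (xor (σ t) (decide (∀ i ∈ S, σ i = true)))) = _
  rw [Fintype.sum_bool, hval, hval]
  have hupd : ψ σ = ψ (Function.update σ t (σ t)) := by rw [Function.update_eq_self]
  by_cases hc : ∀ i ∈ S, σ i = true
  · rw [if_pos hc, decide_eq_true hc]
    rw [hupd]
    generalize Function.update σ t = F
    cases h : σ t <;> simp <;> ring
  · rw [if_neg hc, decide_eq_false hc]
    rw [hupd]
    simp

end Crest.Agent.QA
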