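import Crest.Agent.QA_TrG
import Crest.Agent.QA_Circ

/-!
# S0539, task QA-TrL: the matrix of a layer of `Def_QCircuit`
-/

set_option autoImplicit false

namespace Crest.Agent.QA

open Matrix Crest.Quantum.Circuit
open scoped Matrix.Norms.L2Operator

variable {N : ℕ}

/-- The set of wires touched by a list of gates. -/
def suppL (L : List (Gate N)) : Set (Fin N) := {i | ∃ g ∈ L, i ∈ g.support}

private theorem TrL_gatef_congr (𝒢 : Finset (Finset (Fin N))) {σ τ : Om N}
    (h : ∀ g ∈ 𝒢, ∀ i ∈ g, σ i = τ i) : gatef 𝒢 σ = gatef 𝒢 τ := by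
  unfold gatef
  refine Finset.prod_congr rfl fun g hg => ?_
  have : wt g σ = wt g τ := by
    unfold wt
    congr 1
    refine Finset.filter_congr fun i hi => ?_
    rw [h g hg i hi]
  rw [this]

private theorem TrL_Loc_prodOp (R : Finset (Fin N)) (v : Fin N → Matrix Bool Bool ℂ)
    (hv : ∀ j, j ∉ R → v j = 1) : Loc R (prodOp v) :=
  fun j hj u => prodOp_comm_oneQ v j (hv j hj) u

private theorem TrL_sp_comm {A B : Mat N} (hB : B ∈ unitary (Mat N)) (f : Om N → ℂ)
    (h : B * diagonal f = diagonal f * B) : sp (A * B) f = sp A f := by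
  unfold sp
  rw [star_mul]
  calc A * B * diagonal f * (star B * star A)
      = A * (B * diagonal f) * star B * star A := by simp only [Matrix.mul_assoc]
    _ = A * diagonal f * (B * star B) * star A := by rw [h]; simp only [Matrix.mul_assoc]
    _ = _ := by rw [mul_star_u hB, Matrix.mul_one]

/-- A layer of gates is a `layer`. Induction on the list. `applyLayer (g :: L) ψ = applyLayer L
(g.apply ψ)`, so the matrix is `layer v m 𝒢 * (matrix of g)`.
* `g = oneQubit i u`: `oneQ i u` commutes with `sp (prodOp m) (gatef 𝒢)` because `i` is not in the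
  support of `L` (`m i = 1`, `gatef 𝒢` does not depend on bit `i`; e.g. `Loc_oneQ` and
  `Loc_comm_sp`), and `prodOp v * oneQ i u = prodOp (update v i u)`.
* `g = toffoli S t`: `prodOp m * prodOp (mT S t) = prodOp (fun i => m i * mT S t i)`; since the
  supports are disjoint, `sp (prodOp m) (gatef 𝒢) = sp (prodOp (m * mT)) (gatef 𝒢)` (`prodOp mT`
  commutes with `diagonal (gatef 𝒢)`) and `sp (prodOp mT) (gatef {g}) = sp (prodOp (m * mT)) (gatef {g})`
  (`prodOp m` commutes with `prodOp mT` and with `diagonal (gatef {g})`). Then `sp_mul` and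
  `gatef (insert g 𝒢) = gatef 𝒢 * gatef {g}` (`g ∉ 𝒢`, since `g` is nonempty and disjoint from
  the members of `𝒢`). -/
theorem applyLayer_eq (L : List (Gate N)) (hL : LayerWF L) :
    ∃ (v m : Fin N → Matrix Bool Bool ℂ) (𝒢 : Finset (Finset (Fin N))), UV v ∧ UV m ∧
      (𝒢 : Set (Finset (Fin N))).PairwiseDisjoint id ∧
      (∀ g ∈ 𝒢, ∀ i ∈ g, i ∈ suppL L) ∧ (∀ g ∈ 𝒢, g.Nonempty) ∧
      (∀ i, i ∉ suppL L → v i = 1 ∧ m i = 1) ∧
      ∀ ψ : QState N, applyLayer L ψ = layer v m 𝒢 *ᵥ ψ := by
  classical
  induction L with
  | nil =>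
    refine ⟨fun _ => 1, fun _ => 1, ∅, UV_one, UV_one, by simp, by simp, by simp,
      fun _ _ => ⟨rfl, rfl⟩, fun ψ => ?_⟩
    have h1 : gatef (∅ : Finset (Finset (Fin N))) = fun _ => 1 := by
      funext σ
      simp [gatef]
    unfold layer
    rw [h1, prodOp_one, sp_one (one_mem _), Matrix.mul_one, Matrix.one_mulVec]
    rfl
  | cons g L ih =>
    obtain ⟨hwf, hpw⟩ := hL
    rw [List.pairwise_cons] at hpw
    obtain ⟨hdis, hpw'⟩ := hpw
    obtain ⟨v, m, 𝒢, hv, hm, hG, hGs, hGn, h1, happ⟩ :=
      ih ⟨fun h hh => hwf h (List.mem_cons_of_mem _ hh), hpw'⟩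
    have hnot : ∀ i ∈ g.support, i ∉ suppL L := by
      rintro i hi ⟨h, hh, hih⟩
      exact (Finset.disjoint_left.mp (hdis h hh)) hi hih
    have hsub : ∀ i, i ∉ suppL (g :: L) → i ∉ g.support ∧ i ∉ suppL L := by
      intro i hi
      refine ⟨fun h => hi ⟨g, List.mem_cons_self, h⟩, ?_⟩
      rintro ⟨h, hh, hih⟩
      exact hi ⟨h, List.mem_cons_of_mem _ hh, hih⟩
    have hsub2 : ∀ i, i ∈ suppL L → i ∈ suppL (g :: L) := by
      rintro i ⟨h, hh, hih⟩
      exact ⟨h, List.mem_cons_of_mem _ hh, hih⟩
    have hstep : ∀ ψ : QState N, applyLayer (g :: L) ψ = layer v m 𝒢 *ᵥ (g.apply ψ) := by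
      intro ψ
      rw [← happ]
      rfl
    cases g with
    | oneQubit i u =>
      have hu : u ∈ unitary (Matrix Bool Bool ℂ) := hwf _ List.mem_cons_self
      have hi : i ∉ suppL L := hnot i (by simp [Gate.support])
      refine ⟨fun k => v k * Function.update (fun _ => (1 : Matrix Bool Bool ℂ)) i u k, m, 𝒢, ?_, hm, hG,
        fun g hg k hk => hsub2 k (hGs g hg k hk), hGn, ?_, ?_⟩
      · intro k
        refine mul_mem (hv k) ?_
        by_cases hk : k = i
        · subst hk
          simpa using hu
        · rw [Function.update_of_ne hk]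
          exact one_mem _
      · intro k hk
        obtain ⟨h2, h3⟩ := hsub k hk
        have hki : k ≠ i := by
          intro h
          apply h2
          simp [Gate.support, h]
        refine ⟨?_, (h1 k h3).2⟩
        change v k * Function.update (fun _ => (1 : Matrix Bool Bool ℂ)) i u k = 1
        rw [Function.update_of_ne hki, (h1 k h3).1, mul_one]
      · intro ψ
        rw [hstep, apply_oneQubit, Matrix.mulVec_mulVec]
        congr 1
        unfold layer
        have hcomm : oneQ i u * sp (prodOp m) (gatef 𝒢) = sp (prodOp m) (gatef 𝒢) * oneQ i u := by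
          refine Loc_comm_sp (Loc_oneQ i u) hm (gatef 𝒢) ?_
          intro σ τ h
          refine TrL_gatef_congr 𝒢 fun g hg k hk => h k ?_
          intro hk2
          rw [Finset.mem_singleton] at hk2
          exact hi (hk2 ▸ hGs g hg k hk)
        rw [Matrix.mul_assoc, ← hcomm, ← Matrix.mul_assoc]
        congr 1
        unfold oneQ
        rw [prodOp_mul]
    | toffoli S t =>
      have ht : t ∉ S := hwf _ List.mem_cons_self
      set G : Finset (Fin N) := insert t S with hGdef
      have hsup : (Gate.toffoli S t : Gate N).support = G := rfl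
      rw [hsup] at hnot
      have hmT : UV (mT S t) := by
        intro k
        unfold mT
        split_ifs
        · exact Hm_mem
        · exact Xm_mem
        · exact one_mem _
      have hmT1 : ∀ k, k ∉ G → mT S t k = 1 := by
        intro k hk
        have hk1 : k ≠ t := fun h => hk (by rw [hGdef, h]; exact Finset.mem_insert_self _ _)
        have hk2 : k ∉ S := fun h => hk (by rw [hGdef]; exact Finset.mem_insert_of_mem h)
        unfold mT
        rw [if_neg hk1, if_neg hk2]
      have hGnot : G ∉ 𝒢 := by
        intro h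
        exact hnot t (by rw [hGdef]; exact Finset.mem_insert_self _ _)
          (hGs G h t (by rw [hGdef]; exact Finset.mem_insert_self _ _))
      have hdisj : ∀ h ∈ 𝒢, Disjoint G h := by
        intro h hh
        rw [Finset.disjoint_left]
        intro k hk hk2
        exact hnot k hk (hGs h hh k hk2)
      refine ⟨v, fun k => m k * mT S t k, insert G 𝒢, hv, UV_mul hm hmT, ?_, ?_, ?_, ?_, ?_⟩
      · rw [Finset.coe_insert]
        refine Set.PairwiseDisjoint.insert hG fun h hh _ => ?_
        exact hdisj h hh
      · intro h hh k hk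
        rcases Finset.mem_insert.mp hh with rfl | hh
        · exact ⟨_, List.mem_cons_self, by rw [hsup]; exact hk⟩
        · exact hsub2 k (hGs h hh k hk)
      · intro h hh
        rcases Finset.mem_insert.mp hh with rfl | hh
        · exact ⟨t, by rw [hGdef]; exact Finset.mem_insert_self _ _⟩
        · exact hGn h hh
      · intro k hk
        obtain ⟨h2, h3⟩ := hsub k hk
        rw [hsup] at h2
        refine ⟨(h1 k h3).1, ?_⟩
        change m k * mT S t k = 1
        rw [(h1 k h3).2, hmT1 k h2, mul_one]
      · intro ψ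
        rw [hstep, apply_toffoli S t ht, Matrix.mulVec_mulVec]
        congr 1
        unfold layer
        rw [Matrix.mul_assoc]
        congr 1
        have e1 : sp (prodOp (fun k => m k * mT S t k)) (gatef 𝒢) = sp (prodOp m) (gatef 𝒢) := by
          rw [← prodOp_mul]
          refine TrL_sp_comm (prodOp_mem hmT) _ ?_
          refine Loc_comm_diag (TrL_Loc_prodOp G (mT S t) hmT1) _ ?_
          intro σ τ h
          refine TrL_gatef_congr 𝒢 fun g hg k hk => h k ?_
          intro hk2
          exact hnot k hk2 (hGs g hg k hk)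
        have e2 : sp (prodOp (fun k => m k * mT S t k)) (gatef {G}) =
            sp (prodOp (mT S t)) (gatef {G}) := by
          have hc : (fun k => m k * mT S t k) = fun k => mT S t k * m k := by
            funext k
            by_cases hk : k ∈ G
            · rw [(h1 k (hnot k hk)).2, one_mul, mul_one]
            · rw [hmT1 k hk, one_mul, mul_one]
          rw [hc, ← prodOp_mul]
          refine TrL_sp_comm (prodOp_mem hm) _ ?_
          refine Loc_comm_diag (TrL_Loc_prodOp Gᶜ m ?_) _ ?_
          · intro k hk
            rw [Finset.mem_compl, not_not] at hk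
            exact (h1 k (hnot k hk)).2
          · intro σ τ h
            refine TrL_gatef_congr {G} fun g hg k hk => h k ?_
            rw [Finset.mem_singleton] at hg
            subst hg
            rw [Finset.mem_compl, not_not]
            exact hk
        rw [← e1, ← e2, sp_mul (prodOp_mem (UV_mul hm hmT))]
        refine sp_congr _ fun σ => ?_
        unfold gatef
        rw [Finset.prod_insert hGnot, Finset.prod_singleton, mul_comm]

end Crest.Agent.QA
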