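import Crest.Agent.QA_TrL

/-!
# S0539, task QA-Trans: from the circuits of `Def_QCircuit` to `Circ`
-/

set_option autoImplicit false

namespace Crest.Agent.QA

open Matrix Crest.Quantum.Circuit
open scoped Matrix.Norms.L2Operator

variable {N : ℕ}

/-- A well-formed circuit is an element of `Circ`. Induction on the circuit (from the right:
`List.reverseRecOn` / `List.foldl_append`, last layer multiplied on the left; or from the left with
`Circ_mul_layer`). -/
theorem circ_of_circuit (C : List (List (Gate N))) (hC : CircuitWF C) :
    ∃ U : Mat N, Circ C.length U ∧ ∀ ψ : QState N, runCircuit C ψ = U *ᵥ ψ := by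
  induction C using List.reverseRecOn with
  | nil =>
    refine ⟨prodOp (fun _ => 1), Circ.base _ (fun i => one_mem _), fun ψ => ?_⟩
    have h1 : prodOp (fun _ : Fin N => (1 : Matrix Bool Bool ℂ)) = (1 : Mat N) := by
      ext σ τ
      simp only [prodOp, Matrix.of_apply, Matrix.one_apply]
      by_cases h : σ = τ
      · subst h
        simp
      · rw [if_neg h]
        obtain ⟨i, hi⟩ := Function.ne_iff.1 h
        exact Finset.prod_eq_zero (Finset.mem_univ i) (if_neg hi)
    rw [h1, Matrix.one_mulVec]
    rfl
  | append_singleton C L ih =>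
    obtain ⟨U, hU, hψ⟩ := ih (fun L' hL' => hC L' (List.mem_append_left _ hL'))
    obtain ⟨v, m, 𝒢, hv, hm, hG, -, -, -, hL⟩ :=
      applyLayer_eq L (hC L (List.mem_append_right _ (List.mem_singleton_self L)))
    refine ⟨layer v m 𝒢 * U, ?_, fun ψ => ?_⟩
    · rw [List.length_append, List.length_singleton]
      exact Circ.step _ U v m 𝒢 hU hv hm hG
    · have : runCircuit (C ++ [L]) ψ = applyLayer L (runCircuit C ψ) := by
        simp only [runCircuit, List.foldl_append, List.foldl_cons, List.foldl_nil]
      rw [this, hψ, hL, Matrix.mulVec_mulVec]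

end Crest.Agent.QA
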