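import Crest.Agent.QT_Quot

/-!
Task QT-Lift (easy/medium).  `NoShrink` for the quotient from the corresponding statement in `B` modulo
`idealGen z`.
Suppose `Cz 1 1` in `A` for `m`.  Take `ε` from `h m`; `x : Fin m → Fin (m+1) → A` for `ε/2`; lift to `x̃`
(surjectivity).  `‖π (δ_{ii'} - ∑ x̃* x̃)‖ < ε/2` gives `j ∈ closure (idealGen z)` with `‖δ_{ii'} - ∑ x̃* x̃ + j‖ < ε/2`,
approximate `-j` by an element of `idealGen z`; make the number `R` of summands the same for all `i i'`
(pad with zeros).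
-/

set_option autoImplicit false

namespace Crest.Agent.QT

/-- Padding a finite sum with zeros. -/
theorem lift_pad {B : Type*} [AddCommMonoid B] {R0 R : ℕ} (h : R0 ≤ R) (g : ℕ → B)
    (hg : ∀ l, R0 ≤ l → g l = 0) : ∑ l : Fin R, g l = ∑ l : Fin R0, g l := by
  rw [← Finset.sum_range, ← Finset.sum_range]
  symm
  refine Finset.sum_subset (Finset.range_subset_range.2 h) fun l _ hl => ?_
  exact hg l (by simpa using hl)

theorem noShrink_quotient {A B : Type*} [CStarAlgebra A] [CStarAlgebra B] (z : B)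
    (π : B →⋆ₐ[ℂ] A) (hsurj : Function.Surjective π)
    (hπ : ∀ (b : B) (r : ℝ), ‖π b‖ < r → ∃ j ∈ closure (idealGen z), ‖b + j‖ < r)
    (h : ∀ m : ℕ, ∃ ε : ℝ, 0 < ε ∧ ∀ (x : Fin m → Fin (m + 1) → B) (R : ℕ)
      (c d : Fin (m + 1) → Fin (m + 1) → Fin R → B), ∃ i i' : Fin (m + 1),
      ε ≤ ‖(if i = i' then (1 : B) else 0) - ∑ k, star (x k i) * x k i' -
        ∑ l, c i i' l * z * d i i' l‖) :
    NoShrink A := by
  intro m hCz
  obtain ⟨ε, hε, H⟩ := h m
  obtain ⟨x, hx⟩ := hCz ε hε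
  choose s hs using hsurj
  set b : Fin (m + 1) → Fin (m + 1) → B := fun i i' =>
    (if i = i' then (1 : B) else 0) - ∑ k, star (s (x k i)) * s (x k i') with hb
  have hπb : ∀ i i', ‖π (b i i')‖ < ε := by
    intro i i'
    have h1 : π (b i i') = (if i = i' then (1 : A) else 0) - ∑ k, star (x k i) * 1 * x k i' := by
      rw [hb]
      simp only [map_sub, map_sum, map_mul, map_star, hs, mul_one]
      congr 1
      split_ifs <;> simp
    rw [h1]
    exact hx i i'
  have hj : ∀ i i', ∃ j ∈ idealGen z, ‖b i i' + j‖ < ε := by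
    intro i i'
    obtain ⟨j, hj, hj2⟩ := hπ (b i i') ε (hπb i i')
    have hopen : IsOpen {y : B | ‖b i i' + y‖ < ε} :=
      isOpen_lt (by fun_prop) continuous_const
    obtain ⟨j', h1, h2⟩ := mem_closure_iff.1 hj _ hopen hj2
    exact ⟨j', h2, h1⟩
  choose j hj1 hj2 using hj
  choose R c d hcd using hj1
  set Rm : ℕ := ∑ i, ∑ i', R i i' with hRm
  have hR : ∀ i i', R i i' ≤ Rm := by
    intro i i'
    calc R i i' ≤ ∑ i', R i i' :=
          Finset.single_le_sum (f := fun i' => R i i') (fun _ _ => Nat.zero_le _) (Finset.mem_univ i')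
      _ ≤ Rm := Finset.single_le_sum (f := fun i => ∑ i', R i i') (fun _ _ => Nat.zero_le _)
          (Finset.mem_univ i)
  obtain ⟨i, i', hii⟩ := H (fun k i => s (x k i)) Rm
    (fun i i' l => if h : (l : ℕ) < R i i' then - c i i' ⟨l, h⟩ else 0)
    (fun i i' l => if h : (l : ℕ) < R i i' then d i i' ⟨l, h⟩ else 0)
  have hsum : ∑ l : Fin Rm, (if h : (l : ℕ) < R i i' then - c i i' ⟨l, h⟩ else 0) * z *
      (if h : (l : ℕ) < R i i' then d i i' ⟨l, h⟩ else 0) = - j i i' := by
    rw [lift_pad (hR i i') (fun l => (if h : l < R i i' then - c i i' ⟨l, h⟩ else 0) * z *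
      (if h : l < R i i' then d i i' ⟨l, h⟩ else 0))]
    · rw [hcd i i', ← Finset.sum_neg_distrib]
      refine Finset.sum_congr rfl fun l _ => ?_
      rw [dif_pos l.2, dif_pos l.2, neg_mul, neg_mul]
    · intro l hl
      rw [dif_neg (by omega), zero_mul, zero_mul]
  rw [hsum, sub_neg_eq_add] at hii
  exact absurd (hj2 i i') (not_lt.2 hii)

end Crest.Agent.QT
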