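import Crest.Agent.QT_QF

/-!
Task QT-Pair (medium).  The pair `a, b` in `M₆(A)` with additivity defect `1/144`.
Let `D_j = u_j y_j u_j* - y_j` (`‖D_j‖ ≤ 12`), blocks `(a_i, b_i)`:
`i = 0..3`: `(u_i y_i u_i*, - y_i)`; `i = 4`: `(D_0, D_1)`; `i = 5`: `(D_2, D_3)`.
`a = diag((a_i/12 + 1)/2)`, `b = diag((b_i/12 + 1)/2)`: positive contractions.
For a 1-quasitrace `τ` on `M₆(A)` with `τ 1 = 1` put `σ x = τ (x ⊗ e₀₀)`.  Facts:
(i) `τ` is real on self-adjoint elements and `τ (U h U*) = τ h` for `U` unitary, `h = h*` (`QT_QF`: `qf_unitary` etc.); (ii) `τ (diag (x_i)) = ∑ σ (x_i)` for self-adjoint `x_i` (commuting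
summands, permutation unitaries); (iii) `σ` is real homogeneous and additive on commuting self-adjoint elements,
`σ 1 = 1/6`, `σ (u h u*) = σ h`.
So `τ(a+b) - τ a - τ b = (1/24) ∑ [σ(a_i + b_i) - σ(a_i) - σ(b_i)]`
`= (1/24) (σ(D_0+D_1) + σ(D_2+D_3)) = (1/24) σ(1) = 1/144` since `σ(u y u*) = σ(y)`, `σ(-y) = -σ(y)` and
`D_2 + D_3 = 1 - (D_0 + D_1)`.
(An element is positive contraction: `x = y* y`, use `CStarAlgebra.nonneg_iff_eq_star_mul_self` with the spectral
order, `‖h‖ ≤ 12 → 0 ≤ (h/12+1)/2 ≤ 1`.)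
-/

set_option autoImplicit false

namespace Crest.Agent.QT

section
variable {A : Type*} [CStarAlgebra A] [PartialOrder A] [StarOrderedRing A]

private noncomputable def dg (d : Fin 6 → A) : CStarMatrix (Fin 6) (Fin 6) A :=
  CStarMatrix.ofMatrix (Matrix.diagonal d)

private theorem dg_mul (d e : Fin 6 → A) : dg d * dg e = dg (d * e) :=
  Matrix.diagonal_mul_diagonal d e

private theorem dg_add (d e : Fin 6 → A) : dg d + dg e = dg (d + e) :=
  Matrix.diagonal_add d e

private theorem dg_star (d : Fin 6 → A) : star (dg d) = dg (star d) :=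
  Matrix.diagonal_conjTranspose d

private theorem dg_one : (dg (1 : Fin 6 → A)) = 1 := Matrix.diagonal_one

private theorem dg_smul (c : ℂ) (d : Fin 6 → A) : dg (c • d) = c • dg d :=
  (Matrix.diagonal_smul c d)

private theorem dg_zero : (dg (0 : Fin 6 → A)) = 0 := Matrix.diagonal_zero

/-- the diagonal embedding -/
private noncomputable def dgH (A : Type*) [CStarAlgebra A] [PartialOrder A] [StarOrderedRing A] :
    (Fin 6 → A) →⋆ₐ[ℂ] CStarMatrix (Fin 6) (Fin 6) A where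
  toFun := dg
  map_one' := dg_one
  map_mul' d e := (dg_mul d e).symm
  map_zero' := dg_zero
  map_add' d e := (dg_add d e).symm
  commutes' c := by
    have h : algebraMap ℂ (Fin 6 → A) c = c • (1 : Fin 6 → A) := Algebra.algebraMap_eq_smul_one c
    rw [h, dg_smul, dg_one, Algebra.algebraMap_eq_smul_one]
  map_star' d := (dg_star d).symm

private theorem dgH_apply (d : Fin 6 → A) : dgH A d = dg d := rfl

private theorem T_quasi {τ : CStarMatrix (Fin 6) (Fin 6) A → ℂ}
    (h : Crest.OpAlg.IsOneQuasitrace τ) :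
    Crest.OpAlg.IsOneQuasitrace (fun d : Fin 6 → A => τ (dg d)) := by
  obtain ⟨h1, h2, h3⟩ := h
  refine ⟨fun x => ?_, fun h k hh hk => ?_, fun S hS => ?_⟩
  · obtain ⟨a, b, c⟩ := h1 (dg x)
    rw [dg_star, dg_mul] at a b c
    rw [dg_mul] at a
    exact ⟨a, b, c⟩
  · have := h2 (dgH A h) (dgH A k) (hh.map (dgH A)) (hk.map (dgH A))
    simp only [dgH_apply] at this
    rw [← this, ← dg_smul, dg_add]
  · obtain ⟨a, b⟩ := h3 (S.map (dgH A)) (by
      rintro _ ⟨x, hx, rfl⟩ _ ⟨y, hy, rfl⟩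
      have := hS x hx y hy
      show dgH A x * dgH A y = dgH A y * dgH A x
      rw [← map_mul, ← map_mul, this])
    refine ⟨fun x hx y hy => ?_, fun c x hx => ?_⟩
    · have := a (dgH A x) ⟨x, hx, rfl⟩ (dgH A y) ⟨y, hy, rfl⟩
      simp only [dgH_apply] at this
      rw [← this, dg_add]
    · have := b c (dgH A x) ⟨x, hx, rfl⟩
      simp only [dgH_apply] at this
      show τ (dg (c • x)) = _
      rw [dg_smul, this]

/-- swap matrix -/
private noncomputable def Usw (A : Type*) [CStarAlgebra A] (i : Fin 6) :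
    CStarMatrix (Fin 6) (Fin 6) A :=
  CStarMatrix.ofMatrix (fun p q => if p = Equiv.swap 0 i q then (1 : A) else 0)

private theorem Usw_apply (i p q : Fin 6) :
    (Usw A i) p q = if p = Equiv.swap 0 i q then (1 : A) else 0 := rfl

private theorem dg_apply (d : Fin 6 → A) (p q : Fin 6) :
    (dg d) p q = if p = q then d p else 0 := rfl

private theorem Usw_star (i : Fin 6) : star (Usw A i) = Usw A i := by
  ext p q
  rw [CStarMatrix.star_apply, Usw_apply, Usw_apply]
  by_cases h : q = Equiv.swap 0 i p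
  · have h' : p = Equiv.swap 0 i q := by rw [h, Equiv.swap_apply_self]
    rw [if_pos h, if_pos h', star_one]
  · have h' : ¬ p = Equiv.swap 0 i q := by
      intro h2; apply h; rw [h2, Equiv.swap_apply_self]
    rw [if_neg h, if_neg h', star_zero]

private theorem Usw_conj (i : Fin 6) (d : Fin 6 → A) :
    Usw A i * dg d * Usw A i = dg (fun p => d (Equiv.swap 0 i p)) := by
  ext p r
  rw [CStarMatrix.mul_apply]
  have h1 : ∀ q, (Usw A i * dg d) p q = if p = Equiv.swap 0 i q then d q else 0 := by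
    intro q
    rw [CStarMatrix.mul_apply, Finset.sum_eq_single q]
    · rw [Usw_apply, dg_apply, if_pos rfl, ite_mul, one_mul, zero_mul]
    · intro b _ hb
      rw [dg_apply, if_neg hb, mul_zero]
    · intro h; exact absurd (Finset.mem_univ _) h
  simp only [h1]
  rw [Finset.sum_eq_single (Equiv.swap 0 i r)]
  · rw [Usw_apply, if_pos rfl, mul_one, dg_apply, Equiv.swap_apply_self]
    by_cases h : p = r
    · rw [if_pos h, if_pos h, h]
    · rw [if_neg h, if_neg h]
  · intro b _ hb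
    rw [Usw_apply, if_neg hb, mul_zero]
  · intro h; exact absurd (Finset.mem_univ _) h

private theorem Usw_unitary (i : Fin 6) : Usw A i ∈ unitary (CStarMatrix (Fin 6) (Fin 6) A) := by
  have h : Usw A i * Usw A i = 1 := by
    have := Usw_conj i (1 : Fin 6 → A)
    rw [dg_one, mul_one] at this
    rw [this]
    exact dg_one
  rw [Unitary.mem_iff, Usw_star]
  exact ⟨h, h⟩

private theorem dg_sa {d : Fin 6 → A} (hd : IsSelfAdjoint d) : IsSelfAdjoint (dg d) :=
  hd.map (dgH A)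

private theorem single_sa {i : Fin 6} {x : A} (hx : IsSelfAdjoint x) :
    IsSelfAdjoint (Pi.single i x : Fin 6 → A) := by
  rw [IsSelfAdjoint]
  funext j
  rw [Pi.star_apply]
  by_cases h : j = i
  · subst h; simp [hx.star_eq]
  · simp [h]

private theorem T_single {τ : CStarMatrix (Fin 6) (Fin 6) A → ℂ}
    (h : Crest.OpAlg.IsOneQuasitrace τ) (i : Fin 6) {x : A} (hx : IsSelfAdjoint x) :
    τ (dg (Pi.single i x)) = τ (dg (Pi.single 0 x)) := by
  have h1 := qf_unitary h (dg_sa (single_sa (i := 0) hx)) (Usw_unitary (A := A) i)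
  rw [Usw_star, Usw_conj] at h1
  rw [← h1]
  congr 2
  funext p
  by_cases hp : p = i
  · subst hp; simp
  · have : Equiv.swap 0 i p ≠ 0 := by
      intro h2
      apply hp
      have := congrArg (Equiv.swap 0 i) h2
      rwa [Equiv.swap_apply_self, Equiv.swap_apply_left] at this
    simp [hp, this]

/-- `σ` -/
private noncomputable def sg (τ : CStarMatrix (Fin 6) (Fin 6) A → ℂ) (x : A) : ℂ :=
  τ (dg (Pi.single 0 x))

private theorem T_sum {τ : CStarMatrix (Fin 6) (Fin 6) A → ℂ}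
    (h : Crest.OpAlg.IsOneQuasitrace τ) {d : Fin 6 → A} (hd : IsSelfAdjoint d) :
    τ (dg d) = ∑ i, sg τ (d i) := by
  have hd' : ∀ i, IsSelfAdjoint (d i) := fun i => by
    have := congrFun hd.star_eq i
    rwa [Pi.star_apply] at this
  have h1 := qf_sum (T_quasi h) Finset.univ (fun i : Fin 6 => (Pi.single i (d i) : Fin 6 → A))
    (fun i _ => single_sa (hd' i))
    (fun i _ j _ => by
      by_cases hij : i = j
      · subst hij; rfl
      · funext p
        rw [Pi.mul_apply, Pi.mul_apply]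
        by_cases hp : p = i
        · subst hp; simp [hij]
        · simp [hp])
  rw [Finset.univ_sum_single d] at h1
  rw [h1]
  exact Finset.sum_congr rfl fun i _ => T_single h i (hd' i)

private theorem sg_add {τ : CStarMatrix (Fin 6) (Fin 6) A → ℂ}
    (h : Crest.OpAlg.IsOneQuasitrace τ) {x y : A} (hx : IsSelfAdjoint x) (hy : IsSelfAdjoint y)
    (hxy : x * y = y * x) : sg τ (x + y) = sg τ x + sg τ y := by
  unfold sg
  rw [Pi.single_add]
  exact qf_add (T_quasi h) (single_sa hx) (single_sa hy) (by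
    rw [← Pi.single_mul, ← Pi.single_mul, hxy])

private theorem sg_smul {τ : CStarMatrix (Fin 6) (Fin 6) A → ℂ}
    (h : Crest.OpAlg.IsOneQuasitrace τ) {x : A} (hx : IsSelfAdjoint x) (c : ℂ) :
    sg τ (c • x) = c * sg τ x := by
  unfold sg
  rw [Pi.single_smul]
  exact qf_smul (T_quasi h) (single_sa hx) c

private theorem sg_unitary {τ : CStarMatrix (Fin 6) (Fin 6) A → ℂ}
    (h : Crest.OpAlg.IsOneQuasitrace τ) {x u : A} (hx : IsSelfAdjoint x) (hu : u ∈ unitary A) :
    sg τ (u * x * star u) = sg τ x := by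
  unfold sg
  have h1 := qf_unitary (T_quasi h) (single_sa (i := 0) hx) (u := fun _ : Fin 6 => u) (by
    rw [Unitary.mem_iff] at hu ⊢
    exact ⟨funext fun _ => hu.1, funext fun _ => hu.2⟩)
  rw [← h1]
  congr 2
  funext p
  rw [Pi.mul_apply, Pi.mul_apply, Pi.star_apply]
  by_cases hp : p = 0
  · subst hp; simp
  · simp [hp]

private theorem sg_neg {τ : CStarMatrix (Fin 6) (Fin 6) A → ℂ}
    (h : Crest.OpAlg.IsOneQuasitrace τ) {x : A} (hx : IsSelfAdjoint x) :
    sg τ (-x) = - sg τ x := by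
  have := sg_smul h hx (-1)
  rwa [neg_one_smul, neg_one_mul] at this

private theorem sg_one {τ : CStarMatrix (Fin 6) (Fin 6) A → ℂ}
    (h : Crest.OpAlg.IsOneQuasitrace τ) (h1 : τ 1 = 1) : sg τ (1 : A) = 1 / 6 := by
  have h2 := T_sum h (d := (1 : Fin 6 → A)) (IsSelfAdjoint.one _)
  rw [dg_one, h1] at h2
  simp only [Pi.one_apply, Finset.sum_const, Finset.card_univ, Fintype.card_fin] at h2
  rw [nsmul_eq_mul] at h2
  have h3 : (6 : ℂ) ≠ 0 := by norm_num
  rw [eq_div_iff h3]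
  push_cast at h2
  rw [mul_comm, ← h2]

/-- the affine rescaling -/
private noncomputable def rs (x : A) : A := (1 / 24 : ℂ) • x + (1 / 2 : ℂ) • (1 : A)

private theorem rs_sa {x : A} (hx : IsSelfAdjoint x) : IsSelfAdjoint (rs x) := by
  unfold rs
  rw [IsSelfAdjoint, star_add, star_smul, star_smul, hx.star_eq, star_one]
  congr 2 <;> simp

private theorem rs_pos {x : A} (hx : IsSelfAdjoint x) (hn : ‖x‖ ≤ 12) : 0 ≤ rs x := by
  have h1 : -(algebraMap ℝ A 12) ≤ x := by
    have h2 := hx.neg_algebraMap_norm_le_self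
    have h3 : algebraMap ℝ A ‖x‖ ≤ algebraMap ℝ A 12 := algebraMap_mono A hn
    exact (neg_le_neg h3).trans h2
  have h4 : rs x = (1 / 24 : ℝ) • (x + algebraMap ℝ A 12) := by
    unfold rs
    rw [smul_add, Algebra.algebraMap_eq_smul_one, smul_smul]
    congr 1
    · rw [← Complex.coe_smul]; norm_num
    · rw [← Complex.coe_smul]; norm_num
  rw [h4]
  apply smul_nonneg (by norm_num)
  exact neg_le_iff_add_nonneg.mp h1

private theorem norm_one_le' : ‖(1 : A)‖ ≤ 1 := by
  rcases subsingleton_or_nontrivial A with h | h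
  · have : (1 : A) = 0 := Subsingleton.elim _ _
    rw [this, norm_zero]; norm_num
  · rw [CStarRing.norm_one]

private theorem rs_norm {x : A} (hn : ‖x‖ ≤ 12) : ‖rs x‖ ≤ 1 := by
  unfold rs
  refine (norm_add_le _ _).trans ?_
  rw [norm_smul, norm_smul]
  have h1 : ‖(1 / 24 : ℂ)‖ = 1 / 24 := by simp
  have h2 : ‖(1 / 2 : ℂ)‖ = 1 / 2 := by simp
  rw [h1, h2]
  have := norm_one_le' (A := A)
  linarith

private theorem sg_rs {τ : CStarMatrix (Fin 6) (Fin 6) A → ℂ}
    (h : Crest.OpAlg.IsOneQuasitrace τ) {x : A} (hx : IsSelfAdjoint x) :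
    sg τ (rs x) = (1 / 24) * sg τ x + (1 / 2) * sg τ 1 := by
  unfold rs
  have e1 : IsSelfAdjoint ((1 / 24 : ℂ) • x) := by
    rw [IsSelfAdjoint, star_smul, hx.star_eq]; simp
  have e2 : IsSelfAdjoint ((1 / 2 : ℂ) • (1 : A)) := by
    rw [IsSelfAdjoint, star_smul, star_one]; simp
  rw [sg_add h e1 e2 (by rw [mul_smul_comm, mul_one, smul_mul_assoc, one_mul]), sg_smul h hx,
    sg_smul h (IsSelfAdjoint.one _)]

private theorem sg_rs2 {τ : CStarMatrix (Fin 6) (Fin 6) A → ℂ}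
    (h : Crest.OpAlg.IsOneQuasitrace τ) {x y : A} (hx : IsSelfAdjoint x) (hy : IsSelfAdjoint y) :
    sg τ (rs x + rs y) = (1 / 24) * sg τ (x + y) + sg τ 1 := by
  have e0 : rs x + rs y = (1 / 24 : ℂ) • (x + y) + (1 : A) := by
    unfold rs
    have : (1 : A) = (1 / 2 : ℂ) • (1 : A) + (1 / 2 : ℂ) • (1 : A) := by
      rw [← add_smul]; norm_num
    rw [smul_add]
    nth_rewrite 3 [this]
    abel
  have hxy := hx.add hy
  have e1 : IsSelfAdjoint ((1 / 24 : ℂ) • (x + y)) := by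
    rw [IsSelfAdjoint, star_smul, hxy.star_eq]; simp
  rw [e0, sg_add h e1 (IsSelfAdjoint.one _) (by simp), sg_smul h hxy]

end

theorem pair_exists {A : Type*} [CStarAlgebra A] [PartialOrder A] [StarOrderedRing A] (u y : Fin 4 → A) (hu : ∀ j, u j ∈ unitary A)
    (hy : ∀ j, IsSelfAdjoint (y j)) (hn : ∀ j, ‖y j‖ ≤ 6)
    (h1 : ∑ j, (u j * y j * star (u j) - y j) = 1) :
    ∃ a b : CStarMatrix (Fin 6) (Fin 6) A,
      (∃ x : CStarMatrix (Fin 6) (Fin 6) A, a = star x * x) ∧ ‖a‖ ≤ 1 ∧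
      (∃ x : CStarMatrix (Fin 6) (Fin 6) A, b = star x * x) ∧ ‖b‖ ≤ 1 ∧
      ∀ τ : CStarMatrix (Fin 6) (Fin 6) A → ℂ, Crest.OpAlg.IsOneQuasitrace τ → τ 1 = 1 →
        (1 : ℝ) / 144 ≤ (τ (a + b) - τ a - τ b).re := by
  obtain ⟨w, hw⟩ : ∃ w : Fin 4 → A, w = fun j => u j * y j * star (u j) := ⟨_, rfl⟩
  have hwsa : ∀ j, IsSelfAdjoint (w j) := by
    intro j
    rw [hw]
    simp only
    rw [IsSelfAdjoint, star_mul, star_mul, star_star, (hy j).star_eq, mul_assoc]
  have hun : ∀ j, ‖u j‖ ≤ 1 := fun j => by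
    have h2 := (Unitary.mem_iff.mp (hu j)).1
    have h3 := CStarRing.norm_star_mul_self (x := u j)
    rw [h2] at h3
    have h4 := norm_one_le' (A := A)
    nlinarith [norm_nonneg (u j)]
  have hwn : ∀ j, ‖w j‖ ≤ 6 := by
    intro j
    rw [hw]
    simp only
    calc ‖u j * y j * star (u j)‖ ≤ ‖u j‖ * ‖y j‖ * ‖star (u j)‖ :=
          (norm_mul_le _ _).trans (mul_le_mul_of_nonneg_right (norm_mul_le _ _) (norm_nonneg _))
      _ ≤ 1 * 6 * 1 := by
          rw [norm_star]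
          have := hun j
          have := hn j
          gcongr
      _ = 6 := by norm_num
  obtain ⟨D, hD⟩ : ∃ D : Fin 4 → A, D = fun j => w j - y j := ⟨_, rfl⟩
  have hDsa : ∀ j, IsSelfAdjoint (D j) := fun j => by
    rw [hD]; exact (hwsa j).sub (hy j)
  have hDn : ∀ j, ‖D j‖ ≤ 12 := fun j => by
    rw [hD]
    refine (norm_sub_le _ _).trans ?_
    have := hwn j
    have := hn j
    linarith
  obtain ⟨α, hα⟩ : ∃ α : Fin 6 → A, α = ![w 0, w 1, w 2, w 3, D 0, D 2] := ⟨_, rfl⟩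
  obtain ⟨β, hβ⟩ : ∃ β : Fin 6 → A, β = ![-y 0, -y 1, -y 2, -y 3, D 1, D 3] := ⟨_, rfl⟩
  have hαsa : ∀ i, IsSelfAdjoint (α i) := by
    intro i; rw [hα]
    fin_cases i
    · exact hwsa 0
    · exact hwsa 1
    · exact hwsa 2
    · exact hwsa 3
    · exact hDsa 0
    · exact hDsa 2
  have hβsa : ∀ i, IsSelfAdjoint (β i) := by
    intro i; rw [hβ]
    fin_cases i
    · exact (hy 0).neg
    · exact (hy 1).neg
    · exact (hy 2).neg
    · exact (hy 3).neg
    · exact hDsa 1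
    · exact hDsa 3
  have hαn : ∀ i, ‖α i‖ ≤ 12 := by
    intro i; rw [hα]
    fin_cases i
    · exact (hwn 0).trans (by norm_num)
    · exact (hwn 1).trans (by norm_num)
    · exact (hwn 2).trans (by norm_num)
    · exact (hwn 3).trans (by norm_num)
    · exact hDn 0
    · exact hDn 2
  have hβn : ∀ i, ‖β i‖ ≤ 12 := by
    intro i; rw [hβ]
    fin_cases i
    · show ‖-y 0‖ ≤ 12
      rw [norm_neg]; exact (hn 0).trans (by norm_num)
    · show ‖-y 1‖ ≤ 12
      rw [norm_neg]; exact (hn 1).trans (by norm_num)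
    · show ‖-y 2‖ ≤ 12
      rw [norm_neg]; exact (hn 2).trans (by norm_num)
    · show ‖-y 3‖ ≤ 12
      rw [norm_neg]; exact (hn 3).trans (by norm_num)
    · exact hDn 1
    · exact hDn 3
  have key : ∀ γ : Fin 6 → A, (∀ i, IsSelfAdjoint (γ i)) → (∀ i, ‖γ i‖ ≤ 12) →
      (∃ x : CStarMatrix (Fin 6) (Fin 6) A, dg (fun i => rs (γ i)) = star x * x) ∧
        ‖dg (fun i => rs (γ i))‖ ≤ 1 := by
    intro γ h2 h3
    constructor
    · have h4 : ∀ i, ∃ s : A, rs (γ i) = star s * s := fun i =>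
        CStarAlgebra.nonneg_iff_eq_star_mul_self.mp (rs_pos (h2 i) (h3 i))
      choose s hs using h4
      refine ⟨dg s, ?_⟩
      rw [dg_star, dg_mul]
      congr 1
      funext i
      exact hs i
    · have h4 : ‖dgH A (fun i => rs (γ i))‖ ≤ ‖(fun i => rs (γ i) : Fin 6 → A)‖ :=
        NonUnitalStarAlgHom.norm_apply_le (dgH A) _
      refine h4.trans ?_
      rw [pi_norm_le_iff_of_nonneg zero_le_one]
      exact fun i => rs_norm (h3 i)
  refine ⟨dg (fun i => rs (α i)), dg (fun i => rs (β i)), (key α hαsa hαn).1, (key α hαsa hαn).2,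
    (key β hβsa hβn).1, (key β hβsa hβn).2, fun τ hτ hτ1 => ?_⟩
  have hsα : IsSelfAdjoint (fun i => rs (α i) : Fin 6 → A) := by
    rw [IsSelfAdjoint]; funext i; exact (rs_sa (hαsa i)).star_eq
  have hsβ : IsSelfAdjoint (fun i => rs (β i) : Fin 6 → A) := by
    rw [IsSelfAdjoint]; funext i; exact (rs_sa (hβsa i)).star_eq
  have e1 := T_sum hτ hsα
  have e2 := T_sum hτ hsβ
  have e3 := T_sum hτ (hsα.add hsβ)
  rw [dg_add, e1, e2, e3]
  have e4 : ∀ i : Fin 6, sg τ (((fun i => rs (α i)) + fun i => rs (β i) : Fin 6 → A) i) =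
      (1 / 24) * sg τ (α i + β i) + sg τ 1 := fun i => sg_rs2 hτ (hαsa i) (hβsa i)
  have e5 : ∀ i, sg τ (rs (α i)) = (1 / 24) * sg τ (α i) + (1 / 2) * sg τ 1 := fun i =>
    sg_rs hτ (hαsa i)
  have e6 : ∀ i, sg τ (rs (β i)) = (1 / 24) * sg τ (β i) + (1 / 2) * sg τ 1 := fun i =>
    sg_rs hτ (hβsa i)
  simp only [e4, e5, e6]
  have f1 : ∀ j, sg τ (w j) = sg τ (y j) := fun j => by
    rw [hw]; exact sg_unitary hτ (hy j) (hu j)
  have f2 : ∀ j, sg τ (-y j) = - sg τ (y j) := fun j => sg_neg hτ (hy j)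
  have f3 : D 2 + D 3 = 1 + -(D 0 + D 1) := by
    have h2 : ∑ j, D j = 1 := by rw [← h1, hD, hw]
    rw [Fin.sum_univ_four] at h2
    rw [← h2]
    abel
  have f4 : sg τ (D 2 + D 3) = sg τ 1 - sg τ (D 0 + D 1) := by
    have h2 := (hDsa 0).add (hDsa 1)
    rw [f3, sg_add hτ (IsSelfAdjoint.one _) h2.neg (by simp), sg_neg hτ h2]
    ring
  have f5 : ∀ j, w j + -y j = D j := fun j => by rw [hD]; simp only; abel
  have hsum : ∀ F : Fin 6 → ℂ, ∑ i, F i = F 0 + F 1 + F 2 + F 3 + F 4 + F 5 := fun F => by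
    rw [Fin.sum_univ_six]
  rw [hsum, hsum, hsum, hα, hβ]
  simp only [Matrix.cons_val_zero, Matrix.cons_val_one, Matrix.cons_val]
  rw [f5, f5, f5, f5, f1, f1, f1, f1, f2, f2, f2, f2, f4, sg_one hτ hτ1]
  have : ∀ p q : ℂ, p = q → p.re = q.re := fun p q h => by rw [h]
  refine le_of_eq ?_
  rw [this _ (1 / 144 : ℂ) (by ring)]
  norm_num

end Crest.Agent.QT
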