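import Crest.Agent.QT_Dual

/-!
Task QT-Sel (medium).  Continuous selection.
`Φ(y) = ∑ (u_j y_j u_j* - y_j)` maps Hermitian 4-tuples ONTO the traceless Hermitian matrices (from `rep_point` by
scaling, or from `Gap4`: if `tr(ξ Φ(y)) = 0` for all `y` then `u_j* ξ u_j = ξ`, `Gap4` gives `ξ` scalar); so there is a
linear right inverse `L` (finite dimension), `‖L r‖ ≤ K ‖r‖` for some `K` and any norms.
`exists_continuous_forall_mem_convex_of_local_const` with
`t x = {y | -5.99 ≤ y_j ≤ 5.99, ‖(q x - (tr q x/N)) - Φ(y)‖ < η}` (local constants: `rep_point` at `x`) gives continuous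
`y⁰`; `r x = w x - Φ(y⁰ x)` is continuous, traceless Hermitian, `‖r‖ < η`; `y = y⁰ + L r`, `‖L r‖ ≤ 0.01` in operator sense.
(Use any norm on the finite dimensional space `Matrix (Fin N) (Fin N) ℂ`, e.g. the L2 operator norm via
`open scoped Matrix.Norms.L2Operator`, whose topology is the usual one.)
-/

set_option autoImplicit false

namespace Crest.Agent.QT

open scoped Matrix ComplexOrder

/-- the linear map `y ↦ ∑ (u_j y_j u_j* - y_j)` -/
private noncomputable def SelPhi {N : ℕ} (u : Fin 4 → Matrix (Fin N) (Fin N) ℂ) :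
    (Fin 4 → Matrix (Fin N) (Fin N) ℂ) →ₗ[ℝ] Matrix (Fin N) (Fin N) ℂ where
  toFun y := ∑ j, (u j * y j * (u j)ᴴ - y j)
  map_add' y z := by
    rw [← Finset.sum_add_distrib]
    apply Finset.sum_congr rfl
    intro j _
    simp only [Pi.add_apply]
    rw [mul_add, add_mul]
    abel
  map_smul' c y := by
    simp only [RingHom.id_apply, Pi.smul_apply]
    rw [Finset.smul_sum]
    apply Finset.sum_congr rfl
    intro j _
    rw [mul_smul_comm, smul_mul_assoc, smul_sub]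

private theorem SelPhi_apply {N : ℕ} (u y : Fin 4 → Matrix (Fin N) (Fin N) ℂ) :
    SelPhi u y = ∑ j, (u j * y j * (u j)ᴴ - y j) := rfl

private theorem SelPhi_star {N : ℕ} (u y : Fin 4 → Matrix (Fin N) (Fin N) ℂ) :
    SelPhi u (fun j => (y j)ᴴ) = (SelPhi u y)ᴴ := by
  rw [SelPhi_apply, SelPhi_apply, Matrix.conjTranspose_sum]
  apply Finset.sum_congr rfl
  intro j _
  rw [Matrix.conjTranspose_sub, Matrix.conjTranspose_mul, Matrix.conjTranspose_mul,
    Matrix.conjTranspose_conjTranspose, Matrix.mul_assoc]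

private theorem Sel_psd_of_small {N : ℕ} [NeZero N] (s : Matrix (Fin N) (Fin N) ℂ) (hs : s.IsHermitian)
    (ε : ℝ) (hε : 0 ≤ ε) (h : ∀ i j, ‖s i j‖ ≤ ε / N) :
    (((ε : ℝ) : ℂ) • (1 : Matrix (Fin N) (Fin N) ℂ) - s).PosSemidef := by
  have hN : (0 : ℝ) < N := by exact_mod_cast Nat.pos_of_ne_zero (NeZero.ne N)
  have hH : (((ε : ℝ) : ℂ) • (1 : Matrix (Fin N) (Fin N) ℂ) - s).IsHermitian := by
    apply Matrix.IsHermitian.sub _ hs
    rw [Matrix.IsHermitian, Matrix.conjTranspose_smul, Matrix.conjTranspose_one]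
    simp
  refine Matrix.PosSemidef.of_dotProduct_mulVec_nonneg hH (fun v => ?_)
  have h1 : star v ⬝ᵥ ((((ε : ℝ) : ℂ) • (1 : Matrix (Fin N) (Fin N) ℂ) - s) *ᵥ v) =
      ((ε * ∑ i, ‖v i‖ ^ 2 : ℝ) : ℂ) - star v ⬝ᵥ (s *ᵥ v) := by
    rw [Matrix.sub_mulVec, dotProduct_sub, Matrix.smul_mulVec, Matrix.one_mulVec, dotProduct_smul]
    congr 1
    rw [dotProduct]
    push_cast
    rw [smul_eq_mul]
    congr 1
    apply Finset.sum_congr rfl
    intro i _
    rw [Pi.star_apply, Complex.star_def, ← Complex.normSq_eq_conj_mul_self, Complex.normSq_eq_norm_sq]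
    push_cast
    rfl
  have h2 : ‖star v ⬝ᵥ (s *ᵥ v)‖ ≤ ε * ∑ i, ‖v i‖ ^ 2 := by
    calc ‖star v ⬝ᵥ (s *ᵥ v)‖ ≤ ∑ i, ‖v i‖ * ∑ j, (ε / N) * ‖v j‖ := by
          rw [dotProduct]
          refine (norm_sum_le _ _).trans (Finset.sum_le_sum (fun i _ => ?_))
          rw [norm_mul, Pi.star_apply, norm_star]
          apply mul_le_mul_of_nonneg_left _ (norm_nonneg _)
          rw [Matrix.mulVec, dotProduct]
          refine (norm_sum_le _ _).trans (Finset.sum_le_sum (fun j _ => ?_))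
          rw [norm_mul]
          exact mul_le_mul_of_nonneg_right (h i j) (norm_nonneg _)
      _ = (ε / N) * (∑ i, ‖v i‖) ^ 2 := by
          rw [← Finset.mul_sum, ← Finset.sum_mul]
          ring
      _ ≤ (ε / N) * (N * ∑ i, ‖v i‖ ^ 2) := by
          apply mul_le_mul_of_nonneg_left _ (by positivity)
          have := sq_sum_le_card_mul_sum_sq (s := Finset.univ) (f := fun i : Fin N => ‖v i‖)
          rwa [Finset.card_univ, Fintype.card_fin] at this
      _ = ε * ∑ i, ‖v i‖ ^ 2 := by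
          field_simp
  have h3 : (star v ⬝ᵥ (s *ᵥ v)).im = 0 := by
    have := hs.im_star_dotProduct_mulVec_self v
    simpa using this
  rw [h1, Complex.nonneg_iff]
  constructor
  · rw [Complex.sub_re, Complex.ofReal_re]
    have := Complex.re_le_norm (star v ⬝ᵥ (s *ᵥ v))
    linarith
  · rw [Complex.sub_im, Complex.ofReal_im, h3, sub_zero]

private theorem Sel_herm_of_psd {N : ℕ} (y : Matrix (Fin N) (Fin N) ℂ) (c : ℝ)
    (h : (((c : ℝ) : ℂ) • (1 : Matrix (Fin N) (Fin N) ℂ) - y).PosSemidef) : y.IsHermitian := by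
  have h1 := h.isHermitian
  have h2 : (((c : ℝ) : ℂ) • (1 : Matrix (Fin N) (Fin N) ℂ)).IsHermitian := by
    rw [Matrix.IsHermitian, Matrix.conjTranspose_smul, Matrix.conjTranspose_one]
    simp
  have h3 := h2.sub h1
  simpa using h3

private theorem Sel_trace_im {N : ℕ} (q : Matrix (Fin N) (Fin N) ℂ) (hq : q.IsHermitian) :
    star q.trace = q.trace := by
  rw [← Matrix.trace_conjTranspose, hq.eq]

private theorem Sel_w_herm {N : ℕ} (q : Matrix (Fin N) (Fin N) ℂ) (hq : q.IsHermitian) :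
    (q - (q.trace / N) • (1 : Matrix (Fin N) (Fin N) ℂ)).IsHermitian := by
  apply hq.sub
  rw [Matrix.IsHermitian, Matrix.conjTranspose_smul, Matrix.conjTranspose_one, star_div₀,
    Sel_trace_im q hq]
  simp

private theorem Sel_bound_abs {E F : Type*} [NormedAddCommGroup E] [NormedSpace ℝ E]
    [FiniteDimensional ℝ E] [NormedAddCommGroup F] [NormedSpace ℝ F] (g : E →ₗ[ℝ] F) (δ : ℝ)
    (hδ : 0 < δ) : ∃ η : ℝ, 0 < η ∧ ∀ r : E, ‖r‖ < η → ‖g r‖ ≤ δ := by
  set G := LinearMap.toContinuousLinearMap g with hG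
  refine ⟨δ / (‖G‖ + 1), by positivity, ?_⟩
  intro r hr
  have h1 : ‖G r‖ ≤ ‖G‖ * ‖r‖ := G.le_opNorm r
  have h5 : ‖g r‖ = ‖G r‖ := rfl
  have h6 : ‖G‖ * ‖r‖ ≤ (‖G‖ + 1) * (δ / (‖G‖ + 1)) :=
    mul_le_mul (by linarith) hr.le (norm_nonneg _) (by positivity)
  have h7 : (‖G‖ + 1) * (δ / (‖G‖ + 1)) = δ := by
    field_simp
  linarith

section

open scoped Matrix.Norms.Elementwise Topology

private theorem Sel_bound {N : ℕ} [NeZero N] (u : Fin 4 → Matrix (Fin N) (Fin N) ℂ)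
    (g : (LinearMap.range (SelPhi u)) →ₗ[ℝ] (Fin 4 → Matrix (Fin N) (Fin N) ℂ)) (δ : ℝ) (hδ : 0 < δ) :
    ∃ η : ℝ, 0 < η ∧ ∀ r : LinearMap.range (SelPhi u), ‖(r : Matrix (Fin N) (Fin N) ℂ)‖ < η →
      ∀ k i j, ‖g r k i j‖ ≤ δ := by
  obtain ⟨η, hη, h⟩ := Sel_bound_abs g δ hδ
  refine ⟨η, hη, ?_⟩
  intro r hr k i j
  have h2 : ‖g r k i j‖ ≤ ‖g r k‖ := Matrix.norm_entry_le_entrywise_sup_norm _
  have h3 : ‖g r k‖ ≤ ‖g r‖ := norm_le_pi_norm (g r) k
  exact (h2.trans h3).trans (h r hr)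

theorem rep_cont {X : Type*} [TopologicalSpace X] [CompactSpace X] [T2Space X] {N : ℕ} [NeZero N]
    (u : Fin 4 → Matrix (Fin N) (Fin N) ℂ) (hu : Gap4 u)
    (q : X → Matrix (Fin N) (Fin N) ℂ) (hqc : Continuous q) (hq : ∀ x, (q x).PosSemidef)
    (hq1 : ∀ x, (1 - q x).PosSemidef) (htr : ∀ x, (q x).trace.re ≤ (N : ℝ) / 21) :
    ∃ y : Fin 4 → X → Matrix (Fin N) (Fin N) ℂ, (∀ j, Continuous (y j)) ∧
      (∀ j x, (((6 : ℝ) : ℂ) • (1 : Matrix (Fin N) (Fin N) ℂ) - y j x).PosSemidef ∧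
        (((6 : ℝ) : ℂ) • (1 : Matrix (Fin N) (Fin N) ℂ) + y j x).PosSemidef) ∧
      ∀ x, ∑ j, (u j * y j x * (u j)ᴴ - y j x) =
        q x - ((q x).trace / N) • (1 : Matrix (Fin N) (Fin N) ℂ) := by
  have hN : (0 : ℝ) < N := by exact_mod_cast Nat.pos_of_ne_zero (NeZero.ne N)
  obtain ⟨g, hg⟩ := LinearMap.exists_rightInverse_of_surjective (SelPhi u).rangeRestrict
    (LinearMap.range_rangeRestrict _)
  have hg' : ∀ r : LinearMap.range (SelPhi u), SelPhi u (g r) = r := by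
    intro r
    have := congrArg (fun f => f r) hg
    have h2 := congrArg Subtype.val this
    exact h2
  obtain ⟨η, hη, hgη⟩ := Sel_bound u g ((1 / 100) / N) (by positivity)
  obtain ⟨w, hw⟩ : ∃ w : X → Matrix (Fin N) (Fin N) ℂ,
      ∀ x, w x = q x - ((q x).trace / N) • (1 : Matrix (Fin N) (Fin N) ℂ) := ⟨_, fun _ => rfl⟩
  have hwc : Continuous w := by
    have h1 : Continuous (fun x => (q x).trace / (N : ℂ)) := (hqc.matrix_trace).div_const _
    have h2 : Continuous (fun x => ((q x).trace / (N : ℂ)) • (1 : Matrix (Fin N) (Fin N) ℂ)) :=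
      h1.smul continuous_const
    have h3 : w = fun x => q x - ((q x).trace / N) • (1 : Matrix (Fin N) (Fin N) ℂ) := funext hw
    rw [h3]
    exact hqc.sub h2
  have hwH : ∀ x, (w x).IsHermitian := fun x => by
    rw [hw]
    exact Sel_w_herm (q x) (hq x).isHermitian
  -- pointwise representation
  have hpt : ∀ x, ∃ y : Fin 4 → Matrix (Fin N) (Fin N) ℂ,
      (∀ j, (((599 / 100 : ℝ) : ℂ) • (1 : Matrix (Fin N) (Fin N) ℂ) - y j).PosSemidef ∧
        (((599 / 100 : ℝ) : ℂ) • (1 : Matrix (Fin N) (Fin N) ℂ) + y j).PosSemidef) ∧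
      SelPhi u y = w x := fun x => by
    rw [hw]
    exact rep_point u hu (q x) (hq x) (hq1 x) (htr x)
  let t : X → Set (Fin 4 → Matrix (Fin N) (Fin N) ℂ) := fun x =>
    {y | (∀ j, (((599 / 100 : ℝ) : ℂ) • (1 : Matrix (Fin N) (Fin N) ℂ) - y j).PosSemidef ∧
        (((599 / 100 : ℝ) : ℂ) • (1 : Matrix (Fin N) (Fin N) ℂ) + y j).PosSemidef) ∧
      ‖w x - SelPhi u y‖ < η}
  have htc : ∀ x, Convex ℝ (t x) := by
    intro x y1 hy1 y2 hy2 a b ha hb hab
    refine ⟨fun j => ⟨?_, ?_⟩, ?_⟩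
    · have e : (((599 / 100 : ℝ) : ℂ) • (1 : Matrix (Fin N) (Fin N) ℂ) - (a • y1 + b • y2) j) =
          a • (((599 / 100 : ℝ) : ℂ) • (1 : Matrix (Fin N) (Fin N) ℂ) - y1 j) +
          b • (((599 / 100 : ℝ) : ℂ) • (1 : Matrix (Fin N) (Fin N) ℂ) - y2 j) := by
        have e0 : (a • y1 + b • y2) j = a • y1 j + b • y2 j := rfl
        have e1 : ((599 / 100 : ℝ) : ℂ) • (1 : Matrix (Fin N) (Fin N) ℂ) =
            a • (((599 / 100 : ℝ) : ℂ) • (1 : Matrix (Fin N) (Fin N) ℂ)) +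
            b • (((599 / 100 : ℝ) : ℂ) • (1 : Matrix (Fin N) (Fin N) ℂ)) := by
          rw [← add_smul, hab, one_smul]
        rw [e0, smul_sub, smul_sub]
        nth_rewrite 1 [e1]
        abel
      rw [e]
      exact ((hy1.1 j).1.smul ha).add ((hy2.1 j).1.smul hb)
    · have e : (((599 / 100 : ℝ) : ℂ) • (1 : Matrix (Fin N) (Fin N) ℂ) + (a • y1 + b • y2) j) =
          a • (((599 / 100 : ℝ) : ℂ) • (1 : Matrix (Fin N) (Fin N) ℂ) + y1 j) +
          b • (((599 / 100 : ℝ) : ℂ) • (1 : Matrix (Fin N) (Fin N) ℂ) + y2 j) := by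
        have e0 : (a • y1 + b • y2) j = a • y1 j + b • y2 j := rfl
        have e1 : ((599 / 100 : ℝ) : ℂ) • (1 : Matrix (Fin N) (Fin N) ℂ) =
            a • (((599 / 100 : ℝ) : ℂ) • (1 : Matrix (Fin N) (Fin N) ℂ)) +
            b • (((599 / 100 : ℝ) : ℂ) • (1 : Matrix (Fin N) (Fin N) ℂ)) := by
          rw [← add_smul, hab, one_smul]
        rw [e0, smul_add, smul_add]
        nth_rewrite 1 [e1]
        abel
      rw [e]
      exact ((hy1.1 j).2.smul ha).add ((hy2.1 j).2.smul hb)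
    · have e : w x - SelPhi u (a • y1 + b • y2) =
          a • (w x - SelPhi u y1) + b • (w x - SelPhi u y2) := by
        have e1 : w x = a • w x + b • w x := by
          rw [← add_smul, hab, one_smul]
        rw [map_add, map_smul, map_smul, smul_sub, smul_sub]
        nth_rewrite 1 [e1]
        abel
      rw [e]
      have h1 : ‖w x - SelPhi u y1‖ < η := hy1.2
      have h2 : ‖w x - SelPhi u y2‖ < η := hy2.2
      have hcv := (convex_ball (0 : Matrix (Fin N) (Fin N) ℂ) η)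
        (mem_ball_zero_iff.2 h1) (mem_ball_zero_iff.2 h2) ha hb hab
      exact mem_ball_zero_iff.1 hcv
  have hloc : ∀ x : X, ∃ c : Fin 4 → Matrix (Fin N) (Fin N) ℂ, ∀ᶠ x' in 𝓝 x, c ∈ t x' := by
    intro x
    obtain ⟨c, hc1, hc2⟩ := hpt x
    refine ⟨c, ?_⟩
    have hcont : Continuous (fun x' => ‖w x' - SelPhi u c‖) := (hwc.sub continuous_const).norm
    have hx : ‖w x - SelPhi u c‖ < η := by
      rw [hc2, sub_self, norm_zero]
      exact hη
    have := (hcont.tendsto x).eventually (gt_mem_nhds hx)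
    filter_upwards [this] with x' hx'
    exact ⟨hc1, hx'⟩
  obtain ⟨y0, hy0⟩ := exists_continuous_forall_mem_convex_of_local_const htc hloc
  -- the remainder
  have hrmem : ∀ x, w x - SelPhi u (y0 x) ∈ LinearMap.range (SelPhi u) := by
    intro x
    obtain ⟨c, _, hc2⟩ := hpt x
    exact ⟨c - y0 x, by rw [map_sub, hc2]⟩
  let r : X → LinearMap.range (SelPhi u) := fun x => ⟨w x - SelPhi u (y0 x), hrmem x⟩
  have hΦc : Continuous (SelPhi u) := LinearMap.continuous_of_finiteDimensional _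
  have hgc : Continuous g := LinearMap.continuous_of_finiteDimensional _
  have hrc : Continuous r := by
    apply Continuous.subtype_mk
    exact hwc.sub (hΦc.comp y0.continuous)
  have hy0H : ∀ x j, (y0 x j).IsHermitian := fun x j => Sel_herm_of_psd _ _ ((hy0 x).1 j).1
  have hΦH : ∀ x, (SelPhi u (y0 x)).IsHermitian := by
    intro x
    rw [Matrix.IsHermitian, ← SelPhi_star]
    congr 1
    funext j
    exact hy0H x j
  have hrH : ∀ x, ((r x : Matrix (Fin N) (Fin N) ℂ))ᴴ = r x := by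
    intro x
    exact ((hwH x).sub (hΦH x)).eq
  -- symmetrised correction
  let s : X → Fin 4 → Matrix (Fin N) (Fin N) ℂ := fun x j =>
    (1 / 2 : ℝ) • (g (r x) j + (g (r x) j)ᴴ)
  have hsc : ∀ j, Continuous (fun x => s x j) := by
    intro j
    have h1 : Continuous (fun x => g (r x) j) := (continuous_apply j).comp (hgc.comp hrc)
    have h2 : Continuous (fun x => g (r x) j + (g (r x) j)ᴴ) := h1.add h1.matrix_conjTranspose
    exact h2.const_smul (1 / 2 : ℝ)
  have hsH : ∀ x j, (s x j).IsHermitian := by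
    intro x j
    rw [Matrix.IsHermitian, Matrix.conjTranspose_smul, Matrix.conjTranspose_add,
      Matrix.conjTranspose_conjTranspose, star_trivial, add_comm]
  have hsmall : ∀ x k i j, ‖s x k i j‖ ≤ (1 / 100) / N := by
    intro x k i j
    have h1 := hgη (r x) (hy0 x).2 k i j
    have h2 := hgη (r x) (hy0 x).2 k j i
    have e : s x k i j = (1 / 2 : ℝ) • (g (r x) k i j + star (g (r x) k j i)) := rfl
    rw [e, norm_smul]
    have h3 : ‖g (r x) k i j + star (g (r x) k j i)‖ ≤ (1 / 100) / N + (1 / 100) / N :=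
      (norm_add_le _ _).trans (add_le_add h1 (by rw [norm_star]; exact h2))
    have h4 : ‖(1 / 2 : ℝ)‖ = 1 / 2 := by norm_num
    rw [h4]
    linarith
  have hsΦ : ∀ x, SelPhi u (s x) = r x := by
    intro x
    have e : s x = (1 / 2 : ℝ) • (g (r x) + fun j => (g (r x) j)ᴴ) := by
      funext j
      rfl
    rw [e, map_smul, map_add, SelPhi_star, hg', hrH, ← two_smul ℝ, smul_smul]
    norm_num
  refine ⟨fun j x => y0 x j + s x j, ?_, ?_, ?_⟩
  · intro j
    exact ((continuous_apply j).comp y0.continuous).add (hsc j)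
  · intro j x
    have hε : (0 : ℝ) ≤ 1 / 100 := by norm_num
    have hp1 := Sel_psd_of_small (s x j) (hsH x j) (1 / 100) hε (hsmall x j)
    have hp2 := Sel_psd_of_small (-(s x j)) ((hsH x j).neg) (1 / 100) hε
      (fun i k => by rw [Matrix.neg_apply, norm_neg]; exact hsmall x j i k)
    constructor
    · have e : (((6 : ℝ) : ℂ) • (1 : Matrix (Fin N) (Fin N) ℂ) - (y0 x j + s x j)) =
          (((599 / 100 : ℝ) : ℂ) • (1 : Matrix (Fin N) (Fin N) ℂ) - y0 x j) +
          (((1 / 100 : ℝ) : ℂ) • (1 : Matrix (Fin N) (Fin N) ℂ) - s x j) := by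
        have : (((6 : ℝ) : ℂ) • (1 : Matrix (Fin N) (Fin N) ℂ)) =
            (((599 / 100 : ℝ) : ℂ) • (1 : Matrix (Fin N) (Fin N) ℂ)) +
            (((1 / 100 : ℝ) : ℂ) • (1 : Matrix (Fin N) (Fin N) ℂ)) := by
          rw [← add_smul]
          norm_num
        rw [this]
        abel
      rw [e]
      exact ((hy0 x).1 j).1.add hp1
    · have e : (((6 : ℝ) : ℂ) • (1 : Matrix (Fin N) (Fin N) ℂ) + (y0 x j + s x j)) =
          (((599 / 100 : ℝ) : ℂ) • (1 : Matrix (Fin N) (Fin N) ℂ) + y0 x j) +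
          (((1 / 100 : ℝ) : ℂ) • (1 : Matrix (Fin N) (Fin N) ℂ) - (-(s x j))) := by
        have : (((6 : ℝ) : ℂ) • (1 : Matrix (Fin N) (Fin N) ℂ)) =
            (((599 / 100 : ℝ) : ℂ) • (1 : Matrix (Fin N) (Fin N) ℂ)) +
            (((1 / 100 : ℝ) : ℂ) • (1 : Matrix (Fin N) (Fin N) ℂ)) := by
          rw [← add_smul]
          norm_num
        rw [this]
        abel
      rw [e]
      exact ((hy0 x).1 j).2.add hp2
  · intro x
    have e : ∑ j, (u j * (y0 x j + s x j) * (u j)ᴴ - (y0 x j + s x j)) = SelPhi u (y0 x + s x) := rfl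
    rw [e, map_add, hsΦ, ← hw]
    change SelPhi u (y0 x) + (w x - SelPhi u (y0 x)) = w x
    abel

end

end Crest.Agent.QT
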