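import Crest.Agent.QT_Defs

/-!
Task QT-Coef (medium).  Weyl coefficients of a matrix indexed by `ZMod N` (all direct finite sums; `ψ = ZMod.stdAddChar`,
`∑_j ψ (j * t) = N` if `t = 0`, else `0`: `AddChar.sum_mulShift`, `ZMod.isPrimitive_stdAddChar`).
`coef a p q = (1/N) ∑_j ψ(-(q j)) a (j+p) j`.
* `parseval`: `∑_{p,q} conj (coef a p q) * coef b p q = (1/N) ∑_{i,j} conj (a i j) * b i j`.
* `coef_diag`: for the diagonal unitary `D_e = diag (ψ (s² + e s))`: `(D a D*) (j+p) j = ψ(2 p j + p² + e p) a (j+p) j`, so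
  `coef (D_e a D_e*) p q = ψ (p² + e p) coef a p (q - 2p)`.
* `coef_F`: `F i j = ψ (i j)/√N`: `coef (F a F*) p q = (1/N) ∑_t ψ(p (t+q)) a (t+q) t = ψ(p q) coef a q (-p)`.
-/

set_option autoImplicit false

namespace Crest.Agent.QT

open scoped BigOperators ComplexConjugate Matrix

noncomputable section

variable {N : ℕ} [NeZero N]

/-- Weyl coefficients -/
def coef (a : Matrix (ZMod N) (ZMod N) ℂ) (p q : ZMod N) : ℂ :=
  (N : ℂ)⁻¹ * ∑ j, ZMod.stdAddChar (-(q * j)) * a (j + p) j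

/-- quadratic phase diagonal unitary -/
def Dg (N : ℕ) [NeZero N] (e : ZMod N) : Matrix (ZMod N) (ZMod N) ℂ :=
  Matrix.diagonal fun s => ZMod.stdAddChar (s ^ 2 + e * s)

/-- Fourier matrix -/
def Fr (N : ℕ) [NeZero N] : Matrix (ZMod N) (ZMod N) ℂ :=
  Matrix.of fun i j => ((Real.sqrt N : ℝ) : ℂ)⁻¹ * ZMod.stdAddChar (i * j)

private theorem coef_conj_char (x : ZMod N) :
    conj (ZMod.stdAddChar x : ℂ) = ZMod.stdAddChar (-x) :=
  (AddChar.map_neg_eq_conj _ _).symm

private theorem coef_star_char (x : ZMod N) :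
    star (ZMod.stdAddChar x : ℂ) = ZMod.stdAddChar (-x) :=
  (AddChar.map_neg_eq_conj _ _).symm

private theorem coef_sum (t : ZMod N) :
    ∑ j : ZMod N, (ZMod.stdAddChar (j * t) : ℂ) = if t = 0 then (N : ℂ) else 0 := by
  rw [AddChar.sum_mulShift t (ZMod.isPrimitive_stdAddChar N)]
  simp [ZMod.card]

private theorem coef_N_ne : (N : ℂ) ≠ 0 := by exact_mod_cast NeZero.ne N

theorem Dg_unitary (e : ZMod N) : Dg N e ∈ Matrix.unitaryGroup (ZMod N) ℂ := by
  rw [Matrix.mem_unitaryGroup_iff, Matrix.star_eq_conjTranspose, Dg,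
    Matrix.diagonal_conjTranspose, Matrix.diagonal_mul_diagonal, ← Matrix.diagonal_one]
  congr 1
  funext s
  rw [Pi.star_apply, coef_star_char, ← AddChar.map_add_eq_mul, add_neg_cancel,
    AddChar.map_zero_eq_one]

private theorem coef_sqrt_mul : (((Real.sqrt N : ℝ) : ℂ)⁻¹) * (((Real.sqrt N : ℝ) : ℂ)⁻¹) =
    (N : ℂ)⁻¹ := by
  rw [← mul_inv, ← Complex.ofReal_mul, Real.mul_self_sqrt (Nat.cast_nonneg _)]
  norm_num

theorem Fr_unitary : Fr N ∈ Matrix.unitaryGroup (ZMod N) ℂ := by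
  rw [Matrix.mem_unitaryGroup_iff, Matrix.star_eq_conjTranspose]
  ext i j
  rw [Matrix.mul_apply]
  have h : ∀ t : ZMod N, Fr N i t * (Fr N)ᴴ t j =
      (N : ℂ)⁻¹ * ZMod.stdAddChar (t * (i - j)) := by
    intro t
    rw [Matrix.conjTranspose_apply]
    simp only [Fr, Matrix.of_apply, star_mul', coef_star_char]
    rw [star_inv₀]
    have : star (((Real.sqrt N : ℝ) : ℂ)) = ((Real.sqrt N : ℝ) : ℂ) := Complex.conj_ofReal _
    rw [this]
    have h2 : (ZMod.stdAddChar (t * (i - j)) : ℂ) =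
        ZMod.stdAddChar (i * t) * ZMod.stdAddChar (-(j * t)) := by
      rw [← AddChar.map_add_eq_mul]; congr 1; ring
    rw [h2, ← coef_sqrt_mul]; ring
  rw [Finset.sum_congr rfl fun t _ => h t, ← Finset.mul_sum, coef_sum]
  rw [Matrix.one_apply]
  by_cases hij : i = j
  · rw [if_pos (by rw [hij, sub_self]), if_pos hij]
    exact inv_mul_cancel₀ coef_N_ne
  · rw [if_neg (by rw [sub_eq_zero]; exact hij), if_neg hij, mul_zero]

theorem parseval (a b : Matrix (ZMod N) (ZMod N) ℂ) :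
    ∑ p, ∑ q, conj (coef a p q) * coef b p q = (N : ℂ)⁻¹ * ∑ i, ∑ j, conj (a i j) * b i j := by
  have hN : (N : ℂ) ≠ 0 := coef_N_ne
  have h1 : ∀ p q : ZMod N, conj (coef a p q) * coef b p q =
      (N : ℂ)⁻¹ * (N : ℂ)⁻¹ * ∑ j, ∑ j', (conj (a (j + p) j) * b (j' + p) j') *
        ZMod.stdAddChar (q * (j - j')) := by
    intro p q
    unfold coef
    rw [map_mul, map_sum, map_inv₀, Complex.conj_natCast]
    have : ∀ X Y : ℂ, (N : ℂ)⁻¹ * X * ((N : ℂ)⁻¹ * Y) = (N : ℂ)⁻¹ * (N : ℂ)⁻¹ * (X * Y) := by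
      intros; ring
    rw [this, Finset.sum_mul_sum]
    congr 1
    refine Finset.sum_congr rfl fun j _ => Finset.sum_congr rfl fun j' _ => ?_
    rw [map_mul, coef_conj_char]
    have h2 : (ZMod.stdAddChar (q * (j - j')) : ℂ) =
        ZMod.stdAddChar (-(-(q * j))) * ZMod.stdAddChar (-(q * j')) := by
      rw [← AddChar.map_add_eq_mul]; congr 1; ring
    rw [h2]; ring
  have h3 : ∀ p : ZMod N, ∑ q, conj (coef a p q) * coef b p q =
      (N : ℂ)⁻¹ * ∑ j, conj (a (j + p) j) * b (j + p) j := by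
    intro p
    rw [Finset.sum_congr rfl fun q _ => h1 p q, ← Finset.mul_sum, Finset.sum_comm]
    have h4 : ∀ j : ZMod N, ∑ q : ZMod N, ∑ j' : ZMod N,
        (conj (a (j + p) j) * b (j' + p) j') * ZMod.stdAddChar (q * (j - j')) =
        (N : ℂ) * (conj (a (j + p) j) * b (j + p) j) := by
      intro j
      rw [Finset.sum_comm]
      have h5 : ∀ j' : ZMod N, ∑ q : ZMod N,
          (conj (a (j + p) j) * b (j' + p) j') * (ZMod.stdAddChar (q * (j - j')) : ℂ) =
          if j = j' then (N : ℂ) * (conj (a (j + p) j) * b (j + p) j) else 0 := by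
        intro j'
        rw [← Finset.mul_sum, coef_sum]
        by_cases hj : j = j'
        · subst hj; simp; ring
        · rw [if_neg (by rw [sub_eq_zero]; exact hj), if_neg hj, mul_zero]
      rw [Finset.sum_congr rfl fun j' _ => h5 j']
      simp
    rw [Finset.sum_congr rfl fun j _ => h4 j, ← Finset.mul_sum]
    field_simp
  rw [Finset.sum_congr rfl fun p _ => h3 p, ← Finset.mul_sum]
  congr 1
  have hR : ∑ i, ∑ j, conj (a i j) * b i j = ∑ j, ∑ i, conj (a i j) * b i j := Finset.sum_comm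
  rw [hR, Finset.sum_comm]
  refine Finset.sum_congr rfl fun j _ => ?_
  exact Fintype.sum_equiv (Equiv.addLeft j) (fun p => conj (a (j + p) j) * b (j + p) j)
    (fun i => conj (a i j) * b i j) (fun p => rfl)

theorem coef_zero_zero (a : Matrix (ZMod N) (ZMod N) ℂ) : coef a 0 0 = (N : ℂ)⁻¹ * a.trace := by
  unfold coef
  simp [Matrix.trace]

theorem coef_Dg (e : ZMod N) (a : Matrix (ZMod N) (ZMod N) ℂ) (p q : ZMod N) :
    coef (Dg N e * a * (Dg N e)ᴴ) p q = ZMod.stdAddChar (p ^ 2 + e * p) * coef a p (q - 2 * p) := by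
  unfold coef
  rw [mul_left_comm]
  congr 1
  rw [Finset.mul_sum]
  refine Finset.sum_congr rfl fun j _ => ?_
  have h1 : (Dg N e * a * (Dg N e)ᴴ) (j + p) j =
      ZMod.stdAddChar ((j + p) ^ 2 + e * (j + p)) * a (j + p) j *
        ZMod.stdAddChar (-(j ^ 2 + e * j)) := by
    rw [Dg, Matrix.diagonal_conjTranspose, Matrix.mul_diagonal, Matrix.diagonal_mul,
      Pi.star_apply, coef_star_char]
  rw [h1]
  have h2 : (ZMod.stdAddChar (-(q * j)) : ℂ) * ZMod.stdAddChar ((j + p) ^ 2 + e * (j + p)) *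
      ZMod.stdAddChar (-(j ^ 2 + e * j)) =
      ZMod.stdAddChar (p ^ 2 + e * p) * ZMod.stdAddChar (-((q - 2 * p) * j)) := by
    rw [← AddChar.map_add_eq_mul, ← AddChar.map_add_eq_mul, ← AddChar.map_add_eq_mul]
    congr 1; ring
  linear_combination a (j + p) j * h2

theorem coef_Fr (a : Matrix (ZMod N) (ZMod N) ℂ) (p q : ZMod N) :
    coef (Fr N * a * (Fr N)ᴴ) p q = ZMod.stdAddChar (p * q) * coef a q (-p) := by
  have hN : (N : ℂ) ≠ 0 := coef_N_ne
  have h1 : ∀ i j : ZMod N, (Fr N * a * (Fr N)ᴴ) i j =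
      (N : ℂ)⁻¹ * ∑ s, ∑ t, ZMod.stdAddChar (i * s) * ZMod.stdAddChar (-(j * t)) * a s t := by
    intro i j
    rw [Matrix.mul_apply]
    have : ∀ t : ZMod N, (Fr N * a) i t * (Fr N)ᴴ t j =
        (N : ℂ)⁻¹ * ∑ s, ZMod.stdAddChar (i * s) * ZMod.stdAddChar (-(j * t)) * a s t := by
      intro t
      rw [Matrix.mul_apply, Matrix.conjTranspose_apply, Finset.sum_mul, Finset.mul_sum]
      refine Finset.sum_congr rfl fun s _ => ?_
      simp only [Fr, Matrix.of_apply, star_mul', coef_star_char]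
      rw [star_inv₀]
      have : star (((Real.sqrt N : ℝ) : ℂ)) = ((Real.sqrt N : ℝ) : ℂ) := Complex.conj_ofReal _
      rw [this, ← coef_sqrt_mul]; ring
    rw [Finset.sum_congr rfl fun t _ => this t, ← Finset.mul_sum, Finset.sum_comm]
  unfold coef
  have h2 : ∑ j : ZMod N, (ZMod.stdAddChar (-(q * j)) : ℂ) * (Fr N * a * (Fr N)ᴴ) (j + p) j =
      ∑ t, ZMod.stdAddChar (p * (t + q)) * a (t + q) t := by
    have h3 : ∀ j : ZMod N, (ZMod.stdAddChar (-(q * j)) : ℂ) * (Fr N * a * (Fr N)ᴴ) (j + p) j =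
        (N : ℂ)⁻¹ * ∑ s, ∑ t, (ZMod.stdAddChar (p * s) * a s t) *
          ZMod.stdAddChar (j * (s - t - q)) := by
      intro j
      rw [h1, mul_left_comm, Finset.mul_sum]
      congr 1
      refine Finset.sum_congr rfl fun s _ => ?_
      rw [Finset.mul_sum]
      refine Finset.sum_congr rfl fun t _ => ?_
      have h4 : (ZMod.stdAddChar (-(q * j)) : ℂ) * ZMod.stdAddChar ((j + p) * s) *
          ZMod.stdAddChar (-(j * t)) =
          ZMod.stdAddChar (p * s) * ZMod.stdAddChar (j * (s - t - q)) := by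
        rw [← AddChar.map_add_eq_mul, ← AddChar.map_add_eq_mul, ← AddChar.map_add_eq_mul]
        congr 1; ring
      linear_combination a s t * h4
    rw [Finset.sum_congr rfl fun j _ => h3 j, ← Finset.mul_sum]
    have h5 : ∑ j : ZMod N, ∑ s, ∑ t, (ZMod.stdAddChar (p * s) * a s t) *
          (ZMod.stdAddChar (j * (s - t - q)) : ℂ) =
        ∑ s, ∑ t, if s = t + q then (N : ℂ) * (ZMod.stdAddChar (p * s) * a s t) else 0 := by
      rw [Finset.sum_comm]
      refine Finset.sum_congr rfl fun s _ => ?_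
      rw [Finset.sum_comm]
      refine Finset.sum_congr rfl fun t _ => ?_
      rw [← Finset.mul_sum, coef_sum]
      by_cases hs : s = t + q
      · rw [if_pos (by rw [hs]; ring), if_pos hs]; ring
      · rw [if_neg, if_neg hs, mul_zero]
        intro h0
        exact hs (by linear_combination h0)
    rw [h5, Finset.sum_comm, Finset.mul_sum]
    refine Finset.sum_congr rfl fun t _ => ?_
    rw [Finset.sum_ite_eq' Finset.univ (t + q)
      (fun s => (N : ℂ) * (ZMod.stdAddChar (p * s) * a s t))]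
    simp only [Finset.mem_univ, if_true]
    field_simp
  rw [h2, mul_left_comm]
  congr 1
  rw [Finset.mul_sum]
  refine Finset.sum_congr rfl fun t _ => ?_
  have h6 : (ZMod.stdAddChar (p * (t + q)) : ℂ) =
      ZMod.stdAddChar (p * q) * ZMod.stdAddChar (-(-p * t)) := by
    rw [← AddChar.map_add_eq_mul]; congr 1; ring
  rw [h6]; ring

/-- `|1 + ω^p| = 2 |cos (π p / N)|` -/
theorem norm_one_add_char (p : ZMod N) :
    ‖(1 : ℂ) + ZMod.stdAddChar p‖ = 2 * |Real.cos (Real.pi * (p.val : ℝ) / N)| := by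
  have h1 : (ZMod.stdAddChar p : ℂ) = Complex.exp (2 * Real.pi * Complex.I * (p.val : ℤ) / N) := by
    rw [← ZMod.stdAddChar_coe]
    congr 1
    simp
  set θ : ℝ := Real.pi * (p.val : ℝ) / N with hθ
  have h2 : (ZMod.stdAddChar p : ℂ) = Complex.exp (((2 * θ : ℝ) : ℂ) * Complex.I) := by
    rw [h1, hθ]; congr 1; push_cast; ring
  rw [h2]
  have h3 : (1 : ℂ) + Complex.exp (((2 * θ : ℝ) : ℂ) * Complex.I) =
      Complex.exp ((θ : ℂ) * Complex.I) * ((2 * Real.cos θ : ℝ) : ℂ) := by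
    push_cast
    rw [Complex.two_cos, mul_add, ← Complex.exp_add, ← Complex.exp_add, add_comm]
    congr 1
    · congr 1; ring
    · rw [show (θ : ℂ) * Complex.I + -(θ : ℂ) * Complex.I = 0 by ring, Complex.exp_zero]
  rw [h3, norm_mul, Complex.norm_exp_ofReal_mul_I, one_mul, Complex.norm_real, Real.norm_eq_abs,
    abs_mul, abs_two]

theorem cos_neg_val (p : ZMod N) :
    |Real.cos (Real.pi * ((-p).val : ℝ) / N)| = |Real.cos (Real.pi * (p.val : ℝ) / N)| := by
  by_cases hp : p = 0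
  · rw [hp, neg_zero]
  · have h1 : (-p).val = N - p.val := by
      rw [ZMod.neg_val, if_neg hp]
    have hlt : p.val ≤ N := (ZMod.val_lt p).le
    have hN : (N : ℝ) ≠ 0 := by exact_mod_cast NeZero.ne N
    rw [h1, Nat.cast_sub hlt]
    have : Real.pi * ((N : ℝ) - p.val) / N = Real.pi - Real.pi * (p.val : ℝ) / N := by
      field_simp
    rw [this, Real.cos_pi_sub, abs_neg]

end

end Crest.Agent.QT
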