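import Crest.Agent.QT_HLW
import Crest.Agent.QT_Coef

/-!
Task QT-Weyl (medium).  The quantum Gabber-Galil expander.  On `ZMod N` (`N` odd) take
`u = ![D₀, D₁, F* D₀ F, F* D₁ F]`, `D_e = Dg N e`, `F = Fr N` (see `QT_Coef`).
For `a` put `Q(a) = hs(a - D₀ a D₀*) + hs(a - D₁ a D₁*)`.  `hs (a - u a u*) = 2 hs a - 2 Re ∑ conj(a_ij) (u a u*)_ij`.
`Re ∑_{e=0,1} (1/N) ∑ conj(a_ij) (D_e a D_e*)_ij = Re ∑_{p,q} conj(coef a p q) ψ(p²) (1 + ψ p) coef a p (q-2p)`
`≤ ∑_{p,q} |coef a p (q+2p)| |coef a p q| 2 |cos(πp/N)|`.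
`∑_j hs(a - u_j a u_j*) = Q(a) + Q(F a F*)` (`hs` is unitarily invariant).  `|coef (FaF*) p q| = |coef a q (-p)|`, so the second
sum is (with `(p,q) → (-q, p)`) `∑ |coef a p q| |coef a (p-2q) q| 2 |cos(πq/N)|`.
For traceless `a` (`coef a 0 0 = 0`) `hlw` with `F p q = |coef a p q|` gives
`∑_j hs(a - u_j a u_j*) ≥ 8 hs a - 2·(73/20) hs a = (7/10) hs a`.  General `a`: replace `a` by `a - (tr a/N)·1`,
`hs (a - (tr a/N)·1) = hs a - |tr a|²/N`.
Finally transport from `ZMod N` to `Fin N` (`ZMod (n+1) = Fin (n+1)` by definition, or reindex along an equivalence;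
`hs`, trace, unitarity are invariant).
-/

set_option autoImplicit false

namespace Crest.Agent.QT

open scoped BigOperators ComplexConjugate Matrix

private lemma hs_nonneg' {ι : Type*} [Fintype ι] (a : Matrix ι ι ℂ) : 0 ≤ hs a :=
  Finset.sum_nonneg fun _ _ => Finset.sum_nonneg fun _ _ => sq_nonneg _

private lemma hs_trace {ι : Type*} [Fintype ι] (a : Matrix ι ι ℂ) :
    ((hs a : ℝ) : ℂ) = (aᴴ * a).trace := by
  unfold hs
  rw [Finset.sum_comm]
  simp only [Matrix.trace, Matrix.diag_apply, Matrix.mul_apply, Matrix.conjTranspose_apply]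
  push_cast
  refine Finset.sum_congr rfl fun i _ => Finset.sum_congr rfl fun j _ => ?_
  rw [← Complex.ofReal_pow, Complex.sq_norm, Complex.normSq_eq_conj_mul_self]
  rfl

private lemma hs_mul_left {ι : Type*} [Fintype ι] [DecidableEq ι] (u a : Matrix ι ι ℂ)
    (hu : uᴴ * u = 1) : hs (u * a) = hs a := by
  have : ((hs (u * a) : ℝ) : ℂ) = ((hs a : ℝ) : ℂ) := by
    rw [hs_trace, hs_trace, Matrix.conjTranspose_mul, Matrix.mul_assoc, ← Matrix.mul_assoc uᴴ,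
      hu, Matrix.one_mul]
  exact_mod_cast this

private lemma hs_mul_right {ι : Type*} [Fintype ι] [DecidableEq ι] (u a : Matrix ι ι ℂ)
    (hu : u * uᴴ = 1) : hs (a * u) = hs a := by
  have : ((hs (a * u) : ℝ) : ℂ) = ((hs a : ℝ) : ℂ) := by
    rw [hs_trace, hs_trace, Matrix.conjTranspose_mul, Matrix.mul_assoc, Matrix.trace_mul_comm,
      Matrix.mul_assoc, Matrix.mul_assoc, hu, Matrix.mul_one]
  exact_mod_cast this

private lemma hs_sub' {ι : Type*} [Fintype ι] (a b : Matrix ι ι ℂ) :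
    hs (a - b) = hs a + hs b - 2 * (∑ i, ∑ j, conj (a i j) * b i j).re := by
  unfold hs
  simp only [Complex.re_sum, Finset.mul_sum, ← Finset.sum_add_distrib, ← Finset.sum_sub_distrib]
  refine Finset.sum_congr rfl fun i _ => Finset.sum_congr rfl fun j _ => ?_
  rw [Matrix.sub_apply]
  simp only [Complex.sq_norm, Complex.normSq_apply, Complex.sub_re, Complex.sub_im, Complex.mul_re,
    Complex.conj_re, Complex.conj_im]
  ring

section

variable {N : ℕ} [NeZero N]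

private lemma NC_ne : (N : ℂ) ≠ 0 := by
  exact_mod_cast NeZero.ne N

private lemma ip_coef (a b : Matrix (ZMod N) (ZMod N) ℂ) :
    ∑ i, ∑ j, conj (a i j) * b i j = (N : ℂ) * ∑ p, ∑ q, conj (coef a p q) * coef b p q := by
  rw [parseval, ← mul_assoc, mul_inv_cancel₀ NC_ne, one_mul]

private lemma hs_coef (a : Matrix (ZMod N) (ZMod N) ℂ) :
    hs a = N * ∑ p, ∑ q, ‖coef a p q‖ ^ 2 := by
  have h := ip_coef a a
  have h1 : ∑ i, ∑ j, conj (a i j) * a i j = ((hs a : ℝ) : ℂ) := by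
    unfold hs
    push_cast
    refine Finset.sum_congr rfl fun i _ => Finset.sum_congr rfl fun j _ => ?_
    rw [← Complex.ofReal_pow, Complex.sq_norm, Complex.normSq_eq_conj_mul_self]
  have h2 : (N : ℂ) * ∑ p, ∑ q, conj (coef a p q) * coef a p q
      = ((N * ∑ p, ∑ q, ‖coef a p q‖ ^ 2 : ℝ) : ℂ) := by
    push_cast
    congr 1
    refine Finset.sum_congr rfl fun i _ => Finset.sum_congr rfl fun j _ => ?_
    rw [← Complex.ofReal_pow, Complex.sq_norm, Complex.normSq_eq_conj_mul_self]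
  rw [h1, h2] at h
  exact_mod_cast h

private lemma star_mul_self_of_mem {ι : Type*} [Fintype ι] [DecidableEq ι] {u : Matrix ι ι ℂ}
    (hu : u ∈ Matrix.unitaryGroup ι ℂ) : uᴴ * u = 1 := by
  have := Matrix.mem_unitaryGroup_iff'.1 hu
  simpa [Matrix.star_eq_conjTranspose] using this

private lemma mul_star_self_of_mem {ι : Type*} [Fintype ι] [DecidableEq ι] {u : Matrix ι ι ℂ}
    (hu : u ∈ Matrix.unitaryGroup ι ℂ) : u * uᴴ = 1 := by
  have := Matrix.mem_unitaryGroup_iff.1 hu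
  simpa [Matrix.star_eq_conjTranspose] using this

private lemma hs_conj {ι : Type*} [Fintype ι] [DecidableEq ι] {u : Matrix ι ι ℂ}
    (hu : u ∈ Matrix.unitaryGroup ι ℂ) (a : Matrix ι ι ℂ) : hs (u * a * uᴴ) = hs a := by
  rw [hs_mul_right, hs_mul_left]
  · exact star_mul_self_of_mem hu
  · rw [Matrix.conjTranspose_conjTranspose]
    exact star_mul_self_of_mem hu

private lemma Q_ge (a : Matrix (ZMod N) (ZMod N) ℂ) :
    4 * hs a - 2 * (N * ∑ p, ∑ q, 2 * ‖coef a p q‖ *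
        (‖coef a p (q + 2 * p)‖ * |Real.cos (Real.pi * (p.val : ℝ) / N)|)) ≤
      hs (a - Dg N 0 * a * (Dg N 0)ᴴ) + hs (a - Dg N 1 * a * (Dg N 1)ᴴ) := by
  rw [hs_sub', hs_sub', hs_conj (Dg_unitary 0), hs_conj (Dg_unitary 1),
    ip_coef a (Dg N 0 * a * (Dg N 0)ᴴ), ip_coef a (Dg N 1 * a * (Dg N 1)ᴴ)]
  have key : ((N : ℂ) * ∑ p, ∑ q, conj (coef a p q) * coef (Dg N 0 * a * (Dg N 0)ᴴ) p q).re
      + ((N : ℂ) * ∑ p, ∑ q, conj (coef a p q) * coef (Dg N 1 * a * (Dg N 1)ᴴ) p q).re ≤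
      N * ∑ p, ∑ q, 2 * ‖coef a p q‖ *
        (‖coef a p (q + 2 * p)‖ * |Real.cos (Real.pi * (p.val : ℝ) / N)|) := by
    rw [← Complex.add_re, ← mul_add, ← Finset.sum_add_distrib]
    refine (Complex.re_le_norm _).trans ?_
    rw [norm_mul, Complex.norm_natCast]
    refine mul_le_mul_of_nonneg_left ?_ (Nat.cast_nonneg _)
    refine (norm_sum_le _ _).trans (Finset.sum_le_sum fun p _ => ?_)
    rw [← Finset.sum_add_distrib, ← Equiv.sum_comp (Equiv.addRight (2 * p))]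
    refine (norm_sum_le _ _).trans (Finset.sum_le_sum fun q _ => ?_)
    simp only [Equiv.coe_addRight, coef_Dg, add_sub_cancel_right]
    have e : conj (coef a p (q + 2 * p)) * (ZMod.stdAddChar (p ^ 2 + 0 * p) * coef a p q) +
        conj (coef a p (q + 2 * p)) * (ZMod.stdAddChar (p ^ 2 + 1 * p) * coef a p q)
        = conj (coef a p (q + 2 * p)) * ZMod.stdAddChar (p ^ 2) * (1 + ZMod.stdAddChar p) *
          coef a p q := by
      rw [zero_mul, add_zero, one_mul, AddChar.map_add_eq_mul]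
      ring
    rw [e, norm_mul, norm_mul, norm_mul, norm_one_add_char, Complex.norm_conj, AddChar.norm_apply]
    apply le_of_eq
    ring
  linarith

private lemma gap_traceless (hN : Odd N) (a : Matrix (ZMod N) (ZMod N) ℂ) (h0 : coef a 0 0 = 0) :
    (7 / 10 : ℝ) * hs a ≤
      (hs (a - Dg N 0 * a * (Dg N 0)ᴴ) + hs (a - Dg N 1 * a * (Dg N 1)ᴴ)) +
      (hs (Fr N * a * (Fr N)ᴴ - Dg N 0 * (Fr N * a * (Fr N)ᴴ) * (Dg N 0)ᴴ) +
        hs (Fr N * a * (Fr N)ᴴ - Dg N 1 * (Fr N * a * (Fr N)ᴴ) * (Dg N 1)ᴴ)) := by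
  have h1 := Q_ge a
  have h2 := Q_ge (Fr N * a * (Fr N)ᴴ)
  rw [hs_conj Fr_unitary] at h2
  have h3 : ∑ p, ∑ q, 2 * ‖coef (Fr N * a * (Fr N)ᴴ) p q‖ *
        (‖coef (Fr N * a * (Fr N)ᴴ) p (q + 2 * p)‖ * |Real.cos (Real.pi * (p.val : ℝ) / N)|)
      = ∑ p, ∑ q, 2 * ‖coef a p q‖ *
        (‖coef a (p - 2 * q) q‖ * |Real.cos (Real.pi * (q.val : ℝ) / N)|) := by
    rw [← Equiv.sum_comp (Equiv.neg (ZMod N)), Finset.sum_comm]
    refine Finset.sum_congr rfl fun p _ => Finset.sum_congr rfl fun q _ => ?_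
    simp only [Equiv.neg_apply, coef_Fr, norm_mul, AddChar.norm_apply, one_mul, neg_neg,
      cos_neg_val]
    have : p + 2 * -q = p - 2 * q := by ring
    rw [this]
  rw [h3] at h2
  have h4 := hlw N hN (fun p q => ‖coef a p q‖) (fun _ _ => norm_nonneg _) (by simp [h0])
  have h5 : ∑ p, ∑ q, 2 * ‖coef a p q‖ *
        (‖coef a p (q + 2 * p)‖ * |Real.cos (Real.pi * (p.val : ℝ) / N)| +
          ‖coef a (p - 2 * q) q‖ * |Real.cos (Real.pi * (q.val : ℝ) / N)|)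
      = ∑ p, ∑ q, 2 * ‖coef a p q‖ *
        (‖coef a p (q + 2 * p)‖ * |Real.cos (Real.pi * (p.val : ℝ) / N)|)
        + ∑ p, ∑ q, 2 * ‖coef a p q‖ *
        (‖coef a (p - 2 * q) q‖ * |Real.cos (Real.pi * (q.val : ℝ) / N)|) := by
    rw [← Finset.sum_add_distrib]
    refine Finset.sum_congr rfl fun p _ => ?_
    rw [← Finset.sum_add_distrib]
    refine Finset.sum_congr rfl fun q _ => ?_
    ring
  have h6 := hs_coef a
  have hNpos : (0 : ℝ) ≤ N := Nat.cast_nonneg _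
  have h7 := mul_le_mul_of_nonneg_left h4 hNpos
  rw [h5, mul_add] at h7
  have h8 : (N : ℝ) * (73 / 20 * ∑ p, ∑ q, ‖coef a p q‖ ^ 2) = 73 / 20 * hs a := by
    rw [h6]; ring
  rw [h8] at h7
  linarith

private lemma hs_F (a D : Matrix (ZMod N) (ZMod N) ℂ) :
    hs (a - ((Fr N)ᴴ * D * Fr N) * a * ((Fr N)ᴴ * D * Fr N)ᴴ) =
      hs (Fr N * a * (Fr N)ᴴ - D * (Fr N * a * (Fr N)ᴴ) * Dᴴ) := by
  have hF := star_mul_self_of_mem (Fr_unitary (N := N))
  have e : a - ((Fr N)ᴴ * D * Fr N) * a * ((Fr N)ᴴ * D * Fr N)ᴴ =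
      (Fr N)ᴴ * (Fr N * a * (Fr N)ᴴ - D * (Fr N * a * (Fr N)ᴴ) * Dᴴ) * (Fr N)ᴴᴴ := by
    rw [Matrix.conjTranspose_conjTranspose, Matrix.conjTranspose_mul, Matrix.conjTranspose_mul,
      Matrix.conjTranspose_conjTranspose, Matrix.mul_sub, Matrix.sub_mul]
    congr 1
    · rw [← Matrix.mul_assoc, ← Matrix.mul_assoc, hF, Matrix.one_mul, Matrix.mul_assoc, hF,
        Matrix.mul_one]
    · simp only [Matrix.mul_assoc]
  rw [e]
  have hF' : (Fr N)ᴴ ∈ Matrix.unitaryGroup (ZMod N) ℂ := by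
    rw [← Matrix.star_eq_conjTranspose]
    exact Unitary.star_mem Fr_unitary
  exact hs_conj hF' _

private lemma sub_conj_smul {ι : Type*} [Fintype ι] [DecidableEq ι] {u : Matrix ι ι ℂ}
    (hu : u ∈ Matrix.unitaryGroup ι ℂ) (a : Matrix ι ι ℂ) (c : ℂ) :
    (a - c • 1) - u * (a - c • 1) * uᴴ = a - u * a * uᴴ := by
  rw [Matrix.mul_sub, Matrix.sub_mul, Matrix.mul_smul, Matrix.smul_mul, Matrix.mul_one,
    mul_star_self_of_mem hu]
  abel

private lemma hs_sub_trace (a : Matrix (ZMod N) (ZMod N) ℂ) :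
    hs (a - ((N : ℂ)⁻¹ * a.trace) • 1) = hs a - ‖a.trace‖ ^ 2 / N := by
  rw [hs_sub']
  have h1 : ∑ i, ∑ j, conj (a i j) * (((N : ℂ)⁻¹ * a.trace) • (1 : Matrix (ZMod N) (ZMod N) ℂ)) i j
      = ((‖a.trace‖ ^ 2 / N : ℝ) : ℂ) := by
    simp only [Matrix.smul_apply, Matrix.one_apply, smul_eq_mul, mul_ite, mul_one, mul_zero,
      Finset.sum_ite_eq, Finset.mem_univ, if_true]
    rw [← Finset.sum_mul]
    have : ∑ i, conj (a i i) = conj a.trace := by
      simp [Matrix.trace, map_sum]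
    rw [this]
    push_cast
    rw [← Complex.ofReal_pow, Complex.sq_norm, Complex.normSq_eq_conj_mul_self]
    field_simp
  have h2 : hs (((N : ℂ)⁻¹ * a.trace) • (1 : Matrix (ZMod N) (ZMod N) ℂ)) = ‖a.trace‖ ^ 2 / N := by
    unfold hs
    have : ∀ i j : ZMod N, ‖(((N : ℂ)⁻¹ * a.trace) • (1 : Matrix (ZMod N) (ZMod N) ℂ)) i j‖ ^ 2
        = if i = j then ((N : ℝ)⁻¹ * ‖a.trace‖) ^ 2 else 0 := by
      intro i j
      rw [Matrix.smul_apply, Matrix.one_apply]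
      split_ifs
      · rw [smul_eq_mul, mul_one, norm_mul, norm_inv, Complex.norm_natCast]
      · simp
    simp only [this, Finset.sum_ite_eq, Finset.mem_univ, if_true, Finset.sum_const,
      Finset.card_univ, ZMod.card, nsmul_eq_mul]
    have hN : (N : ℝ) ≠ 0 := by exact_mod_cast NeZero.ne N
    field_simp
  rw [h1, h2, Complex.ofReal_re]
  ring

private lemma coef_sub_trace (a : Matrix (ZMod N) (ZMod N) ℂ) :
    coef (a - ((N : ℂ)⁻¹ * a.trace) • 1) 0 0 = 0 := by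
  rw [coef_zero_zero, Matrix.trace_sub, Matrix.trace_smul, Matrix.trace_one, ZMod.card]
  have := NC_ne (N := N)
  rw [smul_eq_mul]
  field_simp
  ring

end

private theorem gapZ (N : ℕ) [NeZero N] (hN : Odd N) :
    ∃ u : Fin 4 → Matrix (ZMod N) (ZMod N) ℂ,
      (∀ j, u j ∈ Matrix.unitaryGroup (ZMod N) ℂ) ∧
      ∀ a : Matrix (ZMod N) (ZMod N) ℂ,
        (7 / 10 : ℝ) * (hs a - ‖a.trace‖ ^ 2 / N) ≤ ∑ j, hs (a - u j * a * (u j)ᴴ) := by
  have hF' : (Fr N)ᴴ ∈ Matrix.unitaryGroup (ZMod N) ℂ := by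
    rw [← Matrix.star_eq_conjTranspose]
    exact Unitary.star_mem Fr_unitary
  have hU : ∀ e, (Fr N)ᴴ * Dg N e * Fr N ∈ Matrix.unitaryGroup (ZMod N) ℂ := fun e =>
    mul_mem (mul_mem hF' (Dg_unitary e)) Fr_unitary
  refine ⟨![Dg N 0, Dg N 1, (Fr N)ᴴ * Dg N 0 * Fr N, (Fr N)ᴴ * Dg N 1 * Fr N], ?_, ?_⟩
  · intro j
    fin_cases j
    · exact Dg_unitary 0
    · exact Dg_unitary 1
    · exact hU 0
    · exact hU 1
  · intro a
    rw [← hs_sub_trace, Fin.sum_univ_four]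
    set b := a - ((N : ℂ)⁻¹ * a.trace) • (1 : Matrix (ZMod N) (ZMod N) ℂ) with hb
    have h := gap_traceless hN b (coef_sub_trace a)
    rw [← hs_F, ← hs_F] at h
    rw [hb, sub_conj_smul (Dg_unitary 0), sub_conj_smul (Dg_unitary 1), sub_conj_smul (hU 0),
      sub_conj_smul (hU 1), ← hb] at h
    simp only [Matrix.cons_val_zero, Matrix.cons_val_one, Matrix.cons_val]
    linarith

theorem quantum_gap (N : ℕ) (hN : Odd N) : ∃ u : Fin 4 → Matrix (Fin N) (Fin N) ℂ, Gap4 u := by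
  obtain ⟨n, rfl⟩ : ∃ n, N = n + 1 := ⟨N - 1, by have := hN.pos; omega⟩
  exact gapZ (n + 1) hN

end Crest.Agent.QT
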