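import Crest.Agent.QT_ZZ
import Crest.Agent.QT_Weyl
import Crest.Agent.QT_Sel

/-!
Task QT-Rel (medium).  The relation `∑ (u_j y_j u_j* - y_j) = 1` modulo the closed ideal generated by `zz`.
For each `k` (`N_k = 21 (2k+1)²` is odd, `M_k = 2k+1 ≤ N_k/21`): `quantum_gap`, then `rep_cont` for `q(P) = 1 - zmat (Cc k) P`
(`X = PX ..`), the unitaries are constant functions; `‖y_j k‖ ≤ 6` by `norm_le_of_psd`; assemble elements of `BB`.
`∑ (u_j y_j u_j* - y_j) - 1 = - zz - t`, `t k = (tr q / N_k)·1`, `‖t k‖ ≤ M_k/N_k = 1/(21(2k+1)) → 0`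
(`trace_one_sub_zmat`), so `t ∈ closure (idealGen zz)` by `mem_closure_of_tendsto_zero`; `zz ∈ idealGen zz`; closure is
closed under sums and negation.
-/

set_option autoImplicit false

namespace Crest.Agent.QT

open scoped Matrix ComplexOrder Matrix.Norms.L2Operator ENNReal

theorem Rel_sub_mem {B : Type*} [Ring B] (z x : B) (hx : x ∈ idealGen z) : x - z ∈ idealGen z := by
  obtain ⟨R, c, d, rfl⟩ := hx
  refine ⟨R + 1, Fin.snoc c (-1), Fin.snoc d 1, ?_⟩
  rw [Fin.sum_univ_castSucc]
  simp [sub_eq_add_neg]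

theorem Rel_odd (k : ℕ) : Odd (Nn k) := by
  unfold Nn
  have h1 : Odd (2 * k + 1) := ⟨k, rfl⟩
  exact (by decide : Odd 21).mul (h1.pow)

theorem relation_mod : ∃ u y : Fin 4 → BB, (∀ j, u j ∈ unitary BB) ∧ (∀ j, IsSelfAdjoint (y j)) ∧
    (∀ j, ‖y j‖ ≤ 6) ∧
    ∑ j, (u j * y j * star (u j) - y j) - 1 ∈ closure (idealGen zz) := by
  choose U hU using fun k => quantum_gap (Nn k) (Rel_odd k)
  have hex := fun k => rep_cont (X := PX (Fin (Nn k) × Fin (Mm k))) (U k) (hU k)
    (fun P => 1 - zmat (Cc k) P.1) (continuous_const.sub (continuous_zmat (Cc_pos k).le))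
    (fun P => one_sub_zmat_posSemidef (Cc_pos k).le P)
    (fun P => by
      rw [sub_sub_cancel]
      exact zmat_posSemidef (Cc_pos k).le P)
    (fun P => by
      refine (trace_one_sub_zmat (Cc_pos k).le P).2.1.trans ?_
      unfold Mm Nn
      push_cast
      have : (0 : ℝ) ≤ k := Nat.cast_nonneg k
      rw [mul_div_cancel_left₀ _ (by norm_num : (21 : ℝ) ≠ 0)]
      nlinarith)
  choose Y hYc hYb hYs using hex
  -- the unitaries
  let uf : Fin 4 → ∀ k, Fk k := fun j k => ContinuousMap.const _ (U k j)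
  have huf : ∀ j k, uf j k ∈ unitary (Fk k) := by
    intro j k
    have h1 := (hU k).1 j
    rw [Matrix.mem_unitaryGroup_iff'] at h1
    have h2 := (hU k).1 j
    rw [Matrix.mem_unitaryGroup_iff] at h2
    rw [Unitary.mem_iff]
    constructor
    · ext1 P
      exact h1
    · ext1 P
      exact h2
  have hufn : ∀ j k, ‖uf j k‖ = 1 := fun j k => CStarRing.norm_of_mem_unitary (huf j k)
  have hum : ∀ j, Memℓp (uf j) ∞ := by
    intro j
    refine memℓp_infty ⟨1, ?_⟩
    rintro _ ⟨k, rfl⟩
    exact (hufn j k).le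
  let u : Fin 4 → BB := fun j => ⟨uf j, hum j⟩
  -- the self-adjoint elements
  let yf : Fin 4 → ∀ k, Fk k := fun j k => ⟨Y k j, hYc k j⟩
  have hyfn : ∀ j k, ‖yf j k‖ ≤ 6 := by
    intro j k
    rw [ContinuousMap.norm_le _ (by norm_num)]
    intro P
    exact norm_le_of_psd _ 6 (by norm_num) (hYb k j P).1 (hYb k j P).2
  have hym : ∀ j, Memℓp (yf j) ∞ := by
    intro j
    refine memℓp_infty ⟨6, ?_⟩
    rintro _ ⟨k, rfl⟩
    exact hyfn j k
  let y : Fin 4 → BB := fun j => ⟨yf j, hym j⟩
  refine ⟨u, y, ?_, ?_, ?_, ?_⟩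
  · intro j
    rw [Unitary.mem_iff]
    constructor
    · ext1
      funext k
      exact (Unitary.mem_iff.1 (huf j k)).1
    · ext1
      funext k
      exact (Unitary.mem_iff.1 (huf j k)).2
  · intro j
    have h1 : ∀ k P, (Y k j P)ᴴ = Y k j P := by
      intro k P
      have h2 := (hYb k j P).2.1
      have h3 : (((6 : ℝ) : ℂ) • (1 : Matrix (Fin (Nn k)) (Fin (Nn k)) ℂ)).IsHermitian := by
        rw [Matrix.IsHermitian, Matrix.conjTranspose_smul, Matrix.conjTranspose_one]
        simp
      have h4 := h2.sub h3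
      rw [add_sub_cancel_left] at h4
      exact h4
    rw [isSelfAdjoint_iff]
    ext1
    funext k
    ext1 P
    exact h1 k P
  · intro j
    exact lp.norm_le_of_forall_le (by norm_num) (hyfn j)
  · set S : BB := ∑ j, (u j * y j * star (u j) - y j) - 1 with hS
    have hb : S + zz ∈ closure (idealGen zz) := by
      refine mem_closure_of_tendsto_zero _ ?_
      have hval : ∀ k (P : PX (Fin (Nn k) × Fin (Mm k))), ((S + zz : BB) : ∀ k, Fk k) k P =
          - (((1 - zmat (Cc k) P.1).trace / (Nn k)) • (1 : Matrix (Fin (Nn k)) (Fin (Nn k)) ℂ)) := by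
        intro k P
        have h1 : ((S + zz : BB) : ∀ k, Fk k) k P =
            ∑ j, (U k j * Y k j P * (U k j)ᴴ - Y k j P) - 1 + zmat (Cc k) P.1 := by
          have h2 : ((S + zz : BB) : ∀ k, Fk k) k =
            ∑ j, (uf j k * yf j k * star (uf j k) - yf j k) - 1 + zfun k := by
            rw [hS]
            simp only [lp.coeFn_add, lp.coeFn_sub, Pi.add_apply, Pi.sub_apply, lp.coeFn_sum,
              Finset.sum_apply, lp.infty_coeFn_mul, Pi.mul_apply, lp.coeFn_star, Pi.star_apply,
              lp.infty_coeFn_one, Pi.one_apply]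
            rfl
          rw [h2]
          simp only [ContinuousMap.add_apply, ContinuousMap.sub_apply, ContinuousMap.one_apply,
            ContinuousMap.sum_apply, ContinuousMap.mul_apply, ContinuousMap.star_apply]
          rfl
        rw [h1, hYs k P]
        abel
      have hnorm : ∀ k, ‖((S + zz : BB) : ∀ k, Fk k) k‖ ≤ 1 / (21 * (2 * k + 1)) := by
        intro k
        have hkpos : (0 : ℝ) < 2 * k + 1 := by positivity
        rw [ContinuousMap.norm_le _ (by positivity)]
        intro P
        rw [hval k P, norm_neg, norm_smul, norm_one, mul_one, norm_div]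
        obtain ⟨h1, h2, h3⟩ := trace_one_sub_zmat (Cc_pos k).le P
        have h4 : ‖(1 - zmat (Cc k) P.1).trace‖ = ((1 - zmat (Cc k) P.1).trace).re := by
          conv_lhs => rw [← Complex.re_add_im (1 - zmat (Cc k) P.1).trace, h3]
          simp only [Complex.ofReal_zero, zero_mul, add_zero]
          rw [Complex.norm_real, Real.norm_of_nonneg h1]
        rw [h4]
        have h5 : ‖((Nn k : ℕ) : ℂ)‖ = (21 * (2 * k + 1) ^ 2 : ℝ) := by
          rw [Complex.norm_natCast]
          unfold Nn
          push_cast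
          ring
        rw [h5, div_le_div_iff₀ (by positivity) (by positivity)]
        have h6 : ((1 - zmat (Cc k) P.1).trace).re ≤ 2 * k + 1 := by
          refine h2.trans (le_of_eq ?_)
          unfold Mm
          push_cast
          ring
        nlinarith
      refine squeeze_zero (fun k => norm_nonneg _) hnorm ?_
      have h7 : Filter.Tendsto (fun k : ℕ => (21 * (2 * (k : ℝ) + 1))) Filter.atTop
          Filter.atTop := by
        refine Filter.Tendsto.const_mul_atTop (by norm_num) ?_
        refine Filter.tendsto_atTop_add_const_right _ _ ?_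
        exact Filter.Tendsto.const_mul_atTop (by norm_num) tendsto_natCast_atTop_atTop
      refine h7.inv_tendsto_atTop.congr fun k => ?_
      rw [Pi.inv_apply, one_div]
    have hfin : S = (S + zz) - zz := by abel
    rw [hfin]
    exact map_mem_closure (f := fun x : BB => x - zz) (by fun_prop) hb
      (fun x hx => Rel_sub_mem zz x hx)

end Crest.Agent.QT
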