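import Crest.Agent.QT_Defs

/-!
Task QT-Sep (easy/medium).  Separable subalgebras.
`sep_sub`: `A₀` = closure of `StarAlgebra.adjoin ℂ s` (`StarSubalgebra.topologicalClosure`), a C*-algebra by
`StarSubalgebra.cstarAlgebra`.  Separability of the closure of an adjoin of a finite set: the adjoin is spanned over `ℂ`
by the (countable) submonoid generated by `s ∪ star s`; use `TopologicalSpace.IsSeparable` (`IsSeparable.span`,
`Set.Countable.isSeparable`, `IsSeparable.closure`).
`sep_matrix`: `CStarMatrix n n A` is homeomorphic to `n → n → A` (its topology is by definition that one).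
-/

set_option autoImplicit false

namespace Crest.Agent.QT

private theorem Sep_countable_closure {A : Type*} [Monoid A] (t : Set A) (ht : t.Countable) :
    (Submonoid.closure t : Set A).Countable := by
  haveI : Countable t := ht.to_subtype
  rw [Submonoid.closure_eq_mrange, MonoidHom.coe_mrange]
  haveI : Countable (FreeMonoid t) := inferInstanceAs (Countable (List t))
  exact Set.countable_range _

theorem sep_sub {A : Type} [CStarAlgebra A] (s : Set A) (hs : s.Finite) :
    ∃ (A₀ : Type) (_ : CStarAlgebra A₀) (φ : A₀ →⋆ₐ[ℂ] A), TopologicalSpace.SeparableSpace A₀ ∧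
      (∀ x, ‖φ x‖ = ‖x‖) ∧ s ⊆ Set.range φ := by
  let S : StarSubalgebra ℂ A := (StarAlgebra.adjoin ℂ s).topologicalClosure
  have hSc : IsClosed (S : Set A) := StarSubalgebra.isClosed_topologicalClosure _
  have hsep : TopologicalSpace.IsSeparable (S : Set A) := by
    have h1 : (S : Set A) = closure (StarAlgebra.adjoin ℂ s : Set A) :=
      StarSubalgebra.topologicalClosure_coe _
    rw [h1]
    apply TopologicalSpace.IsSeparable.closure
    have h2 : (StarAlgebra.adjoin ℂ s : Set A) =
        (Submodule.span ℂ ((Submonoid.closure (s ∪ star s) : Submonoid A) : Set A) : Set A) := by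
      rw [← Algebra.adjoin_eq_span, ← StarAlgebra.adjoin_toSubalgebra]
      rfl
    rw [h2]
    apply TopologicalSpace.IsSeparable.span
    apply Set.Countable.isSeparable
    apply Sep_countable_closure
    refine hs.countable.union ?_
    rw [← Set.image_star]
    exact hs.countable.image _
  refine ⟨S, StarSubalgebra.cstarAlgebra S (h_closed := hSc), S.subtype, ?_, fun x => rfl, ?_⟩
  · exact hsep.separableSpace
  · intro a ha
    exact ⟨⟨a, StarSubalgebra.le_topologicalClosure _ (StarAlgebra.subset_adjoin ℂ s ha)⟩, rfl⟩

theorem sep_matrix {A : Type*} [CStarAlgebra A] [PartialOrder A] [StarOrderedRing A]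
    [TopologicalSpace.SeparableSpace A] (n : ℕ) :
    TopologicalSpace.SeparableSpace (CStarMatrix (Fin n) (Fin n) A) := by
  haveI : TopologicalSpace.SeparableSpace (Fin n → Fin n → A) := inferInstance
  have e : Matrix (Fin n) (Fin n) A ≃L[ℂ] CStarMatrix (Fin n) (Fin n) A := CStarMatrix.ofMatrixL
  haveI : TopologicalSpace.SeparableSpace (Matrix (Fin n) (Fin n) A) :=
    inferInstanceAs (TopologicalSpace.SeparableSpace (Fin n → Fin n → A))
  exact e.surjective.denseRange.separableSpace e.continuous

end Crest.Agent.QT
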