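import Crest.Agent.QT_Cz1

/-!
Task QT-NSalg (easy/medium).  `NoShrink` passes to subalgebras (any unital `*`-homomorphism into an algebra with
`NoShrink`; `*`-homomorphisms of C*-algebras are contractive) and to matrix algebras.
-/

set_option autoImplicit false

namespace Crest.Agent.QT

theorem noShrink_of_hom {A B : Type*} [CStarAlgebra A] [CStarAlgebra B] (φ : A →⋆ₐ[ℂ] B)
    (H : NoShrink B) : NoShrink A := by
  intro m h
  apply H m
  intro ε hε
  obtain ⟨x, hx⟩ := h ε hε
  refine ⟨fun j i => φ (x j i), fun i i' => ?_⟩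
  have h1 : ((if i = i' then (1 : B) else 0) - ∑ j, star (φ (x j i)) * 1 * φ (x j i')) =
      φ ((if i = i' then (1 : A) else 0) - ∑ j, star (x j i) * 1 * x j i') := by
    rw [map_sub, map_sum]
    congr 1
    · split_ifs <;> simp
    · simp [map_star]
  rw [h1]
  exact lt_of_le_of_lt (NonUnitalStarAlgHom.norm_apply_le φ _) (hx i i')

theorem noShrink_cstarMatrix {A : Type*} [CStarAlgebra A] [PartialOrder A] [StarOrderedRing A] (n : ℕ) (hn : 0 < n) (H : NoShrink A) :
    NoShrink (CStarMatrix (Fin n) (Fin n) A) := by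
  intro m h
  have h2 : Cz (fun _ : Fin (m + 1) × Fin n => (1 : A)) (fun _ : Fin m × Fin n => (1 : A)) := by
    intro ε hε
    obtain ⟨x, hx⟩ := h ε hε
    refine ⟨fun kp iq => (x kp.1 iq.1) kp.2 iq.2, ?_⟩
    rintro ⟨i, q⟩ ⟨i', q'⟩
    refine lt_of_le_of_lt ?_ (hx i i')
    have h3 := CStarMatrix.norm_entry_le_norm (M := (if i = i' then (1 : CStarMatrix (Fin n) (Fin n) A)
      else 0) - ∑ j, star (x j i) * 1 * x j i') (i := q) (j := q')
    refine le_trans (le_of_eq ?_) h3
    congr 1
    rw [CStarMatrix.sub_apply]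
    congr 1
    · by_cases h4 : i = i'
      · subst h4
        by_cases h5 : q = q'
        · subst h5; simp
        · simp [h5, CStarMatrix.one_apply]
      · simp [h4, Prod.ext_iff]
    · have h6 : ∀ j, (show CStarMatrix (Fin n) (Fin n) A from star (x j i) * 1 * x j i') q q' =
          ∑ p, star (x j i p q) * x j i' p q' := by
        intro j
        show (star (x j i) * 1 * x j i' : CStarMatrix (Fin n) (Fin n) A) q q' = _
        rw [mul_one, CStarMatrix.mul_apply]
        simp [CStarMatrix.star_apply]
      have h7 : ∀ (s : Finset (Fin m)) (F : Fin m → CStarMatrix (Fin n) (Fin n) A),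
          (∑ j ∈ s, F j) q q' = ∑ j ∈ s, F j q q' := by
        intro s F
        induction s using Finset.induction_on with
        | empty => simp
        | insert a s ha ih => rw [Finset.sum_insert ha, Finset.sum_insert ha, CStarMatrix.add_apply, ih]
      rw [Fintype.sum_prod_type, h7]
      refine Finset.sum_congr rfl fun j _ => ?_
      rw [show (star (x j i) * (1 : CStarMatrix (Fin n) (Fin n) A) * x j i') q q' = _ from h6 j]
      simp
  have hcard : Fintype.card (Fin (m * n + 1)) ≤ Fintype.card (Fin (m + 1) × Fin n) := by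
    simp only [Fintype.card_fin, Fintype.card_prod]
    nlinarith
  obtain ⟨e⟩ := Function.Embedding.nonempty_of_card_le hcard
  exact H (m * n) (Cz.reindex e finProdFinEquiv.symm h2)

end Crest.Agent.QT
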