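import Crest.Agent.QT_One
import Crest.Agent.QT_NSalg

/-!
Task QT-Two (medium).  Normalized 2-quasitrace.  Use the order `CStarAlgebra.spectralOrder A`
(`letI := CStarAlgebra.spectralOrder A; haveI := CStarAlgebra.spectralOrderedRing A`) to get the norm of `CStarMatrix`.  Let `σ` be a 1-quasitrace on `CStarMatrix (Fin 2) (Fin 2) A`
(`exists_oneQuasitrace` + `noShrink_cstarMatrix`), `τ₂ M := 2 * σ (CStarMatrix.ofMatrix M)`,
`τ x := τ₂ (Matrix.single 0 0 x)`.  `τ₂` is a 1-quasitrace on `Matrix (Fin 2) (Fin 2) A` (transport along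
`CStarMatrix.ofMatrixStarAlgEquiv`; scaling by 2).  `τ` is a 1-quasitrace: for a commutative star subalgebra `S` of `A` the
diagonal matrices `diag(x, λ 1)`, `x ∈ S`, `λ ∈ ℂ` form a commutative star subalgebra of `M₂(A)`.
`τ 1 = 1`: `e₀₀ + e₁₁ = 1` commute, and `e₀₀ = s* s`, `e₁₁ = s s*` for a matrix unit `s`, so `σ e₀₀ = 1/2`.
-/

set_option autoImplicit false

namespace Crest.Agent.QT

section transport
variable {C D : Type*} [Ring C] [StarRing C] [Algebra ℂ C] [StarModule ℂ C]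
  [Ring D] [StarRing D] [Algebra ℂ D] [StarModule ℂ D]

/-- transport of a 1-quasitrace along a unital star homomorphism (and scaling) -/
private theorem oneQuasitrace_comp (φ : C →⋆ₐ[ℂ] D) {σ : D → ℂ} (hσ : Crest.OpAlg.IsOneQuasitrace σ)
    (r : ℝ) (hr : 0 ≤ r) : Crest.OpAlg.IsOneQuasitrace (fun x : C => (r : ℂ) * σ (φ x)) := by
  obtain ⟨h1, h2, h3⟩ := hσ
  refine ⟨fun x => ?_, fun h k hh hk => ?_, fun S hS => ?_⟩
  · obtain ⟨a, b, c⟩ := h1 (φ x)
    simp only [map_mul, map_star]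
    refine ⟨by rw [a], ?_, ?_⟩
    · rw [Complex.im_ofReal_mul, b, mul_zero]
    · rw [Complex.re_ofReal_mul]; positivity
  · simp only [map_add, map_smul]
    rw [h2 (φ h) (φ k) (hh.map φ) (hk.map φ)]
    ring
  · obtain ⟨a, b⟩ := h3 (S.map φ) (by
      rintro _ ⟨x, hx, rfl⟩ _ ⟨y, hy, rfl⟩
      have := hS x hx y hy
      show φ x * φ y = φ y * φ x
      rw [← map_mul, ← map_mul, this])
    refine ⟨fun x hx y hy => ?_, fun c x hx => ?_⟩
    · simp only [map_add]
      rw [a (φ x) ⟨x, hx, rfl⟩ (φ y) ⟨y, hy, rfl⟩]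
      ring
    · simp only [map_smul]
      rw [b c (φ x) ⟨x, hx, rfl⟩]
      ring

/-- diagonal matrices with entries in a star subalgebra -/
private def diagSub (S : StarSubalgebra ℂ C) : StarSubalgebra ℂ (Matrix (Fin 2) (Fin 2) C) where
  carrier := {M | ∃ d : Fin 2 → C, (∀ i, d i ∈ S) ∧ M = Matrix.diagonal d}
  mul_mem' := by
    rintro _ _ ⟨d, hd, rfl⟩ ⟨e, he, rfl⟩
    exact ⟨fun i => d i * e i, fun i => mul_mem (hd i) (he i), Matrix.diagonal_mul_diagonal d e⟩
  add_mem' := by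
    rintro _ _ ⟨d, hd, rfl⟩ ⟨e, he, rfl⟩
    exact ⟨fun i => d i + e i, fun i => add_mem (hd i) (he i), Matrix.diagonal_add d e⟩
  algebraMap_mem' := by
    intro r
    refine ⟨fun _ => algebraMap ℂ C r, fun _ => algebraMap_mem S r, ?_⟩
    rw [Matrix.algebraMap_eq_diagonal]
    rfl
  star_mem' := by
    rintro _ ⟨d, hd, rfl⟩
    exact ⟨fun i => star (d i), fun i => star_mem (hd i), Matrix.diagonal_conjTranspose d⟩

private theorem diagSub_comm (S : StarSubalgebra ℂ C) (hS : ∀ x ∈ S, ∀ y ∈ S, x * y = y * x) :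
    ∀ x ∈ diagSub S, ∀ y ∈ diagSub S, x * y = y * x := by
  rintro _ ⟨d, hd, rfl⟩ _ ⟨e, he, rfl⟩
  rw [Matrix.diagonal_mul_diagonal, Matrix.diagonal_mul_diagonal]
  congr 1
  funext i
  exact hS _ (hd i) _ (he i)

private theorem single00_eq (x : C) :
    Matrix.single (0 : Fin 2) (0 : Fin 2) x = Matrix.diagonal ![x, 0] := by
  ext i j
  fin_cases i <;> fin_cases j <;> simp [Matrix.single]

private theorem single11_eq (x : C) :
    Matrix.single (1 : Fin 2) (1 : Fin 2) x = Matrix.diagonal ![0, x] := by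
  ext i j
  fin_cases i <;> fin_cases j <;> simp [Matrix.single]

private theorem single00_mem (S : StarSubalgebra ℂ C) {x : C} (hx : x ∈ S) :
    Matrix.single (0 : Fin 2) (0 : Fin 2) x ∈ diagSub S := by
  refine ⟨![x, 0], fun i => ?_, single00_eq x⟩
  fin_cases i
  · exact hx
  · exact zero_mem S

private theorem single11_mem (S : StarSubalgebra ℂ C) {x : C} (hx : x ∈ S) :
    Matrix.single (1 : Fin 2) (1 : Fin 2) x ∈ diagSub S := by
  refine ⟨![0, x], fun i => ?_, single11_eq x⟩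
  fin_cases i
  · exact zero_mem S
  · exact hx

/-- the corner of a 1-quasitrace on `M₂` is a 1-quasitrace -/
private theorem oneQuasitrace_corner {τ₂ : Matrix (Fin 2) (Fin 2) C → ℂ}
    (h : Crest.OpAlg.IsOneQuasitrace τ₂) :
    Crest.OpAlg.IsOneQuasitrace (fun x : C => τ₂ (Matrix.single 0 0 x)) := by
  obtain ⟨h1, h2, h3⟩ := h
  refine ⟨fun x => ?_, fun h k hh hk => ?_, fun S hS => ?_⟩
  · obtain ⟨a, b, c⟩ := h1 (Matrix.single 0 0 x)
    have e1 : star (Matrix.single (0 : Fin 2) (0 : Fin 2) x) * Matrix.single 0 0 x =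
        Matrix.single 0 0 (star x * x) := by
      rw [Matrix.star_eq_conjTranspose, Matrix.conjTranspose_single,
        Matrix.single_mul_single_same]
    have e2 : Matrix.single (0 : Fin 2) (0 : Fin 2) x * star (Matrix.single 0 0 x) =
        Matrix.single 0 0 (x * star x) := by
      rw [Matrix.star_eq_conjTranspose, Matrix.conjTranspose_single,
        Matrix.single_mul_single_same]
    rw [e1] at a b c
    rw [e2] at a
    exact ⟨a, b, c⟩
  · have hs : ∀ z : C, IsSelfAdjoint z → IsSelfAdjoint (Matrix.single (0 : Fin 2) (0 : Fin 2) z) := by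
      intro z hz
      rw [IsSelfAdjoint, Matrix.star_eq_conjTranspose, Matrix.conjTranspose_single, hz.star_eq]
    have := h2 _ _ (hs h hh) (hs k hk)
    rw [← this]
    congr 1
    rw [Matrix.smul_single, ← Matrix.single_add]
  · obtain ⟨a, b⟩ := h3 (diagSub S) (diagSub_comm S hS)
    refine ⟨fun x hx y hy => ?_, fun c x hx => ?_⟩
    · rw [← a _ (single00_mem S hx) _ (single00_mem S hy), ← Matrix.single_add]
    · rw [← b c _ (single00_mem S hx), Matrix.smul_single]

end transport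

theorem exists_twoQuasitrace {A : Type*} [CStarAlgebra A] (H : NoShrink A) :
    ∃ τ : A → ℂ, Crest.OpAlg.IsNormalizedTwoQuasitrace τ := by
  letI := CStarAlgebra.spectralOrder A
  haveI := CStarAlgebra.spectralOrderedRing A
  obtain ⟨σ, hσ, hσ1⟩ := exists_oneQuasitrace (noShrink_cstarMatrix 2 (by norm_num) H)
  have hσ' := oneQuasitrace_comp
    (CStarMatrix.ofMatrixStarAlgEquiv (n := Fin 2) (A := A) : Matrix (Fin 2) (Fin 2) A →⋆ₐ[ℂ]
      CStarMatrix (Fin 2) (Fin 2) A) hσ 2 (by norm_num)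
  obtain ⟨τ₂, hτ₂⟩ : ∃ τ₂ : Matrix (Fin 2) (Fin 2) A → ℂ, τ₂ = fun x => ((2 : ℝ) : ℂ) *
    σ ((CStarMatrix.ofMatrixStarAlgEquiv (n := Fin 2) (A := A) : Matrix (Fin 2) (Fin 2) A →⋆ₐ[ℂ]
      CStarMatrix (Fin 2) (Fin 2) A) x) := ⟨_, rfl⟩
  rw [← hτ₂] at hσ'
  have h1 : τ₂ 1 = 2 := by
    rw [hτ₂]
    simp only
    rw [map_one, hσ1]
    norm_num
  refine ⟨fun x => τ₂ (Matrix.single 0 0 x), oneQuasitrace_corner hσ', ?_, τ₂, hσ', fun x => rfl⟩
  -- normalization
  have e01 : (1 : Matrix (Fin 2) (Fin 2) A) = Matrix.single 0 0 1 + Matrix.single 1 1 1 := by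
    rw [single00_eq, single11_eq]
    ext i j
    fin_cases i <;> fin_cases j <;> simp
  obtain ⟨p1, _, p3⟩ := hσ'
  have hbot : ∀ x ∈ (⊥ : StarSubalgebra ℂ A), ∀ y ∈ (⊥ : StarSubalgebra ℂ A), x * y = y * x := by
    intro x hx y _
    rw [StarSubalgebra.mem_bot] at hx
    obtain ⟨c, rfl⟩ := hx
    exact Algebra.commutes c y
  obtain ⟨q1, _⟩ := p3 (diagSub ⊥) (diagSub_comm ⊥ hbot)
  have h2 := q1 _ (single00_mem ⊥ (one_mem _)) _ (single11_mem ⊥ (one_mem _))
  rw [← e01, h1] at h2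
  have h3 := (p1 (Matrix.single 0 1 1)).1
  rw [Matrix.star_eq_conjTranspose, Matrix.conjTranspose_single, Matrix.single_mul_single_same,
    Matrix.single_mul_single_same, star_one, one_mul] at h3
  rw [h3] at h2
  have : (2 : ℂ) = 2 * τ₂ (Matrix.single 0 0 1) := by
    linear_combination h2
  have h4 : τ₂ (Matrix.single 0 0 1) = 1 := by
    have h5 : (2 : ℂ) ≠ 0 := two_ne_zero
    apply mul_left_cancel₀ h5
    rw [← this, mul_one]
  exact h4

end Crest.Agent.QT
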