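import Crest.Agent.QT_NSB
import Crest.Agent.QT_Rel
import Crest.Agent.QT_Lift
import Crest.Agent.QT_Two
import Crest.Agent.QT_Pair
import Crest.Agent.QT_Sep

/-! Assembly of S0188. -/

set_option autoImplicit false

namespace Crest.Agent.QT

theorem final :
    ∃ (A : Type) (_ : CStarAlgebra A), TopologicalSpace.SeparableSpace A ∧
      (∃ τ : A → ℂ, Crest.OpAlg.IsNormalizedTwoQuasitrace τ) ∧
      ∃ a b : A, (∃ x : A, a = star x * x) ∧ ‖a‖ ≤ 1 ∧ (∃ y : A, b = star y * y) ∧ ‖b‖ ≤ 1 ∧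
        ∀ τ : A → ℂ, Crest.OpAlg.IsNormalizedTwoQuasitrace τ →
          (1 : ℝ) / 144 ≤ (τ (a + b) - τ a - τ b).re := by
  obtain ⟨A, iA, π, hsurj, hker, hlift⟩ := quotient_exists zz zz_selfAdjoint
  have hNS : NoShrink A := noShrink_quotient zz π hsurj hlift noShrink_mod
  obtain ⟨u, y, hu, hy, hn, hrel⟩ := relation_mod
  have hrelA : ∑ j, (π (u j) * π (y j) * star (π (u j)) - π (y j)) = 1 := by
    have h := (hker _).2 hrel
    rw [map_sub, map_sum, map_one, sub_eq_zero] at h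
    simpa [map_sub, map_mul, map_star] using h
  obtain ⟨A₀, iA₀, φ, hsep, hnorm, hrange⟩ :=
    sep_sub (Set.range (fun j => π (u j)) ∪ Set.range (fun j => π (y j)))
      ((Set.finite_range _).union (Set.finite_range _))
  have hinj : Function.Injective φ := by
    intro a b hab
    have : ‖φ (a - b)‖ = 0 := by rw [map_sub, hab, sub_self, norm_zero]
    rw [hnorm, norm_eq_zero, sub_eq_zero] at this
    exact this
  have hu' : ∀ j, ∃ v : A₀, φ v = π (u j) := fun j => hrange (Or.inl ⟨j, rfl⟩)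
  have hy' : ∀ j, ∃ v : A₀, φ v = π (y j) := fun j => hrange (Or.inr ⟨j, rfl⟩)
  choose u₀ hu₀ using hu'
  choose y₀ hy₀ using hy'
  have hNS₀ : NoShrink A₀ := noShrink_of_hom φ hNS
  letI := CStarAlgebra.spectralOrder A₀
  haveI := CStarAlgebra.spectralOrderedRing A₀
  have h1 : ∀ j, u₀ j ∈ unitary A₀ := by
    intro j
    have h := hu j
    rw [Unitary.mem_iff] at h ⊢
    constructor
    · apply hinj
      rw [map_mul, map_star, hu₀, ← map_star, ← map_mul, h.1, map_one, map_one]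
    · apply hinj
      rw [map_mul, map_star, hu₀, ← map_star, ← map_mul, h.2, map_one, map_one]
  have h2 : ∀ j, IsSelfAdjoint (y₀ j) := by
    intro j
    apply hinj
    rw [map_star, hy₀, ← map_star, (hy j).star_eq]
  have h3 : ∀ j, ‖y₀ j‖ ≤ 6 := by
    intro j
    rw [← hnorm, hy₀]
    exact (NonUnitalStarAlgHom.norm_apply_le π (y j)).trans (hn j)
  have h4 : ∑ j, (u₀ j * y₀ j * star (u₀ j) - y₀ j) = 1 := by
    apply hinj
    rw [map_one, ← hrelA, map_sum]
    refine Finset.sum_congr rfl fun j _ => ?_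
    rw [map_sub, map_mul, map_mul, map_star, hu₀, hy₀]
  obtain ⟨a, b, ha, han, hb, hbn, hτ⟩ := pair_exists u₀ y₀ h1 h2 h3 h4
  refine ⟨CStarMatrix (Fin 6) (Fin 6) A₀, inferInstance, sep_matrix 6, ?_, a, b, ha, han, hb, hbn,
    fun τ h => hτ τ h.1 h.2.1⟩
  exact exists_twoQuasitrace (noShrink_cstarMatrix 6 (by norm_num) hNS₀)

end Crest.Agent.QT
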