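import Crest.Agent.QT_Defs

/-!
Task QT-Norm (easy/medium).  L2 operator norm facts for complex matrices.
-/

set_option autoImplicit false

namespace Crest.Agent.QT

open scoped Matrix ComplexOrder Matrix.Norms.L2Operator

theorem norm_le_of_psd {N : ℕ} (y : Matrix (Fin N) (Fin N) ℂ) (c : ℝ) (hc : 0 ≤ c)
    (h1 : ((c : ℂ) • (1 : Matrix (Fin N) (Fin N) ℂ) - y).PosSemidef)
    (h2 : ((c : ℂ) • (1 : Matrix (Fin N) (Fin N) ℂ) + y).PosSemidef) : ‖y‖ ≤ c := by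
  open scoped MatrixOrder in
  have a1 : 0 ≤ ((c : ℂ) • (1 : Matrix (Fin N) (Fin N) ℂ) - y) := h1.nonneg
  open scoped MatrixOrder in
  have a2 : 0 ≤ ((c : ℂ) • (1 : Matrix (Fin N) (Fin N) ℂ) + y) := h2.nonneg
  have hcomm : Commute ((c : ℂ) • (1 : Matrix (Fin N) (Fin N) ℂ) - y)
      ((c : ℂ) • (1 : Matrix (Fin N) (Fin N) ℂ) + y) := by
    have hy : Commute ((c : ℂ) • (1 : Matrix (Fin N) (Fin N) ℂ)) y :=
      (Commute.one_left y).smul_left _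
    exact ((Commute.refl _).add_right hy).sub_left (hy.symm.add_right (Commute.refl _))
  open scoped MatrixOrder in
  have a3 := hcomm.mul_nonneg a1 a2
  have hsa : yᴴ = y := by
    have e1 := h2.1
    unfold Matrix.IsHermitian at e1
    rw [Matrix.conjTranspose_add, Matrix.conjTranspose_smul, Matrix.conjTranspose_one] at e1
    have : star (c : ℂ) = (c : ℂ) := by simp
    rw [this] at e1
    exact add_left_cancel e1
  have e3 : ((c : ℂ) • (1 : Matrix (Fin N) (Fin N) ℂ) - y) *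
      ((c : ℂ) • (1 : Matrix (Fin N) (Fin N) ℂ) + y) =
      algebraMap ℝ (Matrix (Fin N) (Fin N) ℂ) (c ^ 2) - yᴴ * y := by
    rw [hsa]
    have : algebraMap ℝ (Matrix (Fin N) (Fin N) ℂ) (c ^ 2) =
        ((c : ℂ) * (c : ℂ)) • (1 : Matrix (Fin N) (Fin N) ℂ) := by
      rw [Algebra.algebraMap_eq_smul_one]
      ext i j
      simp [Matrix.smul_apply, Matrix.one_apply, pow_two]
    rw [this]
    simp only [sub_mul, mul_add, smul_mul_assoc, mul_smul_comm, one_mul, mul_one, smul_sub,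
      smul_smul]
    abel
  open scoped MatrixOrder in
  have a4 : yᴴ * y ≤ algebraMap ℝ (Matrix (Fin N) (Fin N) ℂ) (c ^ 2) := by
    rw [e3] at a3
    exact sub_nonneg.mp a3
  open scoped MatrixOrder in
  have a5 : 0 ≤ yᴴ * y := (Matrix.posSemidef_conjTranspose_mul_self y).nonneg
  open scoped MatrixOrder in
  have a6 : ‖yᴴ * y‖ ≤ c ^ 2 :=
    (CStarAlgebra.norm_le_iff_le_algebraMap (yᴴ * y) (by positivity) a5).mpr a4
  rw [Matrix.l2_opNorm_conjTranspose_mul_self] at a6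
  nlinarith [norm_nonneg y]

theorem mulVec_sq_le {N : ℕ} (T : Matrix (Fin N) (Fin N) ℂ) (v : Fin N → ℂ) :
    ∑ i, ‖(T *ᵥ v) i‖ ^ 2 ≤ ‖T‖ ^ 2 * ∑ i, ‖v i‖ ^ 2 := by
  have h := Matrix.l2_opNorm_mulVec T ((EuclideanSpace.equiv (Fin N) ℂ).symm v)
  have h2 := pow_le_pow_left₀ (norm_nonneg _) h 2
  rw [mul_pow, EuclideanSpace.norm_sq_eq, EuclideanSpace.norm_sq_eq] at h2
  simpa using h2

/-- `|⟨v, T w⟩| ≤ ‖T‖ |v| |w|` -/
theorem dot_le {N : ℕ} (T : Matrix (Fin N) (Fin N) ℂ) (v w : Fin N → ℂ) :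
    ‖star v ⬝ᵥ (T *ᵥ w)‖ ≤
      ‖T‖ * Real.sqrt (∑ i, ‖v i‖ ^ 2) * Real.sqrt (∑ i, ‖w i‖ ^ 2) := by
  have h1 : ‖star v ⬝ᵥ (T *ᵥ w)‖ ≤ ∑ i, ‖v i‖ * ‖(T *ᵥ w) i‖ := by
    unfold dotProduct
    refine (norm_sum_le _ _).trans (Finset.sum_le_sum fun i _ => ?_)
    rw [norm_mul]
    simp
  have h2 : ∑ i, ‖v i‖ * ‖(T *ᵥ w) i‖ ≤
      Real.sqrt (∑ i, ‖v i‖ ^ 2) * Real.sqrt (∑ i, ‖(T *ᵥ w) i‖ ^ 2) :=
    Real.sum_mul_le_sqrt_mul_sqrt _ _ _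
  have h3 : Real.sqrt (∑ i, ‖(T *ᵥ w) i‖ ^ 2) ≤ ‖T‖ * Real.sqrt (∑ i, ‖w i‖ ^ 2) := by
    rw [show ‖T‖ * Real.sqrt (∑ i, ‖w i‖ ^ 2) = Real.sqrt (‖T‖ ^ 2 * ∑ i, ‖w i‖ ^ 2) by
      rw [Real.sqrt_mul (by positivity), Real.sqrt_sq (norm_nonneg _)]]
    exact Real.sqrt_le_sqrt (mulVec_sq_le T w)
  calc _ ≤ _ := h1
    _ ≤ _ := h2
    _ ≤ Real.sqrt (∑ i, ‖v i‖ ^ 2) * (‖T‖ * Real.sqrt (∑ i, ‖w i‖ ^ 2)) := by
        gcongr
    _ = _ := by ring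

end Crest.Agent.QT
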