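import Crest.Agent.QT_PX

/-!
Task QT-PX2 (medium).  Trace bounds.  `G = ptr P = x x*` (`x : N × M` matrix, `∑|x|² = 1`), `z = (1 + C G)⁻¹`.
`1 - z = C x (1 + C x* x)⁻¹ x*`, so `tr(1-z) = tr(C x*x (1 + C x*x)⁻¹) ≤ M` (an `M × M` matrix `≤ 1`), and
`tr(z G) = tr((1 + C x*x)⁻¹ x*x) ≤ M/C`.
(Alternatively `C G z = 1 - z` has rank `≤ rank G ≤ M` and is `≤ 1`.)
-/

set_option autoImplicit false

namespace Crest.Agent.QT

open scoped Matrix ComplexOrder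

variable {N M : ℕ}

theorem trace_one_sub_zmat {C : ℝ} (hC : 0 ≤ C) (P : PX (Fin N × Fin M)) :
    0 ≤ (1 - zmat C P.1).trace.re ∧ (1 - zmat C P.1).trace.re ≤ M ∧
      (1 - zmat C P.1).trace.im = 0 := by
  have h0 := (one_sub_zmat_posSemidef hC P).trace_nonneg
  rw [Complex.nonneg_iff] at h0
  refine ⟨h0.1, ?_, h0.2.symm⟩
  obtain ⟨P, x, hx, rfl⟩ := P
  set X : Matrix (Fin N) (Fin M) ℂ := Matrix.of fun i l => x (i, l) with hX
  have hG : ptr (Matrix.vecMulVec x (star x)) = X * Xᴴ := by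
    ext i j
    simp [ptr, Matrix.mul_apply, Matrix.vecMulVec_apply, hX]
  have hCn : (0 : ℂ) ≤ (C : ℂ) := by exact_mod_cast hC
  have hpd : (1 + (C : ℂ) • (Xᴴ * X)).PosDef :=
    Matrix.PosDef.add_posSemidef Matrix.PosDef.one
      ((Matrix.posSemidef_conjTranspose_mul_self X).smul hCn)
  set Y : Matrix (Fin M) (Fin M) ℂ := (1 + (C : ℂ) • (Xᴴ * X))⁻¹ with hY
  have hu : IsUnit (1 + (C : ℂ) • (Xᴴ * X)).det :=
    (Matrix.isUnit_iff_isUnit_det _).mp hpd.isUnit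
  have hY1 : (1 + (C : ℂ) • (Xᴴ * X)) * Y = 1 := Matrix.mul_nonsing_inv _ hu
  have hz : zmat C (Matrix.vecMulVec x (star x)) = 1 - (C : ℂ) • (X * Y * Xᴴ) := by
    unfold zmat
    apply Matrix.inv_eq_right_inv
    rw [hG]
    have e1 : (X * Xᴴ) * (X * Y * Xᴴ) = X * ((Xᴴ * X) * Y) * Xᴴ := by
      simp only [Matrix.mul_assoc]
    have e2 : (Xᴴ * X) * Y = (Xᴴ * X) * Y := rfl
    have e3 : X * Y * Xᴴ + (C : ℂ) • ((X * Xᴴ) * (X * Y * Xᴴ)) = X * Xᴴ := by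
      rw [e1]
      have : X * Y * Xᴴ + (C : ℂ) • (X * ((Xᴴ * X) * Y) * Xᴴ) =
          X * ((1 + (C : ℂ) • (Xᴴ * X)) * Y) * Xᴴ := by
        rw [Matrix.add_mul, Matrix.one_mul, Matrix.mul_add, Matrix.add_mul, Matrix.smul_mul,
          Matrix.mul_smul, Matrix.smul_mul]
      rw [this, hY1, Matrix.mul_one]
    have e4 : (1 + (C : ℂ) • (X * Xᴴ)) * (1 - (C : ℂ) • (X * Y * Xᴴ)) =
        1 + (C : ℂ) • (X * Xᴴ - (X * Y * Xᴴ + (C : ℂ) • ((X * Xᴴ) * (X * Y * Xᴴ)))) := by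
      simp only [Matrix.add_mul, Matrix.mul_sub, Matrix.one_mul, Matrix.mul_one, Matrix.smul_mul,
        Matrix.mul_smul]
      module
    rw [e4, e3, sub_self, smul_zero, add_zero]
  have hYp : Y.PosSemidef := hpd.inv.posSemidef
  have hYt := hYp.trace_nonneg
  rw [Complex.nonneg_iff] at hYt
  simp only
  rw [hz, sub_sub_cancel, Matrix.trace_smul, Matrix.trace_mul_cycle, ← Matrix.trace_smul]
  have e5 : (C : ℂ) • (Xᴴ * X * Y) = 1 - Y := by
    rw [Matrix.add_mul, Matrix.one_mul, Matrix.smul_mul] at hY1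
    rw [← hY1]; abel
  rw [e5, Matrix.trace_sub, Matrix.trace_one, Complex.sub_re]
  simp only [Fintype.card_fin, Complex.natCast_re]
  linarith [hYt.1]

theorem trace_zmat_mul_ptr {C : ℝ} (hC : 0 < C) (P : PX (Fin N × Fin M)) :
    (zmat C P.1 * ptr P.1).trace.re ≤ M / C := by
  have h1 := (zmat_mul hC.le P).1
  have h2 : (C : ℂ) • (zmat C P.1 * ptr P.1) = 1 - zmat C P.1 := by
    rw [Matrix.mul_add, Matrix.mul_one, Matrix.mul_smul] at h1
    rw [← h1]; abel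
  have h3 := (trace_one_sub_zmat hC.le P).2.1
  rw [← h2, Matrix.trace_smul, smul_eq_mul, Complex.re_ofReal_mul] at h3
  rw [le_div_iff₀ hC]
  linarith

end Crest.Agent.QT
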