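import Crest.Agent.QT_PX
import Crest.Agent.QT_PX2
import Crest.Agent.QT_Norm

/-!
The C*-algebra `BB` = l^∞-product of the algebras `C(PX_k, M_{N_k}(ℂ))`.
-/

set_option autoImplicit false

namespace Crest.Agent.QT

open scoped Matrix ComplexOrder Matrix.Norms.L2Operator ENNReal

noncomputable section

/-- the factors -/
abbrev Fk (k : ℕ) : Type :=
  C(PX (Fin (Nn k) × Fin (Mm k)), Matrix (Fin (Nn k)) (Fin (Nn k)) ℂ)

instance instCStarFk (k : ℕ) : CStarAlgebra (Fk k) := inferInstance

instance instNontrivialFk (k : ℕ) : Nontrivial (Fk k) := inferInstance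

/-- the product -/
abbrev BB : Type := lp Fk ∞

instance instCStarBB : CStarAlgebra BB where

end

end Crest.Agent.QT
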