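import Crest.Agent.QT_Defs

/-!
Task QT-Cz1 (medium).  Formal properties of the comparison `Cz` of finite families: reflexivity,
transitivity, direct sums, reindexing.
Transitivity: given ε choose `x` for `(a,b)` and `ε/2`; let `K` bound all `‖x j i‖`; choose `y` for `(b,c)` and
`δ` with `δ K² |κ|² < ε/2`; put `z l i = ∑ j, y l j * x j i`.
-/

set_option autoImplicit false

namespace Crest.Agent.QT

variable {B : Type*} [CStarAlgebra B]

theorem Cz.refl' {ι : Type*} [Fintype ι] [DecidableEq ι] (a : ι → B) : Cz a a := by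
  intro ε hε
  refine ⟨fun j i => if j = i then 1 else 0, fun i i' => ?_⟩
  have h : ∑ j, star (if j = i then (1:B) else 0) * a j * (if j = i' then (1:B) else 0)
      = if i = i' then a i else 0 := by
    rw [Finset.sum_eq_single i]
    · by_cases h : i = i'
      · simp [h]
      · simp [h]
    · intro j _ hj
      simp [hj]
    · intro h
      exact absurd (Finset.mem_univ i) h
  rw [h, sub_self, norm_zero]
  exact hε

theorem Cz.trans' {ι κ μ : Type*} [Fintype ι] [Fintype κ] [Fintype μ] [DecidableEq ι] [DecidableEq κ]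
    {a : ι → B} {b : κ → B} {c : μ → B} (h1 : Cz a b) (h2 : Cz b c) : Cz a c := by
  intro ε hε
  obtain ⟨x, hx⟩ := h1 (ε / 2) (by linarith)
  set K : ℝ := ∑ j, ∑ i, ‖x j i‖ with hK
  have hK0 : 0 ≤ K := Finset.sum_nonneg fun j _ => Finset.sum_nonneg fun i _ => norm_nonneg _
  have hxK : ∀ j i, ‖x j i‖ ≤ K := by
    intro j i
    calc ‖x j i‖ ≤ ∑ i, ‖x j i‖ :=
          Finset.single_le_sum (f := fun i => ‖x j i‖) (fun i _ => norm_nonneg _) (Finset.mem_univ i)
      _ ≤ K := Finset.single_le_sum (f := fun j => ∑ i, ‖x j i‖)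
          (fun j _ => Finset.sum_nonneg fun i _ => norm_nonneg _) (Finset.mem_univ j)
  set n : ℝ := (Fintype.card κ : ℝ) with hn
  have hn0 : 0 ≤ n := Nat.cast_nonneg _
  set δ : ℝ := ε / (2 * (n * n * (K * K) + 1)) with hδ
  have hden : 0 < n * n * (K * K) + 1 := by positivity
  have hδ0 : 0 < δ := by positivity
  obtain ⟨y, hy⟩ := h2 δ hδ0
  refine ⟨fun l i => ∑ j, y l j * x j i, fun i i' => ?_⟩
  set E : κ → κ → B := fun j j' => (if j = j' then b j else 0) - ∑ l, star (y l j) * c l * y l j' with hE
  have key : ∑ j, star (x j i) * b j * x j i'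
      - ∑ l, star (∑ j, y l j * x j i) * c l * (∑ j, y l j * x j i')
      = ∑ j, ∑ j', star (x j i) * E j j' * x j' i' := by
    have e1 : ∑ j, star (x j i) * b j * x j i'
        = ∑ j, ∑ j', star (x j i) * (if j = j' then b j else 0) * x j' i' := by
      refine Finset.sum_congr rfl fun j _ => ?_
      rw [Finset.sum_eq_single j]
      · simp
      · intro j' _ hj'
        simp [Ne.symm hj']
      · intro h
        exact absurd (Finset.mem_univ j) h
    have e2 : ∑ l, star (∑ j, y l j * x j i) * c l * (∑ j, y l j * x j i')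
        = ∑ j, ∑ j', star (x j i) * (∑ l, star (y l j) * c l * y l j') * x j' i' := by
      have e3 : ∀ l, star (∑ j, y l j * x j i) * c l * (∑ j, y l j * x j i')
          = ∑ j, ∑ j', star (x j i) * (star (y l j) * c l * y l j') * x j' i' := by
        intro l
        rw [star_sum, Finset.sum_mul, Finset.sum_mul]
        refine Finset.sum_congr rfl fun j _ => ?_
        rw [Finset.mul_sum]
        refine Finset.sum_congr rfl fun j' _ => ?_
        rw [star_mul]
        simp only [mul_assoc]
      simp only [e3]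
      rw [Finset.sum_comm]
      refine Finset.sum_congr rfl fun j _ => ?_
      rw [Finset.sum_comm]
      refine Finset.sum_congr rfl fun j' _ => ?_
      rw [Finset.mul_sum, Finset.sum_mul]
    rw [e1, e2, ← Finset.sum_sub_distrib]
    refine Finset.sum_congr rfl fun j _ => ?_
    rw [← Finset.sum_sub_distrib]
    refine Finset.sum_congr rfl fun j' _ => ?_
    simp only [hE, mul_sub, sub_mul]
  have hbound : ‖∑ j, ∑ j', star (x j i) * E j j' * x j' i'‖ ≤ n * n * (K * K) * δ := by
    calc ‖∑ j, ∑ j', star (x j i) * E j j' * x j' i'‖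
        ≤ ∑ j : κ, ∑ j' : κ, K * δ * K := by
          refine (norm_sum_le _ _).trans (Finset.sum_le_sum fun j _ => ?_)
          refine (norm_sum_le _ _).trans (Finset.sum_le_sum fun j' _ => ?_)
          calc ‖star (x j i) * E j j' * x j' i'‖ ≤ ‖star (x j i) * E j j'‖ * ‖x j' i'‖ := norm_mul_le _ _
            _ ≤ ‖star (x j i)‖ * ‖E j j'‖ * ‖x j' i'‖ := by
                gcongr
                exact norm_mul_le _ _
            _ ≤ K * δ * K := by
                rw [norm_star]
                have h3 := (hy j j').le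
                have h4 := hxK j i
                have h5 := hxK j' i'
                gcongr
      _ = n * n * (K * K) * δ := by
          simp only [Finset.sum_const, Finset.card_univ, nsmul_eq_mul]
          rw [← hn]
          ring
  have hlt : n * n * (K * K) * δ < ε / 2 := by
    rw [hδ, ← mul_div_assoc, div_lt_div_iff₀ (by positivity) (by norm_num)]
    nlinarith
  have h0 := hx i i'
  have hfin : (if i = i' then a i else 0) - ∑ l, star (∑ j, y l j * x j i) * c l * (∑ j, y l j * x j i')
      = ((if i = i' then a i else 0) - ∑ j, star (x j i) * b j * x j i')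
        + ∑ j, ∑ j', star (x j i) * E j j' * x j' i' := by
    rw [← key]; abel
  show ‖(if i = i' then a i else 0) - ∑ l, star (∑ j, y l j * x j i) * c l * (∑ j, y l j * x j i')‖ < ε
  rw [hfin]
  calc _ ≤ ‖(if i = i' then a i else 0) - ∑ j, star (x j i) * b j * x j i'‖
        + ‖∑ j, ∑ j', star (x j i) * E j j' * x j' i'‖ := norm_add_le _ _
    _ < ε := by linarith

theorem Cz.sumElim {ι κ ι' κ' : Type*} [Fintype κ] [Fintype κ'] [DecidableEq ι] [DecidableEq ι']
    {a : ι → B} {b : κ → B} {a' : ι' → B} {b' : κ' → B} (h : Cz a b) (h' : Cz a' b') :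
    Cz (Sum.elim a a') (Sum.elim b b') := by
  intro ε hε
  obtain ⟨x, hx⟩ := h ε hε
  obtain ⟨x', hx'⟩ := h' ε hε
  refine ⟨fun j i => match j, i with
    | Sum.inl j, Sum.inl i => x j i
    | Sum.inr j, Sum.inr i => x' j i
    | _, _ => 0, fun i i' => ?_⟩
  rw [Fintype.sum_sum_type]
  rcases i with i | i <;> rcases i' with i' | i'
  · simpa using hx i i'
  · simpa using hε
  · simpa using hε
  · simpa using hx' i i'

/-- reindexing (`e` injective on the left, bijective on the right) -/
theorem Cz.reindex {ι κ ι' κ' : Type*} [Fintype κ] [Fintype κ'] [DecidableEq ι] [DecidableEq ι']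
    {a : ι → B} {b : κ → B} (e : ι' ↪ ι) (f : κ' ≃ κ) (h : Cz a b) : Cz (a ∘ e) (b ∘ f) := by
  intro ε hε
  obtain ⟨x, hx⟩ := h ε hε
  refine ⟨fun j i => x (f j) (e i), fun i i' => ?_⟩
  have h1 := hx (e i) (e i')
  have h2 : ∑ j : κ', star (x (f j) (e i)) * (b ∘ f) j * x (f j) (e i')
      = ∑ j : κ, star (x j (e i)) * b j * x j (e i') :=
    Fintype.sum_equiv f _ _ fun j => rfl
  rw [h2]
  simpa [e.injective.eq_iff] using h1

theorem Cz.of_isEmpty {ι κ : Type*} [IsEmpty ι] [Fintype κ] [DecidableEq ι]
    (a : ι → B) (b : κ → B) : Cz a b := by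
  intro ε hε
  exact ⟨fun _ _ => 0, fun i => isEmptyElim i⟩

end Crest.Agent.QT
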