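import Crest.Agent.QT_Cz1

/-!
Task QT-Cz2 (medium).  Analytic Cuntz comparison facts (all 1x1, 1x2, 2x1 families).
* conj: `x* a x ≲ a` exactly.
* add: `a + b = [1 1] diag(a,b) [1 1]^T`.
* sq: `a ≲ a²`: use `x = g(a)`, `g(s) = 1/√(max s δ)` (continuous functional calculus): `|s - s² g(s)²| ≤ δ`
  on `[0, ∞)` (it is `0` for `s ≥ δ` and `s - s²/δ ∈ [0, δ]` for `s ≤ δ`).
* one: `a ≲ 1` : `a = a^{1/2} 1 a^{1/2}`.
* smul: `c a ≲ a` for `c ≥ 0`.
-/

set_option autoImplicit false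

namespace Crest.Agent.QT

variable {B : Type*} [CStarAlgebra B] [PartialOrder B] [StarOrderedRing B]

/-- a `1 x 1` comparison from approximate factorisations. -/
theorem Cz_of_approx {A : Type*} [CStarAlgebra A] {a b : A}
    (h : ∀ ε : ℝ, 0 < ε → ∃ x : A, ‖a - star x * b * x‖ < ε) : Cz ![a] ![b] := by
  intro ε hε
  obtain ⟨x, hx⟩ := h ε hε
  refine ⟨fun _ _ => x, fun i i' => ?_⟩
  rw [if_pos (Subsingleton.elim i i')]
  simpa using hx

theorem Cz_conj (a x : B) : Cz ![star x * a * x] ![a] := by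
  refine Cz_of_approx fun ε hε => ⟨x, ?_⟩
  rw [sub_self, norm_zero]
  exact hε

theorem Cz_add {a b : B} (ha : 0 ≤ a) (hb : 0 ≤ b) : Cz ![a + b] ![a, b] := by
  intro ε hε
  refine ⟨fun _ _ => 1, fun i i' => ?_⟩
  rw [if_pos (Subsingleton.elim i i')]
  simpa [Fin.sum_univ_two] using hε

theorem Cz_sq {a : B} (ha : 0 ≤ a) : Cz ![a] ![a * a] := by
  refine Cz_of_approx fun ε hε => ?_
  obtain ⟨δ, hδ, hδε⟩ : ∃ δ : ℝ, 0 < δ ∧ δ < ε := ⟨ε / 2, by linarith, by linarith⟩
  have hsa : IsSelfAdjoint a := IsSelfAdjoint.of_nonneg ha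
  obtain ⟨g, hg⟩ : ∃ g : ℝ → ℝ, g = fun s => 1 / Real.sqrt (max s δ) := ⟨_, rfl⟩
  have hmax : ∀ s : ℝ, 0 < max s δ := fun s => lt_max_of_lt_right hδ
  have hgc : Continuous g := by
    rw [hg]
    refine continuous_const.div (Real.continuous_sqrt.comp (continuous_id.max continuous_const))
      fun s => ?_
    exact (Real.sqrt_pos.2 (hmax s)).ne'
  have hgg : ∀ s : ℝ, g s * g s = 1 / max s δ := by
    intro s
    rw [hg]
    simp only
    rw [div_mul_div_comm, one_mul, Real.mul_self_sqrt (hmax s).le]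
  refine ⟨cfc g a, ?_⟩
  have hx : star (cfc g a) = cfc g a := (cfc_predicate g a : IsSelfAdjoint (cfc g a)).star_eq
  have hid : cfc (fun s : ℝ => s) a = a := cfc_id' ℝ a hsa
  have hprod : cfc g a * (a * a) * cfc g a = cfc (fun s : ℝ => g s * (s * s) * g s) a := by
    rw [cfc_mul (fun s : ℝ => g s * (s * s)) g a (by fun_prop) hgc.continuousOn,
      cfc_mul g (fun s : ℝ => s * s) a hgc.continuousOn (by fun_prop),
      cfc_mul (fun s : ℝ => s) (fun s : ℝ => s) a (by fun_prop) (by fun_prop), hid]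
  have hdiff : a - star (cfc g a) * (a * a) * cfc g a =
      cfc (fun s : ℝ => s - g s * (s * s) * g s) a := by
    rw [hx, hprod, cfc_sub (fun s : ℝ => s) (fun s : ℝ => g s * (s * s) * g s) a (by fun_prop)
      (by fun_prop), hid]
  rw [hdiff]
  refine (norm_cfc_le hδ.le fun s hs => ?_).trans_lt hδε
  have hs0 : 0 ≤ s := spectrum_nonneg_of_nonneg ha hs
  have h1 : g s * (s * s) * g s = s * s * (1 / max s δ) := by rw [← hgg s]; ring
  rw [h1, Real.norm_eq_abs]
  rcases le_total s δ with h | h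
  · rw [max_eq_right h]
    have h2 : s * s * (1 / δ) ≤ s := by
      rw [mul_one_div, div_le_iff₀ hδ]
      exact mul_le_mul_of_nonneg_left h hs0
    have h3 : 0 ≤ s * s * (1 / δ) := by positivity
    rw [abs_of_nonneg (by linarith)]
    linarith
  · rw [max_eq_left h]
    have hs1 : 0 < s := hδ.trans_le h
    have h2 : s * s * (1 / s) = s := by field_simp
    rw [h2, sub_self, abs_zero]
    exact hδ.le

theorem Cz_one {a : B} (ha : 0 ≤ a) : Cz ![a] ![(1 : B)] := by
  refine Cz_of_approx fun ε hε => ⟨CFC.sqrt a, ?_⟩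
  have h1 : star (CFC.sqrt a) = CFC.sqrt a :=
    (IsSelfAdjoint.of_nonneg (CFC.sqrt_nonneg a)).star_eq
  rw [h1, mul_one, CFC.sqrt_mul_sqrt_self a ha, sub_self, norm_zero]
  exact hε

theorem Cz_smul {a : B} (ha : 0 ≤ a) {c : ℝ} (hc : 0 ≤ c) : Cz ![c • a] ![a] := by
  refine Cz_of_approx fun ε hε => ⟨Real.sqrt c • (1 : B), ?_⟩
  have h1 : star (Real.sqrt c • (1 : B)) * a * (Real.sqrt c • (1 : B)) = c • a := by
    rw [star_smul, star_one, smul_mul_assoc, one_mul, smul_mul_assoc, mul_smul_comm, mul_one,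
      smul_smul, star_trivial, Real.mul_self_sqrt hc]
  rw [h1, sub_self, norm_zero]
  exact hε

end Crest.Agent.QT
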