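import Crest.Agent.QT_Cz1

/-!
Task QT-Cz3 (medium).  Two more analytic Cuntz comparison facts.
* le: `0 ≤ a ≤ b`.  `x = (b+δ)^{-1/2} a^{1/2}`: `a - x* b x = δ a^{1/2}(b+δ)^{-1}a^{1/2}` and
  `0 ≤ a^{1/2}(b+δ)^{-1}a^{1/2} ≤ 1` (either because inverse is antitone: `(b+δ)^{-1} ≤ (a+δ)^{-1}`, see Mathlib
  `CStarAlgebra.inv_le_inv`/`rpow_neg_one...`; or: `‖(b+δ)^{-1/2} a^{1/2}‖² = ‖(b+δ)^{-1/2} a (b+δ)^{-1/2}‖ ≤ 1`
  because `a ≤ b + δ`, conjugation is monotone: `star_left_conjugate_le_conjugate`, and `‖star x * x‖ = ‖x * star x‖`).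
* orth: `a b = 0`: with `e = g(a)`, `f = g(b)`, `g(s) = min (n s) 1` (cfc): `e b = 0 = f a`, `e f = 0` (`g(s) = s·k(s)` with
  `k(s) = min n (1/s)` = `1 / max s (1/n)` continuous on `[0,∞)`), and
  `(e,f)* (a+b) (e,f) = diag(eae, fbf)`, `‖a - e a e‖ ≤ 1/n`.
-/

set_option autoImplicit false

namespace Crest.Agent.QT

variable {B : Type*} [CStarAlgebra B] [PartialOrder B] [StarOrderedRing B]

theorem Cz_le {a b : B} (ha : 0 ≤ a) (hab : a ≤ b) : Cz ![a] ![b] := by
  intro ε hε
  have hb : 0 ≤ b := ha.trans hab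
  have hbsa : IsSelfAdjoint b := hb.isSelfAdjoint
  set δ : ℝ := ε / 2 with hδ
  have hδ0 : 0 < δ := by positivity
  set f : ℝ → ℝ := fun s => (Real.sqrt (s + δ))⁻¹ with hf
  have hsp : ∀ s ∈ spectrum ℝ b, 0 ≤ s := fun s hs => spectrum_nonneg_of_nonneg hb hs
  have hfc : ContinuousOn f (spectrum ℝ b) := by
    intro s hs
    have h0 := hsp s hs
    have h1 : Real.sqrt (s + δ) ≠ 0 := (Real.sqrt_pos.mpr (by linarith)).ne'
    have : ContinuousAt f s := by
      refine ContinuousAt.inv₀ ?_ h1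
      exact (Real.continuous_sqrt.continuousAt).comp (by fun_prop : ContinuousAt (fun s : ℝ => s + δ) s)
    exact this.continuousWithinAt
  set c : B := cfc f b with hc
  have hcsa : IsSelfAdjoint c := cfc_predicate f b
  have hcstar : star c = c := hcsa.star_eq
  have key : c * b * c + δ • (c * c) = 1 := by
    have e1 : c * b = cfc (fun s => f s * s) b := by
      rw [cfc_mul f (fun s => s) b hfc continuousOn_id, cfc_id' ℝ b]
    have e2 : c * b * c = cfc (fun s => f s * s * f s) b := by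
      rw [e1, hc, ← cfc_mul (fun s => f s * s) f b (hfc.mul continuousOn_id) hfc]
    have e3 : δ • (c * c) = cfc (fun s => δ * (f s * f s)) b := by
      rw [cfc_const_mul δ (fun s => f s * f s) b (hfc.mul hfc), cfc_mul f f b hfc hfc]
    rw [e2, e3, ← cfc_add b (fun s => f s * s * f s) (fun s => δ * (f s * f s))
      ((hfc.mul continuousOn_id).mul hfc) (continuousOn_const.mul (hfc.mul hfc))]
    have : cfc (fun s => f s * s * f s + δ * (f s * f s)) b = cfc (fun _ => (1:ℝ)) b := by
      refine cfc_congr fun s hs => ?_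
      have h0 := hsp s hs
      have h1 : Real.sqrt (s + δ) ≠ 0 := (Real.sqrt_pos.mpr (by linarith)).ne'
      have h2 : Real.sqrt (s + δ) * Real.sqrt (s + δ) = s + δ := Real.mul_self_sqrt (by linarith)
      simp only [hf]
      field_simp
      nlinarith
    rw [this, cfc_const_one ℝ b]
  set r : B := CFC.sqrt a with hr
  have hrr : r * r = a := CFC.sqrt_mul_sqrt_self a ha
  have hrsa : star r = r := (CFC.sqrt_nonneg a).isSelfAdjoint.star_eq
  have hcc0 : 0 ≤ c * c := by
    have := star_mul_self_nonneg c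
    rwa [hcstar] at this
  have hcac0 : 0 ≤ c * a * c := hcsa.conjugate_nonneg ha
  have hcac1 : c * a * c ≤ 1 := by
    calc c * a * c ≤ c * b * c := hcsa.conjugate_le_conjugate hab
      _ ≤ c * b * c + δ • (c * c) := le_add_of_nonneg_right (smul_nonneg hδ0.le hcc0)
      _ = 1 := key
  have hnorm1 : ‖c * a * c‖ ≤ 1 := by
    refine (CStarAlgebra.norm_le_norm_of_nonneg_of_le hcac0 hcac1).trans ?_
    rcases subsingleton_or_nontrivial B with h | h
    · rw [Subsingleton.elim (1 : B) 0, norm_zero]; exact zero_le_one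
    · exact CStarRing.norm_one.le
  have hnorm2 : ‖r * (c * c) * r‖ ≤ 1 := by
    have e1 : r * (c * c) * r = star (c * r) * (c * r) := by
      rw [star_mul, hcstar, hrsa]; simp only [mul_assoc]
    have e2 : c * a * c = (c * r) * star (c * r) := by
      rw [star_mul, hcstar, hrsa, ← hrr]; simp only [mul_assoc]
    rw [e1, CStarRing.norm_star_mul_self, ← CStarRing.norm_self_mul_star, ← e2]
    exact hnorm1
  refine ⟨fun _ _ => c * r, fun i i' => ?_⟩
  have hi : i = i' := Subsingleton.elim _ _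
  subst hi
  have hi0 : i = 0 := Subsingleton.elim _ _
  subst hi0
  have e4 : star (c * r) * b * (c * r) = r * (c * b * c) * r := by
    rw [star_mul, hcstar, hrsa]; simp only [mul_assoc]
  have e5 : c * b * c = 1 - δ • (c * c) := by rw [← key]; abel
  have e6 : a - star (c * r) * b * (c * r) = δ • (r * (c * c) * r) := by
    rw [e4, e5, mul_sub, sub_mul, mul_one, hrr, mul_smul_comm, smul_mul_assoc]
    abel
  simp only [Fin.sum_univ_one, if_true, Matrix.cons_val_zero]
  rw [e6, norm_smul, Real.norm_of_nonneg hδ0.le]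
  calc δ * ‖r * (c * c) * r‖ ≤ δ * 1 := by gcongr
    _ < ε := by rw [hδ]; linarith

/-- auxiliary: the multiplier `a (a+δ)⁻¹` -/
private lemma aux_mult {a : B} (ha : 0 ≤ a) {δ : ℝ} (hδ : 0 < δ) :
    ∃ k : B, IsSelfAdjoint k ∧ a * k = k * a ∧ ‖a - (a * k) * a * (a * k)‖ ≤ 3 * δ := by
  have hsp : ∀ s ∈ spectrum ℝ a, 0 ≤ s := fun s hs => spectrum_nonneg_of_nonneg ha hs
  set f : ℝ → ℝ := fun s => (s + δ)⁻¹ with hf
  have hfc : ContinuousOn f (spectrum ℝ a) := by
    intro s hs
    have h0 := hsp s hs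
    have h1 : s + δ ≠ 0 := by linarith
    exact ((by fun_prop : ContinuousAt (fun s : ℝ => s + δ) s).inv₀ h1).continuousWithinAt
  have hasa : IsSelfAdjoint a := ha.isSelfAdjoint
  have hk : IsSelfAdjoint (cfc f a) := cfc_predicate f a
  have e1 : a * cfc f a = cfc (fun s => s * f s) a := by
    rw [cfc_mul (fun s => s) f a continuousOn_id hfc, cfc_id' ℝ a]
  have e1' : cfc f a * a = cfc (fun s => f s * s) a := by
    rw [cfc_mul f (fun s => s) a hfc continuousOn_id, cfc_id' ℝ a]
  refine ⟨cfc f a, hk, ?_, ?_⟩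
  · rw [e1, e1']
    simp only [mul_comm]
  · have hg : ContinuousOn (fun s => s * f s) (spectrum ℝ a) := continuousOn_id.mul hfc
    have e2 : (a * cfc f a) * a = cfc (fun s => s * f s * s) a := by
      rw [e1, cfc_mul (fun s => s * f s) (fun s => s) a hg continuousOn_id, cfc_id' ℝ a]
    have e3 : (a * cfc f a) * a * (a * cfc f a) = cfc (fun s => s * f s * s * (s * f s)) a := by
      rw [e2, e1, ← cfc_mul (fun s => s * f s * s) (fun s => s * f s) a (hg.mul continuousOn_id) hg]
    have e4 : a - (a * cfc f a) * a * (a * cfc f a)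
        = cfc (fun s => s - s * f s * s * (s * f s)) a := by
      rw [e3, cfc_sub (fun s => s) (fun s => s * f s * s * (s * f s)) a continuousOn_id
        ((hg.mul continuousOn_id).mul hg), cfc_id' ℝ a]
    rw [e4]
    refine norm_cfc_le (by positivity) fun s hs => ?_
    have h0 := hsp s hs
    have h1 : 0 < s + δ := by linarith
    have e5 : s - s * f s * s * (s * f s) = s * (2 * s * δ + δ ^ 2) / (s + δ) ^ 2 := by
      simp only [hf]
      field_simp
      ring
    rw [e5, Real.norm_of_nonneg (by positivity), div_le_iff₀ (by positivity)]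
    nlinarith [mul_nonneg h0 hδ.le, mul_pos hδ hδ, mul_nonneg (mul_nonneg h0 h0) hδ.le,
      mul_nonneg (mul_nonneg h0 hδ.le) hδ.le, pow_pos hδ 3]

theorem Cz_orth {a b : B} (ha : 0 ≤ a) (hb : 0 ≤ b) (hab : a * b = 0) : Cz ![a, b] ![a + b] := by
  intro ε hε
  have hba : b * a = 0 := by
    have := congrArg star hab
    rwa [star_mul, star_zero, ha.isSelfAdjoint.star_eq, hb.isSelfAdjoint.star_eq] at this
  obtain ⟨k, hk, hak, hka⟩ := aux_mult ha (δ := ε / 6) (by positivity)
  obtain ⟨l, hl, hbl, hlb⟩ := aux_mult hb (δ := ε / 6) (by positivity)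
  have hes : star (a * k) = a * k := by
    rw [star_mul, hk.star_eq, ha.isSelfAdjoint.star_eq, hak]
  have hfs : star (b * l) = b * l := by
    rw [star_mul, hl.star_eq, hb.isSelfAdjoint.star_eq, hbl]
  have h1 : (a * k) * b = 0 := by
    rw [hak, mul_assoc, hab, mul_zero]
  have h2 : b * (a * k) = 0 := by
    rw [← mul_assoc, hba, zero_mul]
  have h3 : (b * l) * a = 0 := by
    rw [hbl, mul_assoc, hba, mul_zero]
  have h4 : a * (b * l) = 0 := by
    rw [← mul_assoc, hab, zero_mul]
  have h5 : (a * k) * (a + b) * (a * k) = (a * k) * a * (a * k) := by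
    rw [mul_add, h1, add_zero]
  have h6 : (a * k) * (a + b) * (b * l) = 0 := by
    rw [mul_add, h1, add_zero, mul_assoc, h4, mul_zero]
  have h7 : (b * l) * (a + b) * (a * k) = 0 := by
    rw [mul_add, h3, zero_add, mul_assoc, h2, mul_zero]
  have h8 : (b * l) * (a + b) * (b * l) = (b * l) * b * (b * l) := by
    rw [mul_add, h3, zero_add]
  refine ⟨fun _ i => if i = 0 then a * k else b * l, fun i i' => ?_⟩
  rw [Fin.sum_univ_one]
  fin_cases i <;> fin_cases i'
  · show ‖(if (0 : Fin 2) = 0 then a else 0) - star (a * k) * (a + b) * (a * k)‖ < ε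
    rw [if_pos rfl, hes, h5]
    exact lt_of_le_of_lt hka (by linarith)
  · show ‖(if (0 : Fin 2) = 1 then a else 0) - star (a * k) * (a + b) * (b * l)‖ < ε
    rw [if_neg (by decide), hes, h6, sub_zero, norm_zero]
    exact hε
  · show ‖(if (1 : Fin 2) = 0 then b else 0) - star (b * l) * (a + b) * (a * k)‖ < ε
    rw [if_neg (by decide), hfs, h7, sub_zero, norm_zero]
    exact hε
  · show ‖(if (1 : Fin 2) = 1 then b else 0) - star (b * l) * (a + b) * (b * l)‖ < ε
    rw [if_pos rfl, hfs, h8]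
    exact lt_of_le_of_lt hlb (by linarith)

end Crest.Agent.QT
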