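import Mathlib
import Crest.Prelude.Def_Quasitrace

/-!
# S0188 (a 2-quasitrace that is not a trace) : shared definitions

See the note (rid S0188) for the complete paper proof.  All files `QT_*.lean` use the namespace
`Crest.Agent.QT`.
-/

set_option autoImplicit false

namespace Crest.Agent.QT

open scoped BigOperators ComplexConjugate Matrix

noncomputable section

/-- Cuntz comparison `a ≲ b` of two finite families of elements of a `C*`-algebra `B`:
`diag(a)` is a norm limit of `x* diag(b) x`, `x` rectangular matrices over `B` (entrywise). -/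
def Cz {B : Type*} [NormedRing B] [StarRing B] {ι κ : Type*} [Fintype κ] [DecidableEq ι]
    (a : ι → B) (b : κ → B) : Prop :=
  ∀ ε : ℝ, 0 < ε → ∃ x : κ → ι → B, ∀ i i' : ι,
    ‖(if i = i' then a i else 0) - ∑ j, star (x j i) * b j * x j i'‖ < ε

/-- `m + 1` copies of the unit are never dominated by `m` copies. -/
def NoShrink (B : Type*) [NormedRing B] [StarRing B] : Prop :=
  ∀ m : ℕ, ¬ Cz (fun _ : Fin (m + 1) => (1 : B)) (fun _ : Fin m => (1 : B))

/-- A (normalized) dimension function: additive and monotone for `Cz`. -/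
structure IsDim {B : Type*} [CStarAlgebra B] [PartialOrder B] [StarOrderedRing B]
    (D : B → ℝ) : Prop where
  mono : ∀ {n m : ℕ} (a : Fin n → B) (b : Fin m → B), (∀ i, 0 ≤ a i) → (∀ j, 0 ≤ b j) →
    Cz a b → ∑ i, D (a i) ≤ ∑ j, D (b j)
  one : D 1 = 1

/-- `(h - t)_+` -/
def pp {B : Type*} [CStarAlgebra B] (h : B) (t : ℝ) : B :=
  cfc (fun s : ℝ => max (s - t) 0) h

/-- `∫_{-R}^R D((h-t)_+) dt - R` -/
def TR {B : Type*} [CStarAlgebra B] (D : B → ℝ) (R : ℝ) (h : B) : ℝ :=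
  (∫ t in (-R)..R, D (pp h t)) - R

/-- the quasitrace on self-adjoint elements -/
def TT {B : Type*} [CStarAlgebra B] (D : B → ℝ) (h : B) : ℝ := TR D ‖h‖ h

/-- squared Hilbert-Schmidt norm (not normalized) -/
def hs {ι : Type*} [Fintype ι] (a : Matrix ι ι ℂ) : ℝ := ∑ i, ∑ j, ‖a i j‖ ^ 2

/-- The complex projective space of `κ → ℂ`, as the space of rank one projections `x x*`. -/
def PX (κ : Type*) [Fintype κ] : Type _ :=
  {P : Matrix κ κ ℂ // ∃ x : κ → ℂ, (∑ i, ‖x i‖ ^ 2 = 1) ∧ P = Matrix.vecMulVec x (star x)}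

instance {κ : Type*} [Fintype κ] : TopologicalSpace (PX κ) :=
  instTopologicalSpaceSubtype

/-- the point `[x]` of `PX κ` -/
def PX.mk' {κ : Type*} [Fintype κ] (x : κ → ℂ) (hx : ∑ i, ‖x i‖ ^ 2 = 1) : PX κ :=
  ⟨Matrix.vecMulVec x (star x), x, hx, rfl⟩

/-- partial trace over the second factor -/
def ptr {N M : ℕ} (P : Matrix (Fin N × Fin M) (Fin N × Fin M) ℂ) : Matrix (Fin N) (Fin N) ℂ :=
  fun i j => ∑ l, P (i, l) (j, l)

/-- `z = (1 + C G)⁻¹`, `G` the partial trace of `P` -/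
def zmat {N M : ℕ} (C : ℝ) (P : Matrix (Fin N × Fin M) (Fin N × Fin M) ℂ) :
    Matrix (Fin N) (Fin N) ℂ :=
  (1 + (C : ℂ) • ptr P)⁻¹

/-- The (algebraic) ideal generated by `z`. -/
def idealGen {B : Type*} [Ring B] (z : B) : Set B :=
  {b | ∃ (R : ℕ) (c d : Fin R → B), b = ∑ l, c l * z * d l}

/-- dimension parameters -/
def Mm (k : ℕ) : ℕ := 2 * k + 1
/-- dimension parameters -/
def Nn (k : ℕ) : ℕ := 21 * (2 * k + 1) ^ 2
/-- dimension parameters -/
def Cc (k : ℕ) : ℝ := ((2 * k + 1 : ℕ) : ℝ) ^ 2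

instance (k : ℕ) : NeZero (Mm k) := ⟨by unfold Mm; omega⟩
instance (k : ℕ) : NeZero (Nn k) := ⟨by unfold Nn; positivity⟩

/-- There is a unital `*`-algebra of quantum expanders: gap inequality for four unitaries. -/
def Gap4 {N : ℕ} (u : Fin 4 → Matrix (Fin N) (Fin N) ℂ) : Prop :=
  (∀ j, u j ∈ Matrix.unitaryGroup (Fin N) ℂ) ∧
  ∀ a : Matrix (Fin N) (Fin N) ℂ,
    (7 / 10 : ℝ) * (hs a - ‖a.trace‖ ^ 2 / N) ≤ ∑ j, hs (a - u j * a * (u j)ᴴ)

end

end Crest.Agent.QT
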