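import Crest.Agent.QT_Q1
import Crest.Agent.QT_Cz2

/-!
Task QT-Dim (easy/medium).  Existence of a dimension function: apply `Q1_abstract` with
`P = {b : B // 0 ≤ b}`, `u = 1`, and `R s t` := "for some (hence all) enumerations `a : Fin n → P` of `s`
and `b : Fin m → P` of `t`, `Cz a b`" (`s = Finset.univ.val.map a` etc.).  Permutation invariance is
`Cz.reindex`, transitivity `Cz.trans'`, addition `Cz.sumElim` (+ `finSumFinEquiv`), `R {p} {1}` is `Cz_one`,
`R 0 s` is `Cz.of_isEmpty`.  `D b := if 0 ≤ b then D' ⟨b,_⟩ else 0`.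
-/

set_option autoImplicit false

namespace Crest.Agent.QT

theorem QT_Dim_exists_equiv {ι κ P : Type*} [Fintype ι] [Fintype κ] (f : ι → P) (g : κ → P)
    (h : (Finset.univ : Finset ι).val.map f = (Finset.univ : Finset κ).val.map g) :
    ∃ e : ι ≃ κ, f = g ∘ e := by
  classical
  have hc : ∀ p : P, Fintype.card {i // f i = p} = Fintype.card {j // g j = p} := by
    intro p
    have h1 := congrArg (Multiset.count p) h
    rw [Multiset.count_map, Multiset.count_map] at h1
    rw [Fintype.card_subtype, Fintype.card_subtype]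
    have e1 : (Finset.univ.filter (fun i => f i = p)).card
        = Multiset.card (Multiset.filter (fun a => p = f a) (Finset.univ : Finset ι).val) := by
      rw [← Finset.filter_val, Finset.card_val]
      congr 1
      ext i
      simp [eq_comm]
    have e2 : (Finset.univ.filter (fun i => g i = p)).card
        = Multiset.card (Multiset.filter (fun a => p = g a) (Finset.univ : Finset κ).val) := by
      rw [← Finset.filter_val, Finset.card_val]
      congr 1
      ext i
      simp [eq_comm]
    rw [e1, e2, h1]
  have E : ∀ p : P, {i // f i = p} ≃ {j // g j = p} := fun p => Fintype.equivOfCardEq (hc p)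
  refine ⟨(Equiv.sigmaFiberEquiv f).symm.trans
    ((Equiv.sigmaCongrRight E).trans (Equiv.sigmaFiberEquiv g)), ?_⟩
  funext i
  have := (E (f i) ⟨i, rfl⟩).2
  exact this.symm

theorem QT_Dim_enum {P : Type*} (s : Multiset P) :
    ∃ (n : ℕ) (a : Fin n → P), (Finset.univ : Finset (Fin n)).val.map a = s := by
  induction s using Quot.inductionOn with
  | h l =>
    refine ⟨l.length, l.get, ?_⟩
    rw [Fin.univ_val_map, List.ofFn_get]
    rfl

theorem QT_Dim_map_sum {P : Type*} {n k : ℕ} (a : Fin n → P) (c : Fin k → P) :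
    (Finset.univ : Finset (Fin (n + k))).val.map (Sum.elim a c ∘ finSumFinEquiv.symm)
      = (Finset.univ : Finset (Fin n)).val.map a + (Finset.univ : Finset (Fin k)).val.map c := by
  rw [← Multiset.map_map, Multiset.map_univ_val_equiv, ← Finset.univ_disjSum_univ,
    Finset.val_disjSum, Multiset.disjSum, Multiset.map_add, Multiset.map_map, Multiset.map_map]
  rfl

/-- the comparison relation on multisets of positive elements -/
def QT_Dim_R {B : Type*} [CStarAlgebra B] [PartialOrder B]
    (s t : Multiset {b : B // 0 ≤ b}) : Prop :=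
  ∃ (n m : ℕ) (a : Fin n → {b : B // 0 ≤ b}) (b : Fin m → {b : B // 0 ≤ b}),
    (Finset.univ : Finset (Fin n)).val.map a = s ∧
    (Finset.univ : Finset (Fin m)).val.map b = t ∧
    Cz (fun i => (a i : B)) (fun j => (b j : B))

theorem exists_dimension {B : Type*} [CStarAlgebra B] [PartialOrder B] [StarOrderedRing B]
    (H : NoShrink B) : ∃ D : B → ℝ, IsDim D := by
  classical
  obtain ⟨D', hD, hD1⟩ := Q1_abstract (P := {b : B // 0 ≤ b}) ⟨1, zero_le_one⟩ QT_Dim_R
    (by
      intro s
      obtain ⟨n, a, ha⟩ := QT_Dim_enum s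
      exact ⟨n, n, a, a, ha, ha, Cz.refl' _⟩)
    (by
      rintro s t r ⟨n, m, a, b, ha, hb, hab⟩ ⟨m', k, b', c, hb', hc, hbc⟩
      obtain ⟨e, he⟩ := QT_Dim_exists_equiv b b' (hb.trans hb'.symm)
      refine ⟨n, k, a, c, ha, hc, ?_⟩
      have h1 := Cz.reindex (Function.Embedding.refl (Fin n)) e.symm hab
      have h2 : ((fun j => ((b j : {b : B // 0 ≤ b}) : B)) ∘ e.symm)
          = fun j => ((b' j : {b : B // 0 ≤ b}) : B) := by
        funext j
        simp [he]
      rw [h2] at h1
      exact Cz.trans' h1 hbc)
    (by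
      rintro s t r ⟨n, m, a, b, ha, hb, hab⟩
      obtain ⟨k, c, hc⟩ := QT_Dim_enum r
      refine ⟨n + k, m + k, Sum.elim a c ∘ finSumFinEquiv.symm,
        Sum.elim b c ∘ finSumFinEquiv.symm, ?_, ?_, ?_⟩
      · rw [QT_Dim_map_sum, ha, hc]
      · rw [QT_Dim_map_sum, hb, hc]
      · have h1 := Cz.sumElim hab (Cz.refl' (fun i => ((c i : {b : B // 0 ≤ b}) : B)))
        have h2 := Cz.reindex (finSumFinEquiv.symm.toEmbedding) finSumFinEquiv.symm h1
        have e1 : (fun i => (((Sum.elim a c ∘ finSumFinEquiv.symm) i : {b : B // 0 ≤ b}) : B))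
            = (Sum.elim (fun i => (a i : B)) (fun i => (c i : B))) ∘
              (finSumFinEquiv.symm.toEmbedding : Fin (n + k) → Fin n ⊕ Fin k) := by
          funext i
          simp only [Function.comp, Equiv.coe_toEmbedding]
          cases finSumFinEquiv.symm i <;> rfl
        have e2 : (fun i => (((Sum.elim b c ∘ finSumFinEquiv.symm) i : {b : B // 0 ≤ b}) : B))
            = (Sum.elim (fun i => (b i : B)) (fun i => (c i : B))) ∘
              (finSumFinEquiv.symm : Fin (m + k) → Fin m ⊕ Fin k) := by
          funext i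
          simp only [Function.comp]
          cases finSumFinEquiv.symm i <;> rfl
        rw [e1, e2]
        exact h2)
    (by
      intro s
      obtain ⟨n, a, ha⟩ := QT_Dim_enum s
      exact ⟨0, n, Fin.elim0, a, by simp, ha, Cz.of_isEmpty _ _⟩)
    (by
      intro p
      refine ⟨1, 1, ![p], ![⟨1, zero_le_one⟩], by simp, by simp, ?_⟩
      have h := Cz_one p.2
      have e1 : (fun i => ((![p] i : {b : B // 0 ≤ b}) : B)) = ![(p : B)] := by
        funext i
        fin_cases i
        rfl
      have e2 : (fun i => ((![(⟨1, zero_le_one⟩ : {b : B // 0 ≤ b})] i : {b : B // 0 ≤ b}) : B))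
          = ![(1 : B)] := by
        funext i
        fin_cases i
        rfl
      rw [e1, e2]
      exact h)
    (by
      rintro m ⟨n, k, a, b, ha, hb, hab⟩
      have hn : n = m + 1 := by
        have := congrArg Multiset.card ha
        simpa using this
      have hk : k = m := by
        have := congrArg Multiset.card hb
        simpa using this
      subst hn
      subst hk
      have ha' : ∀ i, a i = ⟨1, zero_le_one⟩ := by
        intro i
        have : a i ∈ (Finset.univ : Finset (Fin (k + 1))).val.map a :=
          Multiset.mem_map_of_mem _ (Finset.mem_univ i)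
        rw [ha] at this
        exact Multiset.eq_of_mem_replicate this
      have hb' : ∀ i, b i = ⟨1, zero_le_one⟩ := by
        intro i
        have : b i ∈ (Finset.univ : Finset (Fin k)).val.map b :=
          Multiset.mem_map_of_mem _ (Finset.mem_univ i)
        rw [hb] at this
        exact Multiset.eq_of_mem_replicate this
      apply H k
      have e1 : (fun i => ((a i : {b : B // 0 ≤ b}) : B)) = fun _ => 1 := by
        funext i
        rw [ha' i]
      have e2 : (fun i => ((b i : {b : B // 0 ≤ b}) : B)) = fun _ => 1 := by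
        funext i
        rw [hb' i]
      rw [e1, e2] at hab
      exact hab)
  refine ⟨fun b => if h : 0 ≤ b then D' ⟨b, h⟩ else 0, ?_, ?_⟩
  · intro n m a b ha hb hab
    have h := hD ((Finset.univ : Finset (Fin n)).val.map (fun i => (⟨a i, ha i⟩ : {b : B // 0 ≤ b})))
      ((Finset.univ : Finset (Fin m)).val.map (fun i => (⟨b i, hb i⟩ : {b : B // 0 ≤ b})))
      ⟨n, m, _, _, rfl, rfl, hab⟩
    rw [Multiset.map_map, Multiset.map_map] at h
    have e1 : ∀ i, (if h : 0 ≤ a i then D' ⟨a i, h⟩ else 0) = D' ⟨a i, ha i⟩ :=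
      fun i => dif_pos (ha i)
    have e2 : ∀ i, (if h : 0 ≤ b i then D' ⟨b i, h⟩ else 0) = D' ⟨b i, hb i⟩ :=
      fun i => dif_pos (hb i)
    simp only [e1, e2]
    exact h
  · simp only [zero_le_one, dif_pos, hD1]

end Crest.Agent.QT
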