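import Crest.Agent.QT_Cz2
import Crest.Agent.QT_Cz3

/-!
Task QT-DimProps (medium).  Consequences of `IsDim` (apply `IsDim.mono` to 1- and 2-element families).
* `D_trace`: `D (x*x) = D (x x*)`: `(x*x)² = x* (x x*) x ≲ x x*`, and `x*x ≲ (x*x)²` (Cz_sq).
* `D_isUnit`: if `a ≥ c·1`, `c > 0`, then `D a = 1` (`1 ≲ a`: `Cz_le` for `c·1 ≤ a` and `1 = c^{-1/2} (c 1) c^{-1/2}`).
-/

set_option autoImplicit false

namespace Crest.Agent.QT

variable {B : Type*} [CStarAlgebra B] [PartialOrder B] [StarOrderedRing B] {D : B → ℝ}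

theorem IsDim.dpNonneg1 {a : B} (ha : 0 ≤ a) : ∀ i : Fin 1, 0 ≤ (![a] : Fin 1 → B) i := by
  intro i; fin_cases i; exact ha

theorem IsDim.dpNonneg2 {a b : B} (ha : 0 ≤ a) (hb : 0 ≤ b) :
    ∀ i : Fin 2, 0 ≤ (![a, b] : Fin 2 → B) i := by
  intro i; fin_cases i
  · exact ha
  · exact hb

theorem IsDim.nonneg (hD : IsDim D) {a : B} (ha : 0 ≤ a) : 0 ≤ D a := by
  have h := hD.mono (n := 0) (m := 1) ![] ![a] (fun i => i.elim0) (IsDim.dpNonneg1 ha)
    (Cz.of_isEmpty _ _)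
  simpa using h

theorem IsDim.le_of_Cz (hD : IsDim D) {a b : B} (ha : 0 ≤ a) (hb : 0 ≤ b)
    (h : Cz ![a] ![b]) : D a ≤ D b := by
  have h := hD.mono ![a] ![b] (IsDim.dpNonneg1 ha) (IsDim.dpNonneg1 hb) h
  simpa using h

theorem IsDim.zero (hD : IsDim D) : D 0 = 0 := by
  refine le_antisymm ?_ (hD.nonneg le_rfl)
  have h := hD.mono (n := 1) (m := 0) ![(0 : B)] ![] (IsDim.dpNonneg1 le_rfl) (fun i => i.elim0)
    (by
      intro ε hε
      refine ⟨fun j => j.elim0, fun i i' => ?_⟩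
      fin_cases i
      fin_cases i'
      simpa using hε)
  simpa using h

theorem IsDim.le_one (hD : IsDim D) {a : B} (ha : 0 ≤ a) : D a ≤ 1 := by
  rw [← hD.one]
  exact hD.le_of_Cz ha zero_le_one (Cz_one ha)

theorem IsDim.le_of_le (hD : IsDim D) {a b : B} (ha : 0 ≤ a) (hab : a ≤ b) : D a ≤ D b :=
  hD.le_of_Cz ha (ha.trans hab) (Cz_le ha hab)

theorem IsDim.conj_le (hD : IsDim D) {a : B} (ha : 0 ≤ a) (x : B) : D (star x * a * x) ≤ D a :=
  hD.le_of_Cz (star_left_conjugate_nonneg ha x) ha (Cz_conj a x)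

theorem IsDim.add_le (hD : IsDim D) {a b : B} (ha : 0 ≤ a) (hb : 0 ≤ b) :
    D (a + b) ≤ D a + D b := by
  have h := hD.mono ![a + b] ![a, b] (IsDim.dpNonneg1 (add_nonneg ha hb)) (IsDim.dpNonneg2 ha hb)
    (Cz_add ha hb)
  simpa [Fin.sum_univ_two] using h

theorem IsDim.add_orth (hD : IsDim D) {a b : B} (ha : 0 ≤ a) (hb : 0 ≤ b) (hab : a * b = 0) :
    D (a + b) = D a + D b := by
  refine le_antisymm (hD.add_le ha hb) ?_
  have h := hD.mono ![a, b] ![a + b] (IsDim.dpNonneg2 ha hb) (IsDim.dpNonneg1 (add_nonneg ha hb))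
    (Cz_orth ha hb hab)
  simpa [Fin.sum_univ_two] using h

theorem IsDim.smul (hD : IsDim D) {a : B} (ha : 0 ≤ a) {c : ℝ} (hc : 0 < c) : D (c • a) = D a := by
  have hca : 0 ≤ c • a := smul_nonneg hc.le ha
  refine le_antisymm (hD.le_of_Cz hca ha (Cz_smul ha hc.le)) ?_
  have h := hD.le_of_Cz (a := c⁻¹ • (c • a)) (smul_nonneg (inv_nonneg.2 hc.le) hca) hca
    (Cz_smul hca (inv_nonneg.2 hc.le))
  rwa [smul_smul, inv_mul_cancel₀ hc.ne', one_smul] at h

theorem IsDim.trace (hD : IsDim D) (x : B) : D (star x * x) = D (x * star x) := by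
  have key : ∀ y : B, D (star y * y) ≤ D (y * star y) := by
    intro y
    have h1 : 0 ≤ star y * y := star_mul_self_nonneg y
    have h2 : 0 ≤ y * star y := mul_star_self_nonneg y
    have h3 : D (star y * y) ≤ D ((star y * y) * (star y * y)) := by
      refine hD.le_of_Cz h1 ?_ (Cz_sq h1)
      have := star_left_conjugate_nonneg h2 y
      simpa [mul_assoc] using this
    have h4 := hD.conj_le h2 y
    have h5 : star y * (y * star y) * y = (star y * y) * (star y * y) := by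
      simp only [mul_assoc]
    rw [h5] at h4
    exact h3.trans h4
  refine le_antisymm (key x) ?_
  have := key (star x)
  simpa using this

theorem IsDim.of_isUnit (hD : IsDim D) {a : B} {c : ℝ} (hc : 0 < c)
    (ha : algebraMap ℝ B c ≤ a) : D a = 1 := by
  have h0 : 0 ≤ algebraMap ℝ B c := by
    rw [Algebra.algebraMap_eq_smul_one]
    exact smul_nonneg hc.le zero_le_one
  refine le_antisymm (hD.le_one (h0.trans ha)) ?_
  have h1 := hD.le_of_le h0 ha
  rw [Algebra.algebraMap_eq_smul_one, hD.smul zero_le_one hc, hD.one] at h1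
  exact h1

end Crest.Agent.QT
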