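import Crest.Agent.QT_Defs

/-!
Task QT-Med (easy/medium).  Median splitting of a Hermitian matrix: diagonalize `ξ = U diag(λ_i) U*`, let `λ` be a
median of the eigenvalues (at most `N/2` of them are `> λ`, at most `N/2` are `< λ`), `a = U diag(√(λ_i - λ)_+) U*`,
`b = U diag(√(λ_i-λ)_-) U*`.  `(tr a)² ≤ rank(a) tr(a²) ≤ (N/2) hs a` (Cauchy-Schwarz).
-/

set_option autoImplicit false

namespace Crest.Agent.QT

open scoped Matrix ComplexOrder

theorem Med_hs_eq {ι : Type*} [Fintype ι] (a : Matrix ι ι ℂ) : hs a = (aᴴ * a).trace.re := by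
  unfold hs
  rw [Matrix.trace, Complex.re_sum, Finset.sum_comm]
  refine Finset.sum_congr rfl fun j _ => ?_
  rw [Matrix.diag_apply, Matrix.mul_apply, Complex.re_sum]
  refine Finset.sum_congr rfl fun i _ => ?_
  rw [Matrix.conjTranspose_apply, Complex.star_def, ← Complex.normSq_eq_conj_mul_self,
    Complex.ofReal_re, Complex.normSq_eq_norm_sq]

/-- a median of a finite family. -/
theorem Med_median {ι : Type*} [Fintype ι] [DecidableEq ι] (μ : ι → ℝ) :
    ∃ lam : ℝ, 2 * (Finset.univ.filter fun i => lam < μ i).card ≤ Fintype.card ι ∧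
      2 * (Finset.univ.filter fun i => μ i < lam).card ≤ Fintype.card ι := by
  rcases isEmpty_or_nonempty ι with h | h
  · exact ⟨0, by simp, by simp⟩
  · obtain ⟨i1, -, h1⟩ := Finset.exists_max_image (Finset.univ : Finset ι) μ Finset.univ_nonempty
    have hT : (Finset.univ.filter fun i => 2 * (Finset.univ.filter fun j => μ i < μ j).card ≤
        Fintype.card ι).Nonempty := by
      refine ⟨i1, ?_⟩
      rw [Finset.mem_filter]
      refine ⟨Finset.mem_univ _, ?_⟩
      have : (Finset.univ.filter fun j => μ i1 < μ j) = ∅ :=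
        Finset.filter_eq_empty_iff.2 fun j hj => not_lt.2 (h1 j hj)
      rw [this]
      simp
    obtain ⟨i0, hi0, hmin⟩ := Finset.exists_min_image _ μ hT
    rw [Finset.mem_filter] at hi0
    refine ⟨μ i0, hi0.2, ?_⟩
    by_contra hcon
    push Not at hcon
    have hne : (Finset.univ.filter fun i => μ i < μ i0).Nonempty := by
      rw [← Finset.card_pos]
      omega
    obtain ⟨i2, hi2, hmax⟩ := Finset.exists_max_image _ μ hne
    rw [Finset.mem_filter] at hi2
    have hsub : (Finset.univ.filter fun j => μ i2 < μ j) ⊆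
        (Finset.univ.filter fun i => μ i < μ i0)ᶜ := by
      intro j hj
      rw [Finset.mem_filter] at hj
      rw [Finset.mem_compl, Finset.mem_filter]
      rintro ⟨_, hj'⟩
      have := hmax j (Finset.mem_filter.2 ⟨Finset.mem_univ _, hj'⟩)
      linarith [hj.2]
    have hcard := Finset.card_le_card hsub
    rw [Finset.card_compl] at hcard
    have hle : 2 * (Finset.univ.filter fun j => μ i2 < μ j).card ≤ Fintype.card ι := by omega
    have := hmin i2 (Finset.mem_filter.2 ⟨Finset.mem_univ _, hle⟩)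
    linarith [hi2.2]

theorem Med_cs {ι : Type*} [Fintype ι] [DecidableEq ι] (α : ι → ℝ) (s : Finset ι)
    (hs : ∀ i, i ∉ s → α i = 0) (hcard : 2 * s.card ≤ Fintype.card ι) :
    (∑ i, α i) ^ 2 ≤ (Fintype.card ι : ℝ) / 2 * ∑ i, α i ^ 2 := by
  have h1 : ∑ i, α i = ∑ i ∈ s, α i :=
    (Finset.sum_subset (Finset.subset_univ s) fun i _ hi => hs i hi).symm
  have h2 : ∑ i, α i ^ 2 = ∑ i ∈ s, α i ^ 2 :=
    (Finset.sum_subset (Finset.subset_univ s) fun i _ hi => by rw [hs i hi]; norm_num).symm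
  rw [h1, h2]
  have h3 : ((∑ i ∈ s, α i) ^ 2 : ℝ) ≤ s.card * ∑ i ∈ s, α i ^ 2 := sq_sum_le_card_mul_sum_sq
  have h4 : (s.card : ℝ) ≤ (Fintype.card ι : ℝ) / 2 := by
    have : (2 * s.card : ℝ) ≤ Fintype.card ι := by exact_mod_cast hcard
    linarith
  exact h3.trans (mul_le_mul_of_nonneg_right h4 (Finset.sum_nonneg fun i _ => sq_nonneg _))

theorem median_split {ι : Type*} [Fintype ι] [DecidableEq ι] (ξ : Matrix ι ι ℂ)
    (hξ : ξ.IsHermitian) :
    ∃ (lam : ℝ) (a b : Matrix ι ι ℂ), a.PosSemidef ∧ b.PosSemidef ∧ a * b = 0 ∧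
      ξ - (lam : ℂ) • (1 : Matrix ι ι ℂ) = a * a - b * b ∧
      ‖a.trace‖ ^ 2 ≤ (Fintype.card ι : ℝ) / 2 * hs a ∧
      ‖b.trace‖ ^ 2 ≤ (Fintype.card ι : ℝ) / 2 * hs b := by
  obtain ⟨U, hU1, hU2, hspec⟩ : ∃ U : Matrix ι ι ℂ, Uᴴ * U = 1 ∧ U * Uᴴ = 1 ∧
      ξ = U * Matrix.diagonal (fun i => (hξ.eigenvalues i : ℂ)) * Uᴴ := by
    refine ⟨(hξ.eigenvectorUnitary : Matrix ι ι ℂ), ?_, ?_, ?_⟩
    · exact Unitary.coe_star_mul_self hξ.eigenvectorUnitary
    · exact Unitary.coe_mul_star_self hξ.eigenvectorUnitary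
    · have h := hξ.spectral_theorem
      rw [Unitary.conjStarAlgAut_apply] at h
      exact h
  set μ : ι → ℝ := hξ.eigenvalues with hμ
  obtain ⟨lam, hl1, hl2⟩ := Med_median μ
  have hmul : ∀ f g : ι → ℝ, U * Matrix.diagonal (fun i => (f i : ℂ)) * Uᴴ *
      (U * Matrix.diagonal (fun i => (g i : ℂ)) * Uᴴ) =
      U * Matrix.diagonal (fun i => ((f i * g i : ℝ) : ℂ)) * Uᴴ := by
    intro f g
    have e : Matrix.diagonal (fun i => ((f i * g i : ℝ) : ℂ)) =
        Matrix.diagonal (fun i => (f i : ℂ)) * Matrix.diagonal (fun i => (g i : ℂ)) := by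
      rw [Matrix.diagonal_mul_diagonal]
      simp only [Complex.ofReal_mul]
    rw [e]
    calc U * Matrix.diagonal (fun i => (f i : ℂ)) * Uᴴ * (U * Matrix.diagonal (fun i => (g i : ℂ)) * Uᴴ) =
        U * Matrix.diagonal (fun i => (f i : ℂ)) * (Uᴴ * U) * Matrix.diagonal (fun i => (g i : ℂ)) * Uᴴ := by
          simp only [mul_assoc]
      _ = _ := by rw [hU1, mul_one]; simp only [mul_assoc]
  have htr : ∀ f : ι → ℝ, (U * Matrix.diagonal (fun i => (f i : ℂ)) * Uᴴ).trace = ((∑ i, f i : ℝ) : ℂ) := by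
    intro f
    rw [mul_assoc, Matrix.trace_mul_comm, mul_assoc, hU1, mul_one, Matrix.trace_diagonal]
    push_cast
    rfl
  have hherm : ∀ f : ι → ℝ, (U * Matrix.diagonal (fun i => (f i : ℂ)) * Uᴴ)ᴴ =
      U * Matrix.diagonal (fun i => (f i : ℂ)) * Uᴴ := by
    intro f
    rw [Matrix.conjTranspose_mul, Matrix.conjTranspose_mul, Matrix.conjTranspose_conjTranspose,
      Matrix.diagonal_conjTranspose, ← mul_assoc]
    congr 3
    funext i
    simp
  have hpsd : ∀ f : ι → ℝ, (∀ i, 0 ≤ f i) →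
      (U * Matrix.diagonal (fun i => (f i : ℂ)) * Uᴴ).PosSemidef := by
    intro f hf
    refine Matrix.PosSemidef.mul_mul_conjTranspose_same ?_ U
    exact Matrix.PosSemidef.diagonal fun i => by
      change (0 : ℂ) ≤ (f i : ℂ)
      exact_mod_cast hf i
  have hhs : ∀ f : ι → ℝ, hs (U * Matrix.diagonal (fun i => (f i : ℂ)) * Uᴴ) = ∑ i, f i ^ 2 := by
    intro f
    rw [Med_hs_eq, hherm, hmul, htr, Complex.ofReal_re]
    exact Finset.sum_congr rfl fun i _ => (sq _).symm
  have hest : ∀ (f : ι → ℝ) (s : Finset ι), (∀ i, i ∉ s → f i = 0) → 2 * s.card ≤ Fintype.card ι →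
      ‖(U * Matrix.diagonal (fun i => (f i : ℂ)) * Uᴴ).trace‖ ^ 2 ≤
        (Fintype.card ι : ℝ) / 2 * hs (U * Matrix.diagonal (fun i => (f i : ℂ)) * Uᴴ) := by
    intro f s hf hs'
    rw [hhs, htr, Complex.norm_real, Real.norm_eq_abs, sq_abs]
    exact Med_cs f s hf hs'
  refine ⟨lam, U * Matrix.diagonal (fun i => ((Real.sqrt (μ i - lam) : ℝ) : ℂ)) * Uᴴ,
    U * Matrix.diagonal (fun i => ((Real.sqrt (lam - μ i) : ℝ) : ℂ)) * Uᴴ,
    hpsd _ fun i => Real.sqrt_nonneg _, hpsd _ fun i => Real.sqrt_nonneg _, ?_, ?_,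
    hest _ (Finset.univ.filter fun i => lam < μ i) ?_ hl1,
    hest _ (Finset.univ.filter fun i => μ i < lam) ?_ hl2⟩
  · rw [hmul]
    have : (fun i => ((Real.sqrt (μ i - lam) * Real.sqrt (lam - μ i) : ℝ) : ℂ)) = fun _ => 0 := by
      funext i
      rcases le_total (μ i) lam with h | h
      · rw [Real.sqrt_eq_zero_of_nonpos (by linarith : μ i - lam ≤ 0)]; simp
      · rw [Real.sqrt_eq_zero_of_nonpos (by linarith : lam - μ i ≤ 0)]; simp
    rw [this]
    simp
  · rw [hmul, hmul, ← sub_mul, ← mul_sub, Matrix.diagonal_sub]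
    have e1 : (lam : ℂ) • (1 : Matrix ι ι ℂ) = U * Matrix.diagonal (fun _ => (lam : ℂ)) * Uᴴ := by
      have : Matrix.diagonal (fun _ : ι => (lam : ℂ)) = (lam : ℂ) • (1 : Matrix ι ι ℂ) :=
        (Matrix.smul_one_eq_diagonal _).symm
      rw [this, Matrix.mul_smul, mul_one, Matrix.smul_mul, hU2]
    conv_lhs => rw [hspec, e1]
    rw [← sub_mul, ← mul_sub, Matrix.diagonal_sub]
    congr 3
    funext i
    rw [← Complex.ofReal_sub, ← Complex.ofReal_sub]
    congr 1
    rcases le_total (μ i) lam with h | h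
    · rw [Real.sqrt_eq_zero_of_nonpos (by linarith : μ i - lam ≤ 0),
        Real.mul_self_sqrt (by linarith : 0 ≤ lam - μ i)]
      ring
    · rw [Real.sqrt_eq_zero_of_nonpos (by linarith : lam - μ i ≤ 0),
        Real.mul_self_sqrt (by linarith : 0 ≤ μ i - lam)]
      ring
  · intro i hi
    rw [Finset.mem_filter] at hi
    push Not at hi
    exact Real.sqrt_eq_zero_of_nonpos (by linarith [hi (Finset.mem_univ _)])
  · intro i hi
    rw [Finset.mem_filter] at hi
    push Not at hi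
    exact Real.sqrt_eq_zero_of_nonpos (by linarith [hi (Finset.mem_univ _)])

end Crest.Agent.QT
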