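import Crest.Agent.QT_L1
import Crest.Agent.QT_Med

/-!
Task QT-Dual (medium).  Pointwise representation by Hahn-Banach.
`w = q - (tr q/N)·1` is Hermitian and traceless.  Let `Y = {∑ (u_j y_j u_j* - y_j) : -c ≤ y_j ≤ c}`, `c = 5.99`
(compact convex).  If `w ∉ Y` there is a real linear functional `f` with `f(w) > sup_Y f`; on Hermitian matrices
`f x = Re tr(ξ x)` with `ξ` Hermitian.  `median_split`: `h = ξ - λ = a² - b²`.
`Re tr(ξ w) = Re tr(h w) = Re tr(a² q) - Re tr(b² q) - (tr q/N)(tr a² - tr b²) ≤ hs a + (1/21) hs b`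
(`0 ≤ q ≤ 1`, `0 ≤ tr q ≤ N/21`).
For each `j` `l1_test` with `u := (u j)ᴴ` gives `c_j` with `hs(a - u_j* a u_j)/2 ≤ Re tr((h - u_j* h u_j) c_j)`;
`hs(a - u_j* a u_j) = hs(a - u_j a u_j*)`; sum and `Gap4` : `(7/20)(hs a - |tr a|²/N) ≤ ∑ Re tr((h - u_j* h u_j)c_j)`, and
`|tr a|² ≤ (N/2) hs a`; so with `y_j = -c c_j`: `c (7/40) hs a ≤ Re tr(ξ ∑(u_j y_j u_j* - y_j)) ≤ sup_Y f`.  The same for `b`
(`l1_test` with `a`, `b` exchanged).  So `Re tr(ξ w) ≤ (1 + 1/21)(40/7)/c · sup_Y f < sup_Y f` unless it is `≤ 0`; contradiction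
(`(22/21)(40/7) = 5.9863.. < 5.99`, `0 ∈ Y`).
-/

set_option autoImplicit false

namespace Crest.Agent.QT

open scoped Matrix ComplexOrder

private theorem du_sum {N : ℕ} {κ : Type*} (s : Finset κ) (F : κ → Matrix (Fin N) (Fin N) ℂ) :
    l1T (∑ j ∈ s, F j) = ∑ j ∈ s, l1T (F j) := by
  simp [l1T, Matrix.trace_sum]

private theorem du_smul {N : ℕ} (r : ℝ) (X : Matrix (Fin N) (Fin N) ℂ) :
    l1T ((r : ℂ) • X) = r * l1T X := by
  simp [l1T, Matrix.trace_smul]

private theorem du_hs_conj {N : ℕ} (u X : Matrix (Fin N) (Fin N) ℂ)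
    (hu : u ∈ Matrix.unitaryGroup (Fin N) ℂ) : hs (u * X * uᴴ) = hs X := by
  have hu1 : uᴴ * u = 1 := (Matrix.mem_unitaryGroup_iff'.1 hu)
  rw [l1_hs_eq, l1_hs_eq, Matrix.conjTranspose_mul, Matrix.conjTranspose_mul,
    Matrix.conjTranspose_conjTranspose]
  have : u * (Xᴴ * uᴴ) * (u * X * uᴴ) = u * (Xᴴ * X * uᴴ) := by
    calc u * (Xᴴ * uᴴ) * (u * X * uᴴ) = u * (Xᴴ * (uᴴ * u) * X * uᴴ) := by
          simp only [Matrix.mul_assoc]
      _ = _ := by rw [hu1, Matrix.mul_one]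
  rw [this, l1T_comm, Matrix.mul_assoc, hu1, Matrix.mul_one]

private theorem du_hs_swap {N : ℕ} (u X : Matrix (Fin N) (Fin N) ℂ)
    (hu : u ∈ Matrix.unitaryGroup (Fin N) ℂ) : hs (X - uᴴ * X * u) = hs (X - u * X * uᴴ) := by
  have hu1 : u * uᴴ = 1 := (Matrix.mem_unitaryGroup_iff.1 hu)
  rw [← du_hs_conj u (X - uᴴ * X * u) hu]
  have : u * (X - uᴴ * X * u) * uᴴ = -(X - u * X * uᴴ) := by
    rw [Matrix.mul_sub, Matrix.sub_mul]
    have e : u * (uᴴ * X * u) * uᴴ = X := by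
      calc u * (uᴴ * X * u) * uᴴ = (u * uᴴ) * X * (u * uᴴ) := by simp only [Matrix.mul_assoc]
        _ = X := by rw [hu1, Matrix.one_mul, Matrix.mul_one]
    rw [e]; abel
  rw [this]
  unfold hs
  simp only [Matrix.neg_apply, norm_neg]

private theorem du_key {N : ℕ} [NeZero N] (u : Fin 4 → Matrix (Fin N) (Fin N) ℂ) (hu : Gap4 u)
    (a b : Matrix (Fin N) (Fin N) ℂ) (ha : a.PosSemidef) (hb : b.PosSemidef) (hab : a * b = 0)
    (hat : ‖a.trace‖ ^ 2 ≤ (N : ℝ) / 2 * hs a) :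
    ∃ c : Fin 4 → Matrix (Fin N) (Fin N) ℂ, (∀ j, (1 - c j).PosSemidef ∧ (1 + c j).PosSemidef) ∧
      (7 / 40 : ℝ) * hs a ≤ -l1T ((a * a - b * b) * ∑ j, (u j * c j * (u j)ᴴ - c j)) := by
  have hex : ∀ j, ∃ c : Matrix (Fin N) (Fin N) ℂ, (1 - c).PosSemidef ∧ (1 + c).PosSemidef ∧
      hs (a - u j * a * (u j)ᴴ) / 2 ≤ -l1T ((a * a - b * b) * (u j * c * (u j)ᴴ - c)) := by
    intro j
    have hstar : (u j)ᴴ ∈ Matrix.unitaryGroup (Fin N) ℂ := by
      have := Unitary.star_mem (hu.1 j)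
      exact this
    obtain ⟨c, h1, h2, h3⟩ := l1_test a b (u j)ᴴ ha hb hab hstar
    refine ⟨c, h1, h2, ?_⟩
    rw [Matrix.conjTranspose_conjTranspose, du_hs_swap _ _ (hu.1 j)] at h3
    refine h3.trans (le_of_eq ?_)
    show l1T (((a * a - b * b) - (u j)ᴴ * (a * a - b * b) * u j) * c) = _
    generalize a * a - b * b = h
    rw [Matrix.sub_mul, l1T_sub, Matrix.mul_sub, l1T_sub]
    have : l1T ((u j)ᴴ * h * u j * c) = l1T (h * (u j * c * (u j)ᴴ)) := by
      rw [show (u j)ᴴ * h * u j * c = (u j)ᴴ * (h * (u j * c)) by simp only [Matrix.mul_assoc],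
        l1T_comm]
      simp only [Matrix.mul_assoc]
    rw [this]; ring
  choose c h1 h2 h3 using hex
  refine ⟨c, fun j => ⟨h1 j, h2 j⟩, ?_⟩
  have hg := hu.2 a
  have hN : (0 : ℝ) < N := by exact_mod_cast Nat.pos_of_ne_zero (NeZero.ne N)
  have h4 : ‖a.trace‖ ^ 2 / N ≤ 1 / 2 * hs a := by
    rw [div_le_iff₀ hN]
    linarith
  have h5 : ∑ j, hs (a - u j * a * (u j)ᴴ) / 2 ≤
      ∑ j, -l1T ((a * a - b * b) * (u j * c j * (u j)ᴴ - c j)) :=
    Finset.sum_le_sum fun j _ => h3 j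
  rw [← Finset.sum_div, Finset.sum_neg_distrib, ← du_sum, ← Matrix.mul_sum] at h5
  linarith

private theorem du_hs_cont {N : ℕ} : Continuous (fun X : Matrix (Fin N) (Fin N) ℂ => hs X) := by
  unfold hs
  refine continuous_finsetSum _ fun i _ => continuous_finsetSum _ fun j _ => ?_
  exact (continuous_id.matrix_elem i j).norm.pow 2

private theorem du_psd_closed {N : ℕ} : IsClosed {X : Matrix (Fin N) (Fin N) ℂ | X.PosSemidef} := by
  have : {X : Matrix (Fin N) (Fin N) ℂ | X.PosSemidef} =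
      {X | Xᴴ = X} ∩ ⋂ x : Fin N → ℂ, {X | 0 ≤ star x ⬝ᵥ (X *ᵥ x)} := by
    ext X
    simp only [Set.mem_ofPred_eq, Set.mem_inter_iff, Set.mem_iInter]
    rw [Matrix.posSemidef_iff_dotProduct_mulVec]
    rfl
  rw [this]
  refine IsClosed.inter (isClosed_eq (continuous_id.matrix_conjTranspose) continuous_id) ?_
  refine isClosed_iInter fun x => ?_
  refine isClosed_le continuous_const ?_
  exact continuous_const.dotProduct (continuous_id.matrix_mulVec continuous_const)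

private def duK (N : ℕ) (r : ℝ) : Set (Fin 4 → Matrix (Fin N) (Fin N) ℂ) :=
  {y | ∀ j, ((r : ℂ) • (1 : Matrix (Fin N) (Fin N) ℂ) - y j).PosSemidef ∧
        ((r : ℂ) • (1 : Matrix (Fin N) (Fin N) ℂ) + y j).PosSemidef}

private theorem duK_closed {N : ℕ} (r : ℝ) : IsClosed (duK N r) := by
  have : duK N r = ⋂ j, ({y | ((r : ℂ) • (1 : Matrix (Fin N) (Fin N) ℂ) - y j).PosSemidef} ∩
      {y | ((r : ℂ) • (1 : Matrix (Fin N) (Fin N) ℂ) + y j).PosSemidef}) := by
    ext y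
    simp [duK]
  rw [this]
  refine isClosed_iInter fun j => IsClosed.inter ?_ ?_
  · have h : Continuous (fun y : Fin 4 → Matrix (Fin N) (Fin N) ℂ =>
        (r : ℂ) • (1 : Matrix (Fin N) (Fin N) ℂ) - y j) := continuous_const.sub (continuous_apply j)
    exact du_psd_closed.preimage h
  · have h : Continuous (fun y : Fin 4 → Matrix (Fin N) (Fin N) ℂ =>
        (r : ℂ) • (1 : Matrix (Fin N) (Fin N) ℂ) + y j) := continuous_const.add (continuous_apply j)
    exact du_psd_closed.preimage h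

private theorem du_bound {N : ℕ} {r : ℝ} {X : Matrix (Fin N) (Fin N) ℂ}
    (h1 : ((r : ℂ) • (1 : Matrix (Fin N) (Fin N) ℂ) - X).PosSemidef)
    (h2 : ((r : ℂ) • (1 : Matrix (Fin N) (Fin N) ℂ) + X).PosSemidef) (i k : Fin N) :
    ‖X i k‖ ≤ √(r ^ 2 * N) := by
  have hX : Xᴴ = X := by
    have := h2.isHermitian.eq
    simpa using this
  have h3 := l1T_mul_nonneg _ _ h1 h2
  have e : ((r : ℂ) • (1 : Matrix (Fin N) (Fin N) ℂ) - X) * ((r : ℂ) • (1 : Matrix (Fin N) (Fin N) ℂ) + X)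
      = ((r ^ 2 : ℝ) : ℂ) • (1 : Matrix (Fin N) (Fin N) ℂ) - Xᴴ * X := by
    rw [hX]
    simp only [Matrix.sub_mul, Matrix.mul_add, Matrix.smul_mul, Matrix.mul_smul, Matrix.one_mul,
      Matrix.mul_one, smul_sub, smul_add, smul_smul]
    push_cast
    rw [pow_two]
    abel
  rw [e, l1T_sub, du_smul, ← l1_hs_eq] at h3
  have h4 : l1T (1 : Matrix (Fin N) (Fin N) ℂ) = N := by simp [l1T]
  rw [h4] at h3
  have h5 : ‖X i k‖ ^ 2 ≤ hs X := by
    unfold hs
    refine le_trans ?_ (Finset.single_le_sum (f := fun i => ∑ j, ‖X i j‖ ^ 2)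
      (fun i _ => Finset.sum_nonneg fun j _ => sq_nonneg _) (Finset.mem_univ i))
    exact Finset.single_le_sum (f := fun j => ‖X i j‖ ^ 2) (fun j _ => sq_nonneg _) (Finset.mem_univ k)
  refine Real.le_sqrt_of_sq_le ?_
  linarith

private theorem duK_compact {N : ℕ} (r : ℝ) : IsCompact (duK N r) := by
  have h1 : IsCompact (Set.pi Set.univ fun _ : Fin 4 => Set.pi Set.univ fun _ : Fin N =>
      Set.pi Set.univ fun _ : Fin N => Metric.closedBall (0 : ℂ) (√(r ^ 2 * N))) :=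
    isCompact_univ_pi fun _ => isCompact_univ_pi fun _ => isCompact_univ_pi fun _ =>
      isCompact_closedBall _ _
  refine IsCompact.of_isClosed_subset h1 (duK_closed r) ?_
  intro y hy j _ i _ k _
  rw [mem_closedBall_zero_iff]
  exact du_bound (hy j).1 (hy j).2 i k

private def duL {N : ℕ} (u : Fin 4 → Matrix (Fin N) (Fin N) ℂ)
    (y : Fin 4 → Matrix (Fin N) (Fin N) ℂ) : Matrix (Fin N) (Fin N) ℂ :=
  ∑ j, (u j * y j * (u j)ᴴ - y j)

private theorem duL_cont {N : ℕ} (u : Fin 4 → Matrix (Fin N) (Fin N) ℂ) :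
    Continuous (duL u) := by
  unfold duL
  refine continuous_finsetSum _ fun j _ => ?_
  exact ((continuous_const.matrix_mul (continuous_apply j)).matrix_mul continuous_const).sub
    (continuous_apply j)

private theorem duL_lin {N : ℕ} (u : Fin 4 → Matrix (Fin N) (Fin N) ℂ) (s : ℝ)
    (y z : Fin 4 → Matrix (Fin N) (Fin N) ℂ) :
    duL u (fun j => y j + (s : ℂ) • (z j - y j)) = duL u y + (s : ℂ) • (duL u z - duL u y) := by
  unfold duL
  rw [← Finset.sum_sub_distrib, Finset.smul_sum, ← Finset.sum_add_distrib]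
  refine Finset.sum_congr rfl fun j _ => ?_
  simp only [Matrix.mul_add, Matrix.add_mul, Matrix.mul_smul, Matrix.smul_mul, Matrix.mul_sub,
    Matrix.sub_mul, smul_sub]
  abel

private theorem duL_smul {N : ℕ} (u : Fin 4 → Matrix (Fin N) (Fin N) ℂ) (s : ℝ)
    (y : Fin 4 → Matrix (Fin N) (Fin N) ℂ) :
    duL u (fun j => (s : ℂ) • y j) = (s : ℂ) • duL u y := by
  unfold duL
  rw [Finset.smul_sum]
  refine Finset.sum_congr rfl fun j _ => ?_
  simp only [Matrix.mul_smul, Matrix.smul_mul, smul_sub]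

private theorem duL_herm {N : ℕ} (u : Fin 4 → Matrix (Fin N) (Fin N) ℂ)
    (y : Fin 4 → Matrix (Fin N) (Fin N) ℂ) (hy : ∀ j, (y j)ᴴ = y j) : (duL u y)ᴴ = duL u y := by
  unfold duL
  rw [Matrix.conjTranspose_sum]
  refine Finset.sum_congr rfl fun j _ => ?_
  rw [Matrix.conjTranspose_sub, Matrix.conjTranspose_mul, Matrix.conjTranspose_mul,
    Matrix.conjTranspose_conjTranspose, hy j, Matrix.mul_assoc]

private theorem duL_trace {N : ℕ} (u : Fin 4 → Matrix (Fin N) (Fin N) ℂ)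
    (hu : ∀ j, u j ∈ Matrix.unitaryGroup (Fin N) ℂ)
    (y : Fin 4 → Matrix (Fin N) (Fin N) ℂ) : (duL u y).trace = 0 := by
  unfold duL
  rw [Matrix.trace_sum]
  refine Finset.sum_eq_zero fun j _ => ?_
  have hu1 : (u j)ᴴ * u j = 1 := (Matrix.mem_unitaryGroup_iff'.1 (hu j))
  rw [Matrix.trace_sub, Matrix.trace_mul_comm, ← Matrix.mul_assoc, hu1, Matrix.one_mul, sub_self]

private theorem duK_convex {N : ℕ} {r : ℝ} {y z : Fin 4 → Matrix (Fin N) (Fin N) ℂ}
    (hy : y ∈ duK N r) (hz : z ∈ duK N r) {s : ℝ} (hs0 : 0 ≤ s) (hs1 : s ≤ 1) :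
    (fun j => y j + (s : ℂ) • (z j - y j)) ∈ duK N r := by
  have hp : ∀ (X : Matrix (Fin N) (Fin N) ℂ) (t : ℝ), 0 ≤ t → X.PosSemidef →
      ((t : ℂ) • X).PosSemidef := fun X t ht hX => hX.smul (by exact_mod_cast ht)
  intro j
  constructor
  · have := (hp _ (1 - s) (by linarith) (hy j).1).add (hp _ s hs0 (hz j).1)
    convert this using 1
    push_cast
    simp only [smul_sub, sub_smul, one_smul]
    abel
  · have := (hp _ (1 - s) (by linarith) (hy j).2).add (hp _ s hs0 (hz j).2)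
    convert this using 1
    push_cast
    simp only [smul_add, smul_sub, sub_smul, one_smul]
    abel

private theorem du_hs_sub {N : ℕ} (X Z : Matrix (Fin N) (Fin N) ℂ) (hX : Xᴴ = X) (hZ : Zᴴ = Z)
    (s : ℝ) : hs (X - (s : ℂ) • Z) = hs X - 2 * s * l1T (X * Z) + s ^ 2 * hs Z := by
  rw [l1_hs_eq, l1_hs_eq, l1_hs_eq, Matrix.conjTranspose_sub, Matrix.conjTranspose_smul, hX, hZ]
  have e : (X - star (s : ℂ) • Z) * (X - (s : ℂ) • Z) =
      X * X - (s : ℂ) • (X * Z) - (s : ℂ) • (Z * X) + ((s ^ 2 : ℝ) : ℂ) • (Z * Z) := by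
    rw [Complex.star_def, Complex.conj_ofReal]
    simp only [Matrix.sub_mul, Matrix.mul_sub, Matrix.smul_mul, Matrix.mul_smul, smul_sub,
      smul_smul]
    push_cast
    rw [pow_two]
    abel
  rw [e, l1T_add, l1T_sub, l1T_sub, du_smul, du_smul, du_smul, l1T_comm Z X]
  ring

private theorem du_hs_zero {N : ℕ} {X : Matrix (Fin N) (Fin N) ℂ} (h : hs X ≤ 0) : X = 0 := by
  ext i k
  have h5 : ‖X i k‖ ^ 2 ≤ hs X := by
    unfold hs
    refine le_trans ?_ (Finset.single_le_sum (f := fun i => ∑ j, ‖X i j‖ ^ 2)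
      (fun i _ => Finset.sum_nonneg fun j _ => sq_nonneg _) (Finset.mem_univ i))
    exact Finset.single_le_sum (f := fun j => ‖X i j‖ ^ 2) (fun j _ => sq_nonneg _) (Finset.mem_univ k)
  have h6 : ‖X i k‖ ^ 2 ≤ 0 := h5.trans h
  have h7 : ‖X i k‖ = 0 := by
    have := sq_nonneg ‖X i k‖
    exact pow_eq_zero_iff (two_ne_zero) |>.1 (le_antisymm h6 this)
  simpa using h7

theorem rep_point {N : ℕ} [NeZero N] (u : Fin 4 → Matrix (Fin N) (Fin N) ℂ) (hu : Gap4 u)
    (q : Matrix (Fin N) (Fin N) ℂ) (hq : q.PosSemidef) (hq1 : (1 - q).PosSemidef)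
    (htr : q.trace.re ≤ (N : ℝ) / 21) :
    ∃ y : Fin 4 → Matrix (Fin N) (Fin N) ℂ,
      (∀ j, (((599 / 100 : ℝ) : ℂ) • (1 : Matrix (Fin N) (Fin N) ℂ) - y j).PosSemidef ∧
        (((599 / 100 : ℝ) : ℂ) • (1 : Matrix (Fin N) (Fin N) ℂ) + y j).PosSemidef) ∧
      ∑ j, (u j * y j * (u j)ᴴ - y j) = q - (q.trace / N) • (1 : Matrix (Fin N) (Fin N) ℂ) := by
  have hN : (0 : ℝ) < N := by exact_mod_cast Nat.pos_of_ne_zero (NeZero.ne N)
  have hNC : (N : ℂ) ≠ 0 := by exact_mod_cast (NeZero.ne N)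
  set w : Matrix (Fin N) (Fin N) ℂ := q - (q.trace / N) • (1 : Matrix (Fin N) (Fin N) ℂ) with hw
  set τ : ℝ := l1T q with hτ
  have hτ0 : 0 ≤ τ := l1T_nonneg _ hq
  have hτ1 : τ ≤ N / 21 := htr
  have hqt : q.trace = (τ : ℂ) := by
    have := Complex.nonneg_iff.1 hq.trace_nonneg
    refine Complex.ext rfl ?_
    simp [← this.2]
  have hwt : w.trace = 0 := by
    rw [hw, Matrix.trace_sub, Matrix.trace_smul, Matrix.trace_one, Fintype.card_fin, smul_eq_mul,
      div_mul_cancel₀ _ hNC, sub_self]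
  have hwh : wᴴ = w := by
    rw [hw, Matrix.conjTranspose_sub, hq.isHermitian.eq, Matrix.conjTranspose_smul,
      Matrix.conjTranspose_one, hqt]
    simp
  -- the minimum
  have hKne : (duK N (599 / 100)).Nonempty := by
    refine ⟨fun _ => 0, fun j => ?_⟩
    have h1 : (((599 / 100 : ℝ) : ℂ) • (1 : Matrix (Fin N) (Fin N) ℂ)).PosSemidef :=
      Matrix.PosSemidef.one.smul (by
        have : (0 : ℝ) ≤ 599 / 100 := by norm_num
        exact_mod_cast this)
    exact ⟨by simpa using h1, by simpa using h1⟩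
  obtain ⟨y0, hy0, hmin⟩ := (duK_compact (N := N) (599 / 100)).exists_isMinOn hKne
    (f := fun y => hs (w - duL u y)) ((du_hs_cont.comp (continuous_const.sub (duL_cont u))).continuousOn)
  have hKh : ∀ y ∈ duK N (599 / 100), ∀ j, (y j)ᴴ = y j := by
    intro y hy j
    have := (hy j).2.isHermitian.eq
    simpa using this
  set ξ : Matrix (Fin N) (Fin N) ℂ := w - duL u y0 with hξ
  have hξh : ξᴴ = ξ := by
    rw [hξ, Matrix.conjTranspose_sub, hwh, duL_herm u y0 (hKh y0 hy0)]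
  -- first order condition
  have hfo : ∀ y ∈ duK N (599 / 100), l1T (ξ * duL u y) ≤ l1T (ξ * w) - hs ξ := by
    intro y hy
    have hZh : (duL u y - duL u y0)ᴴ = duL u y - duL u y0 := by
      rw [Matrix.conjTranspose_sub, duL_herm u y (hKh y hy), duL_herm u y0 (hKh y0 hy0)]
    set Z := duL u y - duL u y0 with hZ
    have h1 : ∀ s : ℝ, 0 ≤ s → s ≤ 1 → 2 * s * l1T (ξ * Z) ≤ s ^ 2 * hs Z := by
      intro s hs0 hs1
      have h2 := hmin (duK_convex hy0 hy hs0 hs1)
      simp only [Set.mem_ofPred_eq] at h2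
      rw [duL_lin, ← hZ, ← sub_sub, ← hξ, du_hs_sub ξ Z hξh hZh s] at h2
      linarith
    have h3 : l1T (ξ * Z) ≤ 0 := by
      by_contra hcon
      push Not at hcon
      have hZ0 : 0 ≤ hs Z := by unfold hs; positivity
      set g := l1T (ξ * Z) with hg
      have h4 := h1 (min 1 (g / (hs Z + 1))) (by positivity) (min_le_left _ _)
      set s := min 1 (g / (hs Z + 1)) with hsd
      have hs0 : 0 < s := by
        rw [hsd]; exact lt_min one_pos (by positivity)
      have h5 : s ≤ g / (hs Z + 1) := min_le_right _ _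
      have h6 : s * (hs Z + 1) ≤ g := by
        rwa [le_div_iff₀ (by positivity)] at h5
      have h7 : 2 * g ≤ s * hs Z := by
        have : s * (2 * g) ≤ s * (s * hs Z) := by nlinarith
        exact le_of_mul_le_mul_left this hs0
      nlinarith
    have h8 : l1T (ξ * duL u y) = l1T (ξ * Z) + l1T (ξ * duL u y0) := by
      rw [hZ, Matrix.mul_sub, l1T_sub]; ring
    have h9 : l1T (ξ * duL u y0) = l1T (ξ * w) - hs ξ := by
      have : duL u y0 = w - ξ := by rw [hξ]; abel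
      rw [this, Matrix.mul_sub, l1T_sub, l1_hs_eq, hξh]
    linarith
  -- the splitting
  obtain ⟨lam, a, b, ha, hb, hab, hsplit, hat, hbt⟩ := median_split ξ hξh
  rw [Fintype.card_fin] at hat hbt
  have hba : b * a = 0 := by
    have := congrArg Matrix.conjTranspose hab
    rwa [Matrix.conjTranspose_mul, ha.isHermitian.eq, hb.isHermitian.eq,
      Matrix.conjTranspose_zero] at this
  have hTz : ∀ Z : Matrix (Fin N) (Fin N) ℂ, Z.trace = 0 →
      l1T (ξ * Z) = l1T ((a * a - b * b) * Z) := by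
    intro Z hZ
    have e : (a * a - b * b) * Z = ξ * Z - (lam : ℂ) • Z := by
      rw [← hsplit, Matrix.sub_mul (ξ), Matrix.smul_mul, Matrix.one_mul]
    have h0 : l1T Z = 0 := by unfold l1T; rw [hZ]; rfl
    rw [e, l1T_sub, du_smul, h0]; ring
  have haa : l1T (a * a) = hs a := by rw [l1_hs_eq, ha.isHermitian.eq]
  have hbb : l1T (b * b) = hs b := by rw [l1_hs_eq, hb.isHermitian.eq]
  have ha2 : (a * a).PosSemidef := by
    have := Matrix.posSemidef_conjTranspose_mul_self a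
    rwa [ha.isHermitian.eq] at this
  have hb2 : (b * b).PosSemidef := by
    have := Matrix.posSemidef_conjTranspose_mul_self b
    rwa [hb.isHermitian.eq] at this
  have hsa0 : 0 ≤ hs a := by unfold hs; positivity
  have hsb0 : 0 ≤ hs b := by unfold hs; positivity
  have hup : l1T (ξ * w) ≤ hs a + 1 / 21 * hs b := by
    rw [hTz w hwt, hw, Matrix.mul_sub, l1T_sub, hqt, Matrix.mul_smul, Matrix.mul_one]
    have e1 : ((τ : ℂ) / (N : ℂ)) = ((τ / N : ℝ) : ℂ) := by push_cast; rfl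
    rw [e1, du_smul, l1T_sub, haa, hbb, Matrix.sub_mul, l1T_sub]
    have h1 := l1T_mul_nonneg _ _ ha2 hq1
    rw [Matrix.mul_sub, l1T_sub, Matrix.mul_one, haa] at h1
    have h2 := l1T_mul_nonneg _ _ hb2 hq
    have h3 : τ / N ≤ 1 / 21 := by
      rw [div_le_iff₀ hN]; linarith
    have h4 : 0 ≤ τ / N := by positivity
    nlinarith [mul_nonneg h4 hsa0, mul_le_mul_of_nonneg_right h3 hsb0]
  have hp : ∀ (X : Matrix (Fin N) (Fin N) ℂ), X.PosSemidef →
      (((599 / 100 : ℝ) : ℂ) • X).PosSemidef := fun X hX => hX.smul (by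
        have : (0 : ℝ) ≤ 599 / 100 := by norm_num
        exact_mod_cast this)
  obtain ⟨c, hc, hc2⟩ := du_key u hu a b ha hb hab hat
  obtain ⟨d, hd, hd2⟩ := du_key u hu b a hb ha hba hbt
  have hA : (599 / 100 : ℝ) * (7 / 40 * hs a) ≤ l1T (ξ * w) - hs ξ := by
    have hy : (fun j => ((-(599 / 100) : ℝ) : ℂ) • c j) ∈ duK N (599 / 100) := by
      intro j
      constructor
      · have := hp _ (hc j).2
        convert this using 1
        push_cast
        simp only [smul_add, neg_smul]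
        abel
      · have := hp _ (hc j).1
        convert this using 1
        push_cast
        simp only [smul_sub, neg_smul]
        abel
    have h1 := hfo _ hy
    rw [hTz _ (duL_trace u hu.1 _), duL_smul, Matrix.mul_smul, du_smul] at h1
    have h2 : (7 / 40 : ℝ) * hs a ≤ -l1T ((a * a - b * b) * duL u c) := hc2
    linarith
  have hB : (599 / 100 : ℝ) * (7 / 40 * hs b) ≤ l1T (ξ * w) - hs ξ := by
    have hy : (fun j => ((599 / 100 : ℝ) : ℂ) • d j) ∈ duK N (599 / 100) := by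
      intro j
      constructor
      · have := hp _ (hd j).1
        convert this using 1
        simp only [smul_sub]
      · have := hp _ (hd j).2
        convert this using 1
        simp only [smul_add]
    have h1 := hfo _ hy
    rw [hTz _ (duL_trace u hu.1 _), duL_smul, Matrix.mul_smul, du_smul] at h1
    have h2 : (7 / 40 : ℝ) * hs b ≤ -l1T ((b * b - a * a) * duL u d) := hd2
    have h3 : l1T ((b * b - a * a) * duL u d) = -l1T ((a * a - b * b) * duL u d) := by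
      rw [Matrix.sub_mul, Matrix.sub_mul, l1T_sub, l1T_sub]; ring
    rw [h3] at h2
    linarith
  have hfin : hs ξ ≤ 0 := by
    have hz0 : 0 ≤ hs ξ := by unfold hs; positivity
    linarith
  have hξ0 : ξ = 0 := du_hs_zero hfin
  refine ⟨y0, hy0, ?_⟩
  have : duL u y0 = w := by
    rw [hξ, sub_eq_zero] at hξ0
    exact hξ0.symm
  exact this

end Crest.Agent.QT
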