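import Crest.Agent.QT_Defs

/-!
Task QT-HLW (medium, self-contained).  The Gabber-Galil inequality (Hoory-Linial-Wigderson, section 8).
`N` odd.  For `v = (p,q) ∈ (ℤ/N)²` use `|p| := |p.valMinAbs| < N/2`.  Order: `v > v'` iff (`|p| > |p'|` and `|q| ≥ |q'|`) or
(`|p| ≥ |p'|` and `|q| > |q'|`).  `γ(v,v') = 5/4` if `v > v'`, `4/5` if `v < v'`, `1` otherwise; `γ(v,v')γ(v',v) = 1`, so
`2 F(v) F(v') ≤ γ(v,v') F(v)² + γ(v',v) F(v')²`.  Summing (edges `(p,q) - (p,q+2p)` and `(p,q) - (p-2q,q)`) it remains, for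
`v ≠ 0`:  `|cos(πp/N)| (γ(v,(p,q+2p)) + γ(v,(p,q-2p))) + |cos(πq/N)| (γ(v,(p+2q,q)) + γ(v,(p-2q,q))) ≤ 73/20`.
* `|p| + |q| ≥ N/2`: `γ ≤ 5/4` and `|cos(πp/N)| + |cos(πq/N)| = 2 cos(π(|p|+|q|)/2N) cos(π(|p|-|q|)/2N) ≤ √2`;
  `(5/2) √2 ≤ 73/20`.
* `|p| + |q| < N/2`, say `|p| > |q| > 0`: three of the four neighbours are `> v` and one is `< v`:
  `3 (4/5) + 5/4 = 73/20`; if `q = 0` or `|p| = |q|`: two are `>`, two are incomparable/equal: `18/5`.
(`|cos|` has period `π`, so `val` may be replaced by `valMinAbs`.)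
-/

set_option autoImplicit false

namespace Crest.Agent.QT

/-- weights -/
private noncomputable def hlwg (x y : ℤ) : ℝ := if |y| < |x| then 5 / 4 else if |x| < |y| then 4 / 5 else 1

private theorem hlwg_le (x y : ℤ) : hlwg x y ≤ 5 / 4 := by
  unfold hlwg; split_ifs <;> norm_num

private theorem hlwg_pos (x y : ℤ) : 0 < hlwg x y := by
  unfold hlwg; split_ifs <;> norm_num

private theorem hlwg_lt {x y : ℤ} (h : |x| < |y|) : hlwg x y = 4 / 5 := by
  unfold hlwg; rw [if_neg (by omega), if_pos h]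

private theorem hlwg_eq {x y : ℤ} (h : |x| = |y|) : hlwg x y = 1 := by
  unfold hlwg; rw [if_neg (by omega), if_neg (by omega)]

private theorem hlwg_mul (x y : ℤ) (a b : ℝ) :
    2 * a * b ≤ hlwg x y * a ^ 2 + hlwg y x * b ^ 2 := by
  unfold hlwg
  rcases lt_trichotomy |x| |y| with h | h | h
  · rw [if_neg (by omega), if_pos h, if_pos h]
    nlinarith [sq_nonneg (2 * a - 5 / 2 * b)]
  · rw [if_neg (by omega), if_neg (by omega), if_neg (by omega), if_neg (by omega)]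
    nlinarith [sq_nonneg (a - b)]
  · rw [if_pos h, if_neg (by omega), if_pos h]
    nlinarith [sq_nonneg (5 / 2 * a - 2 * b)]

section
variable {N : ℕ} [NeZero N]

/-- the residue `q + 2 s p` in terms of representatives -/
private theorem hlw_rep (p q : ZMod N) (s : ℤ) :
    ∃ k : ℤ, (q + 2 * (s : ZMod N) * p).valMinAbs = q.valMinAbs + 2 * s * p.valMinAbs + (N : ℤ) * k := by
  have h1 : (((q + 2 * (s : ZMod N) * p).valMinAbs : ℤ) : ZMod N) =
      ((q.valMinAbs + 2 * s * p.valMinAbs : ℤ) : ZMod N) := by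
    push_cast
    rfl
  have h2 := (ZMod.intCast_eq_intCast_iff_dvd_sub _ _ _).1 h1.symm
  obtain ⟨k, hk⟩ := h2
  exact ⟨k, by linarith⟩

private theorem hlw_far {P Q k y : ℤ} {n : ℤ} (hn : 0 < n) (hy : y = Q + P + n * k) (hQ : |Q| < |Q + P|)
    (h2 : |Q + P| + |Q| < n) : |Q| < |y| := by
  rcases lt_trichotomy k 0 with hk | hk | hk
  · have h1 : n * k ≤ -n := by nlinarith
    have h3 := le_abs_self (Q + P)
    have h4 := neg_abs_le y
    have h5 := abs_nonneg Q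
    have : y ≤ |Q + P| - n := by linarith
    by_contra h6
    have h7 := not_lt.1 h6
    linarith
  · rw [hy, hk, mul_zero, add_zero]
    exact hQ
  · have h1 : n ≤ n * k := by nlinarith
    have h3 := neg_abs_le (Q + P)
    have h4 := le_abs_self y
    have : n - |Q + P| ≤ y := by linarith
    linarith

/-- `|p| > |q|`: both neighbours are larger -/
private theorem hlw_big {p q : ZMod N} (h : 2 * (|p.valMinAbs| + |q.valMinAbs|) < N)
    (hpq : |q.valMinAbs| < |p.valMinAbs|) (s : ℤ) (hs : s = 1 ∨ s = -1) :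
    |q.valMinAbs| < |(q + 2 * (s : ZMod N) * p).valMinAbs| := by
  obtain ⟨k, hk⟩ := hlw_rep p q s
  have hn : (0 : ℤ) < N := by exact_mod_cast Nat.pos_of_ne_zero (NeZero.ne N)
  set P := p.valMinAbs
  set Q := q.valMinAbs
  have e : |2 * s * P| = 2 * |P| := by
    rcases hs with rfl | rfl
    · rw [mul_one, abs_mul]; norm_num
    · rw [show (2 * -1 * P : ℤ) = -(2 * P) by ring, abs_neg, abs_mul]; norm_num
  have h1 : |2 * s * P| - |Q| ≤ |Q + 2 * s * P| := by
    have := abs_sub_abs_le_abs_sub (2 * s * P) (-Q)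
    rw [abs_neg, sub_neg_eq_add, add_comm (2 * s * P) Q] at this
    exact this
  have h2 : |Q + 2 * s * P| ≤ |Q| + |2 * s * P| := abs_add_le _ _
  rw [e] at h1 h2
  exact hlw_far hn hk (by linarith) (by linarith)

/-- same sign -/
private theorem hlw_same {p q : ZMod N} (h : 2 * (|p.valMinAbs| + |q.valMinAbs|) < N)
    (hp : p.valMinAbs ≠ 0) (s : ℤ) (hs : |q.valMinAbs + 2 * s * p.valMinAbs| = |q.valMinAbs| + 2 * |p.valMinAbs|) :
    |q.valMinAbs| < |(q + 2 * (s : ZMod N) * p).valMinAbs| := by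
  obtain ⟨k, hk⟩ := hlw_rep p q s
  have hn : (0 : ℤ) < N := by exact_mod_cast Nat.pos_of_ne_zero (NeZero.ne N)
  have hp' := abs_pos.2 hp
  exact hlw_far hn hk (by rw [hs]; linarith) (by rw [hs]; linarith)

private noncomputable def hlwA (p q : ZMod N) : ℝ :=
  hlwg q.valMinAbs (q + 2 * p).valMinAbs + hlwg q.valMinAbs (q - 2 * p).valMinAbs

private theorem hlw_e1 (p q : ZMod N) : q + 2 * ((1 : ℤ) : ZMod N) * p = q + 2 * p := by
  push_cast; ring

private theorem hlw_e2 (p q : ZMod N) : q + 2 * ((-1 : ℤ) : ZMod N) * p = q - 2 * p := by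
  push_cast; ring

private theorem hlwA_nonneg (p q : ZMod N) : 0 ≤ hlwA p q :=
  add_nonneg (hlwg_pos _ _).le (hlwg_pos _ _).le

private theorem hlwA_le (p q : ZMod N) : hlwA p q ≤ 5 / 2 := by
  have h1 := hlwg_le q.valMinAbs (q + 2 * p).valMinAbs
  have h2 := hlwg_le q.valMinAbs (q - 2 * p).valMinAbs
  unfold hlwA
  linarith

private theorem hlwA_big {p q : ZMod N} (h : 2 * (|p.valMinAbs| + |q.valMinAbs|) < N)
    (hpq : |q.valMinAbs| < |p.valMinAbs|) : hlwA p q = 8 / 5 := by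
  have h1 := hlw_big h hpq 1 (Or.inl rfl)
  have h2 := hlw_big h hpq (-1) (Or.inr rfl)
  rw [hlw_e1] at h1
  rw [hlw_e2] at h2
  unfold hlwA
  rw [hlwg_lt h1, hlwg_lt h2]
  norm_num

private theorem hlw_sign (P Q : ℤ) : |Q + 2 * 1 * P| = |Q| + 2 * |P| ∨ |Q + 2 * (-1) * P| = |Q| + 2 * |P| := by
  rcases abs_cases P with ⟨h1, h1'⟩ | ⟨h1, h1'⟩ <;> rcases abs_cases Q with ⟨h2, h2'⟩ | ⟨h2, h2'⟩ <;>
    rcases abs_cases (Q + 2 * 1 * P) with ⟨h3, h3'⟩ | ⟨h3, h3'⟩ <;>
    rcases abs_cases (Q + 2 * (-1) * P) with ⟨h4, h4'⟩ | ⟨h4, h4'⟩ <;> omega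

private theorem hlwA_mid {p q : ZMod N} (h : 2 * (|p.valMinAbs| + |q.valMinAbs|) < N)
    (hp : p.valMinAbs ≠ 0) : hlwA p q ≤ 41 / 20 := by
  rcases hlw_sign p.valMinAbs q.valMinAbs with hs | hs
  · have h1 := hlw_same h hp 1 hs
    rw [hlw_e1] at h1
    have h2 := hlwg_le q.valMinAbs (q - 2 * p).valMinAbs
    unfold hlwA
    rw [hlwg_lt h1]
    linarith
  · have h1 := hlw_same h hp (-1) hs
    rw [hlw_e2] at h1
    have h2 := hlwg_le q.valMinAbs (q + 2 * p).valMinAbs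
    unfold hlwA
    rw [hlwg_lt h1]
    linarith

private theorem hlwA_zero {p q : ZMod N} (hp : p.valMinAbs = 0) : hlwA p q = 2 := by
  have : p = 0 := (ZMod.valMinAbs_eq_zero p).1 hp
  unfold hlwA
  rw [this, mul_zero, add_zero, sub_zero, hlwg_eq rfl]
  norm_num

private theorem hlwA_eq {p q : ZMod N} (h : 2 * (|p.valMinAbs| + |q.valMinAbs|) < N)
    (hp : p.valMinAbs ≠ 0) (hpq : |p.valMinAbs| = |q.valMinAbs|) : hlwA p q ≤ 9 / 5 := by
  have key : ∀ a b : ZMod N, |a.valMinAbs| = |b.valMinAbs| → a = b ∨ a = -b := fun a b hab =>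
    ZMod.abs_valMinAbs_eq_abs_valMinAbs.1 hab
  rcases hlw_sign p.valMinAbs q.valMinAbs with hs | hs
  · have h1 := hlw_same h hp 1 hs
    rw [hlw_e1] at h1
    have h2 : hlwg q.valMinAbs (q - 2 * p).valMinAbs ≤ 1 := by
      rcases key p q hpq with h3 | h3
      · have : q - 2 * p = -p := by rw [h3]; ring
        rw [this]
        have h4 : |(-p).valMinAbs| = |p.valMinAbs| := ZMod.abs_valMinAbs_eq_abs_valMinAbs.2 (Or.inr rfl)
        rw [hlwg_eq (by rw [h4, hpq])]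
      · exfalso
        have h5 : q + 2 * p = p := by rw [h3]; ring
        rw [h5, hpq] at h1
        exact lt_irrefl _ h1
    unfold hlwA
    rw [hlwg_lt h1]
    linarith
  · have h1 := hlw_same h hp (-1) hs
    rw [hlw_e2] at h1
    have h2 : hlwg q.valMinAbs (q + 2 * p).valMinAbs ≤ 1 := by
      rcases key p q hpq with h3 | h3
      · exfalso
        have h5 : q - 2 * p = -p := by rw [h3]; ring
        have h4 : |(-p).valMinAbs| = |p.valMinAbs| := ZMod.abs_valMinAbs_eq_abs_valMinAbs.2 (Or.inr rfl)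
        rw [h5, h4, hpq] at h1
        exact lt_irrefl _ h1
      · have h5 : q + 2 * p = p := by rw [h3]; ring
        rw [h5, hlwg_eq (by rw [hpq])]
    unfold hlwA
    rw [hlwg_lt h1]
    linarith

/-- `|cos (π p / N)|` -/
private noncomputable def hlwc (p : ZMod N) : ℝ := |Real.cos (Real.pi * (p.val : ℝ) / N)|

private theorem hlwc_nonneg (p : ZMod N) : 0 ≤ hlwc p := abs_nonneg _

private theorem hlwc_le (p : ZMod N) : hlwc p ≤ 1 := Real.abs_cos_le_one _

private theorem hlwc_eq (p : ZMod N) :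
    hlwc p = |Real.cos (Real.pi * (|p.valMinAbs| : ℤ) / N)| := by
  have hN : (0 : ℝ) < N := by exact_mod_cast Nat.pos_of_ne_zero (NeZero.ne N)
  have h1 : ((p.val : ℤ) : ZMod N) = ((p.valMinAbs : ℤ) : ZMod N) := by
    rw [ZMod.coe_valMinAbs]
    push_cast
    exact ZMod.natCast_zmod_val p
  obtain ⟨k, hk⟩ := (ZMod.intCast_eq_intCast_iff_dvd_sub _ _ _).1 h1.symm
  have h2 : (p.val : ℝ) = (p.valMinAbs : ℝ) + N * k := by
    have : (p.val : ℤ) = p.valMinAbs + N * k := by linarith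
    exact_mod_cast this
  have h3 : Real.pi * (p.val : ℝ) / N = Real.pi * (p.valMinAbs : ℝ) / N + k * Real.pi := by
    rw [h2]; field_simp
  have h4 : Real.cos (Real.pi * (|p.valMinAbs| : ℤ) / N) = Real.cos (Real.pi * (p.valMinAbs : ℝ) / N) := by
    rcases abs_choice p.valMinAbs with h5 | h5
    · rw [h5]
    · rw [h5]
      push_cast
      rw [show Real.pi * -(p.valMinAbs : ℝ) / N = -(Real.pi * (p.valMinAbs : ℝ) / N) by ring, Real.cos_neg]
  unfold hlwc
  rw [h4, h3, Real.cos_add_int_mul_pi, abs_mul, abs_zpow, abs_neg, abs_one, one_zpow, one_mul]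

private theorem hlwc_add (hN : Odd N) {p q : ZMod N} (h : (N : ℤ) ≤ 2 * (|p.valMinAbs| + |q.valMinAbs|)) :
    hlwc p + hlwc q ≤ Real.sqrt 2 := by
  have hN0 : (0 : ℝ) < N := by exact_mod_cast Nat.pos_of_ne_zero (NeZero.ne N)
  have key : ∀ x : ZMod N, |x.valMinAbs| * 2 ≤ N := by
    intro x
    have := ZMod.valMinAbs_mem_Ioc x
    rcases abs_cases x.valMinAbs with ⟨h1, _⟩ | ⟨h1, _⟩
    · rw [h1]; exact this.2
    · rw [h1]; have := this.1; omega
  have hpi := Real.pi_pos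
  set u : ℝ := Real.pi * (|p.valMinAbs| : ℤ) / N with hu
  set v : ℝ := Real.pi * (|q.valMinAbs| : ℤ) / N with hv
  have ub : ∀ x : ZMod N, 0 ≤ Real.pi * (|x.valMinAbs| : ℤ) / N ∧ Real.pi * (|x.valMinAbs| : ℤ) / N ≤ Real.pi / 2 := by
    intro x
    have h1 : ((|x.valMinAbs| : ℤ) : ℝ) * 2 ≤ N := by exact_mod_cast key x
    have h2 : (0 : ℝ) ≤ ((|x.valMinAbs| : ℤ) : ℝ) := by exact_mod_cast abs_nonneg _
    constructor
    · positivity
    · rw [div_le_div_iff₀ hN0 (by norm_num)]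
      nlinarith
  obtain ⟨hu0, hu1⟩ := ub p
  obtain ⟨hv0, hv1⟩ := ub q
  rw [← hu] at hu0 hu1
  rw [← hv] at hv0 hv1
  have huv : Real.pi / 2 ≤ u + v := by
    have h1 : (N : ℝ) ≤ 2 * (((|p.valMinAbs| : ℤ) : ℝ) + ((|q.valMinAbs| : ℤ) : ℝ)) := by exact_mod_cast h
    have h2 : u + v = Real.pi * (((|p.valMinAbs| : ℤ) : ℝ) + ((|q.valMinAbs| : ℤ) : ℝ)) / N := by
      rw [hu, hv]; ring
    rw [h2, div_le_div_iff₀ (by norm_num) hN0]
    nlinarith
  have c1 : hlwc p = Real.cos u := by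
    rw [hlwc_eq, ← hu, abs_of_nonneg]
    exact Real.cos_nonneg_of_neg_pi_div_two_le_of_le (by linarith) hu1
  have c2 : hlwc q = Real.cos v := by
    rw [hlwc_eq, ← hv, abs_of_nonneg]
    exact Real.cos_nonneg_of_neg_pi_div_two_le_of_le (by linarith) hv1
  rw [c1, c2, Real.cos_add_cos]
  have h3 : Real.cos ((u + v) / 2) ≤ Real.cos (Real.pi / 4) :=
    Real.cos_le_cos_of_nonneg_of_le_pi (by positivity) (by linarith) (by linarith)
  rw [Real.cos_pi_div_four] at h3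
  have h4 := Real.cos_le_one ((u - v) / 2)
  have h5 : 0 ≤ Real.cos ((u + v) / 2) :=
    Real.cos_nonneg_of_neg_pi_div_two_le_of_le (by linarith) (by linarith)
  calc 2 * Real.cos ((u + v) / 2) * Real.cos ((u - v) / 2) ≤ 2 * Real.cos ((u + v) / 2) * 1 :=
        mul_le_mul_of_nonneg_left h4 (by linarith)
    _ ≤ Real.sqrt 2 := by linarith

private theorem hlw_sqrt : 5 / 2 * Real.sqrt 2 ≤ 73 / 20 := by
  have h1 : Real.sqrt 2 ≤ 146 / 100 := by
    rw [Real.sqrt_le_left (by norm_num)]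
    norm_num
  linarith

private theorem hlw_core_lt {p q : ZMod N} (h : 2 * (|p.valMinAbs| + |q.valMinAbs|) < N)
    (hpq : |q.valMinAbs| < |p.valMinAbs|) : hlwc p * hlwA p q + hlwc q * hlwA q p ≤ 73 / 20 := by
  have h1 := hlwA_big h hpq
  have h2 : hlwA q p ≤ 41 / 20 := by
    by_cases hq : q.valMinAbs = 0
    · rw [hlwA_zero hq]; norm_num
    · exact hlwA_mid (by rw [add_comm |q.valMinAbs|]; exact h) hq
  have h3 := hlwA_nonneg q p
  have h4 : hlwc p * hlwA p q ≤ 8 / 5 := by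
    rw [h1]; have := hlwc_le p; linarith
  have h5 : hlwc q * hlwA q p ≤ 41 / 20 := by
    calc hlwc q * hlwA q p ≤ 1 * hlwA q p := mul_le_mul_of_nonneg_right (hlwc_le q) h3
      _ ≤ _ := by linarith
  linarith

private theorem hlw_core (hN : Odd N) {p q : ZMod N} (h0 : ¬ (p = 0 ∧ q = 0)) :
    hlwc p * hlwA p q + hlwc q * hlwA q p ≤ 73 / 20 := by
  rcases le_or_gt (N : ℤ) (2 * (|p.valMinAbs| + |q.valMinAbs|)) with h | h
  · have h1 := hlwc_add hN h
    have h2 := hlwA_le p q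
    have h3 := hlwA_le q p
    have h4 := hlwc_nonneg p
    have h5 := hlwc_nonneg q
    have h6 := hlw_sqrt
    have h7 : hlwc p * hlwA p q ≤ hlwc p * (5 / 2) := mul_le_mul_of_nonneg_left h2 h4
    have h8 : hlwc q * hlwA q p ≤ hlwc q * (5 / 2) := mul_le_mul_of_nonneg_left h3 h5
    linarith
  · rcases lt_trichotomy |q.valMinAbs| |p.valMinAbs| with h1 | h1 | h1
    · exact hlw_core_lt h h1
    · have hp : p.valMinAbs ≠ 0 := by
        intro hp
        rw [hp, abs_zero, abs_eq_zero] at h1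
        exact h0 ⟨(ZMod.valMinAbs_eq_zero p).1 hp, (ZMod.valMinAbs_eq_zero q).1 h1⟩
      have hq : q.valMinAbs ≠ 0 := by
        intro hq
        rw [hq, abs_zero] at h1
        exact hp (abs_eq_zero.1 h1.symm)
      have h2 := hlwA_eq h hp h1.symm
      have h3 := hlwA_eq (by rw [add_comm |q.valMinAbs|]; exact h) hq h1
      have h4 : hlwc p * hlwA p q ≤ 1 * hlwA p q :=
        mul_le_mul_of_nonneg_right (hlwc_le p) (hlwA_nonneg p q)
      have h5 : hlwc q * hlwA q p ≤ 1 * hlwA q p :=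
        mul_le_mul_of_nonneg_right (hlwc_le q) (hlwA_nonneg q p)
      linarith
    · have := hlw_core_lt (p := q) (q := p) (by rw [add_comm |q.valMinAbs|]; exact h) h1
      linarith

/-- one row -/
private theorem hlw_row (p : ZMod N) (f : ZMod N → ℝ) :
    ∑ q, 2 * f q * f (q + 2 * p) ≤ ∑ q, hlwA p q * f q ^ 2 := by
  have h1 : ∑ q, 2 * f q * f (q + 2 * p) ≤ ∑ q, (hlwg q.valMinAbs (q + 2 * p).valMinAbs * f q ^ 2 +
      hlwg (q + 2 * p).valMinAbs q.valMinAbs * f (q + 2 * p) ^ 2) :=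
    Finset.sum_le_sum fun q _ => hlwg_mul _ _ _ _
  have h2 : ∑ q : ZMod N, hlwg (q + 2 * p).valMinAbs q.valMinAbs * f (q + 2 * p) ^ 2 =
      ∑ q : ZMod N, hlwg q.valMinAbs (q - 2 * p).valMinAbs * f q ^ 2 := by
    rw [← Equiv.sum_comp (Equiv.addRight (2 * p))
      (fun q => hlwg q.valMinAbs (q - 2 * p).valMinAbs * f q ^ 2)]
    refine Finset.sum_congr rfl fun q _ => ?_
    simp only [Equiv.coe_addRight, add_sub_cancel_right]
  rw [Finset.sum_add_distrib, h2, ← Finset.sum_add_distrib] at h1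
  refine h1.trans (le_of_eq ?_)
  refine Finset.sum_congr rfl fun q _ => ?_
  unfold hlwA
  ring

private theorem hlw_row' (p : ZMod N) (f : ZMod N → ℝ) :
    ∑ q, 2 * f q * f (q - 2 * p) ≤ ∑ q, hlwA p q * f q ^ 2 := by
  refine le_trans (le_of_eq ?_) (hlw_row p f)
  rw [← Equiv.sum_comp (Equiv.addRight (2 * p)) (fun q => 2 * f q * f (q - 2 * p))]
  refine Finset.sum_congr rfl fun q _ => ?_
  simp only [Equiv.coe_addRight, add_sub_cancel_right]
  ring

end

theorem hlw (N : ℕ) [NeZero N] (hN : Odd N) (F : ZMod N → ZMod N → ℝ)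
    (hF : ∀ p q, 0 ≤ F p q) (h0 : F 0 0 = 0) :
    ∑ p, ∑ q, 2 * F p q *
        (F p (q + 2 * p) * |Real.cos (Real.pi * (p.val : ℝ) / N)| +
          F (p - 2 * q) q * |Real.cos (Real.pi * (q.val : ℝ) / N)|) ≤
      (73 / 20) * ∑ p, ∑ q, F p q ^ 2 := by
  have e1 : ∑ p, ∑ q, 2 * F p q *
        (F p (q + 2 * p) * |Real.cos (Real.pi * (p.val : ℝ) / N)| +
          F (p - 2 * q) q * |Real.cos (Real.pi * (q.val : ℝ) / N)|) =
      ∑ p, hlwc p * ∑ q, 2 * F p q * F p (q + 2 * p) +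
        ∑ q, hlwc q * ∑ p, 2 * F p q * F (p - 2 * q) q := by
    have e2 : ∑ q, hlwc q * ∑ p, 2 * F p q * F (p - 2 * q) q =
        ∑ p, ∑ q, hlwc q * (2 * F p q * F (p - 2 * q) q) := by
      rw [Finset.sum_comm]
      refine Finset.sum_congr rfl fun q _ => ?_
      rw [Finset.mul_sum]
    rw [e2, ← Finset.sum_add_distrib]
    refine Finset.sum_congr rfl fun p _ => ?_
    rw [Finset.mul_sum, ← Finset.sum_add_distrib]
    refine Finset.sum_congr rfl fun q _ => ?_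
    unfold hlwc
    ring
  rw [e1]
  have h1 : ∑ p, hlwc p * ∑ q, 2 * F p q * F p (q + 2 * p) ≤
      ∑ p, hlwc p * ∑ q, hlwA p q * F p q ^ 2 :=
    Finset.sum_le_sum fun p _ => mul_le_mul_of_nonneg_left (hlw_row p (F p)) (hlwc_nonneg p)
  have h2 : ∑ q, hlwc q * ∑ p, 2 * F p q * F (p - 2 * q) q ≤
      ∑ q, hlwc q * ∑ p, hlwA q p * F p q ^ 2 :=
    Finset.sum_le_sum fun q _ =>
      mul_le_mul_of_nonneg_left (hlw_row' q (fun p => F p q)) (hlwc_nonneg q)
  refine (add_le_add h1 h2).trans ?_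
  have e3 : ∑ q, hlwc q * ∑ p, hlwA q p * F p q ^ 2 = ∑ p, ∑ q, hlwc q * (hlwA q p * F p q ^ 2) := by
    rw [Finset.sum_comm]
    refine Finset.sum_congr rfl fun q _ => ?_
    rw [Finset.mul_sum]
  rw [e3, ← Finset.sum_add_distrib, Finset.mul_sum]
  refine Finset.sum_le_sum fun p _ => ?_
  rw [Finset.mul_sum, ← Finset.sum_add_distrib, Finset.mul_sum]
  refine Finset.sum_le_sum fun q _ => ?_
  by_cases h : p = 0 ∧ q = 0
  · rw [h.1, h.2, h0]
    norm_num
  · have := hlw_core hN h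
    calc hlwc p * (hlwA p q * F p q ^ 2) + hlwc q * (hlwA q p * F p q ^ 2) =
        (hlwc p * hlwA p q + hlwc q * hlwA q p) * F p q ^ 2 := by ring
      _ ≤ _ := mul_le_mul_of_nonneg_right this (sq_nonneg _)

end Crest.Agent.QT
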