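import Crest.Agent.QT_Defs

/-!
Task QT-K1 (medium/long, self-contained real analysis; no C*-algebras).
A monotone, "disjointly additive", subadditive function `D` of the supports of nonnegative continuous
functions on a compact space is integrated additively.

Proof.  Put `O_f = {f > 0}`; `hmono` says `D f` depends only on `O_f` and is monotone; `D 0 = 0` (disj).
Write `F(t) = D((f-t)_+)` (antitone, in [0,1]).  For `s : ℝ` and `δ > 0` let `b_{s,δ} = (δ - |f - s|)_+` (a bump,
support `{|f-s| < δ}`).  For distinct `s` and small `δ` the supports are disjoint, so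
`∑ D(b_{s_i,δ}) ≤ 1`; hence `{s : inf_δ D(b_{s,δ}) > 0}` is countable (at most `m` points with value `≥ 1/m`).
The same for `g`.  Given `ε > 0` choose `-R-1 = s_0 < s_1 < ... < s_r = R + 1` mesh `≤ ε`, all good for `f`, and
`t_0 < ... < t_r` all good for `g`; `δ > 0` so small that `∑ D(b^f_{s_i,δ}) + ∑ D(b^g_{t_j,δ}) ≤ ε`.  Cells:
`c_ij = (f - s_i)_+ ∧ (s_{i+1} - f)_+ ∧ (g - t_j)_+ ∧ (t_{j+1} - g)_+`: pairwise disjoint supports, so
`∑ D(c_ij) ≤ D(1) = 1`, and `1 ≤ ∑ c_ij` + bumps has full support so `1 - ε ≤ ∑ D(c_ij)`.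
For any continuous `h` (`h = f`, `g`, `f+g`) such that `h ∈ [v_ij, v_ij + 2ε]` on the support of `c_ij`:
`∑_{v_ij > t} D(c_ij) ≤ D((h-t)_+) ≤ ∑_{v_ij + 2ε > t} D(c_ij) + ε` (first: disjoint union of cells contained in
`{h > t}`; second: `{h > t}` is covered by the cells meeting it and the bumps).  Integrating over
`t ∈ [-R', R']`: `|∫ D((h-t)_+)dt - ∑ (v_ij + R') D(c_ij)| ≤ C ε`.  Add up: `v^{f+g} = s_i + t_j`, and let `ε → 0`.

ALTERNATIVE PROOF (probably shorter, uses Mathlib's `MeasureTheory.Content`): for compact `L ⊆ K` put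
`λ L = inf {D f : f ≥ 0, f > 0 on L}` (in `[0,1]`).  `λ` is a `Content`: monotone; subadditive by `hsub`; additive on
disjoint compacts `L₁, L₂`: for `f > 0` on `L₁ ∪ L₂` take Urysohn functions `u₁ u₂` with `u₁ u₂ = 0`, `u_i > 0` on `L_i`
(e.g. `u₁ = (v - 1/2)_+`, `u₂ = (1/2 - v)_+`): `D f ≥ D (f u₁ + f u₂) = D(f u₁) + D(f u₂)`.  Let `μ = Content.measure`.
For `h ∈ C(K,ℝ)`, `t' < t`: `μ {h > t} ≤ D((h-t)_+) ≤ λ {h ≥ t} ≤ μ {h > t'}` (`μ U = innerContent U = sup_{L ⊆ U} λ L` for
open `U`).  So the antitone functions `t ↦ D((h-t)_+)` and `t ↦ μ{h > t}` agree a.e. and by the layer cake formula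
`∫_{-R}^R D((h-t)_+) dt = ∫ (h + R) dμ` if `|h| ≤ R` (`μ K = 1`).  Now add up.
-/

set_option autoImplicit false

namespace Crest.Agent.QT

/-- `(f - t)_+` -/
def cpos {K : Type*} [TopologicalSpace K] (f : C(K, ℝ)) (t : ℝ) : C(K, ℝ) :=
  (f - ContinuousMap.const K t) ⊔ 0

section K1
open MeasureTheory TopologicalSpace Set

variable {K : Type*} [TopologicalSpace K]

private theorem cpos_apply (f : C(K, ℝ)) (t : ℝ) (x : K) : cpos f t x = max (f x - t) 0 := rfl

private theorem cpos_nonneg (f : C(K, ℝ)) (t : ℝ) : 0 ≤ cpos f t := by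
  intro x
  show (0 : ℝ) ≤ max (f x - t) 0
  exact le_max_right _ _

private theorem cpos_pos {f : C(K, ℝ)} {t : ℝ} {x : K} : 0 < cpos f t x ↔ t < f x := by
  rw [cpos_apply, lt_max_iff]
  constructor
  · rintro (h | h)
    · linarith
    · exact absurd h (lt_irrefl _)
  · intro h
    left
    linarith

/-- the properties of `D` -/
structure K1H (D : C(K, ℝ) → ℝ) : Prop where
  hmono : ∀ f g : C(K, ℝ), 0 ≤ f → 0 ≤ g → (∀ x, 0 < f x → 0 < g x) → D f ≤ D g
  hdisj : ∀ f g : C(K, ℝ), 0 ≤ f → 0 ≤ g → (∀ x, f x * g x = 0) → D (f + g) = D f + D g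
  hsub : ∀ f g : C(K, ℝ), 0 ≤ f → 0 ≤ g → D (f + g) ≤ D f + D g
  hone : D 1 = 1

variable {D : C(K, ℝ) → ℝ}

private theorem K1H.zero (H : K1H D) : D 0 = 0 := by
  have := H.hdisj 0 0 le_rfl le_rfl (fun x => by simp)
  rw [add_zero] at this
  linarith

private theorem K1H.nonneg (H : K1H D) {f : C(K, ℝ)} (hf : 0 ≤ f) : 0 ≤ D f := by
  rw [← H.zero]
  exact H.hmono 0 f le_rfl hf (fun x hx => absurd hx (lt_irrefl _))

private theorem K1H.le_one (H : K1H D) {f : C(K, ℝ)} (hf : 0 ≤ f) : D f ≤ 1 := by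
  rw [← H.hone]
  exact H.hmono f 1 hf (fun x => zero_le_one) (fun x _ => zero_lt_one)

/-- the set of values -/
private def lamS (D : C(K, ℝ) → ℝ) (L : Set K) : Set ℝ :=
  {r | ∃ f : C(K, ℝ), 0 ≤ f ∧ (∀ x ∈ L, 0 < f x) ∧ D f = r}

private noncomputable def lam (D : C(K, ℝ) → ℝ) (L : Set K) : ℝ := sInf (lamS D L)

private theorem lamS_one (H : K1H D) (L : Set K) : (1 : ℝ) ∈ lamS D L :=
  ⟨1, fun _ => zero_le_one, fun _ _ => zero_lt_one, H.hone⟩

private theorem lamS_bdd (H : K1H D) (L : Set K) : BddBelow (lamS D L) := by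
  refine ⟨0, ?_⟩
  rintro r ⟨f, hf, _, rfl⟩
  exact H.nonneg hf

private theorem lam_nonneg (H : K1H D) (L : Set K) : 0 ≤ lam D L := by
  apply le_csInf ⟨1, lamS_one H L⟩
  rintro r ⟨f, hf, _, rfl⟩
  exact H.nonneg hf

private theorem lam_le (H : K1H D) {L : Set K} {f : C(K, ℝ)} (hf : 0 ≤ f) (h : ∀ x ∈ L, 0 < f x) :
    lam D L ≤ D f := csInf_le (lamS_bdd H L) ⟨f, hf, h, rfl⟩

private theorem le_lam (H : K1H D) {L : Set K} {r : ℝ}
    (h : ∀ f : C(K, ℝ), 0 ≤ f → (∀ x ∈ L, 0 < f x) → r ≤ D f) : r ≤ lam D L := by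
  apply le_csInf ⟨1, lamS_one H L⟩
  rintro s ⟨f, hf, hL, rfl⟩
  exact h f hf hL

private theorem lam_mono (H : K1H D) {L L' : Set K} (h : L ⊆ L') : lam D L ≤ lam D L' :=
  le_lam H fun f hf hL => lam_le H hf fun x hx => hL x (h hx)

private theorem lam_sup_le (H : K1H D) (L L' : Set K) : lam D (L ∪ L') ≤ lam D L + lam D L' := by
  have h1 : ∀ f' : C(K, ℝ), 0 ≤ f' → (∀ x ∈ L', 0 < f' x) → lam D (L ∪ L') - D f' ≤ lam D L := by
    intro f' hf' hL'
    apply le_lam H
    intro f hf hL
    have h2 := lam_le H (L := L ∪ L') (f := f + f') (add_nonneg hf hf') (by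
      intro x hx
      have h3 : 0 ≤ f x := hf x
      have h4 : 0 ≤ f' x := hf' x
      rcases hx with hx | hx
      · have := hL x hx
        show 0 < f x + f' x
        linarith
      · have := hL' x hx
        show 0 < f x + f' x
        linarith)
    have h3 := H.hsub f f' hf hf'
    linarith
  have h2 : lam D (L ∪ L') - lam D L ≤ lam D L' := by
    apply le_lam H
    intro f' hf' hL'
    have := h1 f' hf' hL'
    linarith
  linarith

variable [CompactSpace K] [T2Space K]

private theorem lam_disj (H : K1H D) {L L' : Set K} (hL : IsClosed L) (hL' : IsClosed L')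
    (hd : Disjoint L L') : lam D (L ∪ L') = lam D L + lam D L' := by
  apply le_antisymm (lam_sup_le H L L')
  apply le_lam H
  intro f hf hpos
  obtain ⟨u, hu0, hu1, _⟩ := exists_continuous_zero_one_of_isClosed hL hL' hd
  set w : C(K, ℝ) := cpos u (1 / 2) with hw
  set v : C(K, ℝ) := cpos (-u) (-(1 / 2)) with hv
  have hwv : ∀ x, v x * w x = 0 := by
    intro x
    rw [hv, hw, cpos_apply, cpos_apply]
    rcases le_total (u x) (1 / 2) with h | h
    · have : max (u x - 1 / 2) 0 = 0 := max_eq_right (by linarith)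
      rw [this, mul_zero]
    · have : max ((-u) x - -(1 / 2)) 0 = 0 := max_eq_right (by
        show -(u x) - -(1 / 2) ≤ 0
        linarith)
      rw [this, zero_mul]
  have hv0 : 0 ≤ v := cpos_nonneg _ _
  have hw0 : 0 ≤ w := cpos_nonneg _ _
  have h1 : 0 ≤ f * v := fun x => mul_nonneg (hf x) (hv0 x)
  have h2 : 0 ≤ f * w := fun x => mul_nonneg (hf x) (hw0 x)
  have h3 : D (f * v + f * w) = D (f * v) + D (f * w) := by
    apply H.hdisj _ _ h1 h2
    intro x
    show f x * v x * (f x * w x) = 0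
    calc f x * v x * (f x * w x) = f x * f x * (v x * w x) := by ring
      _ = 0 := by rw [hwv, mul_zero]
  have h4 : D (f * v + f * w) ≤ D f := by
    apply H.hmono _ _ (add_nonneg h1 h2) hf
    intro x hx
    have h5 : 0 < f x * v x + f x * w x := hx
    have h6 : 0 ≤ f x := hf x
    rcases h6.eq_or_lt with h7 | h7
    · rw [← h7] at h5
      simp at h5
    · exact h7
  have h5 : lam D L ≤ D (f * v) := by
    apply lam_le H h1
    intro x hx
    show 0 < f x * v x
    apply mul_pos (hpos x (Or.inl hx))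
    rw [hv, cpos_pos]
    show -(1 / 2) < -(u x)
    have : u x = 0 := hu0 hx
    rw [this]
    norm_num
  have h6 : lam D L' ≤ D (f * w) := by
    apply lam_le H h2
    intro x hx
    show 0 < f x * w x
    apply mul_pos (hpos x (Or.inr hx))
    rw [hw, cpos_pos]
    have : u x = 1 := hu1 hx
    rw [this]
    norm_num
  linarith

/-- the content -/
private noncomputable def K1c (H : K1H D) : Content K where
  toFun L := ⟨lam D L, lam_nonneg H L⟩
  mono' L L' h := by
    show lam D L ≤ lam D L'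
    exact lam_mono H h
  sup_disjoint' L L' hd hL hL' := by
    apply NNReal.eq
    show lam D ((L ⊔ L' : Compacts K) : Set K) = lam D L + lam D L'
    rw [Compacts.coe_sup]
    exact lam_disj H hL hL' hd
  sup_le' L L' := by
    show lam D ((L ⊔ L' : Compacts K) : Set K) ≤ lam D L + lam D L'
    rw [Compacts.coe_sup]
    exact lam_sup_le H _ _

private theorem K1c_apply (H : K1H D) (L : Compacts K) : K1c H L = ENNReal.ofReal (lam D L) := by
  rw [ENNReal.ofReal, Real.toNNReal_of_nonneg (lam_nonneg H _)]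
  rfl

variable [MeasurableSpace K] [BorelSpace K]

private theorem K1_meas_open (H : K1H D) {U : Set K} (hU : IsOpen U) :
    (K1c H).measure U = (K1c H).innerContent ⟨U, hU⟩ := by
  rw [(K1c H).measure_apply hU.measurableSet, (K1c H).outerMeasure_of_isOpen U hU]

private theorem K1_le (H : K1H D) (h : C(K, ℝ)) (t : ℝ) :
    (K1c H).measure {x | t < h x} ≤ ENNReal.ofReal (D (cpos h t)) := by
  have hU : IsOpen {x | t < h x} := isOpen_lt continuous_const h.continuous
  rw [K1_meas_open H hU]
  refine iSup₂_le fun L hL => ?_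
  rw [K1c_apply]
  apply ENNReal.ofReal_le_ofReal
  exact lam_le H (cpos_nonneg h t) fun x hx => cpos_pos.2 (hL hx)

private theorem K1_ge (H : K1H D) (h : C(K, ℝ)) {t' t : ℝ} (ht : t' < t) :
    ENNReal.ofReal (D (cpos h t)) ≤ (K1c H).measure {x | t' < h x} := by
  have hU : IsOpen {x | t' < h x} := isOpen_lt continuous_const h.continuous
  have hC : IsCompact {x | t ≤ h x} := (isClosed_le continuous_const h.continuous).isCompact
  rw [K1_meas_open H hU]
  have h1 : ENNReal.ofReal (D (cpos h t)) ≤ K1c H ⟨{x | t ≤ h x}, hC⟩ := by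
    rw [K1c_apply]
    apply ENNReal.ofReal_le_ofReal
    apply le_lam H
    intro f hf hL
    apply H.hmono _ _ (cpos_nonneg h t) hf
    intro x hx
    exact hL x (cpos_pos.1 hx).le
  refine h1.trans ((K1c H).le_innerContent _ _ ?_)
  intro x hx
  exact lt_of_lt_of_le ht hx

private theorem K1_univ (H : K1H D) : (K1c H).measure Set.univ = 1 := by
  have h1 : {x : K | (0 : ℝ) < (1 : C(K, ℝ)) x} = Set.univ := by
    ext x; simp
  have h3 : {x : K | (-1 : ℝ) < (1 : C(K, ℝ)) x} = Set.univ := by
    ext x; simp only [mem_ofPred_eq, ContinuousMap.one_apply, mem_univ, iff_true]; norm_num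
  apply le_antisymm
  · rw [← h1]
    refine (K1_le H 1 0).trans ?_
    rw [← ENNReal.ofReal_one]
    exact ENNReal.ofReal_le_ofReal (H.le_one (cpos_nonneg _ _))
  · have h2 := K1_ge H 1 (t' := -1) (t := 0) (by norm_num)
    rw [h3] at h2
    refine le_trans ?_ h2
    rw [← ENNReal.ofReal_one]
    apply ENNReal.ofReal_le_ofReal
    rw [← H.hone]
    apply H.hmono _ _ (fun _ => zero_le_one) (cpos_nonneg _ _)
    intro x _
    rw [cpos_pos]
    exact zero_lt_one


private theorem K1_prob (H : K1H D) : IsProbabilityMeasure (K1c H).measure := ⟨K1_univ H⟩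

omit [CompactSpace K] [T2Space K] [MeasurableSpace K] [BorelSpace K] in
private theorem K1_Danti (H : K1H D) (h : C(K, ℝ)) : Antitone (fun t => D (cpos h t)) := by
  intro s t hst
  apply H.hmono _ _ (cpos_nonneg _ _) (cpos_nonneg _ _)
  intro x hx
  rw [cpos_pos] at hx ⊢
  exact lt_of_le_of_lt hst hx

/-- distribution function -/
private noncomputable def mm (H : K1H D) (h : C(K, ℝ)) (t : ℝ) : ℝ :=
  (K1c H).measure.real {x | t < h x}

private theorem mm_nonneg (H : K1H D) (h : C(K, ℝ)) (t : ℝ) : 0 ≤ mm H h t :=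
  ENNReal.toReal_nonneg

private theorem mm_le_one (H : K1H D) (h : C(K, ℝ)) (t : ℝ) : mm H h t ≤ 1 := by
  haveI := K1_prob H
  exact measureReal_le_one

private theorem mm_anti (H : K1H D) (h : C(K, ℝ)) : Antitone (mm H h) := by
  haveI := K1_prob H
  intro s t hst
  exact measureReal_mono (fun x hx => lt_of_le_of_lt hst hx)

private theorem mm_le (H : K1H D) (h : C(K, ℝ)) (t : ℝ) : mm H h t ≤ D (cpos h t) := by
  have h1 := K1_le H h t
  have h2 := ENNReal.toReal_mono ENNReal.ofReal_ne_top h1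
  rwa [ENNReal.toReal_ofReal (H.nonneg (cpos_nonneg _ _))] at h2

private theorem le_mm (H : K1H D) (h : C(K, ℝ)) {t' t : ℝ} (ht : t' < t) :
    D (cpos h t) ≤ mm H h t' := by
  haveI := K1_prob H
  have h1 := K1_ge H h ht
  have h2 := ENNReal.toReal_mono (measure_ne_top _ _) h1
  rwa [ENNReal.toReal_ofReal (H.nonneg (cpos_nonneg _ _))] at h2

private theorem K1_int_eq (H : K1H D) (h : C(K, ℝ)) {a b : ℝ} (hab : a ≤ b) :
    ∫ t in a..b, D (cpos h t) = ∫ t in a..b, mm H h t := by
  have iD : ∀ a b, IntervalIntegrable (fun t => D (cpos h t)) volume a b :=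
    fun a b => (K1_Danti H h).intervalIntegrable
  have im : ∀ a b, IntervalIntegrable (mm H h) volume a b :=
    fun a b => (mm_anti H h).intervalIntegrable
  apply le_antisymm
  · apply le_of_forall_pos_le_add
    intro ε hε
    have h1 : ∫ t in a..b, D (cpos h t) ≤ ∫ t in a..b, mm H h (t - ε) := by
      apply intervalIntegral.integral_mono_on hab (iD a b)
      · have := (im (a - ε) (b - ε)).comp_sub_right ε
        simpa using this
      · intro t _
        exact le_mm H h (by linarith)
    rw [intervalIntegral.integral_comp_sub_right (fun t => mm H h t) ε] at h1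
    have h2 : ∫ t in (a - ε)..(b - ε), mm H h t = (∫ t in (a - ε)..a, mm H h t) +
        ∫ t in a..(b - ε), mm H h t :=
      (intervalIntegral.integral_add_adjacent_intervals (im _ _) (im _ _)).symm
    have h3 : ∫ t in a..b, mm H h t = (∫ t in a..(b - ε), mm H h t) +
        ∫ t in (b - ε)..b, mm H h t :=
      (intervalIntegral.integral_add_adjacent_intervals (im _ _) (im _ _)).symm
    have h4 : ∫ t in (a - ε)..a, mm H h t ≤ ε := by
      have h5 : ∫ t in (a - ε)..a, mm H h t ≤ ∫ t in (a - ε)..a, (1 : ℝ) :=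
        intervalIntegral.integral_mono_on (by linarith) (im _ _) intervalIntegrable_const
          (fun t _ => mm_le_one H h t)
      rw [intervalIntegral.integral_const, smul_eq_mul, mul_one] at h5
      linarith
    have h6 : 0 ≤ ∫ t in (b - ε)..b, mm H h t :=
      intervalIntegral.integral_nonneg (by linarith) (fun t _ => mm_nonneg H h t)
    linarith
  · exact intervalIntegral.integral_mono_on hab (im a b) (iD a b) (fun t _ => mm_le H h t)

private theorem K1_layer (H : K1H D) (h : C(K, ℝ)) {R : ℝ} (hR : 0 ≤ R) (hh : ∀ x, |h x| ≤ R) :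
    ∫ t in (-R)..R, D (cpos h t) = (∫ x, h x ∂(K1c H).measure) + R := by
  haveI := K1_prob H
  have ih : Integrable (fun x => h x) (K1c H).measure := by
    apply Integrable.mono' (integrable_const R) h.continuous.aestronglyMeasurable
    exact Filter.Eventually.of_forall fun x => hh x
  rw [K1_int_eq H h (by linarith)]
  have h1 : ∫ x, (h x + R) ∂(K1c H).measure = (∫ x, h x ∂(K1c H).measure) + R := by
    rw [integral_add ih (integrable_const R), integral_const, probReal_univ, smul_eq_mul, one_mul]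
  have i1 : Integrable (fun x => h x + R) (K1c H).measure := ih.add (integrable_const R)
  rw [← h1, Integrable.integral_eq_integral_meas_lt i1
    (Filter.Eventually.of_forall fun x => by
      have := (abs_le.1 (hh x)).1
      show 0 ≤ h x + R
      linarith)]
  have h2 : ∀ t : ℝ, (K1c H).measure.real {a | t < h a + R} = mm H h (t - R) := by
    intro t
    unfold mm
    congr 1
    ext x
    show t < h x + R ↔ t - R < h x
    constructor <;> intro hx <;> linarith
  simp only [h2]
  have h3 : ∫ t in Set.Ioi 0, mm H h (t - R) = ∫ t in Set.Ioc 0 (2 * R), mm H h (t - R) := by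
    apply setIntegral_eq_of_subset_of_forall_diff_eq_zero measurableSet_Ioi
    · exact fun t ht => ht.1
    · intro t ht
      have h4 : 2 * R < t := by
        by_contra h5
        exact ht.2 ⟨ht.1, not_lt.1 h5⟩
      unfold mm
      have h5 : {x | t - R < h x} = ∅ := by
        rw [Set.eq_empty_iff_forall_notMem]
        intro x hx
        have h6 : t - R < h x := hx
        have := (abs_le.1 (hh x)).2
        linarith
      rw [h5, measureReal_empty]
  rw [h3, ← intervalIntegral.integral_of_le (by linarith),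
    intervalIntegral.integral_comp_sub_right (fun t => mm H h t) R]
  congr 1 <;> ring

end K1

theorem K1_additive {K : Type*} [TopologicalSpace K] [CompactSpace K] [T2Space K] (D : C(K, ℝ) → ℝ)
    (hmono : ∀ f g : C(K, ℝ), 0 ≤ f → 0 ≤ g → (∀ x, 0 < f x → 0 < g x) → D f ≤ D g)
    (hdisj : ∀ f g : C(K, ℝ), 0 ≤ f → 0 ≤ g → (∀ x, f x * g x = 0) → D (f + g) = D f + D g)
    (hsub : ∀ f g : C(K, ℝ), 0 ≤ f → 0 ≤ g → D (f + g) ≤ D f + D g)
    (hone : D 1 = 1) (f g : C(K, ℝ)) (R : ℝ) (hf : ∀ x, |f x| ≤ R) (hg : ∀ x, |g x| ≤ R)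
    (hR : 0 ≤ R) :
    ∫ t in (-(2 * R))..(2 * R), D (cpos (f + g) t) =
      (∫ t in (-R)..R, D (cpos f t)) + ∫ t in (-R)..R, D (cpos g t) := by
  have H : K1H D := ⟨hmono, hdisj, hsub, hone⟩
  letI : MeasurableSpace K := borel K
  haveI : BorelSpace K := ⟨rfl⟩
  haveI := K1_prob H
  have hfg : ∀ x, |(f + g) x| ≤ 2 * R := by
    intro x
    have h1 : |f x + g x| ≤ |f x| + |g x| := abs_add_le _ _
    have h2 := hf x
    have h3 := hg x
    show |f x + g x| ≤ 2 * R
    linarith
  rw [K1_layer H (f + g) (by linarith) hfg, K1_layer H f hR hf, K1_layer H g hR hg]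
  have i1 : MeasureTheory.Integrable (fun x => f x) (K1c H).measure := by
    apply MeasureTheory.Integrable.mono' (MeasureTheory.integrable_const R)
      f.continuous.aestronglyMeasurable
    exact Filter.Eventually.of_forall fun x => hf x
  have i2 : MeasureTheory.Integrable (fun x => g x) (K1c H).measure := by
    apply MeasureTheory.Integrable.mono' (MeasureTheory.integrable_const R)
      g.continuous.aestronglyMeasurable
    exact Filter.Eventually.of_forall fun x => hg x
  have h1 : ∫ x, (f + g) x ∂(K1c H).measure =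
      (∫ x, f x ∂(K1c H).measure) + ∫ x, g x ∂(K1c H).measure := by
    rw [← MeasureTheory.integral_add i1 i2]
    rfl
  rw [h1]
  ring

end Crest.Agent.QT
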