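import Crest.Agent.QT_PS

/-!
Task QT-L1 (medium, self-contained matrix analysis; uses `powers_stormer`).
`l1_test`: `h = a² - b²`, `a b = 0`; `P` = projection onto the range of `a` (`P a = a`, `P b = 0`; diagonalize `a`),
`P' = 1 - P`, `v = u a u*`, `k_+ = v²`, `k_- = (u b u*)²`, `k = k_+ - k_-`.
* `c₂ = P - P'`: `tr((h-k)c₂) = 2 tr(k_+ P') + 2 tr(k_- P) ≥ 2 ‖v P'‖²`  (use `tr h_± = tr k_±`).
* `c₁ = P s P - P'`, `s` from `powers_stormer` for `X = a`, `Y = P v P`:
  `tr((h-k)c₁) = tr((a² - (PvP)²) PsP) - tr(P v P' v P s) + tr(P k_- P s) - tr((h-k)P')`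
  `≥ ‖a - PvP‖² - ‖P'vP‖² - tr(k_-P) + (tr(k_+P') + tr(k_-P)) ≥ ‖a-PvP‖² + ‖P'vP'‖²`
  (`a`, `PvP` are supported in `P`, so `tr((a² - (PvP)²) PsP) = tr((a² - (PvP)²) s) ≥ hs (a - PvP)`;
  `tr(k_+P') = ‖PvP'‖² + ‖P'vP'‖²`; `|tr(P v P' v P s)| ≤ ‖P'vP‖²`, `tr(P k_- P s) ≥ -tr(k_- P)` because `-1 ≤ s ≤ 1`;
  `tr(h P') = - tr(b²)`, `-tr((h-k)P') = tr b² + tr(k_+P') - tr(k_-P') = tr(k_+P') + tr(k_-P)`).
* `c = (c₁+c₂)/2`: `tr((h-k)c) ≥ (1/2)(‖a-PvP‖² + ‖P'vP'‖² + 2‖PvP'‖²) = (1/2) ‖a - v‖²` (norms: Hilbert-Schmidt;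
  orthogonal decomposition by `P`, `P'`).
-/

set_option autoImplicit false
set_option linter.unusedSectionVars false

namespace Crest.Agent.QT

open scoped Matrix ComplexOrder

section l1aux
variable {ι : Type*} [Fintype ι] [DecidableEq ι]

theorem l1_diag (a : Matrix ι ι ℂ) (ha : a.IsHermitian) :
    ∃ (U : Matrix ι ι ℂ) (lam : ι → ℝ), Uᴴ * U = 1 ∧
      a = U * Matrix.diagonal (fun i => (lam i : ℂ)) * Uᴴ := by
  refine ⟨ha.eigenvectorUnitary, ha.eigenvalues, ?_, ?_⟩
  · exact Unitary.coe_star_mul_self ha.eigenvectorUnitary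
  · have := ha.spectral_theorem
    rw [Unitary.conjStarAlgAut_apply] at this
    exact this

theorem l1_diag_mul (U : Matrix ι ι ℂ) (hU : Uᴴ * U = 1) (d e : ι → ℂ) :
    (U * Matrix.diagonal d * Uᴴ) * (U * Matrix.diagonal e * Uᴴ) =
      U * Matrix.diagonal (fun i => d i * e i) * Uᴴ := by
  calc (U * Matrix.diagonal d * Uᴴ) * (U * Matrix.diagonal e * Uᴴ)
      = U * Matrix.diagonal d * (Uᴴ * U) * Matrix.diagonal e * Uᴴ := by simp only [Matrix.mul_assoc]
    _ = U * Matrix.diagonal (fun i => d i * e i) * Uᴴ := by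
        rw [hU, Matrix.mul_one, Matrix.mul_assoc U, Matrix.diagonal_mul_diagonal]

theorem l1_proj (a b : Matrix ι ι ℂ) (ha : a.IsHermitian) (hab : a * b = 0) :
    ∃ P : Matrix ι ι ℂ, Pᴴ = P ∧ P * P = P ∧ P * a = a ∧ P * b = 0 := by
  obtain ⟨U, lam, hU, h⟩ := l1_diag a ha
  set d : ι → ℂ := fun i => if lam i = 0 then 0 else 1 with hd
  set g : ι → ℂ := fun i => if lam i = 0 then 0 else (lam i : ℂ)⁻¹ with hg
  have hga : (U * Matrix.diagonal g * Uᴴ) * a = U * Matrix.diagonal d * Uᴴ := by
    rw [h, l1_diag_mul U hU]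
    congr 3
    funext i
    simp only [hd, hg]
    split_ifs with h0
    · simp
    · rw [inv_mul_cancel₀]
      exact_mod_cast h0
  refine ⟨U * Matrix.diagonal d * Uᴴ, ?_, ?_, ?_, ?_⟩
  · rw [Matrix.conjTranspose_mul, Matrix.conjTranspose_mul, Matrix.conjTranspose_conjTranspose,
      Matrix.diagonal_conjTranspose, Matrix.mul_assoc]
    congr 3
    funext i
    simp only [hd, Pi.star_apply]
    split_ifs <;> simp
  · rw [l1_diag_mul U hU]
    congr 3
    funext i
    simp only [hd]
    split_ifs <;> simp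
  · conv_lhs => rw [h]
    conv_rhs => rw [h]
    rw [l1_diag_mul U hU]
    congr 3
    funext i
    simp only [hd]
    split_ifs with h0
    · simp [h0]
    · simp
  · rw [← hga, Matrix.mul_assoc, hab, Matrix.mul_zero]

/-- real part of the trace -/
noncomputable def l1T (X : Matrix ι ι ℂ) : ℝ := X.trace.re

theorem l1T_add (X Y : Matrix ι ι ℂ) : l1T (X + Y) = l1T X + l1T Y := by
  simp [l1T]

theorem l1T_sub (X Y : Matrix ι ι ℂ) : l1T (X - Y) = l1T X - l1T Y := by
  simp [l1T]

theorem l1T_comm (X Y : Matrix ι ι ℂ) : l1T (X * Y) = l1T (Y * X) := by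
  simp only [l1T, Matrix.trace_mul_comm X Y]

theorem l1T_nonneg (X : Matrix ι ι ℂ) (hX : X.PosSemidef) : 0 ≤ l1T X := by
  have := hX.trace_nonneg
  exact (Complex.nonneg_iff.1 this).1

theorem l1_sqrt (Y : Matrix ι ι ℂ) (hY : Y.PosSemidef) : ∃ C : Matrix ι ι ℂ, Y = Cᴴ * C := by
  obtain ⟨U, lam, hU, h⟩ := l1_diag Y hY.isHermitian
  have hlam : ∀ i, 0 ≤ lam i := by
    intro i
    have h1 := hY.conjTranspose_mul_mul_same U
    rw [h] at h1
    have e : Uᴴ * (U * Matrix.diagonal (fun i => (lam i : ℂ)) * Uᴴ) * U =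
        Matrix.diagonal (fun i => (lam i : ℂ)) := by
      calc _ = (Uᴴ * U) * Matrix.diagonal (fun i => (lam i : ℂ)) * (Uᴴ * U) := by
            simp only [Matrix.mul_assoc]
        _ = _ := by rw [hU, Matrix.one_mul, Matrix.mul_one]
    rw [e, Matrix.posSemidef_diagonal_iff] at h1
    exact_mod_cast (Complex.nonneg_iff.1 (h1 i)).1
  refine ⟨Matrix.diagonal (fun i => ((Real.sqrt (lam i) : ℝ) : ℂ)) * Uᴴ, ?_⟩
  rw [Matrix.conjTranspose_mul, Matrix.conjTranspose_conjTranspose, Matrix.diagonal_conjTranspose]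
  conv_lhs => rw [h]
  have e : Matrix.diagonal (fun i => (lam i : ℂ)) =
      Matrix.diagonal (star fun i => ((Real.sqrt (lam i) : ℝ) : ℂ)) *
        Matrix.diagonal (fun i => ((Real.sqrt (lam i) : ℝ) : ℂ)) := by
    rw [Matrix.diagonal_mul_diagonal]
    congr 1
    funext i
    simp only [Pi.star_apply, Complex.star_def, Complex.conj_ofReal]
    rw [← Complex.ofReal_mul, Real.mul_self_sqrt (hlam i)]
  rw [e]
  simp only [Matrix.mul_assoc]

theorem l1T_mul_nonneg (X Y : Matrix ι ι ℂ) (hX : X.PosSemidef) (hY : Y.PosSemidef) :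
    0 ≤ l1T (X * Y) := by
  obtain ⟨C, hC⟩ := l1_sqrt Y hY
  rw [hC, ← Matrix.mul_assoc, l1T_comm, ← Matrix.mul_assoc]
  exact l1T_nonneg _ (hX.mul_mul_conjTranspose_same C)

theorem l1_hs_eq (X : Matrix ι ι ℂ) : hs X = l1T (Xᴴ * X) := by
  unfold hs l1T Matrix.trace
  simp only [Matrix.diag_apply, Matrix.mul_apply, Matrix.conjTranspose_apply, Complex.re_sum]
  rw [Finset.sum_comm]
  refine Finset.sum_congr rfl fun i _ => Finset.sum_congr rfl fun j _ => ?_
  rw [← Complex.normSq_eq_norm_sq, Complex.normSq_apply]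
  simp [Complex.mul_re]

end l1aux

theorem l1_test {ι : Type*} [Fintype ι] [DecidableEq ι] (a b u : Matrix ι ι ℂ)
    (ha : a.PosSemidef) (hb : b.PosSemidef) (hab : a * b = 0)
    (hu : u ∈ Matrix.unitaryGroup ι ℂ) :
    ∃ c : Matrix ι ι ℂ, (1 - c).PosSemidef ∧ (1 + c).PosSemidef ∧
      hs (a - u * a * uᴴ) / 2 ≤
        (((a * a - b * b) - u * (a * a - b * b) * uᴴ) * c).trace.re := by
  obtain ⟨P, hP1, hP2, hPa, hPb⟩ := l1_proj a b ha.isHermitian hab
  have haP : a * P = a := by
    have := congrArg Matrix.conjTranspose hPa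
    rwa [Matrix.conjTranspose_mul, hP1, ha.isHermitian.eq] at this
  have hbP : b * P = 0 := by
    have := congrArg Matrix.conjTranspose hPb
    rwa [Matrix.conjTranspose_mul, hP1, hb.isHermitian.eq, Matrix.conjTranspose_zero] at this
  have huu : uᴴ * u = 1 := Matrix.mem_unitaryGroup_iff'.1 hu
  set v := u * a * uᴴ with hv
  set w := u * b * uᴴ with hw
  have hvp : v.PosSemidef := ha.mul_mul_conjTranspose_same u
  have hwp : w.PosSemidef := hb.mul_mul_conjTranspose_same u
  have hvv : v * v = u * (a * a) * uᴴ := by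
    calc v * v = u * a * (uᴴ * u) * a * uᴴ := by rw [hv]; simp only [Matrix.mul_assoc]
      _ = u * (a * a) * uᴴ := by rw [huu, Matrix.mul_one]; simp only [Matrix.mul_assoc]
  have hww : w * w = u * (b * b) * uᴴ := by
    calc w * w = u * b * (uᴴ * u) * b * uᴴ := by rw [hw]; simp only [Matrix.mul_assoc]
      _ = u * (b * b) * uᴴ := by rw [huu, Matrix.mul_one]; simp only [Matrix.mul_assoc]
  have hk : u * (a * a - b * b) * uᴴ = v * v - w * w := by
    rw [hvv, hww, Matrix.mul_sub, Matrix.sub_mul]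
  have hTv : l1T (v * v) = l1T (a * a) := by
    rw [hvv, l1T_comm, ← Matrix.mul_assoc, huu, Matrix.one_mul]
  have hTw : l1T (w * w) = l1T (b * b) := by
    rw [hww, l1T_comm, ← Matrix.mul_assoc, huu, Matrix.one_mul]
  have hvH : vᴴ = v := hvp.isHermitian.eq
  have hwH : wᴴ = w := hwp.isHermitian.eq
  set Y := P * v * P with hY
  have hYp : Y.PosSemidef := by
    have := hvp.mul_mul_conjTranspose_same P
    rwa [hP1] at this
  obtain ⟨s, hs1, hs2, hs3⟩ := powers_stormer a Y ha hYp
  set Q := 1 - P with hQ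
  have hQH : Qᴴ = Q := by rw [hQ, Matrix.conjTranspose_sub, hP1, Matrix.conjTranspose_one]
  have hQQ : Q * Q = Q := by
    rw [hQ, Matrix.sub_mul, Matrix.mul_sub, Matrix.mul_sub, hP2]; simp
  have hQa : Q * a = 0 := by rw [hQ, Matrix.sub_mul, hPa]; simp
  have haQ : a * Q = 0 := by rw [hQ, Matrix.mul_sub, haP]; simp
  have hbQ : b * Q = b := by rw [hQ, Matrix.mul_sub, hbP]; simp
  have hPQ : P * Q = 0 := by rw [hQ, Matrix.mul_sub, hP2]; simp
  have hQP : Q * P = 0 := by rw [hQ, Matrix.sub_mul, hP2]; simp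
  have hPp : P.PosSemidef := by
    have := Matrix.posSemidef_conjTranspose_mul_self P
    rwa [hP1, hP2] at this
  have hQp : Q.PosSemidef := by
    have := Matrix.posSemidef_conjTranspose_mul_self Q
    rwa [hQH, hQQ] at this
  have hone : (1 : Matrix ι ι ℂ) = P + Q := by rw [hQ]; abel
  have hhalf : (0 : ℂ) ≤ (1 / 2 : ℂ) := by
    rw [Complex.nonneg_iff]; norm_num
  refine ⟨(1 / 2 : ℂ) • ((P * s * P - Q) + (P - Q)), ?_, ?_, ?_⟩
  · have e : 1 - (1 / 2 : ℂ) • ((P * s * P - Q) + (P - Q)) =
        (1 / 2 : ℂ) • (P * (1 - s) * P + (Q + Q + Q + Q)) := by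
      rw [Matrix.mul_sub, Matrix.sub_mul, Matrix.mul_one, hP2]
      have : (1 : Matrix ι ι ℂ) = (1 / 2 : ℂ) • (P + Q + (P + Q)) := by
        rw [← hone, ← two_smul ℂ (1 : Matrix ι ι ℂ), smul_smul]; norm_num
      conv_lhs => rw [this]
      rw [← smul_sub]
      congr 1
      abel
    rw [e]
    refine Matrix.PosSemidef.smul ?_ hhalf
    have h1 : (P * (1 - s) * P).PosSemidef := by
      have := hs1.mul_mul_conjTranspose_same P
      rwa [hP1] at this
    exact h1.add (((hQp.add hQp).add hQp).add hQp)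
  · have e : 1 + (1 / 2 : ℂ) • ((P * s * P - Q) + (P - Q)) =
        (1 / 2 : ℂ) • (P * (1 + s) * P + (P + P)) := by
      rw [Matrix.mul_add, Matrix.add_mul, Matrix.mul_one, hP2]
      have : (1 : Matrix ι ι ℂ) = (1 / 2 : ℂ) • (P + Q + (P + Q)) := by
        rw [← hone, ← two_smul ℂ (1 : Matrix ι ι ℂ), smul_smul]; norm_num
      conv_lhs => rw [this]
      rw [← smul_add]
      congr 1
      abel
    rw [e]
    refine Matrix.PosSemidef.smul ?_ hhalf
    have h1 : (P * (1 + s) * P).PosSemidef := by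
      have := hs2.mul_mul_conjTranspose_same P
      rwa [hP1] at this
    exact h1.add (hPp.add hPp)
  · -- the trace estimate
    rw [hk]
    have hc : (((a * a - b * b) - (v * v - w * w)) *
        ((1 / 2 : ℂ) • ((P * s * P - Q) + (P - Q)))).trace.re =
        (l1T (((a * a - b * b) - (v * v - w * w)) * ((P * s * P - Q) + (P - Q)))) / 2 := by
      rw [Matrix.mul_smul, Matrix.trace_smul]
      simp only [l1T, smul_eq_mul]
      rw [show (1 / 2 : ℂ) = ((1 / 2 : ℝ) : ℂ) by norm_num, Complex.re_ofReal_mul]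
      ring
    rw [hc]
    have split : ((a * a - b * b) - (v * v - w * w)) * ((P * s * P - Q) + (P - Q)) =
        ((a * a) * (P * s * P) - (v * v) * (P * s * P) + (w * w) * (P * s * P) - (b * b) * (P * s * P))
        + ((a * a) * P - (b * b) * P - (v * v) * P + (w * w) * P)
        - ((a * a) * Q - (b * b) * Q - (v * v) * Q + (w * w) * Q)
        - ((a * a) * Q - (b * b) * Q - (v * v) * Q + (w * w) * Q) := by
      noncomm_ring
    -- elementary pieces
    have t1 : (a * a) * P = a * a := by rw [Matrix.mul_assoc, haP]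
    have t2 : (b * b) * P = 0 := by rw [Matrix.mul_assoc, hbP, Matrix.mul_zero]
    have t3 : (a * a) * Q = 0 := by rw [Matrix.mul_assoc, haQ, Matrix.mul_zero]
    have t4 : (b * b) * Q = b * b := by rw [Matrix.mul_assoc, hbQ]
    have t5 : (b * b) * (P * s * P) = 0 := by
      calc (b * b) * (P * s * P) = b * (b * P) * s * P := by simp only [Matrix.mul_assoc]
        _ = 0 := by rw [hbP]; simp
    have t6 : l1T ((a * a) * (P * s * P)) = l1T ((a * a) * s) := by
      calc l1T ((a * a) * (P * s * P)) = l1T ((a * (a * P) * s) * P) := by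
            simp only [Matrix.mul_assoc]
        _ = l1T (P * (a * (a * P) * s)) := l1T_comm _ _
        _ = l1T ((P * a) * (a * P) * s) := by simp only [Matrix.mul_assoc]
        _ = l1T ((a * a) * s) := by rw [hPa, haP]
    -- the matrix `M = P v Q v P`
    have t7 : l1T ((v * v) * (P * s * P)) = l1T ((Y * Y) * s) + l1T ((P * v * Q * v * P) * s) := by
      have e : P * v * v * P = Y * Y + P * v * Q * v * P := by
        have : P * v * v * P = P * v * (P + Q) * v * P := by rw [← hone, Matrix.mul_one]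
        rw [this, hY]
        calc P * v * (P + Q) * v * P = P * v * P * v * P + P * v * Q * v * P := by noncomm_ring
          _ = P * v * (P * P) * v * P + P * v * Q * v * P := by rw [hP2]
          _ = _ := by noncomm_ring
      calc l1T ((v * v) * (P * s * P)) = l1T ((v * v * P * s) * P) := by
            simp only [Matrix.mul_assoc]
        _ = l1T (P * (v * v * P * s)) := l1T_comm _ _
        _ = l1T ((P * v * v * P) * s) := by simp only [Matrix.mul_assoc]
        _ = _ := by rw [e, Matrix.add_mul, l1T_add]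
    have t8 : l1T ((w * w) * (P * s * P)) = l1T ((P * w * w * P) * s) := by
      calc l1T ((w * w) * (P * s * P)) = l1T ((w * w * P * s) * P) := by
            simp only [Matrix.mul_assoc]
        _ = l1T (P * (w * w * P * s)) := l1T_comm _ _
        _ = _ := by simp only [Matrix.mul_assoc]
    have hMp : (P * v * Q * v * P).PosSemidef := by
      have h1 : (v * Q * v).PosSemidef := by
        have := hQp.mul_mul_conjTranspose_same v
        rwa [hvH] at this
      have h2 := h1.mul_mul_conjTranspose_same P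
      rw [hP1] at h2
      have e : P * v * Q * v * P = P * (v * Q * v) * P := by simp only [Matrix.mul_assoc]
      rwa [e]
    have hwwp : (w * w).PosSemidef := by
      have := Matrix.posSemidef_conjTranspose_mul_self w
      rwa [hwH] at this
    have hKp : (P * w * w * P).PosSemidef := by
      have h2 := hwwp.mul_mul_conjTranspose_same P
      rw [hP1] at h2
      have e : P * w * w * P = P * (w * w) * P := by simp only [Matrix.mul_assoc]
      rwa [e]
    have t9 : l1T ((P * v * Q * v * P) * s) ≤ l1T (P * v * Q * v * P) := by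
      have := l1T_mul_nonneg _ _ hMp hs1
      rw [Matrix.mul_sub, Matrix.mul_one, l1T_sub] at this
      linarith
    have t10 : - l1T (P * w * w * P) ≤ l1T ((P * w * w * P) * s) := by
      have := l1T_mul_nonneg _ _ hKp hs2
      rw [Matrix.mul_add, Matrix.mul_one, l1T_add] at this
      linarith
    have t11 : l1T (P * w * w * P) = l1T ((w * w) * P) := by
      calc l1T (P * w * w * P) = l1T (P * (P * w * w)) := l1T_comm _ _
        _ = l1T ((P * P) * (w * w)) := by simp only [Matrix.mul_assoc]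
        _ = l1T ((w * w) * P) := by rw [hP2, l1T_comm]
    -- sums of traces
    have t12 : l1T (v * v) = l1T ((v * v) * P) + l1T ((v * v) * Q) := by
      rw [← l1T_add, ← Matrix.mul_add, ← hone, Matrix.mul_one]
    have t13 : l1T (w * w) = l1T ((w * w) * P) + l1T ((w * w) * Q) := by
      rw [← l1T_add, ← Matrix.mul_add, ← hone, Matrix.mul_one]
    have t14 : 0 ≤ l1T ((w * w) * P) := l1T_mul_nonneg _ _ hwwp hPp
    -- Hilbert-Schmidt norms
    set A1 := l1T (P * v * Q * v * P) with hA1
    have t15 : l1T ((v * v) * Q) = l1T (Q * v * P * v * Q) + l1T (Q * v * Q * v * Q) := by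
      calc l1T ((v * v) * Q) = l1T ((v * v) * (Q * Q)) := by rw [hQQ]
        _ = l1T ((v * v * Q) * Q) := by simp only [Matrix.mul_assoc]
        _ = l1T (Q * (v * v * Q)) := l1T_comm _ _
        _ = l1T (Q * v * (P + Q) * v * Q) := by
            rw [← hone, Matrix.mul_one]; simp only [Matrix.mul_assoc]
        _ = _ := by
            rw [← l1T_add]; congr 1; noncomm_ring
    have t16 : l1T (Q * v * P * v * Q) = A1 := by
      calc l1T (Q * v * P * v * Q) = l1T (Q * v * (P * P) * v * Q) := by rw [hP2]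
        _ = l1T ((Q * v * P) * (P * v * Q)) := by simp only [Matrix.mul_assoc]
        _ = l1T ((P * v * Q) * (Q * v * P)) := l1T_comm _ _
        _ = l1T (P * v * (Q * Q) * v * P) := by simp only [Matrix.mul_assoc]
        _ = A1 := by rw [hQQ]
    set A2 := l1T (Q * v * Q * v * Q) with hA2
    have t17 : 0 ≤ A2 := by
      have h1 : (v * Q * v).PosSemidef := by
        have := hQp.mul_mul_conjTranspose_same v
        rwa [hvH] at this
      have h2 := h1.mul_mul_conjTranspose_same Q
      rw [hQH] at h2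
      have e : Q * v * Q * v * Q = Q * (v * Q * v) * Q := by simp only [Matrix.mul_assoc]
      rw [hA2, e]
      exact l1T_nonneg _ h2
    have t18 : hs (a - v) = hs (a - Y) + 2 * A1 + A2 := by
      rw [l1_hs_eq, l1_hs_eq, Matrix.conjTranspose_sub, Matrix.conjTranspose_sub, hvH,
        ha.isHermitian.eq, hYp.isHermitian.eq]
      have e1 : (a - v) * (a - v) = a * a - a * v - v * a + v * v := by noncomm_ring
      have e2 : (a - Y) * (a - Y) = a * a - a * Y - Y * a + Y * Y := by noncomm_ring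
      have e3 : l1T (a * Y) = l1T (a * v) := by
        calc l1T (a * Y) = l1T ((a * P) * v * P) := by rw [hY]; simp only [Matrix.mul_assoc]
          _ = l1T (P * ((a * P) * v)) := l1T_comm _ _
          _ = l1T ((P * a) * v) := by rw [haP]; simp only [Matrix.mul_assoc]
          _ = l1T (a * v) := by rw [hPa]
      have e4 : l1T (Y * a) = l1T (v * a) := by
        rw [l1T_comm Y a, l1T_comm v a, e3]
      have e5 : l1T (v * v) = l1T (Y * Y) + 2 * A1 + A2 := by
        have f1 : l1T ((v * v) * P) = l1T (Y * Y) + A1 := by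
          calc l1T ((v * v) * P) = l1T ((v * v) * (P * P)) := by rw [hP2]
            _ = l1T ((v * v * P) * P) := by simp only [Matrix.mul_assoc]
            _ = l1T (P * (v * v * P)) := l1T_comm _ _
            _ = l1T (P * v * (P + Q) * v * P) := by
                rw [← hone, Matrix.mul_one]; simp only [Matrix.mul_assoc]
            _ = l1T (P * v * (P * P) * v * P + P * v * Q * v * P) := by
                rw [hP2]; congr 1; noncomm_ring
            _ = _ := by
                rw [l1T_add, hY]; congr 2; simp only [Matrix.mul_assoc]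
        rw [t12, f1, t15, t16]
        ring
      rw [e1, e2]
      simp only [l1T_add, l1T_sub]
      rw [e3, e4, e5]
      ring
    have hs3' : hs (a - Y) ≤ l1T (a * a * s) - l1T (Y * Y * s) := by
      rw [Matrix.sub_mul] at hs3
      have := l1T_sub (a * a * s) (Y * Y * s)
      unfold l1T at this ⊢
      rw [← this]
      exact hs3
    rw [split]
    simp only [l1T_add, l1T_sub, t1, t2, t3, t4, t5, t6, t7, t8]
    have z : l1T (0 : Matrix ι ι ℂ) = 0 := by simp [l1T]
    rw [z, t18]
    rw [t15, t16] at t12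
    rw [t15, t16]
    linarith

end Crest.Agent.QT
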