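import Crest.Agent.QT_BB

/-!
Task QT-ZZ (easy).  The element `zz = (z_k)_k` of `BB`, `z_k(P) = (1 + C_k ptr P)⁻¹`, and truncations.
* `zfun_mem`: `‖z_k(P)‖ ≤ 1` (`norm_le_of_psd`, `zmat_posSemidef`, `one_sub_zmat_posSemidef`).
* `mem_closure_of_tendsto_zero`: an element `b` of `BB` with `‖b k‖ → 0` lies in the closure of `idealGen zz`: the
  truncation `b 1_{k<K}` equals `c * zz * 1` with `c k = b k * z_k⁻¹` for `k < K` (`z_k` is invertible with continuous inverse
  `1 + C_k ptr P`, `zmat_mul`), `c k = 0` otherwise.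
-/

set_option autoImplicit false

namespace Crest.Agent.QT

open scoped Matrix ComplexOrder Matrix.Norms.L2Operator ENNReal

noncomputable section

theorem Cc_pos (k : ℕ) : 0 < Cc k := by
  unfold Cc; positivity

/-- components of `zz` -/
def zfun (k : ℕ) : Fk k :=
  ⟨fun P => zmat (Cc k) P.1, continuous_zmat (Cc_pos k).le⟩

theorem norm_zmat_le {N M : ℕ} {C : ℝ} (hC : 0 ≤ C) (P : PX (Fin N × Fin M)) :
    ‖zmat C P.1‖ ≤ 1 := by
  apply norm_le_of_psd _ 1 zero_le_one
  · simpa using one_sub_zmat_posSemidef hC P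
  · simpa using Matrix.PosSemidef.one.add (zmat_posSemidef hC P)

theorem norm_zfun_le (k : ℕ) : ‖zfun k‖ ≤ 1 := by
  rw [ContinuousMap.norm_le _ zero_le_one]
  intro P
  exact norm_zmat_le (Cc_pos k).le P

theorem zfun_mem : Memℓp zfun ∞ := by
  apply memℓp_infty
  refine ⟨1, ?_⟩
  rintro _ ⟨k, rfl⟩
  exact norm_zfun_le k

/-- the element `zz` -/
def zz : BB := ⟨zfun, zfun_mem⟩

theorem zz_selfAdjoint : IsSelfAdjoint zz := by
  rw [isSelfAdjoint_iff]
  apply Subtype.ext
  funext k
  apply ContinuousMap.ext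
  intro P
  exact (zmat_posSemidef (Cc_pos k).le P).isHermitian

theorem norm_zz_le : ‖zz‖ ≤ 1 :=
  lp.norm_le_of_forall_le zero_le_one norm_zfun_le

theorem continuous_ptr_zz {N M : ℕ} :
    Continuous (fun P : PX (Fin N × Fin M) => ptr P.1) := by
  refine continuous_matrix fun i j => ?_
  unfold ptr
  refine continuous_finsetSum _ fun l _ => ?_
  exact (continuous_apply_apply (i, l) (j, l)).comp continuous_subtype_val

/-- the inverse `1 + C_k ptr P` of `z_k` -/
def wfun (k : ℕ) : Fk k :=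
  ⟨fun P => 1 + (Cc k : ℂ) • ptr P.1, by
    have h := (continuous_ptr_zz (N := Nn k) (M := Mm k)).const_smul (Cc k : ℂ)
    exact continuous_const.add h⟩

theorem wfun_mul_zfun (k : ℕ) : wfun k * zfun k = 1 := by
  apply ContinuousMap.ext
  intro P
  exact (zmat_mul (Cc_pos k).le P).2

theorem mem_closure_of_tendsto_zero (b : BB)
    (hb : Filter.Tendsto (fun k => ‖(b : ∀ k, Fk k) k‖) Filter.atTop (nhds 0)) :
    b ∈ closure (idealGen zz) := by
  rw [Metric.mem_closure_iff]
  intro ε hε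
  rw [Metric.tendsto_atTop] at hb
  obtain ⟨K, hK⟩ := hb (ε / 2) (by positivity)
  have hcm : Memℓp (fun k => if k < K then (b : ∀ k, Fk k) k * wfun k else (0 : Fk k)) ∞ := by
    apply memℓp_infty
    refine ⟨∑ k ∈ Finset.range K, ‖(b : ∀ k, Fk k) k * wfun k‖, ?_⟩
    rintro _ ⟨k, rfl⟩
    by_cases hk : k < K
    · simp only [hk, if_true]
      exact Finset.single_le_sum (f := fun k => ‖(b : ∀ k, Fk k) k * wfun k‖)
        (fun _ _ => norm_nonneg _) (Finset.mem_range.2 hk)
    · simp only [hk, if_false, norm_zero]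
      exact Finset.sum_nonneg fun _ _ => norm_nonneg _
  let c : BB := ⟨_, hcm⟩
  refine ⟨c * zz, ⟨1, fun _ => c, fun _ => 1, by simp⟩, ?_⟩
  rw [dist_eq_norm]
  refine lt_of_le_of_lt (lp.norm_le_of_forall_le (C := ε / 2) (by positivity) ?_) (by linarith)
  intro k
  have e : ((b - c * zz : BB) : ∀ k, Fk k) k =
      (b : ∀ k, Fk k) k - (if k < K then (b : ∀ k, Fk k) k * wfun k else 0) * zfun k := rfl
  rw [e]
  by_cases hk : k < K
  · simp only [hk, if_true]
    rw [mul_assoc, wfun_mul_zfun, mul_one, sub_self, norm_zero]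
    positivity
  · simp only [hk, if_false, zero_mul, sub_zero]
    have := hK k (not_lt.1 hk)
    rw [dist_zero_right, norm_norm] at this
    exact this.le

end

end Crest.Agent.QT
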