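import Crest.Agent.QT_Obs
import Crest.Agent.QT_ZZ

/-!
Task QT-NSB (medium).  `BB` modulo `idealGen zz` has no `(m+1) ≲ m`.
Take `ε = 1/(8 (m+1)²)`.  Suppose all norms are `< ε`.  `K` = bound for all `‖c‖, ‖d‖`.  Choose `k` large
(`R' = (m+1)² R ≤ M_k` and `√(R' (m+1) K² M_k / C_k) K R' ≤ 1/8`; `M_k/C_k = 1/(2k+1) → 0`).  Apply `obstruct` for this `k`
with `x k i P = (x k i) evaluated at k, P`, and `d` indexed by `(i,i',l)`: `d_{(i,i',l)} j = d i i' l` if `j = i'`, else `0`.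
At the resulting `P, ξ`: with `E_{ii'} = δ_{ii'} - ∑ x* x - ∑ c z d` evaluated at `(k,P)` (norm `< ε`):
`1 = ∑_i |ξ_i|² = ∑_{ii'} ⟨ξ_i, E_{ii'} ξ_{i'}⟩ + ∑_k |∑_i x_{ki} ξ_i|² + ∑_{ii'l} ⟨c* ξ_i, z d ξ_{i'}⟩`; the first sum is
`≤ (m+1)² ε ≤ 1/8`, the second is 0, the third: `|⟨c* ξ_i, z d ξ_{i'}⟩| ≤ ‖c‖ |z^{1/2} d ξ_{i'}|` (Cauchy-Schwarz for the form
`⟨·, z ·⟩`, `z ≤ 1`) `≤ K √(R'(m+1)K² M/C)`.  Contradiction.
-/

set_option autoImplicit false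

namespace Crest.Agent.QT

open scoped Matrix ComplexOrder Matrix.Norms.L2Operator ENNReal

/-- `|Z v|² ≤ ⟨v, Z v⟩` for `0 ≤ Z ≤ 1` -/
theorem nsb_sq_le {N : ℕ} (Z : Matrix (Fin N) (Fin N) ℂ) (hZ : Z.PosSemidef)
    (hZ1 : (1 - Z).PosSemidef) (v : Fin N → ℂ) :
    ∑ i, ‖(Z *ᵥ v) i‖ ^ 2 ≤ (star v ⬝ᵥ (Z *ᵥ v)).re := by
  have hH : Zᴴ = Z := hZ.1
  have h1 : 0 ≤ star (Z *ᵥ v) ⬝ᵥ ((1 - Z) *ᵥ (Z *ᵥ v)) := hZ1.dotProduct_mulVec_nonneg _
  have h2 : 0 ≤ star ((1 - Z) *ᵥ v) ⬝ᵥ (Z *ᵥ ((1 - Z) *ᵥ v)) := hZ.dotProduct_mulVec_nonneg _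
  have e1 : star (Z *ᵥ v) ⬝ᵥ ((1 - Z) *ᵥ (Z *ᵥ v)) =
      star v ⬝ᵥ ((Z * (1 - Z) * Z) *ᵥ v) := by
    rw [Matrix.star_mulVec, hH, ← Matrix.dotProduct_mulVec, Matrix.mulVec_mulVec,
      Matrix.mulVec_mulVec]
  have e2 : star ((1 - Z) *ᵥ v) ⬝ᵥ (Z *ᵥ ((1 - Z) *ᵥ v)) =
      star v ⬝ᵥ (((1 - Z) * Z * (1 - Z)) *ᵥ v) := by
    have hH1 : (1 - Z)ᴴ = 1 - Z := hZ1.1
    rw [Matrix.star_mulVec, hH1, ← Matrix.dotProduct_mulVec, Matrix.mulVec_mulVec,
      Matrix.mulVec_mulVec]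
  have e3 : star (Z *ᵥ v) ⬝ᵥ (Z *ᵥ v) = star v ⬝ᵥ ((Z * Z) *ᵥ v) := by
    rw [Matrix.star_mulVec, hH, ← Matrix.dotProduct_mulVec, Matrix.mulVec_mulVec]
  have e4 : star v ⬝ᵥ (Z *ᵥ v) = star v ⬝ᵥ ((Z * Z) *ᵥ v) +
      (star v ⬝ᵥ ((Z * (1 - Z) * Z) *ᵥ v) + star v ⬝ᵥ (((1 - Z) * Z * (1 - Z)) *ᵥ v)) := by
    rw [← dotProduct_add, ← dotProduct_add, ← Matrix.add_mulVec, ← Matrix.add_mulVec]
    congr 2
    noncomm_ring
  have e5 : (star (Z *ᵥ v) ⬝ᵥ (Z *ᵥ v)).re = ∑ i, ‖(Z *ᵥ v) i‖ ^ 2 := by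
    simp only [dotProduct, Complex.re_sum, Pi.star_apply]
    refine Finset.sum_congr rfl fun i _ => ?_
    rw [Complex.star_def, ← Complex.normSq_eq_conj_mul_self, Complex.ofReal_re,
      Complex.normSq_eq_norm_sq]
  rw [← e5, e3, e4, Complex.add_re, Complex.add_re, ← e1, ← e2]
  have h1' := (Complex.le_def.1 h1).1
  have h2' := (Complex.le_def.1 h2).1
  simp only [Complex.zero_re] at h1' h2'
  linarith

/-- The matrix computation. -/
theorem nsb_core {N m R : ℕ} (X : Fin m → Fin (m + 1) → Matrix (Fin N) (Fin N) ℂ)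
    (c d : Fin (m + 1) → Fin (m + 1) → Fin R → Matrix (Fin N) (Fin N) ℂ)
    (Z : Matrix (Fin N) (Fin N) ℂ) (hZ : Z.PosSemidef) (hZ1 : (1 - Z).PosSemidef)
    (ξ : Fin (m + 1) → Fin N → ℂ) (hξ : ∑ i, ∑ a, ‖ξ i a‖ ^ 2 = 1)
    (hX : ∀ k, ∑ i, (X k i) *ᵥ ξ i = 0) (ε K τ : ℝ) (hK0 : 0 ≤ K)
    (hE : ∀ i i', ‖(if i = i' then (1 : Matrix (Fin N) (Fin N) ℂ) else 0) -
      ∑ k, (X k i)ᴴ * X k i' - ∑ l, c i i' l * Z * d i i' l‖ ≤ ε)
    (hc : ∀ i i' l, ‖c i i' l‖ ≤ K)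
    (hτ : ∀ i i' l, (star (d i i' l *ᵥ ξ i') ⬝ᵥ (Z *ᵥ (d i i' l *ᵥ ξ i'))).re ≤ τ) :
    1 ≤ (m + 1 : ℝ) ^ 2 * ε + (m + 1 : ℝ) ^ 2 * R * (K * Real.sqrt τ) := by
  set E : Fin (m + 1) → Fin (m + 1) → Matrix (Fin N) (Fin N) ℂ := fun i i' =>
    (if i = i' then (1 : Matrix (Fin N) (Fin N) ℂ) else 0) -
      ∑ k, (X k i)ᴴ * X k i' - ∑ l, c i i' l * Z * d i i' l with hEdef
  have hle1 : ∀ i, Real.sqrt (∑ a, ‖ξ i a‖ ^ 2) ≤ 1 := by
    intro i
    have h0 : ∑ a, ‖ξ i a‖ ^ 2 ≤ 1 := by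
      rw [← hξ]
      exact Finset.single_le_sum (f := fun i => ∑ a, ‖ξ i a‖ ^ 2)
        (fun j _ => Finset.sum_nonneg fun a _ => sq_nonneg _) (Finset.mem_univ i)
    calc Real.sqrt (∑ a, ‖ξ i a‖ ^ 2) ≤ Real.sqrt 1 := Real.sqrt_le_sqrt h0
      _ = 1 := Real.sqrt_one
  -- expansion
  have hexp : ∀ i i', star (ξ i) ⬝ᵥ (E i i' *ᵥ ξ i') =
      (if i = i' then star (ξ i) ⬝ᵥ ξ i' else 0) -
      ∑ k, star (X k i *ᵥ ξ i) ⬝ᵥ (X k i' *ᵥ ξ i') -
      ∑ l, star (ξ i) ⬝ᵥ (c i i' l *ᵥ (Z *ᵥ (d i i' l *ᵥ ξ i'))) := by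
    intro i i'
    rw [hEdef]
    simp only [Matrix.sub_mulVec, dotProduct_sub, Matrix.sum_mulVec, dotProduct_sum]
    congr 1
    · congr 1
      · split_ifs <;> simp
      · refine Finset.sum_congr rfl fun k _ => ?_
        rw [Matrix.star_mulVec, ← Matrix.dotProduct_mulVec, Matrix.mulVec_mulVec]
    · refine Finset.sum_congr rfl fun l _ => ?_
      rw [Matrix.mulVec_mulVec, Matrix.mulVec_mulVec, Matrix.mul_assoc]
  have hsum : (1 : ℂ) = ∑ i, ∑ i', star (ξ i) ⬝ᵥ (E i i' *ᵥ ξ i') +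
      ∑ i, ∑ i', ∑ l, star (ξ i) ⬝ᵥ (c i i' l *ᵥ (Z *ᵥ (d i i' l *ᵥ ξ i'))) := by
    simp only [hexp, Finset.sum_sub_distrib, sub_add_cancel]
    have hz : ∑ i, ∑ i', ∑ k, star (X k i *ᵥ ξ i) ⬝ᵥ (X k i' *ᵥ ξ i') = 0 := by
      have : ∑ i, ∑ i', ∑ k, star (X k i *ᵥ ξ i) ⬝ᵥ (X k i' *ᵥ ξ i') =
          ∑ k, star (∑ i, X k i *ᵥ ξ i) ⬝ᵥ (∑ i', X k i' *ᵥ ξ i') := by
        rw [Finset.sum_congr rfl fun i _ => Finset.sum_comm]
        rw [Finset.sum_comm]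
        refine Finset.sum_congr rfl fun k _ => ?_
        rw [star_sum, sum_dotProduct]
        refine Finset.sum_congr rfl fun i _ => ?_
        rw [dotProduct_sum]
      rw [this]
      simp [hX]
    rw [hz, sub_zero]
    simp only [Finset.sum_ite_eq, Finset.mem_univ, if_true]
    have : ∑ i, star (ξ i) ⬝ᵥ ξ i = ((∑ i, ∑ a, ‖ξ i a‖ ^ 2 : ℝ) : ℂ) := by
      push_cast
      refine Finset.sum_congr rfl fun i _ => ?_
      simp only [dotProduct, Pi.star_apply]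
      refine Finset.sum_congr rfl fun a _ => ?_
      rw [Complex.star_def, ← Complex.normSq_eq_conj_mul_self, Complex.normSq_eq_norm_sq]
      push_cast
      rfl
    rw [this, hξ]
    simp
  have hn1 : ‖∑ i, ∑ i', star (ξ i) ⬝ᵥ (E i i' *ᵥ ξ i')‖ ≤ (m + 1 : ℝ) ^ 2 * ε := by
    calc ‖∑ i, ∑ i', star (ξ i) ⬝ᵥ (E i i' *ᵥ ξ i')‖
        ≤ ∑ i : Fin (m + 1), ∑ i' : Fin (m + 1), ε := by
          refine (norm_sum_le _ _).trans (Finset.sum_le_sum fun i _ => ?_)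
          refine (norm_sum_le _ _).trans (Finset.sum_le_sum fun i' _ => ?_)
          refine (dot_le _ _ _).trans ?_
          have hE' := hE i i'
          have h0 : 0 ≤ ‖E i i'‖ := norm_nonneg _
          calc ‖E i i'‖ * Real.sqrt (∑ a, ‖ξ i a‖ ^ 2) * Real.sqrt (∑ a, ‖ξ i' a‖ ^ 2)
              ≤ ‖E i i'‖ * 1 * 1 := by
                gcongr
                · exact hle1 i
                · exact hle1 i'
            _ ≤ ε := by simpa using hE'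
      _ = (m + 1 : ℝ) ^ 2 * ε := by
          simp only [Finset.sum_const, Finset.card_univ, Fintype.card_fin, nsmul_eq_mul]
          push_cast
          ring
  have hn2 : ‖∑ i, ∑ i', ∑ l, star (ξ i) ⬝ᵥ (c i i' l *ᵥ (Z *ᵥ (d i i' l *ᵥ ξ i')))‖ ≤
      (m + 1 : ℝ) ^ 2 * R * (K * Real.sqrt τ) := by
    calc ‖∑ i, ∑ i', ∑ l, star (ξ i) ⬝ᵥ (c i i' l *ᵥ (Z *ᵥ (d i i' l *ᵥ ξ i')))‖
        ≤ ∑ i : Fin (m + 1), ∑ i' : Fin (m + 1), ∑ l : Fin R, K * Real.sqrt τ := by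
          refine (norm_sum_le _ _).trans (Finset.sum_le_sum fun i _ => ?_)
          refine (norm_sum_le _ _).trans (Finset.sum_le_sum fun i' _ => ?_)
          refine (norm_sum_le _ _).trans (Finset.sum_le_sum fun l _ => ?_)
          refine (dot_le _ _ _).trans ?_
          have h3 := (nsb_sq_le Z hZ hZ1 (d i i' l *ᵥ ξ i')).trans (hτ i i' l)
          calc ‖c i i' l‖ * Real.sqrt (∑ a, ‖ξ i a‖ ^ 2) *
                Real.sqrt (∑ a, ‖(Z *ᵥ (d i i' l *ᵥ ξ i')) a‖ ^ 2)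
              ≤ K * 1 * Real.sqrt τ := by
                gcongr
                · exact hc i i' l
                · exact hle1 i
            _ = K * Real.sqrt τ := by ring
      _ = (m + 1 : ℝ) ^ 2 * R * (K * Real.sqrt τ) := by
          simp only [Finset.sum_const, Finset.card_univ, Fintype.card_fin, nsmul_eq_mul]
          push_cast
          ring
  have h1 : ‖(1 : ℂ)‖ = 1 := by simp
  calc (1 : ℝ) = ‖(1 : ℂ)‖ := h1.symm
    _ ≤ _ := by
      rw [hsum]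
      exact (norm_add_le _ _).trans (add_le_add hn1 hn2)

theorem noShrink_mod (m : ℕ) : ∃ ε : ℝ, 0 < ε ∧ ∀ (x : Fin m → Fin (m + 1) → BB) (R : ℕ)
      (c d : Fin (m + 1) → Fin (m + 1) → Fin R → BB), ∃ i i' : Fin (m + 1),
      ε ≤ ‖(if i = i' then (1 : BB) else 0) - ∑ k, star (x k i) * x k i' -
        ∑ l, c i i' l * zz * d i i' l‖ := by
  refine ⟨1 / (8 * ((m : ℝ) + 1) ^ 2), by positivity, fun x R c d => ?_⟩
  by_contra hcon
  push Not at hcon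
  -- bound for the norms
  set K : ℝ := ∑ i, ∑ i', ∑ l, (‖c i i' l‖ + ‖d i i' l‖) with hKdef
  have hnn : ∀ i i' l, 0 ≤ ‖c i i' l‖ + ‖d i i' l‖ := fun i i' l => by positivity
  have hle : ∀ i i' l, ‖c i i' l‖ + ‖d i i' l‖ ≤ K := by
    intro i i' l
    calc ‖c i i' l‖ + ‖d i i' l‖ ≤ ∑ l, (‖c i i' l‖ + ‖d i i' l‖) :=
          Finset.single_le_sum (f := fun l => ‖c i i' l‖ + ‖d i i' l‖)
            (fun l _ => hnn i i' l) (Finset.mem_univ l)
      _ ≤ ∑ i', ∑ l, (‖c i i' l‖ + ‖d i i' l‖) :=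
          Finset.single_le_sum (f := fun i' => ∑ l, (‖c i i' l‖ + ‖d i i' l‖))
            (fun i' _ => Finset.sum_nonneg fun l _ => hnn i i' l) (Finset.mem_univ i')
      _ ≤ K :=
          Finset.single_le_sum (f := fun i => ∑ i', ∑ l, (‖c i i' l‖ + ‖d i i' l‖))
            (fun i _ => Finset.sum_nonneg fun i' _ => Finset.sum_nonneg fun l _ => hnn i i' l)
            (Finset.mem_univ i)
  have hK0 : 0 ≤ K := Finset.sum_nonneg fun i _ => Finset.sum_nonneg fun i' _ =>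
    Finset.sum_nonneg fun l _ => hnn i i' l
  have hcK : ∀ i i' l, ‖c i i' l‖ ≤ K := fun i i' l =>
    (le_add_of_nonneg_right (norm_nonneg _)).trans (hle i i' l)
  have hdK : ∀ i i' l, ‖d i i' l‖ ≤ K := fun i i' l =>
    (le_add_of_nonneg_left (norm_nonneg _)).trans (hle i i' l)
  -- index type
  let I : Type := Fin (m + 1) × Fin (m + 1) × Fin R
  let R' : ℕ := Fintype.card I
  have hR' : (R' : ℝ) = ((m : ℝ) + 1) ^ 2 * R := by
    have : R' = (m + 1) * ((m + 1) * R) := by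
      simp [R', I, Fintype.card_prod]
    rw [this]
    push_cast
    ring
  let e : I ≃ Fin R' := Fintype.equivFin I
  -- choice of k
  obtain ⟨k, hk⟩ := exists_nat_gt ((R' : ℝ) + 16 * R' ^ 3 * (m + 1) * K ^ 4)
  have hRk : R' ≤ Mm k := by
    have h1 : (R' : ℝ) < k := lt_of_le_of_lt (le_add_of_nonneg_right (by positivity)) hk
    have h2 : R' < k := by exact_mod_cast h1
    unfold Mm
    omega
  let ev : BB → PX (Fin (Nn k) × Fin (Mm k)) → Matrix (Fin (Nn k)) (Fin (Nn k)) ℂ :=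
    fun b P => (b : ∀ k, Fk k) k P
  have hevn : ∀ b P, ‖ev b P‖ ≤ ‖b‖ := fun b P =>
    ((b : ∀ k, Fk k) k).norm_coe_le_norm P |>.trans (lp.norm_apply_le_norm ENNReal.top_ne_zero b k)
  have hevc : ∀ b, Continuous (ev b) := fun b => ((b : ∀ k, Fk k) k).continuous
  obtain ⟨P, ξ, hξ, hxξ, hτ⟩ := obstruct (N := Nn k) (M := Mm k) (m := m) (R := R') hRk
    (Cc k) (Cc_pos k) K (fun k i P => ev (x k i) P) (fun k i => hevc _)
    (fun r j P => if j = (e.symm r).2.1 then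
      ev (d (e.symm r).1 (e.symm r).2.1 (e.symm r).2.2) P else 0)
    (fun r j => by
      by_cases h : j = (e.symm r).2.1
      · simp only [h, if_true]; exact hevc _
      · simp only [h, if_false]; exact continuous_const)
    (fun r j P => by
      by_cases h : j = (e.symm r).2.1
      · simp only [h, if_true]; exact (hevn _ _).trans (hdK _ _ _)
      · simp only [h, if_false, norm_zero]; exact hK0)
  set τ : ℝ := R' * (m + 1) * K ^ 2 * (Mm k) / (Cc k) with hτdef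
  have hZ := zmat_posSemidef (Cc_pos k).le P
  have hZ1 := one_sub_zmat_posSemidef (Cc_pos k).le P
  have key := nsb_core (fun k i => ev (x k i) P) (fun i i' l => ev (c i i' l) P)
    (fun i i' l => ev (d i i' l) P) (zmat (Cc k) P.1) hZ hZ1 ξ hξ hxξ
    (1 / (8 * ((m : ℝ) + 1) ^ 2)) K τ hK0 ?_ (fun i i' l => (hevn _ _).trans (hcK _ _ _)) ?_
  · have hCM : (Mm k : ℝ) / Cc k = 1 / (2 * k + 1) := by
      unfold Mm Cc
      push_cast
      field_simp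
    have hτ' : τ = R' * (m + 1) * K ^ 2 / (2 * k + 1) := by
      rw [hτdef, mul_div_assoc, hCM]
      ring
    have h1 : ((m : ℝ) + 1) ^ 2 * (1 / (8 * ((m : ℝ) + 1) ^ 2)) = 1 / 8 := by
      field_simp
    have h2 : ((m : ℝ) + 1) ^ 2 * R * (K * Real.sqrt τ) ≤ 1 / 4 := by
      rw [← hR', ← mul_assoc]
      apply le_of_sq_le_sq _ (by norm_num) 
      rw [mul_pow, Real.sq_sqrt (by rw [hτ']; positivity), hτ']
      have hkp : (0 : ℝ) < 2 * k + 1 := by positivity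
      rw [← mul_div_assoc, div_le_iff₀ hkp]
      have : (16 : ℝ) * R' ^ 3 * (m + 1) * K ^ 4 ≤ k :=
        (le_add_of_nonneg_left (by positivity)).trans hk.le
      nlinarith [this, Nat.cast_nonneg (α := ℝ) k]
    rw [h1] at key
    linarith
  · intro i i'
    have h := (hcon i i').le
    refine le_trans ?_ h
    refine le_trans (le_of_eq ?_) (hevn _ P)
    congr 1
    have hs : ∀ {ι : Type} (s : Finset ι) (f : ι → BB), ev (∑ j ∈ s, f j) P = ∑ j ∈ s, ev (f j) P := by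
      intro ι s f
      simp only [ev]
      rw [lp.coeFn_sum, Finset.sum_apply, ContinuousMap.sum_apply]
    have hm : ∀ a b : BB, ev (a * b) P = ev a P * ev b P := fun a b => by
      simp only [ev]
      rw [lp.infty_coeFn_mul]
      rfl
    have hst : ∀ a : BB, ev (star a) P = (ev a P)ᴴ := fun a => by
      simp only [ev]
      rw [lp.coeFn_star]
      rfl
    have hsub : ∀ a b : BB, ev (a - b) P = ev a P - ev b P := fun a b => by
      simp only [ev]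
      rw [lp.coeFn_sub]
      rfl
    have hone : ev (1 : BB) P = 1 := by
      simp only [ev]
      rw [lp.infty_coeFn_one]
      rfl
    have hzero : ev (0 : BB) P = 0 := by
      simp only [ev]
      rw [lp.coeFn_zero]
      rfl
    have hzz : ev zz P = zmat (Cc k) P.1 := rfl
    rw [hsub, hsub, hs, hs]
    simp only [hm, hst, hzz]
    congr 2
    split_ifs
    · exact hone.symm
    · exact hzero.symm
  · intro i i' l
    have hs := Finset.single_le_sum (f := fun r => (star (∑ j, (if j = (e.symm r).2.1 then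
      ev (d (e.symm r).1 (e.symm r).2.1 (e.symm r).2.2) P else 0) *ᵥ ξ j) ⬝ᵥ
      (zmat (Cc k) P.1 *ᵥ (∑ j, (if j = (e.symm r).2.1 then
      ev (d (e.symm r).1 (e.symm r).2.1 (e.symm r).2.2) P else 0) *ᵥ ξ j))).re)
      (s := Finset.univ) (fun r _ => (Complex.le_def.1 (hZ.dotProduct_mulVec_nonneg _)).1)
      (Finset.mem_univ (e (i, i', l)))
    refine le_trans (le_of_eq ?_) (hs.trans hτ)
    have : ∑ j, (if j = (e.symm (e (i, i', l))).2.1 then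
      ev (d (e.symm (e (i, i', l))).1 (e.symm (e (i, i', l))).2.1 (e.symm (e (i, i', l))).2.2) P
        else 0) *ᵥ ξ j = ev (d i i' l) P *ᵥ ξ i' := by
      simp only [Equiv.symm_apply_apply]
      rw [Finset.sum_eq_single i']
      · simp
      · intro j _ hj
        simp [hj]
      · simp
    simp only [this]

end Crest.Agent.QT
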