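import Crest.Agent.QT_TopMain
import Crest.Agent.QT_PX2
import Crest.Agent.QT_Norm

/-!
Task QT-Obs (medium).  Finite dimensional obstruction.
Apply `topo` with `κ = Fin N × Fin M`, `b = m N`: `ℂ^{b+1} ↪ (Fin (m+1) → Fin N → ℂ)` (as `(m+1)N ≥ mN+1`, choose an injection
`Fin (b+1) ↪ Fin (m+1) × Fin N`, the other coordinates 0), `Fin b ≃ Fin m × Fin N`;
`w ξ = (∑ i, x k i P *ᵥ ξ i)_k`, `A ξ (a, l) = (∑ i, d l i P *ᵥ ξ i) a` for `l < R`, `0` for `R ≤ l < M`.
Result: `x : Fin N × Fin M → ℂ` unit, `ξ ≠ 0` (normalise `∑∑|ξ|² = 1`), `A ξ = s x`.  `|s|² = |Aξ|² ≤ ∑_r (∑_i K |ξ_i|)² ≤ R (m+1) K²`.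
`∑_r ⟨v_r, z v_r⟩ = |s|² ∑_l ⟨x_l, z x_l⟩ = |s|² tr(z G)`, `G = ptr P = ∑_l x_l x_l*`, `≤ |s|² M/C` (`trace_zmat_mul_ptr`).
(`R ≤ M`; columns `x_l` of `x`.)
-/

set_option autoImplicit false

namespace Crest.Agent.QT

open scoped Matrix ComplexOrder Matrix.Norms.L2Operator

/-- extension by zero along an injection, and matrix-vector products -/
theorem Obs_ext {N m b : ℕ} (f : Fin b ↪ Fin (m + 1) × Fin N) (ξ : Fin b → ℂ)
    (D : Fin (m + 1) → Matrix (Fin N) (Fin N) ℂ) (a : Fin N) :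
    (∑ i, D i *ᵥ (fun a' => ∑ c, if f c = (i, a') then ξ c else 0)) a =
      ∑ c, D (f c).1 a (f c).2 * ξ c := by
  rw [Finset.sum_apply]
  have h1 : ∀ i, (D i *ᵥ (fun a' => ∑ c, if f c = (i, a') then ξ c else 0)) a =
      ∑ c, ∑ a', if f c = (i, a') then D i a a' * ξ c else 0 := by
    intro i
    rw [Matrix.mulVec, dotProduct, Finset.sum_comm]
    refine Finset.sum_congr rfl fun a' _ => ?_
    rw [Finset.mul_sum]
    refine Finset.sum_congr rfl fun c _ => ?_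
    split_ifs <;> simp
  simp_rw [h1]
  rw [Finset.sum_comm]
  refine Finset.sum_congr rfl fun c _ => ?_
  rw [← Finset.sum_product']
  rw [Finset.sum_eq_single (f c)]
  · simp
  · rintro ⟨i, a'⟩ _ h
    simp only
    rw [if_neg (fun h' => h h'.symm)]
  · intro h
    exact absurd (Finset.mem_product.2 ⟨Finset.mem_univ _, Finset.mem_univ _⟩) h

theorem Obs_cs {n : ℕ} (v : Fin n → ℂ) :
    ‖∑ i, v i‖ ^ 2 ≤ n * ∑ i, ‖v i‖ ^ 2 := by
  have h1 : ‖∑ i, v i‖ ≤ ∑ i, ‖v i‖ := norm_sum_le _ _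
  have h2 : (∑ i, ‖v i‖) ^ 2 ≤ (Finset.univ : Finset (Fin n)).card * ∑ i, ‖v i‖ ^ 2 :=
    sq_sum_le_card_mul_sum_sq
  rw [Finset.card_univ, Fintype.card_fin] at h2
  exact (pow_le_pow_left₀ (norm_nonneg _) h1 2).trans h2

/-- the trace of `z G` in terms of the columns of `x` -/
theorem Obs_trace {N M : ℕ} (z : Matrix (Fin N) (Fin N) ℂ) (x : Fin N × Fin M → ℂ) :
    (z * ptr (Matrix.vecMulVec x (star x))).trace =
      ∑ l, star (fun a => x (a, l)) ⬝ᵥ (z *ᵥ (fun a => x (a, l))) := by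
  simp only [Matrix.trace, Matrix.diag_apply, Matrix.mul_apply, ptr, Matrix.vecMulVec_apply,
    Pi.star_apply, dotProduct, Matrix.mulVec, Finset.mul_sum]
  have h1 : ∀ i : Fin N, ∑ j, ∑ l, z i j * (x (j, l) * star (x (i, l))) =
      ∑ l, ∑ j, star (x (i, l)) * (z i j * x (j, l)) := by
    intro i
    rw [Finset.sum_comm]
    refine Finset.sum_congr rfl fun l _ => Finset.sum_congr rfl fun j _ => ?_
    ring
  simp_rw [h1]
  rw [Finset.sum_comm]

theorem obstruct {N M m R : ℕ} [NeZero N] [NeZero M] (hRM : R ≤ M) (C : ℝ) (hC : 0 < C) (K : ℝ)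
    (x : Fin m → Fin (m + 1) → PX (Fin N × Fin M) → Matrix (Fin N) (Fin N) ℂ)
    (hx : ∀ k i, Continuous (x k i))
    (d : Fin R → Fin (m + 1) → PX (Fin N × Fin M) → Matrix (Fin N) (Fin N) ℂ)
    (hd : ∀ r i, Continuous (d r i)) (hK : ∀ r i P, ‖d r i P‖ ≤ K) :
    ∃ (P : PX (Fin N × Fin M)) (ξ : Fin (m + 1) → Fin N → ℂ),
      (∑ i, ∑ a, ‖ξ i a‖ ^ 2 = 1) ∧ (∀ k, ∑ i, (x k i P) *ᵥ ξ i = 0) ∧
      ∑ r, (star (∑ i, d r i P *ᵥ ξ i) ⬝ᵥ (zmat C P.1 *ᵥ (∑ i, d r i P *ᵥ ξ i))).re ≤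
        R * (m + 1) * K ^ 2 * M / C := by
  classical
  have hN : 1 ≤ N := Nat.one_le_iff_ne_zero.2 (NeZero.ne N)
  -- the injection
  obtain ⟨f⟩ : Nonempty (Fin (m * N + 1) ↪ Fin (m + 1) × Fin N) := by
    refine Function.Embedding.nonempty_of_card_le ?_
    simp only [Fintype.card_fin, Fintype.card_prod]
    nlinarith
  let e : Fin m × Fin N ≃ Fin (m * N) := finProdFinEquiv
  let w : PX (Fin N × Fin M) → Matrix (Fin (m * N)) (Fin (m * N + 1)) ℂ := fun P =>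
    Matrix.of fun r c => x (e.symm r).1 (f c).1 P (e.symm r).2 (f c).2
  let A : PX (Fin N × Fin M) → Matrix (Fin N × Fin M) (Fin (m * N + 1)) ℂ := fun P =>
    Matrix.of fun p c => if h : p.2.1 < R then d ⟨p.2.1, h⟩ (f c).1 P p.1 (f c).2 else 0
  have hw : Continuous w := by
    refine continuous_matrix fun r c => ?_
    exact (hx _ _).matrix_elem _ _
  have hA : Continuous A := by
    refine continuous_matrix fun p c => ?_
    by_cases h : p.2.1 < R
    · simp only [A, Matrix.of_apply, h, dif_pos]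
      exact (hd _ _).matrix_elem _ _
    · simp only [A, Matrix.of_apply, h]
      exact continuous_const
  obtain ⟨X, hX, ξ0, s, hξ0, hwξ, hAξ⟩ := topo (κ := Fin N × Fin M) (m * N) w A hw hA
  set P : PX (Fin N × Fin M) := PX.mk' X hX with hP
  let ξ1 : Fin (m + 1) → Fin N → ℂ := fun i a' => ∑ c, if f c = (i, a') then ξ0 c else 0
  have hξ1 : ∀ c, ξ1 (f c).1 (f c).2 = ξ0 c := by
    intro c
    simp only [ξ1]
    rw [Finset.sum_eq_single c]
    · simp
    · intro c' _ h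
      rw [if_neg]
      intro h'
      exact h (f.injective h')
    · simp
  set T : ℝ := ∑ i, ∑ a, ‖ξ1 i a‖ ^ 2 with hT
  have hTpos : 0 < T := by
    obtain ⟨c, hc⟩ : ∃ c, ξ0 c ≠ 0 := Function.ne_iff.1 hξ0
    have h1 : ‖ξ1 (f c).1 (f c).2‖ ^ 2 ≤ T := by
      calc ‖ξ1 (f c).1 (f c).2‖ ^ 2 ≤ ∑ a, ‖ξ1 (f c).1 a‖ ^ 2 :=
            Finset.single_le_sum (f := fun a => ‖ξ1 (f c).1 a‖ ^ 2) (fun _ _ => by positivity)
              (Finset.mem_univ _)
        _ ≤ T := Finset.single_le_sum (f := fun i => ∑ a, ‖ξ1 i a‖ ^ 2)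
              (fun _ _ => by positivity) (Finset.mem_univ _)
    rw [hξ1] at h1
    have : 0 < ‖ξ0 c‖ ^ 2 := by positivity
    linarith
  set t : ℝ := Real.sqrt T with ht
  have htpos : 0 < t := Real.sqrt_pos.2 hTpos
  have htsq : t ^ 2 = T := Real.sq_sqrt hTpos.le
  let ξ : Fin (m + 1) → Fin N → ℂ := fun i a => ((t⁻¹ : ℝ) : ℂ) * ξ1 i a
  have hξsum : ∑ i, ∑ a, ‖ξ i a‖ ^ 2 = 1 := by
    have : ∀ i a, ‖ξ i a‖ ^ 2 = (t⁻¹) ^ 2 * ‖ξ1 i a‖ ^ 2 := by
      intro i a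
      simp only [ξ]
      rw [norm_mul, Complex.norm_real, Real.norm_of_nonneg (inv_nonneg.2 htpos.le), mul_pow]
    simp_rw [this, ← Finset.mul_sum]
    rw [← hT, ← htsq]
    field_simp
  -- general formula
  have hform : ∀ (D : Fin (m + 1) → Matrix (Fin N) (Fin N) ℂ) (a : Fin N),
      (∑ i, D i *ᵥ ξ i) a = ((t⁻¹ : ℝ) : ℂ) * ∑ c, D (f c).1 a (f c).2 * ξ0 c := by
    intro D a
    rw [← Obs_ext f ξ0 D a]
    have : ∀ i, D i *ᵥ ξ i = ((t⁻¹ : ℝ) : ℂ) • (D i *ᵥ ξ1 i) := by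
      intro i
      rw [← Matrix.mulVec_smul]
      rfl
    simp_rw [this]
    rw [← Finset.smul_sum]
    rfl
  refine ⟨P, ξ, hξsum, ?_, ?_⟩
  · intro k
    funext a
    rw [hform (fun i => x k i P) a]
    have h1 := congrFun hwξ (e (k, a))
    simp only [w, Matrix.mulVec, dotProduct, Matrix.of_apply, Equiv.symm_apply_apply,
      Pi.zero_apply] at h1
    rw [h1, mul_zero]
    rfl
  · -- the vectors `v r`
    set s' : ℂ := ((t⁻¹ : ℝ) : ℂ) * s with hs'
    have hv : ∀ r : Fin R, (∑ i, d r i P *ᵥ ξ i) =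
        s' • (fun a => X (a, Fin.castLE hRM r)) := by
      intro r
      funext a
      rw [hform (fun i => d r i P) a]
      have h1 := congrFun hAξ (a, Fin.castLE hRM r)
      simp only [A, Matrix.mulVec, dotProduct, Matrix.of_apply, Fin.val_castLE, Fin.is_lt, dif_pos,
        Pi.smul_apply, smul_eq_mul, Fin.eta] at h1
      rw [h1, Pi.smul_apply, smul_eq_mul, hs', mul_assoc]
    have hz0 : ∀ p : Fin N × Fin M, ¬ p.2.1 < R → s' * X p = 0 := by
      intro p hp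
      have h1 := congrFun hAξ p
      simp only [A, Matrix.mulVec, dotProduct, Matrix.of_apply, hp, dif_neg, not_false_iff,
        Pi.smul_apply, smul_eq_mul, zero_mul, Finset.sum_const_zero] at h1
      rw [hs', mul_assoc, ← h1, mul_zero]
    have hmd : ∀ r : Fin R, ∑ a, ‖s' * X (a, Fin.castLE hRM r)‖ ^ 2 ≤ (m + 1) * K ^ 2 := by
      intro r
      have h1 : ∀ a, ‖s' * X (a, Fin.castLE hRM r)‖ ^ 2 ≤
          ((m + 1 : ℕ) : ℝ) * ∑ i, ‖(d r i P *ᵥ ξ i) a‖ ^ 2 := by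
        intro a
        have h2 := congrFun (hv r) a
        rw [Pi.smul_apply, smul_eq_mul] at h2
        rw [← h2, Finset.sum_apply]
        exact Obs_cs _
      calc ∑ a, ‖s' * X (a, Fin.castLE hRM r)‖ ^ 2
          ≤ ∑ a, ((m + 1 : ℕ) : ℝ) * ∑ i, ‖(d r i P *ᵥ ξ i) a‖ ^ 2 :=
            Finset.sum_le_sum fun a _ => h1 a
        _ = ((m + 1 : ℕ) : ℝ) * ∑ i, ∑ a, ‖(d r i P *ᵥ ξ i) a‖ ^ 2 := by
            rw [← Finset.mul_sum, Finset.sum_comm]
        _ ≤ ((m + 1 : ℕ) : ℝ) * ∑ i, K ^ 2 * ∑ a, ‖ξ i a‖ ^ 2 := by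
            refine mul_le_mul_of_nonneg_left (Finset.sum_le_sum fun i _ => ?_) (by positivity)
            refine (mulVec_sq_le _ _).trans ?_
            refine mul_le_mul_of_nonneg_right ?_ (by positivity)
            exact pow_le_pow_left₀ (norm_nonneg _) (hK r i P) 2
        _ = (m + 1) * K ^ 2 := by
            rw [← Finset.mul_sum, hξsum]
            push_cast
            ring
    have hs2 : ‖s'‖ ^ 2 ≤ R * (m + 1) * K ^ 2 := by
      have h1 : ‖s'‖ ^ 2 = ∑ p : Fin N × Fin M, ‖s' * X p‖ ^ 2 := by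
        simp_rw [norm_mul, mul_pow]
        rw [← Finset.mul_sum, hX, mul_one]
      have h2 : ∑ p : Fin N × Fin M, ‖s' * X p‖ ^ 2 =
          ∑ l : Fin M, ∑ a : Fin N, ‖s' * X (a, l)‖ ^ 2 := by
        rw [Fintype.sum_prod_type_right]
      have h3 : ∑ l : Fin M, ∑ a : Fin N, ‖s' * X (a, l)‖ ^ 2 =
          ∑ r : Fin R, ∑ a : Fin N, ‖s' * X (a, Fin.castLE hRM r)‖ ^ 2 := by
        have h4 : ∑ r : Fin R, ∑ a : Fin N, ‖s' * X (a, Fin.castLE hRM r)‖ ^ 2 =
            ∑ l ∈ (Finset.univ : Finset (Fin R)).map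
              ⟨Fin.castLE hRM, Fin.castLE_injective hRM⟩, ∑ a : Fin N, ‖s' * X (a, l)‖ ^ 2 := by
          rw [Finset.sum_map]
          rfl
        rw [h4]
        symm
        refine Finset.sum_subset (Finset.subset_univ _) ?_
        intro l _ hl
        refine Finset.sum_eq_zero fun a _ => ?_
        rw [hz0 (a, l) ?_]
        · simp
        · intro hlt
          exact hl (Finset.mem_map.2 ⟨⟨l.1, hlt⟩, Finset.mem_univ _, by ext; rfl⟩)
      rw [h1, h2, h3]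
      calc ∑ r : Fin R, ∑ a : Fin N, ‖s' * X (a, Fin.castLE hRM r)‖ ^ 2
          ≤ ∑ _r : Fin R, ((m : ℝ) + 1) * K ^ 2 := Finset.sum_le_sum fun r _ => hmd r
        _ = R * (m + 1) * K ^ 2 := by
            rw [Finset.sum_const, Finset.card_univ, Fintype.card_fin, nsmul_eq_mul]
            ring
    have hzpsd := zmat_posSemidef hC.le P
    have hquad : ∀ v : Fin N → ℂ, 0 ≤ (star v ⬝ᵥ (zmat C P.1 *ᵥ v)).re := by
      intro v
      exact (Complex.le_def.1 (hzpsd.dotProduct_mulVec_nonneg v)).1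
    have htr : ∑ l : Fin M, (star (fun a => X (a, l)) ⬝ᵥ
        (zmat C P.1 *ᵥ (fun a => X (a, l)))).re ≤ M / C := by
      have h1 := trace_zmat_mul_ptr hC P
      have h2 : P.1 = Matrix.vecMulVec X (star X) := rfl
      have h3 := Obs_trace (zmat C P.1) X
      rw [← h2] at h3
      rw [h3, Complex.re_sum] at h1
      exact h1
    have hsm : ∀ r : Fin R, (star (∑ i, d r i P *ᵥ ξ i) ⬝ᵥ
        (zmat C P.1 *ᵥ (∑ i, d r i P *ᵥ ξ i))).re =
        ‖s'‖ ^ 2 * (star (fun a => X (a, Fin.castLE hRM r)) ⬝ᵥ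
          (zmat C P.1 *ᵥ (fun a => X (a, Fin.castLE hRM r)))).re := by
      intro r
      rw [hv r, Matrix.mulVec_smul, star_smul, smul_dotProduct, dotProduct_smul, smul_smul,
        smul_eq_mul]
      have : star s' * s' = ((‖s'‖ ^ 2 : ℝ) : ℂ) := by
        rw [Complex.star_def, mul_comm, Complex.mul_conj, Complex.normSq_eq_norm_sq]
      rw [this, Complex.re_ofReal_mul]
    simp_rw [hsm]
    rw [← Finset.mul_sum]
    have h5 : ∑ r : Fin R, (star (fun a => X (a, Fin.castLE hRM r)) ⬝ᵥ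
          (zmat C P.1 *ᵥ (fun a => X (a, Fin.castLE hRM r)))).re ≤ M / C := by
      refine le_trans ?_ htr
      have h4 : ∑ r : Fin R, (star (fun a => X (a, Fin.castLE hRM r)) ⬝ᵥ
          (zmat C P.1 *ᵥ (fun a => X (a, Fin.castLE hRM r)))).re =
          ∑ l ∈ (Finset.univ : Finset (Fin R)).map
            ⟨Fin.castLE hRM, Fin.castLE_injective hRM⟩, (star (fun a => X (a, l)) ⬝ᵥ
              (zmat C P.1 *ᵥ (fun a => X (a, l)))).re := by
        rw [Finset.sum_map]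
        rfl
      rw [h4]
      exact Finset.sum_le_sum_of_subset_of_nonneg (Finset.subset_univ _)
        fun l _ _ => hquad _
    have h6 : (0 : ℝ) ≤ M / C := by positivity
    calc ‖s'‖ ^ 2 * _ ≤ (R * (m + 1) * K ^ 2) * (M / C) :=
          mul_le_mul hs2 h5 (Finset.sum_nonneg fun _ _ => hquad _) (by positivity)
      _ = R * (m + 1) * K ^ 2 * M / C := by ring

end Crest.Agent.QT
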