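import Crest.Agent.QT_K1

/-!
Task QT-Phi (medium).  Transfer to continuous functions.  For a normal element `x` (Mathlib:
`cfcHom (R := ℂ) hx : C(spectrum ℂ x, ℂ) →⋆ₐ[ℂ] B`) put `Phi x hx f := cfcHom hx (f : spectrum → ℝ → ℂ)` for real
continuous `f`.  `Phi` is real linear, multiplicative, positive, isometric, and `(Phi f - t)_+ = Phi ((f-t)_+)`
(`pp_Phi`: e.g. by uniqueness/composition of the functional calculus: `cfc` over ℝ of a selfadjoint element equals the
complex `cfc`, `cfcHom_comp`; or: both sides are limits of polynomials (Weierstrass)).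
-/

set_option autoImplicit false

namespace Crest.Agent.QT

variable {B : Type*} [CStarAlgebra B] [PartialOrder B] [StarOrderedRing B] 

/-- real functions of a normal element -/
noncomputable def Phi (x : B) (hx : IsStarNormal x) (f : C(spectrum ℂ x, ℝ)) : B :=
  cfcHom (R := ℂ) hx
    (ContinuousMap.mk (fun z => ((f z : ℝ) : ℂ)) (Complex.continuous_ofReal.comp f.continuous))

theorem Phi_isSelfAdjoint (x : B) (hx : IsStarNormal x) (f : C(spectrum ℂ x, ℝ)) :
    IsSelfAdjoint (Phi x hx f) := by
  unfold IsSelfAdjoint Phi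
  rw [← map_star]
  congr 1
  ext z
  simp

theorem Phi_add (x : B) (hx : IsStarNormal x) (f g : C(spectrum ℂ x, ℝ)) :
    Phi x hx (f + g) = Phi x hx f + Phi x hx g := by
  unfold Phi
  rw [← map_add]
  congr 1
  ext z
  simp

theorem Phi_norm (x : B) (hx : IsStarNormal x) (f : C(spectrum ℂ x, ℝ)) :
    ‖Phi x hx f‖ = ‖f‖ := by
  unfold Phi
  rw [norm_cfcHom (𝕜 := ℂ) x _ hx]
  apply le_antisymm
  · rw [ContinuousMap.norm_le _ (norm_nonneg _)]
    intro z
    simpa using f.norm_coe_le_norm z
  · rw [ContinuousMap.norm_le _ (norm_nonneg _)]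
    intro z
    have := ContinuousMap.norm_coe_le_norm (ContinuousMap.mk (fun z => ((f z : ℝ) : ℂ))
      (Complex.continuous_ofReal.comp f.continuous)) z
    simpa using this

theorem Phi_mul (x : B) (hx : IsStarNormal x) (f g : C(spectrum ℂ x, ℝ)) :
    Phi x hx (f * g) = Phi x hx f * Phi x hx g := by
  unfold Phi
  rw [← map_mul]
  congr 1
  ext z
  simp

theorem Phi_one (x : B) (hx : IsStarNormal x) : Phi x hx 1 = 1 := by
  unfold Phi
  have h : (ContinuousMap.mk (fun z => (((1 : C(spectrum ℂ x, ℝ)) z : ℝ) : ℂ))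
      (Complex.continuous_ofReal.comp (1 : C(spectrum ℂ x, ℝ)).continuous)) = 1 := by
    ext z
    simp
  rw [h, map_one]

theorem Phi_nonneg (x : B) (hx : IsStarNormal x) (f : C(spectrum ℂ x, ℝ)) (hf : 0 ≤ f) :
    0 ≤ Phi x hx f := by
  have h1 : f = (ContinuousMap.mk (fun z => Real.sqrt (f z)) (Real.continuous_sqrt.comp f.continuous))
      * (ContinuousMap.mk (fun z => Real.sqrt (f z)) (Real.continuous_sqrt.comp f.continuous)) := by
    ext z
    show f z = Real.sqrt (f z) * Real.sqrt (f z)
    have h0 : (0 : ℝ) ≤ f z := hf z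
    rw [Real.mul_self_sqrt h0]
  rw [h1, Phi_mul]
  have h2 := Phi_isSelfAdjoint x hx
    (ContinuousMap.mk (fun z => Real.sqrt (f z)) (Real.continuous_sqrt.comp f.continuous))
  have h3 := star_mul_self_nonneg (Phi x hx
    (ContinuousMap.mk (fun z => Real.sqrt (f z)) (Real.continuous_sqrt.comp f.continuous)))
  rwa [h2.star_eq] at h3

open Classical in
theorem Phi_eq_cfc (x : B) (hx : IsStarNormal x) (f : C(spectrum ℂ x, ℝ)) :
    Phi x hx f = cfc (fun z : ℂ => if h : z ∈ spectrum ℂ x then ((f ⟨z, h⟩ : ℝ) : ℂ) else 0) x := by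
  have hc : ContinuousOn (fun z : ℂ => if h : z ∈ spectrum ℂ x then ((f ⟨z, h⟩ : ℝ) : ℂ) else 0)
      (spectrum ℂ x) := by
    rw [continuousOn_iff_continuous_domRestrict]
    have : Continuous (fun z : spectrum ℂ x => ((f z : ℝ) : ℂ)) :=
      Complex.continuous_ofReal.comp f.continuous
    refine this.congr ?_
    intro z
    simp [Set.domRestrict]
  rw [cfc_apply _ x hx hc]
  unfold Phi
  congr 1
  ext z
  simp

open Classical in
theorem pp_Phi (x : B) (hx : IsStarNormal x) (f : C(spectrum ℂ x, ℝ)) (t : ℝ) :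
    pp (Phi x hx f) t = Phi x hx (cpos f t) := by
  have hsa := Phi_isSelfAdjoint x hx f
  unfold pp
  rw [cfc_real_eq_complex _ hsa]
  rw [Phi_eq_cfc x hx f, Phi_eq_cfc x hx (cpos f t)]
  have hc : ContinuousOn (fun z : ℂ => if h : z ∈ spectrum ℂ x then ((f ⟨z, h⟩ : ℝ) : ℂ) else 0)
      (spectrum ℂ x) := by
    rw [continuousOn_iff_continuous_domRestrict]
    have : Continuous (fun z : spectrum ℂ x => ((f z : ℝ) : ℂ)) :=
      Complex.continuous_ofReal.comp f.continuous
    refine this.congr ?_
    intro z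
    simp [Set.domRestrict]
  rw [← cfc_comp' (fun w : ℂ => ((max (w.re - t) 0 : ℝ) : ℂ)) _ x (by fun_prop) hc hx]
  apply cfc_congr
  intro z hz
  simp only [hz, dite_true, Complex.ofReal_re]
  rfl

/-- the self-adjoint elements `h`, `k` are real functions of the normal element `h + i k` -/
theorem Phi_re (h k : B) (hh : IsSelfAdjoint h) (hk : IsSelfAdjoint k) (hc : Commute h k) :
    ∃ (x : B) (hx : IsStarNormal x) (f g : C(spectrum ℂ x, ℝ)), Phi x hx f = h ∧ Phi x hx g = k := by
  have hstar : star (h + Complex.I • k) = h - Complex.I • k := by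
    rw [star_add, star_smul, hh.star_eq, hk.star_eq]
    simp [sub_eq_add_neg]
  have hx : IsStarNormal (h + Complex.I • k) := by
    constructor
    rw [hstar]
    unfold Commute SemiconjBy
    have hc' : h * k = k * h := hc
    simp only [add_mul, mul_add, sub_mul, mul_sub, smul_mul_assoc, mul_smul_comm, hc']
    module
  refine ⟨h + Complex.I • k, hx, ContinuousMap.mk (fun z => (z : ℂ).re) (by fun_prop),
    ContinuousMap.mk (fun z => (z : ℂ).im) (by fun_prop), ?_, ?_⟩
  · unfold Phi
    set J : C(spectrum ℂ (h + Complex.I • k), ℂ) :=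
      (ContinuousMap.id ℂ).restrict (spectrum ℂ (h + Complex.I • k)) with hJ
    have hJx : cfcHom (R := ℂ) hx J = h + Complex.I • k := cfcHom_id hx
    have h1 : (ContinuousMap.mk (fun z : spectrum ℂ (h + Complex.I • k) => (((z : ℂ).re : ℝ) : ℂ))
        (by fun_prop) : C(spectrum ℂ (h + Complex.I • k), ℂ)) = (1/2 : ℂ) • (J + star J) := by
      ext z
      simp [hJ]
      rw [Complex.re_eq_add_conj]
      ring
    have h2 : cfcHom (R := ℂ) hx ((1/2 : ℂ) • (J + star J)) = h := by
      rw [map_smul, map_add, map_star, hJx, hstar]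
      module
    rw [← h1] at h2
    exact h2
  · unfold Phi
    set J : C(spectrum ℂ (h + Complex.I • k), ℂ) :=
      (ContinuousMap.id ℂ).restrict (spectrum ℂ (h + Complex.I • k)) with hJ
    have hJx : cfcHom (R := ℂ) hx J = h + Complex.I • k := cfcHom_id hx
    have h1 : (ContinuousMap.mk (fun z : spectrum ℂ (h + Complex.I • k) => (((z : ℂ).im : ℝ) : ℂ))
        (by fun_prop) : C(spectrum ℂ (h + Complex.I • k), ℂ)) = (-Complex.I/2 : ℂ) • (J - star J) := by
      ext z
      simp [hJ]
      rw [Complex.im_eq_sub_conj]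
      field_simp
      ring_nf
      simp [Complex.I_sq]
      try ring
    have h2 : cfcHom (R := ℂ) hx ((-Complex.I/2 : ℂ) • (J - star J)) = k := by
      rw [map_smul, map_sub, map_star, hJx, hstar]
      have : (-Complex.I/2 : ℂ) • (h + Complex.I • k - (h - Complex.I • k)) =
          ((-Complex.I/2) * (2 * Complex.I) : ℂ) • k := by module
      rw [this]
      have h5 : ((-Complex.I/2) * (2 * Complex.I) : ℂ) = 1 := by
        ring_nf
        simp [Complex.I_sq]
      rw [h5, one_smul]
    rw [← h1] at h2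
    exact h2

end Crest.Agent.QT
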