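import Crest.Agent.QT_DimProps
import Crest.Agent.QT_Phi

/-!
Task QT-Phi2 (medium).  `D ∘ Phi` has the four properties needed in `K1_additive`.
* support monotonicity: `0 ≤ f, g`, `{f>0} ⊆ {g>0}`.  For `δ > 0`: `(f-δ)_+ = c g` with `c ≥ 0` continuous
  (`c = (f-δ)_+/g`, continuous since `{f ≥ δ}` is a compact subset of `{g > 0}`: there `g ≥ η > 0`, so
  `c = (f-δ)_+ / max g η`), so `Phi ((f-δ)_+) = Phi(√c) Phi(g) Phi(√c)`.  To get `Cz ![Phi f] ![Phi g]`:
  `‖Phi f - Phi((f-δ)_+)‖ ≤ δ` (`Phi_norm`).  Then `IsDim.le_of_Cz`.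
* disj: `IsDim.add_orth`; sub: `IsDim.add_le`; one: `IsDim.one`.
-/

set_option autoImplicit false

namespace Crest.Agent.QT

variable {B : Type*} [CStarAlgebra B] [PartialOrder B] [StarOrderedRing B] {D : B → ℝ}

private theorem phi2_zero (x : B) (hx : IsStarNormal x) : Phi x hx 0 = 0 := by
  have h := Phi_norm x hx 0
  rw [norm_zero] at h
  exact norm_eq_zero.mp h

private theorem phi2_eta {X : Type*} [TopologicalSpace X] [CompactSpace X] (f g : C(X, ℝ))
    (h : ∀ z, 0 < f z → 0 < g z) {δ : ℝ} (hδ : 0 < δ) :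
    ∃ η : ℝ, 0 < η ∧ ∀ z, δ ≤ f z → η ≤ g z := by
  by_cases hne : ({z | δ ≤ f z} : Set X).Nonempty
  · have hc : IsCompact ({z | δ ≤ f z} : Set X) :=
      (isClosed_le continuous_const f.continuous).isCompact
    obtain ⟨z0, hz0, hmin⟩ := hc.exists_isMinOn hne g.continuous.continuousOn
    exact ⟨g z0, h z0 (lt_of_lt_of_le hδ hz0), fun z hz => hmin hz⟩
  · refine ⟨1, one_pos, fun z hz => ?_⟩
    exact absurd ⟨z, hz⟩ hne

private theorem phi2_Cz (x : B) (hx : IsStarNormal x) (f g : C(spectrum ℂ x, ℝ))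
    (hf : 0 ≤ f) (_hg : 0 ≤ g) (h : ∀ z, 0 < f z → 0 < g z) :
    Cz ![Phi x hx f] ![Phi x hx g] := by
  intro ε hε
  set δ := ε / 2 with hδdef
  have hδ : 0 < δ := by positivity
  obtain ⟨η, hη, hηg⟩ := phi2_eta f g h hδ
  -- the cut down function and the square root of the multiplier
  set fc : C(spectrum ℂ x, ℝ) :=
    ⟨fun z => max (f z - δ) 0, (f.continuous.sub continuous_const).max continuous_const⟩ with hfc
  set c : C(spectrum ℂ x, ℝ) :=
    ⟨fun z => Real.sqrt (max (f z - δ) 0 / max (g z) η),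
      (((f.continuous.sub continuous_const).max continuous_const).div
        (g.continuous.max continuous_const)
        (fun z => (lt_of_lt_of_le hη (le_max_right _ _)).ne')).sqrt⟩ with hc
  have hcgc : c * g * c = fc := by
    ext z
    simp only [ContinuousMap.coe_mul, Pi.mul_apply, hc, hfc, ContinuousMap.coe_mk]
    have hmax : 0 < max (g z) η := lt_of_lt_of_le hη (le_max_right _ _)
    have hq : 0 ≤ max (f z - δ) 0 / max (g z) η :=
      div_nonneg (le_max_right _ _) hmax.le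
    have h1 : Real.sqrt (max (f z - δ) 0 / max (g z) η) * g z *
        Real.sqrt (max (f z - δ) 0 / max (g z) η) =
        (max (f z - δ) 0 / max (g z) η) * g z := by
      rw [mul_comm, ← mul_assoc, Real.mul_self_sqrt hq]
    rw [h1]
    by_cases hz : δ ≤ f z
    · have h2 : max (g z) η = g z := max_eq_left (hηg z hz)
      have h3 : 0 < g z := lt_of_lt_of_le hη (hηg z hz)
      rw [h2, div_mul_cancel₀ _ h3.ne']
    · have h2 : max (f z - δ) 0 = 0 := max_eq_right (by linarith [not_le.mp hz])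
      rw [h2]
      simp
  refine ⟨fun _ _ => Phi x hx c, fun i i' => ?_⟩
  have hi : i = 0 := Subsingleton.elim _ _
  have hi' : i' = 0 := Subsingleton.elim _ _
  subst hi hi'
  simp only [if_true, Matrix.cons_val_zero, Finset.univ_unique, Finset.sum_singleton,
    Fin.default_eq_zero]
  rw [(Phi_isSelfAdjoint x hx c).star_eq, ← Phi_mul, ← Phi_mul, hcgc]
  have hsub : Phi x hx f - Phi x hx fc = Phi x hx (f - fc) := by
    have := Phi_add x hx (f - fc) fc
    rw [sub_add_cancel] at this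
    rw [this, add_sub_cancel_right]
  rw [hsub, Phi_norm]
  refine lt_of_le_of_lt ?_ (show δ < ε by rw [hδdef]; linarith)
  rw [ContinuousMap.norm_le _ hδ.le]
  intro z
  have hfz : 0 ≤ f z := hf z
  simp only [hfc, ContinuousMap.coe_sub, Pi.sub_apply, ContinuousMap.coe_mk, Real.norm_eq_abs]
  rcases le_total (f z - δ) 0 with h0 | h0
  · rw [max_eq_right h0, sub_zero, abs_of_nonneg hfz]
    linarith
  · rw [max_eq_left h0, sub_sub_cancel, abs_of_pos hδ]

theorem DPhi_mono (hD : IsDim D) (x : B) (hx : IsStarNormal x) (f g : C(spectrum ℂ x, ℝ))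
    (hf : 0 ≤ f) (hg : 0 ≤ g) (h : ∀ z, 0 < f z → 0 < g z) : D (Phi x hx f) ≤ D (Phi x hx g) :=
  hD.le_of_Cz (Phi_nonneg x hx f hf) (Phi_nonneg x hx g hg) (phi2_Cz x hx f g hf hg h)

theorem DPhi_disj (hD : IsDim D) (x : B) (hx : IsStarNormal x) (f g : C(spectrum ℂ x, ℝ))
    (hf : 0 ≤ f) (hg : 0 ≤ g) (h : ∀ z, f z * g z = 0) :
    D (Phi x hx (f + g)) = D (Phi x hx f) + D (Phi x hx g) := by
  rw [Phi_add]
  refine hD.add_orth (Phi_nonneg x hx f hf) (Phi_nonneg x hx g hg) ?_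
  rw [← Phi_mul]
  have h0 : f * g = 0 := by
    ext z
    exact h z
  rw [h0, phi2_zero]

theorem DPhi_sub (hD : IsDim D) (x : B) (hx : IsStarNormal x) (f g : C(spectrum ℂ x, ℝ))
    (hf : 0 ≤ f) (hg : 0 ≤ g) : D (Phi x hx (f + g)) ≤ D (Phi x hx f) + D (Phi x hx g) := by
  rw [Phi_add]
  exact hD.add_le (Phi_nonneg x hx f hf) (Phi_nonneg x hx g hg)

theorem DPhi_one (hD : IsDim D) (x : B) (hx : IsStarNormal x) : D (Phi x hx 1) = 1 := by
  rw [Phi_one]
  exact hD.one

end Crest.Agent.QT
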