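import Crest.Agent.QT_TT
import Crest.Agent.QT_Phi2

/-!
Task QT-TTadd (easy/medium).  Additivity of `TT` on commuting self-adjoint elements: `Phi_re`, `pp_Phi`, `K1_additive`
for `D ∘ Phi x hx`, `R = max ‖h‖ ‖k‖`, `TR_eq_TT` (`‖h + k‖ ≤ 2R`).
-/

set_option autoImplicit false

namespace Crest.Agent.QT

theorem TT_add {B : Type*} [CStarAlgebra B] [PartialOrder B] [StarOrderedRing B] {D : B → ℝ}
    (hD : IsDim D) {h k : B} (hh : IsSelfAdjoint h) (hk : IsSelfAdjoint k) (hc : Commute h k) :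
    TT D (h + k) = TT D h + TT D k := by
  obtain ⟨x, hx, f, g, hf, hg⟩ := Phi_re h k hh hk hc
  set R : ℝ := max ‖h‖ ‖k‖ with hR
  have hR0 : 0 ≤ R := le_max_of_le_left (norm_nonneg h)
  have hRh : ‖h‖ ≤ R := le_max_left _ _
  have hRk : ‖k‖ ≤ R := le_max_right _ _
  have hRhk : ‖h + k‖ ≤ 2 * R := by
    calc ‖h + k‖ ≤ ‖h‖ + ‖k‖ := norm_add_le _ _
      _ ≤ 2 * R := by linarith
  have hfR : ∀ z, |f z| ≤ R := by
    intro z
    have h1 : ‖f z‖ ≤ ‖f‖ := f.norm_coe_le_norm z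
    have h2 : ‖f‖ = ‖h‖ := by rw [← Phi_norm x hx f, hf]
    rw [Real.norm_eq_abs] at h1
    linarith
  have hgR : ∀ z, |g z| ≤ R := by
    intro z
    have h1 : ‖g z‖ ≤ ‖g‖ := g.norm_coe_le_norm z
    have h2 : ‖g‖ = ‖k‖ := by rw [← Phi_norm x hx g, hg]
    rw [Real.norm_eq_abs] at h1
    linarith
  have key := K1_additive (fun u => D (Phi x hx u))
    (fun u v hu hv huv => DPhi_mono hD x hx u v hu hv huv)
    (fun u v hu hv huv => DPhi_disj hD x hx u v hu hv huv)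
    (fun u v hu hv => DPhi_sub hD x hx u v hu hv)
    (DPhi_one hD x hx) f g R hfR hgR hR0
  have hadd : Phi x hx (f + g) = h + k := by rw [Phi_add, hf, hg]
  simp only [← pp_Phi, hadd, hf, hg] at key
  rw [← TR_eq_TT hD (hh.add hk) hRhk, ← TR_eq_TT hD hh hRh, ← TR_eq_TT hD hk hRk]
  unfold TR
  rw [key]
  ring

end Crest.Agent.QT
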