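import Crest.Agent.QT_TT

/-!
Task QT-TTtr (medium).  `TT D (x* x) = TT D (x x*)`.
For `t > 0`: `(x*x - t)_+ = y* y`, `(x x* - t)_+ = y y*` with `y = x g(x*x)`, `g(s) = √((s-t)_+ / s)` (continuous,
`g = 0` near 0), because `x f(x*x) = f(x x*) x` for continuous `f` (intertwining of functional calculus: first for
polynomials, then by Weierstrass on `[0, ‖x‖²]`; Mathlib may have `cfc` commutation lemmas).
Then `IsDim.trace`.  For `t < 0` both are invertible, `D = 1`.
`‖x*x‖ = ‖x x*‖` so both integrals are over the same interval.
-/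

set_option autoImplicit false

namespace Crest.Agent.QT

/-- intertwining for polynomials -/
theorem TTtr_aeval {B : Type*} [CStarAlgebra B] {a b x : B} (h : x * a = b * x)
    (p : Polynomial ℝ) : x * Polynomial.aeval a p = Polynomial.aeval b p * x := by
  induction p using Polynomial.induction_on' with
  | add p q hp hq => simp only [map_add, mul_add, add_mul, hp, hq]
  | monomial n c =>
    have hpow : ∀ n : ℕ, x * a ^ n = b ^ n * x := by
      intro n
      induction n with
      | zero => simp
      | succ n ih => rw [pow_succ, ← mul_assoc, ih, mul_assoc, h, pow_succ, mul_assoc]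
    rw [Polynomial.aeval_monomial, Polynomial.aeval_monomial, ← mul_assoc,
      ← Algebra.commutes c x, mul_assoc, hpow, mul_assoc]

/-- intertwining of the continuous functional calculus -/
theorem TTtr_intertwine {B : Type*} [CStarAlgebra B] {a b x : B} (ha : IsSelfAdjoint a)
    (hb : IsSelfAdjoint b) (h : x * a = b * x) {f : ℝ → ℝ} (hf : Continuous f) :
    x * cfc f a = cfc f b * x := by
  rcases subsingleton_or_nontrivial B with hB | hB
  · exact Subsingleton.elim _ _
  rw [← sub_eq_zero, ← norm_le_zero_iff]
  refine le_of_forall_pos_le_add ?_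
  intro ε hε
  rw [zero_add]
  set R : ℝ := max (‖a‖) (‖b‖) with hR
  set δ : ℝ := ε / (2 * ‖x‖ + 1) with hδ
  have hx0 : (0:ℝ) < 2 * ‖x‖ + 1 := by positivity
  have hδ0 : 0 < δ := by positivity
  obtain ⟨p, hp⟩ := exists_polynomial_near_of_continuousOn (-R) R f hf.continuousOn δ hδ0
  have key : ∀ c : B, IsSelfAdjoint c → ‖c‖ ≤ R → ‖cfc f c - Polynomial.aeval c p‖ ≤ δ := by
    intro c hc hcR
    rw [← cfc_polynomial p c hc, ← cfc_sub f p.eval c hf.continuousOn p.continuous.continuousOn]
    refine norm_cfc_le hδ0.le ?_
    intro y hy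
    have hy1 : |y| ≤ R := by
      have := spectrum.norm_le_norm_of_mem hy
      rw [Real.norm_eq_abs] at this
      exact this.trans hcR
    have := hp y ⟨(abs_le.1 hy1).1, (abs_le.1 hy1).2⟩
    rw [Real.norm_eq_abs, abs_sub_comm]
    exact this.le
  have e1 : x * cfc f a - cfc f b * x
      = x * (cfc f a - Polynomial.aeval a p) - (cfc f b - Polynomial.aeval b p) * x := by
    rw [mul_sub, sub_mul, TTtr_aeval h p]; abel
  rw [e1]
  calc ‖x * (cfc f a - Polynomial.aeval a p) - (cfc f b - Polynomial.aeval b p) * x‖
      ≤ ‖x * (cfc f a - Polynomial.aeval a p)‖ + ‖(cfc f b - Polynomial.aeval b p) * x‖ :=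
        norm_sub_le _ _
    _ ≤ ‖x‖ * ‖(cfc f a - Polynomial.aeval a p)‖ + ‖(cfc f b - Polynomial.aeval b p)‖ * ‖x‖ :=
        add_le_add (norm_mul_le _ _) (norm_mul_le _ _)
    _ ≤ ‖x‖ * δ + δ * ‖x‖ := by
        have h1 := key a ha (le_max_left _ _)
        have h2 := key b hb (le_max_right _ _)
        gcongr
    _ ≤ (2 * ‖x‖ + 1) * δ := by nlinarith [norm_nonneg x]
    _ = ε := by rw [hδ]; field_simp

theorem TTtr_star_mul_self {B : Type*} [CStarAlgebra B] [PartialOrder B] [StarOrderedRing B]
    {D : B → ℝ} (hD : IsDim D) (x : B) (t : ℝ) :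
    D (pp (star x * x) t) = D (pp (x * star x) t) := by
  have h1 : 0 ≤ star x * x := star_mul_self_nonneg x
  have h2 : 0 ≤ x * star x := mul_star_self_nonneg x
  have s1 : IsSelfAdjoint (star x * x) := IsSelfAdjoint.of_nonneg h1
  have s2 : IsSelfAdjoint (x * star x) := IsSelfAdjoint.of_nonneg h2
  rcases lt_trichotomy t 0 with ht | ht | ht
  · -- `t < 0`
    have key : ∀ h : B, 0 ≤ h → D (pp h t) = 1 := by
      intro h hh
      have hs : IsSelfAdjoint h := IsSelfAdjoint.of_nonneg hh
      refine hD.of_isUnit (c := -t) (by linarith) ?_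
      rw [pp, ← cfc_const (-t) h hs]
      refine cfc_mono (a := h) ?_ (by fun_prop) (by fun_prop)
      intro y hy
      have hy0 : 0 ≤ y := spectrum_nonneg_of_nonneg hh hy
      exact le_max_of_le_left (by linarith)
    rw [key _ h1, key _ h2]
  · subst ht
    have key : ∀ h : B, 0 ≤ h → pp h 0 = h := by
      intro h hh
      have hs : IsSelfAdjoint h := IsSelfAdjoint.of_nonneg hh
      rw [pp]
      conv_rhs => rw [← cfc_id' ℝ h hs]
      refine cfc_congr ?_
      intro y hy
      have hy0 : 0 ≤ y := spectrum_nonneg_of_nonneg hh hy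
      simp [hy0]
    rw [key _ h1, key _ h2]
    exact hD.trace x
  · -- `t > 0`
    have hm : ∀ s : ℝ, 0 < max s t := fun s => lt_max_of_lt_right ht
    set g : ℝ → ℝ := fun s => Real.sqrt (max (s - t) 0 / max s t) with hg
    set G : ℝ → ℝ := fun s => max (s - t) 0 / max s t with hG
    have hGc : Continuous G := by
      refine Continuous.div (by fun_prop) (by fun_prop) ?_
      intro s; exact (hm s).ne'
    have hgc : Continuous g := Real.continuous_sqrt.comp hGc
    have hG0 : ∀ s, 0 ≤ G s := fun s => div_nonneg (le_max_right _ _) (hm s).le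
    have hgg : ∀ s, g s * g s = G s := fun s => Real.mul_self_sqrt (hG0 s)
    have hGs : ∀ s, G s * s = max (s - t) 0 := by
      intro s
      simp only [hG]
      rcases le_total s t with hst | hst
      · have : max (s - t) 0 = 0 := max_eq_right (by linarith)
        rw [this]; simp
      · rw [max_eq_left hst, div_mul_cancel₀]
        linarith
    have hgsa : IsSelfAdjoint (cfc g (star x * x)) := cfc_predicate g (star x * x)
    have e1 : pp (star x * x) t = star (x * cfc g (star x * x)) * (x * cfc g (star x * x)) := by
      rw [star_mul, hgsa.star_eq]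
      have : cfc g (star x * x) * star x * (x * cfc g (star x * x))
          = cfc g (star x * x) * (star x * x) * cfc g (star x * x) := by
        simp only [mul_assoc]
      rw [this, pp]
      conv_rhs =>
        enter [1, 2]
        rw [← cfc_id' ℝ (star x * x) s1]
      rw [← cfc_mul g (fun y => y) (star x * x) hgc.continuousOn (by fun_prop),
        ← cfc_mul (fun y => g y * y) g (star x * x) (by fun_prop) hgc.continuousOn]
      refine cfc_congr ?_
      intro y _
      simp only
      rw [← hGs y, ← hgg y]; ring
    have e2 : pp (x * star x) t = (x * cfc g (star x * x)) * star (x * cfc g (star x * x)) := by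
      rw [star_mul, hgsa.star_eq]
      have : x * cfc g (star x * x) * (cfc g (star x * x) * star x)
          = x * (cfc g (star x * x) * cfc g (star x * x)) * star x := by
        simp only [mul_assoc]
      rw [this, ← cfc_mul g g (star x * x) hgc.continuousOn hgc.continuousOn]
      have e3 : cfc (fun y => g y * g y) (star x * x) = cfc G (star x * x) :=
        cfc_congr (fun y _ => hgg y)
      rw [e3, TTtr_intertwine s1 s2 (by rw [mul_assoc]) hGc, mul_assoc, pp]
      conv_rhs =>
        enter [2]
        rw [← cfc_id' ℝ (x * star x) s2]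
      rw [← cfc_mul G (fun y => y) (x * star x) hGc.continuousOn (by fun_prop)]
      exact cfc_congr (fun y _ => (hGs y).symm)
    rw [e1, e2]
    exact hD.trace _

theorem TT_star_mul_self {B : Type*} [CStarAlgebra B] [PartialOrder B] [StarOrderedRing B]
    {D : B → ℝ} (hD : IsDim D) (x : B) : TT D (star x * x) = TT D (x * star x) := by
  unfold TT TR
  rw [CStarRing.norm_star_mul_self, CStarRing.norm_self_mul_star]
  simp only [TTtr_star_mul_self hD x]

end Crest.Agent.QT
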