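import Crest.Agent.QT_Dim
import Crest.Agent.QT_TTadd
import Crest.Agent.QT_TTtr

/-!
Task QT-One (medium).  Assembly: a 1-quasitrace.  Use the order `CStarAlgebra.spectralOrder B`
(`CStarAlgebra.spectralOrderedRing B`), `D` from `exists_dimension`, and
`τ x := (TT D (realPart x) : ℂ) + I * (TT D (imaginaryPart x) : ℂ)`.
`TT D (-h) = - TT D h` by `TT_add` for `h, -h`.  On a commutative star subalgebra the real and imaginary
parts of elements commute; `c • x` for complex `c = α + iβ`: `re (c x) = α re x - β im x` etc.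
-/

set_option autoImplicit false

namespace Crest.Agent.QT

open scoped ComplexStarModule

section aux
variable {B : Type*} [CStarAlgebra B] [PartialOrder B] [StarOrderedRing B] {D : B → ℝ}

theorem TT_neg (hD : IsDim D) {h : B} (hh : IsSelfAdjoint h) : TT D (-h) = - TT D h := by
  have h1 := TT_add hD hh hh.neg (Commute.refl h).neg_right
  rw [add_neg_cancel, TT_zero hD] at h1
  linarith

theorem TT_smul' (hD : IsDim D) {h : B} (hh : IsSelfAdjoint h) (c : ℝ) :
    TT D (c • h) = c * TT D h := by
  rcases le_total 0 c with hc | hc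
  · exact TT_smul hD hh hc
  · have h1 : c • h = -((-c) • h) := by rw [neg_smul, neg_neg]
    rw [h1, TT_neg hD ((IsSelfAdjoint.all _).smul hh), TT_smul hD hh (by linarith)]
    ring

/-- the quasitrace on all elements. -/
noncomputable def tauQ (D : B → ℝ) (x : B) : ℂ :=
  (TT D (realPart x : B) : ℂ) + Complex.I * (TT D (imaginaryPart x : B) : ℂ)

theorem tauQ_sa (hD : IsDim D) {h : B} (hh : IsSelfAdjoint h) : tauQ D h = (TT D h : ℂ) := by
  unfold tauQ
  rw [hh.coe_realPart, hh.imaginaryPart]
  simp [TT_zero hD]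

theorem tauQ_add_I (hD : IsDim D) {h k : B} (hh : IsSelfAdjoint h) (hk : IsSelfAdjoint k) :
    tauQ D (h + Complex.I • k) = (TT D h : ℂ) + Complex.I * (TT D k : ℂ) := by
  have h1 : ((realPart (h + Complex.I • k) : selfAdjoint B) : B) = h := by
    rw [map_add, realPart_I_smul, AddSubgroup.coe_add, hh.coe_realPart, hk.imaginaryPart]
    simp
  have h2 : ((imaginaryPart (h + Complex.I • k) : selfAdjoint B) : B) = k := by
    rw [map_add, imaginaryPart_I_smul, AddSubgroup.coe_add, hk.coe_realPart, hh.imaginaryPart]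
    simp
  unfold tauQ
  rw [h1, h2]

theorem realPart_mem (S : StarSubalgebra ℂ B) {x : B} (hx : x ∈ S) : (realPart x : B) ∈ S := by
  rw [realPart_apply_coe]
  have h1 : (2 : ℝ)⁻¹ • (x + star x) = (((2 : ℝ)⁻¹ : ℝ) : ℂ) • (x + star x) :=
    (Complex.coe_smul _ _).symm
  rw [h1]
  exact S.smul_mem (add_mem hx (star_mem hx)) _

theorem imaginaryPart_mem (S : StarSubalgebra ℂ B) {x : B} (hx : x ∈ S) :
    (imaginaryPart x : B) ∈ S := by
  rw [imaginaryPart_apply_coe]
  have h1 : (2 : ℝ)⁻¹ • (x - star x) = (((2 : ℝ)⁻¹ : ℝ) : ℂ) • (x - star x) :=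
    (Complex.coe_smul _ _).symm
  rw [h1]
  exact S.smul_mem (S.smul_mem (sub_mem hx (star_mem hx)) _) _

theorem tauQ_oneQuasitrace (hD : IsDim D) : Crest.OpAlg.IsOneQuasitrace (tauQ D) := by
  refine ⟨fun x => ?_, fun h k hh hk => ?_, fun S hS => ⟨fun x hx y hy => ?_, fun c x hx => ?_⟩⟩
  · have h1 : IsSelfAdjoint (star x * x) := IsSelfAdjoint.star_mul_self x
    have h2 : IsSelfAdjoint (x * star x) := IsSelfAdjoint.mul_star_self x
    rw [tauQ_sa hD h1, tauQ_sa hD h2, TT_star_mul_self hD x]
    refine ⟨rfl, Complex.ofReal_im _, ?_⟩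
    rw [Complex.ofReal_re]
    exact TT_nonneg hD (mul_star_self_nonneg x)
  · rw [tauQ_add_I hD hh hk, tauQ_sa hD hh, tauQ_sa hD hk]
  · have h1 : TT D (realPart (x + y) : B) = TT D (realPart x : B) + TT D (realPart y : B) := by
      rw [map_add, AddSubgroup.coe_add]
      exact TT_add hD (realPart x).2 (realPart y).2
        (hS _ (realPart_mem S hx) _ (realPart_mem S hy))
    have h2 : TT D (imaginaryPart (x + y) : B) =
        TT D (imaginaryPart x : B) + TT D (imaginaryPart y : B) := by
      rw [map_add, AddSubgroup.coe_add]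
      exact TT_add hD (imaginaryPart x).2 (imaginaryPart y).2
        (hS _ (imaginaryPart_mem S hx) _ (imaginaryPart_mem S hy))
    unfold tauQ
    rw [h1, h2]
    push_cast
    ring
  · have hri : Commute (realPart x : B) (imaginaryPart x : B) :=
      hS _ (realPart_mem S hx) _ (imaginaryPart_mem S hx)
    have hr : IsSelfAdjoint (realPart x : B) := (realPart x).2
    have hi : IsSelfAdjoint (imaginaryPart x : B) := (imaginaryPart x).2
    have hrs : ∀ a : ℝ, IsSelfAdjoint (a • (realPart x : B)) := fun a => (IsSelfAdjoint.all a).smul hr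
    have his : ∀ a : ℝ, IsSelfAdjoint (a • (imaginaryPart x : B)) :=
      fun a => (IsSelfAdjoint.all a).smul hi
    have h1 : TT D (realPart (c • x) : B) =
        c.re * TT D (realPart x : B) - c.im * TT D (imaginaryPart x : B) := by
      have e : (realPart (c • x) : B) =
          c.re • (realPart x : B) + (-c.im) • (imaginaryPart x : B) := by
        rw [realPart_smul]
        simp [sub_eq_add_neg]
      rw [e, TT_add hD (hrs _) (his _) ((hri.smul_left _).smul_right _), TT_smul' hD hr,
        TT_smul' hD hi]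
      ring
    have h2 : TT D (imaginaryPart (c • x) : B) =
        c.re * TT D (imaginaryPart x : B) + c.im * TT D (realPart x : B) := by
      have e : (imaginaryPart (c • x) : B) =
          c.re • (imaginaryPart x : B) + c.im • (realPart x : B) := by
        rw [imaginaryPart_smul]
        simp
      rw [e, TT_add hD (his _) (hrs _) ((hri.symm.smul_left _).smul_right _), TT_smul' hD hr,
        TT_smul' hD hi]
    unfold tauQ
    rw [h1, h2]
    apply Complex.ext
    · simp
    · simp

end aux

theorem exists_oneQuasitrace {B : Type*} [CStarAlgebra B] (H : NoShrink B) :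
    ∃ τ : B → ℂ, Crest.OpAlg.IsOneQuasitrace τ ∧ τ 1 = 1 := by
  letI := CStarAlgebra.spectralOrder B
  haveI := CStarAlgebra.spectralOrderedRing B
  obtain ⟨D, hD⟩ := exists_dimension H
  refine ⟨tauQ D, tauQ_oneQuasitrace hD, ?_⟩
  rw [tauQ_sa hD (IsSelfAdjoint.one B), TT_one hD, Complex.ofReal_one]

end Crest.Agent.QT
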