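import Crest.Agent.QT_Defs

/-!
Task QT-PS (easy/medium, self-contained matrix analysis).
Powers-Stormer: `X, Y ≥ 0`, `c = X - Y`, `s = sgn c` (diagonalize `c` by the spectral theorem; `s` commutes with `c`,
`s c = |c| ≥ 0`): `X² - Y² = (c S + S c)/2`, `S = X + Y`; `tr((X²-Y²)s) = tr(|c| S) ≥ tr(|c| |c|)` because `S ≥ ± c` gives
`tr(c_+ S) ≥ tr(c_+ c)`, `tr(c_- S) ≥ -tr(c_- c)`  (`tr (P Q) ≥ 0` for `P, Q` positive semidefinite).
-/

set_option autoImplicit false

namespace Crest.Agent.QT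

open scoped Matrix ComplexOrder

theorem PS_hs_eq {ι : Type*} [Fintype ι] (a : Matrix ι ι ℂ) : hs a = (aᴴ * a).trace.re := by
  unfold hs
  rw [Matrix.trace, Complex.re_sum, Finset.sum_comm]
  refine Finset.sum_congr rfl fun j _ => ?_
  rw [Matrix.diag_apply, Matrix.mul_apply, Complex.re_sum]
  refine Finset.sum_congr rfl fun i _ => ?_
  rw [Matrix.conjTranspose_apply, Complex.star_def, ← Complex.normSq_eq_conj_mul_self,
    Complex.ofReal_re, Complex.normSq_eq_norm_sq]

theorem powers_stormer {ι : Type*} [Fintype ι] [DecidableEq ι] (X Y : Matrix ι ι ℂ)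
    (hX : X.PosSemidef) (hY : Y.PosSemidef) :
    ∃ s : Matrix ι ι ℂ, (1 - s).PosSemidef ∧ (1 + s).PosSemidef ∧
      hs (X - Y) ≤ ((X * X - Y * Y) * s).trace.re := by
  have hc : (X - Y).IsHermitian := hX.isHermitian.sub hY.isHermitian
  obtain ⟨U, hU1, hU2, hspec⟩ : ∃ U : Matrix ι ι ℂ, Uᴴ * U = 1 ∧ U * Uᴴ = 1 ∧
      X - Y = U * Matrix.diagonal (fun i => (hc.eigenvalues i : ℂ)) * Uᴴ := by
    refine ⟨(hc.eigenvectorUnitary : Matrix ι ι ℂ), ?_, ?_, ?_⟩
    · have := Unitary.coe_star_mul_self hc.eigenvectorUnitary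
      exact this
    · have := Unitary.coe_mul_star_self hc.eigenvectorUnitary
      exact this
    · have h := hc.spectral_theorem
      rw [Unitary.conjStarAlgAut_apply] at h
      exact h
  set lam : ι → ℝ := hc.eigenvalues with hlam
  set X' : Matrix ι ι ℂ := Uᴴ * X * U with hX'd
  set Y' : Matrix ι ι ℂ := Uᴴ * Y * U with hY'd
  have hX' : X'.PosSemidef := hX.conjTranspose_mul_mul_same U
  have hY' : Y'.PosSemidef := hY.conjTranspose_mul_mul_same U
  set D : Matrix ι ι ℂ := Matrix.diagonal (fun i => (lam i : ℂ)) with hD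
  have hXX : X = U * X' * Uᴴ := by
    rw [hX'd]
    calc X = (U * Uᴴ) * X * (U * Uᴴ) := by rw [hU2, one_mul, mul_one]
      _ = _ := by simp only [mul_assoc]
  have hYY : Y = U * Y' * Uᴴ := by
    rw [hY'd]
    calc Y = (U * Uᴴ) * Y * (U * Uᴴ) := by rw [hU2, one_mul, mul_one]
      _ = _ := by simp only [mul_assoc]
  have hXYD : X' = Y' + D := by
    have h1 : X' - Y' = Uᴴ * (X - Y) * U := by rw [hX'd, hY'd]; noncomm_ring
    have h2 : Uᴴ * (X - Y) * U = D := by
      rw [hspec]
      calc Uᴴ * (U * D * Uᴴ) * U = (Uᴴ * U) * D * (Uᴴ * U) := by simp only [mul_assoc]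
        _ = D := by rw [hU1, one_mul, mul_one]
    rw [← h2, ← h1]; abel
  set S : Matrix ι ι ℂ := Matrix.diagonal (fun i => ((if 0 ≤ lam i then 1 else -1 : ℝ) : ℂ)) with hS
  have hS1 : (1 - S).PosSemidef := by
    rw [hS, ← Matrix.diagonal_one, Matrix.diagonal_sub]
    refine Matrix.PosSemidef.diagonal fun i => ?_
    change (0 : ℂ) ≤ 1 - ((if 0 ≤ lam i then 1 else -1 : ℝ) : ℂ)
    split_ifs <;> norm_num
  have hS2 : (1 + S).PosSemidef := by
    rw [hS, ← Matrix.diagonal_one, Matrix.diagonal_add]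
    refine Matrix.PosSemidef.diagonal fun i => ?_
    change (0 : ℂ) ≤ 1 + ((if 0 ≤ lam i then 1 else -1 : ℝ) : ℂ)
    split_ifs <;> norm_num
  refine ⟨U * S * Uᴴ, ?_, ?_, ?_⟩
  · have : 1 - U * S * Uᴴ = U * (1 - S) * Uᴴ := by rw [mul_sub, sub_mul, mul_one, hU2]
    rw [this]
    exact hS1.mul_mul_conjTranspose_same U
  · have : 1 + U * S * Uᴴ = U * (1 + S) * Uᴴ := by rw [mul_add, add_mul, mul_one, hU2]
    rw [this]
    exact hS2.mul_mul_conjTranspose_same U
  · have h1 : ((X * X - Y * Y) * (U * S * Uᴴ)).trace = ((X' * X' - Y' * Y') * S).trace := by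
      have e1 : (X * X - Y * Y) * (U * S * Uᴴ) = U * ((X' * X' - Y' * Y') * S * Uᴴ) := by
        have a1 : X * X = U * (X' * X') * Uᴴ := by
          calc X * X = (U * X' * Uᴴ) * (U * X' * Uᴴ) := by rw [← hXX]
            _ = U * X' * (Uᴴ * U) * X' * Uᴴ := by simp only [mul_assoc]
            _ = _ := by rw [hU1, mul_one]; simp only [mul_assoc]
        have a2 : Y * Y = U * (Y' * Y') * Uᴴ := by
          calc Y * Y = (U * Y' * Uᴴ) * (U * Y' * Uᴴ) := by rw [← hYY]
            _ = U * Y' * (Uᴴ * U) * Y' * Uᴴ := by simp only [mul_assoc]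
            _ = _ := by rw [hU1, mul_one]; simp only [mul_assoc]
        rw [a1, a2, ← sub_mul, ← mul_sub]
        calc U * (X' * X' - Y' * Y') * Uᴴ * (U * S * Uᴴ) =
            U * (X' * X' - Y' * Y') * (Uᴴ * U) * S * Uᴴ := by simp only [mul_assoc]
          _ = _ := by rw [hU1, mul_one]; simp only [mul_assoc]
      rw [e1, Matrix.trace_mul_comm, mul_assoc, mul_assoc, hU1, mul_one]
    have h2 : hs (X - Y) = ∑ i, lam i ^ 2 := by
      rw [PS_hs_eq, hc.eq, hspec]
      have e1 : U * D * Uᴴ * (U * D * Uᴴ) = U * (D * D * Uᴴ) := by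
        calc U * D * Uᴴ * (U * D * Uᴴ) = U * D * (Uᴴ * U) * D * Uᴴ := by simp only [mul_assoc]
          _ = _ := by rw [hU1, mul_one]; simp only [mul_assoc]
      rw [e1, Matrix.trace_mul_comm, mul_assoc, mul_assoc, hU1, mul_one, hD, Matrix.diagonal_mul_diagonal,
        Matrix.trace_diagonal, Complex.re_sum]
      refine Finset.sum_congr rfl fun i _ => ?_
      rw [← Complex.ofReal_mul, Complex.ofReal_re, sq]
    have h3 : ((X' * X' - Y' * Y') * S).trace.re =
        ∑ i, (if 0 ≤ lam i then 1 else -1 : ℝ) * (lam i * (2 * (Y' i i).re + lam i)) := by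
      have e1 : X' * X' - Y' * Y' = Y' * D + D * Y' + D * D := by
        rw [hXYD]; noncomm_ring
      rw [e1, Matrix.trace, Complex.re_sum]
      refine Finset.sum_congr rfl fun i _ => ?_
      rw [Matrix.diag_apply, hS, Matrix.mul_diagonal, Matrix.add_apply, Matrix.add_apply, hD,
        Matrix.mul_diagonal, Matrix.diagonal_mul, Matrix.diagonal_mul_diagonal, Matrix.diagonal_apply_eq]
      simp only [Complex.mul_re, Complex.add_re, Complex.ofReal_re, Complex.ofReal_im]
      ring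
    rw [h1, h2, h3]
    refine Finset.sum_le_sum fun i _ => ?_
    have hy : 0 ≤ (Y' i i).re := by
      have := hY'.diag_nonneg (i := i)
      exact (Complex.le_def.1 this).1
    have hx : 0 ≤ (Y' i i).re + lam i := by
      have := hX'.diag_nonneg (i := i)
      rw [hXYD] at this
      have h := (Complex.le_def.1 this).1
      rw [Matrix.add_apply, hD, Matrix.diagonal_apply_eq] at h
      simpa using h
    split_ifs with h
    · nlinarith
    · push Not at h
      nlinarith
end Crest.Agent.QT
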