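import Crest.Agent.QT_Defs

/-!
Task QT-PX (medium).  Facts about the space `PX κ` of rank one projections and the matrices
`G = ptr P = x x*` (`x : N × M` matrix, `∑|x|² = 1`), `z = zmat C P = (1 + C G)⁻¹`.
`PX κ` is a continuous image of the compact unit sphere.  `1 + C G` is positive definite, so invertible; `z ≥ 0`,
`1 - z = C G z ≥ 0` (e.g. `1 - z = z^{1/2}..` or diagonalize `G`, or `1 - z = z (C G + C² G²) z`).
Continuity of `P ↦ (1 + C ptr P)⁻¹`: inversion of matrices is continuous at units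
(`NormedRing.inverse_continuousAt`/`Matrix.inv_def` with `det ≠ 0`).
-/

set_option autoImplicit false

namespace Crest.Agent.QT

open scoped Matrix ComplexOrder

instance {κ : Type*} [Fintype κ] : CompactSpace (PX κ) := by
  have hset : {P : Matrix κ κ ℂ | ∃ x : κ → ℂ, (∑ i, ‖x i‖ ^ 2 = 1) ∧
      P = Matrix.vecMulVec x (star x)} =
      (fun x : κ → ℂ => Matrix.vecMulVec x (star x)) '' {x : κ → ℂ | ∑ i, ‖x i‖ ^ 2 = 1} := by
    ext P
    constructor
    · rintro ⟨x, hx, rfl⟩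
      exact ⟨x, hx, rfl⟩
    · rintro ⟨x, hx, rfl⟩
      exact ⟨x, hx, rfl⟩
  have hcomp : IsCompact {x : κ → ℂ | ∑ i, ‖x i‖ ^ 2 = 1} := by
    apply Metric.isCompact_of_isClosed_isBounded
    · exact isClosed_eq (by fun_prop) continuous_const
    · rw [isBounded_iff_forall_norm_le]
      refine ⟨1, fun x hx => ?_⟩
      rw [pi_norm_le_iff_of_nonneg zero_le_one]
      intro i
      have h1 : ‖x i‖ ^ 2 ≤ ∑ i, ‖x i‖ ^ 2 :=
        Finset.single_le_sum (f := fun i => ‖x i‖ ^ 2) (fun j _ => sq_nonneg _)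
          (Finset.mem_univ i)
      have h2 : ∑ i, ‖x i‖ ^ 2 = 1 := hx
      rw [h2] at h1
      nlinarith [norm_nonneg (x i)]
  have hc2 : IsCompact {P : Matrix κ κ ℂ | ∃ x : κ → ℂ, (∑ i, ‖x i‖ ^ 2 = 1) ∧
      P = Matrix.vecMulVec x (star x)} := by
    rw [hset]
    apply hcomp.image
    refine continuous_matrix fun i j => ?_
    simp only [Matrix.vecMulVec_apply, Pi.star_apply]
    fun_prop
  exact isCompact_iff_compactSpace.mp hc2

instance {κ : Type*} [Fintype κ] : T2Space (PX κ) := by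
  unfold PX
  infer_instance

instance {κ : Type*} [Fintype κ] [Nonempty κ] : Nonempty (PX κ) := by
  classical
  obtain ⟨k⟩ := ‹Nonempty κ›
  refine ⟨PX.mk' (Pi.single k 1) ?_⟩
  rw [Finset.sum_eq_single k]
  · simp
  · intro b _ hb
    simp [Pi.single_eq_of_ne hb]
  · intro h
    exact absurd (Finset.mem_univ k) h

variable {N M : ℕ}

theorem ptr_posSemidef (P : PX (Fin N × Fin M)) : (ptr P.1).PosSemidef := by
  obtain ⟨P, x, hx, rfl⟩ := P
  have h : ptr (Matrix.vecMulVec x (star x)) =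
      (Matrix.of fun i l => x (i, l) : Matrix (Fin N) (Fin M) ℂ) *
        (Matrix.of fun i l => x (i, l) : Matrix (Fin N) (Fin M) ℂ)ᴴ := by
    ext i j
    simp [ptr, Matrix.mul_apply, Matrix.vecMulVec_apply]
  simp only
  rw [h]
  exact Matrix.posSemidef_self_mul_conjTranspose _

private theorem PX_posDef {C : ℝ} (hC : 0 ≤ C) (P : PX (Fin N × Fin M)) :
    (1 + (C : ℂ) • ptr P.1).PosDef := by
  have h1 : ((C : ℂ) • ptr P.1).PosSemidef :=
    (ptr_posSemidef P).smul (by exact_mod_cast hC)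
  exact Matrix.PosDef.add_posSemidef Matrix.PosDef.one h1

theorem continuous_zmat {C : ℝ} (hC : 0 ≤ C) :
    Continuous (fun P : PX (Fin N × Fin M) => zmat C P.1) := by
  have hval : Continuous (fun P : PX (Fin N × Fin M) => P.1) := continuous_subtype_val
  have h0 : Continuous (fun P : PX (Fin N × Fin M) => ptr P.1) := by
    refine continuous_matrix fun i j => ?_
    simp only [ptr]
    refine continuous_finsetSum _ fun l _ => ?_
    exact (continuous_apply_apply (i, l) (j, l)).comp hval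
  have h1 : Continuous (fun P : PX (Fin N × Fin M) => (1 + (C : ℂ) • ptr P.1)) :=
    continuous_const.add (h0.const_smul (C : ℂ))
  unfold zmat
  simp only [Matrix.inv_def]
  simp only [Ring.inverse_eq_inv']
  have h2 : Continuous (fun P : PX (Fin N × Fin M) => (1 + (C : ℂ) • ptr P.1).det⁻¹) := by
    refine Continuous.inv₀ h1.matrix_det ?_
    intro P
    exact ((Matrix.isUnit_iff_isUnit_det _).mp (PX_posDef hC P).isUnit).ne_zero
  exact Continuous.fun_smul h2 h1.matrix_adjugate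

theorem zmat_posSemidef {C : ℝ} (hC : 0 ≤ C) (P : PX (Fin N × Fin M)) :
    (zmat C P.1).PosSemidef := by
  exact (PX_posDef hC P).inv.posSemidef

theorem zmat_mul {C : ℝ} (hC : 0 ≤ C) (P : PX (Fin N × Fin M)) :
    zmat C P.1 * (1 + (C : ℂ) • ptr P.1) = 1 ∧ (1 + (C : ℂ) • ptr P.1) * zmat C P.1 = 1 := by
  have hu : IsUnit (1 + (C : ℂ) • ptr P.1).det :=
    (Matrix.isUnit_iff_isUnit_det _).mp (PX_posDef hC P).isUnit
  exact ⟨Matrix.nonsing_inv_mul _ hu, Matrix.mul_nonsing_inv _ hu⟩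

theorem one_sub_zmat_posSemidef {C : ℝ} (hC : 0 ≤ C) (P : PX (Fin N × Fin M)) :
    (1 - zmat C P.1).PosSemidef := by
  set G := ptr P.1 with hG
  set z := zmat C P.1 with hz
  have hzm : z * (1 + (C : ℂ) • G) = 1 := (zmat_mul hC P).1
  have hzm2 : (1 + (C : ℂ) • G) * z = 1 := (zmat_mul hC P).2
  have hzH : zᴴ = z := (zmat_posSemidef hC P).isHermitian
  have hGp : G.PosSemidef := ptr_posSemidef P
  have h2 : ((C : ℂ) • G + ((C : ℂ) • G)ᴴ * ((C : ℂ) • G)).PosSemidef :=
    (hGp.smul (by exact_mod_cast hC)).add (Matrix.posSemidef_conjTranspose_mul_self _)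
  have h3 := h2.conjTranspose_mul_mul_same z
  have h4 : zᴴ * ((C : ℂ) • G + ((C : ℂ) • G)ᴴ * ((C : ℂ) • G)) * z = 1 - z := by
    have hGH : ((C : ℂ) • G)ᴴ = (C : ℂ) • G :=
      (hGp.smul (show (0 : ℂ) ≤ (C : ℂ) by exact_mod_cast hC)).isHermitian
    rw [hzH, hGH]
    have h5 : (C : ℂ) • G + ((C : ℂ) • G) * ((C : ℂ) • G) =
        (1 + (C : ℂ) • G) * ((C : ℂ) • G) := by
      rw [add_mul, one_mul]
    rw [h5, ← mul_assoc, hzm, one_mul]
    have h6 : (C : ℂ) • G * z = (1 + (C : ℂ) • G) * z - z := by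
      rw [add_mul, one_mul]; abel
    rw [h6, hzm2]
  rw [h4] at h3
  exact h3

end Crest.Agent.QT
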