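import Crest.Agent.QT_Defs

/-!
Task QT-Q1 (medium, self-contained: no C*-algebras).  Goodearl-Handelman extension theorem for a
preordered monoid of multisets, via Mathlib's `riesz_extension`.

Proof.  `E := P →₀ ℝ`.  We apply `riesz_extension` to the pointed cone of all `x` such that for some
multiset `C` and every real `r ≥ 0` there are multisets `S`, `T` with `R S T` and
`[T] - [S] - [C] ≤ r x` coordinatewise, and to the functional `t • single u 1 ↦ t`.
-/

set_option autoImplicit false

namespace Crest.Agent.QT

open Classical in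
/-- the pointed cone of the proof -/
private noncomputable def q1K {P : Type*} (R : Multiset P → Multiset P → Prop)
    (hrefl : ∀ s, R s s) (htrans : ∀ s t r, R s t → R t r → R s r)
    (hadd : ∀ s t r, R s t → R (s + r) (t + r)) : PointedCone ℝ (P →₀ ℝ) where
  carrier := {x | ∃ C : Multiset P, ∀ r : ℝ, 0 ≤ r → ∃ S T : Multiset P, R S T ∧
    ∀ p, (T.count p : ℝ) - S.count p - C.count p ≤ r * x p}
  zero_mem' := ⟨0, fun r _ => ⟨0, 0, hrefl 0, fun p => by simp⟩⟩
  add_mem' := by
    rintro x y ⟨C, hC⟩ ⟨C', hC'⟩
    refine ⟨C + C', fun r hr => ?_⟩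
    obtain ⟨S, T, h1, h2⟩ := hC r hr
    obtain ⟨S', T', h1', h2'⟩ := hC' r hr
    refine ⟨S + S', T + T', ?_, fun p => ?_⟩
    · refine htrans _ (T + S') _ (hadd _ _ _ h1) ?_
      rw [add_comm T S', add_comm T T']
      exact hadd _ _ _ h1'
    · have := h2 p
      have := h2' p
      simp only [Multiset.count_add, Nat.cast_add, Finsupp.add_apply, mul_add]
      linarith
  smul_mem' := by
    rintro ⟨c, hc⟩ x ⟨C, hC⟩
    refine ⟨C, fun r hr => ?_⟩
    obtain ⟨S, T, h1, h2⟩ := hC (r * c) (mul_nonneg hr hc)
    refine ⟨S, T, h1, fun p => ?_⟩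
    have := h2 p
    have e : ((⟨c, hc⟩ : {c : ℝ // 0 ≤ c}) • x) p = c * x p := rfl
    rw [e]
    linarith [mul_assoc r c (x p)]

private theorem q1_nsmul {P : Type*} (R : Multiset P → Multiset P → Prop)
    (hrefl : ∀ s, R s s) (htrans : ∀ s t r, R s t → R t r → R s r)
    (hadd : ∀ s t r, R s t → R (s + r) (t + r)) {s t : Multiset P} (h : R s t) (n : ℕ) :
    R (n • s) (n • t) := by
  induction n with
  | zero => simpa using hrefl 0
  | succ n ih =>
    rw [succ_nsmul, succ_nsmul]
    refine htrans _ (n • t + s) _ (hadd _ _ _ ih) ?_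
    rw [add_comm _ s, add_comm _ t]
    exact hadd _ _ _ h

private theorem q1_card {P : Type*} (u : P) (R : Multiset P → Multiset P → Prop)
    (hrefl : ∀ s, R s s) (htrans : ∀ s t r, R s t → R t r → R s r)
    (hadd : ∀ s t r, R s t → R (s + r) (t + r)) (hu : ∀ p, R {p} {u}) (s : Multiset P) :
    R s (Multiset.replicate s.card u) := by
  induction s using Multiset.induction_on with
  | empty => simpa using hrefl 0
  | cons a s ih =>
    rw [Multiset.card_cons, Multiset.replicate_succ, ← Multiset.singleton_add,
      ← Multiset.singleton_add]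
    refine htrans _ ({u} + s) _ (hadd _ _ _ (hu a)) ?_
    rw [add_comm {u} s, add_comm {u} (Multiset.replicate s.card u)]
    exact hadd _ _ _ ih

private theorem q1_contra {P : Type*} (u : P) (R : Multiset P → Multiset P → Prop)
    (hrefl : ∀ s, R s s) (htrans : ∀ s t r, R s t → R t r → R s r)
    (hadd : ∀ s t r, R s t → R (s + r) (t + r)) (hzero : ∀ s, R 0 s) (hu : ∀ p, R {p} {u})
    (hno : ∀ m : ℕ, ¬ R (Multiset.replicate (m + 1) u) (Multiset.replicate m u))
    (x : Multiset P) (hx : R ({u} + x) x) : False := by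
  have h1 : ∀ n : ℕ, R (Multiset.replicate n u + x) x := by
    intro n
    induction n with
    | zero => simpa using hrefl x
    | succ n ih =>
      have e : Multiset.replicate (n + 1) u + x = {u} + x + Multiset.replicate n u := by
        rw [Multiset.replicate_succ, ← Multiset.singleton_add, add_right_comm]
      rw [e]
      refine htrans _ (x + Multiset.replicate n u) _ (hadd _ _ _ hx) ?_
      rw [add_comm]
      exact ih
  refine hno x.card ?_
  refine htrans _ (Multiset.replicate (x.card + 1) u + x) _ ?_
    (htrans _ x _ (h1 _) (q1_card u R hrefl htrans hadd hu x))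
  have := hadd _ _ (Multiset.replicate (x.card + 1) u) (hzero x)
  rw [zero_add, add_comm x] at this
  exact this

private theorem q1_nonneg {P : Type*} (u : P) (R : Multiset P → Multiset P → Prop)
    (hrefl : ∀ s, R s s) (htrans : ∀ s t r, R s t → R t r → R s r)
    (hadd : ∀ s t r, R s t → R (s + r) (t + r)) (hzero : ∀ s, R 0 s) (hu : ∀ p, R {p} {u})
    (hno : ∀ m : ℕ, ¬ R (Multiset.replicate (m + 1) u) (Multiset.replicate m u))
    (c : ℝ) (hc : c • Finsupp.single u (1 : ℝ) ∈ q1K R hrefl htrans hadd) : 0 ≤ c := by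
  classical
  by_contra hneg
  have hneg' : 0 < -c := by linarith [not_le.1 hneg]
  obtain ⟨C, hC⟩ := hc
  obtain ⟨S, T, h1, h2⟩ := hC ((C.card + 1) / (-c)) (by positivity)
  have key : T + Multiset.replicate (C.card + 1) u ≤ S + C := by
    rw [Multiset.le_iff_count]
    intro p
    rw [Multiset.count_add, Multiset.count_add, Multiset.count_replicate]
    have h3 := h2 p
    rw [Finsupp.smul_apply, smul_eq_mul] at h3
    by_cases hp : u = p
    · subst hp
      rw [if_pos rfl]
      rw [Finsupp.single_eq_same] at h3
      have e : (C.card + 1 : ℝ) / (-c) * (c * 1) = -(C.card + 1 : ℝ) := by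
        have : c ≠ 0 := by linarith
        field_simp
      rw [e] at h3
      have h4 : (T.count u : ℝ) + (C.card + 1) ≤ S.count u + C.count u := by linarith
      exact_mod_cast h4
    · rw [if_neg hp]
      rw [Finsupp.single_eq_of_ne (Ne.symm hp)] at h3
      have h4 : (T.count p : ℝ) + 0 ≤ S.count p + C.count p := by linarith
      exact_mod_cast h4
  obtain ⟨rest, hrest⟩ := Multiset.le_iff_exists_add.1 key
  refine q1_contra u R hrefl htrans hadd hzero hu hno (T + Multiset.replicate C.card u) ?_
  have s1 : R (T + Multiset.replicate (C.card + 1) u) (S + C) := by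
    rw [hrest]
    have := hadd _ _ (T + Multiset.replicate (C.card + 1) u) (hzero rest)
    rw [zero_add, add_comm rest] at this
    exact this
  have s2 : R (S + C) (T + C) := hadd _ _ _ h1
  have s3 : R (T + C) (T + Multiset.replicate C.card u) := by
    rw [add_comm T, add_comm T]
    exact hadd _ _ _ (q1_card u R hrefl htrans hadd hu C)
  have s4 := htrans _ _ _ s1 (htrans _ _ _ s2 s3)
  have e : ({u} : Multiset P) + (T + Multiset.replicate C.card u)
      = T + Multiset.replicate (C.card + 1) u := by
    rw [Multiset.replicate_succ, ← Multiset.singleton_add, add_left_comm]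
  rw [e]
  exact s4

open Classical in
/-- the vector of a multiset -/
private noncomputable def q1vec {P : Type*} (s : Multiset P) : P →₀ ℝ :=
  (s.map fun p => Finsupp.single p (1 : ℝ)).sum

private theorem q1vec_apply {P : Type*} [DecidableEq P] (s : Multiset P) (p : P) :
    q1vec s p = s.count p := by
  induction s using Multiset.induction_on with
  | empty => simp [q1vec]
  | cons a s ih =>
    unfold q1vec at ih ⊢
    rw [Multiset.map_cons, Multiset.sum_cons, Finsupp.add_apply, ih, Multiset.count_cons]
    by_cases h : a = p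
    · subst h
      simp [add_comm]
    · rw [Finsupp.single_eq_of_ne (Ne.symm h), if_neg (Ne.symm h)]
      simp

private theorem q1_mem {P : Type*} (R : Multiset P → Multiset P → Prop)
    (hrefl : ∀ s, R s s) (htrans : ∀ s t r, R s t → R t r → R s r)
    (hadd : ∀ s t r, R s t → R (s + r) (t + r)) {s t : Multiset P} (h : R s t) :
    q1vec t - q1vec s ∈ q1K R hrefl htrans hadd := by
  classical
  refine ⟨s, fun r hr => ⟨⌊r⌋₊ • s, ⌊r⌋₊ • t, q1_nsmul R hrefl htrans hadd h _, fun p => ?_⟩⟩
  rw [Finsupp.sub_apply, q1vec_apply, q1vec_apply, Multiset.count_nsmul, Multiset.count_nsmul]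
  push_cast
  have h1 := Nat.floor_le hr
  have h2 := (Nat.lt_floor_add_one r).le
  have h3 : (⌊r⌋₊ : ℝ) * t.count p ≤ r * t.count p :=
    mul_le_mul_of_nonneg_right h1 (Nat.cast_nonneg _)
  have h4 : r * s.count p ≤ (⌊r⌋₊ + 1 : ℝ) * s.count p :=
    mul_le_mul_of_nonneg_right h2 (Nat.cast_nonneg _)
  linarith

theorem Q1_abstract {P : Type*} (u : P) (R : Multiset P → Multiset P → Prop)
    (hrefl : ∀ s, R s s) (htrans : ∀ s t r, R s t → R t r → R s r)
    (hadd : ∀ s t r, R s t → R (s + r) (t + r)) (hzero : ∀ s, R 0 s) (hu : ∀ p, R {p} {u})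
    (hno : ∀ m : ℕ, ¬ R (Multiset.replicate (m + 1) u) (Multiset.replicate m u)) :
    ∃ D : P → ℝ, (∀ s t, R s t → (s.map D).sum ≤ (t.map D).sum) ∧ D u = 1 := by
  classical
  have hvec1 : ∀ p : P, q1vec ({p} : Multiset P) = Finsupp.single p (1 : ℝ) := by
    intro p
    simp [q1vec]
  have hvec0 : q1vec (0 : Multiset P) = 0 := by simp [q1vec]
  have hu0 : Finsupp.single u (1 : ℝ) ≠ 0 := by simp
  set K := q1K R hrefl htrans hadd with hK
  obtain ⟨g, hg1, hg2⟩ := riesz_extension K
    (LinearPMap.mkSpanSingleton (Finsupp.single u (1 : ℝ)) (1 : ℝ) hu0) (by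
      rintro ⟨x, hx⟩ hxs
      obtain ⟨c, rfl⟩ := Submodule.mem_span_singleton.1 hx
      rw [LinearPMap.mkSpanSingleton'_apply]
      simpa using q1_nonneg u R hrefl htrans hadd hzero hu hno c hxs) (by
      intro y
      suffices h : ∃ c : ℝ, c • Finsupp.single u (1 : ℝ) + y ∈ K by
        obtain ⟨c, hc⟩ := h
        exact ⟨⟨c • Finsupp.single u (1 : ℝ),
          Submodule.smul_mem _ _ (Submodule.mem_span_singleton_self _)⟩, hc⟩
      induction y using Finsupp.induction_linear with
      | zero => exact ⟨0, by simp⟩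
      | add f g hf hg =>
        obtain ⟨a, ha⟩ := hf
        obtain ⟨b, hb⟩ := hg
        refine ⟨a + b, ?_⟩
        have := K.add_mem ha hb
        rw [add_add_add_comm, ← add_smul] at this
        exact this
      | single p b =>
        rcases le_total 0 b with hb | hb
        · refine ⟨0, ?_⟩
          have h1 := q1_mem R hrefl htrans hadd (hzero {p})
          rw [hvec1, hvec0, sub_zero] at h1
          have h2 := Submodule.smul_mem K (⟨b, hb⟩ : {c : ℝ // 0 ≤ c}) h1
          have e : (⟨b, hb⟩ : {c : ℝ // 0 ≤ c}) • (Finsupp.single p (1 : ℝ))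
              = Finsupp.single p b := by
            change b • (Finsupp.single p (1 : ℝ)) = _
            rw [Finsupp.smul_single, smul_eq_mul, mul_one]
          rw [e] at h2
          rw [zero_smul, zero_add]
          exact h2
        · refine ⟨-b, ?_⟩
          have h1 := q1_mem R hrefl htrans hadd (hu p)
          rw [hvec1, hvec1] at h1
          have h2 := Submodule.smul_mem K (⟨-b, by linarith⟩ : {c : ℝ // 0 ≤ c}) h1
          have e : (⟨-b, by linarith⟩ : {c : ℝ // 0 ≤ c}) •
              (Finsupp.single u (1 : ℝ) - Finsupp.single p (1 : ℝ))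
              = (-b) • Finsupp.single u (1 : ℝ) + Finsupp.single p b := by
            change (-b) • (Finsupp.single u (1 : ℝ) - Finsupp.single p (1 : ℝ)) = _
            rw [smul_sub, Finsupp.smul_single _ p, smul_eq_mul, mul_one,
              sub_eq_add_neg, ← Finsupp.single_neg, neg_neg]
          rw [e] at h2
          exact h2)
  refine ⟨fun p => g (Finsupp.single p 1), ?_, ?_⟩
  · have hsum : ∀ s : Multiset P, (s.map fun p => g (Finsupp.single p 1)).sum = g (q1vec s) := by
      intro s
      unfold q1vec
      rw [map_multiset_sum, Multiset.map_map]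
      rfl
    intro s t h
    rw [hsum, hsum]
    have := hg2 _ (q1_mem R hrefl htrans hadd h)
    rw [map_sub] at this
    linarith
  · have := hg1 ⟨Finsupp.single u (1 : ℝ), Submodule.mem_span_singleton_self _⟩
    rw [LinearPMap.mkSpanSingleton_apply] at this
    exact this

end Crest.Agent.QT
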