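import Crest.Agent.QT_Defs

/-!
Task QT-QF (medium).  General facts about a 1-quasitrace `τ` on a C*-algebra `A` (see `Crest.Prelude.Def_Quasitrace`).
* `qf_add`: the star subalgebra generated by commuting self-adjoint (more generally: commuting with all adjoints) elements
  is commutative (`StarAlgebra.adjoin`, `StarAlgebra.adjoinCommRingOfComm...`/`StarSubalgebra.commRing...`, or
  `Subalgebra.adjoin` induction).
* `qf_smul`: the same for one normal element.
* `qf_im`: `h = h*`: add `‖h‖·1` to make it positive `= x* x`; `τ 1 = τ (star 1 * 1)` is real.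
* `qf_unitary`: `k = h + ‖h‖ ≥ 0`, `k = x* x` with `x = k^{1/2}`; `u k u* = (x u*)* (x u*)` and `(x u*) (x u*)* = x x* = k`
  (`x` self-adjoint), so `τ (u k u*) = τ k`; then subtract `‖h‖ τ 1` (`u 1 u* = 1`).
-/

set_option autoImplicit false

namespace Crest.Agent.QT

variable {A : Type*} [CStarAlgebra A] {τ : A → ℂ}

theorem qfx_adjoin_comm (s : Set A) (hs : ∀ a ∈ s, IsSelfAdjoint a)
    (hc : ∀ a ∈ s, ∀ b ∈ s, a * b = b * a) :
    ∀ x ∈ StarAlgebra.adjoin ℂ s, ∀ y ∈ StarAlgebra.adjoin ℂ s, x * y = y * x := by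
  have hc' : ∀ a ∈ s, ∀ b ∈ s, a * star b = star b * a := by
    intro a ha b hb
    rw [(hs b hb).star_eq]
    exact hc a ha b hb
  intro x hx y hy
  have h1 : (⟨x, hx⟩ : StarAlgebra.adjoin ℂ s) * ⟨y, hy⟩ = ⟨y, hy⟩ * ⟨x, hx⟩ := by
    letI := StarAlgebra.adjoinCommRingOfComm ℂ hc hc'
    exact mul_comm _ _
  exact congrArg Subtype.val h1

theorem qfx_sub (hτ : Crest.OpAlg.IsOneQuasitrace τ) (s : Set A) (hs : ∀ a ∈ s, IsSelfAdjoint a)
    (hc : ∀ a ∈ s, ∀ b ∈ s, a * b = b * a) :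
    (∀ x ∈ StarAlgebra.adjoin ℂ s, ∀ y ∈ StarAlgebra.adjoin ℂ s, τ (x + y) = τ x + τ y) ∧
      ∀ c : ℂ, ∀ x ∈ StarAlgebra.adjoin ℂ s, τ (c • x) = c * τ x :=
  hτ.2.2 (StarAlgebra.adjoin ℂ s) (qfx_adjoin_comm s hs hc)

theorem qf_add (hτ : Crest.OpAlg.IsOneQuasitrace τ) {h k : A} (hh : IsSelfAdjoint h)
    (hk : IsSelfAdjoint k) (hc : h * k = k * h) : τ (h + k) = τ h + τ k := by
  have h1 := qfx_sub hτ {h, k} (by
    rintro a (rfl | rfl)
    · exact hh
    · exact hk) (by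
    rintro a (rfl | rfl) b (rfl | rfl)
    · rfl
    · exact hc
    · exact hc.symm
    · rfl)
  exact h1.1 h (StarAlgebra.subset_adjoin ℂ _ (by simp)) k (StarAlgebra.subset_adjoin ℂ _ (by simp))

theorem qf_smul (hτ : Crest.OpAlg.IsOneQuasitrace τ) {h : A} (hh : IsSelfAdjoint h) (c : ℂ) :
    τ (c • h) = c * τ h := by
  have h1 := qfx_sub hτ {h} (by
    rintro a rfl
    exact hh) (by
    rintro a rfl b rfl
    rfl)
  exact h1.2 c h (StarAlgebra.subset_adjoin ℂ _ (by simp))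

theorem qf_sum (hτ : Crest.OpAlg.IsOneQuasitrace τ) {ι : Type*} (s : Finset ι) (f : ι → A)
    (hf : ∀ i ∈ s, IsSelfAdjoint (f i)) (hc : ∀ i ∈ s, ∀ j ∈ s, f i * f j = f j * f i) :
    τ (∑ i ∈ s, f i) = ∑ i ∈ s, τ (f i) := by
  classical
  have h1 := qfx_sub hτ {a | ∃ i ∈ s, f i = a} (by
    rintro a ⟨i, hi, rfl⟩
    exact hf i hi) (by
    rintro a ⟨i, hi, rfl⟩ b ⟨j, hj, rfl⟩
    exact hc i hi j hj)
  have h0 : τ 0 = 0 := by
    have := h1.2 0 0 (zero_mem _)
    simpa using this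
  have key : ∀ t : Finset ι, t ⊆ s → τ (∑ i ∈ t, f i) = ∑ i ∈ t, τ (f i) := by
    intro t
    induction t using Finset.induction_on with
    | empty => intro _; simpa using h0
    | insert a t ha ih =>
      intro hts
      rw [Finset.sum_insert ha, Finset.sum_insert ha, ← ih (fun x hx => hts (by simp [hx]))]
      refine h1.1 _ (StarAlgebra.subset_adjoin ℂ _ ⟨a, hts (by simp), rfl⟩) _ ?_
      exact sum_mem fun i hi => StarAlgebra.subset_adjoin ℂ _ ⟨i, hts (by simp [hi]), rfl⟩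
  exact key s (Finset.Subset.refl s)

theorem qfx_sqrt {h : A} (hh : IsSelfAdjoint h) :
    ∃ x : A, IsSelfAdjoint x ∧ x * x = h + ((‖h‖ : ℝ) : ℂ) • 1 := by
  rcases subsingleton_or_nontrivial A with hA | hA
  · exact ⟨0, Subsingleton.elim _ _, Subsingleton.elim _ _⟩
  refine ⟨cfc (fun t : ℝ => Real.sqrt (t + ‖h‖)) h, cfc_predicate _ h, ?_⟩
  rw [← cfc_mul (fun t : ℝ => Real.sqrt (t + ‖h‖)) (fun t : ℝ => Real.sqrt (t + ‖h‖)) h]
  have h1 : Set.EqOn (fun t : ℝ => Real.sqrt (t + ‖h‖) * Real.sqrt (t + ‖h‖))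
      (fun t => t + ‖h‖) (spectrum ℝ h) := by
    intro t ht
    have h2 : ‖t‖ ≤ ‖h‖ := spectrum.norm_le_norm_of_mem ht
    rw [Real.norm_eq_abs] at h2
    have h3 := neg_abs_le t
    exact Real.mul_self_sqrt (by linarith)
  rw [cfc_congr h1, cfc_add_const (‖h‖) (fun t : ℝ => t) h, cfc_id' ℝ h]
  congr 1
  rw [Algebra.algebraMap_eq_smul_one]
  exact (Complex.coe_smul _ _).symm

theorem qfx_one_im (hτ : Crest.OpAlg.IsOneQuasitrace τ) : (τ 1).im = 0 := by
  have := (hτ.1 1).2.1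
  simpa using this

theorem qfx_shift (hτ : Crest.OpAlg.IsOneQuasitrace τ) {h : A} (hh : IsSelfAdjoint h) (r : ℝ) :
    τ (h + (r : ℂ) • 1) = τ h + r * τ 1 := by
  have h1 : IsSelfAdjoint ((r : ℂ) • (1 : A)) := by
    rw [isSelfAdjoint_iff, star_smul, star_one]
    congr 1
    simp
  rw [qf_add hτ hh h1 (by simp), qf_smul hτ (IsSelfAdjoint.one A)]

theorem qf_im (hτ : Crest.OpAlg.IsOneQuasitrace τ) {h : A} (hh : IsSelfAdjoint h) :
    (τ h).im = 0 := by
  obtain ⟨x, hx, hxx⟩ := qfx_sqrt hh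
  have h1 := (hτ.1 x).2.1
  rw [hx.star_eq, hxx, qfx_shift hτ hh] at h1
  have h2 := qfx_one_im hτ
  simp only [Complex.add_im, Complex.mul_im, Complex.ofReal_re, Complex.ofReal_im, h2, mul_zero,
    zero_mul, add_zero] at h1
  exact h1

theorem qf_unitary (hτ : Crest.OpAlg.IsOneQuasitrace τ) {h u : A} (hh : IsSelfAdjoint h)
    (hu : u ∈ unitary A) : τ (u * h * star u) = τ h := by
  obtain ⟨x, hx, hxx⟩ := qfx_sqrt hh
  have hu1 : star u * u = 1 := Unitary.star_mul_self_of_mem hu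
  have hu2 : u * star u = 1 := Unitary.mul_star_self_of_mem hu
  have h1 := (hτ.1 (x * star u)).1
  have e1 : star (x * star u) * (x * star u) = u * h * star u + ((‖h‖ : ℝ) : ℂ) • 1 := by
    rw [star_mul, star_star, hx.star_eq]
    calc u * x * (x * star u) = u * (x * x) * star u := by noncomm_ring
      _ = u * (h + ((‖h‖ : ℝ) : ℂ) • 1) * star u := by rw [hxx]
      _ = _ := by
          rw [mul_add, add_mul, mul_smul_comm, smul_mul_assoc, mul_one, hu2]
  have e2 : x * star u * star (x * star u) = h + ((‖h‖ : ℝ) : ℂ) • 1 := by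
    rw [star_mul, star_star, hx.star_eq]
    calc x * star u * (u * x) = x * (star u * u) * x := by noncomm_ring
      _ = _ := by rw [hu1, mul_one, hxx]
  have hsa : IsSelfAdjoint (u * h * star u) := by
    rw [isSelfAdjoint_iff, star_mul, star_mul, star_star, hh.star_eq, mul_assoc]
  rw [e1, e2, qfx_shift hτ hsa, qfx_shift hτ hh] at h1
  exact add_right_cancel h1

end Crest.Agent.QT
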