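import Crest.Agent.QT_Defs

/-!
Task QT-Quot (medium).  The quotient of a C*-algebra by the closed two-sided ideal generated by a self-adjoint
element `z` is a C*-algebra.
`J = closure (idealGen z)`: closed, additive, two-sided, star-invariant (`star (∑ c z d) = ∑ d* z c*`).
Quotient ring/star/norm (`AddSubgroup` quotient norm, or `RingCon`, or `TwoSidedIdeal`): norm of `[b]` is
`inf_{j ∈ J} ‖b + j‖`, complete.  C*-identity: for `j ∈ J`, `δ > 0`, `e = j* j (δ + j* j)⁻¹ ∈ J`, `0 ≤ e ≤ 1`,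
`‖j (1-e)‖² = ‖δ² j*j (δ + j*j)^{-2}‖ ≤ δ`.  For `b` with `‖[b* b]‖ < r` choose `j' ∈ J` with `‖b* b + j'‖ < r`, `e` for `j'`
(replace `j'` by something self-adjoint if you like), then
`‖[b]‖² ≤ ‖b (1-e)‖² = ‖(1-e) b* b (1-e)‖ ≤ ‖b* b (1-e)‖ ≤ ‖(b* b + j')(1-e)‖ + ‖j' (1-e)‖ ≤ r + √δ`.
-/

set_option autoImplicit false

namespace Crest.Agent.QT

theorem Quot_approx {B : Type} [CStarAlgebra B] (j : B) {δ : ℝ} (hδ : 0 < δ) :
    ∃ u c : B, IsSelfAdjoint u ∧ ‖u‖ ≤ 1 ∧ ‖j * u‖ ^ 2 ≤ δ ∧ 1 - u = star j * j * c := by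
  set h : B := star j * j with hh
  have hsa : IsSelfAdjoint h := IsSelfAdjoint.star_mul_self j
  have hpos : ∀ x ∈ spectrum ℝ h, 0 ≤ x := spectrum_star_mul_self_nonneg
  have hden : ∀ t : ℝ, 0 < δ + |t| := fun t => by positivity
  have cg : Continuous fun t : ℝ => δ / (δ + |t|) :=
    continuous_const.div (continuous_const.add continuous_abs) fun t => (hden t).ne'
  have cw : Continuous fun t : ℝ => 1 / (δ + |t|) :=
    continuous_const.div (continuous_const.add continuous_abs) fun t => (hden t).ne'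
  have hu : IsSelfAdjoint (cfc (fun t : ℝ => δ / (δ + |t|)) h) := cfc_predicate _ h
  refine ⟨cfc (fun t : ℝ => δ / (δ + |t|)) h, cfc (fun t : ℝ => 1 / (δ + |t|)) h, hu, ?_, ?_, ?_⟩
  · refine norm_cfc_le zero_le_one fun x _ => ?_
    rw [Real.norm_of_nonneg (div_nonneg hδ.le (hden x).le), div_le_one (hden x)]
    have := abs_nonneg x
    linarith
  · rw [sq, ← CStarRing.norm_star_mul_self, star_mul, hu.star_eq]
    have e : cfc (fun t : ℝ => δ / (δ + |t|)) h * star j * (j * cfc (fun t : ℝ => δ / (δ + |t|)) h) =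
        cfc (fun t : ℝ => δ / (δ + |t|) * t * (δ / (δ + |t|))) h := by
      rw [cfc_mul (fun t : ℝ => δ / (δ + |t|) * t) (fun t : ℝ => δ / (δ + |t|)) h
        (cg.mul continuous_id).continuousOn cg.continuousOn,
        cfc_mul (fun t : ℝ => δ / (δ + |t|)) (fun t : ℝ => t) h cg.continuousOn
        continuous_id.continuousOn, cfc_id' ℝ h]
      simp only [mul_assoc, hh]
    rw [e]
    refine norm_cfc_le hδ.le fun x hx => ?_
    have hx0 := hpos x hx
    rw [abs_of_nonneg hx0]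
    have h1 : 0 < δ + x := by linarith
    rw [Real.norm_of_nonneg (by positivity), div_mul_eq_mul_div, div_mul_div_comm, div_le_iff₀ (by positivity)]
    nlinarith [mul_nonneg hδ.le hx0, mul_nonneg (mul_nonneg hδ.le hδ.le) hx0, mul_pos hδ hδ,
      mul_nonneg (mul_nonneg hδ.le hx0) hx0, mul_pos (mul_pos hδ hδ) hδ]
  · have e1 : (1 : B) = cfc (fun _ : ℝ => (1 : ℝ)) h := (cfc_const_one ℝ h).symm
    have e2 : h * cfc (fun t : ℝ => 1 / (δ + |t|)) h = cfc (fun t : ℝ => t * (1 / (δ + |t|))) h := by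
      rw [cfc_mul (fun t : ℝ => t) (fun t : ℝ => 1 / (δ + |t|)) h continuous_id.continuousOn
        cw.continuousOn, cfc_id' ℝ h]
    rw [e2]
    conv_lhs => rw [e1]
    rw [← cfc_sub (fun _ : ℝ => (1 : ℝ)) (fun t : ℝ => δ / (δ + |t|)) h continuous_const.continuousOn
      cg.continuousOn]
    refine cfc_congr fun x hx => ?_
    have hx0 := hpos x hx
    simp only [abs_of_nonneg hx0]
    have h1 : δ + x ≠ 0 := by linarith
    field_simp
    ring

theorem Quot_gen_zero {B : Type} [CStarAlgebra B] (z : B) : (0 : B) ∈ idealGen z :=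
  ⟨0, fun _ => 0, fun _ => 0, by simp⟩

theorem Quot_gen_add {B : Type} [CStarAlgebra B] (z : B) {a b : B} (ha : a ∈ idealGen z)
    (hb : b ∈ idealGen z) : a + b ∈ idealGen z := by
  obtain ⟨R, c, d, rfl⟩ := ha
  obtain ⟨R', c', d', rfl⟩ := hb
  exact ⟨R + R', Fin.append c c', Fin.append d d', by simp [Fin.sum_univ_add]⟩

theorem Quot_gen_mul_left {B : Type} [CStarAlgebra B] (z : B) (x : B) {a : B}
    (ha : a ∈ idealGen z) : x * a ∈ idealGen z := by
  obtain ⟨R, c, d, rfl⟩ := ha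
  exact ⟨R, fun l => x * c l, d, by simp [Finset.mul_sum, mul_assoc]⟩

theorem Quot_gen_mul_right {B : Type} [CStarAlgebra B] (z : B) (x : B) {a : B}
    (ha : a ∈ idealGen z) : a * x ∈ idealGen z := by
  obtain ⟨R, c, d, rfl⟩ := ha
  exact ⟨R, c, fun l => d l * x, by simp [Finset.sum_mul, mul_assoc]⟩

theorem Quot_gen_star {B : Type} [CStarAlgebra B] {z : B} (hz : IsSelfAdjoint z) {a : B}
    (ha : a ∈ idealGen z) : star a ∈ idealGen z := by
  obtain ⟨R, c, d, rfl⟩ := ha
  exact ⟨R, fun l => star (d l), fun l => star (c l), by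
    simp [star_sum, mul_assoc, hz.star_eq]⟩

/-- the closed two-sided ideal generated by `z` -/
def QJ {B : Type} [CStarAlgebra B] (z : B) : Ideal B where
  carrier := closure (idealGen z)
  add_mem' := fun ha hb => map_mem_closure₂ continuous_add ha hb fun _ h1 _ h2 => Quot_gen_add z h1 h2
  zero_mem' := subset_closure (Quot_gen_zero z)
  smul_mem' := fun x _ ha => map_mem_closure (continuous_const_mul x) ha
    fun _ h => Quot_gen_mul_left z x h

theorem mem_QJ {B : Type} [CStarAlgebra B] (z x : B) : x ∈ QJ z ↔ x ∈ closure (idealGen z) := Iff.rfl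

instance QJ_twoSided {B : Type} [CStarAlgebra B] (z : B) : (QJ z).IsTwoSided where
  mul_mem_of_left := fun x ha => map_mem_closure (f := fun y => y * x) (continuous_mul_const x) ha
    fun _ h => Quot_gen_mul_right z x h

instance QJ_closed {B : Type} [CStarAlgebra B] (z : B) : IsClosed ((QJ z : Ideal B) : Set B) :=
  isClosed_closure

theorem QJ_star {B : Type} [CStarAlgebra B] {z : B} (hz : IsSelfAdjoint z) {a : B}
    (ha : a ∈ QJ z) : star a ∈ QJ z :=
  map_mem_closure continuous_star ha fun _ h => Quot_gen_star hz h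

theorem QJ_norm_lt {B : Type} [CStarAlgebra B] (z : B) (b : B) {r : ℝ}
    (h : ‖(Submodule.Quotient.mk b : B ⧸ QJ z)‖ < r) : ∃ j ∈ QJ z, ‖b + j‖ < r := by
  obtain ⟨m, hm, hm2⟩ := Submodule.Quotient.norm_mk_lt (S := QJ z) (Submodule.Quotient.mk b)
    (sub_pos.2 h)
  refine ⟨m - b, (Submodule.Quotient.eq (QJ z)).1 hm, ?_⟩
  rw [add_sub_cancel]
  linarith

theorem QJ_norm_le {B : Type} [CStarAlgebra B] (z : B) (b : B) {j : B} (hj : j ∈ QJ z) :
    ‖(Submodule.Quotient.mk b : B ⧸ QJ z)‖ ≤ ‖b + j‖ := by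
  have : (Submodule.Quotient.mk b : B ⧸ QJ z) = Submodule.Quotient.mk (b + j) := by
    rw [Submodule.Quotient.eq]
    simpa using (QJ z).neg_mem hj
  rw [this]
  exact Submodule.Quotient.norm_mk_le (S := QJ z) _

theorem QJ_cstar {B : Type} [CStarAlgebra B] (z b : B) :
    ‖(Submodule.Quotient.mk b : B ⧸ QJ z)‖ ^ 2 ≤
      ‖(Submodule.Quotient.mk (star b * b) : B ⧸ QJ z)‖ := by
  refine le_of_forall_gt_imp_ge_of_dense fun r hr => ?_
  obtain ⟨j', hj', hr'⟩ := QJ_norm_lt z (star b * b) hr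
  have key : ∀ δ : ℝ, 0 < δ → ‖(Submodule.Quotient.mk b : B ⧸ QJ z)‖ ^ 2 ≤ r + Real.sqrt δ := by
    intro δ hδ
    obtain ⟨u, c, hu, hu1, hu2, hu3⟩ := Quot_approx j' hδ
    have h1 : b * (u - 1) ∈ QJ z := by
      have : b * (u - 1) = (-(b * star j')) * j' * c := by
        have : u - 1 = -(star j' * j' * c) := by rw [← hu3]; abel
        rw [this]
        noncomm_ring
      rw [this]
      exact (QJ_twoSided z).mul_mem_of_left _ ((QJ z).mul_mem_left _ hj')
    have h2 : ‖(Submodule.Quotient.mk b : B ⧸ QJ z)‖ ≤ ‖b * u‖ := by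
      have := QJ_norm_le z b h1
      have e : b + b * (u - 1) = b * u := by noncomm_ring
      rwa [e] at this
    have h3 : ‖b * u‖ ^ 2 ≤ ‖star b * b * u‖ := by
      rw [sq, ← CStarRing.norm_star_mul_self, star_mul, hu.star_eq]
      have e : u * star b * (b * u) = u * (star b * b * u) := by noncomm_ring
      rw [e]
      calc ‖u * (star b * b * u)‖ ≤ ‖u‖ * ‖star b * b * u‖ := norm_mul_le _ _
        _ ≤ 1 * ‖star b * b * u‖ := by gcongr
        _ = _ := one_mul _
    have h4 : ‖star b * b * u‖ ≤ r + Real.sqrt δ := by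
      have e : star b * b * u = (star b * b + j') * u - j' * u := by noncomm_ring
      rw [e]
      have h5 : ‖j' * u‖ ≤ Real.sqrt δ := Real.le_sqrt_of_sq_le hu2
      have h6 : ‖(star b * b + j') * u‖ ≤ r := by
        calc ‖(star b * b + j') * u‖ ≤ ‖star b * b + j'‖ * ‖u‖ := norm_mul_le _ _
          _ ≤ ‖star b * b + j'‖ * 1 := by gcongr
          _ ≤ r := by rw [mul_one]; exact hr'.le
      exact (norm_sub_le _ _).trans (add_le_add h6 h5)
    calc ‖(Submodule.Quotient.mk b : B ⧸ QJ z)‖ ^ 2 ≤ ‖b * u‖ ^ 2 := by gcongr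
      _ ≤ _ := h3
      _ ≤ _ := h4
  refine le_of_forall_pos_le_add fun ε hε => ?_
  have := key (ε ^ 2) (by positivity)
  rwa [Real.sqrt_sq hε.le] at this

/-- the quotient type -/
def QQ {B : Type} [CStarAlgebra B] (z : B) : Type := B ⧸ QJ z

noncomputable instance QQ_ring {B : Type} [CStarAlgebra B] (z : B) : Ring (QQ z) :=
  inferInstanceAs (Ring (B ⧸ QJ z))

/-- the quotient map -/
noncomputable def QQmk {B : Type} [CStarAlgebra B] (z : B) : B →+* QQ z := Ideal.Quotient.mk (QJ z)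

noncomputable instance QQ_nacg {B : Type} [CStarAlgebra B] (z : B) : NormedAddCommGroup (QQ z) :=
  inferInstanceAs (NormedAddCommGroup (B ⧸ QJ z))

theorem QQ_surj {B : Type} [CStarAlgebra B] (z : B) : Function.Surjective (QQmk z) :=
  Ideal.Quotient.mk_surjective

theorem QQ_norm_lt {B : Type} [CStarAlgebra B] (z : B) (b : B) {r : ℝ}
    (h : ‖QQmk z b‖ < r) : ∃ j ∈ QJ z, ‖b + j‖ < r := QJ_norm_lt z b h

theorem QQ_norm_le {B : Type} [CStarAlgebra B] (z : B) (b : B) {j : B} (hj : j ∈ QJ z) :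
    ‖QQmk z b‖ ≤ ‖b + j‖ := QJ_norm_le z b hj

theorem QQ_norm_le' {B : Type} [CStarAlgebra B] (z : B) (b : B) :
    ‖QQmk z b‖ ≤ ‖b‖ := by
  simpa using QQ_norm_le z b (QJ z).zero_mem

theorem QQ_norm_mul {B : Type} [CStarAlgebra B] (z : B) (a b : QQ z) : ‖a * b‖ ≤ ‖a‖ * ‖b‖ := by
  obtain ⟨a, rfl⟩ := QQ_surj z a
  obtain ⟨b, rfl⟩ := QQ_surj z b
  refine le_of_forall_pos_le_add fun ε hε => ?_
  have hc : Filter.Tendsto (fun t : ℝ => (‖QQmk z a‖ + t) * (‖QQmk z b‖ + t))
      (nhdsWithin 0 (Set.Ioi 0)) (nhds (‖QQmk z a‖ * ‖QQmk z b‖)) := by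
    have : Continuous fun t : ℝ => (‖QQmk z a‖ + t) * (‖QQmk z b‖ + t) := by fun_prop
    have := this.tendsto 0
    simp only [add_zero] at this
    exact this.mono_left nhdsWithin_le_nhds
  have h1 := hc.eventually (gt_mem_nhds (show ‖QQmk z a‖ * ‖QQmk z b‖ < ‖QQmk z a‖ * ‖QQmk z b‖ + ε
    by linarith))
  obtain ⟨t, ht, ht0⟩ := (h1.and self_mem_nhdsWithin).exists
  obtain ⟨j, hj, hj'⟩ := QQ_norm_lt z a (lt_add_of_pos_right _ ht0)
  obtain ⟨k, hk, hk'⟩ := QQ_norm_lt z b (lt_add_of_pos_right _ ht0)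
  have h2 : QQmk z a * QQmk z b = QQmk z ((a + j) * (b + k)) := by
    have e1 : QQmk z j = 0 := Ideal.Quotient.eq_zero_iff_mem.2 hj
    have e2 : QQmk z k = 0 := Ideal.Quotient.eq_zero_iff_mem.2 hk
    rw [map_mul, map_add, map_add, e1, e2, add_zero, add_zero]
  rw [h2]
  calc ‖QQmk z ((a + j) * (b + k))‖ ≤ ‖(a + j) * (b + k)‖ := QQ_norm_le' z _
    _ ≤ ‖a + j‖ * ‖b + k‖ := norm_mul_le _ _
    _ ≤ (‖QQmk z a‖ + t) * (‖QQmk z b‖ + t) := by gcongr
    _ ≤ _ := ht.le

noncomputable instance QQ_normedRing {B : Type} [CStarAlgebra B] (z : B) : NormedRing (QQ z) :=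
  { QQ_nacg z, QQ_ring z with
    norm_mul_le := QQ_norm_mul z }

noncomputable instance QQ_algebra {B : Type} [CStarAlgebra B] (z : B) : Algebra ℂ (QQ z) :=
  inferInstanceAs (Algebra ℂ (B ⧸ QJ z))

theorem QQ_mk_smul {B : Type} [CStarAlgebra B] (z : B) (c : ℂ) (b : B) :
    QQmk z (c • b) = c • QQmk z b := rfl

noncomputable instance QQ_normedAlgebra {B : Type} [CStarAlgebra B] (z : B) :
    NormedAlgebra ℂ (QQ z) :=
  { QQ_algebra z with
    norm_smul_le := by
      intro c a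
      obtain ⟨a, rfl⟩ := QQ_surj z a
      refine le_of_forall_pos_le_add fun ε hε => ?_
      obtain ⟨j, hj, hj'⟩ := QQ_norm_lt z a (lt_add_of_pos_right _
        (show 0 < ε / (‖c‖ + 1) by positivity))
      have e1 : QQmk z j = 0 := Ideal.Quotient.eq_zero_iff_mem.2 hj
      have h2 : c • QQmk z a = QQmk z (c • (a + j)) := by
        rw [QQ_mk_smul, map_add, e1, add_zero]
      have h3 : ‖c • QQmk z a‖ ≤ ‖c‖ * ‖a + j‖ := by
        rw [h2]
        exact (QQ_norm_le' z _).trans (norm_smul_le c _)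
      have h4 : ‖c‖ * (ε / (‖c‖ + 1)) ≤ ε := by
        rw [mul_div_assoc', div_le_iff₀ (by positivity)]
        nlinarith [norm_nonneg c]
      calc ‖c • QQmk z a‖ ≤ ‖c‖ * ‖a + j‖ := h3
        _ ≤ ‖c‖ * (‖QQmk z a‖ + ε / (‖c‖ + 1)) := by gcongr
        _ ≤ ‖c‖ * ‖QQmk z a‖ + ε := by rw [mul_add]; linarith }

instance QQ_complete {B : Type} [CStarAlgebra B] (z : B) : CompleteSpace (QQ z) :=
  inferInstanceAs (CompleteSpace (B ⧸ QJ z))

/-- the star operation on the quotient -/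
noncomputable def QQstar {B : Type} [CStarAlgebra B] {z : B} (hz : IsSelfAdjoint z) (a : QQ z) : QQ z :=
  Quotient.liftOn a (fun b : B => QQmk z (star b)) fun b c h => by
    have h1 : b - c ∈ QJ z := (Submodule.quotientRel_def (QJ z)).1 h
    refine Ideal.Quotient.eq.2 ?_
    rw [← star_sub]
    exact QJ_star hz h1

theorem QQstar_mk {B : Type} [CStarAlgebra B] {z : B} (hz : IsSelfAdjoint z) (b : B) :
    QQstar hz (QQmk z b) = QQmk z (star b) := rfl

/-- the star ring structure on the quotient -/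
@[reducible] noncomputable def QQ_starRing {B : Type} [CStarAlgebra B] {z : B} (hz : IsSelfAdjoint z) :
    StarRing (QQ z) where
  star := QQstar hz
  star_involutive := by
    intro a
    obtain ⟨a, rfl⟩ := QQ_surj z a
    rw [QQstar_mk, QQstar_mk, star_star]
  star_mul := by
    intro a b
    obtain ⟨a, rfl⟩ := QQ_surj z a
    obtain ⟨b, rfl⟩ := QQ_surj z b
    rw [← map_mul, QQstar_mk, QQstar_mk, QQstar_mk, star_mul, map_mul]
  star_add := by
    intro a b
    obtain ⟨a, rfl⟩ := QQ_surj z a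
    obtain ⟨b, rfl⟩ := QQ_surj z b
    rw [← map_add, QQstar_mk, QQstar_mk, QQstar_mk, star_add, map_add]

/-- the C*-algebra structure on the quotient -/
@[reducible] noncomputable def QQ_cstarAlgebra {B : Type} [CStarAlgebra B] {z : B}
    (hz : IsSelfAdjoint z) : CStarAlgebra (QQ z) :=
  { QQ_normedRing z, QQ_normedAlgebra z, QQ_starRing hz, QQ_complete z with
    norm_mul_self_le := by
      intro a
      obtain ⟨a, rfl⟩ := QQ_surj z a
      have := QJ_cstar z a
      rw [sq] at this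
      exact this
    star_smul := by
      intro c a
      obtain ⟨a, rfl⟩ := QQ_surj z a
      change QQstar hz (c • QQmk z a) = star c • QQstar hz (QQmk z a)
      rw [← QQ_mk_smul, QQstar_mk, QQstar_mk, star_smul, QQ_mk_smul] }

theorem quotient_exists {B : Type} [CStarAlgebra B] (z : B) (hz : IsSelfAdjoint z) :
    ∃ (A : Type) (_ : CStarAlgebra A) (π : B →⋆ₐ[ℂ] A), Function.Surjective π ∧
      (∀ b, π b = 0 ↔ b ∈ closure (idealGen z)) ∧
      ∀ (b : B) (r : ℝ), ‖π b‖ < r → ∃ j ∈ closure (idealGen z), ‖b + j‖ < r := by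
  let _ : CStarAlgebra (QQ z) := QQ_cstarAlgebra hz
  refine ⟨QQ z, QQ_cstarAlgebra hz, { QQmk z with
    commutes' := fun c => rfl
    map_star' := fun b => (QQstar_mk hz b).symm }, QQ_surj z, fun b => ?_, fun b r h => ?_⟩
  · exact Ideal.Quotient.eq_zero_iff_mem
  · exact QQ_norm_lt z b h

end Crest.Agent.QT
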