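import Crest.Agent.QT_DimProps

/-!
Task QT-TT (medium).  Basic properties of `TR`, `TT` (see `QT_Defs`): `pp h t = (h-t)_+` by the real
continuous functional calculus.
* for `t ≥ ‖h‖`: `pp h t = 0`, `D = 0`.  For `t < -‖h‖`: `pp h t = h - t ≥ (−‖h‖−t)·1`, `D = 1` (IsDim.of_isUnit).
* `t ↦ D (pp h t)` is antitone with values in [0,1] (`pp h t' ≤ pp h t` for `t ≤ t'`), so interval integrable.
* `TT_smul`: `pp (c•h) (c t) = c • pp h t`, `IsDim.smul`, substitution in the integral
  (`c = 0`: TT D 0 = 0).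
-/

set_option autoImplicit false

namespace Crest.Agent.QT

variable {B : Type*} [CStarAlgebra B] [PartialOrder B] [StarOrderedRing B] {D : B → ℝ}

theorem pp_nonneg (h : B) (t : ℝ) : 0 ≤ pp h t := by
  unfold pp
  exact cfc_nonneg fun x _ => le_max_right _ _

theorem pp_antitone (hD : IsDim D) {h : B} (hh : IsSelfAdjoint h) :
    Antitone (fun t : ℝ => D (pp h t)) := by
  intro t t' htt
  refine hD.le_of_le (pp_nonneg h t') ?_
  unfold pp
  refine cfc_mono (fun x _ => ?_) (by fun_prop) (by fun_prop)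
  exact max_le_max (by linarith) le_rfl

private theorem TT_abs_le {h : B} {x : ℝ} (hx : x ∈ spectrum ℝ h) : |x| ≤ ‖h‖ := by
  have hnt : Nontrivial B := by
    by_contra hn
    rw [not_nontrivial_iff_subsingleton] at hn
    rw [spectrum.of_subsingleton] at hx
    exact hx
  rw [← Real.norm_eq_abs]
  exact spectrum.norm_le_norm_of_mem hx

private theorem TT_pp_zero {h : B} {t : ℝ} (ht : ‖h‖ ≤ t) : pp h t = 0 := by
  unfold pp
  have : cfc (fun s : ℝ => max (s - t) 0) h = cfc (fun _ : ℝ => (0 : ℝ)) h := by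
    refine cfc_congr fun x hx => ?_
    have h2 := (abs_le.mp (TT_abs_le hx)).2
    exact max_eq_right (by linarith)
  rw [this]
  simp

/-- `pp h t` is bounded below by `c` as soon as all `x - t ≥ c > 0` on the spectrum. -/
private theorem TT_D_one (hD : IsDim D) {h : B} (hh : IsSelfAdjoint h) {t c : ℝ} (hc : 0 < c)
    (hx : ∀ x ∈ spectrum ℝ h, c ≤ x - t) : D (pp h t) = 1 := by
  refine hD.of_isUnit hc ?_
  unfold pp
  rw [← cfc_const (R := ℝ) c h hh]
  refine cfc_mono (fun x hx' => ?_) (by fun_prop) (by fun_prop)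
  exact (hx x hx').trans (le_max_left _ _)

private theorem TT_D_one' (hD : IsDim D) {h : B} (hh : IsSelfAdjoint h) {t : ℝ} (ht : t < -‖h‖) :
    D (pp h t) = 1 := by
  refine TT_D_one hD hh (c := -‖h‖ - t) (by linarith) fun x hx => ?_
  have h2 := (abs_le.mp (TT_abs_le hx)).1
  linarith

private theorem TT_int (hD : IsDim D) {h : B} (hh : IsSelfAdjoint h) (a b : ℝ) :
    IntervalIntegrable (fun t : ℝ => D (pp h t)) MeasureTheory.volume a b :=
  (pp_antitone hD hh).intervalIntegrable

theorem TR_eq_TT (hD : IsDim D) {h : B} (hh : IsSelfAdjoint h) {R : ℝ} (hR : ‖h‖ ≤ R) :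
    TR D R h = TT D h := by
  unfold TT TR
  rw [← intervalIntegral.integral_add_adjacent_intervals (TT_int hD hh (-R) (-‖h‖))
    (TT_int hD hh (-‖h‖) R), ← intervalIntegral.integral_add_adjacent_intervals
    (TT_int hD hh (-‖h‖) ‖h‖) (TT_int hD hh ‖h‖ R)]
  have e1 : ∫ t in (-R)..(-‖h‖), D (pp h t) = ∫ t in (-R)..(-‖h‖), (1 : ℝ) := by
    rw [intervalIntegral.integral_of_le (by linarith), intervalIntegral.integral_of_le (by linarith),
      MeasureTheory.integral_Ioc_eq_integral_Ioo, MeasureTheory.integral_Ioc_eq_integral_Ioo]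
    exact MeasureTheory.setIntegral_congr_fun measurableSet_Ioo fun t ht =>
      TT_D_one' hD hh ht.2
  have e2 : ∫ t in (‖h‖)..R, D (pp h t) = ∫ t in (‖h‖)..R, (0 : ℝ) := by
    refine intervalIntegral.integral_congr fun t ht => ?_
    rw [Set.uIcc_of_le hR] at ht
    rw [TT_pp_zero ht.1, hD.zero]
  rw [e1, e2]
  simp
  ring

theorem TT_smul (hD : IsDim D) {h : B} (hh : IsSelfAdjoint h) {c : ℝ} (hc : 0 ≤ c) :
    TT D (c • h) = c * TT D h := by
  rcases hc.eq_or_lt with h0 | h0
  · subst h0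
    simp [TT, TR]
  · have key : ∀ u : ℝ, D (pp (c • h) (c * u)) = D (pp h u) := by
      intro u
      have : pp (c • h) (c * u) = c • pp h u := by
        unfold pp
        rw [← cfc_comp_smul c (fun s : ℝ => max (s - c * u) 0) h (by fun_prop) hh,
          ← cfc_smul c (fun s : ℝ => max (s - u) 0) h (by fun_prop)]
        refine cfc_congr fun x _ => ?_
        simp only [smul_eq_mul]
        rw [mul_max_of_nonneg _ _ h0.le]
        ring_nf
      rw [this, hD.smul (pp_nonneg h u) h0]
    unfold TT TR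
    have hn : ‖c • h‖ = c * ‖h‖ := by rw [norm_smul, Real.norm_eq_abs, abs_of_pos h0]
    rw [hn]
    have e1 : ∫ t in (-(c * ‖h‖))..(c * ‖h‖), D (pp (c • h) t) =
        c * ∫ u in (-‖h‖)..‖h‖, D (pp h u) := by
      have := intervalIntegral.integral_comp_mul_left (a := -‖h‖) (b := ‖h‖)
        (fun t : ℝ => D (pp (c • h) t)) h0.ne'
      simp only [key] at this
      rw [this, smul_eq_mul, ← mul_assoc, mul_inv_cancel₀ h0.ne', one_mul]
      ring_nf
    rw [e1]
    ring

theorem TT_nonneg (hD : IsDim D) {h : B} (hh : 0 ≤ h) : 0 ≤ TT D h := by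
  have hsa : IsSelfAdjoint h := IsSelfAdjoint.of_nonneg hh
  unfold TT TR
  rw [← intervalIntegral.integral_add_adjacent_intervals (TT_int hD hsa (-‖h‖) 0)
    (TT_int hD hsa 0 ‖h‖)]
  have e1 : ∫ t in (-‖h‖)..0, D (pp h t) = ∫ t in (-‖h‖)..0, (1 : ℝ) := by
    have hn := norm_nonneg h
    rw [intervalIntegral.integral_of_le (by linarith), intervalIntegral.integral_of_le (by linarith),
      MeasureTheory.integral_Ioc_eq_integral_Ioo, MeasureTheory.integral_Ioc_eq_integral_Ioo]
    refine MeasureTheory.setIntegral_congr_fun measurableSet_Ioo fun t ht => ?_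
    refine TT_D_one hD hsa (c := -t) (by linarith [ht.2]) fun x hx => ?_
    have := spectrum_nonneg_of_nonneg hh hx
    linarith
  have e2 : 0 ≤ ∫ t in (0)..‖h‖, D (pp h t) :=
    intervalIntegral.integral_nonneg (norm_nonneg h) fun t _ => hD.nonneg (pp_nonneg h t)
  rw [e1]
  simp
  linarith

theorem TT_zero (hD : IsDim D) : TT D (0 : B) = 0 := by
  simp [TT, TR]

theorem TT_one (hD : IsDim D) : TT D (1 : B) = 1 := by
  have hnt : Nontrivial B := by
    by_contra hn
    rw [not_nontrivial_iff_subsingleton] at hn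
    have : (1 : B) = 0 := Subsingleton.elim _ _
    have h1 := hD.one
    rw [this, hD.zero] at h1
    exact zero_ne_one h1
  have hsa : IsSelfAdjoint (1 : B) := IsSelfAdjoint.one B
  have hn : ‖(1 : B)‖ = 1 := CStarRing.norm_one
  unfold TT TR
  rw [hn]
  have e1 : ∫ t in (-1)..1, D (pp (1 : B) t) = ∫ t in (-1 : ℝ)..1, (1 : ℝ) := by
    rw [intervalIntegral.integral_of_le (by norm_num), intervalIntegral.integral_of_le (by norm_num),
      MeasureTheory.integral_Ioc_eq_integral_Ioo, MeasureTheory.integral_Ioc_eq_integral_Ioo]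
    refine MeasureTheory.setIntegral_congr_fun measurableSet_Ioo fun t ht => ?_
    refine TT_D_one hD hsa (c := 1 - t) (by linarith [ht.2]) fun x hx => ?_
    rw [spectrum.one_eq, Set.mem_singleton_iff] at hx
    rw [hx]
  rw [e1]
  norm_num

end Crest.Agent.QT
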