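import Crest.Agent.QT_PX

/-!
Definitions for the topological lemma.
-/

set_option autoImplicit false

namespace Crest.Agent.QT

/-- Smooth `ℂ*`-equivariant data on `ℂ^{n+1} ∖ 0` with values in `ℂ^{c+n}`: `c` invariant vector fields `P i` and an
equivariant one `p`, everywhere linearly independent.  (We prove that there is no such thing.) -/
def Bad (n c : ℕ) : Prop :=
  ∃ (P : Fin c → (Fin (n + 1) → ℂ) → (Fin (c + n) → ℂ)) (p : (Fin (n + 1) → ℂ) → (Fin (c + n) → ℂ)),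
    (∀ i, ContDiffOn ℝ 1 (P i) {0}ᶜ) ∧ ContDiffOn ℝ 1 p {0}ᶜ ∧
    (∀ i x (l : ℂ), x ≠ 0 → l ≠ 0 → P i (l • x) = P i x) ∧
    (∀ x (l : ℂ), x ≠ 0 → l ≠ 0 → p (l • x) = l • p x) ∧
    ∀ x, x ≠ 0 → ∀ (s : Fin c → ℂ) (t : ℂ), ∑ i, s i • P i x + t • p x = 0 → (∀ i, s i = 0) ∧ t = 0

end Crest.Agent.QT
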