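import Crest.Agent.QT_TopDefs
import Crest.Agent.LT_T33

/-!
Task QT-TopZB (medium).  Homotopy + Brouwer.  `x = (x', x_m)`, `x' = Fin.init x ∈ ℂ^m`, `x_m = x (Fin.last m)`.
`F (x) = (a x' + b q(x), a x_m + c)` with `a, b, c` piecewise linear functions of `‖x‖`: continuous and non-vanishing on the
closed unit ball, `F x = x` on the unit sphere.  `x ↦ -F(x)/‖F(x)‖` maps the ball continuously to the unit sphere; a fixed point
(`Crest.Agent.LT.brouwer_convex`) has norm 1, so `F x = x`, `x = -x`: contradiction.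
-/

set_option autoImplicit false

namespace Crest.Agent.QT

open Set Filter Topology

noncomputable def zbA (t : ℝ) : ℝ := max 0 (3 * t - 2)
noncomputable def zbB (t : ℝ) : ℝ := max 0 (min (3 - 3 * t) (3 * t - 1))
noncomputable def zbC (t : ℝ) : ℝ := min 1 (max 0 (2 - 3 * t))

theorem zbA_cont : Continuous zbA := by unfold zbA; fun_prop
theorem zbB_cont : Continuous zbB := by unfold zbB; fun_prop
theorem zbC_cont : Continuous zbC := by unfold zbC; fun_prop

noncomputable def zbF (m : ℕ) (q : (Fin (m + 1) → ℂ) → (Fin m → ℂ)) (x : Fin (m + 1) → ℂ) :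
    Fin (m + 1) → ℂ :=
  Fin.snoc (α := fun _ => ℂ)
    (fun i : Fin m => (zbA ‖x‖ : ℂ) * x i.castSucc + (zbB ‖x‖ : ℂ) * q x i)
    ((zbA ‖x‖ : ℂ) * x (Fin.last m) + (zbC ‖x‖ : ℂ))

theorem zbF_castSucc (m : ℕ) (q : (Fin (m + 1) → ℂ) → (Fin m → ℂ)) (x : Fin (m + 1) → ℂ) (i : Fin m) :
    zbF m q x i.castSucc = (zbA ‖x‖ : ℂ) * x i.castSucc + (zbB ‖x‖ : ℂ) * q x i := by
  simp [zbF]

theorem zbF_last (m : ℕ) (q : (Fin (m + 1) → ℂ) → (Fin m → ℂ)) (x : Fin (m + 1) → ℂ) :
    zbF m q x (Fin.last m) = (zbA ‖x‖ : ℂ) * x (Fin.last m) + (zbC ‖x‖ : ℂ) := by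
  simp [zbF]

theorem zbF_cont (m : ℕ) (q : (Fin (m + 1) → ℂ) → (Fin m → ℂ)) (hq : ContinuousOn q {0}ᶜ) :
    Continuous (zbF m q) := by
  refine continuous_pi fun j => ?_
  induction j using Fin.lastCases with
  | last =>
    simp only [zbF_last]
    have := zbA_cont
    have := zbC_cont
    fun_prop
  | cast i =>
    simp only [zbF_castSucc]
    refine Continuous.add (by have := zbA_cont; fun_prop) ?_
    rw [continuous_iff_continuousAt]
    intro x
    by_cases hx : x = 0
    · subst hx
      have h : (fun x : Fin (m + 1) → ℂ => (zbB ‖x‖ : ℂ) * q x i) =ᶠ[𝓝 0] fun _ => 0 := by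
        have : Metric.ball (0 : Fin (m + 1) → ℂ) (1/3) ∈ 𝓝 (0 : Fin (m + 1) → ℂ) :=
          Metric.ball_mem_nhds _ (by norm_num)
        filter_upwards [this] with y hy
        rw [mem_ball_zero_iff] at hy
        have : zbB ‖y‖ = 0 := by
          unfold zbB
          apply max_eq_left
          exact (min_le_right _ _).trans (by linarith)
        simp [this]
      exact (continuousAt_const.congr h.symm)
    · have h1 : ContinuousAt q x := hq.continuousAt (isOpen_compl_singleton.mem_nhds hx)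
      have h2 : ContinuousAt (fun y => q y i) x := (continuous_apply i).continuousAt.comp h1
      have h3 : ContinuousAt (fun y : Fin (m + 1) → ℂ => (zbB ‖y‖ : ℂ)) x := by
        have := zbB_cont
        exact Continuous.continuousAt (by fun_prop)
      exact h3.mul h2

theorem zbF_ne (m : ℕ) (q : (Fin (m + 1) → ℂ) → (Fin m → ℂ))
    (hne : ∀ x, x ≠ 0 → q x ≠ 0)
    (hr : ∀ x : Fin (m + 1) → ℂ, x ≠ 0 → x (Fin.last m) = 0 → ∀ r : ℝ, 0 ≤ r →
      q x + (r : ℂ) • (fun i : Fin m => x i.castSucc) ≠ 0) (x : Fin (m + 1) → ℂ) (hx : ‖x‖ ≤ 1) :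
    zbF m q x ≠ 0 := by
  intro h0
  have hl := congrFun h0 (Fin.last m)
  have hc : ∀ i : Fin m, _ := fun i => congrFun h0 i.castSucc
  simp only [zbF_last, zbF_castSucc, Pi.zero_apply] at hl hc
  rcases lt_or_ge ‖x‖ (2/3) with h | h
  · have ha : zbA ‖x‖ = 0 := max_eq_left (by linarith)
    have hcc : 0 < zbC ‖x‖ := by
      unfold zbC
      apply lt_min one_pos
      exact lt_max_of_lt_right (by linarith)
    rw [ha] at hl
    simp only [Complex.ofReal_zero, zero_mul, zero_add] at hl
    exact hcc.ne' (by exact_mod_cast hl)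
  · have hx0 : x ≠ 0 := by
      rintro rfl
      rw [norm_zero] at h
      norm_num at h
    have hcc : zbC ‖x‖ = 0 := by
      unfold zbC
      rw [max_eq_left (by linarith)]
      simp
    rw [hcc] at hl
    have hb : zbB ‖x‖ = 3 - 3 * ‖x‖ := by
      unfold zbB
      rw [min_eq_left (by linarith), max_eq_right (by linarith)]
    have ha : zbA ‖x‖ = 3 * ‖x‖ - 2 := max_eq_right (by linarith)
    rcases eq_or_lt_of_le h with h1 | h1
    · apply hne x hx0
      funext i
      have := hc i
      rw [ha, hb, ← h1] at this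
      norm_num at this
      simpa using this
    · have hapos : 0 < zbA ‖x‖ := by rw [ha]; linarith
      have hxm : x (Fin.last m) = 0 := by
        have h3 : (zbA ‖x‖ : ℂ) ≠ 0 := by exact_mod_cast hapos.ne'
        simpa [h3] using hl
      rcases eq_or_lt_of_le hx with h2 | h2
      · apply hx0
        have hb0 : zbB ‖x‖ = 0 := by rw [hb, h2]; norm_num
        funext j
        induction j using Fin.lastCases with
        | last => exact hxm
        | cast i =>
          have := hc i
          have h3 : (zbA ‖x‖ : ℂ) ≠ 0 := by exact_mod_cast hapos.ne'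
          rw [hb0] at this
          simpa [h3] using this
      · have hbpos : 0 < zbB ‖x‖ := by rw [hb]; linarith
        apply hr x hx0 hxm (zbA ‖x‖ / zbB ‖x‖) (by positivity)
        funext i
        have h3 := hc i
        have h4 : (zbB ‖x‖ : ℂ) ≠ 0 := by exact_mod_cast hbpos.ne'
        simp only [Pi.add_apply, Pi.smul_apply, smul_eq_mul, Pi.zero_apply, Complex.ofReal_div]
        field_simp
        linear_combination h3

theorem homotopy_contra (m : ℕ) (q : (Fin (m + 1) → ℂ) → (Fin m → ℂ)) (hq : ContinuousOn q {0}ᶜ)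
    (hne : ∀ x, x ≠ 0 → q x ≠ 0)
    (hr : ∀ x : Fin (m + 1) → ℂ, x ≠ 0 → x (Fin.last m) = 0 → ∀ r : ℝ, 0 ≤ r →
      q x + (r : ℂ) • (fun i : Fin m => x i.castSucc) ≠ 0) : False := by
  have hFc := zbF_cont m q hq
  have hFn := zbF_ne m q hne hr
  have hb : IsCompact (Metric.closedBall (0 : Fin (m + 1) → ℂ) 1) := isCompact_closedBall _ _
  have hcv : Convex ℝ (Metric.closedBall (0 : Fin (m + 1) → ℂ) 1) := convex_closedBall _ _
  have hnorm : ∀ x : Fin (m + 1) → ℂ, ‖x‖ ≤ 1 → ‖-((‖zbF m q x‖)⁻¹ • zbF m q x)‖ = 1 := by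
    intro x hx
    rw [norm_neg, norm_smul, norm_inv, norm_norm]
    exact inv_mul_cancel₀ (norm_ne_zero_iff.2 (hFn x hx))
  obtain ⟨x, hx, hfix⟩ := LT.brouwer_convex hcv hb ⟨0, by simp⟩
    (fun x => -((‖zbF m q x‖)⁻¹ • zbF m q x))
    (by
      refine ContinuousOn.neg (ContinuousOn.smul (f := fun x => (‖zbF m q x‖)⁻¹) (g := fun x => zbF m q x) ?_
        hFc.continuousOn)
      refine ContinuousOn.inv₀ hFc.norm.continuousOn ?_
      intro x hx
      exact norm_ne_zero_iff.2 (hFn x (mem_closedBall_zero_iff.1 hx)))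
    (by
      intro x hx
      rw [mem_closedBall_zero_iff]
      exact (hnorm x (mem_closedBall_zero_iff.1 hx)).le)
  have hx1 : ‖x‖ = 1 := by
    rw [← hfix]
    exact hnorm x (mem_closedBall_zero_iff.1 hx)
  have hFx : zbF m q x = x := by
    have ha : zbA ‖x‖ = 1 := by rw [hx1]; unfold zbA; norm_num
    have hb : zbB ‖x‖ = 0 := by rw [hx1]; unfold zbB; norm_num
    have hc : zbC ‖x‖ = 0 := by rw [hx1]; unfold zbC; norm_num
    funext j
    induction j using Fin.lastCases with
    | last => rw [zbF_last, ha, hc]; simp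
    | cast i => rw [zbF_castSucc, ha, hb]; simp
  rw [hFx, hx1] at hfix
  simp only [inv_one, one_smul] at hfix
  have : x = 0 := by
    have h2 : (2 : ℝ) • x = 0 := by
      rw [two_smul]
      nth_rewrite 1 [← hfix]
      simp
    simpa using h2
  rw [this, norm_zero] at hx1
  norm_num at hx1

end Crest.Agent.QT
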