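import Crest.Agent.QT_TopZA
import Crest.Agent.QT_TopZB

/-!
Task QT-TopZero (easy/medium; from `small_E` and `homotopy_contra`).  No `C¹` equivariant `p : ℂ^{n+1}∖0 → ℂ^n∖0`
(`Bad n 0`; identify `Fin (0+n)` and `Fin n`).  Write `x = (x', x_n)`, `p₀(x') = p(x', 0)` (`C¹`, equivariant).
`|p x| ≥ δ₀ |x|` by equivariance and compactness of the unit sphere; choose `E` from `small_E` for `p₀` with entries so small
that `p_E(x) = p(x) + E x'` is `≠ 0` for `x ≠ 0`; apply `homotopy_contra` to `q = p_E`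
(`n = 0` is covered too: `p x ∈ ℂ^0` is `0`, contradiction to the independence.)
-/

set_option autoImplicit false

namespace Crest.Agent.QT

open scoped Matrix

private theorem TZ_low {n : ℕ} {q : (Fin (n + 1) → ℂ) → (Fin n → ℂ)} (hq : ContinuousOn q {0}ᶜ)
    (hl : ∀ x (l : ℂ), x ≠ 0 → l ≠ 0 → q (l • x) = l • q x) (hne : ∀ x, x ≠ 0 → q x ≠ 0) :
    ∃ δ : ℝ, 0 < δ ∧ ∀ x, δ * ‖x‖ ≤ ‖q x‖ := by
  have hcomp : IsCompact (Metric.sphere (0 : Fin (n + 1) → ℂ) 1) := isCompact_sphere _ _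
  have hsub : Metric.sphere (0 : Fin (n + 1) → ℂ) 1 ⊆ {0}ᶜ := by
    intro x hx h0
    rw [Set.mem_singleton_iff] at h0
    subst h0
    simp at hx
  have hnonempty : (Metric.sphere (0 : Fin (n + 1) → ℂ) 1).Nonempty :=
    NormedSpace.sphere_nonempty.2 zero_le_one
  obtain ⟨x0, hx0, hmin⟩ := hcomp.exists_isMinOn hnonempty (hq.mono hsub).norm
  refine ⟨‖q x0‖, norm_pos_iff.2 (hne x0 (hsub hx0)), fun x => ?_⟩
  by_cases hx : x = 0
  · subst hx
    simp
  · have hn : 0 < ‖x‖ := norm_pos_iff.2 hx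
    have hl0 : ((‖x‖ : ℝ) : ℂ) ≠ 0 := by exact_mod_cast hn.ne'
    have hu : ((‖x‖ : ℝ) : ℂ)⁻¹ • x ∈ Metric.sphere (0 : Fin (n + 1) → ℂ) 1 := by
      rw [mem_sphere_zero_iff_norm, norm_smul, norm_inv, Complex.norm_real, norm_norm,
        inv_mul_cancel₀ hn.ne']
    have hu0 : ((‖x‖ : ℝ) : ℂ)⁻¹ • x ≠ 0 := hsub hu
    have e : q x = ((‖x‖ : ℝ) : ℂ) • q (((‖x‖ : ℝ) : ℂ)⁻¹ • x) := by
      rw [← hl _ _ hu0 hl0, smul_smul, mul_inv_cancel₀ hl0, one_smul]
    have h1 : ‖q x0‖ ≤ ‖q (((‖x‖ : ℝ) : ℂ)⁻¹ • x)‖ := hmin hu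
    rw [e, norm_smul, Complex.norm_real, norm_norm, mul_comm]
    exact mul_le_mul_of_nonneg_left h1 hn.le

private theorem TZ_mulVec {n : ℕ} {E : Matrix (Fin n) (Fin n) ℂ} {δ : ℝ}
    (hE : ∀ i j, ‖E i j‖ < δ) (hδ : 0 < δ) (x : Fin (n + 1) → ℂ) :
    ‖E *ᵥ (fun i : Fin n => x i.castSucc)‖ ≤ n * δ * ‖x‖ := by
  rw [pi_norm_le_iff_of_nonneg (by positivity)]
  intro i
  unfold Matrix.mulVec dotProduct
  refine (norm_sum_le _ _).trans ?_
  calc ∑ j, ‖E i j * x j.castSucc‖ ≤ ∑ j : Fin n, δ * ‖x‖ := by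
        refine Finset.sum_le_sum fun j _ => ?_
        rw [norm_mul]
        exact mul_le_mul (hE i j).le (norm_le_pi_norm x _) (norm_nonneg _) hδ.le
    _ = n * δ * ‖x‖ := by
        rw [Finset.sum_const, Finset.card_univ, Fintype.card_fin, nsmul_eq_mul]
        ring

theorem not_bad_zero (n : ℕ) : ¬ Bad n 0 := by
  rintro ⟨P, p, -, hp, -, hpl, hind⟩
  -- transport to `Fin n`
  set q : (Fin (n + 1) → ℂ) → (Fin n → ℂ) := fun x i => p x (Fin.cast (Nat.zero_add n).symm i)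
    with hqdef
  have hqC : ContDiffOn ℝ 1 q {0}ᶜ := by
    rw [contDiffOn_pi]
    intro i
    exact (contDiffOn_pi.1 hp) _
  have hql : ∀ x (l : ℂ), x ≠ 0 → l ≠ 0 → q (l • x) = l • q x := by
    intro x l hx hl
    funext i
    simp only [hqdef, hpl x l hx hl, Pi.smul_apply]
  have hqne : ∀ x, x ≠ 0 → q x ≠ 0 := by
    intro x hx h0
    have hp0 : p x = 0 := by
      funext j
      have := congrFun h0 (Fin.cast (Nat.zero_add n) j)
      simpa [hqdef] using this
    have := (hind x hx (fun _ => 0) 1 (by simp [hp0])).2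
    exact one_ne_zero this
  obtain ⟨δ₀, hδ₀, hlow⟩ := TZ_low hqC.continuousOn hql hqne
  -- restriction to the hyperplane
  let J : (Fin n → ℂ) → (Fin (n + 1) → ℂ) := fun y => Fin.snoc (α := fun _ => ℂ) y 0
  have hJ0 : ∀ y, y ≠ 0 → J y ≠ 0 := by
    intro y hy h0
    apply hy
    funext i
    have := congrFun h0 i.castSucc
    simpa [J] using this
  have hJl : ∀ (y : Fin n → ℂ) (l : ℂ), J (l • y) = l • J y := by
    intro y l
    funext i
    refine Fin.lastCases ?_ (fun j => ?_) i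
    · simp [J]
    · simp [J]
  have hJC : ContDiff ℝ 1 J := by
    rw [contDiff_pi]
    intro i
    refine Fin.lastCases ?_ (fun j => ?_) i
    · simp only [J, Fin.snoc_last]
      exact contDiff_const
    · simp only [J, Fin.snoc_castSucc]
      exact contDiff_apply ℝ ℂ j
  have hp0C : ContDiffOn ℝ 1 (fun y => q (J y)) {0}ᶜ := by
    refine hqC.comp hJC.contDiffOn fun y hy => ?_
    exact hJ0 y hy
  obtain ⟨E, hEsmall, hE⟩ := small_E n (fun y => q (J y)) hp0C (fun y l hy hl => by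
    show q (J (l • y)) = l • q (J y)
    rw [hJl]
    exact hql _ _ (hJ0 y hy) hl) (δ₀ / (n + 1)) (by positivity)
  refine homotopy_contra n (fun x => q x + E *ᵥ (fun i : Fin n => x i.castSucc)) ?_ ?_ ?_
  · refine hqC.continuousOn.add (Continuous.continuousOn ?_)
    refine Continuous.matrix_mulVec continuous_const ?_
    exact continuous_pi fun i => continuous_apply _
  · intro x hx h0
    have h1 := TZ_mulVec hEsmall (by positivity) x
    have h2 := hlow x
    have h3 : ‖q x‖ = ‖E *ᵥ (fun i : Fin n => x i.castSucc)‖ := by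
      rw [eq_neg_of_add_eq_zero_left h0, norm_neg]
    have hn : 0 < ‖x‖ := norm_pos_iff.2 hx
    have h4 : (n : ℝ) * (δ₀ / (n + 1)) * ‖x‖ < δ₀ * ‖x‖ := by
      refine mul_lt_mul_of_pos_right ?_ hn
      rw [mul_div_assoc', div_lt_iff₀ (by positivity)]
      nlinarith
    linarith
  · intro x hx hlast r hr
    have hxJ : x = J (fun i : Fin n => x i.castSucc) := by
      funext i
      refine Fin.lastCases ?_ (fun j => ?_) i
      · simp [J, hlast]
      · simp [J]
    have hx' : (fun i : Fin n => x i.castSucc) ≠ 0 := by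
      intro h0
      apply hx
      rw [hxJ, h0]
      funext i
      refine Fin.lastCases ?_ (fun j => ?_) i
      · simp [J]
      · simp [J]
    have := hE (fun i : Fin n => x i.castSucc) hx' r hr
    rwa [← hxJ] at this

end Crest.Agent.QT
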