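import Crest.Agent.QT_TopStep
import Crest.Agent.QT_TopZero

/-!
Task QT-TopMain (medium).  From continuous maps on `PX κ` to smooth data.
Let `card κ = n + 1`; reindex `κ ≃ Fin (n+1)`.  Suppose no solution.  Then for all unit `x`: the vectors
`(w(Px) e_i, A(Px) e_i)` (`i < b+1`) and `(0, x)` of `ℂ^b × ℂ^{n+1} ≅ ℂ^{(b+1)+n}` are linearly independent.  By compactness (unit
sphere × unit sphere of coefficients) there is `δ > 0` with `|∑ s_i (w e_i, A e_i) + t (0,x)| ≥ δ |(s,t)|`.
Approximate the entries of `w`, `A` uniformly on `PX κ` by restrictions of smooth functions of the matrix `P`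
(Stone-Weierstrass: the restrictions of `C^∞` functions on `Matrix κ κ ℂ` form a point separating subalgebra; or
`exists_contMDiffMap_forall_mem_convex_of_local_const` after a continuous (Tietze) extension to the whole matrix space, see
`LT_T32.T32_approx`).  Then `P_i(x) = (w̃(xx*/|x|²) e_i, Ã(..) e_i)`, `p(x) = (0,x)` show `Bad n (b+1)`; contradiction by
`bad_step` (iterated) and `not_bad_zero`.
-/

set_option autoImplicit false

namespace Crest.Agent.QT

open scoped Matrix ComplexConjugate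

/-- the inclusion of `PX κ` in the normed space `κ → κ → ℂ` -/
private def TM_inc {κ : Type*} [Fintype κ] (P : PX κ) : κ → κ → ℂ := fun i j => P.1 i j

private theorem TM_inc_cont {κ : Type*} [Fintype κ] : Continuous (TM_inc (κ := κ)) := by
  apply continuous_pi; intro i; apply continuous_pi; intro j
  exact (continuous_apply j).comp ((continuous_apply i).comp continuous_subtype_val)

/-- Stone-Weierstrass: real continuous functions are close to restrictions of `C^1` functions -/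
private theorem TM_approx_real {κ : Type*} [Fintype κ] (f : PX κ → ℝ) (hf : Continuous f) (η : ℝ)
    (hη : 0 < η) : ∃ g : (κ → κ → ℂ) → ℝ, ContDiff ℝ 1 g ∧ ∀ P : PX κ, |g (TM_inc P) - f P| < η := by
  let A : Subalgebra ℝ C(PX κ, ℝ) :=
    { carrier := {F | ∃ g : (κ → κ → ℂ) → ℝ, ContDiff ℝ 1 g ∧ ∀ P : PX κ, F P = g (TM_inc P)}
      mul_mem' := by
        rintro a b ⟨g, hg, hga⟩ ⟨h, hh, hhb⟩
        exact ⟨fun x => g x * h x, hg.mul hh, fun P => by simp [hga, hhb]⟩
      add_mem' := by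
        rintro a b ⟨g, hg, hga⟩ ⟨h, hh, hhb⟩
        exact ⟨fun x => g x + h x, hg.add hh, fun P => by simp [hga, hhb]⟩
      algebraMap_mem' := by
        intro r
        exact ⟨fun _ => r, contDiff_const, fun P => rfl⟩ }
  have hsep : A.SeparatesPoints := by
    intro P Q hPQ
    have : ∃ i j, P.1 i j ≠ Q.1 i j := by
      by_contra h
      push Not at h
      exact hPQ (Subtype.ext (Matrix.ext h))
    obtain ⟨i, j, hij⟩ := this
    have hij' : (P.1 i j).re ≠ (Q.1 i j).re ∨ (P.1 i j).im ≠ (Q.1 i j).im := by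
      by_contra h
      push Not at h
      exact hij (Complex.ext h.1 h.2)
    have hproj : ContDiff ℝ 1 (fun x : κ → κ → ℂ => x i j) :=
      contDiff_pi.1 (contDiff_pi.1 contDiff_id i) j
    rcases hij' with h | h
    · refine ⟨fun P => (P.1 i j).re, ⟨⟨fun P => (P.1 i j).re, ?_⟩, ?_, rfl⟩, h⟩
      · exact Complex.continuous_re.comp
          ((continuous_apply j).comp ((continuous_apply i).comp TM_inc_cont))
      · exact ⟨fun x => (x i j).re, Complex.reCLM.contDiff.comp hproj, fun P => rfl⟩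
    · refine ⟨fun P => (P.1 i j).im, ⟨⟨fun P => (P.1 i j).im, ?_⟩, ?_, rfl⟩, h⟩
      · exact Complex.continuous_im.comp
          ((continuous_apply j).comp ((continuous_apply i).comp TM_inc_cont))
      · exact ⟨fun x => (x i j).im, Complex.imCLM.contDiff.comp hproj, fun P => rfl⟩
  obtain ⟨⟨F, g, hg, hgF⟩, hF⟩ :=
    ContinuousMap.exists_mem_subalgebra_near_continuous_of_separatesPoints A hsep f hf η hη
  refine ⟨g, hg, fun P => ?_⟩
  have := hF P
  rw [← hgF P]
  simpa [Real.norm_eq_abs] using this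

private theorem TM_approx {κ : Type*} [Fintype κ] (f : PX κ → ℂ) (hf : Continuous f) (η : ℝ)
    (hη : 0 < η) : ∃ g : (κ → κ → ℂ) → ℂ, ContDiff ℝ 1 g ∧ ∀ P : PX κ, ‖g (TM_inc P) - f P‖ < η := by
  obtain ⟨g1, hg1, h1⟩ := TM_approx_real (fun P => (f P).re) (Complex.continuous_re.comp hf) (η / 2)
    (by positivity)
  obtain ⟨g2, hg2, h2⟩ := TM_approx_real (fun P => (f P).im) (Complex.continuous_im.comp hf) (η / 2)
    (by positivity)
  refine ⟨fun x => (g1 x : ℂ) + (g2 x : ℂ) * Complex.I, ?_, fun P => ?_⟩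
  · exact (Complex.ofRealCLM.contDiff.comp hg1).add
      ((Complex.ofRealCLM.contDiff.comp hg2).mul contDiff_const)
  · have h : (g1 (TM_inc P) : ℂ) + (g2 (TM_inc P) : ℂ) * Complex.I - f P =
        ((g1 (TM_inc P) - (f P).re : ℝ) : ℂ) + ((g2 (TM_inc P) - (f P).im : ℝ) : ℂ) * Complex.I := by
      conv_lhs => rw [← Complex.re_add_im (f P)]
      push_cast
      ring
    rw [h]
    calc _ ≤ ‖((g1 (TM_inc P) - (f P).re : ℝ) : ℂ)‖ +
          ‖((g2 (TM_inc P) - (f P).im : ℝ) : ℂ) * Complex.I‖ := norm_add_le _ _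
      _ < η / 2 + η / 2 := by
        rw [norm_mul, Complex.norm_I, mul_one, Complex.norm_real, Complex.norm_real]
        exact add_lt_add (h1 P) (h2 P)
      _ = η := by ring


/-- the smooth map `x ↦ x x* / |x|²` -/
private noncomputable def TM_pt {κ : Type*} [Fintype κ] (x : κ → ℂ) : κ → κ → ℂ :=
  fun i j => x i * conj (x j) / ((∑ l, ‖x l‖ ^ 2 : ℝ) : ℂ)

private theorem TM_sum_pos {κ : Type*} [Fintype κ] {x : κ → ℂ} (hx : x ≠ 0) :
    0 < ∑ l, ‖x l‖ ^ 2 := by
  obtain ⟨i, hi⟩ : ∃ i, x i ≠ 0 := by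
    by_contra h
    push Not at h
    exact hx (funext h)
  exact Finset.sum_pos' (fun i _ => by positivity) ⟨i, Finset.mem_univ _, by positivity⟩

private theorem TM_pt_cont {κ : Type*} [Fintype κ] :
    ContDiffOn ℝ 1 (TM_pt (κ := κ)) {0}ᶜ := by
  rw [contDiffOn_pi]; intro i
  rw [contDiffOn_pi]; intro j
  have hi : ∀ i, ContDiff ℝ 1 (fun x : κ → ℂ => x i) := fun i => contDiff_pi.1 contDiff_id i
  have h1 : ContDiff ℝ 1 (fun x : κ → ℂ => x i * conj (x j)) :=
    (hi i).mul (Complex.conjCLE.contDiff.comp (hi j))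
  have h2 : ContDiff ℝ 1 (fun x : κ → ℂ => ((∑ l, ‖x l‖ ^ 2 : ℝ) : ℂ)) :=
    Complex.ofRealCLM.contDiff.comp (ContDiff.sum fun l _ => (hi l).norm_sq ℝ)
  have h3 : ∀ x ∈ ({0}ᶜ : Set (κ → ℂ)), ((∑ l, ‖x l‖ ^ 2 : ℝ) : ℂ) ≠ 0 := by
    intro x hx
    exact_mod_cast (TM_sum_pos hx).ne'
  have : ContDiffOn ℝ 1 (fun x : κ → ℂ => x i * conj (x j) * ((∑ l, ‖x l‖ ^ 2 : ℝ) : ℂ)⁻¹) {0}ᶜ :=
    h1.contDiffOn.mul (h2.contDiffOn.inv h3)
  simpa only [TM_pt, div_eq_mul_inv] using this

private theorem TM_pt_inv {κ : Type*} [Fintype κ] (x : κ → ℂ) (l : ℂ) (hl : l ≠ 0) :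
    TM_pt (l • x) = TM_pt x := by
  funext i j
  simp only [TM_pt, Pi.smul_apply, smul_eq_mul, norm_mul, mul_pow, ← Finset.mul_sum, map_mul,
    Complex.ofReal_mul]
  have h : l * x i * (conj l * conj (x j)) = (l * conj l) * (x i * conj (x j)) := by ring
  rw [h, Complex.mul_conj']
  rw [Complex.ofReal_pow, mul_div_mul_left]
  exact pow_ne_zero _ (by exact_mod_cast (norm_ne_zero_iff.2 hl))

private theorem TM_pt_unit {κ : Type*} [Fintype κ] (x : κ → ℂ) (hx : ∑ i, ‖x i‖ ^ 2 = 1) :
    TM_pt x = TM_inc (PX.mk' x hx) := by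
  funext i j
  simp [TM_pt, TM_inc, PX.mk', hx, Matrix.vecMulVec]

private theorem TM_mk_cont {κ : Type*} [Fintype κ] :
    Continuous (fun x : {x : κ → ℂ // ∑ i, ‖x i‖ ^ 2 = 1} => PX.mk' x.1 x.2) := by
  apply Continuous.subtype_mk
  apply Continuous.matrix_vecMulVec continuous_subtype_val
  exact continuous_star.comp continuous_subtype_val

private theorem TM_sphere_compact {κ : Type*} [Fintype κ] :
    CompactSpace {x : κ → ℂ // ∑ i, ‖x i‖ ^ 2 = 1} := by
  apply isCompact_iff_compactSpace.1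
  apply Metric.isCompact_of_isClosed_isBounded
  · exact isClosed_eq (continuous_finsetSum _ fun i _ => ((continuous_apply i).norm).pow 2)
      continuous_const
  · refine (Metric.isBounded_iff_subset_closedBall 0).2 ⟨1, fun x hx => ?_⟩
    rw [mem_closedBall_zero_iff, pi_norm_le_iff_of_nonneg zero_le_one]
    intro i
    have h1 : ‖x i‖ ^ 2 ≤ ∑ i, ‖x i‖ ^ 2 :=
      Finset.single_le_sum (f := fun i => ‖x i‖ ^ 2) (fun j _ => by positivity) (Finset.mem_univ i)
    rw [hx] at h1
    nlinarith [norm_nonneg (x i)]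

theorem not_bad (n c : ℕ) : ¬ Bad n c := by
  induction c with
  | zero => exact not_bad_zero n
  | succ c ih => exact fun h => ih (bad_step n c h)

theorem topo {κ : Type} [Fintype κ] [Nonempty κ] (b : ℕ)
    (w : PX κ → Matrix (Fin b) (Fin (b + 1)) ℂ) (A : PX κ → Matrix κ (Fin (b + 1)) ℂ)
    (hw : Continuous w) (hA : Continuous A) :
    ∃ (x : κ → ℂ) (hx : ∑ i, ‖x i‖ ^ 2 = 1) (ξ : Fin (b + 1) → ℂ) (s : ℂ), ξ ≠ 0 ∧
      w (PX.mk' x hx) *ᵥ ξ = 0 ∧ A (PX.mk' x hx) *ᵥ ξ = s • x := by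
  by_contra hcon
  push Not at hcon
  obtain ⟨n, hn⟩ : ∃ n, Fintype.card κ = n + 1 :=
    Nat.exists_eq_succ_of_ne_zero Fintype.card_ne_zero
  let e : κ ≃ Fin (n + 1) := Fintype.equivFinOfCardEq hn
  have hV : Fintype.card (Fin b ⊕ κ) = b + 1 + n := by
    rw [Fintype.card_sum, Fintype.card_fin, hn]; omega
  let eV : Fin b ⊕ κ ≃ Fin (b + 1 + n) := Fintype.equivFinOfCardEq hV
  let U : PX κ → Fin (b + 1) → (Fin b ⊕ κ) → ℂ :=
    fun P i => Sum.elim (fun k => w P k i) (fun a => A P a i)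
  have hU : ∀ i v, Continuous (fun P => U P i v) := by
    intro i v
    rcases v with k | a
    · exact (continuous_apply i).comp ((continuous_apply k).comp hw)
    · exact (continuous_apply i).comp ((continuous_apply a).comp hA)
  let S : Type := {x : κ → ℂ // ∑ i, ‖x i‖ ^ 2 = 1}
  haveI : CompactSpace S := TM_sphere_compact
  let T : Set ((Fin (b + 1) → ℂ) × ℂ) := Metric.sphere 0 1
  haveI : CompactSpace T := isCompact_iff_compactSpace.1 (isCompact_sphere _ _)
  let Φ : S × T → (Fin b ⊕ κ → ℂ) := fun z v =>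
    ∑ i, z.2.1.1 i * U (PX.mk' z.1.1 z.1.2) i v + z.2.1.2 * Sum.elim (fun _ => 0) z.1.1 v
  have hΦc : Continuous Φ := by
    apply continuous_pi
    intro v
    have h1 : Continuous fun z : S × T => PX.mk' z.1.1 z.1.2 := TM_mk_cont.comp continuous_fst
    have h2 : ∀ i, Continuous fun z : S × T => z.2.1.1 i := fun i =>
      (continuous_apply i).comp
        (continuous_fst.comp (continuous_subtype_val.comp continuous_snd))
    have h3 : Continuous fun z : S × T => z.2.1.2 :=
      continuous_snd.comp (continuous_subtype_val.comp continuous_snd)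
    have h4 : Continuous fun z : S × T => Sum.elim (fun _ => (0 : ℂ)) z.1.1 v := by
      rcases v with k | a
      · exact continuous_const
      · exact (continuous_apply a).comp (continuous_subtype_val.comp continuous_fst)
    exact (continuous_finsetSum _ fun i _ => (h2 i).mul ((hU i v).comp h1)).add (h3.mul h4)
  have hΦ0 : ∀ z, Φ z ≠ 0 := by
    rintro ⟨⟨x, hx⟩, ⟨⟨s, t⟩, hst⟩⟩ hz
    have h1 : w (PX.mk' x hx) *ᵥ s = 0 := by
      funext k
      have := congrFun hz (Sum.inl k)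
      simp only [Φ, U, Sum.elim_inl, mul_zero, add_zero, Pi.zero_apply] at this
      simp only [Matrix.mulVec, dotProduct, Pi.zero_apply]
      rw [← this]
      exact Finset.sum_congr rfl fun i _ => mul_comm _ _
    have h2 : A (PX.mk' x hx) *ᵥ s = (-t) • x := by
      funext a
      have := congrFun hz (Sum.inr a)
      simp only [Φ, U, Sum.elim_inr, Pi.zero_apply] at this
      simp only [Matrix.mulVec, dotProduct, Pi.smul_apply, smul_eq_mul]
      have h3 : ∑ i, A (PX.mk' x hx) a i * s i = ∑ i, s i * A (PX.mk' x hx) a i :=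
        Finset.sum_congr rfl fun i _ => mul_comm _ _
      rw [h3]
      linear_combination this
    by_cases hs : s = 0
    · subst hs
      have hx0 : x ≠ 0 := by
        rintro rfl
        simp at hx
      simp only [Matrix.mulVec_zero] at h2
      have ht : t = 0 := by
        rcases smul_eq_zero.1 h2.symm with h | h
        · simpa using h
        · exact absurd h hx0
      subst ht
      have : ‖((0 : Fin (b + 1) → ℂ), (0 : ℂ))‖ = 1 := by simpa [T] using hst
      simp at this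
    · exact hcon x hx s (-t) hs h1 h2
  obtain ⟨δ, hδ, hδΦ⟩ : ∃ δ : ℝ, 0 < δ ∧ ∀ z, δ ≤ ‖Φ z‖ := by
    rcases isEmpty_or_nonempty (S × T) with h | h
    · exact ⟨1, one_pos, fun z => (h.false z).elim⟩
    · obtain ⟨z0, -, hz0⟩ := isCompact_univ.exists_isMinOn (s := (Set.univ : Set (S × T)))
        Set.univ_nonempty (hΦc.norm.continuousOn)
      exact ⟨‖Φ z0‖, norm_pos_iff.2 (hΦ0 z0), fun z => hz0 (Set.mem_univ z)⟩
  have hη : 0 < δ / (2 * (b + 1)) := by positivity
  choose g hgc hg using fun (i : Fin (b + 1)) (v : Fin b ⊕ κ) =>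
    TM_approx (fun P => U P i v) (hU i v) (δ / (2 * (b + 1))) hη
  -- unit vectors
  have key : ∀ (x : κ → ℂ) (hx : ∑ i, ‖x i‖ ^ 2 = 1) (s : Fin (b + 1) → ℂ) (t : ℂ),
      (∀ v, ∑ i, s i * g i v (TM_pt x) + t * Sum.elim (fun _ => 0) x v = 0) → s = 0 ∧ t = 0 := by
    intro x hx s t h
    by_contra hne
    have hst : ((s, t) : (Fin (b + 1) → ℂ) × ℂ) ≠ 0 := by
      intro h0
      exact hne ⟨congrArg Prod.fst h0, congrArg Prod.snd h0⟩
    set r : ℝ := ‖((s, t) : (Fin (b + 1) → ℂ) × ℂ)‖ with hr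
    have hr0 : 0 < r := norm_pos_iff.2 hst
    have hrc : ((r : ℝ) : ℂ) ≠ 0 := by exact_mod_cast hr0.ne'
    have hT : (((r : ℂ)⁻¹ • s, (r : ℂ)⁻¹ * t) : (Fin (b + 1) → ℂ) × ℂ) ∈ T := by
      have : (((r : ℂ)⁻¹ • s, (r : ℂ)⁻¹ * t) : (Fin (b + 1) → ℂ) × ℂ) =
          (r : ℂ)⁻¹ • ((s, t) : (Fin (b + 1) → ℂ) × ℂ) := rfl
      simp only [T, mem_sphere_iff_norm, sub_zero]
      rw [this, norm_smul, norm_inv, Complex.norm_real, Real.norm_eq_abs, abs_of_pos hr0, ← hr]
      exact inv_mul_cancel₀ hr0.ne'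
    have h1 := hδΦ (⟨x, hx⟩, ⟨_, hT⟩)
    have h2 : ‖Φ (⟨x, hx⟩, ⟨_, hT⟩)‖ ≤ δ / 2 := by
      rw [pi_norm_le_iff_of_nonneg (by positivity)]
      intro v
      have h3 : Φ (⟨x, hx⟩, ⟨_, hT⟩) v =
          ∑ i, ((r : ℂ)⁻¹ * s i) * (U (PX.mk' x hx) i v - g i v (TM_pt x)) := by
        have h4 := h v
        simp only [Φ, Pi.smul_apply, smul_eq_mul, mul_sub, Finset.sum_sub_distrib]
        have h5 : ∑ i, (r : ℂ)⁻¹ * s i * g i v (TM_pt x) =
            (r : ℂ)⁻¹ * ∑ i, s i * g i v (TM_pt x) := by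
          rw [Finset.mul_sum]
          exact Finset.sum_congr rfl fun i _ => by ring
        rw [h5]
        linear_combination (r : ℂ)⁻¹ * h4
      rw [h3]
      calc _ ≤ ∑ i : Fin (b + 1), ‖((r : ℂ)⁻¹ * s i) * (U (PX.mk' x hx) i v - g i v (TM_pt x))‖ :=
            norm_sum_le _ _
        _ ≤ ∑ i : Fin (b + 1), δ / (2 * (b + 1)) := by
            refine Finset.sum_le_sum fun i _ => ?_
            rw [norm_mul]
            have h6 : ‖(r : ℂ)⁻¹ * s i‖ ≤ 1 := by
              rw [norm_mul, norm_inv, Complex.norm_real, Real.norm_eq_abs, abs_of_pos hr0,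
                inv_mul_le_iff₀ hr0, mul_one]
              exact (norm_le_pi_norm s i).trans (norm_fst_le ((s, t) : (Fin (b + 1) → ℂ) × ℂ))
            have h7 : ‖U (PX.mk' x hx) i v - g i v (TM_pt x)‖ ≤ δ / (2 * (b + 1)) := by
              rw [TM_pt_unit x hx, norm_sub_rev]
              exact (hg i v (PX.mk' x hx)).le
            calc _ ≤ 1 * (δ / (2 * (b + 1))) := mul_le_mul h6 h7 (norm_nonneg _) zero_le_one
              _ = _ := one_mul _
        _ = δ / 2 := by
            rw [Finset.sum_const, Finset.card_univ, Fintype.card_fin, nsmul_eq_mul]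
            push_cast
            field_simp
    linarith
  apply not_bad n (b + 1)
  refine ⟨fun i y j => g i (eV.symm j) (TM_pt (y ∘ e)), fun y j =>
    Sum.elim (fun _ => 0) (y ∘ e) (eV.symm j), fun i => ?_, ?_, ?_, ?_, ?_⟩
  · rw [contDiffOn_pi]
    intro j
    refine (hgc i (eV.symm j)).comp_contDiffOn (TM_pt_cont.comp (t := {0}ᶜ) ?_ ?_)
    · apply ContDiff.contDiffOn
      rw [contDiff_pi]
      intro k
      exact contDiff_pi.1 contDiff_id (e k)
    · intro y hy h0
      apply hy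
      rw [Set.mem_singleton_iff] at h0 ⊢
      funext k
      have := congrFun h0 (e.symm k)
      simpa using this
  · rw [contDiffOn_pi]
    intro j
    apply ContDiff.contDiffOn
    rcases eV.symm j with k | a
    · exact contDiff_const
    · exact contDiff_pi.1 contDiff_id (e a)
  · intro i y l hy hl
    funext j
    have : (l • y) ∘ e = l • (y ∘ e) := rfl
    change g i (eV.symm j) (TM_pt ((l • y) ∘ e)) = g i (eV.symm j) (TM_pt (y ∘ e))
    rw [this, TM_pt_inv _ _ hl]
  · intro y l hy hl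
    funext j
    simp only [Pi.smul_apply, smul_eq_mul]
    rcases eV.symm j with k | a
    · simp
    · simp
  · intro y hy s t hst
    have hy0 : y ∘ e ≠ 0 := by
      intro h0
      apply hy
      funext k
      have := congrFun h0 (e.symm k)
      simpa using this
    set ρ : ℝ := Real.sqrt (∑ l, ‖(y ∘ e) l‖ ^ 2) with hρ
    have hρ0 : 0 < ρ := Real.sqrt_pos.2 (TM_sum_pos hy0)
    have hρc : (ρ : ℂ) ≠ 0 := by exact_mod_cast hρ0.ne'
    have hunit : ∑ l, ‖((ρ : ℂ)⁻¹ • (y ∘ e)) l‖ ^ 2 = 1 := by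
      simp only [Pi.smul_apply, smul_eq_mul, norm_mul, norm_inv, Complex.norm_real,
        Real.norm_eq_abs, abs_of_pos hρ0, mul_pow, ← Finset.mul_sum]
      have : ρ ^ 2 = ∑ l, ‖(y ∘ e) l‖ ^ 2 := Real.sq_sqrt (TM_sum_pos hy0).le
      rw [← this, inv_pow]
      exact inv_mul_cancel₀ (by positivity)
    have := key _ hunit s (ρ * t) (by
      intro v
      have h := congrFun hst (eV v)
      simp only [Pi.add_apply, Finset.sum_apply, Pi.smul_apply, smul_eq_mul,
        Equiv.symm_apply_apply, Pi.zero_apply] at h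
      rw [TM_pt_inv _ _ (inv_ne_zero hρc)]
      have h8 : (ρ : ℂ) * t * Sum.elim (fun _ : Fin b => (0 : ℂ)) ((ρ : ℂ)⁻¹ • (y ∘ e)) v =
          t * Sum.elim (fun _ : Fin b => (0 : ℂ)) (y ∘ e) v := by
        rcases v with k | a
        · simp
        · simp only [Sum.elim_inr, Pi.smul_apply, smul_eq_mul]
          field_simp
      rw [h8]
      exact h)
    refine ⟨fun i => congrFun this.1 i, ?_⟩
    exact (mul_eq_zero.1 this.2).resolve_left hρc

end Crest.Agent.QT
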