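import Crest.Agent.QT_TopDefs

/-!
Task QT-TopNull (medium).  A direction missed by an invariant map.
`P : ℂ^{n+1}∖0 → ℂ^{c+1+n}∖0`, `C¹`, `P(l x) = P(x)`.  `G(v) = |pr v|² P(pr v)` with `pr` the first `n+1` coordinates
(`Fin (c+1+n)` has at least `n+1` elements), on `{v : pr v ≠ 0}`:
`G (e^{iθ} v) = G v`, so the derivative of `G` at `v` kills `i v ≠ 0` and has determinant 0: the image of `G` is Lebesgue
null (`MeasureTheory.addHaar_image_eq_zero_of_det_fderiv_eq_zero`).  So there is `e ≠ 0` with `-e` not in the image (a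
null set is not everything but `{0}`), and `G (r v) = r² G v` (`r > 0`) shows: `P x ≠ -(r • e)` for all `x ≠ 0`, `r > 0`.
Normalise `∑ |e_i|² = 1`.
-/

set_option autoImplicit false

namespace Crest.Agent.QT

open MeasureTheory

theorem missed_direction (n c : ℕ) (P : (Fin (n + 1) → ℂ) → (Fin (c + 1 + n) → ℂ))
    (hP : ContDiffOn ℝ 1 P {0}ᶜ) (hinv : ∀ x (l : ℂ), x ≠ 0 → l ≠ 0 → P (l • x) = P x)
    (hne : ∀ x, x ≠ 0 → P x ≠ 0) :
    ∃ e : Fin (c + 1 + n) → ℂ, ∑ i, ‖e i‖ ^ 2 = 1 ∧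
      ∀ x, x ≠ 0 → ∀ r : ℝ, 0 < r → P x ≠ -((r : ℂ) • e) := by
  classical
  have hle : n + 1 ≤ c + 1 + n := by omega
  -- the projection
  let pr : (Fin (c + 1 + n) → ℂ) →L[ℝ] (Fin (n + 1) → ℂ) :=
    ContinuousLinearMap.pi fun i => ContinuousLinearMap.proj (Fin.castLE hle i)
  have pr_apply : ∀ v i, pr v i = v (Fin.castLE hle i) := fun v i => rfl
  let Nn : (Fin (n + 1) → ℂ) → ℝ := fun x => ∑ i, ‖x i‖ ^ 2
  have hNpos : ∀ x : Fin (n + 1) → ℂ, x ≠ 0 → 0 < Nn x := by
    intro x hx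
    obtain ⟨i, hi⟩ : ∃ i, x i ≠ 0 := by
      by_contra h; push Not at h; exact hx (funext h)
    refine Finset.sum_pos' (fun i _ => by positivity) ⟨i, Finset.mem_univ _, ?_⟩
    have : 0 < ‖x i‖ := norm_pos_iff.2 hi
    positivity
  have hNsmul : ∀ (l : ℂ) (x : Fin (n + 1) → ℂ), Nn (l • x) = ‖l‖ ^ 2 * Nn x := by
    intro l x
    simp only [Nn, Pi.smul_apply, smul_eq_mul, norm_mul, mul_pow, Finset.mul_sum]
  have hNdiff : ContDiff ℝ 1 Nn := by
    refine ContDiff.sum fun i _ => ?_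
    exact (contDiff_apply ℝ ℂ i).norm_sq ℝ
  let U : Set (Fin (c + 1 + n) → ℂ) := {v | pr v ≠ 0}
  have hUo : IsOpen U := by
    have : U = pr ⁻¹' {0}ᶜ := rfl
    rw [this]
    exact isOpen_compl_singleton.preimage pr.continuous
  let G : (Fin (c + 1 + n) → ℂ) → (Fin (c + 1 + n) → ℂ) := fun v => Nn (pr v) • P (pr v)
  have hGd : ∀ v ∈ U, DifferentiableAt ℝ G v := by
    intro v hv
    have h1 : ContDiffAt ℝ 1 P (pr v) := hP.contDiffAt (isOpen_compl_singleton.mem_nhds hv)
    have h2 : DifferentiableAt ℝ (fun v => P (pr v)) v :=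
      (h1.differentiableAt (by norm_num)).comp v pr.differentiableAt
    have h3 : DifferentiableAt ℝ (fun v => Nn (pr v)) v :=
      ((hNdiff.differentiable (by norm_num)) (pr v)).comp v pr.differentiableAt
    exact h3.smul h2
  have hGinv : ∀ v ∈ U, ∀ l : ℂ, ‖l‖ = 1 → G (l • v) = G v := by
    intro v hv l hl
    have hl0 : l ≠ 0 := by
      rintro rfl; simp at hl
    have h1 : pr (l • v) = l • pr v := by
      ext i; simp [pr_apply]
    simp only [G]
    rw [h1, hNsmul, hl, hinv _ _ hv hl0]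
    simp
  have hdet : ∀ v ∈ U, (fderiv ℝ G v).det = 0 := by
    intro v hv
    have hker : fderiv ℝ G v (Complex.I • v) = 0 := by
      let γ : ℝ → (Fin (c + 1 + n) → ℂ) := fun t => Complex.exp (t * Complex.I) • v
      have hγ : HasDerivAt γ (Complex.I • v) 0 := by
        have h1 : HasDerivAt (fun t : ℝ => Complex.exp (t * Complex.I)) (Complex.I) 0 := by
          have h2 : HasDerivAt (fun t : ℝ => (t : ℂ) * Complex.I) (1 * Complex.I) 0 :=
            (Complex.ofRealCLM.hasDerivAt (x := (0 : ℝ))).mul_const Complex.I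
          have h3 := h2.cexp
          simpa using h3
        exact h1.smul_const v
      have hγ0 : γ 0 = v := by simp [γ]
      have h1 : HasDerivAt (G ∘ γ) (fderiv ℝ G v (Complex.I • v)) 0 := by
        have h2 : HasFDerivAt G (fderiv ℝ G v) (γ 0) := by
          rw [hγ0]; exact (hGd v hv).hasFDerivAt
        exact h2.comp_hasDerivAt 0 hγ
      have h2 : G ∘ γ = fun _ => G v := by
        funext t
        simp only [Function.comp, γ]
        exact hGinv v hv _ (Complex.norm_exp_ofReal_mul_I t)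
      rw [h2] at h1
      exact (h1.unique (hasDerivAt_const 0 (G v)))
    have hv0 : Complex.I • v ≠ 0 := by
      intro h
      have : v = 0 := by
        have := (smul_eq_zero.1 h)
        rcases this with h | h
        · exact absurd h Complex.I_ne_zero
        · exact h
      apply hv
      rw [this]; simp
    have key : LinearMap.det (fderiv ℝ G v : (Fin (c + 1 + n) → ℂ) →ₗ[ℝ] (Fin (c + 1 + n) → ℂ)) = 0 := by
      rw [LinearMap.det_eq_zero_iff_ker_ne_bot]
      intro hbot
      apply hv0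
      exact (LinearMap.ker_eq_bot'.1 hbot) _ hker
    exact key
  have hnull : volume (G '' U) = 0 :=
    addHaar_image_eq_zero_of_det_fderivWithin_eq_zero volume
      (fun v hv => (hGd v hv).hasFDerivAt.hasFDerivWithinAt) hdet
  -- a point missed
  obtain ⟨w, hw⟩ : ∃ w, w ∉ G '' U ∪ {0} := by
    by_contra h
    push Not at h
    have h1 : (Set.univ : Set (Fin (c + 1 + n) → ℂ)) ⊆ G '' U ∪ {0} := fun w _ => h w
    have h2 : volume (Set.univ : Set (Fin (c + 1 + n) → ℂ)) ≤ 0 := by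
      refine (measure_mono h1).trans ((measure_union_le _ _).trans ?_)
      have : Nonempty (Fin (c + 1 + n)) := ⟨⟨0, by omega⟩⟩
      rw [hnull, measure_singleton]; simp
    have h3 : (volume : Measure (Fin (c + 1 + n) → ℂ)) ≠ 0 := by
      intro h
      have := (isOpen_univ (X := (Fin (c + 1 + n) → ℂ))).measure_pos volume ⟨0, trivial⟩
      rw [h] at this; simp at this
    apply h3
    rw [← Measure.measure_univ_eq_zero]
    exact le_antisymm h2 bot_le
  have hw1 : w ∉ G '' U := fun h => hw (Or.inl h)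
  have hw0 : w ≠ 0 := fun h => hw (Or.inr h)
  set S : ℝ := ∑ i, ‖w i‖ ^ 2 with hS
  have hSpos : 0 < S := by
    obtain ⟨i, hi⟩ : ∃ i, w i ≠ 0 := by
      by_contra h; push Not at h; exact hw0 (funext h)
    refine Finset.sum_pos' (fun i _ => by positivity) ⟨i, Finset.mem_univ _, ?_⟩
    have : 0 < ‖w i‖ := norm_pos_iff.2 hi
    positivity
  set q : ℝ := Real.sqrt S with hq
  have hqpos : 0 < q := Real.sqrt_pos.2 hSpos
  have hqs : q ^ 2 = S := Real.sq_sqrt hSpos.le
  refine ⟨-(((q⁻¹ : ℝ) : ℂ) • w), ?_, ?_⟩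
  · have : ∀ i, ‖(-(((q⁻¹ : ℝ) : ℂ) • w)) i‖ ^ 2 = q⁻¹ ^ 2 * ‖w i‖ ^ 2 := by
      intro i
      simp only [Pi.neg_apply, Pi.smul_apply, smul_eq_mul, norm_neg, norm_mul, Complex.norm_real,
        Real.norm_eq_abs, abs_of_pos (inv_pos.2 hqpos), mul_pow]
    rw [Finset.sum_congr rfl fun i _ => this i, ← Finset.mul_sum, ← hS, ← hqs]
    field_simp
  · intro x hx r hr heq
    have hPx : P x = ((r * q⁻¹ : ℝ) : ℂ) • w := by
      rw [heq]; simp [smul_smul]
    apply hw1
    have hN := hNpos x hx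
    set s : ℝ := Real.sqrt (q / (r * Nn x)) with hs
    have hspos : 0 < s := Real.sqrt_pos.2 (by positivity)
    have hss : s ^ 2 = q / (r * Nn x) := Real.sq_sqrt (by positivity)
    let v : Fin (c + 1 + n) → ℂ := fun j => if h : (j : ℕ) < n + 1 then ((s : ℂ) • x) ⟨j, h⟩ else 0
    have hprv : pr v = (s : ℂ) • x := by
      ext i
      rw [pr_apply]
      have hi : ((Fin.castLE hle i : Fin (c + 1 + n)) : ℕ) < n + 1 := by simpa using i.2
      simp only [v, dif_pos hi]
      rfl
    have hsx : (s : ℂ) • x ≠ 0 := smul_ne_zero (by exact_mod_cast hspos.ne') hx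
    refine ⟨v, ?_, ?_⟩
    · change pr v ≠ 0
      rw [hprv]; exact hsx
    · simp only [G]
      rw [hprv, hNsmul, hinv _ _ hx (by exact_mod_cast hspos.ne'), hPx]
      have h1 : ‖(s : ℂ)‖ ^ 2 = s ^ 2 := by
        rw [Complex.norm_real, Real.norm_eq_abs, sq_abs]
      rw [h1, hss]
      ext i
      simp only [Pi.smul_apply, smul_eq_mul, Complex.real_smul]
      rw [← mul_assoc, ← Complex.ofReal_mul]
      have h2 : q / (r * Nn x) * Nn x * (r * q⁻¹) = 1 := by
        field_simp
      rw [h2]; simp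

end Crest.Agent.QT
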