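import Crest.Agent.QT_TopNull

/-!
Task QT-TopStep (medium).  `Bad n (c+1) → Bad n c`.
Take `e` from `missed_direction` for `P 0`.  `ν = |P 0 x|` (Euclidean norm), `⟨a,b⟩ = ∑ conj(a_i) b_i`,
`α = ν (ν + ⟨e, P 0 x⟩) ≠ 0`, `S_x v = α v + ⟨P 0 x + ν e, v⟩ (ν e - P 0 x)`.  `S_x (P 0 x) = α ν e` and `S_x` is injective.
Let `π : ℂ^{c+1+n} → ℂ^{c+n}` be linear surjective with kernel `ℂ e`.  New data: `P' i = π ∘ S ∘ P (i+1)`, `p' = π ∘ S ∘ p`.
-/

set_option autoImplicit false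

namespace Crest.Agent.QT

open scoped ComplexConjugate

/-- the (scaled) reflection-like map -/
private noncomputable def TS_S {d : ℕ} (a e : Fin d → ℂ) (v : Fin d → ℂ) : Fin d → ℂ :=
  let ν : ℂ := ((Real.sqrt (∑ i, ‖a i‖ ^ 2) : ℝ) : ℂ)
  (ν * (ν + star e ⬝ᵥ a)) • v + (star (a + ν • e) ⬝ᵥ v) • (ν • e - a)

private theorem TS_star_dot_self {d : ℕ} (a : Fin d → ℂ) :
    star a ⬝ᵥ a = ((∑ i, ‖a i‖ ^ 2 : ℝ) : ℂ) := by
  simp only [dotProduct, Pi.star_apply, Complex.ofReal_sum]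
  refine Finset.sum_congr rfl fun i _ => ?_
  rw [Complex.star_def, Complex.conj_mul', Complex.ofReal_pow]

private theorem TS_nu_sq {d : ℕ} (a : Fin d → ℂ) :
    ((Real.sqrt (∑ i, ‖a i‖ ^ 2) : ℝ) : ℂ) * ((Real.sqrt (∑ i, ‖a i‖ ^ 2) : ℝ) : ℂ) =
      star a ⬝ᵥ a := by
  rw [TS_star_dot_self, ← Complex.ofReal_mul,
    Real.mul_self_sqrt (Finset.sum_nonneg fun i _ => by positivity)]

private theorem TS_nu_pos {d : ℕ} {a : Fin d → ℂ} (ha : a ≠ 0) :
    0 < Real.sqrt (∑ i, ‖a i‖ ^ 2) := by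
  apply Real.sqrt_pos.2
  obtain ⟨i, hi⟩ : ∃ i, a i ≠ 0 := by
    by_contra h
    push Not at h
    exact ha (funext h)
  exact Finset.sum_pos' (fun i _ => by positivity) ⟨i, Finset.mem_univ _, by positivity⟩

private theorem TS_star_dot {d : ℕ} (a b : Fin d → ℂ) : star b ⬝ᵥ a = star (star a ⬝ᵥ b) := by
  simp only [dotProduct, Pi.star_apply, star_sum, star_mul', star_star]
  exact Finset.sum_congr rfl fun i _ => mul_comm _ _

private theorem TS_ne {d : ℕ} {a e : Fin d → ℂ} (he : ∑ i, ‖e i‖ ^ 2 = 1)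
    (ha : a ≠ 0) (hmiss : ∀ r : ℝ, 0 < r → a ≠ -((r : ℂ) • e)) :
    ((Real.sqrt (∑ i, ‖a i‖ ^ 2) : ℝ) : ℂ) + star e ⬝ᵥ a ≠ 0 := by
  intro h
  set ν : ℝ := Real.sqrt (∑ i, ‖a i‖ ^ 2) with hν
  have hνp : 0 < ν := TS_nu_pos ha
  have h1 : star e ⬝ᵥ a = -(ν : ℂ) := by
    rw [eq_neg_iff_add_eq_zero, add_comm]; exact h
  have h2 : star a ⬝ᵥ e = -(ν : ℂ) := by
    rw [TS_star_dot, h1]; simp
  have h3 : star a ⬝ᵥ a = (ν : ℂ) * ν := (TS_nu_sq a).symm
  have h4 : star e ⬝ᵥ e = 1 := by rw [TS_star_dot_self, he]; simp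
  have h5 : star (a + (ν : ℂ) • e) ⬝ᵥ (a + (ν : ℂ) • e) = 0 := by
    rw [star_add, star_smul, add_dotProduct, dotProduct_add, dotProduct_add, smul_dotProduct,
      smul_dotProduct, dotProduct_smul, dotProduct_smul, h1, h2, h3, h4]
    simp
  rw [TS_star_dot_self, Complex.ofReal_eq_zero,
    Finset.sum_eq_zero_iff_of_nonneg (fun i _ => by positivity)] at h5
  apply hmiss ν hνp
  funext i
  have := h5 i (Finset.mem_univ _)
  simp only [Pi.add_apply, Pi.smul_apply, smul_eq_mul, ne_eq, OfNat.ofNat_ne_zero,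
    not_false_eq_true, pow_eq_zero_iff, norm_eq_zero] at this
  simp only [Pi.neg_apply, Pi.smul_apply, smul_eq_mul]
  exact eq_neg_of_add_eq_zero_left this

private theorem TS_S_add {d : ℕ} (a e v w : Fin d → ℂ) :
    TS_S a e (v + w) = TS_S a e v + TS_S a e w := by
  simp only [TS_S, dotProduct_add, smul_add, add_smul]
  abel

private theorem TS_S_smul {d : ℕ} (a e v : Fin d → ℂ) (c : ℂ) :
    TS_S a e (c • v) = c • TS_S a e v := by
  simp only [TS_S, dotProduct_smul, smul_add, smul_smul, smul_eq_mul]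
  congr 2
  · ring

private theorem TS_S_self {d : ℕ} (a e : Fin d → ℂ) :
    TS_S a e a = (((Real.sqrt (∑ i, ‖a i‖ ^ 2) : ℝ) : ℂ) *
      (((Real.sqrt (∑ i, ‖a i‖ ^ 2) : ℝ) : ℂ) + star e ⬝ᵥ a) *
      ((Real.sqrt (∑ i, ‖a i‖ ^ 2) : ℝ) : ℂ)) • e := by
  have h := TS_nu_sq a
  simp only [TS_S]
  set ν : ℝ := Real.sqrt (∑ i, ‖a i‖ ^ 2) with hν
  have h1 : star (a + (ν : ℂ) • e) ⬝ᵥ a = (ν : ℂ) * (ν + star e ⬝ᵥ a) := by
    rw [star_add, star_smul, add_dotProduct, smul_dotProduct, ← h]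
    simp
    ring
  rw [h1, smul_sub, smul_smul]
  abel

private theorem TS_S_inj {d : ℕ} {a e : Fin d → ℂ} (he : ∑ i, ‖e i‖ ^ 2 = 1)
    (ha : a ≠ 0) (hmiss : ∀ r : ℝ, 0 < r → a ≠ -((r : ℂ) • e)) (v : Fin d → ℂ)
    (hv : TS_S a e v = 0) : v = 0 := by
  have hne := TS_ne he ha hmiss
  have hν2 := TS_nu_sq a
  have hνp := TS_nu_pos ha
  simp only [TS_S] at hv
  set ν : ℝ := Real.sqrt (∑ i, ‖a i‖ ^ 2) with hν
  have hν0 : (ν : ℂ) ≠ 0 := by exact_mod_cast hνp.ne'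
  set φ : ℂ := star (a + (ν : ℂ) • e) ⬝ᵥ v with hφ
  have h4 : star e ⬝ᵥ e = 1 := by rw [TS_star_dot_self, he]; simp
  have h1 : star (a + (ν : ℂ) • e) ⬝ᵥ ((ν : ℂ) • e - a) = (ν : ℂ) * (star a ⬝ᵥ e - star e ⬝ᵥ a) := by
    rw [star_add, star_smul, add_dotProduct, dotProduct_sub, dotProduct_sub, smul_dotProduct,
      smul_dotProduct, dotProduct_smul, dotProduct_smul, ← hν2, h4]
    simp
    ring
  have h2 : star (a + (ν : ℂ) • e) ⬝ᵥ
      (((ν : ℂ) * (ν + star e ⬝ᵥ a)) • v + φ • ((ν : ℂ) • e - a)) = 0 := by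
    rw [hv]; simp
  rw [dotProduct_add, dotProduct_smul, dotProduct_smul, ← hφ, h1] at h2
  have h3 : φ * ((ν : ℂ) * (ν + star a ⬝ᵥ e)) = 0 := by
    simp only [smul_eq_mul] at h2
    linear_combination h2
  have h5 : (ν : ℂ) + star a ⬝ᵥ e ≠ 0 := by
    intro h
    apply hne
    rw [TS_star_dot]
    have := congrArg star h
    simpa using this
  have h6 : φ = 0 := by
    rcases mul_eq_zero.1 h3 with h | h
    · exact h
    · exact absurd h (mul_ne_zero hν0 h5)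
  rw [h6, zero_smul, add_zero] at hv
  exact (smul_eq_zero.1 hv).resolve_left (mul_ne_zero hν0 hne)

private theorem TS_proj (d : ℕ) (e : Fin (d + 1) → ℂ) (he : e ≠ 0) :
    ∃ π : (Fin (d + 1) → ℂ) →ₗ[ℂ] (Fin d → ℂ), ∀ v, π v = 0 → ∃ μ : ℂ, v = μ • e := by
  have hf : Module.finrank ℂ ((Fin (d + 1) → ℂ) ⧸ (Submodule.span ℂ {e})) =
      Module.finrank ℂ (Fin d → ℂ) := by
    have h1 := Submodule.finrank_quotient_add_finrank (Submodule.span ℂ {e})
    rw [finrank_span_singleton he] at h1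
    simp only [Module.finrank_fintype_fun_eq_card, Fintype.card_fin] at h1 ⊢
    omega
  let E := LinearEquiv.ofFinrankEq _ _ hf
  refine ⟨E.toLinearMap ∘ₗ (Submodule.span ℂ {e}).mkQ, fun v hv => ?_⟩
  simp only [LinearMap.coe_comp, LinearEquiv.coe_coe, Function.comp_apply,
    LinearEquiv.map_eq_zero_iff, Submodule.mkQ_apply, Submodule.Quotient.mk_eq_zero] at hv
  obtain ⟨μ, hμ⟩ := Submodule.mem_span_singleton.1 hv
  exact ⟨μ, hμ.symm⟩

private theorem TS_contDiffOn {n d : ℕ} {s : Set (Fin n → ℂ)} {a v : (Fin n → ℂ) → (Fin d → ℂ)}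
    (e : Fin d → ℂ) (ha : ContDiffOn ℝ 1 a s) (hv : ContDiffOn ℝ 1 v s) (hne : ∀ x ∈ s, a x ≠ 0) :
    ContDiffOn ℝ 1 (fun x => TS_S (a x) e (v x)) s := by
  have hν : ContDiffOn ℝ 1 (fun x => ((Real.sqrt (∑ i, ‖a x i‖ ^ 2) : ℝ) : ℂ)) s := by
    have h1 : ContDiffOn ℝ 1 (fun x => Real.sqrt (∑ i, ‖a x i‖ ^ 2)) s := by
      apply ContDiffOn.sqrt
      · refine ContDiffOn.sum fun i _ => ?_
        exact ((contDiffOn_pi.1 ha) i).norm_sq ℝ
      · intro x hx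
        exact (Real.sqrt_pos.1 (TS_nu_pos (hne x hx))).ne'
    exact Complex.ofRealCLM.contDiff.comp_contDiffOn h1
  have hai := contDiffOn_pi.1 ha
  have hvi := contDiffOn_pi.1 hv
  have hstar : ∀ i, ContDiffOn ℝ 1 (fun x => star (a x i)) s := fun i =>
    Complex.conjCLE.contDiff.comp_contDiffOn (hai i)
  have hνs : ContDiffOn ℝ 1 (fun x => star ((Real.sqrt (∑ i, ‖a x i‖ ^ 2) : ℝ) : ℂ)) s :=
    Complex.conjCLE.contDiff.comp_contDiffOn hν
  have h1 : ContDiffOn ℝ 1 (fun x => star e ⬝ᵥ a x) s := by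
    simp only [dotProduct]
    exact ContDiffOn.sum fun i _ => contDiffOn_const.mul (hai i)
  have h2 : ContDiffOn ℝ 1 (fun x => star (a x + ((Real.sqrt (∑ i, ‖a x i‖ ^ 2) : ℝ) : ℂ) • e) ⬝ᵥ
      v x) s := by
    simp only [dotProduct, Pi.star_apply, Pi.add_apply, Pi.smul_apply, smul_eq_mul, star_add,
      star_mul']
    exact ContDiffOn.sum fun i _ => ((hstar i).add (hνs.mul contDiffOn_const)).mul (hvi i)
  rw [contDiffOn_pi]
  intro j
  simp only [TS_S, Pi.add_apply, Pi.smul_apply, Pi.sub_apply, smul_eq_mul]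
  exact ((hν.mul (hν.add h1)).mul (hvi j)).add (h2.mul ((hν.mul contDiffOn_const).sub (hai j)))

theorem bad_step (n c : ℕ) (h : Bad n (c + 1)) : Bad n c := by
  obtain ⟨P, p, hP, hp, hPi, hpe, hind⟩ := h
  have hP0 : ∀ x, x ≠ 0 → P 0 x ≠ 0 := by
    intro x hx h0
    have := (hind x hx (Pi.single 0 1) 0 (by
      simp [Finset.sum_pi_single', Pi.single_apply, h0])).1 0
    simp at this
  obtain ⟨e, he, hmiss⟩ := missed_direction n c (P 0) (hP 0) (hPi 0) hP0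
  have he0 : e ≠ 0 := by
    rintro rfl
    simp at he
  have hd : c + 1 + n = (c + n) + 1 := by omega
  obtain ⟨π, hπ⟩ : ∃ π : (Fin (c + 1 + n) → ℂ) →ₗ[ℂ] (Fin (c + n) → ℂ),
      ∀ v, π v = 0 → ∃ μ : ℂ, v = μ • e := by
    clear hmiss he hind hpe hPi hp hP hP0 p P
    revert e
    rw [hd]
    intro e he0
    exact TS_proj _ e he0
  have hπc : ContDiff ℝ 1 (fun v => π v) := by
    have : (fun v => π v) = fun v => (π.toContinuousLinearMap.restrictScalars ℝ) v := by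
      funext v; rfl
    rw [this]
    exact ContinuousLinearMap.contDiff _
  refine ⟨fun i x => π (TS_S (P 0 x) e (P i.succ x)), fun x => π (TS_S (P 0 x) e (p x)),
    fun i => ?_, ?_, ?_, ?_, ?_⟩
  · exact hπc.comp_contDiffOn (TS_contDiffOn e (hP 0) (hP i.succ) (fun x hx => hP0 x hx))
  · exact hπc.comp_contDiffOn (TS_contDiffOn e (hP 0) hp (fun x hx => hP0 x hx))
  · intro i x l hx hl
    simp only [hPi _ x l hx hl]
  · intro x l hx hl
    simp only [hPi _ x l hx hl, hpe x l hx hl, TS_S_smul, map_smul]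
  · intro x hx s t hst
    set w : Fin (c + 1 + n) → ℂ := ∑ i, s i • P i.succ x + t • p x with hw
    have hS : ∀ (σ : Finset (Fin c)), TS_S (P 0 x) e (∑ i ∈ σ, s i • P i.succ x) =
        ∑ i ∈ σ, s i • TS_S (P 0 x) e (P i.succ x) := by
      intro σ
      classical
      induction σ using Finset.induction_on with
      | empty =>
        have := TS_S_smul (P 0 x) e 0 0
        simpa using this
      | insert i σ hi ih => rw [Finset.sum_insert hi, Finset.sum_insert hi, TS_S_add, TS_S_smul, ih]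
    have h1 : π (TS_S (P 0 x) e w) = 0 := by
      rw [hw, TS_S_add, TS_S_smul, hS, map_add, map_sum, map_smul, ← hst]
      simp
    obtain ⟨μ, hμ⟩ := hπ _ h1
    have hne := TS_ne he (hP0 x hx) (hmiss x hx)
    have hνp := TS_nu_pos (hP0 x hx)
    have hself := TS_S_self (P 0 x) e
    set ν : ℝ := Real.sqrt (∑ i, ‖P 0 x i‖ ^ 2) with hν
    have hν0 : (ν : ℂ) ≠ 0 := by exact_mod_cast hνp.ne'
    set β : ℂ := (ν : ℂ) * (ν + star e ⬝ᵥ P 0 x) * ν with hβ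
    have hβ0 : β ≠ 0 := mul_ne_zero (mul_ne_zero hν0 hne) hν0
    have h2 : TS_S (P 0 x) e (w + (-(μ / β)) • P 0 x) = 0 := by
      rw [TS_S_add, TS_S_smul, hself, hμ, smul_smul, ← add_smul]
      have : μ + -(μ / β) * β = 0 := by field_simp; ring
      rw [this, zero_smul]
    have h3 := TS_S_inj he (hP0 x hx) (hmiss x hx) _ h2
    have h4 := hind x hx (Fin.cons (-(μ / β)) s) t (by
      rw [Fin.sum_univ_succ]
      simp only [Fin.cons_zero, Fin.cons_succ]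
      rw [← h3, hw]
      abel)
    exact ⟨fun i => by simpa using h4.1 i.succ, h4.2⟩

end Crest.Agent.QT
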