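import Crest.Agent.QT_TopDefs

/-!
Task QT-TopZA (medium).  A small generic linear perturbation.
`𝓑 = {E ∈ M_m(ℂ) : ∃ x ≠ 0, r ≥ 0, p x + E x + r x = 0}` is Lebesgue null.  By equivariance (`p (l x) = l p x`, the equation is
homogeneous) some coordinate `x_i = 1`, so `𝓑 = ⋃_i 𝓑_i`.  `𝓑_i` is contained in the image of the map
`Ψ_i : M_m(ℂ) → M_m(ℂ)`: let `y = y(Q)` be the vector with `y_i = 1`, `y_j = Q_{j i}` (`j ≠ i`); `Ψ_i(Q)` has columns `Q_j` for
`j ≠ i`, and `i`-th column `-p(y) - (Re Q_ii) y - ∑_{j≠i} y_j Q_j` (given `E ∈ 𝓑_i` with `y, r`: take `Q` = `E` with the `i`-th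
column replaced by `y_j` (`j ≠ i`), `Q_ii = r`).  `Ψ_i` is `C¹` and independent of `Im Q_ii`, so its (real) derivative is singular:
`MeasureTheory.addHaar_image_eq_zero_of_det_fderiv_eq_zero` (`det = 0` as it is not injective:
`LinearMap.bot_lt_ker_of_det_eq_zero`-type lemmas / `LinearMap.det` of a non-injective map).  So the complement of `𝓑` is dense:
every ball has positive measure.  (`Matrix (Fin m) (Fin m) ℂ` can be replaced by `Fin m → Fin m → ℂ` for the measure
`MeasureTheory.volume` and the norm.)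
-/

set_option autoImplicit false

namespace Crest.Agent.QT

open scoped Matrix

/-- the vector `y(Q)`. -/
private noncomputable def zaY {m : ℕ} (i : Fin m) (Q : Fin m → Fin m → ℂ) : Fin m → ℂ :=
  fun j => if j = i then 1 else Q j i

/-- the map `Ψ_i`. -/
private noncomputable def zaPsi {m : ℕ} (p : (Fin m → ℂ) → (Fin m → ℂ)) (i : Fin m)
    (Q : Fin m → Fin m → ℂ) : Fin m → Fin m → ℂ :=
  fun k j => if j = i then
    -(p (zaY i Q) k) - (((Q i i).re : ℝ) : ℂ) * zaY i Q k - ∑ l ∈ Finset.univ.erase i, Q k l * zaY i Q l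
    else Q k j

private theorem zaY_ne {m : ℕ} (i : Fin m) (Q : Fin m → Fin m → ℂ) : zaY i Q ≠ 0 := by
  intro h
  have := congrFun h i
  simp [zaY] at this

private theorem zaY_diff {m : ℕ} (i : Fin m) : Differentiable ℝ (zaY i : (Fin m → Fin m → ℂ) → _) := by
  rw [differentiable_pi]
  intro j
  unfold zaY
  by_cases h : j = i
  · simp [h]
  · simp only [h, if_false]
    fun_prop

private theorem zaPsi_diff {m : ℕ} {p : (Fin m → ℂ) → (Fin m → ℂ)} (hp : ContDiffOn ℝ 1 p {0}ᶜ)
    (i : Fin m) : Differentiable ℝ (zaPsi p i) := by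
  have hY := zaY_diff i
  have hYk : ∀ k, Differentiable ℝ (fun Q : Fin m → Fin m → ℂ => zaY i Q k) := fun k =>
    differentiable_pi.1 hY k
  have hpY : Differentiable ℝ (fun Q : Fin m → Fin m → ℂ => p (zaY i Q)) := by
    intro Q
    have h1 : DifferentiableAt ℝ p (zaY i Q) :=
      (hp.contDiffAt (isOpen_compl_singleton.mem_nhds (zaY_ne i Q))).differentiableAt one_ne_zero
    exact h1.comp Q (hY Q)
  have hpk : ∀ k, Differentiable ℝ (fun Q : Fin m → Fin m → ℂ => p (zaY i Q) k) := fun k =>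
    differentiable_pi.1 hpY k
  rw [differentiable_pi]
  intro k
  rw [differentiable_pi]
  intro j
  unfold zaPsi
  by_cases h : j = i
  · simp only [h, if_true]
    refine ((hpk k).neg.sub (Differentiable.mul ?_ (hYk k))).sub
      (Differentiable.fun_sum fun l _ => Differentiable.mul (by fun_prop) (hYk l))
    have : Differentiable ℝ (fun Q : Fin m → Fin m → ℂ => Complex.ofRealCLM (Complex.reCLM (Q i i))) := by
      fun_prop
    exact this
  · simp only [h, if_false]
    fun_prop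

/-- the invariant direction. -/
private noncomputable def zaV {m : ℕ} (i : Fin m) : Fin m → Fin m → ℂ :=
  Pi.single i (Pi.single i Complex.I)

private theorem zaV_apply {m : ℕ} (i k j : Fin m) :
    zaV i k j = if k = i ∧ j = i then Complex.I else 0 := by
  unfold zaV
  by_cases hk : k = i
  · subst hk
    by_cases hj : j = k
    · subst hj; simp
    · simp [hj]
  · simp [hk]

private theorem zaPsi_inv {m : ℕ} (p : (Fin m → ℂ) → (Fin m → ℂ)) (i : Fin m)
    (Q : Fin m → Fin m → ℂ) (t : ℝ) : zaPsi p i (Q + t • zaV i) = zaPsi p i Q := by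
  have hQ : ∀ k j, (Q + t • zaV i) k j = Q k j + if k = i ∧ j = i then (t : ℂ) * Complex.I else 0 := by
    intro k j
    simp only [Pi.add_apply, Pi.smul_apply, zaV_apply, Complex.real_smul]
    split_ifs <;> simp
  have hY : zaY i (Q + t • zaV i) = zaY i Q := by
    funext j
    unfold zaY
    by_cases h : j = i
    · simp [h]
    · simp only [h, if_false]
      rw [hQ]
      simp [h]
  funext k j
  unfold zaPsi
  rw [hY]
  by_cases h : j = i
  · simp only [h, if_true]
    have h1 : ((Q + t • zaV i) i i).re = (Q i i).re := by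
      rw [hQ]
      simp
    rw [h1]
    congr 1
    refine Finset.sum_congr rfl fun l hl => ?_
    have hl' : l ≠ i := Finset.ne_of_mem_erase hl
    rw [hQ]
    simp [hl']
  · simp only [h, if_false]
    rw [hQ]
    simp [h]

private theorem zaPsi_fderiv {m : ℕ} {p : (Fin m → ℂ) → (Fin m → ℂ)}
    (hp : ContDiffOn ℝ 1 p {0}ᶜ) (i : Fin m) (Q : Fin m → Fin m → ℂ) :
    fderiv ℝ (zaPsi p i) Q (zaV i) = 0 := by
  have h1 : HasFDerivAt (zaPsi p i) (fderiv ℝ (zaPsi p i) Q) Q := (zaPsi_diff hp i Q).hasFDerivAt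
  have h2 : HasDerivAt (fun t : ℝ => Q + t • zaV i) (zaV i) 0 := by
    have := ((hasDerivAt_id (0 : ℝ)).smul_const (zaV i)).const_add Q
    simpa using this
  have h3 : HasFDerivAt (zaPsi p i) (fderiv ℝ (zaPsi p i) Q) (Q + (0 : ℝ) • zaV i) := by
    rw [zero_smul, add_zero]
    exact h1
  have h4 := h3.comp_hasDerivAt (0 : ℝ) h2
  have h5 : (zaPsi p i ∘ fun t : ℝ => Q + t • zaV i) = fun _ => zaPsi p i Q := by
    funext t
    exact zaPsi_inv p i Q t
  rw [h5] at h4
  exact h4.unique (hasDerivAt_const _ _)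

private theorem zaPsi_det {m : ℕ} {p : (Fin m → ℂ) → (Fin m → ℂ)}
    (hp : ContDiffOn ℝ 1 p {0}ᶜ) (i : Fin m) (Q : Fin m → Fin m → ℂ) :
    (fderiv ℝ (zaPsi p i) Q).det = 0 := by
  by_contra h
  have h1 : LinearMap.det ((fderiv ℝ (zaPsi p i) Q : (Fin m → Fin m → ℂ) →L[ℝ] (Fin m → Fin m → ℂ)) :
      (Fin m → Fin m → ℂ) →ₗ[ℝ] (Fin m → Fin m → ℂ)) ≠ 0 := h
  have h2 : Function.Injective ((fderiv ℝ (zaPsi p i) Q : (Fin m → Fin m → ℂ) →L[ℝ] (Fin m → Fin m → ℂ)) :
      (Fin m → Fin m → ℂ) →ₗ[ℝ] (Fin m → Fin m → ℂ)) :=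
    (LinearMap.equivOfDetNeZero _ h1).injective
  have h3 : zaV i = 0 := by
    apply h2
    rw [map_zero]
    exact zaPsi_fderiv hp i Q
  have h4 := congrFun (congrFun h3 i) i
  rw [zaV_apply] at h4
  simp at h4

theorem small_E (m : ℕ) (p : (Fin m → ℂ) → (Fin m → ℂ)) (hp : ContDiffOn ℝ 1 p {0}ᶜ)
    (hl : ∀ x (l : ℂ), x ≠ 0 → l ≠ 0 → p (l • x) = l • p x) (δ : ℝ) (hδ : 0 < δ) :
    ∃ E : Matrix (Fin m) (Fin m) ℂ, (∀ i j, ‖E i j‖ < δ) ∧
      ∀ x : Fin m → ℂ, x ≠ 0 → ∀ r : ℝ, 0 ≤ r → p x + E *ᵥ x + (r : ℂ) • x ≠ 0 := by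
  set μ : MeasureTheory.Measure (Fin m → Fin m → ℂ) := MeasureTheory.Measure.addHaar with hμ
  have hnull : μ (⋃ i : Fin m, zaPsi p i '' Set.univ) = 0 := by
    rw [MeasureTheory.measure_iUnion_null_iff]
    intro i
    exact MeasureTheory.addHaar_image_eq_zero_of_det_fderivWithin_eq_zero μ
      (fun Q _ => (zaPsi_diff hp i Q).hasFDerivAt.hasFDerivWithinAt) fun Q _ => zaPsi_det hp i Q
  have hball : 0 < μ (Metric.ball (0 : Fin m → Fin m → ℂ) δ) :=
    Metric.measure_ball_pos _ _ hδ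
  obtain ⟨E, hE1, hE2⟩ : ∃ E ∈ Metric.ball (0 : Fin m → Fin m → ℂ) δ,
      E ∉ ⋃ i : Fin m, zaPsi p i '' Set.univ := by
    by_contra hcon
    push Not at hcon
    exact absurd (MeasureTheory.measure_mono_null (fun E hE => hcon E hE) hnull) hball.ne'
  refine ⟨Matrix.of E, fun i j => ?_, fun x hx r hr heq => hE2 ?_⟩
  · rw [mem_ball_zero_iff] at hE1
    exact ((norm_le_pi_norm (E i) j).trans (norm_le_pi_norm E i)).trans_lt hE1
  · obtain ⟨i, hi⟩ : ∃ i, x i ≠ 0 := by
      by_contra h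
      push Not at h
      exact hx (funext h)
    refine Set.mem_iUnion.2 ⟨i, ?_⟩
    set y : Fin m → ℂ := (x i)⁻¹ • x with hy
    have hyi : y i = 1 := by
      simp [hy, hi]
    have heq2 : p y + (Matrix.of E) *ᵥ y + (r : ℂ) • y = 0 := by
      rw [hy, hl x _ hx (inv_ne_zero hi), Matrix.mulVec_smul, smul_comm (r : ℂ), ← smul_add,
        ← smul_add, heq, smul_zero]
    refine ⟨fun k j => if j = i then (if k = i then (r : ℂ) else y k) else E k j, Set.mem_univ _, ?_⟩
    have hyQ : zaY i (fun k j => if j = i then (if k = i then (r : ℂ) else y k) else E k j) = y := by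
      funext k
      unfold zaY
      by_cases h : k = i
      · rw [h, hyi]; simp
      · simp [h]
    funext k j
    unfold zaPsi
    rw [hyQ]
    by_cases h : j = i
    · subst h
      simp only [if_true, Complex.ofReal_re]
      have h1 := congrFun heq2 k
      simp only [Pi.add_apply, Pi.smul_apply, smul_eq_mul, Pi.zero_apply, Matrix.mulVec,
        dotProduct, Matrix.of_apply] at h1
      rw [← Finset.add_sum_erase _ _ (Finset.mem_univ j), hyi, mul_one] at h1
      have h2 : ∑ l ∈ Finset.univ.erase j, (if l = j then (if k = j then (r : ℂ) else y k) else E k l) *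
          y l = ∑ l ∈ Finset.univ.erase j, E k l * y l := by
        refine Finset.sum_congr rfl fun l hl => ?_
        rw [if_neg (Finset.ne_of_mem_erase hl)]
      rw [h2]
      linear_combination (-1 : ℂ) * h1
    · simp [h]

end Crest.Agent.QT
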