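/-
  RY_ASW : the Szonyi-Weiner lemma for a set of `q` (dual) lines, via a Hankel determinant.

  For `a b : ι → K`, `#ι = q = #K`, let `sw a b y = #{t | ∀ i, t ≠ a i + b i * y}` (number of missed values).
  Then `∑ y, (sw y0 - sw y) ≤ (sw y0)^2`.

  Proof.  `u_t(Y) = ∏ i (t - a i - b i Y)`, `h_m(Y) = ∑ t t^m u_t(Y)`, `deg h_m ≤ m+1`
  (sums of powers over `K`), `N = sw y0`, `H(Y) = (h_{i+j}(Y))_{i,j<N}`: `deg det H ≤ N^2`,
  `det H (y0) = Vandermonde^2 * ∏ u_t(y0) ≠ 0`, and `(Y - y)^(N - sw y)` divides `det H` (expand the determinant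
  multilinearly: at least `N - sw y` of the chosen values `t` have `u_t(y) = 0`).
-/
import Mathlib

set_option autoImplicit false
set_option linter.unusedSectionVars false

namespace Crest.Agent.RY
open Finset Polynomial

section
variable {K : Type} [Field K] [Fintype K] [DecidableEq K] {ι : Type} [Fintype ι]

/-- number of missed values -/
def sw (a b : ι → K) (y : K) : ℕ := by
  classical
  exact (univ.filter (fun t : K => ∀ i, t ≠ a i + b i * y)).card

/-- `u_t(Y)` -/
noncomputable def swU (a b : ι → K) (t : K) : K[X] := ∏ i, (C t - (C (a i) + C (b i) * X))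

/-- `h_m(Y)` -/
noncomputable def swH (a b : ι → K) (m : ℕ) : K[X] := ∑ t : K, (C t) ^ m * swU a b t

theorem swU_eval (a b : ι → K) (t y : K) : (swU a b t).eval y = ∏ i, (t - (a i + b i * y)) := by
  unfold swU
  rw [eval_prod]
  refine prod_congr rfl fun i _ => ?_
  simp

theorem swU_eval_eq_zero (a b : ι → K) (t y : K) :
    (swU a b t).eval y = 0 ↔ ∃ i, t = a i + b i * y := by
  rw [swU_eval, prod_eq_zero_iff]
  simp [sub_eq_zero]

theorem sw_eq (a b : ι → K) (y : K) :
    sw a b y = (univ.filter (fun t : K => (swU a b t).eval y ≠ 0)).card := by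
  unfold sw
  congr 1
  ext t
  simp only [mem_filter, mem_univ, true_and, ne_eq, swU_eval_eq_zero, not_exists]

/-- degrees of the coefficients of a product of `X - C p` with `natDegree p ≤ 1` -/
theorem sw_coeff (s : Finset ι) (p : ι → K[X]) (hp : ∀ i, (p i).natDegree ≤ 1) (c : ℕ) :
    ((∏ i ∈ s, ((X : K[X][X]) - C (p i))).coeff c).natDegree + c ≤ s.card ∨
      (∏ i ∈ s, ((X : K[X][X]) - C (p i))).coeff c = 0 := by
  classical
  induction s using Finset.induction_on generalizing c with
  | empty =>
    rw [prod_empty, coeff_one]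
    by_cases h : c = 0
    · left; rw [if_pos h, h]; simp
    · right; rw [if_neg h]
  | insert i s hi ih =>
    rw [prod_insert hi, card_insert_of_notMem hi, sub_mul, coeff_sub, coeff_C_mul]
    cases c with
    | zero =>
      rw [coeff_X_mul_zero, zero_sub, natDegree_neg]
      left
      rcases ih 0 with h | h
      · have h1 := natDegree_mul_le (p := p i) (q := (∏ i ∈ s, ((X : K[X][X]) - C (p i))).coeff 0)
        have h2 := hp i
        omega
      · rw [h]; simp
    | succ c =>
      rw [coeff_X_mul]
      have h1 := natDegree_mul_le (p := p i) (q := (∏ i ∈ s, ((X : K[X][X]) - C (p i))).coeff (c + 1))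
      have h2 := hp i
      have h3 := natDegree_sub_le ((∏ i ∈ s, ((X : K[X][X]) - C (p i))).coeff c)
        (p i * (∏ i ∈ s, ((X : K[X][X]) - C (p i))).coeff (c + 1))
      rcases ih c with hc | hc
      · rcases ih (c + 1) with hc' | hc'
        · left; omega
        · left
          rw [hc', mul_zero, sub_zero]; omega
      · rcases ih (c + 1) with hc' | hc'
        · left
          rw [hc, zero_sub, natDegree_neg]; omega
        · right
          rw [hc, hc', mul_zero, sub_zero]

theorem sw_sum_pow (m : ℕ) (hm : m < Fintype.card K - 1) : ∑ t : K, t ^ m = 0 :=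
  FiniteField.sum_pow_lt_card_sub_one K m hm

theorem swU_eq_eval (a b : ι → K) (t : K) :
    swU a b t = (∏ i, ((X : K[X][X]) - C (C (a i) + C (b i) * X))).eval (C t) := by
  unfold swU
  rw [eval_prod]
  refine prod_congr rfl fun i _ => ?_
  simp

theorem swH_degree (hι : Fintype.card ι = Fintype.card K) (a b : ι → K) (m : ℕ) :
    (swH a b m).natDegree ≤ m + 1 := by
  classical
  set G : K[X][X] := ∏ i, ((X : K[X][X]) - C (C (a i) + C (b i) * X)) with hG
  have h1 : swH a b m = ∑ c ∈ range (G.natDegree + 1), G.coeff c * C (∑ t : K, t ^ (m + c)) := by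
    unfold swH
    have : ∀ t : K, (C t) ^ m * swU a b t =
        ∑ c ∈ range (G.natDegree + 1), G.coeff c * C (t ^ (m + c)) := by
      intro t
      rw [swU_eq_eval, ← hG, eval_eq_sum_range, mul_sum]
      refine sum_congr rfl fun c _ => ?_
      rw [C_pow, pow_add]
      ring
    rw [sum_congr rfl (fun t _ => this t), sum_comm]
    refine sum_congr rfl fun c _ => ?_
    rw [map_sum, mul_sum]
  rw [h1]
  apply natDegree_sum_le_of_forall_le
  intro c _
  have hlin : ∀ i, ((C (a i) + C (b i) * X : K[X])).natDegree ≤ 1 := by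
    intro i
    refine (natDegree_add_le _ _).trans (max_le (by simp) ?_)
    exact (natDegree_C_mul_le _ _).trans (by simp)
  rcases sw_coeff univ (fun i => C (a i) + C (b i) * X) hlin c with h | h
  · by_cases hc : m + c < Fintype.card K - 1
    · rw [sw_sum_pow _ hc]
      simp
    · rw [← hG] at h
      rw [card_univ, hι] at h
      have := natDegree_mul_C_le (G.coeff c) (∑ t : K, t ^ (m + c))
      omega
  · rw [← hG] at h
    rw [h]; simp

/-- the Hankel matrix -/
noncomputable def swM (a b : ι → K) (N : ℕ) : Matrix (Fin N) (Fin N) K[X] :=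
  Matrix.of fun i j => swH a b (i.val + j.val)

theorem swM_det_degree (hι : Fintype.card ι = Fintype.card K) (a b : ι → K) (N : ℕ) :
    ((swM a b N).det).natDegree ≤ N ^ 2 := by
  rw [Matrix.det_apply]
  apply natDegree_sum_le_of_forall_le
  intro σ _
  have h0 : (Equiv.Perm.sign σ • ∏ i, swM a b N (σ i) i).natDegree ≤
      (∏ i, swM a b N (σ i) i).natDegree := by
    rcases Int.units_eq_one_or (Equiv.Perm.sign σ) with h | h
    · rw [h, one_smul]
    · rw [h]; simp
  refine h0.trans ((natDegree_prod_le _ _).trans ?_)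
  have h1 : ∀ i : Fin N, (swM a b N (σ i) i).natDegree ≤ (σ i).val + i.val + 1 := by
    intro i
    unfold swM
    rw [Matrix.of_apply]
    exact swH_degree hι a b _
  refine (sum_le_sum fun i _ => h1 i).trans ?_
  rw [sum_add_distrib, sum_add_distrib, Equiv.sum_comp σ (fun i => i.val), sum_const, card_univ,
    Fintype.card_fin, smul_eq_mul, mul_one]
  have h2 : (∑ i : Fin N, i.val) * 2 = N * (N - 1) := by
    rw [Fin.sum_univ_eq_sum_range (fun i => i) N, Finset.sum_range_id_mul_two]
  cases N with
  | zero => simp
  | succ n =>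
    simp only [Nat.add_sub_cancel] at h2
    nlinarith

theorem swM_det_eval (a b : ι → K) (y0 : K) :
    ((swM a b (sw a b y0)).det).eval y0 ≠ 0 := by
  classical
  set N := sw a b y0 with hN
  set Z : Finset K := univ.filter (fun t : K => (swU a b t).eval y0 ≠ 0) with hZ
  have hcard : Fintype.card Z = N := by
    rw [Fintype.card_coe, hN, sw_eq]
  let e : Fin N ≃ Z := (Fintype.equivFinOfCardEq hcard).symm
  let v : Fin N → K := fun k => (e k : K)
  have hv : Function.Injective v := fun x y h => e.injective (Subtype.ext h)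
  have h1 : (swM a b N).map (eval y0) =
      (Matrix.vandermonde v).transpose * Matrix.diagonal (fun k => (swU a b (v k)).eval y0) *
        Matrix.vandermonde v := by
    ext i j
    rw [Matrix.map_apply]
    unfold swM
    rw [Matrix.of_apply]
    unfold swH
    rw [eval_finsetSum, Matrix.mul_apply]
    have h2 : ∑ t : K, eval y0 ((C t) ^ (i.val + j.val) * swU a b t) =
        ∑ t ∈ Z, t ^ (i.val + j.val) * (swU a b t).eval y0 := by
      rw [hZ, sum_filter]
      refine sum_congr rfl fun t _ => ?_
      simp only [eval_mul, eval_pow, eval_C]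
      split_ifs with h
      · rfl
      · push Not at h
        rw [h, mul_zero]
    rw [h2, ← sum_coe_sort Z, ← e.sum_comp]
    refine sum_congr rfl fun k _ => ?_
    rw [Matrix.mul_diagonal, Matrix.transpose_apply, Matrix.vandermonde_apply, Matrix.vandermonde_apply,
      pow_add]
    ring
  have h3 : ((swM a b N).det).eval y0 = ((swM a b N).map (eval y0)).det := by
    have := RingHom.map_det (evalRingHom y0) (swM a b N)
    rw [coe_evalRingHom] at this
    exact this
  rw [h3, h1, Matrix.det_mul, Matrix.det_mul, Matrix.det_transpose, Matrix.det_diagonal]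
  have h4 := Matrix.det_vandermonde_ne_zero_iff.mpr hv
  refine mul_ne_zero (mul_ne_zero h4 ?_) h4
  rw [prod_ne_zero_iff]
  intro k _
  exact (mem_filter.mp (e k).2).2

theorem swM_dvd (a b : ι → K) (N : ℕ) (y : K) :
    (X - C y) ^ (N - sw a b y) ∣ (swM a b N).det := by
  classical
  have h1 : (swM a b N).det = ∑ τ : Fin N → K,
      (∏ i, (C (τ i)) ^ i.val * swU a b (τ i)) * Matrix.det (Matrix.of (fun i j : Fin N => (C (τ i) : K[X]) ^ j.val)) := by
    have h2 : (swM a b N) = fun i => ∑ t : K, fun j => ((C t : K[X]) ^ i.val * swU a b t) * (C t) ^ j.val := by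
      ext1 i
      intro j
      unfold swM
      rw [Matrix.of_apply, Finset.sum_apply]
      unfold swH
      refine sum_congr rfl fun t _ => ?_
      rw [pow_add]
      ring
    have h3 : (swM a b N).det = Matrix.detRowAlternating (R := K[X]) (n := Fin N)
        (fun i => ∑ t : K, fun j => ((C t : K[X]) ^ i.val * swU a b t) * (C t) ^ j.val) := by
      rw [← h2]
      rfl
    rw [h3]
    have h4 := MultilinearMap.map_sum (Matrix.detRowAlternating (R := K[X]) (n := Fin N)).toMultilinearMap
      (fun (i : Fin N) (t : K) => fun j : Fin N => ((C t : K[X]) ^ i.val * swU a b t) * (C t) ^ j.val)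
    have h5 : Matrix.detRowAlternating (R := K[X]) (n := Fin N)
        (fun i => ∑ t : K, fun j => ((C t : K[X]) ^ i.val * swU a b t) * (C t) ^ j.val) =
        ∑ τ : Fin N → K, Matrix.detRowAlternating (R := K[X]) (n := Fin N)
          (fun i => fun j : Fin N => ((C (τ i) : K[X]) ^ i.val * swU a b (τ i)) * (C (τ i)) ^ j.val) := h4
    rw [h5]
    refine sum_congr rfl fun τ _ => ?_
    exact Matrix.det_mul_column (fun i => (C (τ i) : K[X]) ^ i.val * swU a b (τ i))
      (Matrix.of (fun i j : Fin N => (C (τ i) : K[X]) ^ j.val))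
  rw [h1]
  apply dvd_sum
  intro τ _
  by_cases hτ : Function.Injective τ
  · apply Dvd.dvd.mul_right
    -- at least `N - sw y` of the values are zeros
    set A : Finset (Fin N) := univ.filter (fun i => (swU a b (τ i)).eval y = 0) with hA
    have hcard : N - sw a b y ≤ A.card := by
      have h6 : (univ.filter (fun i : Fin N => (swU a b (τ i)).eval y ≠ 0)).card ≤ sw a b y := by
        rw [sw_eq]
        refine card_le_card_of_injOn τ ?_ (hτ.injOn)
        intro i hi
        have hi' := (mem_filter.mp (mem_coe.mp hi)).2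
        exact mem_coe.mpr (mem_filter.mpr ⟨mem_univ _, hi'⟩)
      have h7 := Finset.card_filter_add_card_filter_not (s := (univ : Finset (Fin N)))
        (p := fun i => (swU a b (τ i)).eval y = 0)
      rw [card_univ, Fintype.card_fin, ← hA] at h7
      have h8 : (univ.filter (fun i : Fin N => ¬ (swU a b (τ i)).eval y = 0)).card =
        (univ.filter (fun i : Fin N => (swU a b (τ i)).eval y ≠ 0)).card := rfl
      omega
    have h9 : (X - C y) ^ A.card ∣ ∏ i ∈ A, ((C (τ i)) ^ i.val * swU a b (τ i)) := by
      rw [← prod_const]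
      apply prod_dvd_prod_of_dvd
      intro i hi
      rw [hA, mem_filter] at hi
      apply Dvd.dvd.mul_left
      exact dvd_iff_isRoot.mpr hi.2
    exact (pow_dvd_pow _ hcard).trans (h9.trans (prod_dvd_prod_of_subset _ _ _ (subset_univ A)))
  · have : Matrix.det (Matrix.of (fun i j : Fin N => (C (τ i) : K[X]) ^ j.val)) = 0 := by
      unfold Function.Injective at hτ
      push Not at hτ
      obtain ⟨i, i', h, hne⟩ := hτ
      apply Matrix.det_zero_of_row_eq hne
      ext j
      simp [h]
    rw [this, mul_zero]
    exact dvd_zero _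

/-- the Szonyi-Weiner lemma -/
theorem sw_lemma (hι : Fintype.card ι = Fintype.card K) (a b : ι → K) (y0 : K) :
    ∑ y : K, (sw a b y0 - sw a b y) ≤ (sw a b y0) ^ 2 := by
  classical
  set P := (swM a b (sw a b y0)).det with hP
  have hP0 : P ≠ 0 := by
    intro h
    have := swM_det_eval a b y0
    rw [← hP, h] at this
    simp at this
  have h1 : ∀ y : K, sw a b y0 - sw a b y ≤ P.roots.count y := by
    intro y
    rw [count_roots]
    exact (le_rootMultiplicity_iff hP0).mpr (swM_dvd a b _ y)
  calc ∑ y : K, (sw a b y0 - sw a b y) ≤ ∑ y : K, P.roots.count y := sum_le_sum fun y _ => h1 y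
    _ = Multiset.card P.roots := Multiset.sum_count_eq_card (fun y _ => mem_univ y)
    _ ≤ P.natDegree := card_roots' P
    _ ≤ (sw a b y0) ^ 2 := swM_det_degree hι a b _

end

end Crest.Agent.RY
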