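/- umbrella -/
import Crest.Agent.RY_A_Elem1
import Crest.Agent.RY_A_Elem2
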