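import Mathlib

set_option autoImplicit false

namespace Crest.Agent.S0025

/-- `Egy k x`: `x` is a sum of at most `k` unit fractions, repetition allowed. -/
def Egy (k : ℕ) (x : ℚ) : Prop :=
  ∃ s : Multiset ℕ, Multiset.card s ≤ k ∧ (∀ n ∈ s, 0 < n) ∧
    (s.map (fun n : ℕ => (1 : ℚ) / n)).sum = x

theorem Egy.zero (k : ℕ) : Egy k 0 := ⟨0, by simp, by simp, by simp⟩

theorem Egy.mono {k l : ℕ} {x : ℚ} (h : Egy k x) (hkl : k ≤ l) : Egy l x := by
  obtain ⟨s, h1, h2, h3⟩ := h
  exact ⟨s, h1.trans hkl, h2, h3⟩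

theorem Egy.add {k l : ℕ} {x y : ℚ} (hx : Egy k x) (hy : Egy l y) : Egy (k + l) (x + y) := by
  obtain ⟨s, h1, h2, h3⟩ := hx
  obtain ⟨t, g1, g2, g3⟩ := hy
  refine ⟨s + t, ?_, ?_, ?_⟩
  · rw [Multiset.card_add]; omega
  · intro n hn
    rcases Multiset.mem_add.1 hn with h | h
    · exact h2 n h
    · exact g2 n h
  · rw [Multiset.map_add, Multiset.sum_add, h3, g3]

theorem Egy.unit {n : ℕ} (hn : 0 < n) : Egy 1 ((1 : ℚ) / n) :=
  ⟨{n}, by simp, by simpa using hn, by simp⟩

theorem Egy.div {k : ℕ} {x : ℚ} (h : Egy k x) {m : ℕ} (hm : 0 < m) : Egy k (x / m) := by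
  obtain ⟨s, h1, h2, h3⟩ := h
  refine ⟨s.map (fun n => n * m), by simpa using h1, ?_, ?_⟩
  · intro n hn
    obtain ⟨a, ha, rfl⟩ := Multiset.mem_map.1 hn
    exact Nat.mul_pos (h2 a ha) hm
  · rw [Multiset.map_map, ← h3, div_eq_mul_inv, ← Multiset.sum_map_mul_right]
    congr 1
    apply Multiset.map_congr rfl
    intro n hn
    simp only [Function.comp, Nat.cast_mul, one_div, mul_inv]

theorem Egy.finset_sum {ι : Type*} (t : Finset ι) (f : ι → ℚ) (k : ℕ)
    (h : ∀ i ∈ t, Egy k (f i)) : Egy (t.card * k) (∑ i ∈ t, f i) := by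
  classical
  induction t using Finset.induction_on with
  | empty => simpa using Egy.zero 0
  | insert a t ha ih =>
    rw [Finset.sum_insert ha, Finset.card_insert_of_notMem ha]
    have h1 := h a (Finset.mem_insert_self a t)
    have h2 := ih (fun i hi => h i (Finset.mem_insert_of_mem hi))
    have h3 := h1.add h2
    have : k + t.card * k = (t.card + 1) * k := by ring
    rwa [this] at h3

/-- The set of `k`-element multisets of positive integers with prescribed sum of reciprocals is
finite. -/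
theorem egy_finite (k : ℕ) : ∀ x : ℚ, {s : Multiset ℕ | Multiset.card s = k ∧ (∀ n ∈ s, 0 < n) ∧
    (s.map (fun n : ℕ => (1 : ℚ) / n)).sum = x}.Finite := by
  induction k with
  | zero =>
    intro x
    apply (Set.finite_singleton (0 : Multiset ℕ)).subset
    rintro s ⟨h1, -, -⟩
    simpa using h1
  | succ k ih =>
    intro x
    by_cases hx : 0 < x
    · set N : ℕ := ⌈((k : ℚ) + 1) / x⌉₊ with hN
      apply ((Set.finite_Iic N).biUnion
        (fun n _ => (ih (x - 1 / n)).image (fun s => n ::ₘ s))).subset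
      rintro s ⟨h1, h2, h3⟩
      have hex : ∃ n ∈ s, n ≤ N := by
        by_contra hcon
        push Not at hcon
        have hle : (s.map (fun n : ℕ => (1 : ℚ) / n)).sum ≤
            Multiset.card (s.map (fun n : ℕ => (1 : ℚ) / n)) • ((1 : ℚ) / (N + 1)) := by
          apply Multiset.sum_le_card_nsmul
          intro y hy
          obtain ⟨n, hn, rfl⟩ := Multiset.mem_map.1 hy
          have := hcon n hn
          apply one_div_le_one_div_of_le
          · positivity
          · exact_mod_cast this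
        rw [h3, Multiset.card_map, h1, nsmul_eq_mul, mul_one_div, le_div_iff₀ (by positivity)] at hle
        have hceil : ((k : ℚ) + 1) / x ≤ N := Nat.le_ceil _
        rw [div_le_iff₀ hx] at hceil
        push_cast at hle
        nlinarith
      obtain ⟨n, hn, hnN⟩ := hex
      obtain ⟨t, rfl⟩ := Multiset.exists_cons_of_mem hn
      simp only [Set.mem_iUnion]
      refine ⟨n, hnN, t, ⟨?_, ?_, ?_⟩, rfl⟩
      · simpa using h1
      · intro m hm
        exact h2 m (Multiset.mem_cons_of_mem hm)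
      · rw [Multiset.map_cons, Multiset.sum_cons] at h3
        linarith
    · apply Set.finite_empty.subset
      rintro s ⟨h1, h2, h3⟩
      exfalso
      have hne : s ≠ 0 := by
        rintro rfl
        simp at h1
      obtain ⟨n, hn⟩ := Multiset.exists_mem_of_ne_zero hne
      have h4 : (1 : ℚ) / n ≤ (s.map (fun n : ℕ => (1 : ℚ) / n)).sum := by
        apply Multiset.single_le_sum
        · intro y hy
          obtain ⟨n, hn, rfl⟩ := Multiset.mem_map.1 hy
          positivity
        · exact Multiset.mem_map_of_mem _ hn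
      have h5 : (0 : ℚ) < 1 / n := by
        have := h2 n hn
        positivity
      rw [h3] at h4
      exact hx (lt_of_lt_of_le h5 h4)

/-- Merging repeated unit fractions never increases the number of terms. -/
theorem egy_merge {k : ℕ} {x : ℚ} (hx : x < 1) (h : Egy k x) :
    ∃ S : Finset ℕ, (∀ n ∈ S, 2 ≤ n) ∧ S.card ≤ k ∧ ∑ n ∈ S, (1 : ℚ) / n = x := by
  classical
  let M : ℕ → Set (Multiset ℕ) := fun j => {s : Multiset ℕ | Multiset.card s = j ∧
    (∀ n ∈ s, 0 < n) ∧ (s.map (fun n : ℕ => (1 : ℚ) / n)).sum = x}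
  have hex : ∃ j, (M j).Nonempty := by
    obtain ⟨s, h1, h2, h3⟩ := h
    exact ⟨Multiset.card s, s, rfl, h2, h3⟩
  set j := Nat.find hex with hj
  have hjM : (M j).Nonempty := Nat.find_spec hex
  have hjk : j ≤ k := by
    obtain ⟨s, h1, h2, h3⟩ := h
    exact (Nat.find_min' hex ⟨s, rfl, h2, h3⟩).trans h1
  obtain ⟨s, hsM, hmax⟩ := Set.exists_max_image (M j)
    (fun s : Multiset ℕ => (s.map (fun n : ℕ => ((1 : ℚ) / n) ^ 2)).sum) (egy_finite j x) hjM
  obtain ⟨hcard, hpos, hsum⟩ := hsM
  have hge2 : ∀ n ∈ s, 2 ≤ n := by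
    intro n hn
    by_contra hlt
    have h1 : n = 1 := by
      have := hpos n hn
      omega
    subst h1
    have h4 : (1 : ℚ) / (1 : ℕ) ≤ (s.map (fun n : ℕ => (1 : ℚ) / n)).sum := by
      apply Multiset.single_le_sum
      · intro y hy
        obtain ⟨n, hn, rfl⟩ := Multiset.mem_map.1 hy
        positivity
      · exact Multiset.mem_map_of_mem (fun n : ℕ => (1 : ℚ) / n) hn
    rw [hsum] at h4
    norm_num at h4
    linarith
  have hnodup : s.Nodup := by
    rw [Multiset.nodup_iff_ne_cons_cons]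
    rintro n t rfl
    have hn2 : 2 ≤ n := hge2 n (Multiset.mem_cons_self _ _)
    have hn0 : (0 : ℚ) < n := by positivity
    rw [Multiset.map_cons, Multiset.map_cons, Multiset.sum_cons, Multiset.sum_cons] at hsum
    rw [Multiset.card_cons, Multiset.card_cons] at hcard
    have hpt : ∀ m ∈ t, 0 < m := fun m hm =>
      hpos m (Multiset.mem_cons_of_mem (Multiset.mem_cons_of_mem hm))
    rcases Nat.even_or_odd' n with ⟨m, hm | hm⟩
    · -- even: merge
      have hm0 : 0 < m := by omega
      have hmem : (m ::ₘ t) ∈ M (Multiset.card t + 1) := by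
        refine ⟨by simp, ?_, ?_⟩
        · intro a ha
          rcases Multiset.mem_cons.1 ha with rfl | h
          · exact hm0
          · exact hpt a h
        · rw [Multiset.map_cons, Multiset.sum_cons, ← hsum, hm]
          push_cast
          field_simp
          ring
      have := Nat.find_min' hex ⟨_, hmem⟩
      omega
    · -- odd: spread
      have hm0 : 0 < m := by omega
      have hmem : ((m + 1) ::ₘ (n * (m + 1)) ::ₘ t) ∈ M j := by
        refine ⟨by simp [← hcard], ?_, ?_⟩
        · intro a ha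
          rcases Multiset.mem_cons.1 ha with rfl | h
          · omega
          · rcases Multiset.mem_cons.1 h with rfl | h
            · positivity
            · exact hpt a h
        · rw [Multiset.map_cons, Multiset.map_cons, Multiset.sum_cons, Multiset.sum_cons, ← hsum, hm]
          push_cast
          field_simp
          ring
      have h6 := hmax _ hmem
      simp only [Multiset.map_cons, Multiset.sum_cons] at h6
      have h7 : ((1 : ℚ) / ((m + 1 : ℕ) : ℚ)) ^ 2 + ((1 : ℚ) / ((n * (m + 1) : ℕ) : ℚ)) ^ 2 ≤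
          ((1 : ℚ) / n) ^ 2 + ((1 : ℚ) / n) ^ 2 := by linarith
      have h8 : ((n : ℚ)) ^ 2 + 1 ≤ 2 * ((m : ℚ) + 1) ^ 2 := by
        have hm1 : (0 : ℚ) < (m : ℚ) + 1 := by positivity
        push_cast at h7
        rw [div_pow, div_pow, div_pow, one_pow] at h7
        rw [div_add_div _ _ (by positivity) (by positivity), div_add_div _ _ (by positivity) (by positivity),
          div_le_div_iff₀ (by positivity) (by positivity)] at h7
        have h9 : (0 : ℚ) < ((m : ℚ) + 1) ^ 2 * (n : ℚ) ^ 4 := by positivity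
        have h10 : (((n : ℚ)) ^ 2 + 1) * (((m : ℚ) + 1) ^ 2 * (n : ℚ) ^ 4) ≤
            (2 * ((m : ℚ) + 1) ^ 2) * (((m : ℚ) + 1) ^ 2 * (n : ℚ) ^ 4) := by
          nlinarith [h7]
        exact le_of_mul_le_mul_right h10 h9
      have h11 : (n : ℚ) = 2 * m + 1 := by rw [hm]; push_cast; ring
      rw [h11] at h8
      have h12 : (1 : ℚ) ≤ m := by exact_mod_cast hm0
      nlinarith
  refine ⟨⟨s, hnodup⟩, fun n hn => hge2 n hn, ?_, hsum⟩
  show Multiset.card s ≤ k
  rw [hcard]
  exact hjk

/-- Mixed radix expansion. -/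
theorem egy_radix {k R N : ℕ} (hN : 0 < N) (h : ∀ q : ℕ, q ≤ R → Egy k ((q : ℚ) / N)) :
    ∀ (L : List ℕ), (∀ f ∈ L, 0 < f ∧ f ≤ R + 1) → ∀ M : ℕ, M ≤ R * L.prod →
      Egy ((L.length + 1) * k) ((M : ℚ) / (N * L.prod : ℕ)) := by
  intro L
  induction L with
  | nil =>
    intro _ M hM
    have := h M (by simpa using hM)
    simpa using this
  | cons f L ih =>
    intro hL M hM
    obtain ⟨hf0, hfR⟩ := hL f (List.mem_cons_self)
    have hL' : ∀ g ∈ L, 0 < g ∧ g ≤ R + 1 := fun g hg => hL g (List.mem_cons_of_mem _ hg)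
    have hprod : 0 < L.prod := List.prod_pos (fun g hg => (hL' g hg).1)
    have hM' : M / f ≤ R * L.prod := by
      apply Nat.div_le_of_le_mul
      rw [List.prod_cons] at hM
      calc M ≤ R * (f * L.prod) := hM
        _ = f * (R * L.prod) := by ring
    have h1 := ih hL' (M / f) hM'
    have h2 : M % f ≤ R := by
      have := Nat.mod_lt M hf0
      omega
    have h3 := (h (M % f) h2).div (m := f * L.prod) (Nat.mul_pos hf0 hprod)
    have h4 := h1.add h3
    have h5 : (L.length + 1) * k + k = ((f :: L).length + 1) * k := by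
      rw [List.length_cons]; ring
    rw [h5] at h4
    convert h4 using 1
    have hM2 : (M : ℚ) = f * ((M / f : ℕ) : ℚ) + ((M % f : ℕ) : ℚ) := by
      exact_mod_cast (Nat.div_add_mod M f).symm
    have hf0' : (f : ℚ) ≠ 0 := by positivity
    have hp0' : (L.prod : ℚ) ≠ 0 := by positivity
    have hN0' : (N : ℚ) ≠ 0 := by positivity
    rw [List.prod_cons]
    set A : ℚ := ((M / f : ℕ) : ℚ)
    set B : ℚ := ((M % f : ℕ) : ℚ)
    rw [hM2]
    push_cast
    field_simp

/-- One greedy (Fibonacci–Sylvester) step. -/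
theorem sylvester_step {a c : ℕ} (ha : 0 < a) (hac : a < c) :
    ∃ n a' : ℕ, 2 ≤ n ∧ n ≤ c ∧ a' < a ∧ a' * c < a ^ 2 * n ∧
      (a : ℚ) / c = 1 / n + a' / (c * n : ℕ) := by
  have h1 := Nat.div_add_mod (c - 1) a
  have h2 := Nat.mod_lt (c - 1) ha
  set t := (c - 1) / a with ht
  refine ⟨t + 1, a * (t + 1) - c, ?_, ?_, ?_, ?_, ?_⟩
  · have : 1 ≤ t := by
      rw [ht, Nat.one_le_div_iff ha]; omega
    omega
  · have : t ≤ c - 1 := Nat.div_le_self _ _
    omega
  · have : a * (t + 1) = a * t + a := by ring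
    omega
  · have h3 : a * (t + 1) = a * t + a := by ring
    have h4 : a * (t + 1) - c < a := by omega
    have h5 : c ≤ a * (t + 1) := by omega
    have hc : 0 < c := by omega
    calc (a * (t + 1) - c) * c < a * c := Nat.mul_lt_mul_of_pos_right h4 hc
      _ ≤ a * (a * (t + 1)) := Nat.mul_le_mul_left _ h5
      _ = a ^ 2 * (t + 1) := by ring
  · have h3 : a * (t + 1) = a * t + a := by ring
    have h5 : c ≤ a * (t + 1) := by omega
    rw [Nat.cast_sub h5]
    have hc : (c : ℚ) ≠ 0 := by
      have : 0 < c := by omega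
      positivity
    have ht1 : ((t : ℚ) + 1) ≠ 0 := by positivity
    push_cast
    field_simp
    ring

theorem sylvester_aux (B : ℕ) (hB : 0 < B) : ∀ m i a c : ℕ, 0 < c → c < B → a * 2 ^ (2 ^ i) < c →
    B ≤ 2 ^ (2 ^ (i + m)) → ∃ x : ℚ, Egy m x ∧ ∃ a' c' : ℕ, (a : ℚ) / c = x + a' / c' ∧
      a' ≤ a ∧ B ≤ c' ∧ c' ≤ B ^ 2 := by
  intro m
  induction m with
  | zero =>
    intro i a c hc0 hcB hac hBi
    have ha : a = 0 := by
      by_contra hne
      have : 1 ≤ a := Nat.one_le_iff_ne_zero.2 hne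
      have h1 : 2 ^ 2 ^ i ≤ a * 2 ^ 2 ^ i := Nat.le_mul_of_pos_left _ this
      simp only [add_zero] at hBi
      omega
    subst ha
    exact ⟨0, Egy.zero 0, 0, B, by simp, le_rfl, le_rfl, by nlinarith⟩
  | succ m ih =>
    intro i a c hc0 hcB hac hBi
    rcases Nat.eq_zero_or_pos a with rfl | ha
    · exact ⟨0, Egy.zero _, 0, B, by simp, le_rfl, le_rfl, by nlinarith⟩
    · have hpos : 0 < 2 ^ 2 ^ i := by positivity
      have hac' : a < c := lt_of_le_of_lt (Nat.le_mul_of_pos_right a hpos) hac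
      obtain ⟨n, a', hn2, hnc, ha'a, hkey, heq⟩ := sylvester_step ha hac'
      by_cases hBc : B ≤ c * n
      · refine ⟨1 / n, (Egy.unit (by omega)).mono (by omega), a', c * n, heq, ha'a.le, hBc, ?_⟩
        calc c * n ≤ c * c := Nat.mul_le_mul_left _ hnc
          _ ≤ B * B := Nat.mul_le_mul hcB.le hcB.le
          _ = B ^ 2 := by ring
      · push Not at hBc
        have h1 : a' * 2 ^ 2 ^ (i + 1) < c * n := by
          rcases Nat.eq_zero_or_pos a' with rfl | ha'
          · simp only [zero_mul]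
            exact Nat.mul_pos hc0 (by omega)
          · have h2 : (2 : ℕ) ^ 2 ^ (i + 1) = (2 ^ 2 ^ i) ^ 2 := by
              rw [← pow_mul, pow_succ]
            rw [h2]
            set P := 2 ^ 2 ^ i
            have h3 : a' * (a * P) ^ 2 < (a' * c) * c := by
              have : (a * P) ^ 2 < c ^ 2 := Nat.pow_lt_pow_left hac (by norm_num)
              calc a' * (a * P) ^ 2 < a' * c ^ 2 := Nat.mul_lt_mul_of_pos_left this ha'
                _ = (a' * c) * c := by ring
            have h4 : (a' * c) * c < a ^ 2 * (c * n) := by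
              calc (a' * c) * c < (a ^ 2 * n) * c := Nat.mul_lt_mul_of_pos_right hkey hc0
                _ = a ^ 2 * (c * n) := by ring
            have h5 : a ^ 2 * (a' * P ^ 2) < a ^ 2 * (c * n) := by
              calc a ^ 2 * (a' * P ^ 2) = a' * (a * P) ^ 2 := by ring
                _ < (a' * c) * c := h3
                _ < a ^ 2 * (c * n) := h4
            exact lt_of_mul_lt_mul_left h5 (by positivity)
        have h2 : B ≤ 2 ^ 2 ^ (i + 1 + m) := by
          have : i + 1 + m = i + (m + 1) := by ring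
          rwa [this]
        obtain ⟨x, hx, a'', c'', he, h3, h4, h5⟩ :=
          ih (i + 1) a' (c * n) (Nat.mul_pos hc0 (by omega)) hBc h1 h2
        refine ⟨1 / n + x, ?_, a'', c'', ?_, h3.trans ha'a.le, h4, h5⟩
        · have := (Egy.unit (n := n) (by omega)).add hx
          rwa [add_comm 1 m] at this
        · rw [heq, he, add_assoc]

/-- Greedy reduction: after `m + 1` unit fractions the denominator exceeds `b ^ 2`. -/
theorem sylvester {a b m : ℕ} (ha : 0 < a) (hab : a < b) (hm : b ^ 2 ≤ 2 ^ (2 ^ m)) :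
    ∃ x : ℚ, Egy (m + 1) x ∧ ∃ a' c' : ℕ, (a : ℚ) / b = x + a' / c' ∧
      a' ≤ a ∧ b ^ 2 ≤ c' ∧ c' ≤ b ^ 4 := by
  obtain ⟨n, a', hn2, hnc, ha'a, hkey, heq⟩ := sylvester_step ha hab
  have hb4 : (b ^ 2) ^ 2 = b ^ 4 := by ring
  by_cases hBc : b ^ 2 ≤ b * n
  · refine ⟨1 / n, (Egy.unit (by omega)).mono (by omega), a', b * n, heq, ha'a.le, hBc, ?_⟩
    have hb1 : 1 ≤ b := by omega
    calc b * n ≤ b * b := Nat.mul_le_mul_left _ hnc
      _ = b ^ 2 := by ring
      _ ≤ b ^ 4 := Nat.pow_le_pow_right hb1 (by norm_num)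
  · push Not at hBc
    have h1 : a' * 2 ^ 2 ^ 0 < b * n := by
      simp only [pow_zero, pow_one]
      calc a' * 2 < a * 2 := by omega
        _ ≤ b * 2 := by omega
        _ ≤ b * n := Nat.mul_le_mul_left _ hn2
    have hb0 : 0 < b := by omega
    obtain ⟨x, hx, a'', c'', he, h3, h4, h5⟩ :=
      sylvester_aux (b ^ 2) (by positivity) m 0 a' (b * n)
        (Nat.mul_pos (by omega) (by omega)) hBc h1 (by simpa using hm)
    refine ⟨1 / n + x, ?_, a'', c'', ?_, h3.trans ha'a.le, h4, by rw [← hb4]; exact h5⟩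
    · have := (Egy.unit (n := n) (by omega)).add hx
      rwa [add_comm 1 m] at this
    · rw [heq, he, add_assoc]

/-- If `D * t` is a sum of divisors `u i` of `N`, then `D / N` is a sum of that many unit
fractions. -/
theorem egy_of_dvd_sum {ι : Type*} (s : Finset ι) (u : ι → ℕ) {N D : ℕ} (hN : 0 < N)
    (hu : ∀ i ∈ s, u i ∣ N) (hpos : 0 < ∑ i ∈ s, u i) (hD : D ∣ ∑ i ∈ s, u i) :
    Egy s.card ((D : ℚ) / N) := by
  obtain ⟨t, ht⟩ := hD
  have ht0 : 0 < t := by
    rcases Nat.eq_zero_or_pos t with rfl | h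
    · rw [mul_zero] at ht; omega
    · exact h
  have hD0 : 0 < D := by
    rcases Nat.eq_zero_or_pos D with rfl | h
    · rw [zero_mul] at ht; omega
    · exact h
  have h1 : Egy (s.card * 1) (∑ i ∈ s, ((u i : ℚ) / N) / t) := by
    apply Egy.finset_sum
    intro i hi
    apply Egy.div _ ht0
    obtain ⟨w, hw⟩ := hu i hi
    have hui : 0 < u i := by
      rcases Nat.eq_zero_or_pos (u i) with h | h
      · rw [h, zero_mul] at hw; omega
      · exact h
    have hw0 : 0 < w := by
      rcases Nat.eq_zero_or_pos w with rfl | h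
      · rw [mul_zero] at hw; omega
      · exact h
    have : (u i : ℚ) / N = 1 / w := by
      rw [hw]
      push_cast
      have h1 : (u i : ℚ) ≠ 0 := by positivity
      have h2 : (w : ℚ) ≠ 0 := by positivity
      field_simp
    rw [this]
    exact Egy.unit hw0
  rw [mul_one] at h1
  convert h1 using 1
  rw [← Finset.sum_div, ← Finset.sum_div]
  have h2 : (∑ i ∈ s, (u i : ℚ)) = D * t := by exact_mod_cast ht
  rw [h2]
  have h3 : (t : ℚ) ≠ 0 := by positivity
  have h4 : (N : ℚ) ≠ 0 := by positivity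
  field_simp

end Crest.Agent.S0025
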