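import Mathlib

set_option autoImplicit false

namespace Crest.Agent.S0025

open Finset

/-- number of collisions of a map on a finite set -/
def coll {ι α : Type*} [DecidableEq α] (s : Finset ι) (X : ι → α) : ℕ :=
  ((s ×ˢ s).filter (fun p => X p.1 = X p.2)).card

/-- unnormalised exponential sum -/
noncomputable def ex {D : ℕ} [NeZero D] {ι : Type*} (s : Finset ι) (X : ι → ZMod D)
    (c : ZMod D) : ℂ :=
  ∑ i ∈ s, ZMod.stdAddChar (c * X i)

section
variable {D : ℕ} [NeZero D] {ι κ : Type*}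

theorem norm_char (x : ZMod D) : ‖(ZMod.stdAddChar x : ℂ)‖ = 1 := AddChar.norm_apply _ _

theorem ex_zero (s : Finset ι) (X : ι → ZMod D) : ex s X 0 = s.card := by
  simp [ex]

theorem norm_ex_le (s : Finset ι) (X : ι → ZMod D) (c : ZMod D) : ‖ex s X c‖ ≤ s.card := by
  unfold ex
  refine (norm_sum_le _ _).trans ?_
  simp [norm_char]

theorem sum_char (x : ZMod D) :
    ∑ c : ZMod D, (ZMod.stdAddChar (c * x) : ℂ) = if x = 0 then (D : ℂ) else 0 := by
  have h := AddChar.sum_mulShift (R := ZMod D) (R' := ℂ) x (ZMod.isPrimitive_stdAddChar D)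
  rw [h]
  split_ifs <;> simp

theorem char_neg (x : ZMod D) : (ZMod.stdAddChar (-x) : ℂ) =
    (starRingEnd ℂ) (ZMod.stdAddChar x) := by
  rw [AddChar.map_neg_eq_inv, Complex.inv_eq_conj (norm_char x)]

theorem parseval (s : Finset ι) (X : ι → ZMod D) :
    ∑ c : ZMod D, ‖ex s X c‖ ^ 2 = (D : ℝ) * coll s X := by
  have key : ((∑ c : ZMod D, ‖ex s X c‖ ^ 2 : ℝ) : ℂ) = (((D : ℝ) * coll s X : ℝ) : ℂ) := by
    push_cast
    have h1 : ∀ c : ZMod D, ((‖ex s X c‖ : ℂ)) ^ 2 =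
        ∑ i ∈ s, ∑ j ∈ s, ZMod.stdAddChar (c * (X i - X j)) := by
      intro c
      rw [← Complex.mul_conj' (ex s X c)]
      unfold ex
      rw [map_sum, sum_mul_sum]
      refine sum_congr rfl fun i _ => sum_congr rfl fun j _ => ?_
      rw [← char_neg, ← AddChar.map_add_eq_mul]
      congr 1
      ring
    rw [sum_congr rfl (fun c _ => h1 c), sum_comm]
    have h2 : ∀ i ∈ s, ∑ c : ZMod D, ∑ j ∈ s, (ZMod.stdAddChar (c * (X i - X j)) : ℂ) =
        ∑ j ∈ s, if X i = X j then (D : ℂ) else 0 := by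
      intro i _
      rw [sum_comm]
      refine sum_congr rfl fun j _ => ?_
      rw [sum_char]
      simp [sub_eq_zero]
    rw [sum_congr rfl h2, ← sum_product', coll, ← sum_filter, sum_const, nsmul_eq_mul, mul_comm]
  exact_mod_cast key

theorem count_zero (s : Finset ι) (X : ι → ZMod D) :
    (D : ℂ) * ((s.filter (fun i => X i = 0)).card : ℂ) = ∑ c : ZMod D, ex s X c := by
  unfold ex
  rw [sum_comm]
  have h2 : ∀ i ∈ s, ∑ c : ZMod D, (ZMod.stdAddChar (c * X i) : ℂ) =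
      if X i = 0 then (D : ℂ) else 0 := fun i _ => sum_char _
  rw [sum_congr rfl h2, ← sum_filter, sum_const, nsmul_eq_mul, mul_comm]

theorem ex_prod (s : Finset ι) (t : Finset κ) (X : ι → ZMod D) (Y : κ → ZMod D) (c : ZMod D) :
    ex (s ×ˢ t) (fun p => X p.1 + Y p.2) c = ex s X c * ex t Y c := by
  unfold ex
  rw [sum_mul_sum, sum_product]
  refine sum_congr rfl fun i _ => sum_congr rfl fun j _ => ?_
  rw [mul_add, AddChar.map_add_eq_mul]

theorem ex_bilinear (t : Finset κ) (v : κ → ZMod D) (s : Finset ι) (X : ι → ZMod D)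
    (c : ZMod D) (K : ℕ) (hK : ∀ x, (t.filter (fun α => c * v α = x)).card ≤ K) :
    ‖ex (t ×ˢ s) (fun p => v p.1 * X p.2) c‖ ^ 2 ≤ t.card * (K * (D * coll s X)) := by
  have h1 : ex (t ×ˢ s) (fun p => v p.1 * X p.2) c = ∑ α ∈ t, ex s X (c * v α) := by
    unfold ex
    rw [sum_product]
    refine sum_congr rfl fun α _ => sum_congr rfl fun i _ => ?_
    rw [mul_assoc]
  rw [h1]
  have h2 : ‖∑ α ∈ t, ex s X (c * v α)‖ ^ 2 ≤ t.card * ∑ α ∈ t, ‖ex s X (c * v α)‖ ^ 2 := by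
    have h3 : ‖∑ α ∈ t, ex s X (c * v α)‖ ≤ ∑ α ∈ t, ‖ex s X (c * v α)‖ := norm_sum_le _ _
    have h4 : (∑ α ∈ t, ‖ex s X (c * v α)‖) ^ 2 ≤ t.card * ∑ α ∈ t, ‖ex s X (c * v α)‖ ^ 2 :=
      sq_sum_le_card_mul_sum_sq
    have h5 : (0 : ℝ) ≤ ‖∑ α ∈ t, ex s X (c * v α)‖ := norm_nonneg _
    nlinarith
  refine h2.trans ?_
  apply mul_le_mul_of_nonneg_left _ (by positivity)
  have h3 : ∑ α ∈ t, ‖ex s X (c * v α)‖ ^ 2 =
      ∑ x : ZMod D, ∑ α ∈ t.filter (fun α => c * v α = x), ‖ex s X (c * v α)‖ ^ 2 := by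
    rw [sum_fiberwise]
  rw [h3, ← parseval, mul_sum]
  apply sum_le_sum
  intro x _
  have h4 : ∑ α ∈ t.filter (fun α => c * v α = x), ‖ex s X (c * v α)‖ ^ 2 =
      ∑ α ∈ t.filter (fun α => c * v α = x), ‖ex s X x‖ ^ 2 := by
    refine sum_congr rfl fun α hα => ?_
    rw [(mem_filter.1 hα).2]
  rw [h4, sum_const, nsmul_eq_mul]
  apply mul_le_mul_of_nonneg_right _ (by positivity)
  exact_mod_cast hK x

/-- Key lemma: a good modulus divides some sum. -/
theorem exists_zero_sum (s : Finset ι) (X : ι → ZMod D) (t : Finset κ) (v : κ → ZMod D) (K : ℕ)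
    (hK : ∀ c : ZMod D, c ≠ 0 → ∀ x, (t.filter (fun α => c * v α = x)).card ≤ K)
    (h : (D * coll s X) ^ 3 * K < s.card ^ 6 * t.card) :
    ∃ i ∈ s, ∃ j ∈ s, ∃ α ∈ t, ∃ l ∈ s, X i + X j + v α * X l = 0 := by
  by_contra hcon
  push Not at hcon
  have h0 := count_zero ((s ×ˢ s) ×ˢ (t ×ˢ s))
    (fun p : (ι × ι) × (κ × ι) => (X p.1.1 + X p.1.2) + v p.2.1 * X p.2.2)
  have hempty : ((s ×ˢ s) ×ˢ (t ×ˢ s)).filter
      (fun p : (ι × ι) × (κ × ι) => (X p.1.1 + X p.1.2) + v p.2.1 * X p.2.2 = 0) = ∅ := by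
    rw [filter_eq_empty_iff]
    rintro ⟨⟨i, j⟩, ⟨α, l⟩⟩ hp
    simp only [mem_product] at hp
    exact hcon i hp.1.1 j hp.1.2 α hp.2.1 l hp.2.2
  rw [hempty, card_empty, Nat.cast_zero, mul_zero] at h0
  have h1 : ∀ c : ZMod D, ex ((s ×ˢ s) ×ˢ (t ×ˢ s))
      (fun p : (ι × ι) × (κ × ι) => (X p.1.1 + X p.1.2) + v p.2.1 * X p.2.2) c =
      (ex s X c * ex s X c) * ex (t ×ˢ s) (fun p => v p.1 * X p.2) c := by
    intro c
    rw [ex_prod (s ×ˢ s) (t ×ˢ s) (fun p : ι × ι => X p.1 + X p.2)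
      (fun p : κ × ι => v p.1 * X p.2) c, ex_prod s s X X c]
  rw [sum_congr rfl (fun c _ => h1 c), ← add_sum_erase univ _ (mem_univ (0 : ZMod D))] at h0
  rw [ex_zero, ex_zero, card_product] at h0
  set G : ℝ := Real.sqrt (t.card * (K * (D * coll s X))) with hG
  have h2 : ‖∑ c ∈ univ.erase (0 : ZMod D), (ex s X c * ex s X c) *
      ex (t ×ˢ s) (fun p => v p.1 * X p.2) c‖ ≤ (D * coll s X) * G := by
    refine (norm_sum_le _ _).trans ?_
    rw [← parseval, sum_mul]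
    refine le_trans (sum_le_sum (g := fun c => ‖ex s X c‖ ^ 2 * G) ?_)
      (sum_le_sum_of_subset_of_nonneg (erase_subset _ _) ?_)
    · intro c hc
      rw [norm_mul, norm_mul, ← pow_two]
      apply mul_le_mul_of_nonneg_left _ (by positivity)
      rw [hG]
      apply Real.le_sqrt_of_sq_le
      exact ex_bilinear t v s X c K (hK c (ne_of_mem_erase hc))
    · intro c _ _
      positivity
  have h3 : ((s.card : ℝ) * s.card) * (t.card * s.card) ≤ (D * coll s X) * G := by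
    have h4 : ∑ c ∈ univ.erase (0 : ZMod D), (ex s X c * ex s X c) *
      ex (t ×ˢ s) (fun p => v p.1 * X p.2) c =
        -((((s.card : ℂ) * s.card) * ((t.card * s.card : ℕ) : ℂ))) := by
      linear_combination -h0
    rw [h4, norm_neg, norm_mul, norm_mul, Complex.norm_natCast, Complex.norm_natCast] at h2
    exact_mod_cast h2
  have h5 : (((s.card : ℝ) * s.card) * (t.card * s.card)) ^ 2 ≤
      ((D * coll s X) * G) ^ 2 := by
    apply pow_le_pow_left₀ (by positivity) h3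
  have hG2 : G ^ 2 = t.card * (K * (D * coll s X)) := Real.sq_sqrt (by positivity)
  have h6 : ((s.card : ℝ) ^ 6 * t.card) * t.card ≤
      ((D * coll s X) ^ 3 * K) * t.card := by
    calc ((s.card : ℝ) ^ 6 * t.card) * t.card
        = (((s.card : ℝ) * s.card) * (t.card * s.card)) ^ 2 := by ring
      _ ≤ ((D * coll s X) * G) ^ 2 := h5
      _ = (D * coll s X) ^ 2 * G ^ 2 := by ring
      _ = ((D * coll s X) ^ 3 * K) * t.card := by rw [hG2]; ring
  have h7 : ((D * coll s X) ^ 3 * K) * t.card < (s.card ^ 6 * t.card) * t.card := by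
    apply Nat.mul_lt_mul_of_pos_right h
    rcases Nat.eq_zero_or_pos t.card with h8 | h8
    · rw [h8, mul_zero] at h; omega
    · exact h8
  have h8 : (s.card ^ 6 * t.card) * t.card ≤ ((D * coll s X) ^ 3 * K) * t.card := by
    exact_mod_cast h6
  omega

end

end Crest.Agent.S0025
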