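import Mathlib
import Crest.Agent.S0025_Fourier

set_option autoImplicit false

namespace Crest.Agent.S0025

open Finset

/-- Geometric sums over roots of unity. -/
theorem norm_geom_le {z : ℂ} (hz : ‖z‖ = 1) (hz1 : z ≠ 1) {o : ℕ} (ho : z ^ o = 1) (ho0 : 0 < o)
    (T : ℕ) : ‖∑ i ∈ range T, z ^ i‖ ≤ 2 * o := by
  have hsum : ∑ i ∈ range o, z ^ i = 0 := by
    rw [geom_sum_eq hz1, ho, sub_self, zero_div]
  have hex : ∃ i ∈ range o, (z ^ i).re ≤ 0 := by
    by_contra hcon
    push Not at hcon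
    have h1 : (∑ i ∈ range o, z ^ i).re = ∑ i ∈ range o, (z ^ i).re := by
      rw [Complex.re_sum]
    have h2 : 0 < ∑ i ∈ range o, (z ^ i).re :=
      sum_pos hcon ⟨0, mem_range.2 ho0⟩
    rw [hsum, Complex.zero_re] at h1
    linarith
  obtain ⟨i, hi, hre⟩ := hex
  have h1 : (1 : ℝ) ≤ ‖z ^ i - 1‖ := by
    have h2 : |(z ^ i - 1).re| ≤ ‖z ^ i - 1‖ := Complex.abs_re_le_norm _
    rw [Complex.sub_re, Complex.one_re] at h2
    have h3 : 1 ≤ |(z ^ i).re - 1| := by
      rw [abs_of_nonpos (by linarith)]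
      linarith
    linarith
  have h2 : ‖z ^ i - 1‖ ≤ i * ‖z - 1‖ := by
    rw [← mul_geom_sum, norm_mul, mul_comm]
    apply mul_le_mul_of_nonneg_right _ (norm_nonneg _)
    refine (norm_sum_le _ _).trans ?_
    simp [hz]
  have hio : (i : ℝ) ≤ o := by
    have := mem_range.1 hi
    exact_mod_cast this.le
  have h3 : 1 ≤ (o : ℝ) * ‖z - 1‖ := by
    have := mul_le_mul_of_nonneg_right hio (norm_nonneg (z - 1))
    linarith
  rw [geom_sum_eq hz1, norm_div]
  have hz1' : 0 < ‖z - 1‖ := norm_pos_iff.2 (sub_ne_zero.2 hz1)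
  rw [div_le_iff₀ hz1']
  have h4 : ‖z ^ T - 1‖ ≤ 2 := by
    refine (norm_sub_le _ _).trans ?_
    rw [norm_pow, hz]
    norm_num
  nlinarith

/-- Fibres bound collisions. -/
theorem coll_le_of_fiber {ι α : Type*} [DecidableEq α] (s : Finset ι) (X : ι → α) (K : ℕ)
    (h : ∀ x, (s.filter (fun i => X i = x)).card ≤ K) : coll s X ≤ s.card * K := by
  unfold coll
  have h1 : ((s ×ˢ s).filter (fun p => X p.1 = X p.2)).card =
      ∑ i ∈ s, (s.filter (fun j => X i = X j)).card := by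
    rw [card_filter, sum_product]
    refine sum_congr rfl fun i _ => ?_
    rw [card_filter]
  rw [h1]
  refine (sum_le_card_nsmul s _ K ?_).trans (by simp)
  intro i _
  refine le_trans (le_of_eq ?_) (h (X i))
  congr 1
  ext j
  simp only [mem_filter, eq_comm]

theorem coll_ge_of_fiber {ι α : Type*} [DecidableEq α] (s : Finset ι) (X : ι → α) (x : α) :
    (s.filter (fun i => X i = x)).card ^ 2 ≤ coll s X := by
  unfold coll
  rw [pow_two, ← card_product]
  apply card_le_card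
  rintro ⟨i, j⟩ hp
  simp only [mem_product, mem_filter] at hp ⊢
  exact ⟨⟨hp.1.1, hp.2.1⟩, hp.1.2.trans hp.2.2.symm⟩

theorem coll_mono {ι α : Type*} [DecidableEq α] {s t : Finset ι} (hst : s ⊆ t) (X : ι → α) :
    coll s X ≤ coll t X := by
  unfold coll
  exact card_le_card (filter_subset_filter _ (product_subset_product hst hst))

/-- Number of elements of a set of naturals `≤ Y` in a class determined by `c * p = x`. -/
theorem fiber_card_le {q : ℕ} [NeZero q] (P : Finset ℕ) (Y : ℕ) (hY : ∀ p ∈ P, p ≤ Y)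
    (c x : ZMod q) : (P.filter (fun p : ℕ => c * (p : ZMod q) = x)).card ≤ Y / addOrderOf c + 1 := by
  have ho : 0 < addOrderOf c := addOrderOf_pos c
  rw [← card_range (Y / addOrderOf c + 1)]
  apply card_le_card_of_injOn (fun p => p / addOrderOf c)
  · intro p hp
    simp only [coe_filter, Set.mem_ofPred_eq] at hp
    simp only [coe_range, Set.mem_Iio]
    exact Nat.lt_succ_of_le (Nat.div_le_div_right (hY p hp.1))
  · intro p hp p' hp' heq
    simp only [coe_filter, Set.mem_ofPred_eq] at hp hp'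
    have h1 : p • c = p' • c := by
      rw [nsmul_eq_mul, nsmul_eq_mul, mul_comm, hp.2, mul_comm (p' : ZMod q), hp'.2]
    rw [nsmul_eq_nsmul_iff_modEq] at h1
    have h2 : p % addOrderOf c = p' % addOrderOf c := h1
    simp only at heq
    rw [← Nat.div_add_mod p (addOrderOf c), ← Nat.div_add_mod p' (addOrderOf c), heq, h2]

/-- Mixing modulo an arbitrary `q` of sums of three good products of two primes, and a small
integer. -/
theorem mix {q : ℕ} [NeZero q] (P : Finset ℕ) (Y : ℕ) (hY : ∀ p ∈ P, p ≤ Y) (hqY : q ≤ Y)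
    (hcop : ∀ p ∈ P, Nat.Coprime p q) (G : Finset (ℕ × ℕ)) (hG : G ⊆ P ×ˢ P)
    (A η : ℝ) (hA : (Y : ℝ) ≤ A * P.card) (hη : 0 ≤ η)
    (hGc : (((P ×ˢ P) \ G).card : ℝ) ≤ η * (P.card : ℝ) ^ 2)
    (hη1 : η ≤ 1) (T U : ℕ) (hP : 0 < P.card) (hU : 0 < U)
    (h : 2 * A * (2 * A / U + η) * T + 4 * A * U ^ 2 < (1 - η) ^ 3 * T) :
    ∃ d1 ∈ G, ∃ d2 ∈ G, ∃ d3 ∈ G, ∃ τ < T,
      q ∣ d1.1 * d1.2 + d2.1 * d2.2 + d3.1 * d3.2 + τ := by
  classical
  by_contra hcon
  push Not at hcon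
  set n : ℝ := (P.card : ℝ) with hn
  have hn0 : 0 < n := by rw [hn]; exact_mod_cast hP
  have hYpos : (0 : ℝ) < Y := by
    have : 0 < Y := lt_of_lt_of_le (Nat.pos_of_ne_zero (NeZero.ne q)) hqY
    exact_mod_cast this
  have hA0 : 0 < A := by
    by_contra hneg
    push Not at hneg
    nlinarith
  let Z : ℕ × ℕ → ZMod q := fun p => (p.1 : ZMod q) * (p.2 : ZMod q)
  let W : ℕ → ZMod q := fun τ => (τ : ZMod q)
  -- the full exponential sum
  have h0 := count_zero ((G ×ˢ G) ×ˢ (G ×ˢ range T))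
    (fun p : ((ℕ × ℕ) × (ℕ × ℕ)) × ((ℕ × ℕ) × ℕ) => (Z p.1.1 + Z p.1.2) + (Z p.2.1 + W p.2.2))
  have hempty : ((G ×ˢ G) ×ˢ (G ×ˢ range T)).filter
      (fun p : ((ℕ × ℕ) × (ℕ × ℕ)) × ((ℕ × ℕ) × ℕ) =>
        (Z p.1.1 + Z p.1.2) + (Z p.2.1 + W p.2.2) = 0) = ∅ := by
    rw [filter_eq_empty_iff]
    rintro ⟨⟨d1, d2⟩, ⟨d3, τ⟩⟩ hp
    simp only [mem_product, mem_range] at hp
    intro heq
    apply hcon d1 hp.1.1 d2 hp.1.2 d3 hp.2.1 τ hp.2.2
    rw [← ZMod.natCast_eq_zero_iff]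
    push_cast
    rw [← heq]
    simp only [Z, W]
    ring
  rw [hempty, card_empty, Nat.cast_zero, mul_zero] at h0
  have h1 : ∀ c : ZMod q, ex ((G ×ˢ G) ×ˢ (G ×ˢ range T))
      (fun p : ((ℕ × ℕ) × (ℕ × ℕ)) × ((ℕ × ℕ) × ℕ) =>
        (Z p.1.1 + Z p.1.2) + (Z p.2.1 + W p.2.2)) c =
      (ex G Z c * ex G Z c) * (ex G Z c * ex (range T) W c) := by
    intro c
    rw [ex_prod (G ×ˢ G) (G ×ˢ range T) (fun p : (ℕ × ℕ) × (ℕ × ℕ) => Z p.1 + Z p.2)
      (fun p : (ℕ × ℕ) × ℕ => Z p.1 + W p.2) c, ex_prod G G Z Z c, ex_prod G (range T) Z W c]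
  rw [sum_congr rfl (fun c _ => h1 c), ← add_sum_erase univ _ (mem_univ (0 : ZMod q))] at h0
  rw [ex_zero, ex_zero, card_range] at h0
  -- bounds for G
  have hGcard : (1 - η) * n ^ 2 ≤ (G.card : ℝ) := by
    have h2 : ((P ×ˢ P) \ G).card + G.card = (P ×ˢ P).card := by
      rw [card_sdiff_add_card_eq_card hG]
    have h3 : (((P ×ˢ P) \ G).card : ℝ) + G.card = n ^ 2 := by
      rw [hn, ← Nat.cast_add, h2, card_product]
      push_cast
      ring
    nlinarith
  have hGle : (G.card : ℝ) ≤ n ^ 2 := by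
    have h2 := card_le_card hG
    rw [card_product] at h2
    rw [hn]
    calc (G.card : ℝ) ≤ ((P.card * P.card : ℕ) : ℝ) := by exact_mod_cast h2
      _ = _ := by push_cast; ring
  -- fibre of P at modulus q
  have hfib1 : ∀ x : ZMod q, (P.filter (fun p : ℕ => (p : ZMod q) = x)).card ≤ Y / q + 1 := by
    intro x
    have h2 := fiber_card_le P Y hY (1 : ZMod q) x
    have h3 : addOrderOf (1 : ZMod q) = q := ZMod.addOrderOf_one q
    rw [h3] at h2
    simpa using h2
  have hK1 : ((Y / q + 1 : ℕ) : ℝ) ≤ 2 * Y / q := by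
    have hq0 : (0 : ℝ) < q := by exact_mod_cast Nat.pos_of_ne_zero (NeZero.ne q)
    have h2 : ((Y / q : ℕ) : ℝ) ≤ (Y : ℝ) / q := Nat.cast_div_le
    have h3 : (1 : ℝ) ≤ (Y : ℝ) / q := by
      rw [le_div_iff₀ hq0, one_mul]
      exact_mod_cast hqY
    push_cast
    have h4 : 2 * (Y : ℝ) / q = (Y : ℝ) / q + (Y : ℝ) / q := by ring
    linarith
  -- collisions of G mod q
  have hcollG : (q : ℝ) * coll G Z ≤ 2 * A * n ^ 4 := by
    have hfib : ∀ x : ZMod q, (G.filter (fun p => Z p = x)).card ≤ P.card * (Y / q + 1) := by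
      intro x
      have h2 : (G.filter (fun p => Z p = x)).card ≤
          ((P ×ˢ P).filter (fun p => Z p = x)).card :=
        card_le_card (filter_subset_filter _ hG)
      refine h2.trans ?_
      rw [card_filter, sum_product]
      refine (sum_le_card_nsmul P _ (Y / q + 1) ?_).trans (by simp)
      intro p hp
      rw [← card_filter]
      have hu : IsUnit (p : ZMod q) := (ZMod.isUnit_iff_coprime p q).2 (hcop p hp)
      obtain ⟨u, hu⟩ := hu
      refine le_trans (card_le_card ?_) (hfib1 (↑(u⁻¹) * x))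
      intro p' hp'
      simp only [mem_filter, Z] at hp' ⊢
      refine ⟨hp'.1, ?_⟩
      rw [← hp'.2, ← hu, ← mul_assoc, Units.inv_mul, one_mul]
    have h2 := coll_le_of_fiber G Z _ hfib
    have hq0 : (0 : ℝ) < q := by exact_mod_cast Nat.pos_of_ne_zero (NeZero.ne q)
    calc (q : ℝ) * coll G Z ≤ q * ((G.card * (P.card * (Y / q + 1)) : ℕ) : ℝ) := by
          apply mul_le_mul_of_nonneg_left _ hq0.le
          exact_mod_cast h2
      _ = q * (G.card * (n * ((Y / q + 1 : ℕ) : ℝ))) := by push_cast; rw [hn]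
      _ ≤ q * (n ^ 2 * (n * (2 * Y / q))) := by gcongr
      _ = 2 * Y * n ^ 3 := by field_simp
      _ ≤ 2 * (A * n) * n ^ 3 := by gcongr
      _ = 2 * A * n ^ 4 := by ring
  -- bilinear bound
  have hS2 : ∀ c : ZMod q, ‖ex (P ×ˢ P) Z c‖ ≤ 2 * A * n ^ 2 / Real.sqrt (addOrderOf c) := by
    intro c
    have ho : 0 < addOrderOf c := addOrderOf_pos c
    have hoq : addOrderOf c ≤ q := by
      have := addOrderOf_dvd_card (x := c)
      rw [ZMod.card] at this
      exact Nat.le_of_dvd (Nat.pos_of_ne_zero (NeZero.ne q)) this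
    have h2 := ex_bilinear P (fun p : ℕ => (p : ZMod q)) P (fun p : ℕ => (p : ZMod q)) c
      (Y / addOrderOf c + 1) (fun x => fiber_card_le P Y hY c x)
    have h3 := coll_le_of_fiber P (fun p : ℕ => (p : ZMod q)) _ hfib1
    have ho0 : (0 : ℝ) < addOrderOf c := by exact_mod_cast ho
    have hKo : ((Y / addOrderOf c + 1 : ℕ) : ℝ) ≤ 2 * Y / addOrderOf c := by
      have h2 : ((Y / addOrderOf c : ℕ) : ℝ) ≤ (Y : ℝ) / addOrderOf c := Nat.cast_div_le
      have h3 : (1 : ℝ) ≤ (Y : ℝ) / addOrderOf c := by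
        rw [le_div_iff₀ ho0, one_mul]
        exact_mod_cast hoq.trans hqY
      push_cast
      have h4 : 2 * (Y : ℝ) / addOrderOf c = (Y : ℝ) / addOrderOf c + (Y : ℝ) / addOrderOf c := by
        ring
      linarith
    have hq0 : (0 : ℝ) < q := by exact_mod_cast Nat.pos_of_ne_zero (NeZero.ne q)
    have h4 : ‖ex (P ×ˢ P) Z c‖ ^ 2 ≤ (2 * A * n ^ 2 / Real.sqrt (addOrderOf c)) ^ 2 := by
      calc ‖ex (P ×ˢ P) Z c‖ ^ 2 ≤ P.card * (((Y / addOrderOf c + 1 : ℕ) : ℝ) *
            (q * coll P (fun p : ℕ => (p : ZMod q)))) := h2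
        _ ≤ n * ((2 * Y / addOrderOf c) * (q * (n * (2 * Y / q)))) := by
            gcongr
            calc ((coll P (fun p : ℕ => (p : ZMod q)) : ℕ) : ℝ) ≤
                ((P.card * (Y / q + 1) : ℕ) : ℝ) := by exact_mod_cast h3
              _ = n * ((Y / q + 1 : ℕ) : ℝ) := by push_cast; rw [hn]
              _ ≤ n * (2 * Y / q) := by gcongr
        _ = (2 * Y) ^ 2 * n ^ 2 / addOrderOf c := by field_simp
        _ ≤ (2 * (A * n)) ^ 2 * n ^ 2 / addOrderOf c := by gcongr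
        _ = (2 * A * n ^ 2 / Real.sqrt (addOrderOf c)) ^ 2 := by
            rw [div_pow, Real.sq_sqrt ho0.le]
            ring
    exact le_of_sq_le_sq h4 (by positivity)
  have hdiff : ∀ c : ZMod q, ‖ex G Z c‖ ≤ ‖ex (P ×ˢ P) Z c‖ + η * n ^ 2 := by
    intro c
    have h2 : ex (P ×ˢ P) Z c = ex ((P ×ˢ P) \ G) Z c + ex G Z c := by
      unfold ex
      rw [sum_sdiff hG]
    have h3 : ex G Z c = ex (P ×ˢ P) Z c - ex ((P ×ˢ P) \ G) Z c := by
      rw [h2]; ring
    rw [h3]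
    refine (norm_sub_le _ _).trans ?_
    gcongr
    exact (norm_ex_le _ _ _).trans hGc
  -- bound for tau
  have hτ : ∀ c : ZMod q, c ≠ 0 → ‖ex (range T) W c‖ ≤ 2 * addOrderOf c := by
    intro c hc
    have h2 : ex (range T) W c = ∑ i ∈ range T, (ZMod.stdAddChar c : ℂ) ^ i := by
      unfold ex
      refine sum_congr rfl fun i _ => ?_
      rw [← AddChar.map_nsmul_eq_pow, nsmul_eq_mul, mul_comm]
    rw [h2]
    apply norm_geom_le (norm_char c)
    · intro h3
      apply hc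
      have := ZMod.injective_stdAddChar (N := q) (h3.trans (AddChar.map_zero_eq_one _).symm)
      exact this
    · rw [← AddChar.map_nsmul_eq_pow, addOrderOf_nsmul_eq_zero, AddChar.map_zero_eq_one]
    · exact addOrderOf_pos c
  have hTle : ∀ c : ZMod q, ‖ex (range T) W c‖ ≤ T := by
    intro c
    have := norm_ex_le (range T) W c
    rwa [card_range] at this
  -- pointwise bound
  set E : ℝ := (2 * A / U + η) * n ^ 2 * T + n ^ 2 * (2 * U ^ 2) with hE
  have hpt : ∀ c : ZMod q, c ≠ 0 → ‖ex G Z c‖ * ‖ex (range T) W c‖ ≤ E := by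
    intro c hc
    have ho0 : (0 : ℝ) < addOrderOf c := by exact_mod_cast addOrderOf_pos c
    have hU0 : (0 : ℝ) < U := by exact_mod_cast hU
    by_cases hlarge : (U : ℝ) ^ 2 ≤ addOrderOf c
    · have h2 : (U : ℝ) ≤ Real.sqrt (addOrderOf c) := Real.le_sqrt_of_sq_le hlarge
      have h3 : ‖ex G Z c‖ ≤ (2 * A / U + η) * n ^ 2 := by
        calc ‖ex G Z c‖ ≤ ‖ex (P ×ˢ P) Z c‖ + η * n ^ 2 := hdiff c
          _ ≤ 2 * A * n ^ 2 / Real.sqrt (addOrderOf c) + η * n ^ 2 := by
              gcongr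
              exact hS2 c
          _ ≤ 2 * A * n ^ 2 / U + η * n ^ 2 := by gcongr
          _ = (2 * A / U + η) * n ^ 2 := by ring
      calc ‖ex G Z c‖ * ‖ex (range T) W c‖ ≤ ((2 * A / U + η) * n ^ 2) * T :=
            mul_le_mul h3 (hTle c) (norm_nonneg _) (by positivity)
        _ ≤ E := by
            rw [hE]
            have : 0 ≤ n ^ 2 * (2 * (U : ℝ) ^ 2) := by positivity
            linarith
    · push Not at hlarge
      calc ‖ex G Z c‖ * ‖ex (range T) W c‖ ≤ n ^ 2 * (2 * U ^ 2) := by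
            apply mul_le_mul ((norm_ex_le G Z c).trans hGle) _ (norm_nonneg _) (by positivity)
            exact (hτ c hc).trans (by gcongr)
        _ ≤ E := by
            rw [hE]
            have : 0 ≤ (2 * A / U + η) * n ^ 2 * (T : ℝ) := by positivity
            linarith
  have hE0 : 0 ≤ E := by rw [hE]; positivity
  have h2 : ‖∑ c ∈ univ.erase (0 : ZMod q), (ex G Z c * ex G Z c) *
      (ex G Z c * ex (range T) W c)‖ ≤ (2 * A * n ^ 4) * E := by
    refine (norm_sum_le _ _).trans ?_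
    calc ∑ c ∈ univ.erase (0 : ZMod q), ‖(ex G Z c * ex G Z c) *
        (ex G Z c * ex (range T) W c)‖ ≤ ∑ c ∈ univ.erase (0 : ZMod q), ‖ex G Z c‖ ^ 2 * E := by
          apply sum_le_sum
          intro c hc
          rw [norm_mul, norm_mul, norm_mul, ← pow_two]
          apply mul_le_mul_of_nonneg_left _ (by positivity)
          exact hpt c (ne_of_mem_erase hc)
      _ ≤ ∑ c : ZMod q, ‖ex G Z c‖ ^ 2 * E := by
          apply sum_le_sum_of_subset_of_nonneg (erase_subset _ _)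
          intro c _ _
          positivity
      _ = (q * coll G Z) * E := by rw [← sum_mul, parseval]
      _ ≤ (2 * A * n ^ 4) * E := by gcongr
  have h3 : ((G.card : ℝ)) ^ 3 * T ≤ (2 * A * n ^ 4) * E := by
    have h4 : ∑ c ∈ univ.erase (0 : ZMod q), (ex G Z c * ex G Z c) *
      (ex G Z c * ex (range T) W c) =
        -(((G.card : ℂ)) ^ 3 * T) := by
      linear_combination -h0
    rw [h4, norm_neg, norm_mul, norm_pow, Complex.norm_natCast, Complex.norm_natCast] at h2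
    exact h2
  have h4 : ((1 - η) * n ^ 2) ^ 3 * T ≤ (2 * A * n ^ 4) * E := by
    refine le_trans ?_ h3
    have : 0 ≤ 1 - η := by linarith
    gcongr
  have h5 : ((1 - η) ^ 3 * T) * n ^ 6 ≤
      (2 * A * (2 * A / U + η) * T + 4 * A * U ^ 2) * n ^ 6 := by
    calc ((1 - η) ^ 3 * T) * n ^ 6 = ((1 - η) * n ^ 2) ^ 3 * T := by ring
      _ ≤ (2 * A * n ^ 4) * E := h4
      _ = (2 * A * (2 * A / U + η) * T + 4 * A * U ^ 2) * n ^ 6 := by rw [hE]; ring
  have h6 := le_of_mul_le_mul_right h5 (by positivity)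
  linarith

end Crest.Agent.S0025
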