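import Mathlib
import Crest.Agent.S0025_Fourier
import Crest.Agent.S0025_Mix
import Crest.Agent.S0025_Egy

set_option autoImplicit false

namespace Crest.Agent.S0025

open Finset

theorem card_primes_dvd_le {S : Finset ℕ} {n : ℕ} (hn : n ≠ 0)
    (hS : ∀ p ∈ S, p.Prime ∧ p ∣ n) : S.card ≤ Nat.log 2 n := by
  have h1 : ∏ p ∈ S, p ∣ n := by
    apply Finset.prod_primes_dvd
    · intro p hp
      exact (hS p hp).1.prime
    · intro p hp
      exact (hS p hp).2
  have h2 : 2 ^ S.card ≤ ∏ p ∈ S, p := by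
    rw [← prod_const]
    exact prod_le_prod' (fun p hp => (hS p hp).1.two_le)
  have h3 : 2 ^ S.card ≤ n := h2.trans (Nat.le_of_dvd (Nat.pos_of_ne_zero hn) h1)
  exact Nat.le_log_of_pow_le (by norm_num) h3

theorem char_sum_eq_prod {b : ℕ} [NeZero b] {ι : Type*} (s : Finset ι) (g : ι → ZMod b) :
    (ZMod.stdAddChar (∑ i ∈ s, g i) : ℂ) = ∏ i ∈ s, ZMod.stdAddChar (g i) := by
  classical
  induction s using Finset.induction_on with
  | empty => simp
  | insert a s ha ih => rw [sum_insert ha, prod_insert ha, AddChar.map_add_eq_mul, ih]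

theorem norm_char_sub_one_ge {b : ℕ} [NeZero b] (x : ZMod b) :
    4 * (x.valMinAbs.natAbs : ℝ) / b ≤ ‖(ZMod.stdAddChar x : ℂ) - 1‖ := by
  have hb0 : (0 : ℝ) < b := by exact_mod_cast Nat.pos_of_ne_zero (NeZero.ne b)
  set y : ℤ := x.valMinAbs with hy
  have hx : x = ((y : ℤ) : ZMod b) := (ZMod.coe_valMinAbs x).symm
  have hyb : (y.natAbs : ℝ) ≤ b / 2 := by
    have h1 := ZMod.natAbs_valMinAbs_le x
    have h2 : ((b / 2 : ℕ) : ℝ) ≤ (b : ℝ) / 2 := by
      have := @Nat.cast_div_le ℝ _ _ _ b 2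
      simpa using this
    have h3 : (x.valMinAbs.natAbs : ℝ) ≤ ((b / 2 : ℕ) : ℝ) := by exact_mod_cast h1
    rw [hy]
    linarith
  have h1 : (ZMod.stdAddChar x : ℂ) = Complex.exp (Complex.I * ((2 * Real.pi * y / b : ℝ) : ℂ)) := by
    rw [hx, ZMod.stdAddChar_coe]
    congr 1
    push_cast
    ring
  rw [h1, Complex.norm_exp_I_mul_ofReal_sub_one]
  have h2 : 2 * Real.pi * y / b / 2 = Real.pi * y / b := by ring
  rw [h2, Real.norm_eq_abs, abs_mul, abs_two]
  have habs : |(y : ℝ)| = (y.natAbs : ℝ) := by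
    rw [Nat.cast_natAbs, Int.cast_abs]
  have h3 : |Real.sin (Real.pi * y / b)| = Real.sin (Real.pi * (y.natAbs : ℝ) / b) := by
    rw [← habs]
    rcases le_or_gt 0 (y : ℝ) with h | h
    · rw [abs_of_nonneg h, abs_of_nonneg]
      apply Real.sin_nonneg_of_nonneg_of_le_pi
      · positivity
      · rw [div_le_iff₀ hb0]
        have : (y : ℝ) ≤ b / 2 := by rw [← abs_of_nonneg h, habs]; exact hyb
        have hpi := Real.pi_pos
        nlinarith
    · rw [abs_of_neg h, show Real.pi * -(y : ℝ) / b = -(Real.pi * y / b) by ring, Real.sin_neg,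
        abs_of_nonpos]
      have h4 : 0 ≤ Real.sin (Real.pi * (-(y : ℝ)) / b) := by
        apply Real.sin_nonneg_of_nonneg_of_le_pi
        · have : 0 ≤ -(y : ℝ) := by linarith
          positivity
        · rw [div_le_iff₀ hb0]
          have : -(y : ℝ) ≤ b / 2 := by rw [← abs_of_neg h, habs]; exact hyb
          have hpi := Real.pi_pos
          nlinarith
      rw [show Real.pi * -(y : ℝ) / b = -(Real.pi * y / b) by ring, Real.sin_neg] at h4
      linarith
  rw [h3]
  have hpi := Real.pi_pos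
  have h5 := Real.mul_le_sin (x := Real.pi * (y.natAbs : ℝ) / b) (by positivity) (by
    rw [div_le_iff₀ hb0]
    nlinarith)
  have h6 : 2 / Real.pi * (Real.pi * (y.natAbs : ℝ) / b) = 2 * (y.natAbs : ℝ) / b := by
    field_simp
  rw [h6] at h5
  have h7 : 4 * (y.natAbs : ℝ) / b = 2 * (2 * (y.natAbs : ℝ) / b) := by ring
  rw [h7]
  linarith

theorem inv_ex_bound {b : ℕ} [NeZero b] (F : Finset ℕ) (F0 R : ℕ) (hF0 : 0 < F0)
    (hF : ∀ f ∈ F, f.Prime ∧ Nat.Coprime f b ∧ f ≤ F0) (c : ZMod b) (hc : c ≠ 0) :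
    ‖ex (F ×ˢ range R) (fun p : ℕ × ℕ => (p.2 : ZMod b) * (p.1 : ZMod b)⁻¹) c‖ ≤
      F.card * F0 + Nat.log 2 b * R := by
  classical
  have hb0 : (0 : ℝ) < b := by exact_mod_cast Nat.pos_of_ne_zero (NeZero.ne b)
  have hF0' : (0 : ℝ) < F0 := by exact_mod_cast hF0
  have h1 : ex (F ×ˢ range R) (fun p : ℕ × ℕ => (p.2 : ZMod b) * (p.1 : ZMod b)⁻¹) c =
      ∑ f ∈ F, ∑ i ∈ range R, (ZMod.stdAddChar (c * (f : ZMod b)⁻¹) : ℂ) ^ i := by
    unfold ex
    rw [sum_product]
    refine sum_congr rfl fun f _ => sum_congr rfl fun i _ => ?_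
    rw [← AddChar.map_nsmul_eq_pow, nsmul_eq_mul]
    congr 1
    ring
  rw [h1]
  let bad : Finset ℕ := F.filter (fun f => 2 * F0 * (c * (f : ZMod b)⁻¹).valMinAbs.natAbs < b)
  have hbad : bad.card ≤ Nat.log 2 b := by
    have hne : c.valMinAbs.natAbs ≠ 0 := by
      rw [Int.natAbs_ne_zero]
      intro h0
      exact hc ((ZMod.valMinAbs_eq_zero c).1 h0)
    have h2 : bad.card ≤ Nat.log 2 c.valMinAbs.natAbs := by
      apply card_primes_dvd_le hne
      intro f hf
      obtain ⟨hfF, hfb⟩ := mem_filter.1 hf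
      obtain ⟨hfp, hfc, hfle⟩ := hF f hfF
      refine ⟨hfp, ?_⟩
      set y : ℤ := (c * (f : ZMod b)⁻¹).valMinAbs with hy
      have h3 : c.valMinAbs = (f : ℤ) * y := by
        rw [ZMod.valMinAbs_spec]
        constructor
        · push_cast
          rw [hy, ZMod.coe_valMinAbs, mul_comm, mul_assoc,
            ZMod.inv_mul_of_unit _ ((ZMod.isUnit_iff_coprime f b).2 hfc), mul_one]
        · have h4 : 2 * (f * y.natAbs) < b := by
            calc 2 * (f * y.natAbs) ≤ 2 * (F0 * y.natAbs) := by gcongr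
              _ = 2 * F0 * y.natAbs := by ring
              _ < b := hfb
          have h5 : |(f : ℤ) * y * 2| < b := by
            rw [abs_mul, abs_mul, Nat.abs_cast, Int.abs_eq_natAbs y]
            have : ((f : ℤ) * (y.natAbs : ℤ) * |2|) = ((2 * (f * y.natAbs) : ℕ) : ℤ) := by
              push_cast
              rw [abs_two]
              ring
            rw [this]
            exact_mod_cast h4
          rw [abs_lt] at h5
          exact ⟨h5.1, h5.2.le⟩
      rw [h3, Int.natAbs_mul, Int.natAbs_natCast]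
      exact Dvd.intro _ rfl
    refine h2.trans (Nat.log_mono_right ?_)
    exact (ZMod.natAbs_valMinAbs_le c).trans (Nat.div_le_self _ _)
  refine (norm_sum_le _ _).trans ?_
  rw [← sum_filter_add_sum_filter_not F
    (fun f => 2 * F0 * (c * (f : ZMod b)⁻¹).valMinAbs.natAbs < b), add_comm]
  apply add_le_add
  · refine (sum_le_card_nsmul _ _ (F0 : ℝ) ?_).trans ?_
    · intro f hf
      obtain ⟨hfF, hfb⟩ := mem_filter.1 hf
      push Not at hfb
      have h2 := norm_char_sub_one_ge (c * (f : ZMod b)⁻¹)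
      set z : ℂ := (ZMod.stdAddChar (c * (f : ZMod b)⁻¹) : ℂ) with hz
      have h3 : (2 : ℝ) / F0 ≤ ‖z - 1‖ := by
        refine le_trans ?_ h2
        rw [div_le_div_iff₀ hF0' hb0]
        have : (b : ℝ) ≤ 2 * F0 * ((c * (f : ZMod b)⁻¹).valMinAbs.natAbs : ℝ) := by
          exact_mod_cast hfb
        nlinarith
      have h4 : 0 < ‖z - 1‖ := lt_of_lt_of_le (by positivity) h3
      have hz1 : z ≠ 1 := by
        intro h5
        rw [h5, sub_self, norm_zero] at h4
        exact lt_irrefl _ h4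
      rw [geom_sum_eq hz1, norm_div, div_le_iff₀ h4]
      have h5 : ‖z ^ R - 1‖ ≤ 2 := by
        refine (norm_sub_le _ _).trans ?_
        rw [norm_pow, hz, norm_char]
        norm_num
      refine h5.trans ?_
      rw [div_le_iff₀ hF0'] at h3
      linarith
    · rw [nsmul_eq_mul]
      gcongr
      exact filter_subset _ _
  · refine (sum_le_card_nsmul _ _ (R : ℝ) ?_).trans ?_
    · intro f _
      refine (norm_sum_le _ _).trans ?_
      simp
    · rw [nsmul_eq_mul]
      gcongr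

theorem inv_mix {b : ℕ} [NeZero b] (F : Finset ℕ) (F0 R l : ℕ) (hF0 : 0 < F0)
    (hF : ∀ f ∈ F, f.Prime ∧ Nat.Coprime f b ∧ f ≤ F0) (hFc : 0 < F.card) (hR : 0 < R)
    (h : (b : ℝ) * (F.card * F0 + Nat.log 2 b * R) ^ l ≤ (F.card * R) ^ l) (x : ZMod b) :
    ∃ (f d : Fin l → ℕ), (∀ i, f i ∈ F ∧ d i < R) ∧
      ∑ i, (d i : ZMod b) * (f i : ZMod b)⁻¹ = x := by
  classical
  by_contra hcon
  push Not at hcon
  set S : Finset (ℕ × ℕ) := F ×ˢ range R with hS
  let X : ℕ × ℕ → ZMod b := fun p => (p.2 : ZMod b) * (p.1 : ZMod b)⁻¹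
  let Om : Finset (Fin l → ℕ × ℕ) := Fintype.piFinset (fun _ => S)
  have h0 := count_zero Om (fun ω => (∑ i, X (ω i)) + (-x))
  have hempty : Om.filter (fun ω => (∑ i, X (ω i)) + (-x) = 0) = ∅ := by
    rw [filter_eq_empty_iff]
    intro ω hω heq
    rw [Fintype.mem_piFinset] at hω
    apply hcon (fun i => (ω i).1) (fun i => (ω i).2)
    · intro i
      have := hω i
      rw [hS, mem_product, mem_range] at this
      exact this
    · rw [add_neg_eq_zero] at heq
      exact heq
  rw [hempty, card_empty, Nat.cast_zero, mul_zero] at h0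
  have h1 : ∀ c : ZMod b, ex Om (fun ω => (∑ i, X (ω i)) + (-x)) c =
      (ex S X c) ^ l * ZMod.stdAddChar (c * (-x)) := by
    intro c
    unfold ex
    have h2 : ∀ ω ∈ Om, (ZMod.stdAddChar (c * ((∑ i, X (ω i)) + (-x))) : ℂ) =
        (∏ i, ZMod.stdAddChar (c * X (ω i))) * ZMod.stdAddChar (c * (-x)) := by
      intro ω _
      rw [mul_add, AddChar.map_add_eq_mul, mul_sum, char_sum_eq_prod]
    rw [sum_congr rfl h2, ← sum_mul, ← prod_univ_sum (fun _ => S)
      (fun _ p => (ZMod.stdAddChar (c * X p) : ℂ)), prod_const, card_univ, Fintype.card_fin]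
  rw [sum_congr rfl (fun c _ => h1 c), ← add_sum_erase univ _ (mem_univ (0 : ZMod b))] at h0
  rw [ex_zero, zero_mul, AddChar.map_zero_eq_one, mul_one, hS, card_product, card_range] at h0
  set B : ℝ := F.card * F0 + Nat.log 2 b * R with hB
  have hB0 : 0 ≤ B := by positivity
  have h2 : ‖∑ c ∈ univ.erase (0 : ZMod b), (ex S X c) ^ l * ZMod.stdAddChar (c * (-x))‖ ≤
      (b - 1) * B ^ l := by
    refine (norm_sum_le _ _).trans ?_
    refine (sum_le_card_nsmul _ _ (B ^ l) ?_).trans ?_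
    · intro c hc
      rw [norm_mul, norm_char, mul_one, norm_pow]
      apply pow_le_pow_left₀ (norm_nonneg _)
      exact inv_ex_bound F F0 R hF0 hF c (ne_of_mem_erase hc)
    · rw [nsmul_eq_mul, card_erase_of_mem (mem_univ _), card_univ, ZMod.card]
      apply mul_le_mul_of_nonneg_right _ (by positivity)
      rw [Nat.cast_sub (Nat.one_le_iff_ne_zero.2 (NeZero.ne b))]
      simp
  have h3 : ∑ c ∈ univ.erase (0 : ZMod b), (ex S X c) ^ l * (ZMod.stdAddChar (c * (-x)) : ℂ) =
      -(((F.card * R : ℕ) : ℂ) ^ l) := by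
    linear_combination -h0
  rw [h3, norm_neg, norm_pow, Complex.norm_natCast] at h2
  push_cast at h2
  have h4 : 0 < ((F.card : ℝ) * R) ^ l := by
    have : 0 < F.card * R := Nat.mul_pos hFc hR
    have : (0 : ℝ) < (F.card : ℝ) * R := by exact_mod_cast this
    positivity
  have h5 : 0 ≤ B ^ l := by positivity
  have h6 : B ^ l ≤ 0 := by linarith
  have h7 : B ^ l = 0 := le_antisymm h6 h5
  rw [h7, mul_zero] at h2
  linarith

end Crest.Agent.S0025
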