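import Mathlib
import Crest.Agent.S0025_Inv

set_option autoImplicit false

namespace Crest.Agent.S0025

open Finset

/-- `∑ Q^i ω_i`. -/
def sig (Q : ℕ) {s : ℕ} (ω : Fin s → ℕ) : ℕ := ∑ i : Fin s, Q ^ (i : ℕ) * ω i

theorem sig_succ (Q : ℕ) {s : ℕ} (ω : Fin (s + 1) → ℕ) :
    sig Q ω = ω 0 + Q * sig Q (Fin.tail ω) := by
  unfold sig
  rw [Fin.sum_univ_succ, mul_sum]
  congr 1
  · simp
  · refine sum_congr rfl fun i _ => ?_
    rw [Fin.val_succ, pow_succ, Fin.tail]
    ring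

theorem sig_fiber (V : Finset ℕ) (Q K : ℕ) (hQ : 0 < Q)
    (hK : ∀ x : ℕ, (V.filter (fun v => v % Q = x)).card ≤ K) :
    ∀ s x : ℕ, ((Fintype.piFinset (fun _ : Fin s => V)).filter
      (fun ω => sig Q ω = x)).card ≤ K ^ s := by
  classical
  intro s
  induction s with
  | zero =>
    intro x
    rw [pow_zero, card_le_one]
    intro a _ b _
    exact Subsingleton.elim a b
  | succ s ih =>
    intro x
    have hsub : ((Fintype.piFinset (fun _ : Fin (s + 1) => V)).filter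
        (fun ω => sig Q ω = x)) ⊆ (V.filter (fun v => v % Q = x % Q)).biUnion
          (fun v => ((Fintype.piFinset (fun _ : Fin s => V)).filter
            (fun ω => sig Q ω = (x - v) / Q)).image (fun ω => (Fin.cons v ω : Fin (s + 1) → ℕ))) := by
      intro ω hω
      rw [mem_filter, Fintype.mem_piFinset] at hω
      obtain ⟨hω1, hω2⟩ := hω
      rw [sig_succ] at hω2
      rw [mem_biUnion]
      refine ⟨ω 0, ?_, ?_⟩
      · rw [mem_filter]
        refine ⟨hω1 0, ?_⟩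
        rw [← hω2, Nat.add_mul_mod_self_left]
      · rw [mem_image]
        refine ⟨Fin.tail ω, ?_, Fin.cons_self_tail ω⟩
        rw [mem_filter, Fintype.mem_piFinset]
        refine ⟨fun i => hω1 _, ?_⟩
        rw [← hω2, Nat.add_sub_cancel_left, Nat.mul_div_cancel_left _ hQ]
    refine (card_le_card hsub).trans ?_
    refine card_biUnion_le.trans ?_
    refine (sum_le_card_nsmul _ _ (K ^ s) ?_).trans ?_
    · intro v _
      exact card_image_le.trans (ih _)
    · rw [smul_eq_mul, pow_succ, mul_comm]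
      exact Nat.mul_le_mul_left _ (hK _)

theorem sig_coll (V : Finset ℕ) (Q K H : ℕ) (hQ : 0 < Q)
    (hK : ∀ x : ℕ, (V.filter (fun v => v % Q = x)).card ≤ K) (hKH : K * H ≤ V.card) (s : ℕ) :
    coll (Fintype.piFinset (fun _ : Fin s => V)) (sig Q) * H ^ s ≤ (V.card ^ s) ^ 2 := by
  have h1 := coll_le_of_fiber (Fintype.piFinset (fun _ : Fin s => V)) (sig Q) (K ^ s)
    (sig_fiber V Q K hQ hK s)
  have h2 : (Fintype.piFinset (fun _ : Fin s => V)).card = V.card ^ s := by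
    rw [Fintype.card_piFinset, prod_const, card_univ, Fintype.card_fin]
  rw [h2] at h1
  calc coll (Fintype.piFinset (fun _ : Fin s => V)) (sig Q) * H ^ s
      ≤ (V.card ^ s * K ^ s) * H ^ s := Nat.mul_le_mul_right _ h1
    _ = V.card ^ s * (K * H) ^ s := by rw [mul_pow]; ring
    _ ≤ V.card ^ s * V.card ^ s := Nat.mul_le_mul_left _ (Nat.pow_le_pow_left hKH s)
    _ = (V.card ^ s) ^ 2 := by ring

/-- number of primes in `P` dividing the difference of two distinct numbers `≤ B`. -/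
theorem card_primes_modEq_le {P : Finset ℕ} (hP : ∀ p ∈ P, p.Prime) {x y B : ℕ} (hxy : x ≠ y)
    (hx : x ≤ B) (hy : y ≤ B) : (P.filter (fun p => x % p = y % p)).card ≤ Nat.log 2 B := by
  wlog h : x < y generalizing x y with H
  · have h' : y < x := by omega
    have := H hxy.symm hy hx h'
    refine le_trans (le_of_eq ?_) this
    congr 1
    ext p
    simp only [mem_filter, eq_comm]
  · refine (card_primes_dvd_le (n := y - x) (by omega) ?_).trans (Nat.log_mono_right (by omega))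
    intro p hp
    rw [mem_filter] at hp
    exact ⟨hP p hp.1, (Nat.modEq_iff_dvd' h.le).1 hp.2⟩

theorem avg_primes {ι : Type*} (s : Finset ι) (σ : ι → ℕ) (B : ℕ) (hB : ∀ i ∈ s, σ i ≤ B)
    (P : Finset ℕ) (hP : ∀ p ∈ P, p.Prime) :
    ∑ p ∈ P, coll s (fun i => σ i % p) ≤ P.card * coll s σ + s.card ^ 2 * Nat.log 2 B := by
  classical
  have h1 : ∑ p ∈ P, coll s (fun i => σ i % p) =
      ∑ x ∈ s ×ˢ s, (P.filter (fun p => σ x.1 % p = σ x.2 % p)).card := by
    simp only [coll, card_filter]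
    rw [sum_comm]
  rw [h1]
  have h2 : P.card * coll s σ + s.card ^ 2 * Nat.log 2 B =
      ∑ x ∈ s ×ˢ s, ((if σ x.1 = σ x.2 then P.card else 0) + Nat.log 2 B) := by
    rw [sum_add_distrib, sum_const, card_product, ← sum_filter, sum_const, coll]
    simp only [smul_eq_mul]
    ring
  rw [h2]
  apply sum_le_sum
  rintro ⟨i, j⟩ hx
  simp only [mem_product] at hx
  by_cases h3 : σ i = σ j
  · simp only [h3, if_true]
    exact (card_le_card (filter_subset _ _)).trans (Nat.le_add_right _ _)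
  · simp only [h3, if_false, zero_add]
    exact card_primes_modEq_le hP h3 (hB i hx.1) (hB j hx.2)

theorem avg_pairs {ι : Type*} (s : Finset ι) (σ : ι → ℕ) (B : ℕ) (hB : ∀ i ∈ s, σ i ≤ B)
    (P : Finset ℕ) (hP : ∀ p ∈ P, p.Prime) :
    ∑ d ∈ P ×ˢ P, coll s (fun i => σ i % (d.1 * d.2)) ≤
      P.card ^ 2 * coll s σ + s.card ^ 2 * (Nat.log 2 B) ^ 2 := by
  classical
  have h1 : ∑ d ∈ P ×ˢ P, coll s (fun i => σ i % (d.1 * d.2)) =
      ∑ x ∈ s ×ˢ s, ((P ×ˢ P).filter
        (fun d => σ x.1 % (d.1 * d.2) = σ x.2 % (d.1 * d.2))).card := by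
    simp only [coll, card_filter]
    rw [sum_comm]
  rw [h1]
  have h2 : P.card ^ 2 * coll s σ + s.card ^ 2 * (Nat.log 2 B) ^ 2 =
      ∑ x ∈ s ×ˢ s, ((if σ x.1 = σ x.2 then P.card ^ 2 else 0) + (Nat.log 2 B) ^ 2) := by
    rw [sum_add_distrib, sum_const, card_product, ← sum_filter, sum_const, coll]
    simp only [smul_eq_mul]
    ring
  rw [h2]
  apply sum_le_sum
  rintro ⟨i, j⟩ hx
  simp only [mem_product] at hx
  by_cases h3 : σ i = σ j
  · simp only [h3, if_true]
    refine (card_le_card (filter_subset _ _)).trans ?_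
    rw [card_product, pow_two]
    exact Nat.le_add_right _ _
  · simp only [h3, if_false, zero_add]
    have h4 := card_primes_modEq_le hP h3 (hB i hx.1) (hB j hx.2)
    rw [pow_two]
    refine le_trans ?_ (Nat.mul_le_mul h4 h4)
    rw [← card_product]
    apply card_le_card
    rintro ⟨p, q⟩ hd
    simp only [mem_filter, mem_product] at hd ⊢
    refine ⟨⟨hd.1.1, ?_⟩, ⟨hd.1.2, ?_⟩⟩
    · exact Nat.ModEq.of_dvd (Dvd.intro _ rfl) (show σ i ≡ σ j [MOD p * q] from hd.2)
    · exact Nat.ModEq.of_dvd (Dvd.intro_left _ rfl) (show σ i ≡ σ j [MOD p * q] from hd.2)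

theorem coll_cast {ι : Type*} (s : Finset ι) (σ : ι → ℕ) (D : ℕ) :
    coll s (fun i => (σ i : ZMod D)) = coll s (fun i => σ i % D) := by
  unfold coll
  congr 1
  ext ⟨i, j⟩
  simp only [mem_filter, ZMod.natCast_eq_natCast_iff']

/-- A good modulus `D = p q` yields a short representation of `D / N`. -/
theorem good_egy {P1 Q s N p q K L : ℕ} (hP1 : 0 < P1) (hQ : 0 < Q) (hs : 0 < s) (hN : 0 < N)
    (hdiv : P1 ^ 2 * Q ^ s ∣ N) (hp : p.Prime) (hq : q.Prime) (hpq : p ≠ q)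
    (hKp : ∀ x : ℕ, (P1.divisors.filter (fun v => v % p = x)).card ≤ K)
    (hKq : ∀ x : ℕ, (P1.divisors.filter (fun v => v % q = x)).card ≤ K)
    (hKL : L ^ 3 * K < P1.divisors.card)
    (hcoll : (p * q) * coll (Fintype.piFinset (fun _ : Fin s => P1.divisors))
      (fun ω => sig Q ω % (p * q)) ≤ L * (P1.divisors.card ^ s) ^ 2) :
    Egy (3 * s) (((p * q : ℕ) : ℚ) / N) := by
  classical
  set V := P1.divisors with hV
  set D := p * q with hD
  have hD0 : 0 < D := Nat.mul_pos hp.pos hq.pos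
  have : NeZero D := ⟨hD0.ne'⟩
  set Om := Fintype.piFinset (fun _ : Fin s => V) with hOm
  have hOmc : Om.card = V.card ^ s := by
    rw [hOm, Fintype.card_piFinset, prod_const, card_univ, Fintype.card_fin]
  have hVpos : 0 < V.card := by omega
  have hfib : ∀ c : ZMod D, c ≠ 0 → ∀ x : ZMod D,
      (V.filter (fun α : ℕ => c * (α : ZMod D) = x)).card ≤ K := by
    intro c hc x
    rcases (V.filter (fun α : ℕ => c * (α : ZMod D) = x)).eq_empty_or_nonempty with he | ⟨α0, hα0⟩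
    · rw [he, card_empty]; exact Nat.zero_le _
    have hcv : ¬ D ∣ c.val := by
      intro h
      apply hc
      rw [← ZMod.natCast_zmod_val c, ZMod.natCast_eq_zero_iff]
      exact h
    have hor : ¬ p ∣ c.val ∨ ¬ q ∣ c.val := by
      by_contra hcon
      push Not at hcon
      exact hcv (Nat.Coprime.mul_dvd_of_dvd_of_dvd ((Nat.coprime_primes hp hq).2 hpq)
        hcon.1 hcon.2)
    rw [mem_filter] at hα0
    have hkey : ∀ α : ℕ, c * (α : ZMod D) = x → c.val * α ≡ c.val * α0 [MOD D] := by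
      intro α hα
      rw [← ZMod.natCast_eq_natCast_iff]
      push_cast
      rw [ZMod.natCast_zmod_val, hα, hα0.2]
    rcases hor with h | h
    · refine (card_le_card ?_).trans (hKp (α0 % p))
      intro α hα
      rw [mem_filter] at hα ⊢
      refine ⟨hα.1, ?_⟩
      have h1 : c.val * α ≡ c.val * α0 [MOD p] := (hkey α hα.2).of_dvd (Dvd.intro _ rfl)
      exact Nat.ModEq.cancel_left_of_coprime ((Nat.Prime.coprime_iff_not_dvd hp).2 h) h1
    · refine (card_le_card ?_).trans (hKq (α0 % q))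
      intro α hα
      rw [mem_filter] at hα ⊢
      refine ⟨hα.1, ?_⟩
      have h1 : c.val * α ≡ c.val * α0 [MOD q] := (hkey α hα.2).of_dvd (Dvd.intro_left _ rfl)
      exact Nat.ModEq.cancel_left_of_coprime ((Nat.Prime.coprime_iff_not_dvd hq).2 h) h1
  have hnum : (D * coll Om (fun ω => ((sig Q ω : ℕ) : ZMod D))) ^ 3 * K <
      Om.card ^ 6 * V.card := by
    rw [coll_cast, hOmc]
    calc (D * coll Om (fun ω => sig Q ω % D)) ^ 3 * K
        ≤ (L * (V.card ^ s) ^ 2) ^ 3 * K := by gcongr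
      _ = (V.card ^ s) ^ 6 * (L ^ 3 * K) := by ring
      _ < (V.card ^ s) ^ 6 * V.card := Nat.mul_lt_mul_of_pos_left hKL (by positivity)
  obtain ⟨ω1, hω1, ω2, hω2, α, hα, ω3, hω3, hzero⟩ :=
    exists_zero_sum Om (fun ω => ((sig Q ω : ℕ) : ZMod D)) V (fun α : ℕ => (α : ZMod D)) K
      hfib hnum
  rw [hOm, Fintype.mem_piFinset] at hω1 hω2 hω3
  have hdvd : D ∣ sig Q ω1 + sig Q ω2 + α * sig Q ω3 := by
    rw [← ZMod.natCast_eq_zero_iff]
    push_cast
    exact hzero
  let u : Fin s ⊕ (Fin s ⊕ Fin s) → ℕ := fun i => match i with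
    | Sum.inl i => Q ^ (i : ℕ) * ω1 i
    | Sum.inr (Sum.inl i) => Q ^ (i : ℕ) * ω2 i
    | Sum.inr (Sum.inr i) => α * (Q ^ (i : ℕ) * ω3 i)
  have hsum : ∑ i, u i = sig Q ω1 + sig Q ω2 + α * sig Q ω3 := by
    rw [Fintype.sum_sum_type, Fintype.sum_sum_type, add_assoc]
    simp only [u, sig, mul_sum]
  have hQs : ∀ i : Fin s, Q ^ (i : ℕ) ∣ Q ^ s := fun i => pow_dvd_pow Q i.2.le
  have hdV : ∀ v ∈ V, v ∣ P1 := fun v hv => Nat.dvd_of_mem_divisors hv
  have hposV : ∀ v ∈ V, 0 < v := fun v hv => Nat.pos_of_mem_divisors hv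
  have hu : ∀ i ∈ (univ : Finset (Fin s ⊕ (Fin s ⊕ Fin s))), u i ∣ N := by
    rintro (i | i | i) _
    · refine Dvd.dvd.trans ?_ hdiv
      show Q ^ (i : ℕ) * ω1 i ∣ P1 ^ 2 * Q ^ s
      rw [mul_comm (P1 ^ 2)]
      exact mul_dvd_mul (hQs i) ((hdV _ (hω1 i)).trans (dvd_pow_self _ (by norm_num)))
    · refine Dvd.dvd.trans ?_ hdiv
      show Q ^ (i : ℕ) * ω2 i ∣ P1 ^ 2 * Q ^ s
      rw [mul_comm (P1 ^ 2)]
      exact mul_dvd_mul (hQs i) ((hdV _ (hω2 i)).trans (dvd_pow_self _ (by norm_num)))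
    · refine Dvd.dvd.trans ?_ hdiv
      show α * (Q ^ (i : ℕ) * ω3 i) ∣ P1 ^ 2 * Q ^ s
      have h1 : P1 ^ 2 * Q ^ s = P1 * (Q ^ s * P1) := by ring
      rw [h1]
      exact mul_dvd_mul (hdV _ hα) (mul_dvd_mul (hQs i) (hdV _ (hω3 i)))
  have hpos : 0 < ∑ i ∈ (univ : Finset (Fin s ⊕ (Fin s ⊕ Fin s))), u i := by
    have h1 : 0 < u (Sum.inl ⟨0, hs⟩) := by
      show 0 < Q ^ ((⟨0, hs⟩ : Fin s) : ℕ) * ω1 ⟨0, hs⟩
      exact Nat.mul_pos (pow_pos hQ _) (hposV _ (hω1 _))
    exact lt_of_lt_of_le h1 (single_le_sum (f := u) (fun i _ => Nat.zero_le _)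
      (mem_univ (Sum.inl ⟨0, hs⟩)))
  have hD' : D ∣ ∑ i ∈ (univ : Finset (Fin s ⊕ (Fin s ⊕ Fin s))), u i := by
    rw [hsum]; exact hdvd
  have := egy_of_dvd_sum univ u hN hu hpos hD'
  rw [card_univ, Fintype.card_sum, Fintype.card_sum, Fintype.card_fin] at this
  exact this.mono (by omega)

theorem egy_binary {N : ℕ} (hN : 0 < N) : ∀ j : ℕ, 2 ^ j ∣ N → ∀ τ : ℕ, τ < 2 ^ j →
    Egy j ((τ : ℚ) / N) := by
  intro j
  induction j with
  | zero =>
    intro _ τ hτ
    have : τ = 0 := by omega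
    subst this
    simpa using Egy.zero 0
  | succ j ih =>
    intro hj τ hτ
    have hj' : 2 ^ j ∣ N := (pow_dvd_pow 2 (Nat.le_succ j)).trans hj
    by_cases h : τ < 2 ^ j
    · exact (ih hj' τ h).mono (Nat.le_succ j)
    · push Not at h
      have h1 := ih hj' (τ - 2 ^ j) (by rw [pow_succ] at hτ; omega)
      obtain ⟨w, hw⟩ := hj'
      have hw0 : 0 < w := by
        rcases Nat.eq_zero_or_pos w with rfl | hh
        · omega
        · exact hh
      have h2 := h1.add (Egy.unit hw0)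
      convert h2 using 1
      rw [Nat.cast_sub h, hw]
      push_cast
      have hw' : (w : ℚ) ≠ 0 := by positivity
      field_simp
      ring

end Crest.Agent.S0025
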