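import Mathlib

set_option autoImplicit false

namespace Crest.Agent.S0025

open Finset Filter

/-- Chebyshev lower bound at powers of two. -/
theorem pi_two_pow {m : ℕ} (hm : 1 ≤ m) :
    (2 : ℝ) ^ m ≤ m * (Nat.primeCounting (2 ^ m) : ℝ) + m + 1 := by
  have h := Chebyshev.pi_ge (2 ^ m)
  have hlog2 : 0 < Real.log 2 := Real.log_pos (by norm_num)
  have hm0 : (0 : ℝ) < m := by exact_mod_cast hm
  have h1 : Real.log ((2 ^ m : ℕ) : ℝ) = m * Real.log 2 := by
    push_cast
    rw [Real.log_pow]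
  have h2 : Real.log (((2 ^ m : ℕ) : ℝ) + 1) ≤ (m + 1) * Real.log 2 := by
    have h3 : (((2 ^ m : ℕ) : ℝ) + 1) ≤ 2 ^ (m + 1) := by
      push_cast
      have : (1 : ℝ) ≤ 2 ^ m := one_le_pow₀ (by norm_num)
      rw [pow_succ]
      linarith
    calc Real.log (((2 ^ m : ℕ) : ℝ) + 1) ≤ Real.log (2 ^ (m + 1)) :=
          Real.log_le_log (by positivity) h3
      _ = (m + 1) * Real.log 2 := by rw [Real.log_pow]; push_cast; ring
  rw [h1, div_le_iff₀ (by positivity)] at h
  push_cast at h h2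
  have h4 : (2 : ℝ) ^ m * Real.log 2 ≤
      (m * (Nat.primeCounting (2 ^ m) : ℝ) + m + 1) * Real.log 2 := by
    nlinarith
  exact le_of_mul_le_mul_right h4 hlog2

/-- Chebyshev lower bound for `π y`. -/
theorem pi_lower : ∀ᶠ y : ℕ in atTop,
    (y : ℝ) ≤ 2 * Real.log y * (Nat.primeCounting y : ℝ) := by
  have h1 := (Real.isLittleO_log_id_atTop).bound (show (0 : ℝ) < 1 / 20 by norm_num)
  have h2 : Tendsto (fun y : ℕ => ((y : ℝ) + 1)) atTop atTop :=
    tendsto_atTop_add_const_right _ _ tendsto_natCast_atTop_atTop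
  have h3 := h2.eventually h1
  filter_upwards [h3, eventually_ge_atTop 3] with y hy hy3
  have hy3' : (3 : ℝ) ≤ y := by exact_mod_cast hy3
  have h := Chebyshev.pi_ge y
  have hlogy : 0 < Real.log y := Real.log_pos (by linarith)
  rw [div_le_iff₀ hlogy] at h
  have hlog2 : 0.6931471803 < Real.log 2 := Real.log_two_gt_d9
  simp only [id, Real.norm_eq_abs] at hy
  have h4 : Real.log ((y : ℝ) + 1) ≤ 1 / 20 * (y + 1) := by
    rw [abs_of_pos (show (0:ℝ) < y + 1 by positivity)] at hy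
    exact (le_abs_self _).trans hy
  nlinarith

theorem eventually_poly_le_two_pow (A k : ℕ) : ∀ᶠ y : ℕ in atTop, A * y ^ k ≤ 2 ^ y := by
  have h := tendsto_pow_const_div_const_pow_of_one_lt k (r := 2) (by norm_num)
  have h1 : ∀ᶠ y : ℕ in atTop, (y : ℝ) ^ k / 2 ^ y < 1 / ((A : ℝ) + 1) :=
    h.eventually (gt_mem_nhds (by positivity))
  filter_upwards [h1] with y hy
  rw [div_lt_div_iff₀ (by positivity) (by positivity), one_mul] at hy
  have h2 : (A : ℝ) * y ^ k ≤ 2 ^ y := by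
    have : (0 : ℝ) ≤ (y : ℝ) ^ k := by positivity
    nlinarith
  exact_mod_cast h2

/-- lower bound for `h = π y / 4`. -/
theorem h_lower : ∀ᶠ y : ℕ in atTop,
    (y : ℝ) ≤ 9 * Real.log y * ((Nat.primeCounting y / 4 : ℕ) : ℝ) := by
  have h1 := (Real.isLittleO_log_id_atTop).bound (show (0 : ℝ) < 1 / 100 by norm_num)
  have h3 := tendsto_natCast_atTop_atTop.eventually h1
  filter_upwards [h3, pi_lower, eventually_ge_atTop 3] with y hy hpi hy3
  have hy3' : (3 : ℝ) ≤ y := by exact_mod_cast hy3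
  have hlogy : 0 < Real.log y := Real.log_pos (by linarith)
  simp only [id, Real.norm_eq_abs] at hy
  rw [abs_of_pos hlogy, abs_of_pos (by linarith : (0 : ℝ) < y)] at hy
  have h4 : (Nat.primeCounting y : ℝ) ≤ 4 * ((Nat.primeCounting y / 4 : ℕ) : ℝ) + 3 := by
    have : Nat.primeCounting y ≤ 4 * (Nat.primeCounting y / 4) + 3 := by omega
    exact_mod_cast this
  have h5 : 2 * Real.log y * (Nat.primeCounting y : ℝ) ≤
      2 * Real.log y * (4 * ((Nat.primeCounting y / 4 : ℕ) : ℝ) + 3) := by gcongr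
  nlinarith

/-- Powers of `y` are below `2 ^ h`. -/
theorem pow_le_two_pow_h (k : ℕ) : ∀ᶠ y : ℕ in atTop,
    y ^ k ≤ 2 ^ (Nat.primeCounting y / 4) := by
  have h1 := (Real.isLittleO_pow_log_id_atTop (n := 2)).bound
    (show (0 : ℝ) < 1 / (18 * (k + 1)) by positivity)
  have h3 := tendsto_natCast_atTop_atTop.eventually h1
  filter_upwards [h3, h_lower, eventually_ge_atTop 3] with y hy hh hy3
  have hy3' : (3 : ℝ) ≤ y := by exact_mod_cast hy3
  have hlogy : 0 < Real.log y := Real.log_pos (by linarith)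
  simp only [id, Real.norm_eq_abs] at hy
  rw [abs_of_pos (by positivity), abs_of_pos (by linarith : (0 : ℝ) < y)] at hy
  set h : ℕ := Nat.primeCounting y / 4 with hdef
  have hlog2 : 0.6931471803 < Real.log 2 := Real.log_two_gt_d9
  have h4 : 18 * ((k : ℝ) + 1) * Real.log y ^ 2 ≤ y := by
    rw [one_div, inv_mul_eq_div, le_div_iff₀ (by positivity)] at hy
    linarith
  have h5 : 2 * ((k : ℝ) + 1) * Real.log y ≤ h := by
    have h6 : (9 * Real.log y) * (2 * ((k : ℝ) + 1) * Real.log y) ≤ (9 * Real.log y) * h := by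
      calc (9 * Real.log y) * (2 * ((k : ℝ) + 1) * Real.log y)
          = 18 * ((k : ℝ) + 1) * Real.log y ^ 2 := by ring
        _ ≤ y := h4
        _ ≤ _ := hh
    exact le_of_mul_le_mul_left h6 (by positivity)
  have h7 : (k : ℝ) * Real.log y ≤ h * Real.log 2 := by
    have hk0 : (0 : ℝ) ≤ k := by positivity
    nlinarith [mul_nonneg hk0 hlogy.le]
  have h8 : Real.log ((y : ℝ) ^ k) ≤ Real.log ((2 : ℝ) ^ h) := by
    rw [Real.log_pow, Real.log_pow]
    exact h7
  have h9 : (y : ℝ) ^ k ≤ (2 : ℝ) ^ h :=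
    (Real.log_le_log_iff (by positivity) (by positivity)).1 h8
  exact_mod_cast h9

end Crest.Agent.S0025
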