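import Mathlib
import Crest.Agent.S0025_Good
import Crest.Agent.S0025_Num

set_option autoImplicit false

namespace Crest.Agent.S0025

open Finset Filter

theorem two_pow_pi_le (y : ℕ) : 2 ^ Nat.primeCounting y ≤ (primorial y).divisors.card := by
  rw [Nat.card_divisors (primorial_ne_zero y), ← Nat.primesLE_card_eq_primeCounting,
    ← primeFactors_primorial, ← prod_const]
  apply prod_le_prod'
  intro p hp
  have h1 : 0 < (primorial y).factorization p :=
    Nat.Prime.factorization_pos_of_dvd (Nat.prime_of_mem_primeFactors hp) (primorial_ne_zero y)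
      (Nat.dvd_of_mem_primeFactors hp)
  omega

theorem log_four_pow (y : ℕ) : Nat.log 2 (4 ^ y) = 2 * y := by
  have : (4 : ℕ) ^ y = 2 ^ (2 * y) := by rw [pow_mul]; norm_num
  rw [this, Nat.log_pow (by norm_num)]

theorem coll_injOn {ι α : Type*} [DecidableEq α] (s : Finset ι) (X : ι → α)
    (hX : Set.InjOn X s) : coll s X ≤ s.card := by
  classical
  have h := coll_le_of_fiber s X 1 (by
    intro x
    rw [card_le_one]
    intro a ha b hb
    rw [mem_filter] at ha hb
    exact hX ha.1 hb.1 (ha.2.trans hb.2.symm))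
  simpa using h

/-- The good prime `Q`. -/
theorem exists_Q {y h : ℕ} (hM : 2 ^ (4 * h) ≤ (primorial y).divisors.card)
    (hpi : (1 + 2 * y) * 2 ^ (2 * h) ≤ Nat.primeCounting (2 ^ (4 * h))) :
    ∃ Q : ℕ, Q.Prime ∧ Q ≤ 2 ^ (4 * h) ∧ ∃ K : ℕ, K * 2 ^ h ≤ (primorial y).divisors.card ∧
      ∀ x : ℕ, ((primorial y).divisors.filter (fun v => v % Q = x)).card ≤ K := by
  classical
  set V := (primorial y).divisors with hV
  set M := V.card with hMdef
  set 𝒬 := Nat.primesLE (2 ^ (4 * h)) with hQ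
  have hQc : 𝒬.card = Nat.primeCounting (2 ^ (4 * h)) := Nat.primesLE_card_eq_primeCounting _
  have hQle : 𝒬.card ≤ M := by
    refine le_trans ?_ hM
    rw [hQ, Nat.primesLE_eq_filter_Ioc_zero]
    refine (card_filter_le _ _).trans ?_
    simp
  have hQpos : 0 < 𝒬.card := by
    rw [hQc]
    refine lt_of_lt_of_le ?_ hpi
    positivity
  have havg := avg_primes V (fun v => v) (4 ^ y) (by
    intro v hv
    exact (Nat.divisor_le hv).trans (primorial_le_four_pow y)) 𝒬
    (fun p hp => Nat.prime_of_mem_primesLE hp)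
  rw [log_four_pow] at havg
  have hcollid : coll V (fun v => v) ≤ M := coll_injOn V _ (fun a _ b _ h => h)
  have hMpos : 0 < M := lt_of_lt_of_le (by positivity) hM
  have hex : ∃ Q ∈ 𝒬, coll V (fun v => v % Q) * 2 ^ (2 * h) ≤ M ^ 2 := by
    by_contra hcon
    push Not at hcon
    have h1 : ∑ Q ∈ 𝒬, M ^ 2 < ∑ Q ∈ 𝒬, coll V (fun v => v % Q) * 2 ^ (2 * h) :=
      sum_lt_sum_of_nonempty (card_pos.1 hQpos) hcon
    rw [sum_const, smul_eq_mul, ← sum_mul] at h1
    have h2 : (∑ Q ∈ 𝒬, coll V (fun v => v % Q)) * 2 ^ (2 * h) ≤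
        (M ^ 2 + M ^ 2 * (2 * y)) * 2 ^ (2 * h) := by
      apply Nat.mul_le_mul_right
      refine havg.trans ?_
      apply Nat.add_le_add_right
      rw [pow_two]
      exact Nat.mul_le_mul hQle hcollid
    have h3 : (M ^ 2 + M ^ 2 * (2 * y)) * 2 ^ (2 * h) = M ^ 2 * ((1 + 2 * y) * 2 ^ (2 * h)) := by
      ring
    have h4 : M ^ 2 * ((1 + 2 * y) * 2 ^ (2 * h)) ≤ M ^ 2 * 𝒬.card := by
      rw [hQc]
      exact Nat.mul_le_mul_left _ hpi
    have h5 : 𝒬.card * M ^ 2 = M ^ 2 * 𝒬.card := by ring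
    omega
  obtain ⟨Q, hQm, hQcoll⟩ := hex
  refine ⟨Q, Nat.prime_of_mem_primesLE hQm, Nat.le_of_mem_primesLE hQm, M / 2 ^ h,
    Nat.div_mul_le_self _ _, ?_⟩
  intro x
  rw [Nat.le_div_iff_mul_le (by positivity)]
  have h1 := coll_ge_of_fiber V (fun v => v % Q) x
  have h2 : ((V.filter (fun v => v % Q = x)).card * 2 ^ h) ^ 2 ≤ M ^ 2 := by
    calc ((V.filter (fun v => v % Q = x)).card * 2 ^ h) ^ 2
        = (V.filter (fun v => v % Q = x)).card ^ 2 * 2 ^ (2 * h) := by
          rw [mul_pow, ← pow_mul, mul_comm h 2]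
      _ ≤ coll V (fun v => v % Q) * 2 ^ (2 * h) := Nat.mul_le_mul_right _ h1
      _ ≤ M ^ 2 := hQcoll
  exact (Nat.pow_le_pow_iff_left (by norm_num)).1 h2

open scoped Classical in
/-- Few primes are bad for the divisors of the primorial. -/
theorem bad_primes {y L : ℕ} (P : Finset ℕ) (hP : ∀ p ∈ P, p.Prime) (hL : 0 < L) :
    (P.filter (fun p => ¬ ∀ x : ℕ, ((primorial y).divisors.filter (fun v => v % p = x)).card ≤
      ((primorial y).divisors.card - 1) / L)).card * (primorial y).divisors.card ^ 2 ≤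
    L ^ 2 * (P.card * (primorial y).divisors.card + (primorial y).divisors.card ^ 2 * (2 * y)) := by
  classical
  set V := (primorial y).divisors with hV
  set M := V.card with hMdef
  have hMpos : 0 < M := by
    rw [hMdef, hV, card_pos]
    exact ⟨1, Nat.one_mem_divisors.2 (primorial_ne_zero y)⟩
  have havg := avg_primes V (fun v => v) (4 ^ y) (by
    intro v hv
    exact (Nat.divisor_le hv).trans (primorial_le_four_pow y)) P hP
  rw [log_four_pow] at havg
  have hcollid : coll V (fun v => v) ≤ M := coll_injOn V _ (fun a _ b _ h => h)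
  set Bd := P.filter (fun p => ¬ ∀ x : ℕ, (V.filter (fun v => v % p = x)).card ≤ (M - 1) / L)
    with hBd
  calc Bd.card * M ^ 2 = ∑ _p ∈ Bd, M ^ 2 := by rw [sum_const, smul_eq_mul]
    _ ≤ ∑ p ∈ Bd, L ^ 2 * coll V (fun v => v % p) := by
        apply sum_le_sum
        intro p hp
        rw [hBd, mem_filter] at hp
        obtain ⟨-, hp⟩ := hp
        push Not at hp
        obtain ⟨x, hx⟩ := hp
        rw [Nat.div_lt_iff_lt_mul hL] at hx
        have h1 : M ≤ (V.filter (fun v => v % p = x)).card * L := by omega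
        calc M ^ 2 ≤ ((V.filter (fun v => v % p = x)).card * L) ^ 2 := Nat.pow_le_pow_left h1 2
          _ = L ^ 2 * (V.filter (fun v => v % p = x)).card ^ 2 := by ring
          _ ≤ L ^ 2 * coll V (fun v => v % p) :=
              Nat.mul_le_mul_left _ (coll_ge_of_fiber V (fun v => v % p) x)
    _ = L ^ 2 * ∑ p ∈ Bd, coll V (fun v => v % p) := by rw [mul_sum]
    _ ≤ L ^ 2 * ∑ p ∈ P, coll V (fun v => v % p) := by
        apply Nat.mul_le_mul_left
        exact sum_le_sum_of_subset (filter_subset _ _)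
    _ ≤ L ^ 2 * (P.card * M + M ^ 2 * (2 * y)) := by
        apply Nat.mul_le_mul_left
        refine havg.trans ?_
        apply Nat.add_le_add_right
        exact Nat.mul_le_mul_left _ hcollid

theorem sig_le {Q s B : ℕ} (hQ : 2 ≤ Q) (ω : Fin s → ℕ) (hω : ∀ i, ω i ≤ B) :
    sig Q ω ≤ Q ^ s * B := by
  have h1 : sig Q ω ≤ (∑ i : Fin s, Q ^ (i : ℕ)) * B := by
    unfold sig
    rw [sum_mul]
    exact sum_le_sum (fun i _ => Nat.mul_le_mul_left _ (hω i))
  refine h1.trans (Nat.mul_le_mul_right _ ?_)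
  rw [Fin.sum_univ_eq_sum_range (fun i => Q ^ i) s]
  exact (Nat.geomSum_lt hQ (by simp)).le

open scoped Classical in
/-- Few pairs of primes are bad for the sums `sig`. -/
theorem bad_pairs {V : Finset ℕ} {y h s Q K L Y E : ℕ} (P : Finset ℕ) (hP : ∀ p ∈ P, p.Prime)
    (hPY : ∀ p ∈ P, p ≤ Y) (hQ : 2 ≤ Q)
    (hV : ∀ v ∈ V, v ≤ 4 ^ y) (hVpos : 0 < V.card)
    (hK : ∀ x : ℕ, (V.filter (fun v => v % Q = x)).card ≤ K) (hKH : K * 2 ^ h ≤ V.card)
    (hYs : Y ^ 2 ≤ 2 ^ (h * s)) (hE : Q ^ s * 4 ^ y ≤ 2 ^ E) :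
    ((P ×ˢ P).filter (fun d => ¬ (d.1 * d.2) * coll (Fintype.piFinset (fun _ : Fin s => V))
      (fun ω => sig Q ω % (d.1 * d.2)) ≤ L * (V.card ^ s) ^ 2)).card * L ≤
      P.card ^ 2 + Y ^ 2 * E ^ 2 := by
  classical
  set M := V.card with hM
  set Om := Fintype.piFinset (fun _ : Fin s => V) with hOm
  have hOmc : Om.card = M ^ s := by
    rw [hOm, Fintype.card_piFinset, prod_const, card_univ, Fintype.card_fin]
  set Bd := (P ×ˢ P).filter (fun d => ¬ (d.1 * d.2) * coll Om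
      (fun ω => sig Q ω % (d.1 * d.2)) ≤ L * (M ^ s) ^ 2) with hBd
  have hcoll := sig_coll V Q K (2 ^ h) (by omega) hK hKH s
  rw [← pow_mul] at hcoll
  have havg := avg_pairs Om (sig Q) (2 ^ E) (by
    intro ω hω
    rw [hOm, Fintype.mem_piFinset] at hω
    exact (sig_le hQ ω (fun i => hV _ (hω i))).trans hE) P hP
  rw [Nat.log_pow (by norm_num), hOmc] at havg
  have hMs : 0 < (M ^ s) ^ 2 := by positivity
  have h1 : (Bd.card * L) * (M ^ s) ^ 2 ≤ (P.card ^ 2 + Y ^ 2 * E ^ 2) * (M ^ s) ^ 2 := by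
    calc (Bd.card * L) * (M ^ s) ^ 2 = ∑ _d ∈ Bd, L * (M ^ s) ^ 2 := by
          rw [sum_const, smul_eq_mul]; ring
      _ ≤ ∑ d ∈ Bd, Y ^ 2 * coll Om (fun ω => sig Q ω % (d.1 * d.2)) := by
          apply sum_le_sum
          intro d hd
          rw [hBd, mem_filter, mem_product] at hd
          obtain ⟨hd1, hd2⟩ := hd
          push Not at hd2
          refine hd2.le.trans ?_
          apply Nat.mul_le_mul_right
          rw [pow_two]
          exact Nat.mul_le_mul (hPY _ hd1.1) (hPY _ hd1.2)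
      _ = Y ^ 2 * ∑ d ∈ Bd, coll Om (fun ω => sig Q ω % (d.1 * d.2)) := by rw [mul_sum]
      _ ≤ Y ^ 2 * ∑ d ∈ P ×ˢ P, coll Om (fun ω => sig Q ω % (d.1 * d.2)) := by
          apply Nat.mul_le_mul_left
          exact sum_le_sum_of_subset (filter_subset _ _)
      _ ≤ Y ^ 2 * (P.card ^ 2 * coll Om (sig Q) + (M ^ s) ^ 2 * E ^ 2) :=
          Nat.mul_le_mul_left _ havg
      _ = P.card ^ 2 * (coll Om (sig Q) * Y ^ 2) + Y ^ 2 * E ^ 2 * (M ^ s) ^ 2 := by ring
      _ ≤ P.card ^ 2 * (M ^ s) ^ 2 + Y ^ 2 * E ^ 2 * (M ^ s) ^ 2 := by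
          apply Nat.add_le_add_right
          apply Nat.mul_le_mul_left
          exact (Nat.mul_le_mul_left _ hYs).trans hcoll
      _ = (P.card ^ 2 + Y ^ 2 * E ^ 2) * (M ^ s) ^ 2 := by ring
  exact Nat.le_of_mul_le_mul_right h1 hMs

end Crest.Agent.S0025
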