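import Mathlib
import Crest.Agent.S0025_Param

set_option autoImplicit false

namespace Crest.Agent.S0025

open Finset Filter

theorem pi_two_pow_nat {m : ℕ} (hm : 1 ≤ m) :
    2 ^ m ≤ m * Nat.primeCounting (2 ^ m) + m + 1 := by
  exact_mod_cast pi_two_pow hm

theorem primeCounting_le_self (n : ℕ) : Nat.primeCounting n ≤ n := by
  rw [← Nat.primesLE_card_eq_primeCounting, Nat.primesLE_eq_filter_Ioc_zero]
  refine (card_filter_le _ _).trans ?_
  simp

/-- The prime window. -/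
def window (y : ℕ) : Finset ℕ := (Nat.primesLE (16 ^ y)).filter (fun p => 4 ^ y < p)

theorem window_card {y : ℕ} (hy : 1 ≤ y) (h4 : 24 * y + 3 ≤ 4 ^ y) :
    16 ^ y ≤ 6 * y * (window y).card := by
  have h1 : Nat.primeCounting (16 ^ y) ≤ (window y).card + 4 ^ y := by
    rw [← Nat.primesLE_card_eq_primeCounting]
    have h2 : Nat.primesLE (16 ^ y) ⊆ window y ∪ Ioc 0 (4 ^ y) := by
      intro p hp
      rw [mem_union]
      by_cases h : 4 ^ y < p
      · left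
        rw [window, mem_filter]
        exact ⟨hp, h⟩
      · right
        rw [mem_Ioc]
        exact ⟨(Nat.prime_of_mem_primesLE hp).pos, not_lt.1 h⟩
    refine (card_le_card h2).trans ?_
    refine (card_union_le _ _).trans ?_
    simp
  have h2 := pi_two_pow_nat (m := 4 * y) (by omega)
  have h3 : (2 : ℕ) ^ (4 * y) = 16 ^ y := by rw [pow_mul]; norm_num
  rw [h3] at h2
  have h4' : (16 : ℕ) ^ y = 4 ^ y * 4 ^ y := by rw [← mul_pow]; norm_num
  have h5 : 4 * y * Nat.primeCounting (16 ^ y) ≤ 4 * y * ((window y).card + 4 ^ y) :=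
    Nat.mul_le_mul_left _ h1
  have h6 : (24 * y + 3) * 4 ^ y ≤ 16 ^ y := by
    rw [h4']; exact Nat.mul_le_mul_right _ h4
  have h7 : 1 ≤ 4 ^ y := Nat.one_le_pow _ _ (by norm_num)
  have h8 : 12 * y + 3 ≤ (12 * y + 3) * 4 ^ y := Nat.le_mul_of_pos_right _ h7
  nlinarith

theorem num_Bp {B n M y : ℕ} (hy : 2 ≤ y)
    (h : B * M ^ 2 ≤ (y ^ 24) ^ 2 * (n * M + M ^ 2 * (2 * y)))
    (hM : y ^ 60 ≤ M) (hn : y ^ 57 ≤ n) : B * y ^ 5 ≤ n := by
  have hy0 : 0 < y := by omega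
  have hM0 : 0 < M := lt_of_lt_of_le (pow_pos hy0 60) hM
  have h2 : 2 * y ^ 53 ≤ M := by
    calc 2 * y ^ 53 ≤ y ^ 7 * y ^ 53 := Nat.mul_le_mul_right _ (hy.trans
          (Nat.le_self_pow (by norm_num) y))
      _ = y ^ 60 := by rw [← pow_add]
      _ ≤ M := hM
  have h3 : 4 * y ^ 54 ≤ n := by
    calc 4 * y ^ 54 = 2 ^ 2 * y ^ 54 := by norm_num
      _ ≤ y ^ 2 * y ^ 54 := Nat.mul_le_mul_right _ (Nat.pow_le_pow_left hy 2)
      _ = y ^ 56 := by rw [← pow_add]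
      _ ≤ y ^ 57 := Nat.pow_le_pow_right hy0 (by norm_num)
      _ ≤ n := hn
  have h1 : (B * y ^ 5) * M ^ 2 ≤ n * M ^ 2 := by
    have e1 : (B * y ^ 5) * M ^ 2 ≤ n * M * y ^ 53 + M ^ 2 * (2 * y ^ 54) := by
      calc (B * y ^ 5) * M ^ 2 = (B * M ^ 2) * y ^ 5 := by ring
        _ ≤ ((y ^ 24) ^ 2 * (n * M + M ^ 2 * (2 * y))) * y ^ 5 := Nat.mul_le_mul_right _ h
        _ = n * M * y ^ 53 + M ^ 2 * (2 * y ^ 54) := by ring
    have e2 : n * M * (2 * y ^ 53) ≤ n * M * M := Nat.mul_le_mul_left _ h2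
    have e3 : M ^ 2 * (4 * y ^ 54) ≤ M ^ 2 * n := Nat.mul_le_mul_left _ h3
    generalize y ^ 53 = a at *
    generalize y ^ 54 = b at *
    nlinarith
  exact Nat.le_of_mul_le_mul_right h1 (pow_pos hM0 2)

theorem num_Bd {B n y Y : ℕ} (hy : 10 ^ 6 ≤ y)
    (h : B * y ^ 8 ≤ n ^ 2 + Y ^ 2 * (35 * y) ^ 2) (hY : Y ≤ 6 * y * n) :
    22 * (B * y ^ 3) ≤ n ^ 2 := by
  have hy0 : 0 < y := by omega
  have hY2 : Y ^ 2 * (35 * y) ^ 2 ≤ 44100 * n ^ 2 * y ^ 4 := by
    calc Y ^ 2 * (35 * y) ^ 2 ≤ (6 * y * n) ^ 2 * (35 * y) ^ 2 :=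
          Nat.mul_le_mul_right _ (Nat.pow_le_pow_left hY 2)
      _ = 44100 * n ^ 2 * y ^ 4 := by ring
  have h0 : n ^ 2 ≤ n ^ 2 * y ^ 4 := Nat.le_mul_of_pos_right _ (pow_pos hy0 4)
  have h1 : (B * y ^ 4) * y ^ 4 ≤ (44101 * n ^ 2) * y ^ 4 := by
    calc (B * y ^ 4) * y ^ 4 = B * y ^ 8 := by ring
      _ ≤ n ^ 2 + Y ^ 2 * (35 * y) ^ 2 := h
      _ ≤ n ^ 2 * y ^ 4 + 44100 * n ^ 2 * y ^ 4 := Nat.add_le_add h0 hY2
      _ = (44101 * n ^ 2) * y ^ 4 := by ring
  have h3 := Nat.le_of_mul_le_mul_right h1 (pow_pos hy0 4)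
  have h4 : B * y ^ 3 * 10 ^ 6 ≤ B * y ^ 3 * y := Nat.mul_le_mul_left _ hy
  have h5 : B * y ^ 3 * y = B * y ^ 4 := by ring
  rw [h5] at h4
  generalize y ^ 3 = a at *
  generalize y ^ 4 = b at *
  omega

theorem num_G {p d n y c : ℕ} (hy : 10 ^ 6 ≤ y)
    (hc : c ≤ (p * n + n * p) + (n + d)) (hp : p * y ^ 5 ≤ n) (hd : 22 * (d * y ^ 3) ≤ n ^ 2)
    (hn : y ^ 57 ≤ n) : c * y ^ 3 ≤ n ^ 2 := by
  have hy0 : 0 < y := by omega
  have h4 : p * y ^ 3 * 10 ^ 6 ≤ n := by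
    calc p * y ^ 3 * 10 ^ 6 ≤ p * y ^ 3 * y ^ 2 := by
          apply Nat.mul_le_mul_left
          exact hy.trans (Nat.le_self_pow (by norm_num) y)
      _ = p * y ^ 5 := by ring
      _ ≤ n := hp
  have h5 : 2 * y ^ 3 ≤ n := by
    calc 2 * y ^ 3 ≤ y * y ^ 3 := Nat.mul_le_mul_right _ (by omega)
      _ = y ^ 4 := by ring
      _ ≤ y ^ 57 := Nat.pow_le_pow_right hy0 (by norm_num)
      _ ≤ n := hn
  have h6 : n * (p * y ^ 3 * 10 ^ 6) ≤ n * n := Nat.mul_le_mul_left _ h4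
  have h7 : n * (2 * y ^ 3) ≤ n * n := Nat.mul_le_mul_left _ h5
  have h8 : c * y ^ 3 ≤ ((p * n + n * p) + (n + d)) * y ^ 3 := Nat.mul_le_mul_right _ hc
  generalize y ^ 3 = a at *
  nlinarith

theorem num_mix {y : ℝ} {T : ℝ} (hy : 10 ^ 6 ≤ y) (hT : y ^ 13 ≤ T) :
    2 * (6 * y) * (2 * (6 * y) / y ^ 4 + 1 / y ^ 3) * T + 4 * (6 * y) * (y ^ 4) ^ 2 <
      (1 - 1 / y ^ 3) ^ 3 * T := by
  have hy0 : 0 < y := by linarith
  have hT0 : 0 < T := lt_of_lt_of_le (by positivity) hT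
  have e1 : 2 * (6 * y) * (2 * (6 * y) / y ^ 4 + 1 / y ^ 3) * T = 156 / y ^ 2 * T := by
    field_simp
    ring
  have e2 : 4 * (6 * y) * (y ^ 4) ^ 2 ≤ 24 / y ^ 4 * T := by
    rw [div_mul_eq_mul_div, le_div_iff₀ (by positivity)]
    calc 4 * (6 * y) * (y ^ 4) ^ 2 * y ^ 4 = 24 * y ^ 13 := by ring
      _ ≤ 24 * T := by linarith
  have hy2 : (10 : ℝ) ^ 6 ≤ y ^ 2 := hy.trans (le_self_pow₀ (by linarith) (by norm_num))
  have hy3 : (10 : ℝ) ^ 6 ≤ y ^ 3 := hy.trans (le_self_pow₀ (by linarith) (by norm_num))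
  have hy4 : (10 : ℝ) ^ 6 ≤ y ^ 4 := hy.trans (le_self_pow₀ (by linarith) (by norm_num))
  have e3 : 156 / y ^ 2 ≤ 1 / 100 := by
    rw [div_le_div_iff₀ (by positivity) (by norm_num)]
    linarith
  have e4 : 24 / y ^ 4 ≤ 1 / 100 := by
    rw [div_le_div_iff₀ (by positivity) (by norm_num)]
    linarith
  have e5 : 1 / y ^ 3 ≤ 1 / 100 := by
    rw [div_le_div_iff₀ (by positivity) (by norm_num)]
    linarith
  have e6 : (99 / 100 : ℝ) ^ 3 ≤ (1 - 1 / y ^ 3) ^ 3 := by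
    apply pow_le_pow_left₀ (by norm_num)
    linarith
  rw [e1]
  have e7 : (99 / 100 : ℝ) ^ 3 * T ≤ (1 - 1 / y ^ 3) ^ 3 * T :=
    mul_le_mul_of_nonneg_right e6 hT0.le
  have e8 : 156 / y ^ 2 * T ≤ 1 / 100 * T := mul_le_mul_of_nonneg_right e3 hT0.le
  have e9 : 24 / y ^ 4 * T ≤ 1 / 100 * T := mul_le_mul_of_nonneg_right e4 hT0.le
  have e10 : (99 / 100 : ℝ) ^ 3 = 970299 / 1000000 := by norm_num
  rw [e10] at e7
  linarith

theorem num_hpi {y h π W : ℕ} (hy : 10 ^ 6 ≤ y) (h4 : 4 * h ≤ y)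
    (hW : y ^ 60 ≤ W) (h1 : W * W ≤ 4 * h * π + 4 * h + 1) : (1 + 2 * y) * W ≤ π := by
  by_contra hcon
  push Not at hcon
  have hy0 : 0 < y := by omega
  have h2 : 4 * h * π ≤ y * ((1 + 2 * y) * W) := Nat.mul_le_mul h4 hcon.le
  have h5 : y ^ 3 ≤ W := (Nat.pow_le_pow_right hy0 (by norm_num)).trans hW
  have h6 : y ^ 3 * W ≤ W * W := Nat.mul_le_mul_right _ h5
  have h7 : 1 ≤ W := (Nat.one_le_pow _ _ hy0).trans hW
  have h8 : y ^ 3 * W ≤ y * ((1 + 2 * y) * W) + (y + 1) * W := by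
    have : y + 1 ≤ (y + 1) * W := Nat.le_mul_of_pos_right _ h7
    omega
  have h9 : y ^ 3 * W ≤ (2 * y ^ 2 + 2 * y + 1) * W := by
    calc y ^ 3 * W ≤ _ := h8
      _ = _ := by ring
  have h10 := Nat.le_of_mul_le_mul_right h9 h7
  have h11 : 10 ^ 6 * y ^ 2 ≤ y ^ 3 := by
    calc 10 ^ 6 * y ^ 2 ≤ y * y ^ 2 := Nat.mul_le_mul_right _ hy
      _ = y ^ 3 := by ring
  nlinarith

set_option maxHeartbeats 4000000 in
theorem exists_param : ∃ C : ℝ, ∀ᶠ y : ℕ in atTop, ∃ N k : ℕ, 0 < N ∧ N ≤ 2 ^ (45 * y) ∧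
    16 ^ y ≤ N ∧ (k : ℝ) ≤ C * Real.log y ∧ ∀ q : ℕ, q ≤ 4 ^ y → Egy k ((q : ℚ) / N) := by
  classical
  refine ⟨1000, ?_⟩
  have hlog := (Real.isLittleO_log_id_atTop).bound (show (0 : ℝ) < 1 / 100 by norm_num)
  have hlog' := tendsto_natCast_atTop_atTop.eventually hlog
  filter_upwards [h_lower, pow_le_two_pow_h 60, eventually_poly_le_two_pow 27 1,
    eventually_ge_atTop (10 ^ 6), hlog'] with y hh h60 h27 hy6 hlogy
  have hy1 : 1 ≤ y := by omega
  have hyR : (10 : ℝ) ^ 6 ≤ y := by exact_mod_cast hy6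
  have hy0R : (0 : ℝ) < y := by positivity
  set h := Nat.primeCounting y / 4 with hhdef
  have h4h : 4 * h ≤ Nat.primeCounting y := by omega
  have h4hy : 4 * h ≤ y := h4h.trans (primeCounting_le_self y)
  have hlogpos : 1 ≤ Real.log y := by
    rw [Real.le_log_iff_exp_le hy0R]
    have := Real.exp_one_lt_d9
    linarith
  have hhpos : 0 < h := by
    rcases Nat.eq_zero_or_pos h with h0 | h0
    · rw [h0] at hh
      simp at hh
      linarith
    · exact h0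
  set M := (primorial y).divisors.card with hM
  have hM4 : 2 ^ (4 * h) ≤ M :=
    (Nat.pow_le_pow_right (by norm_num) h4h).trans (two_pow_pi_le y)
  have hMy : y ^ 60 ≤ M := by
    refine h60.trans (le_trans ?_ hM4)
    exact Nat.pow_le_pow_right (by norm_num) (by omega)
  have hMpos : 0 < M := lt_of_lt_of_le (by positivity) hM4
  -- the prime Q
  have hpi : (1 + 2 * y) * 2 ^ (2 * h) ≤ Nat.primeCounting (2 ^ (4 * h)) := by
    have h1 := pi_two_pow_nat (m := 4 * h) (by omega)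
    have h3 : (2 : ℕ) ^ (4 * h) = 2 ^ (2 * h) * 2 ^ (2 * h) := by rw [← pow_add]; congr 1; ring
    have h4 : y ^ 60 ≤ 2 ^ (2 * h) :=
      h60.trans (Nat.pow_le_pow_right (by norm_num) (by omega))
    refine num_hpi hy6 h4hy h4 ?_
    rw [← h3]
    exact h1
  obtain ⟨Q, hQp, hQle, K, hKH, hK⟩ := exists_Q hM4 hpi
  rw [← hM] at hKH
  -- parameter s
  set s := 8 * y / h + 1 with hs
  have hs1 : 8 * y < h * s := Nat.lt_mul_div_succ _ hhpos
  have hs2 : h * s ≤ 8 * y + h := by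
    rw [hs, mul_add, mul_one]
    exact Nat.add_le_add_right (Nat.mul_div_le _ _) _
  have hs0 : 0 < s := Nat.succ_pos _
  have hQs : Q ^ s ≤ 2 ^ (33 * y) := by
    calc Q ^ s ≤ (2 ^ (4 * h)) ^ s := Nat.pow_le_pow_left hQle s
      _ = 2 ^ (4 * (h * s)) := by rw [← pow_mul]; congr 1; ring
      _ ≤ 2 ^ (33 * y) := Nat.pow_le_pow_right (by norm_num) (by omega)
  have hE : Q ^ s * 4 ^ y ≤ 2 ^ (35 * y) := by
    have : (4 : ℕ) ^ y = 2 ^ (2 * y) := by rw [pow_mul]; norm_num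
    calc Q ^ s * 4 ^ y ≤ 2 ^ (33 * y) * 2 ^ (2 * y) := by
          rw [this]; exact Nat.mul_le_mul_right _ hQs
      _ = 2 ^ (35 * y) := by rw [← pow_add]; congr 1; ring
  have hYs : (16 ^ y) ^ 2 ≤ 2 ^ (h * s) := by
    have : ((16 : ℕ) ^ y) ^ 2 = 2 ^ (8 * y) := by
      rw [← pow_mul, show (16 : ℕ) = 2 ^ 4 by norm_num, ← pow_mul]; congr 1; ring
    rw [this]
    exact Nat.pow_le_pow_right (by norm_num) hs1.le
  -- the window
  set P := window y with hP
  set n := P.card with hn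
  have hPprime : ∀ p ∈ P, p.Prime := fun p hp => Nat.prime_of_mem_primesLE (mem_filter.1 hp).1
  have hPY : ∀ p ∈ P, p ≤ 16 ^ y := fun p hp => Nat.le_of_mem_primesLE (mem_filter.1 hp).1
  have hPlow : ∀ p ∈ P, 4 ^ y < p := fun p hp => (mem_filter.1 hp).2
  have h4y : 24 * y + 3 ≤ 4 ^ y := by
    have h1 : (2 : ℕ) ^ y ≤ 4 ^ y := Nat.pow_le_pow_left (by norm_num) y
    rw [pow_one] at h27
    omega
  have hYn : 16 ^ y ≤ 6 * y * n := window_card hy1 h4y
  have h2h16 : 2 ^ h ≤ 16 ^ y := by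
    calc 2 ^ h ≤ 2 ^ y := Nat.pow_le_pow_right (by norm_num) (by omega)
      _ ≤ 16 ^ y := Nat.pow_le_pow_left (by norm_num) y
  have hny : y ^ 57 ≤ n := by
    have h1 : 6 * y * y ^ 57 ≤ 6 * y * n := by
      calc 6 * y * y ^ 57 ≤ y ^ 2 * y ^ 58 := by
            calc 6 * y * y ^ 57 = 6 * y ^ 58 := by ring
              _ ≤ y ^ 2 * y ^ 58 := Nat.mul_le_mul_right _ (by nlinarith)
        _ = y ^ 60 := by ring
        _ ≤ 6 * y * n := (h60.trans h2h16).trans hYn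
    exact Nat.le_of_mul_le_mul_left h1 (by positivity)
  have hnpos : 0 < n := lt_of_lt_of_le (by positivity) hny
  -- bad primes
  have hy24 : 0 < y ^ 24 := by positivity
  have hbp := bad_primes (y := y) (L := y ^ 24) P hPprime hy24
  rw [← hM] at hbp
  set Bp := P.filter (fun p => ¬ ∀ x : ℕ,
    ((primorial y).divisors.filter (fun v => v % p = x)).card ≤ (M - 1) / y ^ 24) with hBp
  have hBp5 : Bp.card * y ^ 5 ≤ n := num_Bp (by omega) hbp hMy hny
  -- bad pairs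
  have hbd := bad_pairs (V := (primorial y).divisors) (y := y) (h := h) (s := s) (Q := Q) (K := K)
    (L := y ^ 8) (Y := 16 ^ y) (E := 35 * y) P hPprime hPY hQp.two_le
    (fun v hv => (Nat.divisor_le hv).trans (primorial_le_four_pow y)) hMpos hK hKH hYs hE
  rw [← hM] at hbd
  set Bd := (P ×ˢ P).filter (fun d => ¬ (d.1 * d.2) *
    coll (Fintype.piFinset (fun _ : Fin s => (primorial y).divisors))
      (fun ω => sig Q ω % (d.1 * d.2)) ≤ y ^ 8 * (M ^ s) ^ 2) with hBd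
  have hBd3 : 22 * (Bd.card * y ^ 3) ≤ n ^ 2 := num_Bd hy6 hbd hYn
  -- the good set
  let G : Finset (ℕ × ℕ) := (P ×ˢ P).filter (fun d => d.1 ≠ d.2 ∧ d.1 ∉ Bp ∧ d.2 ∉ Bp ∧ d ∉ Bd)
  have hGsub : G ⊆ P ×ˢ P := filter_subset _ _
  have hGc : ((P ×ˢ P) \ G).card * y ^ 3 ≤ n ^ 2 := by
    have h1 : (P ×ˢ P) \ G ⊆ ((Bp ×ˢ P) ∪ (P ×ˢ Bp)) ∪ (P.image (fun p => (p, p)) ∪ Bd) := by
      rintro ⟨p, q⟩ hd
      obtain ⟨hd1, hd2⟩ := Finset.mem_sdiff.1 hd
      simp only [mem_union, mem_product, mem_image]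
      rw [mem_product] at hd1
      by_contra hcon
      push Not at hcon
      apply hd2
      rw [mem_filter, mem_product]
      refine ⟨hd1, ?_, ?_, ?_, ?_⟩
      · intro heq
        simp only at heq
        apply hcon.2.1 p hd1.1
        rw [heq]
      · intro hb
        exact hcon.1.1 hb hd1.2
      · intro hb
        exact hcon.1.2 hd1.1 hb
      · exact hcon.2.2
    have h2 := card_le_card h1
    have h3 : (((Bp ×ˢ P) ∪ (P ×ˢ Bp)) ∪ (P.image (fun p => (p, p)) ∪ Bd)).card ≤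
        (Bp.card * n + n * Bp.card) + (n + Bd.card) := by
      refine (card_union_le _ _).trans ?_
      apply Nat.add_le_add
      · refine (card_union_le _ _).trans ?_
        rw [card_product, card_product]
      · refine (card_union_le _ _).trans ?_
        apply Nat.add_le_add_right
        exact card_image_le
    exact num_G hy6 (h2.trans h3) hBp5 hBd3 hny
  -- parameter j
  set j := 13 * (Nat.log 2 y + 1) with hj
  have hTy : y ^ 13 ≤ 2 ^ j := by
    have h1 : y ≤ 2 ^ (Nat.log 2 y + 1) := (Nat.lt_pow_succ_log_self (by norm_num) y).le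
    calc y ^ 13 ≤ (2 ^ (Nat.log 2 y + 1)) ^ 13 := Nat.pow_le_pow_left h1 13
      _ = 2 ^ j := by rw [← pow_mul, hj]; congr 1; ring
  have hjR : (j : ℝ) ≤ 33 * Real.log y := by
    have h1 : (Nat.log 2 y : ℝ) ≤ Real.logb 2 y := by
      have := Real.natLog_le_logb y 2
      exact_mod_cast this
    have hlog2 : 0.6931471803 < Real.log 2 := Real.log_two_gt_d9
    have h2 : Real.logb 2 y ≤ 1.4427 * Real.log y := by
      rw [Real.logb, div_le_iff₀ (by linarith)]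
      nlinarith
    rw [hj]
    push_cast
    linarith
  simp only [id, Real.norm_eq_abs] at hlogy
  rw [abs_of_pos (by linarith), abs_of_pos hy0R] at hlogy
  have hjy : j ≤ y := by
    have : (j : ℝ) ≤ y := by linarith
    exact_mod_cast this
  -- parameter N
  set N := (primorial y) ^ 2 * Q ^ s * 2 ^ (j + 4 * y) with hN
  have hP1pos : 0 < primorial y := primorial_pos y
  have hQpos : 0 < Q := hQp.pos
  have hNpos : 0 < N := by positivity
  refine ⟨N, 9 * s + j, hNpos, ?_, ?_, ?_, ?_⟩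
  · -- upper bound
    have h1 : (primorial y) ^ 2 ≤ 2 ^ (4 * y) := by
      calc (primorial y) ^ 2 ≤ (4 ^ y) ^ 2 := Nat.pow_le_pow_left (primorial_le_four_pow y) 2
        _ = 2 ^ (4 * y) := by
          rw [← pow_mul, show (4 : ℕ) = 2 ^ 2 by norm_num, ← pow_mul]; congr 1; ring
    calc N ≤ 2 ^ (4 * y) * 2 ^ (33 * y) * 2 ^ (y + 4 * y) := by
          rw [hN]
          gcongr
          norm_num
      _ = 2 ^ (42 * y) := by rw [← pow_add, ← pow_add]; congr 1; ring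
      _ ≤ 2 ^ (45 * y) := Nat.pow_le_pow_right (by norm_num) (by omega)
  · -- lower bound
    have h1 : (16 : ℕ) ^ y = 2 ^ (4 * y) := by rw [pow_mul]; norm_num
    rw [h1, hN, pow_add]
    have h2 : 0 < (primorial y) ^ 2 * Q ^ s * 2 ^ j := by positivity
    calc 2 ^ (4 * y) ≤ ((primorial y) ^ 2 * Q ^ s * 2 ^ j) * 2 ^ (4 * y) :=
          Nat.le_mul_of_pos_left _ h2
      _ = _ := by ring
  · -- size of k
    have h1 : (s : ℝ) ≤ 73 * Real.log y := by
      have hh0 : (0 : ℝ) < h := by exact_mod_cast hhpos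
      have h2 : ((8 * y / h : ℕ) : ℝ) ≤ (8 * y : ℝ) / h := by
        have := @Nat.cast_div_le ℝ _ _ _ (8 * y) h
        exact_mod_cast this
      have h3 : (8 * y : ℝ) / h ≤ 72 * Real.log y := by
        rw [div_le_iff₀ hh0]
        linarith
      rw [hs]
      push_cast
      push_cast at h2
      linarith
    push_cast
    linarith
  · -- all q
    intro q hq
    rcases Nat.eq_zero_or_pos q with rfl | hq0
    · simpa using Egy.zero _
    have : NeZero q := ⟨hq0.ne'⟩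
    have hqY : q ≤ 16 ^ y := hq.trans (Nat.pow_le_pow_left (by norm_num) y)
    have hcop : ∀ p ∈ P, Nat.Coprime p q := by
      intro p hp
      rw [Nat.Prime.coprime_iff_not_dvd (hPprime p hp)]
      intro hdvd
      have h1 := Nat.le_of_dvd hq0 hdvd
      have h2 := hPlow p hp
      omega
    have hy3R : (0 : ℝ) < (y : ℝ) ^ 3 := by positivity
    have hmix := mix (q := q) P (16 ^ y) hPY hqY hcop G hGsub (6 * y) (1 / (y : ℝ) ^ 3)
      (by exact_mod_cast hYn) (by positivity)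
      (by
        rw [one_div, inv_mul_eq_div, le_div_iff₀ hy3R]
        exact_mod_cast hGc)
      (by
        rw [div_le_one hy3R]
        have : (1 : ℝ) ≤ y := by linarith
        exact one_le_pow₀ this)
      (2 ^ j) (y ^ 4) hnpos (by positivity)
      (by
        have hT : (y : ℝ) ^ 13 ≤ ((2 ^ j : ℕ) : ℝ) := by exact_mod_cast hTy
        have := num_mix hyR hT
        push_cast at this ⊢
        exact this)
    obtain ⟨d1, hd1, d2, hd2, d3, hd3, τ, hτ, t, ht⟩ := hmix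
    have hgood : ∀ d ∈ G, Egy (3 * s) (((d.1 * d.2 : ℕ) : ℚ) / N) := by
      rintro ⟨p, q'⟩ hd
      rw [mem_filter, mem_product] at hd
      obtain ⟨⟨hp, hq'⟩, hne, hb1, hb2, hb3⟩ := hd
      simp only at hp hq' hne hb1 hb2
      have hK1 : ∀ x : ℕ, ((primorial y).divisors.filter (fun v => v % p = x)).card ≤
          (M - 1) / y ^ 24 := by
        by_contra hcon
        exact hb1 (mem_filter.2 ⟨hp, hcon⟩)
      have hK2 : ∀ x : ℕ, ((primorial y).divisors.filter (fun v => v % q' = x)).card ≤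
          (M - 1) / y ^ 24 := by
        by_contra hcon
        exact hb2 (mem_filter.2 ⟨hq', hcon⟩)
      have hc : (p * q') * coll (Fintype.piFinset (fun _ : Fin s => (primorial y).divisors))
          (fun ω => sig Q ω % (p * q')) ≤ y ^ 8 * (M ^ s) ^ 2 := by
        by_contra hcon
        exact hb3 (mem_filter.2 ⟨mem_product.2 ⟨hp, hq'⟩, hcon⟩)
      refine good_egy (P1 := primorial y) (K := (M - 1) / y ^ 24) (L := y ^ 8) hP1pos hQpos hs0
        hNpos ?_ (hPprime p hp) (hPprime q' hq') hne hK1 hK2 ?_ hc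
      · rw [hN]
        exact Dvd.intro _ rfl
      · rw [← hM, ← pow_mul]
        have := Nat.mul_div_le (M - 1) (y ^ 24)
        norm_num at this ⊢
        omega
    have ht0 : 0 < t := by
      rcases Nat.eq_zero_or_pos t with rfl | h0
      · exfalso
        rw [mul_zero] at ht
        have h1 : 0 < d1.1 * d1.2 := by
          have := mem_product.1 (hGsub hd1)
          exact Nat.mul_pos (hPprime _ this.1).pos (hPprime _ this.2).pos
        omega
      · exact h0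
    have hτegy : Egy j ((τ : ℚ) / N) := by
      apply egy_binary hNpos j _ τ hτ
      rw [hN, pow_add]
      exact Dvd.intro_left ((primorial y) ^ 2 * Q ^ s * 2 ^ (4 * y)) (by ring)
    have htot := ((((hgood d1 hd1).div ht0).add ((hgood d2 hd2).div ht0)).add
      ((hgood d3 hd3).div ht0)).add (hτegy.div ht0)
    have hnum : 3 * s + 3 * s + 3 * s + j = 9 * s + j := by ring
    rw [hnum] at htot
    convert htot using 1
    have h1 : ((d1.1 * d1.2 : ℕ) : ℚ) + ((d2.1 * d2.2 : ℕ) : ℚ) + ((d3.1 * d3.2 : ℕ) : ℚ) + τ =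
        q * t := by exact_mod_cast ht
    have hN' : (N : ℚ) ≠ 0 := by positivity
    have ht' : (t : ℚ) ≠ 0 := by positivity
    field_simp
    linarith

end Crest.Agent.S0025
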