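import Mathlib
import Crest.Agent.S0025_Inv

set_option autoImplicit false

namespace Crest.Agent.S0025

open Finset

theorem egy_T2 {a b N k R F0 l : ℕ} (hb : 0 < b) (hN : 0 < N) (F : Finset ℕ) (hF0 : 0 < F0)
    (hF : ∀ f ∈ F, f.Prime ∧ Nat.Coprime f b ∧ f ≤ F0) (hFc : 0 < F.card) (hR : 0 < R)
    (hk : ∀ q : ℕ, q ≤ R → Egy k ((q : ℚ) / N)) (hFR : F0 ≤ R + 1)
    (hab : a * N ≤ R * b) (hpos : l * R < a * N)
    (h : (b : ℝ) * (F.card * F0 + Nat.log 2 b * R) ^ l ≤ (F.card * R) ^ l) :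
    Egy ((2 * l + 1) * k) ((a : ℚ) / b) := by
  classical
  have : NeZero b := ⟨hb.ne'⟩
  obtain ⟨f, d, hfd, hsum⟩ := inv_mix F F0 R l hF0 hF hFc hR h ((a * N : ℕ) : ZMod b)
  have hfpos : ∀ i, 0 < f i := fun i => (hF _ (hfd i).1).1.pos
  set Pf : ℕ := ∏ i, f i with hPf
  have hPfpos : 0 < Pf := prod_pos (fun i _ => hfpos i)
  let A : Fin l → ℕ := fun i => ∏ j ∈ univ.erase i, f j
  have hA : ∀ i, f i * A i = Pf := fun i => mul_prod_erase univ f (mem_univ i)
  set S : ℕ := ∑ i, d i * A i with hS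
  have hSle : S ≤ l * R * Pf := by
    have h1 : S ≤ ∑ _i : Fin l, R * Pf := by
      apply sum_le_sum
      intro i _
      apply Nat.mul_le_mul (hfd i).2.le
      rw [← hA i]
      exact Nat.le_mul_of_pos_left _ (hfpos i)
    simpa [mul_assoc] using h1
  have hSlt : S < a * N * Pf := lt_of_le_of_lt hSle (Nat.mul_lt_mul_of_pos_right hpos hPfpos)
  have hcast : ((a * N * Pf : ℕ) : ZMod b) = ((S : ℕ) : ZMod b) := by
    rw [Nat.cast_mul, ← hsum, hS, sum_mul, Nat.cast_sum]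
    refine sum_congr rfl fun i _ => ?_
    rw [← hA i]
    push_cast
    have hu : IsUnit ((f i : ℕ) : ZMod b) :=
      (ZMod.isUnit_iff_coprime _ b).2 (hF _ (hfd i).1).2.1
    have h1 := ZMod.inv_mul_of_unit _ hu
    rw [show (d i : ZMod b) * (f i : ZMod b)⁻¹ * ((f i : ZMod b) * ((A i : ℕ) : ZMod b)) =
      (d i : ZMod b) * ((f i : ZMod b)⁻¹ * (f i : ZMod b)) * ((A i : ℕ) : ZMod b) by ring, h1,
      mul_one]
  have hmod : b ∣ a * N * Pf - S := by
    rw [← Nat.modEq_iff_dvd' hSlt.le]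
    exact ((ZMod.natCast_eq_natCast_iff _ _ _).1 hcast).symm
  obtain ⟨M, hM⟩ := hmod
  have hM' : a * N * Pf = S + b * M := by omega
  have hMle : M ≤ R * Pf := by
    have h1 : b * M ≤ b * (R * Pf) := by
      calc b * M ≤ a * N * Pf := by omega
        _ ≤ R * b * Pf := Nat.mul_le_mul_right _ hab
        _ = b * (R * Pf) := by ring
    exact Nat.le_of_mul_le_mul_left h1 hb
  have hrad := egy_radix hN hk (List.ofFn f) (by
    intro g hg
    obtain ⟨i, rfl⟩ := (List.mem_ofFn' f g).1 hg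
    exact ⟨hfpos i, (hF _ (hfd i).1).2.2.trans hFR⟩) M (by
    rw [List.prod_ofFn]; exact hMle)
  rw [List.prod_ofFn, List.length_ofFn, ← hPf] at hrad
  have hfirst : Egy ((univ : Finset (Fin l)).card * k)
      (∑ i : Fin l, ((d i : ℚ) / N) / ((b * f i : ℕ) : ℚ)) := by
    apply Egy.finset_sum
    intro i _
    exact (hk (d i) (hfd i).2.le).div (Nat.mul_pos hb (hfpos i))
  rw [card_univ, Fintype.card_fin] at hfirst
  have htot := hfirst.add hrad
  have hnum : l * k + (l + 1) * k = (2 * l + 1) * k := by ring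
  rw [hnum] at htot
  convert htot using 1
  have hb' : (b : ℚ) ≠ 0 := by positivity
  have hN' : (N : ℚ) ≠ 0 := by positivity
  have hPf' : (Pf : ℚ) ≠ 0 := by positivity
  have h1 : ∑ i : Fin l, ((d i : ℚ) / N) / ((b * f i : ℕ) : ℚ) = (S : ℚ) / (b * N * Pf) := by
    rw [hS]
    push_cast
    rw [sum_div]
    refine sum_congr rfl fun i _ => ?_
    have hfi : (f i : ℚ) ≠ 0 := by
      have := hfpos i
      positivity
    have hAi : (A i : ℚ) ≠ 0 := by
      have : 0 < A i := prod_pos (fun j _ => hfpos j)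
      positivity
    have h2 : (Pf : ℚ) = f i * A i := by
      rw [← hA i]; push_cast; rfl
    rw [h2]
    field_simp
  rw [h1]
  have h2 : (a : ℚ) * N * Pf = S + b * M := by exact_mod_cast hM'
  push_cast
  field_simp
  linarith

end Crest.Agent.S0025
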