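import Mathlib
import Crest.Agent.S0025_T2
import Crest.Agent.S0025_Main

set_option autoImplicit false

namespace Crest.Agent.S0025

open Finset Filter

theorem num_core {y f c lg : ℕ} (hc : c ≤ 2 ^ (180 * y)) (hlg : lg ≤ 180 * y)
    (hf : f ≤ 2 ^ y) (hf2 : 2 ^ y ≤ 2 * y * f) (hy : 0 < y) (hbig : 131044 * y ^ 4 ≤ 2 ^ y) :
    c * (f * 2 ^ y + lg * 4 ^ y) ^ 360 ≤ (f * 4 ^ y) ^ 360 := by
  have h4 : (4 : ℕ) ^ y = 2 ^ y * 2 ^ y := by rw [← mul_pow]; norm_num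
  set Z := f * 2 ^ y + lg * 4 ^ y with hZ
  set X := f * 4 ^ y with hX
  have hZle : Z ≤ 181 * y * 4 ^ y := by
    have h1 : f * 2 ^ y ≤ 1 * 4 ^ y := by
      rw [h4, one_mul]
      exact Nat.mul_le_mul_right _ hf
    have h2 : lg * 4 ^ y ≤ 180 * y * 4 ^ y := Nat.mul_le_mul_right _ hlg
    have h3 : 1 * 4 ^ y ≤ y * 4 ^ y := Nat.mul_le_mul_right _ hy
    calc Z ≤ y * 4 ^ y + 180 * y * 4 ^ y := Nat.add_le_add (h1.trans h3) h2
      _ = 181 * y * 4 ^ y := by ring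
  have hXge : 2 ^ y * 4 ^ y ≤ X * (2 * y) := by
    calc 2 ^ y * 4 ^ y ≤ 2 * y * f * 4 ^ y := Nat.mul_le_mul_right _ hf2
      _ = X * (2 * y) := by rw [hX]; ring
  have hkey : 2 ^ y * Z ^ 2 ≤ X ^ 2 := by
    have h5 : (2 ^ y * Z ^ 2) * (2 * y) ^ 2 ≤ X ^ 2 * (2 * y) ^ 2 := by
      calc (2 ^ y * Z ^ 2) * (2 * y) ^ 2 ≤ (2 ^ y * (181 * y * 4 ^ y) ^ 2) * (2 * y) ^ 2 := by
            gcongr
        _ = (131044 * y ^ 4) * (2 ^ y * (4 ^ y) ^ 2) := by ring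
        _ ≤ 2 ^ y * (2 ^ y * (4 ^ y) ^ 2) := Nat.mul_le_mul_right _ hbig
        _ = (2 ^ y * 4 ^ y) ^ 2 := by ring
        _ ≤ (X * (2 * y)) ^ 2 := Nat.pow_le_pow_left hXge 2
        _ = X ^ 2 * (2 * y) ^ 2 := by ring
    exact Nat.le_of_mul_le_mul_right h5 (by positivity)
  calc c * Z ^ 360 ≤ 2 ^ (180 * y) * Z ^ 360 := Nat.mul_le_mul_right _ hc
    _ = (2 ^ y * Z ^ 2) ^ 180 := by
        rw [mul_pow, ← pow_mul, ← pow_mul, mul_comm y 180]
    _ ≤ (X ^ 2) ^ 180 := Nat.pow_le_pow_left hkey 180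
    _ = X ^ 360 := by rw [← pow_mul]

theorem core : ∃ C : ℝ, ∃ y0 : ℕ, ∀ y : ℕ, y0 ≤ y → ∃ k : ℕ, (k : ℝ) ≤ C * Real.log y ∧
    ∀ a c : ℕ, 0 < a → a ^ 2 ≤ c → 2 ^ (90 * y) ≤ c → c ≤ 2 ^ (180 * y) →
      Egy (721 * k) ((a : ℚ) / c) := by
  classical
  obtain ⟨C, hC⟩ := exists_param
  refine ⟨C, ?_⟩
  have hev := (hC.and ((eventually_poly_le_two_pow 131044 4).and
    (eventually_ge_atTop (1 : ℕ))))
  obtain ⟨y0, hy0⟩ := eventually_atTop.1 hev
  refine ⟨y0, fun y hy => ?_⟩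
  obtain ⟨⟨N, k, hN, hNle, hNge, hk, hall⟩, hbig, hy1⟩ := hy0 y hy
  refine ⟨k, hk, fun a c ha hac hc1 hc2 => ?_⟩
  have hc0 : 0 < c := lt_of_lt_of_le (by positivity) hc1
  have hlg : Nat.log 2 c ≤ 180 * y := by
    calc Nat.log 2 c ≤ Nat.log 2 (2 ^ (180 * y)) := Nat.log_mono_right hc2
      _ = 180 * y := Nat.log_pow (by norm_num) _
  set F := (Nat.primesLE (2 ^ y)).filter (fun p => Nat.Coprime p c) with hF
  have hFle : F.card ≤ 2 ^ y := by
    calc F.card ≤ (Nat.primesLE (2 ^ y)).card := card_filter_le _ _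
      _ = Nat.primeCounting (2 ^ y) := Nat.primesLE_card_eq_primeCounting _
      _ ≤ 2 ^ y := primeCounting_le_self _
  have hFge : Nat.primeCounting (2 ^ y) ≤ F.card + 180 * y := by
    rw [← Nat.primesLE_card_eq_primeCounting, ← card_filter_add_card_filter_not
      (s := Nat.primesLE (2 ^ y)) (fun p => Nat.Coprime p c)]
    apply Nat.add_le_add_left
    refine le_trans (card_primes_dvd_le hc0.ne' ?_) hlg
    intro p hp
    rw [mem_filter] at hp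
    have hpp := Nat.prime_of_mem_primesLE hp.1
    refine ⟨hpp, ?_⟩
    by_contra hcon
    exact hp.2 ((Nat.Prime.coprime_iff_not_dvd hpp).2 hcon)
  have hpi := pi_two_pow_nat hy1
  have hF2 : 2 ^ y ≤ 2 * y * F.card := by
    have h1 : y * Nat.primeCounting (2 ^ y) ≤ y * (F.card + 180 * y) :=
      Nat.mul_le_mul_left _ hFge
    have h2 : 1 ≤ y ^ 4 := Nat.one_le_pow _ _ hy1
    have h3 : y ≤ y ^ 4 := Nat.le_self_pow (by norm_num) y
    have h4 : y * y ≤ y ^ 4 := by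
      calc y * y = y ^ 2 := by ring
        _ ≤ y ^ 4 := Nat.pow_le_pow_right hy1 (by norm_num)
    nlinarith
  have hF0 : 0 < F.card := by
    rcases Nat.eq_zero_or_pos F.card with h0 | h0
    · rw [h0, mul_zero] at hF2
      have : 0 < 2 ^ y := by positivity
      omega
    · exact h0
  have h24 : (2 : ℕ) ^ y ≤ 4 ^ y := Nat.pow_le_pow_left (by norm_num) y
  have h4y : 360 < 4 ^ y := by
    have h2 : 1 ≤ y ^ 4 := Nat.one_le_pow _ _ hy1
    omega
  have h16 : (16 : ℕ) ^ y = 4 ^ y * 4 ^ y := by rw [← mul_pow]; norm_num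
  have hmain := egy_T2 (a := a) (b := c) (N := N) (k := k) (R := 4 ^ y) (F0 := 2 ^ y) (l := 360)
    hc0 hN F (by positivity)
    (fun f hf => by
      rw [hF, mem_filter] at hf
      exact ⟨Nat.prime_of_mem_primesLE hf.1, hf.2, Nat.le_of_mem_primesLE hf.1⟩)
    hF0 (by positivity) hall (by omega)
    (by
      have h1 : (a * N) ^ 2 ≤ c ^ 2 := by
        calc (a * N) ^ 2 = a ^ 2 * N ^ 2 := by ring
          _ ≤ c * (2 ^ (45 * y)) ^ 2 := Nat.mul_le_mul hac (Nat.pow_le_pow_left hNle 2)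
          _ = c * 2 ^ (90 * y) := by rw [← pow_mul]; congr 2; ring
          _ ≤ c * c := Nat.mul_le_mul_left _ hc1
          _ = c ^ 2 := by ring
      have h2 : a * N ≤ c := (Nat.pow_le_pow_iff_left (by norm_num)).1 h1
      exact h2.trans (Nat.le_mul_of_pos_left _ (by positivity)))
    (by
      calc 360 * 4 ^ y < 4 ^ y * 4 ^ y := Nat.mul_lt_mul_of_pos_right h4y (by positivity)
        _ ≤ N := by rw [← h16]; exact hNge
        _ ≤ a * N := Nat.le_mul_of_pos_left _ ha)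
    (by
      have := num_core hc2 hlg hFle hF2 hy1 hbig
      exact_mod_cast this)
  exact hmain

end Crest.Agent.S0025
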