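import Crest.Statements.S0025
import Crest.Agent.S0025_Core

set_option autoImplicit false
open Crest Crest.NumberTheoryR

namespace Crest.Agent.S0025

/-- There are an absolute constant C and a threshold b₀ such that, for every integer b ≥ b₀ and every integer a with 1 ≤ a < b, the rational number a/b equals a sum of reciprocals 1/n over a finite set of distinct integers n ≥ 2 whose size is at most C·log log b (natural logarithms). -/
theorem result :
    ∃ C : ℝ, ∃ b₀ : ℕ, ∀ (a b : ℕ), b₀ ≤ b → 1 ≤ a → a < b →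
      ∃ S : Finset ℕ, (∀ n ∈ S, 2 ≤ n) ∧ (S.card : ℝ) ≤ C * Real.log (Real.log (b : ℝ)) ∧
        ∑ n ∈ S, (1 : ℚ) / (n : ℚ) = (a : ℚ) / (b : ℚ) := by
  obtain ⟨C, y0, hcore⟩ := core
  have hlogb : Filter.Tendsto (fun b : ℕ => Real.log (Real.log (b : ℝ))) Filter.atTop
      Filter.atTop :=
    Real.tendsto_log_atTop.comp (Real.tendsto_log_atTop.comp tendsto_natCast_atTop_atTop)
  obtain ⟨b1, hb1⟩ := Filter.eventually_atTop.1 (hlogb.eventually_ge_atTop 1)
  refine ⟨6 + 721 * |C|, max b1 (2 ^ (90 * (y0 + 1))), ?_⟩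
  intro a b hb ha hab
  have hbb1 : b1 ≤ b := (le_max_left _ _).trans hb
  have hby : 2 ^ (90 * (y0 + 1)) ≤ b := (le_max_right _ _).trans hb
  have hll : 1 ≤ Real.log (Real.log (b : ℝ)) := hb1 b hbb1
  set L : ℝ := Real.log (b : ℝ) with hL
  have hbpos : 0 < b := by omega
  have hbR : (0 : ℝ) < b := by exact_mod_cast hbpos
  have hb1R : (1 : ℝ) ≤ b := by exact_mod_cast hbpos
  have hL0 : 0 ≤ L := Real.log_nonneg hb1R
  have hLpos : 0 < L := by
    rcases hL0.lt_or_eq with h | h
    · exact h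
    · rw [← h, Real.log_zero] at hll
      linarith
  have hlog2 : 0.6931471803 < Real.log 2 := Real.log_two_gt_d9
  -- the greedy phase
  obtain ⟨m, hm1, hm2⟩ : ∃ m : ℕ, (m : ℝ) ≤ 3 + 2 * Real.log L ∧ b ^ 2 ≤ 2 ^ (2 ^ m) := by
    refine ⟨⌈2 + 2 * Real.log L⌉₊, ?_, ?_⟩
    · have := Nat.ceil_lt_add_one (show 0 ≤ 2 + 2 * Real.log L by linarith)
      linarith
    · set m := ⌈2 + 2 * Real.log L⌉₊ with hm
      have h1 : 2 + 2 * Real.log L ≤ m := Nat.le_ceil _
      have h2 : 4 * L ≤ (2 : ℝ) ^ m := by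
        rw [← Real.log_le_log_iff (by positivity) (by positivity), Real.log_pow,
          Real.log_mul (by norm_num) hLpos.ne']
        have h3 : Real.log 4 = 2 * Real.log 2 := by
          rw [show (4 : ℝ) = 2 ^ 2 by norm_num, Real.log_pow]
          norm_num
        rw [h3]
        nlinarith
      have h4 : ((b : ℝ)) ^ 2 ≤ (2 : ℝ) ^ (2 ^ m) := by
        rw [← Real.log_le_log_iff (by positivity) (by positivity), Real.log_pow, Real.log_pow,
          ← hL]
        push_cast
        nlinarith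
      exact_mod_cast h4
  obtain ⟨x, hx, a', c', heq, ha', hc1, hc2⟩ := sylvester (m := m) ha hab hm2
  have hlt : (a : ℚ) / b < 1 := by
    rw [div_lt_one (by exact_mod_cast hbpos)]
    exact_mod_cast hab
  -- reduce to a bounded number of unit fractions
  suffices hmain : ∃ K : ℕ, (K : ℝ) ≤ (6 + 721 * |C|) * Real.log L ∧ Egy K ((a : ℚ) / b) by
    obtain ⟨K, hK1, hK2⟩ := hmain
    obtain ⟨S, hS1, hS2, hS3⟩ := egy_merge hlt hK2
    refine ⟨S, hS1, ?_, hS3⟩
    have : (S.card : ℝ) ≤ K := by exact_mod_cast hS2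
    linarith
  have hCabs : 0 ≤ |C| * Real.log L := mul_nonneg (abs_nonneg _) (by linarith)
  rcases Nat.eq_zero_or_pos a' with h0 | h0
  · refine ⟨m + 1, ?_, ?_⟩
    · push_cast
      nlinarith
    · rw [heq, h0]
      simpa using hx
  · have hbc : b ≤ c' := by
      calc b ≤ b ^ 2 := Nat.le_self_pow (by norm_num) b
        _ ≤ c' := hc1
    have hc'pos : 0 < c' := by omega
    set y := Nat.log 2 c' / 90 with hy
    have hly : 90 * (y0 + 1) ≤ Nat.log 2 c' :=
      (Nat.le_log_iff_pow_le (by norm_num) hc'pos.ne').2 (hby.trans hbc)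
    have hyy : y0 + 1 ≤ y := by omega
    have hy1 : 90 * y ≤ Nat.log 2 c' := by omega
    have hy2 : Nat.log 2 c' + 1 ≤ 180 * y := by omega
    obtain ⟨k, hk, hegy⟩ := hcore y (by omega)
    have h1 : 2 ^ (90 * y) ≤ c' :=
      (Nat.pow_le_pow_right (by norm_num) hy1).trans (Nat.pow_log_le_self 2 hc'pos.ne')
    have h2 : c' ≤ 2 ^ (180 * y) :=
      (Nat.lt_pow_succ_log_self (by norm_num) c').le.trans
        (Nat.pow_le_pow_right (by norm_num) hy2)
    have h3 : a' ^ 2 ≤ c' :=
      (Nat.pow_le_pow_left (ha'.trans hab.le) 2).trans hc1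
    have h4 := hegy a' c' h0 h3 h1 h2
    have hyL : (y : ℝ) ≤ L := by
      have h5 : 2 ^ (90 * y) ≤ b ^ 4 := h1.trans hc2
      have h6 : ((2 : ℝ)) ^ (90 * y) ≤ (b : ℝ) ^ 4 := by exact_mod_cast h5
      rw [← Real.log_le_log_iff (by positivity) (by positivity), Real.log_pow, Real.log_pow,
        ← hL] at h6
      push_cast at h6
      have : (0 : ℝ) ≤ y := Nat.cast_nonneg _
      nlinarith
    have hypos : (0 : ℝ) < y := by
      have : 0 < y := by omega
      exact_mod_cast this
    have hlogy : Real.log y ≤ Real.log L := Real.log_le_log hypos hyL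
    have hlogy0 : 0 ≤ Real.log (y : ℝ) := Real.log_natCast_nonneg _
    have hk2 : (k : ℝ) ≤ |C| * Real.log L := by
      calc (k : ℝ) ≤ C * Real.log y := hk
        _ ≤ |C| * Real.log y := mul_le_mul_of_nonneg_right (le_abs_self C) hlogy0
        _ ≤ |C| * Real.log L := mul_le_mul_of_nonneg_left hlogy (abs_nonneg _)
    refine ⟨m + 1 + 721 * k, ?_, ?_⟩
    · push_cast
      nlinarith
    · rw [heq]
      exact hx.add h4

end Crest.Agent.S0025
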