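import Crest.Agent.VW_Num

/-! # Task VW-Final: digits, and the statement S0086 -/

set_option autoImplicit false

namespace Crest.Agent.VW

/-- Digits in base `N₀`: `χ n = (F (n / N₀^t))_{t < ℓ}`. -/
theorem digits {k N₀ : ℕ} (hN₀ : 2 ≤ N₀) (F : ℕ → Bool)
    (hF : ∀ a d, ¬ N₀ ∣ d → ∃ i < k, F (a + i * d) ≠ F a) (ℓ : ℕ) :
    ∀ a d, 0 < d → d < N₀ ^ ℓ → ∃ i < k, ∃ t < ℓ, F ((a + i * d) / N₀ ^ t) ≠ F (a / N₀ ^ t) := by
  intro a d hd hdl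
  obtain ⟨t, d', hd', hdt⟩ := Nat.exists_eq_pow_mul_and_not_dvd hd.ne' N₀ (by omega)
  have hpos : 0 < N₀ ^ t := pow_pos (by omega) t
  obtain ⟨i, hi, hne⟩ := hF (a / N₀ ^ t) d' hd'
  refine ⟨i, hi, t, ?_, ?_⟩
  · by_contra hle
    push Not at hle
    have h1 : N₀ ^ ℓ ≤ N₀ ^ t := Nat.pow_le_pow_right (by omega) hle
    have h2 : N₀ ^ t ≤ d := Nat.le_of_dvd hd ⟨d', hdt⟩
    omega
  · have h3 : (a + i * d) / N₀ ^ t = a / N₀ ^ t + i * d' := by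
      have h4 : a + i * d = a + N₀ ^ t * (i * d') := by rw [hdt]; ring
      rw [h4, Nat.add_mul_div_left _ _ hpos]
    rw [h3]
    exact hne

theorem final :
    ∃ K₀ : ℕ, ∀ k : ℕ, K₀ ≤ k → ∀ r : ℕ, 2 ≤ r → ∀ N : ℕ,
      (N : ℝ) ≤ (k : ℝ) ^ ((k * Nat.log 2 r : ℕ) / (100000 : ℝ)) →
      ∃ χ : ℕ → Fin r, ∀ a d : ℕ, 1 ≤ a → 1 ≤ d → a + (k - 1) * d ≤ N →
        ∃ i, i < k ∧ χ (a + i * d) ≠ χ a := by
  obtain ⟨K₀, hK₀⟩ := exists_num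
  refine ⟨K₀, fun k hk r hr N hN => ?_⟩
  obtain ⟨D, L, e, h₀, h₁, h₂, q, hn, hpow⟩ := hK₀ k hk
  obtain ⟨N₀, F, hN₀, hF⟩ := core hn
  have hk2 : 2 ≤ k := by
    have h1 := hn.h0
    have h2 := hn.hH0
    omega
  have hL : 1 ≤ L := by
    rcases Nat.eq_zero_or_pos L with h | h
    · have := hn.hLk
      rw [h] at this
      omega
    · exact h
  have hLD : 1 ≤ L * D := Nat.mul_pos hL hn.hD
  have hN₀2 : 2 ≤ N₀ := by
    calc 2 = 2 ^ 1 := (pow_one 2).symm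
      _ ≤ 2 ^ (L * D) := Nat.pow_le_pow_right (by norm_num) hLD
      _ ≤ N₀ := hN₀
  set ℓ := Nat.log 2 r with hℓ
  have hle : N ≤ N₀ ^ ℓ := by
    have h1 : (k : ℝ) ^ ((k * ℓ : ℕ) / (100000 : ℝ)) = ((k : ℝ) ^ ((k : ℝ) / 100000)) ^ ℓ := by
      rw [← Real.rpow_natCast, ← Real.rpow_mul (Nat.cast_nonneg k)]
      congr 1
      push_cast
      ring
    rw [h1] at hN
    have h2 : ((k : ℝ) ^ ((k : ℝ) / 100000)) ^ ℓ ≤ ((N₀ : ℝ)) ^ ℓ := by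
      apply pow_le_pow_left₀ (Real.rpow_nonneg (Nat.cast_nonneg k) _)
      refine hpow.trans ?_
      exact_mod_cast hN₀
    exact_mod_cast hN.trans h2
  have hcard : Fintype.card (Fin ℓ → Bool) ≤ Fintype.card (Fin r) := by
    simp only [Fintype.card_pi, Fintype.card_bool, Finset.prod_const, Finset.card_univ,
      Fintype.card_fin]
    exact Nat.pow_log_le_self 2 (by omega)
  obtain ⟨emb⟩ := Function.Embedding.nonempty_of_card_le hcard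
  refine ⟨fun n => emb (fun t => F (n / N₀ ^ (t : ℕ))), ?_⟩
  intro a d ha hd had
  have hdN : d < N₀ ^ ℓ := by
    have h1 : d ≤ (k - 1) * d := Nat.le_mul_of_pos_left d (by omega)
    omega
  obtain ⟨i, hi, t, ht, hne⟩ := digits hN₀2 F hF ℓ a d hd hdN
  refine ⟨i, hi, fun heq => hne ?_⟩
  have h1 := emb.injective heq
  exact congrFun h1 ⟨t, ht⟩

end Crest.Agent.VW
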