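import Crest.Statements.S0154
import Crest.Agent.KLF_Core
import Crest.Agent.KLF_AP
import Crest.Agent.KLF_FA
import Crest.Agent.KLF_Prop
import Crest.Agent.KLF_Block

set_option autoImplicit false
open Crest Crest.AnalysisR

namespace Crest.Agent.S0154

/-- There is a countable pointed metric space P, unbounded, not proper, with distinct points at distance ≥ 1, whose (real) free space FreeSpace P (completion of the finitely supported molecules ∑ aₓ δₓ under the seminorm: sup of abs (∑ aₓ f x) over real 1-Lipschitz f vanishing at the base point) has the approximation property but not the bounded approximation property: finite-rank bounded operators approximate the identity uniformly on compact sets, but never with a common norm bound. -/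
theorem result :
    ∃ P : Crest.AnalysisR.PointedMetric, P.IsCountableSeparatedUnboundedNonproper ∧
      Crest.AnalysisR.HasAP P.FreeSpace ∧ ¬ Crest.AnalysisR.HasBAP P.FreeSpace := by
  classical
  choose Bs hBs using fun N : ℕ => KLF.exists_block (N + 1) (Nat.succ_le_succ (Nat.zero_le N))
  refine ⟨KLF.PM Bs, KLF.PM_prop Bs, KLF.hasAP_PM Bs, fun hB => ?_⟩
  obtain ⟨lam, hlam0, hlam⟩ := KLF.exists_of_hasBAP (KLF.PM Bs) hB
  obtain ⟨N, hN⟩ := exists_nat_ge lam
  obtain ⟨f, F, hF, hLip, hE⟩ := hlam (Finset.univ.image fun e : ((Bs N).S 0).X => KLF.pt Bs N 0 e)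
  refine KLF.core Bs N f F hF (fun x y => (hLip x y).trans ?_) (fun e => hE _ ?_)
  · have h1 : lam ≤ ((Bs N).lam : ℝ) := by
      rw [hBs N]; push_cast; linarith
    have h2 : 0 ≤ KLF.ptDist Bs x y := by
      have := (KLF.ptMetric Bs).dist_comm x y
      letI := KLF.ptMetric Bs
      exact dist_nonneg (x := x) (y := y)
    exact mul_le_mul_of_nonneg_right h1 h2
  · exact Finset.mem_image_of_mem _ (Finset.mem_univ e)

end Crest.Agent.S0154
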