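import Crest.Agent.S0170_Defs

set_option autoImplicit false

open Crest.AnalysisR.BoxFlow

namespace Crest.Agent.S0170

namespace Geom

variable {n : ℕ}

/-- the diagonal configuration -/
noncomputable def PP (a h c w : Fin n → Fin 3 → ℚ) : Fin n → (Fin 3 → ℝ) → (Fin 3 → ℝ) :=
  fun i => place (a i) (h i) (c i) (w i)

/-- combinatorial move -/
def Move (w : Fin n → Fin 3 → ℚ) (c c' : Fin n → Fin 3 → ℚ) : Prop :=
  ∃ (i₀ : Fin n) (l : Fin 3) (t : ℚ),
    c' = Function.update c i₀ (Function.update (c i₀) l t) ∧
    ∀ i, i ≠ i₀ → (∃ j, j ≠ l ∧ w i j + w i₀ j < |c i j - c i₀ j|) ∨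
      (c i l + w i l < min (c i₀ l) t - w i₀ l) ∨ (max (c i₀ l) t + w i₀ l < c i l - w i l)

theorem Move.symm {w c c' : Fin n → Fin 3 → ℚ} (h : Move w c c') : Move w c' c := by
  obtain ⟨i₀, l, t, rfl, h⟩ := h
  refine ⟨i₀, l, c i₀ l, ?_, ?_⟩
  · simp
  · intro i hi
    have := h i hi
    simp only [Function.update_of_ne hi, Function.update_self]
    rcases this with ⟨j, hj, hj'⟩ | h1 | h1
    · left
      exact ⟨j, hj, by rwa [Function.update_of_ne hj]⟩
    · right; left
      rwa [min_comm]
    · right; right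
      rwa [max_comm]

theorem place_mem {a h b k : Fin 3 → ℚ} (hh : ∀ j, 0 < h j) (hk : ∀ j, 0 < k j) {x : Fin 3 → ℝ}
    (hx : x ∈ box a h) : place a h b k x ∈ box b k := by
  intro j
  have h1 := hx j
  have hh' : (0:ℝ) < h j := by exact_mod_cast hh j
  have hk' : (0:ℝ) < k j := by exact_mod_cast hk j
  simp only [place, add_sub_cancel_left, abs_mul]
  push_cast
  rw [abs_of_pos (div_pos hk' hh')]
  calc (k j : ℝ) / h j * |x j - a j| ≤ (k j : ℝ) / h j * h j := by gcongr
    _ = k j := by field_simp

theorem continuous_place (a h b k : Fin 3 → ℚ) : Continuous (place a h b k) := by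
  unfold place
  fun_prop

theorem Move.elem {a h : Fin n → Fin 3 → ℚ} (hh : ∀ i j, 0 < h i j)
    {w c c' : Fin n → Fin 3 → ℚ} (hw : ∀ i j, 0 < w i j) (hm : Move w c c') :
    Elem a h (PP a h c w) (PP a h c' w) := by
  obtain ⟨i₀, l, t, rfl, hm⟩ := hm
  refine ⟨fun i => continuous_place _ _ _ _, fun i => continuous_place _ _ _ _, ?_⟩
  refine ⟨i₀, l, l + 1, t - c i₀ l, 0, 0, Function.update (c i₀) l ((c i₀ l + t) / 2),
    Function.update (w i₀) l (w i₀ l + |t - c i₀ l| / 2), ?_, ?_, ?_, ?_, ?_⟩
  · intro h; fin_cases l <;> simp at h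
  · intro j
    by_cases hj : j = l
    · subst hj
      rw [Function.update_self]
      have := hw i₀ j
      have := abs_nonneg (t - c i₀ j)
      linarith
    · rw [Function.update_of_ne hj]
      exact hw i₀ j
  · intro x hx
    have h1 := place_mem (b := c i₀) (hh i₀) (hw i₀) hx
    have key : (((w i₀ l : ℚ) + |t - c i₀ l| / 2 : ℚ) : ℝ) = (w i₀ l : ℝ) + |(t:ℝ) - (c i₀ l : ℝ)| / 2 := by
      push_cast; ring
    constructor
    · intro j
      by_cases hj : j = l
      · subst hj
        rw [Function.update_self, Function.update_self, key]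
        have h2 := h1 j
        simp only [PP]
        push_cast
        rw [abs_le] at h2 ⊢
        constructor
        · have := neg_abs_le ((t:ℝ) - (c i₀ j : ℝ))
          have := le_abs_self ((t:ℝ) - (c i₀ j : ℝ))
          linarith [h2.1]
        · have := neg_abs_le ((t:ℝ) - (c i₀ j : ℝ))
          have := le_abs_self ((t:ℝ) - (c i₀ j : ℝ))
          linarith [h2.2]
      · rw [Function.update_of_ne hj, Function.update_of_ne hj]
        exact h1 j
    · have h1' := place_mem (b := Function.update (c i₀) l t) (hh i₀) (hw i₀) hx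
      intro j
      by_cases hj : j = l
      · subst hj
        rw [Function.update_self, Function.update_self, key]
        have h2 := h1' j
        rw [Function.update_self] at h2
        simp only [PP, Function.update_self]
        push_cast
        rw [abs_le] at h2 ⊢
        constructor
        · have := neg_abs_le ((t:ℝ) - (c i₀ j : ℝ))
          have := le_abs_self ((t:ℝ) - (c i₀ j : ℝ))
          linarith [h2.1]
        · have := neg_abs_le ((t:ℝ) - (c i₀ j : ℝ))
          have := le_abs_self ((t:ℝ) - (c i₀ j : ℝ))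
          linarith [h2.2]
      · rw [Function.update_of_ne hj, Function.update_of_ne hj]
        have h2 := h1' j
        rw [Function.update_of_ne hj] at h2
        simp only [PP, Function.update_self]
        exact h2
  · intro x
    ext j
    simp only [PP, Function.update_self, place, Pi.add_apply, Pi.smul_apply, smul_eq_mul]
    by_cases hj : j = l
    · subst hj
      simp
      ring
    · rw [Function.update_of_ne hj, Pi.single_eq_of_ne hj]
      ring
  · intro i hi
    refine ⟨by simp only [PP, Function.update_of_ne hi], ?_⟩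
    rw [Set.disjoint_left]
    rintro _ ⟨x, hx, rfl⟩ hy
    have h1 : place (a i) (h i) (c i) (w i) x ∈ box (c i) (w i) := place_mem (hh i) (hw i) hx
    change place (a i) (h i) (c i) (w i) x ∈ _ at hy
    generalize place (a i) (h i) (c i) (w i) x = y at h1 hy
    rcases hm i hi with ⟨j, hj, hj'⟩ | h2 | h2
    · have e1 := h1 j
      have e2 := hy j
      rw [Function.update_of_ne hj, Function.update_of_ne hj] at e2
      have e3 : ((w i j + w i₀ j : ℚ) : ℝ) < ((|c i j - c i₀ j| : ℚ) : ℝ) := by exact_mod_cast hj'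
      push_cast at e3
      have e4 : |(c i j : ℝ) - c i₀ j| ≤ |y j - c i j| + |y j - c i₀ j| := by
        rw [abs_sub_comm (y j) (c i j)]
        exact abs_sub_le _ _ _
      linarith
    · have e1 := h1 l
      have e2 := hy l
      rw [Function.update_self, Function.update_self] at e2
      have e3 : ((c i l + w i l : ℚ) : ℝ) < ((min (c i₀ l) t - w i₀ l : ℚ) : ℝ) := by
        exact_mod_cast h2
      push_cast at e3 e2
      rw [abs_le] at e1 e2
      have e5 : min (c i₀ l : ℝ) t = (c i₀ l + t) / 2 - |(t:ℝ) - c i₀ l| / 2 := by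
        rcases le_total (c i₀ l : ℝ) t with h | h
        · rw [min_eq_left h, abs_of_nonneg (by linarith)]; ring
        · rw [min_eq_right h, abs_of_nonpos (by linarith)]; ring
      rw [e5] at e3
      linarith [e1.2, e2.1]
    · have e1 := h1 l
      have e2 := hy l
      rw [Function.update_self, Function.update_self] at e2
      have e3 : ((max (c i₀ l) t + w i₀ l : ℚ) : ℝ) < ((c i l - w i l : ℚ) : ℝ) := by
        exact_mod_cast h2
      push_cast at e3 e2
      rw [abs_le] at e1 e2
      have e5 : max (c i₀ l : ℝ) t = (c i₀ l + t) / 2 + |(t:ℝ) - c i₀ l| / 2 := by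
        rcases le_total (c i₀ l : ℝ) t with h | h
        · rw [max_eq_right h, abs_of_nonneg (by linarith)]; ring
        · rw [max_eq_left h, abs_of_nonpos (by linarith)]; ring
      rw [e5] at e3
      linarith [e1.1, e2.2]

/-- moves can change all coordinates other than a separating one -/
theorem free (w c c' : Fin n → Fin 3 → ℚ) (j₀ : Fin 3) (hagree : ∀ i, c' i j₀ = c i j₀)
    (hsep : ∀ i i', i ≠ i' → w i j₀ + w i' j₀ < |c i j₀ - c i' j₀|) :
    Relation.ReflTransGen (Move w) c c' := by
  classical
  have key : ∀ T : Finset (Fin n × Fin 3), Relation.ReflTransGen (Move w) c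
      (fun i j => if (i, j) ∈ T then c' i j else c i j) := by
    intro T
    induction T using Finset.induction_on with
    | empty => simpa using Relation.ReflTransGen.refl
    | insert p T hp ih =>
      obtain ⟨i₀, l⟩ := p
      set d : Fin n → Fin 3 → ℚ := fun i j => if (i, j) ∈ T then c' i j else c i j
      have hd : ∀ i, d i j₀ = c i j₀ := by
        intro i; simp only [d]; split_ifs
        · exact hagree i
        · rfl
      have hupd : (fun i j => if (i, j) ∈ insert (i₀, l) T then c' i j else c i j)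
          = Function.update d i₀ (Function.update (d i₀) l (c' i₀ l)) := by
        ext i j
        by_cases hi : i = i₀
        · subst hi
          rw [Function.update_self]
          by_cases hj : j = l
          · subst hj
            rw [Function.update_self]; simp
          · rw [Function.update_of_ne hj]
            simp [d, hj]
        · rw [Function.update_of_ne hi]
          simp [d, hi]
      rw [hupd]
      by_cases hl : l = j₀
      · have : Function.update d i₀ (Function.update (d i₀) l (c' i₀ l)) = d := by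
          have h1 : c' i₀ l = d i₀ l := by rw [hl, hd, hagree]
          rw [h1]; simp
        rw [this]
        exact ih
      · refine ih.tail ⟨i₀, l, c' i₀ l, rfl, fun i hi => Or.inl ⟨j₀, fun h => hl h.symm, ?_⟩⟩
        rw [hd, hd]
        exact hsep i i₀ hi
  have := key Finset.univ
  simpa using this

/-- spreading the boxes in the first coordinate direction -/
theorem spread (w c : Fin n → Fin 3 → ℚ) (hw : ∀ i j, 0 < w i j)
    (hsep : ∀ i i', i ≠ i' → ∃ j, w i j + w i' j < |c i j - c i' j|) :
    ∃ c', Relation.ReflTransGen (Move w) c c' ∧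
      ∀ i i', i ≠ i' → w i 0 + w i' 0 < |c' i 0 - c' i' 0| := by
  classical
  set f : Fin n → ℚ := fun i => c i 0 + w i 0
  set σ : Equiv.Perm (Fin n) := Tuple.sort f
  have hσ : Monotone (f ∘ σ) := Tuple.monotone_sort f
  obtain ⟨L, hL⟩ : ∃ L : ℚ, ∀ p : Fin n × Fin n, c p.1 0 + w p.1 0 + w p.2 0 < L := by
    obtain ⟨M, hM⟩ := (Set.finite_range
      (fun p : Fin n × Fin n => c p.1 0 + w p.1 0 + w p.2 0)).bddAbove
    exact ⟨M + 1, fun p => lt_of_le_of_lt (hM ⟨p, rfl⟩) (by linarith)⟩
  obtain ⟨L1, hL1⟩ : ∃ L : ℚ, ∀ p : Fin n × Fin n, w p.1 0 + w p.2 0 < L := by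
    obtain ⟨M, hM⟩ := (Set.finite_range (fun p : Fin n × Fin n => w p.1 0 + w p.2 0)).bddAbove
    exact ⟨M + 1, fun p => lt_of_le_of_lt (hM ⟨p, rfl⟩) (by linarith)⟩
  set X : ℚ := max L (max L1 1)
  have hX0 : 0 < X := lt_of_lt_of_le one_pos ((le_max_right _ _).trans (le_max_right _ _))
  have hXa : ∀ i i', c i 0 + w i 0 + w i' 0 < X := fun i i' =>
    lt_of_lt_of_le (hL (i, i')) (le_max_left _ _)
  have hXb : ∀ i i', w i 0 + w i' 0 < X := fun i i' =>
    lt_of_lt_of_le (hL1 (i, i')) ((le_max_left _ _).trans (le_max_right _ _))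
  -- rank
  set rk : Fin n → ℕ := fun i => (σ.symm i : ℕ)
  set d : ℕ → Fin n → Fin 3 → ℚ := fun m i =>
    if m ≤ rk i then Function.update (c i) 0 (((rk i : ℚ) + 1) * X) else c i
  have hrk : ∀ i, rk i < n := fun i => (σ.symm i).2
  have hrkinj : ∀ i i', rk i = rk i' → i = i' := by
    intro i i' h
    exact σ.symm.injective (Fin.ext h)
  have hstep : ∀ m, m < n → Move w (d (m + 1)) (d m) := by
    intro m hm
    set i₀ : Fin n := σ ⟨m, hm⟩
    have hr0 : rk i₀ = m := by simp [rk, i₀]
    have hd0 : d (m + 1) i₀ = c i₀ := by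
      simp only [d, hr0]
      rw [if_neg (by omega)]
    refine ⟨i₀, 0, ((m : ℚ) + 1) * X, ?_, ?_⟩
    · ext i j
      by_cases hi : i = i₀
      · subst hi
        rw [Function.update_self, hd0]
        simp only [d, hr0, le_refl, if_true]
      · rw [Function.update_of_ne hi]
        have : rk i ≠ m := by
          intro h
          exact hi (hrkinj _ _ (h.trans hr0.symm))
        simp only [d]
        by_cases h : m ≤ rk i
        · rw [if_pos h, if_pos (by omega)]
        · rw [if_neg h, if_neg (by omega)]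
    · intro i hi
      rw [hd0]
      have hne : rk i ≠ m := by
        intro h
        exact hi (hrkinj _ _ (h.trans hr0.symm))
      rcases lt_or_gt_of_ne hne with hlt | hgt
      · have hdi : d (m + 1) i = c i := by
          simp only [d]; rw [if_neg (by omega)]
        rw [hdi]
        obtain ⟨j, hj⟩ := hsep i i₀ hi
        by_cases hj0 : j = 0
        · subst hj0
          right; left
          have hmono : f i ≤ f i₀ := by
            have h1 : σ.symm i ≤ ⟨m, hm⟩ := by
              rw [Fin.le_def]; exact le_of_lt hlt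
            have h2 := hσ h1
            simpa [i₀] using h2
          simp only [f] at hmono
          have hwi := hw i 0
          have hwi0 := hw i₀ 0
          have h3 : c i₀ 0 ≤ ((m : ℚ) + 1) * X := by
            have h4 := hXa i₀ i₀
            have h5 : X ≤ ((m : ℚ) + 1) * X := by
              have : (0:ℚ) ≤ (m : ℚ) * X := by positivity
              linarith
            linarith
          rw [min_eq_left h3]
          rcases le_total (c i 0) (c i₀ 0) with h | h
          · rw [abs_of_nonpos (by linarith)] at hj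
            linarith
          · rw [abs_of_nonneg (by linarith)] at hj
            linarith
        · left
          exact ⟨j, hj0, hj⟩
      · have hdi : d (m + 1) i = Function.update (c i) 0 (((rk i : ℚ) + 1) * X) := by
          simp only [d]; rw [if_pos (by omega)]
        rw [hdi, Function.update_self]
        right; right
        have h1 : ((m : ℚ) + 1 + 1) * X ≤ ((rk i : ℚ) + 1) * X := by
          have : (m : ℚ) + 1 ≤ rk i := by exact_mod_cast hgt
          have : (m : ℚ) + 1 + 1 ≤ rk i + 1 := by linarith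
          exact mul_le_mul_of_nonneg_right this hX0.le
        have h2 := hXb i i₀
        have h3 := hXa i₀ i
        have h4 : max (c i₀ 0) (((m : ℚ) + 1) * X) ≤ ((m : ℚ) + 1) * X := by
          refine max_le ?_ le_rfl
          have h5 : X ≤ ((m : ℚ) + 1) * X := by
            have : (0:ℚ) ≤ (m : ℚ) * X := by positivity
            linarith
          linarith [hw i₀ 0, hw i 0]
        linarith
  have hall : ∀ m, m ≤ n → Relation.ReflTransGen (Move w) (d n) (d (n - m)) := by
    intro m
    induction m with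
    | zero => intro _; exact Relation.ReflTransGen.refl
    | succ m ih =>
      intro hm
      have h1 := ih (by omega)
      have h2 := hstep (n - (m + 1)) (by omega)
      have h3 : n - (m + 1) + 1 = n - m := by omega
      rw [h3] at h2
      exact h1.tail h2
  have hdn : d n = c := by
    ext i j
    simp only [d]
    rw [if_neg (by have := hrk i; omega)]
  refine ⟨d 0, ?_, ?_⟩
  · have := hall n le_rfl
    rwa [hdn, Nat.sub_self] at this
  · intro i i' hii
    have e1 : d 0 i 0 = ((rk i : ℚ) + 1) * X := by simp [d]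
    have e2 : d 0 i' 0 = ((rk i' : ℚ) + 1) * X := by simp [d]
    rw [e1, e2]
    have h1 : rk i ≠ rk i' := fun h => hii (hrkinj _ _ h)
    have h2 : ((rk i : ℚ) + 1) * X - ((rk i' : ℚ) + 1) * X = ((rk i : ℚ) - rk i') * X := by ring
    rw [h2, abs_mul, abs_of_pos hX0]
    have h3 : (1:ℚ) ≤ |(rk i : ℚ) - rk i'| := by
      rcases lt_or_gt_of_ne h1 with h | h
      · have : (rk i : ℚ) + 1 ≤ rk i' := by exact_mod_cast h
        rw [abs_of_nonpos (by linarith)]; linarith
      · have : (rk i' : ℚ) + 1 ≤ rk i := by exact_mod_cast h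
        rw [abs_of_nonneg (by linarith)]; linarith
    calc w i 0 + w i' 0 < X := hXb i i'
      _ = 1 * X := (one_mul _).symm
      _ ≤ _ := by gcongr

/-- the parking configuration -/
def park (L : ℚ) : Fin n → Fin 3 → ℚ := fun i => ![(i : ℚ) * L, (i : ℚ) * L, 0]

theorem park_sep (w : Fin n → Fin 3 → ℚ) (j : Fin 3) (L : ℚ) (hL : ∀ i i', w i j + w i' j < L)
    (i i' : Fin n) (hii : i ≠ i') : w i j + w i' j < |(i : ℚ) * L - (i' : ℚ) * L| ∨ L ≤ 0 := by
  by_cases h0 : L ≤ 0
  · exact Or.inr h0
  left
  rw [not_le] at h0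
  have h2 : (i : ℚ) * L - (i' : ℚ) * L = ((i : ℚ) - i') * L := by ring
  rw [h2, abs_mul, abs_of_pos h0]
  have h1 : (i : ℕ) ≠ i' := fun h => hii (Fin.ext h)
  have h3 : (1:ℚ) ≤ |((i : ℕ) : ℚ) - (i' : ℕ)| := by
    rcases lt_or_gt_of_ne h1 with h | h
    · have : ((i : ℕ) : ℚ) + 1 ≤ (i' : ℕ) := by exact_mod_cast h
      rw [abs_of_nonpos (by linarith)]; linarith
    · have : ((i' : ℕ) : ℚ) + 1 ≤ (i : ℕ) := by exact_mod_cast h
      rw [abs_of_nonneg (by linarith)]; linarith
  calc w i j + w i' j < L := hL i i'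
    _ = 1 * L := (one_mul _).symm
    _ ≤ _ := by gcongr

/-- every separated configuration can be parked -/
theorem to_park (w c : Fin n → Fin 3 → ℚ) (hw : ∀ i j, 0 < w i j)
    (hsep : ∀ i i', i ≠ i' → ∃ j, w i j + w i' j < |c i j - c i' j|) (L : ℚ) (hL0 : 0 < L)
    (hL : ∀ i i' j, w i j + w i' j < L) :
    Relation.ReflTransGen (Move w) c (park L) := by
  obtain ⟨c', h1, h2⟩ := spread w c hw hsep
  set c'' : Fin n → Fin 3 → ℚ := fun i => ![c' i 0, (i : ℚ) * L, 0]
  have h3 : Relation.ReflTransGen (Move w) c' c'' := by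
    refine free w c' c'' 0 (fun i => by simp [c'']) h2
  have h4 : Relation.ReflTransGen (Move w) c'' (park L) := by
    refine free w c'' (park L) 1 (fun i => by simp [c'', park]) ?_
    intro i i' hii
    have := park_sep w 1 L (fun i i' => hL i i' 1) i i' hii
    rcases this with h | h
    · simpa [c''] using h
    · linarith
  exact (h1.trans h3).trans h4


theorem sep_of_disjoint {c c' w w' : Fin 3 → ℚ} (hw : ∀ j, 0 < w j) (hw' : ∀ j, 0 < w' j)
    (hd : Disjoint (box c w) (box c' w')) : ∃ j, w j + w' j < |c j - c' j| := by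
  by_contra hcon
  push Not at hcon
  rw [Set.disjoint_left] at hd
  refine hd (a := fun j => ((w' j : ℝ) * c j + w j * c' j) / (w j + w' j)) ?_ ?_
  · intro j
    have h1 : (0:ℝ) < w j := by exact_mod_cast hw j
    have h2 : (0:ℝ) < w' j := by exact_mod_cast hw' j
    have h3 : |(c j : ℝ) - c' j| ≤ w j + w' j := by exact_mod_cast hcon j
    have h4 : ((w' j : ℝ) * c j + w j * c' j) / (w j + w' j) - c j
        = (w j / (w j + w' j)) * (c' j - c j) := by
      field_simp; ring
    simp only
    rw [h4, abs_mul, abs_of_pos (by positivity), abs_sub_comm]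
    calc (w j : ℝ) / (w j + w' j) * |(c j : ℝ) - c' j| ≤ (w j : ℝ) / (w j + w' j) * (w j + w' j) := by
          gcongr
      _ = w j := by field_simp
  · intro j
    have h1 : (0:ℝ) < w j := by exact_mod_cast hw j
    have h2 : (0:ℝ) < w' j := by exact_mod_cast hw' j
    have h3 : |(c j : ℝ) - c' j| ≤ w j + w' j := by exact_mod_cast hcon j
    have h4 : ((w' j : ℝ) * c j + w j * c' j) / (w j + w' j) - c' j
        = (w' j / (w j + w' j)) * (c j - c' j) := by
      field_simp; ring
    simp only
    rw [h4, abs_mul, abs_of_pos (by positivity)]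
    calc (w' j : ℝ) / (w j + w' j) * |(c j : ℝ) - c' j| ≤ (w' j : ℝ) / (w j + w' j) * (w j + w' j) := by
          gcongr
      _ = w' j := by field_simp

/-- apply a list of shears (the head is applied last) -/
noncomputable def app : List (Fin 3 × Fin 3 × ℚ) → (Fin 3 → ℝ) → (Fin 3 → ℝ)
  | [], u => u
  | s :: ls, u => app ls u + ((s.2.2 : ℝ) * (app ls u) s.2.1) • (Pi.single s.1 (1 : ℝ))

/-- bound for the shears -/
def NN : List (Fin 3 × Fin 3 × ℚ) → ℚ → ℚ
  | [], w => w
  | s :: ls, w => (1 + |s.2.2|) * NN ls w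

theorem NN_nonneg (ls : List (Fin 3 × Fin 3 × ℚ)) {w : ℚ} (hw : 0 ≤ w) : 0 ≤ NN ls w := by
  induction ls with
  | nil => exact hw
  | cons s ls ih => exact mul_nonneg (by positivity) ih

theorem app_bound (ls : List (Fin 3 × Fin 3 × ℚ)) {w : ℚ} (hw : 0 ≤ w) {u : Fin 3 → ℝ}
    (hu : ∀ j, |u j| ≤ w) (j : Fin 3) : |app ls u j| ≤ (NN ls w : ℝ) := by
  induction ls generalizing j with
  | nil => exact hu j
  | cons s ls ih =>
    have hN : (0:ℝ) ≤ NN ls w := by exact_mod_cast NN_nonneg ls hw
    simp only [app, NN, Pi.add_apply, Pi.smul_apply, smul_eq_mul]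
    push_cast
    have h1 : |(Pi.single s.1 (1:ℝ) : Fin 3 → ℝ) j| ≤ 1 := by
      by_cases h : j = s.1
      · subst h; simp
      · rw [Pi.single_eq_of_ne h]; simp
    calc |app ls u j + (s.2.2 : ℝ) * app ls u s.2.1 * (Pi.single s.1 (1:ℝ) : Fin 3 → ℝ) j|
        ≤ |app ls u j| + |(s.2.2 : ℝ) * app ls u s.2.1 * (Pi.single s.1 (1:ℝ) : Fin 3 → ℝ) j| :=
          abs_add_le _ _
      _ = |app ls u j| + |(s.2.2 : ℝ)| * |app ls u s.2.1| *
            |(Pi.single s.1 (1:ℝ) : Fin 3 → ℝ) j| := by rw [abs_mul, abs_mul]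
      _ ≤ NN ls w + |(s.2.2 : ℝ)| * NN ls w * 1 := by
          gcongr
          · exact ih j
          · exact ih _
      _ = (1 + |(s.2.2 : ℝ)|) * NN ls w := by ring

theorem app_append (l1 l2 : List (Fin 3 × Fin 3 × ℚ)) (u : Fin 3 → ℝ) :
    app (l1 ++ l2) u = app l1 (app l2 u) := by
  induction l1 with
  | nil => rfl
  | cons s l1 ih => simp only [List.cons_append, app, ih]

theorem continuous_app (ls : List (Fin 3 × Fin 3 × ℚ)) : Continuous (app ls) := by
  induction ls with
  | nil => exact continuous_id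
  | cons s ls ih =>
    have h1 : Continuous fun u => (app ls u) s.2.1 := (continuous_apply _).comp ih
    show Continuous fun u => app ls u + ((s.2.2 : ℝ) * (app ls u) s.2.1) • (Pi.single s.1 (1 : ℝ))
    exact ih.add ((continuous_const.mul h1).smul continuous_const)

theorem reshape {a h : Fin n → Fin 3 → ℚ} (F : Fin n → (Fin 3 → ℝ) → (Fin 3 → ℝ))
    (hF : ∀ i, Continuous (F i)) (i₀ : Fin n) (c : Fin 3 → ℚ) (W w : ℚ) (hw : 0 ≤ w) (hW : 0 < W)
    (hi₀ : F i₀ = fun x => (fun j => (c j : ℝ)) + (x - fun j => (a i₀ j : ℝ)))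
    (hbox : ∀ j, h i₀ j ≤ w)
    (hdisj : ∀ i, i ≠ i₀ → Disjoint (F i '' box (a i) (h i)) (box c (fun _ => W)))
    (ls : List (Fin 3 × Fin 3 × ℚ)) (hls : ∀ s ∈ ls, s.1 ≠ s.2.1) (hN : NN ls w ≤ W) :
    Relation.ReflTransGen (Elem a h) F
      (Function.update F i₀ (fun x => (fun j => (c j : ℝ)) + app ls (x - fun j => (a i₀ j : ℝ)))) := by
  induction ls with
  | nil =>
    have : Function.update F i₀
        (fun x => (fun j => (c j : ℝ)) + app [] (x - fun j => (a i₀ j : ℝ))) = F := by
      simp only [app]
      rw [← hi₀, Function.update_eq_self]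
    rw [this]
  | cons s ls ih =>
    have hN0 := NN_nonneg ls hw
    have hN1 : NN ls w ≤ NN (s :: ls) w := by
      simp only [NN]
      have : 0 ≤ |s.2.2| * NN ls w := mul_nonneg (abs_nonneg _) hN0
      linarith
    have ih' := ih (fun s hs => hls s (List.mem_cons_of_mem _ hs)) (hN1.trans hN)
    refine ih'.tail ?_
    have hcont : ∀ ls', Continuous
        (fun x : Fin 3 → ℝ => (fun j => (c j : ℝ)) + app ls' (x - fun j => (a i₀ j : ℝ))) := by
      intro ls'
      exact continuous_const.add ((continuous_app ls').comp (continuous_id.sub continuous_const))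
    have hcont' : ∀ ls' i, Continuous (Function.update F i₀
        (fun x : Fin 3 → ℝ => (fun j => (c j : ℝ)) + app ls' (x - fun j => (a i₀ j : ℝ))) i) := by
      intro ls' i
      by_cases hi : i = i₀
      · subst hi; rw [Function.update_self]; exact hcont ls'
      · rw [Function.update_of_ne hi]; exact hF i
    have hmem : ∀ ls', NN ls' w ≤ W → ∀ x ∈ box (a i₀) (h i₀),
        (fun j => (c j : ℝ)) + app ls' (x - fun j => (a i₀ j : ℝ)) ∈ box c (fun _ => W) := by
      intro ls' hN' x hx j
      simp only [Pi.add_apply, add_sub_cancel_left]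
      refine (app_bound ls' hw ?_ j).trans (by exact_mod_cast hN')
      intro j
      simp only [Pi.sub_apply]
      exact (hx j).trans (by exact_mod_cast hbox j)
    refine ⟨hcont' ls, hcont' (s :: ls), i₀, s.1, s.2.1, 0, s.2.2, c s.2.1, c, fun _ => W,
      hls s (List.mem_cons_self ..), fun _ => hW, ?_, ?_, ?_⟩
    · intro x hx
      rw [Function.update_self, Function.update_self]
      exact ⟨hmem ls (hN1.trans hN) x hx, hmem (s :: ls) hN x hx⟩
    · intro x
      rw [Function.update_self, Function.update_self]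
      simp only [app, Pi.add_apply, add_sub_cancel_left, Rat.cast_zero, zero_add]
      rw [add_assoc]
    · intro i hi
      rw [Function.update_of_ne hi, Function.update_of_ne hi]
      exact ⟨rfl, hdisj i hi⟩

/-- four shears giving a diagonal map in the plane `(p, q)` -/
def dl (p q : Fin 3) (r : ℚ) : List (Fin 3 × Fin 3 × ℚ) :=
  [(p, q, r - 1), (q, p, 1), (p, q, 1 / r - 1), (q, p, -r)]

theorem app_dl01 {r : ℚ} (hr : 0 < r) (u : Fin 3 → ℝ) :
    app (dl 0 1 r) u = ![(r : ℝ) * u 0, u 1 / r, u 2] := by
  have hr' : (r : ℝ) ≠ 0 := by exact_mod_cast hr.ne'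
  ext j
  fin_cases j
  · simp [app, dl]; field_simp; ring
  · simp [app, dl]; field_simp; ring
  · simp [app, dl]

theorem app_dl12 {r : ℚ} (hr : 0 < r) (u : Fin 3 → ℝ) :
    app (dl 1 2 r) u = ![u 0, (r : ℝ) * u 1, u 2 / r] := by
  have hr' : (r : ℝ) ≠ 0 := by exact_mod_cast hr.ne'
  ext j
  fin_cases j
  · simp [app, dl]
  · simp [app, dl]; field_simp; ring
  · simp [app, dl]; field_simp; ring

/-- the reshaping list -/
def rl (h k : Fin 3 → ℚ) : List (Fin 3 × Fin 3 × ℚ) :=
  dl 1 2 ((k 0 / h 0) * (k 1 / h 1)) ++ dl 0 1 (k 0 / h 0)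

theorem rl_ne (h k : Fin 3 → ℚ) : ∀ s ∈ rl h k, s.1 ≠ s.2.1 := by
  intro s hs
  simp only [rl, dl, List.cons_append, List.nil_append, List.mem_cons, List.not_mem_nil,
    or_false] at hs
  rcases hs with rfl | rfl | rfl | rfl | rfl | rfl | rfl | rfl <;> simp

theorem app_rl (a h c k : Fin 3 → ℚ) (hh : ∀ j, 0 < h j) (hk : ∀ j, 0 < k j)
    (hvol : ∏ j : Fin 3, k j / h j = 1) (x : Fin 3 → ℝ) :
    (fun j => (c j : ℝ)) + app (rl h k) (x - fun j => (a j : ℝ)) = place a h c k x := by
  have hp0 : 0 < k 0 / h 0 := div_pos (hk 0) (hh 0)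
  have hp1 : 0 < k 1 / h 1 := div_pos (hk 1) (hh 1)
  rw [rl, app_append, app_dl01 hp0, app_dl12 (mul_pos hp0 hp1)]
  rw [Fin.prod_univ_three] at hvol
  have hvol' : (k 0 / h 0 : ℝ) * (k 1 / h 1) * (k 2 / h 2) = 1 := by exact_mod_cast hvol
  have k0 : (0:ℝ) < k 0 := by exact_mod_cast hk 0
  have k1 : (0:ℝ) < k 1 := by exact_mod_cast hk 1
  have k2 : (0:ℝ) < k 2 := by exact_mod_cast hk 2
  have h0 : (0:ℝ) < h 0 := by exact_mod_cast hh 0
  have h1 : (0:ℝ) < h 1 := by exact_mod_cast hh 1
  have h2 : (0:ℝ) < h 2 := by exact_mod_cast hh 2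
  ext j
  fin_cases j
  · simp [place]
  · simp [place]
    field_simp
  · simp [place]
    have h3 : (k 2 / h 2 : ℝ) = 1 / ((k 0 / h 0 : ℝ) * (k 1 / h 1)) := by
      rw [eq_div_iff (by positivity)]; linarith
    rw [h3]
    ring


theorem reshape_all (a h k : Fin n → Fin 3 → ℚ) (hh : ∀ i j, 0 < h i j) (hk : ∀ i j, 0 < k i j)
    (hvol : ∀ i, ∏ j : Fin 3, k i j / h i j = 1) (W L : ℚ) (hW : 0 < W)
    (hhW : ∀ i j, h i j ≤ W) (hkW : ∀ i j, k i j ≤ W)
    (hN : ∀ i, NN (rl (h i) (k i)) (∑ j, h i j) ≤ W) (hL : 2 * W < L) :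
    Relation.ReflTransGen (Elem a h) (PP a h (park L) h) (PP a h (park L) k) := by
  classical
  have key : ∀ T : Finset (Fin n), Relation.ReflTransGen (Elem a h) (PP a h (park L) h)
      (fun i => if i ∈ T then place (a i) (h i) (park L i) (k i)
        else place (a i) (h i) (park L i) (h i)) := by
    intro T
    induction T using Finset.induction_on with
    | empty =>
      have : (fun i => if i ∈ (∅ : Finset (Fin n)) then place (a i) (h i) (park L i) (k i)
        else place (a i) (h i) (park L i) (h i)) = PP a h (park L) h := by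
        ext i : 1
        simp [PP]
      rw [this]
    | insert i₀ T hi₀ ih =>
      refine ih.trans ?_
      have h1 := reshape (a := a) (h := h) (fun i => if i ∈ T then place (a i) (h i) (park L i) (k i)
        else place (a i) (h i) (park L i) (h i)) ?_ i₀ (park L i₀) W (∑ j, h i₀ j)
        (Finset.sum_nonneg fun j _ => (hh i₀ j).le) hW ?_ ?_ ?_ (rl (h i₀) (k i₀)) (rl_ne _ _) (hN i₀)
      · convert h1 using 1
        ext i : 1
        by_cases hi : i = i₀
        · subst hi
          rw [Function.update_self]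
          simp only [Finset.mem_insert_self, if_true]
          ext x : 1
          exact (app_rl (a i) (h i) (park L i) (k i) (hh i) (hk i) (hvol i) x).symm
        · rw [Function.update_of_ne hi]
          simp [hi]
      · intro i
        split_ifs <;> exact continuous_place _ _ _ _
      · simp only [hi₀, if_false]
        ext x j
        have : (h i₀ j / h i₀ j : ℚ) = 1 := div_self (hh i₀ j).ne'
        simp only [place, this, Pi.add_apply, Pi.sub_apply]
        simp
      · intro j
        exact Finset.single_le_sum (f := fun j => h i₀ j) (fun j _ => (hh i₀ j).le)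
          (Finset.mem_univ j)
      · intro i hi
        rw [Set.disjoint_left]
        rintro _ ⟨x, hx, rfl⟩ hy
        have h2 : (if i ∈ T then place (a i) (h i) (park L i) (k i)
            else place (a i) (h i) (park L i) (h i)) x ∈ box (park L i) (fun _ => W) := by
          split_ifs
          · intro j
            exact (place_mem (hh i) (hk i) hx j).trans (by exact_mod_cast hkW i j)
          · intro j
            exact (place_mem (hh i) (hh i) hx j).trans (by exact_mod_cast hhW i j)
        generalize (if i ∈ T then place (a i) (h i) (park L i) (k i)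
            else place (a i) (h i) (park L i) (h i)) x = y at h2 hy
        have e1 := h2 0
        have e2 := hy 0
        have e3 := park_sep (n := n) (fun _ _ => W) 0 L (fun _ _ => by linarith) i i₀ hi
        rcases e3 with e3 | e3
        · have e4 : (((fun (_ : Fin n) (_ : Fin 3) => W) i 0 + (fun (_ : Fin n) (_ : Fin 3) => W) i₀ 0
            : ℚ) : ℝ) < ((|(i : ℚ) * L - (i₀ : ℚ) * L| : ℚ) : ℝ) := by exact_mod_cast e3
          push_cast at e4
          simp only [park, Matrix.cons_val_zero] at e1 e2
          push_cast at e1 e2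
          have e5 : |(i : ℝ) * L - i₀ * L| ≤ |y 0 - i * L| + |y 0 - i₀ * L| := by
            rw [abs_sub_comm (y 0) (i * L)]
            exact abs_sub_le _ _ _
          linarith
        · linarith
  have := key Finset.univ
  have h2 : (fun i => if i ∈ (Finset.univ : Finset (Fin n)) then
      place (a i) (h i) (park L i) (k i)
        else place (a i) (h i) (park L i) (h i)) = PP a h (park L) k := by
    ext i : 1
    simp [PP]
  rwa [h2] at this

end Geom

open Geom in
theorem chain {n : ℕ} (a b h k : Fin n → Fin 3 → ℚ)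
    (hh : ∀ i j, 0 < h i j) (hk : ∀ i j, 0 < k i j)
    (ha : Pairwise fun i i' => Disjoint (box (a i) (h i)) (box (a i') (h i')))
    (hb : Pairwise fun i i' => Disjoint (box (b i) (k i)) (box (b i') (k i')))
    (hvol : ∀ i, ∏ j : Fin 3, k i j / h i j = 1) :
    Relation.ReflTransGen (Elem a h) (fun _ x => x) (fun i => place (a i) (h i) (b i) (k i)) := by
  obtain ⟨W1, hW1⟩ := (Set.finite_range (fun p : Fin n × Fin 3 => h p.1 p.2)).bddAbove
  obtain ⟨W2, hW2⟩ := (Set.finite_range (fun p : Fin n × Fin 3 => k p.1 p.2)).bddAbove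
  obtain ⟨W3, hW3⟩ := (Set.finite_range
    (fun i : Fin n => NN (rl (h i) (k i)) (∑ j, h i j))).bddAbove
  set W : ℚ := max (max W1 W2) (max W3 1)
  have hW : 0 < W := lt_of_lt_of_le one_pos ((le_max_right _ _).trans (le_max_right _ _))
  have hhW : ∀ i j, h i j ≤ W := fun i j =>
    (hW1 ⟨(i, j), rfl⟩).trans ((le_max_left _ _).trans (le_max_left _ _))
  have hkW : ∀ i j, k i j ≤ W := fun i j =>
    (hW2 ⟨(i, j), rfl⟩).trans ((le_max_right _ _).trans (le_max_left _ _))
  have hN : ∀ i, NN (rl (h i) (k i)) (∑ j, h i j) ≤ W := fun i =>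
    (hW3 ⟨i, rfl⟩).trans ((le_max_left _ _).trans (le_max_right _ _))
  set L : ℚ := 2 * W + 1
  have hL0 : 0 < L := by simp only [L]; linarith
  have e1 : Relation.ReflTransGen (Move h) a (park L) :=
    to_park h a hh (fun i i' hii => sep_of_disjoint (hh i) (hh i') (ha hii)) L hL0
      (fun i i' j => by simp only [L]; linarith [hhW i j, hhW i' j])
  have e2 : Relation.ReflTransGen (Move k) b (park L) :=
    to_park k b hk (fun i i' hii => sep_of_disjoint (hk i) (hk i') (hb hii)) L hL0
      (fun i i' j => by simp only [L]; linarith [hkW i j, hkW i' j])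
  have e2' : Relation.ReflTransGen (Move k) (park L) b := by
    have hs : Std.Symm (Move k) := ⟨fun _ _ => Move.symm⟩
    exact (Relation.ReflTransGen.stdSymm (r := Move k)).symm _ _ e2
  have f1 : Relation.ReflTransGen (Elem a h) (PP a h a h) (PP a h (park L) h) :=
    Relation.ReflTransGen.lift (fun c => PP a h c h) (fun c c' hm => Move.elem hh hh hm) _ _ e1
  have f2 : Relation.ReflTransGen (Elem a h) (PP a h (park L) k) (PP a h b k) :=
    Relation.ReflTransGen.lift (fun c => PP a h c k) (fun c c' hm => Move.elem hh hk hm) _ _ e2'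
  have f3 := reshape_all a h k hh hk hvol W L hW hhW hkW hN (by simp only [L]; linarith)
  have f0 : (fun (_ : Fin n) (x : Fin 3 → ℝ) => x) = PP a h a h := by
    ext i x j
    have : (h i j / h i j : ℚ) = 1 := div_self (hh i j).ne'
    simp only [PP, place, this]
    simp
  rw [f0]
  exact (f1.trans f3).trans f2

end Crest.Agent.S0170
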