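import Crest.Agent.S0170_Defs

open scoped ContDiff Topology NNReal
open Crest.AnalysisR.BoxFlow

namespace Crest.Agent.S0170

/-- Global flow of a smooth compactly supported time-dependent field which vanishes outside the
time interval `[1/4, 3/4]`. -/
theorem exists_flow (U : Field) (hU : ContDiff ℝ ∞ U) (hc : HasCompactSupport U)
    (hz : ∀ p : ℝ × (Fin 3 → ℝ), p.1 ∉ Set.Icc (1 / 4 : ℝ) (3 / 4) → U p = 0) :
    ∃ Φ : ℝ → (Fin 3 → ℝ) → (Fin 3 → ℝ), IsFlow U Φ ∧
      ∀ (γ : ℝ → Fin 3 → ℝ), (∀ t, HasDerivAt γ (U (t, γ t)) t) → ∀ t, Φ t (γ 0) = γ t := by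
  obtain ⟨K, hK⟩ : ∃ K, LipschitzWith K U :=
    ContDiff.lipschitzWith_of_hasCompactSupport hc hU (by simp)
  have hKx : ∀ t, LipschitzWith K (fun x => U (t, x)) := by
    intro t
    have h := hK.comp (LipschitzWith.prodMk_left (α := ℝ) (β := Fin 3 → ℝ) t)
    rw [mul_one] at h
    exact h
  obtain ⟨M0, hM0⟩ : ∃ M, ∀ p, ‖U p‖ ≤ M := hc.exists_bound_of_continuous hU.continuous
  have hM0' : 0 ≤ M0 := (norm_nonneg _).trans (hM0 0)
  set M : ℝ≥0 := ⟨M0, hM0'⟩ with hM
  have h0mem : (0 : ℝ) ∈ Set.Icc (-1 : ℝ) 2 := by constructor <;> norm_num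
  have hPL : ∀ x : Fin 3 → ℝ,
      IsPicardLindelof (fun t x => U (t, x)) (⟨0, h0mem⟩ : Set.Icc (-1 : ℝ) 2) x (2 * M) 0 M K := by
    intro x
    refine ⟨fun t _ => (hKx t).lipschitzOnWith, fun y _ => ?_, fun t _ y _ => hM0 _, ?_⟩
    · exact (hU.continuous.comp (by fun_prop : Continuous fun t : ℝ => (t, y))).continuousOn
    · simp only [sub_zero, NNReal.coe_mul, NNReal.coe_ofNat, NNReal.coe_zero]
      rw [max_eq_left (by norm_num)]
      linarith
  -- the solutions on [-1,2]
  have hsol : ∀ x : Fin 3 → ℝ, ∃ α : ℝ → (Fin 3 → ℝ), α 0 = x ∧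
      ∀ t ∈ Set.Icc (-1 : ℝ) 2, HasDerivWithinAt α (U (t, α t)) (Set.Icc (-1 : ℝ) 2) t := by
    intro x
    exact (hPL x).exists_eq_forall_mem_Icc_hasDerivWithinAt₀
  choose α hα0 hα using hsol
  have hαAt : ∀ x t, t ∈ Set.Ioo (-1 : ℝ) 2 → HasDerivAt (α x) (U (t, α x t)) t := by
    intro x t ht
    exact (hα x t (Set.Ioo_subset_Icc_self ht)).hasDerivAt (Icc_mem_nhds ht.1 ht.2)
  have hconst1 : ∀ x, ∀ t ∈ Set.Icc (0 : ℝ) (1 / 4), α x t = x := by
    intro x t ht
    have hd : ∀ s ∈ Set.Ico (0 : ℝ) (1 / 4), HasDerivAt (α x) 0 s := by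
      intro s hs
      have := hαAt x s ⟨by linarith [hs.1], by linarith [hs.2]⟩
      rwa [hz (s, α x s) (by simp only [Set.mem_Icc, not_and_or, not_le]; left; exact hs.2)] at this
    have hd' : ContinuousOn (α x) (Set.Icc 0 (1 / 4)) := by
      intro s hs
      exact (hαAt x s ⟨by linarith [hs.1], by linarith [hs.2]⟩).continuousAt.continuousWithinAt
    have := constant_of_has_deriv_right_zero hd' (fun s hs => (hd s hs).hasDerivWithinAt) t ht
    rw [this, hα0]
  have hconst2 : ∀ x, ∀ t ∈ Set.Icc (3 / 4 : ℝ) 1, α x t = α x 1 := by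
    intro x
    have hd : ∀ s ∈ Set.Ioc (3 / 4 : ℝ) 1, HasDerivAt (α x) 0 s := by
      intro s hs
      have := hαAt x s ⟨by linarith [hs.1], by linarith [hs.2]⟩
      rwa [hz (s, α x s) (by simp only [Set.mem_Icc, not_and_or, not_le]; right; exact hs.1)] at this
    intro t ht
    -- use constancy on the open interval (3/4, 1] via is_const
    have hcont : ContinuousOn (α x) (Set.Icc (3 / 4 : ℝ) 1) := by
      intro s hs
      exact (hαAt x s ⟨by linarith [hs.1], by linarith [hs.2]⟩).continuousAt.continuousWithinAt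
    by_cases hlt : t < 1
    · have hdiff : DifferentiableOn ℝ (α x) (Set.Icc t 1) := by
        intro s hs
        exact (hαAt x s ⟨by linarith [hs.1, ht.1], by linarith [hs.2]⟩).differentiableAt.differentiableWithinAt
      have key : ∀ s ∈ Set.Ioo t 1, HasDerivAt (α x) 0 s := fun s hs =>
        hd s ⟨by linarith [hs.1, ht.1], hs.2.le⟩
      -- mean value inequality
      have hmv := (convex_Icc t 1).norm_image_sub_le_of_norm_hasDerivWithin_le
        (f := α x) (f' := fun s => U (s, α x s)) (C := 0) (s := Set.Icc t 1)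
        (fun s hs => (hαAt x s ⟨by linarith [hs.1, ht.1], by linarith [hs.2]⟩).hasDerivWithinAt)
        (fun s hs => by
          rcases eq_or_lt_of_le (ht.1.trans hs.1) with h34 | h34
          · -- s = 3/4 : U vanishes there by continuity
            have hlim : Filter.Tendsto (fun r : ℝ => U (r, α x s)) (𝓝[>] s) (𝓝 (U (s, α x s))) := by
              have hcts : Continuous fun r : ℝ => U (r, α x s) :=
                hU.continuous.comp (by fun_prop)
              exact (hcts.tendsto s).mono_left nhdsWithin_le_nhds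
            have hlim0 : Filter.Tendsto (fun r : ℝ => U (r, α x s)) (𝓝[>] s) (𝓝 0) := by
              refine tendsto_const_nhds.congr' ?_
              filter_upwards [self_mem_nhdsWithin] with r hr
              rw [hz (r, α x s)]
              simp only [Set.mem_Icc, not_and_or, not_le]
              right
              rw [h34]; exact hr
            rw [tendsto_nhds_unique hlim hlim0]
            simp
          · rw [hz (s, α x s) (by simp only [Set.mem_Icc, not_and_or, not_le]; right; exact h34)]
            simp)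
        (Set.left_mem_Icc.2 hlt.le) (Set.right_mem_Icc.2 hlt.le)
      simp only [zero_mul] at hmv
      have : α x 1 - α x t = 0 := norm_le_zero_iff.1 hmv
      exact (sub_eq_zero.1 this).symm
    · have : t = 1 := le_antisymm ht.2 (not_lt.1 hlt)
      rw [this]
  -- global solution
  set Φ : ℝ → (Fin 3 → ℝ) → (Fin 3 → ℝ) := fun t x => α x (max 0 (min t 1)) with hΦ
  have hΦflow : IsFlow U Φ := by
    refine ⟨fun x => by simp [hΦ, hα0], fun t x => ?_⟩
    rcases lt_or_ge t (1 / 4) with h1 | h1
    · have hev : (fun s => Φ s x) =ᶠ[𝓝 t] fun _ => x := by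
        filter_upwards [Iio_mem_nhds h1] with s hs
        have hs' : s < 1 / 4 := hs
        simp only [hΦ]
        apply hconst1
        constructor
        · exact le_max_left _ _
        · rw [min_eq_left (by linarith)]
          exact max_le (by norm_num) hs'.le
      have h0 : U (t, Φ t x) = 0 := hz _ (by
        simp only [Set.mem_Icc, not_and_or, not_le]; left; exact h1)
      rw [h0]
      exact (hasDerivAt_const t x).congr_of_eventuallyEq hev
    · rcases lt_or_ge (3 / 4) t with h2 | h2
      · have hev : (fun s => Φ s x) =ᶠ[𝓝 t] fun _ => α x 1 := by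
          filter_upwards [Ioi_mem_nhds h2] with s hs
          have hs' : 3 / 4 < s := hs
          simp only [hΦ]
          apply hconst2
          constructor
          · exact le_max_of_le_right (le_min hs'.le (by norm_num))
          · exact max_le (by norm_num) (min_le_right _ _)
        have h0 : U (t, Φ t x) = 0 := hz _ (by
          simp only [Set.mem_Icc, not_and_or, not_le]; right; exact h2)
        rw [h0]
        exact (hasDerivAt_const t _).congr_of_eventuallyEq hev
      · have hev : (fun s => Φ s x) =ᶠ[𝓝 t] α x := by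
          filter_upwards [Ioo_mem_nhds (by linarith : (0:ℝ) < t) (by linarith : t < 1)] with s hs
          simp only [hΦ]
          rw [min_eq_left hs.2.le, max_eq_right hs.1.le]
        have h0 : Φ t x = α x t := hev.self_of_nhds
        rw [h0]
        exact (hαAt x t ⟨by linarith, by linarith⟩).congr_of_eventuallyEq hev
  refine ⟨Φ, hΦflow, fun γ hγ t => ?_⟩
  have huniq := ODE_solution_unique_univ (v := fun t x => U (t, x)) (s := fun _ => Set.univ) (K := K)
    (f := fun s => Φ s (γ 0)) (g := γ) (t₀ := 0)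
    (fun t => (hKx t).lipschitzOnWith) (fun s => ⟨hΦflow.2 s (γ 0), trivial⟩)
    (fun s => ⟨hγ s, trivial⟩) (hΦflow.1 _)
  exact congrFun huniq t

end Crest.Agent.S0170
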