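import Crest.Agent.S0170_Fields
import Crest.Agent.S0170_Flow
/-! Assembly of the proof of S0170 from a smooth step and a chain of elementary moves. -/
open scoped ContDiff Topology
open Crest.AnalysisR.BoxFlow
namespace Crest.Agent.S0170

theorem exists_seq {α : Type*} {r : α → α → Prop} {x y : α} (h : Relation.ReflTransGen r x y) :
    ∃ (M : ℕ) (f : ℕ → α), f 0 = x ∧ f M = y ∧ ∀ m < M, r (f m) (f (m + 1)) := by
  induction h with
  | refl => exact ⟨0, fun _ => x, rfl, rfl, fun m hm => absurd hm (Nat.not_lt_zero _)⟩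
  | tail _ hbc ih =>
    rename_i b c _
    obtain ⟨M, f, h0, hM, hf⟩ := ih
    refine ⟨M + 1, fun m => if m ≤ M then f m else c, ?_, ?_, ?_⟩
    · simp [h0]
    · simp
    · intro m hm
      rcases Nat.lt_succ_iff_lt_or_eq.1 hm with hm' | hm'
      · simp only [hm'.le, if_true, Nat.succ_le_of_lt hm']
        exact hf m hm'
      · subst hm'
        simp only [le_refl, if_true, Nat.not_succ_le_self, if_false]
        rw [hM]; exact hbc

/-- time profile number `m` out of `M` -/
noncomputable def tprof (θ : ℝ → ℝ) (M m : ℕ) (t : ℝ) : ℝ :=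
  θ (((2 * M : ℚ) : ℝ) * t + ((-((M : ℚ) / 2 + m) : ℚ) : ℝ))

theorem tprof_eq (θ : ℝ → ℝ) (M m : ℕ) (t : ℝ) :
    tprof θ M m t = θ (2 * M * t - M / 2 - m) := by
  unfold tprof
  congr 1
  push_cast
  ring

theorem eff1_tprof {θ : ℝ → ℝ} (hθ : Eff1 θ) (M m : ℕ) : Eff1 (tprof θ M m) :=
  hθ.comp_affine _ _

theorem tprof_zero {θ : ℝ → ℝ} (hs : IsStep θ) {M m : ℕ} {t : ℝ}
    (h : 2 * M * t - M / 2 - m ≤ 0) : tprof θ M m t = 0 := by
  rw [tprof_eq]; exact hs.zero _ h

theorem tprof_one {θ : ℝ → ℝ} (hs : IsStep θ) {M m : ℕ} {t : ℝ}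
    (h : 1 ≤ 2 * M * t - M / 2 - m) : tprof θ M m t = 1 := by
  rw [tprof_eq]; exact hs.one _ h

theorem deriv_tprof_zero {θ : ℝ → ℝ} (hs : IsStep θ) {M m : ℕ} {t : ℝ}
    (h : 2 * M * t - M / 2 - m < 0 ∨ 1 < 2 * M * t - M / 2 - m) :
    deriv (tprof θ M m) t = 0 := by
  rcases h with h | h
  · have hev : tprof θ M m =ᶠ[𝓝 t] fun _ => 0 := by
      have : IsOpen {u : ℝ | 2 * M * u - M / 2 - m < 0} := isOpen_lt (by fun_prop) continuous_const
      filter_upwards [this.mem_nhds h] with u hu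
      exact tprof_zero hs (le_of_lt hu)
    rw [hev.deriv_eq]; simp
  · have hev : tprof θ M m =ᶠ[𝓝 t] fun _ => 1 := by
      have : IsOpen {u : ℝ | 1 < 2 * M * u - M / 2 - m} := isOpen_lt continuous_const (by fun_prop)
      filter_upwards [this.mem_nhds h] with u hu
      exact tprof_one hs (le_of_lt hu)
    rw [hev.deriv_eq]; simp

/-- basic field: time function times spatial field -/
noncomputable def bfield (g : ℝ → ℝ) (φ : Fin 3 → ℝ → ℝ) (l1 l2 : Fin 3) : Field :=
  fun p => g p.1 • spX φ l1 l2 p.2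

theorem prodF_cons (g : ℝ → ℝ) (A : Fin 3 → ℝ → ℝ) (p : ℝ × (Fin 3 → ℝ)) :
    prodF (Fin.cons g A) p = g p.1 * ∏ i, A i (p.2 i) := by
  unfold prodF
  rw [Fin.prod_univ_succ]
  simp [coord]

theorem bfield_l1 (g : ℝ → ℝ) (φ : Fin 3 → ℝ → ℝ) (l1 l2 : Fin 3) (p : ℝ × (Fin 3 → ℝ)) :
    bfield g φ l1 l2 p l1 = prodF (Fin.cons g (Function.update φ l2 (deriv (φ l2)))) p := by
  rw [prodF_cons]
  simp [bfield, spX]

theorem bfield_l2 (g : ℝ → ℝ) (φ : Fin 3 → ℝ → ℝ) {l1 l2 : Fin 3} (hl : l1 ≠ l2)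
    (p : ℝ × (Fin 3 → ℝ)) :
    bfield g φ l1 l2 p l2
      = prodF (Fin.cons (fun t => ((-1 : ℚ) : ℝ) * g t) (Function.update φ l1 (deriv (φ l1)))) p := by
  rw [prodF_cons]
  simp [bfield, spX, hl.symm]

theorem bfield_other (g : ℝ → ℝ) (φ : Fin 3 → ℝ → ℝ) {l1 l2 j : Fin 3} (h1 : j ≠ l1) (h2 : j ≠ l2)
    (p : ℝ × (Fin 3 → ℝ)) : bfield g φ l1 l2 p j = 0 := by
  simp [bfield, spX, h1, h2]

theorem effS_bfield {g : ℝ → ℝ} (hg : Eff1 g) {φ : Fin 3 → ℝ → ℝ} (hφ : ∀ j, Eff1 (φ j))
    {l1 l2 : Fin 3} (hl : l1 ≠ l2) (j : Fin 3) : EffS (fun p => bfield g φ l1 l2 p j) := by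
  by_cases h1 : j = l1
  · subst h1
    refine (EffS.prodF (φ := Fin.cons g (Function.update φ l2 (deriv (φ l2)))) ?_).congr
      fun p => (bfield_l1 g φ j l2 p).symm
    intro i
    refine Fin.cases ?_ (fun k => ?_) i
    · simpa using hg
    · simp only [Fin.cons_succ]
      by_cases hk : k = l2
      · subst hk; simpa using (hφ k).deriv
      · simpa [hk] using hφ k
  · by_cases h2 : j = l2
    · subst h2
      refine (EffS.prodF (φ := Fin.cons (fun t => ((-1 : ℚ) : ℝ) * g t)
        (Function.update φ l1 (deriv (φ l1)))) ?_).congr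
        fun p => (bfield_l2 g φ hl p).symm
      intro i
      refine Fin.cases ?_ (fun k => ?_) i
      · simpa using hg.const_mul (-1)
      · simp only [Fin.cons_succ]
        by_cases hk : k = l1
        · subst hk; simpa using (hφ k).deriv
        · simpa [hk] using hφ k
    · exact EffS.zero.congr fun p => (bfield_other g φ h1 h2 p).symm

theorem contDiff_bfield {g : ℝ → ℝ} (hg : Eff1 g) {φ : Fin 3 → ℝ → ℝ} (hφ : ∀ j, Eff1 (φ j))
    {l1 l2 : Fin 3} (hl : l1 ≠ l2) : ContDiff ℝ ∞ (bfield g φ l1 l2) :=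
  contDiff_pi.2 fun j => (effS_bfield hg hφ hl j).contDiff

theorem mixedDerivS_single_cons {g : ℝ → ℝ} {A : Fin 3 → ℝ → ℝ} (hg : ContDiff ℝ ∞ g)
    (hA : ∀ i, ContDiff ℝ ∞ (A i)) (l : Fin 3) (p : ℝ × (Fin 3 → ℝ)) :
    mixedDerivS [l.succ] (prodF (Fin.cons g A)) p
      = g p.1 * ∏ i, Function.update A l (deriv (A l)) i (p.2 i) := by
  rw [mixedDerivS_prodF (by
    intro i
    refine Fin.cases ?_ (fun k => ?_) i
    · simpa using hg
    · simpa using hA k)]
  rw [Fin.prod_univ_succ]
  congr 1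
  apply Finset.prod_congr rfl
  intro i _
  by_cases h : i = l
  · subst h; simp [coord]
  · have : ([l.succ] : List (Fin 4)).count i.succ = 0 := by
      rw [List.count_eq_zero]
      simp [h]
    rw [this]
    simp [h, coord]

theorem spaceDiv_bfield {g : ℝ → ℝ} (hg : Eff1 g) {φ : Fin 3 → ℝ → ℝ} (hφ : ∀ j, Eff1 (φ j))
    {l1 l2 : Fin 3} (hl : l1 ≠ l2) (p : ℝ × (Fin 3 → ℝ)) : spaceDiv (bfield g φ l1 l2) p = 0 := by
  have hsm := contDiff_bfield hg hφ hl
  have hterm : ∀ j : Fin 3, fderiv ℝ (bfield g φ l1 l2) p (0, Pi.single j 1) j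
      = mixedDerivS [j.succ] (fun p => bfield g φ l1 l2 p j) p := by
    intro j
    rw [← mixedDeriv_apply hsm]
    simp [mixedDeriv, direction]
  unfold spaceDiv
  simp only [hterm]
  have hA : ∀ l i, ContDiff ℝ ∞ (Function.update φ l (deriv (φ l)) i) := by
    intro l i
    by_cases h : i = l
    · subst h; simpa using (hφ i).deriv.contDiff
    · simpa [h] using (hφ i).contDiff
  rw [Finset.sum_eq_add l1 l2 hl]
  · have e1 : (fun p => bfield g φ l1 l2 p l1)
        = prodF (Fin.cons g (Function.update φ l2 (deriv (φ l2)))) :=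
      funext fun p => bfield_l1 g φ l1 l2 p
    have e2 : (fun p => bfield g φ l1 l2 p l2)
        = prodF (Fin.cons (fun t => ((-1 : ℚ) : ℝ) * g t) (Function.update φ l1 (deriv (φ l1)))) :=
      funext fun p => bfield_l2 g φ hl p
    rw [e1, e2, mixedDerivS_single_cons hg.contDiff (hA l2),
      mixedDerivS_single_cons (hg.const_mul (-1)).contDiff (hA l1)]
    rw [Function.update_of_ne hl, Function.update_of_ne hl.symm,
      Function.update_comm hl]
    push_cast
    ring
  · intro j _ hj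
    have e3 : (fun p => bfield g φ l1 l2 p j) = fun _ => 0 :=
      funext fun p => bfield_other g φ hj.1 hj.2 p
    rw [e3, mixedDerivS_zero]
  · intro h; exact absurd (Finset.mem_univ _) h
  · intro h; exact absurd (Finset.mem_univ _) h

theorem main_of_step_chain {θ : ℝ → ℝ} (hs : IsStep θ) (hθ : Eff1 θ)
    {n : ℕ} {a h : Fin n → Fin 3 → ℚ} {F' : Fin n → (Fin 3 → ℝ) → (Fin 3 → ℝ)}
    (hchain : Relation.ReflTransGen (Elem a h) (fun _ x => x) F') :
    ∃ (U : Field) (Φ : ℝ → (Fin 3 → ℝ) → (Fin 3 → ℝ)),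
      ContDiff ℝ ∞ U ∧ HasCompactSupport U ∧ Effective U ∧
      (∀ p : ℝ × (Fin 3 → ℝ), p.1 ∉ Set.Icc (1 / 4 : ℝ) (3 / 4) → U p = 0) ∧
      (∀ p : ℝ × (Fin 3 → ℝ), spaceDiv U p = 0) ∧ IsFlow U Φ ∧
      ∀ i : Fin n, ∃ O : Set (Fin 3 → ℝ), IsOpen O ∧ box (a i) (h i) ⊆ O ∧
        ∀ x ∈ O, Φ 1 x = F' i x := by
  obtain ⟨M, F, hF0, hFM, hFs⟩ := exists_seq hchain
  -- data of the steps
  have hdata : ∀ m : ℕ, ∃ (l1 l2 : Fin 3) (φ : Fin 3 → ℝ → ℝ) (R : ℕ), l1 ≠ l2 ∧
      (∀ j, Eff1 (φ j)) ∧ (∀ j, Supp (φ j) R) ∧ (m < M →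
      ∀ i, ∀ᶠ x in 𝓝ˢ (box (a i) (h i)), ∀ s ∈ Set.Icc (0 : ℝ) 1,
        spX φ l1 l2 (F m i x + s • (F (m + 1) i x - F m i x)) = F (m + 1) i x - F m i x) := by
    intro m
    by_cases hm : m < M
    · obtain ⟨l1, l2, φ, R, h1, h2, h3, h4⟩ := exists_field_of_elem hs hθ (hFs m hm)
      exact ⟨l1, l2, φ, R, h1, h2, h3, fun _ => h4⟩
    · exact ⟨0, 1, fun _ _ => 0, 0, by decide, fun _ => Eff1.zero, fun _ _ _ => rfl,
        fun h => absurd h hm⟩
  choose l1 l2 φ R hl hφ hR hlink using hdata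
  set g : ℕ → ℝ → ℝ := fun m => tprof θ M m with hg
  have hgE : ∀ m, Eff1 (deriv (g m)) := fun m => (eff1_tprof hθ M m).deriv
  set V : ℕ → Field := fun m => bfield (deriv (g m)) (φ m) (l1 m) (l2 m) with hV
  set U : Field := fun p => ∑ m ∈ Finset.range M, V m p with hU
  have hVsm : ∀ m, ContDiff ℝ ∞ (V m) := fun m => contDiff_bfield (hgE m) (hφ m) (hl m)
  have hUsm : ContDiff ℝ ∞ U := ContDiff.sum fun m _ => hVsm m
  have htime : ∀ p : ℝ × (Fin 3 → ℝ), p.1 ∉ Set.Icc (1 / 4 : ℝ) (3 / 4) → U p = 0 := by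
    intro p hp
    apply Finset.sum_eq_zero
    intro m hm
    have hmM : m < M := Finset.mem_range.1 hm
    have hmM' : (m : ℝ) + 1 ≤ M := by exact_mod_cast hmM
    have hM0 : (0 : ℝ) < M := by linarith [(Nat.cast_nonneg m : (0 : ℝ) ≤ m)]
    have : deriv (g m) p.1 = 0 := by
      apply deriv_tprof_zero hs
      simp only [Set.mem_Icc, not_and_or, not_le] at hp
      rcases hp with hp | hp
      · left
        have : (M : ℝ) * p.1 < M * (1 / 4) := mul_lt_mul_of_pos_left hp hM0
        nlinarith [(Nat.cast_nonneg m : (0 : ℝ) ≤ m)]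
      · right
        have : (M : ℝ) * (3 / 4) < M * p.1 := mul_lt_mul_of_pos_left hp hM0
        nlinarith
    simp only [hV, bfield, this, zero_smul]
  have hcs : HasCompactSupport U := by
    set Rt : ℕ := max 1 ((Finset.range M).sup R) with hRt
    apply HasCompactSupport.intro (isCompact_closedBall (0 : ℝ × (Fin 3 → ℝ)) (Rt : ℝ))
    intro p hp
    rw [Metric.mem_closedBall, dist_zero_right, Prod.norm_def, max_le_iff, not_and_or] at hp
    rcases hp with hp | hp
    · apply htime
      intro hcon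
      apply hp
      rw [Real.norm_eq_abs, abs_le]
      have : (1 : ℝ) ≤ Rt := by exact_mod_cast le_max_left _ _
      constructor <;> linarith [hcon.1, hcon.2]
    · rw [pi_norm_le_iff_of_nonneg (by positivity)] at hp
      push Not at hp
      obtain ⟨j, hj⟩ := hp
      apply Finset.sum_eq_zero
      intro m hm
      have hRm : R m ≤ Rt := (Finset.le_sup (f := R) hm).trans (le_max_right _ _)
      have : spX (φ m) (l1 m) (l2 m) p.2 = 0 := by
        apply spX_eq_zero j
        have hopen : IsOpen {y : ℝ | (Rt : ℝ) < |y|} := isOpen_lt continuous_const continuous_abs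
        filter_upwards [hopen.mem_nhds hj] with y hy
        exact (hR m j).mono hRm y hy
      simp only [hV, bfield, this, smul_zero]
  have heff : Effective U := by
    apply effective_of_components hUsm
    intro j
    refine (EffS.sum (Finset.range M) (f := fun m p => V m p j)
      fun m _ => effS_bfield (hgE m) (hφ m) (hl m) j).congr fun p => ?_
    simp [hU, Finset.sum_apply]
  have hdiv : ∀ p, spaceDiv U p = 0 := by
    intro p
    have hfd : fderiv ℝ U p = ∑ m ∈ Finset.range M, fderiv ℝ (V m) p := by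
      rw [hU]
      exact fderiv_fun_sum fun m _ => (hVsm m).differentiable (by simp) p
    unfold spaceDiv
    rw [hfd]
    simp only [_root_.sum_apply, Finset.sum_apply]
    rw [Finset.sum_comm]
    apply Finset.sum_eq_zero
    intro m _
    exact spaceDiv_bfield (hgE m) (hφ m) (hl m) p
  obtain ⟨Φ, hΦ, huniq⟩ := exists_flow U hUsm hcs htime
  refine ⟨U, Φ, hUsm, hcs, heff, htime, hdiv, hΦ, fun i => ?_⟩
  have hall : ∀ᶠ x in 𝓝ˢ (box (a i) (h i)), ∀ m ∈ Finset.range M, ∀ s ∈ Set.Icc (0 : ℝ) 1,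
      spX (φ m) (l1 m) (l2 m) (F m i x + s • (F (m + 1) i x - F m i x))
        = F (m + 1) i x - F m i x := by
    rw [Filter.eventually_all_finset]
    intro m hm
    exact hlink m (Finset.mem_range.1 hm) i
  obtain ⟨O, hO, hbO, hO'⟩ := mem_nhdsSet_iff_exists.1 hall
  refine ⟨O, hO, hbO, fun x hx => ?_⟩
  have hx' := hO' hx
  simp only [Set.mem_ofPred_eq] at hx'
  set D : ℕ → (Fin 3 → ℝ) := fun m => F (m + 1) i x - F m i x with hD
  set γ : ℝ → (Fin 3 → ℝ) := fun t => x + ∑ m ∈ Finset.range M, g m t • D m with hγ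
  have hF0x : F 0 i x = x := by rw [hF0]
  have hgd : ∀ m t, HasDerivAt (g m) (deriv (g m) t) t := by
    intro m t
    exact ((eff1_tprof hθ M m).contDiff.differentiable (by simp) t).hasDerivAt
  have hγd : ∀ t, HasDerivAt γ (∑ m ∈ Finset.range M, deriv (g m) t • D m) t := by
    intro t
    have h1 : HasDerivAt (fun t => ∑ m ∈ Finset.range M, g m t • D m)
        (∑ m ∈ Finset.range M, deriv (g m) t • D m) t :=
      HasDerivAt.fun_sum fun m _ => (hgd m t).smul_const (D m)
    exact h1.const_add x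
  have hode : ∀ t, HasDerivAt γ (U (t, γ t)) t := by
    intro t
    have : U (t, γ t) = ∑ m ∈ Finset.range M, deriv (g m) t • D m := by
      simp only [hU, hV, bfield]
      apply Finset.sum_congr rfl
      intro m hm
      have hmM : m < M := Finset.mem_range.1 hm
      by_cases hin : 0 ≤ 2 * (M : ℝ) * t - M / 2 - m ∧ 2 * (M : ℝ) * t - M / 2 - m ≤ 1
      · congr 1
        have hγt : γ t = F m i x + g m t • (F (m + 1) i x - F m i x) := by
          simp only [hγ]
          rw [Finset.range_eq_Ico, ← Finset.sum_Ico_consecutive _ (Nat.zero_le m) hmM.le,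
            Finset.sum_eq_sum_Ico_succ_bot hmM]
          have e1 : ∑ j ∈ Finset.Ico 0 m, g j t • D j = F m i x - x := by
            rw [← Finset.range_eq_Ico]
            have : ∀ j ∈ Finset.range m, g j t • D j = F (j + 1) i x - F j i x := by
              intro j hj
              have hjm : j < m := Finset.mem_range.1 hj
              have hjm' : (j : ℝ) + 1 ≤ m := by exact_mod_cast hjm
              have : g j t = 1 := tprof_one hs (by linarith [hin.1])
              rw [this, one_smul]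
            rw [Finset.sum_congr rfl this, Finset.sum_range_sub (fun j => F j i x), hF0x]
          have e2 : ∑ j ∈ Finset.Ico (m + 1) M, g j t • D j = 0 := by
            apply Finset.sum_eq_zero
            intro j hj
            have hjm : m + 1 ≤ j := (Finset.mem_Ico.1 hj).1
            have hjm' : (m : ℝ) + 1 ≤ j := by exact_mod_cast hjm
            have : g j t = 0 := tprof_zero hs (by linarith [hin.2])
            rw [this, zero_smul]
          rw [e1, e2]
          simp only [hD]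
          abel
        rw [hγt]
        exact hx' m hm (g m t) (hs.mem _)
      · have : deriv (g m) t = 0 := by
          apply deriv_tprof_zero hs
          rw [not_and_or, not_le, not_le] at hin
          exact hin
        rw [this, zero_smul, zero_smul]
    rw [this]
    exact hγd t
  have hγ0 : γ 0 = x := by
    simp only [hγ]
    rw [Finset.sum_eq_zero, add_zero]
    intro m hm
    have : g m 0 = 0 := by
      apply tprof_zero hs
      have h1 : (0 : ℝ) ≤ M := Nat.cast_nonneg _
      have h2 : (0 : ℝ) ≤ m := Nat.cast_nonneg _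
      linarith
    rw [this, zero_smul]
  have hγ1 : γ 1 = F M i x := by
    simp only [hγ]
    have : ∀ m ∈ Finset.range M, g m 1 • D m = F (m + 1) i x - F m i x := by
      intro m hm
      have hmM : m < M := Finset.mem_range.1 hm
      have hmM' : (m : ℝ) + 1 ≤ M := by exact_mod_cast hmM
      have : g m 1 = 1 := by
        apply tprof_one hs
        have h1 : (0 : ℝ) ≤ M := Nat.cast_nonneg _
        linarith
      rw [this, one_smul]
    rw [Finset.sum_congr rfl this, Finset.sum_range_sub (fun j => F j i x), hF0x]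
    abel
  have := huniq γ hode 1
  rw [hγ0, hγ1, hFM] at this
  exact this

end Crest.Agent.S0170
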