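import Crest.Agent.S0170_CR
/-! Closure properties of effective one-variable functions. -/
open scoped ContDiff
open Crest.AnalysisR.BoxFlow
namespace Crest.Agent.S0170

theorem Eff1.cr {φ : ℝ → ℝ} (h : Eff1 φ) :
    CR (fun a : ℕ × ℚ => iteratedDeriv a.1 φ (a.2 : ℝ)) := by
  obtain ⟨E, hE, hE'⟩ := h.approx
  refine ⟨fun a N => E (a.1, a.2, N), ?_, fun a N => hE' _ _ _⟩
  exact hE.comp (Computable.pair (Computable.fst.comp Computable.fst)
    (Computable.pair (Computable.snd.comp Computable.fst) Computable.snd))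

theorem Eff1.mk' {φ : ℝ → ℝ} (h : ContDiff ℝ ∞ φ)
    (hc : CR (fun a : ℕ × ℚ => iteratedDeriv a.1 φ (a.2 : ℝ)))
    (hb : ∃ B : ℕ → ℕ, Computable B ∧ ∀ (n : ℕ) (x : ℝ), |iteratedDeriv n φ x| ≤ (B n : ℝ)) :
    Eff1 φ := by
  obtain ⟨F, hF, hF'⟩ := hc
  refine ⟨h, ⟨fun a => F (a.1, a.2.1) a.2.2, ?_, fun n q N => hF' (n, q) N⟩, hb⟩
  exact hF.comp (Computable.pair Computable.fst (Computable.fst.comp Computable.snd))
    (Computable.snd.comp Computable.snd)

theorem Eff1.congr {φ ψ : ℝ → ℝ} (h : Eff1 φ) (e : ∀ x, φ x = ψ x) : Eff1 ψ := by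
  have : φ = ψ := funext e
  exact this ▸ h

theorem Eff1.deriv {φ : ℝ → ℝ} (h : Eff1 φ) : Eff1 (deriv φ) := by
  refine Eff1.mk' ?_ ?_ ?_
  · exact h.contDiff.iterate_deriv 1
  · refine (h.cr.comp (g := fun a : ℕ × ℚ => (a.1 + 1, a.2)) ?_).congr fun a => ?_
    · exact Computable.pair (Computable.succ.comp Computable.fst) Computable.snd
    · simp only
      rw [iteratedDeriv_succ']
  · obtain ⟨B, hB, hB'⟩ := h.bound
    refine ⟨fun n => B (n + 1), hB.comp Computable.succ, fun n x => ?_⟩
    have := hB' (n + 1) x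
    rwa [iteratedDeriv_succ'] at this

theorem Eff1.zero : Eff1 (fun _ => 0) := by
  refine Eff1.mk' contDiff_const ?_ ⟨fun _ => 0, Computable.const 0, fun n x => ?_⟩
  · refine (CR.of_rat (f := fun _ : ℕ × ℚ => 0) (Computable.const 0)).congr fun a => ?_
    simp
  · simp

theorem Eff1.add {φ ψ : ℝ → ℝ} (h : Eff1 φ) (h' : Eff1 ψ) : Eff1 (fun x => φ x + ψ x) := by
  have e : ∀ n x, iteratedDeriv n (fun x => φ x + ψ x) x
      = iteratedDeriv n φ x + iteratedDeriv n ψ x := by
    intro n x
    exact iteratedDeriv_fun_add ((h.contDiff.of_le (by exact_mod_cast le_top)).contDiffAt)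
      ((h'.contDiff.of_le (by exact_mod_cast le_top)).contDiffAt)
  refine Eff1.mk' (h.contDiff.add h'.contDiff) ?_ ?_
  · exact (h.cr.add h'.cr).congr fun a => (e _ _).symm
  · obtain ⟨B, hB, hB'⟩ := h.bound
    obtain ⟨C, hC, hC'⟩ := h'.bound
    refine ⟨fun n => B n + C n, natAdd_comp.comp hB hC, fun n x => ?_⟩
    rw [e]
    push_cast
    exact (abs_add_le _ _).trans (add_le_add (hB' n x) (hC' n x))

theorem Eff1.const_mul {φ : ℝ → ℝ} (h : Eff1 φ) (c : ℚ) : Eff1 (fun x => (c : ℝ) * φ x) := by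
  have e : ∀ n x, iteratedDeriv n (fun x => (c : ℝ) * φ x) x = c * iteratedDeriv n φ x := by
    intro n x
    exact iteratedDeriv_const_mul_field (c : ℝ) φ
  refine Eff1.mk' (contDiff_const.mul h.contDiff) ?_ ?_
  · exact ((CR.of_rat (Computable.const c)).mul h.cr).congr fun a => (e _ _).symm
  · obtain ⟨B, hB, hB'⟩ := h.bound
    refine ⟨fun n => ⌈|c|⌉₊ * B n, natMul_comp.comp (Computable.const _) hB, fun n x => ?_⟩
    rw [e, abs_mul]
    push_cast
    have h1 : |(c : ℝ)| ≤ (⌈|c|⌉₊ : ℝ) := by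
      have := Nat.le_ceil (|c|)
      exact_mod_cast this
    exact mul_le_mul h1 (hB' n x) (abs_nonneg _) (by positivity)

theorem Eff1.sub {φ ψ : ℝ → ℝ} (h : Eff1 φ) (h' : Eff1 ψ) : Eff1 (fun x => φ x - ψ x) :=
  (h.add (h'.const_mul (-1))).congr fun x => by push_cast; ring

theorem Eff1.comp_affine {φ : ℝ → ℝ} (h : Eff1 φ) (α β : ℚ) :
    Eff1 (fun x => φ ((α : ℝ) * x + (β : ℝ))) := by
  have e : ∀ n x, iteratedDeriv n (fun x => φ ((α : ℝ) * x + (β : ℝ))) x
      = (α : ℝ) ^ n * iteratedDeriv n φ (α * x + β) := by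
    intro n
    induction n with
    | zero => intro x; simp
    | succ n ih =>
      intro x
      rw [iteratedDeriv_succ, iteratedDeriv_succ]
      have hfun : (iteratedDeriv n fun x => φ ((α : ℝ) * x + (β : ℝ)))
          = fun x => (α : ℝ) ^ n * iteratedDeriv n φ (α * x + β) := funext ih
      rw [hfun]
      have hd : HasDerivAt (iteratedDeriv n φ) (_root_.deriv (iteratedDeriv n φ) (α * x + β))
          (α * x + β) := by
        apply DifferentiableAt.hasDerivAt
        exact (h.contDiff.differentiable_iteratedDeriv n (by exact_mod_cast ENat.natCast_lt_top n)).differentiableAt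
      have hl : HasDerivAt (fun x : ℝ => (α : ℝ) * x + β) (α : ℝ) x := by
        simpa using ((hasDerivAt_id x).const_mul (α : ℝ)).add_const (β : ℝ)
      have : HasDerivAt (fun x : ℝ => (α : ℝ) ^ n * iteratedDeriv n φ (α * x + β)) _ x :=
        (hd.comp x hl).const_mul ((α : ℝ) ^ n)
      rw [this.deriv]
      ring
  refine Eff1.mk' (h.contDiff.comp (by fun_prop)) ?_ ?_
  · refine ((CR.of_rat (f := fun a : ℕ × ℚ => α ^ a.1) ?_).mul
      (h.cr.comp (g := fun a : ℕ × ℚ => (a.1, α * a.2 + β)) ?_)).congr fun a => ?_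
    · exact T1_pow.comp (Computable.const α) Computable.fst
    · exact Computable.pair Computable.fst
        (T1_add.comp (T1_mul.comp (Computable.const α) Computable.snd) (Computable.const β))
    · rw [e]
      push_cast
      ring
  · obtain ⟨B, hB, hB'⟩ := h.bound
    refine ⟨fun n => ⌈|α ^ n|⌉₊ * B n, ?_, fun n x => ?_⟩
    · exact natMul_comp.comp (T1_natCeilAbs.comp (T1_pow.comp (Computable.const α) Computable.id)) hB
    · rw [e, abs_mul]
      push_cast
      have h1 : |(α : ℝ) ^ n| ≤ (⌈|α ^ n|⌉₊ : ℝ) := by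
        have := Nat.le_ceil (|α ^ n|)
        exact_mod_cast this
      exact mul_le_mul h1 (hB' n _) (abs_nonneg _) (by positivity)

theorem iteratedDeriv_id_mul {φ : ℝ → ℝ} (h : ContDiff ℝ ∞ φ) (n : ℕ) (x : ℝ) :
    iteratedDeriv n (fun x => x * φ x) x
      = x * iteratedDeriv n φ x + n * iteratedDeriv (n - 1) φ x := by
  induction n generalizing x with
  | zero => simp
  | succ n ih =>
    rw [iteratedDeriv_succ]
    have hfun : (iteratedDeriv n fun x => x * φ x)
        = fun x => x * iteratedDeriv n φ x + n * iteratedDeriv (n - 1) φ x := funext ih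
    rw [hfun]
    have hd : ∀ m, HasDerivAt (iteratedDeriv m φ) (iteratedDeriv (m + 1) φ x) x := by
      intro m
      rw [iteratedDeriv_succ]
      apply DifferentiableAt.hasDerivAt
      exact (h.differentiable_iteratedDeriv m (by exact_mod_cast ENat.natCast_lt_top m)).differentiableAt
    have h1 : HasDerivAt (fun x => x * iteratedDeriv n φ x + n * iteratedDeriv (n - 1) φ x) _ x :=
      ((hasDerivAt_id x).mul (hd n)).add ((hd (n - 1)).const_mul (n : ℝ))
    rw [h1.deriv]
    rcases Nat.eq_zero_or_pos n with rfl | hn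
    · simp; ring
    · rw [Nat.sub_add_cancel hn]
      simp only [id, Nat.add_sub_cancel]
      push_cast
      ring

/-- Multiplication by `x` for functions supported in a bounded interval. -/
theorem Eff1.id_mul {φ : ℝ → ℝ} (h : Eff1 φ) (R : ℕ) (hR : ∀ x, (R : ℝ) < |x| → φ x = 0) :
    Eff1 (fun x => x * φ x) := by
  have e := iteratedDeriv_id_mul h.contDiff
  have hz : ∀ n x, (R : ℝ) < |x| → iteratedDeriv n φ x = 0 := by
    intro n x hx
    have hev : φ =ᶠ[nhds x] fun _ => 0 := by
      have : IsOpen {y : ℝ | (R : ℝ) < |y|} := isOpen_lt continuous_const continuous_abs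
      filter_upwards [this.mem_nhds hx] with y hy
      exact hR y hy
    have h2 := (Filter.EventuallyEq.iteratedDeriv_eq n hev)
    rw [h2]
    simp
  refine Eff1.mk' (contDiff_id.mul h.contDiff) ?_ ?_
  · refine (((CR.of_rat (f := fun a : ℕ × ℚ => a.2) Computable.snd).mul h.cr).add
      ((CR.of_rat (f := fun a : ℕ × ℚ => (a.1 : ℚ)) (T1_natCast.comp Computable.fst)).mul
        (h.cr.comp (g := fun a : ℕ × ℚ => (a.1 - 1, a.2)) ?_))).congr fun a => ?_
    · exact Computable.pair (Computable.pred.comp Computable.fst) Computable.snd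
    · rw [e]
      push_cast
      ring
  · obtain ⟨B, hB, hB'⟩ := h.bound
    refine ⟨fun n => R * B n + n * B (n - 1), ?_, fun n x => ?_⟩
    · exact natAdd_comp.comp (natMul_comp.comp (Computable.const R) hB)
        (natMul_comp.comp Computable.id (hB.comp Computable.pred))
    · rw [e]
      push_cast
      have h1 : |x * iteratedDeriv n φ x| ≤ R * B n := by
        rw [abs_mul]
        rcases le_or_gt (|x|) (R : ℝ) with hx | hx
        · exact mul_le_mul hx (hB' n x) (abs_nonneg _) (by positivity)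
        · rw [hz n x hx]
          simp only [abs_zero, mul_zero]
          positivity
      have h2 : |(n : ℝ) * iteratedDeriv (n - 1) φ x| ≤ n * B (n - 1) := by
        rw [abs_mul, Nat.abs_cast]
        exact mul_le_mul_of_nonneg_left (hB' _ _) (by positivity)
      exact (abs_add_le _ _).trans (add_le_add h1 h2)

end Crest.Agent.S0170
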