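import Crest.Agent.S0170_Step2
import Crest.Agent.S0170_Eff1
/-! T2, part 3: the effective smooth step. -/
open scoped ContDiff Topology
open MeasureTheory
namespace Crest.Agent.S0170

variable {α : Type*} [Primcodable α]

theorem natPow_comp : Computable₂ (fun m n : ℕ => m ^ n) :=
  (Primrec₂.unpaired'.1 Nat.Primrec.pow).to_comp

theorem natDiv_comp : Computable₂ (fun m n : ℕ => m / n) := Primrec.nat_div.to_comp
theorem natMod_comp : Computable₂ (fun m n : ℕ => m % n) := Primrec.nat_mod.to_comp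

theorem comp_zz {K : α → ℕ} {c x : α → ℚ} {j m : α → ℕ} (hK : Computable K) (hc : Computable c)
    (hx : Computable x) (hj : Computable j) (hm : Computable m) :
    Computable (fun a => zz (K a) (c a) (x a) (j a) (m a)) := by
  unfold zz
  refine Computable.nat_rec (f := m) (g := x)
    (h := fun a (p : ℕ × ℚ) => 3 * p.2 + (-1) * (c a * (((j a / K a ^ p.1) % K a : ℕ) : ℚ))) hm hx ?_
  have hfst : Computable (fun p : α × (ℕ × ℚ) => p.1) := Computable.fst
  have hl : Computable (fun p : α × (ℕ × ℚ) => p.2.1) := Computable.fst.comp Computable.snd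
  have hz : Computable (fun p : α × (ℕ × ℚ) => p.2.2) := Computable.snd.comp Computable.snd
  have hdig : Computable (fun p : α × (ℕ × ℚ) => (j p.1 / K p.1 ^ p.2.1) % K p.1) :=
    natMod_comp.comp (natDiv_comp.comp (hj.comp hfst) (natPow_comp.comp (hK.comp hfst) hl))
      (hK.comp hfst)
  exact T1_add.comp (T1_mul.comp (Computable.const 3) hz)
    (T1_mul.comp (Computable.const (-1))
      (T1_mul.comp (hc.comp hfst) (T1_natCast.comp hdig)))

theorem comp_WW {K : α → ℕ} {wt : α → ℕ → ℚ} {j m : α → ℕ} (hK : Computable K)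
    (hwt : Computable₂ wt) (hj : Computable j) (hm : Computable m) :
    Computable (fun a => WW (K a) (wt a) (j a) (m a)) := by
  unfold WW
  refine Computable.nat_rec (f := m) (g := fun _ => (1 : ℚ))
    (h := fun a (p : ℕ × ℚ) => p.2 * wt a ((j a / K a ^ p.1) % K a)) hm (Computable.const 1) ?_
  have hfst : Computable (fun p : α × (ℕ × ℚ) => p.1) := Computable.fst
  have hl : Computable (fun p : α × (ℕ × ℚ) => p.2.1) := Computable.fst.comp Computable.snd
  have hz : Computable (fun p : α × (ℕ × ℚ) => p.2.2) := Computable.snd.comp Computable.snd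
  have hdig : Computable (fun p : α × (ℕ × ℚ) => (j p.1 / K p.1 ^ p.2.1) % K p.1) :=
    natMod_comp.comp (natDiv_comp.comp (hj.comp hfst) (natPow_comp.comp (hK.comp hfst) hl))
      (hK.comp hfst)
  exact T1_mul.comp hz (hwt.comp hfst hdig)

/-- rational Heaviside function -/
def HvQ (x : ℚ) : ℚ := if 0 < x then 1 else 0

theorem comp_HvQ : Computable HvQ := by
  have h : Computable (fun x : ℚ => cond (decide (x ≤ 0)) (0 : ℚ) 1) :=
    Computable.cond (T1_le.comp Computable.id (Computable.const 0)) (Computable.const 0)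
      (Computable.const 1)
  refine h.of_eq fun x => ?_
  unfold HvQ
  by_cases hx : x ≤ 0
  · simp [hx]
  · simp [hx, not_le.1 hx]

theorem HvQ_cast (x : ℚ) : ((HvQ x : ℚ) : ℝ) = Hv (x : ℝ) := by
  unfold HvQ Hv
  by_cases hx : 0 < x
  · have : (0 : ℝ) < x := by exact_mod_cast hx
    simp [hx]
  · have : ¬ (0 : ℝ) < x := by exact_mod_cast hx
    simp [hx]

theorem cr_theta {θ : ℝ → ℝ} (hθ : Adm θ) (hfix : TT θ = θ) : CR (fun x : ℚ => θ (x : ℝ)) := by
  -- K = 2 * (2 (N+1)), m = 2 (N+1)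
  set Kf : ℚ × ℕ → ℕ := fun p => 2 * (2 * (p.2 + 1)) with hKf
  set mf : ℚ × ℕ → ℕ := fun p => 2 * (p.2 + 1) with hmf
  have hmc : Computable mf :=
    natMul_comp.comp (Computable.const 2) (Computable.succ.comp Computable.snd)
  have hKc : Computable Kf := natMul_comp.comp (Computable.const 2) hmc
  refine ⟨fun x N => ∑ j ∈ Finset.range (Kf (x, N) ^ mf (x, N)),
    WW (Kf (x, N)) (fun _ => ((Kf (x, N) : ℕ) : ℚ)⁻¹) j (mf (x, N)) *
      HvQ (zz (Kf (x, N)) (2 * ((Kf (x, N) : ℕ) : ℚ)⁻¹) x j (mf (x, N))), ?_, fun x N => ?_⟩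
  · have hinv : Computable (fun p : ℚ × ℕ => ((Kf p : ℕ) : ℚ)⁻¹) := T1_inv.comp (T1_natCast.comp hKc)
    have hterm : Computable₂ (fun (p : ℚ × ℕ) (j : ℕ) =>
        WW (Kf p) (fun _ => ((Kf p : ℕ) : ℚ)⁻¹) j (mf p) *
          HvQ (zz (Kf p) (2 * ((Kf p : ℕ) : ℚ)⁻¹) p.1 j (mf p))) := by
      refine T1_mul.comp ?_ (comp_HvQ.comp ?_)
      · exact comp_WW (α := (ℚ × ℕ) × ℕ) (K := fun a => Kf a.1)
          (wt := fun a _ => ((Kf a.1 : ℕ) : ℚ)⁻¹)
          (j := fun a => a.2) (m := fun a => mf a.1) (hKc.comp Computable.fst)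
          (hinv.comp (Computable.fst.comp Computable.fst)) Computable.snd (hmc.comp Computable.fst)
      · exact comp_zz (α := (ℚ × ℕ) × ℕ) (K := fun a => Kf a.1)
          (c := fun a => 2 * ((Kf a.1 : ℕ) : ℚ)⁻¹) (x := fun a => a.1.1)
          (j := fun a => a.2) (m := fun a => mf a.1) (hKc.comp Computable.fst)
          (T1_mul.comp (Computable.const 2) (hinv.comp Computable.fst))
          (Computable.fst.comp Computable.fst) Computable.snd (hmc.comp Computable.fst)
    exact T1_sum (α := ℚ × ℕ) hterm (natPow_comp.comp hKc hmc)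
  · have hK'pos : 0 < 2 * (N + 1) := by omega
    have herr := TK_iter_error hθ hfix hK'pos (2 * (N + 1)) (x : ℝ)
    have hclosed : ((TK (2 * (2 * (N + 1))))^[2 * (N + 1)] Hv) (x : ℝ)
        = ((∑ j ∈ Finset.range (Kf (x, N) ^ mf (x, N)),
          WW (Kf (x, N)) (fun _ => ((Kf (x, N) : ℕ) : ℚ)⁻¹) j (mf (x, N)) *
          HvQ (zz (Kf (x, N)) (2 * ((Kf (x, N) : ℕ) : ℚ)⁻¹) x j (mf (x, N))) : ℚ) : ℝ) := by
      unfold TK
      rw [AA_iter (by omega : 0 < 2 * (2 * (N + 1))), Rat.cast_sum]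
      apply Finset.sum_congr rfl
      intro j _
      rw [Rat.cast_mul, HvQ_cast]
    rw [hclosed] at herr
    rw [abs_sub_comm]
    refine herr.trans ?_
    have h1 : (1 / 2 : ℝ) ^ (2 * (N + 1)) ≤ 1 / (2 * ((N : ℝ) + 1)) := by
      rw [one_div_pow]
      apply one_div_le_one_div_of_le (by positivity)
      have h2 : 2 * (N + 1) ≤ 2 ^ (2 * (N + 1)) := Nat.lt_two_pow_self.le
      exact_mod_cast h2
    have h2 : 2 * ((2 * (2 * (N + 1)) : ℕ) : ℝ)⁻¹ = 1 / (2 * ((N : ℝ) + 1)) := by
      push_cast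
      field_simp
    rw [h2]
    calc (1 / 2 : ℝ) ^ (2 * (N + 1)) + 1 / (2 * ((N : ℝ) + 1))
        ≤ 1 / (2 * ((N : ℝ) + 1)) + 1 / (2 * ((N : ℝ) + 1)) := by linarith
      _ = 1 / ((N : ℝ) + 1) := by field_simp; norm_num

theorem exists_step : ∃ θ : ℝ → ℝ, IsStep θ ∧ Eff1 θ := by
  obtain ⟨θ, hθ, hfix⟩ := exists_fixed
  refine ⟨θ, ⟨theta_contDiff hθ hfix, hθ.zero, hθ.one, hθ.mem⟩, ?_⟩
  refine Eff1.mk' (theta_contDiff hθ hfix) ?_ ?_
  · -- closed form of DD^[n] θ
    have hDD : DD = AA 2 (fun d => 3 / 2 + (-3) * (d : ℚ)) 2 := by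
      funext g x
      unfold DD AA
      rw [Finset.sum_range_succ, Finset.sum_range_one]
      push_cast
      ring_nf
    have hsum : CR (fun a : ℕ × ℚ => ∑ j ∈ Finset.range (2 ^ a.1),
        (WW 2 (fun d => 3 / 2 + (-3) * (d : ℚ)) j a.1 : ℝ) * θ ((zz 2 2 a.2 j a.1 : ℚ) : ℝ)) := by
      apply CR.sum (k := fun a : ℕ × ℚ => 2 ^ a.1)
        (f := fun (a : ℕ × ℚ) (j : ℕ) => (WW 2 (fun d => 3 / 2 + (-3) * (d : ℚ)) j a.1 : ℝ)
          * θ ((zz 2 2 a.2 j a.1 : ℚ) : ℝ))
      · refine CR.mul (CR.of_rat ?_) ((cr_theta hθ hfix).comp ?_)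
        · refine comp_WW (α := (ℕ × ℚ) × ℕ) (K := fun _ => 2)
            (wt := fun _ d => 3 / 2 + (-3) * (d : ℚ)) (j := fun a => a.2) (m := fun a => a.1.1)
            (Computable.const 2) ?_ Computable.snd (Computable.fst.comp Computable.fst)
          exact T1_add.comp (Computable.const _) (T1_mul.comp (Computable.const _)
            (T1_natCast.comp Computable.snd))
        · exact comp_zz (α := (ℕ × ℚ) × ℕ) (K := fun _ => 2) (c := fun _ => 2)
            (x := fun a => a.1.2) (j := fun a => a.2) (m := fun a => a.1.1)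
            (Computable.const 2) (Computable.const 2) (Computable.snd.comp Computable.fst)
            Computable.snd (Computable.fst.comp Computable.fst)
      · exact natPow_comp.comp (Computable.const 2) Computable.fst
    have hexp : Computable (fun a : ℕ × ℚ => (3 : ℚ) ^ (a.1 * (a.1 - 1) / 2)) := by
      refine T1_pow.comp (Computable.const 3) ?_
      exact natDiv_comp.comp (natMul_comp.comp Computable.fst (Computable.pred.comp Computable.fst))
        (Computable.const 2)
    refine ((CR.of_rat hexp).mul hsum).congr fun a => ?_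
    rw [iteratedDeriv_theta hθ hfix, hDD, AA_iter (by norm_num : 0 < 2)]
    push_cast
    rfl
  · refine ⟨fun n => 3 ^ (n * (n - 1) / 2) * 3 ^ n, ?_, fun n x => ?_⟩
    · refine natMul_comp.comp (natPow_comp.comp (Computable.const 3) ?_)
        (natPow_comp.comp (Computable.const 3) Computable.id)
      exact natDiv_comp.comp (natMul_comp.comp Computable.id Computable.pred) (Computable.const 2)
    · rw [iteratedDeriv_theta hθ hfix, abs_mul, abs_of_pos (by positivity)]
      push_cast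
      exact mul_le_mul_of_nonneg_left (DD_iter_bound hθ n x) (by positivity)

end Crest.Agent.S0170
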