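import Crest.Agent.S0170_RatComp
/-! Closure properties of computable families of reals. -/
open scoped ContDiff
open Crest.AnalysisR.BoxFlow
namespace Crest.Agent.S0170

variable {α β : Type*} [Primcodable α] [Primcodable β]

theorem natMul_comp : Computable₂ (fun m n : ℕ => m * n) := Primrec.nat_mul.to_comp
theorem natAdd_comp : Computable₂ (fun m n : ℕ => m + n) := Primrec.nat_add.to_comp

theorem CR.of_rat {f : α → ℚ} (hf : Computable f) : CR (fun a => (f a : ℝ)) := by
  refine ⟨fun a _ => f a, hf.comp Computable.fst, fun a n => ?_⟩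
  simp only [sub_self, abs_zero]
  positivity

theorem CR.comp {f : β → ℝ} (hf : CR f) {g : α → β} (hg : Computable g) :
    CR (fun a => f (g a)) := by
  obtain ⟨F, hF, h⟩ := hf
  exact ⟨fun a n => F (g a) n, hF.comp (hg.comp Computable.fst) Computable.snd, fun a n => h _ _⟩

theorem CR.congr {f g : α → ℝ} (hf : CR f) (h : ∀ a, f a = g a) : CR g := by
  have : f = g := funext h
  exact this ▸ hf

theorem CR.neg {f : α → ℝ} (hf : CR f) : CR (fun a => - f a) := by
  obtain ⟨F, hF, h⟩ := hf
  refine ⟨fun a n => (-1 : ℚ) * F a n, T1_mul.comp (Computable.const _) hF, fun a n => ?_⟩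
  have := h a n
  push_cast
  rw [show -f a - -1 * (F a n : ℝ) = -(f a - F a n) by ring, abs_neg]
  exact this

theorem CR.add {f g : α → ℝ} (hf : CR f) (hg : CR g) : CR (fun a => f a + g a) := by
  obtain ⟨F, hF, h⟩ := hf
  obtain ⟨G, hG, h'⟩ := hg
  have hidx : Computable (fun p : α × ℕ => 2 * p.2 + 1) :=
    Computable.succ.comp (natMul_comp.comp (Computable.const 2) Computable.snd)
  refine ⟨fun a n => F a (2 * n + 1) + G a (2 * n + 1), ?_, fun a n => ?_⟩
  · exact T1_add.comp (hF.comp Computable.fst hidx) (hG.comp Computable.fst hidx)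
  · have h1 := h a (2 * n + 1)
    have h2 := h' a (2 * n + 1)
    push_cast at h1 h2 ⊢
    have e : (1 : ℝ) / (2 * n + 1 + 1) + 1 / (2 * n + 1 + 1) = 1 / (n + 1) := by
      field_simp; ring
    calc |f a + g a - ((F a (2 * n + 1) : ℝ) + (G a (2 * n + 1) : ℝ))|
        = |(f a - F a (2 * n + 1)) + (g a - G a (2 * n + 1))| := by ring_nf
      _ ≤ |f a - F a (2 * n + 1)| + |g a - G a (2 * n + 1)| := abs_add_le _ _
      _ ≤ 1 / (2 * n + 1 + 1) + 1 / (2 * n + 1 + 1) := add_le_add h1 h2
      _ = 1 / (n + 1) := e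

theorem CR.sub {f g : α → ℝ} (hf : CR f) (hg : CR g) : CR (fun a => f a - g a) :=
  (hf.add hg.neg).congr fun a => by ring

theorem CR.mul {f g : α → ℝ} (hf : CR f) (hg : CR g) : CR (fun a => f a * g a) := by
  obtain ⟨F, hF, h⟩ := hf
  obtain ⟨G, hG, h'⟩ := hg
  set A : α → ℕ := fun a => ⌈|F a 0|⌉₊ + 1 with hA
  set B : α → ℕ := fun a => ⌈|G a 0|⌉₊ + 1 with hB
  have hAc : Computable A :=
    Computable.succ.comp (T1_natCeilAbs.comp (hF.comp Computable.id (Computable.const 0)))
  have hBc : Computable B :=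
    Computable.succ.comp (T1_natCeilAbs.comp (hG.comp Computable.id (Computable.const 0)))
  have hfA : ∀ a, |f a| ≤ A a := by
    intro a
    have h0 := h a 0
    have h1 : |(F a 0 : ℝ)| ≤ (⌈|F a 0|⌉₊ : ℝ) := by
      have := Nat.le_ceil (|F a 0|)
      exact_mod_cast this
    have h2 : |f a| ≤ |f a - F a 0| + |(F a 0 : ℝ)| := by
      calc |f a| = |(f a - F a 0) + F a 0| := by ring_nf
        _ ≤ _ := abs_add_le _ _
    simp only [hA]
    push_cast at h0 ⊢
    norm_num at h0
    linarith
  have hgB : ∀ a, |g a| ≤ B a := by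
    intro a
    have h0 := h' a 0
    have h1 : |(G a 0 : ℝ)| ≤ (⌈|G a 0|⌉₊ : ℝ) := by
      have := Nat.le_ceil (|G a 0|)
      exact_mod_cast this
    have h2 : |g a| ≤ |g a - G a 0| + |(G a 0 : ℝ)| := by
      calc |g a| = |(g a - G a 0) + G a 0| := by ring_nf
        _ ≤ _ := abs_add_le _ _
    simp only [hB]
    push_cast at h0 ⊢
    norm_num at h0
    linarith
  set K : α → ℕ → ℕ := fun a n => (n + 1) * (A a + B a + 1) with hK
  have hKc : Computable₂ K :=
    natMul_comp.comp (Computable.succ.comp Computable.snd)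
      (Computable.succ.comp (natAdd_comp.comp (hAc.comp Computable.fst) (hBc.comp Computable.fst)))
  refine ⟨fun a n => F a (K a n) * G a (K a n), ?_, fun a n => ?_⟩
  · exact T1_mul.comp (hF.comp Computable.fst hKc) (hG.comp Computable.fst hKc)
  · have h1 := h a (K a n)
    have h2 := h' a (K a n)
    have hf1 := hfA a
    have hg1 := hgB a
    set x := f a
    set y := g a
    set X : ℝ := (F a (K a n) : ℝ)
    set Y : ℝ := (G a (K a n) : ℝ)
    have hKpos : (0 : ℝ) < (K a n : ℝ) + 1 := by positivity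
    have hX : |X| ≤ (A a : ℝ) + 1 := by
      have : |X| ≤ |x| + |x - X| := by
        calc |X| = |x - (x - X)| := by ring_nf
          _ ≤ _ := abs_sub _ _
      have h3 : 1 / ((K a n : ℝ) + 1) ≤ 1 := by
        rw [div_le_one hKpos]
        have : (0 : ℝ) ≤ (K a n : ℝ) := by positivity
        linarith
      linarith
    push_cast
    calc |x * y - X * Y| = |(x - X) * y + X * (y - Y)| := by ring_nf
      _ ≤ |(x - X) * y| + |X * (y - Y)| := abs_add_le _ _
      _ = |x - X| * |y| + |X| * |y - Y| := by rw [abs_mul, abs_mul]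
      _ ≤ (1 / ((K a n : ℝ) + 1)) * B a + (A a + 1) * (1 / ((K a n : ℝ) + 1)) := by
          apply add_le_add
          · exact mul_le_mul h1 hg1 (abs_nonneg _) (by positivity)
          · exact mul_le_mul hX h2 (abs_nonneg _) (by positivity)
      _ = ((A a : ℝ) + B a + 1) / ((K a n : ℝ) + 1) := by ring
      _ ≤ 1 / ((n : ℝ) + 1) := by
          rw [div_le_div_iff₀ hKpos (by positivity)]
          simp only [hK]
          push_cast
          nlinarith

theorem CR.sum {f : α → ℕ → ℝ} {k : α → ℕ} (hf : CR (fun p : α × ℕ => f p.1 p.2))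
    (hk : Computable k) : CR (fun a => ∑ i ∈ Finset.range (k a), f a i) := by
  obtain ⟨F, hF, h⟩ := hf
  have hidx : Computable (fun p : (α × ℕ) × ℕ => (p.1.2 + 1) * (k p.1.1 + 1)) :=
    natMul_comp.comp (Computable.succ.comp (Computable.snd.comp Computable.fst))
      (Computable.succ.comp (hk.comp (Computable.fst.comp Computable.fst)))
  refine ⟨fun a n => ∑ i ∈ Finset.range (k a), F (a, i) ((n + 1) * (k a + 1)), ?_, fun a n => ?_⟩
  · have : Computable₂ (fun (p : α × ℕ) (i : ℕ) => F (p.1, i) ((p.2 + 1) * (k p.1 + 1))) :=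
      hF.comp (Computable.pair (Computable.fst.comp Computable.fst) Computable.snd) hidx
    exact T1_sum (α := α × ℕ) (f := fun (p : α × ℕ) (i : ℕ) => F (p.1, i) ((p.2 + 1) * (k p.1 + 1)))
      (k := fun p => k p.1) this (hk.comp Computable.fst)
  · push_cast
    rw [← Finset.sum_sub_distrib]
    calc |∑ i ∈ Finset.range (k a), (f a i - (F (a, i) ((n + 1) * (k a + 1)) : ℝ))|
        ≤ ∑ i ∈ Finset.range (k a), |f a i - (F (a, i) ((n + 1) * (k a + 1)) : ℝ)| :=
          Finset.abs_sum_le_sum_abs _ _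
      _ ≤ ∑ i ∈ Finset.range (k a), 1 / (((n + 1) * (k a + 1) : ℕ) + 1 : ℝ) :=
          Finset.sum_le_sum fun i _ => h (a, i) _
      _ = k a * (1 / (((n + 1) * (k a + 1) : ℕ) + 1 : ℝ)) := by simp
      _ ≤ 1 / ((n : ℝ) + 1) := by
          rw [mul_one_div, div_le_div_iff₀ (by positivity) (by positivity)]
          push_cast
          nlinarith [(Nat.cast_nonneg (k a) : (0 : ℝ) ≤ k a), (Nat.cast_nonneg n : (0 : ℝ) ≤ n)]

end Crest.Agent.S0170
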