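import Crest.Prelude.Def_BoxFlow

/-! Interfaces for the proof of S0170 (box flow). Owner: helper98.

Split:
* T1 `S0170_RatComp.lean`  : computability of rational arithmetic (Primcodable ℚ from Denumerable ℚ).
* T2 `S0170_Step.lean`     : existence of an effective smooth step `exists_step : ∃ θ, IsStep θ ∧ Eff1 θ`.
* T3 `S0170_Eff.lean`      : closure properties of `Eff1`, products of four `Eff1`, `Effective` fields.
* T4 `S0170_Geom.lean`     : the combinatorial chain of elementary moves.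
* T5 `S0170.lean`          : ODE part and assembly.
-/

open scoped ContDiff
open Crest.AnalysisR.BoxFlow

namespace Crest.Agent.S0170

/-- A smooth step function: `0` on `(-∞,0]`, `1` on `[1,∞)`, values in `[0,1]`. -/
structure IsStep (θ : ℝ → ℝ) : Prop where
  contDiff : ContDiff ℝ ∞ θ
  zero : ∀ x, x ≤ 0 → θ x = 0
  one : ∀ x, 1 ≤ x → θ x = 1
  mem : ∀ x, θ x ∈ Set.Icc (0 : ℝ) 1

/-- Effective function of one real variable: smooth, all iterated derivatives computably
approximable at rational points (uniformly in the order) and globally bounded by a computable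
function of the order. -/
structure Eff1 (φ : ℝ → ℝ) : Prop where
  contDiff : ContDiff ℝ ∞ φ
  approx : ∃ E : ℕ × ℚ × ℕ → ℚ, Computable E ∧
    ∀ (n : ℕ) (q : ℚ) (N : ℕ), |iteratedDeriv n φ (q : ℝ) - (E (n, q, N) : ℝ)| ≤ 1 / ((N : ℝ) + 1)
  bound : ∃ B : ℕ → ℕ, Computable B ∧ ∀ (n : ℕ) (x : ℝ), |iteratedDeriv n φ x| ≤ (B n : ℝ)

/-- A family of real numbers indexed by a `Primcodable` type is computable. -/
def CR {α : Type*} [Primcodable α] (f : α → ℝ) : Prop :=
  ∃ F : α → ℕ → ℚ, Computable₂ F ∧ ∀ a n, |f a - (F a n : ℝ)| ≤ 1 / ((n : ℝ) + 1)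

/-- One elementary move between placements `F F' : Fin n → (ℝ³ → ℝ³)` of the source boxes
`box (a i) (h i)`: only the box `i₀` moves, every point `y = F i₀ x` moves in the coordinate
direction `l1` by `v + r (y l2 - e)`, the box `i₀` is inside the closed rational box `box c w` before
and after the move, and the (current images of) all other boxes are disjoint from `box c w`. -/
def Elem {n : ℕ} (a h : Fin n → Fin 3 → ℚ) (F F' : Fin n → (Fin 3 → ℝ) → (Fin 3 → ℝ)) : Prop :=
  (∀ i, Continuous (F i)) ∧ (∀ i, Continuous (F' i)) ∧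
  ∃ (i₀ : Fin n) (l1 l2 : Fin 3) (v r e : ℚ) (c w : Fin 3 → ℚ), l1 ≠ l2 ∧ (∀ j, 0 < w j) ∧
    (∀ x ∈ box (a i₀) (h i₀), F i₀ x ∈ box c w ∧ F' i₀ x ∈ box c w) ∧
    (∀ x, F' i₀ x = F i₀ x + ((v : ℝ) + (r : ℝ) * (F i₀ x l2 - (e : ℝ))) • (Pi.single l1 (1 : ℝ))) ∧
    (∀ i, i ≠ i₀ → F' i = F i ∧ Disjoint (F i '' box (a i) (h i)) (box c w))

/-- The diagonal placement of the source box `(a,h)` as the box `(b,k)`. -/
noncomputable def place (a h b k : Fin 3 → ℚ) (x : Fin 3 → ℝ) : Fin 3 → ℝ :=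
  fun j => (b j : ℝ) + ((k j / h j : ℚ) : ℝ) * (x j - (a j : ℝ))

end Crest.Agent.S0170
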