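import Crest.Agent.S0170_Eff1
/-! Effective scalar functions on space-time and effective fields. -/
open scoped ContDiff
open Crest.AnalysisR.BoxFlow
namespace Crest.Agent.S0170

/-- coordinates of space-time: `0` is time, `j+1` is the `j`-th space coordinate. -/
def coord (i : Fin 4) (p : ℝ × (Fin 3 → ℝ)) : ℝ := if h : i = 0 then p.1 else p.2 (i.pred h)

theorem coord_add_direction (i d : Fin 4) (p : ℝ × (Fin 3 → ℝ)) (s : ℝ) :
    coord i (p + s • direction d) = coord i p + if i = d then s else 0 := by
  unfold coord direction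
  by_cases hi : i = 0
  · subst hi
    by_cases hd : d = 0
    · subst hd; simp
    · simp [hd, Ne.symm hd]
  · by_cases hd : d = 0
    · subst hd; simp [hi]
    · simp only [hi, hd, dite_false, Prod.snd_add, Prod.smul_snd, Pi.add_apply, Pi.smul_apply,
        smul_eq_mul]
      congr 1
      by_cases hid : i = d
      · subst hid; simp
      · have : i.pred hi ≠ d.pred hd := fun h => hid (Fin.pred_inj.1 h)
        simp [this, hid]

/-- scalar version of `mixedDeriv` -/
noncomputable def mixedDerivS : List (Fin 4) → (ℝ × (Fin 3 → ℝ) → ℝ) → (ℝ × (Fin 3 → ℝ) → ℝ)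
  | [], f => f
  | d :: ds, f => fun p => fderiv ℝ (mixedDerivS ds f) p (direction d)

theorem contDiff_mixedDerivS {f : ℝ × (Fin 3 → ℝ) → ℝ} (hf : ContDiff ℝ ∞ f) (ds : List (Fin 4)) :
    ContDiff ℝ ∞ (mixedDerivS ds f) := by
  induction ds with
  | nil => exact hf
  | cons d ds ih =>
    exact (ih.fderiv_right (m := ∞) (by simp)).clm_apply contDiff_const

theorem contDiff_mixedDeriv {U : Field} (hU : ContDiff ℝ ∞ U) (ds : List (Fin 4)) :
    ContDiff ℝ ∞ (mixedDeriv ds U) := by
  induction ds with
  | nil => exact hU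
  | cons d ds ih =>
    exact (ih.fderiv_right (m := ∞) (by simp)).clm_apply contDiff_const

theorem mixedDeriv_apply {U : Field} (hU : ContDiff ℝ ∞ U) (ds : List (Fin 4))
    (p : ℝ × (Fin 3 → ℝ)) (j : Fin 3) :
    mixedDeriv ds U p j = mixedDerivS ds (fun p => U p j) p := by
  induction ds generalizing p with
  | nil => rfl
  | cons d ds ih =>
    have hfun : (fun p => mixedDeriv ds U p j) = mixedDerivS ds (fun p => U p j) := funext ih
    have hd : DifferentiableAt ℝ (mixedDeriv ds U) p :=
      (contDiff_mixedDeriv hU ds).differentiable (by simp) p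
    show fderiv ℝ (mixedDeriv ds U) p (direction d) j = fderiv ℝ (mixedDerivS ds fun p => U p j) p (direction d)
    rw [← hfun]
    have h1 : HasFDerivAt (fun p => mixedDeriv ds U p j)
        ((ContinuousLinearMap.proj (R := ℝ) (φ := fun _ : Fin 3 => ℝ) j).comp
          (fderiv ℝ (mixedDeriv ds U) p)) p :=
      (ContinuousLinearMap.proj (R := ℝ) (φ := fun _ : Fin 3 => ℝ) j).hasFDerivAt.comp p hd.hasFDerivAt
    rw [h1.fderiv]
    rfl

theorem mixedDerivS_zero (ds : List (Fin 4)) :
    mixedDerivS ds (fun _ => (0 : ℝ)) = fun _ => 0 := by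
  induction ds with
  | nil => rfl
  | cons d ds ih =>
    funext p
    show fderiv ℝ (mixedDerivS ds fun _ => (0 : ℝ)) p (direction d) = 0
    rw [ih]
    simp

theorem mixedDerivS_add {f g : ℝ × (Fin 3 → ℝ) → ℝ} (hf : ContDiff ℝ ∞ f) (hg : ContDiff ℝ ∞ g)
    (ds : List (Fin 4)) (p : ℝ × (Fin 3 → ℝ)) :
    mixedDerivS ds (fun p => f p + g p) p = mixedDerivS ds f p + mixedDerivS ds g p := by
  induction ds generalizing p with
  | nil => rfl
  | cons d ds ih =>
    show fderiv ℝ (mixedDerivS ds fun p => f p + g p) p (direction d)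
      = fderiv ℝ (mixedDerivS ds f) p (direction d) + fderiv ℝ (mixedDerivS ds g) p (direction d)
    have hfun : (mixedDerivS ds fun p => f p + g p)
        = fun p => mixedDerivS ds f p + mixedDerivS ds g p := funext ih
    rw [hfun, fderiv_fun_add ((contDiff_mixedDerivS hf ds).differentiable (by simp) p)
      ((contDiff_mixedDerivS hg ds).differentiable (by simp) p)]
    rfl

theorem contDiff_coord (i : Fin 4) : ContDiff ℝ ∞ (coord i) := by
  unfold coord
  by_cases h : i = 0
  · simp only [h, dite_true]; exact contDiff_fst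
  · simp only [h, dite_false]
    exact (contDiff_pi.1 contDiff_snd) _

/-- product of four functions of one variable each -/
noncomputable def prodF (φ : Fin 4 → ℝ → ℝ) (p : ℝ × (Fin 3 → ℝ)) : ℝ := ∏ i, φ i (coord i p)

theorem contDiff_prodF {φ : Fin 4 → ℝ → ℝ} (h : ∀ i, ContDiff ℝ ∞ (φ i)) :
    ContDiff ℝ ∞ (prodF φ) := by
  unfold prodF
  exact contDiff_prod fun i _ => (h i).comp (contDiff_coord i)

theorem mixedDerivS_prodF {φ : Fin 4 → ℝ → ℝ} (h : ∀ i, ContDiff ℝ ∞ (φ i)) (ds : List (Fin 4))
    (p : ℝ × (Fin 3 → ℝ)) :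
    mixedDerivS ds (prodF φ) p = ∏ i, iteratedDeriv (ds.count i) (φ i) (coord i p) := by
  induction ds generalizing p with
  | nil => simp [mixedDerivS, prodF]
  | cons d ds ih =>
    show fderiv ℝ (mixedDerivS ds (prodF φ)) p (direction d) = _
    have hfun : mixedDerivS ds (prodF φ)
        = fun p => ∏ i, iteratedDeriv (ds.count i) (φ i) (coord i p) := funext ih
    have hdiff : DifferentiableAt ℝ (mixedDerivS ds (prodF φ)) p :=
      (contDiff_mixedDerivS (contDiff_prodF h) ds).differentiable (by simp) p
    have hline := hdiff.hasFDerivAt.hasLineDerivAt (direction d)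
    unfold HasLineDerivAt at hline
    have hcurve : (fun t : ℝ => mixedDerivS ds (prodF φ) (p + t • direction d))
        = fun t => iteratedDeriv (ds.count d) (φ d) (coord d p + t) *
            ∏ i ∈ Finset.univ.erase d, iteratedDeriv (ds.count i) (φ i) (coord i p) := by
      funext t
      rw [hfun]
      simp only
      rw [← Finset.mul_prod_erase Finset.univ _ (Finset.mem_univ d)]
      congr 1
      · rw [coord_add_direction]; simp
      · apply Finset.prod_congr rfl
        intro i hi
        rw [coord_add_direction, if_neg (Finset.ne_of_mem_erase hi), add_zero]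
    rw [hcurve] at hline
    have hd : HasDerivAt (iteratedDeriv (ds.count d) (φ d))
        (iteratedDeriv (ds.count d + 1) (φ d) (coord d p + 0)) (coord d p + 0) := by
      rw [iteratedDeriv_succ]
      apply DifferentiableAt.hasDerivAt
      exact ((h d).differentiable_iteratedDeriv _
        (by exact_mod_cast ENat.natCast_lt_top _)).differentiableAt
    have hd2 : HasDerivAt (fun t : ℝ => iteratedDeriv (ds.count d) (φ d) (coord d p + t) *
            ∏ i ∈ Finset.univ.erase d, iteratedDeriv (ds.count i) (φ i) (coord i p))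
        (iteratedDeriv (ds.count d + 1) (φ d) (coord d p + 0) *
          ∏ i ∈ Finset.univ.erase d, iteratedDeriv (ds.count i) (φ i) (coord i p)) 0 := by
      have h3 : HasDerivAt (fun t : ℝ => iteratedDeriv (ds.count d) (φ d) (coord d p + t))
          (iteratedDeriv (ds.count d + 1) (φ d) (coord d p + 0)) 0 := by
        have h4 := hd.comp (0 : ℝ) ((hasDerivAt_id (0 : ℝ)).const_add (coord d p))
        rw [mul_one] at h4
        exact h4
      exact h3.mul_const _
    rw [hline.unique hd2, ← Finset.mul_prod_erase Finset.univ _ (Finset.mem_univ d)]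
    congr 1
    · simp [List.count_cons_self]
    · apply Finset.prod_congr rfl
      intro i hi
      rw [List.count_cons_of_ne (Finset.ne_of_mem_erase hi).symm]

/-- effective scalar functions -/
structure EffS (f : ℝ × (Fin 3 → ℝ) → ℝ) : Prop where
  contDiff : ContDiff ℝ ∞ f
  cr : CR (fun a : List (Fin 4) × (ℚ × (Fin 3 → ℚ)) =>
    mixedDerivS a.1 f ((a.2.1 : ℝ), ratPoint a.2.2))
  bound : ∃ B : List (Fin 4) → ℕ, Computable B ∧ ∀ ds p, |mixedDerivS ds f p| ≤ (B ds : ℝ)

theorem EffS.zero : EffS (fun _ => 0) := by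
  refine ⟨contDiff_const, ?_, ⟨fun _ => 0, Computable.const 0, fun ds p => ?_⟩⟩
  · refine (CR.of_rat (f := fun _ => 0) (Computable.const 0)).congr fun a => ?_
    rw [mixedDerivS_zero]; simp
  · rw [mixedDerivS_zero]; simp

theorem EffS.add {f g : ℝ × (Fin 3 → ℝ) → ℝ} (hf : EffS f) (hg : EffS g) :
    EffS (fun p => f p + g p) := by
  refine ⟨hf.contDiff.add hg.contDiff, ?_, ?_⟩
  · exact (hf.cr.add hg.cr).congr fun a => (mixedDerivS_add hf.contDiff hg.contDiff _ _).symm
  · obtain ⟨B, hB, hB'⟩ := hf.bound
    obtain ⟨C, hC, hC'⟩ := hg.bound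
    refine ⟨fun ds => B ds + C ds, natAdd_comp.comp hB hC, fun ds p => ?_⟩
    rw [mixedDerivS_add hf.contDiff hg.contDiff]
    push_cast
    exact (abs_add_le _ _).trans (add_le_add (hB' _ _) (hC' _ _))

theorem EffS.congr {f g : ℝ × (Fin 3 → ℝ) → ℝ} (hf : EffS f) (h : ∀ p, f p = g p) : EffS g := by
  have : f = g := funext h
  exact this ▸ hf

theorem EffS.sum {ι : Type*} (s : Finset ι) {f : ι → ℝ × (Fin 3 → ℝ) → ℝ}
    (hf : ∀ i ∈ s, EffS (f i)) : EffS (fun p => ∑ i ∈ s, f i p) := by
  classical
  induction s using Finset.induction_on with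
  | empty => simpa using EffS.zero
  | insert i s hi ih =>
    have h1 := hf i (Finset.mem_insert_self _ _)
    have h2 := ih fun j hj => hf j (Finset.mem_insert_of_mem hj)
    refine (h1.add h2).congr fun p => ?_
    rw [Finset.sum_insert hi]

theorem comp_count (i : Fin 4) : Computable (fun ds : List (Fin 4) => ds.count i) := by
  have hp : PrimrecPred (fun b : Fin 4 => b = i) := Primrec.eq.comp Primrec.id (Primrec.const i)
  have h : Primrec (fun ds : List (Fin 4) => (ds.filter (fun b => b = i)).length) :=
    Primrec.list_length.comp (Primrec.listFilter hp)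
  refine (h.of_eq fun ds => ?_).to_comp
  rw [← List.countP_eq_length_filter]
  rfl

/-- rational coordinate -/
def qcoord (i : Fin 4) (p : ℚ × (Fin 3 → ℚ)) : ℚ := if h : i = 0 then p.1 else p.2 (i.pred h)

theorem comp_qcoord (i : Fin 4) : Computable (qcoord i) := by
  unfold qcoord
  by_cases h : i = 0
  · simp only [h, dite_true]; exact Computable.fst
  · simp only [h, dite_false]
    exact Computable.fin_app.comp Computable.snd (Computable.const _)

theorem coord_cast (i : Fin 4) (t : ℚ) (q : Fin 3 → ℚ) :
    coord i ((t : ℝ), ratPoint q) = (qcoord i (t, q) : ℝ) := by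
  unfold coord qcoord ratPoint
  by_cases h : i = 0 <;> simp [h]

theorem EffS.prodF {φ : Fin 4 → ℝ → ℝ} (h : ∀ i, Eff1 (φ i)) : EffS (prodF φ) := by
  have hsm : ∀ i, ContDiff ℝ ∞ (φ i) := fun i => (h i).contDiff
  refine ⟨contDiff_prodF hsm, ?_, ?_⟩
  · have key : ∀ i : Fin 4, CR (fun a : List (Fin 4) × (ℚ × (Fin 3 → ℚ)) =>
        iteratedDeriv (a.1.count i) (φ i) (coord i ((a.2.1 : ℝ), ratPoint a.2.2))) := by
      intro i
      refine ((h i).cr.comp (g := fun a : List (Fin 4) × (ℚ × (Fin 3 → ℚ)) =>
        (a.1.count i, qcoord i a.2)) ?_).congr fun a => ?_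
      · exact Computable.pair ((comp_count i).comp Computable.fst)
          ((comp_qcoord i).comp Computable.snd)
      · simp only [coord_cast]
    refine ((((key 0).mul (key 1)).mul (key 2)).mul (key 3)).congr fun a => ?_
    rw [mixedDerivS_prodF hsm, Fin.prod_univ_four]
  · choose B hB hB' using fun i => (h i).bound
    refine ⟨fun ds => ((B 0 (ds.count 0) * B 1 (ds.count 1)) * B 2 (ds.count 2)) * B 3 (ds.count 3),
      ?_, fun ds p => ?_⟩
    · have hc : ∀ i, Computable (fun ds : List (Fin 4) => B i (ds.count i)) :=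
        fun i => (hB i).comp (comp_count i)
      exact natMul_comp.comp (natMul_comp.comp (natMul_comp.comp (hc 0) (hc 1)) (hc 2)) (hc 3)
    · rw [mixedDerivS_prodF hsm, Fin.prod_univ_four, abs_mul, abs_mul, abs_mul]
      push_cast
      gcongr <;> apply hB'

theorem effective_of_components {U : Field} (hU : ContDiff ℝ ∞ U)
    (h : ∀ j, EffS (fun p => U p j)) : Effective U := by
  choose F hF hF' using fun j => (h j).cr
  choose B hB hB' using fun j => (h j).bound
  refine ⟨fun a => fun j => F j (a.1, a.2.1) a.2.2, fun ds => B 0 ds + B 1 ds + B 2 ds, ?_, ?_, ?_, ?_⟩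
  · have hc : ∀ j, Computable (fun a : List (Fin 4) × (ℚ × (Fin 3 → ℚ)) × ℕ =>
        F j (a.1, a.2.1) a.2.2) := by
      intro j
      exact (hF j).comp (Computable.pair Computable.fst (Computable.fst.comp Computable.snd))
        (Computable.snd.comp Computable.snd)
    have hv := Computable.vector_ofFn hc
    have he : Computable (fun v : List.Vector ℚ 3 => (Equiv.vectorEquivFin ℚ 3) v) := by
      exact (Primrec.of_equiv_symm (e := (Equiv.vectorEquivFin ℚ 3).symm)).to_comp
    refine (he.comp hv).of_eq fun a => ?_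
    funext j
    simp [Equiv.vectorEquivFin]
  · exact natAdd_comp.comp (natAdd_comp.comp (hB 0) (hB 1)) (hB 2)
  · intro ds t q n j
    rw [mixedDeriv_apply hU]
    exact hF' j (ds, (t, q)) n
  · intro ds p j
    rw [mixedDeriv_apply hU]
    refine (hB' j ds p).trans ?_
    have : B j ds ≤ B 0 ds + B 1 ds + B 2 ds := by
      fin_cases j <;> simp <;> omega
    exact_mod_cast this

end Crest.Agent.S0170
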