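import Crest.Agent.S0170_Eff
/-! Fields attached to elementary moves. -/
open scoped ContDiff Topology
open Crest.AnalysisR.BoxFlow
namespace Crest.Agent.S0170

/-- plateau function: `1` on `|x - c| ≤ w + ε`, `0` on `|x - c| ≥ w + 2 ε` -/
noncomputable def plat (θ : ℝ → ℝ) (c w ε : ℚ) (x : ℝ) : ℝ :=
  θ (((1 / ε : ℚ) : ℝ) * x + ((-(c - w - 2 * ε) / ε : ℚ) : ℝ)) -
    θ (((1 / ε : ℚ) : ℝ) * x + ((-(c + w + ε) / ε : ℚ) : ℝ))

theorem plat_arg {ε : ℚ} (hε : 0 < ε) (d : ℚ) (x : ℝ) :
    ((1 / ε : ℚ) : ℝ) * x + ((-d / ε : ℚ) : ℝ) = (x - d) / ε := by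
  have : (ε : ℝ) ≠ 0 := by exact_mod_cast hε.ne'
  push_cast
  field_simp
  ring

theorem plat_eq_one {θ : ℝ → ℝ} (hθ : IsStep θ) {c w ε : ℚ} (hε : 0 < ε) {x : ℝ}
    (hx : |x - c| ≤ w + ε) : plat θ c w ε x = 1 := by
  have hε' : (0 : ℝ) < ε := by exact_mod_cast hε
  unfold plat
  rw [plat_arg hε, plat_arg hε]
  rw [abs_le] at hx
  rw [hθ.one, hθ.zero, sub_zero]
  · apply div_nonpos_of_nonpos_of_nonneg _ hε'.le
    push_cast; linarith [hx.2]
  · rw [one_le_div hε']
    push_cast; linarith [hx.1]

theorem plat_eq_zero {θ : ℝ → ℝ} (hθ : IsStep θ) {c w ε : ℚ} (hε : 0 < ε) (hw : 0 < w) {x : ℝ}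
    (hx : w + 2 * ε ≤ |x - c|) : plat θ c w ε x = 0 := by
  have hε' : (0 : ℝ) < ε := by exact_mod_cast hε
  have hw' : (0 : ℝ) < w := by exact_mod_cast hw
  unfold plat
  rw [plat_arg hε, plat_arg hε]
  rcases le_abs.1 hx with h | h
  · rw [hθ.one, hθ.one, sub_self]
    · rw [one_le_div hε']
      push_cast; linarith
    · rw [one_le_div hε']
      push_cast; linarith
  · rw [hθ.zero, hθ.zero, sub_self]
    · apply div_nonpos_of_nonpos_of_nonneg _ hε'.le
      push_cast; linarith
    · apply div_nonpos_of_nonpos_of_nonneg _ hε'.le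
      push_cast; linarith

theorem eff1_plat {θ : ℝ → ℝ} (hθ : Eff1 θ) (c w ε : ℚ) : Eff1 (plat θ c w ε) :=
  (hθ.comp_affine _ _).sub (hθ.comp_affine _ _)

/-- A function vanishing for `R < |x|`. -/
def Supp (φ : ℝ → ℝ) (R : ℕ) : Prop := ∀ x : ℝ, (R : ℝ) < |x| → φ x = 0

theorem Supp.deriv {φ : ℝ → ℝ} {R : ℕ} (h : Supp φ R) : Supp (deriv φ) R := by
  intro x hx
  have hev : φ =ᶠ[nhds x] fun _ => 0 := by
    have : IsOpen {y : ℝ | (R : ℝ) < |y|} := isOpen_lt continuous_const continuous_abs
    filter_upwards [this.mem_nhds hx] with y hy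
    exact h y hy
  rw [hev.deriv_eq]
  simp

theorem Supp.mono {φ : ℝ → ℝ} {R R' : ℕ} (h : Supp φ R) (hR : R ≤ R') : Supp φ R' := by
  intro x hx
  exact h x (lt_of_le_of_lt (by exact_mod_cast hR) hx)

theorem supp_plat {θ : ℝ → ℝ} (hθ : IsStep θ) {c w ε : ℚ} (hε : 0 < ε) (hw : 0 < w) :
    Supp (plat θ c w ε) ⌈|c| + w + 2 * ε⌉₊ := by
  intro x hx
  apply plat_eq_zero hθ hε hw
  have h1 : (|(c : ℝ)| + w + 2 * ε : ℝ) ≤ (⌈|c| + w + 2 * ε⌉₊ : ℝ) := by
    have h0 := Nat.le_ceil (|c| + w + 2 * ε)
    have h : ((|c| + w + 2 * ε : ℚ) : ℝ) ≤ ((⌈|c| + w + 2 * ε⌉₊ : ℚ) : ℝ) := by exact_mod_cast h0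
    push_cast at h
    exact h
  have h2 : |x| ≤ |x - c| + |(c : ℝ)| := by
    calc |x| = |(x - c) + c| := by ring_nf
      _ ≤ _ := abs_add_le _ _
  linarith

/-- the stream profile in the shear direction -/
noncomputable def shearProf (θ : ℝ → ℝ) (v r e c w ε : ℚ) (x : ℝ) : ℝ :=
  ((v : ℝ) * (x - e) + (r : ℝ) / 2 * (x - e) ^ 2) * plat θ c w ε x

theorem eff1_shearProf {θ : ℝ → ℝ} (hθ : Eff1 θ) (hs : IsStep θ) (v r e : ℚ) {c w ε : ℚ}
    (hε : 0 < ε) (hw : 0 < w) : Eff1 (shearProf θ v r e c w ε) := by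
  have h0 := eff1_plat hθ c w ε
  have hsupp := supp_plat hs (c := c) hε hw
  have h1 : Eff1 (fun x => x * plat θ c w ε x) := h0.id_mul _ hsupp
  have h2 : Eff1 (fun x => x * (x * plat θ c w ε x)) :=
    h1.id_mul _ (fun x hx => by rw [hsupp x hx, mul_zero])
  -- v (x-e) + r/2 (x^2 - 2 e x + e^2)
  have h3 := ((h2.const_mul (r / 2)).add (h1.const_mul (v - r * e))).add
    (h0.const_mul (r / 2 * e ^ 2 - v * e))
  refine h3.congr fun x => ?_
  unfold shearProf
  push_cast
  ring

theorem supp_shearProf {θ : ℝ → ℝ} (hs : IsStep θ) (v r e : ℚ) {c w ε : ℚ}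
    (hε : 0 < ε) (hw : 0 < w) : Supp (shearProf θ v r e c w ε) ⌈|c| + w + 2 * ε⌉₊ := by
  intro x hx
  unfold shearProf
  rw [supp_plat hs hε hw x hx, mul_zero]

/-- spatial field with separated stream function -/
noncomputable def spX (φ : Fin 3 → ℝ → ℝ) (l1 l2 : Fin 3) (x : Fin 3 → ℝ) : Fin 3 → ℝ :=
  fun j => if j = l1 then ∏ i, Function.update φ l2 (deriv (φ l2)) i (x i)
    else if j = l2 then - ∏ i, Function.update φ l1 (deriv (φ l1)) i (x i) else 0

/-- If some coordinate of `x` is in the interior of the zero set of the profile, the field vanishes -/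
theorem spX_eq_zero {φ : Fin 3 → ℝ → ℝ} {l1 l2 : Fin 3} {x : Fin 3 → ℝ} (j : Fin 3)
    (hj : φ j =ᶠ[𝓝 (x j)] fun _ => 0) : spX φ l1 l2 x = 0 := by
  have h0 : φ j (x j) = 0 := hj.self_of_nhds
  have hd : deriv (φ j) (x j) = 0 := by rw [hj.deriv_eq]; simp
  funext k
  unfold spX
  have hA : ∏ i, Function.update φ l2 (deriv (φ l2)) i (x i) = 0 := by
    apply Finset.prod_eq_zero (Finset.mem_univ j)
    by_cases h : j = l2
    · subst h; simp [hd]
    · simp [h, h0]
  have hB : ∏ i, Function.update φ l1 (deriv (φ l1)) i (x i) = 0 := by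
    apply Finset.prod_eq_zero (Finset.mem_univ j)
    by_cases h : j = l1
    · subst h; simp [hd]
    · simp [h, h0]
  rw [hA, hB]
  simp

theorem exists_field_of_elem {θ : ℝ → ℝ} (hs : IsStep θ) (hθ : Eff1 θ) {n : ℕ}
    {a h : Fin n → Fin 3 → ℚ} {F F' : Fin n → (Fin 3 → ℝ) → (Fin 3 → ℝ)} (hE : Elem a h F F') :
    ∃ (l1 l2 : Fin 3) (φ : Fin 3 → ℝ → ℝ) (R : ℕ), l1 ≠ l2 ∧ (∀ j, Eff1 (φ j)) ∧
      (∀ j, Supp (φ j) R) ∧
      ∀ i, ∀ᶠ x in 𝓝ˢ (box (a i) (h i)), ∀ s ∈ Set.Icc (0 : ℝ) 1,
        spX φ l1 l2 (F i x + s • (F' i x - F i x)) = F' i x - F i x := by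
  obtain ⟨hF, hF', i₀, l1, l2, v, r, e, c, w, hl, hw, hbox, hmove, hother⟩ := hE
  -- compactness of boxes
  have hboxIcc : ∀ c w : Fin 3 → ℚ, box c w
      = Set.Icc (fun j => (c j : ℝ) - w j) (fun j => (c j : ℝ) + w j) := by
    intro c w
    ext x
    simp only [box, Set.mem_ofPred_eq, Set.mem_Icc, Pi.le_def, abs_le]
    constructor
    · intro hx; exact ⟨fun j => by linarith [(hx j).1], fun j => by linarith [(hx j).2]⟩
    · rintro ⟨h1, h2⟩ j; exact ⟨by linarith [h1 j], by linarith [h2 j]⟩
  have hcpt : ∀ c w : Fin 3 → ℚ, IsCompact (box c w) := by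
    intro c w; rw [hboxIcc]; exact isCompact_Icc
  set K : Set (Fin 3 → ℝ) := ⋃ i ∈ (Finset.univ.filter (fun i => i ≠ i₀) : Finset (Fin n)),
    F i '' box (a i) (h i) with hK
  have hKc : IsCompact K := by
    apply Finset.isCompact_biUnion
    intro i _
    exact (hcpt _ _).image (hF i)
  have hKd : Disjoint K (box c w) := by
    rw [hK]
    simp only [Finset.mem_filter, Finset.mem_univ, true_and, Set.disjoint_iUnion_left]
    intro i hi
    exact (hother i hi).2
  obtain ⟨δ, hδ, hdisj⟩ := hKd.exists_cthickenings hKc (hcpt c w).isClosed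
  obtain ⟨ε, hε0, hεδ⟩ : ∃ ε : ℚ, (0 : ℝ) < ε ∧ (ε : ℝ) < δ / 2 :=
    exists_rat_btwn (by positivity)
  have hε : 0 < ε := by exact_mod_cast hε0
  -- profiles
  set φ : Fin 3 → ℝ → ℝ := fun j => if j = l2 then shearProf θ v r e (c j) (w j) ε
    else plat θ (c j) (w j) ε with hφ
  obtain ⟨R, hR⟩ : ∃ R : ℕ, ∀ j, ⌈|c j| + w j + 2 * ε⌉₊ ≤ R :=
    ⟨Finset.univ.sup fun j => ⌈|c j| + w j + 2 * ε⌉₊, fun j => Finset.le_sup (f := fun j => ⌈|c j| + w j + 2 * ε⌉₊) (Finset.mem_univ j)⟩
  refine ⟨l1, l2, φ, R, hl, ?_, ?_, ?_⟩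
  · intro j
    by_cases hj : j = l2
    · simp only [hφ, hj, if_true]; exact eff1_shearProf hθ hs _ _ _ hε (hw _)
    · simp only [hφ, hj, if_false]; exact eff1_plat hθ _ _ _
  · intro j
    refine Supp.mono ?_ (hR j)
    by_cases hj : j = l2
    · simp only [hφ, hj, if_true]; exact supp_shearProf hs _ _ _ hε (hw _)
    · simp only [hφ, hj, if_false]; exact supp_plat hs hε (hw _)
  · intro i
    by_cases hi : i = i₀
    · subst hi
      have hopen : IsOpen {y : Fin 3 → ℝ | ∀ j, |y j - c j| < w j + ε} := by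
        have : {y : Fin 3 → ℝ | ∀ j, |y j - c j| < w j + ε}
            = ⋂ j, {y : Fin 3 → ℝ | |y j - c j| < w j + ε} := by ext; simp
        rw [this]
        apply isOpen_iInter_of_finite
        intro j
        exact isOpen_lt (by fun_prop) continuous_const
      have hsub : ∀ y ∈ box c w, ∀ j, |y j - (c j : ℝ)| < w j + ε := by
        intro y hy j
        have : |y j - (c j : ℝ)| ≤ w j := hy j
        linarith
      have e1 : ∀ᶠ x in 𝓝ˢ (box (a i) (h i)), ∀ j, |F i x j - c j| < w j + ε := by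
        have : IsOpen (F i ⁻¹' {y | ∀ j, |y j - c j| < w j + ε}) := hopen.preimage (hF i)
        exact this.mem_nhdsSet.2 fun x hx => hsub _ (hbox x hx).1
      have e2 : ∀ᶠ x in 𝓝ˢ (box (a i) (h i)), ∀ j, |F' i x j - c j| < w j + ε := by
        have : IsOpen (F' i ⁻¹' {y | ∀ j, |y j - c j| < w j + ε}) := hopen.preimage (hF' i)
        exact this.mem_nhdsSet.2 fun x hx => hsub _ (hbox x hx).2
      filter_upwards [e1, e2] with x hx1 hx2 s hs01
      have hdiff : F' i x - F i x
          = ((v : ℝ) + (r : ℝ) * (F i x l2 - (e : ℝ))) • (Pi.single l1 (1 : ℝ)) := by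
        rw [hmove x]; simp
      set y := F i x + s • (F' i x - F i x) with hy
      have hyj : ∀ j, |y j - c j| < w j + ε := by
        intro j
        have h1 := abs_lt.1 (hx1 j)
        have h2 := abs_lt.1 (hx2 j)
        have hyv : y j = (1 - s) * F i x j + s * F' i x j := by
          simp [hy]; ring
        have e1 : y j - c j = (1 - s) * (F i x j - c j) + s * (F' i x j - c j) := by
          rw [hyv]; ring
        rw [e1, abs_lt]
        have hs0 := hs01.1
        have hs1 := hs01.2
        constructor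
        · rcases eq_or_lt_of_le hs0 with h0 | h0
          · rw [← h0]; linarith [h1.1]
          · nlinarith [h1.1, h2.1]
        · rcases eq_or_lt_of_le hs0 with h0 | h0
          · rw [← h0]; linarith [h1.2]
          · nlinarith [h1.2, h2.2]
      have hyl2 : y l2 = F i x l2 := by
        simp [hy, hdiff, hl.symm]
      -- local form of profiles
      have hnear : ∀ j, ∀ᶠ z : ℝ in 𝓝 (y j), |z - (c j : ℝ)| < w j + ε := fun j =>
        (isOpen_lt (by fun_prop) continuous_const).mem_nhds (hyj j)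
      have hplat : ∀ j, plat θ (c j) (w j) ε =ᶠ[𝓝 (y j)] fun _ => 1 := fun j => by
        filter_upwards [hnear j] with z hz
        exact plat_eq_one hs hε hz.le
      have hφl2 : φ l2 = shearProf θ v r e (c l2) (w l2) ε := by simp [hφ]
      have hφne : ∀ j, j ≠ l2 → φ j = plat θ (c j) (w j) ε := fun j hj => by simp [hφ, hj]
      have hprof : φ l2 =ᶠ[𝓝 (y l2)] fun z => (v : ℝ) * (z - e) + (r : ℝ) / 2 * (z - e) ^ 2 := by
        rw [hφl2]
        filter_upwards [hplat l2] with z hz
        unfold shearProf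
        rw [hz, mul_one]
      have hdprof : deriv (φ l2) (y l2) = v + r * (y l2 - e) := by
        rw [hprof.deriv_eq]
        have : HasDerivAt (fun z : ℝ => (v : ℝ) * (z - e) + (r : ℝ) / 2 * (z - e) ^ 2)
            (v * 1 + r / 2 * (2 * (y l2 - e) ^ 1 * 1)) (y l2) := by
          have h1 : HasDerivAt (fun z : ℝ => z - (e : ℝ)) 1 (y l2) :=
            (hasDerivAt_id _).sub_const _
          exact (h1.const_mul _).add ((h1.pow 2).const_mul _)
        rw [this.deriv]; ring
      have hdl1 : deriv (φ l1) (y l1) = 0 := by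
        rw [hφne l1 hl, (hplat l1).deriv_eq]; simp
      rw [hdiff]
      funext j
      unfold spX
      by_cases hj1 : j = l1
      · subst hj1
        rw [if_pos rfl]
        rw [← Finset.mul_prod_erase Finset.univ _ (Finset.mem_univ l2)]
        have : ∏ i ∈ Finset.univ.erase l2, Function.update φ l2 (deriv (φ l2)) i (y i) = 1 := by
          apply Finset.prod_eq_one
          intro k hk
          have hk' : k ≠ l2 := Finset.ne_of_mem_erase hk
          rw [Function.update_of_ne hk', hφne k hk']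
          exact (hplat k).self_of_nhds
        rw [this, mul_one, Function.update_self, hdprof, hyl2]
        simp
      · rw [if_neg hj1]
        by_cases hj2 : j = l2
        · rw [if_pos hj2]
          have : ∏ i, Function.update φ l1 (deriv (φ l1)) i (y i) = 0 := by
            apply Finset.prod_eq_zero (Finset.mem_univ l1)
            rw [Function.update_self, hdl1]
          rw [this]
          simp [hj1]
        · rw [if_neg hj2]
          simp [hj1]
    · -- other boxes do not move
      obtain ⟨hFF, _⟩ := hother i hi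
      have hev : ∀ᶠ x in 𝓝ˢ (box (a i) (h i)), F i x ∈ Metric.thickening δ K := by
        have : IsOpen (F i ⁻¹' Metric.thickening δ K) :=
          Metric.isOpen_thickening.preimage (hF i)
        refine this.mem_nhdsSet.2 fun x hx => ?_
        apply Metric.self_subset_thickening hδ
        rw [hK]
        simp only [Finset.mem_filter, Finset.mem_univ, true_and, Set.mem_iUnion]
        exact ⟨i, hi, x, hx, rfl⟩
      filter_upwards [hev] with x hx s _
      rw [hFF]
      simp only [sub_self, smul_zero, add_zero]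
      -- F i x is not in the enlarged box
      have hnot : ∃ j, (w j : ℝ) + 2 * ε < |F i x j - c j| := by
        by_contra hcon
        push Not at hcon
        have hmem : F i x ∈ Metric.cthickening δ (box c w) := by
          -- clamp
          set z : Fin 3 → ℝ := fun j => max ((c j : ℝ) - w j) (min (F i x j) ((c j : ℝ) + w j)) with hz
          have hwj : ∀ j, (0 : ℝ) < w j := fun j => by exact_mod_cast hw j
          have hzbox : z ∈ box c w := by
            intro j
            have := hwj j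
            simp only [hz]
            rw [abs_le]
            constructor
            · have := le_max_left ((c j : ℝ) - w j) (min (F i x j) ((c j : ℝ) + w j))
              linarith
            · have : max ((c j : ℝ) - w j) (min (F i x j) ((c j : ℝ) + w j)) ≤ (c j : ℝ) + w j :=
                max_le (by linarith) (min_le_right _ _)
              linarith
          have hdist : dist (F i x) z ≤ δ := by
            rw [dist_pi_le_iff hδ.le]
            intro j
            have hc := abs_le.1 (hcon j)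
            have := hwj j
            rw [Real.dist_eq, abs_le]
            simp only [hz]
            rcases le_total (F i x j) ((c j : ℝ) + w j) with h1 | h1
            · rw [min_eq_left h1]
              rcases le_total ((c j : ℝ) - w j) (F i x j) with h2 | h2
              · rw [max_eq_right h2]; constructor <;> linarith
              · rw [max_eq_left h2]; constructor <;> linarith [hc.1]
            · rw [min_eq_right h1, max_eq_right (by linarith)]
              constructor <;> linarith [hc.2]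
          exact Metric.mem_cthickening_of_dist_le _ _ _ _ hzbox hdist
        exact Set.disjoint_left.1 hdisj (Metric.thickening_subset_cthickening _ _ hx) hmem
      obtain ⟨j, hj⟩ := hnot
      apply spX_eq_zero j
      have hnear : ∀ᶠ z : ℝ in 𝓝 (F i x j), (w j : ℝ) + 2 * ε < |z - (c j : ℝ)| :=
        (isOpen_lt continuous_const (by fun_prop)).mem_nhds hj
      filter_upwards [hnear] with z hz
      have hp : plat θ (c j) (w j) ε z = 0 := plat_eq_zero hs hε (hw j) hz.le
      simp only [hφ]
      by_cases hj2 : j = l2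
      · simp only [hj2, if_true]
        unfold shearProf
        rw [← hj2, hp, mul_zero]
      · simp only [hj2, if_false]
        exact hp

end Crest.Agent.S0170
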