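import Crest.Agent.S0170_Defs
/-! T1: computability of rational arithmetic with respect to the `Primcodable ℚ` structure coming
from Mathlib's `Denumerable ℚ`. -/
open scoped ContDiff
open Encodable Denumerable
namespace Crest.Agent.S0170

section general
variable {α β σ : Type*} [Primcodable α] [Primcodable β] [Primcodable σ]

/-- least witness search is computable -/
theorem computable_find {p : α → ℕ → Bool} (hp : Computable₂ p) (h : ∀ a, ∃ n, p a n = true) :
    Computable (fun a => Nat.find (h a)) := by
  have h1 : Partrec₂ (fun (a : α) (n : ℕ) => (Part.some (p a n))) := hp.partrec₂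
  refine (Partrec.rfind h1).of_eq_tot fun a => ?_
  refine Nat.mem_rfind.2 ⟨?_, ?_⟩
  · simp [Nat.find_spec (h a)]
  · intro m hm
    have := Nat.find_min (h a) hm
    simpa using this

/-- a function into a denumerable type with computable graph is computable -/
theorem computable_of_graph {β : Type*} [Denumerable β] {f : α → β} {R : α → β → Bool}
    (hR : Computable₂ R) (h : ∀ a b, R a b = true ↔ b = f a) : Computable f := by
  have h1 : Computable₂ (fun (a : α) (n : ℕ) => R a (ofNat β n)) :=
    hR.comp Computable.fst ((Computable.ofNat β).comp Computable.snd)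
  have h2 : ∀ a, ∃ n, R a (ofNat β n) = true := fun a =>
    ⟨encode (f a), by rw [ofNat_encode, h]⟩
  have h3 := (Computable.ofNat β).comp (computable_find h1 h2)
  refine h3.of_eq fun a => ?_
  exact (h _ _).1 (Nat.find_spec (h2 a))

end general

/-- raw code of a rational number -/
def raw (q : ℚ) : ℕ := @Encodable.encode ℚ Rat.instEncodable q

theorem raw_eq (q : ℚ) : raw q = Nat.pair (Encodable.encode q.num) q.den := rfl

noncomputable instance infRange : Infinite (Set.range raw) :=
  Infinite.of_injective _
    (Equiv.ofInjective _ (@encode_injective ℚ Rat.instEncodable)).injective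

noncomputable instance decRange : DecidablePred (· ∈ Set.range raw) :=
  @decidableRangeEncode ℚ Rat.instEncodable

theorem raw_ofNat (n : ℕ) :
    raw (Denumerable.ofNat ℚ n) = (Nat.Subtype.ofNat (Set.range raw) n : ℕ) := by
  have h1 : Denumerable.ofNat ℚ n
      = (@equivRangeEncode ℚ Rat.instEncodable).symm (Nat.Subtype.ofNat (Set.range raw) n) := rfl
  rw [h1]
  exact congrArg Subtype.val (Equiv.apply_symm_apply (@equivRangeEncode ℚ Rat.instEncodable) _)

/-- code `n` to raw code -/
def rr (n : ℕ) : ℕ := raw (Denumerable.ofNat ℚ n)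

theorem rr_zero_le (q : ℚ) : rr 0 ≤ raw q := by
  unfold rr
  rw [raw_ofNat]
  have : (⊥ : Set.range raw) ≤ ⟨raw q, q, rfl⟩ := bot_le
  exact this

theorem rr_lt_succ (n : ℕ) : rr n < rr (n + 1) := by
  unfold rr
  rw [raw_ofNat, raw_ofNat]
  exact Nat.Subtype.lt_succ_self (Nat.Subtype.ofNat (Set.range raw) n)

theorem rr_succ_le {n : ℕ} {q : ℚ} (h : rr n < raw q) : rr (n + 1) ≤ raw q := by
  unfold rr at h ⊢
  rw [raw_ofNat] at h ⊢
  exact Nat.Subtype.succ_le_of_lt (x := (⟨raw q, q, rfl⟩ : Set.range raw))
    (y := Nat.Subtype.ofNat (Set.range raw) n) h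

/-- absolute value of the integer with code `c` -/
def cabs (c : ℕ) : ℕ := if c % 2 = 0 then c / 2 else c / 2 + 1

theorem encode_int_nonneg (k : ℕ) : Encodable.encode (k : ℤ) = 2 * k := rfl
theorem encode_int_negSucc (k : ℕ) : Encodable.encode (Int.negSucc k) = 2 * k + 1 := rfl

theorem cabs_encode (z : ℤ) : cabs (Encodable.encode z) = z.natAbs := by
  unfold cabs
  cases z with
  | ofNat k =>
    have : Encodable.encode (Int.ofNat k) = 2 * k := rfl
    rw [this]
    simp
  | negSucc k =>
    have : Encodable.encode (Int.negSucc k) = 2 * k + 1 := rfl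
    rw [this]
    have h1 : (2 * k + 1) % 2 = 1 := by omega
    have h2 : (2 * k + 1) / 2 = k := by omega
    rw [h1, h2]
    simp [Int.natAbs_negSucc]

/-- decidable description of the raw codes -/
def inS (m : ℕ) : Prop :=
  0 < m.unpair.2 ∧ ∀ k < m.unpair.2 + 1, ¬ (1 < k ∧ cabs m.unpair.1 % k = 0 ∧ m.unpair.2 % k = 0)

instance : DecidablePred inS := fun m => by unfold inS; infer_instance

theorem inS_raw (q : ℚ) : inS (raw q) := by
  unfold inS
  rw [raw_eq, Nat.unpair_pair]
  refine ⟨q.den_pos, fun k _ hk => ?_⟩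
  simp only [cabs_encode] at hk
  obtain ⟨h1, h2, h3⟩ := hk
  have hcop : Nat.gcd q.num.natAbs q.den = 1 := q.reduced
  have : k ∣ Nat.gcd q.num.natAbs q.den :=
    Nat.dvd_gcd (Nat.dvd_of_mod_eq_zero h2) (Nat.dvd_of_mod_eq_zero h3)
  rw [hcop] at this
  have := Nat.le_of_dvd one_pos this
  omega

theorem exists_raw_of_inS {m : ℕ} (h : inS m) : ∃ q, raw q = m := by
  obtain ⟨h0, h1⟩ := h
  set c := m.unpair.1 with hc
  set d := m.unpair.2 with hd
  set z : ℤ := Denumerable.ofNat ℤ c with hz
  have hzc : Encodable.encode z = c := by rw [hz, Denumerable.encode_ofNat]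
  have hcop : Nat.Coprime z.natAbs d := by
    rw [Nat.coprime_iff_gcd_eq_one]
    by_contra hne
    set k := Nat.gcd z.natAbs d with hk
    have hkd : k ∣ d := Nat.gcd_dvd_right _ _
    have hkz : k ∣ z.natAbs := Nat.gcd_dvd_left _ _
    have hk0 : 0 < k := Nat.pos_of_dvd_of_pos hkd h0
    have hkle : k ≤ d := Nat.le_of_dvd h0 hkd
    apply h1 k (by omega)
    refine ⟨by omega, ?_, Nat.mod_eq_zero_of_dvd hkd⟩
    rw [← hzc, cabs_encode]
    exact Nat.mod_eq_zero_of_dvd hkz
  refine ⟨⟨z, d, h0.ne', hcop⟩, ?_⟩
  rw [raw_eq]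
  simp only
  rw [hzc, hc, hd, Nat.pair_unpair]

theorem comp_inS : Computable (fun m => decide (inS m)) := by
  have hu1 : Primrec (fun m : ℕ => m.unpair.1) := Primrec.fst.comp Primrec.unpair
  have hu2 : Primrec (fun m : ℕ => m.unpair.2) := Primrec.snd.comp Primrec.unpair
  have hcabs : Primrec cabs := by
    unfold cabs
    refine Primrec.ite ?_ ?_ ?_
    · exact Primrec.eq.comp (Primrec.nat_mod.comp Primrec.id (Primrec.const 2)) (Primrec.const 0)
    · exact Primrec.nat_div.comp Primrec.id (Primrec.const 2)
    · exact Primrec.succ.comp (Primrec.nat_div.comp Primrec.id (Primrec.const 2))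
  have hR : PrimrecRel (fun (k m : ℕ) =>
      ¬ (1 < k ∧ cabs m.unpair.1 % k = 0 ∧ m.unpair.2 % k = 0)) := by
    have a1 : PrimrecPred (fun p : ℕ × ℕ => 1 < p.1) :=
      Primrec.nat_lt.comp (Primrec.const 1) Primrec.fst
    have a2 : PrimrecPred (fun p : ℕ × ℕ => cabs p.2.unpair.1 % p.1 = 0) :=
      Primrec.eq.comp (Primrec.nat_mod.comp (hcabs.comp (hu1.comp Primrec.snd)) Primrec.fst)
        (Primrec.const 0)
    have a3 : PrimrecPred (fun p : ℕ × ℕ => p.2.unpair.2 % p.1 = 0) :=
      Primrec.eq.comp (Primrec.nat_mod.comp (hu2.comp Primrec.snd) Primrec.fst)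
        (Primrec.const 0)
    exact (a1.and (a2.and a3)).not
  have hall := hR.forall_lt
  have h2 : PrimrecPred (fun m : ℕ => ∀ k < m.unpair.2 + 1,
      ¬ (1 < k ∧ cabs m.unpair.1 % k = 0 ∧ m.unpair.2 % k = 0)) :=
    hall.comp (Primrec.succ.comp hu2) Primrec.id
  have h1 : PrimrecPred (fun m : ℕ => 0 < m.unpair.2) := Primrec.nat_lt.comp (Primrec.const 0) hu2
  have h3 : PrimrecPred inS := h1.and h2
  exact h3.decide.to_comp

theorem comp_rr : Computable rr := by
  have e0 : ∃ n, (fun n => decide (inS n)) n = true := ⟨raw 0, by simpa using inS_raw 0⟩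
  have hgt : ∀ m : ℕ, ∃ n, (decide (inS n) && decide (m < n)) = true := by
    intro m
    obtain ⟨q, hq⟩ : ∃ q : ℚ, m < raw q := by
      have hmono : StrictMono rr := strictMono_nat_of_lt_succ rr_lt_succ
      exact ⟨Denumerable.ofNat ℚ (m + 1), lt_of_lt_of_le (Nat.lt_succ_self m) (hmono.le_apply)⟩
    exact ⟨raw q, by simp [inS_raw, hq]⟩
  have hnext : Computable (fun m : ℕ => Nat.find (hgt m)) := by
    apply computable_find (p := fun m n => decide (inS n) && decide (m < n))
    have b1 : Computable (fun p : ℕ × ℕ => decide (inS p.2)) := comp_inS.comp Computable.snd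
    have b2 : Computable (fun p : ℕ × ℕ => decide (p.1 < p.2)) := (Primrec.nat_lt.decide).to_comp
    exact (Primrec.and.to_comp).comp b1 b2
  have hrec : Computable (fun n : ℕ =>
      (Nat.rec (Nat.find e0) (fun _ r => Nat.find (hgt r)) n : ℕ)) :=
    Computable.nat_rec (f := fun n : ℕ => n) (g := fun _ => Nat.find e0)
      (h := fun (_ : ℕ) (p : ℕ × ℕ) => Nat.find (hgt p.2)) Computable.id (Computable.const _)
      (hnext.comp (Computable.snd.comp Computable.snd)).to₂
  refine hrec.of_eq fun n => ?_
  induction n with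
  | zero =>
    apply le_antisymm
    · apply Nat.find_min'
      exact decide_eq_true (inS_raw _)
    · have := Nat.find_spec e0
      obtain ⟨q, hq⟩ := exists_raw_of_inS (of_decide_eq_true this)
      show rr 0 ≤ Nat.find e0
      rw [← hq]
      exact rr_zero_le q
  | succ n ih =>
    show Nat.find (hgt (Nat.rec (Nat.find e0) (fun _ r => Nat.find (hgt r)) n)) = rr (n + 1)
    have hcongr : ∀ r, r = rr n → Nat.find (hgt r) = rr (n + 1) := by
      rintro r rfl
      apply le_antisymm
      · apply Nat.find_min'
        simp only [Bool.and_eq_true, decide_eq_true_eq]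
        exact ⟨inS_raw _, rr_lt_succ n⟩
      · have hsp := Nat.find_spec (hgt (rr n))
        simp only [Bool.and_eq_true, decide_eq_true_eq] at hsp
        obtain ⟨q, hq⟩ := exists_raw_of_inS hsp.1
        have h2 := hsp.2
        rw [← hq] at h2
        refine (rr_succ_le h2).trans_eq (hq.trans ?_)
        congr!
        simp
    exact hcongr _ ih

theorem comp_raw : Computable raw := by
  refine (comp_rr.comp Computable.encode).of_eq fun q => ?_
  unfold rr
  rw [ofNat_encode]

theorem T1_den : Computable (fun q : ℚ => q.den) := by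
  refine ((Primrec.snd.comp Primrec.unpair).to_comp.comp comp_raw).of_eq fun q => ?_
  rw [raw_eq, Nat.unpair_pair]

theorem T1_num : Computable (fun q : ℚ => q.num) := by
  have h : Computable (fun q : ℚ => (raw q).unpair.1) :=
    (Primrec.fst.comp Primrec.unpair).to_comp.comp comp_raw
  refine ((Computable.ofNat ℤ).comp h).of_eq fun q => ?_
  rw [raw_eq, Nat.unpair_pair]
  exact ofNat_encode q.num

/-- positive part of the numerator -/
def npos (q : ℚ) : ℕ := q.num.toNat
/-- negative part of the numerator -/
def nneg (q : ℚ) : ℕ := (-q.num).toNat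

theorem comp_npos : Computable npos := by
  have h : Computable (fun q : ℚ => (raw q).unpair.1) :=
    (Primrec.fst.comp Primrec.unpair).to_comp.comp comp_raw
  have hp : Primrec (fun c : ℕ => if c % 2 = 0 then c / 2 else 0) := by
    refine Primrec.ite ?_ ?_ ?_
    · exact Primrec.eq.comp (Primrec.nat_mod.comp Primrec.id (Primrec.const 2)) (Primrec.const 0)
    · exact Primrec.nat_div.comp Primrec.id (Primrec.const 2)
    · exact Primrec.const 0
  refine (hp.to_comp.comp h).of_eq fun q => ?_
  rw [raw_eq, Nat.unpair_pair]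
  unfold npos
  simp only
  cases q.num with
  | ofNat k =>
    have : Encodable.encode (Int.ofNat k) = 2 * k := rfl
    rw [this]
    simp
  | negSucc k =>
    have : Encodable.encode (Int.negSucc k) = 2 * k + 1 := rfl
    rw [this]
    have h1 : (2 * k + 1) % 2 = 1 := by omega
    rw [h1]
    simp

theorem comp_nneg : Computable nneg := by
  have h : Computable (fun q : ℚ => (raw q).unpair.1) :=
    (Primrec.fst.comp Primrec.unpair).to_comp.comp comp_raw
  have hp : Primrec (fun c : ℕ => if c % 2 = 0 then 0 else c / 2 + 1) := by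
    refine Primrec.ite ?_ ?_ ?_
    · exact Primrec.eq.comp (Primrec.nat_mod.comp Primrec.id (Primrec.const 2)) (Primrec.const 0)
    · exact Primrec.const 0
    · exact Primrec.succ.comp (Primrec.nat_div.comp Primrec.id (Primrec.const 2))
  refine (hp.to_comp.comp h).of_eq fun q => ?_
  rw [raw_eq, Nat.unpair_pair]
  unfold nneg
  simp only
  cases q.num with
  | ofNat k =>
    have : Encodable.encode (Int.ofNat k) = 2 * k := rfl
    rw [this]
    simp
  | negSucc k =>
    have : Encodable.encode (Int.negSucc k) = 2 * k + 1 := rfl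
    rw [this]
    have h1 : (2 * k + 1) % 2 = 1 := by omega
    have h2 : (2 * k + 1) / 2 = k := by omega
    rw [h1, h2]
    simp [Int.neg_negSucc]

theorem num_eq (q : ℚ) : (q.num : ℤ) = (npos q : ℤ) - (nneg q : ℤ) := by
  unfold npos nneg
  omega

theorem cast_eq (q : ℚ) : q = ((npos q : ℚ) - (nneg q : ℚ)) / (q.den : ℚ) := by
  have h := num_eq q
  have h' : (q.num : ℚ) = (npos q : ℚ) - (nneg q : ℚ) := by exact_mod_cast h
  rw [← h']
  exact (Rat.num_div_den q).symm

section arith

variable {α : Type*} [Primcodable α]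

private theorem cnatMul : Computable₂ (fun m n : ℕ => m * n) := Primrec.nat_mul.to_comp
private theorem cnatAdd : Computable₂ (fun m n : ℕ => m + n) := Primrec.nat_add.to_comp
private theorem cnatLe : Computable₂ (fun m n : ℕ => decide (m ≤ n)) := Primrec.nat_le.decide.to_comp
private theorem cnatEq : Computable₂ (fun m n : ℕ => decide (m = n)) := Primrec.eq.decide.to_comp

/-- computability of `(P - N)/D` given by natural numbers, `D ≠ 0` -/
theorem comp_mkRat {P N D : α → ℕ} (hP : Computable P) (hN : Computable N) (hD : Computable D)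
    (hD0 : ∀ a, D a ≠ 0) : Computable (fun a => ((P a : ℚ) - (N a : ℚ)) / (D a : ℚ)) := by
  apply computable_of_graph (R := fun (a : α) (q : ℚ) =>
    decide (npos q * D a + N a * q.den = nneg q * D a + P a * q.den))
  · refine cnatEq.comp ?_ ?_
    · exact cnatAdd.comp (cnatMul.comp (comp_npos.comp Computable.snd) (hD.comp Computable.fst))
        (cnatMul.comp (hN.comp Computable.fst) (T1_den.comp Computable.snd))
    · exact cnatAdd.comp (cnatMul.comp (comp_nneg.comp Computable.snd) (hD.comp Computable.fst))
        (cnatMul.comp (hP.comp Computable.fst) (T1_den.comp Computable.snd))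
  · intro a q
    rw [decide_eq_true_eq]
    have hd : (q.den : ℚ) ≠ 0 := by exact_mod_cast q.den_nz
    have hDa : (D a : ℚ) ≠ 0 := by exact_mod_cast hD0 a
    have hq := cast_eq q
    constructor
    · intro h
      have h' : (npos q : ℚ) * D a + N a * q.den = nneg q * D a + P a * q.den := by
        exact_mod_cast h
      rw [hq, div_eq_div_iff hd hDa]
      linarith
    · intro h
      rw [hq, div_eq_div_iff hd hDa] at h
      have : (npos q : ℚ) * D a + N a * q.den = nneg q * D a + P a * q.den := by linarith
      exact_mod_cast this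

theorem T1_add : Computable₂ (fun p q : ℚ => p + q) := by
  have h := comp_mkRat (α := ℚ × ℚ)
    (P := fun x => npos x.1 * x.2.den + npos x.2 * x.1.den)
    (N := fun x => nneg x.1 * x.2.den + nneg x.2 * x.1.den)
    (D := fun x => x.1.den * x.2.den)
    (cnatAdd.comp (cnatMul.comp (comp_npos.comp Computable.fst) (T1_den.comp Computable.snd))
      (cnatMul.comp (comp_npos.comp Computable.snd) (T1_den.comp Computable.fst)))
    (cnatAdd.comp (cnatMul.comp (comp_nneg.comp Computable.fst) (T1_den.comp Computable.snd))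
      (cnatMul.comp (comp_nneg.comp Computable.snd) (T1_den.comp Computable.fst)))
    (cnatMul.comp (T1_den.comp Computable.fst) (T1_den.comp Computable.snd))
    (fun x => Nat.mul_ne_zero x.1.den_nz x.2.den_nz)
  refine h.of_eq fun x => ?_
  have h1 : (x.1.den : ℚ) ≠ 0 := by exact_mod_cast x.1.den_nz
  have h2 : (x.2.den : ℚ) ≠ 0 := by exact_mod_cast x.2.den_nz
  conv_rhs => rw [cast_eq x.1, cast_eq x.2]
  push_cast
  field_simp
  ring

theorem T1_mul : Computable₂ (fun p q : ℚ => p * q) := by
  have h := comp_mkRat (α := ℚ × ℚ)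
    (P := fun x => npos x.1 * npos x.2 + nneg x.1 * nneg x.2)
    (N := fun x => npos x.1 * nneg x.2 + nneg x.1 * npos x.2)
    (D := fun x => x.1.den * x.2.den)
    (cnatAdd.comp (cnatMul.comp (comp_npos.comp Computable.fst) (comp_npos.comp Computable.snd))
      (cnatMul.comp (comp_nneg.comp Computable.fst) (comp_nneg.comp Computable.snd)))
    (cnatAdd.comp (cnatMul.comp (comp_npos.comp Computable.fst) (comp_nneg.comp Computable.snd))
      (cnatMul.comp (comp_nneg.comp Computable.fst) (comp_npos.comp Computable.snd)))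
    (cnatMul.comp (T1_den.comp Computable.fst) (T1_den.comp Computable.snd))
    (fun x => Nat.mul_ne_zero x.1.den_nz x.2.den_nz)
  refine h.of_eq fun x => ?_
  have h1 : (x.1.den : ℚ) ≠ 0 := by exact_mod_cast x.1.den_nz
  have h2 : (x.2.den : ℚ) ≠ 0 := by exact_mod_cast x.2.den_nz
  conv_rhs => rw [cast_eq x.1, cast_eq x.2]
  push_cast
  field_simp
  ring

theorem T1_natCast : Computable (fun n : ℕ => (n : ℚ)) := by
  have h := comp_mkRat (α := ℕ) (P := fun n => n) (N := fun _ => 0) (D := fun _ => 1)
    Computable.id (Computable.const 0) (Computable.const 1) (fun _ => one_ne_zero)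
  exact h.of_eq fun n => by simp

theorem T1_le : Computable₂ (fun p q : ℚ => decide (p ≤ q)) := by
  have h : Computable (fun x : ℚ × ℚ =>
      decide (npos x.1 * x.2.den + nneg x.2 * x.1.den ≤ npos x.2 * x.1.den + nneg x.1 * x.2.den)) := by
    refine cnatLe.comp ?_ ?_
    · exact cnatAdd.comp (cnatMul.comp (comp_npos.comp Computable.fst) (T1_den.comp Computable.snd))
        (cnatMul.comp (comp_nneg.comp Computable.snd) (T1_den.comp Computable.fst))
    · exact cnatAdd.comp (cnatMul.comp (comp_npos.comp Computable.snd) (T1_den.comp Computable.fst))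
        (cnatMul.comp (comp_nneg.comp Computable.fst) (T1_den.comp Computable.snd))
  refine h.of_eq fun x => ?_
  rw [decide_eq_decide]
  have h1 : (0 : ℚ) < (x.1.den : ℚ) := by exact_mod_cast x.1.den_pos
  have h2 : (0 : ℚ) < (x.2.den : ℚ) := by exact_mod_cast x.2.den_pos
  conv_rhs => rw [cast_eq x.1, cast_eq x.2]
  rw [div_le_div_iff₀ h1 h2]
  constructor
  · intro h
    have : ((npos x.1 * x.2.den + nneg x.2 * x.1.den : ℕ) : ℚ)
      ≤ ((npos x.2 * x.1.den + nneg x.1 * x.2.den : ℕ) : ℚ) := by exact_mod_cast h
    push_cast at this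
    linarith
  · intro h
    have : ((npos x.1 * x.2.den + nneg x.2 * x.1.den : ℕ) : ℚ)
      ≤ ((npos x.2 * x.1.den + nneg x.1 * x.2.den : ℕ) : ℚ) := by
      push_cast
      linarith
    exact_mod_cast this

theorem T1_neg : Computable (fun q : ℚ => -q) :=
  (T1_mul.comp (Computable.const (-1)) Computable.id).of_eq fun q => by simp

theorem T1_inv : Computable (fun q : ℚ => q⁻¹) := by
  -- graph: p = q⁻¹ iff (q = 0 ∧ p = 0) ∨ (q ≠ 0 ∧ p * q = 1)
  have hzero : Computable (fun q : ℚ => decide (q = 0)) :=
    (Primrec.eq.decide.to_comp).comp Computable.id (Computable.const 0)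
  apply computable_of_graph (R := fun (q : ℚ) (p : ℚ) =>
    (decide (q = 0) && decide (p = 0)) || (!decide (q = 0) && decide (p * q = 1)))
  · refine (Primrec.or.to_comp).comp ?_ ?_
    · exact (Primrec.and.to_comp).comp (hzero.comp Computable.fst) (hzero.comp Computable.snd)
    · refine (Primrec.and.to_comp).comp ?_ ?_
      · exact (Primrec.not.to_comp).comp (hzero.comp Computable.fst)
      · exact (Primrec.eq.decide.to_comp).comp (T1_mul.comp Computable.snd Computable.fst)
          (Computable.const 1)
  · intro q p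
    by_cases hq : q = 0
    · subst hq; simp
    · simp only [hq, decide_false, Bool.false_and, Bool.not_false, Bool.true_and, Bool.false_or,
        decide_eq_true_eq]
      constructor
      · intro h; exact eq_inv_of_mul_eq_one_left h
      · intro h; rw [h]; exact inv_mul_cancel₀ hq

theorem T1_natCeilAbs : Computable (fun q : ℚ => ⌈|q|⌉₊) := by
  have habs : ∀ q : ℚ, |q| = ((npos q + nneg q : ℕ) : ℚ) / q.den := by
    intro q
    have h1 : (0 : ℚ) < (q.den : ℚ) := by exact_mod_cast q.den_pos
    conv_lhs => rw [cast_eq q]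
    rw [abs_div, abs_of_pos h1]
    congr 1
    unfold npos nneg
    rcases le_total 0 q.num with h | h
    · have e1 : (-q.num).toNat = 0 := by omega
      rw [e1]
      push_cast
      simp
    · have e1 : (q.num).toNat = 0 := by omega
      rw [e1]
      push_cast
      simp
  have hex : ∀ q : ℚ, ∃ n : ℕ, decide (npos q + nneg q ≤ n * q.den) = true := by
    intro q
    refine ⟨npos q + nneg q, ?_⟩
    rw [decide_eq_true_eq]
    exact Nat.le_mul_of_pos_right _ q.den_pos
  have hc : Computable (fun q : ℚ => Nat.find (hex q)) := by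
    apply computable_find (p := fun q n => decide (npos q + nneg q ≤ n * q.den))
    refine cnatLe.comp ?_ ?_
    · exact cnatAdd.comp (comp_npos.comp Computable.fst) (comp_nneg.comp Computable.fst)
    · exact cnatMul.comp Computable.snd (T1_den.comp Computable.fst)
  refine hc.of_eq fun q => ?_
  have h1 : (0 : ℚ) < (q.den : ℚ) := by exact_mod_cast q.den_pos
  have key : ∀ n : ℕ, (npos q + nneg q ≤ n * q.den) ↔ ⌈|q|⌉₊ ≤ n := by
    intro n
    rw [Nat.ceil_le, habs, div_le_iff₀ h1]
    constructor
    · intro h; exact_mod_cast h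
    · intro h; exact_mod_cast h
  apply le_antisymm
  · apply Nat.find_min'
    rw [decide_eq_true_eq, key]
  · have := Nat.find_spec (hex q)
    rw [decide_eq_true_eq, key] at this
    exact this

theorem T1_sum {f : α → ℕ → ℚ} {k : α → ℕ} (hf : Computable₂ f)
    (hk : Computable k) : Computable (fun a => ∑ i ∈ Finset.range (k a), f a i) := by
  have h : Computable (fun a => (Nat.rec (0 : ℚ) (fun i s => s + f a i) (k a) : ℚ)) := by
    refine Computable.nat_rec (f := k) (g := fun _ => (0 : ℚ))
      (h := fun a (p : ℕ × ℚ) => p.2 + f a p.1) hk (Computable.const 0) ?_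
    exact T1_add.comp (Computable.snd.comp Computable.snd)
      (hf.comp Computable.fst (Computable.fst.comp Computable.snd))
  refine h.of_eq fun a => ?_
  generalize k a = m
  induction m with
  | zero => simp
  | succ m ih =>
    rw [Finset.sum_range_succ, ← ih]

theorem T1_pow : Computable₂ (fun (q : ℚ) (n : ℕ) => q ^ n) := by
  have h : Computable (fun x : ℚ × ℕ => (Nat.rec (1 : ℚ) (fun _ s => s * x.1) x.2 : ℚ)) := by
    refine Computable.nat_rec (f := fun x : ℚ × ℕ => x.2) (g := fun _ => (1 : ℚ))
      (h := fun x (p : ℕ × ℚ) => p.2 * x.1) Computable.snd (Computable.const 1) ?_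
    exact T1_mul.comp (Computable.snd.comp Computable.snd) (Computable.fst.comp Computable.fst)
  refine h.of_eq fun x => ?_
  obtain ⟨q, n⟩ := x
  simp only
  induction n with
  | zero => simp
  | succ n ih => rw [pow_succ, ← ih]

end arith

end Crest.Agent.S0170
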