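import Crest.Agent.S0170_CR
/-! T2, part 1: the smooth step `θ` as fixed point of an averaging operator. -/
open scoped ContDiff Topology
open MeasureTheory
namespace Crest.Agent.S0170

/-- averaging operator -/
noncomputable def TT (f : ℝ → ℝ) (x : ℝ) : ℝ := ∫ u in (0 : ℝ)..1, f (3 * x - 2 * u)

structure Adm (f : ℝ → ℝ) : Prop where
  cont : Continuous f
  zero : ∀ x, x ≤ 0 → f x = 0
  one : ∀ x, 1 ≤ x → f x = 1
  mem : ∀ x, f x ∈ Set.Icc (0 : ℝ) 1
  mono : Monotone f

theorem TT_eq (f : ℝ → ℝ) (x : ℝ) : TT f x = (1 / 2) * ∫ v in (3 * x - 2)..(3 * x), f v := by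
  unfold TT
  rw [intervalIntegral.integral_comp_sub_mul f (by norm_num : (2 : ℝ) ≠ 0) (3 * x)]
  simp

theorem TT_hasDerivAt {f : ℝ → ℝ} (hf : Continuous f) (x : ℝ) :
    HasDerivAt (TT f) ((3 / 2) * (f (3 * x) - f (3 * x - 2))) x := by
  have h0 : ∀ y, HasDerivAt (fun u => ∫ v in (0 : ℝ)..u, f v) (f y) y := fun y =>
    intervalIntegral.integral_hasDerivAt_right (hf.intervalIntegrable _ _)
      (hf.stronglyMeasurableAtFilter _ _) hf.continuousAt
  have e : TT f = fun x => (1 / 2) * ((∫ v in (0 : ℝ)..(3 * x), f v) - ∫ v in (0 : ℝ)..(3 * x - 2), f v) := by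
    funext x
    rw [TT_eq, intervalIntegral.integral_interval_sub_left (hf.intervalIntegrable _ _)
      (hf.intervalIntegrable _ _)]
  rw [e]
  have l1 : HasDerivAt (fun x : ℝ => 3 * x) 3 x := by
    simpa using (hasDerivAt_id x).const_mul (3 : ℝ)
  have l2 : HasDerivAt (fun x : ℝ => 3 * x - 2) 3 x := l1.sub_const 2
  have h1 : HasDerivAt (fun x : ℝ => ∫ v in (0 : ℝ)..(3 * x), f v) (f (3 * x) * 3) x :=
    HasDerivAt.comp (h₂ := fun u => ∫ v in (0 : ℝ)..u, f v) x (h0 (3 * x)) l1
  have h2 : HasDerivAt (fun x : ℝ => ∫ v in (0 : ℝ)..(3 * x - 2), f v) (f (3 * x - 2) * 3) x :=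
    HasDerivAt.comp (h₂ := fun u => ∫ v in (0 : ℝ)..u, f v) x (h0 (3 * x - 2)) l2
  have h3 : HasDerivAt (fun x => (1 / 2) * ((∫ v in (0 : ℝ)..(3 * x), f v)
      - ∫ v in (0 : ℝ)..(3 * x - 2), f v)) ((1 / 2) * (f (3 * x) * 3 - f (3 * x - 2) * 3)) x :=
    (h1.sub h2).const_mul (1 / 2 : ℝ)
  have e2 : (3 / 2) * (f (3 * x) - f (3 * x - 2)) = (1 / 2) * (f (3 * x) * 3 - f (3 * x - 2) * 3) := by
    ring
  rw [e2]
  exact h3

theorem Adm.TT {f : ℝ → ℝ} (hf : Adm f) : Adm (TT f) := by
  have hint : ∀ x, IntervalIntegrable (fun u => f (3 * x - 2 * u)) volume 0 1 := fun x =>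
    (hf.cont.comp (by fun_prop)).intervalIntegrable _ _
  refine ⟨?_, ?_, ?_, ?_, ?_⟩
  · exact continuous_iff_continuousAt.2 fun x => (TT_hasDerivAt hf.cont x).continuousAt
  · intro x hx
    unfold Crest.Agent.S0170.TT
    rw [intervalIntegral.integral_congr (g := fun _ => (0 : ℝ))]
    · simp
    · intro u hu
      rw [Set.uIcc_of_le zero_le_one] at hu
      exact hf.zero _ (by linarith [hu.1])
  · intro x hx
    unfold Crest.Agent.S0170.TT
    rw [intervalIntegral.integral_congr (g := fun _ => (1 : ℝ))]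
    · simp
    · intro u hu
      rw [Set.uIcc_of_le zero_le_one] at hu
      exact hf.one _ (by linarith [hu.2])
  · intro x
    unfold Crest.Agent.S0170.TT
    constructor
    · exact intervalIntegral.integral_nonneg zero_le_one fun u _ => (hf.mem _).1
    · have := intervalIntegral.integral_mono_on (a := 0) (b := 1) zero_le_one (hint x)
        (continuous_const.intervalIntegrable (μ := volume) (u := fun _ => (1 : ℝ)) 0 1) (fun u _ => (hf.mem _).2)
      simpa using this
  · intro x y hxy
    unfold Crest.Agent.S0170.TT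
    exact intervalIntegral.integral_mono_on zero_le_one (hint x) (hint y)
      (fun u _ => hf.mono (by linarith))

theorem TT_contract {f g : ℝ → ℝ} (hf : Adm f) (hg : Adm g) {ε : ℝ} 
    (h : ∀ x, |f x - g x| ≤ ε) (x : ℝ) : |TT f x - TT g x| ≤ ε / 2 := by
  have hε : 0 ≤ ε := (abs_nonneg _).trans (h 0)
  rw [TT_eq, TT_eq, ← mul_sub, ← intervalIntegral.integral_sub (hf.cont.intervalIntegrable _ _)
    (hg.cont.intervalIntegrable _ _), abs_mul]
  have hc : Continuous fun v => f v - g v := hf.cont.sub hg.cont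
  have hle : (3 * x - 2) ≤ 3 * x := by linarith
  have key : |∫ v in (3 * x - 2)..(3 * x), (f v - g v)| ≤ ε := by
    have hind : Integrable ((Set.Icc (0 : ℝ) 1).indicator fun _ => ε) := by
      rw [integrable_indicator_iff measurableSet_Icc]
      exact integrableOn_const (by simp) (by simp)
    calc |∫ v in (3 * x - 2)..(3 * x), (f v - g v)|
        ≤ ∫ v in (3 * x - 2)..(3 * x), |f v - g v| :=
          intervalIntegral.abs_integral_le_integral_abs hle
      _ = ∫ v in Set.Ioc (3 * x - 2) (3 * x), |f v - g v| :=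
          intervalIntegral.integral_of_le hle
      _ ≤ ∫ v in Set.Ioc (3 * x - 2) (3 * x), (Set.Icc (0 : ℝ) 1).indicator (fun _ => ε) v := by
          apply integral_mono
          · exact (hc.abs.integrableOn_Ioc)
          · exact hind.integrableOn
          · intro v
            by_cases hv : v ∈ Set.Icc (0 : ℝ) 1
            · simp only [Set.indicator_of_mem hv]; exact h v
            · simp only [Set.indicator_of_notMem hv]
              simp only [Set.mem_Icc, not_and_or, not_le] at hv
              rcases hv with hv | hv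
              · rw [hf.zero _ hv.le, hg.zero _ hv.le]; simp
              · rw [hf.one _ hv.le, hg.one _ hv.le]; simp
      _ ≤ ∫ v, (Set.Icc (0 : ℝ) 1).indicator (fun _ => ε) v :=
          setIntegral_le_integral hind (Filter.Eventually.of_forall fun v => by
            by_cases hv : v ∈ Set.Icc (0 : ℝ) 1
            · simp [Set.indicator_of_mem hv, hε]
            · simp [Set.indicator_of_notMem hv])
      _ = ε := by
          rw [integral_indicator measurableSet_Icc]
          simp
  rw [abs_of_pos (by norm_num : (0 : ℝ) < 1 / 2)]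
  linarith

/-- starting function -/
noncomputable def f0 (x : ℝ) : ℝ := max 0 (min x 1)

theorem adm_f0 : Adm f0 := by
  unfold f0
  refine ⟨by fun_prop, ?_, ?_, ?_, ?_⟩
  · intro x hx
    rw [min_eq_left (by linarith), max_eq_left hx]
  · intro x hx
    rw [min_eq_right hx, max_eq_right zero_le_one]
  · intro x
    exact ⟨le_max_left _ _, max_le zero_le_one (min_le_right _ _)⟩
  · intro x y hxy
    exact max_le_max le_rfl (min_le_min hxy le_rfl)

theorem adm_iter (n : ℕ) : Adm (TT^[n] f0) := by
  induction n with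
  | zero => exact adm_f0
  | succ n ih => rw [Function.iterate_succ_apply']; exact ih.TT

theorem iter_dist (n : ℕ) (x : ℝ) : |(TT^[n] f0) x - (TT^[n + 1] f0) x| ≤ (1 / 2) ^ n := by
  induction n generalizing x with
  | zero =>
    have h1 := adm_f0.mem x
    have h2 := (adm_iter 1).mem x
    simp only [Function.iterate_zero, id, pow_zero, zero_add]
    rw [abs_le]
    constructor <;> linarith [h1.1, h1.2, h2.1, h2.2]
  | succ n ih =>
    rw [Function.iterate_succ_apply', Function.iterate_succ_apply' (n := n + 1)]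
    have := TT_contract (adm_iter n) (adm_iter (n + 1)) ih x
    calc _ ≤ (1 / 2) ^ n / 2 := this
      _ = (1 / 2) ^ (n + 1) := by ring

theorem exists_fixed : ∃ θ : ℝ → ℝ, Adm θ ∧ TT θ = θ := by
  have hd : ∀ x n, dist ((TT^[n] f0) x) ((TT^[n + 1] f0) x) ≤ 1 * (1 / 2) ^ n := by
    intro x n
    rw [Real.dist_eq, one_mul]
    exact iter_dist n x
  have hc : ∀ x, CauchySeq fun n => (TT^[n] f0) x := fun x =>
    cauchySeq_of_le_geometric (1 / 2) 1 (by norm_num) (hd x)
  choose θ hθ using fun x => cauchySeq_tendsto_of_complete (hc x)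
  have hb : ∀ n x, |(TT^[n] f0) x - θ x| ≤ 2 * (1 / 2) ^ n := by
    intro n x
    have := dist_le_of_le_geometric_of_tendsto (1 / 2) 1 (by norm_num) (hd x) (hθ x) n
    rw [Real.dist_eq] at this
    calc _ ≤ _ := this
      _ = 2 * (1 / 2) ^ n := by ring
  have hpow : Filter.Tendsto (fun n : ℕ => 2 * (1 / 2 : ℝ) ^ n) Filter.atTop (𝓝 0) := by
    have := tendsto_pow_atTop_nhds_zero_of_lt_one (by norm_num : (0 : ℝ) ≤ 1 / 2) (by norm_num)
    simpa using this.const_mul 2
  have hadm : Adm θ := by
    refine ⟨?_, ?_, ?_, ?_, ?_⟩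
    · have hu : TendstoUniformly (fun n x => (TT^[n] f0) x) θ Filter.atTop := by
        rw [Metric.tendstoUniformly_iff]
        intro ε hε
        filter_upwards [(tendsto_order.1 hpow).2 ε hε] with n hn x
        rw [dist_comm, Real.dist_eq]
        exact (hb n x).trans_lt hn
      exact hu.continuous (Filter.Frequently.of_forall fun n => (adm_iter n).cont)
    · intro x hx
      refine tendsto_nhds_unique (hθ x) ?_
      simp only [(adm_iter _).zero x hx]
      exact tendsto_const_nhds
    · intro x hx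
      refine tendsto_nhds_unique (hθ x) ?_
      simp only [(adm_iter _).one x hx]
      exact tendsto_const_nhds
    · intro x
      exact isClosed_Icc.mem_of_tendsto (hθ x) (Filter.Eventually.of_forall fun n => (adm_iter n).mem x)
    · intro x y hxy
      exact le_of_tendsto_of_tendsto' (hθ x) (hθ y) fun n => (adm_iter n).mono hxy
  refine ⟨θ, hadm, ?_⟩
  funext x
  have hle : ∀ n : ℕ, |TT θ x - θ x| ≤ 2 * (2 * (1 / 2) ^ n) := by
    intro n
    have h1 := TT_contract (adm_iter n) hadm (hb n) x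
    rw [← Function.iterate_succ_apply' TT n f0] at h1
    have h2 := hb (n + 1) x
    calc |TT θ x - θ x| = |((TT^[n + 1] f0) x - θ x) - ((TT^[n + 1] f0) x - TT θ x)| := by ring_nf
      _ ≤ |(TT^[n + 1] f0) x - θ x| + |(TT^[n + 1] f0) x - TT θ x| := abs_sub _ _
      _ ≤ 2 * (1 / 2) ^ (n + 1) + 2 * (1 / 2) ^ n / 2 := add_le_add h2 h1
      _ ≤ 2 * (2 * (1 / 2) ^ n) := by
          have : (0 : ℝ) ≤ (1 / 2) ^ n := by positivity
          rw [pow_succ]
          linarith
  have h0 : |TT θ x - θ x| ≤ 0 := by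
    have hlim : Filter.Tendsto (fun n : ℕ => 2 * (2 * (1 / 2 : ℝ) ^ n)) Filter.atTop (𝓝 0) := by
      simpa using hpow.const_mul 2
    exact ge_of_tendsto' hlim hle
  exact sub_eq_zero.1 (abs_nonpos_iff.1 h0)

end Crest.Agent.S0170
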