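import Crest.Agent.S0170_Step1
/-! T2, part 2: derivatives of `θ`, discretisation, closed forms, computability. -/
open scoped ContDiff Topology
open MeasureTheory
namespace Crest.Agent.S0170

/-- derivative operator -/
noncomputable def DD (g : ℝ → ℝ) (x : ℝ) : ℝ := (3 / 2) * (g (3 * x) - g (3 * x - 2))

section fixed
variable {θ : ℝ → ℝ}

theorem theta_hasDerivAt (hθ : Adm θ) (hfix : TT θ = θ) (x : ℝ) : HasDerivAt θ (DD θ x) x := by
  have := TT_hasDerivAt hθ.cont x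
  rw [hfix] at this
  exact this

theorem theta_contDiff (hθ : Adm θ) (hfix : TT θ = θ) : ContDiff ℝ ∞ θ := by
  rw [contDiff_infty]
  intro n
  induction n with
  | zero => exact contDiff_zero.2 hθ.cont
  | succ n ih =>
    have hd : deriv θ = DD θ := funext fun x => (theta_hasDerivAt hθ hfix x).deriv
    have : ContDiff ℝ ((n : ℕ∞) + 1 : WithTop ℕ∞) θ := by
      rw [contDiff_succ_iff_deriv]
      refine ⟨fun x => (theta_hasDerivAt hθ hfix x).differentiableAt, by simp, ?_⟩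
      rw [hd]
      unfold DD
      exact contDiff_const.mul ((ih.comp (by fun_prop)).sub (ih.comp (by fun_prop)))
    exact_mod_cast this

theorem DD_iter_hasDerivAt (hθ : Adm θ) (hfix : TT θ = θ) (n : ℕ) (x : ℝ) :
    HasDerivAt (DD^[n] θ) (3 ^ n * (DD^[n + 1] θ) x) x := by
  induction n generalizing x with
  | zero => simpa using theta_hasDerivAt hθ hfix x
  | succ n ih =>
    have e : DD^[n + 1] θ = fun x => (3 / 2) * ((DD^[n] θ) (3 * x) - (DD^[n] θ) (3 * x - 2)) := by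
      rw [Function.iterate_succ_apply']; rfl
    have l1 : HasDerivAt (fun x : ℝ => 3 * x) 3 x := by
      simpa using (hasDerivAt_id x).const_mul (3 : ℝ)
    have l2 : HasDerivAt (fun x : ℝ => 3 * x - 2) 3 x := l1.sub_const 2
    have h1 : HasDerivAt (fun x : ℝ => (DD^[n] θ) (3 * x)) (3 ^ n * (DD^[n + 1] θ) (3 * x) * 3) x :=
      HasDerivAt.comp (h₂ := DD^[n] θ) x (ih (3 * x)) l1
    have h2 : HasDerivAt (fun x : ℝ => (DD^[n] θ) (3 * x - 2))
        (3 ^ n * (DD^[n + 1] θ) (3 * x - 2) * 3) x :=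
      HasDerivAt.comp (h₂ := DD^[n] θ) x (ih (3 * x - 2)) l2
    have h3 := (h1.sub h2).const_mul (3 / 2 : ℝ)
    have e2 : (DD^[n + 1 + 1] θ) x
        = (3 / 2) * ((DD^[n + 1] θ) (3 * x) - (DD^[n + 1] θ) (3 * x - 2)) := by
      rw [Function.iterate_succ_apply' (n := n + 1)]; rfl
    rw [e2]
    have h4 : HasDerivAt (DD^[n + 1] θ)
        (3 / 2 * (3 ^ n * (DD^[n + 1] θ) (3 * x) * 3 - 3 ^ n * (DD^[n + 1] θ) (3 * x - 2) * 3)) x := by
      conv => arg 1; rw [e]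
      exact h3
    convert h4 using 1
    ring

theorem iteratedDeriv_theta (hθ : Adm θ) (hfix : TT θ = θ) (n : ℕ) (x : ℝ) :
    iteratedDeriv n θ x = 3 ^ (n * (n - 1) / 2) * (DD^[n] θ) x := by
  rw [← Finset.sum_range_id]
  induction n generalizing x with
  | zero => simp
  | succ n ih =>
    rw [iteratedDeriv_succ]
    have hfun : iteratedDeriv n θ = fun x => 3 ^ (∑ i ∈ Finset.range n, i) * (DD^[n] θ) x := funext ih
    rw [hfun]
    have := (DD_iter_hasDerivAt hθ hfix n x).const_mul (3 ^ (∑ i ∈ Finset.range n, i) : ℝ)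
    rw [this.deriv, Finset.sum_range_succ, pow_add]
    ring

theorem DD_iter_bound (hθ : Adm θ) (n : ℕ) (x : ℝ) : |(DD^[n] θ) x| ≤ 3 ^ n := by
  induction n generalizing x with
  | zero =>
    have := hθ.mem x
    simp only [Function.iterate_zero, id, pow_zero]
    rw [abs_le]; constructor <;> linarith [this.1, this.2]
  | succ n ih =>
    rw [Function.iterate_succ_apply']
    unfold DD
    rw [abs_mul, abs_of_pos (by norm_num : (0 : ℝ) < 3 / 2)]
    have h1 := ih (3 * x)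
    have h2 := ih (3 * x - 2)
    have h3 := abs_sub ((DD^[n] θ) (3 * x)) ((DD^[n] θ) (3 * x - 2))
    unfold DD at h1 h2 h3
    rw [pow_succ]
    linarith

end fixed

/-! ### closed form for iterated averaging operators -/

/-- general weighted operator -/
noncomputable def AA (K : ℕ) (wt : ℕ → ℚ) (c : ℚ) (g : ℝ → ℝ) (x : ℝ) : ℝ :=
  ∑ d ∈ Finset.range K, (wt d : ℝ) * g (3 * x - c * d)

def zz (K : ℕ) (c x : ℚ) (j : ℕ) (m : ℕ) : ℚ :=
  Nat.rec x (fun l z => 3 * z + (-1) * (c * (((j / K ^ l) % K : ℕ) : ℚ))) m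

def WW (K : ℕ) (wt : ℕ → ℚ) (j : ℕ) (m : ℕ) : ℚ :=
  Nat.rec 1 (fun l w => w * wt ((j / K ^ l) % K)) m

theorem zz_succ (K : ℕ) (c x : ℚ) (j m : ℕ) :
    zz K c x j (m + 1) = 3 * zz K c x j m + (-1) * (c * (((j / K ^ m) % K : ℕ) : ℚ)) := rfl

theorem WW_succ (K : ℕ) (wt : ℕ → ℚ) (j m : ℕ) :
    WW K wt j (m + 1) = WW K wt j m * wt ((j / K ^ m) % K) := rfl

theorem digit_low {K : ℕ} (hK : 0 < K) {l m : ℕ} (hl : l < m) (j0 d : ℕ) :
    ((j0 + K ^ m * d) / K ^ l) % K = (j0 / K ^ l) % K := by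
  obtain ⟨r, rfl⟩ := Nat.exists_eq_add_of_lt hl
  have : K ^ (l + r + 1) * d = K ^ l * (K * (K ^ r * d)) := by ring
  rw [this, Nat.add_mul_div_left _ _ (pow_pos hK l), Nat.add_mul_mod_self_left]

theorem digit_top {K : ℕ} (hK : 0 < K) {m j0 d : ℕ} (hj : j0 < K ^ m) (hd : d < K) :
    ((j0 + K ^ m * d) / K ^ m) % K = d := by
  rw [Nat.add_mul_div_left _ _ (pow_pos hK m), Nat.div_eq_of_lt hj, zero_add, Nat.mod_eq_of_lt hd]

theorem zz_low {K : ℕ} (hK : 0 < K) (c x : ℚ) (j0 d : ℕ) {l m : ℕ} (hl : l ≤ m) :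
    zz K c x (j0 + K ^ m * d) l = zz K c x j0 l := by
  induction l with
  | zero => rfl
  | succ l ih => rw [zz_succ, zz_succ, ih (by omega), digit_low hK (by omega)]

theorem WW_low {K : ℕ} (hK : 0 < K) (wt : ℕ → ℚ) (j0 d : ℕ) {l m : ℕ} (hl : l ≤ m) :
    WW K wt (j0 + K ^ m * d) l = WW K wt j0 l := by
  induction l with
  | zero => rfl
  | succ l ih => rw [WW_succ, WW_succ, ih (by omega), digit_low hK (by omega)]

theorem sum_range_mul' {M : Type*} [AddCommMonoid M] (P k : ℕ) (h : ℕ → M) :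
    ∑ j ∈ Finset.range (P * k), h j = ∑ d ∈ Finset.range k, ∑ j0 ∈ Finset.range P, h (j0 + P * d) := by
  induction k with
  | zero => simp
  | succ k ih =>
    rw [Nat.mul_succ, Finset.sum_range_add, ih, Finset.sum_range_succ]
    congr 1
    apply Finset.sum_congr rfl
    intro j _
    rw [add_comm]

theorem AA_iter {K : ℕ} (hK : 0 < K) (wt : ℕ → ℚ) (c : ℚ) (m : ℕ) (g : ℝ → ℝ) (x : ℚ) :
    ((AA K wt c)^[m] g) (x : ℝ)
      = ∑ j ∈ Finset.range (K ^ m), (WW K wt j m : ℝ) * g ((zz K c x j m : ℚ) : ℝ) := by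
  induction m generalizing g with
  | zero => simp [WW, zz]
  | succ m ih =>
    rw [Function.iterate_succ_apply, ih, pow_succ, sum_range_mul', Finset.sum_comm]
    apply Finset.sum_congr rfl
    intro j0 hj0
    unfold AA
    rw [Finset.mul_sum]
    apply Finset.sum_congr rfl
    intro d hd
    rw [zz_succ, WW_succ, zz_low hK _ _ _ _ le_rfl, WW_low hK _ _ _ le_rfl,
      digit_top hK (Finset.mem_range.1 hj0) (Finset.mem_range.1 hd)]
    push_cast
    rw [mul_assoc]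
    congr 3
    ring

/-! ### the discretised operator -/

/-- discretised averaging operator -/
noncomputable def TK (K : ℕ) : (ℝ → ℝ) → ℝ → ℝ := AA K (fun _ => (K : ℚ)⁻¹) (2 * (K : ℚ)⁻¹)

theorem TK_apply (K : ℕ) (g : ℝ → ℝ) (x : ℝ) :
    TK K g x = (K : ℝ)⁻¹ * ∑ d ∈ Finset.range K, g (3 * x - 2 * (K : ℝ)⁻¹ * d) := by
  unfold TK AA
  rw [Finset.mul_sum]
  apply Finset.sum_congr rfl
  intro d _
  push_cast
  ring

theorem TT_eq_sum {g : ℝ → ℝ} {K : ℕ} (hK : 0 < K) (x : ℝ) :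
    TT g x = (K : ℝ)⁻¹ * ∫ y in (0 : ℝ)..(0 + K), g (3 * x - 2 * (K : ℝ)⁻¹ * y) := by
  have hK' : (K : ℝ) ≠ 0 := by exact_mod_cast hK.ne'
  unfold TT
  have := intervalIntegral.integral_comp_div (a := (0 : ℝ)) (b := 0 + K)
    (fun u => g (3 * x - 2 * u)) hK'
  have e : ∀ y : ℝ, 3 * x - 2 * (K : ℝ)⁻¹ * y = 3 * x - 2 * (y / K) := by
    intro y; field_simp
  simp only [e]
  rw [this]
  simp [hK']

theorem TK_sub_TT {g : ℝ → ℝ} (hg : Monotone g) (hg01 : ∀ x, g x ∈ Set.Icc (0 : ℝ) 1) {K : ℕ}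
    (hK : 0 < K) (x : ℝ) : |TK K g x - TT g x| ≤ (K : ℝ)⁻¹ := by
  have hKp : (0 : ℝ) < K := by exact_mod_cast hK
  have hKinv : (0 : ℝ) < (K : ℝ)⁻¹ := inv_pos.2 hKp
  set G : ℝ → ℝ := fun y => g (3 * x - 2 * (K : ℝ)⁻¹ * y) with hG
  have hanti : AntitoneOn G (Set.Icc (0 : ℝ) (0 + K)) := by
    intro y _ z _ hyz
    apply hg
    have : 2 * (K : ℝ)⁻¹ * y ≤ 2 * (K : ℝ)⁻¹ * z := mul_le_mul_of_nonneg_left hyz (by positivity)
    linarith
  have h1 := hanti.integral_le_sum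
  have h2 := hanti.sum_le_integral
  simp only [zero_add] at h1 h2
  have hS : ∑ i ∈ Finset.range K, G (i : ℝ) - ∑ i ∈ Finset.range K, G ((i + 1 : ℕ) : ℝ)
      = G ((0 : ℕ) : ℝ) - G (K : ℝ) := by
    rw [← Finset.sum_sub_distrib]
    exact Finset.sum_range_sub' (fun i : ℕ => G (i : ℝ)) K
  have h3 : G ((0 : ℕ) : ℝ) - G (K : ℝ) ≤ 1 := by
    have a1 := (hg01 (3 * x - 2 * (K : ℝ)⁻¹ * ((0 : ℕ) : ℝ))).2
    have a2 := (hg01 (3 * x - 2 * (K : ℝ)⁻¹ * (K : ℝ))).1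
    simp only [hG]
    linarith
  rw [TK_apply, TT_eq_sum hK, ← mul_sub, abs_mul, abs_of_pos hKinv]
  have h4 : |∑ d ∈ Finset.range K, g (3 * x - 2 * (K : ℝ)⁻¹ * d)
      - ∫ y in (0 : ℝ)..(0 + K), g (3 * x - 2 * (K : ℝ)⁻¹ * y)| ≤ 1 := by
    rw [zero_add, abs_le]
    constructor
    · linarith
    · linarith
  calc (K : ℝ)⁻¹ * _ ≤ (K : ℝ)⁻¹ * 1 := mul_le_mul_of_nonneg_left h4 hKinv.le
    _ = (K : ℝ)⁻¹ := mul_one _

theorem TK_contract {φ ψ : ℝ → ℝ} (hφ0 : ∀ x, x ≤ 0 → φ x = 0) (hφ1 : ∀ x, 1 ≤ x → φ x = 1)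
    (hψ0 : ∀ x, x ≤ 0 → ψ x = 0) (hψ1 : ∀ x, 1 ≤ x → ψ x = 1) {ε : ℝ}
    (h : ∀ x, |φ x - ψ x| ≤ ε) {K' : ℕ} (hK : 0 < K') (x : ℝ) :
    |TK (2 * K') φ x - TK (2 * K') ψ x| ≤ ε / 2 := by
  classical
  have hε : 0 ≤ ε := (abs_nonneg _).trans (h 0)
  have hKp : (0 : ℝ) < K' := by exact_mod_cast hK
  set K : ℕ := 2 * K' with hKdef
  have hKr : (K : ℝ) = 2 * K' := by rw [hKdef]; push_cast; ring
  have hKpos : (0 : ℝ) < K := by rw [hKr]; positivity
  rw [TK_apply, TK_apply, ← mul_sub, ← Finset.sum_sub_distrib, abs_mul,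
    abs_of_pos (inv_pos.2 hKpos)]
  set S := (Finset.range K).filter
    (fun d : ℕ => 0 < 3 * x - 2 * (K : ℝ)⁻¹ * d ∧ 3 * x - 2 * (K : ℝ)⁻¹ * d < 1) with hS
  have hcard : S.card ≤ K' := by
    rcases S.eq_empty_or_nonempty with hemp | hne
    · rw [hemp]; simp
    · set a := S.min' hne with ha
      have hsub : S ⊆ Finset.Ico a (a + K') := by
        intro b hb
        have hab : a ≤ b := Finset.min'_le _ _ hb
        have h1 := (Finset.mem_filter.1 hb).2.1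
        have h2 := (Finset.mem_filter.1 (Finset.min'_mem S hne)).2.2
        rw [← ha] at h2
        rw [Finset.mem_Ico]
        refine ⟨hab, ?_⟩
        by_contra hcon
        push Not at hcon
        have hcon' : (a : ℝ) + K' ≤ b := by exact_mod_cast hcon
        have h3 : 2 * (K : ℝ)⁻¹ * (a + K') ≤ 2 * (K : ℝ)⁻¹ * b :=
          mul_le_mul_of_nonneg_left hcon' (by positivity)
        have h4 : 2 * (K : ℝ)⁻¹ * K' = 1 := by
          rw [hKr]; field_simp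
        have h5 : 2 * (K : ℝ)⁻¹ * (a + K') = 2 * (K : ℝ)⁻¹ * a + 2 * (K : ℝ)⁻¹ * K' := by ring
        linarith
      calc S.card ≤ (Finset.Ico a (a + K')).card := Finset.card_le_card hsub
        _ = K' := by simp
  have hsum : |∑ d ∈ Finset.range K, (φ (3 * x - 2 * (K : ℝ)⁻¹ * d) - ψ (3 * x - 2 * (K : ℝ)⁻¹ * d))|
      ≤ K' * ε := by
    have hz : ∀ d ∈ Finset.range K, d ∉ S →
        |φ (3 * x - 2 * (K : ℝ)⁻¹ * d) - ψ (3 * x - 2 * (K : ℝ)⁻¹ * d)| = 0 := by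
      intro d hd hdS
      have : ¬ (0 < 3 * x - 2 * (K : ℝ)⁻¹ * d ∧ 3 * x - 2 * (K : ℝ)⁻¹ * d < 1) := fun hh =>
        hdS (Finset.mem_filter.2 ⟨hd, hh⟩)
      rw [not_and_or, not_lt, not_lt] at this
      rcases this with h0 | h0
      · rw [hφ0 _ h0, hψ0 _ h0]; simp
      · rw [hφ1 _ h0, hψ1 _ h0]; simp
    calc _ ≤ ∑ d ∈ Finset.range K, |φ (3 * x - 2 * (K : ℝ)⁻¹ * d) - ψ (3 * x - 2 * (K : ℝ)⁻¹ * d)| :=
          Finset.abs_sum_le_sum_abs _ _
      _ = ∑ d ∈ S, |φ (3 * x - 2 * (K : ℝ)⁻¹ * d) - ψ (3 * x - 2 * (K : ℝ)⁻¹ * d)| := by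
          symm
          apply Finset.sum_subset (Finset.filter_subset _ _)
          intro d hd hdS
          exact hz d hd hdS
      _ ≤ ∑ d ∈ S, ε := Finset.sum_le_sum fun d _ => h _
      _ = S.card * ε := by simp
      _ ≤ K' * ε := by
          apply mul_le_mul_of_nonneg_right _ hε
          exact_mod_cast hcard
  calc (K : ℝ)⁻¹ * _ ≤ (K : ℝ)⁻¹ * (K' * ε) := mul_le_mul_of_nonneg_left hsum (inv_pos.2 hKpos).le
    _ = ε / 2 := by rw [hKr]; field_simp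

/-- Heaviside function -/
noncomputable def Hv (x : ℝ) : ℝ := if 0 < x then 1 else 0

theorem TK_iter_props {K : ℕ} (hK : 0 < K) (m : ℕ) :
    (∀ x, x ≤ 0 → ((TK K)^[m] Hv) x = 0) ∧ (∀ x, 1 ≤ x → ((TK K)^[m] Hv) x = 1) := by
  have hKpos : (0 : ℝ) < K := by exact_mod_cast hK
  induction m with
  | zero =>
    constructor
    · intro x hx; simp [Hv, not_lt.2 hx]
    · intro x hx; simp [Hv, (by linarith : (0 : ℝ) < x)]
  | succ m ih =>
    constructor
    · intro x hx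
      rw [Function.iterate_succ_apply', TK_apply]
      rw [Finset.sum_eq_zero, mul_zero]
      intro d _
      apply ih.1
      have : 0 ≤ 2 * (K : ℝ)⁻¹ * d := by positivity
      linarith
    · intro x hx
      rw [Function.iterate_succ_apply', TK_apply]
      rw [Finset.sum_congr rfl (g := fun _ => (1 : ℝ))]
      · simp [hKpos.ne']
      · intro d hd
        apply ih.2
        have hdK : (d : ℝ) + 1 ≤ K := by exact_mod_cast Finset.mem_range.1 hd
        have : 2 * (K : ℝ)⁻¹ * d ≤ 2 := by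
          rw [mul_assoc]
          have : (K : ℝ)⁻¹ * d ≤ 1 := by
            rw [inv_mul_le_iff₀ hKpos]; linarith
          linarith
        linarith

theorem TK_iter_error {θ : ℝ → ℝ} (hθ : Adm θ) (hfix : TT θ = θ) {K' : ℕ} (hK : 0 < K') (m : ℕ)
    (x : ℝ) : |((TK (2 * K'))^[m] Hv) x - θ x| ≤ (1 / 2) ^ m + 2 * ((2 * K' : ℕ) : ℝ)⁻¹ := by
  have hK2 : 0 < 2 * K' := by omega
  have hKpos : (0 : ℝ) < ((2 * K' : ℕ) : ℝ) := by exact_mod_cast hK2
  induction m generalizing x with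
  | zero =>
    have h1 := hθ.mem x
    have h2 : (Hv x) ∈ Set.Icc (0 : ℝ) 1 := by
      unfold Hv; split_ifs <;> simp
    simp only [Function.iterate_zero, id, pow_zero]
    have h3 : 0 ≤ 2 * ((2 * K' : ℕ) : ℝ)⁻¹ := by positivity
    rw [abs_le]
    constructor <;> linarith [h1.1, h1.2, h2.1, h2.2]
  | succ m ih =>
    rw [Function.iterate_succ_apply']
    have hp := TK_iter_props hK2 m
    have h1 := TK_contract hp.1 hp.2 hθ.zero hθ.one ih hK x
    have h2 := TK_sub_TT hθ.mono hθ.mem hK2 x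
    rw [hfix] at h2
    calc _ = |(TK (2 * K') ((TK (2 * K'))^[m] Hv) x - TK (2 * K') θ x)
          + (TK (2 * K') θ x - θ x)| := by ring_nf
      _ ≤ |TK (2 * K') ((TK (2 * K'))^[m] Hv) x - TK (2 * K') θ x|
          + |TK (2 * K') θ x - θ x| := abs_add_le _ _
      _ ≤ ((1 / 2) ^ m + 2 * ((2 * K' : ℕ) : ℝ)⁻¹) / 2 + ((2 * K' : ℕ) : ℝ)⁻¹ := add_le_add h1 h2
      _ = (1 / 2) ^ (m + 1) + 2 * ((2 * K' : ℕ) : ℝ)⁻¹ := by ring

end Crest.Agent.S0170
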