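import Crest.Statements.S0179
import Crest.Agent.CZ_FinDim
import Crest.Agent.CZ_Compress

set_option autoImplicit false
open Crest Crest.AnalysisR

namespace Crest.Agent.S0179

/-- Let A be a bounded operator on a complex Hilbert space H, m ≥ 0, and P(z) = ∑_{k ≤ d} z^k B_k a polynomial with m × m complex matrix coefficients. Suppose M bounds the operator norm (on Euclidean ℂ^m) of P(z) for every z in the numerical range {⟨x, A x⟩ : ‖x‖ = 1}. Then the operator P[A] = ∑_k A^k ⊗ B_k on H ⊗ ℂ^m, written in coordinates as (v_j)_{j<m} ↦ (∑_j ∑_k (B_k)_{ij} A^k v_j)_{i<m} with the ℓ²-norm of the component norms, satisfies ‖P[A] v‖ ≤ 2 M ‖v‖ for every v. -/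
theorem result
    {H : Type*} [NormedAddCommGroup H] [InnerProductSpace ℂ H] [CompleteSpace H]
    (A : H →L[ℂ] H) (m d : ℕ) (B : Fin (d + 1) → Matrix (Fin m) (Fin m) ℂ) (M : ℝ)
    (hM : ∀ x : H, ‖x‖ = 1 →
      ‖Matrix.toEuclideanCLM (n := Fin m) (𝕜 := ℂ)
          (∑ k : Fin (d + 1), (inner ℂ x (A x)) ^ (k : ℕ) • B k)‖ ≤ M)
    (v : PiLp 2 (fun _ : Fin m => H)) :
    ‖(WithLp.toLp 2 (fun i : Fin m => ∑ j : Fin m, ∑ k : Fin (d + 1), B k i j • (A ^ (k : ℕ)) (v j))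
        : PiLp 2 (fun _ : Fin m => H))‖ ≤ 2 * M * ‖v‖ := by
  obtain ⟨W, hW, A', w, hw, hpow, hin⟩ := CZ.compress A m d (fun j => v j)
  haveI : CompleteSpace W := FiniteDimensional.complete ℂ W
  have key := CZ.fin_dim A' m d B M (by
    intro x hx
    rw [hin x]
    exact hM (x : H) (by rw [← hx]; rfl)) (WithLp.toLp 2 w)
  have h1 : ‖(WithLp.toLp 2 (fun i : Fin m => ∑ j : Fin m, ∑ k : Fin (d + 1),
      B k i j • (A ^ (k : ℕ)) (v j)) : PiLp 2 (fun _ : Fin m => H))‖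
      = ‖(WithLp.toLp 2 (fun i : Fin m => ∑ j : Fin m, ∑ k : Fin (d + 1),
      B k i j • (A' ^ (k : ℕ)) (w j)) : PiLp 2 (fun _ : Fin m => W))‖ := by
    rw [PiLp.norm_eq_of_L2, PiLp.norm_eq_of_L2]
    congr 1
    apply Finset.sum_congr rfl
    intro i _
    congr 1
    change ‖∑ j : Fin m, ∑ k : Fin (d + 1), B k i j • (A ^ (k : ℕ)) (v j)‖
      = ‖((∑ j : Fin m, ∑ k : Fin (d + 1), B k i j • (A' ^ (k : ℕ)) (w j) : W) : H)‖
    congr 1
    rw [Submodule.coe_sum]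
    apply Finset.sum_congr rfl
    intro j _
    rw [Submodule.coe_sum]
    apply Finset.sum_congr rfl
    intro k _
    rw [Submodule.coe_smul, hpow j k (by omega)]
  have h2 : ‖v‖ = ‖(WithLp.toLp 2 w : PiLp 2 (fun _ : Fin m => W))‖ := by
    rw [PiLp.norm_eq_of_L2, PiLp.norm_eq_of_L2]
    congr 1
    apply Finset.sum_congr rfl
    intro i _
    congr 1
    change ‖v i‖ = ‖((w i : W) : H)‖
    rw [hw i]
  rw [h1, h2]
  exact key

end Crest.Agent.S0179
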