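import Crest.Statements.S0180
import Crest.Agent.CZ_DualIneq
import Crest.Agent.CZ_Strict
import Crest.Agent.CZ_Sep

set_option autoImplicit false
open scoped ComplexOrder
open Crest.AnalysisR.NumRange
open Crest Crest.AnalysisR Crest.AnalysisR.NumRange

namespace Crest.Agent.S0180

/-- Let A be an n × n complex matrix, n ≥ 1, whose numerical range lies in a bounded open convex set Ω, and let f be holomorphic and injective on an open set containing the closure of Ω with f(Ω) the open unit disc. Realise T = f(A) as p(A) for any polynomial p agreeing with f to order n on the spectrum of A. Then the metric problem for T (H with I ≼ H ≼ τ I and Tᴴ H T ≼ H) is strictly feasible, and its least τ is attained and lies between 1 and 4. -/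
theorem result
    (n : ℕ) (hn : 1 ≤ n) (A : Matrix (Fin n) (Fin n) ℂ)
    (Ω U : Set ℂ) (hΩ₁ : IsOpen Ω) (hΩ₂ : Bornology.IsBounded Ω) (hΩ₃ : Convex ℝ Ω)
    (hU : IsOpen U) (hΩU : closure Ω ⊆ U)
    (f : ℂ → ℂ) (hf₁ : DifferentiableOn ℂ f U) (hf₂ : Set.InjOn f U)
    (hf₃ : f '' Ω = Metric.ball 0 1)
    (hA : numRange A ⊆ Ω) (p : Polynomial ℂ) (hp : AgreesOnSpectrum A f p) :
    (∃ (H : Matrix (Fin n) (Fin n) ℂ) (τ : ℝ), MetricStrictlyFeasible (Polynomial.aeval A p) H τ) ∧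
    ∃ (H : Matrix (Fin n) (Fin n) ℂ) (κsq : ℝ),
      IsOptimalMetric (Polynomial.aeval A p) H κsq ∧ 1 ≤ κsq ∧ κsq ≤ 4 := by
  have hf' : DifferentiableOn ℂ f Ω := hf₁.mono (subset_closure.trans hΩU)
  have hfb : ∀ z ∈ Ω, ‖f z‖ < 1 := by
    intro z hz
    have : f z ∈ Metric.ball (0 : ℂ) 1 := hf₃ ▸ Set.mem_image_of_mem f hz
    simpa using this
  have hT : ∀ μ ∈ spectrum ℂ (Polynomial.aeval A p), ‖μ‖ < 1 := by
    intro μ hμ
    obtain ⟨ν, hν, rfl⟩ := CZ.spectrum_aeval hn hp μ hμ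
    exact hfb ν (hA (CZ.spectrum_subset_numRange A hν))
  refine ⟨CZ.exists_strict hT, CZ.exists_optimal hn _ (CZ.feasible_of_dual _ ?_)⟩
  intro Y P N hY hP hN h
  exact CZ.dual_ineq hn A hΩ₁ hΩ₃ hA hf' hfb p hp Y P N hY hP hN h

end Crest.Agent.S0180
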