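import Crest.Statements.S0181
import Crest.Agent.CZ_Lam
import Crest.Agent.CZ_FC
import Crest.Agent.CZ_Conj
import Crest.Agent.CZ_PBound

set_option autoImplicit false
open scoped ComplexOrder
open Crest.AnalysisR.NumRange
open Crest Crest.AnalysisR Crest.AnalysisR.NumRange

namespace Crest.Agent.S0181

/-- Setting of the optimal-metric statement; also G is holomorphic and injective on {t : r < ‖t‖} for some r < 1 with G({t : 1 < ‖t‖}) the complement of the closure of Ω, (H, κ²) is an optimal metric pair for f(A), and S ≽ 0 with S² = H. Then one continuous 2π-periodic positive semidefinite density Λ of mean I gives, for all m ≥ 1 and m × m matrix-valued v holomorphic near the closure of Ω, v[SAS⁻¹] = (1/2π) ∫ Λ(θ) ⊗ v(G(e^{iθ})) dθ entrywise, and ‖v[A]‖ ≤ κ sup ‖v‖ over the closure of Ω. -/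
theorem result
    (n : ℕ) (hn : 1 ≤ n) (A : Matrix (Fin n) (Fin n) ℂ)
    (Ω U : Set ℂ) (hΩ₁ : IsOpen Ω) (hΩ₂ : Bornology.IsBounded Ω) (hΩ₃ : Convex ℝ Ω)
    (hU : IsOpen U) (hΩU : closure Ω ⊆ U)
    (f : ℂ → ℂ) (hf₁ : DifferentiableOn ℂ f U) (hf₂ : Set.InjOn f U)
    (hf₃ : f '' Ω = Metric.ball 0 1)
    (G : ℂ → ℂ) (r : ℝ) (hr₁ : 0 < r) (hr₂ : r < 1)
    (hG₁ : DifferentiableOn ℂ G {t : ℂ | r < ‖t‖}) (hG₂ : Set.InjOn G {t : ℂ | r < ‖t‖})
    (hG₃ : G '' {t : ℂ | 1 < ‖t‖} = (closure Ω)ᶜ)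
    (hA : numRange A ⊆ Ω) (p : Polynomial ℂ) (hp : AgreesOnSpectrum A f p)
    (H : Matrix (Fin n) (Fin n) ℂ) (κsq : ℝ) (hH : IsOptimalMetric (Polynomial.aeval A p) H κsq)
    (S : Matrix (Fin n) (Fin n) ℂ) (hS₁ : S.PosSemidef) (hS₂ : S * S = H) :
    ∃ Λ : ℝ → Matrix (Fin n) (Fin n) ℂ, Continuous Λ ∧ Function.Periodic Λ (2 * Real.pi) ∧
      (∀ θ, (Λ θ).PosSemidef) ∧
      (∀ a b, (2 * Real.pi : ℂ)⁻¹ * (∫ θ in (0 : ℝ)..2 * Real.pi, Λ θ a b)
        = (1 : Matrix (Fin n) (Fin n) ℂ) a b) ∧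
      ∀ (m : ℕ), 1 ≤ m → ∀ (V : Set ℂ), IsOpen V → closure Ω ⊆ V →
        ∀ v : ℂ → Matrix (Fin m) (Fin m) ℂ, (∀ c d, DifferentiableOn ℂ (fun z => v z c d) V) →
        ∀ q : Fin m → Fin m → Polynomial ℂ,
          (∀ c d, AgreesOnSpectrum A (fun z => v z c d) (q c d)) →
          (∀ a b c d, Polynomial.aeval (S * A * S⁻¹) (q c d) a b =
              (2 * Real.pi : ℂ)⁻¹ * (∫ θ in (0 : ℝ)..2 * Real.pi,
                Λ θ a b * v (G (Complex.exp ((θ : ℂ) * Complex.I))) c d)) ∧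
          ∀ M : ℝ, (∀ z ∈ closure Ω, ‖Matrix.toEuclideanCLM (n := Fin m) (𝕜 := ℂ) (v z)‖ ≤ M) →
            ‖Matrix.toEuclideanCLM (n := Fin n × Fin m) (𝕜 := ℂ)
                (Matrix.of fun (i : Fin n × Fin m) (j : Fin n × Fin m) =>
                  Polynomial.aeval A (q i.2 j.2) i.1 j.1)‖ ≤ Real.sqrt κsq * M := by
  have B : CZ.Bd Ω U f G r :=
    ⟨hΩ₁, hΩ₂, hΩ₃, hU, hΩU, hf₁, hf₂, hf₃, hr₁, hr₂, hG₁, hG₂, hG₃⟩
  have hf' : DifferentiableOn ℂ f Ω := hf₁.mono (subset_closure.trans hΩU)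
  have hfb : ∀ z ∈ Ω, ‖f z‖ < 1 := fun z hz => B.norm_f_lt hz
  have hT : ∀ μ ∈ spectrum ℂ (Polynomial.aeval A p), ‖μ‖ < 1 := by
    intro μ hμ
    obtain ⟨ν, hν, rfl⟩ := CZ.spectrum_aeval hn hp μ hμ
    exact hfb ν (hA (CZ.spectrum_subset_numRange A hν))
  obtain ⟨⟨h1, h2, h3⟩, -⟩ := hH
  have hSu : IsUnit S.det := CZ.S_unit h1 hS₂
  set T := Polynomial.aeval A p with hTdef
  set C := S * T * S⁻¹ with hC
  have hCs : ∀ μ ∈ spectrum ℂ C, ‖μ‖ < 1 := by
    rw [hC, CZ.spectrum_conj hSu]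
    exact hT
  have hCc : ‖CZ.op C‖ ≤ 1 := CZ.conj_contr h1 h3 hS₁ hS₂
  have hmean : ∀ a b, (2 * Real.pi : ℂ)⁻¹ * (∫ θ in (0 : ℝ)..2 * Real.pi, CZ.Lam f G C θ a b)
        = (1 : Matrix (Fin n) (Fin n) ℂ) a b := by
    intro a b
    have := B.Lam_moment C hCs 0 a b
    simpa using this
  refine ⟨CZ.Lam f G C, B.Lam_cont C hCs, CZ.Bd.Lam_periodic C f G, B.Lam_psd C hCc hCs, hmean, ?_⟩
  intro m hm V hV hΩV v hv q hq
  have hnorm : ∀ θ : ℝ, ‖Complex.exp ((θ : ℂ) * Complex.I)‖ = 1 := fun θ =>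
    Complex.norm_exp_ofReal_mul_I θ
  have key : ∀ a b c d, Polynomial.aeval (S * A * S⁻¹) (q c d) a b =
              (2 * Real.pi : ℂ)⁻¹ * (∫ θ in (0 : ℝ)..2 * Real.pi,
                CZ.Lam f G C θ a b * v (G (Complex.exp ((θ : ℂ) * Complex.I))) c d) := by
    intro a b c d
    obtain ⟨cf, hcf, hs⟩ := B.exists_series hV hΩV (hv c d)
    have hsum := CZ.fc_series hn A hΩ₁ hΩ₃ hA hf' hfb p hp
      ((hv c d).mono (subset_closure.trans hΩV)) (q c d) (hq c d) cf hcf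
      (fun z hz => hs z (subset_closure hz))
    have hD : HasSum (fun j => cf j * (C ^ j) a b) (Polynomial.aeval (S * A * S⁻¹) (q c d) a b) := by
      have hcont : Continuous (fun M : Matrix (Fin n) (Fin n) ℂ => (S * M * S⁻¹) a b) := by
        have h1 : Continuous (fun M : Matrix (Fin n) (Fin n) ℂ => S * M * S⁻¹) :=
          (continuous_const.matrix_mul continuous_id).matrix_mul continuous_const
        exact (continuous_apply b).comp ((continuous_apply a).comp h1)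
      let L : Matrix (Fin n) (Fin n) ℂ →+ ℂ :=
        { toFun := fun M => (S * M * S⁻¹) a b
          map_zero' := by simp
          map_add' := by intro M N; simp [Matrix.mul_add, Matrix.add_mul] }
      have hmap := hsum.map L hcont
      have e1 : (L ∘ fun j => cf j • T ^ j) = fun j => cf j * (C ^ j) a b := by
        funext j
        show (S * (cf j • T ^ j) * S⁻¹) a b = cf j * (C ^ j) a b
        rw [hC, CZ.conj_pow hSu]
        simp [Matrix.mul_smul, Matrix.smul_mul, Matrix.smul_apply]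
      have e2 : L (Polynomial.aeval A (q c d)) = Polynomial.aeval (S * A * S⁻¹) (q c d) a b := by
        show (S * Polynomial.aeval A (q c d) * S⁻¹) a b = _
        rw [CZ.aeval_conj hSu]
      rw [e1, e2] at hmap
      exact hmap
    exact (B.Lam_series C hCs cf hcf (fun θ => v (G (Complex.exp ((θ : ℂ) * Complex.I))) c d)
      (fun θ => hs _ (B.G_mem (hnorm θ))) a b hD).symm
  refine ⟨key, ?_⟩
  intro M hM
  refine CZ.conj_bound S hSu (fun c d => Polynomial.aeval A (q c d)) _ M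
    (CZ.S_inv_norm h1 hS₁ hS₂) (CZ.S_norm h2 hS₁ hS₂) ?_
  have hb := CZ.poisson_bound (CZ.Lam f G C) (B.Lam_cont C hCs) (B.Lam_psd C hCc hCs) hmean
    (fun θ => v (G (Complex.exp ((θ : ℂ) * Complex.I)))) ?_ M
    (fun θ => hM _ (B.G_mem (hnorm θ)))
  · convert hb using 4
    funext i j
    have := key i.1 j.1 i.2 j.2
    rw [CZ.aeval_conj hSu] at this
    exact this
  · intro c d
    rw [continuous_iff_continuousAt]
    intro θ
    have hmem : G (Complex.exp ((θ : ℂ) * Complex.I)) ∈ V := hΩV (B.G_mem (hnorm θ))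
    have h1 : ContinuousAt (fun z => v z c d) (G (Complex.exp ((θ : ℂ) * Complex.I))) :=
      ((hv c d).differentiableAt (hV.mem_nhds hmem)).continuousAt
    have hopen : IsOpen {t : ℂ | r < ‖t‖} := isOpen_lt continuous_const continuous_norm
    have h2 : ContinuousAt G (Complex.exp ((θ : ℂ) * Complex.I)) := by
      refine (hG₁.differentiableAt (hopen.mem_nhds ?_)).continuousAt
      show r < ‖Complex.exp ((θ : ℂ) * Complex.I)‖
      rw [hnorm θ]; exact hr₂
    have h3 : ContinuousAt (fun θ : ℝ => Complex.exp ((θ : ℂ) * Complex.I)) θ := by fun_prop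
    exact ContinuousAt.comp (g := fun z => v z c d)
      (f := fun θ : ℝ => G (Complex.exp ((θ : ℂ) * Complex.I))) h1
      (ContinuousAt.comp (g := G) (f := fun θ : ℝ => Complex.exp ((θ : ℂ) * Complex.I)) h2 h3)

end Crest.Agent.S0181
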