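import Mathlib
import Crest.Agent.SGG_Defs

/-!
# Poisson weights (S0192, part G, task G1)
-/

set_option autoImplicit false

open MeasureTheory
open Crest.ProbabilityR.Diluted

namespace Crest.Agent.SGG

theorem poissonWeight_nonneg {lam : ℝ} (h : 0 ≤ lam) (n : ℕ) : 0 ≤ poissonWeight lam n := by
  unfold poissonWeight
  positivity

theorem hasSum_poissonWeight (lam : ℝ) : HasSum (fun n => poissonWeight lam n) 1 := by
  have h := NormedSpace.expSeries_div_hasSum_exp (𝔸 := ℝ) lam
  have h2 := h.mul_left (Real.exp (-lam))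
  rw [← Real.exp_eq_exp_ℝ, ← Real.exp_add, neg_add_cancel, Real.exp_zero] at h2
  have e : (fun n => poissonWeight lam n) = fun i : ℕ =>
      Real.exp (-lam) * (lam ^ i / (Nat.factorial i : ℝ)) := by
    funext n
    unfold poissonWeight
    rw [mul_div_assoc]
  rw [e]
  exact h2

theorem poissonWeight_succ_mul (lam : ℝ) (n : ℕ) :
    poissonWeight lam (n + 1) * ((n + 1 : ℕ) : ℝ) = lam * poissonWeight lam n := by
  unfold poissonWeight
  have h1 : ((Nat.factorial n : ℕ) : ℝ) ≠ 0 := by positivity
  have h2 : ((n : ℝ) + 1) ≠ 0 := by positivity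
  rw [Nat.factorial_succ]
  push_cast
  field_simp
  ring

theorem hasSum_poissonWeight_mul (lam : ℝ) :
    HasSum (fun n : ℕ => poissonWeight lam n * (n : ℝ)) lam := by
  have h := (hasSum_poissonWeight lam).mul_left lam
  rw [mul_one] at h
  have h3 : HasSum (fun n : ℕ => poissonWeight lam (n + 1) * ((n + 1 : ℕ) : ℝ)) lam := by
    have e : (fun n : ℕ => poissonWeight lam (n + 1) * ((n + 1 : ℕ) : ℝ)) =
        fun n : ℕ => lam * poissonWeight lam n := by
      funext n
      exact poissonWeight_succ_mul lam n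
    rw [e]
    exact h
  have := (hasSum_nat_add_iff (f := fun n : ℕ => poissonWeight lam n * (n : ℝ)) 1).1 h3
  simpa using this

theorem summable_linear {lam : ℝ} (h : 0 ≤ lam) {a : ℕ → ℝ} {A B : ℝ}
    (ha : ∀ n, |a n| ≤ A + B * n) : Summable (fun n : ℕ => poissonWeight lam n * a n) := by
  have h1 : Summable (fun n : ℕ => poissonWeight lam n * A + poissonWeight lam n * (n : ℝ) * B) :=
    ((hasSum_poissonWeight lam).summable.mul_right A).add
      ((hasSum_poissonWeight_mul lam).summable.mul_right B)
  refine Summable.of_norm_bounded h1 fun n => ?_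
  rw [Real.norm_eq_abs, abs_mul, abs_of_nonneg (poissonWeight_nonneg h n)]
  have := mul_le_mul_of_nonneg_left (ha n) (poissonWeight_nonneg h n)
  calc poissonWeight lam n * |a n| ≤ poissonWeight lam n * (A + B * n) := this
    _ = _ := by ring

theorem tsum_linear {lam : ℝ} (A B : ℝ) :
    ∑' n : ℕ, poissonWeight lam n * (A + B * n) = A + B * lam := by
  have h1 : HasSum (fun n : ℕ => poissonWeight lam n * A + poissonWeight lam n * (n : ℝ) * B)
      (1 * A + lam * B) :=
    ((hasSum_poissonWeight lam).mul_right A).add ((hasSum_poissonWeight_mul lam).mul_right B)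
  have e : (fun n : ℕ => poissonWeight lam n * (A + B * n)) =
      fun n : ℕ => poissonWeight lam n * A + poissonWeight lam n * (n : ℝ) * B := by
    funext n; ring
  rw [e, h1.tsum_eq]
  ring

/-- Two Poisson averages of sequences which differ by at most `D + E n`. -/
theorem tsum_sub_le {lam : ℝ} (h : 0 ≤ lam) {a a' : ℕ → ℝ} {A B A' B' D E : ℝ}
    (ha : ∀ n, |a n| ≤ A + B * n) (ha' : ∀ n, |a' n| ≤ A' + B' * n)
    (hd : ∀ n, |a n - a' n| ≤ D + E * n) :
    |∑' n : ℕ, poissonWeight lam n * a n - ∑' n : ℕ, poissonWeight lam n * a' n| ≤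
      D + E * lam := by
  rw [← (summable_linear h ha).tsum_sub (summable_linear h ha')]
  have e : (fun n : ℕ => poissonWeight lam n * a n - poissonWeight lam n * a' n) =
      fun n : ℕ => poissonWeight lam n * (a n - a' n) := by
    funext n; ring
  rw [e, ← tsum_linear (lam := lam) D E]
  have hs := summable_linear h hd
  have hb : ∀ n : ℕ, ‖poissonWeight lam n * (a n - a' n)‖ ≤ poissonWeight lam n * (D + E * n) := by
    intro n
    rw [Real.norm_eq_abs, abs_mul, abs_of_nonneg (poissonWeight_nonneg h n)]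
    exact mul_le_mul_of_nonneg_left (hd n) (poissonWeight_nonneg h n)
  have hs2 : Summable (fun n : ℕ => poissonWeight lam n * (D + E * n)) := by
    refine summable_linear h (A := |D|) (B := |E|) fun n => ?_
    calc |D + E * n| ≤ |D| + |E * n| := abs_add_le _ _
      _ = |D| + |E| * n := by rw [abs_mul, Nat.abs_cast]
  have := tsum_of_norm_bounded hs2.hasSum hb
  rwa [Real.norm_eq_abs] at this

/-- Additive linear terms. -/
theorem tsum_add_linear {lam : ℝ} (h : 0 ≤ lam) {a : ℕ → ℝ} {A B : ℝ}
    (ha : ∀ n, |a n| ≤ A + B * n) (c d : ℝ) :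
    ∑' n : ℕ, poissonWeight lam n * (a n + (c + d * n)) =
      ∑' n : ℕ, poissonWeight lam n * a n + (c + d * lam) := by
  have hs2 : Summable (fun n : ℕ => poissonWeight lam n * (c + d * n)) := by
    refine summable_linear h (A := |c|) (B := |d|) fun n => ?_
    calc |c + d * n| ≤ |c| + |d * n| := abs_add_le _ _
      _ = |c| + |d| * n := by rw [abs_mul, Nat.abs_cast]
  rw [← tsum_linear (lam := lam) c d, ← (summable_linear h ha).tsum_add hs2]
  refine tsum_congr fun n => ?_
  ring

/-- Convergence of Poisson averages (dominated by a linear sequence). -/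
theorem tendsto_tsum {lam : ℝ} (h : 0 ≤ lam) {a : ℕ → ℕ → ℝ} {b : ℕ → ℝ} {A B : ℝ}
    (ha : ∀ j n, |a j n| ≤ A + B * n)
    (hl : ∀ n, Filter.Tendsto (fun j => a j n) Filter.atTop (nhds (b n))) :
    Filter.Tendsto (fun j => ∑' n : ℕ, poissonWeight lam n * a j n) Filter.atTop
      (nhds (∑' n : ℕ, poissonWeight lam n * b n)) := by
  have hs2 : Summable (fun n : ℕ => poissonWeight lam n * (|A| + |B| * n)) := by
    refine summable_linear h (A := |A|) (B := |B|) fun n => ?_
    rw [abs_of_nonneg]
    positivity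
  refine tendsto_tsum_of_dominated_convergence hs2 (fun n => (hl n).const_mul _)
    (Filter.Eventually.of_forall fun j n => ?_)
  rw [Real.norm_eq_abs, abs_mul, abs_of_nonneg (poissonWeight_nonneg h n)]
  refine mul_le_mul_of_nonneg_left ((ha j n).trans ?_) (poissonWeight_nonneg h n)
  have h1 : A ≤ |A| := le_abs_self A
  have h2 : B * n ≤ |B| * n := mul_le_mul_of_nonneg_right (le_abs_self B) (Nat.cast_nonneg n)
  linarith

end Crest.Agent.SGG
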