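import Mathlib
import Crest.Agent.SGG_Defs
import Crest.Agent.SGG_Pois

/-!
# Abstract Poisson functionals of the interaction law (S0192, part G, task G2)

`PF lam Φ μ = Σ_M Poi(lam)(M) ∫ Φ_M dμ^M` for `Φ` 1-Lipschitz in the interactions.
-/

set_option autoImplicit false

open MeasureTheory
open Crest.ProbabilityR.Diluted

namespace Crest.Agent.SGG

variable {p : ℕ}

theorem abs_le_supNorm (θ : Inter p) (s : Fin p → Bool) : |θ s| ≤ supNorm θ := by
  unfold supNorm
  exact le_ciSup (f := fun s => |θ s|) (Set.finite_range _).bddAbove s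

theorem supNorm_le {θ : Inter p} {c : ℝ} (h : ∀ s, |θ s| ≤ c) : supNorm θ ≤ c := by
  unfold supNorm
  exact ciSup_le h

theorem supNorm_nonneg (θ : Inter p) : 0 ≤ supNorm θ :=
  (abs_nonneg _).trans (abs_le_supNorm θ (fun _ => true))

theorem supNorm_add_le (θ θ' : Inter p) : supNorm (fun s => θ s + θ' s) ≤ supNorm θ + supNorm θ' :=
  supNorm_le fun s => (abs_add_le _ _).trans
    (add_le_add (abs_le_supNorm θ s) (abs_le_supNorm θ' s))

theorem supNorm_sub_le (θ θ' : Inter p) : supNorm (fun s => θ s - θ' s) ≤ supNorm θ + supNorm θ' :=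
  supNorm_le fun s => (abs_sub _ _).trans
    (add_le_add (abs_le_supNorm θ s) (abs_le_supNorm θ' s))

theorem supNorm_sub_comm (θ θ' : Inter p) :
    supNorm (fun s => θ s - θ' s) = supNorm (fun s => θ' s - θ s) := by
  unfold supNorm
  congr 1
  funext s
  exact abs_sub_comm _ _

theorem supNorm_const (c : ℝ) : supNorm (fun _ : Fin p → Bool => c) = |c| := by
  unfold supNorm
  exact ciSup_const

theorem supNorm_eq_norm (θ : Inter p) : supNorm θ = ‖θ‖ := by
  apply le_antisymm
  · exact supNorm_le fun s => by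
      rw [← Real.norm_eq_abs]
      exact norm_le_pi_norm θ s
  · rw [pi_norm_le_iff_of_nonneg (supNorm_nonneg θ)]
    intro s
    rw [Real.norm_eq_abs]
    exact abs_le_supNorm θ s

theorem continuous_supNorm : Continuous (fun θ : Inter p => supNorm θ) := by
  have : (fun θ : Inter p => supNorm θ) = fun θ => ‖θ‖ := by
    funext θ
    exact supNorm_eq_norm θ
  rw [this]
  exact continuous_norm

theorem measurable_supNorm : Measurable (fun θ : Inter p => supNorm θ) :=
  continuous_supNorm.measurable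

/-- A function of `M` interactions which is 1-Lipschitz and equivariant under constants. -/
structure Lip1 (M : ℕ) (Φ : (Fin M → Inter p) → ℝ) : Prop where
  lip : ∀ θs θs' : Fin M → Inter p, |Φ θs - Φ θs'| ≤ ∑ k, supNorm (fun s => θs k s - θs' k s)
  shift : ∀ (θs : Fin M → Inter p) (c : Fin M → ℝ),
    Φ (fun k s => θs k s + c k) = Φ θs + ∑ k, c k

theorem Lip1.continuous {M : ℕ} {Φ : (Fin M → Inter p) → ℝ} (h : Lip1 M Φ) : Continuous Φ := by
  rw [continuous_iff_continuousAt]
  intro θs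
  have h1 : Filter.Tendsto (fun θs' : Fin M → Inter p => ∑ k, supNorm (fun s => θs' k s - θs k s))
      (nhds θs) (nhds 0) := by
    have hc : Continuous (fun θs' : Fin M → Inter p =>
        ∑ k, supNorm (fun s => θs' k s - θs k s)) := by
      refine continuous_finsetSum _ fun k _ => ?_
      refine continuous_supNorm.comp ?_
      fun_prop
    have h0 : (∑ k, supNorm (fun s => θs k s - θs k s)) = 0 := by
      simp [supNorm]
    have := hc.tendsto θs
    rwa [h0] at this
  rw [ContinuousAt, tendsto_iff_norm_sub_tendsto_zero]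
  refine squeeze_zero (fun _ => norm_nonneg _) (fun θs' => ?_) h1
  rw [Real.norm_eq_abs]
  exact h.lip θs' θs

theorem Lip1.bound {M : ℕ} {Φ : (Fin M → Inter p) → ℝ} (h : Lip1 M Φ)
    (θs : Fin M → Inter p) : |Φ θs| ≤ |Φ (fun _ _ => 0)| + ∑ k, supNorm (θs k) := by
  have h1 := h.lip θs (fun _ _ => 0)
  simp only [sub_zero] at h1
  have h2 : |Φ θs| ≤ |Φ θs - Φ (fun _ _ => 0)| + |Φ (fun _ _ => 0)| := by
    have := abs_add_le (Φ θs - Φ (fun _ _ => 0)) (Φ (fun _ _ => 0))
    rwa [sub_add_cancel] at this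
  linarith

theorem integral_pi_map {Ω : Type} [MeasurableSpace Ω] (P : Measure Ω) [IsProbabilityMeasure P]
    {Θ : Ω → Inter p} (hΘ : Measurable Θ) {M : ℕ} {Φ : (Fin M → Inter p) → ℝ} (h : Continuous Φ) :
    ∫ θs, Φ θs ∂(Measure.pi fun _ : Fin M => P.map Θ) =
      ∫ ω, Φ (fun k => Θ (ω k)) ∂(Measure.pi fun _ : Fin M => P) := by
  have : IsProbabilityMeasure (P.map Θ) := Measure.isProbabilityMeasure_map hΘ.aemeasurable
  have hm : Measurable (fun (ω : Fin M → Ω) (k : Fin M) => Θ (ω k)) :=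
    measurable_pi_lambda _ fun k => hΘ.comp (measurable_pi_apply k)
  rw [← Measure.pi_map_pi (fun _ => hΘ.aemeasurable),
    integral_map hm.aemeasurable h.aestronglyMeasurable]

theorem integrable_sum_eval {Ω : Type} [MeasurableSpace Ω] (P : Measure Ω)
    [IsProbabilityMeasure P] {M : ℕ} {g : Ω → ℝ} (hg : Integrable g P) :
    Integrable (fun ω : Fin M → Ω => ∑ k, g (ω k)) (Measure.pi fun _ : Fin M => P) := by
  refine integrable_finsetSum _ fun k _ => ?_
  exact (measurePreserving_eval (fun _ : Fin M => P) k).integrable_comp_of_integrable hg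

theorem integral_sum_eval {Ω : Type} [MeasurableSpace Ω] (P : Measure Ω)
    [IsProbabilityMeasure P] {M : ℕ} {g : Ω → ℝ} (hg : Integrable g P) :
    ∫ ω : Fin M → Ω, ∑ k, g (ω k) ∂(Measure.pi fun _ : Fin M => P) = M * ∫ x, g x ∂P := by
  rw [integral_finsetSum]
  · simp_rw [integral_comp_eval (μ := fun _ : Fin M => P) hg.aestronglyMeasurable]
    simp
  · intro k _
    exact (measurePreserving_eval (fun _ : Fin M => P) k).integrable_comp_of_integrable hg

theorem Lip1.integrable {Ω : Type} [MeasurableSpace Ω] (P : Measure Ω) [IsProbabilityMeasure P]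
    {Θ : Ω → Inter p} (hΘ : Measurable Θ) (hi : Integrable (fun ω => supNorm (Θ ω)) P)
    {M : ℕ} {Φ : (Fin M → Inter p) → ℝ} (h : Lip1 M Φ) :
    Integrable (fun ω : Fin M → Ω => Φ (fun k => Θ (ω k))) (Measure.pi fun _ : Fin M => P) := by
  have h1 : Integrable (fun ω : Fin M → Ω => |Φ (fun _ _ => 0)| + ∑ k, supNorm (Θ (ω k)))
      (Measure.pi fun _ : Fin M => P) :=
    (integrable_const _).add (integrable_sum_eval P hi)
  refine h1.mono' ?_ (Filter.Eventually.of_forall fun ω => ?_)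
  · refine (h.continuous.measurable.comp ?_).aestronglyMeasurable
    fun_prop
  · rw [Real.norm_eq_abs]
    exact h.bound _

/-- Coupling bound for a fixed number of interactions. -/
theorem Lip1.coupling {Ω : Type} [MeasurableSpace Ω] (P : Measure Ω) [IsProbabilityMeasure P]
    {Θ Θ' : Ω → Inter p} (hΘ : Measurable Θ) (hΘ' : Measurable Θ')
    (hi : Integrable (fun ω => supNorm (Θ ω)) P) (hi' : Integrable (fun ω => supNorm (Θ' ω)) P)
    {M : ℕ} {Φ : (Fin M → Inter p) → ℝ} (h : Lip1 M Φ) :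
    |∫ θs, Φ θs ∂(Measure.pi fun _ : Fin M => P.map Θ) -
      ∫ θs, Φ θs ∂(Measure.pi fun _ : Fin M => P.map Θ')| ≤
      M * ∫ ω, supNorm (fun s => Θ ω s - Θ' ω s) ∂P := by
  have hd : Integrable (fun ω => supNorm (fun s => Θ ω s - Θ' ω s)) P := by
    refine (hi.add hi').mono' ?_ (Filter.Eventually.of_forall fun ω => ?_)
    · exact (measurable_supNorm.comp (by fun_prop)).aestronglyMeasurable
    · rw [Real.norm_eq_abs, abs_of_nonneg (supNorm_nonneg _)]
      exact supNorm_sub_le _ _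
  rw [integral_pi_map P hΘ h.continuous, integral_pi_map P hΘ' h.continuous,
    ← integral_sub (h.integrable P hΘ hi) (h.integrable P hΘ' hi'),
    ← integral_sum_eval P hd, ← Real.norm_eq_abs]
  refine (norm_integral_le_integral_norm _).trans ?_
  refine integral_mono_of_nonneg (Filter.Eventually.of_forall fun _ => norm_nonneg _)
    (integrable_sum_eval P hd) (Filter.Eventually.of_forall fun ω => ?_)
  simp only [Real.norm_eq_abs]
  exact h.lip _ _

theorem Lip1.shift_integral {Ω : Type} [MeasurableSpace Ω] (P : Measure Ω)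
    [IsProbabilityMeasure P] {Θ : Ω → Inter p} (hΘ : Measurable Θ)
    (hi : Integrable (fun ω => supNorm (Θ ω)) P) {c : Ω → ℝ} (hc : Measurable c)
    (hci : Integrable c P) {M : ℕ} {Φ : (Fin M → Inter p) → ℝ} (h : Lip1 M Φ) :
    ∫ θs, Φ θs ∂(Measure.pi fun _ : Fin M => P.map (fun ω s => Θ ω s + c ω)) =
      ∫ θs, Φ θs ∂(Measure.pi fun _ : Fin M => P.map Θ) + M * ∫ ω, c ω ∂P := by
  rw [integral_pi_map P (by fun_prop) h.continuous, integral_pi_map P hΘ h.continuous]
  have e : (fun ω : Fin M → Ω => Φ (fun k s => Θ (ω k) s + c (ω k))) =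
      fun ω => Φ (fun k => Θ (ω k)) + ∑ k, c (ω k) := by
    funext ω
    exact h.shift (fun k => Θ (ω k)) (fun k => c (ω k))
  rw [e, integral_add (h.integrable P hΘ hi) (integrable_sum_eval P hci), integral_sum_eval P hci]

/-- A family of functionals, one for every number of interactions, bounded at `0`. -/
structure LipFam (Φ : (M : ℕ) → (Fin M → Inter p) → ℝ) (A : ℝ) : Prop where
  lip1 : ∀ M, Lip1 M (Φ M)
  zero : ∀ M, |Φ M (fun _ _ => 0)| ≤ A

/-- The Poisson average. -/
noncomputable def PF (lam : ℝ) (Φ : (M : ℕ) → (Fin M → Inter p) → ℝ) (μ : Measure (Inter p)) : ℝ :=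
  ∑' M : ℕ, poissonWeight lam M * ∫ θs, Φ M θs ∂(Measure.pi fun _ : Fin M => μ)

theorem LipFam.bound_integral {Ω : Type} [MeasurableSpace Ω] (P : Measure Ω)
    [IsProbabilityMeasure P] {Θ : Ω → Inter p} (hΘ : Measurable Θ)
    (hi : Integrable (fun ω => supNorm (Θ ω)) P)
    {Φ : (M : ℕ) → (Fin M → Inter p) → ℝ} {A : ℝ} (h : LipFam Φ A) (M : ℕ) :
    |∫ θs, Φ M θs ∂(Measure.pi fun _ : Fin M => P.map Θ)| ≤
      A + (∫ ω, supNorm (Θ ω) ∂P) * M := by
  rw [integral_pi_map P hΘ (h.lip1 M).continuous, ← Real.norm_eq_abs]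
  refine (norm_integral_le_integral_norm _).trans ?_
  have h1 : ∫ ω : Fin M → Ω, ‖Φ M (fun k => Θ (ω k))‖ ∂(Measure.pi fun _ : Fin M => P) ≤
      ∫ ω : Fin M → Ω, (A + ∑ k, supNorm (Θ (ω k))) ∂(Measure.pi fun _ : Fin M => P) := by
    refine integral_mono_of_nonneg (Filter.Eventually.of_forall fun _ => norm_nonneg _)
      ((integrable_const _).add (integrable_sum_eval P hi)) (Filter.Eventually.of_forall fun ω => ?_)
    simp only [Real.norm_eq_abs]
    exact ((h.lip1 M).bound _).trans (add_le_add_left (h.zero M) _)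
  refine h1.trans (le_of_eq ?_)
  rw [integral_add (integrable_const _) (integrable_sum_eval P hi), integral_sum_eval P hi]
  simp [mul_comm]

/-- Coupling bound. -/
theorem PF_coupling {Ω : Type} [MeasurableSpace Ω] (P : Measure Ω) [IsProbabilityMeasure P]
    {Θ Θ' : Ω → Inter p} (hΘ : Measurable Θ) (hΘ' : Measurable Θ')
    (hi : Integrable (fun ω => supNorm (Θ ω)) P) (hi' : Integrable (fun ω => supNorm (Θ' ω)) P)
    {Φ : (M : ℕ) → (Fin M → Inter p) → ℝ} {A : ℝ} (h : LipFam Φ A) {lam : ℝ} (hl : 0 ≤ lam) :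
    |PF lam Φ (P.map Θ) - PF lam Φ (P.map Θ')| ≤
      lam * ∫ ω, supNorm (fun s => Θ ω s - Θ' ω s) ∂P := by
  have := tsum_sub_le hl (h.bound_integral P hΘ hi) (h.bound_integral P hΘ' hi')
    (D := 0) (E := ∫ ω, supNorm (fun s => Θ ω s - Θ' ω s) ∂P) (fun M => by
      have := (h.lip1 M).coupling P hΘ hΘ' hi hi'
      rw [mul_comm] at this
      linarith)
  unfold PF
  linarith

theorem PF_shift {Ω : Type} [MeasurableSpace Ω] (P : Measure Ω)
    [IsProbabilityMeasure P] {Θ : Ω → Inter p} (hΘ : Measurable Θ)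
    (hi : Integrable (fun ω => supNorm (Θ ω)) P) {c : Ω → ℝ} (hc : Measurable c)
    (hci : Integrable c P) {Φ : (M : ℕ) → (Fin M → Inter p) → ℝ} {A : ℝ} (h : LipFam Φ A)
    {lam : ℝ} (hl : 0 ≤ lam) :
    PF lam Φ (P.map (fun ω s => Θ ω s + c ω)) = PF lam Φ (P.map Θ) + lam * ∫ ω, c ω ∂P := by
  unfold PF
  have := tsum_add_linear hl (h.bound_integral P hΘ hi) 0 (∫ ω, c ω ∂P)
  rw [mul_comm lam, ← zero_add ((∫ ω, c ω ∂P) * lam), ← this]
  refine tsum_congr fun M => ?_
  rw [(h.lip1 M).shift_integral P hΘ hi hc hci]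
  ring

/-- Uniformly close functionals. -/
theorem PF_close {Ω : Type} [MeasurableSpace Ω] (P : Measure Ω)
    [IsProbabilityMeasure P] {Θ : Ω → Inter p} (hΘ : Measurable Θ)
    (hi : Integrable (fun ω => supNorm (Θ ω)) P)
    {Φ Φ' : (M : ℕ) → (Fin M → Inter p) → ℝ} {A A' : ℝ} (h : LipFam Φ A) (h' : LipFam Φ' A')
    {lam : ℝ} (hl : 0 ≤ lam) {D : ℝ} (hD : ∀ M θs, |Φ M θs - Φ' M θs| ≤ D) :
    |PF lam Φ (P.map Θ) - PF lam Φ' (P.map Θ)| ≤ D := by
  have := tsum_sub_le hl (h.bound_integral P hΘ hi) (h'.bound_integral P hΘ hi)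
    (D := D) (E := 0) (fun M => by
      rw [integral_pi_map P hΘ (h.lip1 M).continuous, integral_pi_map P hΘ (h'.lip1 M).continuous,
        ← integral_sub ((h.lip1 M).integrable P hΘ hi) ((h'.lip1 M).integrable P hΘ hi),
        ← Real.norm_eq_abs]
      refine (norm_integral_le_of_norm_le_const (C := D)
        (Filter.Eventually.of_forall fun ω => ?_)).trans ?_
      · rw [Real.norm_eq_abs]
        exact hD M _
      · simp)
  unfold PF
  linarith

/-- Single interaction functionals. -/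
structure SLip1 (Ψ : Inter p → ℝ) : Prop where
  lip : ∀ θ θ' : Inter p, |Ψ θ - Ψ θ'| ≤ supNorm (fun s => θ s - θ' s)
  shift : ∀ (θ : Inter p) (c : ℝ), Ψ (fun s => θ s + c) = Ψ θ + c

theorem SLip1.toLip1 {Ψ : Inter p → ℝ} (h : SLip1 Ψ) :
    Lip1 1 (fun θs : Fin 1 → Inter p => Ψ (θs 0)) := by
  refine ⟨fun θs θs' => ?_, fun θs c => ?_⟩
  · simpa using h.lip (θs 0) (θs' 0)
  · simpa using h.shift (θs 0) (c 0)

theorem SLip1.continuous {Ψ : Inter p → ℝ} (h : SLip1 Ψ) : Continuous Ψ :=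
  h.toLip1.continuous.comp (continuous_pi fun _ : Fin 1 => continuous_id)

theorem SLip1.bound {Ψ : Inter p → ℝ} (h : SLip1 Ψ) (θ : Inter p) :
    |Ψ θ| ≤ |Ψ (fun _ => 0)| + supNorm θ := by
  simpa using h.toLip1.bound (fun _ => θ)

theorem SLip1.integrable {Ω : Type} [MeasurableSpace Ω] (P : Measure Ω) [IsProbabilityMeasure P]
    {Θ : Ω → Inter p} (hΘ : Measurable Θ) (hi : Integrable (fun ω => supNorm (Θ ω)) P)
    {Ψ : Inter p → ℝ} (h : SLip1 Ψ) : Integrable (fun ω => Ψ (Θ ω)) P := by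
  refine ((integrable_const |Ψ (fun _ => 0)|).add hi).mono'
    (h.continuous.measurable.comp hΘ).aestronglyMeasurable
    (Filter.Eventually.of_forall fun ω => ?_)
  rw [Real.norm_eq_abs]
  exact h.bound _

theorem SLip1.coupling {Ω : Type} [MeasurableSpace Ω] (P : Measure Ω) [IsProbabilityMeasure P]
    {Θ Θ' : Ω → Inter p} (hΘ : Measurable Θ) (hΘ' : Measurable Θ')
    (hi : Integrable (fun ω => supNorm (Θ ω)) P) (hi' : Integrable (fun ω => supNorm (Θ' ω)) P)
    {Ψ : Inter p → ℝ} (h : SLip1 Ψ) :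
    |∫ θ, Ψ θ ∂(P.map Θ) - ∫ θ, Ψ θ ∂(P.map Θ')| ≤
      ∫ ω, supNorm (fun s => Θ ω s - Θ' ω s) ∂P := by
  have hd : Integrable (fun ω => supNorm (fun s => Θ ω s - Θ' ω s)) P := by
    refine (hi.add hi').mono' ?_ (Filter.Eventually.of_forall fun ω => ?_)
    · exact (measurable_supNorm.comp (by fun_prop)).aestronglyMeasurable
    · rw [Real.norm_eq_abs, abs_of_nonneg (supNorm_nonneg _)]
      exact supNorm_sub_le _ _
  rw [integral_map hΘ.aemeasurable h.continuous.aestronglyMeasurable,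
    integral_map hΘ'.aemeasurable h.continuous.aestronglyMeasurable,
    ← integral_sub (h.integrable P hΘ hi) (h.integrable P hΘ' hi'), ← Real.norm_eq_abs]
  refine (norm_integral_le_integral_norm _).trans ?_
  refine integral_mono_of_nonneg (Filter.Eventually.of_forall fun _ => norm_nonneg _)
    hd (Filter.Eventually.of_forall fun ω => ?_)
  simp only [Real.norm_eq_abs]
  exact h.lip _ _

theorem SLip1.shift_integral {Ω : Type} [MeasurableSpace Ω] (P : Measure Ω)
    [IsProbabilityMeasure P] {Θ : Ω → Inter p} (hΘ : Measurable Θ)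
    (hi : Integrable (fun ω => supNorm (Θ ω)) P) {c : Ω → ℝ} (hc : Measurable c)
    (hci : Integrable c P) {Ψ : Inter p → ℝ} (h : SLip1 Ψ) :
    ∫ θ, Ψ θ ∂(P.map (fun ω s => Θ ω s + c ω)) = ∫ θ, Ψ θ ∂(P.map Θ) + ∫ ω, c ω ∂P := by
  rw [integral_map (by fun_prop) h.continuous.aestronglyMeasurable,
    integral_map hΘ.aemeasurable h.continuous.aestronglyMeasurable,
    ← integral_add (h.integrable P hΘ hi) hci]
  refine integral_congr_ae (Filter.Eventually.of_forall fun ω => ?_)
  exact h.shift _ _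

end Crest.Agent.SGG
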