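import Mathlib
import Crest.Agent.SGG_Defs
import Crest.Agent.SGG_Pois
import Crest.Agent.SGG_PF

/-!
# log-sum-exp lemmas and the pressure (S0192, part G, task G3)
-/

set_option autoImplicit false

open MeasureTheory
open Crest.ProbabilityR.Diluted

namespace Crest.Agent.SGG

section LS

variable {S : Type} [Fintype S]

theorem sum_exp_pos (w : S → ℝ) (hw : ∀ s, 0 ≤ w s) (hpos : 0 < ∑ s, w s) (E : S → ℝ) :
    0 < ∑ s, Real.exp (E s) * w s := by
  obtain ⟨s, _, hs⟩ := Finset.exists_lt_of_sum_lt (s := Finset.univ)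
    (f := fun _ : S => (0 : ℝ)) (g := w) (by simpa using hpos)
  exact Finset.sum_pos' (fun t _ => mul_nonneg (Real.exp_pos _).le (hw t))
    ⟨s, Finset.mem_univ s, mul_pos (Real.exp_pos _) hs⟩

theorem sum_exp_le (w : S → ℝ) (hw : ∀ s, 0 ≤ w s) (E E' : S → ℝ) {D : ℝ}
    (h : ∀ s, E s ≤ E' s + D) :
    ∑ s, Real.exp (E s) * w s ≤ Real.exp D * ∑ s, Real.exp (E' s) * w s := by
  rw [Finset.mul_sum]
  refine Finset.sum_le_sum fun s _ => ?_
  have := Real.exp_le_exp.2 (h s)
  rw [Real.exp_add] at this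
  calc Real.exp (E s) * w s ≤ (Real.exp (E' s) * Real.exp D) * w s :=
        mul_le_mul_of_nonneg_right this (hw s)
    _ = _ := by ring

theorem logsum_lip (w : S → ℝ) (hw : ∀ s, 0 ≤ w s) (hpos : 0 < ∑ s, w s) (E E' : S → ℝ) {D : ℝ}
    (h : ∀ s, |E s - E' s| ≤ D) :
    |Real.log (∑ s, Real.exp (E s) * w s) - Real.log (∑ s, Real.exp (E' s) * w s)| ≤ D := by
  have key : ∀ F F' : S → ℝ, (∀ s, |F s - F' s| ≤ D) →
      Real.log (∑ s, Real.exp (F s) * w s) ≤ Real.log (∑ s, Real.exp (F' s) * w s) + D := by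
    intro F F' hF
    have h1 := sum_exp_le w hw F F' (D := D) (fun s => by
      have := (abs_le.1 (hF s)).2
      linarith)
    have h2 := Real.log_le_log (sum_exp_pos w hw hpos F) h1
    rw [Real.log_mul (Real.exp_pos D).ne' (sum_exp_pos w hw hpos F').ne', Real.log_exp] at h2
    linarith
  rw [abs_le]
  constructor
  · have := key E' E (fun s => by rw [abs_sub_comm]; exact h s)
    linarith
  · have := key E E' h
    linarith

theorem sum_exp_shift (w : S → ℝ) (E : S → ℝ) (c : ℝ) :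
    ∑ s, Real.exp (E s + c) * w s = Real.exp c * ∑ s, Real.exp (E s) * w s := by
  rw [Finset.mul_sum]
  refine Finset.sum_congr rfl fun s _ => ?_
  rw [Real.exp_add]
  ring

theorem logsum_shift (w : S → ℝ) (hw : ∀ s, 0 ≤ w s) (hpos : 0 < ∑ s, w s) (E : S → ℝ) (c : ℝ) :
    Real.log (∑ s, Real.exp (E s + c) * w s) = Real.log (∑ s, Real.exp (E s) * w s) + c := by
  rw [sum_exp_shift, Real.log_mul (Real.exp_pos c).ne' (sum_exp_pos w hw hpos E).ne',
    Real.log_exp]
  ring

end LS

variable {p : ℕ}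

theorem abs_spinVal (b : Bool) : |spinVal b| = 1 := by
  cases b <;> simp [spinVal]

/-- `logPartition` is 1-Lipschitz. -/
theorem logPartition_lip (N : ℕ) {M : ℕ} (θs θs' : Fin M → Inter p)
    (idx : Fin M → Fin p → Fin N) (hs hs' : Fin N → ℝ) :
    |logPartition N θs idx hs - logPartition N θs' idx hs'| ≤
      ∑ k, supNorm (fun s => θs k s - θs' k s) + ∑ i, |hs i - hs' i| := by
  have := logsum_lip (S := Fin N → Bool) (fun _ => 1) (fun _ => zero_le_one)
    (by simp)
    (fun σ => (∑ k : Fin M, θs k (fun ℓ => σ (idx k ℓ))) + ∑ i : Fin N, hs i * spinVal (σ i))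
    (fun σ => (∑ k : Fin M, θs' k (fun ℓ => σ (idx k ℓ))) + ∑ i : Fin N, hs' i * spinVal (σ i))
    (D := ∑ k, supNorm (fun s => θs k s - θs' k s) + ∑ i, |hs i - hs' i|) (fun σ => by
      have e : (∑ k : Fin M, θs k (fun ℓ => σ (idx k ℓ))) + ∑ i : Fin N, hs i * spinVal (σ i) -
          ((∑ k : Fin M, θs' k (fun ℓ => σ (idx k ℓ))) + ∑ i : Fin N, hs' i * spinVal (σ i)) =
          ∑ k : Fin M, (θs k (fun ℓ => σ (idx k ℓ)) - θs' k (fun ℓ => σ (idx k ℓ))) +
            ∑ i : Fin N, (hs i - hs' i) * spinVal (σ i) := by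
        rw [Finset.sum_sub_distrib]
        simp_rw [sub_mul]
        rw [Finset.sum_sub_distrib]
        ring
      rw [e]
      refine (abs_add_le _ _).trans (add_le_add ?_ ?_)
      · refine (Finset.abs_sum_le_sum_abs _ _).trans (Finset.sum_le_sum fun k _ => ?_)
        exact abs_le_supNorm (fun s => θs k s - θs' k s) (fun ℓ => σ (idx k ℓ))
      · refine (Finset.abs_sum_le_sum_abs _ _).trans (Finset.sum_le_sum fun i _ => ?_)
        rw [abs_mul, abs_spinVal, mul_one])
  simpa [logPartition] using this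

theorem logPartition_shift (N : ℕ) {M : ℕ} (θs : Fin M → Inter p) (c : Fin M → ℝ)
    (idx : Fin M → Fin p → Fin N) (hs : Fin N → ℝ) :
    logPartition N (fun k s => θs k s + c k) idx hs = logPartition N θs idx hs + ∑ k, c k := by
  have := logsum_shift (S := Fin N → Bool) (fun _ => 1) (fun _ => zero_le_one)
    (by simp)
    (fun σ => (∑ k : Fin M, θs k (fun ℓ => σ (idx k ℓ))) + ∑ i : Fin N, hs i * spinVal (σ i))
    (∑ k, c k)
  simp only [mul_one] at this
  unfold logPartition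
  rw [← this]
  congr 1
  refine Finset.sum_congr rfl fun σ _ => ?_
  congr 1
  rw [Finset.sum_add_distrib]
  ring

theorem logPartition_zero (N : ℕ) {M : ℕ} (idx : Fin M → Fin p → Fin N) :
    logPartition N (fun _ _ => 0) idx (fun _ => 0) = N * Real.log 2 := by
  unfold logPartition
  simp

/-- The inner functional of the pressure. -/
noncomputable def PhiP (ν : Measure ℝ) (N : ℕ) : (M : ℕ) → (Fin M → Inter p) → ℝ :=
  fun M θs => ∫ hs, ((Fintype.card (Fin M → Fin p → Fin N) : ℝ)⁻¹ *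
        ∑ idx : Fin M → Fin p → Fin N, logPartition N θs idx hs)
      ∂(Measure.pi fun _ : Fin N => ν)

theorem pressure_eq_PF (α : ℝ) (μ : Measure (Inter p)) (ν : Measure ℝ) (N : ℕ) :
    pressure p α μ ν N = (1 / (N : ℝ)) * PF (α * N) (PhiP ν N) μ := rfl

/-- The average over the index tuples. -/
noncomputable def avgLP (N : ℕ) {M : ℕ} (θs : Fin M → Inter p) (hs : Fin N → ℝ) : ℝ :=
  (Fintype.card (Fin M → Fin p → Fin N) : ℝ)⁻¹ *
        ∑ idx : Fin M → Fin p → Fin N, logPartition N θs idx hs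

theorem avg_abs_le {I : Type} [Fintype I] [Nonempty I] (F G : I → ℝ) {D : ℝ}
    (h : ∀ i, |F i - G i| ≤ D) :
    |(Fintype.card I : ℝ)⁻¹ * ∑ i, F i - (Fintype.card I : ℝ)⁻¹ * ∑ i, G i| ≤ D := by
  have hc : (0 : ℝ) < (Fintype.card I : ℝ) := by exact_mod_cast Fintype.card_pos
  rw [← mul_sub, ← Finset.sum_sub_distrib, abs_mul, abs_of_pos (inv_pos.2 hc)]
  have h1 : |∑ i, (F i - G i)| ≤ Fintype.card I * D := by
    refine (Finset.abs_sum_le_sum_abs _ _).trans ?_
    refine (Finset.sum_le_sum fun i _ => h i).trans ?_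
    simp
  calc (Fintype.card I : ℝ)⁻¹ * |∑ i, (F i - G i)| ≤
        (Fintype.card I : ℝ)⁻¹ * (Fintype.card I * D) :=
        mul_le_mul_of_nonneg_left h1 (inv_pos.2 hc).le
    _ = D := by field_simp

theorem avgLP_lip {N : ℕ} (hN : 1 ≤ N) {M : ℕ} (θs θs' : Fin M → Inter p)
    (hs hs' : Fin N → ℝ) :
    |avgLP N θs hs - avgLP N θs' hs'| ≤
      ∑ k, supNorm (fun s => θs k s - θs' k s) + ∑ i, |hs i - hs' i| := by
  have : NeZero N := ⟨by omega⟩
  exact avg_abs_le (I := Fin M → Fin p → Fin N) _ _ fun idx => logPartition_lip N θs θs' idx hs hs'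

theorem avgLP_shift {N : ℕ} (hN : 1 ≤ N) {M : ℕ} (θs : Fin M → Inter p) (c : Fin M → ℝ)
    (hs : Fin N → ℝ) :
    avgLP N (fun k s => θs k s + c k) hs = avgLP N θs hs + ∑ k, c k := by
  have : NeZero N := ⟨by omega⟩
  have hc : (0 : ℝ) < (Fintype.card (Fin M → Fin p → Fin N) : ℝ) := by
    exact_mod_cast Fintype.card_pos
  unfold avgLP
  simp_rw [logPartition_shift]
  rw [Finset.sum_add_distrib, mul_add]
  congr 1
  rw [Finset.sum_const, Finset.card_univ, nsmul_eq_mul]
  field_simp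

theorem avgLP_zero {N : ℕ} (hN : 1 ≤ N) {M : ℕ} :
    avgLP (p := p) N (M := M) (fun _ _ => 0) (fun _ => 0) = N * Real.log 2 := by
  have : NeZero N := ⟨by omega⟩
  have hc : (0 : ℝ) < (Fintype.card (Fin M → Fin p → Fin N) : ℝ) := by
    exact_mod_cast Fintype.card_pos
  unfold avgLP
  simp_rw [logPartition_zero]
  rw [Finset.sum_const, Finset.card_univ, nsmul_eq_mul]
  field_simp

theorem continuous_avgLP {N : ℕ} (hN : 1 ≤ N) {M : ℕ} (θs : Fin M → Inter p) :
    Continuous (fun hs : Fin N → ℝ => avgLP N θs hs) := by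
  unfold avgLP logPartition
  refine continuous_const.mul (continuous_finsetSum _ fun idx _ => ?_)
  refine Continuous.log ?_ fun hs => ?_
  · fun_prop
  · have := sum_exp_pos (S := Fin N → Bool) (fun _ => 1) (fun _ => zero_le_one) (by simp)
      (fun σ => (∑ k : Fin M, θs k (fun ℓ => σ (idx k ℓ))) + ∑ i : Fin N, hs i * spinVal (σ i))
    simp only [mul_one] at this
    exact this.ne'

theorem avgLP_bound {N : ℕ} (hN : 1 ≤ N) {M : ℕ} (θs : Fin M → Inter p)
    (hs : Fin N → ℝ) :
    |avgLP N θs hs| ≤ (N * Real.log 2 + ∑ k, supNorm (θs k)) + ∑ i, |hs i| := by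
  have h1 := avgLP_lip hN θs (fun _ _ => 0) hs (fun _ => 0)
  simp only [sub_zero] at h1
  rw [avgLP_zero hN] at h1
  have h2 : (0 : ℝ) ≤ N * Real.log 2 := by positivity
  have h3 := abs_add_le (avgLP N θs hs - N * Real.log 2) (N * Real.log 2)
  rw [sub_add_cancel, abs_of_nonneg h2] at h3
  linarith

theorem integrable_sum_abs_eval (ν : Measure ℝ) [IsProbabilityMeasure ν]
    (hν : Integrable (fun x : ℝ => x) ν) (N : ℕ) :
    Integrable (fun hs : Fin N → ℝ => ∑ i, |hs i|) (Measure.pi fun _ : Fin N => ν) :=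
  integrable_sum_eval ν hν.abs

theorem integrable_avgLP (ν : Measure ℝ) [IsProbabilityMeasure ν]
    (hν : Integrable (fun x : ℝ => x) ν) {N : ℕ} (hN : 1 ≤ N) {M : ℕ} (θs : Fin M → Inter p) :
    Integrable (fun hs : Fin N → ℝ => avgLP N θs hs) (Measure.pi fun _ : Fin N => ν) := by
  refine ((integrable_const (N * Real.log 2 + ∑ k, supNorm (θs k))).add
    (integrable_sum_abs_eval ν hν N)).mono' (continuous_avgLP hN θs).aestronglyMeasurable
    (Filter.Eventually.of_forall fun hs => ?_)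
  rw [Real.norm_eq_abs]
  exact avgLP_bound hN θs hs

theorem PhiP_eq (ν : Measure ℝ) (N M : ℕ) (θs : Fin M → Inter p) :
    PhiP ν N M θs = ∫ hs, avgLP N θs hs ∂(Measure.pi fun _ : Fin N => ν) := rfl

theorem PhiP_lip1 (ν : Measure ℝ) [IsProbabilityMeasure ν]
    (hν : Integrable (fun x : ℝ => x) ν) {N : ℕ} (hN : 1 ≤ N) (M : ℕ) :
    Lip1 (p := p) M (PhiP ν N M) := by
  refine ⟨fun θs θs' => ?_, fun θs c => ?_⟩
  · rw [PhiP_eq, PhiP_eq, ← integral_sub (integrable_avgLP ν hν hN θs)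
      (integrable_avgLP ν hν hN θs'), ← Real.norm_eq_abs]
    refine (norm_integral_le_of_norm_le_const (C := ∑ k, supNorm (fun s => θs k s - θs' k s))
      (Filter.Eventually.of_forall fun hs => ?_)).trans ?_
    · rw [Real.norm_eq_abs]
      simpa using avgLP_lip hN θs θs' hs hs
    · simp
  · rw [PhiP_eq, PhiP_eq]
    simp_rw [avgLP_shift hN]
    rw [integral_add (integrable_avgLP ν hν hN θs) (integrable_const _)]
    simp

theorem PhiP_lipFam (ν : Measure ℝ) [IsProbabilityMeasure ν]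
    (hν : Integrable (fun x : ℝ => x) ν) {N : ℕ} (hN : 1 ≤ N) :
    LipFam (p := p) (PhiP ν N) (N * Real.log 2 + N * ∫ x, |x| ∂ν) := by
  refine ⟨fun M => PhiP_lip1 ν hν hN M, fun M => ?_⟩
  rw [PhiP_eq, ← Real.norm_eq_abs]
  refine (norm_integral_le_integral_norm _).trans ?_
  rw [← integral_sum_eval ν hν.abs]
  have h2 : (0 : ℝ) ≤ N * Real.log 2 := by positivity
  have h3 : (N : ℝ) * Real.log 2 = ∫ _ : Fin N → ℝ, (N : ℝ) * Real.log 2
      ∂(Measure.pi fun _ : Fin N => ν) := by simp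
  rw [h3, ← integral_add (integrable_const _) (integrable_sum_eval ν hν.abs)]
  refine integral_mono_of_nonneg (Filter.Eventually.of_forall fun _ => norm_nonneg _)
    ((integrable_const _).add (integrable_sum_eval ν hν.abs))
    (Filter.Eventually.of_forall fun hs => ?_)
  simp only [Real.norm_eq_abs]
  have := avgLP_bound (p := p) hN (M := M) (fun _ _ => 0) hs
  have hz : supNorm (fun _ : Fin p → Bool => (0 : ℝ)) = 0 := by
    rw [supNorm_const, abs_zero]
  simpa [hz] using this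

theorem integral_pi_map_real {Ω : Type} [MeasurableSpace Ω] (Q : Measure Ω)
    [IsProbabilityMeasure Q] {H : Ω → ℝ} (hH : Measurable H) {N : ℕ} {Φ : (Fin N → ℝ) → ℝ}
    (h : Continuous Φ) :
    ∫ hs, Φ hs ∂(Measure.pi fun _ : Fin N => Q.map H) =
      ∫ ω, Φ (fun k => H (ω k)) ∂(Measure.pi fun _ : Fin N => Q) := by
  have : IsProbabilityMeasure (Q.map H) := Measure.isProbabilityMeasure_map hH.aemeasurable
  have hm : Measurable (fun (ω : Fin N → Ω) (k : Fin N) => H (ω k)) :=
    measurable_pi_lambda _ fun k => hH.comp (measurable_pi_apply k)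
  rw [← Measure.pi_map_pi (fun _ => hH.aemeasurable),
    integral_map hm.aemeasurable h.aestronglyMeasurable]

theorem integrable_id_map {Ω : Type} [MeasurableSpace Ω] (Q : Measure Ω)
    {H : Ω → ℝ} (hH : Measurable H) (hi : Integrable H Q) :
    Integrable (fun x : ℝ => x) (Q.map H) := by
  have : Integrable (id : ℝ → ℝ) (Q.map H) := by
    rw [integrable_map_measure aestronglyMeasurable_id hH.aemeasurable]
    exact hi
  exact this

/-- Changing the field law. -/
theorem PhiP_field {Ω : Type} [MeasurableSpace Ω] (Q : Measure Ω) [IsProbabilityMeasure Q]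
    {H H' : Ω → ℝ} (hH : Measurable H) (hH' : Measurable H')
    (hi : Integrable H Q) (hi' : Integrable H' Q) {N : ℕ} (hN : 1 ≤ N) (M : ℕ)
    (θs : Fin M → Inter p) :
    |PhiP (Q.map H) N M θs - PhiP (Q.map H') N M θs| ≤ N * ∫ ω, |H ω - H' ω| ∂Q := by
  have hint : ∀ {K : Ω → ℝ}, Measurable K → Integrable K Q →
      Integrable (fun ω : Fin N → Ω => avgLP N θs (fun k => K (ω k)))
        (Measure.pi fun _ : Fin N => Q) := by
    intro K hK hKi
    refine ((integrable_const (N * Real.log 2 + ∑ k, supNorm (θs k))).add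
      (integrable_sum_eval Q hKi.abs)).mono' ?_ (Filter.Eventually.of_forall fun ω => ?_)
    · refine ((continuous_avgLP hN θs).measurable.comp ?_).aestronglyMeasurable
      exact measurable_pi_lambda _ fun k => hK.comp (measurable_pi_apply k)
    · rw [Real.norm_eq_abs]
      exact avgLP_bound hN θs _
  have hd : Integrable (fun ω => |H ω - H' ω|) Q := (hi.sub hi').abs
  rw [PhiP_eq, PhiP_eq, integral_pi_map_real Q hH (continuous_avgLP hN θs),
    integral_pi_map_real Q hH' (continuous_avgLP hN θs),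
    ← integral_sub (hint hH hi) (hint hH' hi'), ← integral_sum_eval Q hd,
    ← Real.norm_eq_abs]
  refine (norm_integral_le_integral_norm _).trans ?_
  refine integral_mono_of_nonneg (Filter.Eventually.of_forall fun _ => norm_nonneg _)
    (integrable_sum_eval Q hd) (Filter.Eventually.of_forall fun ω => ?_)
  simp only [Real.norm_eq_abs]
  have := avgLP_lip hN θs θs (fun k => H (ω k)) (fun k => H' (ω k))
  simp only [sub_self, supNorm_const, abs_zero, Finset.sum_const_zero, zero_add] at this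
  exact this

/-- Coupling bound for the pressure. -/
theorem pressure_coupling {Ω Ω' : Type} [MeasurableSpace Ω] [MeasurableSpace Ω'] (P : Measure Ω)
    [IsProbabilityMeasure P] (Q : Measure Ω') [IsProbabilityMeasure Q]
    {Θ Θ' : Ω → Inter p} (hΘ : Measurable Θ) (hΘ' : Measurable Θ')
    (hi : Integrable (fun ω => supNorm (Θ ω)) P) (hi' : Integrable (fun ω => supNorm (Θ' ω)) P)
    {H H' : Ω' → ℝ} (hH : Measurable H) (hH' : Measurable H')
    (hHi : Integrable H Q) (hHi' : Integrable H' Q) {α : ℝ} (hα : 0 ≤ α) {N : ℕ} (hN : 1 ≤ N) :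
    |pressure p α (P.map Θ) (Q.map H) N - pressure p α (P.map Θ') (Q.map H') N| ≤
      α * ∫ ω, supNorm (fun s => Θ ω s - Θ' ω s) ∂P + ∫ ω, |H ω - H' ω| ∂Q := by
  have : IsProbabilityMeasure (Q.map H) := Measure.isProbabilityMeasure_map hH.aemeasurable
  have : IsProbabilityMeasure (Q.map H') := Measure.isProbabilityMeasure_map hH'.aemeasurable
  have hN' : (0 : ℝ) < N := by exact_mod_cast hN
  have hl : 0 ≤ α * N := by positivity
  have f1 := PhiP_lipFam (p := p) (Q.map H) (integrable_id_map Q hH hHi) hN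
  have f2 := PhiP_lipFam (p := p) (Q.map H') (integrable_id_map Q hH' hHi') hN
  have h1 := PF_coupling P hΘ hΘ' hi hi' f1 hl
  have h2 := PF_close P hΘ' hi' f1 f2 hl (D := N * ∫ ω, |H ω - H' ω| ∂Q)
    (fun M θs => PhiP_field Q hH hH' hHi hHi' hN M θs)
  rw [pressure_eq_PF, pressure_eq_PF, ← mul_sub, abs_mul, abs_of_pos (by positivity)]
  have h3 := abs_sub_le (PF (α * N) (PhiP (Q.map H) N) (P.map Θ))
    (PF (α * N) (PhiP (Q.map H) N) (P.map Θ')) (PF (α * N) (PhiP (Q.map H') N) (P.map Θ'))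
  calc 1 / (N : ℝ) * |PF (α * N) (PhiP (Q.map H) N) (P.map Θ) -
        PF (α * N) (PhiP (Q.map H') N) (P.map Θ')| ≤
      1 / (N : ℝ) * (α * N * ∫ ω, supNorm (fun s => Θ ω s - Θ' ω s) ∂P +
        N * ∫ ω, |H ω - H' ω| ∂Q) :=
        mul_le_mul_of_nonneg_left (by linarith) (by positivity)
    _ = _ := by field_simp

/-- Shift of the pressure. -/
theorem pressure_shift {Ω : Type} [MeasurableSpace Ω] (P : Measure Ω)
    [IsProbabilityMeasure P] {Θ : Ω → Inter p} (hΘ : Measurable Θ)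
    (hi : Integrable (fun ω => supNorm (Θ ω)) P) {c : Ω → ℝ} (hc : Measurable c)
    (hci : Integrable c P) (ν : Measure ℝ) [IsProbabilityMeasure ν]
    (hν : Integrable (fun x : ℝ => x) ν) {α : ℝ} (hα : 0 ≤ α) {N : ℕ} (hN : 1 ≤ N) :
    pressure p α (P.map (fun ω s => Θ ω s + c ω)) ν N =
      pressure p α (P.map Θ) ν N + α * ∫ ω, c ω ∂P := by
  have hN' : (0 : ℝ) < N := by exact_mod_cast hN
  have hl : 0 ≤ α * N := by positivity
  have f1 := PhiP_lipFam (p := p) ν hν hN
  rw [pressure_eq_PF, pressure_eq_PF, PF_shift P hΘ hi hc hci f1 hl]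
  field_simp

end Crest.Agent.SGG
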