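import Mathlib
import Crest.Agent.SGG_Defs

/-!
# Power mean steps: measurability, bounds, monotonicity (S0192, part G, task G4)
-/

set_option autoImplicit false

open MeasureTheory
open Crest.ProbabilityR.Diluted

namespace Crest.Agent.SGG

variable {L : Type} [Fintype L] {r : ℕ}

/-- Replace the level `lvl` uniforms of all labels. -/
def resamp (lvl : Fin (r + 1)) (u : L → Fin (r + 1) → unitInterval) (v : L → unitInterval) :
    L → Fin (r + 1) → unitInterval :=
  fun ω j => if j = lvl then v ω else u ω j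

omit [Fintype L] in
theorem measurable_resamp (lvl : Fin (r + 1)) :
    Measurable (fun x : (L → Fin (r + 1) → unitInterval) × (L → unitInterval) =>
      resamp lvl x.1 x.2) := by
  refine measurable_pi_lambda _ fun ω => measurable_pi_lambda _ fun j => ?_
  unfold resamp
  by_cases h : j = lvl
  · simp only [h, if_true]
    fun_prop
  · simp only [h, if_false]
    fun_prop

omit [Fintype L] in
theorem measurable_resamp_right (lvl : Fin (r + 1)) (u : L → Fin (r + 1) → unitInterval) :
    Measurable (fun v : L → unitInterval => resamp lvl u v) :=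
  (measurable_resamp lvl).comp (measurable_const.prodMk measurable_id)

/-- Measurable and bounded between `e^{-C}` and `e^C`. -/
structure Good (C : ℝ) (W : (L → Fin (r + 1) → unitInterval) → ℝ) : Prop where
  meas : Measurable W
  lower : ∀ u, Real.exp (-C) ≤ W u
  upper : ∀ u, W u ≤ Real.exp C

omit [Fintype L] in
theorem Good.pos {C : ℝ} {W : (L → Fin (r + 1) → unitInterval) → ℝ} (h : Good C W) (u) :
    0 < W u := (Real.exp_pos _).trans_le (h.lower u)

omit [Fintype L] in
theorem Good.mono {C C' : ℝ} (hC : C ≤ C') {W : (L → Fin (r + 1) → unitInterval) → ℝ}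
    (h : Good C W) : Good C' W :=
  ⟨h.meas, fun u => (Real.exp_le_exp.2 (by linarith)).trans (h.lower u),
    fun u => (h.upper u).trans (Real.exp_le_exp.2 hC)⟩

omit [Fintype L] in
theorem Good.abs_log {C : ℝ} {W : (L → Fin (r + 1) → unitInterval) → ℝ} (h : Good C W) (u) :
    |Real.log (W u)| ≤ C := by
  rw [abs_le]
  constructor
  · have := Real.log_le_log (Real.exp_pos _) (h.lower u)
    rwa [Real.log_exp] at this
  · have := Real.log_le_log (h.pos u) (h.upper u)
    rwa [Real.log_exp] at this

theorem exp_rpow (a m : ℝ) : (Real.exp a) ^ m = Real.exp (m * a) := by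
  rw [← Real.exp_mul, mul_comm]

theorem exp_mul_rpow_inv {m : ℝ} (hm : 0 < m) (a : ℝ) :
    (Real.exp (m * a)) ^ (1 / m) = Real.exp a := by
  rw [exp_rpow]
  congr 1
  field_simp

omit [Fintype L] in
theorem Good.rpow_bounds {C : ℝ} {W : (L → Fin (r + 1) → unitInterval) → ℝ} (h : Good C W)
    {m : ℝ} (hm : 0 < m) (u) :
    Real.exp (m * (-C)) ≤ (W u) ^ m ∧ (W u) ^ m ≤ Real.exp (m * C) := by
  constructor
  · rw [← exp_rpow]
    exact Real.rpow_le_rpow (Real.exp_pos _).le (h.lower u) hm.le
  · rw [← exp_rpow]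
    exact Real.rpow_le_rpow (h.pos u).le (h.upper u) hm.le

theorem Good.integrable_rpow {C : ℝ} {W : (L → Fin (r + 1) → unitInterval) → ℝ} (h : Good C W)
    {m : ℝ} (hm : 0 < m) (lvl : Fin (r + 1)) (u) :
    Integrable (fun v : L → unitInterval => (W (resamp lvl u v)) ^ m)
      (Measure.pi fun _ : L => (volume : Measure unitInterval)) := by
  refine (integrable_const (Real.exp (m * C))).mono' ?_ (Filter.Eventually.of_forall fun v => ?_)
  · exact ((h.meas.comp (measurable_resamp_right lvl u)).pow_const m).aestronglyMeasurable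
  · rw [Real.norm_eq_abs, abs_of_pos (Real.rpow_pos_of_pos (h.pos _) m)]
    exact (h.rpow_bounds hm _).2

theorem pmStep_eq (m : ℝ) (lvl : Fin (r + 1)) (W : (L → Fin (r + 1) → unitInterval) → ℝ) (u) :
    pmStep m lvl W u = (∫ v : L → unitInterval, (W (resamp lvl u v)) ^ m
      ∂(Measure.pi fun _ : L => (volume : Measure unitInterval))) ^ (1 / m) := rfl

theorem Good.integral_bounds {C : ℝ} {W : (L → Fin (r + 1) → unitInterval) → ℝ} (h : Good C W)
    {m : ℝ} (hm : 0 < m) (lvl : Fin (r + 1)) (u) :
    Real.exp (m * (-C)) ≤ (∫ v : L → unitInterval, (W (resamp lvl u v)) ^ m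
      ∂(Measure.pi fun _ : L => (volume : Measure unitInterval))) ∧
    (∫ v : L → unitInterval, (W (resamp lvl u v)) ^ m
      ∂(Measure.pi fun _ : L => (volume : Measure unitInterval))) ≤ Real.exp (m * C) := by
  constructor
  · have := integral_mono (integrable_const (Real.exp (m * (-C)))) (h.integrable_rpow hm lvl u)
      (fun v => (h.rpow_bounds hm (resamp lvl u v)).1)
    simpa using this
  · have := integral_mono (h.integrable_rpow hm lvl u) (integrable_const (Real.exp (m * C)))
      (fun v => (h.rpow_bounds hm (resamp lvl u v)).2)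
    simpa using this

theorem pmStep_good {C : ℝ} {W : (L → Fin (r + 1) → unitInterval) → ℝ} (h : Good C W)
    {m : ℝ} (hm : 0 < m) (lvl : Fin (r + 1)) : Good C (pmStep m lvl W) := by
  refine ⟨?_, fun u => ?_, fun u => ?_⟩
  · have h1 : StronglyMeasurable (fun x : (L → Fin (r + 1) → unitInterval) × (L → unitInterval) =>
        (W (resamp lvl x.1 x.2)) ^ m) :=
      ((h.meas.comp (measurable_resamp lvl)).pow_const m).stronglyMeasurable
    have h2 := (h1.integral_prod_right'
      (ν := Measure.pi fun _ : L => (volume : Measure unitInterval))).measurable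
    exact h2.pow_const _
  · rw [pmStep_eq, ← exp_mul_rpow_inv hm (-C)]
    exact Real.rpow_le_rpow (Real.exp_pos _).le (h.integral_bounds hm lvl u).1 (by positivity)
  · rw [pmStep_eq, ← exp_mul_rpow_inv hm C]
    exact Real.rpow_le_rpow ((Real.exp_pos _).le.trans (h.integral_bounds hm lvl u).1)
      (h.integral_bounds hm lvl u).2 (by positivity)

theorem pmStep_mono {C C' δ : ℝ} {W W' : (L → Fin (r + 1) → unitInterval) → ℝ} (h : Good C W)
    (h' : Good C' W') (hle : ∀ u, W u ≤ Real.exp δ * W' u)
    {m : ℝ} (hm : 0 < m) (lvl : Fin (r + 1)) (u) :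
    pmStep m lvl W u ≤ Real.exp δ * pmStep m lvl W' u := by
  have h1 : (∫ v : L → unitInterval, (W (resamp lvl u v)) ^ m
      ∂(Measure.pi fun _ : L => (volume : Measure unitInterval))) ≤
      Real.exp (m * δ) * (∫ v : L → unitInterval, (W' (resamp lvl u v)) ^ m
      ∂(Measure.pi fun _ : L => (volume : Measure unitInterval))) := by
    rw [← integral_const_mul]
    refine integral_mono (h.integrable_rpow hm lvl u)
      ((h'.integrable_rpow hm lvl u).const_mul _) fun v => ?_
    have := Real.rpow_le_rpow (h.pos _).le (hle (resamp lvl u v)) hm.le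
    rwa [Real.mul_rpow (Real.exp_pos _).le (h'.pos _).le, exp_rpow] at this
  rw [pmStep_eq, pmStep_eq]
  have h2 := Real.rpow_le_rpow ((Real.exp_pos _).le.trans (h.integral_bounds hm lvl u).1) h1
    (show 0 ≤ 1 / m by positivity)
  rwa [Real.mul_rpow (Real.exp_pos _).le
    ((Real.exp_pos _).le.trans (h'.integral_bounds hm lvl u).1), exp_mul_rpow_inv hm] at h2

theorem pmStep_const_mul {C c : ℝ} {W : (L → Fin (r + 1) → unitInterval) → ℝ} (h : Good C W)
    {m : ℝ} (hm : 0 < m) (lvl : Fin (r + 1)) (u) :
    pmStep m lvl (fun u => Real.exp c * W u) u = Real.exp c * pmStep m lvl W u := by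
  rw [pmStep_eq, pmStep_eq]
  have e : (fun v : L → unitInterval => (Real.exp c * W (resamp lvl u v)) ^ m) =
      fun v => Real.exp (m * c) * (W (resamp lvl u v)) ^ m := by
    funext v
    rw [Real.mul_rpow (Real.exp_pos _).le (h.pos _).le, exp_rpow]
  rw [e, integral_const_mul, Real.mul_rpow (Real.exp_pos _).le
    ((Real.exp_pos _).le.trans (h.integral_bounds hm lvl u).1), exp_mul_rpow_inv hm]

/-- Folding over an arbitrary list of levels. -/
noncomputable def pmFold (m : Fin r → ℝ) (l : List (Fin r))
    (W : (L → Fin (r + 1) → unitInterval) → ℝ) : (L → Fin (r + 1) → unitInterval) → ℝ :=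
  l.foldr (fun d acc => pmStep (m d) d.succ acc) W

theorem powerMeans_eq (m : Fin r → ℝ) (W : (L → Fin (r + 1) → unitInterval) → ℝ) :
    powerMeans m W = pmFold m (List.finRange r) W := rfl

theorem pmFold_nil (m : Fin r → ℝ) (W : (L → Fin (r + 1) → unitInterval) → ℝ) :
    pmFold m [] W = W := rfl

theorem pmFold_cons (m : Fin r → ℝ) (d : Fin r) (l : List (Fin r))
    (W : (L → Fin (r + 1) → unitInterval) → ℝ) :
    pmFold m (d :: l) W = pmStep (m d) d.succ (pmFold m l W) := rfl

theorem pmFold_good {m : Fin r → ℝ} (hm : ∀ d, 0 < m d) {C : ℝ}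
    {W : (L → Fin (r + 1) → unitInterval) → ℝ} (h : Good C W) (l : List (Fin r)) :
    Good C (pmFold m l W) := by
  induction l with
  | nil => exact h
  | cons d l ih => exact pmStep_good ih (hm d) d.succ

theorem pmFold_mono {m : Fin r → ℝ} (hm : ∀ d, 0 < m d) {C C' δ : ℝ}
    {W W' : (L → Fin (r + 1) → unitInterval) → ℝ} (h : Good C W) (h' : Good C' W')
    (hle : ∀ u, W u ≤ Real.exp δ * W' u) (l : List (Fin r)) :
    ∀ u, pmFold m l W u ≤ Real.exp δ * pmFold m l W' u := by
  induction l with
  | nil => exact hle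
  | cons d l ih =>
    exact fun u => pmStep_mono (pmFold_good hm h l) (pmFold_good hm h' l) ih (hm d) d.succ u

theorem pmFold_const_mul {m : Fin r → ℝ} (hm : ∀ d, 0 < m d) {C c : ℝ}
    {W : (L → Fin (r + 1) → unitInterval) → ℝ} (h : Good C W) (l : List (Fin r)) :
    pmFold m l (fun u => Real.exp c * W u) = fun u => Real.exp c * pmFold m l W u := by
  induction l with
  | nil => rfl
  | cons d l ih =>
    funext u
    rw [pmFold_cons, ih, pmStep_const_mul (pmFold_good hm h l) (hm d) d.succ u, pmFold_cons]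

theorem powerMeans_good {m : Fin r → ℝ} (hm : ∀ d, 0 < m d) {C : ℝ}
    {W : (L → Fin (r + 1) → unitInterval) → ℝ} (h : Good C W) : Good C (powerMeans m W) :=
  pmFold_good hm h _

theorem powerMeans_mono {m : Fin r → ℝ} (hm : ∀ d, 0 < m d) {C C' δ : ℝ}
    {W W' : (L → Fin (r + 1) → unitInterval) → ℝ} (h : Good C W) (h' : Good C' W')
    (hle : ∀ u, W u ≤ Real.exp δ * W' u) (u) :
    powerMeans m W u ≤ Real.exp δ * powerMeans m W' u :=
  pmFold_mono hm h h' hle _ u

theorem powerMeans_const_mul {m : Fin r → ℝ} (hm : ∀ d, 0 < m d) {C c : ℝ}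
    {W : (L → Fin (r + 1) → unitInterval) → ℝ} (h : Good C W) (u) :
    powerMeans m (fun u => Real.exp c * W u) u = Real.exp c * powerMeans m W u := by
  rw [powerMeans_eq, pmFold_const_mul hm h, powerMeans_eq]

theorem powerMeans_log_lip {m : Fin r → ℝ} (hm : ∀ d, 0 < m d) {C C' δ : ℝ}
    {W W' : (L → Fin (r + 1) → unitInterval) → ℝ} (h : Good C W) (h' : Good C' W')
    (hle : ∀ u, W u ≤ Real.exp δ * W' u) (hle' : ∀ u, W' u ≤ Real.exp δ * W u) (u) :
    |Real.log (powerMeans m W u) - Real.log (powerMeans m W' u)| ≤ δ := by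
  have g := powerMeans_good hm h
  have g' := powerMeans_good hm h'
  have h1 := Real.log_le_log (g.pos u) (powerMeans_mono hm h h' hle u)
  have h2 := Real.log_le_log (g'.pos u) (powerMeans_mono hm h' h hle' u)
  rw [Real.log_mul (Real.exp_pos _).ne' (g'.pos u).ne', Real.log_exp] at h1
  rw [Real.log_mul (Real.exp_pos _).ne' (g.pos u).ne', Real.log_exp] at h2
  rw [abs_le]
  constructor <;> linarith

instance instProbUniform (L : Type) [Fintype L] (r : ℕ) :
    IsProbabilityMeasure (uniformArrays L r) := by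
  unfold uniformArrays
  infer_instance

theorem Good.integrable_log {C : ℝ} {W : (L → Fin (r + 1) → unitInterval) → ℝ} (h : Good C W) :
    Integrable (fun u => Real.log (W u)) (uniformArrays L r) := by
  refine (integrable_const C).mono' h.meas.log.aestronglyMeasurable
    (Filter.Eventually.of_forall fun u => ?_)
  rw [Real.norm_eq_abs]
  exact h.abs_log u

end Crest.Agent.SGG
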