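import Mathlib
import Crest.Agent.SGG_Defs
import Crest.Agent.SGG_PF
import Crest.Agent.SGG_LS
import Crest.Agent.SGG_Step

/-!
# The site term and the edge term (S0192, part G, task G5)
-/

set_option autoImplicit false

open MeasureTheory
open Crest.ProbabilityR.Diluted

namespace Crest.Agent.SGG

variable {p : ℕ}

theorem tilt_pos (x : ℝ) (s : Bool) : 0 < tilt x s := by
  unfold tilt
  have := Real.cosh_pos x
  positivity

theorem tilt_sum (x : ℝ) : ∑ s : Bool, tilt x s = 1 := by
  have h := Real.cosh_pos x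
  rw [Fintype.sum_bool]
  unfold tilt spinVal
  rw [← add_div, div_eq_one_iff_eq (by positivity), Real.cosh_eq]
  simp only [if_true, Bool.false_eq_true, if_false, mul_one, mul_neg]
  ring

theorem prod_tilt_pos {ι : Type} [Fintype ι] (x : ι → ℝ) (s : ι → Bool) :
    0 < ∏ l, tilt (x l) (s l) := Finset.prod_pos fun _ _ => tilt_pos _ _

theorem sum_prod_tilt {ι : Type} [Fintype ι] [DecidableEq ι] (x : ι → ℝ) :
    ∑ s : ι → Bool, ∏ l, tilt (x l) (s l) = 1 := by
  have := Finset.prod_univ_sum (fun _ : ι => (Finset.univ : Finset Bool))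
    (fun l s => tilt (x l) s)
  rw [Fintype.piFinset_univ] at this
  rw [← this]
  exact Finset.prod_eq_one fun l _ => tilt_sum (x l)

theorem continuous_tilt (s : Bool) : Continuous (fun x : ℝ => tilt x s) := by
  unfold tilt
  refine Continuous.div (by fun_prop) ?_ fun x => ?_
  · exact continuous_const.mul Real.continuous_cosh
  · have := Real.cosh_pos x
    positivity

theorem siteMessage_lip (θ θ' : Inter p) (x : Fin (p - 1) → ℝ) (ε : Bool) :
    |siteMessage θ x ε - siteMessage θ' x ε| ≤ supNorm (fun s => θ s - θ' s) :=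
  logsum_lip (S := Fin (p - 1) → Bool) (fun s' => ∏ ℓ, tilt (x ℓ) (s' ℓ))
    (fun s' => (prod_tilt_pos x s').le) (by rw [sum_prod_tilt]; exact one_pos)
    (fun s' => θ (fun ℓ => if h : ℓ.val < p - 1 then s' ⟨ℓ.val, h⟩ else ε))
    (fun s' => θ' (fun ℓ => if h : ℓ.val < p - 1 then s' ⟨ℓ.val, h⟩ else ε))
    fun s' => abs_le_supNorm (fun s => θ s - θ' s) _

theorem siteMessage_shift (θ : Inter p) (c : ℝ) (x : Fin (p - 1) → ℝ) (ε : Bool) :
    siteMessage (fun s => θ s + c) x ε = siteMessage θ x ε + c :=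
  logsum_shift (S := Fin (p - 1) → Bool) (fun s' => ∏ ℓ, tilt (x ℓ) (s' ℓ))
    (fun s' => (prod_tilt_pos x s').le) (by rw [sum_prod_tilt]; exact one_pos)
    (fun s' => θ (fun ℓ => if h : ℓ.val < p - 1 then s' ⟨ℓ.val, h⟩ else ε)) c

theorem siteMessage_zero (x : Fin (p - 1) → ℝ) (ε : Bool) :
    siteMessage (p := p) (fun _ => 0) x ε = 0 := by
  unfold siteMessage
  simp only [Real.exp_zero, one_mul]
  rw [sum_prod_tilt, Real.log_one]

theorem abs_siteMessage (θ : Inter p) (x : Fin (p - 1) → ℝ) (ε : Bool) :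
    |siteMessage θ x ε| ≤ supNorm θ := by
  have := siteMessage_lip θ (fun _ => 0) x ε
  rw [siteMessage_zero, sub_zero] at this
  simpa using this

theorem continuous_siteMessage (θ : Inter p) (ε : Bool) :
    Continuous (fun x : Fin (p - 1) → ℝ => siteMessage θ x ε) := by
  unfold siteMessage
  refine Continuous.log ?_ fun x => ?_
  · refine continuous_finsetSum _ fun s' _ => continuous_const.mul ?_
    exact continuous_finsetProd _ fun l _ => (continuous_tilt (s' l)).comp (continuous_apply l)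
  · exact (sum_exp_pos (S := Fin (p - 1) → Bool) (fun s' => ∏ ℓ, tilt (x ℓ) (s' ℓ))
      (fun s' => (prod_tilt_pos x s').le) (by rw [sum_prod_tilt]; exact one_pos) _).ne'

theorem siteTerm_eq {k : ℕ} (h : ℝ) (θs : Fin k → Inter p) (x : Fin k → Fin (p - 1) → ℝ) :
    siteTerm h θs x = ∑ ε : Bool,
      Real.exp (h * spinVal ε + ∑ j : Fin k, siteMessage (θs j) (x j) ε) * (1 / 2) := by
  unfold siteTerm
  rw [Finset.mul_sum]
  refine Finset.sum_congr rfl fun ε _ => ?_
  ring

theorem siteTerm_le {k : ℕ} (h h' : ℝ) (θs θs' : Fin k → Inter p)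
    (x : Fin k → Fin (p - 1) → ℝ) :
    siteTerm h θs x ≤ Real.exp (|h - h'| + ∑ j, supNorm (fun s => θs j s - θs' j s)) *
      siteTerm h' θs' x := by
  rw [siteTerm_eq, siteTerm_eq]
  refine sum_exp_le (S := Bool) (fun _ => 1 / 2) (fun _ => by norm_num) _ _ fun ε => ?_
  have h1 : |(h - h') * spinVal ε| ≤ |h - h'| := by rw [abs_mul, abs_spinVal, mul_one]
  have h2 : ∑ j : Fin k, siteMessage (θs j) (x j) ε - ∑ j : Fin k, siteMessage (θs' j) (x j) ε ≤
      ∑ j, supNorm (fun s => θs j s - θs' j s) := by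
    rw [← Finset.sum_sub_distrib]
    refine Finset.sum_le_sum fun j _ => ?_
    exact (le_abs_self _).trans (siteMessage_lip _ _ _ _)
  have h3 := (abs_le.1 h1).2
  have h4 : (h - h') * spinVal ε = h * spinVal ε - h' * spinVal ε := by ring
  linarith

theorem siteTerm_zero {k : ℕ} (x : Fin k → Fin (p - 1) → ℝ) :
    siteTerm (p := p) 0 (fun _ _ => 0) x = 1 := by
  unfold siteTerm
  simp [siteMessage_zero]

theorem siteTerm_upper {k : ℕ} (h : ℝ) (θs : Fin k → Inter p) (x : Fin k → Fin (p - 1) → ℝ) :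
    siteTerm h θs x ≤ Real.exp (|h| + ∑ j, supNorm (θs j)) := by
  have := siteTerm_le h 0 θs (fun _ _ => 0) x
  simpa [siteTerm_zero] using this

theorem siteTerm_lower {k : ℕ} (h : ℝ) (θs : Fin k → Inter p) (x : Fin k → Fin (p - 1) → ℝ) :
    Real.exp (-(|h| + ∑ j, supNorm (θs j))) ≤ siteTerm h θs x := by
  have := siteTerm_le 0 h (fun _ _ => 0) θs x
  rw [siteTerm_zero] at this
  simp only [zero_sub, abs_neg] at this
  have e : ∀ j, supNorm (fun s => -θs j s) = supNorm (θs j) := by
    intro j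
    unfold supNorm
    simp
  simp only [e] at this
  rw [Real.exp_neg, inv_le_iff_one_le_mul₀ (Real.exp_pos _), mul_comm]
  exact this

theorem siteTerm_shift {k : ℕ} (h : ℝ) (θs : Fin k → Inter p) (c : Fin k → ℝ)
    (x : Fin k → Fin (p - 1) → ℝ) :
    siteTerm h (fun j s => θs j s + c j) x = Real.exp (∑ j, c j) * siteTerm h θs x := by
  rw [siteTerm_eq, siteTerm_eq, ← sum_exp_shift]
  refine Finset.sum_congr rfl fun ε _ => ?_
  congr 2
  simp_rw [siteMessage_shift]
  rw [Finset.sum_add_distrib]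
  ring

theorem continuous_siteTerm {k : ℕ} (h : ℝ) (θs : Fin k → Inter p) :
    Continuous (fun x : Fin k → Fin (p - 1) → ℝ => siteTerm h θs x) := by
  unfold siteTerm
  refine continuous_const.mul (continuous_finsetSum _ fun ε _ => ?_)
  refine Real.continuous_exp.comp (continuous_const.add (continuous_finsetSum _ fun j _ => ?_))
  exact (continuous_siteMessage (θs j) ε).comp (continuous_apply j)

theorem edgeTerm_le (θ θ' : Inter p) (x : Fin p → ℝ) :
    edgeTerm θ x ≤ Real.exp (supNorm (fun s => θ s - θ' s)) * edgeTerm θ' x := by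
  refine sum_exp_le (S := Fin p → Bool) (fun s => ∏ ℓ, tilt (x ℓ) (s ℓ))
    (fun s => (prod_tilt_pos x s).le) _ _ fun s => ?_
  have := (le_abs_self _).trans (abs_le_supNorm (fun s => θ s - θ' s) s)
  linarith

theorem edgeTerm_zero (x : Fin p → ℝ) : edgeTerm (p := p) (fun _ => 0) x = 1 := by
  unfold edgeTerm
  simp only [Real.exp_zero, one_mul]
  exact sum_prod_tilt x

theorem edgeTerm_upper (θ : Inter p) (x : Fin p → ℝ) : edgeTerm θ x ≤ Real.exp (supNorm θ) := by
  have := edgeTerm_le θ (fun _ => 0) x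
  simpa [edgeTerm_zero] using this

theorem edgeTerm_lower (θ : Inter p) (x : Fin p → ℝ) :
    Real.exp (-(supNorm θ)) ≤ edgeTerm θ x := by
  have := edgeTerm_le (fun _ => 0) θ x
  rw [edgeTerm_zero] at this
  simp only [zero_sub] at this
  have e : supNorm (fun s => -θ s) = supNorm θ := by
    unfold supNorm
    simp
  rw [e] at this
  rw [Real.exp_neg, inv_le_iff_one_le_mul₀ (Real.exp_pos _), mul_comm]
  exact this

theorem edgeTerm_shift (θ : Inter p) (c : ℝ) (x : Fin p → ℝ) :
    edgeTerm (fun s => θ s + c) x = Real.exp c * edgeTerm θ x := by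
  unfold edgeTerm
  exact sum_exp_shift (S := Fin p → Bool) (fun s => ∏ ℓ, tilt (x ℓ) (s ℓ)) θ c

theorem continuous_edgeTerm (θ : Inter p) : Continuous (fun x : Fin p → ℝ => edgeTerm θ x) := by
  unfold edgeTerm
  refine continuous_finsetSum _ fun s _ => continuous_const.mul ?_
  exact continuous_finsetProd _ fun l _ => (continuous_tilt (s l)).comp (continuous_apply l)

/-! ### As functions of the uniforms -/

variable {r : ℕ}

theorem site_good {k : ℕ} (h : ℝ) (θs : Fin k → Inter p)
    {X : (Fin (r + 1) → unitInterval) → ℝ} (hX : Measurable X) :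
    Good (|h| + ∑ j, supNorm (θs j))
      (fun u' : (Fin k × Fin (p - 1)) → Fin (r + 1) → unitInterval =>
            siteTerm h θs (fun j ℓ => X (u' (j, ℓ)))) := by
  refine ⟨?_, fun u => siteTerm_lower _ _ _, fun u => siteTerm_upper _ _ _⟩
  refine (continuous_siteTerm h θs).measurable.comp ?_
  refine measurable_pi_lambda _ fun j => measurable_pi_lambda _ fun l => ?_
  exact hX.comp (measurable_pi_apply (j, l))

theorem edge_good (θ : Inter p) {X : (Fin (r + 1) → unitInterval) → ℝ} (hX : Measurable X) :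
    Good (supNorm θ) (fun u' : Fin p → Fin (r + 1) → unitInterval =>
      edgeTerm θ (fun ℓ => X (u' ℓ))) := by
  refine ⟨?_, fun u => edgeTerm_lower _ _, fun u => edgeTerm_upper _ _⟩
  refine (continuous_edgeTerm θ).measurable.comp ?_
  refine measurable_pi_lambda _ fun l => ?_
  exact hX.comp (measurable_pi_apply l)

end Crest.Agent.SGG
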