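import Mathlib
import Crest.Agent.SGG_Defs
import Crest.Agent.SGG_PF
import Crest.Agent.SGG_LS
import Crest.Agent.SGG_Step
import Crest.Agent.SGG_Site

/-!
# The trial functional: coupling and shift (S0192, part G, task G6)
-/

set_option autoImplicit false

open MeasureTheory
open Crest.ProbabilityR.Diluted

namespace Crest.Agent.SGG

variable {p r : ℕ}

/-- The site functional for a fixed field. -/
noncomputable def siteF (m : Fin r → ℝ) (X : (Fin (r + 1) → unitInterval) → ℝ) {k : ℕ} (h : ℝ)
    (θs : Fin k → Inter p) : ℝ :=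
  ∫ u, Real.log (powerMeans m
          (fun u' : (Fin k × Fin (p - 1)) → Fin (r + 1) → unitInterval =>
            siteTerm h θs (fun j ℓ => X (u' (j, ℓ)))) u)
        ∂(uniformArrays (Fin k × Fin (p - 1)) r)

noncomputable def PhiS (ν : Measure ℝ) (m : Fin r → ℝ) (X : (Fin (r + 1) → unitInterval) → ℝ) :
    (k : ℕ) → (Fin k → Inter p) → ℝ :=
  fun _ θs => ∫ h, siteF m X h θs ∂ν

noncomputable def PsiE (m : Fin r → ℝ) (X : (Fin (r + 1) → unitInterval) → ℝ) : Inter p → ℝ :=
  fun θ => ∫ u, Real.log (powerMeans m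
          (fun u' : Fin p → Fin (r + 1) → unitInterval => edgeTerm θ (fun ℓ => X (u' ℓ))) u)
        ∂(uniformArrays (Fin p) r)

theorem trialFunctional_eq (α : ℝ) (μ : Measure (Inter p)) (ν : Measure ℝ)
    (m : Fin r → ℝ) (X : (Fin (r + 1) → unitInterval) → ℝ) :
    trialFunctional p α μ ν r m X =
      Real.log 2 + PF (α * p) (PhiS ν m X) μ - α * (p - 1 : ℝ) * ∫ θ, PsiE m X θ ∂μ := rfl

theorem integrable_log_site {m : Fin r → ℝ} (hm : ∀ d, 0 < m d)
    {X : (Fin (r + 1) → unitInterval) → ℝ} (hX : Measurable X) {k : ℕ} (h : ℝ)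
    (θs : Fin k → Inter p) :
    Integrable (fun u => Real.log (powerMeans m
          (fun u' : (Fin k × Fin (p - 1)) → Fin (r + 1) → unitInterval =>
            siteTerm h θs (fun j ℓ => X (u' (j, ℓ)))) u))
        (uniformArrays (Fin k × Fin (p - 1)) r) :=
  (powerMeans_good hm (site_good h θs hX)).integrable_log

theorem integrable_log_edge {m : Fin r → ℝ} (hm : ∀ d, 0 < m d)
    {X : (Fin (r + 1) → unitInterval) → ℝ} (hX : Measurable X) (θ : Inter p) :
    Integrable (fun u => Real.log (powerMeans m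
          (fun u' : Fin p → Fin (r + 1) → unitInterval => edgeTerm θ (fun ℓ => X (u' ℓ))) u))
        (uniformArrays (Fin p) r) :=
  (powerMeans_good hm (edge_good θ hX)).integrable_log

theorem siteF_lip {m : Fin r → ℝ} (hm : ∀ d, 0 < m d)
    {X : (Fin (r + 1) → unitInterval) → ℝ} (hX : Measurable X) {k : ℕ} (h h' : ℝ)
    (θs θs' : Fin k → Inter p) :
    |siteF m X h θs - siteF m X h' θs'| ≤
      |h - h'| + ∑ j, supNorm (fun s => θs j s - θs' j s) := by
  unfold siteF
  rw [← integral_sub (integrable_log_site hm hX h θs) (integrable_log_site hm hX h' θs'),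
    ← Real.norm_eq_abs]
  refine (norm_integral_le_of_norm_le_const
    (C := |h - h'| + ∑ j, supNorm (fun s => θs j s - θs' j s))
    (Filter.Eventually.of_forall fun u => ?_)).trans ?_
  · rw [Real.norm_eq_abs]
    refine powerMeans_log_lip hm (site_good h θs hX) (site_good h' θs' hX)
      (fun u' => siteTerm_le _ _ _ _ _) (fun u' => ?_) u
    have := siteTerm_le h' h θs' θs (fun j ℓ => X (u' (j, ℓ)))
    rw [abs_sub_comm h' h] at this
    simp_rw [fun j => supNorm_sub_comm (θs' j) (θs j)] at this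
    exact this
  · simp

theorem siteF_shift {m : Fin r → ℝ} (hm : ∀ d, 0 < m d)
    {X : (Fin (r + 1) → unitInterval) → ℝ} (hX : Measurable X) {k : ℕ} (h : ℝ)
    (θs : Fin k → Inter p) (c : Fin k → ℝ) :
    siteF m X h (fun j s => θs j s + c j) = siteF m X h θs + ∑ j, c j := by
  unfold siteF
  have e : (fun u => Real.log (powerMeans m
          (fun u' : (Fin k × Fin (p - 1)) → Fin (r + 1) → unitInterval =>
            siteTerm h (fun j s => θs j s + c j) (fun j ℓ => X (u' (j, ℓ)))) u)) =
      fun u => Real.log (powerMeans m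
          (fun u' : (Fin k × Fin (p - 1)) → Fin (r + 1) → unitInterval =>
            siteTerm h θs (fun j ℓ => X (u' (j, ℓ)))) u) + ∑ j, c j := by
    funext u
    simp_rw [siteTerm_shift]
    rw [powerMeans_const_mul hm (site_good h θs hX), Real.log_mul (Real.exp_pos _).ne'
      ((powerMeans_good hm (site_good h θs hX)).pos u).ne', Real.log_exp]
    ring
  rw [e, integral_add (integrable_log_site hm hX h θs) (integrable_const _)]
  simp

theorem siteF_bound {m : Fin r → ℝ} (hm : ∀ d, 0 < m d)
    {X : (Fin (r + 1) → unitInterval) → ℝ} (hX : Measurable X) {k : ℕ} (h : ℝ)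
    (θs : Fin k → Inter p) : |siteF m X h θs| ≤ |h| + ∑ j, supNorm (θs j) := by
  unfold siteF
  rw [← Real.norm_eq_abs]
  refine (norm_integral_le_of_norm_le_const (C := |h| + ∑ j, supNorm (θs j))
    (Filter.Eventually.of_forall fun u => ?_)).trans ?_
  · rw [Real.norm_eq_abs]
    exact (powerMeans_good hm (site_good h θs hX)).abs_log u
  · simp

theorem continuous_siteF {m : Fin r → ℝ} (hm : ∀ d, 0 < m d)
    {X : (Fin (r + 1) → unitInterval) → ℝ} (hX : Measurable X) {k : ℕ}
    (θs : Fin k → Inter p) : Continuous (fun h : ℝ => siteF m X h θs) := by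
  have : LipschitzWith 1 (fun h : ℝ => siteF m X h θs) := by
    refine LipschitzWith.of_dist_le_mul fun h h' => ?_
    rw [Real.dist_eq, Real.dist_eq, NNReal.coe_one, one_mul]
    have := siteF_lip hm hX h h' θs θs
    simpa [supNorm_const] using this
  exact this.continuous

theorem integrable_siteF {m : Fin r → ℝ} (hm : ∀ d, 0 < m d)
    {X : (Fin (r + 1) → unitInterval) → ℝ} (hX : Measurable X) {k : ℕ}
    (θs : Fin k → Inter p) (ν : Measure ℝ) [IsProbabilityMeasure ν]
    (hν : Integrable (fun x : ℝ => x) ν) : Integrable (fun h => siteF m X h θs) ν := by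
  refine (hν.abs.add (integrable_const (∑ j, supNorm (θs j)))).mono'
    (continuous_siteF hm hX θs).aestronglyMeasurable (Filter.Eventually.of_forall fun h => ?_)
  rw [Real.norm_eq_abs]
  exact siteF_bound hm hX h θs

theorem PhiS_lip1 {m : Fin r → ℝ} (hm : ∀ d, 0 < m d)
    {X : (Fin (r + 1) → unitInterval) → ℝ} (hX : Measurable X) (ν : Measure ℝ)
    [IsProbabilityMeasure ν] (hν : Integrable (fun x : ℝ => x) ν) (k : ℕ) :
    Lip1 (p := p) k (PhiS ν m X k) := by
  refine ⟨fun θs θs' => ?_, fun θs c => ?_⟩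
  · unfold PhiS
    rw [← integral_sub (integrable_siteF hm hX θs ν hν) (integrable_siteF hm hX θs' ν hν),
      ← Real.norm_eq_abs]
    refine (norm_integral_le_of_norm_le_const (C := ∑ k, supNorm (fun s => θs k s - θs' k s))
      (Filter.Eventually.of_forall fun h => ?_)).trans ?_
    · rw [Real.norm_eq_abs]
      simpa using siteF_lip hm hX h h θs θs'
    · simp
  · unfold PhiS
    simp_rw [siteF_shift hm hX]
    rw [integral_add (integrable_siteF hm hX θs ν hν) (integrable_const _)]
    simp

theorem PhiS_lipFam {m : Fin r → ℝ} (hm : ∀ d, 0 < m d)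
    {X : (Fin (r + 1) → unitInterval) → ℝ} (hX : Measurable X) (ν : Measure ℝ)
    [IsProbabilityMeasure ν] (hν : Integrable (fun x : ℝ => x) ν) :
    LipFam (p := p) (PhiS ν m X) (∫ x, |x| ∂ν) := by
  refine ⟨fun k => PhiS_lip1 hm hX ν hν k, fun k => ?_⟩
  unfold PhiS
  rw [← Real.norm_eq_abs]
  refine (norm_integral_le_integral_norm _).trans ?_
  refine integral_mono_of_nonneg (Filter.Eventually.of_forall fun _ => norm_nonneg _)
    hν.abs (Filter.Eventually.of_forall fun h => ?_)
  simp only [Real.norm_eq_abs]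
  have := siteF_bound (p := p) hm hX h (fun _ : Fin k => fun _ => (0 : ℝ))
  simpa [supNorm_const] using this

theorem PhiS_field {m : Fin r → ℝ} (hm : ∀ d, 0 < m d)
    {X : (Fin (r + 1) → unitInterval) → ℝ} (hX : Measurable X)
    {Ω : Type} [MeasurableSpace Ω] (Q : Measure Ω) [IsProbabilityMeasure Q]
    {H H' : Ω → ℝ} (hH : Measurable H) (hH' : Measurable H')
    (hi : Integrable H Q) (hi' : Integrable H' Q) (k : ℕ) (θs : Fin k → Inter p) :
    |PhiS (Q.map H) m X k θs - PhiS (Q.map H') m X k θs| ≤ ∫ ω, |H ω - H' ω| ∂Q := by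
  have hint : ∀ {K : Ω → ℝ}, Measurable K → Integrable K Q →
      Integrable (fun ω => siteF m X (K ω) θs) Q := by
    intro K hK hKi
    refine (hKi.abs.add (integrable_const (∑ j, supNorm (θs j)))).mono'
      ((continuous_siteF hm hX θs).measurable.comp hK).aestronglyMeasurable
      (Filter.Eventually.of_forall fun ω => ?_)
    rw [Real.norm_eq_abs]
    exact siteF_bound hm hX (K ω) θs
  have hd : Integrable (fun ω => |H ω - H' ω|) Q := (hi.sub hi').abs
  unfold PhiS
  rw [integral_map hH.aemeasurable (continuous_siteF hm hX θs).aestronglyMeasurable,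
    integral_map hH'.aemeasurable (continuous_siteF hm hX θs).aestronglyMeasurable,
    ← integral_sub (hint hH hi) (hint hH' hi'), ← Real.norm_eq_abs]
  refine (norm_integral_le_integral_norm _).trans ?_
  refine integral_mono_of_nonneg (Filter.Eventually.of_forall fun _ => norm_nonneg _)
    hd (Filter.Eventually.of_forall fun ω => ?_)
  simp only [Real.norm_eq_abs]
  have := siteF_lip hm hX (H ω) (H' ω) θs θs
  simpa [supNorm_const] using this

theorem PsiE_slip1 {m : Fin r → ℝ} (hm : ∀ d, 0 < m d)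
    {X : (Fin (r + 1) → unitInterval) → ℝ} (hX : Measurable X) :
    SLip1 (p := p) (PsiE m X) := by
  refine ⟨fun θ θ' => ?_, fun θ c => ?_⟩
  · unfold PsiE
    rw [← integral_sub (integrable_log_edge hm hX θ) (integrable_log_edge hm hX θ'),
      ← Real.norm_eq_abs]
    refine (norm_integral_le_of_norm_le_const (C := supNorm (fun s => θ s - θ' s))
      (Filter.Eventually.of_forall fun u => ?_)).trans ?_
    · rw [Real.norm_eq_abs]
      refine powerMeans_log_lip hm (edge_good θ hX) (edge_good θ' hX)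
        (fun u' => edgeTerm_le _ _ _) (fun u' => ?_) u
      rw [supNorm_sub_comm]
      exact edgeTerm_le _ _ _
    · simp
  · unfold PsiE
    have e : (fun u => Real.log (powerMeans m
          (fun u' : Fin p → Fin (r + 1) → unitInterval =>
            edgeTerm (fun s => θ s + c) (fun ℓ => X (u' ℓ))) u)) =
        fun u => Real.log (powerMeans m
          (fun u' : Fin p → Fin (r + 1) → unitInterval =>
            edgeTerm θ (fun ℓ => X (u' ℓ))) u) + c := by
      funext u
      simp_rw [edgeTerm_shift]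
      rw [powerMeans_const_mul hm (edge_good θ hX), Real.log_mul (Real.exp_pos _).ne'
        ((powerMeans_good hm (edge_good θ hX)).pos u).ne', Real.log_exp]
      ring
    rw [e, integral_add (integrable_log_edge hm hX θ) (integrable_const _)]
    simp

/-- Coupling bound for the trial functional. -/
theorem trialFunctional_coupling {m : Fin r → ℝ} (hm : ∀ d, 0 < m d)
    {X : (Fin (r + 1) → unitInterval) → ℝ} (hX : Measurable X)
    {Ω Ω' : Type} [MeasurableSpace Ω] [MeasurableSpace Ω'] (P : Measure Ω)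
    [IsProbabilityMeasure P] (Q : Measure Ω') [IsProbabilityMeasure Q]
    {Θ Θ' : Ω → Inter p} (hΘ : Measurable Θ) (hΘ' : Measurable Θ')
    (hi : Integrable (fun ω => supNorm (Θ ω)) P) (hi' : Integrable (fun ω => supNorm (Θ' ω)) P)
    {H H' : Ω' → ℝ} (hH : Measurable H) (hH' : Measurable H')
    (hHi : Integrable H Q) (hHi' : Integrable H' Q) {α : ℝ} (hα : 0 ≤ α) (hp : 1 ≤ p) :
    |trialFunctional p α (P.map Θ) (Q.map H) r m X -
      trialFunctional p α (P.map Θ') (Q.map H') r m X| ≤
      α * (2 * p - 1) * ∫ ω, supNorm (fun s => Θ ω s - Θ' ω s) ∂P + ∫ ω, |H ω - H' ω| ∂Q := by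
  have : IsProbabilityMeasure (Q.map H) := Measure.isProbabilityMeasure_map hH.aemeasurable
  have : IsProbabilityMeasure (Q.map H') := Measure.isProbabilityMeasure_map hH'.aemeasurable
  have hl : 0 ≤ α * p := by positivity
  have hp' : (1 : ℝ) ≤ p := by exact_mod_cast hp
  have f1 := PhiS_lipFam (p := p) hm hX (Q.map H) (integrable_id_map Q hH hHi)
  have f2 := PhiS_lipFam (p := p) hm hX (Q.map H') (integrable_id_map Q hH' hHi')
  have h1 := PF_coupling P hΘ hΘ' hi hi' f1 hl
  have h2 := PF_close P hΘ' hi' f1 f2 hl (D := ∫ ω, |H ω - H' ω| ∂Q)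
    (fun M θs => PhiS_field hm hX Q hH hH' hHi hHi' M θs)
  have h3 := abs_sub_le (PF (α * p) (PhiS (Q.map H) m X) (P.map Θ))
    (PF (α * p) (PhiS (Q.map H) m X) (P.map Θ')) (PF (α * p) (PhiS (Q.map H') m X) (P.map Θ'))
  have h4 := (PsiE_slip1 (p := p) hm hX).coupling P hΘ hΘ' hi hi'
  rw [trialFunctional_eq, trialFunctional_eq]
  have h5 : 0 ≤ α * ((p : ℝ) - 1) := mul_nonneg hα (by linarith)
  have h6 := mul_le_mul_of_nonneg_left h4 h5
  rw [← abs_of_nonneg h5, ← abs_mul, abs_of_nonneg h5, mul_sub] at h6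
  rw [abs_le] at *
  constructor <;> nlinarith [h1.1, h1.2, h2.1, h2.2, h3, h6.1, h6.2]

/-- Shift of the trial functional. -/
theorem trialFunctional_shift {m : Fin r → ℝ} (hm : ∀ d, 0 < m d)
    {X : (Fin (r + 1) → unitInterval) → ℝ} (hX : Measurable X)
    {Ω : Type} [MeasurableSpace Ω] (P : Measure Ω)
    [IsProbabilityMeasure P] {Θ : Ω → Inter p} (hΘ : Measurable Θ)
    (hi : Integrable (fun ω => supNorm (Θ ω)) P) {c : Ω → ℝ} (hc : Measurable c)
    (hci : Integrable c P) (ν : Measure ℝ) [IsProbabilityMeasure ν]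
    (hν : Integrable (fun x : ℝ => x) ν) {α : ℝ} (hα : 0 ≤ α) :
    trialFunctional p α (P.map (fun ω s => Θ ω s + c ω)) ν r m X =
      trialFunctional p α (P.map Θ) ν r m X + α * ∫ ω, c ω ∂P := by
  have hl : 0 ≤ α * p := by positivity
  rw [trialFunctional_eq, trialFunctional_eq,
    PF_shift P hΘ hi hc hci (PhiS_lipFam (p := p) hm hX ν hν) hl,
    (PsiE_slip1 (p := p) hm hX).shift_integral P hΘ hi hc hci]
  ring

end Crest.Agent.SGG
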