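import Mathlib
import Crest.Agent.SGG_Defs
import Crest.Agent.SGG_PF
import Crest.Agent.SGG_LS
import Crest.Agent.SGG_TF

/-!
# Integrals against finite laws are finite sums (S0192, part G, task G8)
-/

set_option autoImplicit false

open MeasureTheory
open Crest.ProbabilityR.Diluted

namespace Crest.Agent.SGG

/-- A finitely supported law. -/
noncomputable def finLaw {E Y : Type} [Fintype E] [MeasurableSpace Y] (w : E → ℝ) (a : E → Y) :
    Measure Y := ∑ e : E, ENNReal.ofReal (w e) • Measure.dirac (a e)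

theorem finLaw_prob {E Y : Type} [Fintype E] [MeasurableSpace Y] {w : E → ℝ} (a : E → Y)
    (hw : ∀ e, 0 ≤ w e) (hs : ∑ e, w e = 1) : IsProbabilityMeasure (finLaw w a) := by
  constructor
  unfold finLaw
  rw [Measure.finsetSum_apply]
  simp only [Measure.smul_apply, measure_univ, smul_eq_mul, mul_one]
  rw [← ENNReal.ofReal_sum_of_nonneg fun e _ => hw e, hs, ENNReal.ofReal_one]

private theorem evG_integrable_dirac {Y : Type} [MeasurableSpace Y] (y : Y) {G : Y → ℝ}
    (hG : Measurable G) : Integrable G (Measure.dirac y) :=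
  ⟨hG.aestronglyMeasurable, by
    rw [hasFiniteIntegral_iff_norm, lintegral_dirac' _ (by fun_prop)]
    exact ENNReal.ofReal_lt_top⟩

private theorem evG_integrable_finLaw {E Y : Type} [Fintype E] [MeasurableSpace Y] {w : E → ℝ}
    (a : E → Y) {G : Y → ℝ} (hG : Measurable G) : Integrable G (finLaw w a) := by
  unfold finLaw
  rw [integrable_finsetSum_measure]
  intro e _
  exact (evG_integrable_dirac (a e) hG).smul_measure ENNReal.ofReal_ne_top

theorem integral_finLaw {E Y : Type} [Fintype E] [MeasurableSpace Y] {w : E → ℝ} (a : E → Y)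
    (hw : ∀ e, 0 ≤ w e) {G : Y → ℝ} (hG : Measurable G) :
    ∫ y, G y ∂(finLaw w a) = ∑ e, w e * G (a e) := by
  unfold finLaw
  rw [integral_finsetSum_measure fun e _ =>
    (evG_integrable_dirac (a e) hG).smul_measure ENNReal.ofReal_ne_top]
  refine Finset.sum_congr rfl fun e _ => ?_
  rw [integral_smul_measure, integral_dirac' _ _ hG.stronglyMeasurable,
    ENNReal.toReal_ofReal (hw e), smul_eq_mul]

private theorem evG_pi_finLaw {ι E Y : Type} [Fintype ι] [DecidableEq ι] [Fintype E]
    [MeasurableSpace Y] {w : E → ℝ} (a : E → Y)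
    (hw : ∀ e, 0 ≤ w e) (hs : ∑ e, w e = 1) :
    (Measure.pi fun _ : ι => finLaw w a) =
      finLaw (fun e : ι → E => ∏ k, w (e k)) (fun e k => a (e k)) := by
  have := finLaw_prob a hw hs
  refine Measure.pi_eq fun s hsm => ?_
  unfold finLaw
  rw [Measure.finsetSum_apply]
  simp only [Measure.finsetSum_apply, Measure.smul_apply, smul_eq_mul]
  rw [Finset.prod_univ_sum, Fintype.piFinset_univ]
  refine Finset.sum_congr rfl fun e _ => ?_
  rw [Finset.prod_mul_distrib, ← ENNReal.ofReal_prod_of_nonneg fun k _ => hw (e k)]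
  congr 1
  rw [Measure.dirac_apply' _ (MeasurableSet.univ_pi hsm)]
  by_cases h : (fun k => a (e k)) ∈ Set.univ.pi s
  · rw [Set.indicator_of_mem h]
    have h' : ∀ k, a (e k) ∈ s k := fun k => h k (Set.mem_univ k)
    symm
    simp only [Pi.one_apply]
    refine Finset.prod_eq_one fun k _ => ?_
    rw [Measure.dirac_apply' _ (hsm k), Set.indicator_of_mem (h' k)]
    rfl
  · rw [Set.indicator_of_notMem h]
    have h' : ∃ k, a (e k) ∉ s k := by
      by_contra hc
      push Not at hc
      exact h fun k _ => hc k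
    obtain ⟨k, hk⟩ := h'
    symm
    refine Finset.prod_eq_zero (Finset.mem_univ k) ?_
    rw [Measure.dirac_apply' _ (hsm k), Set.indicator_of_notMem hk]

theorem integral_pi_finLaw {ι E Y : Type} [Fintype ι] [DecidableEq ι] [Fintype E]
    [MeasurableSpace Y] {w : E → ℝ} (a : E → Y)
    (hw : ∀ e, 0 ≤ w e) (hs : ∑ e, w e = 1) {G : (ι → Y) → ℝ} (hG : Measurable G) :
    ∫ y, G y ∂(Measure.pi fun _ : ι => finLaw w a) =
      ∑ e : ι → E, (∏ k, w (e k)) * G (fun k => a (e k)) := by
  rw [evG_pi_finLaw a hw hs,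
    integral_finLaw _ (fun e => Finset.prod_nonneg fun k _ => hw (e k)) hG]

variable {p : ℕ} (C : Core p)

theorem Core.wE_nonneg (e : C.E) : 0 ≤ C.wE e :=
  mul_nonneg (C.wB_nonneg _) (Finset.prod_nonneg fun _ _ => C.wF_nonneg _)

theorem Core.wE_sum : ∑ e : C.E, C.wE e = 1 := by
  rw [Fintype.sum_prod_type]
  simp only [Core.wE]
  simp_rw [← Finset.mul_sum]
  have h : ∑ x : Fin p → Fin C.nF, ∏ l, C.wF (x l) = 1 := by
    have := Finset.prod_univ_sum (fun _ : Fin p => (Finset.univ : Finset (Fin C.nF)))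
      (fun _ j => C.wF j)
    rw [Fintype.piFinset_univ] at this
    rw [← this]
    simp [C.wF_sum]
  simp only [h, mul_one]
  exact C.wB_sum

theorem Core.interLaw_eq : C.interLaw = finLaw C.wE C.theta := rfl

theorem Core.fieldLaw_eq : C.fieldLaw = finLaw C.wH C.h := rfl

theorem Core.interLaw_prob : IsProbabilityMeasure C.interLaw :=
  finLaw_prob _ C.wE_nonneg C.wE_sum

theorem Core.fieldLaw_prob : IsProbabilityMeasure C.fieldLaw :=
  finLaw_prob _ C.wH_nonneg C.wH_sum

theorem Core.integrable_supNorm : Integrable (fun θ => supNorm θ) C.interLaw :=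
  evG_integrable_finLaw C.theta measurable_supNorm

theorem Core.integrable_field : Integrable (fun x : ℝ => x) C.fieldLaw :=
  evG_integrable_finLaw C.h measurable_id

/-- The pressure of the measures `interLaw`, `fieldLaw` is the finite one. -/
theorem pressure_core (α : ℝ) {N : ℕ} (hN : 1 ≤ N) :
    Crest.ProbabilityR.Diluted.pressure p α C.interLaw C.fieldLaw N = C.pressure α N := by
  have := C.fieldLaw_prob
  rw [pressure_eq_PF]
  unfold PF Core.pressure
  congr 1
  refine tsum_congr fun M => ?_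
  congr 1
  have hc : Measurable (PhiP (p := p) C.fieldLaw N M) :=
    ((PhiP_lipFam (p := p) C.fieldLaw C.integrable_field hN).lip1 M).continuous.measurable
  have h1 := integral_pi_finLaw (ι := Fin M) C.theta C.wE_nonneg C.wE_sum hc
  rw [← C.interLaw_eq] at h1
  rw [h1]
  refine Finset.sum_congr rfl fun e _ => ?_
  congr 1
  exact integral_pi_finLaw (ι := Fin N) C.h C.wH_nonneg C.wH_sum
    (continuous_avgLP (p := p) hN (fun k => C.theta (e k))).measurable

/-- The trial functional of the measures `interLaw`, `fieldLaw`. -/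
theorem trialFunctional_core (α : ℝ) {r : ℕ} {m : Fin r → ℝ} (hm : ∀ d, 0 < m d)
    {X : (Fin (r + 1) → unitInterval) → ℝ} (hX : Measurable X) :
    trialFunctional p α C.interLaw C.fieldLaw r m X =
      Real.log 2 +
      (∑' k : ℕ, poissonWeight (α * p) k *
        ∑ e : Fin k → C.E, (∏ j, C.wE (e j)) * ∑ y : Fin C.nH, C.wH y *
          siteF m X (C.h y) (fun j => C.theta (e j))) -
      α * (p - 1 : ℝ) * ∑ e : C.E, C.wE e * PsiE m X (C.theta e) := by
  have := C.fieldLaw_prob
  rw [trialFunctional_eq]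
  have h2 : ∫ θ, PsiE m X θ ∂C.interLaw = ∑ e : C.E, C.wE e * PsiE m X (C.theta e) :=
    integral_finLaw C.theta C.wE_nonneg (PsiE_slip1 (p := p) hm hX).continuous.measurable
  rw [h2]
  congr 2
  unfold PF
  refine tsum_congr fun k => ?_
  congr 1
  have hc : Measurable (PhiS (p := p) C.fieldLaw m X k) :=
    ((PhiS_lipFam (p := p) hm hX C.fieldLaw C.integrable_field).lip1 k).continuous.measurable
  have h1 := integral_pi_finLaw (ι := Fin k) C.theta C.wE_nonneg C.wE_sum hc
  rw [← C.interLaw_eq] at h1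
  rw [h1]
  refine Finset.sum_congr rfl fun e _ => ?_
  congr 1
  exact integral_finLaw C.h C.wH_nonneg
    (continuous_siteF (p := p) hm hX (fun j => C.theta (e j))).measurable

end Crest.Agent.SGG
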