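import Mathlib
import Crest.Agent.SGG_Defs
import Crest.Agent.SGG_PF

/-!
# Centring and the limit `c → 1` (S0192, part G, task G12)

`ctr θ = θ - average of θ`. `osc_log`: for `x, y > -1`, `c ∈ [0,1]`:
`(1+cx)/(1+cy) ≤ (1+x)/(1+y)` for `x ≥ y`, i.e. `(1-c)(y-x) ≤ 0`.
`exists_c`: dominated convergence as `c ↑ 1` (take `c_k = 1 - 1/(k+2)`): pointwise convergence
because `|g| < 1`; domination: oscillation of `log (1 + c g)` is at most the oscillation of
`log (1 + g)`, which is the oscillation of `Θ`, at most `2 supNorm Θ`.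
-/

set_option autoImplicit false

open MeasureTheory
open Crest.ProbabilityR.Diluted

namespace Crest.Agent.SGG

variable {p : ℕ}

theorem osc_log {x y c : ℝ} (hx : -1 < x) (hy : -1 < y) (hc0 : 0 ≤ c) (hc1 : c ≤ 1) :
    |Real.log (1 + c * x) - Real.log (1 + c * y)| ≤ |Real.log (1 + x) - Real.log (1 + y)| := by
  have key : ∀ x y : ℝ, -1 < x → -1 < y → y ≤ x →
      |Real.log (1 + c * x) - Real.log (1 + c * y)| ≤ |Real.log (1 + x) - Real.log (1 + y)| := by
    intro x y hx hy hxy
    have hcy : 0 < 1 + c * y := by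
      rcases hc0.eq_or_lt with h | h
      · rw [← h]; norm_num
      · have := mul_pos h (by linarith : 0 < 1 + y)
        nlinarith
    have hcx : 0 < 1 + c * x := by nlinarith
    have h1 : Real.log (1 + c * y) ≤ Real.log (1 + c * x) :=
      Real.log_le_log hcy (by nlinarith)
    have h2 : Real.log (1 + y) ≤ Real.log (1 + x) := Real.log_le_log (by linarith) (by linarith)
    rw [abs_of_nonneg (by linarith), abs_of_nonneg (by linarith)]
    have h3 : Real.log ((1 + c * x) * (1 + y)) ≤ Real.log ((1 + x) * (1 + c * y)) := by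
      apply Real.log_le_log (by nlinarith)
      nlinarith [mul_nonneg (sub_nonneg.2 hc1) (sub_nonneg.2 hxy)]
    rw [Real.log_mul hcx.ne' (by linarith), Real.log_mul (by linarith) hcy.ne'] at h3
    linarith
  rcases le_total y x with h | h
  · exact key x y hx hy h
  · rw [abs_sub_comm, abs_sub_comm (Real.log (1 + x))]
    exact key y x hy hx h

/-- The average over the spin tuples. -/
noncomputable def avgI (θ : Inter p) : ℝ :=
  (Fintype.card (Fin p → Bool) : ℝ)⁻¹ * ∑ s, θ s

/-- The centred interaction. -/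
noncomputable def ctr (θ : Inter p) : Inter p := fun s => θ s - avgI θ

theorem measurable_avgI : Measurable (fun θ : Inter p => avgI θ) := by
  unfold avgI
  fun_prop

theorem MuA_card_pos (p : ℕ) : (0 : ℝ) < (Fintype.card (Fin p → Bool) : ℝ) := by
  exact_mod_cast Fintype.card_pos

theorem abs_avgI (θ : Inter p) : |avgI θ| ≤ supNorm θ := by
  have hc := MuA_card_pos p
  unfold avgI
  rw [abs_mul, abs_of_pos (inv_pos.2 hc), inv_mul_le_iff₀ hc]
  calc |∑ s, θ s| ≤ ∑ s, |θ s| := Finset.abs_sum_le_sum_abs _ _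
    _ ≤ ∑ _s : Fin p → Bool, supNorm θ := Finset.sum_le_sum fun s _ => abs_le_supNorm θ s
    _ = _ := by simp

theorem avgI_add_const (θ : Inter p) (c : ℝ) : avgI (fun s => θ s + c) = avgI θ + c := by
  have hc := MuA_card_pos p
  unfold avgI
  rw [Finset.sum_add_distrib, mul_add]
  congr 1
  rw [Finset.sum_const, nsmul_eq_mul, Finset.card_univ, ← mul_assoc, inv_mul_cancel₀ hc.ne', one_mul]

theorem ctr_add_const (θ : Inter p) (c : ℝ) : ctr (fun s => θ s + c) = ctr θ := by
  funext s
  unfold ctr
  rw [avgI_add_const]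
  ring

theorem supNorm_ctr_sub (θ θ' : Inter p) :
    supNorm (fun s => ctr θ s - ctr θ' s) ≤ 2 * supNorm (fun s => θ s - θ' s) := by
  refine supNorm_le fun s => ?_
  have h1 : avgI θ - avgI θ' = avgI (fun s => θ s - θ' s) := by
    unfold avgI
    rw [Finset.sum_sub_distrib, mul_sub]
  have h2 : ctr θ s - ctr θ' s = (θ s - θ' s) - avgI (fun s => θ s - θ' s) := by
    unfold ctr
    rw [← h1]; ring
  rw [h2]
  have h3 := abs_le_supNorm (fun s => θ s - θ' s) s
  have h4 := abs_avgI (fun s => θ s - θ' s)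
  have h5 := abs_sub (θ s - θ' s) (avgI (fun s => θ s - θ' s))
  linarith

theorem supNorm_ctr_le {θ : Inter p} {B : ℝ} (h : ∀ s t, |θ s - θ t| ≤ B) :
    supNorm (ctr θ) ≤ B := by
  refine supNorm_le fun s => ?_
  have hc := MuA_card_pos p
  have h1 : ctr θ s = (Fintype.card (Fin p → Bool) : ℝ)⁻¹ * ∑ t, (θ s - θ t) := by
    unfold ctr avgI
    rw [Finset.sum_sub_distrib, mul_sub, Finset.sum_const, nsmul_eq_mul, Finset.card_univ,
      ← mul_assoc, inv_mul_cancel₀ hc.ne', one_mul]
  rw [h1, abs_mul, abs_of_pos (inv_pos.2 hc), inv_mul_le_iff₀ hc]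
  calc |∑ t, (θ s - θ t)| ≤ ∑ t, |θ s - θ t| := Finset.abs_sum_le_sum_abs _ _
    _ ≤ ∑ _t : Fin p → Bool, B := Finset.sum_le_sum fun t _ => h s t
    _ = _ := by simp

theorem MuA_continuous_ctr : Continuous (fun θ : Inter p => ctr θ) := by
  unfold ctr avgI
  fun_prop

/-- Choice of the damping constant `c < 1`. -/
theorem exists_c {Ω : Type} [MeasurableSpace Ω] (P : Measure Ω) [IsProbabilityMeasure P]
    {g : Ω → Inter p} (hg : Measurable g) (hlt : ∀ᵐ ω ∂P, ∀ s, |g ω s| < 1)
    {a : Ω → ℝ} (ha : ∀ᵐ ω ∂P, 0 < a ω)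
    (hi : Integrable (fun ω => supNorm (fun s => Real.log (a ω * (1 + g ω s)))) P)
    {ε : ℝ} (hε : 0 < ε) :
    ∃ c : ℝ, 0 < c ∧ c < 1 ∧
      Integrable (fun ω => supNorm (fun s => ctr (fun s => Real.log (1 + g ω s)) s -
        ctr (fun s => Real.log (1 + c * g ω s)) s)) P ∧
      ∫ ω, supNorm (fun s => ctr (fun s => Real.log (1 + g ω s)) s -
        ctr (fun s => Real.log (1 + c * g ω s)) s) ∂P ≤ ε := by
  have hcm : ∀ c : ℝ, Measurable fun ω => supNorm (fun s => ctr (fun s => Real.log (1 + g ω s)) s -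
        ctr (fun s => Real.log (1 + c * g ω s)) s) := by
    intro c
    have hgs : ∀ s, Measurable fun ω => g ω s := fun s => (measurable_pi_apply s).comp hg
    have h1 : Measurable fun ω => (fun s => Real.log (1 + g ω s) : Inter p) :=
      measurable_pi_lambda _ fun s => ((hgs s).const_add 1).log
    have h2 : Measurable fun ω => (fun s => Real.log (1 + c * g ω s) : Inter p) :=
      measurable_pi_lambda _ fun s => (((hgs s).const_mul c).const_add 1).log
    have h3 := MuA_continuous_ctr.measurable.comp h1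
    have h4 := MuA_continuous_ctr.measurable.comp h2
    exact measurable_supNorm.comp (h3.sub h4)
  have hdom : ∀ c : ℝ, 0 ≤ c → c ≤ 1 → ∀ᵐ ω ∂P,
      ‖supNorm (fun s => ctr (fun s => Real.log (1 + g ω s)) s -
        ctr (fun s => Real.log (1 + c * g ω s)) s)‖ ≤
      4 * supNorm (fun s => Real.log (a ω * (1 + g ω s))) := by
    intro c hc0 hc1
    filter_upwards [hlt, ha] with ω h1 h2
    rw [Real.norm_eq_abs, abs_of_nonneg (supNorm_nonneg _)]
    have hg1 : ∀ s, -1 < g ω s := fun s => (abs_lt.1 (h1 s)).1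
    have hosc : ∀ s t, |Real.log (1 + g ω s) - Real.log (1 + g ω t)| ≤
        2 * supNorm (fun s => Real.log (a ω * (1 + g ω s))) := by
      intro s t
      have e : ∀ s, Real.log (a ω * (1 + g ω s)) = Real.log (a ω) + Real.log (1 + g ω s) :=
        fun s => Real.log_mul h2.ne' (by linarith [hg1 s])
      have e2 : Real.log (1 + g ω s) - Real.log (1 + g ω t) =
          Real.log (a ω * (1 + g ω s)) - Real.log (a ω * (1 + g ω t)) := by
        rw [e, e]; ring
      rw [e2]
      have h3 := abs_le_supNorm (fun s => Real.log (a ω * (1 + g ω s))) s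
      have h4 := abs_le_supNorm (fun s => Real.log (a ω * (1 + g ω s))) t
      have h5 := abs_sub (Real.log (a ω * (1 + g ω s))) (Real.log (a ω * (1 + g ω t)))
      linarith
    have h3 := supNorm_ctr_le hosc
    have h4 : supNorm (ctr fun s => Real.log (1 + c * g ω s)) ≤
        2 * supNorm (fun s => Real.log (a ω * (1 + g ω s))) :=
      supNorm_ctr_le fun s t => (osc_log (hg1 s) (hg1 t) hc0 hc1).trans (hosc s t)
    have h5 := supNorm_sub_le (ctr fun s => Real.log (1 + g ω s))
      (ctr fun s => Real.log (1 + c * g ω s))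
    linarith
  have hint : ∀ c : ℝ, 0 ≤ c → c ≤ 1 →
      Integrable (fun ω => supNorm (fun s => ctr (fun s => Real.log (1 + g ω s)) s -
        ctr (fun s => Real.log (1 + c * g ω s)) s)) P := fun c hc0 hc1 =>
    (hi.const_mul 4).mono' (hcm c).aestronglyMeasurable (hdom c hc0 hc1)
  set c : ℕ → ℝ := fun k => 1 - 1 / ((k : ℝ) + 2) with hc
  have hk : ∀ k, 0 < c k ∧ c k < 1 := by
    intro k
    have h2 : (0 : ℝ) < (k : ℝ) + 2 := by positivity
    have h3 : 1 / ((k : ℝ) + 2) < 1 := by
      rw [div_lt_one h2]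
      have : (0 : ℝ) ≤ k := Nat.cast_nonneg k
      linarith
    have h4 : 0 < 1 / ((k : ℝ) + 2) := by positivity
    exact ⟨by simp only [hc]; linarith, by simp only [hc]; linarith⟩
  have hclim : Filter.Tendsto c Filter.atTop (nhds 1) := by
    have h1 : Filter.Tendsto (fun k : ℕ => 1 / ((k : ℝ) + 2)) Filter.atTop (nhds 0) := by
      have := (tendsto_one_div_add_atTop_nhds_zero_nat (𝕜 := ℝ)).comp (Filter.tendsto_add_atTop_nat 1)
      refine this.congr fun k => ?_
      simp only [Function.comp]
      push_cast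
      congr 1
      ring
    have := h1.const_sub 1
    rw [sub_zero] at this
    exact this
  have hlim : Filter.Tendsto (fun k => ∫ ω, supNorm (fun s =>
      ctr (fun s => Real.log (1 + g ω s)) s - ctr (fun s => Real.log (1 + c k * g ω s)) s) ∂P)
      Filter.atTop (nhds (∫ _ω, (0 : ℝ) ∂P)) := by
    refine tendsto_integral_of_dominated_convergence
      (fun ω => 4 * supNorm (fun s => Real.log (a ω * (1 + g ω s))))
      (fun k => (hcm _).aestronglyMeasurable) (hi.const_mul 4)
      (fun k => hdom _ (hk k).1.le (hk k).2.le) ?_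
    filter_upwards [hlt] with ω h1
    have hg1 : ∀ s, -1 < g ω s := fun s => (abs_lt.1 (h1 s)).1
    have h2 : Filter.Tendsto (fun k => (fun s => Real.log (1 + c k * g ω s) : Inter p))
        Filter.atTop (nhds (fun s => Real.log (1 + g ω s))) := by
      rw [tendsto_pi_nhds]
      intro s
      have h3 : Filter.Tendsto (fun k => 1 + c k * g ω s) Filter.atTop (nhds (1 + 1 * g ω s)) :=
        (hclim.mul_const _).const_add 1
      rw [one_mul] at h3
      exact h3.log (by linarith [hg1 s])
    have h3 : Filter.Tendsto (fun k => ctr (fun s => Real.log (1 + c k * g ω s)))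
        Filter.atTop (nhds (ctr (fun s => Real.log (1 + g ω s)))) :=
      (MuA_continuous_ctr.tendsto _).comp h2
    have h4 : Filter.Tendsto (fun k => (fun s => ctr (fun s => Real.log (1 + g ω s)) s -
        ctr (fun s => Real.log (1 + c k * g ω s)) s : Inter p)) Filter.atTop
        (nhds (ctr (fun s => Real.log (1 + g ω s)) - ctr (fun s => Real.log (1 + g ω s)))) :=
      h3.const_sub _
    rw [sub_self] at h4
    have h5 := (continuous_supNorm.tendsto _).comp h4
    have h6 : supNorm (0 : Inter p) = 0 := by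
      rw [supNorm_eq_norm, norm_zero]
    rw [h6] at h5
    exact h5
  rw [integral_zero] at hlim
  obtain ⟨k, hk1⟩ := (hlim.eventually (gt_mem_nhds hε)).exists
  exact ⟨c k, (hk k).1, (hk k).2, hint _ (hk k).1.le (hk k).2.le, hk1.le⟩

end Crest.Agent.SGG
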