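import Mathlib

/-!
# Essential bounds from independence (S0192, part G, task G13)

If `b` is not a.s. zero and `max |f|` is not a.s. zero: for `B₁ ≥ 0` with `P(|b| > B₁) > 0` and
`F₁ ≥ 0` with `P(max_s |f 0| > F₁) > 0`, independence and identical distribution give
`P(|b| > B₁, ∀ l, max_s |f l| > F₁) > 0`, so there is `ω` (outside the exceptional null set) and
`s` with `|b ∏ f_l (s l)| > B₁ F₁^p` hence `B₁ F₁ ^ p < 1`. Take `B`, `F` = suprema of all such
`B₁`, `F₁` (both sets are nonempty and bounded because each of them contains a positive number).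
If `b = 0` a.s. or `f 0 = 0` a.s. (then all `f l = 0` a.s.) we are in the first case (`0 < p`).
-/

set_option autoImplicit false

open MeasureTheory ProbabilityTheory

namespace Crest.Agent.SGG

/-- the levels exceeded with positive probability -/
def MuB_S {Ω : Type} [MeasurableSpace Ω] (P : Measure Ω) (h : Ω → ℝ) : Set ℝ :=
  {c | 0 ≤ c ∧ P {ω | c < h ω} ≠ 0}

theorem MuB_ae_le {Ω : Type} [MeasurableSpace Ω] (P : Measure Ω) (h : Ω → ℝ)
    (h0 : 0 ∈ MuB_S P h) (hb : BddAbove (MuB_S P h)) : ∀ᵐ ω ∂P, h ω ≤ sSup (MuB_S P h) := by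
  have hs : 0 ≤ sSup (MuB_S P h) := le_csSup hb h0
  have h1 : ∀ n : ℕ, ∀ᵐ ω ∂P, h ω ≤ sSup (MuB_S P h) + 1 / ((n : ℝ) + 1) := by
    intro n
    have hpos : (0 : ℝ) < 1 / ((n : ℝ) + 1) := by positivity
    have h2 : sSup (MuB_S P h) + 1 / ((n : ℝ) + 1) ∉ MuB_S P h := fun hmem => by
      have := le_csSup hb hmem
      linarith
    have h3 : P {ω | sSup (MuB_S P h) + 1 / ((n : ℝ) + 1) < h ω} = 0 := by
      by_contra hne
      exact h2 ⟨by linarith, hne⟩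
    rw [ae_iff]
    simpa only [not_le] using h3
  filter_upwards [ae_all_iff.2 h1] with ω hω
  refine le_of_forall_pos_le_add fun ε hε => ?_
  obtain ⟨n, hn⟩ := exists_nat_one_div_lt hε
  linarith [hω n]

theorem MuB_pos {Ω : Type} [MeasurableSpace Ω] (P : Measure Ω) (h : Ω → ℝ)
    (h0 : 0 ∈ MuB_S P h) : ∃ c, 0 < c ∧ c ∈ MuB_S P h := by
  by_contra hcon
  push Not at hcon
  apply h0.2
  have h1 : ∀ n : ℕ, P {ω | 1 / ((n : ℝ) + 1) < h ω} = 0 := by
    intro n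
    have hpos : (0 : ℝ) < 1 / ((n : ℝ) + 1) := by positivity
    by_contra hne
    exact hcon _ hpos ⟨hpos.le, hne⟩
  have h2 : {ω | (0 : ℝ) < h ω} ⊆ ⋃ n : ℕ, {ω | 1 / ((n : ℝ) + 1) < h ω} := by
    intro ω hω
    obtain ⟨n, hn⟩ := exists_nat_one_div_lt (show (0 : ℝ) < h ω from hω)
    exact Set.mem_iUnion.2 ⟨n, hn⟩
  exact measure_mono_null h2 (measure_iUnion_null h1)

/-- the maximum -/
noncomputable def MuB_g (x : Bool → ℝ) : ℝ := max |x true| |x false|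

theorem MuB_g_meas : Measurable MuB_g := by
  unfold MuB_g
  exact ((measurable_pi_apply true).abs).max ((measurable_pi_apply false).abs)

theorem MuB_g_le (x : Bool → ℝ) (s : Bool) : |x s| ≤ MuB_g x := by
  unfold MuB_g
  cases s
  · exact le_max_right _ _
  · exact le_max_left _ _

theorem MuB_g_nonneg (x : Bool → ℝ) : 0 ≤ MuB_g x := (abs_nonneg _).trans (MuB_g_le x true)

theorem MuB_g_exists (x : Bool → ℝ) : ∃ s, |x s| = MuB_g x := by
  unfold MuB_g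
  rcases max_choice |x true| |x false| with h | h
  · exact ⟨true, h.symm⟩
  · exact ⟨false, h.symm⟩

theorem MuB_prod_lt {p : ℕ} (hp : 0 < p) {Ω : Type} [MeasurableSpace Ω] (P : Measure Ω)
    [IsProbabilityMeasure P] {b : Ω → ℝ} {f : Fin p → Ω → Bool → ℝ} (hind : iIndepFun f P)
    (hid : ∀ l, IdentDistrib (f l) (f ⟨0, hp⟩) P P)
    (hbf : IndepFun b (fun ω => fun l => f l ω) P)
    (hlt : ∀ᵐ ω ∂P, ∀ s : Fin p → Bool, |b ω * ∏ l, f l ω (s l)| < 1) {c₁ c₂ : ℝ}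
    (h1 : c₁ ∈ MuB_S P fun ω => |b ω|) (h2 : c₂ ∈ MuB_S P fun ω => MuB_g (f ⟨0, hp⟩ ω)) :
    c₁ * c₂ ^ p < 1 := by
  set U : Set ℝ := {x | c₁ < |x|} with hU
  set W : Set (Bool → ℝ) := {x | c₂ < MuB_g x} with hW
  have hUm : MeasurableSet U := measurableSet_lt measurable_const measurable_abs
  have hWm : MeasurableSet W := measurableSet_lt measurable_const MuB_g_meas
  set V : Set (Fin p → Bool → ℝ) := {x | ∀ l, x l ∈ W} with hV
  have hVm : MeasurableSet V := by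
    have : V = ⋂ l, (fun x : Fin p → Bool → ℝ => x l) ⁻¹' W := by
      ext x
      simp [hV]
    rw [this]
    exact MeasurableSet.iInter fun l => (measurable_pi_apply l) hWm
  have e1 : P (b ⁻¹' U ∩ (fun ω => fun l => f l ω) ⁻¹' V) = P (b ⁻¹' U) *
      P ((fun ω => fun l => f l ω) ⁻¹' V) := hbf.measure_inter_preimage_eq_mul _ _ hUm hVm
  have e2 : P ((fun ω => fun l => f l ω) ⁻¹' V) = ∏ l : Fin p, P (f l ⁻¹' W) := by
    have h := hind.measure_inter_preimage_eq_mul Finset.univ (sets := fun _ => W)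
      (fun _ _ => hWm)
    rw [← h]
    congr 1
    ext ω
    simp [hV]
  have e3 : ∀ l, P (f l ⁻¹' W) = P (f ⟨0, hp⟩ ⁻¹' W) := fun l => (hid l).measure_mem_eq hWm
  have hne : P (b ⁻¹' U ∩ (fun ω => fun l => f l ω) ⁻¹' V) ≠ 0 := by
    rw [e1, e2]
    simp only [e3]
    rw [Finset.prod_const]
    exact mul_ne_zero h1.2 (pow_ne_zero _ h2.2)
  obtain ⟨ω, hω1, hω2⟩ : ∃ ω, (ω ∈ b ⁻¹' U ∩ (fun ω => fun l => f l ω) ⁻¹' V) ∧
      ∀ s : Fin p → Bool, |b ω * ∏ l, f l ω (s l)| < 1 := by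
    by_contra hcon
    push Not at hcon
    apply hne
    refine measure_mono_null ?_ (ae_iff.1 hlt)
    intro ω hω
    obtain ⟨s, hs⟩ := hcon ω hω
    intro h
    exact absurd (h s) (not_lt.2 hs)
  choose s hs using fun l => MuB_g_exists (f l ω)
  have h3 := hω2 s
  rw [abs_mul, Finset.abs_prod] at h3
  simp only [hs] at h3
  refine lt_of_le_of_lt ?_ h3
  have hb : c₁ < |b ω| := hω1.1
  have hg : ∀ l, c₂ < MuB_g (f l ω) := hω1.2
  have h4 : c₂ ^ p ≤ ∏ l, MuB_g (f l ω) := by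
    calc c₂ ^ p = ∏ _l : Fin p, c₂ := by simp
      _ ≤ ∏ l, MuB_g (f l ω) := Finset.prod_le_prod (fun _ _ => h2.1) fun l _ => (hg l).le
  exact mul_le_mul hb.le h4 (pow_nonneg h2.1 p) (abs_nonneg _)

theorem bounds_or_zero {p : ℕ} (hp : 0 < p) {Ω : Type} [MeasurableSpace Ω] (P : Measure Ω)
    [IsProbabilityMeasure P] {b : Ω → ℝ} {f : Fin p → Ω → Bool → ℝ} (hb : Measurable b)
    (hf : ∀ l, Measurable (f l)) (hind : iIndepFun f P)
    (hid : ∀ l, IdentDistrib (f l) (f ⟨0, hp⟩) P P)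
    (hbf : IndepFun b (fun ω => fun l => f l ω) P)
    (hlt : ∀ᵐ ω ∂P, ∀ s : Fin p → Bool, |b ω * ∏ l, f l ω (s l)| < 1) :
    (∀ᵐ ω ∂P, ∀ s : Fin p → Bool, b ω * ∏ l, f l ω (s l) = 0) ∨
    ∃ B F : ℝ, 0 ≤ B ∧ 0 ≤ F ∧ B * F ^ p ≤ 1 ∧ (∀ᵐ ω ∂P, |b ω| ≤ B) ∧
      ∀ᵐ ω ∂P, ∀ l s, |f l ω s| ≤ F := by
  by_cases hb0 : (0 : ℝ) ∈ MuB_S P fun ω => |b ω|
  · by_cases hf0 : (0 : ℝ) ∈ MuB_S P fun ω => MuB_g (f ⟨0, hp⟩ ω)
    · right
      have key := fun {c₁ c₂ : ℝ} => MuB_prod_lt hp P hind hid hbf hlt (c₁ := c₁) (c₂ := c₂)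
      obtain ⟨β, hβ0, hβ⟩ := MuB_pos P _ hb0
      obtain ⟨φ, hφ0, hφ⟩ := MuB_pos P _ hf0
      have hbdB : BddAbove (MuB_S P fun ω => |b ω|) := by
        refine ⟨1 / φ ^ p, fun c hc => ?_⟩
        rw [le_div_iff₀ (by positivity)]
        exact (key hc hφ).le
      have hbdF : BddAbove (MuB_S P fun ω => MuB_g (f ⟨0, hp⟩ ω)) := by
        refine ⟨max 1 (1 / β), fun c hc => ?_⟩
        by_contra hcon
        rw [not_le, max_lt_iff] at hcon
        have h1 := key hβ hc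
        have h2 : c ≤ c ^ p := le_self_pow₀ hcon.1.le hp.ne'
        have h3 : 1 < β * c := by
          have := (div_lt_iff₀ hβ0).1 hcon.2
          linarith
        nlinarith
      refine ⟨sSup (MuB_S P fun ω => |b ω|), sSup (MuB_S P fun ω => MuB_g (f ⟨0, hp⟩ ω)),
        le_csSup hbdB hb0, le_csSup hbdF hf0, ?_, MuB_ae_le P _ hb0 hbdB, ?_⟩
      · have h1 : ∀ c₂ ∈ MuB_S P (fun ω => MuB_g (f ⟨0, hp⟩ ω)),
            sSup (MuB_S P fun ω => |b ω|) * c₂ ^ p ≤ 1 := by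
          intro c₂ hc₂
          rcases (pow_nonneg hc₂.1 p).eq_or_lt with h0 | h0
          · rw [← h0, mul_zero]; exact zero_le_one
          · rw [← le_div_iff₀ h0]
            refine csSup_le ⟨0, hb0⟩ fun c₁ hc₁ => ?_
            rw [le_div_iff₀ h0]
            exact (key hc₁ hc₂).le
        obtain ⟨u, _, hu, hu2⟩ := exists_seq_tendsto_sSup ⟨0, hf0⟩ hbdF
        have hcont : Filter.Tendsto (fun n => sSup (MuB_S P fun ω => |b ω|) * u n ^ p)
            Filter.atTop (nhds (sSup (MuB_S P fun ω => |b ω|) *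
              sSup (MuB_S P fun ω => MuB_g (f ⟨0, hp⟩ ω)) ^ p)) := (hu.pow p).const_mul _
        exact le_of_tendsto' hcont fun n => h1 _ (hu2 n)
      · rw [ae_all_iff]
        intro l
        have h1 := MuB_ae_le P _ hf0 hbdF
        have h2 : ∀ᵐ ω ∂P, MuB_g (f l ω) ≤ sSup (MuB_S P fun ω => MuB_g (f ⟨0, hp⟩ ω)) := by
          have hm : MeasurableSet {x : Bool → ℝ |
              MuB_g x ≤ sSup (MuB_S P fun ω => MuB_g (f ⟨0, hp⟩ ω))}ᶜ :=
            (measurableSet_le MuB_g_meas measurable_const).compl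
          have h3 := (hid l).measure_mem_eq hm
          rw [ae_iff] at h1 ⊢
          have e1 : {ω | ¬ MuB_g (f l ω) ≤ sSup (MuB_S P fun ω => MuB_g (f ⟨0, hp⟩ ω))} =
              f l ⁻¹' {x : Bool → ℝ | MuB_g x ≤ sSup (MuB_S P fun ω => MuB_g (f ⟨0, hp⟩ ω))}ᶜ := rfl
          rw [e1, h3]
          exact h1
        filter_upwards [h2] with ω hω s
        exact (MuB_g_le _ s).trans hω
    · left
      have h1 : P {ω | (0 : ℝ) < MuB_g (f ⟨0, hp⟩ ω)} = 0 := by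
        by_contra hne
        exact hf0 ⟨le_rfl, hne⟩
      have h2 : ∀ᵐ ω ∂P, MuB_g (f ⟨0, hp⟩ ω) ≤ 0 := by
        rw [ae_iff]
        simpa only [not_le] using h1
      filter_upwards [h2] with ω hω s
      have h3 : f ⟨0, hp⟩ ω (s ⟨0, hp⟩) = 0 := by
        have := (MuB_g_le (f ⟨0, hp⟩ ω) (s ⟨0, hp⟩)).trans hω
        exact abs_nonpos_iff.1 this
      rw [Finset.prod_eq_zero (Finset.mem_univ (⟨0, hp⟩ : Fin p)) h3, mul_zero]
  · left
    have h1 : P {ω | (0 : ℝ) < |b ω|} = 0 := by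
      by_contra hne
      exact hb0 ⟨le_rfl, hne⟩
    have h2 : ∀ᵐ ω ∂P, |b ω| ≤ 0 := by
      rw [ae_iff]
      simpa only [not_le] using h1
    filter_upwards [h2] with ω hω s
    rw [abs_nonpos_iff.1 hω, zero_mul]

end Crest.Agent.SGG
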