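import Mathlib

/-!
# Rounding (S0192, part G, task G14)

`round_down`: value `δ * ⌊x/δ⌋` for `|x| ≤ R` (finitely many values, clamp the integer floor to
`[-M, M]`, `M = ⌈R/δ⌉`), index in `Fin (2M+1)`.
`round_pair`: coordinatewise, clamp the value `δ ⌊x/δ⌋` to `[-R, R]`; index type
`Fin ((2M+1)*(2M+1))` or any `Fin n` via `Fintype.equivFin`.
-/

set_option autoImplicit false

open MeasureTheory

namespace Crest.Agent.SGG

theorem round_down {R δ : ℝ} (hR : 0 ≤ R) (hδ : 0 < δ) :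
    ∃ (n : ℕ) (v : Fin n → ℝ) (q : ℝ → Fin n), Measurable q ∧ (∀ i, |v i| ≤ R + δ) ∧
      ∀ x, |x| ≤ R → v (q x) ≤ x ∧ x - δ ≤ v (q x) := by
  set M : ℕ := ⌈R / δ⌉₊ with hM
  have hM1 : R / δ ≤ M := Nat.le_ceil _
  have hM2 : (M : ℝ) < R / δ + 1 := Nat.ceil_lt_add_one (by positivity)
  refine ⟨2 * M + 1, fun i => δ * ((i.1 : ℝ) - M),
    fun x => ⟨min ((⌊x / δ⌋ + M).toNat) (2 * M), by omega⟩, ?_, ?_, ?_⟩
  · have h1 : Measurable (fun z : ℤ => (⟨min ((z + M).toNat) (2 * M), by omega⟩ :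
        Fin (2 * M + 1))) := Measurable.of_discrete
    exact h1.comp ((measurable_id.div_const δ).floor)
  · intro i
    have hi : (i.1 : ℝ) ≤ 2 * M := by
      have : i.1 ≤ 2 * M := by omega
      exact_mod_cast this
    have hi0 : (0 : ℝ) ≤ i.1 := Nat.cast_nonneg _
    have hδM : δ * M ≤ R + δ := by
      have h1 : δ * M ≤ δ * (R / δ + 1) := mul_le_mul_of_nonneg_left hM2.le hδ.le
      have h2 : δ * (R / δ + 1) = R + δ := by field_simp
      linarith
    rw [abs_mul, abs_of_pos hδ]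
    have h3 : |(i.1 : ℝ) - M| ≤ M := by
      rw [abs_le]; constructor <;> linarith
    calc δ * |(i.1 : ℝ) - M| ≤ δ * M := mul_le_mul_of_nonneg_left h3 hδ.le
      _ ≤ R + δ := hδM
  · intro x hx
    rw [abs_le] at hx
    have hx1 : x / δ ≤ M := (div_le_div_of_nonneg_right hx.2 hδ.le).trans hM1
    have hx2 : -(M : ℝ) ≤ x / δ := by
      have : -(R / δ) ≤ x / δ := by
        rw [← neg_div]; exact div_le_div_of_nonneg_right hx.1 hδ.le
      linarith
    have hf1 : ⌊x / δ⌋ ≤ M := by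
      have : (⌊x / δ⌋ : ℝ) ≤ M := (Int.floor_le _).trans hx1
      exact_mod_cast this
    have hf2 : -(M : ℤ) ≤ ⌊x / δ⌋ := by
      rw [Int.le_floor]; push_cast; exact hx2
    have hmin : min ((⌊x / δ⌋ + M).toNat) (2 * M) = (⌊x / δ⌋ + M).toNat := by omega
    have hcast : (((⌊x / δ⌋ + M).toNat : ℕ) : ℝ) = (⌊x / δ⌋ : ℝ) + M := by
      have h1 : (((⌊x / δ⌋ + M).toNat : ℕ) : ℤ) = ⌊x / δ⌋ + M := Int.toNat_of_nonneg (by omega)
      have h2 : ((((⌊x / δ⌋ + M).toNat : ℕ) : ℤ) : ℝ) = ((⌊x / δ⌋ + M : ℤ) : ℝ) := by rw [h1]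
      push_cast at h2 ⊢
      exact h2
    have hval : δ * ((((⟨min ((⌊x / δ⌋ + M).toNat) (2 * M), by omega⟩ :
        Fin (2 * M + 1)).1 : ℕ) : ℝ) - M) = δ * (⌊x / δ⌋ : ℝ) := by
      simp only [hmin, hcast]; ring
    have h5 : δ * (⌊x / δ⌋ : ℝ) ≤ x := by
      have h := mul_le_mul_of_nonneg_left (Int.floor_le (x / δ)) hδ.le
      rwa [mul_div_cancel₀ x hδ.ne'] at h
    have h6 : x - δ ≤ δ * (⌊x / δ⌋ : ℝ) := by
      have h := mul_le_mul_of_nonneg_left (Int.lt_floor_add_one (x / δ)).le hδ.le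
      rw [mul_div_cancel₀ x hδ.ne', mul_add] at h
      linarith
    constructor
    · exact hval.trans_le h5
    · exact h6.trans_eq hval.symm

theorem round_pair {R δ : ℝ} (hR : 0 ≤ R) (hδ : 0 < δ) :
    ∃ (n : ℕ) (v : Fin n → Bool → ℝ) (q : (Bool → ℝ) → Fin n), Measurable q ∧
      (∀ i s, |v i s| ≤ R) ∧
      ∀ x : Bool → ℝ, (∀ s, |x s| ≤ R) → ∀ s, |v (q x) s - x s| ≤ δ := by
  obtain ⟨n, v, q, hq, -, hqv⟩ := round_down hR hδ
  refine ⟨n * n, fun i s => max (-R) (min R (v (bif s then (finProdFinEquiv.symm i).1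
    else (finProdFinEquiv.symm i).2))), fun x => finProdFinEquiv (q (x true), q (x false)),
    ?_, ?_, ?_⟩
  · have h1 : Measurable (finProdFinEquiv : Fin n × Fin n → Fin (n * n)) :=
      Measurable.of_discrete
    exact h1.comp ((hq.comp (measurable_pi_apply true)).prodMk
      (hq.comp (measurable_pi_apply false)))
  · intro i s
    rw [abs_le]
    exact ⟨le_max_left _ _, max_le (by linarith) (min_le_left _ _)⟩
  · intro x hx s
    simp only [Equiv.symm_apply_apply]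
    have key : ∀ y : ℝ, |y| ≤ R → |max (-R) (min R (v (q y))) - y| ≤ δ := by
      intro y hy
      obtain ⟨h1, h2⟩ := hqv y hy
      rw [abs_le] at hy
      have h3 : max (-R) (min R (v (q y))) = max (-R) (v (q y)) := by
        rw [min_eq_right (by linarith)]
      rw [h3, abs_le]
      constructor
      · have := le_max_right (-R) (v (q y)); linarith
      · have : max (-R) (v (q y)) ≤ y := max_le hy.1 h1
        linarith
    cases s
    · exact key _ (hx false)
    · exact key _ (hx true)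

end Crest.Agent.SGG
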