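import Mathlib
import Crest.Agent.SGG_Defs

/-!
# The joint law of the rounded variables (S0192, part G, task G15)
-/

set_option autoImplicit false

open MeasureTheory ProbabilityTheory
open Crest.ProbabilityR.Diluted

namespace Crest.Agent.SGG

/-- Joint law of the types: product by independence (`iIndepFun.comp`, `IndepFun.comp`,
`IndepFun.measure_inter_preimage_eq_mul`, `iIndepFun.measure_inter_preimage_eq_mul`,
`IdentDistrib.measure_mem_eq`). -/
theorem prob_types {p : ℕ} (hp : 0 < p) {Ω : Type} [MeasurableSpace Ω] (P : Measure Ω)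
    [IsProbabilityMeasure P] {b : Ω → ℝ} {f : Fin p → Ω → Bool → ℝ} (hb : Measurable b)
    (hf : ∀ l, Measurable (f l)) (hind : iIndepFun f P)
    (hid : ∀ l, IdentDistrib (f l) (f ⟨0, hp⟩) P P)
    (hbf : IndepFun b (fun ω => fun l => f l ω) P)
    {nB nF : ℕ} {qb : ℝ → Fin nB} (hqb : Measurable qb)
    {qf : (Bool → ℝ) → Fin nF} (hqf : Measurable qf) (i : Fin nB) (x : Fin p → Fin nF) :
    P {ω | qb (b ω) = i ∧ ∀ l, qf (f l ω) = x l} =
      P {ω | qb (b ω) = i} * ∏ l, P {ω | qf (f ⟨0, hp⟩ ω) = x l} := by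
  have h1 := hbf.measure_inter_preimage_eq_mul (qb ⁻¹' {i})
    ((fun y : Fin p → Bool → ℝ => fun l => qf (y l)) ⁻¹' {x})
    (hqb (measurableSet_singleton i))
    ((measurable_pi_lambda _ fun l => hqf.comp (measurable_pi_apply l))
      (measurableSet_singleton x))
  have e1 : b ⁻¹' (qb ⁻¹' {i}) ∩ (fun ω => fun l => f l ω) ⁻¹'
      ((fun y : Fin p → Bool → ℝ => fun l => qf (y l)) ⁻¹' {x}) =
      {ω | qb (b ω) = i ∧ ∀ l, qf (f l ω) = x l} := by
    ext ω
    simp [funext_iff]
  have e2 : b ⁻¹' (qb ⁻¹' {i}) = {ω | qb (b ω) = i} := by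
    ext ω; simp
  have e3 : (fun ω => fun l => f l ω) ⁻¹'
      ((fun y : Fin p → Bool → ℝ => fun l => qf (y l)) ⁻¹' {x}) =
      ⋂ l ∈ (Finset.univ : Finset (Fin p)), f l ⁻¹' (qf ⁻¹' {x l}) := by
    ext ω
    simp [funext_iff]
  rw [e1, e2, e3] at h1
  rw [h1]
  congr 1
  have h2 := hind.measure_inter_preimage_eq_mul Finset.univ
    (sets := fun l => qf ⁻¹' {x l}) (fun l _ => hqf (measurableSet_singleton (x l)))
  rw [h2]
  refine Finset.prod_congr rfl fun l _ => ?_
  rw [(hid l).measure_mem_eq (hqf (measurableSet_singleton (x l)))]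
  rfl

/-- Law of a random interaction which is a function of a random type with the right law. -/
theorem map_theta_eq {p : ℕ} (C : Core p) {Ω : Type} [MeasurableSpace Ω] (P : Measure Ω)
    [IsProbabilityMeasure P] {e : Ω → C.E} (he : Measurable e)
    (hlaw : ∀ x : C.E, P {ω | e ω = x} = ENNReal.ofReal (C.wE x)) :
    P.map (fun ω => C.theta (e ω)) = C.interLaw := by
  have hθ : Measurable C.theta := Measurable.of_discrete
  have h1 : P.map (fun ω => C.theta (e ω)) = (P.map e).map C.theta := by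
    rw [Measure.map_map hθ he]; rfl
  have h2 : P.map e = ∑ x : C.E, ENNReal.ofReal (C.wE x) • Measure.dirac x := by
    rw [← Measure.sum_smul_dirac (P.map e), Measure.sum_fintype]
    refine Finset.sum_congr rfl fun x _ => ?_
    rw [Measure.map_apply he (measurableSet_singleton x)]
    congr 1
    exact hlaw x
  rw [h1, h2]
  unfold Core.interLaw
  ext s hs
  rw [Measure.map_apply hθ hs]
  simp only [Measure.coe_finsetSum, Finset.sum_apply, Measure.smul_apply]
  refine Finset.sum_congr rfl fun x _ => ?_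
  rw [Measure.dirac_apply' _ (hθ hs), Measure.dirac_apply' _ hs]
  rfl

/-- Moments of the rounded variable: `v (q (b ω)) ≤ c * b ω` a.s. -/
theorem moment_round {Ω : Type} [MeasurableSpace Ω] (P : Measure Ω)
    [IsProbabilityMeasure P] {b : Ω → ℝ} (hb : Measurable b) {nB : ℕ} {v : Fin nB → ℝ}
    {q : Ω → Fin nB} (hq : Measurable q) {c : ℝ} (hc : 0 ≤ c)
    (hle : ∀ᵐ ω ∂P, v (q ω) ≤ c * b ω)
    (hmom : ∀ n : ℕ, 1 ≤ n → Integrable (fun ω => (-b ω) ^ n) P ∧ 0 ≤ ∫ ω, (-b ω) ^ n ∂P)
    (n : ℕ) (hn : 1 ≤ n) :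
    0 ≤ ∑ i, (P.real {ω | q ω = i}) * (-v i) ^ n := by
  rcases Nat.even_or_odd n with he | ho
  · exact Finset.sum_nonneg fun i _ => mul_nonneg measureReal_nonneg (he.pow_nonneg _)
  · have hg : Measurable (fun i : Fin nB => (-v i) ^ n) := Measurable.of_discrete
    have hp : IsProbabilityMeasure (P.map q) := Measure.isProbabilityMeasure_map hq.aemeasurable
    have hint : Integrable (fun i : Fin nB => (-v i) ^ n) (P.map q) := Integrable.of_finite
    have h1 : ∑ i, (P.real {ω | q ω = i}) * (-v i) ^ n = ∫ ω, (-v (q ω)) ^ n ∂P := by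
      have h2 := integral_fintype (μ := P.map q) hint
      rw [integral_map hq.aemeasurable hg.aestronglyMeasurable] at h2
      rw [h2]
      refine Finset.sum_congr rfl fun i _ => ?_
      rw [smul_eq_mul]
      congr 1
      rw [map_measureReal_apply hq (measurableSet_singleton i)]
      rfl
    have h3 : Integrable (fun ω => (-v (q ω)) ^ n) P := by
      have := (integrable_map_measure hg.aestronglyMeasurable hq.aemeasurable).1 hint
      exact this
    rw [h1]
    obtain ⟨hi, hnn⟩ := hmom n hn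
    have h4 : 0 ≤ ∫ ω, c ^ n * (-b ω) ^ n ∂P := by
      rw [integral_const_mul]
      exact mul_nonneg (pow_nonneg hc n) hnn
    refine h4.trans (integral_mono_ae (hi.const_mul _) h3 ?_)
    filter_upwards [hle] with ω hω
    change c ^ n * (-b ω) ^ n ≤ (-v (q ω)) ^ n
    rw [← mul_pow]
    exact ho.strictMono_pow.monotone (by linarith)

end Crest.Agent.SGG
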