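import Mathlib
import Crest.Agent.SGG_Defs
import Crest.Agent.SGG_MuB
import Crest.Agent.SGG_MuC
import Crest.Agent.SGG_MuD

/-!
# Rounding a factorised law to a core model (S0192, part G, task G16)

Case 1 (`b ∏ f = 0` a.s.): the core with `b = 0` (all types `Fin 1`), `Θ' = 0`.
Case 2: bounds `B, F`. Given `c < 1` choose `δ` small; `qb, vb` from `round_down` for `R = B`
applied to `c * b`; `qf, vf` from `round_pair` with `R = F`. Then
`|vb ∏ vf| ≤ (c B + δ) F^p`... (use the values actually taken: replace `vb i` by its clamp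
to `[-(c B + δ), c B + δ]`, or apply `round_down` with `R = c * B`), `≤ c + δ F^p =: q0 < 1`;
on `[-q0, q0]` the function `log (1 + ·)` is Lipschitz, and
`|vb ∏ vf - c b ∏ f| ≤ δ F^p + p δ F^(p-1) B'` is small.
-/

set_option autoImplicit false

open MeasureTheory ProbabilityTheory
open Crest.ProbabilityR.Diluted

namespace Crest.Agent.SGG

private theorem MuE_prod_abs_le {n : ℕ} (f : Fin n → ℝ) {G : ℝ} (hf : ∀ l, |f l| ≤ G) :
    |∏ l, f l| ≤ G ^ n := by
  rw [Finset.abs_prod]
  calc ∏ l, |f l| ≤ ∏ _l : Fin n, G :=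
        Finset.prod_le_prod (fun i _ => abs_nonneg _) (fun i _ => hf i)
    _ = G ^ n := by simp

private theorem MuE_prod_sub_le {n : ℕ} (f f' : Fin n → ℝ) {G δ : ℝ} (hG : 1 ≤ G) (hδ : 0 ≤ δ)
    (hf : ∀ l, |f l| ≤ G) (hf' : ∀ l, |f' l| ≤ G) (hd : ∀ l, |f' l - f l| ≤ δ) :
    |∏ l, f' l - ∏ l, f l| ≤ n * δ * G ^ n := by
  have hG0 : 0 ≤ G := by linarith
  induction n with
  | zero => simp
  | succ n ih =>
    rw [Fin.prod_univ_succ, Fin.prod_univ_succ]
    have h1 : f' 0 * ∏ i : Fin n, f' i.succ - f 0 * ∏ i : Fin n, f i.succ =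
        (f' 0 - f 0) * ∏ i : Fin n, f' i.succ +
          f 0 * (∏ i : Fin n, f' i.succ - ∏ i : Fin n, f i.succ) := by ring
    rw [h1]
    have h2 := ih (fun i => f i.succ) (fun i => f' i.succ) (fun i => hf _) (fun i => hf' _)
      (fun i => hd _)
    have h3 : |∏ i : Fin n, f' i.succ| ≤ G ^ n := MuE_prod_abs_le _ (fun i => hf' _)
    have hGn : 0 ≤ G ^ n := pow_nonneg hG0 n
    calc |(f' 0 - f 0) * ∏ i : Fin n, f' i.succ +
          f 0 * (∏ i : Fin n, f' i.succ - ∏ i : Fin n, f i.succ)|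
        ≤ |(f' 0 - f 0) * ∏ i : Fin n, f' i.succ| +
          |f 0 * (∏ i : Fin n, f' i.succ - ∏ i : Fin n, f i.succ)| := abs_add_le _ _
      _ = |f' 0 - f 0| * |∏ i : Fin n, f' i.succ| +
          |f 0| * |∏ i : Fin n, f' i.succ - ∏ i : Fin n, f i.succ| := by
            rw [abs_mul, abs_mul]
      _ ≤ δ * G ^ n + G * (n * δ * G ^ n) := by
            apply add_le_add
            · exact mul_le_mul (hd 0) h3 (abs_nonneg _) hδ
            · exact mul_le_mul (hf 0) h2 (abs_nonneg _) hG0
      _ ≤ δ * G ^ (n + 1) + G * (n * δ * G ^ n) := by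
            have : G ^ n ≤ G ^ (n + 1) := pow_le_pow_right₀ hG (Nat.le_succ n)
            nlinarith [mul_le_mul_of_nonneg_left this hδ]
      _ = ((n + 1 : ℕ) : ℝ) * δ * G ^ (n + 1) := by push_cast; ring

private theorem MuE_log_lip {q x y : ℝ} (hq : q < 1) (hx : |x| ≤ q) (hy : |y| ≤ q) :
    |Real.log (1 + x) - Real.log (1 + y)| ≤ |x - y| / (1 - q) := by
  have key : ∀ a b : ℝ, |a| ≤ q → |b| ≤ q →
      Real.log (1 + a) - Real.log (1 + b) ≤ |a - b| / (1 - q) := by
    intro a b ha hb
    have ha' := abs_le.mp ha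
    have hb' := abs_le.mp hb
    have ha0 : 0 < 1 + a := by linarith
    have hb0 : 0 < 1 + b := by linarith
    rw [← Real.log_div ha0.ne' hb0.ne']
    have h1 : Real.log ((1 + a) / (1 + b)) ≤ (1 + a) / (1 + b) - 1 :=
      Real.log_le_sub_one_of_pos (div_pos ha0 hb0)
    have h2 : (1 + a) / (1 + b) - 1 = (a - b) / (1 + b) := by
      field_simp; ring
    rw [h2] at h1
    refine h1.trans ?_
    calc (a - b) / (1 + b) ≤ |a - b| / (1 + b) := by
          apply div_le_div_of_nonneg_right (le_abs_self _) hb0.le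
      _ ≤ |a - b| / (1 - q) := by
          apply div_le_div_of_nonneg_left (abs_nonneg _) (by linarith) (by linarith)
  rw [abs_le]
  constructor
  · have := key y x hy hx
    rw [abs_sub_comm] at this
    linarith
  · exact key x y hx hy

/-- For `δ → 0` the rounding errors vanish: choice of `δ`. -/
theorem exists_delta {p : ℕ} {B F c : ℝ} (hB : 0 ≤ B) (hF : 0 ≤ F) (hBF : B * F ^ p ≤ 1)
    (hc0 : 0 < c) (hc1 : c < 1) {ε : ℝ} (hε : 0 < ε) :
    ∃ (δ q0 : ℝ), 0 < δ ∧ 0 ≤ q0 ∧ q0 < 1 ∧ (c * B + δ) * F ^ p ≤ q0 ∧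
      ∀ (b b' : ℝ) (f f' : Fin p → ℝ), |b| ≤ B → (∀ l, |f l| ≤ F) → (∀ l, |f' l| ≤ F) →
        |b' - c * b| ≤ δ → (∀ l, |f' l - f l| ≤ δ) →
        |Real.log (1 + b' * ∏ l, f' l) - Real.log (1 + c * (b * ∏ l, f l))| ≤ ε := by
  set q0 : ℝ := (1 + c) / 2 with hq0
  have hq1 : q0 < 1 := by rw [hq0]; linarith
  have hq00 : 0 ≤ q0 := by rw [hq0]; linarith
  set G : ℝ := max F 1 with hG
  have hG1 : 1 ≤ G := le_max_right _ _
  have hFG : F ≤ G := le_max_left _ _
  have hG0 : 0 ≤ G := by linarith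
  have hFp : 0 ≤ F ^ p := pow_nonneg hF p
  have hGp : 0 ≤ G ^ p := pow_nonneg hG0 p
  -- total constant
  set K : ℝ := F ^ p + B * (p * G ^ p) + 1 with hK
  have hK0 : 0 < K := by
    have : 0 ≤ B * (p * G ^ p) := by positivity
    rw [hK]; linarith
  have hKF : F ^ p ≤ K := by
    have : 0 ≤ B * (p * G ^ p) := by positivity
    rw [hK]; linarith
  set δ : ℝ := min ((1 - c) / 2 / K) (ε * (1 - q0) / K) with hδ
  have hδ0 : 0 < δ := by
    rw [hδ]
    apply lt_min
    · apply div_pos _ hK0; linarith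
    · apply div_pos _ hK0
      apply mul_pos hε; linarith
  have hδ1 : δ * K ≤ (1 - c) / 2 := by
    have : δ ≤ (1 - c) / 2 / K := min_le_left _ _
    rwa [le_div_iff₀ hK0] at this
  have hδ2 : δ * K ≤ ε * (1 - q0) := by
    have : δ ≤ ε * (1 - q0) / K := min_le_right _ _
    rwa [le_div_iff₀ hK0] at this
  have hmain : (c * B + δ) * F ^ p ≤ q0 := by
    have h1 : δ * F ^ p ≤ δ * K := mul_le_mul_of_nonneg_left hKF hδ0.le
    have h2 : c * (B * F ^ p) ≤ c * 1 := mul_le_mul_of_nonneg_left hBF hc0.le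
    have h3 : (c * B + δ) * F ^ p = c * (B * F ^ p) + δ * F ^ p := by ring
    rw [h3, hq0]; linarith
  refine ⟨δ, q0, hδ0, hq00, hq1, hmain, ?_⟩
  intro b b' f f' hb hf hf' hbd hfd
  have hcb : |c * b| ≤ c * B := by
    rw [abs_mul, abs_of_pos hc0]; exact mul_le_mul_of_nonneg_left hb hc0.le
  have hb' : |b'| ≤ c * B + δ := by
    have : |b'| ≤ |b' - c * b| + |c * b| := by
      have := abs_add_le (b' - c * b) (c * b)
      simpa using this
    linarith
  have hPf : |∏ l, f l| ≤ F ^ p := MuE_prod_abs_le f hf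
  have hPf' : |∏ l, f' l| ≤ F ^ p := MuE_prod_abs_le f' hf'
  have hx : |b' * ∏ l, f' l| ≤ q0 := by
    rw [abs_mul]
    refine le_trans ?_ hmain
    apply mul_le_mul hb' hPf' (abs_nonneg _)
    have : 0 ≤ c * B := by positivity
    linarith
  have hy : |c * (b * ∏ l, f l)| ≤ q0 := by
    rw [← mul_assoc, abs_mul]
    have : |c * b| * |∏ l, f l| ≤ (c * B) * F ^ p :=
      mul_le_mul hcb hPf (abs_nonneg _) (by positivity)
    have h3 : (c * B + δ) * F ^ p = c * B * F ^ p + δ * F ^ p := by ring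
    have h4 : 0 ≤ δ * F ^ p := by positivity
    linarith
  refine (MuE_log_lip hq1 hx hy).trans ?_
  have h1q : 0 < 1 - q0 := by linarith
  rw [div_le_iff₀ h1q]
  refine le_trans ?_ hδ2
  have hdiff : b' * ∏ l, f' l - c * (b * ∏ l, f l) =
      (b' - c * b) * ∏ l, f' l + (c * b) * (∏ l, f' l - ∏ l, f l) := by ring
  rw [hdiff]
  have hpd : |∏ l, f' l - ∏ l, f l| ≤ p * δ * G ^ p :=
    MuE_prod_sub_le f f' hG1 hδ0.le (fun l => (hf l).trans hFG) (fun l => (hf' l).trans hFG) hfd
  calc |(b' - c * b) * ∏ l, f' l + (c * b) * (∏ l, f' l - ∏ l, f l)|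
      ≤ |(b' - c * b) * ∏ l, f' l| + |(c * b) * (∏ l, f' l - ∏ l, f l)| := abs_add_le _ _
    _ = |b' - c * b| * |∏ l, f' l| + |c * b| * |∏ l, f' l - ∏ l, f l| := by
        rw [abs_mul, abs_mul]
    _ ≤ δ * F ^ p + B * (p * δ * G ^ p) := by
        apply add_le_add
        · exact mul_le_mul hbd hPf' (abs_nonneg _) hδ0.le
        · apply mul_le_mul _ hpd (abs_nonneg _) hB
          refine hcb.trans ?_
          nlinarith
    _ ≤ δ * K := by
        rw [hK]; nlinarith

theorem round_core {p : ℕ} (hp : 0 < p) {Ω : Type} [MeasurableSpace Ω] (P : Measure Ω)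
    [IsProbabilityMeasure P] {b : Ω → ℝ} {f : Fin p → Ω → Bool → ℝ} (hb : Measurable b)
    (hf : ∀ l, Measurable (f l)) (hind : iIndepFun f P)
    (hid : ∀ l, IdentDistrib (f l) (f ⟨0, hp⟩) P P)
    (hbf : IndepFun b (fun ω => fun l => f l ω) P)
    (hlt : ∀ᵐ ω ∂P, ∀ s : Fin p → Bool, |b ω * ∏ l, f l ω (s l)| < 1)
    (hmom : ∀ n : ℕ, 1 ≤ n → Integrable (fun ω => (-b ω) ^ n) P ∧ 0 ≤ ∫ ω, (-b ω) ^ n ∂P)
    {c : ℝ} (hc0 : 0 < c) (hc1 : c < 1) {ε : ℝ} (hε : 0 < ε) :
    ∃ (C : Core p) (Θ' : Ω → Inter p), Measurable Θ' ∧ P.map Θ' = C.interLaw ∧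
      ∀ᵐ ω ∂P, ∀ s : Fin p → Bool,
        |Θ' ω s - Real.log (1 + c * (b ω * ∏ l, f l ω (s l)))| ≤ ε := by
  rcases bounds_or_zero hp P hb hf hind hid hbf hlt with h0 | ⟨B, F, hB, hF, hBF, hbB, hfF⟩
  · -- the zero case
    let C : Core p :=
      { nB := 1
        nF := 1
        nH := 1
        wB := fun _ => 1
        wF := fun _ => 1
        wH := fun _ => 1
        b := fun _ => 0
        f := fun _ _ => 0
        h := fun _ => 0
        q0 := 0
        wB_nonneg := fun _ => zero_le_one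
        wF_nonneg := fun _ => zero_le_one
        wH_nonneg := fun _ => zero_le_one
        wB_sum := by simp
        wF_sum := by simp
        wH_sum := by simp
        q0_nonneg := le_refl _
        q0_lt := zero_lt_one
        bound := by intro i x s; simp
        mom := by
          intro n hn
          have : n ≠ 0 := by omega
          simp [this] }
    let e0 : C.E := (⟨0, Nat.zero_lt_one⟩, fun _ => ⟨0, Nat.zero_lt_one⟩)
    have he0 : ∀ x : C.E, x = e0 := by
      rintro ⟨x1, x2⟩
      refine Prod.ext ?_ ?_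
      · exact Subsingleton.elim (α := Fin 1) _ _
      · funext l; exact Subsingleton.elim (α := Fin 1) _ _
    refine ⟨C, fun _ => C.theta e0, measurable_const, ?_, ?_⟩
    · refine map_theta_eq C P (e := fun _ => e0) measurable_const ?_
      intro x
      rw [he0 x]
      simp [Core.wE, C]
    · filter_upwards [h0] with ω hω s
      rw [hω s]
      simp [Core.theta, C, hε.le]
  · obtain ⟨δ, q0, hδ, hq00, hq01, hq, hmain⟩ := exists_delta (p := p) hB hF hBF hc0 hc1 hε
    have hcB : 0 ≤ c * B := by positivity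
    obtain ⟨nB, vb, qb, hqb, hvb, hqv⟩ := round_down (R := c * B) (δ := δ) hcB hδ
    obtain ⟨nF, vf, qf, hqf, hvf, hqvf⟩ := round_pair (R := F) (δ := δ) hF hδ
    set qb' : ℝ → Fin nB := fun x => qb (c * x) with hqb'
    have hqb'm : Measurable qb' := hqb.comp (measurable_const.mul measurable_id)
    have hsumB : ∑ i, P.real {ω | qb' (b ω) = i} = 1 := by
      have hm : Measurable (fun ω => qb' (b ω)) := hqb'm.comp hb
      have h1 : ∀ i, P.real {ω | qb' (b ω) = i} = (P.map (fun ω => qb' (b ω))).real {i} := by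
        intro i
        rw [map_measureReal_apply hm (measurableSet_singleton i)]
        rfl
      have hpm : IsProbabilityMeasure (P.map (fun ω => qb' (b ω))) :=
        Measure.isProbabilityMeasure_map hm.aemeasurable
      rw [Finset.sum_congr rfl (fun i _ => h1 i)]
      have := sum_measureReal_singleton (μ := P.map (fun ω => qb' (b ω))) (Finset.univ)
      rw [this]
      simp
    have hsumF : ∑ i, P.real {ω | qf (f ⟨0, hp⟩ ω) = i} = 1 := by
      have hm : Measurable (fun ω => qf (f ⟨0, hp⟩ ω)) := hqf.comp (hf _)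
      have h1 : ∀ i, P.real {ω | qf (f ⟨0, hp⟩ ω) = i} =
          (P.map (fun ω => qf (f ⟨0, hp⟩ ω))).real {i} := by
        intro i
        rw [map_measureReal_apply hm (measurableSet_singleton i)]
        rfl
      have hpm : IsProbabilityMeasure (P.map (fun ω => qf (f ⟨0, hp⟩ ω))) :=
        Measure.isProbabilityMeasure_map hm.aemeasurable
      rw [Finset.sum_congr rfl (fun i _ => h1 i)]
      have := sum_measureReal_singleton (μ := P.map (fun ω => qf (f ⟨0, hp⟩ ω))) (Finset.univ)
      rw [this]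
      simp
    have hle : ∀ᵐ ω ∂P, vb (qb' (b ω)) ≤ c * b ω := by
      filter_upwards [hbB] with ω hω
      have : |c * b ω| ≤ c * B := by
        rw [abs_mul, abs_of_pos hc0]; exact mul_le_mul_of_nonneg_left hω hc0.le
      exact (hqv _ this).1
    let C : Core p :=
      { nB := nB
        nF := nF
        nH := 1
        wB := fun i => P.real {ω | qb' (b ω) = i}
        wF := fun i => P.real {ω | qf (f ⟨0, hp⟩ ω) = i}
        wH := fun _ => 1
        b := vb
        f := vf
        h := fun _ => 0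
        q0 := q0
        wB_nonneg := fun _ => measureReal_nonneg
        wF_nonneg := fun _ => measureReal_nonneg
        wH_nonneg := fun _ => zero_le_one
        wB_sum := hsumB
        wF_sum := hsumF
        wH_sum := by simp
        q0_nonneg := hq00
        q0_lt := hq01
        bound := by
          intro i x s
          refine le_trans ?_ hq
          rw [abs_mul]
          apply mul_le_mul (hvb i) _ (abs_nonneg _) (by linarith)
          exact MuE_prod_abs_le (fun l => vf (x l) (s l)) (fun l => hvf _ _)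
        mom := fun n hn => moment_round P hb (hqb'm.comp hb) hc0.le hle hmom n hn }
    let e : Ω → C.E := fun ω => (qb' (b ω), fun l => qf (f l ω))
    have hem : Measurable e := by
      refine Measurable.prodMk (hqb'm.comp hb) ?_
      exact measurable_pi_lambda _ (fun l => hqf.comp (hf l))
    refine ⟨C, fun ω => C.theta (e ω), ?_, ?_, ?_⟩
    · exact (measurable_of_countable C.theta).comp hem
    · refine map_theta_eq C P hem ?_
      intro x
      have h1 : {ω | e ω = x} = {ω | qb' (b ω) = x.1 ∧ ∀ l, qf (f l ω) = x.2 l} := by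
        ext ω
        simp only [Set.mem_ofPred_eq, e]
        rw [Prod.ext_iff]
        simp only [funext_iff]
      rw [h1, prob_types hp P hb hf hind hid hbf hqb'm hqf x.1 x.2]
      have h2 : C.wE x = P.real {ω | qb' (b ω) = x.1} *
          ∏ l, P.real {ω | qf (f ⟨0, hp⟩ ω) = x.2 l} := rfl
      rw [h2, ENNReal.ofReal_mul measureReal_nonneg,
        ENNReal.ofReal_prod_of_nonneg (fun _ _ => measureReal_nonneg)]
      rw [ofReal_measureReal]
      congr 1
      exact Finset.prod_congr rfl (fun l _ => (ofReal_measureReal).symm)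
    · filter_upwards [hbB, hfF] with ω hω hfω s
      have hcb : |c * b ω| ≤ c * B := by
        rw [abs_mul, abs_of_pos hc0]; exact mul_le_mul_of_nonneg_left hω hc0.le
      obtain ⟨h1, h2⟩ := hqv _ hcb
      have := hmain (b ω) (vb (qb' (b ω))) (fun l => f l ω (s l))
        (fun l => vf (qf (f l ω)) (s l)) hω (fun l => hfω l (s l)) (fun l => hvf _ _)
        (by
          rw [abs_le]
          constructor
          · simp only [hqb']; linarith
          · simp only [hqb']; linarith)
        (fun l => hqvf _ (hfω l) (s l))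
      exact this

end Crest.Agent.SGG
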