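import Mathlib
import Crest.Agent.SGG_Defs
import Crest.Agent.SGG_PF
import Crest.Agent.SGG_Eval
import Crest.Agent.SGG_MuA
import Crest.Agent.SGG_MuE

/-!
# Approximation of the interaction law by a core model (S0192, part G)
-/

set_option autoImplicit false

open MeasureTheory ProbabilityTheory
open Crest.ProbabilityR.Diluted

namespace Crest.Agent.SGG

variable {p : ℕ}

theorem measurable_ctr : Measurable (fun θ : Inter p => ctr θ) := by
  unfold ctr
  refine measurable_pi_lambda _ fun s => ?_
  exact (measurable_pi_apply s).sub measurable_avgI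

theorem approx_mu (hp : 0 < p) (μ : Measure (Inter p)) [IsProbabilityMeasure μ]
    (hμ : Integrable (fun θ => supNorm θ) μ) (hfac : HasFactorization p μ) {ε : ℝ} (hε : 0 < ε) :
    ∃ (Ω : Type) (_ : MeasurableSpace Ω) (P : Measure Ω) (_ : IsProbabilityMeasure P)
      (Θ Θ' : Ω → Inter p) (c : Ω → ℝ) (C : Core p), Measurable Θ ∧ Measurable Θ' ∧
      Measurable c ∧ P.map Θ = μ ∧ P.map Θ' = C.interLaw ∧ Integrable c P ∧
      Integrable (fun ω => supNorm (Θ ω)) P ∧ Integrable (fun ω => supNorm (Θ' ω)) P ∧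
      ∫ ω, supNorm (fun s => Θ ω s - (Θ' ω s + c ω)) ∂P ≤ ε := by
  obtain ⟨Ω, mΩ, P, hP, a, b, f, ha, hb, hf, hind, hid, hbf, hlt, hmom, hmap⟩ := hfac
  -- the interaction
  set g : Ω → Inter p := fun ω s => b ω * ∏ l, f l ω (s l) with hg_def
  have hg : Measurable g := by
    refine measurable_pi_lambda _ fun s => hb.mul (Finset.measurable_fun_prod _ fun l _ => ?_)
    exact (measurable_pi_apply (s l)).comp (hf l)
  set Θ : Ω → Inter p := fun ω s => Real.log (a ω * (1 + g ω s)) with hΘ_def
  have hΘ : Measurable Θ := by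
    refine measurable_pi_lambda _ fun s => Real.measurable_log.comp (ha.mul ?_)
    exact measurable_const.add ((measurable_pi_apply s).comp hg)
  have hi : Integrable (fun ω => supNorm (Θ ω)) P := by
    have : Integrable (fun θ => supNorm θ) (P.map Θ) := by
      rw [show P.map Θ = μ from hmap]
      exact hμ
    exact (integrable_map_measure measurable_supNorm.aestronglyMeasurable hΘ.aemeasurable).1 this
  have hlt' : ∀ᵐ ω ∂P, ∀ s, |g ω s| < 1 := hlt.mono fun ω h => h.2
  have hpos : ∀ᵐ ω ∂P, 0 < a ω := hlt.mono fun ω h => h.1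
  obtain ⟨c0, hc0, hc1, hci, hcle⟩ := exists_c P hg hlt' hpos hi (half_pos hε)
  obtain ⟨C, Θ', hΘ', hΘ'map, hΘ'close⟩ := round_core hp P hb hf hind hid hbf hlt' hmom hc0 hc1
    (show 0 < ε / 4 by positivity)
  have hi' : Integrable (fun ω => supNorm (Θ' ω)) P := by
    have : Integrable (fun θ => supNorm θ) (P.map Θ') := by
      rw [hΘ'map]
      exact C.integrable_supNorm
    exact (integrable_map_measure measurable_supNorm.aestronglyMeasurable hΘ'.aemeasurable).1 this
  have hA : Integrable (fun ω => avgI (Θ ω)) P := by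
    refine hi.mono' (measurable_avgI.comp hΘ).aestronglyMeasurable
      (Filter.Eventually.of_forall fun ω => ?_)
    rw [Real.norm_eq_abs]
    exact abs_avgI _
  have hA' : Integrable (fun ω => avgI (Θ' ω)) P := by
    refine hi'.mono' (measurable_avgI.comp hΘ').aestronglyMeasurable
      (Filter.Eventually.of_forall fun ω => ?_)
    rw [Real.norm_eq_abs]
    exact abs_avgI _
  refine ⟨Ω, mΩ, P, hP, Θ, Θ', fun ω => avgI (Θ ω) - avgI (Θ' ω), C, hΘ, hΘ',
    (measurable_avgI.comp hΘ).sub (measurable_avgI.comp hΘ'), hmap, hΘ'map, hA.sub hA', hi, hi', ?_⟩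
  have hbound : ∀ᵐ ω ∂P, supNorm (fun s => Θ ω s - (Θ' ω s + (avgI (Θ ω) - avgI (Θ' ω)))) ≤
      supNorm (fun s => ctr (fun s => Real.log (1 + g ω s)) s -
        ctr (fun s => Real.log (1 + c0 * g ω s)) s) + ε / 2 := by
    filter_upwards [hlt', hpos, hΘ'close] with ω h1 h2 h3
    have e1 : ctr (Θ ω) = ctr (fun s => Real.log (1 + g ω s)) := by
      have : Θ ω = fun s => (fun s => Real.log (1 + g ω s)) s + Real.log (a ω) := by
        funext s
        simp only [hΘ_def]
        rw [Real.log_mul h2.ne' (by have := (abs_lt.1 (h1 s)).1; linarith), add_comm]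
      rw [this, ctr_add_const]
    have e2 : (fun s => Θ ω s - (Θ' ω s + (avgI (Θ ω) - avgI (Θ' ω)))) =
        fun s => (fun s => ctr (fun s => Real.log (1 + g ω s)) s -
          ctr (fun s => Real.log (1 + c0 * g ω s)) s) s +
          (fun s => ctr (fun s => Real.log (1 + c0 * g ω s)) s - ctr (Θ' ω) s) s := by
      funext s
      simp only
      rw [← e1]
      simp only [ctr]
      ring
    rw [e2]
    refine (supNorm_add_le _ _).trans (add_le_add_right ?_ _)
    refine (supNorm_ctr_sub _ _).trans ?_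
    have : supNorm (fun s => Real.log (1 + c0 * g ω s) - Θ' ω s) ≤ ε / 4 := by
      refine supNorm_le fun s => ?_
      rw [abs_sub_comm]
      exact h3 s
    linarith
  have hfin : ∫ ω, supNorm (fun s => Θ ω s - (Θ' ω s + (avgI (Θ ω) - avgI (Θ' ω)))) ∂P ≤
      ∫ ω, (supNorm (fun s => ctr (fun s => Real.log (1 + g ω s)) s -
        ctr (fun s => Real.log (1 + c0 * g ω s)) s) + ε / 2) ∂P :=
    integral_mono_of_nonneg (Filter.Eventually.of_forall fun _ => supNorm_nonneg _)
      (hci.add (integrable_const _)) hbound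
  rw [integral_add hci (integrable_const _)] at hfin
  simp only [integral_const, probReal_univ, smul_eq_mul, one_mul] at hfin
  linarith

end Crest.Agent.SGG
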