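import Mathlib

/-!
# Approximation of the field law (S0192, part G, task G17)

Take `H' x = δ ⌊x/δ⌋` for `|x| ≤ R` and `0` for `|x| > R`: `∫ |x - H' x| ≤ δ + ∫_{|x|>R} |x|`.
(Or `SimpleFunc.approxOn` / `Integrable` density of simple functions.) The weights are
`w i = ν (q ⁻¹ {i})`.
-/

set_option autoImplicit false

open MeasureTheory

namespace Crest.Agent.SGG

theorem approx_nu (ν : Measure ℝ) [IsProbabilityMeasure ν] (hν : Integrable (fun x : ℝ => x) ν)
    {ε : ℝ} (hε : 0 < ε) :
    ∃ (n : ℕ) (w h : Fin n → ℝ) (H' : ℝ → ℝ), Measurable H' ∧ (∀ i, 0 ≤ w i) ∧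
      (∑ i, w i = 1) ∧
      ν.map H' = ∑ i : Fin n, ENNReal.ofReal (w i) • Measure.dirac (h i) ∧
      Integrable H' ν ∧ ∫ x, |x - H' x| ∂ν ≤ ε := by
  have hmem : MemLp (fun x : ℝ => x) 1 ν := memLp_one_iff_integrable.2 hν
  obtain ⟨g, hg, hgm⟩ := hmem.exists_simpleFunc_eLpNorm_sub_lt (by simp)
    (ε := ENNReal.ofReal ε) (by simpa using hε)
  have hgi : Integrable g ν := memLp_one_iff_integrable.1 hgm
  set e := g.range.equivFin with he
  have hsum : ∀ F : ℝ → ENNReal, ∑ i : Fin g.range.card, F ((e.symm i : g.range) : ℝ) =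
      ∑ y ∈ g.range, F y := by
    intro F
    rw [← Finset.sum_coe_sort g.range F]
    exact Equiv.sum_comp e.symm (fun y : g.range => F (y : ℝ))
  have hfin : ∀ y : ℝ, ν (g ⁻¹' {y}) ≠ ⊤ := fun y => measure_ne_top _ _
  refine ⟨g.range.card, fun i => (ν (g ⁻¹' {((e.symm i : g.range) : ℝ)})).toReal,
    fun i => ((e.symm i : g.range) : ℝ), g, g.measurable, fun i => ENNReal.toReal_nonneg, ?_, ?_,
    hgi, ?_⟩
  · rw [← ENNReal.toReal_sum (fun i _ => hfin _), hsum (fun y => ν (g ⁻¹' {y})),
      SimpleFunc.sum_range_measure_preimage_singleton]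
    simp
  · ext s hs
    rw [Measure.map_apply g.measurable hs, Measure.finsetSum_apply]
    have h1 : ∀ i : Fin g.range.card,
        (ENNReal.ofReal (ν (g ⁻¹' {((e.symm i : g.range) : ℝ)})).toReal •
          Measure.dirac ((e.symm i : g.range) : ℝ)) s =
        (ν.restrict (g ⁻¹' s)) (g ⁻¹' {((e.symm i : g.range) : ℝ)}) := by
      intro i
      generalize ((e.symm i : g.range) : ℝ) = y
      rw [Measure.smul_apply, ENNReal.ofReal_toReal (hfin y), Measure.dirac_apply' _ hs,
        Measure.restrict_apply (g.measurableSet_fiber y)]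
      by_cases hy : y ∈ s
      · rw [Set.indicator_of_mem hy]
        have : g ⁻¹' {y} ∩ g ⁻¹' s = g ⁻¹' {y} := by
          ext x
          simp only [Set.mem_inter_iff, Set.mem_preimage, Set.mem_singleton_iff]
          constructor
          · rintro ⟨h, -⟩
            exact h
          · intro h
            exact ⟨h, h ▸ hy⟩
        rw [this]
        simp
      · rw [Set.indicator_of_notMem hy]
        have : g ⁻¹' {y} ∩ g ⁻¹' s = ∅ := by
          ext x
          simp only [Set.mem_inter_iff, Set.mem_preimage, Set.mem_singleton_iff,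
            Set.mem_empty_iff_false, iff_false, not_and]
          intro h
          rw [h]
          exact hy
        rw [this]
        simp
    rw [Finset.sum_congr rfl fun i _ => h1 i, hsum (fun y => (ν.restrict (g ⁻¹' s)) (g ⁻¹' {y})),
      SimpleFunc.sum_range_measure_preimage_singleton]
    simp
  · have h1 : ∫ x, |x - g x| ∂ν = (eLpNorm ((fun x : ℝ => x) - ⇑g) 1 ν).toReal := by
      rw [eLpNorm_one_eq_lintegral_enorm, integral_eq_lintegral_of_nonneg_ae]
      · congr 1
        refine lintegral_congr fun x => ?_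
        rw [← Real.norm_eq_abs, ofReal_norm]
        rfl
      · exact Filter.Eventually.of_forall fun x => abs_nonneg _
      · exact ((hν.sub hgi).abs).1
    rw [h1]
    exact ENNReal.toReal_le_of_le_ofReal hε.le hg.le

end Crest.Agent.SGG
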