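import Mathlib
import Crest.Agent.SGG_Defs
import Crest.Agent.SGG_Step

/-!
# Realised chain trials (S0192, part G, task G9)

`hist g u d` is the list of the first `d` states (most recent first) of the chain driven by the
uniforms `u`; `g H x` is the sampler: state after history `H` with uniform `x`.

Proof of `chain_eval`. Show, for `d ≤ r`, that the fold of `pmStep (m j) j.succ` over the last
`r - d` levels `j = d, …, r-1` (i.e. `pmFold m (List.drop d (List.finRange r))`) of
`W (fun ω => hist g (u' ω) (r+1))` is `chainT κ (List.drop d (List.ofFn m)) W (fun ω => hist g (u ω) (d+1))`: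
descending induction on `d`; in the step, `resamp d.succ u v` does not change `hist g _ (d+1)`,
`hist g _ (d+2) = g (hist g _ (d+1)) (v ω) :: hist g _ (d+1)`, and the integral over `v` of a
function of the states `fun ω => g (H ω) (v ω)` is the finite sum (image of `Measure.pi`, finite
type, `Measure.pi_singleton`). Level `0` in the same way, using that `log (...)` depends only on
the level `0` uniforms.
-/

set_option autoImplicit false

open MeasureTheory
open Crest.ProbabilityR.Diluted

namespace Crest.Agent.SGG

/-- History after `d` levels (most recent state first). -/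
noncomputable def hist {n r : ℕ} (g : List (Fin n) → unitInterval → Fin n)
    (u : Fin (r + 1) → unitInterval) : ℕ → List (Fin n)
  | 0 => []
  | d + 1 => if h : d < r + 1 then g (hist g u d) (u ⟨d, h⟩) :: hist g u d else hist g u d

theorem hist_zero {n r : ℕ} (g : List (Fin n) → unitInterval → Fin n)
    (u : Fin (r + 1) → unitInterval) : hist g u 0 = [] := by rw [hist]

theorem hist_succ {n r : ℕ} (g : List (Fin n) → unitInterval → Fin n)
    (u : Fin (r + 1) → unitInterval) {d : ℕ} (h : d < r + 1) :
    hist g u (d + 1) = g (hist g u d) (u ⟨d, h⟩) :: hist g u d := by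
  rw [hist, dif_pos h]

theorem chain_hist_ge {n r : ℕ} (g : List (Fin n) → unitInterval → Fin n)
    (u : Fin (r + 1) → unitInterval) {d : ℕ} (h : ¬ d < r + 1) :
    hist g u (d + 1) = hist g u d := by
  rw [hist, dif_neg h]

/-- measurability of the sampled states -/
theorem chain_meas_sampler {L : Type} [Fintype L] {n : ℕ}
    (g : List (Fin n) → unitInterval → Fin n) (hg : ∀ H, Measurable (g H))
    (H : L → List (Fin n)) :
    Measurable (fun v : L → unitInterval => fun ω => g (H ω) (v ω)) :=
  measurable_pi_lambda _ fun ω => (hg (H ω)).comp (measurable_pi_apply ω)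

/-- The integral over fresh uniforms of a function of the sampled states. -/
theorem integral_sampler {L : Type} [Fintype L] [DecidableEq L] {n : ℕ}
    (κ : List (Fin n) → Fin n → ℝ) (hκ : ∀ H s, 0 ≤ κ H s)
    (g : List (Fin n) → unitInterval → Fin n) (hg : ∀ H, Measurable (g H))
    (hlaw : ∀ H s, (volume : Measure unitInterval) (g H ⁻¹' {s}) = ENNReal.ofReal (κ H s))
    (H : L → List (Fin n)) (F : (L → Fin n) → ℝ) :
    ∫ v : L → unitInterval, F (fun ω => g (H ω) (v ω))
      ∂(Measure.pi fun _ : L => (volume : Measure unitInterval)) =
      ∑ s : L → Fin n, (∏ ω, κ (H ω) (s ω)) * F s := by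
  have hm := chain_meas_sampler g hg H
  have : ∀ ω, IsProbabilityMeasure ((volume : Measure unitInterval).map (g (H ω))) := fun ω =>
    Measure.isProbabilityMeasure_map (hg (H ω)).aemeasurable
  have h1 : (Measure.pi fun _ : L => (volume : Measure unitInterval)).map
      (fun v ω => g (H ω) (v ω)) =
      Measure.pi (fun ω => (volume : Measure unitInterval).map (g (H ω))) :=
    Measure.pi_map_pi (fun ω => (hg (H ω)).aemeasurable)
  have hF : Measurable F := measurable_of_finite F
  have h2 : ∫ v : L → unitInterval, F (fun ω => g (H ω) (v ω))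
      ∂(Measure.pi fun _ : L => (volume : Measure unitInterval)) =
      ∫ s, F s ∂(Measure.pi (fun ω => (volume : Measure unitInterval).map (g (H ω)))) := by
    rw [← h1, integral_map hm.aemeasurable hF.aestronglyMeasurable]
  rw [h2, integral_fintype Integrable.of_finite]
  refine Finset.sum_congr rfl fun s _ => ?_
  rw [smul_eq_mul]
  congr 1
  rw [Measure.real, Measure.pi_singleton, ENNReal.toReal_prod]
  refine Finset.prod_congr rfl fun ω _ => ?_
  rw [Measure.map_apply (hg (H ω)) (measurableSet_singleton _), hlaw, ENNReal.toReal_ofReal (hκ _ _)]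

theorem chain_meas_hist_set {n r : ℕ} (g : List (Fin n) → unitInterval → Fin n)
    (hg : ∀ H, Measurable (g H)) (d : ℕ) (H : List (Fin n)) :
    MeasurableSet {u : Fin (r + 1) → unitInterval | hist g u d = H} := by
  induction d generalizing H with
  | zero =>
    simp only [hist_zero]
    exact MeasurableSet.const _
  | succ d ih =>
    by_cases h : d < r + 1
    · have e : ∀ u : Fin (r + 1) → unitInterval, hist g u (d + 1) = g (hist g u d) (u ⟨d, h⟩) ::
          hist g u d := fun u => hist_succ g u h
      simp only [e]
      cases H with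
      | nil => simp
      | cons s H' =>
        have e2 : {u : Fin (r + 1) → unitInterval |
            g (hist g u d) (u ⟨d, h⟩) :: hist g u d = s :: H'} =
            {u | hist g u d = H'} ∩ {u | g H' (u ⟨d, h⟩) = s} := by
          ext u
          simp only [List.cons.injEq, Set.mem_ofPred_eq, Set.mem_inter_iff]
          constructor
          · rintro ⟨h1, h2⟩
            exact ⟨h2, by rw [← h2]; exact h1⟩
          · rintro ⟨h1, h2⟩
            exact ⟨by rw [h1]; exact h2, h1⟩
        rw [e2]
        have h3 : Measurable (fun u : Fin (r + 1) → unitInterval => g H' (u ⟨d, h⟩)) :=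
          (hg H').comp (measurable_pi_apply _)
        exact (ih H').inter (h3 (measurableSet_singleton s))
    · have e : ∀ u : Fin (r + 1) → unitInterval, hist g u (d + 1) = hist g u d := by
        intro u
        exact chain_hist_ge g u h
      simp only [e]
      exact ih H

theorem measurable_hist_comp {n r : ℕ} (g : List (Fin n) → unitInterval → Fin n)
    (hg : ∀ H, Measurable (g H)) (X : List (Fin n) → ℝ) (d : ℕ) :
    Measurable (fun u : Fin (r + 1) → unitInterval => X (hist g u d)) := by
  let _ : MeasurableSpace (List (Fin n)) := ⊤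
  have h1 : Measurable (fun u : Fin (r + 1) → unitInterval => hist g u d) :=
    measurable_to_countable' fun H => chain_meas_hist_set g hg d H
  exact (measurable_from_top (f := X)).comp h1

/-- the history up to level `d` depends only on the uniforms of levels `< d` -/
theorem chain_hist_congr {n r : ℕ} (g : List (Fin n) → unitInterval → Fin n)
    (u u' : Fin (r + 1) → unitInterval) (d : ℕ) (h : ∀ j : Fin (r + 1), (j : ℕ) < d → u j = u' j) :
    hist g u d = hist g u' d := by
  induction d with
  | zero => rw [hist_zero, hist_zero]
  | succ d ih =>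
    have ih' := ih fun j hj => h j (by omega)
    by_cases hd : d < r + 1
    · rw [hist_succ g u hd, hist_succ g u' hd, ih', h ⟨d, hd⟩ (by simp)]
    · rw [chain_hist_ge g u hd, chain_hist_ge g u' hd, ih']

/-- the descending induction -/
theorem chain_fold (t : Trial)
    (g : List (Fin t.nS) → unitInterval → Fin t.nS) (hg : ∀ H, Measurable (g H))
    (hlaw : ∀ H s, (volume : Measure unitInterval) (g H ⁻¹' {s}) = ENNReal.ofReal (t.κ H s))
    {L : Type} [Fintype L] [DecidableEq L] (W : (L → List (Fin t.nS)) → ℝ) (k : ℕ) :
    ∀ d : ℕ, d + k = t.r → ∀ u : L → Fin (t.r + 1) → unitInterval,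
      pmFold t.m (List.drop d (List.finRange t.r))
        (fun u' : L → Fin (t.r + 1) → unitInterval => W (fun ω => hist g (u' ω) (t.r + 1))) u =
      chainT t.κ (List.drop d (List.ofFn t.m)) W (fun ω => hist g (u ω) (d + 1)) := by
  induction k with
  | zero =>
    intro d hd u
    have h1 : List.drop d (List.finRange t.r) = [] := by
      apply List.drop_eq_nil_of_le; simp; omega
    have h2 : List.drop d (List.ofFn t.m) = [] := by
      apply List.drop_eq_nil_of_le; simp; omega
    rw [h1, h2, pmFold_nil, chainT_nil]
    have : d = t.r := by omega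
    rw [this]
  | succ k ih =>
    intro d hd u
    have hdr : d < t.r := by omega
    have h1 : List.drop d (List.finRange t.r) =
        (⟨d, hdr⟩ : Fin t.r) :: List.drop (d + 1) (List.finRange t.r) := by
      rw [List.drop_eq_getElem_cons (by simpa using hdr)]
      simp
    have h2 : List.drop d (List.ofFn t.m) =
        t.m ⟨d, hdr⟩ :: List.drop (d + 1) (List.ofFn t.m) := by
      rw [List.drop_eq_getElem_cons (by simpa using hdr)]
      simp
    rw [h1, h2, pmFold_cons, chainT_cons, pmStep_eq]
    congr 1
    have h3 : ∀ v : L → unitInterval, (pmFold t.m (List.drop (d + 1) (List.finRange t.r))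
        (fun u' : L → Fin (t.r + 1) → unitInterval => W (fun ω => hist g (u' ω) (t.r + 1)))
          (resamp (⟨d, hdr⟩ : Fin t.r).succ u v)) =
        chainT t.κ (List.drop (d + 1) (List.ofFn t.m)) W
          (fun ω => g (hist g (u ω) (d + 1)) (v ω) :: hist g (u ω) (d + 1)) := by
      intro v
      rw [ih (d + 1) (by omega)]
      congr 1
      funext ω
      have h4 : hist g (resamp (⟨d, hdr⟩ : Fin t.r).succ u v ω) (d + 1) =
          hist g (u ω) (d + 1) := by
        apply chain_hist_congr
        intro j hj
        unfold resamp
        rw [if_neg]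
        intro h
        rw [h] at hj
        simp at hj
      rw [hist_succ g _ (show d + 1 < t.r + 1 by omega), h4]
      congr 2
      unfold resamp
      rw [if_pos]
      rfl
    simp only [h3]
    exact integral_sampler t.κ t.κ_nonneg g hg hlaw (fun ω => hist g (u ω) (d + 1))
      (fun s => (chainT t.κ (List.drop (d + 1) (List.ofFn t.m)) W
        (fun ω => s ω :: hist g (u ω) (d + 1))) ^ (t.m ⟨d, hdr⟩))

/-- MAIN RESULT. -/
theorem chain_eval (t : Trial)
    (g : List (Fin t.nS) → unitInterval → Fin t.nS) (hg : ∀ H, Measurable (g H))
    (hlaw : ∀ H s, (volume : Measure unitInterval) (g H ⁻¹' {s}) = ENNReal.ofReal (t.κ H s))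
    {L : Type} [Fintype L] [DecidableEq L] (W : (L → List (Fin t.nS)) → ℝ) :
    ∫ u, Real.log (powerMeans t.m
      (fun u' : L → Fin (t.r + 1) → unitInterval => W (fun ω => hist g (u' ω) (t.r + 1))) u)
      ∂(uniformArrays L t.r) = t.logT0 W := by
  have h1 : ∀ u : L → Fin (t.r + 1) → unitInterval, Real.log (powerMeans t.m
      (fun u' : L → Fin (t.r + 1) → unitInterval => W (fun ω => hist g (u' ω) (t.r + 1))) u) =
      (fun s : L → Fin t.nS => Real.log (chainT t.κ (List.ofFn t.m) W (fun ω => [s ω])))
        (fun ω => g [] (u ω 0)) := by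
    intro u
    have h2 := chain_fold t g hg hlaw W t.r 0 (by omega) u
    simp only [List.drop_zero] at h2
    rw [powerMeans_eq, h2]
    have h3 : ∀ ω, hist g (u ω) (0 + 1) = [g [] (u ω 0)] := by
      intro ω
      rw [hist_succ g (u ω) (show 0 < t.r + 1 by omega), hist_zero]
      rfl
    simp only [h3]
  simp only [h1]
  have h4 : (uniformArrays L t.r).map (fun u ω => u ω 0) =
      Measure.pi (fun _ : L => (volume : Measure unitInterval)) := by
    unfold uniformArrays
    have h5 := Measure.pi_map_pi (μ := fun _ : L => Measure.pi fun _ : Fin (t.r + 1) =>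
      (volume : Measure unitInterval)) (f := fun _ : L => fun x : Fin (t.r + 1) → unitInterval => x 0)
      (hμ := fun i => by
        rw [(measurePreserving_eval (fun _ : Fin (t.r + 1) => (volume : Measure unitInterval))
          0).map_eq]
        infer_instance)
      (fun i => (measurable_pi_apply 0).aemeasurable)
    rw [h5]
    congr 1
    funext i
    exact (measurePreserving_eval (fun _ : Fin (t.r + 1) => (volume : Measure unitInterval)) 0).map_eq
  have hm0 : Measurable (fun (u : L → Fin (t.r + 1) → unitInterval) (ω : L) => u ω 0) :=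
    measurable_pi_lambda _ fun ω => (measurable_pi_apply 0).comp (measurable_pi_apply ω)
  set G : (L → Fin t.nS) → ℝ :=
    fun s => Real.log (chainT t.κ (List.ofFn t.m) W (fun ω => [s ω])) with hG
  have hG' : Measurable (fun v : L → unitInterval => G (fun ω => g [] (v ω))) :=
    (measurable_of_finite G).comp (chain_meas_sampler g hg (fun _ => []))
  have h6 : ∫ u, G (fun ω => g [] (u ω 0)) ∂(uniformArrays L t.r) =
      ∫ v : L → unitInterval, G (fun ω => g [] (v ω))
        ∂(Measure.pi fun _ : L => (volume : Measure unitInterval)) := by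
    rw [← h4, integral_map hm0.aemeasurable hG'.aestronglyMeasurable]
  exact h6.trans (integral_sampler t.κ t.κ_nonneg g hg hlaw (fun _ => []) G)

end Crest.Agent.SGG
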