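import Mathlib

/-!
# Discretisation of a measurable function on the cube (S0192, part G, task G11)

Proof: for every `η > 0` find `(n, D, Y)` with `P(|X - Y ∘ D| ≥ η) ≤ η`: truncate `X` to `[-K, K]`
with `P(|X| > K) ≤ η/2`; the truncation is integrable, take a (bounded) continuous `g` with
`∫ |X_K - g| ≤ η²/4` (`Integrable.exists_boundedContinuous_integral_sub_le`), `g` is uniformly
continuous on the compact cube, so `|g - g ∘ D| ≤ η/2` where `D u = ⌊n u⌋ / n` coordinatewise.
Then convergence in measure gives an a.e. convergent subsequence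
(`TendstoInMeasure.exists_seq_tendsto_ae`).
-/

set_option autoImplicit false

open MeasureTheory

namespace Crest.Agent.SGG

/-- The cell of a point of the unit interval. -/
noncomputable def discCell (m : ℕ) (u : unitInterval) : Fin (m + 1) :=
  ⟨min ⌊((m : ℝ) + 1) * (u : ℝ)⌋₊ m, Nat.lt_succ_of_le (min_le_right _ _)⟩

theorem measurable_discCell (m : ℕ) : Measurable (discCell m) := by
  have h1 : Measurable (fun u : unitInterval => ⌊((m : ℝ) + 1) * (u : ℝ)⌋₊) :=
    Nat.measurable_floor.comp (measurable_const.mul measurable_subtype_coe)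
  have h2 : Measurable (fun k : ℕ => (⟨min k m, Nat.lt_succ_of_le (min_le_right _ _)⟩ :
      Fin (m + 1))) := measurable_from_top
  exact h2.comp h1

/-- The sample point of a cell. -/
noncomputable def discPt (m : ℕ) (k : Fin (m + 1)) : unitInterval :=
  ⟨(k : ℝ) / ((m : ℝ) + 1), by
    constructor
    · positivity
    · rw [div_le_one (by positivity)]
      have : (k : ℕ) ≤ m := Nat.lt_succ_iff.mp k.2
      have : ((k : ℕ) : ℝ) ≤ (m : ℝ) := by exact_mod_cast this
      linarith⟩

theorem dist_discPt_le (m : ℕ) (u : unitInterval) :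
    dist u (discPt m (discCell m u)) ≤ 1 / ((m : ℝ) + 1) := by
  have hm : (0 : ℝ) < (m : ℝ) + 1 := by positivity
  have hu0 : (0 : ℝ) ≤ (u : ℝ) := u.2.1
  have hu1 : (u : ℝ) ≤ 1 := u.2.2
  have hnn : 0 ≤ ((m : ℝ) + 1) * (u : ℝ) := by positivity
  have hfl : ((⌊((m : ℝ) + 1) * (u : ℝ)⌋₊ : ℕ) : ℝ) ≤ ((m : ℝ) + 1) * (u : ℝ) :=
    Nat.floor_le hnn
  have hfl2 : ((m : ℝ) + 1) * (u : ℝ) < ((⌊((m : ℝ) + 1) * (u : ℝ)⌋₊ : ℕ) : ℝ) + 1 :=
    Nat.lt_floor_add_one _
  rw [Subtype.dist_eq, Real.dist_eq]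
  have hval : ((discPt m (discCell m u) : unitInterval) : ℝ) =
      ((min ⌊((m : ℝ) + 1) * (u : ℝ)⌋₊ m : ℕ) : ℝ) / ((m : ℝ) + 1) := rfl
  rw [hval, Nat.cast_min]
  rw [show (u : ℝ) - min ((⌊((m : ℝ) + 1) * (u : ℝ)⌋₊ : ℕ) : ℝ) (m : ℝ) / ((m : ℝ) + 1)
    = (((m : ℝ) + 1) * (u : ℝ) - min ((⌊((m : ℝ) + 1) * (u : ℝ)⌋₊ : ℕ) : ℝ) (m : ℝ)) /
      ((m : ℝ) + 1) by field_simp]
  rw [abs_div, abs_of_pos hm]
  apply div_le_div_of_nonneg_right _ hm.le
  rw [abs_le]
  constructor
  · have := min_le_left ((⌊((m : ℝ) + 1) * (u : ℝ)⌋₊ : ℕ) : ℝ) (m : ℝ)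
    linarith
  · rcases min_cases ((⌊((m : ℝ) + 1) * (u : ℝ)⌋₊ : ℕ) : ℝ) (m : ℝ) with h | h
    · rw [h.1]; linarith
    · rw [h.1]
      nlinarith

/-- Discretisation with small error in measure. -/
theorem exists_disc_one {r : ℕ} (X : (Fin (r + 1) → unitInterval) → ℝ) (hX : Measurable X)
    {η : ℝ} (hη : 0 < η) :
    ∃ (n : ℕ) (D : unitInterval → Fin n) (Y : (Fin (r + 1) → Fin n) → ℝ), Measurable D ∧
      (Measure.pi fun _ : Fin (r + 1) => (volume : Measure unitInterval))
        {u | η ≤ |X u - Y (fun i => D (u i))|} ≤ ENNReal.ofReal η := by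
  classical
  set μ : Measure (Fin (r + 1) → unitInterval) :=
    Measure.pi fun _ : Fin (r + 1) => (volume : Measure unitInterval) with hμ
  have : IsProbabilityMeasure μ := by rw [hμ]; infer_instance
  -- truncation level
  have hK : ∃ K : ℕ, μ {u | (K : ℝ) < |X u|} ≤ ENNReal.ofReal (η / 2) := by
    have h1 := tendsto_measure_iInter_atTop (μ := μ) (s := fun K : ℕ => {u | (K : ℝ) < |X u|})
      (fun K => (measurableSet_lt measurable_const hX.abs).nullMeasurableSet)
      (fun a b hab u hu => by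
        have h1 : (a : ℝ) ≤ (b : ℝ) := by exact_mod_cast hab
        exact lt_of_le_of_lt h1 (show (b : ℝ) < |X u| from hu))
      ⟨0, measure_ne_top _ _⟩
    have h2 : (⋂ K : ℕ, {u | (K : ℝ) < |X u|}) = (∅ : Set (Fin (r + 1) → unitInterval)) := by
      ext u
      simp only [Set.mem_iInter, Set.mem_setOf_eq, Set.mem_empty_iff_false, iff_false, not_forall,
        not_lt]
      exact exists_nat_ge _
    rw [h2, measure_empty] at h1
    have h3 := (ENNReal.tendsto_nhds_zero.mp h1) (ENNReal.ofReal (η / 2))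
      (ENNReal.ofReal_pos.mpr (by positivity))
    obtain ⟨K, hK⟩ := h3.exists
    exact ⟨K, hK⟩
  obtain ⟨K, hK⟩ := hK
  -- truncated function
  set XK : (Fin (r + 1) → unitInterval) → ℝ := fun u => max (-(K : ℝ)) (min (K : ℝ) (X u))
    with hXK
  have hXKm : Measurable XK := measurable_const.max (measurable_const.min hX)
  have hXKb : ∀ u, |XK u| ≤ K := by
    intro u
    rw [abs_le]
    have hK0 : (0 : ℝ) ≤ (K : ℝ) := Nat.cast_nonneg _
    constructor
    · exact le_max_left _ _
    · exact max_le (by linarith) (min_le_left _ _)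
  have hXKi : Integrable XK μ :=
    Integrable.of_bound hXKm.aestronglyMeasurable (K : ℝ)
      (Filter.Eventually.of_forall fun u => by rw [Real.norm_eq_abs]; exact hXKb u)
  have hXKeq : ∀ u, |X u| ≤ K → XK u = X u := by
    intro u hu
    rw [abs_le] at hu
    show max (-(K : ℝ)) (min (K : ℝ) (X u)) = X u
    rw [min_eq_right hu.2, max_eq_right hu.1]
  obtain ⟨g, hg, hgi⟩ := hXKi.exists_boundedContinuous_integral_sub_le
    (ε := η ^ 2 / 4) (by positivity)
  -- uniform continuity
  have hgu : UniformContinuous g := CompactSpace.uniformContinuous_of_continuous g.continuous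
  obtain ⟨δ, hδ, hgδ⟩ := Metric.uniformContinuous_iff.mp hgu (η / 2) (by positivity)
  obtain ⟨m, hm⟩ := exists_nat_one_div_lt hδ
  refine ⟨m + 1, discCell m, fun a => g (fun i => discPt m (a i)), measurable_discCell m, ?_⟩
  have hclose : ∀ u : Fin (r + 1) → unitInterval,
      |g u - g (fun i => discPt m (discCell m (u i)))| < η / 2 := by
    intro u
    rw [← Real.dist_eq]
    apply hgδ
    refine lt_of_le_of_lt ?_ hm
    rw [dist_pi_le_iff (by positivity)]
    intro i
    exact dist_discPt_le m (u i)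
  have hsub : {u | η ≤ |X u - g (fun i => discPt m (discCell m (u i)))|} ⊆
      {u | (K : ℝ) < |X u|} ∪ {u | η / 2 ≤ ‖XK u - g u‖} := by
    intro u hu
    by_cases hcase : (K : ℝ) < |X u|
    · exact Or.inl hcase
    · refine Or.inr ?_
      have h1 := hXKeq u (not_lt.mp hcase)
      simp only [Set.mem_setOf_eq] at hu ⊢
      rw [h1, Real.norm_eq_abs]
      have h2 := hclose u
      have h3 : |X u - g (fun i => discPt m (discCell m (u i)))| ≤
          |X u - g u| + |g u - g (fun i => discPt m (discCell m (u i)))| :=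
        abs_sub_le _ _ _
      linarith
  have hmark : μ {u | η / 2 ≤ ‖XK u - g u‖} ≤ ENNReal.ofReal (η / 2) := by
    have h1 := mul_meas_ge_le_integral_of_nonneg (μ := μ) (f := fun u => ‖XK u - g u‖)
      (Filter.Eventually.of_forall fun u => norm_nonneg _) (hXKi.sub hgi).norm (η / 2)
    have h2 : η / 2 * μ.real {u | η / 2 ≤ ‖XK u - g u‖} ≤ η / 2 * (η / 2) := by
      calc _ ≤ _ := h1
        _ ≤ η ^ 2 / 4 := hg
        _ = _ := by ring
    have h3 : μ.real {u | η / 2 ≤ ‖XK u - g u‖} ≤ η / 2 := le_of_mul_le_mul_left h2 (by positivity)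
    rw [measureReal_def] at h3
    exact (ENNReal.le_ofReal_iff_toReal_le (measure_ne_top _ _) (by positivity)).mpr h3
  calc μ {u | η ≤ |X u - g (fun i => discPt m (discCell m (u i)))|}
      ≤ μ ({u | (K : ℝ) < |X u|} ∪ {u | η / 2 ≤ ‖XK u - g u‖}) := measure_mono hsub
    _ ≤ μ {u | (K : ℝ) < |X u|} + μ {u | η / 2 ≤ ‖XK u - g u‖} := measure_union_le _ _
    _ ≤ ENNReal.ofReal (η / 2) + ENNReal.ofReal (η / 2) := add_le_add hK hmark
    _ = ENNReal.ofReal η := by
        rw [← ENNReal.ofReal_add (by positivity) (by positivity)]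
        congr 1
        ring

/-- MAIN RESULT. -/
theorem exists_disc {r : ℕ} (X : (Fin (r + 1) → unitInterval) → ℝ) (hX : Measurable X) :
    ∃ (n : ℕ → ℕ) (D : (j : ℕ) → unitInterval → Fin (n j))
      (Y : (j : ℕ) → (Fin (r + 1) → Fin (n j)) → ℝ), (∀ j, Measurable (D j)) ∧
      ∀ᵐ u ∂(Measure.pi fun _ : Fin (r + 1) => (volume : Measure unitInterval)),
        Filter.Tendsto (fun j => Y j (fun i => D j (u i))) Filter.atTop (nhds (X u)) := by
  classical
  have hpos : ∀ j : ℕ, (0 : ℝ) < 1 / ((j : ℝ) + 1) := fun j => by positivity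
  choose n D Y hD hY using fun j : ℕ => exists_disc_one X hX (hpos j)
  have htm : TendstoInMeasure (Measure.pi fun _ : Fin (r + 1) => (volume : Measure unitInterval))
      (fun j u => Y j (fun i => D j (u i))) Filter.atTop X := by
    rw [tendstoInMeasure_iff_dist]
    intro ε hε
    rw [ENNReal.tendsto_nhds_zero]
    intro c hc
    have h1 : Filter.Tendsto (fun j : ℕ => ENNReal.ofReal (1 / ((j : ℝ) + 1))) Filter.atTop
        (nhds 0) := by
      have := ENNReal.tendsto_ofReal tendsto_one_div_add_atTop_nhds_zero_nat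
      simpa using this
    have h2 := (ENNReal.tendsto_nhds_zero.mp h1) c hc
    have h3 : ∀ᶠ j : ℕ in Filter.atTop, 1 / ((j : ℝ) + 1) < ε :=
      tendsto_one_div_add_atTop_nhds_zero_nat.eventually (gt_mem_nhds hε)
    filter_upwards [h2, h3] with j hj2 hj3
    refine le_trans (measure_mono ?_) ((hY j).trans hj2)
    intro u hu
    simp only [Set.mem_setOf_eq] at hu ⊢
    rw [dist_comm, Real.dist_eq] at hu
    linarith
  obtain ⟨ns, -, hns⟩ := htm.exists_seq_tendsto_ae
  exact ⟨fun j => n (ns j), fun j => D (ns j), fun j => Y (ns j), fun j => hD (ns j), hns⟩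

end Crest.Agent.SGG
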