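import Mathlib
import Crest.Agent.SGG_Defs
import Crest.Agent.SGG_Step

/-!
# L¹ continuity of the nested power means (S0192, part G, task G7)

`E_u |log powerMeans W - log powerMeans W'| ≤ e^{2 C r} E_u |log W - log W'|`.

Proof: one step. `log pmStep W = (1/m) log E_v W^m`, `W^m ∈ [e^{-mC}, e^{mC}]`, so
`|log pmStep W - log pmStep W'| ≤ (1/m) e^{mC} E_v |W^m - W'^m| ≤ e^{2mC} E_v |log W - log W'|
 ≤ e^{2C} E_v |log W(resamp) - log W'(resamp)|`, and `E_u E_v F(resamp lvl u v) = E_u F(u)`
(`integral_resamp`: the map `(u,v) ↦ resamp lvl u v` is measure preserving; use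
`measurePreserving_pi`, `measurePreserving_arrowProdEquivProdArrow` and, for one label,
`Measure.pi_eq`). Then induct over the fold.
-/

set_option autoImplicit false

open MeasureTheory
open Crest.ProbabilityR.Diluted

namespace Crest.Agent.SGG

variable {L : Type} [Fintype L] {r : ℕ}

theorem sggl1_one (lvl : Fin (r + 1)) :
    MeasurePreserving (fun x : (Fin (r + 1) → unitInterval) × unitInterval =>
      (fun j => if j = lvl then x.2 else x.1 j : Fin (r + 1) → unitInterval))
      ((Measure.pi fun _ : Fin (r + 1) => (volume : Measure unitInterval)).prod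
        (volume : Measure unitInterval))
      (Measure.pi fun _ : Fin (r + 1) => (volume : Measure unitInterval)) := by
  have hmeas : Measurable (fun x : (Fin (r + 1) → unitInterval) × unitInterval =>
      (fun j => if j = lvl then x.2 else x.1 j : Fin (r + 1) → unitInterval)) := by
    refine measurable_pi_lambda _ fun j => ?_
    by_cases h : j = lvl
    · simp only [h, if_true]; exact measurable_snd
    · simp only [h, if_false]; fun_prop
  refine ⟨hmeas, ?_⟩
  symm
  refine Measure.pi_eq fun s hs => ?_
  rw [Measure.map_apply hmeas (MeasurableSet.univ_pi hs)]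
  have e : (fun x : (Fin (r + 1) → unitInterval) × unitInterval =>
      (fun j => if j = lvl then x.2 else x.1 j : Fin (r + 1) → unitInterval)) ⁻¹' (Set.univ.pi s) =
      (Set.univ.pi fun j => if j = lvl then Set.univ else s j) ×ˢ s lvl := by
    ext ⟨u, v⟩
    simp only [Set.mem_preimage, Set.mem_pi, Set.mem_univ, forall_true_left, Set.mem_prod]
    constructor
    · intro h
      refine ⟨fun j => ?_, by simpa using h lvl⟩
      by_cases hj : j = lvl
      · simp [hj]
      · have := h j
        simpa [hj] using this
    · rintro ⟨h1, h2⟩ j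
      by_cases hj : j = lvl
      · subst hj; simpa using h2
      · have := h1 j
        simpa [hj] using this
  rw [e, Measure.prod_prod, Measure.pi_pi, ← Finset.prod_erase_mul _ _ (Finset.mem_univ lvl),
    ← Finset.prod_erase_mul Finset.univ (fun i => (volume : Measure unitInterval) (s i))
      (Finset.mem_univ lvl)]
  simp only [if_true, measure_univ, mul_one]
  congr 1
  refine Finset.prod_congr rfl fun j hj => ?_
  rw [if_neg (Finset.ne_of_mem_erase hj)]

/-- Resampling one level preserves the law of the uniforms. -/
theorem measurePreserving_resamp (lvl : Fin (r + 1)) :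
    MeasurePreserving (fun x : (L → Fin (r + 1) → unitInterval) × (L → unitInterval) =>
      resamp lvl x.1 x.2)
      ((uniformArrays L r).prod (Measure.pi fun _ : L => (volume : Measure unitInterval)))
      (uniformArrays L r) := by
  have h1 := measurePreserving_pi (ι := L)
    (fun _ => (Measure.pi fun _ : Fin (r + 1) => (volume : Measure unitInterval)).prod
        (volume : Measure unitInterval))
    (fun _ => (Measure.pi fun _ : Fin (r + 1) => (volume : Measure unitInterval)))
    (fun _ => sggl1_one (r := r) lvl)
  have h2 := (measurePreserving_arrowProdEquivProdArrow (Fin (r + 1) → unitInterval)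
    unitInterval L (fun _ => (Measure.pi fun _ : Fin (r + 1) => (volume : Measure unitInterval)))
    (fun _ => (volume : Measure unitInterval))).symm
  exact h1.comp h2

theorem integral_resamp (lvl : Fin (r + 1)) {F : (L → Fin (r + 1) → unitInterval) → ℝ}
    (hF : Integrable F (uniformArrays L r)) :
    ∫ u, ∫ v, F (resamp lvl u v) ∂(Measure.pi fun _ : L => (volume : Measure unitInterval))
      ∂(uniformArrays L r) = ∫ u, F u ∂(uniformArrays L r) := by
  have mp := measurePreserving_resamp (L := L) (r := r) lvl
  have h1 : Integrable (fun x : (L → Fin (r + 1) → unitInterval) × (L → unitInterval) =>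
      F (resamp lvl x.1 x.2))
      ((uniformArrays L r).prod (Measure.pi fun _ : L => (volume : Measure unitInterval))) :=
    mp.integrable_comp_of_integrable hF
  have h2 := integral_prod _ h1
  rw [← h2]
  have h3 := integral_map (μ := (uniformArrays L r).prod
    (Measure.pi fun _ : L => (volume : Measure unitInterval))) mp.measurable.aemeasurable
    (f := F) (by rw [mp.map_eq]; exact hF.aestronglyMeasurable)
  rw [mp.map_eq] at h3
  exact h3.symm

theorem sggl1_log_lip {a b c : ℝ} (hc : 0 < c) (ha : c ≤ a) (hb : c ≤ b) :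
    |Real.log a - Real.log b| ≤ |a - b| / c := by
  have key : ∀ x y : ℝ, c ≤ x → c ≤ y → Real.log x - Real.log y ≤ |x - y| / c := by
    intro x y hx hy
    have hx0 : 0 < x := hc.trans_le hx
    have hy0 : 0 < y := hc.trans_le hy
    rw [← Real.log_div hx0.ne' hy0.ne']
    have h1 := Real.log_le_sub_one_of_pos (div_pos hx0 hy0)
    have h2 : x / y - 1 = (x - y) / y := by field_simp
    rw [h2] at h1
    refine h1.trans ?_
    calc (x - y) / y ≤ |x - y| / y := by gcongr; exact le_abs_self _
      _ ≤ |x - y| / c := by gcongr
  rw [abs_le]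
  constructor
  · have := key b a hb ha
    rw [abs_sub_comm] at this
    linarith
  · exact key a b ha hb

theorem sggl1_exp_lip {x y M : ℝ} (hx : x ≤ M) (hy : y ≤ M) :
    |Real.exp x - Real.exp y| ≤ Real.exp M * |x - y| := by
  have key : ∀ a b : ℝ, a ≤ M → Real.exp a - Real.exp b ≤ Real.exp M * |a - b| := by
    intro a b ha
    have h1 : Real.exp a - Real.exp b = Real.exp a * (1 - Real.exp (b - a)) := by
      rw [mul_sub, ← Real.exp_add]; ring_nf
    have h2 : 1 - Real.exp (b - a) ≤ |a - b| := by
      have := Real.add_one_le_exp (b - a)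
      have h3 := le_abs_self (a - b)
      linarith
    rw [h1]
    calc Real.exp a * (1 - Real.exp (b - a)) ≤ Real.exp a * |a - b| := by gcongr
      _ ≤ Real.exp M * |a - b| := by gcongr
  rw [abs_le]
  constructor
  · have := key y x hy
    rw [abs_sub_comm] at this
    linarith
  · exact key x y hx

theorem sggl1_integrable {C : ℝ} {W W' : (L → Fin (r + 1) → unitInterval) → ℝ} (h : Good C W)
    (h' : Good C W') :
    Integrable (fun u => |Real.log (W u) - Real.log (W' u)|) (uniformArrays L r) :=
  (h.integrable_log.sub h'.integrable_log).abs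

theorem sggl1_integrable_v {C : ℝ} {W W' : (L → Fin (r + 1) → unitInterval) → ℝ} (h : Good C W)
    (h' : Good C W') (lvl : Fin (r + 1)) (u : L → Fin (r + 1) → unitInterval) :
    Integrable (fun v : L → unitInterval =>
      |Real.log (W (resamp lvl u v)) - Real.log (W' (resamp lvl u v))|)
      (Measure.pi fun _ : L => (volume : Measure unitInterval)) := by
  refine (integrable_const (C + C)).mono' ?_ (Filter.Eventually.of_forall fun v => ?_)
  · have m1 := (h.meas.comp (measurable_resamp_right lvl u)).log
    have m2 := (h'.meas.comp (measurable_resamp_right lvl u)).log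
    exact (m1.sub m2).abs.aestronglyMeasurable
  · rw [Real.norm_eq_abs, abs_abs]
    exact (abs_sub _ _).trans (add_le_add (h.abs_log _) (h'.abs_log _))

theorem sggl1_point {C : ℝ} {W W' : (L → Fin (r + 1) → unitInterval) → ℝ} (h : Good C W)
    (h' : Good C W') (hC : 0 ≤ C) {m : ℝ} (hm : 0 < m) (hm1 : m ≤ 1) (lvl : Fin (r + 1))
    (u : L → Fin (r + 1) → unitInterval) :
    |Real.log (pmStep m lvl W u) - Real.log (pmStep m lvl W' u)| ≤
      Real.exp (2 * C) * ∫ v : L → unitInterval,
        |Real.log (W (resamp lvl u v)) - Real.log (W' (resamp lvl u v))|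
        ∂(Measure.pi fun _ : L => (volume : Measure unitInterval)) := by
  have hA := h.integral_bounds hm lvl u
  have hA' := h'.integral_bounds hm lvl u
  have iA := h.integrable_rpow hm lvl u
  have iA' := h'.integrable_rpow hm lvl u
  have hpt : ∀ v : L → unitInterval,
      |(W (resamp lvl u v)) ^ m - (W' (resamp lvl u v)) ^ m| ≤
        Real.exp (m * C) * m *
          |Real.log (W (resamp lvl u v)) - Real.log (W' (resamp lvl u v))| := by
    intro v
    have p := h.pos (resamp lvl u v)
    have p' := h'.pos (resamp lvl u v)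
    rw [Real.rpow_def_of_pos p, Real.rpow_def_of_pos p']
    have b := (abs_le.1 (h.abs_log (resamp lvl u v))).2
    have b' := (abs_le.1 (h'.abs_log (resamp lvl u v))).2
    have h1 := sggl1_exp_lip (x := Real.log (W (resamp lvl u v)) * m)
      (y := Real.log (W' (resamp lvl u v)) * m) (M := m * C) (by nlinarith) (by nlinarith)
    refine h1.trans (le_of_eq ?_)
    rw [← sub_mul, abs_mul, abs_of_pos hm]
    ring
  rw [pmStep_eq, pmStep_eq]
  have posA : 0 < ∫ v : L → unitInterval, (W (resamp lvl u v)) ^ m
      ∂(Measure.pi fun _ : L => (volume : Measure unitInterval)) :=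
    (Real.exp_pos _).trans_le hA.1
  have posA' : 0 < ∫ v : L → unitInterval, (W' (resamp lvl u v)) ^ m
      ∂(Measure.pi fun _ : L => (volume : Measure unitInterval)) :=
    (Real.exp_pos _).trans_le hA'.1
  rw [Real.log_rpow posA, Real.log_rpow posA', ← mul_sub, abs_mul, abs_of_pos (by positivity)]
  have h2 := sggl1_log_lip (Real.exp_pos _) hA.1 hA'.1
  rw [← integral_sub iA iA'] at h2
  have h3 : |∫ v : L → unitInterval, ((W (resamp lvl u v)) ^ m - (W' (resamp lvl u v)) ^ m)
      ∂(Measure.pi fun _ : L => (volume : Measure unitInterval))| ≤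
      Real.exp (m * C) * m * ∫ v : L → unitInterval,
        |Real.log (W (resamp lvl u v)) - Real.log (W' (resamp lvl u v))|
        ∂(Measure.pi fun _ : L => (volume : Measure unitInterval)) := by
    rw [← integral_const_mul]
    refine (abs_integral_le_integral_abs).trans ?_
    exact integral_mono (iA.sub iA').abs ((sggl1_integrable_v h h' lvl u).const_mul _) hpt
  have hI : 0 ≤ ∫ v : L → unitInterval,
        |Real.log (W (resamp lvl u v)) - Real.log (W' (resamp lvl u v))|
        ∂(Measure.pi fun _ : L => (volume : Measure unitInterval)) :=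
    integral_nonneg fun v => abs_nonneg _
  generalize (∫ v : L → unitInterval,
        |Real.log (W (resamp lvl u v)) - Real.log (W' (resamp lvl u v))|
        ∂(Measure.pi fun _ : L => (volume : Measure unitInterval))) = I at h3 hI ⊢
  have h4 : 1 / m * |Real.log (∫ v : L → unitInterval, (W (resamp lvl u v)) ^ m
      ∂(Measure.pi fun _ : L => (volume : Measure unitInterval))) -
      Real.log (∫ v : L → unitInterval, (W' (resamp lvl u v)) ^ m
      ∂(Measure.pi fun _ : L => (volume : Measure unitInterval)))| ≤
      1 / m * ((Real.exp (m * C) * m * I) / Real.exp (m * (-C))) := by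
    have : 0 < Real.exp (m * (-C)) := Real.exp_pos _
    gcongr
    exact h2.trans (by gcongr)
  refine h4.trans ?_
  have e1 : 1 / m * ((Real.exp (m * C) * m * I) / Real.exp (m * (-C))) =
      Real.exp (2 * (m * C)) * I := by
    rw [show m * (-C) = -(m * C) by ring, Real.exp_neg, two_mul, Real.exp_add]
    field_simp
  rw [e1]
  gcongr
  nlinarith

theorem sggl1_C_nonneg {C : ℝ} {W : (L → Fin (r + 1) → unitInterval) → ℝ} (h : Good C W) :
    0 ≤ C := by
  have u : L → Fin (r + 1) → unitInterval := fun _ _ => 0
  have := (h.lower u).trans (h.upper u)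
  rw [Real.exp_le_exp] at this
  linarith

theorem pmStep_L1 {C : ℝ} {W W' : (L → Fin (r + 1) → unitInterval) → ℝ} (h : Good C W)
    (h' : Good C W') {m : ℝ} (hm : 0 < m) (hm1 : m ≤ 1) (lvl : Fin (r + 1)) :
    ∫ u, |Real.log (pmStep m lvl W u) - Real.log (pmStep m lvl W' u)| ∂(uniformArrays L r) ≤
      Real.exp (2 * C) * ∫ u, |Real.log (W u) - Real.log (W' u)| ∂(uniformArrays L r) := by
  have hC := sggl1_C_nonneg h
  rw [← integral_resamp lvl (sggl1_integrable h h'), ← integral_const_mul]
  refine integral_mono (sggl1_integrable (pmStep_good h hm lvl) (pmStep_good h' hm lvl)) ?_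
    (fun u => sggl1_point h h' hC hm hm1 lvl u)
  refine Integrable.const_mul ?_ _
  have mp := measurePreserving_resamp (L := L) (r := r) lvl
  have h1 : Integrable (fun x : (L → Fin (r + 1) → unitInterval) × (L → unitInterval) =>
      |Real.log (W (resamp lvl x.1 x.2)) - Real.log (W' (resamp lvl x.1 x.2))|)
      ((uniformArrays L r).prod (Measure.pi fun _ : L => (volume : Measure unitInterval))) :=
    mp.integrable_comp_of_integrable (sggl1_integrable h h')
  exact h1.integral_prod_left

theorem sggl1_fold {C : ℝ} {W W' : (L → Fin (r + 1) → unitInterval) → ℝ} (h : Good C W)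
    (h' : Good C W') {m : Fin r → ℝ} (hm : ∀ d, 0 < m d) (hm1 : ∀ d, m d ≤ 1)
    (l : List (Fin r)) :
    ∫ u, |Real.log (pmFold m l W u) - Real.log (pmFold m l W' u)| ∂(uniformArrays L r) ≤
      Real.exp (2 * C) ^ l.length *
        ∫ u, |Real.log (W u) - Real.log (W' u)| ∂(uniformArrays L r) := by
  induction l with
  | nil => simp [pmFold_nil]
  | cons d l ih =>
    rw [pmFold_cons, pmFold_cons, List.length_cons, pow_succ']
    refine (pmStep_L1 (pmFold_good hm h l) (pmFold_good hm h' l) (hm d) (hm1 d) d.succ).trans ?_
    rw [mul_assoc]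
    gcongr

/-- MAIN RESULT. -/
theorem powerMeans_L1 {C : ℝ} {W W' : (L → Fin (r + 1) → unitInterval) → ℝ} (h : Good C W)
    (h' : Good C W') {m : Fin r → ℝ} (hm : ∀ d, 0 < m d) (hm1 : ∀ d, m d ≤ 1) :
    ∫ u, |Real.log (powerMeans m W u) - Real.log (powerMeans m W' u)| ∂(uniformArrays L r) ≤
      Real.exp (2 * C) ^ r * ∫ u, |Real.log (W u) - Real.log (W' u)| ∂(uniformArrays L r) := by
  have h1 := sggl1_fold h h' hm hm1 (List.finRange r)
  rwa [List.length_finRange] at h1

end Crest.Agent.SGG
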