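import Mathlib
import Crest.Agent.SGG_Defs
import Crest.Agent.SGG_Pois
import Crest.Agent.SGG_PF
import Crest.Agent.SGG_LS
import Crest.Agent.SGG_Step
import Crest.Agent.SGG_Site
import Crest.Agent.SGG_TF
import Crest.Agent.SGG_L1
import Crest.Agent.SGG_Eval

/-!
# Continuity of the trial functional in the messages (S0192, part G)
-/

set_option autoImplicit false

open MeasureTheory Filter Topology
open Crest.ProbabilityR.Diluted

namespace Crest.Agent.SGG

variable {p r : ℕ}

theorem ae_labels {L : Type} [Fintype L] {Q : (Fin (r + 1) → unitInterval) → Prop}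
    (h : ∀ᵐ u ∂(Measure.pi fun _ : Fin (r + 1) => (volume : Measure unitInterval)), Q u) :
    ∀ᵐ u ∂(uniformArrays L r), ∀ ω, Q (u ω) := by
  rw [ae_all_iff]
  intro ω
  have := (measurePreserving_eval
    (fun _ : L => Measure.pi fun _ : Fin (r + 1) => (volume : Measure unitInterval)) ω)
  exact this.quasiMeasurePreserving.ae h

/-- General limit lemma for `E_u log powerMeans`. -/
theorem log_powerMeans_tendsto {L : Type} [Fintype L] {m : Fin r → ℝ} (hm : ∀ d, 0 < m d)
    (hm1 : ∀ d, m d ≤ 1) {C : ℝ} {W : (L → Fin (r + 1) → unitInterval) → ℝ}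
    {Wj : ℕ → (L → Fin (r + 1) → unitInterval) → ℝ} (hW : Good C W) (hWj : ∀ j, Good C (Wj j))
    (hlim : ∀ᵐ u ∂(uniformArrays L r), Tendsto (fun j => Wj j u) atTop (𝓝 (W u))) :
    Tendsto (fun j => ∫ u, Real.log (powerMeans m (Wj j) u) ∂(uniformArrays L r)) atTop
      (𝓝 (∫ u, Real.log (powerMeans m W u) ∂(uniformArrays L r))) := by
  have h0 : Tendsto (fun j => ∫ u, |Real.log (Wj j u) - Real.log (W u)| ∂(uniformArrays L r))
      atTop (𝓝 (∫ _, (0 : ℝ) ∂(uniformArrays L r))) := by
    refine tendsto_integral_of_dominated_convergence (fun _ => 2 * C) (fun j => ?_)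
      (integrable_const _) (fun j => Eventually.of_forall fun u => ?_) ?_
    · exact ((hWj j).integrable_log.sub hW.integrable_log).abs.aestronglyMeasurable
    · rw [Real.norm_eq_abs, abs_abs]
      have h1 := (hWj j).abs_log u
      have h2 := hW.abs_log u
      have h3 := abs_sub (Real.log (Wj j u)) (Real.log (W u))
      linarith
    · filter_upwards [hlim] with u hu
      have h1 : Tendsto (fun j => Real.log (Wj j u)) atTop (𝓝 (Real.log (W u))) :=
        ((Real.continuousAt_log (hW.pos u).ne').tendsto).comp hu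
      have h2 := (h1.sub_const (Real.log (W u))).abs
      simpa using h2
  rw [integral_zero] at h0
  rw [tendsto_iff_norm_sub_tendsto_zero]
  have h1 := h0.const_mul (Real.exp (2 * C) ^ r)
  rw [mul_zero] at h1
  refine squeeze_zero (fun _ => norm_nonneg _) (fun j => ?_) h1
  rw [← integral_sub (powerMeans_good hm (hWj j)).integrable_log
    (powerMeans_good hm hW).integrable_log]
  refine (norm_integral_le_integral_norm _).trans ?_
  simp only [Real.norm_eq_abs]
  exact powerMeans_L1 (hWj j) hW hm hm1

theorem siteF_tendsto {m : Fin r → ℝ} (hm : ∀ d, 0 < m d) (hm1 : ∀ d, m d ≤ 1)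
    {X : (Fin (r + 1) → unitInterval) → ℝ} (hX : Measurable X)
    {Xj : ℕ → (Fin (r + 1) → unitInterval) → ℝ} (hXj : ∀ j, Measurable (Xj j))
    (hlim : ∀ᵐ u ∂(Measure.pi fun _ : Fin (r + 1) => (volume : Measure unitInterval)),
      Tendsto (fun j => Xj j u) atTop (𝓝 (X u))) {k : ℕ} (h : ℝ) (θs : Fin k → Inter p) :
    Tendsto (fun j => siteF m (Xj j) h θs) atTop (𝓝 (siteF m X h θs)) := by
  refine log_powerMeans_tendsto hm hm1 (site_good h θs hX) (fun j => site_good h θs (hXj j)) ?_
  filter_upwards [ae_labels (L := Fin k × Fin (p - 1)) hlim] with u hu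
  refine ((continuous_siteTerm h θs).tendsto _).comp ?_
  rw [tendsto_pi_nhds]
  intro j
  rw [tendsto_pi_nhds]
  intro l
  exact hu (j, l)

theorem PsiE_tendsto {m : Fin r → ℝ} (hm : ∀ d, 0 < m d) (hm1 : ∀ d, m d ≤ 1)
    {X : (Fin (r + 1) → unitInterval) → ℝ} (hX : Measurable X)
    {Xj : ℕ → (Fin (r + 1) → unitInterval) → ℝ} (hXj : ∀ j, Measurable (Xj j))
    (hlim : ∀ᵐ u ∂(Measure.pi fun _ : Fin (r + 1) => (volume : Measure unitInterval)),
      Tendsto (fun j => Xj j u) atTop (𝓝 (X u))) (θ : Inter p) :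
    Tendsto (fun j => PsiE m (Xj j) θ) atTop (𝓝 (PsiE m X θ)) := by
  refine log_powerMeans_tendsto hm hm1 (edge_good θ hX) (fun j => edge_good θ (hXj j)) ?_
  filter_upwards [ae_labels (L := Fin p) hlim] with u hu
  refine ((continuous_edgeTerm θ).tendsto _).comp ?_
  rw [tendsto_pi_nhds]
  intro l
  exact hu l

/-- Continuity of the trial functional of a core model. -/
theorem trialFunctional_tendsto (C : Core p) {α : ℝ} (hα : 0 ≤ α) {m : Fin r → ℝ}
    (hm : ∀ d, 0 < m d) (hm1 : ∀ d, m d ≤ 1)
    {X : (Fin (r + 1) → unitInterval) → ℝ} (hX : Measurable X)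
    {Xj : ℕ → (Fin (r + 1) → unitInterval) → ℝ} (hXj : ∀ j, Measurable (Xj j))
    (hlim : ∀ᵐ u ∂(Measure.pi fun _ : Fin (r + 1) => (volume : Measure unitInterval)),
      Tendsto (fun j => Xj j u) atTop (𝓝 (X u))) :
    Tendsto (fun j => trialFunctional p α C.interLaw C.fieldLaw r m (Xj j)) atTop
      (𝓝 (trialFunctional p α C.interLaw C.fieldLaw r m X)) := by
  rw [trialFunctional_core C α hm hX]
  simp_rw [fun j => trialFunctional_core C α hm (hXj j)]
  refine Tendsto.sub (tendsto_const_nhds.add ?_) (Tendsto.const_mul _ ?_)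
  · refine tendsto_tsum (A := ∑ y, |C.h y|) (B := ∑ e : C.E, supNorm (C.theta e)) (by positivity)
      (fun j k => ?_) (fun k => ?_)
    · have hb : ∀ (e : Fin k → C.E) (y : Fin C.nH),
          |siteF m (Xj j) (C.h y) (fun i => C.theta (e i))| ≤
            ∑ y, |C.h y| + (∑ e : C.E, supNorm (C.theta e)) * k := by
        intro e y
        refine (siteF_bound hm (hXj j) _ _).trans (add_le_add ?_ ?_)
        · exact Finset.single_le_sum (f := fun y => |C.h y|) (fun _ _ => abs_nonneg _)
            (Finset.mem_univ y)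
        · have : ∀ i : Fin k, supNorm (C.theta (e i)) ≤ ∑ e : C.E, supNorm (C.theta e) :=
            fun i => Finset.single_le_sum (f := fun e => supNorm (C.theta e))
              (fun _ _ => supNorm_nonneg _) (Finset.mem_univ (e i))
          refine (Finset.sum_le_sum fun i _ => this i).trans (le_of_eq ?_)
          simp [mul_comm]
      have hw : ∀ e : Fin k → C.E, 0 ≤ ∏ i, C.wE (e i) :=
        fun e => Finset.prod_nonneg fun i _ => C.wE_nonneg _
      have hsum : ∑ e : Fin k → C.E, ∏ i, C.wE (e i) = 1 := by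
        have := Finset.prod_univ_sum (fun _ : Fin k => (Finset.univ : Finset C.E))
          (fun _ e => C.wE e)
        rw [Fintype.piFinset_univ] at this
        rw [← this]
        exact Finset.prod_eq_one fun i _ => C.wE_sum
      set Bd := ∑ y, |C.h y| + (∑ e : C.E, supNorm (C.theta e)) * k with hBd
      refine (Finset.abs_sum_le_sum_abs _ _).trans ?_
      calc ∑ e : Fin k → C.E, |(∏ i, C.wE (e i)) * ∑ y : Fin C.nH, C.wH y *
              siteF m (Xj j) (C.h y) (fun i => C.theta (e i))| ≤
            ∑ e : Fin k → C.E, (∏ i, C.wE (e i)) * Bd := by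
            refine Finset.sum_le_sum fun e _ => ?_
            rw [abs_mul, abs_of_nonneg (hw e)]
            refine mul_le_mul_of_nonneg_left ?_ (hw e)
            refine (Finset.abs_sum_le_sum_abs _ _).trans ?_
            calc ∑ y : Fin C.nH, |C.wH y * siteF m (Xj j) (C.h y) (fun i => C.theta (e i))| ≤
                  ∑ y : Fin C.nH, C.wH y * Bd := by
                  refine Finset.sum_le_sum fun y _ => ?_
                  rw [abs_mul, abs_of_nonneg (C.wH_nonneg y)]
                  exact mul_le_mul_of_nonneg_left (hb e y) (C.wH_nonneg y)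
              _ = Bd := by rw [← Finset.sum_mul, C.wH_sum, one_mul]
        _ = Bd := by rw [← Finset.sum_mul, hsum, one_mul]
    · refine tendsto_finsetSum _ fun e _ => Tendsto.const_mul _ ?_
      refine tendsto_finsetSum _ fun y _ => Tendsto.const_mul _ ?_
      exact siteF_tendsto hm hm1 hX hXj hlim _ _
  · refine tendsto_finsetSum _ fun e _ => Tendsto.const_mul _ ?_
    exact PsiE_tendsto hm hm1 hX hXj hlim _

end Crest.Agent.SGG
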