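import Mathlib

/-!
# Samplers for finite laws on the unit interval (S0192, part G, task G10)

Proof: for a probability vector `w : Fin n → ℝ` let `c i = ∑_{j<i} w j`; `g x` = the least `i`
with `x < c (i+1)` (and the last index with `x = 1`), `g ⁻¹ {i}` differs from `[c i, c (i+1))`
by a null set. (Any other construction is fine, e.g. induction on `n`.)
-/

set_option autoImplicit false

open MeasureTheory

namespace Crest.Agent.SGG

theorem exists_sampler_one {n : ℕ} (w : Fin n → ℝ) (h0 : ∀ s, 0 ≤ w s) (h1 : ∑ s, w s = 1) :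
    ∃ g : unitInterval → Fin n, Measurable g ∧
      ∀ s, (volume : Measure unitInterval) (g ⁻¹' {s}) = ENNReal.ofReal (w s) := by
  let p : PMF (Fin n) := PMF.ofFintype (fun s => ENNReal.ofReal (w s)) (by
    rw [← ENNReal.ofReal_sum_of_nonneg (fun s _ => h0 s), h1, ENNReal.ofReal_one])
  have hn : Nonempty (Fin n) := by
    by_contra hne
    rw [not_nonempty_iff] at hne
    simp at h1
  obtain ⟨f, hf, hmap⟩ := p.toMeasure.exists_measurable_map_eq
  refine ⟨f, hf, fun s => ?_⟩
  rw [← Measure.map_apply hf (measurableSet_singleton s), hmap,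
    PMF.toMeasure_apply_singleton _ _ (measurableSet_singleton s)]
  rfl

theorem exists_sampler {n : ℕ} (κ : List (Fin n) → Fin n → ℝ) (h0 : ∀ H s, 0 ≤ κ H s)
    (h1 : ∀ H, ∑ s, κ H s = 1) :
    ∃ g : List (Fin n) → unitInterval → Fin n, (∀ H, Measurable (g H)) ∧
      ∀ H s, (volume : Measure unitInterval) (g H ⁻¹' {s}) = ENNReal.ofReal (κ H s) := by
  choose g hg hs using fun H => exists_sampler_one (κ H) (h0 H) (h1 H)
  exact ⟨g, hg, hs⟩

end Crest.Agent.SGG
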