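import Mathlib
import Crest.Agent.SGG_Defs
import Crest.Agent.SGG_Eval
import Crest.Agent.SGG_Chain
import Crest.Agent.SGG_Quant
import Crest.Agent.SGG_Disc
import Crest.Agent.SGG_Lim

/-!
# Realisation of finite trials; the upper bound for measurable trials (S0192, part G)
-/

set_option autoImplicit false

open MeasureTheory Filter Topology
open Crest.ProbabilityR.Diluted

namespace Crest.Agent.SGG

variable {p : ℕ}

/-- The functional of a realised chain trial. -/
theorem functional_realised (C : Core p) (α : ℝ) (t : Trial)
    (g : List (Fin t.nS) → unitInterval → Fin t.nS) (hg : ∀ H, Measurable (g H))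
    (hlaw : ∀ H s, (volume : Measure unitInterval) (g H ⁻¹' {s}) = ENNReal.ofReal (t.κ H s)) :
    trialFunctional p α C.interLaw C.fieldLaw t.r t.m
      (fun u => t.X (hist g u (t.r + 1))) = C.functional α t := by
  rw [trialFunctional_core C α (fun d => (t.adm.2 d).1) (measurable_hist_comp g hg t.X (t.r + 1))]
  unfold Core.functional
  have h1 : ∀ (k : ℕ) (e : Fin k → C.E) (y : Fin C.nH),
      siteF t.m (fun u => t.X (hist g u (t.r + 1))) (C.h y) (fun j => C.theta (e j)) =
      t.logT0 (L := Fin k × Fin (p - 1))
          (fun H => siteTerm (C.h y) (fun j => C.theta (e j)) (fun j l => t.X (H (j, l)))) := by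
    intro k e y
    exact chain_eval t g hg hlaw (L := Fin k × Fin (p - 1))
      (fun H => siteTerm (C.h y) (fun j => C.theta (e j)) (fun j l => t.X (H (j, l))))
  have h2 : ∀ e : C.E, PsiE t.m (fun u => t.X (hist g u (t.r + 1))) (C.theta e) =
      t.logT0 (L := Fin p) (fun H => edgeTerm (C.theta e) (fun l => t.X (H l))) := by
    intro e
    exact chain_eval t g hg hlaw (L := Fin p)
      (fun H => edgeTerm (C.theta e) (fun l => t.X (H l)))
  simp_rw [h1, h2]

/-- Every finite trial is realised by a measurable one. -/
theorem exists_realisation (C : Core p) (α : ℝ) (t : Trial) :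
    ∃ X : (Fin (t.r + 1) → unitInterval) → ℝ, Measurable X ∧
      trialFunctional p α C.interLaw C.fieldLaw t.r t.m X = C.functional α t := by
  obtain ⟨g, hg, hlaw⟩ := exists_sampler t.κ t.κ_nonneg t.κ_sum
  exact ⟨_, measurable_hist_comp g hg t.X (t.r + 1), functional_realised C α t g hg hlaw⟩

/-- Position `i` of the level order in the list of a full history (most recent first). -/
theorem hist_const_length {n r : ℕ} (D : unitInterval → Fin n) (u : Fin (r + 1) → unitInterval) :
    ∀ d ≤ r + 1, (hist (fun _ => D) u d).length = d := by
  intro d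
  induction d with
  | zero => intro _; rw [hist_zero]; rfl
  | succ d ih =>
    intro h
    rw [hist_succ _ _ (by omega), List.length_cons, ih (by omega)]

theorem hist_const_reverse_get {n r : ℕ} (D : unitInterval → Fin n)
    (u : Fin (r + 1) → unitInterval) :
    ∀ d ≤ r + 1, ∀ i, (hi : i < d) → (hr : i < r + 1) →
      (hist (fun _ => D) u d).reverse[i]? = some (D (u ⟨i, hr⟩)) := by
  intro d
  induction d with
  | zero => intro _ i hi; omega
  | succ d ih =>
    intro h i hi hr
    rw [hist_succ _ _ (by omega), List.reverse_cons]
    by_cases hid : i < d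
    · rw [List.getElem?_append_left (by rw [List.length_reverse, hist_const_length D u d (by omega)]; exact hid)]
      exact ih (by omega) i hid hr
    · have e : i = d := by omega
      subst e
      rw [List.getElem?_append_right (by rw [List.length_reverse, hist_const_length D u i (by omega)])]
      rw [List.length_reverse, hist_const_length D u i (by omega)]
      simp

/-- The product trial of a discretised message. -/
theorem exists_product_trial (C : Core p) (α : ℝ) {r : ℕ} {m : Fin r → ℝ}
    (hm : AdmissibleExponents m) {n : ℕ} (D : unitInterval → Fin n) (hD : Measurable D)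
    (Y : (Fin (r + 1) → Fin n) → ℝ) :
    ∃ t : Trial, C.functional α t =
      trialFunctional p α C.interLaw C.fieldLaw r m (fun u => Y (fun i => D (u i))) := by
  classical
  have hn : 0 < n := (D 0).pos
  let κ : List (Fin n) → Fin n → ℝ := fun _ s => (volume : Measure unitInterval).real (D ⁻¹' {s})
  have hκ : ∀ s, (volume : Measure unitInterval) (D ⁻¹' {s}) =
      ENNReal.ofReal ((volume : Measure unitInterval).real (D ⁻¹' {s})) := by
    intro s
    rw [ofReal_measureReal]
  let t : Trial :=
    { r := r
      m := m
      nS := n
      κ := κ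
      X := fun l => Y (fun i => (l.reverse[(i : ℕ)]?).getD ⟨0, hn⟩)
      adm := hm
      κ_nonneg := fun _ _ => measureReal_nonneg
      κ_sum := by
        intro _
        have h1 : ∑ s : Fin n, (volume : Measure unitInterval).real (D ⁻¹' {s}) =
            (volume : Measure unitInterval).real (⋃ s ∈ (Finset.univ : Finset (Fin n)),
              D ⁻¹' {s}) := by
          rw [measureReal_biUnion_finset]
          · intro a _ b _ hab
            exact Disjoint.preimage D (by simpa using hab)
          · intro s _
            exact hD (measurableSet_singleton s)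
        have h2 : (⋃ s ∈ (Finset.univ : Finset (Fin n)), D ⁻¹' {s}) = Set.univ := by
          ext x
          simp
        show ∑ s : Fin n, (volume : Measure unitInterval).real (D ⁻¹' {s}) = 1
        rw [h1, h2]
        simp }
  refine ⟨t, ?_⟩
  rw [← functional_realised C α t (fun _ => D) (fun _ => hD) (fun _ s => hκ s)]
  have e : (fun u : Fin (t.r + 1) → unitInterval => t.X (hist (fun _ => D) u (t.r + 1))) =
      fun u => Y (fun i => D (u i)) := by
    funext u
    show Y (fun i => ((hist (fun _ => D) u (r + 1)).reverse[(i : ℕ)]?).getD ⟨0, hn⟩) = _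
    congr 1
    funext i
    rw [hist_const_reverse_get D u (r + 1) le_rfl i i.2 i.2]
    rfl
  rw [e]

/-- Upper bound for all measurable trials. -/
theorem ub_measurable (C : Core p) {α : ℝ} (hα : 0 ≤ α) (hUB : CoreUB p α C) {r : ℕ}
    {m : Fin r → ℝ} (hm : AdmissibleExponents m) {X : (Fin (r + 1) → unitInterval) → ℝ}
    (hX : Measurable X) {N : ℕ} (hN : 1 ≤ N) :
    C.pressure α N ≤ trialFunctional p α C.interLaw C.fieldLaw r m X := by
  obtain ⟨n, D, Y, hD, hlim⟩ := exists_disc X hX
  have hmeas : ∀ j, Measurable (fun u : Fin (r + 1) → unitInterval => Y j (fun i => D j (u i))) := by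
    intro j
    have h1 : Measurable (fun u : Fin (r + 1) → unitInterval => fun i => D j (u i)) :=
      measurable_pi_lambda _ fun i => (hD j).comp (measurable_pi_apply i)
    exact (measurable_of_finite (Y j)).comp h1
  refine ge_of_tendsto (trialFunctional_tendsto C hα (fun d => (hm.2 d).1)
    (fun d => (hm.2 d).2.le) hX hmeas hlim) (Eventually.of_forall fun j => ?_)
  obtain ⟨t, ht⟩ := exists_product_trial C α hm (D j) (hD j) (Y j)
  rw [← ht]
  exact hUB t N hN

end Crest.Agent.SGG
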