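import Mathlib
import Crest.Agent.SGG_Defs
import Crest.Agent.SGG_PF
import Crest.Agent.SGG_LS
import Crest.Agent.SGG_TF
import Crest.Agent.SGG_Eval
import Crest.Agent.SGG_Real
import Crest.Agent.SGG_Mu
import Crest.Agent.SGG_Nu

/-!
# Part G of S0192: the full theorem from the core theorem
-/

set_option autoImplicit false

open MeasureTheory ProbabilityTheory Filter Topology
open Crest.ProbabilityR.Diluted

namespace Crest.Agent.SGG

variable {p : ℕ}

/-- Replace the field law of a core model. -/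
noncomputable def Core.setField (C : Core p) {n : ℕ} (w h : Fin n → ℝ) (hw : ∀ i, 0 ≤ w i)
    (hs : ∑ i, w i = 1) : Core p :=
  { nB := C.nB, nF := C.nF, nH := n, wB := C.wB, wF := C.wF, wH := w, b := C.b, f := C.f, h := h,
    q0 := C.q0, wB_nonneg := C.wB_nonneg, wF_nonneg := C.wF_nonneg, wH_nonneg := hw,
    wB_sum := C.wB_sum, wF_sum := C.wF_sum, wH_sum := hs, q0_nonneg := C.q0_nonneg,
    q0_lt := C.q0_lt, bound := C.bound, mom := C.mom }

theorem approx_all (hp : 0 < p) {α : ℝ} (hα : 0 ≤ α) (μ : Measure (Inter p))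
    [IsProbabilityMeasure μ] (ν : Measure ℝ) [IsProbabilityMeasure ν]
    (hμ : Integrable (fun θ => supNorm θ) μ) (hν : Integrable (fun x : ℝ => x) ν)
    (hfac : HasFactorization p μ) {ε : ℝ} (hε : 0 < ε) :
    ∃ (C : Core p) (κ : ℝ),
      (∀ N : ℕ, 1 ≤ N → |Crest.ProbabilityR.Diluted.pressure p α μ ν N - (C.pressure α N + κ)| ≤ ε) ∧
      ∀ (r : ℕ) (m : Fin r → ℝ) (X : (Fin (r + 1) → unitInterval) → ℝ), AdmissibleExponents m →
        Measurable X → |trialFunctional p α μ ν r m X -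
          (trialFunctional p α C.interLaw C.fieldLaw r m X + κ)| ≤ ε := by
  have hp1 : (1 : ℝ) ≤ p := by exact_mod_cast hp
  set K : ℝ := α * (2 * p) + 1 with hK
  have hKpos : 0 < K := by positivity
  obtain ⟨Ω, mΩ, P, hP, Θ, Θ', c, C0, hΘ, hΘ', hc, hmap, hmap', hci, hi, hi', hle⟩ :=
    approx_mu hp μ hμ hfac (show 0 < ε / 2 / K by positivity)
  obtain ⟨n, w, h, H', hH', hw, hs, hmapν, hH'i, hHle⟩ := approx_nu ν hν (half_pos hε)
  set C : Core p := C0.setField w h hw hs with hC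
  have eI : C.interLaw = P.map Θ' := hmap'.symm
  have eF : C.fieldLaw = ν.map H' := hmapν.symm
  -- the shifted interaction
  have hΘc : Measurable (fun ω s => Θ' ω s + c ω) := by
    refine measurable_pi_lambda _ fun s => ?_
    exact ((measurable_pi_apply s).comp hΘ').add hc
  have hi'' : Integrable (fun ω => supNorm (fun s => Θ' ω s + c ω)) P := by
    refine (hi'.add hci.abs).mono' (measurable_supNorm.comp hΘc).aestronglyMeasurable
      (Eventually.of_forall fun ω => ?_)
    rw [Real.norm_eq_abs, abs_of_nonneg (supNorm_nonneg _)]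
    refine supNorm_le fun s => (abs_add_le _ _).trans (add_le_add_left (abs_le_supNorm _ _) _)
  have hFprob : IsProbabilityMeasure (ν.map H') := Measure.isProbabilityMeasure_map hH'.aemeasurable
  have hFi : Integrable (fun x : ℝ => x) (ν.map H') := integrable_id_map ν hH' hH'i
  have hnonneg : 0 ≤ ∫ ω, supNorm (fun s => Θ ω s - (Θ' ω s + c ω)) ∂P :=
    integral_nonneg fun _ => supNorm_nonneg _
  refine ⟨C, α * ∫ ω, c ω ∂P, fun N hN => ?_, fun r m X hm hX => ?_⟩
  · have h1 := pressure_coupling P ν hΘ hΘc hi hi'' (H := fun x => x) (H' := H') measurable_id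
      hH' hν hH'i hα hN
    rw [hmap, Measure.map_id' , pressure_shift P hΘ' hi' hc hci (ν.map H') hFi hα hN, ← eI, ← eF,
      pressure_core C α hN] at h1
    refine h1.trans ?_
    have h2 : α * ∫ ω, supNorm (fun s => Θ ω s - (Θ' ω s + c ω)) ∂P ≤ α * (ε / 2 / K) :=
      mul_le_mul_of_nonneg_left hle hα
    have h3 : α * (ε / 2 / K) ≤ ε / 2 := by
      rw [← mul_div_assoc, div_le_iff₀ hKpos]
      nlinarith [mul_nonneg hα (show (0:ℝ) ≤ 2 * p - 1 by linarith), half_pos hε]
    linarith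
  · have hm0 : ∀ d, 0 < m d := fun d => (hm.2 d).1
    have h1 := trialFunctional_coupling hm0 hX P ν hΘ hΘc hi hi'' (H := fun x => x) (H' := H')
      measurable_id hH' hν hH'i hα hp
    rw [hmap, Measure.map_id', trialFunctional_shift hm0 hX P hΘ' hi' hc hci (ν.map H') hFi hα,
      ← eI, ← eF] at h1
    refine h1.trans ?_
    have h0 : 0 ≤ α * (2 * p - 1) := mul_nonneg hα (by linarith)
    have h2 : α * (2 * p - 1) * ∫ ω, supNorm (fun s => Θ ω s - (Θ' ω s + c ω)) ∂P ≤
        α * (2 * p - 1) * (ε / 2 / K) := mul_le_mul_of_nonneg_left hle h0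
    have h3 : α * (2 * p - 1) * (ε / 2 / K) ≤ ε / 2 := by
      rw [← mul_div_assoc, div_le_iff₀ hKpos]
      nlinarith [half_pos hε]
    linarith

/-- The full theorem from the core theorem. -/
theorem main_of_core (hp : 0 < p) {α : ℝ} (hα : 0 ≤ α) (μ : Measure (Inter p))
    [IsProbabilityMeasure μ] (ν : Measure ℝ) [IsProbabilityMeasure ν]
    (hμ : Integrable (fun θ => supNorm θ) μ) (hν : Integrable (fun x : ℝ => x) ν)
    (hfac : HasFactorization p μ) (hUB : ∀ C : Core p, CoreUB p α C)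
    (hLB : ∀ C : Core p, CoreLB p α C) :
    ∃ F : ℝ, Tendsto (Crest.ProbabilityR.Diluted.pressure p α μ ν) atTop (nhds F) ∧
      IsGLB {B : ℝ | ∃ (r : ℕ) (m : Fin r → ℝ) (X : (Fin (r + 1) → unitInterval) → ℝ),
        AdmissibleExponents m ∧ Measurable X ∧ B = trialFunctional p α μ ν r m X} F := by
  set S : Set ℝ := {B : ℝ | ∃ (r : ℕ) (m : Fin r → ℝ) (X : (Fin (r + 1) → unitInterval) → ℝ),
        AdmissibleExponents m ∧ Measurable X ∧ B = trialFunctional p α μ ν r m X} with hS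
  -- upper bound
  have ub : ∀ N : ℕ, 1 ≤ N → ∀ B ∈ S, Crest.ProbabilityR.Diluted.pressure p α μ ν N ≤ B := by
    rintro N hN B ⟨r, m, X, hm, hX, rfl⟩
    refine le_of_forall_pos_le_add fun ε hε => ?_
    obtain ⟨C, κ, h1, h2⟩ := approx_all hp hα μ ν hμ hν hfac (half_pos hε)
    have h3 := (abs_le.1 (h1 N hN)).2
    have h4 := (abs_le.1 (h2 r m X hm hX)).1
    have h5 := ub_measurable C hα (hUB C) hm hX hN
    linarith
  have hne : S.Nonempty := by
    refine ⟨_, 0, fun d => d.elim0, fun _ => 0, ⟨?_, ?_⟩, measurable_const, rfl⟩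
    · intro a; exact a.elim0
    · intro a; exact a.elim0
  have hbdd : BddBelow S := ⟨_, fun B hB => ub 1 le_rfl B hB⟩
  have hglb : IsGLB S (sInf S) := isGLB_csInf hne hbdd
  refine ⟨sInf S, ?_, hglb⟩
  have hle : ∀ N : ℕ, 1 ≤ N → Crest.ProbabilityR.Diluted.pressure p α μ ν N ≤ sInf S :=
    fun N hN => le_csInf hne fun B hB => ub N hN B hB
  rw [Metric.tendsto_atTop]
  intro ε hε
  obtain ⟨C, κ, h1, h2⟩ := approx_all hp hα μ ν hμ hν hfac (show 0 < ε / 4 by positivity)
  obtain ⟨K₀, hK₀⟩ := hLB C (ε / 4) (by positivity)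
  refine ⟨max K₀ 1, fun K hK => ?_⟩
  have hK1 : 1 ≤ K := (le_max_right _ _).trans hK
  obtain ⟨t, ht⟩ := hK₀ K ((le_max_left _ _).trans hK)
  obtain ⟨X, hX, hXt⟩ := exists_realisation C α t
  have h3 := (abs_le.1 (h1 K hK1)).1
  have h4 := (abs_le.1 (h2 t.r t.m X t.adm hX)).2
  have h5 : sInf S ≤ trialFunctional p α μ ν t.r t.m X :=
    csInf_le hbdd ⟨t.r, t.m, X, t.adm, hX, rfl⟩
  have h6 := hle K hK1
  rw [Real.dist_eq, abs_lt]
  constructor <;> linarith

end Crest.Agent.SGG
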