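import Crest.Agent.SG_P

/-! # SG_P2 : Poisson numbers of i.i.d. factors, superposition (task SG-P2) -/

set_option autoImplicit false
noncomputable section
open scoped BigOperators
open Classical
open Crest.ProbabilityR.Diluted Crest.Agent.SGG
namespace Crest.SG

/-! ### Poisson numbers of i.i.d. factors

`AvN π w Θ n u = E Θ(u · w(e_1) ⋯ w(e_n))` for i.i.d. `e_i` of law `π`. -/

section ops
variable {E U : Type} [Fintype E] [CommMonoid U]

def AvN (π : E → ℝ) (w : E → U) (Θ : U → ℝ) (n : ℕ) (u : U) : ℝ :=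
  ∑ e : Fin n → E, (∏ i, π (e i)) * Θ (u * ∏ i, w (e i))

/-- Poisson number of factors. -/
def PoiF (lam : ℝ) (π : E → ℝ) (w : E → U) (Θ : U → ℝ) (u : U) : ℝ :=
  Poi lam (fun n => AvN π w Θ n u)

/-- `Θ` changes by at most `C` when one factor is added. -/
def LipF (w : E → U) (C : ℝ) (Θ : U → ℝ) : Prop := ∀ u e, |Θ (u * w e) - Θ u| ≤ C

theorem AvN_zero (π : E → ℝ) (w : E → U) (Θ : U → ℝ) (u : U) : AvN π w Θ 0 u = Θ u := by
  simp [AvN]

theorem AvN_succ (π : E → ℝ) (w : E → U) (Θ : U → ℝ) (n : ℕ) (u : U) :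
    AvN π w Θ (n + 1) u = ∑ e, π e * AvN π w Θ n (u * w e) := by
  unfold AvN
  rw [← (Fin.consEquiv (fun _ : Fin (n + 1) => E)).sum_comp, Fintype.sum_prod_type]
  refine Finset.sum_congr rfl fun e _ => ?_
  rw [Finset.mul_sum]
  refine Finset.sum_congr rfl fun f _ => ?_
  simp only [Fin.consEquiv, Equiv.coe_fn_mk, Fin.prod_univ_succ, Fin.cons_zero, Fin.cons_succ]
  rw [mul_assoc, mul_assoc u]

/-- one averaging step, as a linear operator. -/
def P2op (π : E → ℝ) (w : E → U) : Module.End ℝ (U → ℝ) where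
  toFun Θ := fun u => ∑ e, π e * Θ (u * w e)
  map_add' Θ Θ' := by
    funext u
    simp [mul_add, Finset.sum_add_distrib]
  map_smul' c Θ := by
    funext u
    simp only [Pi.smul_apply, smul_eq_mul, RingHom.id_apply, Finset.mul_sum]
    exact Finset.sum_congr rfl fun e _ => by ring

theorem P2op_apply (π : E → ℝ) (w : E → U) (Θ : U → ℝ) (u : U) :
    P2op π w Θ u = ∑ e, π e * Θ (u * w e) := rfl

theorem AvN_eq_pow (π : E → ℝ) (w : E → U) (Θ : U → ℝ) (n : ℕ) :
    AvN π w Θ n = ((P2op π w) ^ n) Θ := by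
  induction n with
  | zero => funext u; rw [AvN_zero]; rfl
  | succ n ih =>
    funext u
    rw [AvN_succ, pow_succ', Module.End.mul_apply, P2op_apply, ← ih]

theorem P2op_comm (π π' : E → ℝ) (w : E → U) : Commute (P2op π w) (P2op π' w) := by
  refine LinearMap.ext fun Θ => funext fun u => ?_
  simp only [Module.End.mul_apply, P2op_apply, Finset.mul_sum]
  rw [Finset.sum_comm]
  refine Finset.sum_congr rfl fun e _ => Finset.sum_congr rfl fun e' _ => ?_
  rw [mul_assoc u, mul_assoc u, mul_comm (w e')]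
  ring

theorem AvN_succ' (π : E → ℝ) (w : E → U) (Θ : U → ℝ) (n : ℕ) (u : U) :
    AvN π w Θ (n + 1) u = AvN π w (fun u' => ∑ e, π e * Θ (u' * w e)) n u := by
  rw [AvN_eq_pow, AvN_eq_pow, pow_succ, Module.End.mul_apply]
  rfl

theorem AvN_growth {π : E → ℝ} (h0 : ∀ e, 0 ≤ π e) (h1 : ∑ e, π e = 1) {w : E → U} {C : ℝ}
    (hC : 0 ≤ C) {Θ : U → ℝ} (hΘ : LipF w C Θ) (n : ℕ) (u : U) :
    |AvN π w Θ n u - Θ u| ≤ C * n := by
  induction n generalizing u with
  | zero => simp [AvN_zero]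
  | succ n ih =>
    rw [AvN_succ]
    have e1 : (∑ e, π e * AvN π w Θ n (u * w e)) - Θ u =
        ∑ e, π e * (AvN π w Θ n (u * w e) - Θ u) := by
      simp only [mul_sub, Finset.sum_sub_distrib, ← Finset.sum_mul, h1, one_mul]
    rw [e1]
    calc |∑ e, π e * (AvN π w Θ n (u * w e) - Θ u)|
        ≤ ∑ e, |π e * (AvN π w Θ n (u * w e) - Θ u)| := Finset.abs_sum_le_sum_abs _ _
      _ ≤ ∑ e, π e * (C * n + C) := by
          refine Finset.sum_le_sum fun e _ => ?_
          rw [abs_mul, abs_of_nonneg (h0 e)]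
          refine mul_le_mul_of_nonneg_left ?_ (h0 e)
          have := abs_sub_le (AvN π w Θ n (u * w e)) (Θ (u * w e)) (Θ u)
          linarith [ih (u * w e), hΘ u e]
      _ = C * ((n + 1 : ℕ) : ℝ) := by
          rw [← Finset.sum_mul, h1]; push_cast; ring

/-- `|AvN| ≤ |Θ u| + C n` -/
theorem P2_abs_AvN {π : E → ℝ} (h0 : ∀ e, 0 ≤ π e) (h1 : ∑ e, π e = 1) {w : E → U} {C : ℝ}
    (hC : 0 ≤ C) {Θ : U → ℝ} (hΘ : LipF w C Θ) (n : ℕ) (u : U) :
    |AvN π w Θ n u| ≤ |Θ u| + C * n := by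
  have := AvN_growth h0 h1 hC hΘ n u
  have h2 := abs_sub_abs_le_abs_sub (AvN π w Θ n u) (Θ u)
  linarith

theorem P2_linG {π : E → ℝ} (h0 : ∀ e, 0 ≤ π e) (h1 : ∑ e, π e = 1) {w : E → U} {C : ℝ}
    (hC : 0 ≤ C) {Θ : U → ℝ} (hΘ : LipF w C Θ) (u : U) :
    LinG (|Θ u| + C) (fun n => AvN π w Θ n u) := by
  intro n
  have := P2_abs_AvN h0 h1 hC hΘ n u
  have h3 : 0 ≤ |Θ u| * n := by positivity
  nlinarith

/-- averages of Lipschitz functions are Lipschitz -/
theorem P2_LipF_AvN {π : E → ℝ} (h0 : ∀ e, 0 ≤ π e) (h1 : ∑ e, π e = 1) {w : E → U} {C : ℝ}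
    {Θ : U → ℝ} (hΘ : LipF w C Θ) (n : ℕ) : LipF w C (AvN π w Θ n) := by
  intro u e
  induction n generalizing u with
  | zero => rw [AvN_zero, AvN_zero]; exact hΘ u e
  | succ n ih =>
    rw [AvN_succ, AvN_succ, ← Finset.sum_sub_distrib]
    calc |∑ x, (π x * AvN π w Θ n (u * w e * w x) - π x * AvN π w Θ n (u * w x))|
        ≤ ∑ x, |π x * AvN π w Θ n (u * w e * w x) - π x * AvN π w Θ n (u * w x)| :=
          Finset.abs_sum_le_sum_abs _ _
      _ ≤ ∑ x, π x * C := by
          refine Finset.sum_le_sum fun x _ => ?_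
          rw [← mul_sub, abs_mul, abs_of_nonneg (h0 x)]
          refine mul_le_mul_of_nonneg_left ?_ (h0 x)
          rw [mul_right_comm]
          exact ih (u * w x)
      _ = C := by rw [← Finset.sum_mul, h1, one_mul]

theorem P2_one_add_summable {lam : ℝ} (h : 0 ≤ lam) :
    Summable (fun n : ℕ => poissonWeight lam n * ((n : ℝ) + 1)) :=
  Poi_summable (C := 1) h (fun n => by
    rw [abs_of_nonneg (by positivity)]; linarith)

theorem P2_tsum_antidiag (f : ℕ × ℕ → ℝ) (hf : Summable f) :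
    ∑' n, ∑ p ∈ Finset.HasAntidiagonal.antidiagonal n, f p = ∑' p, f p := by
  conv_lhs => congr; ext; rw [← Finset.sum_finset_coe, ← tsum_fintype (L := .unconditional _)]
  rw [← Finset.HasAntidiagonal.sigmaAntidiagonalEquivProd.tsum_eq f]
  exact ((Finset.HasAntidiagonal.sigmaAntidiagonalEquivProd.summable_iff.2 hf).tsum_sigma'
    (fun n => (hasSum_fintype _).summable)).symm

/-- superposition: a Poisson number of factors of law `π` with
`lam π = lam0 π0 + lam1 π1` is the product of two independent Poisson families. -/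
theorem PoiF_superpose {π π0 π1 : E → ℝ} {lam lam0 lam1 : ℝ} (hl0 : 0 ≤ lam0) (hl1 : 0 ≤ lam1)
    (hl : lam = lam0 + lam1) (hmix : ∀ e, lam * π e = lam0 * π0 e + lam1 * π1 e)
    (h0 : ∀ e, 0 ≤ π0 e) (h0s : ∑ e, π0 e = 1) (h1 : ∀ e, 0 ≤ π1 e) (h1s : ∑ e, π1 e = 1)
    {w : E → U} {C : ℝ} (hC : 0 ≤ C) {Θ : U → ℝ} (hΘ : LipF w C Θ) (u : U) :
    PoiF lam π w Θ u = PoiF lam1 π1 w (fun u' => PoiF lam0 π0 w Θ u') u := by
  set X : ℕ → ℕ → ℝ := fun k l => AvN π1 w (AvN π0 w Θ l) k u with hX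
  set f : ℕ × ℕ → ℝ := fun p => (poissonWeight lam1 p.1 * poissonWeight lam0 p.2) * X p.1 p.2
    with hf
  -- summability of the double family
  have hXb : ∀ k l, |X k l| ≤ (|Θ u| + C) * (((k : ℝ) + 1) * ((l : ℝ) + 1)) := by
    intro k l
    have e1 := P2_abs_AvN h1 h1s hC (P2_LipF_AvN h0 h0s hΘ l) k u
    have e2 := P2_abs_AvN h0 h0s hC hΘ l u
    have e3 : 0 ≤ |Θ u| := abs_nonneg _
    have e4 : 0 ≤ (k : ℝ) := by positivity
    have e5 : 0 ≤ (l : ℝ) := by positivity
    have e6 : 0 ≤ (k : ℝ) * l := by positivity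
    calc |X k l| ≤ |Θ u| + C * l + C * k := by linarith
      _ ≤ _ := by nlinarith [mul_nonneg e3 e4, mul_nonneg e3 e5, mul_nonneg e3 e6,
                  mul_nonneg hC e6]
  have hfs : Summable f := by
    have hs := ((P2_one_add_summable hl1).mul_of_nonneg (P2_one_add_summable hl0)
      (fun n => mul_nonneg (poissonWeight_nonneg hl1 n) (by positivity))
      (fun n => mul_nonneg (poissonWeight_nonneg hl0 n) (by positivity))).mul_left (|Θ u| + C)
    refine Summable.of_norm_bounded hs fun p => ?_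
    rw [Real.norm_eq_abs, hf]
    simp only
    rw [abs_mul, abs_mul, abs_of_nonneg (poissonWeight_nonneg hl1 _),
      abs_of_nonneg (poissonWeight_nonneg hl0 _)]
    have := mul_le_mul_of_nonneg_left (hXb p.1 p.2)
      (mul_nonneg (poissonWeight_nonneg hl1 p.1) (poissonWeight_nonneg hl0 p.2))
    refine this.trans (le_of_eq ?_)
    ring
  -- the diagonal identity
  have hdiag : ∀ n, poissonWeight lam n * AvN π w Θ n u =
      ∑ p ∈ Finset.HasAntidiagonal.antidiagonal n, f p := by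
    intro n
    have hop : lam • P2op π w = lam1 • P2op π1 w + lam0 • P2op π0 w := by
      refine LinearMap.ext fun Θ' => funext fun u' => ?_
      simp only [LinearMap.smul_apply, LinearMap.add_apply, Pi.smul_apply, Pi.add_apply,
        smul_eq_mul, P2op_apply, Finset.mul_sum]
      rw [← Finset.sum_add_distrib]
      refine Finset.sum_congr rfl fun e _ => ?_
      rw [← mul_assoc, hmix]; ring
    have hcomm : Commute (lam1 • P2op π1 w) (lam0 • P2op π0 w) :=
      ((P2op_comm π1 π0 w).smul_left lam1).smul_right lam0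
    have hpow := hcomm.add_pow' n
    rw [← hop, smul_pow] at hpow
    have hval := congrFun (congrArg (fun A : Module.End ℝ (U → ℝ) => A Θ) hpow) u
    simp only [LinearMap.smul_apply, Pi.smul_apply, smul_eq_mul, ← AvN_eq_pow] at hval
    have hl' : Real.exp (-lam) = Real.exp (-lam1) * Real.exp (-lam0) := by
      rw [← Real.exp_add, hl]; congr 1; ring
    have hL : poissonWeight lam n * AvN π w Θ n u =
        (Real.exp (-lam) / (Nat.factorial n : ℝ)) * (lam ^ n * AvN π w Θ n u) := by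
      unfold poissonWeight; ring
    rw [hL, hval, LinearMap.sum_apply, Finset.sum_apply, Finset.mul_sum]
    refine Finset.sum_congr rfl fun p hp => ?_
    have hpn : p.1 + p.2 = n := Finset.HasAntidiagonal.mem_antidiagonal.1 hp
    have hch : (n.choose p.1 : ℝ) * ((Nat.factorial p.1 : ℝ) * (Nat.factorial p.2 : ℝ)) =
        (Nat.factorial n : ℝ) := by
      have := Nat.choose_mul_factorial_mul_factorial (Nat.le_add_right p.1 p.2)
      rw [Nat.add_sub_cancel_left, hpn] at this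
      rw [← mul_assoc]
      exact_mod_cast this
    have hx : ((n.choose p.1 • ((lam1 • P2op π1 w) ^ p.1 * (lam0 • P2op π0 w) ^ p.2) :
        Module.End ℝ (U → ℝ)) Θ) u =
        (n.choose p.1 : ℝ) * (lam1 ^ p.1 * (lam0 ^ p.2 * X p.1 p.2)) := by
      rw [hX, ← Nat.cast_smul_eq_nsmul ℝ]
      simp only [AvN_eq_pow]
      simp only [smul_pow, LinearMap.smul_apply, Pi.smul_apply, Module.End.mul_apply, map_smul,
        smul_eq_mul]
      ring
    rw [hx, hf, hl']
    simp only [poissonWeight]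
    have f1 : (Nat.factorial p.1 : ℝ) ≠ 0 := by positivity
    have f2 : (Nat.factorial p.2 : ℝ) ≠ 0 := by positivity
    have f3 : (Nat.factorial n : ℝ) ≠ 0 := by positivity
    rw [← hch]
    have f4 : (n.choose p.1 : ℝ) ≠ 0 := by
      intro h; rw [h, zero_mul] at hch; exact f3 hch.symm
    field_simp
  -- assemble
  have hleft : PoiF lam π w Θ u = ∑' p, f p := by
    unfold PoiF Poi
    rw [tsum_congr hdiag]
    exact P2_tsum_antidiag f hfs
  rw [hleft, hfs.tsum_prod' (fun k => hfs.comp_injective (Prod.mk_right_injective k))]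
  unfold PoiF Poi
  refine tsum_congr fun k => ?_
  have hsl : ∀ u', Summable (fun l => poissonWeight lam0 l * AvN π0 w Θ l u') := fun u' =>
    Poi_summable hl0 (P2_linG h0 h0s hC hΘ u')
  have hlin : AvN π1 w (fun u' => ∑' l, poissonWeight lam0 l * AvN π0 w Θ l u') k u =
      ∑' l, poissonWeight lam0 l * X k l := by
    rw [hX]
    simp only [AvN]
    simp only [← tsum_mul_left]
    rw [← Summable.tsum_finsetSum]
    · refine tsum_congr fun l => ?_
      rw [Finset.mul_sum]
      refine Finset.sum_congr rfl fun e _ => ?_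
      ring
    · intro e _
      exact (hsl _).mul_left _
  refine Eq.trans ?_ (congrArg (fun z => poissonWeight lam1 k * z) hlin.symm)
  rw [← tsum_mul_left]
  refine tsum_congr fun l => ?_
  rw [hf]
  ring

/-- derivative of `PoiF` in the intensity. -/
theorem hasDerivAt_PoiF {π : E → ℝ} (h0 : ∀ e, 0 ≤ π e) (h1 : ∑ e, π e = 1) {w : E → U} {C : ℝ}
    (hC : 0 ≤ C) {Θ : U → ℝ} (hΘ : LipF w C Θ) (u : U) (x : ℝ) :
    HasDerivAt (fun y => PoiF y π w Θ u)
      (PoiF x π w (fun u' => (∑ e, π e * Θ (u' * w e)) - Θ u') u) x := by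
  have h := hasDerivAt_Poi (P2_linG h0 h1 hC hΘ u) x
  have e : (fun n => AvN π w Θ (n + 1) u - AvN π w Θ n u) =
      fun n => AvN π w (fun u' => (∑ e, π e * Θ (u' * w e)) - Θ u') n u := by
    funext n
    rw [AvN_succ', AvN_eq_pow, AvN_eq_pow, AvN_eq_pow]
    have : (fun u' => (∑ e, π e * Θ (u' * w e)) - Θ u') =
      (fun u' => ∑ e, π e * Θ (u' * w e)) - Θ := rfl
    rw [this, map_sub]
    rfl
  rw [e] at h
  exact h

end ops

end Crest.SG
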