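import Crest.Agent.SG_B1a
import Crest.Agent.SG_P2

/-! # SG_CDefs : core systems (definitions for parts C, D, E), see note rid=S0192. -/

set_option autoImplicit false
set_option linter.unusedVariables false

noncomputable section
open scoped BigOperators
open Classical
open Crest.ProbabilityR.Diluted Crest.Agent.SGG
namespace Crest.SG

/-- A frame: everything of a slot system except spins, slots and base root. -/
structure Fr where
  R : ℕ
  N : ℕ
  q : ℕ
  lev : ℕ → ℕ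
  lev_pos : ∀ n, 1 ≤ lev n
  lev_lt : ∀ n, lev n < R
  W : ℕ → Bool → (ℕ → Bool) → ℝ
  W_lo : ∀ b s l, 1 / 2 ≤ W b s l
  W_hi : ∀ b s l, W b s l ≤ 3 / 2

/-- positive weights on spin configurations (a commutative group). -/
abbrev Uk (k : ℕ) : Type := (Fin k → Bool) → {x : ℝ // 0 < x}

/-- slot system with frame `fr`, `k` spins, `L` slots and the given base root. -/
def Fr.sys (fr : Fr) (k L : ℕ) (hk : 0 < k) (hL : 0 < L) (ρ : Type) [Fintype ρ] (pr : ρ → ℝ)
    (h0 : ∀ r, 0 ≤ pr r) (h1 : ∑ r, pr r = 1) (base : ρ → Uk k) : Sys where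
  R := fr.R
  k := k
  L := L
  N := fr.N
  q := fr.q
  k_pos := hk
  L_pos := hL
  lev := fr.lev
  lev_pos := fr.lev_pos
  lev_lt := fr.lev_lt
  W := fr.W
  W_lo := fr.W_lo
  W_hi := fr.W_hi
  ρ := ρ
  fρ := inferInstance
  pr := pr
  pr_nonneg := h0
  pr_sum := h1
  base := fun r σ => (base r σ : ℝ)
  base_pos := fun r σ => (base r σ).2

section core
variable {p : ℕ} (C : Core p)

theorem fac_pos (e : C.E) (s : Fin p → Bool) : 0 < 1 + C.b e.1 * ∏ l, C.f (e.2 l) (s l) := by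
  have h := abs_le.1 (C.bound e.1 e.2 s)
  have := C.q0_lt
  linarith [h.1]

/-- `e^θ` for the interaction `e`. -/
def fac (e : C.E) (s : Fin p → Bool) : {x : ℝ // 0 < x} :=
  ⟨1 + C.b e.1 * ∏ l, C.f (e.2 l) (s l), fac_pos C e s⟩

/-- edges on `k` spins. -/
abbrev Edg (k : ℕ) : Type := C.E × (Fin p → Fin k)

/-- law of an edge: `wE · k^{-p}`. -/
def piE (k : ℕ) (e : Edg C k) : ℝ := C.wE e.1 * (1 / (k : ℝ)) ^ p

/-- weight of an edge. -/
def wEdg (k : ℕ) (e : Edg C k) : Uk k := fun σ => fac C e.1 (fun l => σ (e.2 l))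

/-- field weight. -/
def wFld (k : ℕ) (y : Fin k → Fin C.nH) : Uk k :=
  fun σ => ⟨Real.exp (∑ i, C.h (y i) * spinVal (σ i)), Real.exp_pos _⟩

/-- law of the fields. -/
def prF (k : ℕ) (y : Fin k → Fin C.nH) : ℝ := ∏ i, C.wH (y i)

theorem prF_nonneg (k : ℕ) (y : Fin k → Fin C.nH) : 0 ≤ prF C k y :=
  Finset.prod_nonneg fun i _ => C.wH_nonneg _

theorem prF_sum (k : ℕ) : ∑ y, prF C k y = 1 := by
  unfold prF
  rw [← Fintype.piFinset_univ, ← Finset.prod_univ_sum]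
  simp [C.wH_sum]

/-- the system with deterministic spin weight `u` (and random fields, slots). -/
def uSys (fr : Fr) (k L : ℕ) (hk : 0 < k) (hL : 0 < L) (u : Uk k) : Sys :=
  fr.sys k L hk hL (Fin k → Fin C.nH) (prF C k) (prF_nonneg C k) (prF_sum C k)
    (fun y => u * wFld C k y)

/-- truncated Poisson law on `{0,…,M}`. -/
def qp (lam : ℝ) (M : ℕ) (n : Fin (M + 1)) : ℝ :=
  if (n : ℕ) = 0 then 1 - ∑ i ∈ Finset.range M, poissonWeight lam (i + 1) else poissonWeight lam n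

/-- base root of the core system: number of edges (≤ M), `M` potential edges, fields. -/
abbrev CRoot (k M : ℕ) : Type := Fin (M + 1) × (Fin M → Edg C k) × (Fin k → Fin C.nH)

def prC (k M : ℕ) (lam : ℝ) (r : CRoot C k M) : ℝ :=
  qp lam M r.1 * ((∏ i, piE C k (r.2.1 i)) * prF C k r.2.2)

/-- weight: the first `n` edges are present. -/
def wC (k M : ℕ) (r : CRoot C k M) : Uk k :=
  (∏ i : Fin M, if (i : ℕ) < (r.1 : ℕ) then wEdg C k (r.2.1 i) else 1) * wFld C k r.2.2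

end core

/-- mean of `log T_0`. -/
def Sys.psi (S : Sys) : ℝ := ∑ r, S.prR r * S.lT r

/-- `Q_S(V) = E_{root, v} log T_0^{PL}(V(σ_{v_i}))`. -/
def Sys.QS (S : Sys) (ι : Type) [Fintype ι] (V : (ι → Bool) → ℝ) : ℝ :=
  ∑ r, S.prR r * ∑ v : ι → Fin S.k, (1 / (S.k : ℝ)) ^ (Fintype.card ι) *
    LT0 S.lv S.m (S.PL r) (fun ω => V (fun i => ω.2 (v i)))

/-- `Q_MP(V)`: independent copies of root, site and path for each message. -/
def Sys.QM (S : Sys) (ι : Type) [Fintype ι] (V : (ι → Bool) → ℝ) : ℝ :=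
  ∑ r : ι → S.Root, (∏ i, S.prR (r i)) * ∑ v : ι → Fin S.k, (1 / (S.k : ℝ)) ^ (Fintype.card ι) *
    LT0 (S.lv.pi ι) S.m (fun ω => ∏ i, S.PL (r i) (ω i)) (fun ω => V (fun i => (ω i).2 (v i)))

section core2
variable {p : ℕ} (C : Core p)

/-- site function `½ ∑_ε e^{hε} ∏_j e^{θ_j(τ_j, ε)}` (the new spin is the last coordinate). -/
def Vsite {κ : ℕ} (e : Fin κ → C.E) (y : Fin C.nH) (τ : Fin κ × Fin (p - 1) → Bool) : ℝ :=
  (1 / 2) * ∑ ε : Bool, Real.exp (C.h y * spinVal ε) *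
    ∏ j, (fac C (e j) (fun l => if h : l.val < p - 1 then τ (j, ⟨l.val, h⟩) else ε) : ℝ)

/-- edge function. -/
def Vedge (e : C.E) (τ : Fin p → Bool) : ℝ := (fac C e τ : ℝ)

/-- cavity functional with a general family `Q` of message functionals. -/
def fcav (α : ℝ) (Q : (ι : Type) → [Fintype ι] → ((ι → Bool) → ℝ) → ℝ) : ℝ :=
  Real.log 2 +
    Poi (α * p) (fun κ => ∑ e : Fin κ → C.E, (∏ j, C.wE (e j)) * ∑ y : Fin C.nH, C.wH y *
      Q (Fin κ × Fin (p - 1)) (Vsite C e y)) -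
    α * (p - 1 : ℝ) * ∑ e : C.E, C.wE e * Q (Fin p) (Vedge C e)

end core2

end Crest.SG
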