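import Crest.Agent.SG_E2

/-! # SG_E3 : the chain trial of a slot system (task SG-E3, medium)

States `St = Root × Fin k × Om` (coded in `Fin nSt`). Kernel: from the empty history the law of
(root, site, path) (the path is a dummy); from a history `a :: H'` (most recent first) keep root and
site, new path `~ K_{length H'}(path a, ·)` of `PL root`. -/

set_option autoImplicit false
set_option linter.unusedVariables false
noncomputable section
open scoped BigOperators
open Classical
open Crest.ProbabilityR.Diluted Crest.Agent.SGG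
namespace Crest.SG
local notation "qt" => Crest.ProbabilityR.Diluted.tilt
namespace Sys
variable (S : Sys)

abbrev St (S : Sys) : Type := S.Root × Fin S.k × S.Om

def nSt : ℕ := Fintype.card S.St

def dec (a : Fin S.nSt) : S.St := (Fintype.equivFin S.St).symm a

/-- the kernel. -/
def chK : List (Fin S.nSt) → Fin S.nSt → ℝ
  | [], s => S.prR (S.dec s).1 * (1 / (S.k : ℝ)) * S.PL (S.dec s).1 (S.dec s).2.2
  | a :: H, s => if (S.dec s).1 = (S.dec a).1 ∧ (S.dec s).2.1 = (S.dec a).2.1 then
      Kf S.lv (S.PL (S.dec a).1) H.length (S.dec a).2.2 (S.dec s).2.2 else 0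

/-- the message. -/
def Xm : List (Fin S.nSt) → ℝ
  | [] => 0
  | a :: _ => msg (S.mag (S.dec a).1 (S.dec a).2.1 (S.dec a).2.2)

theorem chK_nil (s : Fin S.nSt) :
    S.chK [] s = S.prR (S.dec s).1 * (1 / (S.k : ℝ)) * S.PL (S.dec s).1 (S.dec s).2.2 := rfl

theorem chK_cons (a : Fin S.nSt) (H : List (Fin S.nSt)) (s : Fin S.nSt) :
    S.chK (a :: H) s = if (S.dec s).1 = (S.dec a).1 ∧ (S.dec s).2.1 = (S.dec a).2.1 then
      Kf S.lv (S.PL (S.dec a).1) H.length (S.dec a).2.2 (S.dec s).2.2 else 0 := rfl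

theorem Xm_cons (a : Fin S.nSt) (H : List (Fin S.nSt)) :
    S.Xm (a :: H) = msg (S.mag (S.dec a).1 (S.dec a).2.1 (S.dec a).2.2) := rfl

theorem chK_nonneg (H : List (Fin S.nSt)) (s : Fin S.nSt) : 0 ≤ S.chK H s := by
  cases H with
  | nil =>
    rw [chK_nil]
    have h1 := S.prR_nonneg (S.dec s).1
    have h2 := ((S.PL_law (S.dec s).1).pos (S.dec s).2.2).le
    positivity
  | cons a H =>
    rw [chK_cons]
    split_ifs
    · exact Kf_nonneg S.lv (S.PL_law _) _ _ _
    · exact le_rfl

theorem E3_sum_dec (f : S.St → ℝ) : ∑ s, f (S.dec s) = ∑ x, f x :=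
  (Fintype.equivFin S.St).symm.sum_comp f

theorem chK_sum (H : List (Fin S.nSt)) : ∑ s, S.chK H s = 1 := by
  cases H with
  | nil =>
    simp only [chK_nil]
    rw [S.E3_sum_dec (fun x => S.prR x.1 * (1 / (S.k : ℝ)) * S.PL x.1 x.2.2)]
    rw [Fintype.sum_prod_type]
    have hk : (S.k : ℝ) ≠ 0 := by exact_mod_cast S.k_pos.ne'
    have h1 : ∀ r : S.Root, ∑ y : Fin S.k × S.Om, S.prR r * (1 / (S.k : ℝ)) * S.PL r y.2 =
        S.prR r := by
      intro r
      rw [Fintype.sum_prod_type]
      simp only [← Finset.mul_sum, (S.PL_law r).sum, mul_one]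
      rw [Finset.sum_const, Finset.card_univ, Fintype.card_fin, nsmul_eq_mul]
      field_simp
    simp only [h1]
    exact S.prR_sum
  | cons a H =>
    simp only [chK_cons]
    rw [S.E3_sum_dec (fun x => if x.1 = (S.dec a).1 ∧ x.2.1 = (S.dec a).2.1 then
      Kf S.lv (S.PL (S.dec a).1) H.length (S.dec a).2.2 x.2.2 else 0)]
    rw [← Kf_sum S.lv (S.PL_law (S.dec a).1) H.length (S.dec a).2.2]
    symm
    refine Finset.sum_of_injOn (fun ω => ((S.dec a).1, (S.dec a).2.1, ω)) ?_ ?_ ?_ ?_
    · intro x _ y _ h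
      simpa using h
    · intro x _
      simp
    · rintro ⟨r, v, ω⟩ _ hx
      rw [if_neg]
      rintro ⟨h1, h2⟩
      apply hx
      refine ⟨ω, by simp, ?_⟩
      simp only at h1 h2
      rw [h1, h2]
    · intro ω _
      simp

theorem adm_m : AdmissibleExponents (fun d : Fin (S.R - 1) => (((d : ℕ) : ℝ) + 1) / S.R) := by
  have hR : (0 : ℝ) < S.R := by exact_mod_cast S.R_pos
  refine ⟨fun d d' h => ?_, fun d => ⟨by positivity, ?_⟩⟩
  · have h' : ((d : ℕ) : ℝ) < ((d' : ℕ) : ℝ) := by exact_mod_cast h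
    show (((d : ℕ) : ℝ) + 1) / S.R < (((d' : ℕ) : ℝ) + 1) / S.R
    exact div_lt_div_of_pos_right (by linarith) hR
  · rw [div_lt_one hR]
    have h1 := d.2
    have h2 : (d : ℕ) + 1 < S.R := by omega
    exact_mod_cast h2

/-- the trial. -/
def trial : Trial where
  r := S.R - 1
  m := fun d => (((d : ℕ) : ℝ) + 1) / S.R
  nS := S.nSt
  κ := S.chK
  X := S.Xm
  adm := S.adm_m
  κ_nonneg := S.chK_nonneg
  κ_sum := S.chK_sum

/-- the terminal functional of the trial. -/
def Wt {ι : Type} [Fintype ι] (V : (ι → Bool) → ℝ) (H : ι → List (Fin S.nSt)) : ℝ :=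
  ∑ τ : ι → Bool, V τ * ∏ i, qt (S.Xm (H i)) (τ i)

/-- coding. -/
def enc (x : S.St) : Fin S.nSt := Fintype.equivFin S.St x

theorem dec_enc (x : S.St) : S.dec (S.enc x) = x := by
  unfold dec enc
  exact Equiv.symm_apply_apply _ _

theorem enc_dec (a : Fin S.nSt) : S.enc (S.dec a) = a := by
  unfold dec enc
  exact Equiv.apply_symm_apply _ _

/-- the chain recursion is the recursion `T` : induction on `n` from the last level,
base case `T_pred`, step `T_step`, `chainT_cons`, sum over the new states = `ce` of the product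
system (`Kf_pi`; the states with the same root and site as `a i` are in bijection with paths). -/
theorem chainT_eq {ι : Type} [Fintype ι] (V : (ι → Bool) → ℝ) (n j : ℕ)
    (hn : j + n = S.R - 1) (a : ι → Fin S.nSt) (H : ι → List (Fin S.nSt))
    (hH : ∀ i, (H i).length = j) :
    chainT S.chK ((List.range n).map (fun i => S.m (j + 1 + i))) (S.Wt V)
      (fun i => a i :: H i) =
    T (S.lv.pi ι) S.m (fun ω => ∏ i, S.PL (S.dec (a i)).1 (ω i))
      (fun ω => V (fun i => (ω i).2 (S.dec (a i)).2.1)) j (fun i => (S.dec (a i)).2.2) := by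
  induction n generalizing j a H with
  | zero =>
    have hj : j = S.R - 1 := by omega
    rw [hj, T_pred]
    simp only [List.range_zero, List.map_nil, chainT_nil]
    rfl
  | succ n ih =>
    have hjR : j < S.R := by omega
    have hlist : (List.range (n + 1)).map (fun i => S.m (j + 1 + i)) =
        S.m (j + 1) :: (List.range n).map (fun i => S.m (j + 1 + 1 + i)) := by
      rw [List.range_succ_eq_map, List.map_cons, List.map_map]
      simp only [add_zero]
      congr 1
      refine List.map_congr_left fun i _ => ?_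
      simp only [Function.comp]
      congr 1
      omega
    rw [hlist, chainT_cons, T_step _ hjR]
    congr 1
    unfold ce
    symm
    refine Finset.sum_of_injOn
      (fun (ω' : ι → S.Om) (i : ι) => S.enc ((S.dec (a i)).1, (S.dec (a i)).2.1, ω' i)) ?_ ?_ ?_ ?_
    · intro x _ y _ h
      funext i
      have := congrFun h i
      have h2 := congrArg S.dec this
      simp only [dec_enc] at h2
      simpa using h2
    · intro x _
      simp
    · intro v _ hv
      have : ∃ i, ¬ ((S.dec (v i)).1 = (S.dec (a i)).1 ∧ (S.dec (v i)).2.1 = (S.dec (a i)).2.1) := by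
        by_contra hcon
        push Not at hcon
        apply hv
        refine ⟨fun i => (S.dec (v i)).2.2, by simp, ?_⟩
        funext i
        show S.enc ((S.dec (a i)).1, (S.dec (a i)).2.1, (S.dec (v i)).2.2) = v i
        rw [← (hcon i).1, ← (hcon i).2]
        exact S.enc_dec (v i)
      obtain ⟨i, hi⟩ := this
      rw [Finset.prod_eq_zero (Finset.mem_univ i) (by rw [chK_cons, if_neg hi]), zero_mul]
    · intro ω' _
      rw [Kf_pi S.lv (fun i => S.PL_law (S.dec (a i)).1)]
      congr 1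
      · refine Finset.prod_congr rfl fun i _ => ?_
        rw [chK_cons, dec_enc, if_pos ⟨rfl, rfl⟩, hH]
      · rw [ih (j + 1) (by omega) _ (fun i => a i :: H i) (fun i => by simp [hH])]
        simp only [dec_enc]

theorem ofFn_m : List.ofFn S.trial.m = (List.range (S.R - 1)).map (fun i => S.m (0 + 1 + i)) := by
  refine List.ext_getElem (by simp [trial]) (fun i h1 h2 => ?_)
  rw [List.getElem_ofFn, List.getElem_map, List.getElem_range]
  show ((i : ℝ) + 1) / S.R = S.m (0 + 1 + i)
  unfold m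
  push_cast
  ring

/-- MAIN RESULT: sum over the level 0 states. -/
theorem logT0_eq_QM (ι : Type) [Fintype ι] (V : (ι → Bool) → ℝ) :
    S.trial.logT0 (fun H : ι → List (Fin S.trial.nS) =>
      ∑ τ : ι → Bool, V τ * ∏ i, qt (S.trial.X (H i)) (τ i)) = S.QM ι V := by
  have h0 : S.trial.logT0 (fun H : ι → List (Fin S.trial.nS) =>
      ∑ τ : ι → Bool, V τ * ∏ i, qt (S.trial.X (H i)) (τ i)) =
      ∑ v : ι → Fin S.nSt, (∏ ω, S.chK [] (v ω)) *
        Real.log (chainT S.chK (List.ofFn S.trial.m) (S.Wt V) (fun ω => [v ω])) := rfl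
  rw [h0, S.ofFn_m]
  have h1 : ∀ v : ι → Fin S.nSt,
      Real.log (chainT S.chK ((List.range (S.R - 1)).map (fun i => S.m (0 + 1 + i))) (S.Wt V)
        (fun ω => [v ω])) =
      LT0 (S.lv.pi ι) S.m (fun ω => ∏ i, S.PL (S.dec (v i)).1 (ω i))
        (fun ω => V (fun i => (ω i).2 (S.dec (v i)).2.1)) := by
    intro v
    rw [S.chainT_eq V (S.R - 1) 0 (by omega) v (fun _ => []) (fun _ => rfl)]
    rw [LT0_eq _ (pathLaw_pi (fun i => S.PL_law (S.dec (v i)).1))]
  simp only [h1]
  -- change of variables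
  set f : (ι → S.Root) → (ι → Fin S.k) → (ι → S.Om) → ℝ := fun r v ω =>
    (∏ i, (S.prR (r i) * (1 / (S.k : ℝ)) * S.PL (r i) (ω i))) *
      LT0 (S.lv.pi ι) S.m (fun ω => ∏ i, S.PL (r i) (ω i))
        (fun ω => V (fun i => (ω i).2 (v i))) with hf
  have h2 : ∑ v : ι → Fin S.nSt, (∏ ω, S.chK [] (v ω)) *
      LT0 (S.lv.pi ι) S.m (fun ω => ∏ i, S.PL (S.dec (v i)).1 (ω i))
        (fun ω => V (fun i => (ω i).2 (S.dec (v i)).2.1)) =
      ∑ x : (ι → S.Root) × ((ι → Fin S.k) × (ι → S.Om)), f x.1 x.2.1 x.2.2 := by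
    refine Fintype.sum_equiv
      { toFun := fun v => (fun i => (S.dec (v i)).1, (fun i => (S.dec (v i)).2.1,
          fun i => (S.dec (v i)).2.2))
        invFun := fun x i => S.enc (x.1 i, x.2.1 i, x.2.2 i)
        left_inv := fun v => by
          funext i
          exact S.enc_dec (v i)
        right_inv := fun x => by
          simp only [dec_enc] } _ _ ?_
    intro v
    rfl
  rw [h2, Fintype.sum_prod_type]
  unfold QM
  refine Finset.sum_congr rfl fun r _ => ?_
  rw [Fintype.sum_prod_type, Finset.mul_sum]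
  refine Finset.sum_congr rfl fun v _ => ?_
  simp only [hf]
  rw [← Finset.sum_mul]
  have h3 : ∑ ω : ι → S.Om, ∏ i, (S.prR (r i) * (1 / (S.k : ℝ)) * S.PL (r i) (ω i)) =
      (∏ i, S.prR (r i)) * (1 / (S.k : ℝ)) ^ (Fintype.card ι) := by
    have h4 : ∀ ω : ι → S.Om, ∏ i, (S.prR (r i) * (1 / (S.k : ℝ)) * S.PL (r i) (ω i)) =
        ((∏ i, S.prR (r i)) * (1 / (S.k : ℝ)) ^ (Fintype.card ι)) * ∏ i, S.PL (r i) (ω i) := by
      intro ω
      rw [Finset.prod_mul_distrib, Finset.prod_mul_distrib, Finset.prod_const, Finset.card_univ]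
    simp only [h4]
    rw [← Finset.mul_sum, (pathLaw_pi (fun i => S.PL_law (r i))).sum, mul_one]
  rw [h3]
  ring

end Sys

end Crest.SG
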