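import Crest.Agent.SG_E1
import Crest.Agent.SG_E3

/-! # SG_E4 : realization of `QM` as a trial (assembly by helper72) -/

set_option autoImplicit false
noncomputable section
open scoped BigOperators
open Classical
open Crest.ProbabilityR.Diluted Crest.Agent.SGG
namespace Crest.SG

theorem exists_trial' {p : ℕ} (C : Core p) (α : ℝ) (S : Sys) :
    ∃ t : Trial, C.functional α t = fcav C α (fun ι _ V => S.QM ι V) := by
  refine ⟨S.trial, ?_⟩
  unfold Core.functional fcav Poi
  have h1 : ∀ (κ : ℕ) (e : Fin κ → C.E) (y : Fin C.nH),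
      S.trial.logT0 (L := Fin κ × Fin (p - 1))
        (fun H => siteTerm (C.h y) (fun j => C.theta (e j)) (fun j l => S.trial.X (H (j, l)))) =
      S.QM (Fin κ × Fin (p - 1)) (Vsite C e y) := by
    intro κ e y
    rw [← S.logT0_eq_QM]
    have e1 : (fun H : Fin κ × Fin (p - 1) → List (Fin S.trial.nS) =>
        siteTerm (C.h y) (fun j => C.theta (e j)) (fun j l => S.trial.X (H (j, l)))) =
        fun H => ∑ τ : Fin κ × Fin (p - 1) → Bool, Vsite C e y τ *
          ∏ i, Crest.ProbabilityR.Diluted.tilt (S.trial.X (H i)) (τ i) := by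
      funext H
      rw [siteTerm_expand]
    rw [e1]
    congr!
  have h2 : ∀ e : C.E, S.trial.logT0 (L := Fin p)
      (fun H => edgeTerm (C.theta e) (fun l => S.trial.X (H l))) =
      S.QM (Fin p) (Vedge C e) := by
    intro e
    rw [← S.logT0_eq_QM]
    have e1 : (fun H : Fin p → List (Fin S.trial.nS) =>
        edgeTerm (C.theta e) (fun l => S.trial.X (H l))) =
        fun H => ∑ τ : Fin p → Bool, Vedge C e τ *
          ∏ i, Crest.ProbabilityR.Diluted.tilt (S.trial.X (H i)) (τ i) := by
      funext H
      rw [edgeTerm_expand]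
    rw [e1]
    congr!
  simp_rw [h1, h2]

end Crest.SG
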