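import Crest.Agent.SG_A6

/-! # SG_A7 : the logarithmic expansion (task SG-A7)

`L(x) = LT0 (1 + xN)`, `g_n(x) = En n [∏ N/(1+xN)]` (under `tilt P (1+xN)`), `L' = g_0`,
`g_n' = -(n+1) g_{n+1}` (from `hasDerivAt_En`), Taylor with integral (or Lagrange) remainder. -/

set_option autoImplicit false
noncomputable section
open scoped BigOperators
open Classical
namespace Crest.SG

variable {R : ℕ} {Ω : Type} [Fintype Ω] (S : Lev R Ω) {m : ℕ → ℝ} {P : Ω → ℝ}

/-- the replica moments along the path `1 + xN` -/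
private def gA7 (S : Lev R Ω) (m : ℕ → ℝ) (P N : Ω → ℝ) (n : ℕ) (x : ℝ) : ℝ :=
  En S m (tilt S m P (fun ω => 1 + x * N ω)) n
    (fun _ ω => ∏ l : Fin (n + 1), (N (ω l) / (1 + x * N (ω l))))

private theorem En_zero_A7 (F : Tree R 0 → (Fin (0 + 1) → Ω) → ℝ) :
    En S m P 0 F = ex P (fun ω => F () (fun _ => ω)) := by
  have h : ∀ f : Tree R 0 → ℝ, ∑ t : Tree R 0, f t = f () := by
    intro f
    exact Finset.sum_eq_single (() : Tree R 0) (fun b _ hb => absurd rfl hb)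
      (fun h => absurd (Finset.mem_univ _) h)
  unfold En
  rw [h]
  show 1 * (∑ ω, P ω * F () (fun _ => ω)) = _
  rw [one_mul]
  rfl

omit [Fintype Ω] in
private theorem W_pos_A7 {N : Ω → ℝ} {q : ℝ} (hN : ∀ ω, |N ω| ≤ q)
    {x : ℝ} (hx0 : 0 ≤ x) (ω : Ω) : 1 - x * q ≤ 1 + x * N ω := by
  have h1 := (abs_le.1 (hN ω)).1
  nlinarith

omit [Fintype Ω] in
private theorem W_hd_A7 (N : Ω → ℝ) (x : ℝ) (ω : Ω) :
    HasDerivAt (fun y => 1 + y * N ω) (N ω) x := by
  have h := ((hasDerivAt_id x).mul_const (N ω)).const_add 1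
  simpa using h

private theorem hasDerivAt_L_A7 (E : Expo R m) (hP : PathLaw P) {N : Ω → ℝ} {q : ℝ} (hq : q < 1)
    (hN : ∀ ω, |N ω| ≤ q) (hq0 : 0 ≤ q) {x : ℝ} (hx0 : 0 ≤ x) (hx1 : x ≤ 1) :
    HasDerivAt (fun y => LT0 S m P (fun ω => 1 + y * N ω)) (gA7 S m P N 0 x) x := by
  have hpos : 0 < 1 - x * q := by nlinarith
  have hW : ∀ ω, 0 < 1 + x * N ω := fun ω =>
    lt_of_lt_of_le hpos (W_pos_A7 hN hx0 ω)
  have h := hasDerivAt_LT0 S E hP (W := fun y ω => 1 + y * N ω) (W' := N) (x := x) hW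
    (W_hd_A7 N x)
  have e : gA7 S m P N 0 x = ex (tilt S m P (fun ω => 1 + x * N ω))
      (fun ω => N ω / (1 + x * N ω)) := by
    unfold gA7
    rw [En_zero_A7]
    simp
  rw [e]
  exact h

private theorem hasDerivAt_g_A7 (E : Expo R m) (hP : PathLaw P) {N : Ω → ℝ} {q : ℝ} (hq : q < 1)
    (hN : ∀ ω, |N ω| ≤ q) (hq0 : 0 ≤ q) (n : ℕ) {x : ℝ} (hx0 : 0 ≤ x) (hx1 : x ≤ 1) :
    HasDerivAt (gA7 S m P N n) (-((n : ℝ) + 1) * gA7 S m P N (n + 1) x) x := by
  have hpos : 0 < 1 - x * q := by nlinarith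
  have hW : ∀ ω, 0 < 1 + x * N ω := fun ω =>
    lt_of_lt_of_le hpos (W_pos_A7 hN hx0 ω)
  have hdiv : ∀ ω, HasDerivAt (fun y => N ω / (1 + y * N ω)) (-(N ω / (1 + x * N ω)) ^ 2) x := by
    intro ω
    have h1 := (hasDerivAt_const x (N ω)).div (W_hd_A7 N x ω) (hW ω).ne'
    have e : (0 * (1 + x * N ω) - N ω * N ω) / (1 + x * N ω) ^ 2 = -(N ω / (1 + x * N ω)) ^ 2 := by
      rw [div_pow]; ring
    rw [e] at h1
    exact h1
  have hF : ∀ (_ : Tree R n) (ω : Fin (n + 1) → Ω),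
      HasDerivAt (fun y => ∏ l : Fin (n + 1), (N (ω l) / (1 + y * N (ω l))))
        (-(∏ l : Fin (n + 1), (N (ω l) / (1 + x * N (ω l)))) *
          ∑ l : Fin (n + 1), N (ω l) / (1 + x * N (ω l))) x := by
    intro _ ω
    have h1 := HasDerivAt.finsetProd (u := Finset.univ)
      (f := fun (l : Fin (n + 1)) y => N (ω l) / (1 + y * N (ω l)))
      (f' := fun l => -(N (ω l) / (1 + x * N (ω l))) ^ 2) (x := x) (fun l _ => hdiv (ω l))
    have e : (∑ i : Fin (n + 1), (∏ j ∈ Finset.univ.erase i, N (ω j) / (1 + x * N (ω j))) •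
        (-(N (ω i) / (1 + x * N (ω i))) ^ 2)) =
        -(∏ l : Fin (n + 1), (N (ω l) / (1 + x * N (ω l)))) *
          ∑ l : Fin (n + 1), N (ω l) / (1 + x * N (ω l)) := by
      rw [Finset.mul_sum]
      apply Finset.sum_congr rfl
      intro i _
      rw [← Finset.mul_prod_erase Finset.univ _ (Finset.mem_univ i), smul_eq_mul]
      ring
    rw [e] at h1
    have e2 : (fun y => ∏ l : Fin (n + 1), (N (ω l) / (1 + y * N (ω l)))) =
        ∏ l : Fin (n + 1), fun y => (N (ω l) / (1 + y * N (ω l))) := by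
      funext y; simp
    rw [e2]
    exact h1
  have h := hasDerivAt_En S E hP (W := fun y ω => 1 + y * N ω) (W' := N) (x := x) hW
    (W_hd_A7 N x) hF
  have e : En S m (tilt S m P (fun ω => 1 + x * N ω)) n (fun _ ω =>
        -(∏ l : Fin (n + 1), (N (ω l) / (1 + x * N (ω l)))) *
          ∑ l : Fin (n + 1), N (ω l) / (1 + x * N (ω l))) +
      En S m (tilt S m P (fun ω => 1 + x * N ω)) n (fun _ ω =>
        (∏ l : Fin (n + 1), (N (ω l) / (1 + x * N (ω l)))) *
          ∑ l : Fin (n + 1), N (ω l) / (1 + x * N (ω l))) = 0 := by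
    rw [← En_add]
    have : ∀ (t : Tree R n) (ω : Fin (n + 1) → Ω),
        -(∏ l : Fin (n + 1), (N (ω l) / (1 + x * N (ω l)))) *
          (∑ l : Fin (n + 1), N (ω l) / (1 + x * N (ω l))) +
        (∏ l : Fin (n + 1), (N (ω l) / (1 + x * N (ω l)))) *
          ∑ l : Fin (n + 1), N (ω l) / (1 + x * N (ω l)) = 0 * 0 := by
      intro t ω; ring
    rw [En_congr (S := S) this, En_const_mul, zero_mul]
  have e3 : En S m (tilt S m P (fun ω => 1 + x * N ω)) (n + 1) (fun t ω =>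
      lift1 (fun (_ : Tree R n) (ω : Fin (n + 1) → Ω) =>
        ∏ l : Fin (n + 1), (N (ω l) / (1 + x * N (ω l)))) t ω *
        (N (ω (Fin.last (n + 1))) / (1 + x * N (ω (Fin.last (n + 1)))))) =
      gA7 S m P N (n + 1) x := by
    unfold gA7
    apply En_congr
    intro t ω
    rw [Fin.prod_univ_castSucc]
    rfl
  rw [e3] at h
  have e4 : -((n : ℝ) + 1) * gA7 S m P N (n + 1) x =
      En S m (tilt S m P (fun ω => 1 + x * N ω)) n (fun _ ω =>
        -(∏ l : Fin (n + 1), (N (ω l) / (1 + x * N (ω l)))) *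
          ∑ l : Fin (n + 1), N (ω l) / (1 + x * N (ω l))) +
      En S m (tilt S m P (fun ω => 1 + x * N ω)) n (fun _ ω =>
        (∏ l : Fin (n + 1), (N (ω l) / (1 + x * N (ω l)))) *
          ∑ l : Fin (n + 1), N (ω l) / (1 + x * N (ω l))) -
      ((n : ℝ) + 1) * gA7 S m P N (n + 1) x := by
    rw [e]; ring
  rw [e4]
  exact h

private theorem g_bound_A7 (E : Expo R m) (hP : PathLaw P) {N : Ω → ℝ} {q : ℝ} (hq : q < 1)
    (hN : ∀ ω, |N ω| ≤ q) (hq0 : 0 ≤ q) (n : ℕ) {x : ℝ} (hx0 : 0 ≤ x) (hx1 : x ≤ 1) :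
    |gA7 S m P N n x| ≤ (q / (1 - x * q)) ^ (n + 1) := by
  have hpos : 0 < 1 - x * q := by nlinarith
  have hW : ∀ ω, 0 < 1 + x * N ω := fun ω =>
    lt_of_lt_of_le hpos (W_pos_A7 hN hx0 ω)
  unfold gA7
  apply abs_En_le_of_le S E (tilt_pathLaw S E hP hW)
  intro t ω
  rw [Finset.abs_prod]
  calc ∏ l : Fin (n + 1), |N (ω l) / (1 + x * N (ω l))|
      ≤ ∏ _l : Fin (n + 1), (q / (1 - x * q)) := by
        apply Finset.prod_le_prod
        · intro l _; exact abs_nonneg _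
        · intro l _
          rw [abs_div, abs_of_pos (hW (ω l))]
          exact div_le_div₀ hq0 (hN _) hpos (W_pos_A7 hN hx0 _)
    _ = (q / (1 - x * q)) ^ (n + 1) := by simp [div_pow]

/-- Taylor sum at `x` -/
private def GA7 (S : Lev R Ω) (m : ℕ → ℝ) (P N : Ω → ℝ) (K : ℕ) (x : ℝ) : ℝ :=
  LT0 S m P (fun ω => 1 + x * N ω) +
    ∑ n ∈ Finset.range K, ((-1 : ℝ) ^ n / ((n : ℝ) + 1)) * ((1 - x) ^ (n + 1) * gA7 S m P N n x)

private theorem hasDerivAt_G_A7 (E : Expo R m) (hP : PathLaw P) {N : Ω → ℝ} {q : ℝ} (hq : q < 1)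
    (hN : ∀ ω, |N ω| ≤ q) (hq0 : 0 ≤ q) (K : ℕ) {x : ℝ} (hx0 : 0 ≤ x) (hx1 : x ≤ 1) :
    HasDerivAt (GA7 S m P N K) ((-1) ^ K * ((1 - x) ^ K * gA7 S m P N K x)) x := by
  induction K with
  | zero =>
    have h := hasDerivAt_L_A7 S E hP hq hN hq0 hx0 hx1
    have e : GA7 S m P N 0 = fun y => LT0 S m P (fun ω => 1 + y * N ω) := by
      funext y; simp [GA7]
    rw [e]
    simpa using h
  | succ K ih =>
    have e : GA7 S m P N (K + 1) = fun y => GA7 S m P N K y +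
        ((-1 : ℝ) ^ K / ((K : ℝ) + 1)) * ((1 - y) ^ (K + 1) * gA7 S m P N K y) := by
      funext y
      unfold GA7
      rw [Finset.sum_range_succ]
      ring
    rw [e]
    have h1 : HasDerivAt (fun y : ℝ => (1 - y) ^ (K + 1)) (-(((K : ℝ) + 1) * (1 - x) ^ K)) x := by
      have h0 : HasDerivAt (fun y : ℝ => 1 - y) (-1) x := (hasDerivAt_id x).const_sub 1
      have h2 := h0.pow (K + 1)
      have e3 : ((K + 1 : ℕ) : ℝ) * (1 - x) ^ (K + 1 - 1) * (-1) =
          -(((K : ℝ) + 1) * (1 - x) ^ K) := by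
        rw [Nat.add_sub_cancel]
        push_cast
        ring
      rw [e3] at h2
      exact h2
    have h2 := (h1.mul (hasDerivAt_g_A7 S E hP hq hN hq0 K hx0 hx1)).const_mul
      ((-1 : ℝ) ^ K / ((K : ℝ) + 1))
    have h3 := ih.add h2
    have hK : (K : ℝ) + 1 ≠ 0 := by positivity
    have e2 : (-1 : ℝ) ^ (K + 1) * ((1 - x) ^ (K + 1) * gA7 S m P N (K + 1) x) =
        (-1) ^ K * ((1 - x) ^ K * gA7 S m P N K x) +
        (-1 : ℝ) ^ K / ((K : ℝ) + 1) * (-(((K : ℝ) + 1) * (1 - x) ^ K) * gA7 S m P N K x +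
          (1 - x) ^ (K + 1) * (-((K : ℝ) + 1) * gA7 S m P N (K + 1) x)) := by
      field_simp
      ring
    rw [e2]
    exact h3

theorem LE_series (E : Expo R m) (hP : PathLaw P) {N : Ω → ℝ} {q : ℝ} (hq : q < 1)
    (hN : ∀ ω, |N ω| ≤ q) (K : ℕ) :
    |LT0 S m P (fun ω => 1 + N ω) - ∑ n ∈ Finset.range K, ((-1 : ℝ) ^ n / ((n : ℝ) + 1)) *
        En S m P n (fun _ ω => ∏ l, N (ω l))| ≤ q ^ (K + 1) / (1 - q) := by
  have hne : Nonempty Ω := by
    by_contra hcon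
    rw [not_nonempty_iff] at hcon
    have := hP.sum
    simp at this
  have hq0 : 0 ≤ q := le_trans (abs_nonneg _) (hN hne.some)
  have h1q : 0 < 1 - q := by linarith
  have key := norm_image_sub_le_of_norm_deriv_le_segment_01'
    (f := GA7 S m P N K) (f' := fun x => (-1) ^ K * ((1 - x) ^ K * gA7 S m P N K x))
    (C := q ^ (K + 1) / (1 - q))
    (fun x hx => (hasDerivAt_G_A7 S E hP hq hN hq0 K hx.1 hx.2).hasDerivWithinAt)
    (fun x hx => by
      have hx0 := hx.1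
      have hx1 := hx.2
      have hpos : 0 < 1 - x * q := by nlinarith
      rw [Real.norm_eq_abs, abs_mul, abs_pow, abs_neg, abs_one, one_pow, one_mul, abs_mul,
        abs_pow, abs_of_nonneg (by linarith : 0 ≤ 1 - x)]
      have hb := g_bound_A7 S E hP hq hN hq0 K hx0 hx1.le
      have hr : (1 - x) ≤ 1 - x * q := by nlinarith
      calc (1 - x) ^ K * |gA7 S m P N K x| ≤ (1 - x * q) ^ K * (q / (1 - x * q)) ^ (K + 1) := by
            apply mul_le_mul _ hb (abs_nonneg _) (by positivity)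
            exact pow_le_pow_left₀ (by linarith) hr K
        _ = q ^ (K + 1) / (1 - x * q) := by
            rw [div_pow, pow_succ (1 - x * q) K]
            field_simp
        _ ≤ q ^ (K + 1) / (1 - q) := by
            apply div_le_div_of_nonneg_left (by positivity) h1q
            nlinarith)
  have e1 : GA7 S m P N K 1 = LT0 S m P (fun ω => 1 + N ω) := by
    unfold GA7
    have : ∀ n ∈ Finset.range K, ((-1 : ℝ) ^ n / ((n : ℝ) + 1)) *
        ((1 - 1) ^ (n + 1) * gA7 S m P N n 1) = 0 := by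
      intro n _
      simp
    rw [Finset.sum_congr rfl this]
    simp
  have hP0 : tilt S m P (fun ω => 1 + 0 * N ω) = P := by
    have : (fun ω => 1 + 0 * N ω) = fun _ : Ω => (1 : ℝ) := by funext ω; ring
    rw [this]
    funext ω
    exact tilt_one S E hP ω
  have e0 : GA7 S m P N K 0 = ∑ n ∈ Finset.range K, ((-1 : ℝ) ^ n / ((n : ℝ) + 1)) *
        En S m P n (fun _ ω => ∏ l, N (ω l)) := by
    unfold GA7
    have h0 : LT0 S m P (fun ω => 1 + 0 * N ω) = 0 := by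
      have : (fun ω => 1 + 0 * N ω) = fun _ : Ω => (1 : ℝ) := by funext ω; ring
      rw [this]
      exact LT0_one S E hP
    rw [h0, zero_add]
    apply Finset.sum_congr rfl
    intro n _
    unfold gA7
    rw [hP0]
    congr 1
    simp
  rw [e1, e0] at key
  exact key

end Crest.SG
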