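import Crest.Agent.SG_B8

/-! # SG_B9 : determinism of the overlaps `R_C` (task SG-B9)

Species `b` with `code b = []` (so `W_b ≈ 1`), features `G_l = (true, ∅)` for `l ∈ C`, `(false, ∅)`
otherwise. Mecke: `EE[KK b G F] ≈ Γ^1[∏_{l∈C} σ^l; F]`, and
`Γ^1[∏ σ; F] = EE[ (n_∅/(p0 L)) R_C F ]` where `n_∅` is the number of inactive slots (the sites of
inactive slots are uniform and nothing depends on them, `Adm.fr`), `E (n_∅/(p0 L) - 1)² ≤ 1/(p0 L)`.
So `EE[(KK - R_C) F] → 0` uniformly; take `F = KK - R_C` to get `EE (KK - R_C)² → 0`, and then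
`E Var_t R_C → 0` by `det_all`. -/

set_option autoImplicit false
noncomputable section
open scoped BigOperators
open Classical Filter
open Crest.ProbabilityR.Diluted
namespace Crest.SG

variable {Sy : ℕ → Sys} {code : ℕ → TC} {η : ℕ → ℝ}

/-! ### the number of inactive slots -/

private theorem b9_prod_sum {L : ℕ} {X : Type} [Fintype X] (g : Fin L → X → ℝ) :
    ∑ a : Fin L → X, ∏ c, g c (a c) = ∏ c, ∑ x, g c x := by
  rw [Finset.prod_univ_sum, Fintype.piFinset_univ]

/-- single slot weight. -/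
private def b9w (S : Sys) (x : S.Slot) : ℝ := S.pm x.1 * (1 / (S.k : ℝ))

private theorem b9w_mark (S : Sys) (f : Option (Fin S.q) → ℝ) :
    ∑ x : S.Slot, b9w S x * f x.1 = ∑ a, S.pm a * f a := by
  have hk : (S.k : ℝ) ≠ 0 := by
    have := S.k_pos
    positivity
  rw [Fintype.sum_prod_type]
  refine Finset.sum_congr rfl fun a _ => ?_
  show ∑ _v : Fin S.k, S.pm a * (1 / (S.k : ℝ)) * f a = S.pm a * f a
  rw [Finset.sum_const, Finset.card_univ, Fintype.card_fin, nsmul_eq_mul]
  field_simp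

/-- indicator of an inactive slot, centred. -/
private def b9h (S : Sys) (x : S.Slot) : ℝ := (if x.1 = none then 1 else 0) - S.p0

private theorem b9w_sum (S : Sys) : ∑ x : S.Slot, b9w S x = 1 := by
  have h := b9w_mark S (fun _ => 1)
  simp only [mul_one] at h
  rw [h, S.pm_sum]

private theorem b9h_mean (S : Sys) : ∑ x : S.Slot, b9w S x * b9h S x = 0 := by
  have h := b9w_mark S (fun a => (if a = none then 1 else 0) - S.p0)
  have e : ∑ x : S.Slot, b9w S x * b9h S x =
      ∑ x : S.Slot, b9w S x * ((if x.1 = none then 1 else 0) - S.p0) := rfl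
  rw [e, h]
  simp only [mul_sub, Finset.sum_sub_distrib, ← Finset.sum_mul, S.pm_sum, one_mul]
  simp only [mul_ite, mul_one, mul_zero, Finset.sum_ite_eq', Finset.mem_univ, if_true]
  show S.p0 - S.p0 = 0
  ring

private theorem b9h_sq (S : Sys) : ∑ x : S.Slot, b9w S x * (b9h S x * b9h S x) =
    S.p0 * (1 - S.p0) := by
  have h := b9w_mark S (fun a => ((if a = none then 1 else 0) - S.p0) *
    ((if a = none then 1 else 0) - S.p0))
  have e : ∑ x : S.Slot, b9w S x * (b9h S x * b9h S x) =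
      ∑ x : S.Slot, b9w S x * (((if x.1 = none then 1 else 0) - S.p0) *
        ((if x.1 = none then 1 else 0) - S.p0)) := rfl
  rw [e, h]
  have h2 : ∀ a : Option (Fin S.q), S.pm a * (((if a = none then 1 else 0) - S.p0) *
      ((if a = none then 1 else 0) - S.p0)) =
      (if a = none then S.pm a * (1 - 2 * S.p0) else 0) + S.pm a * (S.p0 * S.p0) := by
    intro a
    by_cases ha : a = none
    · rw [if_pos ha, if_pos ha]; ring
    · rw [if_neg ha, if_neg ha]; ring
  rw [Finset.sum_congr rfl fun a _ => h2 a, Finset.sum_add_distrib, ← Finset.sum_mul, S.pm_sum,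
    Finset.sum_ite_eq', if_pos (Finset.mem_univ _)]
  show S.p0 * (1 - 2 * S.p0) + 1 * (S.p0 * S.p0) = S.p0 * (1 - S.p0)
  ring

private theorem b9_pair (S : Sys) (c c' : Fin S.L) :
    ∑ a : Fin S.L → S.Slot, (∏ d, b9w S (a d)) * (b9h S (a c) * b9h S (a c')) =
      if c = c' then S.p0 * (1 - S.p0) else 0 := by
  by_cases hc : c = c'
  · subst hc
    rw [if_pos rfl]
    have h1 : ∀ a : Fin S.L → S.Slot, (∏ d, b9w S (a d)) * (b9h S (a c) * b9h S (a c)) =
        ∏ d, (b9w S (a d) * (if d = c then b9h S (a d) * b9h S (a d) else 1)) := by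
      intro a
      rw [Finset.prod_mul_distrib]
      congr 1
      rw [Finset.prod_ite_eq' Finset.univ c (fun d => b9h S (a d) * b9h S (a d)),
        if_pos (Finset.mem_univ _)]
    rw [Finset.sum_congr rfl fun a _ => h1 a,
      b9_prod_sum (fun d x => b9w S x * (if d = c then b9h S x * b9h S x else 1))]
    have h2 : ∀ d : Fin S.L, ∑ x, b9w S x * (if d = c then b9h S x * b9h S x else 1) =
        if d = c then S.p0 * (1 - S.p0) else 1 := by
      intro d
      by_cases hd : d = c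
      · simp only [if_pos hd]; exact b9h_sq S
      · simp only [if_neg hd, mul_one]; exact b9w_sum S
    rw [Finset.prod_congr rfl fun d _ => h2 d, Finset.prod_ite_eq' Finset.univ c,
      if_pos (Finset.mem_univ _)]
  · rw [if_neg hc]
    have h1 : ∀ a : Fin S.L → S.Slot, (∏ d, b9w S (a d)) * (b9h S (a c) * b9h S (a c')) =
        ∏ d, (b9w S (a d) * ((if d = c then b9h S (a d) else 1) *
          (if d = c' then b9h S (a d) else 1))) := by
      intro a
      rw [Finset.prod_mul_distrib, Finset.prod_mul_distrib]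
      congr 1
      rw [Finset.prod_ite_eq' Finset.univ c (fun d => b9h S (a d)),
        Finset.prod_ite_eq' Finset.univ c' (fun d => b9h S (a d)),
        if_pos (Finset.mem_univ _), if_pos (Finset.mem_univ _)]
    rw [Finset.sum_congr rfl fun a _ => h1 a,
      b9_prod_sum (fun d x => b9w S x * ((if d = c then b9h S x else 1) *
          (if d = c' then b9h S x else 1)))]
    refine Finset.prod_eq_zero (Finset.mem_univ c) ?_
    simp only [if_pos, if_neg hc, mul_one]
    exact b9h_mean S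

private theorem b9_prR (S : Sys) (f : (Fin S.L → S.Slot) → ℝ) :
    ∑ r : S.Root, S.prR r * f r.2 = ∑ a : Fin S.L → S.Slot, (∏ d, b9w S (a d)) * f a := by
  rw [Fintype.sum_prod_type, Finset.sum_comm]
  refine Finset.sum_congr rfl fun a _ => ?_
  have h : ∀ ρ : S.ρ, S.prR (ρ, a) * f a = S.pr ρ * ((∏ d, b9w S (a d)) * f a) := by
    intro ρ
    show S.pr ρ * (∏ c, (S.pm (a c).1 * (1 / (S.k : ℝ)))) * f a = _
    unfold b9w
    ring
  rw [Finset.sum_congr rfl fun ρ _ => h ρ, ← Finset.sum_mul, S.pr_sum, one_mul]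

/-- number of inactive slots. -/
private def b9n (S : Sys) (r : S.Root) : ℝ := ∑ c, if (r.2 c).1 = none then (1 : ℝ) else 0

private theorem b9_var (S : Sys) :
    ∑ r : S.Root, S.prR r * (b9n S r / (S.p0 * (S.L : ℝ)) - 1) ^ 2 ≤ 1 / (S.L : ℝ) := by
  have hL : (0 : ℝ) < S.L := by exact_mod_cast S.L_pos
  have hp := S.p0_pos
  have hpL : 0 < S.p0 * S.L := mul_pos hp hL
  have h1 : ∀ r : S.Root, S.prR r * (b9n S r / (S.p0 * S.L) - 1) ^ 2 =
      (1 / (S.p0 * S.L) ^ 2) * (S.prR r * (fun a : Fin S.L → S.Slot =>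
        ∑ c, ∑ c', b9h S (a c) * b9h S (a c')) r.2) := by
    intro r
    have h2 : b9n S r - S.p0 * (S.L : ℝ) = ∑ c, b9h S (r.2 c) := by
      unfold b9n b9h
      rw [Finset.sum_sub_distrib, Finset.sum_const, Finset.card_univ, Fintype.card_fin,
        nsmul_eq_mul]
      ring
    have h3 : b9n S r / (S.p0 * S.L) - 1 = (∑ c, b9h S (r.2 c)) / (S.p0 * S.L) := by
      rw [← h2]
      field_simp
    rw [h3]
    show _ = (1 / (S.p0 * S.L) ^ 2) * (S.prR r * ∑ c, ∑ c', b9h S (r.2 c) * b9h S (r.2 c'))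
    rw [← Finset.sum_mul_sum]
    field_simp
  rw [Finset.sum_congr rfl fun r _ => h1 r, ← Finset.mul_sum,
    b9_prR S (fun a : Fin S.L → S.Slot => ∑ c, ∑ c', b9h S (a c) * b9h S (a c'))]
  have h4 : ∑ a : Fin S.L → S.Slot, (∏ d, b9w S (a d)) *
      ∑ c, ∑ c', b9h S (a c) * b9h S (a c') = S.L * (S.p0 * (1 - S.p0)) := by
    simp only [Finset.mul_sum]
    rw [Finset.sum_comm]
    have h5 : ∀ c : Fin S.L, ∑ a : Fin S.L → S.Slot, ∑ c', (∏ d, b9w S (a d)) *
        (b9h S (a c) * b9h S (a c')) = S.p0 * (1 - S.p0) := by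
      intro c
      rw [Finset.sum_comm, Finset.sum_congr rfl fun c' _ => b9_pair S c c',
        Finset.sum_ite_eq, if_pos (Finset.mem_univ _)]
    rw [Finset.sum_congr rfl fun c _ => h5 c, Finset.sum_const, Finset.card_univ,
      Fintype.card_fin, nsmul_eq_mul]
  rw [h4]
  have h6 : 1 / (S.p0 * S.L) ^ 2 * (S.L * (S.p0 * (1 - S.p0))) = ((1 - S.p0) / S.p0) * (1 / S.L) := by
    field_simp
  rw [h6]
  have h7 : (1 - S.p0) / S.p0 ≤ 1 := by
    rw [div_le_one hp]
    have := S.p0_ge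
    linarith
  calc ((1 - S.p0) / S.p0) * (1 / S.L) ≤ 1 * (1 / S.L) :=
        mul_le_mul_of_nonneg_right h7 (by positivity)
    _ = 1 / S.L := one_mul _

private theorem b9_abs (S : Sys) :
    ∑ r : S.Root, S.prR r * |b9n S r / (S.p0 * S.L) - 1| ≤ 1 / Real.sqrt S.L := by
  have hL : (0 : ℝ) < S.L := by exact_mod_cast S.L_pos
  have hs : 0 < Real.sqrt S.L := Real.sqrt_pos.mpr hL
  have hss : Real.sqrt S.L * Real.sqrt S.L = S.L := Real.mul_self_sqrt hL.le
  have h1 : ∀ r : S.Root, S.prR r * |b9n S r / (S.p0 * S.L) - 1| ≤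
      (Real.sqrt S.L / 2) * (S.prR r * (b9n S r / (S.p0 * S.L) - 1) ^ 2) +
        (1 / (2 * Real.sqrt S.L)) * S.prR r := by
    intro r
    set y := b9n S r / (S.p0 * S.L) - 1 with hy
    have h2 : |y| ≤ (Real.sqrt S.L / 2) * y ^ 2 + 1 / (2 * Real.sqrt S.L) := by
      have h3 : 0 ≤ (Real.sqrt S.L * |y| - 1) ^ 2 := sq_nonneg _
      have h4 : (Real.sqrt S.L * |y| - 1) ^ 2 =
          2 * Real.sqrt S.L * ((Real.sqrt S.L / 2) * y ^ 2 + 1 / (2 * Real.sqrt S.L) - |y|) := by
        rw [← sq_abs y]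
        field_simp
        ring
      rw [h4] at h3
      have h5 : 0 ≤ (Real.sqrt S.L / 2) * y ^ 2 + 1 / (2 * Real.sqrt S.L) - |y| :=
        nonneg_of_mul_nonneg_right h3 (by positivity)
      linarith
    calc S.prR r * |y| ≤ S.prR r * ((Real.sqrt S.L / 2) * y ^ 2 + 1 / (2 * Real.sqrt S.L)) :=
          mul_le_mul_of_nonneg_left h2 (S.prR_nonneg r)
      _ = _ := by ring
  refine (Finset.sum_le_sum fun r _ => h1 r).trans ?_
  rw [Finset.sum_add_distrib, ← Finset.mul_sum, ← Finset.mul_sum, S.prR_sum]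
  have h2 := mul_le_mul_of_nonneg_left (b9_var S) (by positivity : 0 ≤ Real.sqrt S.L / 2)
  have h3 : Real.sqrt S.L / 2 * (1 / S.L) = 1 / (2 * Real.sqrt S.L) := by
    have h5 : Real.sqrt S.L ^ 2 = S.L := Real.sq_sqrt hL.le
    field_simp
    exact h5
  have h4 : (1 : ℝ) / Real.sqrt S.L = 1 / (2 * Real.sqrt S.L) + 1 / (2 * Real.sqrt S.L) * 1 := by
    field_simp
    norm_num
  rw [h4]
  linarith

/-! ### averaging over the site of an inactive slot -/

private def b9up (S : Sys) (c : Fin S.L) (r : S.Root) (v : Fin S.k) : S.Root :=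
  (r.1, Function.update r.2 c ((r.2 c).1, v))

private theorem b9up_mark (S : Sys) (c : Fin S.L) (r : S.Root) (v : Fin S.k) (d : Fin S.L) :
    ((b9up S c r v).2 d).1 = (r.2 d).1 := by
  unfold b9up
  by_cases hd : d = c
  · subst hd; simp
  · simp [Function.update_of_ne hd]

private theorem b9up_prR (S : Sys) (c : Fin S.L) (r : S.Root) (v : Fin S.k) :
    S.prR (b9up S c r v) = S.prR r := by
  unfold Sys.prR
  have h : ∀ d, S.pm ((b9up S c r v).2 d).1 * (1 / (S.k : ℝ)) = S.pm (r.2 d).1 * (1 / (S.k : ℝ)) :=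
    fun d => by rw [b9up_mark]
  rw [Finset.prod_congr rfl fun d _ => h d]
  rfl

private theorem b9up_PL (S : Sys) (c : Fin S.L) (r : S.Root) (v : Fin S.k)
    (hr : (r.2 c).1 = none) : S.PL (b9up S c r v) = S.PL r := by
  have h : S.sw (b9up S c r v) = S.sw r := by
    funext ω
    unfold Sys.sw
    have h2 : ∀ d, S.slotW ((b9up S c r v).2 d) (ω.1 d) ω.2 = S.slotW (r.2 d) (ω.1 d) ω.2 := by
      intro d
      by_cases hd : d = c
      · subst hd
        have e1 : ((b9up S d r v).2 d).1 = none := by rw [b9up_mark]; exact hr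
        unfold Sys.slotW
        rw [e1, hr]
      · have e1 : (b9up S c r v).2 d = r.2 d := by
          unfold b9up
          simp [Function.update_of_ne hd]
        rw [e1]
    rw [Finset.prod_congr rfl fun d _ => h2 d]
    rfl
  unfold Sys.PL
  rw [h]

private theorem b9_avg (S : Sys) (c : Fin S.L) (h : S.Root → Fin S.k → ℝ)
    (hinv : ∀ r v v', h (b9up S c r v') v = h r v) :
    ∑ r : S.Root, h r (r.2 c).2 = ∑ r : S.Root, (1 / (S.k : ℝ)) * ∑ v, h r v := by
  have hk : (S.k : ℝ) ≠ 0 := by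
    have := S.k_pos
    positivity
  let τ : S.Root × Fin S.k → S.Root × Fin S.k := fun p => (b9up S c p.1 p.2, (p.1.2 c).2)
  have hτ : Function.Involutive τ := by
    rintro ⟨r, v⟩
    show (b9up S c (b9up S c r v) (r.2 c).2, ((b9up S c r v).2 c).2) = (r, v)
    refine Prod.ext ?_ ?_
    · show (r.1, Function.update (Function.update r.2 c ((r.2 c).1, v)) c
        (((Function.update r.2 c ((r.2 c).1, v)) c).1, (r.2 c).2)) = r
      rw [Function.update_idem, Function.update_self]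
      show (r.1, Function.update r.2 c (r.2 c)) = r
      rw [Function.update_eq_self]
    · show ((Function.update r.2 c ((r.2 c).1, v)) c).2 = v
      rw [Function.update_self]
  have h1 : ∑ p : S.Root × Fin S.k, h p.1 p.2 =
      ∑ p : S.Root × Fin S.k, h p.1 (p.1.2 c).2 := by
    rw [← Equiv.sum_comp (hτ.toPerm) (fun p : S.Root × Fin S.k => h p.1 (p.1.2 c).2)]
    refine Finset.sum_congr rfl fun p _ => ?_
    show h p.1 p.2 = h (b9up S c p.1 p.2) ((b9up S c p.1 p.2).2 c).2
    have e : ((b9up S c p.1 p.2).2 c).2 = p.2 := by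
      show ((Function.update p.1.2 c ((p.1.2 c).1, p.2)) c).2 = p.2
      rw [Function.update_self]
    rw [e, hinv]
  have h2 : ∑ r : S.Root, ∑ v : Fin S.k, h r v = ∑ r : S.Root, ∑ _v : Fin S.k, h r (r.2 c).2 :=
    (Fintype.sum_prod_type (fun p : S.Root × Fin S.k => h p.1 p.2)).symm.trans
      (h1.trans (Fintype.sum_prod_type (fun p : S.Root × Fin S.k => h p.1 (p.1.2 c).2)))
  rw [← Finset.mul_sum, h2, Finset.mul_sum]
  refine Finset.sum_congr rfl fun r _ => ?_
  show h r (r.2 c).2 = 1 / (S.k : ℝ) * ∑ _v : Fin S.k, h r (r.2 c).2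
  rw [Finset.sum_const, Finset.card_univ, Fintype.card_fin, nsmul_eq_mul]
  field_simp

private theorem b9_slot (S : Sys) {n : ℕ} (C : Finset (Fin (n + 1))) {B : ℝ} {F : S.Obs n}
    (hF : S.Adm n B F) (c : Fin S.L) :
    (∑ r : S.Root, if (r.2 c).1 = none then
      S.prR r * En S.lv S.m (S.PLW r c (fun _ _ => 1)) n
        (fun t ω => S.sl (fun σ _ => ∏ l ∈ C, spinVal (σ l)) r c ω * F r t ω) else 0) =
    ∑ r : S.Root, if (r.2 c).1 = none then
      S.prR r * En S.lv S.m (S.PL r) n (fun t ω => S.RC C r ω * F r t ω) else 0 := by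
  have hPLW : ∀ r : S.Root, S.PLW r c (fun _ _ => 1) = S.PL r := by
    intro r
    funext ω
    show tilt S.lv S.m (S.PL r) (fun _ => 1) ω = S.PL r ω
    exact tilt_one S.lv S.expo (S.PL_law r) ω
  let h : S.Root → Fin S.k → ℝ := fun r v => if (r.2 c).1 = none then
      S.prR r * En S.lv S.m (S.PL r) n
        (fun t ω => (∏ l ∈ C, spinVal ((ω l).2 v)) * F r t ω) else 0
  have hinv : ∀ r v v', h (b9up S c r v') v = h r v := by
    intro r v v'
    show (if ((b9up S c r v').2 c).1 = none then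
      S.prR (b9up S c r v') * En S.lv S.m (S.PL (b9up S c r v')) n
        (fun t ω => (∏ l ∈ C, spinVal ((ω l).2 v)) * F (b9up S c r v') t ω) else 0) =
      if (r.2 c).1 = none then
      S.prR r * En S.lv S.m (S.PL r) n
        (fun t ω => (∏ l ∈ C, spinVal ((ω l).2 v)) * F r t ω) else 0
    rw [b9up_mark]
    by_cases hr : (r.2 c).1 = none
    · rw [if_pos hr, if_pos hr, b9up_prR, b9up_PL S c r v' hr]
      congr 1
      refine En_congr S.lv fun t ω => ?_
      congr 1
      refine hF.fr _ _ c ((b9up_mark S c r v' c).trans hr) hr rfl ?_ t ω ω (fun _ => rfl)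
        (fun _ _ _ => rfl)
      intro c' hc'
      unfold b9up
      simp [Function.update_of_ne hc']
    · rw [if_neg hr, if_neg hr]
  have h1 := b9_avg S c h hinv
  have e1 : (∑ r : S.Root, if (r.2 c).1 = none then
      S.prR r * En S.lv S.m (S.PLW r c (fun _ _ => 1)) n
        (fun t ω => S.sl (fun σ _ => ∏ l ∈ C, spinVal (σ l)) r c ω * F r t ω) else 0) =
      ∑ r : S.Root, h r (r.2 c).2 := by
    refine Finset.sum_congr rfl fun r _ => ?_
    rw [hPLW]
    rfl
  rw [e1, h1]
  refine Finset.sum_congr rfl fun r _ => ?_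
  by_cases hr : (r.2 c).1 = none
  · rw [if_pos hr]
    have e2 : ∀ v, h r v = S.prR r * En S.lv S.m (S.PL r) n
        (fun t ω => (∏ l ∈ C, spinVal ((ω l).2 v)) * F r t ω) := fun v => if_pos hr
    rw [Finset.sum_congr rfl fun v _ => e2 v, ← Finset.mul_sum]
    have e3 : En S.lv S.m (S.PL r) n (fun t ω => S.RC C r ω * F r t ω) =
        (1 / (S.k : ℝ)) * ∑ v : Fin S.k, En S.lv S.m (S.PL r) n
          (fun t ω => (∏ l ∈ C, spinVal ((ω l).2 v)) * F r t ω) := by
      rw [← En_sum, ← En_const_mul]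
      refine En_congr S.lv fun t ω => ?_
      unfold Sys.RC
      rw [← Finset.sum_mul]
      ring
    rw [e3]
    ring
  · rw [if_neg hr]
    have e2 : ∀ v, h r v = 0 := fun v => if_neg hr
    rw [Finset.sum_congr rfl fun v _ => e2 v]
    simp

theorem Sys.Gam_one_RC (S : Sys) {n : ℕ} (C : Finset (Fin (n + 1))) {B : ℝ} {F : S.Obs n}
    (hF : S.Adm n B F) :
    |S.Gam n (fun _ _ => 1) (fun σ _ => ∏ l ∈ C, spinVal (σ l)) F -
      S.EE n (fun r t ω => S.RC C r ω * F r t ω)| ≤ 4 * B / Real.sqrt S.L := by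
  have hL : (0 : ℝ) < S.L := by exact_mod_cast S.L_pos
  have hs : 0 < Real.sqrt S.L := Real.sqrt_pos.mpr hL
  have hpL : 0 < S.p0 * S.L := mul_pos S.p0_pos hL
  set E : S.Root → ℝ := fun r => En S.lv S.m (S.PL r) n (fun t ω => S.RC C r ω * F r t ω) with hE
  have hRC : ∀ (r : S.Root) (ω : Fin (n + 1) → S.Om), |S.RC C r ω| ≤ 1 :=
    fun r ω => (S.Adm_RC C).bd r (Classical.choice (by
      haveI : Nonempty (Fin S.R) := ⟨⟨0, S.R_pos⟩⟩
      clear hF F hE E
      induction n with
      | zero => exact ⟨()⟩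
      | succ n ih =>
        obtain ⟨t⟩ := ih ∅ (fun l => ω l.castSucc)
        exact ⟨(t, (0, Classical.arbitrary _))⟩)) ω
  have hEB : ∀ r, |E r| ≤ B := by
    intro r
    refine abs_En_le_of_le S.lv S.expo (S.PL_law r) fun t ω => ?_
    rw [abs_mul]
    calc |S.RC C r ω| * |F r t ω| ≤ 1 * |F r t ω| :=
          mul_le_mul_of_nonneg_right (hRC r ω) (abs_nonneg _)
      _ ≤ B := by rw [one_mul]; exact hF.bd r t ω
  have hB : 0 ≤ B := by
    by_contra hneg
    push_neg at hneg
    have h0 : ∀ r : S.Root, False := fun r => by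
      have := (abs_nonneg (E r)).trans (hEB r)
      linarith
    have h1 := S.prR_sum
    haveI : IsEmpty S.Root := ⟨h0⟩
    simp at h1
  have h1 : S.Gam n (fun _ _ => 1) (fun σ _ => ∏ l ∈ C, spinVal (σ l)) F =
      ∑ r : S.Root, S.prR r * (b9n S r / (S.p0 * S.L)) * E r := by
    unfold Sys.Gam
    rw [Finset.sum_congr rfl fun c _ => b9_slot S C hF c, Finset.sum_comm, Finset.mul_sum]
    refine Finset.sum_congr rfl fun r _ => ?_
    have h2 : (∑ c, if (r.2 c).1 = none then
        S.prR r * En S.lv S.m (S.PL r) n (fun t ω => S.RC C r ω * F r t ω) else 0) =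
        b9n S r * (S.prR r * E r) := by
      unfold b9n
      rw [Finset.sum_mul]
      refine Finset.sum_congr rfl fun c _ => ?_
      by_cases hc : (r.2 c).1 = none
      · rw [if_pos hc, if_pos hc, one_mul]
      · rw [if_neg hc, if_neg hc, zero_mul]
    rw [h2]
    field_simp
  have h2 : S.EE n (fun r t ω => S.RC C r ω * F r t ω) = ∑ r : S.Root, S.prR r * E r := rfl
  rw [h1, h2, ← Finset.sum_sub_distrib]
  have h3 : ∀ r : S.Root, |S.prR r * (b9n S r / (S.p0 * S.L)) * E r - S.prR r * E r| ≤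
      (S.prR r * |b9n S r / (S.p0 * S.L) - 1|) * B := by
    intro r
    have e : S.prR r * (b9n S r / (S.p0 * S.L)) * E r - S.prR r * E r =
        (S.prR r * (b9n S r / (S.p0 * S.L) - 1)) * E r := by ring
    rw [e, abs_mul, abs_mul, abs_of_nonneg (S.prR_nonneg r)]
    exact mul_le_mul_of_nonneg_left (hEB r)
      (mul_nonneg (S.prR_nonneg r) (abs_nonneg _))
  refine (Finset.abs_sum_le_sum_abs _ _).trans ((Finset.sum_le_sum fun r _ => h3 r).trans ?_)
  rw [← Finset.sum_mul]
  calc (∑ r : S.Root, S.prR r * |b9n S r / (S.p0 * S.L) - 1|) * B ≤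
        1 / Real.sqrt S.L * B := mul_le_mul_of_nonneg_right (b9_abs S) hB
    _ = B / Real.sqrt S.L := by ring
    _ ≤ 4 * B / Real.sqrt S.L := by
        apply div_le_div_of_nonneg_right _ hs.le
        linarith

private theorem b9_PhiG {n : ℕ} (C : Finset (Fin (n + 1))) :
    PhiG (fun _ _ => 1) (fun l : Fin (n + 1) => ((decide (l ∈ C), ∅) : Feat)) =
      fun σ _ => ∏ l ∈ C, spinVal (σ l) := by
  funext σ l
  unfold PhiG fval
  simp only [Finset.prod_empty, mul_one, div_one, decide_eq_true_eq]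
  rw [Finset.prod_ite_mem, Finset.univ_inter]

private theorem b9_negl (H : LTH Sy code η) {b : ℕ} (hb : code b = []) {n : ℕ}
    (C : Finset (Fin (n + 1))) :
    Negl Sy n (fun s F => (Sy s).EE n (fun r t ω =>
      ((Sy s).KK b (fun l => (decide (l ∈ C), ∅)) r ω - (Sy s).RC C r ω) * F r t ω)) := by
  intro B hB ε hε
  have h1 := KK_to_Gam H b (fun l : Fin (n + 1) => ((decide (l ∈ C), ∅) : Feat)) id B hB (ε / 2)
    (by linarith)
  have hL : Tendsto (fun s => 4 * B / Real.sqrt ((Sy s).L : ℝ)) atTop (nhds 0) := by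
    refine Tendsto.div_atTop tendsto_const_nhds ?_
    exact Real.tendsto_sqrt_atTop.comp H.L_top
  have h2 := (hL.eventually (gt_mem_nhds (by linarith : (0 : ℝ) < ε / 2)))
  filter_upwards [h1, h2] with s hs1 hs2
  intro F hF
  have e1 := hs1 F hF
  have ht : (fun (σ : Bool) (l : ℕ → Bool) => 1 + tval (code b) σ l) = fun _ _ => 1 := by
    funext σ l
    rw [hb]
    simp [tval]
  simp only [ht, id] at e1
  rw [b9_PhiG C] at e1
  have e2 := (Sy s).Gam_one_RC C hF
  have e3 : (Sy s).EE n (fun r t ω =>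
      ((Sy s).KK b (fun l => (decide (l ∈ C), ∅)) r ω - (Sy s).RC C r ω) * F r t ω) =
      ((Sy s).EE n (fun r t ω => (Sy s).KK b (fun l => (decide (l ∈ C), ∅)) r ω * F r t ω) -
        (Sy s).Gam n (fun _ _ => 1) (fun σ _ => ∏ l ∈ C, spinVal (σ l)) F) +
      ((Sy s).Gam n (fun _ _ => 1) (fun σ _ => ∏ l ∈ C, spinVal (σ l)) F -
        (Sy s).EE n (fun r t ω => (Sy s).RC C r ω * F r t ω)) := by
    have e4 : (Sy s).EE n (fun r t ω =>
        ((Sy s).KK b (fun l => (decide (l ∈ C), ∅)) r ω - (Sy s).RC C r ω) * F r t ω) =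
        (Sy s).EE n (fun r t ω => (Sy s).KK b (fun l => (decide (l ∈ C), ∅)) r ω * F r t ω) -
        (Sy s).EE n (fun r t ω => (Sy s).RC C r ω * F r t ω) := by
      rw [← (Sy s).EE_sub n]
      exact (Sy s).EE_congr n fun r t ω => by ring
    rw [e4]
    ring
  show |(Sy s).EE n (fun r t ω =>
      ((Sy s).KK b (fun l => (decide (l ∈ C), ∅)) r ω - (Sy s).RC C r ω) * F r t ω)| ≤ ε
  rw [e3]
  refine (abs_add_le _ _).trans ?_
  linarith [e1, e2, hs2.le]

theorem KK_RC (H : LTH Sy code η) {b : ℕ} (hb : code b = []) {n : ℕ} (C : Finset (Fin (n + 1))) :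
    Tendsto (fun s => (Sy s).EE n (fun r _ ω =>
      ((Sy s).KK b (fun l => (decide (l ∈ C), ∅)) r ω - (Sy s).RC C r ω) ^ 2)) atTop (nhds 0) := by
  rw [Metric.tendsto_nhds]
  intro ε hε
  have hB : 0 < Sys.cK b n + 1 := by
    have := Sys.cK_pos b n
    linarith
  have h := b9_negl H hb C (Sys.cK b n + 1) hB (ε / 2) (by linarith)
  filter_upwards [h] with s hs
  have h1 := hs (fun r _ ω => (Sy s).KK b (fun l => (decide (l ∈ C), ∅)) r ω - (Sy s).RC C r ω)
    ((Sy s).Adm_sub ((Sy s).Adm_KK b _) ((Sy s).Adm_RC C))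
  have h2 : (Sy s).EE n (fun r _ ω =>
      ((Sy s).KK b (fun l => (decide (l ∈ C), ∅)) r ω - (Sy s).RC C r ω) ^ 2) =
      (Sy s).EE n (fun r _ ω =>
      ((Sy s).KK b (fun l => (decide (l ∈ C), ∅)) r ω - (Sy s).RC C r ω) *
        ((Sy s).KK b (fun l => (decide (l ∈ C), ∅)) r ω - (Sy s).RC C r ω)) :=
    (Sy s).EE_congr n fun r t ω => by ring
  rw [Real.dist_eq, sub_zero, h2]
  linarith [h1]

/-- **determinism of `R_C` given the tree**. -/
theorem det_RC (H : LTH Sy code η) {n : ℕ} (C : Finset (Fin (n + 1))) :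
    Tendsto (fun s => ∑ t, wt (Sy s).m (Sy s).R n t * (Sy s).Var n t ((Sy s).RC C)) atTop
      (nhds 0) := by
  obtain ⟨b, hb⟩ := H.code_surj [] (by simp [tnorm])
  have h1 := KK_RC H hb C
  have h2 := det_all H n b (fun l => (decide (l ∈ C), ∅))
  have h3 := (h2.const_mul 2).add (h1.const_mul 2)
  simp only [mul_zero, add_zero] at h3
  refine squeeze_zero (fun s => ?_) (fun s => ?_) h3
  · exact Finset.sum_nonneg fun t _ => mul_nonneg (wt_nonneg (Sy s).expo t)
      ((Sy s).Var_nonneg n t _)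
  · set S := Sy s with hS
    have e1 : 2 * S.Dvar b n (fun l => (decide (l ∈ C), ∅)) + 2 * S.EE n (fun r _ ω =>
        (S.KK b (fun l => (decide (l ∈ C), ∅)) r ω - S.RC C r ω) ^ 2) =
        ∑ t, wt S.m S.R n t * (2 * S.Var n t (S.KK b (fun l => (decide (l ∈ C), ∅))) +
          2 * S.ER n t (fun r ω =>
            (S.KK b (fun l => (decide (l ∈ C), ∅)) r ω - S.RC C r ω) ^ 2)) := by
      rw [S.EE_eq_ER]
      unfold Sys.Dvar
      rw [Finset.mul_sum, Finset.mul_sum, ← Finset.sum_add_distrib]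
      exact Finset.sum_congr rfl fun t _ => by ring
    rw [e1]
    refine Finset.sum_le_sum fun t _ => mul_le_mul_of_nonneg_left ?_ (wt_nonneg S.expo t)
    have e2 := S.Var_add_le n t (S.KK b (fun l => (decide (l ∈ C), ∅)))
      (fun r ω => S.RC C r ω - S.KK b (fun l => (decide (l ∈ C), ∅)) r ω)
    have e3 : (fun (r : S.Root) (ω : Fin (n + 1) → S.Om) =>
        S.KK b (fun l => (decide (l ∈ C), ∅)) r ω +
        (S.RC C r ω - S.KK b (fun l => (decide (l ∈ C), ∅)) r ω)) = S.RC C := by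
      funext r ω
      ring
    rw [e3] at e2
    have e4 := S.Var_le_sq n t
      (fun r ω => S.RC C r ω - S.KK b (fun l => (decide (l ∈ C), ∅)) r ω) 0
    have e5 : S.ER n t (fun r ω =>
        ((S.RC C r ω - S.KK b (fun l => (decide (l ∈ C), ∅)) r ω) - 0) ^ 2) =
        S.ER n t (fun r ω =>
            (S.KK b (fun l => (decide (l ∈ C), ∅)) r ω - S.RC C r ω) ^ 2) :=
      S.ER_congr n t fun r ω => by ring
    rw [e5] at e4
    linarith

end Crest.SG
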