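import Crest.Agent.SG_E5
import Crest.Agent.SG_B9
import Crest.Agent.SG_A7

/-! # SG_E6 : comparison of `QS` and `QM` (task SG-E6, medium)

Write `V = c (1 + N)` with `c = (max V + min V)/2`, `|N| ≤ q < 1`. `LT0_const_mul`, `LE_series`:
`QS(V) = log c + ∑_{n<K} ((-1)^n/(n+1)) (QS_term n) ± q^{K+1}/(1-q)`, same for `QM`; the
difference of the `n`-th terms tends to `0` by `term_diff` and `det_RC`. -/

set_option autoImplicit false
set_option linter.unusedVariables false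
noncomputable section
open scoped BigOperators
open Classical Filter
open Crest.ProbabilityR.Diluted Crest.Agent.SGG
namespace Crest.SG

/-- telescoping of products. -/
private theorem e6_prod_sub {ι : Type} (s : Finset ι) (x y : ι → ℝ) (hx : ∀ i, |x i| ≤ 1)
    (hy : ∀ i, |y i| ≤ 1) : |∏ i ∈ s, x i - ∏ i ∈ s, y i| ≤ ∑ i ∈ s, |x i - y i| := by
  induction s using Finset.induction_on with
  | empty => simp
  | insert a s ha ih =>
    rw [Finset.prod_insert ha, Finset.prod_insert ha, Finset.sum_insert ha]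
    have h1 : x a * ∏ i ∈ s, x i - y a * ∏ i ∈ s, y i =
        (x a - y a) * ∏ i ∈ s, x i + y a * (∏ i ∈ s, x i - ∏ i ∈ s, y i) := by ring
    have h2 : |∏ i ∈ s, x i| ≤ 1 := by
      rw [Finset.abs_prod]
      exact Finset.prod_le_one (fun i _ => abs_nonneg _) (fun i _ => hx i)
    rw [h1]
    refine (abs_add_le _ _).trans ?_
    rw [abs_mul, abs_mul]
    have h3 : |x a - y a| * |∏ i ∈ s, x i| ≤ |x a - y a| * 1 :=
      mul_le_mul_of_nonneg_left h2 (abs_nonneg _)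
    have h4 : |y a| * |∏ i ∈ s, x i - ∏ i ∈ s, y i| ≤ 1 * |∏ i ∈ s, x i - ∏ i ∈ s, y i| :=
      mul_le_mul_of_nonneg_right (hy a) (abs_nonneg _)
    linarith

/-- averaging a uniformly good approximation. -/
private theorem e6_avg {A B : Type} [Fintype A] [Fintype B] (p : A → ℝ) (κ : ℝ)
    (hp : ∀ a, 0 ≤ p a) (hp1 : ∑ a, p a = 1) (hκ : 0 ≤ κ) (hκ1 : ∑ _b : B, κ = 1)
    (L : A → B → ℝ) (T : ℕ → A → B → ℝ) (α : ℕ → ℝ) (K : ℕ) (c0 bd : ℝ)
    (h : ∀ a b, |L a b - (c0 + ∑ n ∈ Finset.range K, α n * T n a b)| ≤ bd) :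
    |∑ a, p a * ∑ b, κ * L a b -
      (c0 + ∑ n ∈ Finset.range K, α n * ∑ a, p a * ∑ b, κ * T n a b)| ≤ bd := by
  have e0 : ∀ x : ℝ, x = ∑ a, p a * ∑ _b : B, κ * x := by
    intro x
    have h0 : ∑ _b : B, κ * x = x := by rw [← Finset.sum_mul, hκ1, one_mul]
    rw [h0, ← Finset.sum_mul, hp1, one_mul]
  have e1 := e0 c0
  have e3 := e0 bd
  have e2 : ∑ n ∈ Finset.range K, α n * ∑ a, p a * ∑ b, κ * T n a b =
      ∑ a, p a * ∑ b, κ * ∑ n ∈ Finset.range K, α n * T n a b := by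
    simp only [Finset.mul_sum]
    rw [Finset.sum_comm]
    refine Finset.sum_congr rfl fun a _ => ?_
    rw [Finset.sum_comm]
    exact Finset.sum_congr rfl fun b _ => Finset.sum_congr rfl fun n _ => by ring
  have e4 : ∑ a, p a * ∑ b, κ * L a b -
      (c0 + ∑ n ∈ Finset.range K, α n * ∑ a, p a * ∑ b, κ * T n a b) =
      ∑ a, p a * ∑ b, κ * (L a b - (c0 + ∑ n ∈ Finset.range K, α n * T n a b)) := by
    rw [e2]
    conv_lhs => rw [e1]
    rw [← Finset.sum_add_distrib, ← Finset.sum_sub_distrib]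
    refine Finset.sum_congr rfl fun a _ => ?_
    rw [← mul_add, ← mul_sub, ← Finset.sum_add_distrib, ← Finset.sum_sub_distrib]
    congr 1
    exact Finset.sum_congr rfl fun b _ => by ring
  rw [e4]
  refine (Finset.abs_sum_le_sum_abs _ _).trans ?_
  conv_rhs => rw [e3]
  refine Finset.sum_le_sum fun a _ => ?_
  rw [abs_mul, abs_of_nonneg (hp a)]
  refine mul_le_mul_of_nonneg_left ?_ (hp a)
  refine (Finset.abs_sum_le_sum_abs _ _).trans ?_
  refine Finset.sum_le_sum fun b _ => ?_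
  rw [abs_mul, abs_of_nonneg hκ]
  exact mul_le_mul_of_nonneg_left (h a b) hκ

namespace Sys
variable (S : Sys)

theorem abs_RC_le {n : ℕ} (C : Finset (Fin (n + 1))) (r : S.Root) (ω : Fin (n + 1) → S.Om) :
    |S.RC C r ω| ≤ 1 := by
  have hk : (0 : ℝ) < S.k := by exact_mod_cast S.k_pos
  unfold RC
  rw [abs_mul, abs_of_nonneg (by positivity : (0 : ℝ) ≤ 1 / (S.k : ℝ))]
  have h1 : |∑ v : Fin S.k, ∏ l ∈ C, spinVal ((ω l).2 v)| ≤ S.k := by
    refine (Finset.abs_sum_le_sum_abs _ _).trans ?_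
    have h2 : ∀ v : Fin S.k, |∏ l ∈ C, spinVal ((ω l).2 v)| = 1 := by
      intro v
      rw [Finset.abs_prod]
      exact Finset.prod_eq_one fun l _ => B1a_abs_spinVal _
    rw [Finset.sum_congr rfl fun v _ => h2 v]
    simp
  calc 1 / (S.k : ℝ) * |∑ v : Fin S.k, ∏ l ∈ C, spinVal ((ω l).2 v)| ≤ 1 / (S.k : ℝ) * S.k :=
        mul_le_mul_of_nonneg_left h1 (by positivity)
    _ = 1 := by field_simp

private theorem e6_ER_abs (n : ℕ) (t : Tree S.R n)
    (X : S.Root → (Fin (n + 1) → S.Om) → ℝ) :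
    S.ER n t (fun r ω => |X r ω - S.ER n t X|) ≤ Real.sqrt (S.Var n t X) := by
  apply Real.le_sqrt_of_sq_le
  have h := S.ER_cs n t (fun r ω => |X r ω - S.ER n t X|) (fun _ _ => 1)
  have h1 : S.ER n t (fun _ _ => (1 : ℝ) ^ 2) = 1 := by rw [ER_const]; norm_num
  rw [h1, mul_one] at h
  have h2 : S.ER n t (fun r ω => |X r ω - S.ER n t X| * 1) =
      S.ER n t (fun r ω => |X r ω - S.ER n t X|) := S.ER_congr n t fun r ω => mul_one _
  have h3 : S.ER n t (fun r ω => |X r ω - S.ER n t X| ^ 2) = S.Var n t X :=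
    S.ER_congr n t fun r ω => sq_abs _
  rw [h2, h3] at h
  exact h

/-- for bounded `X_i` : `|E_t ∏ X_i - ∏ E_t X_i| ≤ ∑ √(Var_t X_i)`. -/
theorem ER_prod_sub {ι : Type} [Fintype ι] (n : ℕ) (t : Tree S.R n)
    (X : ι → S.Root → (Fin (n + 1) → S.Om) → ℝ) (hX : ∀ i r ω, |X i r ω| ≤ 1) :
    |S.ER n t (fun r ω => ∏ i, X i r ω) - ∏ i, S.ER n t (X i)| ≤
      ∑ i, Real.sqrt (S.Var n t (X i)) := by
  have h1 : S.ER n t (fun r ω => ∏ i, X i r ω) - ∏ i, S.ER n t (X i) =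
      S.ER n t (fun r ω => ∏ i, X i r ω - ∏ i, S.ER n t (X i)) := by
    rw [ER_sub, ER_const]
  have habs : ∀ Y : S.Root → (Fin (n + 1) → S.Om) → ℝ,
      |S.ER n t Y| ≤ S.ER n t (fun r ω => |Y r ω|) := by
    intro Y
    rw [abs_le]
    constructor
    · have h2 := S.ER_mono n t (X := fun r ω => (-1) * |Y r ω|) (Y := Y)
        (fun r ω => by have := neg_abs_le (Y r ω); linarith)
      rw [ER_const_mul] at h2
      linarith
    · exact S.ER_mono n t fun r ω => le_abs_self _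
  rw [h1]
  refine (habs _).trans ?_
  have h3 : S.ER n t (fun r ω => |∏ i, X i r ω - ∏ i, S.ER n t (X i)|) ≤
      S.ER n t (fun r ω => ∑ i, |X i r ω - S.ER n t (X i)|) :=
    S.ER_mono n t fun r ω => e6_prod_sub Finset.univ _ _ (fun i => hX i r ω)
      (fun i => S.ER_abs_le n t (hX i))
  refine h3.trans ?_
  have h4 : S.ER n t (fun r ω => ∑ i, |X i r ω - S.ER n t (X i)|) =
      ∑ i, S.ER n t (fun r ω => |X i r ω - S.ER n t (X i)|) :=
    S.ER_sum Finset.univ n t (fun i r ω => |X i r ω - S.ER n t (X i)|)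
  rw [h4]
  exact Finset.sum_le_sum fun i _ => S.e6_ER_abs n t (X i)

/-- averaged over the tree (`∑ wt √ ≤ √ ∑ wt`). -/
theorem EE_prod_sub {ι : Type} [Fintype ι] (n : ℕ)
    (X : ι → S.Root → (Fin (n + 1) → S.Om) → ℝ) (hX : ∀ i r ω, |X i r ω| ≤ 1) :
    |S.EE n (fun r _ ω => ∏ i, X i r ω) - ∑ t, wt S.m S.R n t * ∏ i, S.ER n t (X i)| ≤
      ∑ i, Real.sqrt (∑ t, wt S.m S.R n t * S.Var n t (X i)) := by
  rw [EE_eq_ER, ← Finset.sum_sub_distrib]
  refine (Finset.abs_sum_le_sum_abs _ _).trans ?_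
  have h1 : ∀ t : Tree S.R n, |wt S.m S.R n t * S.ER n t (fun r ω => ∏ i, X i r ω) -
      wt S.m S.R n t * ∏ i, S.ER n t (X i)| ≤
      ∑ i, wt S.m S.R n t * Real.sqrt (S.Var n t (X i)) := by
    intro t
    rw [← mul_sub, abs_mul, abs_of_nonneg (wt_nonneg S.expo t), ← Finset.mul_sum]
    exact mul_le_mul_of_nonneg_left (S.ER_prod_sub n t X hX) (wt_nonneg S.expo t)
  refine (Finset.sum_le_sum fun t _ => h1 t).trans ?_
  rw [Finset.sum_comm]
  refine Finset.sum_le_sum fun i _ => ?_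
  have h2 := (Real.strictConcaveOn_sqrt.concaveOn).le_map_sum (t := Finset.univ)
    (w := fun t : Tree S.R n => wt S.m S.R n t) (p := fun t => S.Var n t (X i))
    (fun t _ => wt_nonneg S.expo t) (wt_sum S.expo n) (fun t _ => S.Var_nonneg n t (X i))
  simpa [smul_eq_mul] using h2

/-- series of `QS`. -/
theorem QS_series (ι : Type) [Fintype ι] {N : (ι → Bool) → ℝ} {q c : ℝ} (hc : 0 < c) (hq : q < 1)
    (hN : ∀ τ, |N τ| ≤ q) (K : ℕ) :
    |S.QS ι (fun τ => c * (1 + N τ)) - (Real.log c +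
      ∑ n ∈ Finset.range K, ((-1 : ℝ) ^ n / ((n : ℝ) + 1)) *
      ∑ B : Fin (n + 1) → Finset ι, (∏ l, wc N (B l)) *
        S.EE n (fun r _ ω => ∏ i, S.RC (Cof B i) r ω))| ≤ q ^ (K + 1) / (1 - q) := by
  have hk : (0 : ℝ) < S.k := by exact_mod_cast S.k_pos
  have h1N : ∀ τ, 0 < 1 + N τ := fun τ => by
    have := (abs_le.1 (hN τ)).1
    linarith
  simp only [← QS_term]
  unfold QS
  refine e6_avg S.prR _ S.prR_nonneg S.prR_sum (by positivity) (by simp [hk.ne'])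
    (fun r (v : ι → Fin S.k) =>
      LT0 S.lv S.m (S.PL r) (fun ω => c * (1 + N (fun i => ω.2 (v i)))))
    (fun n r v => En S.lv S.m (S.PL r) n (fun _ ω => ∏ l, N (fun i => (ω l).2 (v i))))
    (fun n => (-1 : ℝ) ^ n / ((n : ℝ) + 1)) K (Real.log c) _ ?_
  intro r v
  have h2 : LT0 S.lv S.m (S.PL r) (fun ω => c * (1 + N (fun i => ω.2 (v i)))) =
      Real.log c + LT0 S.lv S.m (S.PL r) (fun ω => 1 + N (fun i => ω.2 (v i))) :=
    LT0_const_mul S.lv S.expo (S.PL_law r) (fun ω => h1N _) hc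
  have h3 := LE_series S.lv S.expo (S.PL_law r) (N := fun ω => N (fun i => ω.2 (v i))) hq
    (fun ω => hN _) K
  simp only [h2]
  rw [add_sub_add_left_eq_sub]
  exact h3

/-- series of `QM`. -/
theorem QM_series (ι : Type) [Fintype ι] {N : (ι → Bool) → ℝ} {q c : ℝ} (hc : 0 < c) (hq : q < 1)
    (hN : ∀ τ, |N τ| ≤ q) (K : ℕ) :
    |S.QM ι (fun τ => c * (1 + N τ)) - (Real.log c +
      ∑ n ∈ Finset.range K, ((-1 : ℝ) ^ n / ((n : ℝ) + 1)) *
      ∑ B : Fin (n + 1) → Finset ι, (∏ l, wc N (B l)) *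
        ∑ t, wt S.m S.R n t * ∏ i, S.ER n t (S.RC (Cof B i)))| ≤ q ^ (K + 1) / (1 - q) := by
  have hk : (0 : ℝ) < S.k := by exact_mod_cast S.k_pos
  have h1N : ∀ τ, 0 < 1 + N τ := fun τ => by
    have := (abs_le.1 (hN τ)).1
    linarith
  simp only [← QM_term]
  unfold QM
  have hp1 : ∑ r : ι → S.Root, ∏ i, S.prR (r i) = 1 := by
    rw [← Fintype.piFinset_univ, ← Finset.prod_univ_sum]
    simp [S.prR_sum]
  refine e6_avg (fun r : ι → S.Root => ∏ i, S.prR (r i)) _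
    (fun r => Finset.prod_nonneg fun i _ => S.prR_nonneg _) hp1 (by positivity)
    (by simp [hk.ne'])
    (fun r (v : ι → Fin S.k) => LT0 (S.lv.pi ι) S.m (fun ω => ∏ i, S.PL (r i) (ω i))
      (fun ω => c * (1 + N (fun i => (ω i).2 (v i)))))
    (fun n r v => En (S.lv.pi ι) S.m (fun ω => ∏ i, S.PL (r i) (ω i)) n
        (fun _ ω => ∏ l, N (fun i => (ω l i).2 (v i))))
    (fun n => (-1 : ℝ) ^ n / ((n : ℝ) + 1)) K (Real.log c) _ ?_
  intro r v
  have hP : PathLaw (fun ω : ι → S.Om => ∏ i, S.PL (r i) (ω i)) :=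
    pathLaw_pi (fun i => S.PL_law (r i))
  have h2 : LT0 (S.lv.pi ι) S.m (fun ω => ∏ i, S.PL (r i) (ω i))
      (fun ω => c * (1 + N (fun i => (ω i).2 (v i)))) =
      Real.log c + LT0 (S.lv.pi ι) S.m (fun ω => ∏ i, S.PL (r i) (ω i))
        (fun ω => 1 + N (fun i => (ω i).2 (v i))) :=
    LT0_const_mul (S.lv.pi ι) S.expo hP (fun ω => h1N _) hc
  have h3 := LE_series (S.lv.pi ι) S.expo hP
    (N := fun ω : ι → S.Om => N (fun i => (ω i).2 (v i))) hq (fun ω => hN _) K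
  simp only [h2]
  rw [add_sub_add_left_eq_sub]
  exact h3

end Sys

/-- normal form of a positive function. -/
theorem exists_normal {ι : Type} [Fintype ι] (V : (ι → Bool) → ℝ) (hV : ∀ τ, 0 < V τ) :
    ∃ (c q : ℝ) (N : (ι → Bool) → ℝ), 0 < c ∧ 0 ≤ q ∧ q < 1 ∧ (∀ τ, |N τ| ≤ q) ∧
      V = fun τ => c * (1 + N τ) := by
  obtain ⟨a, ha⟩ := Finite.exists_min V
  obtain ⟨b, hb⟩ := Finite.exists_max V
  have h1 := hV a
  have h2 : V a ≤ V b := ha b
  refine ⟨(V b + V a) / 2, (V b - V a) / (V b + V a),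
    fun τ => (V τ - (V b + V a) / 2) / ((V b + V a) / 2), by linarith,
    div_nonneg (by linarith) (by linarith), ?_, ?_, ?_⟩
  · rw [div_lt_one (by linarith)]
    linarith
  · intro τ
    have h3 := ha τ
    have h4 := hb τ
    rw [abs_div, abs_of_pos (by linarith : (0 : ℝ) < (V b + V a) / 2), div_le_div_iff₀
      (by linarith) (by linarith)]
    have h5 : |V τ - (V b + V a) / 2| ≤ (V b - V a) / 2 := by
      rw [abs_le]
      constructor <;> linarith
    nlinarith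
  · funext τ
    have h6 : (V b + V a) / 2 ≠ 0 := by linarith
    have h7 : (V b + V a) / 2 * ((V τ - (V b + V a) / 2) / ((V b + V a) / 2)) =
        V τ - (V b + V a) / 2 := mul_div_cancel₀ _ h6
    rw [mul_add, h7]
    ring

variable {Sy : ℕ → Sys} {code : ℕ → TC} {η : ℕ → ℝ}

/-- comparison for one test function. -/
theorem QS_sub_QM' (H : LTH Sy code η) (ι : Type) [Fintype ι] (V : (ι → Bool) → ℝ)
    (hV : ∀ τ, 0 < V τ) :
    Tendsto (fun s => (Sy s).QS ι V - (Sy s).QM ι V) atTop (nhds 0) := by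
  obtain ⟨c, q, N, hc, hq0, hq, hN, rfl⟩ := exists_normal V hV
  -- differences of the terms
  have hterm : ∀ (n : ℕ) (B : Fin (n + 1) → Finset ι), Tendsto (fun s =>
      (Sy s).EE n (fun r _ ω => ∏ i, (Sy s).RC (Cof B i) r ω) -
      ∑ t, wt (Sy s).m (Sy s).R n t * ∏ i, (Sy s).ER n t ((Sy s).RC (Cof B i)))
      atTop (nhds 0) := by
    intro n B
    have h1 : Tendsto (fun s => ∑ i, Real.sqrt (∑ t, wt (Sy s).m (Sy s).R n t *
        (Sy s).Var n t ((Sy s).RC (Cof B i)))) atTop (nhds 0) := by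
      have h2 : Tendsto (fun s => ∑ i, Real.sqrt (∑ t, wt (Sy s).m (Sy s).R n t *
          (Sy s).Var n t ((Sy s).RC (Cof B i)))) atTop (nhds (∑ _i : ι, Real.sqrt 0)) :=
        tendsto_finsetSum _ fun i _ => (det_RC H (Cof B i)).sqrt
      simpa using h2
    refine squeeze_zero_norm (fun s => ?_) h1
    rw [Real.norm_eq_abs]
    exact (Sy s).EE_prod_sub n (fun i => (Sy s).RC (Cof B i))
      (fun i r ω => (Sy s).abs_RC_le _ r ω)
  have hpart : ∀ K : ℕ, Tendsto (fun s =>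
      ∑ n ∈ Finset.range K, ((-1 : ℝ) ^ n / ((n : ℝ) + 1)) *
        ∑ B : Fin (n + 1) → Finset ι, (∏ l, wc N (B l)) *
          ((Sy s).EE n (fun r _ ω => ∏ i, (Sy s).RC (Cof B i) r ω) -
            ∑ t, wt (Sy s).m (Sy s).R n t * ∏ i, (Sy s).ER n t ((Sy s).RC (Cof B i))))
      atTop (nhds 0) := by
    intro K
    have h2 := tendsto_finsetSum (Finset.range K) (f := fun (n : ℕ) (s : ℕ) =>
        ((-1 : ℝ) ^ n / ((n : ℝ) + 1)) *
        ∑ B : Fin (n + 1) → Finset ι, (∏ l, wc N (B l)) *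
          ((Sy s).EE n (fun r _ ω => ∏ i, (Sy s).RC (Cof B i) r ω) -
            ∑ t, wt (Sy s).m (Sy s).R n t * ∏ i, (Sy s).ER n t ((Sy s).RC (Cof B i))))
        (a := fun n => ((-1 : ℝ) ^ n / ((n : ℝ) + 1)) *
          ∑ B : Fin (n + 1) → Finset ι, (∏ l, wc N (B l)) * 0) (x := atTop)
        (fun n _ => (tendsto_finsetSum _ fun B _ => (hterm n B).const_mul _).const_mul _)
    simpa using h2
  rw [Metric.tendsto_atTop]
  intro ε hε
  have h1q : 0 < 1 - q := by linarith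
  obtain ⟨K, hK⟩ : ∃ K : ℕ, q ^ (K + 1) / (1 - q) < ε / 3 := by
    have h1 : Tendsto (fun K : ℕ => q ^ (K + 1) / (1 - q)) atTop (nhds 0) := by
      have h2 := ((tendsto_pow_atTop_nhds_zero_of_lt_one hq0 hq).comp
        (tendsto_add_atTop_nat 1)).div_const (1 - q)
      simpa using h2
    exact (h1.eventually (gt_mem_nhds (by positivity))).exists
  obtain ⟨s0, hs0⟩ := (Metric.tendsto_atTop.1 (hpart K)) (ε / 3) (by positivity)
  refine ⟨s0, fun s hs => ?_⟩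
  have h1 := hs0 s hs
  rw [Real.dist_eq, sub_zero] at h1 ⊢
  have h2 := (Sy s).QS_series ι hc hq hN K
  have h3 := (Sy s).QM_series ι hc hq hN K
  have h4 : ∑ n ∈ Finset.range K, ((-1 : ℝ) ^ n / ((n : ℝ) + 1)) *
        ∑ B : Fin (n + 1) → Finset ι, (∏ l, wc N (B l)) *
          ((Sy s).EE n (fun r _ ω => ∏ i, (Sy s).RC (Cof B i) r ω) -
            ∑ t, wt (Sy s).m (Sy s).R n t * ∏ i, (Sy s).ER n t ((Sy s).RC (Cof B i))) =
      ∑ n ∈ Finset.range K, ((-1 : ℝ) ^ n / ((n : ℝ) + 1)) *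
        ∑ B : Fin (n + 1) → Finset ι, (∏ l, wc N (B l)) *
          (Sy s).EE n (fun r _ ω => ∏ i, (Sy s).RC (Cof B i) r ω) -
      ∑ n ∈ Finset.range K, ((-1 : ℝ) ^ n / ((n : ℝ) + 1)) *
        ∑ B : Fin (n + 1) → Finset ι, (∏ l, wc N (B l)) *
          ∑ t, wt (Sy s).m (Sy s).R n t * ∏ i, (Sy s).ER n t ((Sy s).RC (Cof B i)) := by
    rw [← Finset.sum_sub_distrib]
    refine Finset.sum_congr rfl fun n _ => ?_
    rw [← mul_sub, ← Finset.sum_sub_distrib]
    congr 1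
    exact Finset.sum_congr rfl fun B _ => by ring
  rw [h4] at h1
  rw [abs_lt] at h1 ⊢
  rw [abs_le] at h2 h3
  constructor <;> linarith [h1.1, h1.2, h2.1, h2.2, h3.1, h3.2]

end Crest.SG
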