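import Crest.Agent.SG_E1
import Crest.Agent.SG_E6
import Crest.Agent.SGG_Pois

/-! # SG_E7 : comparison of the cavity functionals (assembly by helper72) -/

set_option autoImplicit false
set_option linter.unusedVariables false
noncomputable section
open scoped BigOperators
open Classical Filter
open Crest.ProbabilityR.Diluted Crest.Agent.SGG
namespace Crest.SG

theorem E7_avg_le {I : Type} [Fintype I] {w f : I → ℝ} (hw : ∀ i, 0 ≤ w i) (hs : ∑ i, w i = 1)
    {δ : ℝ} (h : ∀ i, |f i| ≤ δ) : |∑ i, w i * f i| ≤ δ := by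
  refine (Finset.abs_sum_le_sum_abs _ _).trans ?_
  calc ∑ i, |w i * f i| ≤ ∑ i, w i * δ := by
        refine Finset.sum_le_sum fun i _ => ?_
        rw [abs_mul, abs_of_nonneg (hw i)]
        exact mul_le_mul_of_nonneg_left (h i) (hw i)
    _ = δ := by rw [← Finset.sum_mul, hs, one_mul]

theorem E7_sites {k : ℕ} (hk : 0 < k) (ι : Type) [Fintype ι] :
    ∑ _v : ι → Fin k, (1 / (k : ℝ)) ^ (Fintype.card ι) = 1 := by
  have hk' : (k : ℝ) ≠ 0 := by exact_mod_cast hk.ne'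
  rw [Finset.sum_const, Finset.card_univ, Fintype.card_fun, Fintype.card_fin, nsmul_eq_mul]
  push_cast
  rw [← mul_pow, mul_one_div_cancel hk', one_pow]

namespace Sys
variable (S : Sys)

theorem E7_prR_pi (ι : Type) [Fintype ι] : ∑ r : ι → S.Root, ∏ i, S.prR (r i) = 1 := by
  have h : ∏ _i : ι, (∑ r : S.Root, S.prR r) = ∑ r : ι → S.Root, ∏ i, S.prR (r i) := by
    rw [Finset.prod_univ_sum, Fintype.piFinset_univ]
  rw [← h]
  exact Finset.prod_eq_one fun i _ => S.prR_sum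

theorem abs_QS_le (ι : Type) [Fintype ι] {V : (ι → Bool) → ℝ} (hV : ∀ τ, 0 < V τ) {δ : ℝ}
    (hδ : ∀ τ, |Real.log (V τ)| ≤ δ) : |S.QS ι V| ≤ δ := by
  unfold QS
  refine E7_avg_le S.prR_nonneg S.prR_sum fun r => ?_
  refine E7_avg_le (fun _ => by positivity) (E7_sites S.k_pos ι) fun v => ?_
  exact abs_LT0_le S.lv S.expo (S.PL_law r) (fun _ => hV _) (fun _ => hδ _)

theorem abs_QM_le (ι : Type) [Fintype ι] {V : (ι → Bool) → ℝ} (hV : ∀ τ, 0 < V τ) {δ : ℝ}
    (hδ : ∀ τ, |Real.log (V τ)| ≤ δ) : |S.QM ι V| ≤ δ := by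
  unfold QM
  refine E7_avg_le (fun r => Finset.prod_nonneg fun i _ => S.prR_nonneg _) (S.E7_prR_pi ι)
    fun r => ?_
  refine E7_avg_le (fun _ => by positivity) (E7_sites S.k_pos ι) fun v => ?_
  exact abs_LT0_le (S.lv.pi ι) S.expo (pathLaw_pi fun i => S.PL_law (r i)) (fun _ => hV _)
    (fun _ => hδ _)

end Sys

theorem E7_wE_nonneg {p : ℕ} (C : Core p) (e : C.E) : 0 ≤ C.wE e :=
  mul_nonneg (C.wB_nonneg _) (Finset.prod_nonneg fun l _ => C.wF_nonneg _)

theorem E7_wE_sum {p : ℕ} (C : Core p) : ∑ e : C.E, C.wE e = 1 := by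
  unfold Core.wE
  rw [Fintype.sum_prod_type]
  simp only [← Finset.mul_sum]
  have h : ∏ _l : Fin p, (∑ j, C.wF j) = ∑ x : Fin p → Fin C.nF, ∏ l, C.wF (x l) := by
    rw [Finset.prod_univ_sum, Fintype.piFinset_univ]
  rw [← h, C.wF_sum]
  simp [C.wB_sum]

theorem E7_wE_pi {p : ℕ} (C : Core p) (κ : ℕ) : ∑ e : Fin κ → C.E, ∏ j, C.wE (e j) = 1 := by
  have h : ∏ _l : Fin κ, (∑ e : C.E, C.wE e) = ∑ x : Fin κ → C.E, ∏ l, C.wE (x l) := by
    rw [Finset.prod_univ_sum, Fintype.piFinset_univ]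
  rw [← h]
  exact Finset.prod_eq_one fun i _ => E7_wE_sum C

/-- the term of the Poisson sum. -/
def siteQ {p : ℕ} (C : Core p) (Q : (ι : Type) → [Fintype ι] → ((ι → Bool) → ℝ) → ℝ) (κ : ℕ) : ℝ :=
  ∑ e : Fin κ → C.E, (∏ j, C.wE (e j)) * ∑ y : Fin C.nH, C.wH y *
      Q (Fin κ × Fin (p - 1)) (Vsite C e y)

theorem E7_site_bound {p : ℕ} (C : Core p) {A B : ℝ}
    (hAB : ∀ (κ : ℕ) (e : Fin κ → C.E) (y : Fin C.nH)
      (τ : Fin κ × Fin (p - 1) → Bool), |Real.log (Vsite C e y τ)| ≤ A + B * κ)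
    (Q : (ι : Type) → [Fintype ι] → ((ι → Bool) → ℝ) → ℝ)
    (hQ : ∀ (ι : Type) [Fintype ι] {V : (ι → Bool) → ℝ} (_ : ∀ τ, 0 < V τ) {δ : ℝ}
      (_ : ∀ τ, |Real.log (V τ)| ≤ δ), |Q ι V| ≤ δ) (κ : ℕ) :
    |siteQ C Q κ| ≤ A + B * κ := by
  unfold siteQ
  refine E7_avg_le (fun e => Finset.prod_nonneg fun i _ => E7_wE_nonneg C _) (E7_wE_pi C κ)
    fun e => ?_
  refine E7_avg_le C.wH_nonneg C.wH_sum fun y => ?_
  exact hQ _ (fun τ => Vsite_pos C e y τ) (fun τ => hAB κ e y τ)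

variable {Sy : ℕ → Sys} {code : ℕ → TC} {η : ℕ → ℝ}

theorem fcav_sub' (H : LTH Sy code η) {p : ℕ} (C : Core p) {α : ℝ} (hα : 0 < α) :
    Tendsto (fun s => fcav C α (fun ι _ V => (Sy s).QS ι V) -
      fcav C α (fun ι _ V => (Sy s).QM ι V)) atTop (nhds 0) := by
  obtain ⟨A, B, hA, hB, hAB⟩ := abs_log_Vsite C
  have hl : 0 ≤ α * p := by positivity
  have bS := fun s => E7_site_bound C hAB (fun ι _ V => (Sy s).QS ι V)
    (fun ι _ V hV δ hδ => (Sy s).abs_QS_le ι hV hδ)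
  have bM := fun s => E7_site_bound C hAB (fun ι _ V => (Sy s).QM ι V)
    (fun ι _ V hV δ hδ => (Sy s).abs_QM_le ι hV hδ)
  have h1 : Tendsto (fun s => ∑' κ : ℕ, poissonWeight (α * p) κ *
      (siteQ C (fun ι _ V => (Sy s).QS ι V) κ - siteQ C (fun ι _ V => (Sy s).QM ι V) κ)) atTop
      (nhds (∑' κ : ℕ, poissonWeight (α * p) κ * 0)) := by
    refine tendsto_tsum (A := 2 * A) (B := 2 * B) hl (fun s κ => ?_) (fun κ => ?_)
    · have h2 := bS s κ
      have h3 := bM s κ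
      have h4 := abs_sub (siteQ C (fun ι _ V => (Sy s).QS ι V) κ)
        (siteQ C (fun ι _ V => (Sy s).QM ι V) κ)
      linarith
    · have e : ∀ s, siteQ C (fun ι _ V => (Sy s).QS ι V) κ -
          siteQ C (fun ι _ V => (Sy s).QM ι V) κ =
          ∑ e : Fin κ → C.E, (∏ j, C.wE (e j)) * ∑ y : Fin C.nH, C.wH y *
            ((Sy s).QS (Fin κ × Fin (p - 1)) (Vsite C e y) -
              (Sy s).QM (Fin κ × Fin (p - 1)) (Vsite C e y)) := by
        intro s
        unfold siteQ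
        rw [← Finset.sum_sub_distrib]
        refine Finset.sum_congr rfl fun e _ => ?_
        rw [← mul_sub, ← Finset.sum_sub_distrib]
        congr 1
        refine Finset.sum_congr rfl fun y _ => ?_
        rw [mul_sub]
      simp_rw [e]
      have e0 : (0 : ℝ) = ∑ e : Fin κ → C.E, (∏ j, C.wE (e j)) * ∑ y : Fin C.nH, C.wH y * 0 := by
        simp
      rw [e0]
      refine tendsto_finsetSum _ fun e _ => Tendsto.const_mul _ ?_
      refine tendsto_finsetSum _ fun y _ => Tendsto.const_mul _ ?_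
      exact QS_sub_QM' H _ _ (fun τ => Vsite_pos C e y τ)
  simp only [mul_zero, tsum_zero] at h1
  have h2 : Tendsto (fun s => ∑ e : C.E, C.wE e * ((Sy s).QS (Fin p) (Vedge C e) -
      (Sy s).QM (Fin p) (Vedge C e))) atTop (nhds 0) := by
    have e0 : (0 : ℝ) = ∑ e : C.E, C.wE e * 0 := by simp
    rw [e0]
    refine tendsto_finsetSum _ fun e _ => Tendsto.const_mul _ ?_
    exact QS_sub_QM' H _ _ (fun τ => Vedge_pos C e τ)
  have h3 := h1.sub (h2.const_mul (α * (p - 1 : ℝ)))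
  rw [mul_zero, sub_zero] at h3
  refine h3.congr fun s => ?_
  have e1 : ∑' κ : ℕ, poissonWeight (α * p) κ *
      (siteQ C (fun ι _ V => (Sy s).QS ι V) κ - siteQ C (fun ι _ V => (Sy s).QM ι V) κ) =
      Poi (α * p) (siteQ C (fun ι _ V => (Sy s).QS ι V)) -
        Poi (α * p) (siteQ C (fun ι _ V => (Sy s).QM ι V)) := by
    unfold Poi
    rw [← (summable_linear hl (bS s)).tsum_sub (summable_linear hl (bM s))]
    refine tsum_congr fun κ => ?_
    ring
  have e2 : ∑ e : C.E, C.wE e * ((Sy s).QS (Fin p) (Vedge C e) - (Sy s).QM (Fin p) (Vedge C e)) =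
      ∑ e : C.E, C.wE e * (Sy s).QS (Fin p) (Vedge C e) -
        ∑ e : C.E, C.wE e * (Sy s).QM (Fin p) (Vedge C e) := by
    rw [← Finset.sum_sub_distrib]
    refine Finset.sum_congr rfl fun e _ => ?_
    ring
  rw [e1, e2]
  unfold fcav siteQ
  ring

end Crest.SG
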