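import Crest.Agent.SG_B9
import Crest.Agent.SG_CDefs
import Crest.Agent.SG_E4
import Crest.Agent.SG_E7

/-! # SG_E : part E targets (comparison and realization as a finite trial); designer: helper72 -/

set_option autoImplicit false
noncomputable section
open scoped BigOperators
open Classical Filter
open Crest.ProbabilityR.Diluted Crest.Agent.SGG
namespace Crest.SG

/-- realization: the message functional `QM` of a slot system is the functional of a finite chain
trial: depth `r = R-1`, `m_i = (i+1)/R`, states `Root × Fin k × Om`, level 0 = (root, site),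
level `j+1` ~ `K_j(ω_j, ·)` of `PL root`, message `artanh (ce (R-1) (σ_v))`. -/
theorem exists_trial {p : ℕ} (hp : 2 ≤ p) (C : Core p) (α : ℝ) (S : Sys) :
    ∃ t : Trial, C.functional α t = fcav C α (fun ι _ V => S.QM ι V) :=
  exists_trial' C α S

variable {Sy : ℕ → Sys} {code : ℕ → TC} {η : ℕ → ℝ}

/-- comparison for one test function: `LE_series` for both sides, expansion in spin monomials,
`det_RC`. -/
theorem QS_sub_QM (H : LTH Sy code η) (ι : Type) [Fintype ι] (V : (ι → Bool) → ℝ)
    (hV : ∀ τ, 0 < V τ) :
    Tendsto (fun s => (Sy s).QS ι V - (Sy s).QM ι V) atTop (nhds 0) :=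
  QS_sub_QM' H ι V hV

/-- comparison of the cavity functionals (dominated convergence in the Poisson sum). -/
theorem fcav_sub (H : LTH Sy code η) {p : ℕ} (hp : 2 ≤ p) (C : Core p) {α : ℝ} (hα : 0 < α) :
    Tendsto (fun s => fcav C α (fun ι _ V => (Sy s).QS ι V) -
      fcav C α (fun ι _ V => (Sy s).QM ι V)) atTop (nhds 0) :=
  fcav_sub' H C hα

end Crest.SG
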