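import Crest.Agent.SG_H1
import Crest.Agent.SG_E

/-! # SG_LB : lower bound for the core model (task SG-H2: final assembly of parts B,C,D,E)

By contradiction: `ε > 0` and arbitrarily large bad `K`. For each `s` take a bad `K_s ≥ K1(s)` and
`(k_s, x_s)` from `select`; `Sy s = SS s k_s x_s` satisfies `LTH` (`frx`, `Wx_close`, `levf_ex`,
`exists_code`, `Lf ≥ k/(s+1) ≥ s+1`; `det1`: for `b`, feature `g = (e, A)` and `s` large, `g = toFeat g'`).
Then `fcav QM ≤ pressure K_s + cH/(s+1) + o(1)` by `fcav_sub`, and `exists_trial` contradicts badness. -/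

set_option autoImplicit false
open Crest.Agent.SGG Filter
namespace Crest.SG

private theorem SGLB_Dvar_nonneg (S : Sys) (b n : ℕ) (G : Fin (n + 1) → Feat) :
    0 ≤ S.Dvar b n G := by
  unfold Sys.Dvar
  exact Finset.sum_nonneg fun t _ => mul_nonneg (wt_nonneg S.expo t) (S.Var_nonneg n t _)

theorem core_LTH {p : ℕ} (C : Core p) {α : ℝ} (hα : 0 < α) (Mt : ℕ → ℕ) {code : ℕ → TC}
    (hcode : ∀ b, tnorm (code b) < 1 / 4) (hsurj : ∀ c, tnorm c < 1 / 4 → ∃ b, code b = c)
    (k : ℕ → ℕ) (x : ∀ s, PIdx s → ℝ) (hx : ∀ s i, |x s i| ≤ 1) (hk : ∀ s, (s + 1) ^ 2 ≤ k s)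
    (hdet : ∀ s, ∀ i : PIdx s,
      (SS C hα Mt hcode s (k s) (x s) (hx s)).Dvar i.1 0 (fun _ => toFeat i.2) ≤ 1 / ((s : ℝ) + 1)) :
    LTH (fun s => SS C hα Mt hcode s (k s) (x s) (hx s)) code (fun s => 1 / (4 * ((s : ℝ) + 1))) where
  code_lt := hcode
  code_surj := hsurj
  R_eq := fun s => rfl
  L_top := by
    refine tendsto_atTop_mono (f := fun s : ℕ => (s : ℝ)) (fun s => ?_) tendsto_natCast_atTop_atTop
    change (s : ℝ) ≤ ((Lf s (k s + 1) : ℕ) : ℝ)
    refine Nat.cast_le.2 ?_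
    unfold Lf
    have h1 : s + 1 ≤ (k s + 1) / (s + 1) := by
      rw [Nat.le_div_iff_mul_le (Nat.succ_pos s)]
      have := hk s
      nlinarith
    omega
  N_top := fun n => (eventually_gt_atTop n).mono fun s hs => hs
  q_top := fun b => (eventually_gt_atTop b).mono fun s hs => hs
  lev_ex := fun d i h0 h1 A => levf_ex d i h0 h1 A
  W_close := fun s b σ l => Wx_close s code (hx s) b σ l
  η_zero := by
    have h : Tendsto (fun s : ℕ => (1 / 4 : ℝ) * (1 / ((s : ℝ) + 1))) atTop (nhds ((1 / 4) * 0)) :=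
      tendsto_one_div_add_atTop_nhds_zero_nat.const_mul _
    rw [mul_zero] at h
    refine h.congr fun s => ?_
    have : (s : ℝ) + 1 ≠ 0 := by positivity
    field_simp
  det1 := by
    intro b g
    refine squeeze_zero' (Eventually.of_forall fun s => SGLB_Dvar_nonneg _ _ _ _) ?_
      tendsto_one_div_add_atTop_nhds_zero_nat
    filter_upwards [eventually_gt_atTop b, eventually_gt_atTop (g.2.sup id)] with s hs hs2
    have hg : ∀ n ∈ g.2, n < s := fun n hn => lt_of_le_of_lt (Finset.le_sup (f := id) hn) hs2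
    have hgt : toFeat (s := s) (g.1, g.2.attachFin hg) = g := by
      unfold toFeat
      refine Prod.ext rfl ?_
      ext n
      simp only [Finset.mem_map, Finset.mem_attachFin, Fin.valEmbedding_apply]
      constructor
      · rintro ⟨a, ha, rfl⟩
        exact ha
      · intro hn
        exact ⟨⟨n, hg n hn⟩, hn, rfl⟩
    have := hdet s (⟨b, hs⟩, (g.1, g.2.attachFin hg))
    simp only [hgt] at this
    exact this

theorem core_LB {p : ℕ} (hp : 2 ≤ p) (C : Core p) {α : ℝ} (hα : 0 < α) : CoreLB p α C := by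
  intro ε hε
  by_contra hcon
  push Not at hcon
  obtain ⟨Mt, hM⟩ := exists_trunc hα
  obtain ⟨code, hcode, hsurj⟩ := exists_code
  obtain ⟨cH, hcH, hsel⟩ := select hp C hα hM hcode
  choose K1 hK1 using hsel
  choose Kb hKb hbad using hcon
  -- Kb s' ≥ s', bad
  have hsel2 : ∀ s : ℕ, ∃ (k : ℕ) (x : PIdx s → ℝ) (hx : ∀ i, |x i| ≤ 1), (s + 1) ^ 2 ≤ k ∧
        (∀ i : PIdx s, (SS C hα Mt hcode s k x hx).Dvar i.1 0 (fun _ => toFeat i.2) ≤
          1 / ((s : ℝ) + 1)) ∧
        fcav C α (fun ι _ V => (SS C hα Mt hcode s k x hx).QS ι V) ≤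
          C.pressure α (Kb (K1 s)) + cH / ((s : ℝ) + 1) := fun s => hK1 s _ (hKb (K1 s))
  choose k x hx hk hdet hle using hsel2
  have H := core_LTH C hα Mt hcode hsurj k x hx hk hdet
  have hsub := fcav_sub H hp C hα
  have h1 : Tendsto (fun s : ℕ => cH / ((s : ℝ) + 1)) atTop (nhds 0) := by
    have := (tendsto_one_div_add_atTop_nhds_zero_nat (𝕜 := ℝ)).const_mul cH
    rw [mul_zero] at this
    refine this.congr fun s => ?_
    ring
  have e1 : ∀ᶠ s : ℕ in atTop, cH / ((s : ℝ) + 1) < ε / 2 := (tendsto_order.1 h1).2 _ (half_pos hε)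
  have e2 := (tendsto_order.1 hsub).1 (-(ε / 2)) (by linarith)
  obtain ⟨s, hs1, hs2⟩ := (e1.and e2).exists
  obtain ⟨t, ht⟩ := exists_trial hp C α (SS C hα Mt hcode s (k s) (x s) (hx s))
  have hb := hbad (K1 s) t
  have hl := hle s
  rw [ht] at hb
  have hs3 := hs2
  linarith

end Crest.SG
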