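import Crest.Agent.SG_F0
import Crest.Agent.SGG_Site

/-! # SG_F5 : the factors of the core model (part F of S0192)

Useful: `Crest.Agent.SGG.tilt_pos`, `tilt_sum`, `sum_prod_tilt` in `SGG_Site.lean`. -/

set_option autoImplicit false
set_option linter.unusedVariables false
noncomputable section
open scoped BigOperators
open Classical
open Crest.ProbabilityR.Diluted Crest.Agent.SGG
namespace Crest.SG

/-- convexity of `t ↦ t ^ p`. -/
theorem convex_ineq {p : ℕ} (hp : 2 ≤ p) {x y : ℝ} (h : Even p ∨ (0 ≤ x ∧ 0 ≤ y)) :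
    0 ≤ x ^ p - p * (x * y ^ (p - 1)) + ((p : ℝ) - 1) * y ^ p := by
  obtain ⟨q, rfl⟩ : ∃ q, p = q + 2 := ⟨p - 2, by omega⟩
  have e1 : q + 2 - 1 = q + 1 := by omega
  rw [e1]
  by_cases hy : y = 0
  · subst hy
    have h1 : 0 ≤ x ^ (q + 2) := by
      rcases h with h | h
      · exact h.pow_nonneg x
      · exact pow_nonneg h.1 _
    simp
    exact h1
  · have hyp : 0 < y ^ (q + 2) := by
      rcases h with h | h
      · exact h.pow_pos hy
      · exact pow_pos (lt_of_le_of_ne h.2 (Ne.symm hy)) _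
    have key : 1 + ((q + 2 : ℕ) : ℝ) * (x / y - 1) ≤ (1 + (x / y - 1)) ^ (q + 2) := by
      by_cases h2 : -2 ≤ x / y - 1
      · exact one_add_mul_le_pow h2 (q + 2)
      · have h3 : 1 + ((q + 2 : ℕ) : ℝ) * (x / y - 1) ≤ 0 := by
          push_cast
          have : (0 : ℝ) ≤ q := Nat.cast_nonneg q
          nlinarith
        refine h3.trans ?_
        rcases h with h | h
        · exact h.pow_nonneg _
        · have : 0 ≤ x / y := div_nonneg h.1 h.2
          exfalso
          linarith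
    have e2 : 1 + (x / y - 1) = x / y := by ring
    rw [e2, div_pow] at key
    have h4 := mul_le_mul_of_nonneg_right key hyp.le
    rw [div_mul_cancel₀ _ hyp.ne'] at h4
    have e3 : (1 + ((q + 2 : ℕ) : ℝ) * (x / y - 1)) * y ^ (q + 2) =
        ((q + 2 : ℕ) : ℝ) * (x * y ^ (q + 1)) - (((q + 2 : ℕ) : ℝ) - 1) * y ^ (q + 2) := by
      field_simp
      ring
    rw [e3] at h4
    linarith

theorem abs_log_one_add_le {z q : ℝ} (hz : |z| ≤ q) (hq : q < 1) :
    |Real.log (1 + z)| ≤ -Real.log (1 - q) := by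
  have h1 := abs_le.1 hz
  have h0 : 0 ≤ q := (abs_nonneg z).trans hz
  rw [abs_le]
  constructor
  · rw [neg_neg]
    exact Real.log_le_log (by linarith) (by linarith [h1.1])
  · have h2 : Real.log (1 + z) ≤ Real.log (1 + q) :=
      Real.log_le_log (by linarith [h1.1]) (by linarith [h1.2])
    have h3 : Real.log (1 + q) + Real.log (1 - q) ≤ 0 := by
      rw [← Real.log_mul (by linarith) (by linarith)]
      exact Real.log_nonpos (by nlinarith) (by nlinarith)
    linarith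

variable {p : ℕ} (C : Core p)

theorem abs_gE_le (e : C.E) (s : Fin p → Bool) : |gE C e s| ≤ C.q0 := C.bound e.1 e.2 s

/-- sums of products over a product space. -/
theorem F5_sum_prod {ι : Type} [Fintype ι] [DecidableEq ι] (A : ι → Bool → ℝ) :
    ∑ s : ι → Bool, ∏ l, A l (s l) = ∏ l, ∑ s : Bool, A l s := by
  have := Finset.prod_univ_sum (fun _ : ι => (Finset.univ : Finset Bool)) (fun l s => A l s)
  rw [Fintype.piFinset_univ] at this
  exact this.symm

theorem F5_gM_eq (e : C.E) (x : Fin p → ℝ) :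
    gM C e x = ∑ s : Fin p → Bool,
      (∏ l, Crest.ProbabilityR.Diluted.tilt (x l) (s l)) * gE C e s := by
  have h1 : ∀ s : Fin p → Bool, (∏ l, Crest.ProbabilityR.Diluted.tilt (x l) (s l)) * gE C e s =
      C.b e.1 * ∏ l, (C.f (e.2 l) (s l) * Crest.ProbabilityR.Diluted.tilt (x l) (s l)) := by
    intro s
    unfold gE
    rw [Finset.prod_mul_distrib]
    ring
  simp only [h1]
  rw [← Finset.mul_sum, F5_sum_prod (fun l s =>
    C.f (e.2 l) s * Crest.ProbabilityR.Diluted.tilt (x l) s)]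
  rfl

/-- the spin tuple with last coordinate `ε`. -/
def F5_ext (p : ℕ) (s : Fin (p - 1) → Bool) (ε : Bool) : Fin p → Bool :=
  fun ℓ => if h : ℓ.val < p - 1 then s ⟨ℓ.val, h⟩ else ε

theorem F5_gF_eq (hp : 1 ≤ p) (e : C.E) (ε : Bool) (x : Fin (p - 1) → ℝ) :
    gF C e ε x = ∑ s : Fin (p - 1) → Bool,
      (∏ l, Crest.ProbabilityR.Diluted.tilt (x l) (s l)) * gE C e (F5_ext p s ε) := by
  obtain ⟨q, rfl⟩ : ∃ q, p = q + 1 := ⟨p - 1, by omega⟩
  have h1 : ∀ s : Fin (q + 1 - 1) → Bool,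
      (∏ l, Crest.ProbabilityR.Diluted.tilt (x l) (s l)) * gE C e (F5_ext (q + 1) s ε) =
      (C.b e.1 * C.f (e.2 (Fin.last q)) ε) *
        ∏ l : Fin q, (C.f (e.2 l.castSucc) (s l) * Crest.ProbabilityR.Diluted.tilt (x l) (s l)) := by
    intro s
    unfold gE
    rw [Finset.prod_mul_distrib, Fin.prod_univ_castSucc]
    have h2 : F5_ext (q + 1) s ε (Fin.last q) = ε := by
      simp [F5_ext]
    have h3 : ∀ l : Fin q, F5_ext (q + 1) s ε l.castSucc = s l := by
      intro l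
      have : (l : ℕ) < q + 1 - 1 := by have := l.2; omega
      simp only [F5_ext, Fin.val_castSucc]
      rw [dif_pos this]
      rfl
    have h5 : (∏ l, Crest.ProbabilityR.Diluted.tilt (x l) (s l)) =
        ∏ l : Fin q, Crest.ProbabilityR.Diluted.tilt (x l) (s l) := rfl
    rw [h2, h5]
    simp only [h3]
    ring
  have h4 : gF C e ε x = (C.b e.1 * C.f (e.2 (Fin.last q)) ε) *
      ∏ l : Fin q, fbar C (e.2 l.castSucc) (x l) := by
    unfold gF
    rw [Fin.prod_univ_castSucc]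
    have h2 : (if h : (Fin.last q).val < q + 1 - 1 then
        fbar C (e.2 (Fin.last q)) (x ⟨(Fin.last q).val, h⟩) else C.f (e.2 (Fin.last q)) ε) =
        C.f (e.2 (Fin.last q)) ε := by
      rw [dif_neg]
      simp
    have h3 : ∀ l : Fin q, (if h : (l.castSucc).val < q + 1 - 1 then
        fbar C (e.2 l.castSucc) (x ⟨(l.castSucc).val, h⟩) else C.f (e.2 l.castSucc) ε) =
        fbar C (e.2 l.castSucc) (x l) := by
      intro l
      have : (l.castSucc).val < q + 1 - 1 := by have := l.2; simp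
      rw [dif_pos this]
      rfl
    rw [h2]
    simp only [h3]
    ring
  simp only [h1]
  rw [h4, ← Finset.mul_sum]
  congr 1
  exact (F5_sum_prod (fun (l : Fin q) s => C.f (e.2 l.castSucc) s *
    Crest.ProbabilityR.Diluted.tilt (x l) s)).symm

theorem F5_avg_le {ι : Type} [Fintype ι] [DecidableEq ι] (x : ι → ℝ) (F : (ι → Bool) → ℝ) {q : ℝ}
    (h : ∀ s, |F s| ≤ q) :
    |∑ s : ι → Bool, (∏ l, Crest.ProbabilityR.Diluted.tilt (x l) (s l)) * F s| ≤ q := by
  refine (Finset.abs_sum_le_sum_abs _ _).trans ?_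
  have h1 : ∀ s ∈ (Finset.univ : Finset (ι → Bool)),
      |(∏ l, Crest.ProbabilityR.Diluted.tilt (x l) (s l)) * F s| ≤
      (∏ l, Crest.ProbabilityR.Diluted.tilt (x l) (s l)) * q := by
    intro s _
    have h2 : 0 < ∏ l, Crest.ProbabilityR.Diluted.tilt (x l) (s l) :=
      Finset.prod_pos fun l _ => Crest.Agent.SGG.tilt_pos (x l) (s l)
    rw [abs_mul, abs_of_pos h2]
    exact mul_le_mul_of_nonneg_left (h s) h2.le
  refine (Finset.sum_le_sum h1).trans ?_
  rw [← Finset.sum_mul, Crest.Agent.SGG.sum_prod_tilt, one_mul]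

theorem abs_gM_le (e : C.E) (x : Fin p → ℝ) : |gM C e x| ≤ C.q0 := by
  rw [F5_gM_eq]
  exact F5_avg_le x _ fun s => abs_gE_le C e s

theorem abs_gF_le (hp : 1 ≤ p) (e : C.E) (ε : Bool) (x : Fin (p - 1) → ℝ) :
    |gF C e ε x| ≤ C.q0 := by
  rw [F5_gF_eq C hp]
  exact F5_avg_le x _ fun s => abs_gE_le C e _

theorem fbar_nonneg (hf : ∀ φ s, 0 ≤ C.f φ s) (i : Fin C.nF) (x : ℝ) : 0 ≤ fbar C i x :=
  Finset.sum_nonneg fun s _ => mul_nonneg (hf i s) (Crest.Agent.SGG.tilt_pos x s).le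

theorem exp_theta (e : C.E) (s : Fin p → Bool) : Real.exp (C.theta e s) = 1 + gE C e s := by
  have h := abs_le.1 (abs_gE_le C e s)
  have hq := C.q0_lt
  have : C.theta e s = Real.log (1 + gE C e s) := rfl
  rw [this, Real.exp_log]
  linarith [h.1]

theorem edgeTerm_eq_gM (e : C.E) (x : Fin p → ℝ) : edgeTerm (C.theta e) x = 1 + gM C e x := by
  unfold edgeTerm
  have h1 : ∀ s : Fin p → Bool, Real.exp (C.theta e s) *
      ∏ l, Crest.ProbabilityR.Diluted.tilt (x l) (s l) =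
      (∏ l, Crest.ProbabilityR.Diluted.tilt (x l) (s l)) +
        (∏ l, Crest.ProbabilityR.Diluted.tilt (x l) (s l)) * gE C e s := by
    intro s
    rw [exp_theta]
    ring
  simp only [h1]
  rw [Finset.sum_add_distrib, Crest.Agent.SGG.sum_prod_tilt, F5_gM_eq]

theorem exp_siteMessage_eq (hp : 1 ≤ p) (e : C.E) (x : Fin (p - 1) → ℝ) (ε : Bool) :
    Real.exp (siteMessage (C.theta e) x ε) = 1 + gF C e ε x := by
  have h1 : ∑ s : Fin (p - 1) → Bool, Real.exp (C.theta e
      (fun ℓ => if h : ℓ.val < p - 1 then s ⟨ℓ.val, h⟩ else ε)) *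
      ∏ l, Crest.ProbabilityR.Diluted.tilt (x l) (s l) = 1 + gF C e ε x := by
    have h2 : ∀ s : Fin (p - 1) → Bool, Real.exp (C.theta e
        (fun ℓ => if h : ℓ.val < p - 1 then s ⟨ℓ.val, h⟩ else ε)) *
        ∏ l, Crest.ProbabilityR.Diluted.tilt (x l) (s l) =
        (∏ l, Crest.ProbabilityR.Diluted.tilt (x l) (s l)) +
          (∏ l, Crest.ProbabilityR.Diluted.tilt (x l) (s l)) * gE C e (F5_ext p s ε) := by
      intro s
      have : (fun ℓ : Fin p => if h : ℓ.val < p - 1 then s ⟨ℓ.val, h⟩ else ε) = F5_ext p s ε := rfl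
      rw [this, exp_theta]
      ring
    simp only [h2]
    rw [Finset.sum_add_distrib, Crest.Agent.SGG.sum_prod_tilt, F5_gF_eq C hp]
  unfold siteMessage
  rw [h1, Real.exp_log]
  have h := abs_le.1 (abs_gF_le C hp e ε x)
  have hq := C.q0_lt
  linarith [h.1]

theorem siteTerm_eq_gF (hp : 1 ≤ p) {k : ℕ} (h : ℝ) (e : Fin k → C.E)
    (x : Fin k → Fin (p - 1) → ℝ) :
    siteTerm h (fun j => C.theta (e j)) x =
      ∑ ε : Bool, (1 / 2) * (Real.exp (h * spinVal ε) * ∏ j, (1 + gF C (e j) ε (x j))) := by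
  unfold siteTerm
  rw [Finset.mul_sum]
  refine Finset.sum_congr rfl fun ε _ => ?_
  rw [Real.exp_add, Real.exp_sum]
  congr 2
  exact Finset.prod_congr rfl fun j _ => exp_siteMessage_eq C hp (e j) (x j) ε

theorem F5_sum_prod' {ι E : Type} [Fintype ι] [DecidableEq ι] [Fintype E] (A : ι → E → ℝ) :
    ∑ s : ι → E, ∏ l, A l (s l) = ∏ l, ∑ s : E, A l s := by
  have := Finset.prod_univ_sum (fun _ : ι => (Finset.univ : Finset E)) (fun l s => A l s)
  rw [Fintype.piFinset_univ] at this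
  exact this.symm

theorem wE_nonneg (e : C.E) : 0 ≤ C.wE e :=
  mul_nonneg (C.wB_nonneg _) (Finset.prod_nonneg fun l _ => C.wF_nonneg _)

theorem wE_sum : ∑ e, C.wE e = 1 := by
  unfold Core.wE
  rw [Fintype.sum_prod_type]
  have h1 : ∑ x : Fin p → Fin C.nF, ∏ l, C.wF (x l) = 1 := by
    rw [F5_sum_prod' (fun (_ : Fin p) s => C.wF s)]
    exact Finset.prod_eq_one fun l _ => C.wF_sum
  simp only [← Finset.mul_sum, h1, mul_one]
  exact C.wB_sum

theorem w1_nonneg {N : ℕ} (a : E1 C N) : 0 ≤ w1 C a := by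
  unfold w1
  exact mul_nonneg (wE_nonneg C _) (by positivity)

theorem w1_sum {N : ℕ} (hN : 1 ≤ N) : ∑ a : E1 C N, w1 C a = 1 := by
  unfold w1
  rw [Fintype.sum_prod_type]
  simp only [Finset.sum_const, Finset.card_univ, nsmul_eq_mul, Fintype.card_pi, Fintype.card_fin,
    Finset.prod_const]
  have hN' : (N : ℝ) ≠ 0 := by positivity
  have h1 : ∀ x : C.E, ((N ^ p : ℕ) : ℝ) * (C.wE x * ((N : ℝ) ^ p)⁻¹) = C.wE x := by
    intro x
    push_cast
    field_simp
  simp only [h1]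
  exact wE_sum C

theorem w2_nonneg {N : ℕ} (a : E2 C N) : 0 ≤ w2 C a := by
  unfold w2
  exact mul_nonneg (wE_nonneg C _) (by positivity)

theorem w2_sum {N : ℕ} (hN : 1 ≤ N) : ∑ a : E2 C N, w2 C a = 1 := by
  unfold w2
  rw [Fintype.sum_prod_type]
  simp only [Finset.sum_const, Finset.card_univ, nsmul_eq_mul, Fintype.card_fin]
  have hN' : (N : ℝ) ≠ 0 := by positivity
  have h1 : ∀ x : C.E, (N : ℝ) * (C.wE x * (N : ℝ)⁻¹) = C.wE x := by
    intro x
    field_simp
  simp only [h1]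
  exact wE_sum C

/-- a finite average with product weights of a constant. -/
theorem sum_prod_weights {E : Type} [Fintype E] {π : E → ℝ} (h : ∑ e, π e = 1) (n : ℕ) :
    ∑ a : Fin n → E, ∏ k, π (a k) = 1 := by
  rw [F5_sum_prod' (fun (_ : Fin n) s => π s)]
  exact Finset.prod_eq_one fun l _ => h

end Crest.SG
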