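import Crest.Agent.SG_F4
import Crest.Agent.SG_F5

/-! # SG_F8c : linear growth of `Phi` (part F of S0192)

Hint: `abs_logT0_le`; `exp (-(c (M+K) + N h)) ≤ Wsys ≤ exp (c (M+K) + N h)` with
`c = -log (1 - q0)` and `h = max |C.h|` (e.g. `∑ y, |C.h y|`). -/

set_option autoImplicit false
set_option linter.unusedVariables false
noncomputable section
open scoped BigOperators
open Classical
open Crest.ProbabilityR.Diluted Crest.Agent.SGG
namespace Crest.SG

private theorem F8c_avg {E : Type} [Fintype E] {w x : E → ℝ} {B : ℝ} (hw : ∀ e, 0 ≤ w e)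
    (h1 : ∑ e, w e = 1) (hx : ∀ e, |x e| ≤ B) : |∑ e, w e * x e| ≤ B := by
  refine (Finset.abs_sum_le_sum_abs _ _).trans ?_
  calc ∑ e, |w e * x e| ≤ ∑ e, w e * B := by
        refine Finset.sum_le_sum fun e _ => ?_
        rw [abs_mul, abs_of_nonneg (hw e)]
        exact mul_le_mul_of_nonneg_left (hx e) (hw e)
    _ = B := by rw [← Finset.sum_mul, h1, one_mul]

private theorem F8c_mix {E : Type} [Fintype E] {w f : E → ℝ} {B : ℝ} (hw : ∀ e, 0 ≤ w e)
    (h1 : ∑ e, w e = 1) (hf : ∀ e, 0 < f e) (hB : ∀ e, |Real.log (f e)| ≤ B) :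
    0 < ∑ e, w e * f e ∧ |Real.log (∑ e, w e * f e)| ≤ B := by
  have hlo : ∀ e, Real.exp (-B) ≤ f e := by
    intro e
    rw [← Real.exp_log (hf e)]
    exact Real.exp_le_exp.2 (abs_le.1 (hB e)).1
  have hhi : ∀ e, f e ≤ Real.exp B := by
    intro e
    rw [← Real.exp_log (hf e)]
    exact Real.exp_le_exp.2 (abs_le.1 (hB e)).2
  have h2 : Real.exp (-B) ≤ ∑ e, w e * f e := by
    calc Real.exp (-B) = ∑ e, w e * Real.exp (-B) := by rw [← Finset.sum_mul, h1, one_mul]
      _ ≤ _ := Finset.sum_le_sum fun e _ => mul_le_mul_of_nonneg_left (hlo e) (hw e)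
  have h3 : ∑ e, w e * f e ≤ Real.exp B := by
    calc ∑ e, w e * f e ≤ ∑ e, w e * Real.exp B :=
          Finset.sum_le_sum fun e _ => mul_le_mul_of_nonneg_left (hhi e) (hw e)
      _ = Real.exp B := by rw [← Finset.sum_mul, h1, one_mul]
  have h4 : 0 < ∑ e, w e * f e := (Real.exp_pos _).trans_le h2
  refine ⟨h4, ?_⟩
  rw [abs_le]
  constructor
  · rw [Real.le_log_iff_exp_le h4]
    exact h2
  · rw [Real.log_le_iff_le_exp h4]
    exact h3

private theorem F8c_one_add {z q : ℝ} (hz : |z| ≤ q) (hq : q < 1) : 0 < 1 + z := by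
  have := (abs_le.1 hz).1
  linarith

private theorem F8c_log_prod {n : ℕ} {f : Fin n → ℝ} {c : ℝ} (hf : ∀ i, 0 < f i)
    (h : ∀ i, |Real.log (f i)| ≤ c) : |Real.log (∏ i, f i)| ≤ n * c := by
  rw [Real.log_prod fun i _ => (hf i).ne']
  refine (Finset.abs_sum_le_sum_abs _ _).trans ?_
  refine (Finset.sum_le_sum fun i _ => h i).trans ?_
  rw [Finset.sum_const, Finset.card_univ, Fintype.card_fin, nsmul_eq_mul]

variable {p : ℕ} (C : Core p) (t : Trial)

private theorem F8c_Wsys (hp : 1 ≤ p) {N M K : ℕ} (a : Fin M → E1 C N) (b : Fin K → E2 C N)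
    (y : Fin N → Fin C.nH) (xs : Fin K → Fin (p - 1) → ℝ) (σ : Fin N → Bool) :
    0 < Wsys C a b y xs σ ∧ |Real.log (Wsys C a b y xs σ)| ≤
      M * (-Real.log (1 - C.q0)) + K * (-Real.log (1 - C.q0)) + N * ∑ z, |C.h z| := by
  unfold Wsys
  have h1 : ∀ k, 0 < 1 + gE C (a k).1 (fun l => σ ((a k).2 l)) := fun k =>
    F8c_one_add (abs_gE_le C _ _) C.q0_lt
  have h2 : ∀ k, 0 < 1 + gF C (b k).1 (σ (b k).2) (xs k) := fun k =>
    F8c_one_add (abs_gF_le C hp _ _ _) C.q0_lt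
  have h3 : ∀ i, 0 < Real.exp (C.h (y i) * spinVal (σ i)) := fun i => Real.exp_pos _
  have p1 : 0 < ∏ k, (1 + gE C (a k).1 (fun l => σ ((a k).2 l))) :=
    Finset.prod_pos fun k _ => h1 k
  have p2 : 0 < ∏ k, (1 + gF C (b k).1 (σ (b k).2) (xs k)) := Finset.prod_pos fun k _ => h2 k
  have p3 : 0 < ∏ i, Real.exp (C.h (y i) * spinVal (σ i)) := Finset.prod_pos fun i _ => h3 i
  refine ⟨mul_pos (mul_pos p1 p2) p3, ?_⟩
  rw [Real.log_mul (mul_pos p1 p2).ne' p3.ne', Real.log_mul p1.ne' p2.ne']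
  have b1 := F8c_log_prod h1 (fun k => abs_log_one_add_le (abs_gE_le C _ _) C.q0_lt)
  have b2 := F8c_log_prod h2 (fun k => abs_log_one_add_le (abs_gF_le C hp _ _ _) C.q0_lt)
  have b3 := F8c_log_prod (c := ∑ z, |C.h z|) h3 (fun i => by
    rw [Real.log_exp, abs_mul]
    have e1 : |spinVal (σ i)| = 1 := by
      unfold spinVal
      split_ifs <;> simp
    rw [e1, mul_one]
    exact Finset.single_le_sum (f := fun z => |C.h z|) (fun z _ => abs_nonneg _)
      (Finset.mem_univ (y i)))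
  exact (abs_add_le _ _).trans (add_le_add ((abs_add_le _ _).trans (add_le_add b1 b2)) b3)

/-- linear growth. -/
theorem Phi_growth (hp : 1 ≤ p) {N : ℕ} (hN : 1 ≤ N) :
    ∃ c : ℝ, ∀ M K : ℕ, |Phi C t N M K| ≤ c * ((M : ℝ) + K + 1) := by
  set c0 : ℝ := -Real.log (1 - C.q0) with hc0
  set h0 : ℝ := ∑ z, |C.h z| with hh0
  have hc0' : 0 ≤ c0 := by
    have h1 : Real.log (1 - C.q0) ≤ 0 := by
      apply Real.log_nonpos
      · have := C.q0_lt
        linarith
      · have := C.q0_nonneg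
        linarith
    linarith
  have hh0' : 0 ≤ h0 := Finset.sum_nonneg fun z _ => abs_nonneg _
  refine ⟨c0 + N * h0, fun M K => ?_⟩
  have hu : ∀ σ : Fin N → Bool, 0 ≤ unif (Fin N → Bool) σ := fun σ => by
    unfold unif
    positivity
  have hu1 : ∑ σ : Fin N → Bool, unif (Fin N → Bool) σ = 1 := by
    unfold unif
    rw [Finset.sum_const, Finset.card_univ, nsmul_eq_mul]
    have : (Fintype.card (Fin N → Bool) : ℝ) ≠ 0 := by
      exact_mod_cast Fintype.card_ne_zero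
    field_simp
  have hB : |Phi C t N M K| ≤ M * c0 + K * c0 + N * h0 := by
    unfold Phi
    refine F8c_avg (fun a => Finset.prod_nonneg fun k _ => w1_nonneg C _)
      (sum_prod_weights (w1_sum C hN) M) fun a => ?_
    refine F8c_avg (fun b => Finset.prod_nonneg fun k _ => w2_nonneg C _)
      (sum_prod_weights (w2_sum C hN) K) fun b => ?_
    refine F8c_avg (fun y => Finset.prod_nonneg fun k _ => C.wH_nonneg _)
      (sum_prod_weights C.wH_sum N) fun y => ?_
    apply abs_logT0_le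
    · intro H
      exact (F8c_mix hu hu1 (fun σ => (F8c_Wsys C hp a b y _ σ).1)
        (fun σ => (F8c_Wsys C hp a b y _ σ).2)).1
    · intro H
      exact (F8c_mix hu hu1 (fun σ => (F8c_Wsys C hp a b y _ σ).1)
        (fun σ => (F8c_Wsys C hp a b y _ σ).2)).2
  refine hB.trans ?_
  have hM : (0 : ℝ) ≤ M := Nat.cast_nonneg _
  have hK : (0 : ℝ) ≤ K := Nat.cast_nonneg _
  have hNh : 0 ≤ (N : ℝ) * h0 := by positivity
  nlinarith [mul_nonneg hM hNh, mul_nonneg hK hNh]

end Crest.SG
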