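import Crest.Agent.SG_F4
import Crest.Agent.SG_F5
import Crest.Agent.SG_F8c

/-! # SG_F10a : endpoint of the interpolation, edges only (part F of S0192) -/

set_option autoImplicit false
set_option linter.unusedVariables false
noncomputable section
open scoped BigOperators
open Classical
open Crest.ProbabilityR.Diluted Crest.Agent.SGG
namespace Crest.SG

variable {p : ℕ} (C : Core p) (t : Trial)

private theorem F10a_exp {N M : ℕ} (a : Fin M → E1 C N) (y : Fin N → Fin C.nH)
    (σ : Fin N → Bool) :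
    (∏ k, (1 + gE C (a k).1 (fun l => σ ((a k).2 l)))) *
      ∏ i, Real.exp (C.h (y i) * spinVal (σ i)) =
    Real.exp ((∑ k : Fin M, C.theta (a k).1 (fun l => σ ((a k).2 l))) +
      ∑ i : Fin N, C.h (y i) * spinVal (σ i)) := by
  rw [Real.exp_add, Real.exp_sum, Real.exp_sum]
  simp only [exp_theta]

private theorem F10a_inner {N M : ℕ} (a : Fin M → E1 C N) (y : Fin N → Fin C.nH)
    (b : Fin 0 → E2 C N) :
    t.logT0 (L := Fin 0 × Fin (p - 1)) (fun H =>
          ∑ σ : Fin N → Bool, unif (Fin N → Bool) σ *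
            Wsys C a b y (fun k l => t.X (H (k, l))) σ) =
      logPartition N (fun k => C.theta (a k).1) (fun k => (a k).2) (fun i => C.h (y i)) -
        N * Real.log 2 := by
  have h1 : ∀ H : Fin 0 × Fin (p - 1) → List (Fin t.nS),
      (∑ σ : Fin N → Bool, unif (Fin N → Bool) σ *
            Wsys C a b y (fun k l => t.X (H (k, l))) σ) =
      (1 / 2 ^ N) * ∑ σ : Fin N → Bool,
        Real.exp ((∑ k : Fin M, C.theta (a k).1 (fun l => σ ((a k).2 l))) +
          ∑ i : Fin N, C.h (y i) * spinVal (σ i)) := by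
    intro H
    rw [Finset.mul_sum]
    refine Finset.sum_congr rfl fun σ _ => ?_
    rw [← F10a_exp]
    unfold Wsys unif
    simp
  have hpos : 0 < ∑ σ : Fin N → Bool,
        Real.exp ((∑ k : Fin M, C.theta (a k).1 (fun l => σ ((a k).2 l))) +
          ∑ i : Fin N, C.h (y i) * spinVal (σ i)) :=
    Finset.sum_pos (fun σ _ => Real.exp_pos _) Finset.univ_nonempty
  simp only [h1]
  rw [logT0_const t (by positivity), Real.log_mul (by positivity) hpos.ne', Real.log_div
    one_ne_zero (by positivity), Real.log_one, Real.log_pow]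
  unfold logPartition
  ring

/-- no fields: the pressure.  Hint: `logT0_const`; `logPartition` by `exp_theta`. -/
theorem Phi_edges (hp : 1 ≤ p) {N : ℕ} (hN : 1 ≤ N) (M : ℕ) :
    Phi C t N M 0 = (∑ e : Fin M → C.E, (∏ k, C.wE (e k)) *
      ∑ y : Fin N → Fin C.nH, (∏ i, C.wH (y i)) *
        ((Fintype.card (Fin M → Fin p → Fin N) : ℝ)⁻¹ *
          ∑ idx : Fin M → Fin p → Fin N,
            logPartition N (fun k => C.theta (e k)) idx (fun i => C.h (y i)))) -
      N * Real.log 2 := by
  have h1 : Phi C t N M 0 = ∑ a : Fin M → E1 C N, (∏ k, w1 C (a k)) *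
      ∑ y : Fin N → Fin C.nH, (∏ i, C.wH (y i)) *
        (logPartition N (fun k => C.theta (a k).1) (fun k => (a k).2) (fun i => C.h (y i)) -
          N * Real.log 2) := by
    unfold Phi
    refine Finset.sum_congr rfl fun a _ => ?_
    congr 1
    rw [Fintype.sum_unique]
    simp only [Finset.univ_eq_empty, Finset.prod_empty, one_mul]
    refine Finset.sum_congr rfl fun y _ => ?_
    rw [F10a_inner]
  have hH : ∑ y : Fin N → Fin C.nH, ∏ i, C.wH (y i) = 1 := sum_prod_weights C.wH_sum N
  have h2 : ∀ a : Fin M → E1 C N, (∏ k, w1 C (a k)) *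
      ∑ y : Fin N → Fin C.nH, (∏ i, C.wH (y i)) *
        (logPartition N (fun k => C.theta (a k).1) (fun k => (a k).2) (fun i => C.h (y i)) -
          N * Real.log 2) =
      (∏ k, w1 C (a k)) * (∑ y : Fin N → Fin C.nH, (∏ i, C.wH (y i)) *
        logPartition N (fun k => C.theta (a k).1) (fun k => (a k).2) (fun i => C.h (y i))) -
      (∏ k, w1 C (a k)) * (N * Real.log 2) := by
    intro a
    rw [← mul_sub]
    congr 1
    simp only [mul_sub, Finset.sum_sub_distrib]
    rw [← Finset.sum_mul, hH, one_mul]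
  rw [h1, Finset.sum_congr rfl fun a _ => h2 a, Finset.sum_sub_distrib, ← Finset.sum_mul,
    sum_prod_weights (w1_sum C hN) M, one_mul]
  congr 1
  -- reindex
  let ee := Equiv.arrowProdEquivProdArrow (Fin M) (fun _ => C.E) (fun _ => Fin p → Fin N)
  rw [← Equiv.sum_comp ee.symm, Fintype.sum_prod_type]
  refine Finset.sum_congr rfl fun e _ => ?_
  have hcard : ((Fintype.card (Fin M → Fin p → Fin N) : ℕ) : ℝ)⁻¹ = (((N : ℝ) ^ p)⁻¹) ^ M := by
    simp
  have h3 : ∀ idx : Fin M → Fin p → Fin N, ∏ k, w1 C (ee.symm (e, idx) k) =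
      (∏ k, C.wE (e k)) * (((N : ℝ) ^ p)⁻¹) ^ M := by
    intro idx
    have h4 : ∀ k, w1 C (ee.symm (e, idx) k) = C.wE (e k) * ((N : ℝ) ^ p)⁻¹ := fun k => rfl
    simp only [h4]
    rw [Finset.prod_mul_distrib, Finset.prod_const, Finset.card_univ, Fintype.card_fin]
  simp only [h3, hcard]
  have h5 : ∀ (idx : Fin M → Fin p → Fin N) (y : Fin N → Fin C.nH),
      logPartition N (fun k => C.theta (ee.symm (e, idx) k).1)
        (fun k => (ee.symm (e, idx) k).2) (fun i => C.h (y i)) =
      logPartition N (fun k => C.theta (e k)) idx (fun i => C.h (y i)) := fun idx y => rfl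
  simp only [h5]
  simp only [Finset.mul_sum]
  rw [Finset.sum_comm]
  refine Finset.sum_congr rfl fun y _ => Finset.sum_congr rfl fun idx _ => ?_
  ring

theorem Poi_edges (hp : 1 ≤ p) {N : ℕ} (hN : 1 ≤ N) {α : ℝ} (hα : 0 ≤ α) :
    Poi (α * N) (fun M => Phi C t N M 0) = N * (C.pressure α N - Real.log 2) := by
  have hN0 : (0 : ℝ) < N := by exact_mod_cast hN
  have hlam : 0 ≤ α * N := mul_nonneg hα hN0.le
  obtain ⟨c, hc⟩ := Phi_growth C t hp hN
  have hfun : (fun M => Phi C t N M 0) = fun M => (Phi C t N M 0 + N * Real.log 2) -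
      N * Real.log 2 := by
    funext M; ring
  have hL : LinG (c + N * Real.log 2) (fun M => Phi C t N M 0 + N * Real.log 2) := by
    intro M
    have h1 := hc M 0
    have h2 : 0 ≤ N * Real.log 2 := mul_nonneg hN0.le (Real.log_nonneg (by norm_num))
    have h3 : (0 : ℝ) ≤ M := Nat.cast_nonneg M
    simp only [CharP.cast_eq_zero, add_zero] at h1
    calc |Phi C t N M 0 + N * Real.log 2| ≤ |Phi C t N M 0| + |N * Real.log 2| := abs_add_le _ _
      _ ≤ c * ((M : ℝ) + 1) + N * Real.log 2 := by
          rw [abs_of_nonneg h2]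
          linarith
      _ ≤ (c + N * Real.log 2) * ((M : ℝ) + 1) := by nlinarith
  have hL' : LinG (N * Real.log 2) (fun _ => N * Real.log 2) := by
    intro M
    have h2 : 0 ≤ N * Real.log 2 := mul_nonneg hN0.le (Real.log_nonneg (by norm_num))
    have h3 : (0 : ℝ) ≤ M := Nat.cast_nonneg M
    rw [abs_of_nonneg h2]
    nlinarith
  rw [hfun, Poi_sub hlam hL hL', Poi_const hlam]
  have hP : Poi (α * N) (fun M => Phi C t N M 0 + N * Real.log 2) = N * C.pressure α N := by
    have h4 : C.pressure α N = (1 / (N : ℝ)) *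
        Poi (α * N) (fun M => Phi C t N M 0 + N * Real.log 2) := by
      unfold Core.pressure Poi
      congr 1
      refine tsum_congr fun M => ?_
      beta_reduce
      rw [Phi_edges C t hp hN M, sub_add_cancel]
    rw [h4]
    field_simp
  rw [hP]
  ring

end Crest.SG
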