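import Crest.Agent.SG_F10b

/-! # SG_F10c : endpoint of the interpolation, Poisson thinning (part F of S0192) -/

set_option autoImplicit false
set_option linter.unusedVariables false
noncomputable section
open scoped BigOperators
open Classical
open Crest.ProbabilityR.Diluted Crest.Agent.SGG
namespace Crest.SG

variable {p : ℕ} (C : Core p) (t : Trial)

theorem sgf10c_prod_bound {k : ℕ} {q l : ℝ} (hl : ∀ z : ℝ, |z| ≤ q → |Real.log (1 + z)| ≤ l)
    (hq : q < 1) (z : Fin k → ℝ) (hz : ∀ j, |z j| ≤ q) :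
    0 < ∏ j, (1 + z j) ∧ Real.exp (-(k * l)) ≤ ∏ j, (1 + z j) ∧ ∏ j, (1 + z j) ≤ Real.exp (k * l) := by
  have hpos : ∀ j, 0 < 1 + z j := fun j => by
    have := (abs_le.1 (hz j)).1
    linarith
  have h1 : 0 < ∏ j, (1 + z j) := Finset.prod_pos fun j _ => hpos j
  have h2 : |Real.log (∏ j, (1 + z j))| ≤ k * l := by
    rw [Real.log_prod (fun j _ => (hpos j).ne')]
    calc |∑ j, Real.log (1 + z j)| ≤ ∑ j, |Real.log (1 + z j)| := Finset.abs_sum_le_sum_abs _ _
      _ ≤ ∑ _j : Fin k, l := Finset.sum_le_sum fun j _ => hl _ (hz j)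
      _ = k * l := by simp
  refine ⟨h1, ?_, ?_⟩
  · rw [← Real.le_log_iff_exp_le h1]
    linarith [(abs_le.1 h2).1]
  · rw [← Real.log_le_iff_le_exp h1]
    exact (abs_le.1 h2).2

theorem sgf10c_site (hp : 1 ≤ p) {k : ℕ} (h : ℝ) (e : Fin k → C.E) (x : Fin k → Fin (p - 1) → ℝ) :
    0 < siteTerm h (fun j => C.theta (e j)) x ∧
      |Real.log (siteTerm h (fun j => C.theta (e j)) x)| ≤ |h| + k * (-Real.log (1 - C.q0)) := by
  rw [siteTerm_eq_gF C hp]
  set l := -Real.log (1 - C.q0)
  have hb : ∀ ε : Bool, 0 < Real.exp (h * spinVal ε) * ∏ j, (1 + gF C (e j) ε (x j)) ∧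
      Real.exp (-(|h| + k * l)) ≤ Real.exp (h * spinVal ε) * ∏ j, (1 + gF C (e j) ε (x j)) ∧
      Real.exp (h * spinVal ε) * ∏ j, (1 + gF C (e j) ε (x j)) ≤ Real.exp (|h| + k * l) := by
    intro ε
    obtain ⟨h1, h2, h3⟩ := sgf10c_prod_bound (k := k) (q := C.q0) (l := l)
      (fun z hz => abs_log_one_add_le hz C.q0_lt) C.q0_lt (fun j => gF C (e j) ε (x j))
      (fun j => abs_gF_le C hp _ _ _)
    have hs : |h * spinVal ε| ≤ |h| := by
      rw [abs_mul]
      cases ε <;> simp [spinVal]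
    refine ⟨by positivity, ?_, ?_⟩
    · have : Real.exp (-(|h| + k * l)) = Real.exp (-|h|) * Real.exp (-(k * l)) := by
        rw [← Real.exp_add]; congr 1; ring
      rw [this]
      exact mul_le_mul (Real.exp_le_exp.2 (abs_le.1 hs).1) h2 (Real.exp_pos _).le (Real.exp_pos _).le
    · rw [Real.exp_add]
      exact mul_le_mul (Real.exp_le_exp.2 (abs_le.1 hs).2) h3 h1.le (Real.exp_pos _).le
  have hT := hb true
  have hF := hb false
  rw [Fintype.sum_bool]
  have hpos : 0 < 1 / 2 * (Real.exp (h * spinVal true) * ∏ j, (1 + gF C (e j) true (x j))) +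
      1 / 2 * (Real.exp (h * spinVal false) * ∏ j, (1 + gF C (e j) false (x j))) := by
    linarith [hT.1, hF.1]
  refine ⟨hpos, ?_⟩
  rw [abs_le]
  constructor
  · rw [Real.le_log_iff_exp_le hpos]
    linarith [hT.2.1, hF.2.1]
  · rw [Real.log_le_iff_le_exp hpos]
    linarith [hT.2.2, hF.2.2]

theorem sgf10c_log_nonneg : 0 ≤ -Real.log (1 - C.q0) := by
  have h1 := C.q0_nonneg
  have h2 := C.q0_lt
  have := Real.log_nonpos (x := 1 - C.q0) (by linarith) (by linarith)
  linarith

theorem gS_linG (hp : 1 ≤ p) : ∃ c : ℝ, LinG c (gS C t) := by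
  set l := -Real.log (1 - C.q0) with hl
  have hl0 : 0 ≤ l := sgf10c_log_nonneg C
  set H := ∑ y, |C.h y| with hH
  have hH0 : 0 ≤ H := Finset.sum_nonneg fun y _ => abs_nonneg _
  refine ⟨H + l, fun k => ?_⟩
  have hbd : ∀ (e : Fin k → C.E) (y : Fin C.nH),
      |t.logT0 (L := Fin k × Fin (p - 1))
        (fun HH => siteTerm (C.h y) (fun j => C.theta (e j)) (fun j l => t.X (HH (j, l))))| ≤
        H + k * l := by
    intro e y
    refine abs_logT0_le t (fun HH => (sgf10c_site C hp _ _ _).1) fun HH => ?_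
    refine (sgf10c_site C hp _ _ _).2.trans ?_
    have : |C.h y| ≤ H := Finset.single_le_sum (f := fun y => |C.h y|)
      (fun y _ => abs_nonneg _) (Finset.mem_univ y)
    linarith
  have h1 : |gS C t k| ≤ H + k * l := by
    unfold gS
    calc _ ≤ ∑ e : Fin k → C.E, (∏ j, C.wE (e j)) * ∑ y : Fin C.nH, C.wH y * (H + k * l) := by
          refine (Finset.abs_sum_le_sum_abs _ _).trans (Finset.sum_le_sum fun e _ => ?_)
          rw [abs_mul, abs_of_nonneg (Finset.prod_nonneg fun j _ => wE_nonneg C _)]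
          refine mul_le_mul_of_nonneg_left ?_ (Finset.prod_nonneg fun j _ => wE_nonneg C _)
          refine (Finset.abs_sum_le_sum_abs _ _).trans (Finset.sum_le_sum fun y _ => ?_)
          rw [abs_mul, abs_of_nonneg (C.wH_nonneg y)]
          exact mul_le_mul_of_nonneg_left (hbd e y) (C.wH_nonneg y)
      _ = H + k * l := by
          rw [← Finset.sum_mul, ← Finset.sum_mul, C.wH_sum, one_mul,
            sum_prod_weights (wE_sum C), one_mul]
  have hk : (0 : ℝ) ≤ k := Nat.cast_nonneg k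
  nlinarith

/-- Hint: `poi_thin`, `Poi_add`/`Poi_const_mul` (finite sum over `i`). -/
theorem Poi_fields (hp : 1 ≤ p) {N : ℕ} (hN : 1 ≤ N) {lam : ℝ} (hlam : 0 ≤ lam) :
    Poi (lam * N) (fun K => Phi C t N 0 K) = N * Poi lam (gS C t) := by
  obtain ⟨c, hc⟩ := gS_linG C t hp
  have hc0 : 0 ≤ c := by
    have := (abs_nonneg _).trans (hc 0)
    simpa using this
  have hN0 : (0 : ℝ) < N := by exact_mod_cast hN
  have hlin : ∀ i : Fin N, LinG c (fun K => ((N : ℝ) ^ K)⁻¹ * ∑ u : Fin K → Fin N,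
      gS C t (Fintype.card {k : Fin K // u k = i})) := by
    intro i K
    rw [abs_mul, abs_of_nonneg (by positivity : (0 : ℝ) ≤ ((N : ℝ) ^ K)⁻¹)]
    have h1 : |∑ u : Fin K → Fin N, gS C t (Fintype.card {k : Fin K // u k = i})| ≤
        (N : ℝ) ^ K * (c * ((K : ℝ) + 1)) := by
      calc _ ≤ ∑ u : Fin K → Fin N, |gS C t (Fintype.card {k : Fin K // u k = i})| :=
            Finset.abs_sum_le_sum_abs _ _
        _ ≤ ∑ _u : Fin K → Fin N, c * ((K : ℝ) + 1) := by
            refine Finset.sum_le_sum fun u _ => (hc _).trans ?_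
            refine mul_le_mul_of_nonneg_left ?_ hc0
            have : Fintype.card {k : Fin K // u k = i} ≤ K := by
              have := Fintype.card_subtype_le (fun k : Fin K => u k = i)
              simpa using this
            have : ((Fintype.card {k : Fin K // u k = i} : ℕ) : ℝ) ≤ K := by exact_mod_cast this
            linarith
        _ = (N : ℝ) ^ K * (c * ((K : ℝ) + 1)) := by
            simp
    calc _ ≤ ((N : ℝ) ^ K)⁻¹ * ((N : ℝ) ^ K * (c * ((K : ℝ) + 1))) :=
          mul_le_mul_of_nonneg_left h1 (by positivity)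
      _ = c * ((K : ℝ) + 1) := by
          rw [← mul_assoc, inv_mul_cancel₀ (by positivity), one_mul]
  have hPhi : (fun K => Phi C t N 0 K) = fun K => ∑ i : Fin N, ((N : ℝ) ^ K)⁻¹ *
      ∑ u : Fin K → Fin N, gS C t (Fintype.card {k : Fin K // u k = i}) := by
    funext K
    exact Phi_fields C t hp hN K
  rw [hPhi]
  have hlamN : 0 ≤ lam * N := by positivity
  have hsum : Poi (lam * N) (fun K => ∑ i : Fin N, ((N : ℝ) ^ K)⁻¹ *
      ∑ u : Fin K → Fin N, gS C t (Fintype.card {k : Fin K // u k = i})) =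
      ∑ i : Fin N, Poi (lam * N) (fun K => ((N : ℝ) ^ K)⁻¹ *
        ∑ u : Fin K → Fin N, gS C t (Fintype.card {k : Fin K // u k = i})) := by
    unfold Poi
    rw [← Summable.tsum_finsetSum (fun i _ => Poi_summable hlamN (hlin i))]
    exact tsum_congr fun K => Finset.mul_sum _ _ _
  rw [hsum]
  calc _ = ∑ _i : Fin N, Poi lam (gS C t) := by
        refine Finset.sum_congr rfl fun i _ => ?_
        exact poi_thin hN i hlam hc
    _ = N * Poi lam (gS C t) := by simp

end Crest.SG
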