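import Crest.Agent.SG_F4
import Crest.Agent.SG_F5

/-! # SG_F11 : reduction to positive kernels (part F of S0192)

`t.eps ε` has kernel `(1-ε) κ + ε / nS`.  Hint: for `W > 0`, `ε ↦ chainT (κ_ε) ms W H` is
continuous on `[0,1]` (induction on `ms`, all `m > 0`, `chainT_pos`), so `logT0` is continuous in
`ε`; then `tendsto_tsum_of_dominated_convergence` for the series over `k` with the bound
`abs_logT0_le` (`|log siteTerm| ≤ h_max + k * (-log (1-q0))`). -/

set_option autoImplicit false
set_option linter.unusedVariables false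
noncomputable section
open scoped BigOperators
open Classical
open Crest.ProbabilityR.Diluted Crest.Agent.SGG
namespace Crest.SG

/-- perturbed kernel. -/
def epsK {nS : ℕ} (κ : List (Fin nS) → Fin nS → ℝ) (ε : ℝ) (H : List (Fin nS)) (s : Fin nS) :
    ℝ := (1 - ε) * κ H s + ε / nS

def Trial.eps (t : Trial) (ε : ℝ) (h0 : 0 ≤ ε) (h1 : ε ≤ 1) : Trial where
  r := t.r
  m := t.m
  nS := t.nS
  κ := epsK t.κ ε
  X := t.X
  adm := t.adm
  κ_nonneg := by
    intro H s
    have h2 := t.κ_nonneg H s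
    have h3 : 0 ≤ 1 - ε := by linarith
    unfold epsK
    positivity
  κ_sum := by
    intro H
    have hn : (t.nS : ℝ) ≠ 0 := by
      intro h
      have h4 : t.nS = 0 := by exact_mod_cast h
      have h5 := t.κ_sum H
      have : IsEmpty (Fin t.nS) := by rw [h4]; infer_instance
      simp at h5
    unfold epsK
    rw [Finset.sum_add_distrib, ← Finset.mul_sum, t.κ_sum]
    simp only [Finset.sum_const, Finset.card_univ, Fintype.card_fin, nsmul_eq_mul]
    field_simp
    ring

theorem trial_eps_pos (t : Trial) {ε : ℝ} (h0 : 0 < ε) (h1 : ε ≤ 1) (H : List (Fin t.nS))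
    (s : Fin t.nS) : 0 < (Trial.eps t ε h0.le h1).κ H s := by
  show 0 < (1 - ε) * t.κ H s + ε / t.nS
  have h2 := t.κ_nonneg H s
  have h3 : 0 ≤ 1 - ε := by linarith
  have hn : (0 : ℝ) < t.nS := by
    have : 0 < t.nS := Fin.pos s
    exact_mod_cast this
  positivity

private theorem f11_epsK (t : Trial) {ε : ℕ → ℝ}
    (hlim : Filter.Tendsto ε Filter.atTop (nhds 0)) (H : List (Fin t.nS)) (s : Fin t.nS) :
    Filter.Tendsto (fun n => epsK t.κ (ε n) H s) Filter.atTop (nhds (t.κ H s)) := by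
  have h1 : Filter.Tendsto (fun n => (1 - ε n) * t.κ H s + ε n / t.nS) Filter.atTop
      (nhds ((1 - 0) * t.κ H s + 0 / t.nS)) :=
    ((tendsto_const_nhds.sub hlim).mul_const _).add (hlim.div_const _)
  simpa [epsK] using h1

private theorem f11_chainT (t : Trial) {L : Type} [Fintype L] [DecidableEq L]
    {W : (L → List (Fin t.nS)) → ℝ} {ε : ℕ → ℝ}
    (hlim : Filter.Tendsto ε Filter.atTop (nhds 0)) (ms : List ℝ) (hms : ∀ m ∈ ms, 0 < m) :
    ∀ H, Filter.Tendsto (fun n => chainT (epsK t.κ (ε n)) ms W H) Filter.atTop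
      (nhds (chainT t.κ ms W H)) := by
  induction ms with
  | nil =>
    intro H
    simp only [chainT_nil]
    exact tendsto_const_nhds
  | cons m ms ih =>
    intro H
    simp only [chainT_cons]
    have hm : 0 < m := hms m (by simp)
    have ih' := ih (fun m' hm' => hms m' (by simp [hm']))
    refine Filter.Tendsto.rpow_const ?_ (Or.inr (by positivity))
    refine tendsto_finsetSum _ fun v _ => ?_
    refine Filter.Tendsto.mul ?_ ?_
    · exact tendsto_finsetProd _ fun l _ => f11_epsK t hlim _ _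
    · exact Filter.Tendsto.rpow_const (ih' _) (Or.inr hm.le)

theorem tendsto_logT0_eps (t : Trial) {L : Type} [Fintype L] [DecidableEq L]
    {W : (L → List (Fin t.nS)) → ℝ} (hW : ∀ H, 0 < W H) {ε : ℕ → ℝ} (h0 : ∀ n, 0 ≤ ε n)
    (h1 : ∀ n, ε n ≤ 1) (hlim : Filter.Tendsto ε Filter.atTop (nhds 0)) :
    Filter.Tendsto (fun n => (Trial.eps t (ε n) (h0 n) (h1 n)).logT0 W) Filter.atTop
      (nhds (t.logT0 W)) := by
  have hms : ∀ m ∈ List.ofFn t.m, 0 < m := by
    intro m hm
    rw [List.mem_ofFn] at hm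
    obtain ⟨d, rfl⟩ := hm
    exact (t.adm.2 d).1
  show Filter.Tendsto (fun n => ∑ v : L → Fin t.nS, (∏ ω, epsK t.κ (ε n) [] (v ω)) *
    Real.log (chainT (epsK t.κ (ε n)) (List.ofFn t.m) W (fun ω => [v ω]))) Filter.atTop
    (nhds (∑ v : L → Fin t.nS, (∏ ω, t.κ [] (v ω)) *
      Real.log (chainT t.κ (List.ofFn t.m) W (fun ω => [v ω]))))
  refine tendsto_finsetSum _ fun v _ => ?_
  refine Filter.Tendsto.mul ?_ ?_
  · exact tendsto_finsetProd _ fun l _ => f11_epsK t hlim _ _
  · exact Filter.Tendsto.log (f11_chainT t hlim _ hms _)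
      (chainT_pos t.κ_nonneg t.κ_sum hW _).ne'

section bounds
variable {p : ℕ} (C : Core p)

private theorem f11_site (hp : 1 ≤ p) {k : ℕ} (h : ℝ) (e : Fin k → C.E)
    (x : Fin k → Fin (p - 1) → ℝ) :
    0 < siteTerm h (fun j => C.theta (e j)) x ∧
      |Real.log (siteTerm h (fun j => C.theta (e j)) x)| ≤
        |h| + k * (-Real.log (1 - C.q0)) := by
  rw [siteTerm_eq_gF C hp]
  set c := -Real.log (1 - C.q0) with hc
  have hq0 := C.q0_nonneg
  have hq1 := C.q0_lt
  have hsub : (0 : ℝ) < 1 - C.q0 := by linarith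
  have hfac : ∀ (ε : Bool) (j : Fin k), 0 < 1 + gF C (e j) ε (x j) ∧
      |Real.log (1 + gF C (e j) ε (x j))| ≤ c := by
    intro ε j
    have h1 := abs_gF_le C hp (e j) ε (x j)
    refine ⟨by linarith [(abs_le.1 h1).1], ?_⟩
    exact abs_log_one_add_le h1 hq1
  have hterm : ∀ ε : Bool, Real.exp (-(|h| + k * c)) ≤
      Real.exp (h * spinVal ε) * ∏ j, (1 + gF C (e j) ε (x j)) ∧
      Real.exp (h * spinVal ε) * ∏ j, (1 + gF C (e j) ε (x j)) ≤ Real.exp (|h| + k * c) := by
    intro ε
    have hprod : ∏ j, (1 + gF C (e j) ε (x j)) =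
        Real.exp (∑ j, Real.log (1 + gF C (e j) ε (x j))) := by
      rw [Real.exp_sum]
      exact Finset.prod_congr rfl fun j _ => (Real.exp_log (hfac ε j).1).symm
    rw [hprod, ← Real.exp_add]
    have hs : |∑ j, Real.log (1 + gF C (e j) ε (x j))| ≤ k * c := by
      refine (Finset.abs_sum_le_sum_abs _ _).trans ?_
      refine (Finset.sum_le_sum fun j _ => (hfac ε j).2).trans ?_
      simp
    have hh : |h * spinVal ε| ≤ |h| := by
      rw [abs_mul]
      have : |spinVal ε| = 1 := by cases ε <;> simp [spinVal]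
      rw [this, mul_one]
    have h1 := abs_le.1 hs
    have h2 := abs_le.1 hh
    constructor
    · apply Real.exp_le_exp.2; linarith [h1.1, h2.1]
    · apply Real.exp_le_exp.2; linarith [h1.2, h2.2]
  have hsum : Real.exp (-(|h| + k * c)) ≤
      ∑ ε : Bool, (1 / 2) * (Real.exp (h * spinVal ε) * ∏ j, (1 + gF C (e j) ε (x j))) ∧
      ∑ ε : Bool, (1 / 2) * (Real.exp (h * spinVal ε) * ∏ j, (1 + gF C (e j) ε (x j))) ≤
        Real.exp (|h| + k * c) := by
    rw [Fintype.sum_bool]
    have h1 := hterm true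
    have h2 := hterm false
    constructor
    · linarith [h1.1, h2.1]
    · linarith [h1.2, h2.2]
  have hpos := (Real.exp_pos _).trans_le hsum.1
  refine ⟨hpos, ?_⟩
  rw [abs_le]
  constructor
  · rw [Real.le_log_iff_exp_le hpos]; exact hsum.1
  · rw [Real.log_le_iff_le_exp hpos]; exact hsum.2

private theorem f11_edge (e : C.E) (x : Fin p → ℝ) : 0 < edgeTerm (C.theta e) x := by
  rw [edgeTerm_eq_gM]
  have h1 := abs_gM_le C e x
  have hq1 := C.q0_lt
  linarith [(abs_le.1 h1).1]

private theorem f11_gS (hp : 1 ≤ p) (t : Trial) (k : ℕ) :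
    |gS C t k| ≤ ((∑ y, |C.h y|) + (-Real.log (1 - C.q0))) * ((k : ℝ) + 1) := by
  have hq0 := C.q0_nonneg
  have hq1 := C.q0_lt
  have hc : 0 ≤ -Real.log (1 - C.q0) := by
    rw [neg_nonneg]
    exact Real.log_nonpos (by linarith) (by linarith)
  set c := -Real.log (1 - C.q0) with hcdef
  set B := ((∑ y, |C.h y|) + c) * ((k : ℝ) + 1) with hB
  have hH : 0 ≤ ∑ y, |C.h y| := Finset.sum_nonneg fun y _ => abs_nonneg _
  have hin : ∀ (e : Fin k → C.E) (y : Fin C.nH), |t.logT0 (L := Fin k × Fin (p - 1))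
      (fun H => siteTerm (C.h y) (fun j => C.theta (e j)) (fun j l => t.X (H (j, l))))| ≤ B := by
    intro e y
    refine abs_logT0_le t (fun H => (f11_site C hp _ _ _).1)
      (fun H => (f11_site C hp _ _ _).2.trans ?_)
    have h1 : |C.h y| ≤ ∑ y, |C.h y| :=
      Finset.single_le_sum (f := fun y => |C.h y|) (fun y _ => abs_nonneg _) (Finset.mem_univ y)
    have hk : (0 : ℝ) ≤ k := Nat.cast_nonneg k
    rw [hB]
    nlinarith
  unfold gS
  refine (Finset.abs_sum_le_sum_abs _ _).trans ?_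
  calc _ ≤ ∑ e : Fin k → C.E, (∏ j, C.wE (e j)) * B := by
        refine Finset.sum_le_sum fun e _ => ?_
        have hw : 0 ≤ ∏ j, C.wE (e j) := Finset.prod_nonneg fun j _ => wE_nonneg C _
        rw [abs_mul, abs_of_nonneg hw]
        refine mul_le_mul_of_nonneg_left ?_ hw
        refine (Finset.abs_sum_le_sum_abs _ _).trans ?_
        calc _ ≤ ∑ y : Fin C.nH, C.wH y * B := by
              refine Finset.sum_le_sum fun y _ => ?_
              rw [abs_mul, abs_of_nonneg (C.wH_nonneg y)]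
              exact mul_le_mul_of_nonneg_left (hin e y) (C.wH_nonneg y)
          _ = B := by rw [← Finset.sum_mul, C.wH_sum, one_mul]
    _ = B := by
        rw [← Finset.sum_mul, sum_prod_weights (wE_sum C), one_mul]

end bounds

theorem tendsto_functional_eps {p : ℕ} (hp : 1 ≤ p) (C : Core p) {α : ℝ} (hα : 0 ≤ α) (t : Trial)
    {ε : ℕ → ℝ} (h0 : ∀ n, 0 ≤ ε n) (h1 : ∀ n, ε n ≤ 1)
    (hlim : Filter.Tendsto ε Filter.atTop (nhds 0)) :
    Filter.Tendsto (fun n => C.functional α (Trial.eps t (ε n) (h0 n) (h1 n))) Filter.atTop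
      (nhds (C.functional α t)) := by
  simp only [functional_eq]
  refine Filter.Tendsto.sub (Filter.Tendsto.add tendsto_const_nhds ?_)
    (Filter.Tendsto.const_mul _ ?_)
  · unfold Poi
    refine tendsto_tsum_of_dominated_convergence
      (bound := fun k : ℕ => poissonWeight (α * p) k *
        (((∑ y, |C.h y|) + (-Real.log (1 - C.q0))) * ((k : ℝ) + 1))) ?_ ?_ ?_
    · refine Poi_summable (by positivity)
        (C := (∑ y, |C.h y|) + (-Real.log (1 - C.q0))) ?_
      intro k
      have hq0 := C.q0_nonneg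
      have hq1 := C.q0_lt
      have hc : 0 ≤ -Real.log (1 - C.q0) := by
        rw [neg_nonneg]
        exact Real.log_nonpos (by linarith) (by linarith)
      have hH : 0 ≤ ∑ y, |C.h y| := Finset.sum_nonneg fun y _ => abs_nonneg _
      rw [abs_of_nonneg (by positivity)]
    · intro k
      refine Filter.Tendsto.const_mul _ ?_
      unfold gS
      refine tendsto_finsetSum _ fun e _ => Filter.Tendsto.const_mul _ ?_
      refine tendsto_finsetSum _ fun y _ => Filter.Tendsto.const_mul _ ?_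
      exact tendsto_logT0_eps t (fun H => (f11_site C hp _ _ _).1) h0 h1 hlim
    · refine Filter.Eventually.of_forall fun n k => ?_
      have hw : 0 ≤ poissonWeight (α * p) k := poissonWeight_nonneg (by positivity) k
      rw [Real.norm_eq_abs, abs_mul, abs_of_nonneg hw]
      exact mul_le_mul_of_nonneg_left (f11_gS C hp _ k) hw
  · unfold eM
    refine tendsto_finsetSum _ fun e _ => Filter.Tendsto.const_mul _ ?_
    exact tendsto_logT0_eps t (fun H => f11_edge C _ _) h0 h1 hlim

theorem UB_of_pos {p : ℕ} (hp : 1 ≤ p) (C : Core p) {α : ℝ} (hα : 0 ≤ α)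
    (h : ∀ t : Trial, (∀ H s, 0 < t.κ H s) → ∀ N : ℕ, 1 ≤ N →
      C.pressure α N ≤ C.functional α t) : CoreUB p α C := by
  intro t N hN
  have h0 : ∀ n : ℕ, (0 : ℝ) ≤ 1 / ((n : ℝ) + 1) := fun n => by positivity
  have h0' : ∀ n : ℕ, (0 : ℝ) < 1 / ((n : ℝ) + 1) := fun n => by positivity
  have h1 : ∀ n : ℕ, (1 : ℝ) / ((n : ℝ) + 1) ≤ 1 := fun n => by
    rw [div_le_one (by positivity)]
    linarith [(Nat.cast_nonneg n : (0 : ℝ) ≤ n)]
  have hlim := tendsto_functional_eps hp C hα t (ε := fun n : ℕ => 1 / ((n : ℝ) + 1)) h0 h1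
    tendsto_one_div_add_atTop_nhds_zero_nat
  refine ge_of_tendsto' hlim fun n => ?_
  exact h (Trial.eps t (1 / ((n : ℝ) + 1)) (h0 n) (h1 n))
    (fun H s => trial_eps_pos t (h0' n) (h1 n) H s) N hN

end Crest.SG
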