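import Crest.Agent.SG_F8a

/-! # SG_F8b : adding a field (part F of S0192)

Hint: `LT0_equiv` with the equivalence `SysΩ p t N (K+1) ≃ SysΩ p t N K × (Fin (p-1) → paths)`
(`Fin.consEquiv` like: field `0` is the new one), the corresponding splitting of the sum over `v`,
and `LT0_add_field` of `SG_F3`. -/

set_option autoImplicit false
set_option linter.unusedVariables false
noncomputable section
open scoped BigOperators
open Classical
open Crest.ProbabilityR.Diluted Crest.Agent.SGG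
namespace Crest.SG

variable {p : ℕ} (C : Core p) (t : Trial)

/-- split off the labels of field `0`. -/
private def F8b_eqv (K q : ℕ) (X : Type) :
    (Fin (K + 1) × Fin q → X) ≃ (Fin K × Fin q → X) × (Fin q → X) where
  toFun f := (fun kl => f (kl.1.succ, kl.2), fun l => f (0, l))
  invFun g := fun kl => Fin.cases (motive := fun _ => X) (g.2 kl.2) (fun k => g.1 (k, kl.2)) kl.1
  left_inv f := by
    funext kl
    obtain ⟨k, l⟩ := kl
    refine Fin.cases ?_ (fun k => ?_) k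
    · rfl
    · rfl
  right_inv g := by
    refine Prod.ext ?_ ?_
    · funext kl
      rfl
    · funext l
      rfl

private theorem F8b_prod {K q : ℕ} (f : Fin (K + 1) × Fin q → ℝ) :
    ∏ kl, f kl = (∏ kl : Fin K × Fin q, f (kl.1.succ, kl.2)) * ∏ l, f (0, l) := by
  rw [Fintype.prod_prod_type, Fin.prod_univ_succ, Fintype.prod_prod_type, mul_comm]

/-- the equivalence of the sample spaces. -/
private def F8b_sys (N K : ℕ) : SysΩ p t N (K + 1) ≃
    SysΩ p t N K × (Fin (p - 1) → Fin t.r → Fin t.nS) where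
  toFun x := (((F8b_eqv K (p - 1) _ x.1).1, x.2), (F8b_eqv K (p - 1) _ x.1).2)
  invFun z := ((F8b_eqv K (p - 1) _).symm (z.1.1, z.2), z.1.2)
  left_inv x := by
    refine Prod.ext ?_ rfl
    exact (F8b_eqv K (p - 1) _).symm_apply_apply x.1
  right_inv z := by
    have h := (F8b_eqv K (p - 1) (Fin t.r → Fin t.nS)).apply_symm_apply (z.1.1, z.2)
    have h1 := congrArg Prod.fst h
    have h2 := congrArg Prod.snd h
    refine Prod.ext (Prod.ext ?_ rfl) ?_
    · exact h1
    · exact h2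

private theorem F8b_rel (N K : ℕ) (j : ℕ) (x x' : SysΩ p t N (K + 1)) :
    (sysLev t p N (K + 1)).rel j x x' ↔
      ((sysLev t p N K).prod ((labLev t.r t.nS).pi (Fin (p - 1)))).rel j (F8b_sys t N K x)
        (F8b_sys t N K x') := by
  constructor
  · rintro ⟨h1, h2⟩
    exact ⟨⟨fun kl => h1 (kl.1.succ, kl.2), h2⟩, fun l => h1 (0, l)⟩
  · rintro ⟨⟨h1, h2⟩, h3⟩
    refine ⟨fun kl => ?_, h2⟩
    obtain ⟨k, l⟩ := kl
    revert k
    refine Fin.cases ?_ (fun k => ?_)
    · exact h3 l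
    · exact h1 (k, l)

private theorem F8b_law {N K : ℕ} (v : Fin (K + 1) × Fin (p - 1) → Fin t.nS)
    (x : SysΩ p t N (K + 1)) :
    sysLaw t v x = sysLaw t (F8b_eqv K (p - 1) _ v).1 (F8b_sys t N K x).1 *
      ∏ l, lawP t.κ ((F8b_eqv K (p - 1) _ v).2 l) ((F8b_sys t N K x).2 l) := by
  unfold sysLaw lawL
  rw [F8b_prod (fun l => lawP t.κ (v l) (x.1 l))]
  rw [mul_right_comm]
  rfl

private theorem F8b_W {N M K : ℕ} (a : Fin M → E1 C N) (b : Fin K → E2 C N) (b' : E2 C N)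
    (y : Fin N → Fin C.nH) (v : Fin (K + 1) × Fin (p - 1) → Fin t.nS)
    (x : SysΩ p t N (K + 1)) :
    sysW C t a (Fin.cons (α := fun _ => E2 C N) b' b) y v x =
      sysW C t a b y (F8b_eqv K (p - 1) _ v).1 (F8b_sys t N K x).1 *
        (1 + gF C b'.1 ((F8b_sys t N K x).1.2 b'.2)
          (fun l => t.X (hst ((F8b_eqv K (p - 1) _ v).2 l) ((F8b_sys t N K x).2 l) t.r))) := by
  unfold sysW Wsys
  rw [Fin.prod_univ_succ]
  simp only [Fin.cons_zero, Fin.cons_succ]
  have h1 : (F8b_sys t N K x).1.2 = x.2 := rfl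
  have h2 : ∀ l, (F8b_eqv K (p - 1) _ v).2 l = v (0, l) := fun l => rfl
  have h3 : ∀ l, (F8b_sys t N K x).2 l = x.1 (0, l) := fun l => rfl
  have h4 : ∀ k l, (F8b_eqv K (p - 1) _ v).1 (k, l) = v (k.succ, l) := fun k l => rfl
  have h5 : ∀ k l, (F8b_sys t N K x).1.1 (k, l) = x.1 (k.succ, l) := fun k l => rfl
  simp only [h1, h2, h3, h4, h5]
  ring

private theorem F8b_sum_one {q : ℕ} :
    ∑ v' : Fin q → Fin t.nS, (∏ l, t.κ [] (v' l)) = 1 := sum_prod_weights (t.κ_sum []) q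

/-- adding one field. -/
theorem incr_field (hp : 1 ≤ p) (ht : ∀ H s, 0 < t.κ H s) {N M K : ℕ} (a : Fin M → E1 C N)
    (b : Fin K → E2 C N) (b' : E2 C N) (y : Fin N → Fin C.nH) :
    ∑ v : Fin (K + 1) × Fin (p - 1) → Fin t.nS, (∏ l, t.κ [] (v l)) *
        LT0 (sysLev t p N (K + 1)) (mmF t.m) (sysLaw t v)
          (sysW C t a (Fin.cons (α := fun _ => E2 C N) b' b) y v) =
      ∑ v : Fin K × Fin (p - 1) → Fin t.nS, (∏ l, t.κ [] (v l)) *
        (LT0 (sysLev t p N K) (mmF t.m) (sysLaw t v) (sysW C t a b y v) +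
          ∑ v' : Fin (p - 1) → Fin t.nS, (∏ l, t.κ [] (v' l)) *
            LT0 ((sysLev t p N K).prod ((labLev t.r t.nS).pi (Fin (p - 1)))) (mmF t.m)
              (fun x => tilt (sysLev t p N K) (mmF t.m) (sysLaw t v) (sysW C t a b y v) x.1 *
                ∏ l, lawP t.κ (v' l) (x.2 l))
              (fun x => 1 + gF C b'.1 (x.1.2 b'.2)
                (fun l => t.X (hst (v' l) (x.2 l) t.r)))) := by
  have E := expo_mmF t.adm
  have key : ∀ v : Fin (K + 1) × Fin (p - 1) → Fin t.nS,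
      LT0 (sysLev t p N (K + 1)) (mmF t.m) (sysLaw t v)
          (sysW C t a (Fin.cons (α := fun _ => E2 C N) b' b) y v) =
      LT0 (sysLev t p N K) (mmF t.m) (sysLaw t (F8b_eqv K (p - 1) _ v).1)
        (sysW C t a b y (F8b_eqv K (p - 1) _ v).1) +
        LT0 ((sysLev t p N K).prod ((labLev t.r t.nS).pi (Fin (p - 1)))) (mmF t.m)
              (fun x => tilt (sysLev t p N K) (mmF t.m) (sysLaw t (F8b_eqv K (p - 1) _ v).1)
                (sysW C t a b y (F8b_eqv K (p - 1) _ v).1) x.1 *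
                ∏ l, lawP t.κ ((F8b_eqv K (p - 1) _ v).2 l) (x.2 l))
              (fun x => 1 + gF C b'.1 (x.1.2 b'.2)
                (fun l => t.X (hst ((F8b_eqv K (p - 1) _ v).2 l) (x.2 l) t.r))) := by
    intro v
    set Pz : SysΩ p t N K × (Fin (p - 1) → Fin t.r → Fin t.nS) → ℝ := fun z =>
          sysLaw t (F8b_eqv K (p - 1) _ v).1 z.1 *
            ∏ l, lawP t.κ ((F8b_eqv K (p - 1) _ v).2 l) (z.2 l) with hPz
    set Wz : SysΩ p t N K × (Fin (p - 1) → Fin t.r → Fin t.nS) → ℝ := fun z =>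
          sysW C t a b y (F8b_eqv K (p - 1) _ v).1 z.1 *
            (1 + gF C b'.1 (z.1.2 b'.2)
              (fun l => t.X (hst ((F8b_eqv K (p - 1) _ v).2 l) (z.2 l) t.r))) with hWz
    have h1 : sysLaw t v = fun x : SysΩ p t N (K + 1) => Pz (F8b_sys t N K x) := by
      funext x
      exact F8b_law t v x
    have h2 : sysW C t a (Fin.cons (α := fun _ => E2 C N) b' b) y v =
        fun x : SysΩ p t N (K + 1) => Wz (F8b_sys t N K x) := by
      funext x
      exact F8b_W C t a b b' y v x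
    have h3 := LT0_equiv (m := mmF t.m) (sysLev t p N (K + 1))
      ((sysLev t p N K).prod ((labLev t.r t.nS).pi (Fin (p - 1)))) (F8b_sys t N K)
      (F8b_rel t N K) Pz Wz
    rw [h1, h2, h3]
    have hP0 : PathLaw (fun x : Fin (p - 1) → Fin t.r → Fin t.nS =>
        ∏ l, lawP t.κ ((F8b_eqv K (p - 1) _ v).2 l) (x l)) :=
      lawL_pathLaw ht t.κ_sum ((F8b_eqv K (p - 1) _ v).2)
    have hg : ∀ x : SysΩ p t N K × (Fin (p - 1) → Fin t.r → Fin t.nS), 0 < 1 + gF C b'.1 (x.1.2 b'.2)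
        (fun l => t.X (hst ((F8b_eqv K (p - 1) _ v).2 l) (x.2 l) t.r)) := by
      intro x
      have h3 := abs_gF_le C hp b'.1 (x.1.2 b'.2)
          (fun l => t.X (hst ((F8b_eqv K (p - 1) _ v).2 l) (x.2 l) t.r))
      have h4 := (abs_le.1 h3).1
      have h5 := C.q0_lt
      linarith
    have hW : ∀ ω, 0 < sysW C t a b y (F8b_eqv K (p - 1) _ v).1 ω := fun ω =>
      Wsys_pos C hp _ _ _ _ _
    have hP : PathLaw (sysLaw (N := N) t (F8b_eqv K (p - 1) _ v).1) := sysLaw_pathLaw t ht _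
    exact LT0_add_field (sysLev t p N K) ((labLev t.r t.nS).pi (Fin (p - 1))) E hP hP0 hW hg
  simp only [key]
  have hw : ∀ v : Fin (K + 1) × Fin (p - 1) → Fin t.nS, (∏ l, t.κ [] (v l)) =
      (∏ l, t.κ [] ((F8b_eqv K (p - 1) _ v).1 l)) * ∏ l, t.κ [] ((F8b_eqv K (p - 1) _ v).2 l) :=
    fun v => F8b_prod (fun l => t.κ [] (v l))
  simp only [hw]
  rw [(F8b_eqv K (p - 1) (Fin t.nS)).sum_comp (fun z =>
    ((∏ l, t.κ [] (z.1 l)) * ∏ l, t.κ [] (z.2 l)) *
      (LT0 (sysLev t p N K) (mmF t.m) (sysLaw t z.1) (sysW C t a b y z.1) +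
        LT0 ((sysLev t p N K).prod ((labLev t.r t.nS).pi (Fin (p - 1)))) (mmF t.m)
              (fun x => tilt (sysLev t p N K) (mmF t.m) (sysLaw t z.1)
                (sysW C t a b y z.1) x.1 *
                ∏ l, lawP t.κ (z.2 l) (x.2 l))
              (fun x => 1 + gF C b'.1 (x.1.2 b'.2)
                (fun l => t.X (hst (z.2 l) (x.2 l) t.r))))), Fintype.sum_prod_type]
  refine Finset.sum_congr rfl fun v _ => ?_
  simp only [mul_assoc, mul_add]
  rw [Finset.sum_add_distrib, ← Finset.mul_sum, ← Finset.mul_sum, ← Finset.sum_mul,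
    F8b_sum_one t, one_mul]

end Crest.SG
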