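import Crest.Agent.SG_F7
import Crest.Agent.SG_F8b

/-! # SG_F9 : the increments inequality for `Phi` (part F of S0192)

Hint: `Fin.consEquiv` for the sums over `Fin (M+1) → E1`, `Fin (K+1) → E2` (see `AvN_succ` in
`SG_P2`), `logT0_sys`, `incr_edge`, `incr_field`; `eM` by `edgeTerm_eq_gM` and `link0`; then
`core_ineq` for each `a, b, y, v` with `Q = tilt … ` (`tilt_pathLaw`) and average. -/

set_option autoImplicit false
set_option linter.unusedVariables false
noncomputable section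
open scoped BigOperators
open Classical
open Crest.ProbabilityR.Diluted Crest.Agent.SGG
namespace Crest.SG

variable {p : ℕ} (C : Core p) (t : Trial)

/-- average over the randomness of `M` edges, `K` fields, the site fields and the level-0 states. -/
def F9Av (N M K : ℕ) (F : (Fin M → E1 C N) → (Fin K → E2 C N) → (Fin N → Fin C.nH) →
    (Fin K × Fin (p - 1) → Fin t.nS) → ℝ) : ℝ :=
  ∑ a : Fin M → E1 C N, (∏ k, w1 C (a k)) *
    ∑ b : Fin K → E2 C N, (∏ k, w2 C (b k)) *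
      ∑ y : Fin N → Fin C.nH, (∏ i, C.wH (y i)) *
        ∑ v : Fin K × Fin (p - 1) → Fin t.nS, (∏ l, t.κ [] (v l)) * F a b y v

/-- weight of `F9Av`. -/
def F9W (N M K : ℕ) (q : (Fin M → E1 C N) × (Fin K → E2 C N) × (Fin N → Fin C.nH) ×
    (Fin K × Fin (p - 1) → Fin t.nS)) : ℝ :=
  (∏ k, w1 C (q.1 k)) * ((∏ k, w2 C (q.2.1 k)) * ((∏ i, C.wH (q.2.2.1 i)) *
    (∏ l, t.κ [] (q.2.2.2 l))))

theorem F9Av_eq {N M K : ℕ} (F : (Fin M → E1 C N) → (Fin K → E2 C N) → (Fin N → Fin C.nH) →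
    (Fin K × Fin (p - 1) → Fin t.nS) → ℝ) :
    F9Av C t N M K F = ∑ q, F9W C t N M K q * F q.1 q.2.1 q.2.2.1 q.2.2.2 := by
  unfold F9Av F9W
  simp only [Fintype.sum_prod_type, Finset.mul_sum, mul_assoc]

theorem F9Av_sum {ι : Type} [Fintype ι] (c : ι → ℝ) {N M K : ℕ}
    (F : ι → (Fin M → E1 C N) → (Fin K → E2 C N) → (Fin N → Fin C.nH) →
    (Fin K × Fin (p - 1) → Fin t.nS) → ℝ) :
    F9Av C t N M K (fun a b y v => ∑ i, c i * F i a b y v) = ∑ i, c i * F9Av C t N M K (F i) := by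
  simp only [F9Av_eq, Finset.mul_sum]
  rw [Finset.sum_comm]
  exact Finset.sum_congr rfl fun i _ => Finset.sum_congr rfl fun q _ => by ring

theorem F9Av_add {N M K : ℕ} (F G : (Fin M → E1 C N) → (Fin K → E2 C N) → (Fin N → Fin C.nH) →
    (Fin K × Fin (p - 1) → Fin t.nS) → ℝ) :
    F9Av C t N M K (fun a b y v => F a b y v + G a b y v) =
      F9Av C t N M K F + F9Av C t N M K G := by
  simp only [F9Av_eq, mul_add, Finset.sum_add_distrib]

theorem F9Av_const_mul (c : ℝ) {N M K : ℕ} (F : (Fin M → E1 C N) → (Fin K → E2 C N) →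
    (Fin N → Fin C.nH) → (Fin K × Fin (p - 1) → Fin t.nS) → ℝ) :
    F9Av C t N M K (fun a b y v => c * F a b y v) = c * F9Av C t N M K F := by
  simp only [F9Av_eq, Finset.mul_sum]
  exact Finset.sum_congr rfl fun q _ => by ring

theorem F9Av_nonpos {N M K : ℕ} (F : (Fin M → E1 C N) → (Fin K → E2 C N) →
    (Fin N → Fin C.nH) → (Fin K × Fin (p - 1) → Fin t.nS) → ℝ) (h : ∀ a b y v, F a b y v ≤ 0) :
    F9Av C t N M K F ≤ 0 := by
  rw [F9Av_eq]
  refine Finset.sum_nonpos fun q _ => mul_nonpos_of_nonneg_of_nonpos ?_ (h _ _ _ _)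
  unfold F9W
  exact mul_nonneg (Finset.prod_nonneg fun k _ => w1_nonneg C _)
    (mul_nonneg (Finset.prod_nonneg fun k _ => w2_nonneg C _)
      (mul_nonneg (Finset.prod_nonneg fun k _ => C.wH_nonneg _)
        (Finset.prod_nonneg fun k _ => t.κ_nonneg _ _)))

/-- a finite average with product weights of a constant. -/
theorem F9_sum_prod {ι E : Type} [Fintype ι] [DecidableEq ι] [Fintype E] {π : E → ℝ}
    (h : ∑ e, π e = 1) : ∑ a : ι → E, ∏ k, π (a k) = 1 := by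
  rw [← Fintype.piFinset_univ, ← Finset.prod_univ_sum (fun _ => Finset.univ) (fun (_ : ι) e => π e)]
  simp [h]

theorem F9Av_const (c : ℝ) {N M K : ℕ} (hN : 1 ≤ N) :
    F9Av C t N M K (fun _ _ _ _ => c) = c := by
  unfold F9Av
  simp only [← Finset.sum_mul, F9_sum_prod (t.κ_sum []), F9_sum_prod C.wH_sum,
    F9_sum_prod (w2_sum C hN), F9_sum_prod (w1_sum C hN), one_mul]

/-- base term. -/
def F9L0 {N M K : ℕ} (a : Fin M → E1 C N) (b : Fin K → E2 C N) (y : Fin N → Fin C.nH)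
    (v : Fin K × Fin (p - 1) → Fin t.nS) : ℝ :=
  LT0 (sysLev t p N K) (mmF t.m) (sysLaw t v) (sysW C t a b y v)

/-- tilted law. -/
def F9Q {N M K : ℕ} (a : Fin M → E1 C N) (b : Fin K → E2 C N) (y : Fin N → Fin C.nH)
    (v : Fin K × Fin (p - 1) → Fin t.nS) : SysΩ p t N K → ℝ :=
  tilt (sysLev t p N K) (mmF t.m) (sysLaw t v) (sysW C t a b y v)

/-- edge increment. -/
def F9D1 {N M K : ℕ} (a' : E1 C N) (a : Fin M → E1 C N) (b : Fin K → E2 C N)
    (y : Fin N → Fin C.nH) (v : Fin K × Fin (p - 1) → Fin t.nS) : ℝ :=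
  LT0 (sysLev t p N K) (mmF t.m) (F9Q C t a b y v)
    (fun x => 1 + gE C a'.1 (fun l => x.2 (a'.2 l)))

/-- field increment. -/
def F9D2 {N M K : ℕ} (b' : E2 C N) (a : Fin M → E1 C N) (b : Fin K → E2 C N)
    (y : Fin N → Fin C.nH) (v : Fin K × Fin (p - 1) → Fin t.nS) : ℝ :=
  ∑ v' : Fin (p - 1) → Fin t.nS, (∏ l, t.κ [] (v' l)) *
    LT0 ((sysLev t p N K).prod ((labLev t.r t.nS).pi (Fin (p - 1)))) (mmF t.m)
      (fun x => F9Q C t a b y v x.1 * ∏ l, lawP t.κ (v' l) (x.2 l))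
      (fun x => 1 + gF C b'.1 (x.1.2 b'.2) (fun l => t.X (hst (v' l) (x.2 l) t.r)))

theorem F9_Phi (hp : 1 ≤ p) (ht : ∀ H s, 0 < t.κ H s) (N M K : ℕ) :
    Phi C t N M K = F9Av C t N M K (F9L0 C t) := by
  unfold Phi F9Av
  refine Finset.sum_congr rfl fun a _ => congrArg _ (Finset.sum_congr rfl fun b _ =>
    congrArg _ (Finset.sum_congr rfl fun y _ => congrArg _ ?_))
  exact logT0_sys C t hp ht a b y

theorem F9_Phi_edge (hp : 1 ≤ p) (ht : ∀ H s, 0 < t.κ H s) (N M K : ℕ) :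
    Phi C t N (M + 1) K = F9Av C t N M K (fun a b y v =>
      ∑ a', w1 C a' * (F9L0 C t a b y v + F9D1 C t a' a b y v)) := by
  rw [F9Av_sum C t (fun a' => w1 C a') (fun a' a b y v => F9L0 C t a b y v + F9D1 C t a' a b y v)]
  unfold Phi
  rw [← (Fin.consEquiv (fun _ : Fin (M + 1) => E1 C N)).sum_comp, Fintype.sum_prod_type]
  refine Finset.sum_congr rfl fun a' _ => ?_
  unfold F9Av
  rw [Finset.mul_sum]
  refine Finset.sum_congr rfl fun a _ => ?_
  simp only [Fin.consEquiv, Equiv.coe_fn_mk, Fin.prod_univ_succ, Fin.cons_zero, Fin.cons_succ]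
  rw [mul_assoc]
  refine congrArg _ (congrArg _ (Finset.sum_congr rfl fun b _ =>
    congrArg _ (Finset.sum_congr rfl fun y _ => congrArg _ ?_)))
  refine (logT0_sys C t hp ht (Fin.cons (α := fun _ => E1 C N) a' a) b y).trans ?_
  refine Finset.sum_congr rfl fun v _ => congrArg _ ?_
  exact incr_edge C t hp ht a a' b y v

theorem F9_Phi_field (hp : 1 ≤ p) (ht : ∀ H s, 0 < t.κ H s) (N M K : ℕ) :
    Phi C t N M (K + 1) = F9Av C t N M K (fun a b y v =>
      ∑ b', w2 C b' * (F9L0 C t a b y v + F9D2 C t b' a b y v)) := by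
  rw [F9Av_sum C t (fun b' => w2 C b') (fun b' a b y v => F9L0 C t a b y v + F9D2 C t b' a b y v)]
  unfold Phi F9Av
  simp_rw [Finset.mul_sum (s := (Finset.univ : Finset (Fin M → E1 C N)))]
  rw [Finset.sum_comm (s := (Finset.univ : Finset (E2 C N)))]
  refine Finset.sum_congr rfl fun a _ => ?_
  rw [← (Fin.consEquiv (fun _ : Fin (K + 1) => E2 C N)).sum_comp, Fintype.sum_prod_type,
    Finset.mul_sum]
  refine Finset.sum_congr rfl fun b' _ => ?_
  rw [mul_left_comm]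
  refine congrArg _ ?_
  rw [Finset.mul_sum]
  refine Finset.sum_congr rfl fun b _ => ?_
  simp only [Fin.consEquiv, Equiv.coe_fn_mk, Fin.prod_univ_succ, Fin.cons_zero, Fin.cons_succ]
  rw [mul_assoc]
  refine congrArg _ (congrArg _ (Finset.sum_congr rfl fun y _ => congrArg _ ?_))
  refine (logT0_sys C t hp ht a (Fin.cons (α := fun _ => E2 C N) b' b) y).trans ?_
  exact incr_field C t hp ht a b b' y

theorem F9_eM (hp : 1 ≤ p) (ht : ∀ H s, 0 < t.κ H s) :
    eM C t = ∑ e : C.E, C.wE e * ∑ v : Fin p → Fin t.nS, (∏ l, t.κ [] (v l)) *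
        LT0 ((labLev t.r t.nS).pi (Fin p)) (mmF t.m) (fun x => ∏ l, lawP t.κ (v l) (x l))
          (fun x => 1 + gM C e (fun l => t.X (hst (v l) (x l) t.r))) := by
  unfold eM
  refine Finset.sum_congr rfl fun e _ => congrArg _ ?_
  unfold Trial.logT0
  refine Finset.sum_congr rfl fun v _ => congrArg _ ?_
  have hV : ∀ H : Fin p → List (Fin t.nS), 0 < 1 + gM C e (fun l => t.X (H l)) := by
    intro H
    have := abs_le.mp (abs_gM_le C e (fun l => t.X (H l)))
    linarith [C.q0_lt]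
  have := link0 (L := Fin p) t.adm ht t.κ_sum hV v
  simp only [edgeTerm_eq_gM]
  exact this

theorem Phi_incr (hp : 2 ≤ p) (ht : ∀ H s, 0 < t.κ H s)
    (hpos : Even p ∨ ∀ φ s, 0 ≤ C.f φ s) {N : ℕ} (hN : 1 ≤ N) (M K : ℕ) :
    (Phi C t N (M + 1) K - Phi C t N M K) - p * (Phi C t N M (K + 1) - Phi C t N M K) +
      ((p : ℝ) - 1) * eM C t ≤ 0 := by
  have hp1 : 1 ≤ p := by omega
  have key : ∀ (a : Fin M → E1 C N) (b : Fin K → E2 C N) (y : Fin N → Fin C.nH)
      (v : Fin K × Fin (p - 1) → Fin t.nS),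
      (∑ a', w1 C a' * F9D1 C t a' a b y v) - p * (∑ b', w2 C b' * F9D2 C t b' a b y v) +
        ((p : ℝ) - 1) * eM C t ≤ 0 := by
    intro a b y v
    rw [F9_eM C t hp1 ht]
    have hQ : PathLaw (F9Q C t a b y v) :=
      tilt_pathLaw (sysLev t p N K) (expo_mmF t.adm) (sysLaw_pathLaw t ht v)
        (fun x => Wsys_pos C hp1 a b y _ _)
    exact core_ineq C hp hN (expo_mmF t.adm) (sysLev t p N K) hQ (fun x => x.2)
      (labLev t.r t.nS) (fun s => (t.κ_nonneg [] s)) (t.κ_sum [])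
      (law := lawP t.κ) (fun s => lawP_pathLaw ht t.κ_sum s)
      (fun s x => t.X (hst s x t.r)) hpos
  have e1 : (Phi C t N (M + 1) K - Phi C t N M K) - p * (Phi C t N M (K + 1) - Phi C t N M K) +
      ((p : ℝ) - 1) * eM C t = F9Av C t N M K (fun a b y v =>
      (∑ a', w1 C a' * F9D1 C t a' a b y v) + ((-(p : ℝ)) * (∑ b', w2 C b' * F9D2 C t b' a b y v) +
        ((p : ℝ) - 1) * eM C t)) := by
    rw [F9Av_add, F9Av_add, F9Av_const_mul, F9Av_const C t _ hN, F9_Phi_edge C t hp1 ht,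
      F9_Phi_field C t hp1 ht, F9_Phi C t hp1 ht]
    simp only [mul_add, Finset.sum_add_distrib, ← Finset.sum_mul, w1_sum C hN, w2_sum C hN, one_mul]
    rw [F9Av_add, F9Av_add]
    have h0 : F9Av C t N M K (fun a b y v => F9L0 C t a b y v) = F9Av C t N M K (F9L0 C t) := rfl
    rw [h0]
    ring
  rw [e1]
  refine F9Av_nonpos C t _ fun a b y v => ?_
  have := key a b y v
  linarith

end Crest.SG
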