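import Crest.Agent.SG_Defs
import Crest.Agent.SG_F9
import Crest.Agent.SG_F8c
import Crest.Agent.SG_F10a
import Crest.Agent.SG_F10c
import Crest.Agent.SG_F11

/-! # SG_UB : upper bound for the core model (part F) -/

set_option autoImplicit false
open Crest.Agent.SGG
namespace Crest.SG

theorem core_UB {p : ℕ} (hp : 2 ≤ p) (C : Core p) (hpos : Even p ∨ ∀ φ s, 0 ≤ C.f φ s) {α : ℝ}
    (hα : 0 < α) : CoreUB p α C := by
  refine UB_of_pos (by omega) C hα.le fun t ht N hN => ?_
  have hN' : (0 : ℝ) < N := by exact_mod_cast hN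
  have hp' : (0 : ℝ) < p := by
    have : 0 < p := by omega
    exact_mod_cast this
  obtain ⟨c, hc⟩ := Phi_growth C t (by omega) hN
  have h := poi_interp (a := α * N) (b := α * p * N) (c := α * N * (((p : ℝ) - 1) * eM C t))
    (C := c) (by positivity) (by positivity) (Phi C t N) hc (by
      intro M K
      have h1 := mul_le_mul_of_nonneg_left (Phi_incr C t hp ht hpos hN M K)
        (show (0 : ℝ) ≤ α * N by positivity)
      linarith)
  rw [Poi_edges C t (by omega) hN hα.le, Poi_fields C t (by omega) hN (by positivity)] at h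
  rw [functional_eq]
  have h2 : (N : ℝ) * (C.pressure α N) ≤
      N * (Real.log 2 + Poi (α * p) (gS C t) - α * (p - 1 : ℝ) * eM C t) := by
    linarith
  exact le_of_mul_le_mul_left h2 hN'

end Crest.SG
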