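import Crest.Agent.S0334_Defs

set_option autoImplicit false

open MeasureTheory ProbabilityTheory
open scoped RealInnerProductSpace

namespace Crest.Agent.S0334

variable {E : Type*} [NormedAddCommGroup E] [InnerProductSpace ℝ E]
  [FiniteDimensional ℝ E] [MeasurableSpace E] [BorelSpace E]

variable {E' : Type*} [NormedAddCommGroup E'] [InnerProductSpace ℝ E']
  [FiniteDimensional ℝ E'] [MeasurableSpace E'] [BorelSpace E']

/-! ### A2: Gaussian transfer (use `charFun_stdGaussian`, `Measure.ext_of_charFun`) -/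

theorem A2_measurable_inner {k : ℕ} (v : Fin k → E) :
    Measurable (fun x (i : Fin k) => ⟪x, v i⟫) := by
  fun_prop

theorem A2_measurable_toLp {k : ℕ} (v : Fin k → E) :
    Measurable (fun x => WithLp.toLp 2 (fun i : Fin k => ⟪x, v i⟫)) := by
  fun_prop

omit [FiniteDimensional ℝ E] [MeasurableSpace E] [BorelSpace E] in
theorem A2_norm_sq_sum {k : ℕ} (v : Fin k → E) (t : Fin k → ℝ) :
    ‖∑ i, t i • v i‖ ^ 2 = ∑ i, ∑ j, t i * t j * ⟪v i, v j⟫ := by
  rw [← real_inner_self_eq_norm_sq, sum_inner]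
  refine Finset.sum_congr rfl fun i _ => ?_
  rw [inner_sum]
  refine Finset.sum_congr rfl fun j _ => ?_
  rw [real_inner_smul_left, real_inner_smul_right]
  ring

theorem A2_charFun {k : ℕ} (v : Fin k → E) (t : V k) :
    charFun ((stdGaussian E).map (fun x => WithLp.toLp 2 (fun i : Fin k => ⟪x, v i⟫))) t =
      Complex.exp (- (‖∑ i, t i • v i‖ : ℂ) ^ 2 / 2) := by
  rw [charFun_apply, integral_map (A2_measurable_toLp v).aemeasurable
    (Measurable.aestronglyMeasurable (by fun_prop)), ← charFun_stdGaussian, charFun_apply]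
  refine integral_congr_ae (Filter.Eventually.of_forall fun x => ?_)
  simp only
  congr 2
  norm_cast
  rw [inner_sum, PiLp.inner_apply]
  refine Finset.sum_congr rfl fun i _ => ?_
  rw [real_inner_smul_right]
  simp

theorem A2_law_toLp {k : ℕ} (v : Fin k → E) (w : Fin k → E')
    (h : ∀ i j, ⟪v i, v j⟫ = ⟪w i, w j⟫) :
    (stdGaussian E).map (fun x => WithLp.toLp 2 (fun i : Fin k => ⟪x, v i⟫)) =
      (stdGaussian E').map (fun x => WithLp.toLp 2 (fun i : Fin k => ⟪x, w i⟫)) := by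
  have h1 : IsProbabilityMeasure
      ((stdGaussian E).map (fun x => WithLp.toLp 2 (fun i : Fin k => ⟪x, v i⟫))) :=
    Measure.isProbabilityMeasure_map (A2_measurable_toLp v).aemeasurable
  have h2 : IsProbabilityMeasure
      ((stdGaussian E').map (fun x => WithLp.toLp 2 (fun i : Fin k => ⟪x, w i⟫))) :=
    Measure.isProbabilityMeasure_map (A2_measurable_toLp w).aemeasurable
  apply Measure.ext_of_charFun
  ext t
  rw [A2_charFun, A2_charFun]
  have e : ‖∑ i, t i • v i‖ ^ 2 = ‖∑ i, t i • w i‖ ^ 2 := by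
    rw [A2_norm_sq_sum, A2_norm_sq_sum]
    simp_rw [h]
  have e' : (‖∑ i, t i • v i‖ : ℂ) ^ 2 = (‖∑ i, t i • w i‖ : ℂ) ^ 2 := by
    exact_mod_cast e
  rw [e']

/-- The joint law of `⟪X, v i⟫` depends only on the Gram matrix. -/
theorem law_eq_of_gram {k : ℕ} (v : Fin k → E) (w : Fin k → E')
    (h : ∀ i j, ⟪v i, v j⟫ = ⟪w i, w j⟫) :
    (stdGaussian E).map (fun x (i : Fin k) => ⟪x, v i⟫) =
      (stdGaussian E').map (fun x (i : Fin k) => ⟪x, w i⟫) := by
  have hm : Measurable (WithLp.ofLp : V k → (Fin k → ℝ)) := by fun_prop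
  have e1 : (fun x (i : Fin k) => ⟪x, v i⟫) =
      (WithLp.ofLp : V k → (Fin k → ℝ)) ∘ (fun x => WithLp.toLp 2 (fun i : Fin k => ⟪x, v i⟫)) := by
    ext x i
    rfl
  have e2 : (fun x (i : Fin k) => ⟪x, w i⟫) =
      (WithLp.ofLp : V k → (Fin k → ℝ)) ∘ (fun x => WithLp.toLp 2 (fun i : Fin k => ⟪x, w i⟫)) := by
    ext x i
    rfl
  rw [e1, e2, ← Measure.map_map hm (A2_measurable_toLp v),
    ← Measure.map_map hm (A2_measurable_toLp w), A2_law_toLp v w h]

theorem A2_measurable_iSup {k : ℕ} : Measurable (fun y : Fin k → ℝ => ⨆ i, y i) :=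
  Measurable.iSup fun i => measurable_pi_apply i

theorem A2_F_eq_map {k : ℕ} (v : Fin k → E) :
    F v = ∫ y, (⨆ i, y i) ∂((stdGaussian E).map (fun x (i : Fin k) => ⟪x, v i⟫)) := by
  rw [integral_map (A2_measurable_inner v).aemeasurable
    A2_measurable_iSup.aestronglyMeasurable]
  rfl

theorem F_eq_of_gram {k : ℕ} (v : Fin k → E) (w : Fin k → E')
    (h : ∀ i j, ⟪v i, v j⟫ = ⟪w i, w j⟫) : F v = F w := by
  rw [A2_F_eq_map, A2_F_eq_map, law_eq_of_gram v w h]

open scoped MatrixOrder in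
/-- every Gram matrix of `k` vectors is realized in `V k`. -/
theorem exists_gram_realization {k : ℕ} (v : Fin k → E) :
    ∃ w : Fin k → V k, ∀ i j, ⟪w i, w j⟫ = ⟪v i, v j⟫ := by
  obtain ⟨B, hB⟩ := CStarAlgebra.nonneg_iff_eq_star_mul_self.mp
    (Matrix.posSemidef_gram (𝕜 := ℝ) v).nonneg
  refine ⟨fun i => WithLp.toLp 2 (fun l => B l i), fun i j => ?_⟩
  have := congrFun (congrFun hB i) j
  rw [Matrix.gram_apply, Matrix.star_eq_conjTranspose, Matrix.mul_apply] at this
  rw [this, PiLp.inner_apply]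
  refine Finset.sum_congr rfl fun l _ => ?_
  simp [Matrix.conjTranspose_apply, mul_comm]

/-- coordinates along an orthonormal family are again standard Gaussian. -/
theorem map_inner_orthonormal {d : ℕ} (e : Fin d → E) (he : Orthonormal ℝ e) :
    (stdGaussian E).map (fun x => WithLp.toLp 2 (fun i : Fin d => ⟪x, e i⟫)) =
      stdGaussian (V d) := by
  have h : ∀ i j, ⟪e i, e j⟫ = ⟪(EuclideanSpace.basisFun (Fin d) ℝ) i,
      (EuclideanSpace.basisFun (Fin d) ℝ) j⟫ := by
    intro i j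
    rw [orthonormal_iff_ite.1 he i j,
      orthonormal_iff_ite.1 (EuclideanSpace.basisFun (Fin d) ℝ).orthonormal i j]
  rw [A2_law_toLp e (fun i => (EuclideanSpace.basisFun (Fin d) ℝ) i) h]
  have : (fun x : V d => WithLp.toLp 2
      (fun i : Fin d => ⟪x, (EuclideanSpace.basisFun (Fin d) ℝ) i⟫)) = id := by
    ext x i
    simp [EuclideanSpace.inner_single_right]
  rw [this, Measure.map_id]

end Crest.Agent.S0334
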