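import Crest.Agent.S0334_A1
import Crest.Agent.S0334_A2

set_option autoImplicit false

open MeasureTheory ProbabilityTheory
open scoped RealInnerProductSpace

namespace Crest.Agent.S0334

variable {E : Type*} [NormedAddCommGroup E] [InnerProductSpace ℝ E]
  [FiniteDimensional ℝ E] [MeasurableSpace E] [BorelSpace E]

/-! ### A4: reduction of the statement to `VB k` -/

theorem kap_pos : 0 < kap := by
  unfold kap
  positivity

theorem kap_sq : kap ^ 2 = 9 / (8 * Real.pi) := by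
  unfold kap
  rw [div_pow, mul_pow, Real.sq_sqrt (by positivity)]
  field_simp
  norm_num

theorem sum_sq_le_of_VB {k : ℕ} (hk : 0 < k) (hVB : VB k) (A : Fin k → Set E)
    (hA : ∀ i, MeasurableSet (A i))
    (hdisj : Pairwise fun i j => Disjoint (A i) (A j))
    (hcov : ⋃ i, A i = Set.univ) :
    ∑ i, ‖∫ x in A i, x ∂stdGaussian E‖ ^ 2 ≤ kap ^ 2 := by
  set z : Fin k → E := fun i => ∫ x in A i, x ∂stdGaussian E with hz
  have h1 : ∑ i, ⟪z i, z i⟫ ≤ F z := sum_inner_setIntegral_le_F z A hA hdisj hcov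
  obtain ⟨w, hw⟩ := exists_gram_realization z
  have h2 : F z = F w := (F_eq_of_gram w z hw).symm
  have hnorm : ∀ i, ‖w i‖ ^ 2 = ‖z i‖ ^ 2 := by
    intro i
    rw [← real_inner_self_eq_norm_sq, ← real_inner_self_eq_norm_sq, hw i i]
  have h3 := hVB k w
  have hs : ∑ i, ‖w i‖ ^ 2 = ∑ i, ‖z i‖ ^ 2 := Finset.sum_congr rfl fun i _ => hnorm i
  rw [hs] at h3
  have h4 : ∑ i, ⟪z i, z i⟫ = ∑ i, ‖z i‖ ^ 2 :=
    Finset.sum_congr rfl fun i _ => real_inner_self_eq_norm_sq _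
  rw [h4, h2] at h1
  have h0 : 0 ≤ ∑ i, ‖z i‖ ^ 2 := Finset.sum_nonneg fun i _ => sq_nonneg _
  have h5 : ∑ i, ‖z i‖ ^ 2 ≤ kap * √(∑ i, ‖z i‖ ^ 2) := h1.trans h3
  set s := ∑ i, ‖z i‖ ^ 2 with hsdef
  have hk0 := kap_pos
  have h6 : √s ^ 2 = s := Real.sq_sqrt h0
  have h7 : √s * √s ≤ kap * √s := by nlinarith
  have h8 : √s ≤ kap := by
    rcases (Real.sqrt_nonneg s).eq_or_lt with h | h
    · rw [← h]; exact hk0.le
    · exact le_of_mul_le_mul_right h7 h
  calc s = √s ^ 2 := h6.symm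
    _ ≤ kap ^ 2 := by gcongr

/-- `∑ ‖z i‖² ≤ F z` for `z i = ∫_{A i} x` : then use `exists_gram_realization`, `F_eq_of_gram`
and `VB`. -/
theorem main_of_VB (hVB : ∀ k : ℕ, 1 ≤ k → VB k) {ι : Type*} [Fintype ι] (A : ι → Set E)
    (hA : ∀ i, MeasurableSet (A i))
    (hdisj : Pairwise fun i j => Disjoint (A i) (A j))
    (hcov : ⋃ i, A i = Set.univ) :
    ∑ i, ‖∫ x in A i, x ∂stdGaussian E‖ ^ 2 ≤ 9 / (8 * Real.pi) := by
  rw [← kap_sq]
  let e : Fin (Fintype.card ι) ≃ ι := (Fintype.equivFin ι).symm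
  have hne : Nonempty ι := by
    have h0 : (0 : E) ∈ ⋃ i, A i := by rw [hcov]; trivial
    obtain ⟨i, _⟩ := Set.mem_iUnion.mp h0
    exact ⟨i⟩
  have hk : 0 < Fintype.card ι := Fintype.card_pos
  have h := sum_sq_le_of_VB hk (hVB _ hk) (fun j => A (e j)) (fun j => hA _)
    (fun i j hij => hdisj (fun h => hij (e.injective h)))
    (by
      rw [← hcov]
      exact e.surjective.iUnion_comp A)
  rw [← Equiv.sum_comp e]
  exact h

end Crest.Agent.S0334
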