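import Crest.Agent.S0334_FV

set_option autoImplicit false

namespace Crest.Agent.S0334

/-! ### FW: the vertical bound, general form -/

theorem Vert7.gen {c₀ t β : ℝ} (hβ : 0 ≤ β) (hc₀ : 3 / 7 ≤ c₀) (hc₁ : c₀ < 1)
    (ht : t ≤ (4 / 9) * (1 - c₀ ^ 2) ^ 5) (ht8 : t ≤ 1 / 8)
    (hn : (4 / 9) * β * ((1 - c₀) ^ 2 * (1 + c₀) ^ 5) ≤ (5 / 96) * (8 + 9 * c₀ + 3 * c₀ ^ 2))
    {r μ : ℝ} (hr : 0 < r) (h : Vert7 r μ) (hr1 : r ^ 2 ≤ t) : β * r ^ 2 < μ := by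
  obtain ⟨c, hc0, hc1, hc2, hc3⟩ := h.exists_param hr (by nlinarith)
  have hc : c₀ ≤ c := by
    by_contra hlt
    push Not at hlt
    have h0 : 0 < 1 - c₀ ^ 2 := by nlinarith
    have h1 : 1 - c₀ ^ 2 < 1 - c ^ 2 := by nlinarith
    have h2 : (1 - c₀ ^ 2) ^ 5 < (1 - c ^ 2) ^ 5 := pow_lt_pow_left₀ h1 h0.le (by norm_num)
    linarith
  have := FV_line hβ hc₀ hn hc hc1
  rw [hc2]
  linarith

end Crest.Agent.S0334
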