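import Crest.Agent.S0334_A1
import Crest.Agent.S0334_A2

set_option autoImplicit false

open MeasureTheory ProbabilityTheory
open scoped RealInnerProductSpace

namespace Crest.Agent.S0334

variable {E : Type*} [NormedAddCommGroup E] [InnerProductSpace ℝ E]
  [FiniteDimensional ℝ E] [MeasurableSpace E] [BorelSpace E]

/-! ### B: base cases `k = 1, 2, 3` -/

theorem integral_abs_gaussianReal_aux (v : NNReal) (hv : v ≠ 0) :
    ∫ t, |t| ∂gaussianReal 0 v = 2 * (√(2 * Real.pi * v))⁻¹ * v := by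
  have hv' : (0 : ℝ) < v := by
    rw [NNReal.coe_pos]
    exact pos_iff_ne_zero.2 hv
  rw [integral_gaussianReal_eq_integral_smul hv]
  have e1 : ∀ t : ℝ, gaussianPDFReal 0 v t • |t| =
      (fun s => (√(2 * Real.pi * v))⁻¹ * (s * Real.exp (-s ^ 2 / (2 * v)))) |t| := by
    intro t
    simp only [gaussianPDFReal_def, smul_eq_mul, sub_zero, sq_abs]
    ring
  simp_rw [e1]
  rw [integral_comp_abs (f := fun s => (√(2 * Real.pi * v))⁻¹ * (s * Real.exp (-s ^ 2 / (2 * v)))),
    integral_const_mul]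
  have e2 : ∫ s in Set.Ioi (0 : ℝ), s * Real.exp (-s ^ 2 / (2 * v)) = v := by
    have h := integral_rpow_mul_exp_neg_mul_rpow (p := 2) (q := 1) (b := (2 * (v : ℝ))⁻¹)
      (by norm_num) (by norm_num) (by positivity)
    have h2 : ∫ s in Set.Ioi (0 : ℝ), s * Real.exp (-s ^ 2 / (2 * v)) =
        ∫ x in Set.Ioi (0 : ℝ), x ^ (1 : ℝ) * Real.exp (-(2 * (v : ℝ))⁻¹ * x ^ (2 : ℝ)) := by
      refine setIntegral_congr_fun measurableSet_Ioi fun x _ => ?_
      simp only [Real.rpow_one, Real.rpow_two]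
      congr 2
      field_simp
    rw [h2, h]
    norm_num
    rw [Real.rpow_neg_one]
    field_simp
  rw [e2]
  ring

theorem integral_abs_inner (u : E) :
    ∫ x, |⟪x, u⟫| ∂stdGaussian E = 2 * ‖u‖ / √(2 * Real.pi) := by
  by_cases hu : u = 0
  · simp [hu]
  have hun : 0 < ‖u‖ := norm_pos_iff.2 hu
  have hmap : (stdGaussian E).map (innerSL ℝ u) = gaussianReal 0 (‖u‖ ^ 2).toNNReal := by
    have := IsGaussian.map_eq_gaussianReal (μ := stdGaussian E) (innerSL ℝ u)
    rw [this, integral_strongDual_stdGaussian, variance_dual_stdGaussian, innerSL_apply_norm]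
  have hv0 : (‖u‖ ^ 2).toNNReal ≠ 0 := by
    rw [Ne, Real.toNNReal_eq_zero]
    push Not
    positivity
  have hvc : (((‖u‖ ^ 2).toNNReal : NNReal) : ℝ) = ‖u‖ ^ 2 :=
    Real.coe_toNNReal _ (sq_nonneg _)
  have h1 := integral_abs_gaussianReal_aux (‖u‖ ^ 2).toNNReal hv0
  rw [← hmap, integral_map (by fun_prop) (by fun_prop), hvc] at h1
  have h2 : ∫ x, |⟪x, u⟫| ∂stdGaussian E = ∫ x, |innerSL ℝ u x| ∂stdGaussian E := by
    refine integral_congr_ae (Filter.Eventually.of_forall fun x => ?_)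
    simp only [innerSL_apply_apply]
    rw [real_inner_comm]
  rw [h2, h1, Real.sqrt_mul (by positivity), Real.sqrt_sq hun.le]
  field_simp

theorem integral_inner_zero (u : E) : ∫ x, ⟪x, u⟫ ∂stdGaussian E = 0 := by
  have := integral_strongDual_stdGaussian (innerSL ℝ u)
  rw [← this]
  refine integral_congr_ae (Filter.Eventually.of_forall fun x => ?_)
  simp only [innerSL_apply_apply]
  rw [real_inner_comm]

theorem integral_posPart_inner (u : E) :
    ∫ x, max ⟪x, u⟫ 0 ∂stdGaussian E = ‖u‖ / √(2 * Real.pi) := by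
  have h1 : ∀ x : E, max ⟪x, u⟫ 0 = (1 / 2) * (⟪x, u⟫ + |⟪x, u⟫|) := by
    intro x
    rcases le_total 0 ⟪x, u⟫ with h | h
    · rw [max_eq_left h, abs_of_nonneg h]; ring
    · rw [max_eq_right h, abs_of_nonpos h]; ring
  simp_rw [h1]
  rw [integral_const_mul, integral_add (integrable_inner_sg u) (integrable_inner_sg u).abs,
    integral_inner_zero, integral_abs_inner]
  ring

theorem VB_one : VB 1 := by
  intro n v
  have h1 : F v = 0 := by
    unfold F
    have : ∀ x : V n, mx v x = ⟪x, v 0⟫ := by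
      intro x
      unfold mx
      simp
    simp_rw [this]
    exact integral_inner_zero _
  rw [h1]
  unfold kap
  positivity

theorem mx_two (v : Fin 2 → E) (x : E) : mx v x = max ⟪x, v 0⟫ ⟪x, v 1⟫ := by
  apply le_antisymm
  · apply mx_le (by norm_num)
    intro i
    fin_cases i
    · exact le_max_left _ _
    · exact le_max_right _ _
  · exact max_le (inner_le_mx v x 0) (inner_le_mx v x 1)

theorem mx_three (v : Fin 3 → E) (x : E) :
    mx v x = max ⟪x, v 0⟫ (max ⟪x, v 1⟫ ⟪x, v 2⟫) := by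
  apply le_antisymm
  · apply mx_le (by norm_num)
    intro i
    fin_cases i
    · exact le_max_left _ _
    · exact (le_max_left _ _).trans (le_max_right _ _)
    · exact (le_max_right _ _).trans (le_max_right _ _)
  · exact max_le (inner_le_mx v x 0) (max_le (inner_le_mx v x 1) (inner_le_mx v x 2))

/-- `max(a,b) = (a+b+|a-b|)/2`. -/
theorem VB_two : VB 2 := by
  intro n v
  have h1 : F v = ‖v 0 - v 1‖ / √(2 * Real.pi) := by
    unfold F
    have : ∀ x : V n, mx v x = ⟪x, v 1⟫ + max ⟪x, v 0 - v 1⟫ 0 := by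
      intro x
      rw [mx_two, inner_sub_right]
      rcases le_total ⟪x, v 0⟫ ⟪x, v 1⟫ with h | h
      · rw [max_eq_right h, max_eq_right (by linarith)]; ring
      · rw [max_eq_left h, max_eq_left (by linarith)]; ring
    simp_rw [this]
    rw [integral_add (integrable_inner_sg _) (integrable_inner_sg _).pos_part,
      integral_inner_zero, integral_posPart_inner, zero_add]
  rw [h1, Fin.sum_univ_two]
  unfold kap
  have hpi : 0 < √(2 * Real.pi) := Real.sqrt_pos.2 (by positivity)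
  have h2 : ‖v 0 - v 1‖ ^ 2 ≤ 2 * (‖v 0‖ ^ 2 + ‖v 1‖ ^ 2) := by
    have h := parallelogram_law_with_norm ℝ (v 0) (v 1)
    nlinarith [sq_nonneg ‖v 0 + v 1‖]
  set S := √(‖v 0‖ ^ 2 + ‖v 1‖ ^ 2) with hS
  have hS2 : S ^ 2 = ‖v 0‖ ^ 2 + ‖v 1‖ ^ 2 := Real.sq_sqrt (by positivity)
  have hS0 : 0 ≤ S := Real.sqrt_nonneg _
  have h3 : ‖v 0 - v 1‖ ≤ 3 / 2 * S := by
    apply le_of_sq_le_sq _ (by positivity)
    nlinarith
  calc ‖v 0 - v 1‖ / √(2 * Real.pi) ≤ (3 / 2 * S) / √(2 * Real.pi) :=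
        div_le_div_of_nonneg_right h3 hpi.le
    _ = 3 / (2 * √(2 * Real.pi)) * S := by field_simp

theorem F_neg {n k : ℕ} (v : Fin k → V n) : F (fun i => -v i) = F v := by
  apply F_eq_of_gram
  intro i j
  rw [inner_neg_neg]

/-- `|a-b|+|b-c|+|c-a| = 2 (max - min)`, `E min = - E max` by the symmetry `x ↦ -x`,
so `F v = (ℓ₀₁+ℓ₁₂+ℓ₀₂) / (2√(2π))`; then `(∑ ℓ)² ≤ 3 ∑ ℓ² ≤ 9 ∑ ‖v i‖²`. -/
theorem VB_three : VB 3 := by
  intro n v
  have hpi : 0 < √(2 * Real.pi) := Real.sqrt_pos.2 (by positivity)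
  have h1 : 2 * F v = (‖v 0 - v 1‖ + ‖v 1 - v 2‖ + ‖v 2 - v 0‖) / √(2 * Real.pi) := by
    have e0 : 2 * F v = F v + F (fun i => -v i) := by rw [F_neg]; ring
    rw [e0]
    unfold F
    rw [← integral_add (integrable_mx _) (integrable_mx _)]
    have e1 : ∀ x : V n, mx v x + mx (fun i => -v i) x =
        (1 / 2) * (|⟪x, v 0 - v 1⟫| + |⟪x, v 1 - v 2⟫| + |⟪x, v 2 - v 0⟫|) := by
      intro x
      rw [mx_three, mx_three]
      simp only [inner_neg_right, inner_sub_right]
      generalize ⟪x, v 0⟫ = a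
      generalize ⟪x, v 1⟫ = b
      generalize ⟪x, v 2⟫ = c
      rcases le_total a b with h1 | h1 <;> rcases le_total b c with h2 | h2 <;>
        rcases le_total a c with h3 | h3 <;>
        simp only [abs_of_nonneg, abs_of_nonpos, max_eq_left, max_eq_right, sub_nonneg,
          sub_nonpos, neg_le_neg_iff, h1, h2, h3] <;> linarith
    simp_rw [e1]
    rw [integral_const_mul, integral_add, integral_add, integral_abs_inner, integral_abs_inner,
      integral_abs_inner]
    · ring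
    · exact (integrable_inner_sg _).abs
    · exact (integrable_inner_sg _).abs
    · exact (integrable_inner_sg _).abs.add (integrable_inner_sg _).abs
    · exact (integrable_inner_sg _).abs
  rw [Fin.sum_univ_three]
  set a := ‖v 0 - v 1‖ with ha
  set b := ‖v 1 - v 2‖ with hb
  set c := ‖v 2 - v 0‖ with hc
  set S := √(‖v 0‖ ^ 2 + ‖v 1‖ ^ 2 + ‖v 2‖ ^ 2) with hS
  have hS2 : S ^ 2 = ‖v 0‖ ^ 2 + ‖v 1‖ ^ 2 + ‖v 2‖ ^ 2 := Real.sq_sqrt (by positivity)
  have hS0 : 0 ≤ S := Real.sqrt_nonneg _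
  have h2 : a ^ 2 + b ^ 2 + c ^ 2 ≤ 3 * S ^ 2 := by
    rw [hS2, ha, hb, hc, @norm_sub_sq_real, @norm_sub_sq_real, @norm_sub_sq_real]
    have h5 : 0 ≤ ‖v 0 + v 1 + v 2‖ ^ 2 := sq_nonneg _
    rw [@norm_add_sq_real, @norm_add_sq_real, inner_add_left] at h5
    have h6 : ⟪v 2, v 0⟫ = ⟪v 0, v 2⟫ := real_inner_comm _ _
    rw [h6]
    linarith
  have h3 : a + b + c ≤ 3 * S := by
    apply le_of_sq_le_sq _ (by positivity)
    nlinarith [sq_nonneg (a - b), sq_nonneg (b - c), sq_nonneg (c - a)]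
  have h4 : F v = (a + b + c) / (2 * √(2 * Real.pi)) := by
    have : F v = (2 * F v) / 2 := by ring
    rw [this, h1]
    field_simp
  rw [h4]
  unfold kap
  calc (a + b + c) / (2 * √(2 * Real.pi)) ≤ (3 * S) / (2 * √(2 * Real.pi)) :=
        div_le_div_of_nonneg_right h3 (by positivity)
    _ = 3 / (2 * √(2 * Real.pi)) * S := by field_simp

end Crest.Agent.S0334
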