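import Crest.Agent.S0334_C1

set_option autoImplicit false

open MeasureTheory ProbabilityTheory
open scoped RealInnerProductSpace

namespace Crest.Agent.S0334

variable {E : Type*} [NormedAddCommGroup E] [InnerProductSpace ℝ E]
  [FiniteDimensional ℝ E] [MeasurableSpace E] [BorelSpace E]

/-! ### C2: properties of the maximizer -/

/-- equality case of Cauchy-Schwarz: with `z i = ∫_{A i} x`, `λ = F v = ∑⟪z i, v i⟫ ≤ ‖z‖`, and
`‖z‖² ≤ F z ≤ λ ‖z‖`, so `‖z‖ = λ`, `z = λ v`. -/
theorem setIntegral_eq_of_maximizer {k : ℕ} (hk : 0 < k) (lam : ℝ) (v : Fin k → V k)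
    (A : Fin k → Set (V k)) (hlam : 0 < lam) (h1 : ∑ i, ‖v i‖ ^ 2 = 1) (hF : F v = lam)
    (hmax : ∀ w : Fin k → V k, F w ≤ lam * √(∑ i, ‖w i‖ ^ 2))
    (meas : ∀ i, MeasurableSet (A i)) (disj : Pairwise fun i j => Disjoint (A i) (A j))
    (cover : ⋃ i, A i = Set.univ) (cell : ∀ i, ∀ x ∈ A i, ∀ j, ⟪x, v j⟫ ≤ ⟪x, v i⟫) :
    ∀ i, ∫ x in A i, x ∂stdGaussian (V k) = lam • v i := by
  set z : Fin k → V k := fun i => ∫ x in A i, x ∂stdGaussian (V k) with hz
  have e1 : ∑ i, ⟪z i, v i⟫ = lam := by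
    rw [← hF]
    exact sum_inner_setIntegral_eq_F v A meas disj cover cell
  have e2 : ∑ i, ⟪z i, z i⟫ ≤ F z := sum_inner_setIntegral_le_F z A meas disj cover
  set N : ℝ := √(∑ i, ‖z i‖ ^ 2) with hN
  have hN0 : 0 ≤ N := Real.sqrt_nonneg _
  have hNsq : N ^ 2 = ∑ i, ‖z i‖ ^ 2 :=
    Real.sq_sqrt (Finset.sum_nonneg fun i _ => sq_nonneg _)
  have e3 : N ^ 2 ≤ lam * N := by
    rw [hNsq]
    calc ∑ i, ‖z i‖ ^ 2 = ∑ i, ⟪z i, z i⟫ := by
          refine Finset.sum_congr rfl fun i _ => (real_inner_self_eq_norm_sq _).symm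
      _ ≤ F z := e2
      _ ≤ lam * N := hmax z
  have e4 : N ≤ lam := by
    by_contra h
    push Not at h
    nlinarith
  have e5 : ∑ i, ‖z i - lam • v i‖ ^ 2 ≤ 0 := by
    have : ∑ i, ‖z i - lam • v i‖ ^ 2 =
        ∑ i, ‖z i‖ ^ 2 - 2 * lam * ∑ i, ⟪z i, v i⟫ + lam ^ 2 * ∑ i, ‖v i‖ ^ 2 := by
      rw [Finset.mul_sum, Finset.mul_sum, ← Finset.sum_sub_distrib, ← Finset.sum_add_distrib]
      refine Finset.sum_congr rfl fun i _ => ?_
      rw [@norm_sub_sq_real, inner_smul_right, norm_smul, mul_pow, Real.norm_eq_abs, sq_abs]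
      ring
    rw [this, e1, h1, ← hNsq]
    nlinarith
  intro i
  have e6 : ‖z i - lam • v i‖ ^ 2 ≤ 0 :=
    le_trans (Finset.single_le_sum (f := fun i => ‖z i - lam • v i‖ ^ 2)
      (fun i _ => sq_nonneg _) (Finset.mem_univ i)) e5
  have e7 : ‖z i - lam • v i‖ = 0 := by
    have := sq_nonneg ‖z i - lam • v i‖
    exact pow_eq_zero_iff (two_ne_zero) |>.1 (le_antisymm e6 this)
  exact sub_eq_zero.1 (norm_eq_zero.1 e7)

/-- merging two cells: a partition into `k-1` cells has `∑ ‖z‖² ≤ κ²` by `VB (k-1)`. -/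
theorem inner_neg_of_merge {k : ℕ} (hk : 2 ≤ k) (hVB : VB (k - 1)) (lam : ℝ) (v : Fin k → V k)
    (A : Fin k → Set (V k)) (hlam : kap < lam) (h1 : ∑ i, ‖v i‖ ^ 2 = 1)
    (meas : ∀ i, MeasurableSet (A i)) (disj : Pairwise fun i j => Disjoint (A i) (A j))
    (cover : ⋃ i, A i = Set.univ)
    (hz : ∀ i, ∫ x in A i, x ∂stdGaussian (V k) = lam • v i) (i j : Fin k) (hij : i ≠ j) :
    ⟪v i, v j⟫ < 0 := by
  obtain ⟨m, rfl⟩ : ∃ m, k = m + 1 := ⟨k - 1, by omega⟩
  rw [Nat.add_sub_cancel] at hVB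
  obtain ⟨i', hi'⟩ := Fin.exists_succAbove_eq hij
  have hkap : 0 < kap := by unfold kap; positivity
  have hlam0 : 0 < lam := hkap.trans hlam
  by_contra hneg
  push Not at hneg
  set B : Fin m → Set (V (m + 1)) := fun l => A (j.succAbove l) ∪ (if l = i' then A j else ∅)
    with hB
  have hBm : ∀ l, MeasurableSet (B l) := by
    intro l
    simp only [hB]
    split_ifs
    · exact (meas _).union (meas _)
    · exact (meas _).union MeasurableSet.empty
  have hdj : ∀ l, Disjoint (A (j.succAbove l)) (if l = i' then A j else ∅) := by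
    intro l
    split_ifs
    · exact disj (Fin.succAbove_ne _ _)
    · exact Set.disjoint_empty _
  have hBd : Pairwise fun l l' => Disjoint (B l) (B l') := by
    intro l l' hll'
    have hne : j.succAbove l ≠ j.succAbove l' := fun h => hll' (Fin.succAbove_right_injective h)
    simp only [hB]
    rw [Set.disjoint_union_left, Set.disjoint_union_right, Set.disjoint_union_right]
    refine ⟨⟨disj hne, ?_⟩, ?_, ?_⟩
    · split_ifs
      · exact disj (Fin.succAbove_ne _ _)
      · exact Set.disjoint_empty _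
    · split_ifs
      · exact (disj (Fin.succAbove_ne _ _)).symm
      · exact Set.empty_disjoint _
    · split_ifs with h1 h2
      · exact absurd (h1.trans h2.symm) hll'
      · exact Set.disjoint_empty _
      · exact Set.empty_disjoint _
      · exact Set.empty_disjoint _
  have hBc : ⋃ l, B l = Set.univ := by
    rw [Set.eq_univ_iff_forall]
    intro x
    have : x ∈ ⋃ i, A i := by rw [cover]; trivial
    obtain ⟨a, ha⟩ := Set.mem_iUnion.1 this
    by_cases haj : a = j
    · refine Set.mem_iUnion.2 ⟨i', ?_⟩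
      simp only [hB, if_true]
      exact Or.inr (haj ▸ ha)
    · obtain ⟨l, hl⟩ := Fin.exists_succAbove_eq haj
      refine Set.mem_iUnion.2 ⟨l, ?_⟩
      simp only [hB]
      left
      rw [hl]
      exact ha
  have hi : ∀ s : Set (V (m + 1)), IntegrableOn (fun x : V (m + 1) => x) s
      (stdGaussian (V (m + 1))) := fun s => integrable_id_sg.integrableOn
  have hBi : ∀ l, ∫ x in B l, x ∂stdGaussian (V (m + 1)) =
      lam • v (j.succAbove l) + (if l = i' then lam • v j else 0) := by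
    intro l
    simp only [hB]
    have hms : MeasurableSet (if l = i' then A j else ∅) := by
      split_ifs
      · exact meas _
      · exact MeasurableSet.empty
    rw [setIntegral_union (hdj l) hms (hi _) (hi _), hz]
    congr 1
    split_ifs
    · exact hz j
    · simp
  have hmain := sum_sq_le_of_VB (by
    rcases Nat.eq_zero_or_pos m with h0 | h0
    · omega
    · exact h0) hVB B hBm hBd hBc
  have hcalc : ∑ l, ‖∫ x in B l, x ∂stdGaussian (V (m + 1))‖ ^ 2 =
      lam ^ 2 * (1 + 2 * ⟪v i, v j⟫) := by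
    have e1 : ∀ l : Fin m, ‖∫ x in B l, x ∂stdGaussian (V (m + 1))‖ ^ 2 =
        lam ^ 2 * ‖v (j.succAbove l)‖ ^ 2 +
          (if l = i' then lam ^ 2 * (2 * ⟪v i, v j⟫ + ‖v j‖ ^ 2) else 0) := by
      intro l
      rw [hBi]
      by_cases hl : l = i'
      · subst hl
        rw [if_pos rfl, if_pos rfl, hi', @norm_add_sq_real, inner_smul_left, inner_smul_right,
          norm_smul, norm_smul, mul_pow, mul_pow, Real.norm_eq_abs, sq_abs]
        simp only [conj_trivial]
        ring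
      · rw [if_neg hl, if_neg hl, add_zero, add_zero, norm_smul, mul_pow, Real.norm_eq_abs, sq_abs]
    rw [Finset.sum_congr rfl fun l _ => e1 l, Finset.sum_add_distrib, Finset.sum_ite_eq',
      if_pos (Finset.mem_univ _), ← Finset.mul_sum]
    rw [Fin.sum_univ_succAbove _ j] at h1
    have h2 : ∑ l : Fin m, ‖v (j.succAbove l)‖ ^ 2 = 1 - ‖v j‖ ^ 2 := by linarith
    rw [h2]
    ring
  rw [hcalc] at hmain
  have h5 : kap ^ 2 < lam ^ 2 := by
    apply pow_lt_pow_left₀ hlam hkap.le two_ne_zero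
  nlinarith [mul_nonneg (sq_nonneg lam) hneg]

theorem exists_opt {k : ℕ} (hk : 2 ≤ k) (hVB : VB (k - 1)) (hn : ¬ VB k) :
    ∃ (lam : ℝ) (v : Fin k → V k) (A : Fin k → Set (V k)), Opt k lam v A := by
  obtain ⟨lam, v0, hlam, hv0, hF0, hmax⟩ := exists_maximizer (by omega) hn
  have hkap : 0 < kap := by unfold kap; positivity
  have hlam0 : 0 < lam := hkap.trans hlam
  set s : Equiv.Perm (Fin k) := Tuple.sort (fun i => -‖v0 i‖) with hs
  set v : Fin k → V k := fun i => v0 (s i) with hv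
  have hv1 : ∑ i, ‖v i‖ ^ 2 = 1 := by
    rw [← hv0]
    exact Equiv.sum_comp s (fun i => ‖v0 i‖ ^ 2)
  have hF : F v = lam := by
    rw [← hF0]
    exact F_comp_perm s v0
  obtain ⟨A, hA1, hA2, hA3, hA4⟩ := exists_cells (by omega) v
  have hz := setIntegral_eq_of_maximizer (by omega) lam v A hlam0 hv1 hF hmax hA1 hA2 hA3 hA4
  refine ⟨lam, v, A, ⟨hlam, hA1, hA2, hA3, hA4, hz, hv1, ?_, ?_, ?_⟩⟩
  · have e1 : ∑ i, ∫ x in A i, x ∂stdGaussian (V k) = 0 := by
      rw [← integral_iUnion_fintype hA1 (fun i j hij => hA2 hij)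
        (fun i => integrable_id_sg.integrableOn), hA3, Measure.restrict_univ]
      exact integral_id_stdGaussian
    rw [Finset.sum_congr rfl fun i _ => hz i, ← Finset.smul_sum] at e1
    exact (smul_eq_zero.1 e1).resolve_left hlam0.ne'
  · intro i j hij
    exact inner_neg_of_merge hk hVB lam v A hlam hv1 hA1 hA2 hA3 hz i j hij
  · have := Tuple.monotone_sort (fun i => -‖v0 i‖)
    intro a b hab
    have := this hab
    simp only [Function.comp] at this
    simp only [hv, hs]
    linarith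

end Crest.Agent.S0334
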