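import Crest.Agent.S0334_G1

set_option autoImplicit false

open MeasureTheory ProbabilityTheory
open scoped RealInnerProductSpace

namespace Crest.Agent.S0334

theorem Opt.G2_inner_sum {k : ℕ} {lam : ℝ} {v : Fin k → V k}
    {A : Fin k → Set (V k)} (o : Opt k lam v A) (a b c d m : Fin k) (hab : a < b) (hbc : b < c)
    (hcd : c < d) (hdm : d < m) :
    -⟪v m, v a⟫ + -⟪v m, v b⟫ + -⟪v m, v c⟫ + -⟪v m, v d⟫ ≤ ‖v m‖ ^ 2 := by
  classical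
  have h0 : ∑ j, ⟪v m, v j⟫ = 0 := by
    rw [← inner_sum, o.sum, inner_zero_right]
  have h1 : ∑ j ∈ Finset.univ.erase m, -⟪v m, v j⟫ = ‖v m‖ ^ 2 := by
    rw [Finset.sum_neg_distrib, ← real_inner_self_eq_norm_sq]
    rw [← Finset.add_sum_erase _ _ (Finset.mem_univ m)] at h0
    linarith
  have hsub : ({a, b, c, d} : Finset (Fin k)) ⊆ Finset.univ.erase m := by
    intro x hx
    simp only [Finset.mem_insert, Finset.mem_singleton] at hx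
    simp only [Finset.mem_erase, Finset.mem_univ, and_true]
    rcases hx with rfl | rfl | rfl | rfl
    · exact (hab.trans (hbc.trans (hcd.trans hdm))).ne
    · exact (hbc.trans (hcd.trans hdm)).ne
    · exact (hcd.trans hdm).ne
    · exact hdm.ne
  have h2 : ∑ j ∈ ({a, b, c, d} : Finset (Fin k)), -⟪v m, v j⟫ ≤ ‖v m‖ ^ 2 := by
    rw [← h1]
    refine Finset.sum_le_sum_of_subset_of_nonneg hsub fun j hj _ => ?_
    have := o.neg m j (Finset.ne_of_mem_erase hj).symm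
    linarith
  rw [Finset.sum_insert, Finset.sum_insert, Finset.sum_insert, Finset.sum_singleton] at h2
  · linarith
  · simp [hcd.ne]
  · simp [hbc.ne, (hbc.trans hcd).ne]
  · simp [hab.ne, (hab.trans hbc).ne, (hab.trans (hbc.trans hcd)).ne]

theorem Opt.G2_mono {k : ℕ} {lam : ℝ} {v : Fin k → V k}
    {A : Fin k → Set (V k)} (o : Opt k lam v A) {i j : Fin k} (hij : i < j) :
    ‖v j‖ ^ 2 ≤ ‖v i‖ ^ 2 :=
  pow_le_pow_left₀ (norm_nonneg _) (o.anti hij.le) 2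

/-- pigeonhole: among the four triples contained in `{a,b,c,d}` one has
`∑_{T} -⟪v m, v j⟫ ≤ (3/4) ‖v m‖²`; use the first bound of `Opt.hQ` for it and monotonicity of
`y_c (2 (y_a + y_b) - y_c)` in the (decreasing) arguments. -/
theorem Opt.hQ_pigeon {k : ℕ} (hk : 5 ≤ k) (hVB : VB (k - 1)) {lam : ℝ} {v : Fin k → V k}
    {A : Fin k → Set (V k)} (o : Opt k lam v A) (a b c d m : Fin k) (hab : a < b) (hbc : b < c)
    (hcd : c < d) (hdm : d < m)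
    (C : ℝ) (hC : (81 / (4 * Real.pi)) ^ 2 *
      (((k : ℝ) - 2) / (2 * ((k : ℝ) - 1)) + 1 / 4) ^ 4 ≤ C) :
    ‖v d‖ ^ 2 * (2 * (‖v b‖ ^ 2 + ‖v c‖ ^ 2) - ‖v d‖ ^ 2) ≤
      (C + (9 / 16) * (‖v a‖ ^ 2 + 3 * ‖v b‖ ^ 2)) * ‖v m‖ ^ 2 := by
  have hsum := o.G2_inner_sum a b c d m hab hbc hcd hdm
  have hya := o.G2_mono hab
  have hyb := o.G2_mono hbc
  have hyc := o.G2_mono hcd
  have hyd : 0 ≤ ‖v d‖ ^ 2 := sq_nonneg _
  have hym : 0 ≤ ‖v m‖ ^ 2 := sq_nonneg _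
  have hC' : (81 / (4 * Real.pi)) ^ 2 *
      (((k : ℝ) - 2) / (2 * ((k : ℝ) - 1)) + (3 / 4 : ℝ) / 3) ^ 4 ≤ C := by
    have : (3 / 4 : ℝ) / 3 = 1 / 4 := by norm_num
    rw [this]; exact hC
  have key : ∀ p q r : Fin k, p < q → q < r → r < m →
      -(⟪v m, v p⟫ + ⟪v m, v q⟫ + ⟪v m, v r⟫) ≤ (3 / 4) * ‖v m‖ ^ 2 →
      ‖v r‖ ^ 2 * (2 * (‖v p‖ ^ 2 + ‖v q‖ ^ 2) - ‖v r‖ ^ 2) ≤
      (C + (3 / 4) ^ 2 * (‖v p‖ ^ 2 + 3 * ‖v q‖ ^ 2)) * ‖v m‖ ^ 2 := fun p q r hpq hqr hrm hs =>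
    (o.hQ (by omega) hVB p q r m hpq hqr hrm (3 / 4) (by norm_num) (by norm_num) hs C hC').1
  have hor : (-(⟪v m, v a⟫ + ⟪v m, v b⟫ + ⟪v m, v c⟫) ≤ (3 / 4) * ‖v m‖ ^ 2) ∨
      (-(⟪v m, v a⟫ + ⟪v m, v b⟫ + ⟪v m, v d⟫) ≤ (3 / 4) * ‖v m‖ ^ 2) ∨
      (-(⟪v m, v a⟫ + ⟪v m, v c⟫ + ⟪v m, v d⟫) ≤ (3 / 4) * ‖v m‖ ^ 2) ∨
      (-(⟪v m, v b⟫ + ⟪v m, v c⟫ + ⟪v m, v d⟫) ≤ (3 / 4) * ‖v m‖ ^ 2) := by
    by_contra hcon
    push Not at hcon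
    obtain ⟨h1, h2, h3, h4⟩ := hcon
    linarith
  set ya := ‖v a‖ ^ 2
  set yb := ‖v b‖ ^ 2
  set yc := ‖v c‖ ^ 2
  set yd := ‖v d‖ ^ 2
  set ym := ‖v m‖ ^ 2
  rcases hor with h | h | h | h
  · have h1 := key a b c hab hbc (hcd.trans hdm) h
    have h2 : yd * (2 * (yb + yc) - yd) ≤ yc * (2 * (ya + yb) - yc) := by
      nlinarith [mul_nonneg hyd (sub_nonneg.2 hya), mul_nonneg (sub_nonneg.2 hyc) hyd,
        mul_nonneg (sub_nonneg.2 hyc) (sub_nonneg.2 hyb),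
        mul_nonneg (sub_nonneg.2 hyc) (sub_nonneg.2 hya),
        mul_nonneg hyd (sub_nonneg.2 hyb), mul_nonneg (sub_nonneg.2 hyc) (sub_nonneg.2 hyc)]
    nlinarith
  · have h1 := key a b d hab (hbc.trans hcd) hdm h
    have h2 : yd * (2 * (yb + yc) - yd) ≤ yd * (2 * (ya + yb) - yd) := by
      apply mul_le_mul_of_nonneg_left _ hyd
      linarith
    nlinarith
  · have h1 := key a c d (hab.trans hbc) hcd hdm h
    have h2 : yd * (2 * (yb + yc) - yd) ≤ yd * (2 * (ya + yc) - yd) := by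
      apply mul_le_mul_of_nonneg_left _ hyd
      linarith
    nlinarith [mul_nonneg hym (sub_nonneg.2 hyb)]
  · have h1 := key b c d hbc hcd hdm h
    nlinarith [mul_nonneg hym (sub_nonneg.2 hyb), mul_nonneg hym (sub_nonneg.2 hya)]

end Crest.Agent.S0334
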