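import Mathlib

set_option autoImplicit false

open MeasureTheory ProbabilityTheory
open scoped RealInnerProductSpace

namespace Crest.Agent.S0334

theorem G3_pi : (81 / (4 * Real.pi)) ^ 2 ≤ 41.5505 := by
  have h := Real.pi_gt_d4
  have h0 : 0 < Real.pi := Real.pi_pos
  have h1 : 81 / (4 * Real.pi) ≤ 81 / (4 * 3.1415) := by
    apply div_le_div_of_nonneg_left (by norm_num) (by norm_num)
    linarith
  calc (81 / (4 * Real.pi)) ^ 2 ≤ (81 / (4 * 3.1415)) ^ 2 :=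
        pow_le_pow_left₀ (by positivity) h1 2
    _ ≤ 41.5505 := by norm_num

theorem G3_mul {x y : ℝ} (hx : 0 ≤ x) (h : 41.5505 * x ≤ y) :
    (81 / (4 * Real.pi)) ^ 2 * x ≤ y :=
  (mul_le_mul_of_nonneg_right G3_pi hx).trans h

/-- numerical constants -/
theorem const_bounds :
    (81 / (4 * Real.pi)) ^ 2 * (((4 : ℝ) - 2) / (2 * ((4 : ℝ) - 1)) + 1 / 3) ^ 4 ≤ 8.208 ∧
    (81 / (4 * Real.pi)) ^ 2 * (((5 : ℝ) - 2) / (2 * ((5 : ℝ) - 1)) + 1 / 3) ^ 4 ≤ 10.461 ∧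
    (81 / (4 * Real.pi)) ^ 2 * (((6 : ℝ) - 2) / (2 * ((6 : ℝ) - 1)) + 1 / 3) ^ 4 ≤ 12.02 ∧
    (81 / (4 * Real.pi)) ^ 2 * (((7 : ℝ) - 2) / (2 * ((7 : ℝ) - 1)) + 1 / 3) ^ 4 ≤ 13.15 ∧
    (81 / (4 * Real.pi)) ^ 2 * (((5 : ℝ) - 2) / (2 * ((5 : ℝ) - 1)) + 1 / 4) ^ 4 ≤ 6.341 ∧
    (81 / (4 * Real.pi)) ^ 2 * (((6 : ℝ) - 2) / (2 * ((6 : ℝ) - 1)) + 1 / 4) ^ 4 ≤ 7.42 ∧
    (81 / (4 * Real.pi)) ^ 2 * (((7 : ℝ) - 2) / (2 * ((7 : ℝ) - 1)) + 1 / 4) ^ 4 ≤ 8.21 ∧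
    (∀ k : ℝ, 8 ≤ k →
      (81 / (4 * Real.pi)) ^ 2 * ((k - 2) / (2 * (k - 1)) + 1 / 3) ^ 4 ≤ 20.05 ∧
      (81 / (4 * Real.pi)) ^ 2 * ((k - 2) / (2 * (k - 1)) + 1 / 4) ^ 4 ≤ 13.15) := by
  refine ⟨?_, ?_, ?_, ?_, ?_, ?_, ?_, ?_⟩
  · exact G3_mul (by norm_num) (by norm_num)
  · exact G3_mul (by norm_num) (by norm_num)
  · exact G3_mul (by norm_num) (by norm_num)
  · exact G3_mul (by norm_num) (by norm_num)
  · exact G3_mul (by norm_num) (by norm_num)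
  · exact G3_mul (by norm_num) (by norm_num)
  · exact G3_mul (by norm_num) (by norm_num)
  · intro k hk
    have h1 : (k - 2) / (2 * (k - 1)) ≤ 1 / 2 := by
      rw [div_le_iff₀ (by linarith)]
      linarith
    have h0 : 0 ≤ (k - 2) / (2 * (k - 1)) := div_nonneg (by linarith) (by linarith)
    constructor
    · refine G3_mul (by positivity) ?_
      calc (41.5505 : ℝ) * ((k - 2) / (2 * (k - 1)) + 1 / 3) ^ 4
          ≤ 41.5505 * (1 / 2 + 1 / 3) ^ 4 := by gcongr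
        _ ≤ 20.05 := by norm_num
    · refine G3_mul (by positivity) ?_
      calc (41.5505 : ℝ) * ((k - 2) / (2 * (k - 1)) + 1 / 4) ^ 4
          ≤ 41.5505 * (1 / 2 + 1 / 4) ^ 4 := by gcongr
        _ ≤ 13.15 := by norm_num

end Crest.Agent.S0334
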