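import Crest.Agent.S0334_N4
import Crest.Agent.S0334_G2
import Crest.Agent.S0334_G3
import Crest.Agent.S0334_C2
import Crest.Agent.S0334_B

set_option autoImplicit false

open MeasureTheory ProbabilityTheory
open scoped RealInnerProductSpace

namespace Crest.Agent.S0334

/-! ### H4: the case `k = 4` -/

theorem sq_le_four_ninths {r : ℝ} (hr : 0 < r) (h : (3 / 2) * r < 1) : r ^ 2 ≤ 4 / 9 := by
  nlinarith

theorem subspace_ne_bot {k : ℕ} (S : Submodule ℝ (V k)) {d : ℕ} (hS : Module.finrank ℝ S = d)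
    (hd : d ≠ 0) : S ≠ ⊥ := by
  rintro rfl
  rw [finrank_bot] at hS
  exact hd hS.symm

theorem Opt.sq_anti {k : ℕ} {lam : ℝ} {v : Fin k → V k} {A : Fin k → Set (V k)}
    (o : Opt k lam v A) {i j : Fin k} (hij : i ≤ j) : ‖v j‖ ^ 2 ≤ ‖v i‖ ^ 2 :=
  pow_le_pow_left₀ (norm_nonneg _) (o.anti hij) 2

theorem VB_four : VB 4 := by
  by_contra hn
  obtain ⟨lam, v, A, o⟩ := exists_opt (k := 4) (by norm_num) VB_three hn
  obtain ⟨S, hS, hmem⟩ := exists_subspace_of_sum_eq_zero (k := 4) (by norm_num) v o.sum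
  have hS' : Module.finrank ℝ S = 3 := hS
  have hcap : ∀ i, Cap3 ‖v i‖ (share S (A i)) := fun i c h0 h1 =>
    o.cap3 (by norm_num) S hS' i (hmem i) c h0 h1
  have hpos : ∀ i, 0 < ‖v i‖ := o.norm_pos (by norm_num)
  have hsh := o.sum_share S (subspace_ne_bot S hS' (by norm_num))
  have hns := o.normSq
  rw [Fin.sum_univ_four] at hsh hns
  have hq := (o.hQ (k := 4) le_rfl VB_three 0 1 2 3 (by decide) (by decide) (by decide) 1
    zero_le_one le_rfl (o.hs_one 0 1 2 3 (by decide) (by decide) (by decide)) 8.208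
    (by have := const_bounds.1; push_cast; exact this)).2.2.2
  have h0 := hcap 0 0 le_rfl zero_le_one
  refine N4.false (y0 := ‖v 0‖ ^ 2) (y1 := ‖v 1‖ ^ 2) (y2 := ‖v 2‖ ^ 2) (y3 := ‖v 3‖ ^ 2)
    (m0 := share S (A 0)) (m1 := share S (A 1)) (m2 := share S (A 2)) (m3 := share S (A 3))
    { o0 := o.sq_anti (by decide)
      o1 := o.sq_anti (by decide)
      o2 := o.sq_anti (by decide)
      pos := by have := hpos 3; positivity
      top := sq_le_four_ninths (hpos 0) (by linarith)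
      sum := hns
      msum := hsh
      q4 := by
        refine hq.trans (le_of_eq ?_)
        norm_num
      c0 := L3.of_cap (hpos 0) (hcap 0)
      c1 := L3.of_cap (hpos 1) (hcap 1)
      c2 := L3.of_cap (hpos 2) (hcap 2)
      c3 := L3.of_cap (hpos 3) (hcap 3) }

end Crest.Agent.S0334
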