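import Crest.Agent.S0334_N7
import Crest.Agent.S0334_H6

set_option autoImplicit false

open MeasureTheory ProbabilityTheory
open scoped RealInnerProductSpace

namespace Crest.Agent.S0334

/-! ### H7: the case `k = 7` -/

theorem VB_seven : VB 7 := by
  by_contra hn
  obtain ⟨lam, v, A, o⟩ := exists_opt (k := 7) (by norm_num) VB_six hn
  obtain ⟨S, hS', hmem'⟩ := exists_subspace (k := 7) (d := 7) le_rfl v
  have hmem : ∀ i, v i ∈ S := fun i => hmem' i i.2
  have hcap : ∀ i, Cap7 ‖v i‖ (share S (A i)) := fun i c h0 h1 =>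
    o.cap7 (by norm_num) S hS' i (hmem i) c h0 h1
  have hpos : ∀ i, 0 < ‖v i‖ := o.norm_pos (by norm_num)
  have hsh := o.sum_share S (subspace_ne_bot S hS' (by norm_num))
  have hns := o.normSq
  rw [Fin.sum_univ_seven] at hsh hns
  have hq := o.hQ (k := 7) (by norm_num) VB_six 0 1 2 6 (by decide) (by decide) (by decide) 1
    zero_le_one le_rfl (o.hs_one 0 1 2 6 (by decide) (by decide) (by decide)) 13.15
    (by have := const_bounds.2.2.2.1; push_cast; exact this)
  have hb := o.hQ_pigeon (k := 7) (by norm_num) VB_six 0 1 2 3 6 (by decide) (by decide)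
    (by decide) (by decide) 8.21
    (by have := const_bounds.2.2.2.2.2.2.1; push_cast; exact this)
  obtain ⟨hq1, hq2, hq3, -⟩ := hq
  have h0 := hcap 0 0 le_rfl zero_le_one
  have e1 : (13.15 + 1 ^ 2 * (‖v 0‖ ^ 2 + 3 * ‖v 1‖ ^ 2)) * ‖v 6‖ ^ 2 =
      ((263/20) + (‖v 0‖ ^ 2 + 3 * ‖v 1‖ ^ 2)) * ‖v 6‖ ^ 2 := by norm_num
  rw [e1] at hq1 hq2 hq3
  refine N7.false (y0 := ‖v 0‖ ^ 2) (y1 := ‖v 1‖ ^ 2) (y2 := ‖v 2‖ ^ 2) (y3 := ‖v 3‖ ^ 2)
    (y4 := ‖v 4‖ ^ 2) (y5 := ‖v 5‖ ^ 2) (y6 := ‖v 6‖ ^ 2)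
    (m0 := share S (A 0)) (m1 := share S (A 1)) (m2 := share S (A 2)) (m3 := share S (A 3))
    (m4 := share S (A 4)) (m5 := share S (A 5)) (m6 := share S (A 6))
    { o0 := o.sq_anti (by decide)
      o1 := o.sq_anti (by decide)
      o2 := o.sq_anti (by decide)
      o3 := o.sq_anti (by decide)
      o4 := o.sq_anti (by decide)
      o5 := o.sq_anti (by decide)
      pos := by have := hpos 6; positivity
      top := sq_le_four_ninths (hpos 0) (by linarith)
      sum := hns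
      msum := hsh
      q1 := hq1
      q2 := hq2
      q3 := hq3
      qb := by
        refine hb.trans (le_of_eq ?_)
        norm_num
      c0 := L7.of_cap (hpos 0) (hcap 0)
      c1 := L7.of_cap (hpos 1) (hcap 1)
      c2 := L7.of_cap (hpos 2) (hcap 2)
      c3 := L7.of_cap (hpos 3) (hcap 3)
      c4 := L7.of_cap (hpos 4) (hcap 4)
      c5 := L7.of_cap (hpos 5) (hcap 5)
      c6 := L7.of_cap (hpos 6) (hcap 6) }

end Crest.Agent.S0334
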