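import Crest.Agent.S0334_N8
import Crest.Agent.S0334_FW
import Crest.Agent.S0334_H7

set_option autoImplicit false

open MeasureTheory ProbabilityTheory
open scoped RealInnerProductSpace

namespace Crest.Agent.S0334

/-! ### H8: the cases `k ≥ 8` -/

theorem VB_ge_eight {n : ℕ} (hn1 : 1 ≤ n) (hVB : VB (7 + n - 1)) : VB (7 + n) := by
  by_contra hn
  obtain ⟨lam, v, A, o⟩ := exists_opt (k := 7 + n) (by omega) hVB hn
  obtain ⟨S, hS', hmem'⟩ := exists_subspace (k := 7 + n) (d := 7) (by omega) v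
  have hmem : ∀ i : Fin 7, v (Fin.castAdd n i) ∈ S := fun i => hmem' _ i.2
  have hcap : ∀ i : Fin 7, Cap7 ‖v (Fin.castAdd n i)‖ (share S (A (Fin.castAdd n i))) :=
    fun i c h0 h1 => o.cap7 (by omega) S hS' _ (hmem i) c h0 h1
  have hvert : ∀ i, Vert7 ‖v i‖ (share S (A i)) :=
    fun i c h0 h1 => o.vert7 (by omega) S hS' i c h0 h1
  have hpos : ∀ i, 0 < ‖v i‖ := o.norm_pos (by omega)
  have hsh := o.sum_share S (subspace_ne_bot S hS' (by norm_num))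
  have hns := o.normSq
  rw [Fin.sum_univ_add, Fin.sum_univ_seven] at hsh hns
  -- the last index and the index 7
  let i7 : Fin n := ⟨0, by omega⟩
  let il : Fin n := ⟨n - 1, by omega⟩
  have hanti : ∀ i j : Fin (7 + n), (i : ℕ) ≤ j → ‖v j‖ ^ 2 ≤ ‖v i‖ ^ 2 :=
    fun i j hij => o.sq_anti (Fin.le_def.2 hij)
  have hlt : ∀ i j : Fin (7 + n), (i : ℕ) < j → i < j := fun i j hij => Fin.lt_def.2 hij
  have h8 : (8 : ℝ) ≤ ((7 + n : ℕ) : ℝ) := by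
    have : 8 ≤ 7 + n := by omega
    exact_mod_cast this
  have hcst := const_bounds.2.2.2.2.2.2.2 ((7 + n : ℕ) : ℝ) h8
  have l01 : Fin.castAdd n (0 : Fin 7) < Fin.castAdd n (1 : Fin 7) := hlt _ _ (by simp)
  have l12 : Fin.castAdd n (1 : Fin 7) < Fin.castAdd n (2 : Fin 7) := hlt _ _ (by simp)
  have l23 : Fin.castAdd n (2 : Fin 7) < Fin.castAdd n (3 : Fin 7) := hlt _ _ (by simp)
  have l2m : Fin.castAdd n (2 : Fin 7) < Fin.natAdd 7 il := hlt _ _ (by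
    simp only [Fin.val_castAdd, Fin.val_natAdd]
    have : ((2 : Fin 7) : ℕ) = 2 := rfl
    omega)
  have l3m : Fin.castAdd n (3 : Fin 7) < Fin.natAdd 7 il := hlt _ _ (by
    simp only [Fin.val_castAdd, Fin.val_natAdd]
    have : ((3 : Fin 7) : ℕ) = 3 := rfl
    omega)
  have hq := o.hQ (by omega) hVB _ _ _ _ l01 l12 l2m 1
    zero_le_one le_rfl (o.hs_one _ _ _ _ l01 l12 l2m) 20.05
    hcst.1
  have hb := o.hQ_pigeon (by omega) hVB _ _ _ _ _ l01 l12 l23 l3m 13.15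
    hcst.2
  obtain ⟨hq1, hq2, hq3, -⟩ := hq
  have h0 := hcap 0 0 le_rfl zero_le_one
  have e1 : (20.05 + 1 ^ 2 * (‖v (Fin.castAdd n (0 : Fin 7))‖ ^ 2 +
      3 * ‖v (Fin.castAdd n (1 : Fin 7))‖ ^ 2)) * ‖v (Fin.natAdd 7 il)‖ ^ 2 =
      ((401/20) + (‖v (Fin.castAdd n (0 : Fin 7))‖ ^ 2 +
      3 * ‖v (Fin.castAdd n (1 : Fin 7))‖ ^ 2)) * ‖v (Fin.natAdd 7 il)‖ ^ 2 := by norm_num
  rw [e1] at hq1 hq2 hq3
  have o6 : ‖v (Fin.natAdd 7 i7)‖ ^ 2 ≤ ‖v (Fin.castAdd n (6 : Fin 7))‖ ^ 2 := hanti _ _ (by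
    simp only [Fin.val_castAdd, Fin.val_natAdd]
    have : ((6 : Fin 7) : ℕ) = 6 := rfl
    omega)
  have o7 : ‖v (Fin.natAdd 7 il)‖ ^ 2 ≤ ‖v (Fin.natAdd 7 i7)‖ ^ 2 := hanti _ _ (by
    simp only [Fin.val_natAdd, i7, il]
    omega)
  have o8 : ‖v (Fin.natAdd 7 i7)‖ ^ 2 ≤ ∑ j : Fin n, ‖v (Fin.natAdd 7 j)‖ ^ 2 :=
    Finset.single_le_sum (f := fun j : Fin n => ‖v (Fin.natAdd 7 j)‖ ^ 2)
      (fun _ _ => by positivity) (Finset.mem_univ i7)
  have hle : ∀ j : Fin n, ‖v (Fin.natAdd 7 j)‖ ^ 2 ≤ ‖v (Fin.natAdd 7 i7)‖ ^ 2 :=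
    fun j => hanti _ _ (by simp only [Fin.val_natAdd, i7]; omega)
  have a0 : ‖v (Fin.castAdd n (1 : Fin 7))‖ ^ 2 ≤ ‖v (Fin.castAdd n (0 : Fin 7))‖ ^ 2 :=
    hanti _ _ (by simp)
  have a1 : ‖v (Fin.castAdd n (2 : Fin 7))‖ ^ 2 ≤ ‖v (Fin.castAdd n (1 : Fin 7))‖ ^ 2 :=
    hanti _ _ (by simp)
  have a2 : ‖v (Fin.castAdd n (3 : Fin 7))‖ ^ 2 ≤ ‖v (Fin.castAdd n (2 : Fin 7))‖ ^ 2 :=
    hanti _ _ (by simp)
  have a3 : ‖v (Fin.castAdd n (4 : Fin 7))‖ ^ 2 ≤ ‖v (Fin.castAdd n (3 : Fin 7))‖ ^ 2 :=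
    hanti _ _ (by simp)
  have a4 : ‖v (Fin.castAdd n (5 : Fin 7))‖ ^ 2 ≤ ‖v (Fin.castAdd n (4 : Fin 7))‖ ^ 2 :=
    hanti _ _ (by simp)
  have a5 : ‖v (Fin.castAdd n (6 : Fin 7))‖ ^ 2 ≤ ‖v (Fin.castAdd n (5 : Fin 7))‖ ^ 2 :=
    hanti _ _ (by simp)
  have top7 : ‖v (Fin.natAdd 7 i7)‖ ^ 2 ≤ 1 / 8 := by linarith
  have hV : ∀ (c₀ t β : ℝ), 0 ≤ β → 3 / 7 ≤ c₀ → c₀ < 1 →
      t ≤ (4 / 9) * (1 - c₀ ^ 2) ^ 5 → t ≤ 1 / 8 →
      (4 / 9) * β * ((1 - c₀) ^ 2 * (1 + c₀) ^ 5) ≤ (5 / 96) * (8 + 9 * c₀ + 3 * c₀ ^ 2) →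
      ‖v (Fin.natAdd 7 i7)‖ ^ 2 ≤ t →
      β * ∑ j : Fin n, ‖v (Fin.natAdd 7 j)‖ ^ 2 ≤ ∑ j : Fin n, share S (A (Fin.natAdd 7 j)) := by
    intro c₀ t β h1 h2 h3 h4 h5 h6 h7
    rw [Finset.mul_sum]
    refine Finset.sum_le_sum fun j _ => ?_
    exact (Vert7.gen h1 h2 h3 h4 h5 h6 (hpos _) (hvert _) ((hle j).trans h7)).le
  refine N8.false (y0 := ‖v (Fin.castAdd n (0 : Fin 7))‖ ^ 2)
    (y1 := ‖v (Fin.castAdd n (1 : Fin 7))‖ ^ 2) (y2 := ‖v (Fin.castAdd n (2 : Fin 7))‖ ^ 2)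
    (y3 := ‖v (Fin.castAdd n (3 : Fin 7))‖ ^ 2) (y4 := ‖v (Fin.castAdd n (4 : Fin 7))‖ ^ 2)
    (y5 := ‖v (Fin.castAdd n (5 : Fin 7))‖ ^ 2) (y6 := ‖v (Fin.castAdd n (6 : Fin 7))‖ ^ 2)
    (y7 := ‖v (Fin.natAdd 7 i7)‖ ^ 2) (G := ∑ j : Fin n, ‖v (Fin.natAdd 7 j)‖ ^ 2)
    (τ := ‖v (Fin.natAdd 7 il)‖ ^ 2)
    (m0 := share S (A (Fin.castAdd n (0 : Fin 7)))) (m1 := share S (A (Fin.castAdd n (1 : Fin 7))))
    (m2 := share S (A (Fin.castAdd n (2 : Fin 7)))) (m3 := share S (A (Fin.castAdd n (3 : Fin 7))))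
    (m4 := share S (A (Fin.castAdd n (4 : Fin 7)))) (m5 := share S (A (Fin.castAdd n (5 : Fin 7))))
    (m6 := share S (A (Fin.castAdd n (6 : Fin 7))))
    (MG := ∑ j : Fin n, share S (A (Fin.natAdd 7 j)))
    { o0 := a0
      o1 := a1
      o2 := a2
      o3 := a3
      o4 := a4
      o5 := a5
      o6 := o6
      o7 := o7
      o8 := o8
      pos := by have := hpos (Fin.natAdd 7 il); positivity
      top := sq_le_four_ninths (hpos _) (by linarith)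
      sum := hns
      top7 := top7
      msum := hsh
      p0 := share_nonneg _ _
      p1 := share_nonneg _ _
      p2 := share_nonneg _ _
      p3 := share_nonneg _ _
      p4 := share_nonneg _ _
      p5 := share_nonneg _ _
      p6 := share_nonneg _ _
      q1 := hq1
      q2 := hq2
      q3 := hq3
      qb := by
        refine hb.trans (le_of_eq ?_)
        norm_num
      c0 := L7.of_cap (hpos _) (hcap 0)
      c1 := L7.of_cap (hpos _) (hcap 1)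
      c2 := L7.of_cap (hpos _) (hcap 2)
      c3 := L7.of_cap (hpos _) (hcap 3)
      c4 := L7.of_cap (hpos _) (hcap 4)
      c5 := L7.of_cap (hpos _) (hcap 5)
      c6 := L7.of_cap (hpos _) (hcap 6)
      v1_100 := hV (18231/25000) _ _ (by norm_num) (by norm_num) (by norm_num) (by norm_num)
        (by norm_num) (by norm_num)
      v3_200 := hV (877/1250) _ _ (by norm_num) (by norm_num) (by norm_num) (by norm_num)
        (by norm_num) (by norm_num)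
      v1_50 := hV (67983/100000) _ _ (by norm_num) (by norm_num) (by norm_num) (by norm_num)
        (by norm_num) (by norm_num)
      v3_100 := hV (12911/20000) _ _ (by norm_num) (by norm_num) (by norm_num) (by norm_num)
        (by norm_num) (by norm_num)
      v1_8 := hV (5917/12500) _ _ (by norm_num) (by norm_num) (by norm_num) (by norm_num)
        (by norm_num) (by norm_num) }

theorem VB_all : ∀ k : ℕ, 1 ≤ k → VB k := by
  intro k
  induction k using Nat.strong_induction_on with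
  | _ k ih =>
    intro hk
    rcases Nat.lt_or_ge k 8 with h | h
    · interval_cases k
      · exact VB_one
      · exact VB_two
      · exact VB_three
      · exact VB_four
      · exact VB_five
      · exact VB_six
      · exact VB_seven
    · obtain ⟨n, rfl⟩ : ∃ n, k = 7 + n := ⟨k - 7, by omega⟩
      exact VB_ge_eight (by omega) (ih (7 + n - 1) (by omega) (by omega))

end Crest.Agent.S0334
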