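import Crest.Agent.S0334_Defs

set_option autoImplicit false

open MeasureTheory ProbabilityTheory
open scoped RealInnerProductSpace

namespace Crest.Agent.S0334

variable {E : Type*} [NormedAddCommGroup E] [InnerProductSpace ℝ E]
  [FiniteDimensional ℝ E] [MeasurableSpace E] [BorelSpace E]

/-! ### A1: elementary facts on `mx` and `F` -/

theorem inner_le_mx {k : ℕ} (v : Fin k → E) (x : E) (i : Fin k) : ⟪x, v i⟫ ≤ mx v x := by
  unfold mx
  exact le_ciSup (f := fun i => ⟪x, v i⟫) (Set.finite_range _).bddAbove i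

theorem exists_mx_eq {k : ℕ} (hk : 0 < k) (v : Fin k → E) (x : E) :
    ∃ i, mx v x = ⟪x, v i⟫ := by
  have : Nonempty (Fin k) := ⟨⟨0, hk⟩⟩
  obtain ⟨i, hi⟩ := exists_eq_ciSup_of_finite (f := fun i => ⟪x, v i⟫)
  exact ⟨i, hi.symm⟩

theorem mx_le {k : ℕ} (hk : 0 < k) (v : Fin k → E) (x : E) (C : ℝ)
    (h : ∀ i, ⟪x, v i⟫ ≤ C) : mx v x ≤ C := by
  have : Nonempty (Fin k) := ⟨⟨0, hk⟩⟩
  exact ciSup_le h

theorem measurable_mx {k : ℕ} (v : Fin k → E) : Measurable (mx v) := by
  unfold mx
  exact Measurable.iSup fun i => by fun_prop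

theorem integrable_id_sg : Integrable (fun x : E => x) (stdGaussian E) :=
  IsGaussian.integrable_fun_id

theorem integrable_inner_sg (w : E) : Integrable (fun x : E => ⟪x, w⟫) (stdGaussian E) :=
  (integrable_id_sg (E := E)).inner_const w

theorem abs_mx_le {k : ℕ} (v : Fin k → E) (x : E) : |mx v x| ≤ ∑ i, |⟪x, v i⟫| := by
  rcases Nat.eq_zero_or_pos k with rfl | hk
  · simp [mx]
  · obtain ⟨i, hi⟩ := exists_mx_eq hk v x
    rw [hi]
    exact Finset.single_le_sum (f := fun i => |⟪x, v i⟫|) (fun j _ => abs_nonneg _)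
      (Finset.mem_univ i)

theorem integrable_mx {k : ℕ} (v : Fin k → E) : Integrable (mx v) (stdGaussian E) := by
  refine Integrable.mono' (g := fun x => ∑ i, |⟪x, v i⟫|)
    (integrable_finsetSum _ fun i _ => (integrable_inner_sg (v i)).abs)
    (measurable_mx v).aestronglyMeasurable ?_
  exact Filter.Eventually.of_forall fun x => by
    rw [Real.norm_eq_abs]; exact abs_mx_le v x

theorem setIntegral_inner (A : Set E) (w : E) :
    ⟪∫ x in A, x ∂stdGaussian E, w⟫ = ∫ x in A, ⟪x, w⟫ ∂stdGaussian E := by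
  rw [real_inner_comm]
  have h := (innerSL ℝ w).integral_comp_comm
    ((integrable_id_sg (E := E)).integrableOn (s := A)).integrable
  simp only [innerSL_apply_apply] at h
  rw [← h]
  refine integral_congr_ae (Filter.Eventually.of_forall fun x => ?_)
  exact real_inner_comm _ _

theorem integral_inner_sg (w : E) : ∫ x, ⟪x, w⟫ ∂stdGaussian E = 0 := by
  have h := setIntegral_inner (E := E) Set.univ w
  simp only [Measure.restrict_univ] at h
  rw [← h, integral_id_stdGaussian, inner_zero_left]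

theorem mx_add_const {k : ℕ} (hk : 0 < k) (v : Fin k → E) (c x : E) :
    mx (fun i => v i + c) x = mx v x + ⟪x, c⟫ := by
  apply le_antisymm
  · refine mx_le hk _ x _ fun i => ?_
    rw [inner_add_right]
    have := inner_le_mx v x i
    linarith
  · have : mx v x ≤ mx (fun i => v i + c) x - ⟪x, c⟫ := by
      refine mx_le hk _ x _ fun i => ?_
      have := inner_le_mx (fun i => v i + c) x i
      rw [inner_add_right] at this
      linarith
    linarith

theorem F_add_const {k : ℕ} (hk : 0 < k) (v : Fin k → E) (c : E) :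
    F (fun i => v i + c) = F v := by
  unfold F
  have : ∀ x : E, mx (fun i => v i + c) x = mx v x + ⟪x, c⟫ := fun x => mx_add_const hk v c x
  simp only [this]
  rw [integral_add (integrable_mx v) (integrable_inner_sg c), integral_inner_sg, add_zero]

theorem F_smul {k : ℕ} (v : Fin k → E) (t : ℝ) (ht : 0 ≤ t) :
    F (fun i => t • v i) = t * F v := by
  unfold F
  have : ∀ x : E, mx (fun i => t • v i) x = t * mx v x := by
    intro x
    unfold mx
    simp only [inner_smul_right]
    rw [Real.mul_iSup_of_nonneg ht]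
  simp only [this]
  rw [integral_const_mul]

theorem mx_sub_le {k : ℕ} (hk : 0 < k) (v w : Fin k → E) (x : E) :
    mx v x - mx w x ≤ ‖v - w‖ * ‖x‖ := by
  obtain ⟨i, hi⟩ := exists_mx_eq hk v x
  have h1 := inner_le_mx w x i
  have h2 : ⟪x, v i⟫ - ⟪x, w i⟫ ≤ ‖v - w‖ * ‖x‖ := by
    rw [← inner_sub_right]
    calc ⟪x, v i - w i⟫ ≤ ‖x‖ * ‖v i - w i‖ := real_inner_le_norm _ _
      _ ≤ ‖x‖ * ‖v - w‖ := by
          apply mul_le_mul_of_nonneg_left _ (norm_nonneg _)
          exact norm_le_pi_norm (v - w) i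
      _ = ‖v - w‖ * ‖x‖ := mul_comm _ _
  rw [hi]; linarith

theorem abs_mx_sub_le {k : ℕ} (hk : 0 < k) (v w : Fin k → E) (x : E) :
    |mx v x - mx w x| ≤ ‖v - w‖ * ‖x‖ := by
  rw [abs_sub_le_iff]
  refine ⟨mx_sub_le hk v w x, ?_⟩
  have := mx_sub_le hk w v x
  rwa [norm_sub_rev] at this

theorem abs_F_sub_le {k : ℕ} (hk : 0 < k) (v w : Fin k → E) :
    |F v - F w| ≤ ‖v - w‖ * ∫ x : E, ‖x‖ ∂stdGaussian E := by
  unfold F
  rw [← integral_sub (integrable_mx v) (integrable_mx w), ← integral_const_mul]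
  refine (abs_integral_le_integral_abs).trans ?_
  refine integral_mono ((integrable_mx v).sub (integrable_mx w)).abs
    ((integrable_id_sg (E := E)).norm.const_mul _) fun x => abs_mx_sub_le hk v w x

theorem F_continuous {k : ℕ} (hk : 0 < k) : Continuous (fun v : Fin k → E => F v) := by
  have hC : 0 ≤ ∫ x : E, ‖x‖ ∂stdGaussian E := integral_nonneg fun x => norm_nonneg x
  have : LipschitzWith (Real.toNNReal (∫ x : E, ‖x‖ ∂stdGaussian E))
      (fun v : Fin k → E => F v) := by
    refine LipschitzWith.of_dist_le_mul fun v w => ?_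
    rw [Real.dist_eq, dist_eq_norm, Real.coe_toNNReal _ hC, mul_comm]
    exact abs_F_sub_le hk v w
  exact this.continuous

theorem F_comp_perm {k : ℕ} (s : Equiv.Perm (Fin k)) (v : Fin k → E) :
    F (fun i => v (s i)) = F v := by
  unfold F
  have : ∀ x : E, mx (fun i => v (s i)) x = mx v x := by
    intro x
    unfold mx
    exact s.iSup_comp (g := fun i => ⟪x, v i⟫)
  simp only [this]

theorem F_eq_sum_setIntegral {k : ℕ} (v : Fin k → E) (A : Fin k → Set E)
    (hA : ∀ i, MeasurableSet (A i)) (hdisj : Pairwise fun i j => Disjoint (A i) (A j))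
    (hcov : ⋃ i, A i = Set.univ) :
    F v = ∑ i, ∫ x in A i, mx v x ∂stdGaussian E := by
  unfold F
  rw [← integral_iUnion_fintype hA hdisj (fun i => (integrable_mx v).integrableOn), hcov,
    Measure.restrict_univ]

/-- any measurable partition gives a lower bound for `F`. -/
theorem sum_inner_setIntegral_le_F {k : ℕ} (v : Fin k → E) (A : Fin k → Set E)
    (hA : ∀ i, MeasurableSet (A i)) (hdisj : Pairwise fun i j => Disjoint (A i) (A j))
    (hcov : ⋃ i, A i = Set.univ) :
    ∑ i, ⟪∫ x in A i, x ∂stdGaussian E, v i⟫ ≤ F v := by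
  rw [F_eq_sum_setIntegral v A hA hdisj hcov]
  refine Finset.sum_le_sum fun i _ => ?_
  rw [setIntegral_inner]
  exact integral_mono (integrable_inner_sg (v i)).integrableOn
    (integrable_mx v).integrableOn fun x => inner_le_mx v x i

/-- equality if `v i` is maximal on the cell `A i`. -/
theorem sum_inner_setIntegral_eq_F {k : ℕ} (v : Fin k → E) (A : Fin k → Set E)
    (hA : ∀ i, MeasurableSet (A i)) (hdisj : Pairwise fun i j => Disjoint (A i) (A j))
    (hcov : ⋃ i, A i = Set.univ) (hcell : ∀ i, ∀ x ∈ A i, ∀ j, ⟪x, v j⟫ ≤ ⟪x, v i⟫) :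
    ∑ i, ⟪∫ x in A i, x ∂stdGaussian E, v i⟫ = F v := by
  rw [F_eq_sum_setIntegral v A hA hdisj hcov]
  refine Finset.sum_congr rfl fun i _ => ?_
  rw [setIntegral_inner]
  refine setIntegral_congr_fun (hA i) fun x hx => ?_
  have hk : 0 < k := lt_of_le_of_lt (Nat.zero_le _) i.2
  exact le_antisymm (inner_le_mx v x i) (mx_le hk v x _ fun j => hcell i x hx j)

/-- existence of the cells (e.g. `A i` = points where `i` is the least index attaining the max). -/
theorem exists_cells {k : ℕ} (hk : 0 < k) (v : Fin k → E) :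
    ∃ A : Fin k → Set E, (∀ i, MeasurableSet (A i)) ∧
      (Pairwise fun i j => Disjoint (A i) (A j)) ∧ (⋃ i, A i = Set.univ) ∧
      (∀ i, ∀ x ∈ A i, ∀ j, ⟪x, v j⟫ ≤ ⟪x, v i⟫) := by
  refine ⟨disjointed fun i => {x | mx v x = ⟪x, v i⟫}, ?_, ?_, ?_, ?_⟩
  · intro i
    have hm : ∀ j, MeasurableSet {x | mx v x = ⟪x, v j⟫} := fun j =>
      measurableSet_eq_fun (measurable_mx v) (by fun_prop)
    exact disjointedRec (p := fun s : Set E => MeasurableSet s)
      (fun t j ht => ht.diff (hm j)) (hm i)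
  · exact disjoint_disjointed _
  · rw [iUnion_disjointed]
    ext x
    simp only [Set.mem_iUnion, Set.mem_ofPred_eq, Set.mem_univ, iff_true]
    exact exists_mx_eq hk v x
  · intro i x hx j
    have : x ∈ {x | mx v x = ⟪x, v i⟫} := disjointed_subset _ i hx
    rw [Set.mem_ofPred_eq] at this
    rw [← this]
    exact inner_le_mx v x j

end Crest.Agent.S0334
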