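import Crest.Agent.S0334_Defs

set_option autoImplicit false

open MeasureTheory ProbabilityTheory
open scoped RealInnerProductSpace

namespace Crest.Agent.S0334

variable {E : Type*} [NormedAddCommGroup E] [InnerProductSpace ℝ E]
  [FiniteDimensional ℝ E] [MeasurableSpace E] [BorelSpace E]

/-! ### A3: density of the standard Gaussian on `V n` -/

section A3
open Set

private noncomputable def pdf1 (x : ℝ) : ℝ := (√(2 * Real.pi))⁻¹ * Real.exp (-x ^ 2 / 2)

private lemma pdf1_eq (x : ℝ) : pdf1 x = gaussianPDFReal 0 1 x := by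
  simp [pdf1, gaussianPDFReal]

private lemma pdf1_integrable : Integrable pdf1 := by
  have : pdf1 = gaussianPDFReal 0 1 := funext pdf1_eq
  rw [this]; exact integrable_gaussianPDFReal _ _

private lemma pdf1_nonneg (x : ℝ) : 0 ≤ pdf1 x := by unfold pdf1; positivity

private lemma prod_pdf1 (n : ℕ) (x : Fin n → ℝ) :
    ∏ i, pdf1 (x i) = ((√(2 * Real.pi))⁻¹) ^ n * Real.exp (-(∑ i, x i ^ 2) / 2) := by
  unfold pdf1
  rw [Finset.prod_mul_distrib, Finset.prod_const, ← Real.exp_sum, ← Finset.sum_div,
    Finset.sum_neg_distrib]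
  simp

private lemma a3_pi (n : ℕ) : Measure.pi (fun _ : Fin n => gaussianReal 0 1) =
    (volume : Measure (Fin n → ℝ)).withDensity (fun x => ENNReal.ofReal (∏ i, pdf1 (x i))) := by
  refine (Measure.pi_eq fun s hs => ?_)
  rw [withDensity_apply _ (MeasurableSet.univ_pi hs), ← lintegral_indicator (MeasurableSet.univ_pi hs)]
  have h1 : ∀ x : Fin n → ℝ, (univ.pi s).indicator (fun x => ENNReal.ofReal (∏ i, pdf1 (x i))) x =
      ENNReal.ofReal (∏ i, (s i).indicator pdf1 (x i)) := by
    intro x
    by_cases hx : x ∈ univ.pi s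
    · rw [indicator_of_mem hx]
      congr 1
      refine Finset.prod_congr rfl fun i _ => ?_
      rw [indicator_of_mem (hx i (mem_univ i))]
    · rw [indicator_of_notMem hx]
      simp only [mem_univ_pi, not_forall] at hx
      obtain ⟨i, hi⟩ := hx
      rw [Finset.prod_eq_zero (Finset.mem_univ i) (indicator_of_notMem hi _)]
      simp
  simp_rw [h1]
  have hint : ∀ i, Integrable ((s i).indicator pdf1) := fun i =>
    pdf1_integrable.indicator (hs i)
  rw [← ofReal_integral_eq_lintegral_ofReal]
  · have := integral_fintype_prod_volume_eq_prod (𝕜 := ℝ) (fun i => (s i).indicator pdf1)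
    rw [this, ENNReal.ofReal_prod_of_nonneg]
    · refine Finset.prod_congr rfl fun i _ => ?_
      rw [gaussianReal_apply_eq_integral 0 (one_ne_zero), integral_indicator (hs i)]
      simp_rw [pdf1_eq]
    · intro i _
      refine integral_nonneg fun x => ?_
      exact indicator_nonneg (fun x _ => pdf1_nonneg x) x
  · exact Integrable.fintype_prod hint
  · filter_upwards with x
    exact Finset.prod_nonneg fun i _ => indicator_nonneg (fun x _ => pdf1_nonneg x) _

end A3

theorem stdGaussian_V_eq_withDensity (n : ℕ) :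
    stdGaussian (V n) = (volume : Measure (V n)).withDensity
      (fun x => ENNReal.ofReal (((√(2 * Real.pi))⁻¹) ^ n * Real.exp (-‖x‖ ^ 2 / 2))) := by
  rw [← map_pi_eq_stdGaussian, a3_pi]
  have h := PiLp.volume_preserving_toLp (Fin n)
  ext s hs
  rw [Measure.map_apply h.measurable hs, withDensity_apply _ hs, 
    withDensity_apply _ (h.measurable hs), ← h.setLIntegral_comp_preimage hs (by fun_prop)]
  refine lintegral_congr fun x => ?_
  congr 1
  rw [prod_pdf1, EuclideanSpace.real_norm_sq_eq]

theorem integral_stdGaussian_V (n : ℕ) (f : V n → ℝ) :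
    ∫ x, f x ∂stdGaussian (V n) =
      ((√(2 * Real.pi))⁻¹) ^ n * ∫ x : V n, Real.exp (-‖x‖ ^ 2 / 2) * f x := by
  rw [stdGaussian_V_eq_withDensity, integral_withDensity_eq_integral_toReal_smul (by fun_prop)]
  · rw [← integral_const_mul]
    refine integral_congr_ae ?_
    filter_upwards with x
    rw [ENNReal.toReal_ofReal (by positivity), smul_eq_mul, mul_assoc]
  · filter_upwards with x
    exact ENNReal.ofReal_lt_top

end Crest.Agent.S0334
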