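import Crest.Agent.S0334_A4

set_option autoImplicit false

open MeasureTheory ProbabilityTheory
open scoped RealInnerProductSpace

namespace Crest.Agent.S0334

variable {E : Type*} [NormedAddCommGroup E] [InnerProductSpace ℝ E]
  [FiniteDimensional ℝ E] [MeasurableSpace E] [BorelSpace E]

/-! ### C1: existence of a maximizer -/

theorem isCompact_sphereSum (k : ℕ) :
    IsCompact {v : Fin k → V k | ∑ i, ‖v i‖ ^ 2 = 1} := by
  apply Metric.isCompact_of_isClosed_isBounded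
  · exact isClosed_eq (by fun_prop) continuous_const
  · rw [isBounded_iff_forall_norm_le]
    refine ⟨1, fun v hv => ?_⟩
    rw [pi_norm_le_iff_of_nonneg zero_le_one]
    intro i
    have h1 : ‖v i‖ ^ 2 ≤ ∑ j, ‖v j‖ ^ 2 :=
      Finset.single_le_sum (f := fun j => ‖v j‖ ^ 2) (fun j _ => sq_nonneg _) (Finset.mem_univ i)
    have h2 : ‖v i‖ ^ 2 ≤ 1 := by
      have h3 : ∑ j, ‖v j‖ ^ 2 = 1 := hv
      linarith
    nlinarith [norm_nonneg (v i)]

theorem F_zero {k : ℕ} : F (fun _ : Fin k => (0 : E)) = 0 := by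
  have h := F_smul (fun _ : Fin k => (0 : E)) 0 le_rfl
  simpa using h

theorem eq_zero_of_sum_sq {k : ℕ} (w : Fin k → E) (h : ∑ i, ‖w i‖ ^ 2 = 0) :
    w = fun _ => 0 := by
  funext i
  have h1 := (Finset.sum_eq_zero_iff_of_nonneg (fun j _ => sq_nonneg ‖w j‖)).mp h i
    (Finset.mem_univ i)
  exact norm_eq_zero.mp (pow_eq_zero_iff (two_ne_zero) |>.mp h1)

theorem normalize_sum {k : ℕ} (w : Fin k → E) (h : 0 < √(∑ i, ‖w i‖ ^ 2)) :
    ∑ i, ‖(√(∑ i, ‖w i‖ ^ 2))⁻¹ • w i‖ ^ 2 = 1 := by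
  have h0 : 0 ≤ ∑ i, ‖w i‖ ^ 2 := Finset.sum_nonneg fun i _ => sq_nonneg _
  simp only [norm_smul, mul_pow, ← Finset.mul_sum]
  rw [norm_inv, inv_pow, Real.norm_eq_abs, sq_abs, Real.sq_sqrt h0]
  apply inv_mul_cancel₀
  intro h2
  rw [h2] at h
  simp at h

/-- By compactness of `{v : Fin k → V k | ∑ ‖v i‖² = 1}`, continuity and homogeneity of `F`. -/
theorem exists_maximizer {k : ℕ} (hk : 0 < k) (hn : ¬ VB k) :
    ∃ (lam : ℝ) (v : Fin k → V k), kap < lam ∧ ∑ i, ‖v i‖ ^ 2 = 1 ∧ F v = lam ∧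
      ∀ w : Fin k → V k, F w ≤ lam * √(∑ i, ‖w i‖ ^ 2) := by
  unfold VB at hn
  push Not at hn
  obtain ⟨n, v, hv⟩ := hn
  obtain ⟨w, hw⟩ := exists_gram_realization v
  have hF : F v = F w := (F_eq_of_gram w v hw).symm
  have hnorm : ∀ i, ‖v i‖ ^ 2 = ‖w i‖ ^ 2 := by
    intro i
    rw [← real_inner_self_eq_norm_sq, ← real_inner_self_eq_norm_sq, hw i i]
  have hsum : ∑ i, ‖v i‖ ^ 2 = ∑ i, ‖w i‖ ^ 2 := Finset.sum_congr rfl fun i _ => hnorm i
  rw [hF, hsum] at hv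
  -- positivity of the norm
  have hs : 0 < √(∑ i, ‖w i‖ ^ 2) := by
    rcases (Real.sqrt_nonneg (∑ i, ‖w i‖ ^ 2)).eq_or_lt with h | h
    · exfalso
      have h0 : ∑ i, ‖w i‖ ^ 2 = 0 :=
        (Real.sqrt_eq_zero (Finset.sum_nonneg fun i _ => sq_nonneg _)).mp h.symm
      rw [eq_zero_of_sum_sq w h0, F_zero] at hv
      simp at hv
    · exact h
  have hmem : (fun i => (√(∑ i, ‖w i‖ ^ 2))⁻¹ • w i) ∈
      {v : Fin k → V k | ∑ i, ‖v i‖ ^ 2 = 1} := normalize_sum w hs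
  obtain ⟨v₀, hv₀, hmax⟩ := (isCompact_sphereSum k).exists_isMaxOn ⟨_, hmem⟩
    (F_continuous hk).continuousOn
  have hmax' : ∀ u : Fin k → V k, ∑ i, ‖u i‖ ^ 2 = 1 → F u ≤ F v₀ := fun u hu => hmax hu
  refine ⟨F v₀, v₀, ?_, hv₀, rfl, ?_⟩
  · have h1 := hmax' _ hmem
    rw [F_smul w _ (inv_nonneg.mpr hs.le)] at h1
    have h2 : kap < (√(∑ i, ‖w i‖ ^ 2))⁻¹ * F w := by
      rw [lt_inv_mul_iff₀ hs, mul_comm]
      exact hv
    linarith
  · intro u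
    rcases (Real.sqrt_nonneg (∑ i, ‖u i‖ ^ 2)).eq_or_lt with h | h
    · have h0 : ∑ i, ‖u i‖ ^ 2 = 0 :=
        (Real.sqrt_eq_zero (Finset.sum_nonneg fun i _ => sq_nonneg _)).mp h.symm
      rw [eq_zero_of_sum_sq u h0, F_zero]
      simp
    · have h1 := hmax' _ (normalize_sum u h)
      rw [F_smul u _ (inv_nonneg.mpr h.le), inv_mul_le_iff₀ h] at h1
      linarith

end Crest.Agent.S0334
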