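import Crest.Agent.S0334_A1
import Crest.Agent.S0334_A2

set_option autoImplicit false

open MeasureTheory ProbabilityTheory
open scoped RealInnerProductSpace

namespace Crest.Agent.S0334

variable {E : Type*} [NormedAddCommGroup E] [InnerProductSpace ℝ E]
  [FiniteDimensional ℝ E] [MeasurableSpace E] [BorelSpace E]

/-! ### D0: norm of a projection -/

/-- `RR S x` is the norm of the coordinate vector w.r.t. an orthonormal basis of `S`. -/
theorem RR_eq_of_orthonormal {d : ℕ} (e : Fin d → E) (he : Orthonormal ℝ e) (x : E) :
    RR (Submodule.span ℝ (Set.range e)) x = √(∑ i, ⟪x, e i⟫ ^ 2) := by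
  have h1 : (Submodule.span ℝ (Set.range e)).starProjection x = ∑ i, ⟪x, e i⟫ • e i := by
    apply Submodule.eq_starProjection_of_mem_of_inner_eq_zero
    · exact Submodule.sum_mem _ fun i _ => Submodule.smul_mem _ _
        (Submodule.subset_span (Set.mem_range_self i))
    · intro w hw
      refine Submodule.span_induction ?_ ?_ ?_ ?_ hw
      · rintro _ ⟨j, rfl⟩
        rw [inner_sub_left, real_inner_comm, real_inner_comm (e j), he.inner_right_fintype]
        simp [real_inner_comm]
      · simp
      · intro a b _ _ ha hb
        rw [inner_add_right, ha, hb, add_zero]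
      · intro c a _ ha
        rw [inner_smul_right, ha, mul_zero]
  unfold RR
  rw [h1, ← Real.sqrt_sq (norm_nonneg (∑ i, ⟪x, e i⟫ • e i)), ← real_inner_self_eq_norm_sq]
  congr 1
  rw [he.inner_sum]
  simp [sq]

theorem continuous_RR (S : Submodule ℝ E) : Continuous (RR S) := by
  unfold RR
  fun_prop

theorem RR_nonneg (S : Submodule ℝ E) (x : E) : 0 ≤ RR S x := norm_nonneg _

theorem RR_mono {S T : Submodule ℝ E} (h : S ≤ T) (x : E) : RR S x ≤ RR T x := by
  unfold RR
  have h1 : S.starProjection x = S.starProjection (T.starProjection x) := by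
    have := Submodule.starProjection_comp_starProjection_of_le h
    rw [← ContinuousLinearMap.comp_apply, this]
  rw [h1]
  exact Submodule.norm_starProjection_apply_le _ _

theorem RR_le_norm (S : Submodule ℝ E) (x : E) : RR S x ≤ ‖x‖ :=
  Submodule.norm_starProjection_apply_le _ _

theorem integrable_RR (S : Submodule ℝ E) : Integrable (RR S) (stdGaussian E) := by
  refine (integrable_id_sg (E := E)).norm.mono (continuous_RR S).aestronglyMeasurable ?_
  filter_upwards with x
  rw [Real.norm_of_nonneg (RR_nonneg S x), norm_norm]
  exact RR_le_norm S x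

end Crest.Agent.S0334
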