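import Crest.Agent.S0334_D0
import Crest.Agent.S0334_A3
import Crest.Agent.S0334_B

set_option autoImplicit false

open MeasureTheory ProbabilityTheory
open scoped RealInnerProductSpace

namespace Crest.Agent.S0334

variable {E : Type*} [NormedAddCommGroup E] [InnerProductSpace ℝ E]
  [FiniteDimensional ℝ E] [MeasurableSpace E] [BorelSpace E]

/-- the constant in the radial law. -/
noncomputable def radC (h : ℕ) : ℝ :=
  ((√(2 * Real.pi))⁻¹) ^ h * ((h : ℝ) * (volume : Measure (V h)).real (Metric.ball 0 1))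

theorem radC_nonneg (h : ℕ) : 0 ≤ radC h := by
  unfold radC
  positivity

theorem integrableOn_rad (n : ℕ) :
    IntegrableOn (fun r : ℝ => r ^ n * Real.exp (-r ^ 2 / 2)) (Set.Ioi 0) := by
  have h := integrableOn_rpow_mul_exp_neg_mul_sq (b := 1 / 2) (by norm_num) (s := (n : ℝ))
    (by have : (0 : ℝ) ≤ n := Nat.cast_nonneg n
        linarith)
  refine h.congr_fun (fun r hr => ?_) measurableSet_Ioi
  simp only [Real.rpow_natCast]
  congr 2
  ring

/-- radial law of the standard Gaussian vector. -/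
theorem map_norm_stdGaussian (h : ℕ) (hh : 1 ≤ h) :
    (stdGaussian (V h)).map (fun z => ‖z‖) =
      ((volume : Measure ℝ).restrict (Set.Ioi 0)).withDensity
        (fun r => ENNReal.ofReal (radC h * (r ^ (h - 1) * Real.exp (-r ^ 2 / 2)))) := by
  have : Nonempty (Fin h) := ⟨⟨0, hh⟩⟩
  have hfr : Module.finrank ℝ (V h) = h := by simp
  ext S hS
  have hpre : MeasurableSet ((fun z : V h => ‖z‖) ⁻¹' S) := measurable_norm hS
  rw [Measure.map_apply measurable_norm hS, withDensity_apply _ hS]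
  have h1 : (stdGaussian (V h)) ((fun z : V h => ‖z‖) ⁻¹' S)
      = ENNReal.ofReal (∫ z, (Set.indicator S (fun _ => (1 : ℝ))) ‖z‖ ∂stdGaussian (V h)) := by
    have : (fun z : V h => (Set.indicator S (fun _ => (1 : ℝ))) ‖z‖)
        = Set.indicator ((fun z : V h => ‖z‖) ⁻¹' S) (fun _ => (1 : ℝ)) := by
      ext z; rfl
    rw [this, integral_indicator hpre, integral_const, smul_eq_mul, mul_one]
    simp [measureReal_def]
  rw [h1, integral_stdGaussian_V]
  have h2 : ∫ x : V h, Real.exp (-‖x‖ ^ 2 / 2) * (Set.indicator S (fun _ => (1 : ℝ))) ‖x‖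
      = h * (volume : Measure (V h)).real (Metric.ball 0 1) *
        ∫ r in Set.Ioi (0 : ℝ), r ^ (h - 1) *
          (Real.exp (-r ^ 2 / 2) * (Set.indicator S (fun _ => (1 : ℝ))) r) := by
    have := integral_fun_norm_addHaar (E := V h) (volume : Measure (V h))
      (fun r : ℝ => Real.exp (-r ^ 2 / 2) * (Set.indicator S (fun _ => (1 : ℝ))) r)
    rw [this, hfr]
    simp only [nsmul_eq_mul, smul_eq_mul, mul_assoc]
  rw [h2]
  rw [← ofReal_integral_eq_lintegral_ofReal]
  · congr 1
    rw [← integral_indicator hS, ← mul_assoc, show ((√(2 * Real.pi))⁻¹) ^ h *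
      (h * (volume : Measure (V h)).real (Metric.ball 0 1)) = radC h from rfl,
      ← integral_const_mul]
    refine integral_congr_ae (Filter.Eventually.of_forall fun r => ?_)
    simp only [Set.indicator]
    split_ifs <;> ring
  · refine Integrable.restrict ?_
    exact (integrableOn_rad (h - 1)).const_mul _
  · have h3 : ∀ᵐ r ∂((volume : Measure ℝ).restrict (Set.Ioi 0)),
        0 ≤ radC h * (r ^ (h - 1) * Real.exp (-r ^ 2 / 2)) := by
      refine (ae_restrict_iff' measurableSet_Ioi).2 (Filter.Eventually.of_forall fun r hr => ?_)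
      have h4 : (0 : ℝ) < r := hr
      have := radC_nonneg h
      positivity
    exact ae_restrict_of_ae h3


/-- law of the pair. -/
theorem integral_pair (H : Submodule ℝ E) (h : ℕ) (hH : Module.finrank ℝ H = h)
    (u : E) (hu : ‖u‖ = 1) (huH : ∀ x ∈ H, ⟪u, x⟫ = 0)
    (G : ℝ → ℝ → ℝ) (hG : Continuous (fun p : ℝ × ℝ => G p.1 p.2)) :
    ∫ x, G ⟪x, u⟫ (RR H x) ∂stdGaussian E =
      ∫ p : ℝ × ℝ, G p.1 p.2
        ∂((gaussianReal 0 1).prod ((stdGaussian (V h)).map (fun z => ‖z‖))) := by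
  subst hH
  set h := Module.finrank ℝ H with hh
  let b := stdOrthonormalBasis ℝ H
  let e' : Fin h → E := fun i => (b i : E)
  have he' : Orthonormal ℝ e' := by
    have := b.orthonormal
    exact this.comp_linearIsometry H.subtypeₗᵢ
  have hspan : Submodule.span ℝ (Set.range e') = H := by
    have h1 : Set.range e' = H.subtype '' (Set.range b) := by
      rw [← Set.range_comp]; rfl
    rw [h1, Submodule.span_image]
    have h2 : Submodule.span ℝ (Set.range b) = ⊤ := by
      have := b.toBasis.span_eq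
      simpa using this
    rw [h2]
    simp
  have hRR : ∀ x, RR H x = √(∑ i, ⟪x, e' i⟫ ^ 2) := by
    intro x
    have := RR_eq_of_orthonormal e' he' x
    rwa [hspan] at this
  let e : Fin (h + 1) → E := Fin.cons u e'
  have he : Orthonormal ℝ e := by
    rw [orthonormal_iff_ite]
    intro i j
    refine Fin.cases ?_ (fun i => ?_) i <;> refine Fin.cases ?_ (fun j => ?_) j
    · simp [e, hu]
    · have : ⟪u, e' j⟫ = 0 := huH _ (b j).2
      simpa [e, Fin.succ_ne_zero, eq_comm] using this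
    · have : ⟪e' i, u⟫ = 0 := by
        rw [real_inner_comm]; exact huH _ (b i).2
      simpa [e, Fin.succ_ne_zero] using this
    · have := (orthonormal_iff_ite.1 he') i j
      simpa [e, Fin.succ_inj] using this
  let Φ : V (h + 1) → ℝ := fun y => G (y 0) (√(∑ i : Fin h, (y i.succ) ^ 2))
  have hΦ : Continuous Φ := by
    have h1 : Continuous (fun y : V (h + 1) => (y 0, √(∑ i : Fin h, (y i.succ) ^ 2))) := by
      fun_prop
    exact hG.comp h1
  have s1 : ∫ x, G ⟪x, u⟫ (RR H x) ∂stdGaussian E = ∫ y, Φ y ∂stdGaussian (V (h + 1)) := by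
    rw [← map_inner_orthonormal e he, integral_map]
    · refine integral_congr_ae (Filter.Eventually.of_forall fun x => ?_)
      simp only [Φ, hRR]
      simp [e]
    · refine Continuous.aemeasurable ?_
      fun_prop
    · exact hΦ.aestronglyMeasurable
  have s2 : ∫ y, Φ y ∂stdGaussian (V (h + 1)) =
      ∫ a : Fin (h + 1) → ℝ, G (a 0) (√(∑ i : Fin h, (a i.succ) ^ 2))
        ∂(Measure.pi (fun _ => gaussianReal 0 1)) := by
    rw [← map_pi_eq_stdGaussian, integral_map]
    · exact Continuous.aemeasurable (by fun_prop)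
    · exact hΦ.aestronglyMeasurable
  have s3 : ∫ a : Fin (h + 1) → ℝ, G (a 0) (√(∑ i : Fin h, (a i.succ) ^ 2))
        ∂(Measure.pi (fun _ => gaussianReal 0 1)) =
      ∫ p : ℝ × (Fin h → ℝ), G p.1 (√(∑ i : Fin h, (p.2 i) ^ 2))
        ∂((gaussianReal 0 1).prod (Measure.pi (fun _ => gaussianReal 0 1))) := by
    have := (measurePreserving_piFinSuccAbove (α := fun _ : Fin (h + 1) => ℝ)
      (fun _ => gaussianReal 0 1) 0).integral_comp'
      (fun p : ℝ × (Fin h → ℝ) => G p.1 (√(∑ i : Fin h, (p.2 i) ^ 2)))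
    rw [← this]
    rfl
  have hnorm : ∀ a : Fin h → ℝ, √(∑ i : Fin h, (a i) ^ 2) = ‖(WithLp.toLp 2 a : V h)‖ := by
    intro a
    rw [EuclideanSpace.norm_eq]
    simp
  have s4 : (gaussianReal 0 1).prod ((stdGaussian (V h)).map (fun z => ‖z‖)) =
      ((gaussianReal 0 1).prod (Measure.pi (fun _ : Fin h => gaussianReal 0 1))).map
        (Prod.map id (fun a => ‖(WithLp.toLp 2 a : V h)‖)) := by
    rw [← Measure.map_prod_map _ _ measurable_id (Continuous.measurable (by fun_prop)),
      Measure.map_id, ← map_pi_eq_stdGaussian, Measure.map_map (by fun_prop) (by fun_prop)]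
    rfl
  rw [s1, s2, s3, s4, integral_map]
  · simp only [Prod.map, id, hnorm]
  · exact Continuous.aemeasurable (by fun_prop)
  · exact hG.aestronglyMeasurable


/-- the pair integral as a Lebesgue integral over a half plane. -/
theorem integral_pair_density (h : ℕ) (hh : 1 ≤ h)
    (G : ℝ → ℝ → ℝ) :
    ∫ p : ℝ × ℝ, G p.1 p.2
        ∂((gaussianReal 0 1).prod ((stdGaussian (V h)).map (fun z => ‖z‖))) =
      ∫ p in Set.univ ×ˢ Set.Ioi (0 : ℝ),
        ((√(2 * Real.pi))⁻¹ * Real.exp (-p.1 ^ 2 / 2) *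
          (radC h * (p.2 ^ (h - 1) * Real.exp (-p.2 ^ 2 / 2)))) * G p.1 p.2 := by
  rw [map_norm_stdGaussian h hh, gaussianReal_of_var_ne_zero 0 one_ne_zero,
    prod_withDensity (measurable_gaussianPDF _ _) (by fun_prop),
    integral_withDensity_eq_integral_toReal_smul]
  · have h1 : (volume : Measure ℝ).prod ((volume : Measure ℝ).restrict (Set.Ioi 0)) =
        (volume : Measure (ℝ × ℝ)).restrict (Set.univ ×ˢ Set.Ioi (0 : ℝ)) := by
      rw [Measure.volume_eq_prod, ← Measure.prod_restrict, Measure.restrict_univ]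
    rw [h1]
    refine setIntegral_congr_fun (MeasurableSet.univ.prod measurableSet_Ioi) fun p hp => ?_
    have hp2 : 0 < p.2 := hp.2
    have := radC_nonneg h
    simp only [gaussianPDF, gaussianPDFReal, smul_eq_mul, ENNReal.toReal_mul]
    rw [ENNReal.toReal_ofReal (by positivity), ENNReal.toReal_ofReal (by positivity)]
    simp
  · exact ((measurable_gaussianPDF _ _).comp measurable_fst).mul (by fun_prop)
  · refine Filter.Eventually.of_forall fun p => ?_
    exact ENNReal.mul_lt_top gaussianPDF_lt_top ENNReal.ofReal_lt_top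

theorem integral_halfplane_polar (h : ℕ) (hh : 1 ≤ h) (c : ℝ)
    (G : ℝ → ℝ → ℝ)
    (hhom : ∀ t : ℝ, 0 ≤ t → ∀ a b : ℝ, G (t * a) (t * b) = t * G a b) :
    ∫ p in Set.univ ×ˢ Set.Ioi (0 : ℝ),
        (c * Real.exp (-p.1 ^ 2 / 2) *
          (radC h * (p.2 ^ (h - 1) * Real.exp (-p.2 ^ 2 / 2)))) * G p.1 p.2 =
      (c * radC h * ∫ r in Set.Ioi (0 : ℝ), r ^ (h + 1) * Real.exp (-r ^ 2 / 2)) *
        ∫ φ in (0 : ℝ)..Real.pi, G (Real.cos φ) (Real.sin φ) * Real.sin φ ^ (h - 1) := by
  rw [← integral_indicator (MeasurableSet.univ.prod measurableSet_Ioi),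
    ← integral_comp_polarCoord_symm, polarCoord_target]
  have hsub : Set.Ioi (0 : ℝ) ×ˢ Set.Ioo (0 : ℝ) Real.pi ⊆
      Set.Ioi (0 : ℝ) ×ˢ Set.Ioo (-Real.pi) Real.pi := by
    intro p hp
    exact ⟨hp.1, ⟨by have := hp.2.1; have := Real.pi_pos; linarith, hp.2.2⟩⟩
  rw [setIntegral_eq_of_subset_of_forall_sdiff_eq_zero
    (measurableSet_Ioi.prod measurableSet_Ioo) hsub]
  · rw [intervalIntegral.integral_of_le Real.pi_pos.le, integral_Ioc_eq_integral_Ioo,
      show (c * radC h * ∫ r in Set.Ioi (0 : ℝ), r ^ (h + 1) * Real.exp (-r ^ 2 / 2)) =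
        ∫ r in Set.Ioi (0 : ℝ), c * radC h * (r ^ (h + 1) * Real.exp (-r ^ 2 / 2)) from
        (integral_const_mul _ _).symm, Measure.volume_eq_prod, ← setIntegral_prod_mul]
    refine setIntegral_congr_fun (measurableSet_Ioi.prod measurableSet_Ioo) fun p hp => ?_
    have hp1 : 0 < p.1 := hp.1
    have hs : 0 < Real.sin p.2 := Real.sin_pos_of_mem_Ioo hp.2
    have hmem : polarCoord.symm p ∈ Set.univ ×ˢ Set.Ioi (0 : ℝ) := by
      refine ⟨trivial, ?_⟩
      simp only [polarCoord_symm_apply, Set.mem_Ioi]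
      positivity
    simp only [Set.indicator_of_mem hmem, smul_eq_mul]
    simp only [polarCoord_symm_apply, hhom _ hp1.le]
    have hexp : Real.exp (-(p.1 * Real.cos p.2) ^ 2 / 2) *
        Real.exp (-(p.1 * Real.sin p.2) ^ 2 / 2) = Real.exp (-p.1 ^ 2 / 2) := by
      rw [← Real.exp_add]
      congr 1
      have := Real.sin_sq_add_cos_sq p.2
      linear_combination (-p.1 ^ 2 / 2) * this
    have hpow : p.1 * p.1 * p.1 ^ (h - 1) = p.1 ^ (h + 1) := by
      obtain ⟨k, rfl⟩ : ∃ k, h = k + 1 := ⟨h - 1, by omega⟩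
      simp only [Nat.add_sub_cancel]
      ring
    rw [mul_pow, ← hexp, ← hpow]
    ring_nf
  · intro p hp
    have hp1 : 0 < p.1 := hp.1.1
    have hnot : ¬ (0 < Real.sin p.2) ∨ False := by
      left
      intro hs
      apply hp.2
      refine ⟨hp.1.1, ?_, hp.1.2.2⟩
      by_contra hle
      have hle' : p.2 ≤ 0 := not_lt.1 hle
      have := Real.sin_nonpos_of_nonpos_of_neg_pi_le hle' hp.1.2.1.le
      linarith
    have hnm : polarCoord.symm p ∉ Set.univ ×ˢ Set.Ioi (0 : ℝ) := by
      intro hm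
      have h1 : 0 < p.1 * Real.sin p.2 := by
        have := hm.2
        simpa only [polarCoord_symm_apply, Set.mem_Ioi] using this
      rcases hnot with hn | hf
      · exact hn ((mul_pos_iff_of_pos_left hp1).1 h1)
      · exact hf
    simp only [Set.indicator_of_notMem hnm, smul_zero]

theorem integral_test (h : ℕ) (hh : 1 ≤ h) :
    ∫ φ in (0 : ℝ)..Real.pi, max (Real.cos φ) 0 * Real.sin φ ^ (h - 1) = 1 / (h : ℝ) := by
  have hpi := Real.pi_pos
  rw [← intervalIntegral.integral_add_adjacent_intervals (b := Real.pi / 2)]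
  · have h1 : ∫ φ in (0 : ℝ)..(Real.pi / 2), max (Real.cos φ) 0 * Real.sin φ ^ (h - 1) =
        ∫ φ in (0 : ℝ)..(Real.pi / 2), Real.sin φ ^ (h - 1) * Real.cos φ := by
      refine intervalIntegral.integral_congr fun φ hφ => ?_
      rw [Set.uIcc_of_le (by positivity)] at hφ
      have : 0 ≤ Real.cos φ := Real.cos_nonneg_of_mem_Icc ⟨by linarith [hφ.1], hφ.2⟩
      simp only [max_eq_left this]
      ring
    have h2 : ∫ φ in (Real.pi / 2)..Real.pi, max (Real.cos φ) 0 * Real.sin φ ^ (h - 1) = 0 := by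
      have : ∫ φ in (Real.pi / 2)..Real.pi, max (Real.cos φ) 0 * Real.sin φ ^ (h - 1) =
          ∫ φ in (Real.pi / 2)..Real.pi, (0 : ℝ) := by
        refine intervalIntegral.integral_congr fun φ hφ => ?_
        rw [Set.uIcc_of_le (by linarith)] at hφ
        have : Real.cos φ ≤ 0 := Real.cos_nonpos_of_pi_div_two_le_of_le hφ.1 (by linarith [hφ.2])
        simp only [max_eq_right this, zero_mul]
      rw [this]; simp
    rw [h1, h2, add_zero]
    have h3 := integral_sin_pow_mul_cos_pow_odd (a := 0) (b := Real.pi / 2) (h - 1) 0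
    have h4 : ∀ φ : ℝ, HasDerivAt (fun φ => Real.sin φ ^ h / (h : ℝ))
        (Real.sin φ ^ (h - 1) * Real.cos φ) φ := by
      intro φ
      have h5 := ((Real.hasDerivAt_sin φ).pow h).div_const (h : ℝ)
      refine h5.congr_deriv ?_
      have h0 : (h : ℝ) ≠ 0 := by positivity
      rw [div_eq_iff h0]
      ring
    rw [intervalIntegral.integral_eq_sub_of_hasDerivAt (fun φ _ => h4 φ)]
    · have : (h : ℕ) ≠ 0 := by omega
      simp [this]
    · exact (Continuous.intervalIntegrable (by fun_prop) _ _)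
  · exact (Continuous.intervalIntegrable (by fun_prop) _ _)
  · exact (Continuous.intervalIntegrable (by fun_prop) _ _)


/-- if `u` is a unit vector orthogonal to `H`, then `(⟪X,u⟫, |P_H X|)` is, up to the radial part,
distributed like `(cos φ, sin φ)` with `φ ∈ (0,π)` of density `∝ sin^(h-1) φ`, `h = dim H`.
(coordinates: `map_inner_orthonormal`; density: `integral_stdGaussian_V` / `gaussianReal`;
`MeasureTheory.Measure.integral_fun_norm_addHaar` for the `H`-part;
`integral_comp_polarCoord_symm` for the pair `(s, r)`, `r > 0`; the constant is found by testing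
with `G s r = max s 0`, for which the left side is `1/√(2π)` (see `integral_posPart_inner`). -/
theorem polar_pair (H : Submodule ℝ E) (h : ℕ) (hh : 1 ≤ h) (hH : Module.finrank ℝ H = h)
    (u : E) (hu : ‖u‖ = 1) (huH : ∀ x ∈ H, ⟪u, x⟫ = 0)
    (G : ℝ → ℝ → ℝ) (hG : Continuous (fun p : ℝ × ℝ => G p.1 p.2))
    (hhom : ∀ t : ℝ, 0 ≤ t → ∀ a b : ℝ, G (t * a) (t * b) = t * G a b) :
    ∫ x, G ⟪x, u⟫ (RR H x) ∂stdGaussian E =
      ((h : ℝ) / √(2 * Real.pi)) *
        ∫ φ in (0 : ℝ)..Real.pi, G (Real.cos φ) (Real.sin φ) * Real.sin φ ^ (h - 1) := by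
  have key : ∀ (G : ℝ → ℝ → ℝ), Continuous (fun p : ℝ × ℝ => G p.1 p.2) →
      (∀ t : ℝ, 0 ≤ t → ∀ a b : ℝ, G (t * a) (t * b) = t * G a b) →
      ∫ x, G ⟪x, u⟫ (RR H x) ∂stdGaussian E =
      ((√(2 * Real.pi))⁻¹ * radC h * ∫ r in Set.Ioi (0 : ℝ), r ^ (h + 1) * Real.exp (-r ^ 2 / 2)) *
        ∫ φ in (0 : ℝ)..Real.pi, G (Real.cos φ) (Real.sin φ) * Real.sin φ ^ (h - 1) := by
    intro G hG hhom
    rw [integral_pair H h hH u hu huH G hG, integral_pair_density h hh G,
      integral_halfplane_polar h hh _ G hhom]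
  rw [key G hG hhom]
  congr 1
  have ht := key (fun s _ => max s 0) (by fun_prop) (by
    intro t ht a b
    rw [mul_max_of_nonneg _ _ ht, mul_zero])
  rw [integral_posPart_inner, hu, integral_test h hh] at ht
  have h0 : (h : ℝ) ≠ 0 := by positivity
  rw [mul_one_div, eq_div_iff h0] at ht
  rw [← ht]
  ring

end Crest.Agent.S0334
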