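import Crest.Agent.S0334_D1

set_option autoImplicit false

open MeasureTheory ProbabilityTheory
open scoped RealInnerProductSpace

namespace Crest.Agent.S0334

variable {E : Type*} [NormedAddCommGroup E] [InnerProductSpace ℝ E]
  [FiniteDimensional ℝ E] [MeasurableSpace E] [BorelSpace E]

/-! ### D2a: integrals of caps -/

omit [MeasurableSpace E] [BorelSpace E] in
/-- splitting off a unit vector `u ∈ S`: `H = S ⊓ uᗮ`. -/
theorem exists_complement (S : Submodule ℝ E) (d : ℕ) (hd : Module.finrank ℝ S = d + 1)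
    (u : E) (hu : ‖u‖ = 1) (huS : u ∈ S) :
    ∃ H : Submodule ℝ E, H ≤ S ∧ Module.finrank ℝ H = d ∧ (∀ x ∈ H, ⟪u, x⟫ = 0) ∧
      ∀ x : E, RR S x = √(⟪x, u⟫ ^ 2 + RR H x ^ 2) := by
  have huu : ⟪u, u⟫ = 1 := by rw [real_inner_self_eq_norm_sq, hu]; norm_num
  have hu0 : u ≠ 0 := by
    intro h; rw [h, norm_zero] at hu; exact zero_ne_one hu
  have hle : (ℝ ∙ u) ≤ S := by
    rw [Submodule.span_singleton_le_iff_mem]; exact huS
  refine ⟨(ℝ ∙ u)ᗮ ⊓ S, inf_le_right, ?_, ?_, ?_⟩
  · have h1 := Submodule.finrank_add_inf_finrank_orthogonal hle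
    rw [finrank_span_singleton hu0, hd] at h1
    omega
  · intro x hx
    have hx1 := (Submodule.mem_inf.mp hx).1
    rw [Submodule.mem_orthogonal_singleton_iff_inner_right] at hx1
    exact hx1
  · intro x
    set H : Submodule ℝ E := (ℝ ∙ u)ᗮ ⊓ S with hH
    have hmem : H.starProjection x ∈ H := Submodule.starProjection_apply_mem H x
    have hmu : ⟪u, H.starProjection x⟫ = 0 := by
      have hx1 := (Submodule.mem_inf.mp hmem).1
      rw [Submodule.mem_orthogonal_singleton_iff_inner_right] at hx1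
      exact hx1
    have hmu' : ⟪H.starProjection x, u⟫ = 0 := by rw [real_inner_comm]; exact hmu
    have hS : S.starProjection x = ⟪x, u⟫ • u + H.starProjection x := by
      apply Submodule.eq_starProjection_of_mem_of_inner_eq_zero
      · exact S.add_mem (S.smul_mem _ huS) (Submodule.mem_inf.mp hmem).2
      · intro w hw
        -- decompose w
        have hw' : w - ⟪u, w⟫ • u ∈ H := by
          refine Submodule.mem_inf.mpr ⟨?_, S.sub_mem hw (S.smul_mem _ huS)⟩
          rw [Submodule.mem_orthogonal_singleton_iff_inner_right, inner_sub_right,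
            inner_smul_right, huu]
          ring
        have h1 := Submodule.starProjection_inner_eq_zero (K := H) x _ hw'
        rw [inner_sub_right, inner_smul_right, inner_sub_left, inner_sub_left, hmu'] at h1
        rw [inner_sub_left, inner_add_left, inner_smul_left]
        simp only [conj_trivial]
        linarith
    unfold RR
    rw [hS]
    have h2 : ‖⟪x, u⟫ • u + H.starProjection x‖ ^ 2 =
        ⟪x, u⟫ ^ 2 + ‖H.starProjection x‖ ^ 2 := by
      rw [norm_add_sq_real, inner_smul_left, hmu, norm_smul, hu]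
      simp
    rw [← h2, Real.sqrt_sq (norm_nonneg _)]

theorem integral_RR_aux (φ : ℝ) : √(Real.cos φ ^ 2 + Real.sin φ ^ 2) = 1 := by
  rw [Real.cos_sq_add_sin_sq, Real.sqrt_one]

/-- `E RR S = (d/√(2π)) ∫₀^π sin^(d-1)`, `dim S = d + 1`. -/
theorem integral_RR (S : Submodule ℝ E) (d : ℕ) (hd1 : 1 ≤ d)
    (hd : Module.finrank ℝ S = d + 1) :
    ∫ x, RR S x ∂stdGaussian E =
      ((d : ℝ) / √(2 * Real.pi)) * ∫ φ in (0 : ℝ)..Real.pi, Real.sin φ ^ (d - 1) := by
  -- a unit vector in `S`
  have hpos : 0 < Module.finrank ℝ S := by omega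
  have : Nontrivial S := Module.nontrivial_of_finrank_pos hpos
  obtain ⟨w, hw⟩ := exists_ne (0 : S)
  have hwn : ‖(w : E)‖ ≠ 0 := by
    simpa using hw
  set u : E := (‖(w : E)‖)⁻¹ • (w : E) with hudef
  have hu : ‖u‖ = 1 := by
    rw [hudef, norm_smul, norm_inv, norm_norm, inv_mul_cancel₀ hwn]
  have huS : u ∈ S := S.smul_mem _ w.2
  obtain ⟨H, -, hHd, huH, hRR⟩ := exists_complement S d hd u hu huS
  have hG : Continuous (fun p : ℝ × ℝ => (fun a b : ℝ => √(a ^ 2 + b ^ 2)) p.1 p.2) := by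
    fun_prop
  have hhom : ∀ t : ℝ, 0 ≤ t → ∀ a b : ℝ,
      (fun a b : ℝ => √(a ^ 2 + b ^ 2)) (t * a) (t * b) =
        t * (fun a b : ℝ => √(a ^ 2 + b ^ 2)) a b := by
    intro t ht a b
    simp only
    rw [show (t * a) ^ 2 + (t * b) ^ 2 = t ^ 2 * (a ^ 2 + b ^ 2) by ring,
      Real.sqrt_mul (sq_nonneg t), Real.sqrt_sq ht]
  have key := polar_pair H d hd1 hHd u hu huH (fun a b => √(a ^ 2 + b ^ 2)) hG hhom
  rw [integral_congr_ae (Filter.Eventually.of_forall hRR), key]
  simp only [integral_RR_aux, one_mul]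

theorem integral_sin_pow_mul_cos_zero (d : ℕ) (hd1 : 1 ≤ d) (a : ℝ) :
    ∫ φ in (0 : ℝ)..a, Real.sin φ ^ (d - 1) * Real.cos φ = Real.sin a ^ d / d := by
  have hd0 : (d : ℝ) ≠ 0 := by positivity
  have hder : ∀ x ∈ Set.uIcc (0 : ℝ) a,
      HasDerivAt (fun φ => Real.sin φ ^ d / d) (Real.sin x ^ (d - 1) * Real.cos x) x := by
    intro x _
    have h := ((Real.hasDerivAt_sin x).pow d).div_const (d : ℝ)
    refine h.congr_deriv ?_
    field_simp
  have hint : IntervalIntegrable (fun x => Real.sin x ^ (d - 1) * Real.cos x)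
      volume 0 a := by
    apply Continuous.intervalIntegrable
    fun_prop
  rw [intervalIntegral.integral_eq_sub_of_hasDerivAt hder hint]
  simp [Real.sin_zero, zero_pow (by omega : d ≠ 0)]

/-- the spherical cap: `E (⟪X,u⟫ - cos a · RR S X)₊`. -/
theorem integral_cap (S : Submodule ℝ E) (d : ℕ) (hd1 : 1 ≤ d)
    (hd : Module.finrank ℝ S = d + 1) (u : E) (hu : ‖u‖ = 1) (huS : u ∈ S)
    (a : ℝ) (ha0 : 0 ≤ a) (ha1 : a ≤ Real.pi / 2) :
    ∫ x, max (⟪x, u⟫ - Real.cos a * RR S x) 0 ∂stdGaussian E =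
      (1 / √(2 * Real.pi)) *
        (Real.sin a ^ d - d * Real.cos a * ∫ φ in (0 : ℝ)..a, Real.sin φ ^ (d - 1)) := by
  obtain ⟨H, -, hHd, huH, hRR⟩ := exists_complement S d hd u hu huS
  have hd0 : (d : ℝ) ≠ 0 := by positivity
  have hpi := Real.pi_pos
  have hG : Continuous (fun p : ℝ × ℝ =>
      (fun s r : ℝ => max (s - Real.cos a * √(s ^ 2 + r ^ 2)) 0) p.1 p.2) := by
    fun_prop
  have hhom : ∀ t : ℝ, 0 ≤ t → ∀ s r : ℝ,
      (fun s r : ℝ => max (s - Real.cos a * √(s ^ 2 + r ^ 2)) 0) (t * s) (t * r) =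
        t * (fun s r : ℝ => max (s - Real.cos a * √(s ^ 2 + r ^ 2)) 0) s r := by
    intro t ht s r
    simp only
    rw [show (t * s) ^ 2 + (t * r) ^ 2 = t ^ 2 * (s ^ 2 + r ^ 2) by ring,
      Real.sqrt_mul (sq_nonneg t), Real.sqrt_sq ht, mul_max_of_nonneg _ _ ht]
    congr 1 <;> ring
  have key := polar_pair H d hd1 hHd u hu huH
    (fun s r => max (s - Real.cos a * √(s ^ 2 + r ^ 2)) 0) hG hhom
  have h1 : ∀ x : E, max (⟪x, u⟫ - Real.cos a * RR S x) 0 =
      max (⟪x, u⟫ - Real.cos a * √(⟪x, u⟫ ^ 2 + RR H x ^ 2)) 0 := by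
    intro x; rw [← hRR]
  rw [integral_congr_ae (Filter.Eventually.of_forall h1), key]
  simp only [integral_RR_aux, mul_one]
  -- split the integral at `a`
  have hcont : Continuous (fun φ : ℝ =>
      max (Real.cos φ - Real.cos a) 0 * Real.sin φ ^ (d - 1)) := by fun_prop
  have hsplit : ∫ φ in (0 : ℝ)..Real.pi,
      max (Real.cos φ - Real.cos a) 0 * Real.sin φ ^ (d - 1) =
      (∫ φ in (0 : ℝ)..a, (Real.sin φ ^ (d - 1) * Real.cos φ
        - Real.cos a * Real.sin φ ^ (d - 1))) := by
    rw [← intervalIntegral.integral_add_adjacent_intervals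
      (hcont.intervalIntegrable 0 a) (hcont.intervalIntegrable a Real.pi)]
    have e1 : ∫ φ in (0 : ℝ)..a,
        max (Real.cos φ - Real.cos a) 0 * Real.sin φ ^ (d - 1) =
        ∫ φ in (0 : ℝ)..a, (Real.sin φ ^ (d - 1) * Real.cos φ
        - Real.cos a * Real.sin φ ^ (d - 1)) := by
      apply intervalIntegral.integral_congr
      intro φ hφ
      rw [Set.uIcc_of_le ha0] at hφ
      have hc : Real.cos a ≤ Real.cos φ :=
        Real.cos_le_cos_of_nonneg_of_le_pi hφ.1 (by linarith) hφ.2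
      simp only
      rw [max_eq_left (by linarith)]
      ring
    have e2 : ∫ φ in a..Real.pi,
        max (Real.cos φ - Real.cos a) 0 * Real.sin φ ^ (d - 1) = 0 := by
      have : ∫ φ in a..Real.pi,
          max (Real.cos φ - Real.cos a) 0 * Real.sin φ ^ (d - 1) =
          ∫ φ in a..Real.pi, (0 : ℝ) := by
        apply intervalIntegral.integral_congr
        intro φ hφ
        rw [Set.uIcc_of_le (by linarith)] at hφ
        have hc : Real.cos φ ≤ Real.cos a :=
          Real.cos_le_cos_of_nonneg_of_le_pi ha0 hφ.2 hφ.1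
        simp only
        rw [max_eq_right (by linarith), zero_mul]
      rw [this]; simp
    rw [e1, e2, add_zero]
  rw [hsplit, intervalIntegral.integral_sub
    (by apply Continuous.intervalIntegrable; fun_prop)
    (by apply Continuous.intervalIntegrable; fun_prop),
    intervalIntegral.integral_const_mul, integral_sin_pow_mul_cos_zero d hd1]
  field_simp

/-- the vertical cap: `u ⊥ H`, `dim H = d`. -/
theorem integral_vert (H : Submodule ℝ E) (d : ℕ) (hd1 : 1 ≤ d)
    (hd : Module.finrank ℝ H = d) (u : E) (hu : ‖u‖ = 1) (huH : ∀ x ∈ H, ⟪u, x⟫ = 0)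
    (a : ℝ) (ha0 : 0 < a) (ha1 : a ≤ Real.pi / 2) :
    ∫ x, max (Real.sin a * ⟪x, u⟫ - Real.cos a * RR H x) 0 ∂stdGaussian E =
      (1 / √(2 * Real.pi)) *
        (Real.sin a ^ (d + 1) - d * Real.cos a * ∫ φ in (0 : ℝ)..a, Real.sin φ ^ d) := by
  have hd0 : (d : ℝ) ≠ 0 := by positivity
  have hpi := Real.pi_pos
  have hG : Continuous (fun p : ℝ × ℝ =>
      (fun s r : ℝ => max (Real.sin a * s - Real.cos a * r) 0) p.1 p.2) := by
    fun_prop
  have hhom : ∀ t : ℝ, 0 ≤ t → ∀ s r : ℝ,
      (fun s r : ℝ => max (Real.sin a * s - Real.cos a * r) 0) (t * s) (t * r) =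
        t * (fun s r : ℝ => max (Real.sin a * s - Real.cos a * r) 0) s r := by
    intro t ht s r
    simp only
    rw [mul_max_of_nonneg _ _ ht]
    congr 1 <;> ring
  have key := polar_pair H d hd1 hd u hu huH
    (fun s r => max (Real.sin a * s - Real.cos a * r) 0) hG hhom
  rw [key]
  have hcont : Continuous (fun φ : ℝ =>
      max (Real.sin a * Real.cos φ - Real.cos a * Real.sin φ) 0 * Real.sin φ ^ (d - 1)) := by
    fun_prop
  have hsplit : ∫ φ in (0 : ℝ)..Real.pi,
      max (Real.sin a * Real.cos φ - Real.cos a * Real.sin φ) 0 * Real.sin φ ^ (d - 1) =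
      (∫ φ in (0 : ℝ)..a, (Real.sin a * (Real.sin φ ^ (d - 1) * Real.cos φ)
        - Real.cos a * Real.sin φ ^ d)) := by
    rw [← intervalIntegral.integral_add_adjacent_intervals
      (hcont.intervalIntegrable 0 a) (hcont.intervalIntegrable a Real.pi)]
    have e1 : ∫ φ in (0 : ℝ)..a,
        max (Real.sin a * Real.cos φ - Real.cos a * Real.sin φ) 0 * Real.sin φ ^ (d - 1) =
        ∫ φ in (0 : ℝ)..a, (Real.sin a * (Real.sin φ ^ (d - 1) * Real.cos φ)
        - Real.cos a * Real.sin φ ^ d) := by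
      apply intervalIntegral.integral_congr
      intro φ hφ
      rw [Set.uIcc_of_le ha0.le] at hφ
      have hc : 0 ≤ Real.sin (a - φ) :=
        Real.sin_nonneg_of_nonneg_of_le_pi (by linarith [hφ.2]) (by linarith [hφ.1])
      rw [Real.sin_sub] at hc
      simp only
      rw [max_eq_left (by linarith)]
      obtain ⟨m, rfl⟩ : ∃ m, d = m + 1 := ⟨d - 1, by omega⟩
      simp only [Nat.add_sub_cancel]
      ring
    have e2 : ∫ φ in a..Real.pi,
        max (Real.sin a * Real.cos φ - Real.cos a * Real.sin φ) 0 * Real.sin φ ^ (d - 1)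
          = 0 := by
      have : ∫ φ in a..Real.pi,
          max (Real.sin a * Real.cos φ - Real.cos a * Real.sin φ) 0 * Real.sin φ ^ (d - 1) =
          ∫ φ in a..Real.pi, (0 : ℝ) := by
        apply intervalIntegral.integral_congr
        intro φ hφ
        rw [Set.uIcc_of_le (by linarith)] at hφ
        have hc : 0 ≤ Real.sin (φ - a) :=
          Real.sin_nonneg_of_nonneg_of_le_pi (by linarith [hφ.1]) (by linarith [hφ.2])
        rw [Real.sin_sub] at hc
        simp only
        rw [max_eq_right (by linarith), zero_mul]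
      rw [this]; simp
    rw [e1, e2, add_zero]
  rw [hsplit, intervalIntegral.integral_sub
    (by apply Continuous.intervalIntegrable; fun_prop)
    (by apply Continuous.intervalIntegrable; fun_prop),
    intervalIntegral.integral_const_mul, intervalIntegral.integral_const_mul,
    integral_sin_pow_mul_cos_zero d hd1]
  field_simp
  ring

end Crest.Agent.S0334
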