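import Crest.Agent.S0334_D2a

set_option autoImplicit false
set_option linter.unusedSectionVars false
set_option linter.unusedVariables false

open MeasureTheory ProbabilityTheory
open scoped RealInnerProductSpace

namespace Crest.Agent.S0334

variable {E : Type*} [NormedAddCommGroup E] [InnerProductSpace ℝ E]
  [FiniteDimensional ℝ E] [MeasurableSpace E] [BorelSpace E]

/-! ### D2b: cap bounds for first moments -/

theorem D2b_RR_nonneg (S : Submodule ℝ E) (x : E) : 0 ≤ RR S x := norm_nonneg _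

theorem D2b_integrable_id : Integrable (fun x : E => x) (stdGaussian E) :=
  IsGaussian.integrable_id

theorem D2b_integrable_inner (w : E) :
    Integrable (fun x : E => ⟪x, w⟫) (stdGaussian E) := by
  have h := (D2b_integrable_id (E := E)).inner_const (𝕜 := ℝ) w
  exact h

theorem D2b_integrable_RR (S : Submodule ℝ E) :
    Integrable (fun x : E => RR S x) (stdGaussian E) := by
  have h := (S.starProjection).integrable_comp (D2b_integrable_id (E := E))
  exact h.norm

theorem D2b_share_nonneg (S : Submodule ℝ E) (A : Set E) : 0 ≤ share S A := by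
  unfold share
  apply div_nonneg
  · exact integral_nonneg (fun x => D2b_RR_nonneg S x)
  · exact integral_nonneg (fun x => D2b_RR_nonneg S x)

theorem D2b_share_mul (S : Submodule ℝ E) (A : Set E) :
    share S A * ∫ x, RR S x ∂stdGaussian E = ∫ x in A, RR S x ∂stdGaussian E := by
  unfold share
  rcases eq_or_ne (∫ x, RR S x ∂stdGaussian E) 0 with h0 | h0
  · rw [h0, mul_zero]
    symm
    apply le_antisymm
    · rw [← h0]
      exact setIntegral_le_integral (D2b_integrable_RR S)
        (Filter.Eventually.of_forall fun x => D2b_RR_nonneg S x)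
    · exact integral_nonneg (fun x => D2b_RR_nonneg S x)
  · field_simp

theorem D2b_inner_setIntegral (A : Set E) (w : E) :
    ⟪∫ x in A, x ∂stdGaussian E, w⟫ = ∫ x in A, ⟪x, w⟫ ∂stdGaussian E := by
  have h := integral_inner (𝕜 := ℝ) (f := fun x : E => x) (μ := (stdGaussian E).restrict A)
    (D2b_integrable_id (E := E)).restrict w
  rw [real_inner_comm, ← h]
  apply integral_congr_ae
  exact Filter.Eventually.of_forall fun x => real_inner_comm _ _

/-- the general mechanism: a linear functional is bounded by `c * RR + positive part`. -/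
theorem D2b_core (S : Submodule ℝ E) (A : Set E) (u : E) (s c : ℝ) (g : E → ℝ)
    (hg : ∀ x, g x ≤ RR S x) (hc : 0 ≤ c)
    (hint : Integrable (fun x : E => max (s * ⟪x, u⟫ - c * g x) 0) (stdGaussian E)) :
    s * ⟪∫ x in A, x ∂stdGaussian E, u⟫ ≤
      c * (share S A * ∫ x, RR S x ∂stdGaussian E) +
        ∫ x, max (s * ⟪x, u⟫ - c * g x) 0 ∂stdGaussian E := by
  rw [D2b_share_mul, D2b_inner_setIntegral, ← integral_const_mul, ← integral_const_mul]
  calc ∫ x in A, s * ⟪x, u⟫ ∂stdGaussian E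
      ≤ ∫ x in A, (c * RR S x + max (s * ⟪x, u⟫ - c * g x) 0) ∂stdGaussian E := by
        apply integral_mono
        · exact ((D2b_integrable_inner u).const_mul s).restrict
        · exact (((D2b_integrable_RR S).const_mul c).restrict).add hint.restrict
        · intro x
          have h1 := le_max_left (s * ⟪x, u⟫ - c * g x) 0
          have h2 := mul_le_mul_of_nonneg_left (hg x) hc
          simp only
          linarith
    _ = (∫ x in A, c * RR S x ∂stdGaussian E) +
          ∫ x in A, max (s * ⟪x, u⟫ - c * g x) 0 ∂stdGaussian E :=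
        integral_add (((D2b_integrable_RR S).const_mul c).restrict) hint.restrict
    _ ≤ (∫ x in A, c * RR S x ∂stdGaussian E) +
          ∫ x, max (s * ⟪x, u⟫ - c * g x) 0 ∂stdGaussian E := by
        exact add_le_add le_rfl (setIntegral_le_integral hint
          (Filter.Eventually.of_forall fun x => le_max_right _ _))

/-- cap bound for the first moment of a set `A` in a direction `w ∈ S`. -/
theorem cap_bound (S : Submodule ℝ E) (d : ℕ) (hd1 : 1 ≤ d)
    (hd : Module.finrank ℝ S = d + 1) (A : Set E) (hA : MeasurableSet A) (w : E) (hw : w ∈ S)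
    (a : ℝ) (ha0 : 0 ≤ a) (ha1 : a ≤ Real.pi / 2) :
    √(2 * Real.pi) * ⟪∫ x in A, x ∂stdGaussian E, w⟫ ≤
      ‖w‖ * (Real.sin a ^ d - d * Real.cos a * (∫ φ in (0 : ℝ)..a, Real.sin φ ^ (d - 1)) +
        Real.cos a * (d * ∫ φ in (0 : ℝ)..Real.pi, Real.sin φ ^ (d - 1)) * share S A) := by
  rcases eq_or_ne w 0 with rfl | hw0
  · simp
  have hnw : 0 < ‖w‖ := norm_pos_iff.mpr hw0
  set u : E := (‖w‖)⁻¹ • w with hu
  have hunorm : ‖u‖ = 1 := by
    rw [hu, norm_smul, norm_inv, norm_norm, inv_mul_cancel₀ hnw.ne']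
  have huS : u ∈ S := S.smul_mem _ hw
  have hwu : w = ‖w‖ • u := by
    rw [hu, smul_smul, mul_inv_cancel₀ hnw.ne', one_smul]
  have hsq : 0 < √(2 * Real.pi) := Real.sqrt_pos.mpr (by positivity)
  have hcos : 0 ≤ Real.cos a := Real.cos_nonneg_of_mem_Icc ⟨by linarith [Real.pi_pos], ha1⟩
  have hint : Integrable (fun x : E => max (1 * ⟪x, u⟫ - Real.cos a * RR S x) 0)
      (stdGaussian E) :=
    (((D2b_integrable_inner u).const_mul 1).sub ((D2b_integrable_RR S).const_mul _)).pos_part
  have hcore := D2b_core S A u 1 (Real.cos a) (RR S) (fun x => le_rfl) hcos hint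
  have hcap := integral_cap S d hd1 hd u hunorm huS a ha0 ha1
  simp only [one_mul] at hcore
  rw [hcap, integral_RR S d hd1 hd] at hcore
  have hinner : ⟪∫ x in A, x ∂stdGaussian E, w⟫ = ‖w‖ * ⟪∫ x in A, x ∂stdGaussian E, u⟫ := by
    conv_lhs => rw [hwu]
    rw [real_inner_smul_right]
  rw [hinner]
  have h2 := mul_le_mul_of_nonneg_left hcore (mul_pos hsq hnw).le
  calc √(2 * Real.pi) * (‖w‖ * ⟪∫ x in A, x ∂stdGaussian E, u⟫)
      = √(2 * Real.pi) * ‖w‖ * ⟪∫ x in A, x ∂stdGaussian E, u⟫ := by ring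
    _ ≤ _ := h2
    _ = _ := by
        field_simp
        ring

theorem D2b_RR_mono {H S : Submodule ℝ E} (hHS : H ≤ S) (x : E) : RR H x ≤ RR S x := by
  unfold RR
  have h : H.starProjection x = H.starProjection (S.starProjection x) := by
    have := Submodule.starProjection_comp_starProjection_of_le hHS
    exact (DFunLike.congr_fun this x).symm
  rw [h]
  exact H.norm_starProjection_apply_le _

theorem D2b_exists_sub (S : Submodule ℝ E) (d : ℕ) (hd : Module.finrank ℝ S = d + 2)
    (u : E) (hu : ‖u‖ = 1) :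
    ∃ H : Submodule ℝ E, H ≤ S ∧ Module.finrank ℝ H = d ∧ ∀ x ∈ H, ⟪u, x⟫ = 0 := by
  have hu0 : u ≠ 0 := by
    intro h
    rw [h, norm_zero] at hu
    exact zero_ne_one hu
  set T : Submodule ℝ E := S ⊓ (ℝ ∙ u)ᗮ with hT
  have hdim : d ≤ Module.finrank ℝ T := by
    have h1 := Submodule.finrank_sup_add_finrank_inf_eq S ((ℝ ∙ u)ᗮ)
    have h2 := Submodule.finrank_add_finrank_orthogonal (ℝ ∙ u)
    have h3 : Module.finrank ℝ (ℝ ∙ u) = 1 := finrank_span_singleton hu0
    have h4 := Submodule.finrank_le (S ⊔ (ℝ ∙ u)ᗮ)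
    have h5 : Module.finrank ℝ (S ⊓ (ℝ ∙ u)ᗮ : Submodule ℝ E) = Module.finrank ℝ T := rfl
    omega
  let b := Module.finBasis ℝ T
  let f : Fin d → E := fun i => ((b (Fin.castLE hdim i) : T) : E)
  have hli : LinearIndependent ℝ f := by
    have h1 : LinearIndependent ℝ (fun i : Fin d => b (Fin.castLE hdim i)) :=
      b.linearIndependent.comp _ (Fin.castLE_injective hdim)
    exact h1.map' T.subtype (Submodule.ker_subtype T)
  have hle : Submodule.span ℝ (Set.range f) ≤ T := by
    rw [Submodule.span_le]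
    rintro _ ⟨i, rfl⟩
    exact (b (Fin.castLE hdim i)).2
  refine ⟨Submodule.span ℝ (Set.range f), hle.trans inf_le_left, ?_, ?_⟩
  · rw [finrank_span_eq_card hli, Fintype.card_fin]
  · intro x hx
    have h1 : x ∈ (ℝ ∙ u)ᗮ := (hle hx).2
    exact Submodule.mem_orthogonal_singleton_iff_inner_right.mp h1

/-- vertical bound: arbitrary direction `w`, `dim S = d + 2` (take `H ≤ S ⊓ wᗮ` of dimension `d`).-/
theorem vert_bound (S : Submodule ℝ E) (d : ℕ) (hd1 : 1 ≤ d)
    (hd : Module.finrank ℝ S = d + 2) (A : Set E) (hA : MeasurableSet A) (w : E)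
    (a : ℝ) (ha0 : 0 < a) (ha1 : a ≤ Real.pi / 2) :
    Real.sin a * (√(2 * Real.pi) * ⟪∫ x in A, x ∂stdGaussian E, w⟫) ≤
      ‖w‖ * (Real.sin a ^ (d + 1) - d * Real.cos a * (∫ φ in (0 : ℝ)..a, Real.sin φ ^ d) +
        Real.cos a * ((d + 1 : ℝ) * ∫ φ in (0 : ℝ)..Real.pi, Real.sin φ ^ d) * share S A) := by
  rcases eq_or_ne w 0 with rfl | hw0
  · simp
  have hnw : 0 < ‖w‖ := norm_pos_iff.mpr hw0
  set u : E := (‖w‖)⁻¹ • w with hu
  have hunorm : ‖u‖ = 1 := by
    rw [hu, norm_smul, norm_inv, norm_norm, inv_mul_cancel₀ hnw.ne']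
  have hwu : w = ‖w‖ • u := by
    rw [hu, smul_smul, mul_inv_cancel₀ hnw.ne', one_smul]
  have hsq : 0 < √(2 * Real.pi) := Real.sqrt_pos.mpr (by positivity)
  have hcos : 0 ≤ Real.cos a := Real.cos_nonneg_of_mem_Icc ⟨by linarith [Real.pi_pos], ha1⟩
  -- the subspace `H`
  obtain ⟨H, hHS, hHd, hHu⟩ : ∃ H : Submodule ℝ E, H ≤ S ∧ Module.finrank ℝ H = d ∧
      ∀ x ∈ H, ⟪u, x⟫ = 0 := by
    exact D2b_exists_sub S d hd u hunorm
  have hint : Integrable (fun x : E => max (Real.sin a * ⟪x, u⟫ - Real.cos a * RR H x) 0)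
      (stdGaussian E) :=
    (((D2b_integrable_inner u).const_mul _).sub ((D2b_integrable_RR H).const_mul _)).pos_part
  have hcore := D2b_core S A u (Real.sin a) (Real.cos a) (RR H) (fun x => D2b_RR_mono hHS x)
    hcos hint
  have hcap := integral_vert H d hd1 hHd u hunorm hHu a ha0 ha1
  rw [hcap, integral_RR S (d + 1) (by omega) hd] at hcore
  have hinner : ⟪∫ x in A, x ∂stdGaussian E, w⟫ = ‖w‖ * ⟪∫ x in A, x ∂stdGaussian E, u⟫ := by
    conv_lhs => rw [hwu]
    rw [real_inner_smul_right]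
  rw [hinner]
  have h2 := mul_le_mul_of_nonneg_left hcore (mul_pos hsq hnw).le
  calc Real.sin a * (√(2 * Real.pi) * (‖w‖ * ⟪∫ x in A, x ∂stdGaussian E, u⟫))
      = √(2 * Real.pi) * ‖w‖ * (Real.sin a * ⟪∫ x in A, x ∂stdGaussian E, u⟫) := by ring
    _ ≤ _ := h2
    _ = _ := by
        simp only [Nat.add_sub_cancel]
        push_cast
        field_simp
        ring

theorem D2b_integral_RR_pos (S : Submodule ℝ E) (hS : S ≠ ⊥) :
    0 < ∫ x, RR S x ∂stdGaussian E := by
  obtain ⟨v, hvS, hv0⟩ := Submodule.exists_mem_ne_zero_of_ne_bot hS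
  rw [integral_pos_iff_support_of_nonneg (fun x => D2b_RR_nonneg S x) (D2b_integrable_RR S)]
  rw [pos_iff_ne_zero]
  intro h0
  have hae : ∀ᵐ x ∂stdGaussian E, ⟪v, x⟫ = 0 := by
    have : ∀ᵐ x ∂stdGaussian E, RR S x = 0 := by
      rw [ae_iff]
      exact h0
    filter_upwards [this] with x hx
    have h1 : S.starProjection x = 0 := norm_eq_zero.mp hx
    have h2 : ⟪S.starProjection v, x⟫ = ⟪v, S.starProjection x⟫ :=
      Submodule.inner_starProjection_left_eq_right S v x
    rw [h1, inner_zero_right, Submodule.starProjection_eq_self_iff.mpr hvS] at h2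
    exact h2
  have hvar := variance_dual_stdGaussian (E := E) (innerSL ℝ v)
  have hvar0 : Var[(innerSL ℝ v : StrongDual ℝ E); stdGaussian E] = 0 := by
    have : (⇑(innerSL ℝ v : StrongDual ℝ E)) =ᵐ[stdGaussian E] fun _ => (0 : ℝ) := by
      filter_upwards [hae] with x hx
      simpa using hx
    rw [variance_congr this]
    exact variance_zero _
  rw [hvar0, innerSL_apply_norm] at hvar
  have : ‖v‖ = 0 := by
    have := hvar.symm
    exact pow_eq_zero_iff (two_ne_zero) |>.mp this
  exact hv0 (norm_eq_zero.mp this)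

theorem sum_share {k : ℕ} (S : Submodule ℝ E) (hS : S ≠ ⊥) (A : Fin k → Set E)
    (hA : ∀ i, MeasurableSet (A i)) (hdisj : Pairwise fun i j => Disjoint (A i) (A j))
    (hcov : ⋃ i, A i = Set.univ) : ∑ i, share S (A i) = 1 := by
  have hpos := D2b_integral_RR_pos S hS
  unfold share
  rw [← Finset.sum_div, ← integral_iUnion_fintype hA hdisj (fun i => (D2b_integrable_RR S).integrableOn),
    hcov, setIntegral_univ]
  exact div_self hpos.ne'

theorem share_nonneg (S : Submodule ℝ E) (A : Set E) : 0 ≤ share S A :=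
  D2b_share_nonneg S A

end Crest.Agent.S0334
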