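import Crest.Agent.S0334_D2b

set_option autoImplicit false

open MeasureTheory ProbabilityTheory
open scoped RealInnerProductSpace

namespace Crest.Agent.S0334

variable {E : Type*} [NormedAddCommGroup E] [InnerProductSpace ℝ E]
  [FiniteDimensional ℝ E] [MeasurableSpace E] [BorelSpace E]

/-! ### D3a: closed forms in dimensions 3, 4, 5, 7 -/

theorem d3a_int1 (a : ℝ) : ∫ φ in (0 : ℝ)..a, Real.sin φ ^ 1 = 1 - Real.cos a := by
  simp

theorem d3a_int2 (a : ℝ) :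
    ∫ φ in (0 : ℝ)..a, Real.sin φ ^ 2 = (a - Real.sin a * Real.cos a) / 2 := by
  rw [integral_sin_sq]
  simp
  ring

theorem d3a_int3 (a : ℝ) :
    ∫ φ in (0 : ℝ)..a, Real.sin φ ^ 3 = 2 / 3 - Real.cos a + Real.cos a ^ 3 / 3 := by
  have h : ∀ x ∈ Set.uIcc 0 a,
      HasDerivAt (fun φ : ℝ => -Real.cos φ + Real.cos φ ^ 3 / 3) (Real.sin x ^ 3) x := by
    intro x _
    have h1 := Real.hasDerivAt_cos x
    have h2 := (h1.neg).add ((h1.pow 3).div_const 3)
    refine h2.congr_deriv ?_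
    have := Real.sin_sq_add_cos_sq x
    have h3 : Real.cos x ^ 2 = 1 - Real.sin x ^ 2 := by linarith
    push_cast
    have : (3 : ℕ) - 1 = 2 := rfl
    simp only [this, h3]
    ring
  rw [intervalIntegral.integral_eq_sub_of_hasDerivAt h
    ((Real.continuous_sin.pow 3).intervalIntegrable _ _)]
  simp
  ring

theorem d3a_int5 (a : ℝ) :
    ∫ φ in (0 : ℝ)..a, Real.sin φ ^ 5 =
      8 / 15 - Real.cos a + 2 * Real.cos a ^ 3 / 3 - Real.cos a ^ 5 / 5 := by
  have h : ∀ x ∈ Set.uIcc 0 a,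
      HasDerivAt (fun φ : ℝ => -Real.cos φ + 2 * Real.cos φ ^ 3 / 3 - Real.cos φ ^ 5 / 5)
        (Real.sin x ^ 5) x := by
    intro x _
    have h1 := Real.hasDerivAt_cos x
    have h2 := ((h1.neg).add (((h1.pow 3).const_mul 2).div_const 3)).sub
      ((h1.pow 5).div_const 5)
    refine h2.congr_deriv ?_
    have := Real.sin_sq_add_cos_sq x
    have h3 : Real.cos x ^ 2 = 1 - Real.sin x ^ 2 := by linarith
    have h4 : Real.cos x ^ 4 = (1 - Real.sin x ^ 2) ^ 2 := by rw [← h3]; ring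
    have e1 : (3 : ℕ) - 1 = 2 := rfl
    have e2 : (5 : ℕ) - 1 = 4 := rfl
    push_cast
    simp only [e1, e2, h3, h4]
    ring
  rw [intervalIntegral.integral_eq_sub_of_hasDerivAt h
    ((Real.continuous_sin.pow 5).intervalIntegrable _ _)]
  simp
  ring

theorem d3a_arccos_le (c : ℝ) (hc0 : 0 ≤ c) : Real.arccos c ≤ Real.pi / 2 :=
  Real.arccos_le_pi_div_two.2 hc0

theorem cap3 (S : Submodule ℝ E) (hd : Module.finrank ℝ S = 3) (A : Set E)
    (hA : MeasurableSet A) (w : E) (hw : w ∈ S) (c : ℝ) (hc0 : 0 ≤ c) (hc1 : c ≤ 1) :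
    √(2 * Real.pi) * ⟪∫ x in A, x ∂stdGaussian E, w⟫ ≤
      ‖w‖ * ((1 - c) ^ 2 + 4 * c * share S A) := by
  have h := cap_bound S 2 (by norm_num) hd A hA w hw (Real.arccos c) (Real.arccos_nonneg c)
    (d3a_arccos_le c hc0)
  have hcos : Real.cos (Real.arccos c) = c := Real.cos_arccos (by linarith) hc1
  have hsin : Real.sin (Real.arccos c) ^ 2 = 1 - c ^ 2 := by
    have := Real.sin_sq_add_cos_sq (Real.arccos c)
    rw [hcos] at this; linarith
  refine h.trans (le_of_eq ?_)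
  have e1 : (2 : ℕ) - 1 = 1 := rfl
  rw [e1, d3a_int1, d3a_int1, hcos, hsin, Real.cos_pi]
  push_cast
  ring

theorem cap4 (S : Submodule ℝ E) (hd : Module.finrank ℝ S = 4) (A : Set E)
    (hA : MeasurableSet A) (w : E) (hw : w ∈ S) (a : ℝ) (ha0 : 0 ≤ a) (ha1 : a ≤ Real.pi / 2) :
    √(2 * Real.pi) * ⟪∫ x in A, x ∂stdGaussian E, w⟫ ≤
      ‖w‖ * (Real.sin a ^ 3 - (3 / 2) * Real.cos a * (a - Real.sin a * Real.cos a) +
        (3 * Real.pi / 2) * Real.cos a * share S A) := by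
  have h := cap_bound S 3 (by norm_num) hd A hA w hw a ha0 ha1
  refine h.trans (le_of_eq ?_)
  have e1 : (3 : ℕ) - 1 = 2 := rfl
  rw [e1, d3a_int2, d3a_int2, Real.sin_pi]
  push_cast
  ring

theorem cap5 (S : Submodule ℝ E) (hd : Module.finrank ℝ S = 5) (A : Set E)
    (hA : MeasurableSet A) (w : E) (hw : w ∈ S) (c : ℝ) (hc0 : 0 ≤ c) (hc1 : c ≤ 1) :
    √(2 * Real.pi) * ⟪∫ x in A, x ∂stdGaussian E, w⟫ ≤
      ‖w‖ * ((1 - c) ^ 3 * (3 + c) / 3 + (16 / 3) * c * share S A) := by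
  have h := cap_bound S 4 (by norm_num) hd A hA w hw (Real.arccos c) (Real.arccos_nonneg c)
    (d3a_arccos_le c hc0)
  have hcos : Real.cos (Real.arccos c) = c := Real.cos_arccos (by linarith) hc1
  have hsin : Real.sin (Real.arccos c) ^ 2 = 1 - c ^ 2 := by
    have := Real.sin_sq_add_cos_sq (Real.arccos c)
    rw [hcos] at this; linarith
  have hsin4 : Real.sin (Real.arccos c) ^ 4 = (1 - c ^ 2) ^ 2 := by
    rw [← hsin]; ring
  refine h.trans (le_of_eq ?_)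
  have e1 : (4 : ℕ) - 1 = 3 := rfl
  rw [e1, d3a_int3, d3a_int3, hcos, hsin4, Real.cos_pi]
  push_cast
  ring

theorem cap7 (S : Submodule ℝ E) (hd : Module.finrank ℝ S = 7) (A : Set E)
    (hA : MeasurableSet A) (w : E) (hw : w ∈ S) (c : ℝ) (hc0 : 0 ≤ c) (hc1 : c ≤ 1) :
    √(2 * Real.pi) * ⟪∫ x in A, x ∂stdGaussian E, w⟫ ≤
      ‖w‖ * ((1 - c) ^ 4 * (5 + 4 * c + c ^ 2) / 5 + (32 / 5) * c * share S A) := by
  have h := cap_bound S 6 (by norm_num) hd A hA w hw (Real.arccos c) (Real.arccos_nonneg c)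
    (d3a_arccos_le c hc0)
  have hcos : Real.cos (Real.arccos c) = c := Real.cos_arccos (by linarith) hc1
  have hsin : Real.sin (Real.arccos c) ^ 2 = 1 - c ^ 2 := by
    have := Real.sin_sq_add_cos_sq (Real.arccos c)
    rw [hcos] at this; linarith
  have hsin6 : Real.sin (Real.arccos c) ^ 6 = (1 - c ^ 2) ^ 3 := by
    rw [← hsin]; ring
  refine h.trans (le_of_eq ?_)
  have e1 : (6 : ℕ) - 1 = 5 := rfl
  rw [e1, d3a_int5, d3a_int5, hcos, hsin6, Real.cos_pi]
  push_cast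
  ring

theorem vert7 (S : Submodule ℝ E) (hd : Module.finrank ℝ S = 7) (A : Set E)
    (hA : MeasurableSet A) (w : E) (c : ℝ) (hc0 : 0 ≤ c) (hc1 : c < 1) :
    √(1 - c ^ 2) * (√(2 * Real.pi) * ⟪∫ x in A, x ∂stdGaussian E, w⟫) ≤
      ‖w‖ * ((1 - c) ^ 3 * (3 + c) / 3 + (32 / 5) * c * share S A) := by
  have h := vert_bound S 5 (by norm_num) hd A hA w (Real.arccos c)
    (Real.arccos_pos.2 hc1) (d3a_arccos_le c hc0)
  have hcos : Real.cos (Real.arccos c) = c := Real.cos_arccos (by linarith) hc1.le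
  have hs : Real.sin (Real.arccos c) = √(1 - c ^ 2) := Real.sin_arccos c
  have hsin : Real.sin (Real.arccos c) ^ 2 = 1 - c ^ 2 := by
    have := Real.sin_sq_add_cos_sq (Real.arccos c)
    rw [hcos] at this; linarith
  have hsin6 : Real.sin (Real.arccos c) ^ (5 + 1) = (1 - c ^ 2) ^ 3 := by
    rw [← hsin]; ring
  rw [← hs]
  refine h.trans (le_of_eq ?_)
  rw [d3a_int5, d3a_int5, hcos, hsin6, Real.cos_pi]
  push_cast
  ring

end Crest.Agent.S0334
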