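import Crest.Agent.S0334_D3a

set_option autoImplicit false

open MeasureTheory ProbabilityTheory
open scoped RealInnerProductSpace

namespace Crest.Agent.S0334

variable {E : Type*} [NormedAddCommGroup E] [InnerProductSpace ℝ E]
  [FiniteDimensional ℝ E] [MeasurableSpace E] [BorelSpace E]

/-! ### D3b: consequences for the maximizer -/

theorem sqrt_two_pi_mul_kap : √(2 * Real.pi) * kap = 3 / 2 := by
  have h : √(2 * Real.pi) ≠ 0 := (Real.sqrt_pos.2 (by positivity)).ne'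
  unfold kap
  field_simp

theorem Opt.norm_pos {k : ℕ} (hk : 2 ≤ k) {lam : ℝ} {v : Fin k → V k} {A : Fin k → Set (V k)}
    (o : Opt k lam v A) (i : Fin k) : 0 < ‖v i‖ := by
  have : Nontrivial (Fin k) := Fin.nontrivial_iff_two_le.2 hk
  obtain ⟨j, hj⟩ := exists_ne i
  rw [norm_pos_iff]
  intro h
  have := o.neg j i hj
  rw [h, inner_zero_right] at this
  exact lt_irrefl _ this

/-- division by the norm -/
theorem d3b_div {k : ℕ} (hk : 2 ≤ k) {lam : ℝ} {v : Fin k → V k} {A : Fin k → Set (V k)}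
    (o : Opt k lam v A) (i : Fin k) (t R : ℝ) (ht : 0 < t)
    (h : t * (√(2 * Real.pi) * ⟪∫ x in A i, x ∂stdGaussian (V k), v i⟫) ≤ ‖v i‖ * R) :
    (3 / 2) * ‖v i‖ * t < R := by
  have hp := o.norm_pos hk i
  rw [o.integ i, real_inner_smul_left, real_inner_self_eq_norm_sq] at h
  have h2 : √(2 * Real.pi) * kap < √(2 * Real.pi) * lam :=
    mul_lt_mul_of_pos_left o.hlam (Real.sqrt_pos.2 (by positivity))
  rw [sqrt_two_pi_mul_kap] at h2
  have h3 : ‖v i‖ * ((3 / 2) * ‖v i‖ * t) < ‖v i‖ * R := by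
    refine lt_of_lt_of_le ?_ h
    have h4 : 0 < t * ‖v i‖ ^ 2 := by positivity
    nlinarith [mul_lt_mul_of_pos_left h2 h4]
  exact lt_of_mul_lt_mul_left h3 hp.le

theorem Opt.cap3 {k : ℕ} (hk : 2 ≤ k) {lam : ℝ} {v : Fin k → V k} {A : Fin k → Set (V k)}
    (o : Opt k lam v A) (S : Submodule ℝ (V k)) (hd : Module.finrank ℝ S = 3) (i : Fin k)
    (hi : v i ∈ S) (c : ℝ) (hc0 : 0 ≤ c) (hc1 : c ≤ 1) :
    (3 / 2) * ‖v i‖ < (1 - c) ^ 2 + 4 * c * share S (A i) := by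
  have h := S0334.cap3 S hd (A i) (o.meas i) (v i) hi c hc0 hc1
  have := d3b_div hk o i 1 _ one_pos (by rw [one_mul]; exact h)
  rwa [mul_one] at this

theorem Opt.cap4 {k : ℕ} (hk : 2 ≤ k) {lam : ℝ} {v : Fin k → V k} {A : Fin k → Set (V k)}
    (o : Opt k lam v A) (S : Submodule ℝ (V k)) (hd : Module.finrank ℝ S = 4) (i : Fin k)
    (hi : v i ∈ S) (a : ℝ) (ha0 : 0 ≤ a) (ha1 : a ≤ Real.pi / 2) :
    (3 / 2) * ‖v i‖ < Real.sin a ^ 3 - (3 / 2) * Real.cos a * (a - Real.sin a * Real.cos a) +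
        (3 * Real.pi / 2) * Real.cos a * share S (A i) := by
  have h := S0334.cap4 S hd (A i) (o.meas i) (v i) hi a ha0 ha1
  have := d3b_div hk o i 1 _ one_pos (by rw [one_mul]; exact h)
  rwa [mul_one] at this

theorem Opt.cap5 {k : ℕ} (hk : 2 ≤ k) {lam : ℝ} {v : Fin k → V k} {A : Fin k → Set (V k)}
    (o : Opt k lam v A) (S : Submodule ℝ (V k)) (hd : Module.finrank ℝ S = 5) (i : Fin k)
    (hi : v i ∈ S) (c : ℝ) (hc0 : 0 ≤ c) (hc1 : c ≤ 1) :
    (3 / 2) * ‖v i‖ < (1 - c) ^ 3 * (3 + c) / 3 + (16 / 3) * c * share S (A i) := by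
  have h := S0334.cap5 S hd (A i) (o.meas i) (v i) hi c hc0 hc1
  have := d3b_div hk o i 1 _ one_pos (by rw [one_mul]; exact h)
  rwa [mul_one] at this

theorem Opt.cap7 {k : ℕ} (hk : 2 ≤ k) {lam : ℝ} {v : Fin k → V k} {A : Fin k → Set (V k)}
    (o : Opt k lam v A) (S : Submodule ℝ (V k)) (hd : Module.finrank ℝ S = 7) (i : Fin k)
    (hi : v i ∈ S) (c : ℝ) (hc0 : 0 ≤ c) (hc1 : c ≤ 1) :
    (3 / 2) * ‖v i‖ < (1 - c) ^ 4 * (5 + 4 * c + c ^ 2) / 5 + (32 / 5) * c * share S (A i) := by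
  have h := S0334.cap7 S hd (A i) (o.meas i) (v i) hi c hc0 hc1
  have := d3b_div hk o i 1 _ one_pos (by rw [one_mul]; exact h)
  rwa [mul_one] at this

theorem Opt.vert7 {k : ℕ} (hk : 2 ≤ k) {lam : ℝ} {v : Fin k → V k} {A : Fin k → Set (V k)}
    (o : Opt k lam v A) (S : Submodule ℝ (V k)) (hd : Module.finrank ℝ S = 7) (i : Fin k)
    (c : ℝ) (hc0 : 0 ≤ c) (hc1 : c < 1) :
    (3 / 2) * ‖v i‖ * √(1 - c ^ 2) <
      (1 - c) ^ 3 * (3 + c) / 3 + (32 / 5) * c * share S (A i) := by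
  have h := S0334.vert7 S hd (A i) (o.meas i) (v i) c hc0 hc1
  exact d3b_div hk o i (√(1 - c ^ 2)) _ (Real.sqrt_pos.2 (by nlinarith)) h

/-- the unit normalisation of the cells. -/
theorem Opt.sum_share {k : ℕ} {lam : ℝ} {v : Fin k → V k} {A : Fin k → Set (V k)}
    (o : Opt k lam v A) (S : Submodule ℝ (V k)) (hS : S ≠ ⊥) : ∑ i, share S (A i) = 1 :=
  S0334.sum_share S hS A o.meas o.disj o.cover

/-- extension of a subspace to a prescribed larger dimension. -/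
theorem d3b_extend {F : Type*} [AddCommGroup F] [Module ℝ F] [Module.Finite ℝ F]
    (T : Submodule ℝ F) (n : ℕ) (hn : Module.finrank ℝ T + n ≤ Module.finrank ℝ F) :
    ∃ S : Submodule ℝ F, T ≤ S ∧ Module.finrank ℝ S = Module.finrank ℝ T + n := by
  induction n with
  | zero => exact ⟨T, le_rfl, rfl⟩
  | succ n ih =>
    obtain ⟨S, hTS, hS⟩ := ih (by omega)
    have hne : S ≠ ⊤ := by
      intro h
      rw [h, finrank_top] at hS
      omega
    obtain ⟨x, -, hx⟩ := SetLike.exists_of_lt (lt_top_iff_ne_top.2 hne)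
    refine ⟨S ⊔ Submodule.span ℝ {x}, hTS.trans le_sup_left, ?_⟩
    rw [Submodule.finrank_sup_span_singleton hx, hS]
    rfl

theorem d3b_extend' {F : Type*} [AddCommGroup F] [Module ℝ F] [Module.Finite ℝ F]
    (T : Submodule ℝ F) (d : ℕ) (hd : Module.finrank ℝ T ≤ d) (hd' : d ≤ Module.finrank ℝ F) :
    ∃ S : Submodule ℝ F, T ≤ S ∧ Module.finrank ℝ S = d := by
  obtain ⟨S, h1, h2⟩ := d3b_extend T (d - Module.finrank ℝ T) (by omega)
  exact ⟨S, h1, by omega⟩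

/-- a subspace of exact dimension `d` containing the first `d` vectors (`d ≤ k`). -/
theorem exists_subspace {k d : ℕ} (hd : d ≤ k) (v : Fin k → V k) :
    ∃ S : Submodule ℝ (V k), Module.finrank ℝ S = d ∧ ∀ i : Fin k, (i : ℕ) < d → v i ∈ S := by
  set u : Fin d → V k := fun j => v ⟨j, j.2.trans_le hd⟩ with hu
  have h1 : Module.finrank ℝ (Submodule.span ℝ (Set.range u)) ≤ d := by
    have := finrank_range_le_card (R := ℝ) u
    rwa [Fintype.card_fin] at this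
  obtain ⟨S, hS, hS'⟩ := d3b_extend' _ d h1 (by simpa using hd)
  refine ⟨S, hS', fun i hi => hS (Submodule.subset_span ⟨⟨i, hi⟩, ?_⟩)⟩
  rfl

/-- if `∑ v i = 0` then `k - 1` dimensions contain all the vectors. -/
theorem exists_subspace_of_sum_eq_zero {k : ℕ} (hk : 1 ≤ k) (v : Fin k → V k)
    (hsum : ∑ i, v i = 0) :
    ∃ S : Submodule ℝ (V k), Module.finrank ℝ S = k - 1 ∧ ∀ i : Fin k, v i ∈ S := by
  obtain ⟨S, hS, hS'⟩ := exists_subspace (Nat.sub_le k 1) v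
  refine ⟨S, hS, fun i => ?_⟩
  by_cases hi : (i : ℕ) < k - 1
  · exact hS' i hi
  · have h1 : v i = -∑ j ∈ Finset.univ.erase i, v j := by
      rw [← Finset.add_sum_erase _ _ (Finset.mem_univ i)] at hsum
      exact eq_neg_of_add_eq_zero_left hsum
    rw [h1]
    refine S.neg_mem (S.sum_mem fun j hj => hS' j ?_)
    have hji : j ≠ i := (Finset.mem_erase.1 hj).1
    have : (j : ℕ) ≠ i := fun h => hji (Fin.ext h)
    have := j.2
    have := i.2
    omega

end Crest.Agent.S0334
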