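import Mathlib

/-!
# S0334 (propeller conjecture): basic definitions
-/

set_option autoImplicit false

open MeasureTheory ProbabilityTheory
open scoped RealInnerProductSpace

namespace Crest.Agent.S0334

/-- `κ = 3 / (2 √(2π))`, so that `κ² = 9/(8π)`. -/
noncomputable def kap : ℝ := 3 / (2 * √(2 * Real.pi))

/-- Standard Euclidean space. -/
abbrev V (n : ℕ) := EuclideanSpace ℝ (Fin n)

/-- `mx v x = max_i ⟪x, v i⟫` (for `0 < k`). -/
noncomputable def mx {E : Type*} [NormedAddCommGroup E] [InnerProductSpace ℝ E]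
    {k : ℕ} (v : Fin k → E) (x : E) : ℝ := ⨆ i, ⟪x, v i⟫

/-- `F v = E max_i ⟪X, v i⟫`, `X` standard Gaussian. -/
noncomputable def F {E : Type*} [NormedAddCommGroup E] [InnerProductSpace ℝ E]
    [FiniteDimensional ℝ E] [MeasurableSpace E] [BorelSpace E]
    {k : ℕ} (v : Fin k → E) : ℝ := ∫ x, mx v x ∂stdGaussian E

/-- The vector inequality for `k` vectors. -/
def VB (k : ℕ) : Prop :=
  ∀ (n : ℕ) (v : Fin k → V n), F v ≤ kap * √(∑ i, ‖v i‖ ^ 2)

/-- A maximizer of `F` on `∑ ‖v i‖² = 1` violating the bound, with its (Voronoi-type) cells. -/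
structure Opt (k : ℕ) (lam : ℝ) (v : Fin k → V k) (A : Fin k → Set (V k)) : Prop where
  hlam : kap < lam
  meas : ∀ i, MeasurableSet (A i)
  disj : Pairwise fun i j => Disjoint (A i) (A j)
  cover : ⋃ i, A i = Set.univ
  cell : ∀ i, ∀ x ∈ A i, ∀ j, ⟪x, v j⟫ ≤ ⟪x, v i⟫
  integ : ∀ i, ∫ x in A i, x ∂stdGaussian (V k) = lam • v i
  normSq : ∑ i, ‖v i‖ ^ 2 = 1
  sum : ∑ i, v i = 0
  neg : ∀ i j, i ≠ j → ⟪v i, v j⟫ < 0
  anti : Antitone fun i => ‖v i‖

/-- norm of the orthogonal projection of `x` to the subspace `S`. -/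
noncomputable def RR {E : Type*} [NormedAddCommGroup E] [InnerProductSpace ℝ E]
    [FiniteDimensional ℝ E] (S : Submodule ℝ E) (x : E) : ℝ := ‖S.starProjection x‖

/-- share of the cell `A` in the measure with density `RR S`. -/
noncomputable def share {E : Type*} [NormedAddCommGroup E] [InnerProductSpace ℝ E]
    [FiniteDimensional ℝ E] [MeasurableSpace E] [BorelSpace E]
    (S : Submodule ℝ E) (A : Set E) : ℝ :=
  (∫ x in A, RR S x ∂stdGaussian E) / ∫ x, RR S x ∂stdGaussian E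

end Crest.Agent.S0334
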