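import Crest.Agent.S0334_Defs

set_option autoImplicit false

open MeasureTheory ProbabilityTheory
open scoped RealInnerProductSpace

namespace Crest.Agent.S0334

variable {E : Type*} [NormedAddCommGroup E] [InnerProductSpace ℝ E]
  [FiniteDimensional ℝ E] [MeasurableSpace E] [BorelSpace E]

/-! ### E1a: the integral in the cubic lemma -/

section E1a

open scoped ENNReal
open Set

/-- step function -/
private noncomputable def st (x : ℝ) : ℝ≥0∞ := (Ioi (0:ℝ)).indicator 1 x

private lemma st_meas : Measurable st :=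
  (measurable_one).indicator measurableSet_Ioi

private lemma e1a_conv (w F : ℝ → ℝ≥0∞) (hw : Measurable w) (hF : Measurable F) :
    ∫⁻ x, ∫⁻ y, st x * (w y * F (x + y)) = ∫⁻ u, (∫⁻ y, st (u - y) * w y) * F u := by
  have h1 : ∀ x : ℝ, ∫⁻ y, st x * (w y * F (x + y)) = ∫⁻ u, st x * (w (u - x) * F u) := by
    intro x
    rw [← lintegral_add_right_eq_self (fun u => st x * (w (u - x) * F u)) x]
    refine lintegral_congr fun y => ?_
    simp [add_comm]
  have hst := st_meas
  simp_rw [h1]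
  rw [lintegral_lintegral_swap]
  · refine lintegral_congr fun u => ?_
    rw [← lintegral_mul_const _ (by fun_prop)]
    rw [← lintegral_sub_left_eq_self (fun y => st (u - y) * w y * F u) u]
    refine lintegral_congr fun y => ?_
    simp only [sub_sub_cancel]
    ring
  · apply Measurable.aemeasurable
    simp only [Function.uncurry_def]
    fun_prop

/-- the weight `v_+^n / n!` -/
private noncomputable def wt (n : ℕ) (v : ℝ) : ℝ≥0∞ := st v * ENNReal.ofReal (v ^ n / n.factorial)

private lemma wt_meas (n : ℕ) : Measurable (wt n) := by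
  unfold wt
  have := st_meas
  fun_prop

private lemma wt_zero (v : ℝ) : wt 0 v = st v := by simp [wt]

private lemma e1a_prim (n : ℕ) (u : ℝ) : ∫⁻ y, st (u - y) * wt n y = wt (n + 1) u := by
  by_cases hu : 0 < u
  · have h1 : ∀ y : ℝ, st (u - y) * wt n y =
        (Ioo 0 u).indicator (fun y => ENNReal.ofReal (y ^ n / n.factorial)) y := by
      intro y
      unfold wt st
      by_cases h1 : 0 < y <;> by_cases h2 : y < u <;>
        simp [indicator, h1, h2]
    simp_rw [h1]
    rw [lintegral_indicator measurableSet_Ioo]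
    rw [← ofReal_integral_eq_lintegral_ofReal]
    · rw [← integral_Ioc_eq_integral_Ioo, ← intervalIntegral.integral_of_le hu.le]
      simp only [wt, st, indicator, mem_Ioi, hu, if_true, Pi.one_apply, one_mul]
      congr 1
      rw [intervalIntegral.integral_div, integral_pow]
      rw [Nat.factorial_succ]
      push_cast
      field_simp
      simp
    · exact ((continuous_pow n).div_const _).integrableOn_Ioc.mono_set Ioo_subset_Ioc_self
    · rw [Filter.EventuallyLE, ae_restrict_iff' measurableSet_Ioo]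
      filter_upwards with y hy
      have := hy.1
      positivity
  · have h1 : ∀ y : ℝ, st (u - y) * wt n y = 0 := by
      intro y
      unfold wt st
      by_cases h1 : 0 < y
      · have h2 : ¬ (y < u) := by intro h; exact hu (h1.trans h)
        simp [indicator, h2]
      · simp [indicator, h1]
    simp_rw [h1]
    simp [wt, st, indicator, hu]

/-- convolution step -/
private lemma e1a_step (n : ℕ) (F : ℝ → ℝ≥0∞) (hF : Measurable F) :
    ∫⁻ x, ∫⁻ y, st x * (wt n y * F (x + y)) = ∫⁻ u, wt (n + 1) u * F u := by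
  rw [e1a_conv _ _ (wt_meas n) hF]
  simp_rw [e1a_prim]

private lemma e1a_fin3 (Φ : ℝ → ℝ → ℝ → ℝ≥0∞) 
    (hΦ : Measurable (fun q : ℝ × ℝ × ℝ => Φ q.1 q.2.1 q.2.2)) :
    ∫⁻ p : Fin 3 → ℝ, Φ (p 0) (p 1) (p 2) = ∫⁻ x, ∫⁻ y, ∫⁻ z, Φ x y z := by
  have h1 := (volume_preserving_piFinSuccAbove (fun _ : Fin 3 => ℝ) 0)
  have h2 := (volume_preserving_piFinTwo (fun _ : Fin 2 => ℝ))
  have e1 : ∫⁻ p : Fin 3 → ℝ, Φ (p 0) (p 1) (p 2) = 
      ∫⁻ q : ℝ × (Fin 2 → ℝ), Φ q.1 (q.2 0) (q.2 1) := by
    rw [← h1.lintegral_comp_emb (MeasurableEquiv.measurableEmbedding _)]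
    refine lintegral_congr fun p => ?_
    rfl
  rw [e1]
  rw [Measure.volume_eq_prod, lintegral_prod]
  · refine lintegral_congr fun x => ?_
    have e2 : ∫⁻ q : Fin 2 → ℝ, Φ x (q 0) (q 1) = ∫⁻ q : ℝ × ℝ, Φ x q.1 q.2 := by
      rw [← h2.lintegral_comp_emb (MeasurableEquiv.measurableEmbedding _)]
      refine lintegral_congr fun p => ?_
      rfl
    refine e2.trans ?_
    rw [Measure.volume_eq_prod, lintegral_prod]
    exact (hΦ.comp (by fun_prop : Measurable (fun q : ℝ × ℝ => (x, q)))).aemeasurable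
  · exact (hΦ.comp (by fun_prop : Measurable (fun q : ℝ × (Fin 2 → ℝ) => (q.1, q.2 0, q.2 1)))).aemeasurable

private lemma e1a_triple (G : ℝ → ℝ≥0∞) (hG : Measurable G) :
    ∫⁻ p : Fin 3 → ℝ, st (p 0) * (st (p 1) * (st (p 2) * G (p 0 + p 1 + p 2))) =
      ∫⁻ v, wt 2 v * G v := by
  have hst := st_meas
  rw [e1a_fin3 (fun x y z => st x * (st y * (st z * G (x + y + z)))) (by fun_prop)]
  have h1 : ∀ x : ℝ, ∫⁻ y, ∫⁻ z, st x * (st y * (st z * G (x + y + z))) =
      ∫⁻ u, st x * (wt 1 u * G (x + u)) := by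
    intro x
    have := e1a_step 0 (fun u => G (x + u)) (by fun_prop)
    simp only [wt_zero, zero_add] at this
    rw [lintegral_const_mul _ (by have := wt_meas 1; fun_prop), ← this]
    have h2 : ∀ y : ℝ, ∫⁻ z, st x * (st y * (st z * G (x + y + z))) = 
        st x * ∫⁻ z, st y * (st z * G (x + (y + z))) := by
      intro y
      rw [lintegral_const_mul _ (by fun_prop)]
      simp_rw [add_assoc]
    simp_rw [h2]
    rw [lintegral_const_mul]
    apply Measurable.lintegral_prod_right' (f := fun q : ℝ × ℝ => st q.1 * (st q.2 * G (x + (q.1 + q.2))))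
    fun_prop
  simp_rw [h1]
  exact e1a_step 1 G hG

private lemma e1a_layer (m : ℝ) : ENNReal.ofReal (max m 0) = 
    ENNReal.ofReal (1/3) * ∫⁻ h, st h * st (m - h / 3) := by
  have h1 : ∀ h : ℝ, st h * st (m - h / 3) = (Ioo 0 (3 * m)).indicator 1 h := by
    intro h
    unfold st
    by_cases h1 : 0 < h <;> by_cases h2 : h / 3 < m
    · have h3 : h < 3 * m := by linarith
      simp [indicator, h1, h2, h3]
    · have h3 : ¬ (h < 3 * m) := by intro h4; exact h2 (by linarith)
      simp [indicator, h1, h2, h3]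
    · simp [indicator, h1]
    · simp [indicator, h1]
  simp_rw [h1]
  rw [lintegral_indicator_one measurableSet_Ioo, Real.volume_Ioo, ← ENNReal.ofReal_mul (by norm_num)]
  rcases le_total 0 m with h | h
  · rw [max_eq_left h]; congr 1; ring
  · rw [max_eq_right h, ENNReal.ofReal_of_nonpos le_rfl, ENNReal.ofReal_of_nonpos]
    linarith

private lemma st_min (a b h : ℝ) : st (min a b - h) = st (a - h) * st (b - h) := by
  unfold st
  by_cases h1 : h < a <;> by_cases h2 : h < b <;> simp [indicator, h1, h2]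

private lemma e1a_lintegral (g : ℝ → ℝ≥0∞) (hg : Measurable g) :
    ∫⁻ p : Fin 3 → ℝ, ENNReal.ofReal (max (min (p 0) (min (p 1) (p 2))) 0) * g (p 0 + p 1 + p 2)
      = ENNReal.ofReal (1/3) * ∫⁻ v, wt 3 v * g v := by
  have hst := st_meas
  have h1 : ∀ p : Fin 3 → ℝ, 
      ENNReal.ofReal (max (min (p 0) (min (p 1) (p 2))) 0) * g (p 0 + p 1 + p 2) =
      ∫⁻ h, ENNReal.ofReal (1/3) * (st h * (st (p 0 - h/3) * (st (p 1 - h/3) * 
        (st (p 2 - h/3) * g (p 0 + p 1 + p 2))))) := by
    intro p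
    rw [e1a_layer, lintegral_const_mul _ (by fun_prop), mul_assoc]
    congr 1
    rw [← lintegral_mul_const _ (by fun_prop)]
    refine lintegral_congr fun h => ?_
    rw [st_min, st_min]
    ring
  simp_rw [h1]
  rw [lintegral_lintegral_swap]
  swap
  · apply Measurable.aemeasurable
    simp only [Function.uncurry_def]
    fun_prop
  have h2 : ∀ h : ℝ, ∫⁻ p : Fin 3 → ℝ, ENNReal.ofReal (1/3) * (st h * (st (p 0 - h/3) * 
      (st (p 1 - h/3) * (st (p 2 - h/3) * g (p 0 + p 1 + p 2))))) =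
      ENNReal.ofReal (1/3) * ∫⁻ v, st h * (wt 2 v * g (h + v)) := by
    intro h
    rw [lintegral_const_mul _ (by fun_prop), lintegral_const_mul _ (by fun_prop), 
      lintegral_const_mul _ (by have := wt_meas 2; fun_prop)]
    congr 2
    rw [← e1a_triple (fun v => g (h + v)) (by fun_prop)]
    rw [← lintegral_add_right_eq_self _ (fun _ => h / 3)]
    refine lintegral_congr fun p => ?_
    simp only [Pi.add_apply, add_sub_cancel_right]
    congr 4
    ring
  simp_rw [h2]
  rw [lintegral_const_mul]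
  · rw [e1a_step 2 g hg]
  · apply Measurable.lintegral_prod_right' (f := fun q : ℝ × ℝ => st q.1 * (wt 2 q.2 * g (q.1 + q.2)))
    have := wt_meas 2
    fun_prop

private lemma e1a_gauss (s : ℝ) (hs : 0 < s) : 
    ∫⁻ v, wt 3 v * ENNReal.ofReal (Real.exp (-v ^ 2 / (2 * s ^ 2))) = ENNReal.ofReal (s ^ 4 / 3) := by
  have hb : 0 < 1 / (2 * s ^ 2) := by positivity
  have h1 : ∀ v : ℝ, wt 3 v * ENNReal.ofReal (Real.exp (-v ^ 2 / (2 * s ^ 2))) = 
      (Ioi (0:ℝ)).indicator (fun v => ENNReal.ofReal (v ^ (3:ℝ) * Real.exp (- (1 / (2 * s ^ 2)) * v ^ (2:ℝ)) / 6)) v := by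
    intro v
    unfold wt st
    by_cases hv : 0 < v
    · simp only [indicator, mem_Ioi, hv, if_true, Pi.one_apply, one_mul]
      rw [← ENNReal.ofReal_mul (by positivity)]
      congr 1
      have e3 : v ^ (3:ℝ) = v ^ 3 := by exact_mod_cast Real.rpow_natCast v 3
      have e2 : v ^ (2:ℝ) = v ^ 2 := by exact_mod_cast Real.rpow_natCast v 2
      rw [e3, e2]
      have : -v ^ 2 / (2 * s ^ 2) = - (1 / (2 * s ^ 2)) * v ^ 2 := by ring
      rw [this]
      simp [Nat.factorial]
      ring
    · simp [indicator, hv]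
  simp_rw [h1]
  rw [lintegral_indicator measurableSet_Ioi, ← ofReal_integral_eq_lintegral_ofReal]
  · congr 1
    rw [integral_div, integral_rpow_mul_exp_neg_mul_rpow (by norm_num) (by norm_num) hb]
    have : ((3:ℝ) + 1) / 2 = 2 := by norm_num
    rw [neg_div, this, Real.Gamma_two, Real.rpow_neg hb.le, Real.rpow_two]
    field_simp
    norm_num
  · have := integrableOn_rpow_mul_exp_neg_mul_sq hb (s := 3) (by norm_num)
    refine Integrable.div_const ?_ 6
    refine this.congr ?_
    filter_upwards with v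
    have e2 : v ^ (2:ℝ) = v ^ 2 := by exact_mod_cast Real.rpow_natCast v 2
    rw [e2]
  · rw [Filter.EventuallyLE, ae_restrict_iff' measurableSet_Ioi]
    filter_upwards with y hy
    have : 0 < y := hy
    positivity

private lemma e1a_total (s : ℝ) (hs : 0 < s) :
    ∫⁻ p : Fin 3 → ℝ, ENNReal.ofReal (max (min (p 0) (min (p 1) (p 2))) 0 *
      Real.exp (-(p 0 + p 1 + p 2) ^ 2 / (2 * s ^ 2))) = ENNReal.ofReal (s ^ 4 / 9) := by
  have h1 : ∀ p : Fin 3 → ℝ, ENNReal.ofReal (max (min (p 0) (min (p 1) (p 2))) 0 *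
      Real.exp (-(p 0 + p 1 + p 2) ^ 2 / (2 * s ^ 2))) = 
      ENNReal.ofReal (max (min (p 0) (min (p 1) (p 2))) 0) * 
      (fun v : ℝ => ENNReal.ofReal (Real.exp (-v ^ 2 / (2 * s ^ 2)))) (p 0 + p 1 + p 2) := by
    intro p
    rw [ENNReal.ofReal_mul (le_max_right _ _)]
  refine (lintegral_congr h1).trans ((e1a_lintegral
    (fun v : ℝ => ENNReal.ofReal (Real.exp (-v ^ 2 / (2 * s ^ 2)))) (by fun_prop)).trans ?_)
  rw [e1a_gauss s hs, ← ENNReal.ofReal_mul (by norm_num)]
  congr 1
  ring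

end E1a

/-- `∫_{p ≥ 0} min(p₀,p₁,p₂) exp(-(p₀+p₁+p₂)²/(2 s²)) dp = s⁴/9` -/
theorem integral_min_exp (s : ℝ) (hs : 0 < s) :
    ∫ p : Fin 3 → ℝ, max (min (p 0) (min (p 1) (p 2))) 0 *
      Real.exp (-(p 0 + p 1 + p 2) ^ 2 / (2 * s ^ 2)) = s ^ 4 / 9 := by
  rw [integral_eq_lintegral_of_nonneg_ae, e1a_total s hs, ENNReal.toReal_ofReal (by positivity)]
  · filter_upwards with p
    exact mul_nonneg (le_max_right _ _) (Real.exp_pos _).le
  · exact (by fun_prop : Measurable _).aestronglyMeasurable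

/-- the same integrand is integrable. -/
theorem integrable_min_exp (s : ℝ) (hs : 0 < s) :
    Integrable (fun p : Fin 3 → ℝ => max (min (p 0) (min (p 1) (p 2))) 0 *
      Real.exp (-(p 0 + p 1 + p 2) ^ 2 / (2 * s ^ 2))) := by
  refine ⟨(by fun_prop : Measurable _).aestronglyMeasurable, ?_⟩
  rw [hasFiniteIntegral_iff_ofReal, e1a_total s hs]
  · exact ENNReal.ofReal_lt_top
  · filter_upwards with p
    exact mul_nonneg (le_max_right _ _) (Real.exp_pos _).le

end Crest.Agent.S0334
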