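import Crest.Agent.S0334_E1a
import Crest.Agent.S0334_A1
import Crest.Agent.S0334_A2
import Crest.Agent.S0334_A3

set_option autoImplicit false

open MeasureTheory ProbabilityTheory
open scoped RealInnerProductSpace

namespace Crest.Agent.S0334

variable {E : Type*} [NormedAddCommGroup E] [InnerProductSpace ℝ E]
  [FiniteDimensional ℝ E] [MeasurableSpace E] [BorelSpace E]

/-! ### E1b: the cubic lemma -/

/-- the truncated minimum of three coordinates -/
noncomputable def mn3 (p : Fin 3 → ℝ) : ℝ := max (min (p 0) (min (p 1) (p 2))) 0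

theorem mn3_continuous : Continuous mn3 := by
  unfold mn3
  fun_prop

theorem mn3_nonneg (p : Fin 3 → ℝ) : 0 ≤ mn3 p := le_max_right _ _

/-- linear change of variables `V 3 → (Fin 3 → ℝ)`. -/
theorem lin_change (W : Matrix (Fin 3) (Fin 3) ℝ) (hW : W.det ≠ 0)
    (g : (Fin 3 → ℝ) → ℝ) (hg : Continuous g) :
    (∫ x : V 3, g (W.mulVec (WithLp.ofLp x))) = |W.det|⁻¹ * ∫ p, g p ∧
    (Integrable g → Integrable (fun x : V 3 => g (W.mulVec (WithLp.ofLp x)))) := by
  have h1 : MeasurePreserving (fun x : V 3 => WithLp.ofLp x) volume volume :=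
    PiLp.volume_preserving_ofLp (Fin 3)
  have hmp := Real.map_matrix_volume_pi_eq_smul_volume_pi hW
  have hcont : Continuous (Matrix.toLin' W) := LinearMap.continuous_of_finiteDimensional _
  have hme : AEMeasurable (Matrix.toLin' W) (volume : Measure (Fin 3 → ℝ)) :=
    hcont.measurable.aemeasurable
  constructor
  · have e1 : (∫ x : V 3, g (W.mulVec (WithLp.ofLp x))) = ∫ y : Fin 3 → ℝ, g (W.mulVec y) := by
      have := h1.integral_comp (MeasurableEquiv.toLp 2 (Fin 3 → ℝ)).symm.measurableEmbedding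
        (fun y => g (W.mulVec y))
      simpa using this
    rw [e1]
    have e2 : (∫ y : Fin 3 → ℝ, g (W.mulVec y)) =
        ∫ p, g p ∂(Measure.map (Matrix.toLin' W) volume) := by
      rw [integral_map hme hg.aestronglyMeasurable]
      rfl
    rw [e2, hmp, integral_smul_measure, ENNReal.toReal_ofReal (abs_nonneg _), abs_inv, smul_eq_mul]
  · intro hi
    have e2 : Integrable (fun y : Fin 3 → ℝ => g (W.mulVec y)) := by
      have : Integrable g (Measure.map (Matrix.toLin' W) volume) := by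
        rw [hmp]
        exact hi.smul_measure ENNReal.ofReal_ne_top
      have h3 := (integrable_map_measure hg.aestronglyMeasurable hme).1 this
      exact h3
    have := (h1.integrable_comp_emb
      (MeasurableEquiv.toLp 2 (Fin 3 → ℝ)).symm.measurableEmbedding
      (g := fun y => g (W.mulVec y))).2 e2
    exact this

/-- `E (min_j ⟪X, a j⟫)₊ ≤ ‖a₀+a₁+a₂‖⁴ / (9 (2π)^{3/2} √det Gram(a))`.
Reduce to `a : Fin 3 → V 3` (`exists_gram_realization`, `law_eq_of_gram`), write the Gaussian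
density, bound `‖x‖² ≥ ⟪x,s⟫²/‖s‖²`, `s = a₀+a₁+a₂`, and substitute `p j = ⟪x, a j⟫`
(linear map with `|det| = √det Gram`). -/
theorem cubic_bound (a : Fin 3 → E)
    (hdet : 0 < (Matrix.of fun i j : Fin 3 => ⟪a i, a j⟫).det) :
    ∫ x, max (min ⟪x, a 0⟫ (min ⟪x, a 1⟫ ⟪x, a 2⟫)) 0 ∂stdGaussian E ≤
      ‖a 0 + a 1 + a 2‖ ^ 4 /
        (9 * (√(2 * Real.pi)) ^ 3 * √((Matrix.of fun i j : Fin 3 => ⟪a i, a j⟫).det)) := by
  obtain ⟨w, hw⟩ := exists_gram_realization a
  have hlaw := law_eq_of_gram w a hw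
  -- transfer
  have hL : ∫ x, max (min ⟪x, a 0⟫ (min ⟪x, a 1⟫ ⟪x, a 2⟫)) 0 ∂stdGaussian E =
      ∫ x, mn3 (fun i => ⟪x, w i⟫) ∂stdGaussian (V 3) := by
    have m1 : AEMeasurable (fun x (i : Fin 3) => ⟪x, a i⟫) (stdGaussian E) := by
      have : Continuous (fun x (i : Fin 3) => ⟪x, a i⟫) := by fun_prop
      exact this.measurable.aemeasurable
    have m2 : AEMeasurable (fun x (i : Fin 3) => ⟪x, w i⟫) (stdGaussian (V 3)) := by
      have : Continuous (fun x (i : Fin 3) => ⟪x, w i⟫) := by fun_prop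
      exact this.measurable.aemeasurable
    have e1 := integral_map (f := mn3) m1 mn3_continuous.aestronglyMeasurable
    have e2 := integral_map (f := mn3) m2 mn3_continuous.aestronglyMeasurable
    rw [← hlaw] at e1
    rw [← e2, e1]
    rfl
  -- matrix
  set W : Matrix (Fin 3) (Fin 3) ℝ := Matrix.of fun i j => (w i) j with hWdef
  have hmul : ∀ x : V 3, W.mulVec (WithLp.ofLp x) = fun i => ⟪x, w i⟫ := by
    intro x
    funext i
    simp [hWdef, Matrix.mulVec, dotProduct, PiLp.inner_apply]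
  have hGram : (Matrix.of fun i j : Fin 3 => ⟪a i, a j⟫) = W * W.transpose := by
    ext i j
    rw [Matrix.of_apply, ← hw i j]
    simp [hWdef, Matrix.mul_apply, PiLp.inner_apply, mul_comm]
  have hdetW : (Matrix.of fun i j : Fin 3 => ⟪a i, a j⟫).det = W.det ^ 2 := by
    rw [hGram, Matrix.det_mul, Matrix.det_transpose, sq]
  have hW0 : W.det ≠ 0 := by
    intro h
    rw [hdetW, h] at hdet
    norm_num at hdet
  set s : V 3 := w 0 + w 1 + w 2 with hs
  have hsn : ‖a 0 + a 1 + a 2‖ = ‖s‖ := by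
    have h2 : ‖a 0 + a 1 + a 2‖ ^ 2 = ‖s‖ ^ 2 := by
      rw [← real_inner_self_eq_norm_sq, ← real_inner_self_eq_norm_sq, hs]
      simp only [inner_add_left, inner_add_right, hw]
    exact (sq_eq_sq₀ (norm_nonneg _) (norm_nonneg _)).1 h2
  have hspos : 0 < ‖s‖ := by
    rw [norm_pos_iff]
    intro h0
    -- then the rows of W are dependent
    apply hW0
    have hv : Matrix.vecMul (fun _ => (1 : ℝ)) W = 0 := by
      funext j
      have := congrArg (fun z : V 3 => z j) h0
      simp only [hs, PiLp.add_apply, PiLp.zero_apply] at this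
      simp [Matrix.vecMul, dotProduct, Fin.sum_univ_three, hWdef, this]
    by_contra hne
    have hinj := (Matrix.eq_zero_of_vecMul_eq_zero hne hv)
    have := congrFun hinj 0
    simp at this
  set g : (Fin 3 → ℝ) → ℝ := fun p => mn3 p *
      Real.exp (-(p 0 + p 1 + p 2) ^ 2 / (2 * ‖s‖ ^ 2)) with hg
  have hgc : Continuous g := by
    have := mn3_continuous
    rw [hg]
    fun_prop
  have hgi : Integrable g := integrable_min_exp ‖s‖ hspos
  have hgv : ∫ p, g p = ‖s‖ ^ 4 / 9 := integral_min_exp ‖s‖ hspos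
  obtain ⟨hch1, hch2⟩ := lin_change W hW0 g hgc
  rw [hL, integral_stdGaussian_V]
  have hmono : ∫ x : V 3, Real.exp (-‖x‖ ^ 2 / 2) * mn3 (fun i => ⟪x, w i⟫) ≤
      ∫ x : V 3, g (W.mulVec (WithLp.ofLp x)) := by
    apply integral_mono_of_nonneg
    · exact Filter.Eventually.of_forall fun x => mul_nonneg (Real.exp_pos _).le (mn3_nonneg _)
    · exact hch2 hgi
    · refine Filter.Eventually.of_forall fun x => ?_
      simp only [hmul, hg]
      rw [mul_comm]
      apply mul_le_mul_of_nonneg_left _ (mn3_nonneg _)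
      apply Real.exp_le_exp.2
      have h1 : ⟪x, w 0⟫ + ⟪x, w 1⟫ + ⟪x, w 2⟫ = ⟪x, s⟫ := by
        rw [hs, inner_add_right, inner_add_right]
      rw [h1]
      have h2 : ⟪x, s⟫ ^ 2 ≤ ‖x‖ ^ 2 * ‖s‖ ^ 2 := by
        have := abs_real_inner_le_norm x s
        rw [← mul_pow, ← sq_abs]
        exact pow_le_pow_left₀ (abs_nonneg _) this 2
      rw [neg_div, neg_div, neg_le_neg_iff, div_le_div_iff₀ (by positivity) (by positivity)]
      nlinarith
  rw [hch1, hgv] at hmono
  have hpi : 0 < √(2 * Real.pi) := Real.sqrt_pos.2 (by positivity)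
  have hdp : 0 < |W.det| := abs_pos.2 hW0
  rw [hdetW, Real.sqrt_sq_eq_abs, hsn]
  calc (√(2 * Real.pi))⁻¹ ^ 3 * ∫ x : V 3, Real.exp (-‖x‖ ^ 2 / 2) * mn3 (fun i => ⟪x, w i⟫)
      ≤ (√(2 * Real.pi))⁻¹ ^ 3 * (|W.det|⁻¹ * (‖s‖ ^ 4 / 9)) := by
        apply mul_le_mul_of_nonneg_left hmono (by positivity)
    _ = ‖s‖ ^ 4 / (9 * √(2 * Real.pi) ^ 3 * |W.det|) := by
        field_simp

end Crest.Agent.S0334
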