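import Crest.Agent.S0334_A4

set_option autoImplicit false

open MeasureTheory ProbabilityTheory
open scoped RealInnerProductSpace

namespace Crest.Agent.S0334

variable {E : Type*} [NormedAddCommGroup E] [InnerProductSpace ℝ E]
  [FiniteDimensional ℝ E] [MeasurableSpace E] [BorelSpace E]

/-! ### E2a: removal of a vertex -/

/-- removing the vertex `m`: `E max_{i ≠ m} ⟪X, v i⟫ ≤ κ √(1 - (k/(k-1)) ‖v m‖²)`, stated through
the test vector `w`: for any `w`,
`λ ⟪v m, w⟫ - E (⟪X,w⟫ - max_{j ∈ T} ⟪X, v_j⟫)₊ ≤ κ √(1 - (k/(k-1)) ‖v m‖²) - λ (1 - ‖v m‖²)`. -/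
theorem removal {k : ℕ} (hk : 4 ≤ k) (hVB : VB (k - 1)) {lam : ℝ} {v : Fin k → V k}
    {A : Fin k → Set (V k)} (o : Opt k lam v A) (T : Fin 3 → Fin k) (m : Fin k)
    (hm : ∀ j, T j ≠ m) (w : V k) :
    lam * ⟪v m, w⟫ -
      ∫ x, max (min ⟪x, w - v (T 0)⟫ (min ⟪x, w - v (T 1)⟫ ⟪x, w - v (T 2)⟫)) 0
        ∂stdGaussian (V k) ≤
      kap * √(1 - ((k : ℝ) / ((k : ℝ) - 1)) * ‖v m‖ ^ 2) - lam * (1 - ‖v m‖ ^ 2) := by
  obtain ⟨n, rfl⟩ : ∃ n, k = n + 1 := ⟨k - 1, by omega⟩
  have hVB' : VB n := hVB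
  have hn0 : 0 < n := by omega
  have hnR : (0 : ℝ) < n := by exact_mod_cast hn0
  -- the reduced family
  set v' : Fin n → V (n + 1) := fun i => v (m.succAbove i) with hv'
  set u : Fin (n + 1) → V (n + 1) := Function.update v m w with hu
  have hum : u m = w := by simp [hu]
  have hus : ∀ i, u (m.succAbove i) = v' i := by
    intro i
    simp [hu, hv']
  -- the sum decomposition
  have hsum1 : ‖v m‖ ^ 2 + ∑ i, ‖v' i‖ ^ 2 = 1 := by
    rw [← o.normSq, Fin.sum_univ_succAbove _ m]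
  have hsum0 : v m + ∑ i, v' i = 0 := by
    rw [← o.sum, Fin.sum_univ_succAbove _ m]
  -- lower bound
  have hlow : lam * (1 - ‖v m‖ ^ 2) + lam * ⟪v m, w⟫ ≤ F u := by
    have h := sum_inner_setIntegral_le_F u A o.meas o.disj o.cover
    rw [Fin.sum_univ_succAbove _ m] at h
    simp only [o.integ, hum, hus, real_inner_smul_left] at h
    have h2 : ∑ i, lam * ⟪v (m.succAbove i), v' i⟫ = lam * (1 - ‖v m‖ ^ 2) := by
      rw [← Finset.mul_sum]
      congr 1
      rw [← hsum1]
      simp [hv']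
    rw [h2] at h
    linarith
  -- pointwise upper bound
  set g : V (n + 1) → ℝ := fun x =>
    max (min ⟪x, w - v (T 0)⟫ (min ⟪x, w - v (T 1)⟫ ⟪x, w - v (T 2)⟫)) 0 with hg
  have hgint : Integrable g (stdGaussian (V (n + 1))) := by
    have h0 := integrable_inner_sg (w - v (T 0))
    have h1 := integrable_inner_sg (w - v (T 1))
    have h2 := integrable_inner_sg (w - v (T 2))
    exact (h0.inf (h1.inf h2)).pos_part
  have hpt : ∀ x, mx u x ≤ mx v' x + g x := by
    intro x
    have hg0 : 0 ≤ g x := le_max_right _ _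
    apply mx_le (by omega)
    intro i
    rcases Fin.eq_self_or_eq_succAbove m i with rfl | ⟨j, rfl⟩
    · rw [hum]
      have hTj : ∀ j, ⟪x, v (T j)⟫ ≤ mx v' x := by
        intro j
        obtain ⟨l, hl⟩ := Fin.exists_succAbove_eq (hm j)
        have := inner_le_mx v' x l
        simp only [hv', hl] at this
        exact this
      have h3 : ⟪x, w⟫ - mx v' x ≤ g x := by
        refine le_trans ?_ (le_max_left _ _)
        refine le_min ?_ (le_min ?_ ?_)
        · rw [inner_sub_right]; linarith [hTj 0]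
        · rw [inner_sub_right]; linarith [hTj 1]
        · rw [inner_sub_right]; linarith [hTj 2]
      linarith
    · rw [hus]
      linarith [inner_le_mx v' x j]
  have hup : F u ≤ F v' + ∫ x, g x ∂stdGaussian (V (n + 1)) := by
    unfold F
    rw [← integral_add (integrable_mx v') hgint]
    exact integral_mono (integrable_mx u) ((integrable_mx v').add hgint) hpt
  -- use of VB
  have hF' : F v' ≤ kap * √(1 - ((((n + 1 : ℕ) : ℝ)) / ((((n + 1 : ℕ) : ℝ)) - 1)) * ‖v m‖ ^ 2) := by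
    rw [← F_add_const hn0 v' ((1 / (n : ℝ)) • v m)]
    refine (hVB' (n + 1) _).trans (le_of_eq ?_)
    congr 2
    have e1 : ∀ i, ‖v' i + (1 / (n : ℝ)) • v m‖ ^ 2 =
        ‖v' i‖ ^ 2 + (2 / n) * ⟪v' i, v m⟫ + (1 / (n : ℝ)) ^ 2 * ‖v m‖ ^ 2 := by
      intro i
      rw [norm_add_sq_real, real_inner_smul_right, norm_smul, mul_pow]
      simp
      ring
    simp only [e1]
    rw [Finset.sum_add_distrib, Finset.sum_add_distrib, ← Finset.mul_sum, ← sum_inner]
    have e2 : ∑ i, v' i = - v m := by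
      exact eq_neg_of_add_eq_zero_right hsum0
    rw [e2, inner_neg_left, real_inner_self_eq_norm_sq]
    simp only [Finset.sum_const, Finset.card_univ, Fintype.card_fin, nsmul_eq_mul]
    push_cast
    have e3 : ∑ i, ‖v' i‖ ^ 2 = 1 - ‖v m‖ ^ 2 := by linarith
    rw [e3]
    have e4 : ((n : ℝ) + 1 - 1) = n := by ring
    rw [e4]
    field_simp
    ring
  linarith
end Crest.Agent.S0334
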