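import Crest.Agent.S0334_E2a
import Crest.Agent.S0334_E1b

set_option autoImplicit false

open MeasureTheory ProbabilityTheory
open scoped RealInnerProductSpace

namespace Crest.Agent.S0334

variable {E : Type*} [NormedAddCommGroup E] [InnerProductSpace ℝ E]
  [FiniteDimensional ℝ E] [MeasurableSpace E] [BorelSpace E]

/-! ### E2b: Gram bound -/

/-- Gram determinant of `v (T 1) - v (T 0), v (T 2) - v (T 0), v m`. -/
noncomputable def gramD {k : ℕ} (v : Fin k → V k) (T : Fin 3 → Fin k) (m : Fin k) : ℝ :=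
  (Matrix.of fun i j : Fin 3 =>
    ⟪(![v (T 1) - v (T 0), v (T 2) - v (T 0), v m] : Fin 3 → V k) i,
      (![v (T 1) - v (T 0), v (T 2) - v (T 0), v m] : Fin 3 → V k) j⟫).det

/-- determinant identity for the shifted Gram matrix -/
theorem e2b_det {F : Type*} [NormedAddCommGroup F] [InnerProductSpace ℝ F] (e f g a : F) (θ : ℝ)
    (ha : a = θ • g + (1 / 3 : ℝ) • (e + f)) :
    (Matrix.of fun i j : Fin 3 => ⟪(![a, a - e, a - f] : Fin 3 → F) i,
      (![a, a - e, a - f] : Fin 3 → F) j⟫).det =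
    θ ^ 2 * (Matrix.of fun i j : Fin 3 => ⟪(![e, f, g] : Fin 3 → F) i,
      (![e, f, g] : Fin 3 → F) j⟫).det := by
  rw [Matrix.det_fin_three, Matrix.det_fin_three]
  simp only [Matrix.of_apply, Matrix.cons_val_zero, Matrix.cons_val_one, Matrix.cons_val]
  subst ha
  simp only [inner_add_left, inner_add_right, inner_sub_left, inner_sub_right, real_inner_smul_left,
    real_inner_smul_right]
  rw [real_inner_comm f e, real_inner_comm g e, real_inner_comm g f]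
  ring

theorem e2b_vm_pos {k : ℕ} (hk : 4 ≤ k) {lam : ℝ} {v : Fin k → V k}
    {A : Fin k → Set (V k)} (o : Opt k lam v A) (m j : Fin k) (hj : j ≠ m) : 0 < ‖v m‖ := by
  rw [norm_pos_iff]
  intro h
  have := o.neg j m hj
  rw [h, inner_zero_right] at this
  exact lt_irrefl _ this

/-- the real arithmetic at the end of the proof of `gram_bound` -/
theorem e2b_arith (D y ρ lam I : ℝ) (hD : 0 < D) (hy : 0 < y) (hρ : 0 < ρ) (hlam : kap < lam)
    (h1 : lam * y * (ρ / 2) ≤ I)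
    (h2 : I ≤ (81 * (3 * ρ / 2) ^ 4 * y ^ 2) /
      (9 * (√(2 * Real.pi)) ^ 3 * √((3 * ρ / 2) ^ 2 * D))) :
    D ≤ (81 / (4 * Real.pi)) ^ 2 * ρ ^ 4 * y ^ 2 := by
  have hpi := Real.pi_pos
  set q := √(2 * Real.pi) with hq
  have hq0 : 0 < q := Real.sqrt_pos.2 (by positivity)
  have hq2 : q ^ 2 = 2 * Real.pi := Real.sq_sqrt (by positivity)
  set t := √D with ht
  have ht0 : 0 < t := Real.sqrt_pos.2 hD
  have ht2 : t ^ 2 = D := Real.sq_sqrt hD.le
  have h3 : √((3 * ρ / 2) ^ 2 * D) = (3 * ρ / 2) * t := by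
    rw [Real.sqrt_mul (sq_nonneg _), Real.sqrt_sq (by positivity)]
  rw [h3] at h2
  have h4 : lam * y * (ρ / 2) ≤ (81 * (3 * ρ / 2) ^ 4 * y ^ 2) / (9 * q ^ 3 * ((3 * ρ / 2) * t)) :=
    h1.trans h2
  rw [le_div_iff₀ (by positivity)] at h4
  have hkap : kap = 3 / (2 * q) := rfl
  have h5 : (3 / (2 * q)) * y * (ρ / 2) * (9 * q ^ 3 * ((3 * ρ / 2) * t)) ≤
      81 * (3 * ρ / 2) ^ 4 * y ^ 2 := by
    refine le_trans ?_ h4
    have : 3 / (2 * q) ≤ lam := by rw [← hkap]; exact hlam.le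
    gcongr
  have h6 : (3 / (2 * q)) * y * (ρ / 2) * (9 * q ^ 3 * ((3 * ρ / 2) * t)) =
      (81 / 8) * y * ρ ^ 2 * (q ^ 2 * t) := by
    field_simp
    ring
  rw [h6, hq2] at h5
  have h7 : t ≤ 81 / (4 * Real.pi) * ρ ^ 2 * y := by
    have h8 : (81 / 8) * y * ρ ^ 2 * (2 * Real.pi * t) ≤
        (81 / 8) * y * ρ ^ 2 * (2 * Real.pi * (81 / (4 * Real.pi) * ρ ^ 2 * y)) := by
      refine h5.trans (le_of_eq ?_)
      field_simp
      ring
    have h9 : 0 < (81 / 8) * y * ρ ^ 2 := by positivity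
    have h10 := le_of_mul_le_mul_left h8 h9
    exact le_of_mul_le_mul_left h10 (by positivity)
  calc D = t ^ 2 := ht2.symm
    _ ≤ (81 / (4 * Real.pi) * ρ ^ 2 * y) ^ 2 := pow_le_pow_left₀ ht0.le h7 2
    _ = _ := by ring

/-- from `removal` with `w = (v (T 0) + v (T 1) + v (T 2))/3 + θ • v m`, `cubic_bound` with
`a j = w - v (T j)` (`det Gram a = θ² gramD`, `∑ a j = 3 θ v m`), `√(1-t) ≤ 1 - t/2`,
`kap < lam`, and `θ = 3ρ/2` where `ρ = (k-2)/(2(k-1)) + s/3`. -/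
theorem gram_bound {k : ℕ} (hk : 4 ≤ k) (hVB : VB (k - 1)) {lam : ℝ} {v : Fin k → V k}
    {A : Fin k → Set (V k)} (o : Opt k lam v A) (T : Fin 3 → Fin k) (m : Fin k)
    (hm : ∀ j, T j ≠ m) (s : ℝ) (hs : -(∑ j, ⟪v m, v (T j)⟫) ≤ s * ‖v m‖ ^ 2) :
    gramD v T m ≤ (81 / (4 * Real.pi)) ^ 2 *
      (((k : ℝ) - 2) / (2 * ((k : ℝ) - 1)) + s / 3) ^ 4 * ‖v m‖ ^ 4 := by
  set y : ℝ := ‖v m‖ ^ 2 with hy
  have hvm : 0 < ‖v m‖ := e2b_vm_pos hk o m (T 0) (hm 0)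
  have hy0 : 0 < y := by positivity
  have hsum : 0 < -(∑ j, ⟪v m, v (T j)⟫) := by
    rw [neg_pos]
    exact Finset.sum_neg (fun j _ => o.neg m (T j) (hm j).symm) Finset.univ_nonempty
  have hs0 : 0 < s := by
    by_contra h
    have : s * y ≤ 0 := mul_nonpos_of_nonpos_of_nonneg (not_lt.1 h) hy0.le
    linarith
  have hkR : (4 : ℝ) ≤ k := by exact_mod_cast hk
  set ρ : ℝ := ((k : ℝ) - 2) / (2 * ((k : ℝ) - 1)) + s / 3 with hρ
  have hρ1 : 0 < ((k : ℝ) - 2) / (2 * ((k : ℝ) - 1)) := div_pos (by linarith) (by linarith)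
  have hρ0 : 0 < ρ := by positivity
  have hy1 : y ≤ 1 := by
    rw [← o.normSq]
    exact Finset.single_le_sum (f := fun i => ‖v i‖ ^ 2) (fun i _ => sq_nonneg _) (Finset.mem_univ m)
  have e4 : ‖v m‖ ^ 4 = y ^ 2 := by rw [hy]; ring
  rw [e4]
  by_cases hD : 0 < gramD v T m
  swap
  · exact (not_lt.1 hD).trans (by positivity)
  set θ : ℝ := 3 * ρ / 2 with hθ
  set a : V k := θ • v m + (1 / 3 : ℝ) • ((v (T 1) - v (T 0)) + (v (T 2) - v (T 0))) with ha
  set w : V k := a + v (T 0) with hw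
  have hrem := removal hk hVB o T m hm w
  set I : ℝ := ∫ x, max (min ⟪x, w - v (T 0)⟫ (min ⟪x, w - v (T 1)⟫ ⟪x, w - v (T 2)⟫)) 0
        ∂stdGaussian (V k) with hI
  set aa : Fin 3 → V k := ![a, a - (v (T 1) - v (T 0)), a - (v (T 2) - v (T 0))] with haa
  have a0 : w - v (T 0) = aa 0 := by
    simp [haa, hw]
  have a1 : w - v (T 1) = aa 1 := by
    simp only [haa, hw, Matrix.cons_val_one, Matrix.cons_val_zero]; abel
  have a2 : w - v (T 2) = aa 2 := by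
    simp only [haa, hw, Matrix.cons_val]; abel
  have hdet := e2b_det (v (T 1) - v (T 0)) (v (T 2) - v (T 0)) (v m) a θ ha
  have hG : (Matrix.of fun i j : Fin 3 => ⟪aa i, aa j⟫).det = θ ^ 2 * gramD v T m := hdet
  have hcub := cubic_bound aa (by rw [hG]; positivity)
  rw [hG] at hcub
  have hsum3 : aa 0 + aa 1 + aa 2 = (3 * θ) • v m := by
    rw [← a0, ← a1, ← a2, hw, ha, mul_smul]
    module
  have hn4 : ‖aa 0 + aa 1 + aa 2‖ ^ 4 = 81 * (3 * ρ / 2) ^ 4 * y ^ 2 := by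
    rw [hsum3, norm_smul, Real.norm_eq_abs, abs_of_pos (by positivity), mul_pow, hy, hθ]
    ring
  rw [hn4, ← a0, ← a1, ← a2] at hcub
  have hwm : ⟪v m, w⟫ = θ * y + (∑ j, ⟪v m, v (T j)⟫) / 3 := by
    rw [hw, ha, Fin.sum_univ_three, inner_add_right, inner_add_right, real_inner_smul_right,
      real_inner_smul_right, inner_add_right, inner_sub_right, inner_sub_right,
      real_inner_self_eq_norm_sq]
    ring
  have hsq : √(1 - ((k : ℝ) / ((k : ℝ) - 1)) * y) ≤ 1 - ((k : ℝ) / ((k : ℝ) - 1)) * y / 2 := by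
    have h1 : ((k : ℝ) / ((k : ℝ) - 1)) * y ≤ 2 := by
      have : (k : ℝ) / ((k : ℝ) - 1) ≤ 2 := by
        rw [div_le_iff₀ (by linarith)]; linarith
      calc ((k : ℝ) / ((k : ℝ) - 1)) * y ≤ 2 * 1 := by
            exact mul_le_mul this hy1 hy0.le (by norm_num)
        _ = 2 := by norm_num
    rw [← Real.sqrt_sq (by linarith : (0:ℝ) ≤ 1 - ((k : ℝ) / ((k : ℝ) - 1)) * y / 2)]
    apply Real.sqrt_le_sqrt
    nlinarith [sq_nonneg (((k : ℝ) / ((k : ℝ) - 1)) * y)]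
  have hk0 : 0 < kap := by unfold kap; positivity
  have hlam0 : 0 < lam := hk0.trans o.hlam
  have hb : 0 ≤ 1 - ((k : ℝ) / ((k : ℝ) - 1)) * y / 2 := (Real.sqrt_nonneg _).trans hsq
  have hR : kap * √(1 - ((k : ℝ) / ((k : ℝ) - 1)) * y) ≤
      lam * (1 - ((k : ℝ) / ((k : ℝ) - 1)) * y / 2) :=
    mul_le_mul o.hlam.le hsq (Real.sqrt_nonneg _) hlam0.le
  have hfr : 1 - ((k : ℝ) / ((k : ℝ) - 1)) * y / 2 - (1 - y) =
      y * (((k : ℝ) - 2) / (2 * ((k : ℝ) - 1))) := by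
    have : (k : ℝ) - 1 ≠ 0 := by linarith
    field_simp
    ring
  have hmain : lam * y * (ρ / 2) ≤ I := by
    have g1 : lam * (θ * y - s * y / 3) ≤ lam * ⟪v m, w⟫ := by
      refine mul_le_mul_of_nonneg_left ?_ hlam0.le
      rw [hwm]
      linarith
    have g2 : lam * ⟪v m, w⟫ - I ≤ lam * (y * (((k : ℝ) - 2) / (2 * ((k : ℝ) - 1)))) := by
      rw [← hfr]
      have : lam * (1 - ((k : ℝ) / ((k : ℝ) - 1)) * y / 2 - (1 - y)) =
        lam * (1 - ((k : ℝ) / ((k : ℝ) - 1)) * y / 2) - lam * (1 - y) := by ring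
      linarith
    have g3 : lam * y * (ρ / 2) = lam * (θ * y - s * y / 3) -
        lam * (y * (((k : ℝ) - 2) / (2 * ((k : ℝ) - 1)))) := by
      have : ((k : ℝ) - 2) / (2 * ((k : ℝ) - 1)) = ρ - s / 3 := by rw [hρ]; ring
      rw [this, hθ]
      ring
    linarith
  exact e2b_arith _ y ρ lam I hD hy0 hρ0 o.hlam hmain hcub

end Crest.Agent.S0334
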