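import Crest.Agent.S0334_E2b

set_option autoImplicit false

open MeasureTheory ProbabilityTheory
open scoped RealInnerProductSpace

namespace Crest.Agent.S0334

variable {E : Type*} [NormedAddCommGroup E] [InnerProductSpace ℝ E]
  [FiniteDimensional ℝ E] [MeasurableSpace E] [BorelSpace E]

/-! ### E2c: Q bound -/

/-- Gram determinant of `v 1 - v 0, v 2 - v 0` in terms of the squared norms `y` and
`α = -⟪v 0, v 1⟫`, `β = -⟪v 0, v 2⟫`, `γ = -⟪v 1, v 2⟫`. -/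
def Qd (y0 y1 y2 α β γ : ℝ) : ℝ :=
  (y0 + y1 + 2 * α) * (y0 + y2 + 2 * β) - (y0 + α + β - γ) ^ 2

omit [FiniteDimensional ℝ E] [MeasurableSpace E] [BorelSpace E] in
theorem gram3_identity (a0 a1 a2 m : E) :
    (Matrix.of fun i j : Fin 3 =>
      ⟪(![a1 - a0, a2 - a0, m] : Fin 3 → E) i, (![a1 - a0, a2 - a0, m] : Fin 3 → E) j⟫).det =
    Qd (‖a0‖ ^ 2) (‖a1‖ ^ 2) (‖a2‖ ^ 2) (-⟪a0, a1⟫) (-⟪a0, a2⟫) (-⟪a1, a2⟫) * ‖m‖ ^ 2 -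
      ‖(-⟪m, a0⟫) • (a1 - a2) + (-⟪m, a1⟫) • (a2 - a0) + (-⟪m, a2⟫) • (a0 - a1)‖ ^ 2 := by
  rw [Matrix.det_fin_three]
  simp only [Matrix.of_apply, Matrix.cons_val_zero, Matrix.cons_val_one, Matrix.cons_val]
  simp only [← real_inner_self_eq_norm_sq, Qd]
  simp only [inner_sub_left, inner_sub_right, inner_add_left, inner_add_right,
    real_inner_smul_left, real_inner_smul_right]
  rw [real_inner_comm a0 a1, real_inner_comm a0 a2, real_inner_comm a1 a2, real_inner_comm m a0,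
    real_inner_comm m a1, real_inner_comm m a2]
  ring

/-- the bound used in the numerical part. -/
theorem Q_bound {k : ℕ} (hk : 4 ≤ k) (hVB : VB (k - 1)) {lam : ℝ} {v : Fin k → V k}
    {A : Fin k → Set (V k)} (o : Opt k lam v A) (T : Fin 3 → Fin k) (m : Fin k)
    (hm : ∀ j, T j ≠ m) (s : ℝ) (hs : -(∑ j, ⟪v m, v (T j)⟫) ≤ s * ‖v m‖ ^ 2)
    (L : ℝ) (h01 : ‖v (T 0) - v (T 1)‖ ^ 2 ≤ L) (h02 : ‖v (T 0) - v (T 2)‖ ^ 2 ≤ L)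
    (h12 : ‖v (T 1) - v (T 2)‖ ^ 2 ≤ L) :
    Qd (‖v (T 0)‖ ^ 2) (‖v (T 1)‖ ^ 2) (‖v (T 2)‖ ^ 2)
        (-⟪v (T 0), v (T 1)⟫) (-⟪v (T 0), v (T 2)⟫) (-⟪v (T 1), v (T 2)⟫) ≤
      ((81 / (4 * Real.pi)) ^ 2 * (((k : ℝ) - 2) / (2 * ((k : ℝ) - 1)) + s / 3) ^ 4 +
        s ^ 2 * L) * ‖v m‖ ^ 2 := by
  have hgram := gram_bound hk hVB o T m hm s hs
  unfold gramD at hgram
  rw [gram3_identity] at hgram
  have hc : ∀ j, 0 < -⟪v m, v (T j)⟫ := fun j => by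
    have := o.neg m (T j) (hm j).symm
    linarith
  have hmpos : 0 < ‖v m‖ := by
    rw [norm_pos_iff]
    intro h0
    have := hc 0
    rw [h0] at this
    simp at this
  have hL0 : 0 ≤ L := (sq_nonneg _).trans h01
  set c0 := -⟪v m, v (T 0)⟫ with hc0
  set c1 := -⟪v m, v (T 1)⟫ with hc1
  set c2 := -⟪v m, v (T 2)⟫ with hc2
  have p0 : 0 < c0 := hc 0
  have p1 : 0 < c1 := hc 1
  have p2 : 0 < c2 := hc 2
  rw [Fin.sum_univ_three] at hs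
  have hsum : c0 + c1 + c2 ≤ s * ‖v m‖ ^ 2 := by
    rw [hc0, hc1, hc2]; linarith
  have hn : ‖c0 • (v (T 1) - v (T 2)) + c1 • (v (T 2) - v (T 0)) + c2 • (v (T 0) - v (T 1))‖ ≤
      (s * ‖v m‖ ^ 2) * √L := by
    have t0 : ‖v (T 1) - v (T 2)‖ ≤ √L := Real.le_sqrt_of_sq_le h12
    have t1 : ‖v (T 2) - v (T 0)‖ ≤ √L := by
      rw [norm_sub_rev]; exact Real.le_sqrt_of_sq_le h02
    have t2 : ‖v (T 0) - v (T 1)‖ ≤ √L := Real.le_sqrt_of_sq_le h01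
    calc _ ≤ ‖c0 • (v (T 1) - v (T 2))‖ + ‖c1 • (v (T 2) - v (T 0))‖ +
          ‖c2 • (v (T 0) - v (T 1))‖ := norm_add₃_le
      _ ≤ c0 * √L + c1 * √L + c2 * √L := by
          rw [norm_smul, norm_smul, norm_smul, Real.norm_of_nonneg p0.le,
            Real.norm_of_nonneg p1.le, Real.norm_of_nonneg p2.le]
          gcongr
      _ = (c0 + c1 + c2) * √L := by ring
      _ ≤ _ := by gcongr
  have hn2 : ‖c0 • (v (T 1) - v (T 2)) + c1 • (v (T 2) - v (T 0)) +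
      c2 • (v (T 0) - v (T 1))‖ ^ 2 ≤ s ^ 2 * L * ‖v m‖ ^ 4 := by
    calc _ ≤ ((s * ‖v m‖ ^ 2) * √L) ^ 2 := pow_le_pow_left₀ (norm_nonneg _) hn 2
      _ = s ^ 2 * (√L) ^ 2 * ‖v m‖ ^ 4 := by ring
      _ = _ := by rw [Real.sq_sqrt hL0]
  set Q := Qd (‖v (T 0)‖ ^ 2) (‖v (T 1)‖ ^ 2) (‖v (T 2)‖ ^ 2)
        (-⟪v (T 0), v (T 1)⟫) (-⟪v (T 0), v (T 2)⟫) (-⟪v (T 1), v (T 2)⟫) with hQ
  have hmain : Q * ‖v m‖ ^ 2 ≤
      (((81 / (4 * Real.pi)) ^ 2 * (((k : ℝ) - 2) / (2 * ((k : ℝ) - 1)) + s / 3) ^ 4 +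
        s ^ 2 * L) * ‖v m‖ ^ 2) * ‖v m‖ ^ 2 := by
    calc Q * ‖v m‖ ^ 2 ≤ (81 / (4 * Real.pi)) ^ 2 *
          (((k : ℝ) - 2) / (2 * ((k : ℝ) - 1)) + s / 3) ^ 4 * ‖v m‖ ^ 4 +
          s ^ 2 * L * ‖v m‖ ^ 4 := by linarith
      _ = _ := by ring
  exact le_of_mul_le_mul_right hmain (by positivity)

end Crest.Agent.S0334
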