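import Mathlib

set_option autoImplicit false

namespace Crest.Agent.S0334

/-! ### F0: cap predicates, unimodal comparison lemmas -/

def Cap3 (r μ : ℝ) : Prop := ∀ c : ℝ, 0 ≤ c → c ≤ 1 → (3 / 2) * r < (1 - c) ^ 2 + 4 * c * μ

def Cap4 (r μ : ℝ) : Prop := ∀ a : ℝ, 0 ≤ a → a ≤ Real.pi / 2 →
  (3 / 2) * r < Real.sin a ^ 3 - (3 / 2) * Real.cos a * (a - Real.sin a * Real.cos a) +
    (3 * Real.pi / 2) * Real.cos a * μ

def Cap5 (r μ : ℝ) : Prop := ∀ c : ℝ, 0 ≤ c → c ≤ 1 →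
  (3 / 2) * r < (1 - c) ^ 3 * (3 + c) / 3 + (16 / 3) * c * μ

def Cap7 (r μ : ℝ) : Prop := ∀ c : ℝ, 0 ≤ c → c ≤ 1 →
  (3 / 2) * r < (1 - c) ^ 4 * (5 + 4 * c + c ^ 2) / 5 + (32 / 5) * c * μ

def Vert7 (r μ : ℝ) : Prop := ∀ c : ℝ, 0 ≤ c → c < 1 →
  (3 / 2) * r * √(1 - c ^ 2) < (1 - c) ^ 3 * (3 + c) / 3 + (32 / 5) * c * μ

theorem mono_of_hasDerivAt_aux {D D' : ℝ → ℝ} {a b : ℝ}
    (hD : ∀ x ∈ Set.Icc a b, HasDerivAt D (D' x) x) (h : ∀ x ∈ Set.Icc a b, 0 ≤ D' x) :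
    MonotoneOn D (Set.Icc a b) := by
  refine monotoneOn_of_deriv_nonneg (convex_Icc a b)
    (fun x hx => (hD x hx).continuousAt.continuousWithinAt)
    (fun x hx => (hD x (interior_subset hx)).differentiableAt.differentiableWithinAt) fun x hx => ?_
  rw [(hD x (interior_subset hx)).deriv]
  exact h x (interior_subset hx)

theorem anti_of_hasDerivAt_aux {D D' : ℝ → ℝ} {a b : ℝ}
    (hD : ∀ x ∈ Set.Icc a b, HasDerivAt D (D' x) x) (h : ∀ x ∈ Set.Icc a b, D' x ≤ 0) :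
    AntitoneOn D (Set.Icc a b) := by
  refine antitoneOn_of_deriv_nonpos (convex_Icc a b)
    (fun x hx => (hD x hx).continuousAt.continuousWithinAt)
    (fun x hx => (hD x (interior_subset hx)).differentiableAt.differentiableWithinAt) fun x hx => ?_
  rw [(hD x (interior_subset hx)).deriv]
  exact h x (interior_subset hx)

/-- `D' = w (h - κ)` with `w ≥ 0`, `h` decreasing on `[a,b]`: `D` is first increasing and then
decreasing, so `D ≥ min (D a) (D b)`. -/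
theorem quasiconcave_of_deriv {D w h : ℝ → ℝ} {κ a b : ℝ} (hab : a ≤ b)
    (hD : ∀ x ∈ Set.Icc a b, HasDerivAt D (w x * (h x - κ)) x)
    (hw : ∀ x ∈ Set.Icc a b, 0 ≤ w x) (hh : AntitoneOn h (Set.Icc a b))
    (ha : 0 ≤ D a) (hb : 0 ≤ D b) : ∀ x ∈ Set.Icc a b, 0 ≤ D x := by
  intro x hx
  by_cases hc : κ ≤ h x
  · have hm : MonotoneOn D (Set.Icc a x) := by
      apply mono_of_hasDerivAt_aux (fun y hy => hD y ⟨hy.1, hy.2.trans hx.2⟩)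
      intro y hy
      apply mul_nonneg (hw y ⟨hy.1, hy.2.trans hx.2⟩)
      have := hh ⟨hy.1, hy.2.trans hx.2⟩ hx hy.2
      linarith
    exact ha.trans (hm ⟨le_rfl, hx.1⟩ ⟨hx.1, le_rfl⟩ hx.1)
  · have hm : AntitoneOn D (Set.Icc x b) := by
      apply anti_of_hasDerivAt_aux (fun y hy => hD y ⟨hx.1.trans hy.1, hy.2⟩)
      intro y hy
      apply mul_nonpos_of_nonneg_of_nonpos (hw y ⟨hx.1.trans hy.1, hy.2⟩)
      have := hh hx ⟨hx.1.trans hy.1, hy.2⟩ hy.1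
      push Not at hc
      linarith
    exact hb.trans (hm ⟨le_rfl, hx.2⟩ ⟨hx.2, le_rfl⟩ hx.2)

/-- `D' = w (h - κ)` with `w ≥ 0`, `h` increasing on `[a,m]`, decreasing on `[m,b]`,
`c₀ ∈ [a,m]` with `h c₀ = κ`, `D c₀ ≥ 0`, `D b ≥ 0` implies `D ≥ 0` on `[a,b]`. -/
theorem nonneg_of_unimodal {D w h : ℝ → ℝ} {κ a m b c₀ : ℝ} (ham : a ≤ m) (hmb : m ≤ b)
    (hD : ∀ x ∈ Set.Icc a b, HasDerivAt D (w x * (h x - κ)) x)
    (hw : ∀ x ∈ Set.Icc a b, 0 ≤ w x) (hh1 : MonotoneOn h (Set.Icc a m))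
    (hh2 : AntitoneOn h (Set.Icc m b)) (hc₀ : c₀ ∈ Set.Icc a m) (hκ : h c₀ = κ)
    (h0 : 0 ≤ D c₀) (hb : 0 ≤ D b) : ∀ x ∈ Set.Icc a b, 0 ≤ D x := by
  have hmid : ∀ x ∈ Set.Icc c₀ m, 0 ≤ D x := by
    intro x hx
    have hm : MonotoneOn D (Set.Icc c₀ m) := by
      apply mono_of_hasDerivAt_aux
        (fun y hy => hD y ⟨hc₀.1.trans hy.1, hy.2.trans hmb⟩)
      intro y hy
      apply mul_nonneg (hw y ⟨hc₀.1.trans hy.1, hy.2.trans hmb⟩)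
      have := hh1 hc₀ ⟨hc₀.1.trans hy.1, hy.2⟩ hy.1
      linarith
    exact h0.trans (hm ⟨le_rfl, hc₀.2⟩ hx hx.1)
  intro x hx
  rcases le_total x c₀ with h1 | h1
  · have hm : AntitoneOn D (Set.Icc a c₀) := by
      apply anti_of_hasDerivAt_aux
        (fun y hy => hD y ⟨hy.1, hy.2.trans (hc₀.2.trans hmb)⟩)
      intro y hy
      apply mul_nonpos_of_nonneg_of_nonpos (hw y ⟨hy.1, hy.2.trans (hc₀.2.trans hmb)⟩)
      have := hh1 ⟨hy.1, hy.2.trans hc₀.2⟩ hc₀ hy.2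
      linarith
    exact h0.trans (hm ⟨hx.1, h1⟩ ⟨hc₀.1, le_rfl⟩ h1)
  · rcases le_total x m with h2 | h2
    · exact hmid x ⟨h1, h2⟩
    · exact quasiconcave_of_deriv hmb (fun y hy => hD y ⟨ham.trans hy.1, hy.2⟩)
        (fun y hy => hw y ⟨ham.trans hy.1, hy.2⟩) hh2 (hmid m ⟨hc₀.2, le_rfl⟩) hb x ⟨h2, hx.2⟩

end Crest.Agent.S0334
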