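import Crest.Agent.S0334_F0

set_option autoImplicit false

namespace Crest.Agent.S0334

/-! ### F3: affine minorants of the optimal cap bound, `d = 3`

`D c = P3 c - (A + B * Y3 c)` has derivative `(16/9) B (c (1-c²) - (9/32)/B)`, and `c (1-c²)` is increasing on
`[0, 1/√3]`, decreasing on `[1/√3, 1]`; use `nonneg_of_unimodal`, `quasiconcave_of_deriv`. -/

noncomputable def Y3 (c : ℝ) : ℝ := (4 / 9) * (1 - c ^ 2) ^ 2

noncomputable def P3 (c : ℝ) : ℝ := (1 - c) / 2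

theorem pos_of_mul_pos_of_pos_left' {a b : ℝ} (h : 0 < a * b) (ha : 0 < a) : 0 < b :=
  (pos_iff_pos_of_mul_pos h).1 ha

theorem Y3_le_imp {x y : ℝ} (hx : 0 ≤ x) (hx1 : x < 1) (hy : 0 ≤ y) (_hy1 : y < 1)
    (h : Y3 y ≤ Y3 x) : x ≤ y := by
  unfold Y3 at h
  by_contra hlt
  push Not at hlt
  have h1 : 0 < 1 - x ^ 2 := by nlinarith
  have h2 : 1 - x ^ 2 < 1 - y ^ 2 := by nlinarith
  have h3 : (1 - x ^ 2) ^ 2 < (1 - y ^ 2) ^ 2 := by nlinarith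
  linarith

theorem hasDerivAt_D3 (A B x : ℝ) : HasDerivAt (fun x => P3 x - (A + B * Y3 x))
    ((16 / 9) * B * (x * (1 - x ^ 2)) - 1 / 2) x := by
  unfold P3 Y3
  have h1 : HasDerivAt (fun x : ℝ => (1 - x) / 2) (-1 / 2) x := by
    simpa using ((hasDerivAt_id x).const_sub 1).div_const 2
  have h2 : HasDerivAt (fun x : ℝ => 1 - x ^ 2) (-(2 * x)) x := by
    simpa using (hasDerivAt_pow 2 x).const_sub 1
  have h3 := (((h2.pow 2).const_mul (4 / 9)).const_mul B).const_add A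
  refine (h1.sub h3).congr_deriv ?_
  push_cast
  ring

theorem mono_h3 {m : ℝ} (hm : m ^ 2 = 1 / 3) (hm0 : 0 < m) :
    MonotoneOn (fun x : ℝ => x * (1 - x ^ 2)) (Set.Icc 0 m) := by
  intro x hx y hy hxy
  simp only [Set.mem_Icc] at hx hy
  simp only []
  have h1 : x ^ 2 ≤ 1 / 3 := by nlinarith
  have h2 : y ^ 2 ≤ 1 / 3 := by nlinarith
  have h3 : x * y ≤ 1 / 3 := by nlinarith
  nlinarith [mul_nonneg (sub_nonneg.2 hxy) (by linarith : (0 : ℝ) ≤ 1 - x ^ 2 - x * y - y ^ 2)]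

theorem anti_h3 {m : ℝ} (hm : m ^ 2 = 1 / 3) (hm0 : 0 < m) :
    AntitoneOn (fun x : ℝ => x * (1 - x ^ 2)) (Set.Ici m) := by
  intro x hx y hy hxy
  simp only [Set.mem_Ici] at hx hy
  simp only []
  have h1 : 1 / 3 ≤ x ^ 2 := by nlinarith
  have h2 : 1 / 3 ≤ y ^ 2 := by nlinarith
  have h3 : 1 / 3 ≤ x * y := by nlinarith
  nlinarith [mul_nonneg (sub_nonneg.2 hxy) (by linarith : (0 : ℝ) ≤ x ^ 2 + x * y + y ^ 2 - 1)]

/-- optimal choice of the cap: `c = √(1 - (3/2) r)`; (`(3/2) r < 1` from `c = 0`). -/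
theorem Cap3.exists_param {r μ : ℝ} (hr : 0 < r) (h : Cap3 r μ) :
    ∃ c : ℝ, 0 < c ∧ c < 1 ∧ r ^ 2 = Y3 c ∧ P3 c < μ := by
  have h0 := h 0 le_rfl zero_le_one
  have hp : 0 < 1 - (3 / 2) * r := by nlinarith
  have hc := Real.sq_sqrt hp.le
  have hc0 : 0 < √(1 - (3 / 2) * r) := Real.sqrt_pos.2 hp
  have hc1 : √(1 - (3 / 2) * r) < 1 := by nlinarith
  generalize √(1 - (3 / 2) * r) = c at hc hc0 hc1
  have hr' : (3 / 2) * r = 1 - c ^ 2 := by linarith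
  refine ⟨c, hc0, hc1, ?_, ?_⟩
  · have : r = (2 / 3) * (1 - c ^ 2) := by linarith
    rw [this, Y3]; ring
  · have h1 := h c hc0.le hc1.le
    rw [hr'] at h1
    unfold P3
    have h2 : 0 < 4 * c * (μ - (1 - c) / 2) := by nlinarith
    have h3 := pos_of_mul_pos_of_pos_left' h2 (by positivity)
    linarith

/-- tangent line at `c₀` (in the convex region), then rounded (`A`, `B`). -/
theorem Cap3.tangent_line {c₀ cb lo A B : ℝ} (h1 : 0 < c₀) (h2 : 3 * c₀ ^ 2 ≤ 1) (h3 : 1 ≤ 3 * cb ^ 2)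
    (h3' : 0 < cb) (h4 : cb < 1) (hlo : Y3 cb ≤ lo)
    (hcb : P3 c₀ + (9 / 32) / (c₀ * (1 - c₀ ^ 2)) * (Y3 cb - Y3 c₀) ≤ P3 cb)
    (hA : A + B * lo ≤ P3 c₀ + (9 / 32) / (c₀ * (1 - c₀ ^ 2)) * (lo - Y3 c₀))
    (hA' : A + B * (4 / 9) ≤ P3 c₀ + (9 / 32) / (c₀ * (1 - c₀ ^ 2)) * (4 / 9 - Y3 c₀))
    {r μ : ℝ} (hr : 0 < r) (hr' : lo ≤ r ^ 2) (h : Cap3 r μ) : A + B * r ^ 2 < μ := by
  obtain ⟨c, hc0, hc1, hrc, hP⟩ := h.exists_param hr
  refine lt_of_le_of_lt ?_ hP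
  have hc₀1 : c₀ < 1 := by nlinarith
  have hs0 : 0 < c₀ * (1 - c₀ ^ 2) := mul_pos h1 (by nlinarith)
  have hm3 : (√3) ^ 2 = 3 := Real.sq_sqrt (by norm_num)
  have hm0 : 0 < √3 := Real.sqrt_pos.2 (by norm_num)
  have hm1 : (1 / √3) ^ 2 = 1 / 3 := by rw [div_pow, hm3, one_pow]
  have hmp : 0 < 1 / √3 := by positivity
  have hY : Y3 c ≤ 4 / 9 := by
    unfold Y3
    have e1 : 0 < c ^ 2 := by positivity
    have e2 : c ^ 2 < 1 := by nlinarith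
    have : (1 - c ^ 2) ^ 2 ≤ 1 := by nlinarith
    linarith
  have hcb' : c ≤ cb := Y3_le_imp hc0.le hc1 h3'.le h4 (hlo.trans (hr'.trans_eq hrc))
  rw [hrc]
  -- tangent line lies below
  have key : 0 ≤ P3 c - (P3 c₀ + (9 / 32) / (c₀ * (1 - c₀ ^ 2)) * (Y3 c - Y3 c₀)) := by
    have := nonneg_of_unimodal (D := fun x => P3 x - (P3 c₀ + (9 / 32) / (c₀ * (1 - c₀ ^ 2)) * (Y3 x - Y3 c₀)))
      (w := fun _ => (16 / 9) * ((9 / 32) / (c₀ * (1 - c₀ ^ 2)))) (h := fun x => x * (1 - x ^ 2))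
      (κ := c₀ * (1 - c₀ ^ 2)) (a := 0) (m := 1 / √3) (b := cb) (c₀ := c₀) hmp.le
      (by nlinarith) ?_ ?_ ?_ ?_ ⟨h1.le, by nlinarith⟩ rfl (by simp) (by linarith) c
      ⟨hc0.le, hcb'⟩
    · exact this
    · intro x _
      have hd := hasDerivAt_D3 (P3 c₀ - (9 / 32) / (c₀ * (1 - c₀ ^ 2)) * Y3 c₀)
        ((9 / 32) / (c₀ * (1 - c₀ ^ 2))) x
      have he : (fun x => P3 x - (P3 c₀ - (9 / 32) / (c₀ * (1 - c₀ ^ 2)) * Y3 c₀ +
          (9 / 32) / (c₀ * (1 - c₀ ^ 2)) * Y3 x)) =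
          fun x => P3 x - (P3 c₀ + (9 / 32) / (c₀ * (1 - c₀ ^ 2)) * (Y3 x - Y3 c₀)) := by
        funext y; ring
      rw [he] at hd
      convert hd using 1
      have h9 : (9 / 32) / (c₀ * (1 - c₀ ^ 2)) * (c₀ * (1 - c₀ ^ 2)) = 9 / 32 :=
        div_mul_cancel₀ _ hs0.ne'
      linear_combination (-(16 / 9)) * h9
    · intro x _
      have : 0 < (9 / 32) / (c₀ * (1 - c₀ ^ 2)) := by positivity
      positivity
    · exact mono_h3 hm1 hmp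
    · exact (anti_h3 hm1 hmp).mono fun x hx => hx.1
  have hr2 : lo ≤ Y3 c := hr'.trans_eq hrc
  have hlin : A + B * Y3 c ≤ P3 c₀ + (9 / 32) / (c₀ * (1 - c₀ ^ 2)) * (Y3 c - Y3 c₀) := by
    rcases eq_or_lt_of_le (hr2.trans hY) with he | hlt
    · have : Y3 c = lo := le_antisymm (by rw [he]; exact hY) hr2
      rw [this]; exact hA
    · have e1 : 0 ≤ Y3 c - lo := by linarith
      have e2 : 0 ≤ 4 / 9 - Y3 c := by linarith
      have e3 : 0 < 4 / 9 - lo := by linarith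
      set s := (9 / 32) / (c₀ * (1 - c₀ ^ 2)) with hs
      have e4 := mul_le_mul_of_nonneg_left hA e2
      have e5 := mul_le_mul_of_nonneg_left hA' e1
      have e6 : (4 / 9 - lo) * (A + B * Y3 c) ≤ (4 / 9 - lo) * (P3 c₀ + s * (Y3 c - Y3 c₀)) := by
        linarith
      exact le_of_mul_le_mul_left e6 e3
  linarith

theorem Y3_le_imp' {x y : ℝ} (hx : 0 ≤ x) (hx1 : x < 1) (hy : 0 ≤ y)
    (h : Y3 y ≤ Y3 x) : x ≤ y := by
  unfold Y3 at h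
  by_contra hlt
  push Not at hlt
  have h1 : 0 < 1 - x ^ 2 := by nlinarith
  have h2 : 1 - x ^ 2 < 1 - y ^ 2 := by nlinarith
  have h3 : (1 - x ^ 2) ^ 2 < (1 - y ^ 2) ^ 2 := by nlinarith
  linarith

/-- chord in the concave region. -/
theorem Cap3.chord_line {ca cb lo hi A B : ℝ} (h1 : 0 < ca) (h2 : 1 ≤ 3 * ca ^ 2) (h3 : ca ≤ cb)
    (h4 : cb ≤ 1) (hB : 0 < B) (hlo : Y3 cb ≤ lo) (hhi : hi ≤ Y3 ca)
    (hA : A + B * Y3 ca ≤ P3 ca) (hA' : A + B * Y3 cb ≤ P3 cb)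
    {r μ : ℝ} (hr : 0 < r) (hr' : lo ≤ r ^ 2) (hr'' : r ^ 2 ≤ hi) (h : Cap3 r μ) :
    A + B * r ^ 2 < μ := by
  obtain ⟨c, hc0, hc1, hrc, hP⟩ := h.exists_param hr
  refine lt_of_le_of_lt ?_ hP
  have hca1 : ca < 1 := by
    by_contra hcon
    have h5 : ca = 1 := le_antisymm (h3.trans h4) (not_lt.1 hcon)
    rw [h5] at hhi
    have h6 : Y3 1 = 0 := by unfold Y3; norm_num
    have h7 : 0 < r ^ 2 := by positivity
    linarith
  have hcb : c ≤ cb := Y3_le_imp' hc0.le hc1 (h1.le.trans h3) (hlo.trans (hr'.trans_eq hrc))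
  have hca : ca ≤ c := Y3_le_imp h1.le hca1 hc0.le hc1
    (hrc.symm.le.trans (hr''.trans hhi))
  rw [hrc]
  have hm3 : (√3) ^ 2 = 3 := Real.sq_sqrt (by norm_num)
  have hm0 : 0 < √3 := Real.sqrt_pos.2 (by norm_num)
  have hm1 : (1 / √3) ^ 2 = 1 / 3 := by rw [div_pow, hm3, one_pow]
  have hmp : 0 < 1 / √3 := by positivity
  have := quasiconcave_of_deriv (D := fun x => P3 x - (A + B * Y3 x))
      (w := fun _ => (16 / 9) * B) (h := fun x => x * (1 - x ^ 2))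
      (κ := (9 / 32) / B) (a := ca) (b := cb) h3 ?_ ?_ ?_
      (by linarith) (by linarith) c ⟨hca, hcb⟩
  · linarith
  · intro x _
    convert hasDerivAt_D3 A B x using 1
    field_simp
    ring
  · intro x _
    positivity
  · refine (anti_h3 hm1 hmp).mono fun x hx => ?_
    have : 1 / √3 ≤ ca := by nlinarith
    exact this.trans hx.1

end Crest.Agent.S0334
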