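import Crest.Agent.S0334_F0

set_option autoImplicit false

namespace Crest.Agent.S0334

/-! ### F4: affine minorants of the optimal cap bound, `d = 4` (angle variable `a`)

`D a = P4 a - (A + B * Y4 a)` has derivative
`2 sin² a (1/π - (4/3) B sin³ a cos a)`, and `sin³ a cos a` is increasing on `[0, π/3]`, decreasing on
`[π/3, π/2]`; use `nonneg_of_unimodal`, `quasiconcave_of_deriv` (with `x = -a` or `x = π/2 - a`). -/

noncomputable def Y4 (a : ℝ) : ℝ := (4 / 9) * Real.sin a ^ 6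

noncomputable def P4 (a : ℝ) : ℝ := (a - Real.sin a * Real.cos a) / Real.pi

theorem F4aux_hasDerivAt_s3c (a : ℝ) :
    HasDerivAt (fun a : ℝ => Real.sin a ^ 3 * Real.cos a)
      (Real.sin a ^ 2 * (4 * Real.cos a ^ 2 - 1)) a := by
  have h1 := ((Real.hasDerivAt_sin a).pow 3).mul (Real.hasDerivAt_cos a)
  refine h1.congr_deriv ?_
  have h := Real.sin_sq_add_cos_sq a
  have h' : Real.cos a ^ 2 = 1 - Real.sin a ^ 2 := by linarith
  simp only [Pi.pow_apply]
  norm_num
  have : Real.sin a ^ 3 * Real.sin a = Real.sin a ^ 2 * (1 - Real.cos a ^ 2) := by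
    rw [h']; ring
  linear_combination (-1) * this

theorem F4aux_mono : MonotoneOn (fun a : ℝ => Real.sin a ^ 3 * Real.cos a)
    (Set.Icc 0 (Real.pi / 3)) := by
  have hpi := Real.pi_pos
  refine monotoneOn_of_deriv_nonneg (convex_Icc _ _) ?_ ?_ ?_
  · exact fun x _ => (F4aux_hasDerivAt_s3c x).continuousAt.continuousWithinAt
  · exact fun x _ => (F4aux_hasDerivAt_s3c x).differentiableAt.differentiableWithinAt
  · intro x hx
    rw [interior_Icc] at hx
    rw [(F4aux_hasDerivAt_s3c x).deriv]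
    have h1 : 1 / 2 ≤ Real.cos x := by
      rw [← Real.cos_pi_div_three]
      exact Real.cos_le_cos_of_nonneg_of_le_pi hx.1.le (by linarith) hx.2.le
    have h2 : 0 ≤ 4 * Real.cos x ^ 2 - 1 := by nlinarith
    positivity

theorem F4aux_anti : AntitoneOn (fun a : ℝ => Real.sin a ^ 3 * Real.cos a)
    (Set.Icc (Real.pi / 3) (Real.pi / 2)) := by
  have hpi := Real.pi_pos
  refine antitoneOn_of_deriv_nonpos (convex_Icc _ _) ?_ ?_ ?_
  · exact fun x _ => (F4aux_hasDerivAt_s3c x).continuousAt.continuousWithinAt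
  · exact fun x _ => (F4aux_hasDerivAt_s3c x).differentiableAt.differentiableWithinAt
  · intro x hx
    rw [interior_Icc] at hx
    rw [(F4aux_hasDerivAt_s3c x).deriv]
    have h1 : Real.cos x ≤ 1 / 2 := by
      rw [← Real.cos_pi_div_three]
      exact Real.cos_le_cos_of_nonneg_of_le_pi (by linarith) (by linarith [hx.2]) hx.1.le
    have h0 : 0 ≤ Real.cos x :=
      Real.cos_nonneg_of_mem_Icc ⟨by linarith [hx.1], hx.2.le⟩
    have h2 : 4 * Real.cos x ^ 2 - 1 ≤ 0 := by nlinarith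
    exact mul_nonpos_of_nonneg_of_nonpos (sq_nonneg _) h2

theorem F4aux_hasDerivAt_P4 (a : ℝ) :
    HasDerivAt P4 (2 * Real.sin a ^ 2 / Real.pi) a := by
  have h1 := ((hasDerivAt_id a).sub
    ((Real.hasDerivAt_sin a).mul (Real.hasDerivAt_cos a))).div_const Real.pi
  refine h1.congr_deriv ?_
  have h := Real.sin_sq_add_cos_sq a
  congr 1
  nlinarith

theorem F4aux_hasDerivAt_Y4 (a : ℝ) :
    HasDerivAt Y4 ((8 / 3) * Real.sin a ^ 5 * Real.cos a) a := by
  have h1 := ((Real.hasDerivAt_sin a).pow 6).const_mul (4 / 9 : ℝ)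
  refine h1.congr_deriv ?_
  norm_num
  ring

/-- monotonicity transfer -/
theorem F4aux_le_of_Y4_le {a b : ℝ} (ha : 0 ≤ a) (ha' : a ≤ Real.pi / 2) (hb : 0 ≤ b)
    (hb' : b ≤ Real.pi / 2) (h : Y4 a ≤ Y4 b) : a ≤ b := by
  by_contra hlt
  rw [not_le] at hlt
  have hpi := Real.pi_pos
  have h1 : Real.sin b < Real.sin a :=
    Real.sin_lt_sin_of_lt_of_le_pi_div_two (by linarith) ha' hlt
  have h0 : 0 ≤ Real.sin b := Real.sin_nonneg_of_nonneg_of_le_pi hb (by linarith)
  have h2 : Real.sin b ^ 6 < Real.sin a ^ 6 := pow_lt_pow_left₀ h1 h0 (by norm_num)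
  unfold Y4 at h
  linarith

/-- optimal choice of the cap: `sin³ a = (3/2) r`. -/
theorem Cap4.exists_param {r μ : ℝ} (hr : 0 < r) (h : Cap4 r μ) :
    ∃ a : ℝ, 0 < a ∧ a < Real.pi / 2 ∧ r ^ 2 = Y4 a ∧ P4 a < μ := by
  have hpi := Real.pi_pos
  have h1 := h (Real.pi / 2) (by linarith) le_rfl
  rw [Real.sin_pi_div_two, Real.cos_pi_div_two] at h1
  have h2 : (3 / 2) * r < 1 := by linarith
  have h3 : 0 < (3 / 2) * r := by linarith
  -- find a by IVT for sin^3
  have hcont : ContinuousOn (fun a : ℝ => Real.sin a ^ 3) (Set.Icc 0 (Real.pi / 2)) :=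
    (Real.continuous_sin.pow 3).continuousOn
  have hivt := intermediate_value_Ioo (by linarith : (0 : ℝ) ≤ Real.pi / 2) hcont
  have hmem : (3 / 2) * r ∈ Set.Ioo ((fun a : ℝ => Real.sin a ^ 3) 0)
      ((fun a : ℝ => Real.sin a ^ 3) (Real.pi / 2)) := by
    constructor
    · simpa using h3
    · simpa using h2
  obtain ⟨a, ha, hae⟩ := hivt hmem
  have hae' : Real.sin a ^ 3 = (3 / 2) * r := hae
  have hcos : 0 < Real.cos a := Real.cos_pos_of_mem_Ioo ⟨by linarith [ha.1], ha.2⟩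
  refine ⟨a, ha.1, ha.2, ?_, ?_⟩
  · unfold Y4
    have : Real.sin a ^ 6 = (Real.sin a ^ 3) ^ 2 := by ring
    rw [this, hae']
    ring
  · have h4 := h a ha.1.le ha.2.le
    rw [← hae'] at h4
    unfold P4
    rw [div_lt_iff₀ hpi]
    have h5 : 0 < (3 / 2) * Real.cos a * (μ * Real.pi - (a - Real.sin a * Real.cos a)) := by
      nlinarith
    have h6 : 0 < μ * Real.pi - (a - Real.sin a * Real.cos a) := by
      by_contra hneg
      rw [not_lt] at hneg
      have : (3 / 2) * Real.cos a * (μ * Real.pi - (a - Real.sin a * Real.cos a)) ≤ 0 :=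
        mul_nonpos_of_nonneg_of_nonpos (by linarith) hneg
      linarith
    linarith

/-- tangent line at `a₀` (in the convex region), then rounded (`A`, `B`). -/
theorem Cap4.tangent_line {a₀ ab lo A B : ℝ} (h1 : Real.pi / 3 ≤ a₀) (h2 : a₀ < Real.pi / 2)
    (h3 : 0 < ab) (h4 : ab ≤ Real.pi / 3) (hlo : Y4 ab ≤ lo)
    (hcb : P4 a₀ + 3 / (4 * Real.pi * Real.sin a₀ ^ 3 * Real.cos a₀) * (Y4 ab - Y4 a₀) ≤ P4 ab)
    (hA : A + B * lo ≤ P4 a₀ + 3 / (4 * Real.pi * Real.sin a₀ ^ 3 * Real.cos a₀) * (lo - Y4 a₀))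
    (hA' : A + B * (4 / 9) ≤
      P4 a₀ + 3 / (4 * Real.pi * Real.sin a₀ ^ 3 * Real.cos a₀) * (4 / 9 - Y4 a₀))
    {r μ : ℝ} (hr : 0 < r) (hr' : lo ≤ r ^ 2) (h : Cap4 r μ) : A + B * r ^ 2 < μ := by
  have hpi := Real.pi_pos
  obtain ⟨a, ha0, ha1, hra, hPμ⟩ := Cap4.exists_param hr h
  have hs0 : 0 < Real.sin a₀ := Real.sin_pos_of_pos_of_lt_pi (by linarith) (by linarith)
  have hc0 : 0 < Real.cos a₀ := Real.cos_pos_of_mem_Ioo ⟨by linarith, h2⟩
  set S : ℝ := Real.sin a₀ ^ 3 * Real.cos a₀ with hS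
  have hSpos : 0 < S := by positivity
  set K : ℝ := 3 / (4 * Real.pi * Real.sin a₀ ^ 3 * Real.cos a₀) with hK
  have hKS : K = 3 / (4 * Real.pi * S) := by rw [hK, hS]; ring_nf
  have hKmul : (4 / 3) * K * S = 1 / Real.pi := by
    rw [hKS]; field_simp
  -- the function in x = π/2 - a
  have key : ∀ x ∈ Set.Icc (0 : ℝ) (Real.pi / 2 - ab),
      0 ≤ (fun x : ℝ => P4 (Real.pi / 2 - x) - P4 a₀ - K * (Y4 (Real.pi / 2 - x) - Y4 a₀)) x := by
    refine nonneg_of_unimodal (m := Real.pi / 6) (c₀ := Real.pi / 2 - a₀)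
      (w := fun x => (8 / 3) * K * Real.sin (Real.pi / 2 - x) ^ 2)
      (h := fun x => Real.sin (Real.pi / 2 - x) ^ 3 * Real.cos (Real.pi / 2 - x))
      (κ := S) (by linarith) (by linarith) ?_ ?_ ?_ ?_ ?_ ?_ ?_ ?_
    · intro x _
      have hin : HasDerivAt (fun x : ℝ => Real.pi / 2 - x) (-1) x := by
        simpa using (hasDerivAt_id x).const_sub (Real.pi / 2)
      have hP := (F4aux_hasDerivAt_P4 (Real.pi / 2 - x)).comp x hin
      have hY := (F4aux_hasDerivAt_Y4 (Real.pi / 2 - x)).comp x hin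
      have hD := (hP.sub_const (P4 a₀)).sub ((hY.sub_const (Y4 a₀)).const_mul K)
      refine hD.congr_deriv ?_
      have : 2 * Real.sin (Real.pi / 2 - x) ^ 2 / Real.pi =
          2 * Real.sin (Real.pi / 2 - x) ^ 2 * ((4 / 3) * K * S) := by
        rw [hKmul]; ring
      rw [this]
      ring
    · intro x _
      have hKpos : 0 < K := by rw [hKS]; positivity
      positivity
    · intro x hx y hy hxy
      exact F4aux_anti ⟨by linarith [hy.2], by linarith [hy.1]⟩
        ⟨by linarith [hx.2], by linarith [hx.1]⟩ (by linarith)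
    · intro x hx y hy hxy
      exact F4aux_mono ⟨by linarith [hy.2], by linarith [hy.1]⟩
        ⟨by linarith [hx.2], by linarith [hx.1]⟩ (by linarith)
    · exact ⟨by linarith, by linarith⟩
    · rw [sub_sub_cancel]
    · rw [sub_sub_cancel]
      simp
    · rw [sub_sub_cancel]
      linarith
  have hYa : Y4 ab ≤ Y4 a := by rw [← hra]; linarith
  have haab : ab ≤ a := F4aux_le_of_Y4_le h3.le (by linarith) ha0.le ha1.le hYa
  have hDa := key (Real.pi / 2 - a) ⟨by linarith, by linarith⟩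
  simp only [sub_sub_cancel] at hDa
  rw [← hra] at hDa
  have hY49 : r ^ 2 < 4 / 9 := by
    rw [hra]
    unfold Y4
    have hs : Real.sin a < 1 := by
      have := Real.sin_lt_sin_of_lt_of_le_pi_div_two (by linarith : -(Real.pi / 2) ≤ a) le_rfl ha1
      rwa [Real.sin_pi_div_two] at this
    have hs' : 0 ≤ Real.sin a := Real.sin_nonneg_of_nonneg_of_le_pi ha0.le (by linarith)
    have : Real.sin a ^ 6 < 1 := pow_lt_one₀ hs' hs (by norm_num)
    linarith
  have hfin : A + B * r ^ 2 ≤ P4 a₀ + K * (r ^ 2 - Y4 a₀) := by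
    have hlo' : lo < 4 / 9 := lt_of_le_of_lt hr' hY49
    have e1 : 0 ≤ (4 / 9 - r ^ 2) * ((P4 a₀ + K * (lo - Y4 a₀)) - (A + B * lo)) :=
      mul_nonneg (by linarith) (by linarith)
    have e2 : 0 ≤ (r ^ 2 - lo) * ((P4 a₀ + K * (4 / 9 - Y4 a₀)) - (A + B * (4 / 9))) :=
      mul_nonneg (by linarith) (by linarith)
    have e3 : 0 ≤ (4 / 9 - lo) * ((P4 a₀ + K * (r ^ 2 - Y4 a₀)) - (A + B * r ^ 2)) := by
      nlinarith
    have e4 : 0 ≤ (P4 a₀ + K * (r ^ 2 - Y4 a₀)) - (A + B * r ^ 2) :=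
      nonneg_of_mul_nonneg_right e3 (by linarith)
    linarith
  linarith

/-- chord in the concave region. -/
theorem Cap4.chord_line {aa ab lo hi A B : ℝ} (h1 : 0 ≤ ab) (h2 : ab ≤ aa) (h3 : aa ≤ Real.pi / 3)
    (hB : 0 < B) (hlo : Y4 ab ≤ lo) (hhi : hi ≤ Y4 aa)
    (hA : A + B * Y4 aa ≤ P4 aa) (hA' : A + B * Y4 ab ≤ P4 ab)
    {r μ : ℝ} (hr : 0 < r) (hr' : lo ≤ r ^ 2) (hr'' : r ^ 2 ≤ hi) (h : Cap4 r μ) :
    A + B * r ^ 2 < μ := by
  have hpi := Real.pi_pos
  obtain ⟨a, ha0, ha1, hra, hPμ⟩ := Cap4.exists_param hr h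
  have key : ∀ x ∈ Set.Icc ab aa, 0 ≤ (fun x : ℝ => P4 x - (A + B * Y4 x)) x := by
    refine quasiconcave_of_deriv (w := fun x => 2 * Real.sin x ^ 2)
      (h := fun x => -((4 / 3) * B * (Real.sin x ^ 3 * Real.cos x))) (κ := -(1 / Real.pi))
      h2 ?_ ?_ ?_ ?_ ?_
    · intro x _
      have hD := (F4aux_hasDerivAt_P4 x).sub (((F4aux_hasDerivAt_Y4 x).const_mul B).const_add A)
      refine hD.congr_deriv ?_
      ring
    · intro x _
      positivity
    · intro x hx y hy hxy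
      have := F4aux_mono ⟨by linarith [hx.1], by linarith [hx.2]⟩
        ⟨by linarith [hy.1], by linarith [hy.2]⟩ hxy
      simp only at this
      have h' : (4 / 3) * B * (Real.sin x ^ 3 * Real.cos x) ≤
          (4 / 3) * B * (Real.sin y ^ 3 * Real.cos y) :=
        mul_le_mul_of_nonneg_left this (by positivity)
      simp only
      linarith
    · linarith
    · linarith
  have hYa : Y4 ab ≤ Y4 a := by rw [← hra]; linarith
  have hYb : Y4 a ≤ Y4 aa := by rw [← hra]; linarith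
  have haab : ab ≤ a := F4aux_le_of_Y4_le h1 (by linarith) ha0.le ha1.le hYa
  have haaa : a ≤ aa := F4aux_le_of_Y4_le ha0.le ha1.le (by linarith) (by linarith) hYb
  have hDa := key a ⟨haab, haaa⟩
  simp only at hDa
  rw [← hra] at hDa
  linarith

end Crest.Agent.S0334
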