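import Crest.Agent.S0334_F0

set_option autoImplicit false

namespace Crest.Agent.S0334

/-! ### F5: affine minorants of the optimal cap bound, `d = 5`

`D c = P5 c - (A + B * Y5 c)` has derivative `(1-c²) (32/9) B (c (1-c²)² - (27/128)/B)`, and `c (1-c²)²` is increasing
on `[0, 1/√5]`, decreasing on `[1/√5, 1]`; use `nonneg_of_unimodal`, `quasiconcave_of_deriv`. -/

noncomputable def Y5 (c : ℝ) : ℝ := (4 / 9) * (1 - c ^ 2) ^ 4

noncomputable def P5 (c : ℝ) : ℝ := (1 - c) ^ 2 * (2 + c) / 4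

/-- optimal choice of the cap: `(1-c²)² = (3/2) r`; (`(3/2) r < 1` from `c = 0`). -/
theorem Cap5.exists_param {r μ : ℝ} (hr : 0 < r) (h : Cap5 r μ) :
    ∃ c : ℝ, 0 < c ∧ c < 1 ∧ r ^ 2 = Y5 c ∧ P5 c < μ := by
  have h0 := h 0 le_rfl zero_le_one
  have hr1 : (3 / 2) * r < 1 := by linarith
  set s : ℝ := √((3 / 2) * r) with hs
  have hspos : 0 < s := Real.sqrt_pos.mpr (by positivity)
  have hs1 : s < 1 := by
    rw [hs, Real.sqrt_lt' one_pos]; linarith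
  have hs2 : s ^ 2 = (3 / 2) * r := Real.sq_sqrt (by positivity)
  set c : ℝ := √(1 - s) with hc
  have hcpos : 0 < c := Real.sqrt_pos.mpr (by linarith)
  have hc2 : c ^ 2 = 1 - s := Real.sq_sqrt (by linarith)
  have hc1 : c < 1 := by
    rw [hc, Real.sqrt_lt' one_pos]; linarith
  have hs' : s = 1 - c ^ 2 := by linarith
  have hr' : r = (2 / 3) * (1 - c ^ 2) ^ 2 := by
    rw [← hs', hs2]; ring
  refine ⟨c, hcpos, hc1, ?_, ?_⟩
  · rw [hr']; unfold Y5; ring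
  · have h2 := h c hcpos.le hc1.le
    have h3 : (16 / 3) * c * P5 c < (16 / 3) * c * μ := by
      have h4 : (16 / 3) * c * P5 c = (3 / 2) * r - (1 - c) ^ 3 * (3 + c) / 3 := by
        rw [hr']; unfold P5; ring
      linarith
    exact lt_of_mul_lt_mul_left h3 (by positivity)

theorem P5_hasDerivAt (x : ℝ) : HasDerivAt P5 (-(3 / 4) * (1 - x ^ 2)) x := by
  have e : P5 = fun c : ℝ => (1 / 4) * c ^ 3 - (3 / 4) * c + 1 / 2 := by
    funext c; unfold P5; ring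
  rw [e]
  have h1 : HasDerivAt (fun c : ℝ => (1 / 4) * c ^ 3) ((1 / 4) * (3 * x ^ 2)) x := by
    simpa using (hasDerivAt_pow 3 x).const_mul (1 / 4 : ℝ)
  have h2 : HasDerivAt (fun c : ℝ => (3 / 4) * c) (3 / 4) x := by
    simpa using (hasDerivAt_id x).const_mul (3 / 4 : ℝ)
  have h3 := (h1.sub h2).add_const (1 / 2 : ℝ)
  refine h3.congr_deriv ?_
  ring

theorem Y5_hasDerivAt (x : ℝ) : HasDerivAt Y5 (-(32 / 9) * x * (1 - x ^ 2) ^ 3) x := by
  have h0 : HasDerivAt (fun c : ℝ => c ^ 2) (2 * x) x := by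
    simpa using hasDerivAt_pow 2 x
  have h1 : HasDerivAt (fun c : ℝ => 1 - c ^ 2) (-(2 * x)) x := by
    simpa using h0.const_sub 1
  have h2 := (h1.pow 4).const_mul (4 / 9 : ℝ)
  have h3 : HasDerivAt Y5 ((4 / 9 : ℝ) * (((4 : ℕ) : ℝ) * (1 - x ^ 2) ^ (4 - 1) * -(2 * x))) x := h2
  refine h3.congr_deriv ?_
  push_cast
  ring

/-- the derivative of `P5 - (A + B * Y5)` in the factored form. -/
theorem D5_hasDerivAt {A B : ℝ} (hB : 0 < B) (x : ℝ) :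
    HasDerivAt (fun c => P5 c - (A + B * Y5 c))
      (((32 / 9) * B * (1 - x ^ 2)) * (x * (1 - x ^ 2) ^ 2 - (27 / 128) / B)) x := by
  have h1 := (P5_hasDerivAt x).sub (((Y5_hasDerivAt x).const_mul B).const_add A)
  refine h1.congr_deriv ?_
  field_simp
  ring

theorem h5_hasDerivAt (x : ℝ) :
    HasDerivAt (fun c : ℝ => c * (1 - c ^ 2) ^ 2) ((1 - x ^ 2) * (1 - 5 * x ^ 2)) x := by
  have h0 : HasDerivAt (fun c : ℝ => c ^ 2) (2 * x) x := by
    simpa using hasDerivAt_pow 2 x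
  have h1 : HasDerivAt (fun c : ℝ => 1 - c ^ 2) (-(2 * x)) x := by
    simpa using h0.const_sub 1
  have h2 := (hasDerivAt_id x).mul (h1.pow 2)
  have h3 : HasDerivAt (fun c : ℝ => c * (1 - c ^ 2) ^ 2)
      (1 * (1 - x ^ 2) ^ 2 + x * (((2 : ℕ) : ℝ) * (1 - x ^ 2) ^ (2 - 1) * -(2 * x))) x := h2
  refine h3.congr_deriv ?_
  push_cast
  ring

theorem h5_mono {a m : ℝ} (ha : 0 ≤ a) (hm : 5 * m ^ 2 ≤ 1) :
    MonotoneOn (fun c : ℝ => c * (1 - c ^ 2) ^ 2) (Set.Icc a m) := by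
  apply monotoneOn_of_deriv_nonneg (convex_Icc a m)
  · exact fun x _ => (h5_hasDerivAt x).continuousAt.continuousWithinAt
  · exact fun x _ => (h5_hasDerivAt x).differentiableAt.differentiableWithinAt
  · intro x hx
    rw [interior_Icc] at hx
    rw [(h5_hasDerivAt x).deriv]
    have hx0 : 0 ≤ x := ha.trans hx.1.le
    have hx2 : x ^ 2 ≤ m ^ 2 := by
      have := hx.2.le
      nlinarith
    apply mul_nonneg <;> nlinarith

theorem h5_anti {m b : ℝ} (hm0 : 0 ≤ m) (hm : 1 ≤ 5 * m ^ 2) (hb : b ≤ 1) :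
    AntitoneOn (fun c : ℝ => c * (1 - c ^ 2) ^ 2) (Set.Icc m b) := by
  apply antitoneOn_of_deriv_nonpos (convex_Icc m b)
  · exact fun x _ => (h5_hasDerivAt x).continuousAt.continuousWithinAt
  · exact fun x _ => (h5_hasDerivAt x).differentiableAt.differentiableWithinAt
  · intro x hx
    rw [interior_Icc] at hx
    rw [(h5_hasDerivAt x).deriv]
    have hx0 : m ≤ x := hx.1.le
    have hx1 : x ≤ 1 := hx.2.le.trans hb
    have hx2 : m ^ 2 ≤ x ^ 2 := by nlinarith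
    apply mul_nonpos_of_nonneg_of_nonpos <;> nlinarith

theorem Y5_strictAnti {x y : ℝ} (hx : 0 ≤ x) (hxy : x < y) (hy : y ≤ 1) : Y5 y < Y5 x := by
  unfold Y5
  have h1 : 0 ≤ 1 - y ^ 2 := by nlinarith
  have h2 : 1 - y ^ 2 < 1 - x ^ 2 := by nlinarith
  have h3 : (1 - y ^ 2) ^ 4 < (1 - x ^ 2) ^ 4 := pow_lt_pow_left₀ h2 h1 (by norm_num)
  linarith

theorem Y5_le_four_ninths {x : ℝ} (hx : 0 ≤ x) (hx1 : x ≤ 1) : Y5 x ≤ 4 / 9 := by
  have h0 : Y5 0 = 4 / 9 := by unfold Y5; norm_num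
  rcases hx.eq_or_lt with h | h
  · rw [← h, h0]
  · rw [← h0]; exact (Y5_strictAnti le_rfl h hx1).le

theorem le_of_Y5_le {x y : ℝ} (hy : 0 ≤ y) (hx1 : x ≤ 1) (h : Y5 y ≤ Y5 x) : x ≤ y := by
  by_contra hc
  push Not at hc
  exact absurd (Y5_strictAnti hy hc hx1) (not_lt.mpr h)

/-- tangent line at `c₀` (in the convex region), then rounded (`A`, `B`). -/
theorem Cap5.tangent_line {c₀ cb lo A B : ℝ} (h1 : 0 < c₀) (h2 : 5 * c₀ ^ 2 ≤ 1) (h3 : 1 ≤ 5 * cb ^ 2)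
    (h3' : 0 < cb) (h4 : cb < 1) (hlo : Y5 cb ≤ lo)
    (hcb : P5 c₀ + (27 / 128) / (c₀ * (1 - c₀ ^ 2) ^ 2) * (Y5 cb - Y5 c₀) ≤ P5 cb)
    (hA : A + B * lo ≤ P5 c₀ + (27 / 128) / (c₀ * (1 - c₀ ^ 2) ^ 2) * (lo - Y5 c₀))
    (hA' : A + B * (4 / 9) ≤ P5 c₀ + (27 / 128) / (c₀ * (1 - c₀ ^ 2) ^ 2) * (4 / 9 - Y5 c₀))
    {r μ : ℝ} (hr : 0 < r) (hr' : lo ≤ r ^ 2) (h : Cap5 r μ) : A + B * r ^ 2 < μ := by
  obtain ⟨c, hc0, hc1, hrc, hPc⟩ := h.exists_param hr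
  set K : ℝ := (27 / 128) / (c₀ * (1 - c₀ ^ 2) ^ 2) with hK
  have hc₀2 : 0 < 1 - c₀ ^ 2 := by nlinarith
  have hden : 0 < c₀ * (1 - c₀ ^ 2) ^ 2 := by positivity
  have hKpos : 0 < K := by positivity
  -- `c ≤ cb`
  have hccb : c ≤ cb := by
    apply le_of_Y5_le h3'.le hc1.le
    linarith
  -- the turning point
  set m : ℝ := √(1 / 5) with hm
  have hm0 : 0 ≤ m := Real.sqrt_nonneg _
  have hm2 : m ^ 2 = 1 / 5 := Real.sq_sqrt (by norm_num)
  have hmcb : m ≤ cb := by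
    apply le_of_sq_le_sq _ h3'.le
    rw [hm2]; linarith
  have hc₀m : c₀ ≤ m := by
    apply le_of_sq_le_sq _ hm0
    rw [hm2]; linarith
  have key := nonneg_of_unimodal (D := fun c => P5 c - ((P5 c₀ - K * Y5 c₀) + K * Y5 c))
    (w := fun x => (32 / 9) * K * (1 - x ^ 2)) (h := fun c => c * (1 - c ^ 2) ^ 2)
    (κ := (27 / 128) / K) (a := 0) (m := m) (b := cb) (c₀ := c₀) hm0 hmcb
    (fun x _ => D5_hasDerivAt hKpos x)
    (fun x hx => by
      have : 0 ≤ 1 - x ^ 2 := by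
        have h1 := hx.1
        have h2 := hx.2
        nlinarith
      positivity)
    (h5_mono le_rfl (by rw [hm2]; norm_num))
    (h5_anti hm0 (by rw [hm2]; norm_num) h4.le)
    ⟨h1.le, hc₀m⟩
    (by
      show c₀ * (1 - c₀ ^ 2) ^ 2 = (27 / 128) / K
      rw [hK]; field_simp)
    (by
      show 0 ≤ P5 c₀ - ((P5 c₀ - K * Y5 c₀) + K * Y5 c₀)
      linarith)
    (by
      show 0 ≤ P5 cb - ((P5 c₀ - K * Y5 c₀) + K * Y5 cb)
      linarith)
    c ⟨hc0.le, hccb⟩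
  have key' : (P5 c₀ - K * Y5 c₀) + K * Y5 c ≤ P5 c := by
    have : 0 ≤ P5 c - ((P5 c₀ - K * Y5 c₀) + K * Y5 c) := key
    linarith
  -- compare the two affine functions on `[lo, 4/9]`
  have hy : Y5 c ≤ 4 / 9 := Y5_le_four_ninths hc0.le hc1.le
  have hlin : A + B * Y5 c ≤ (P5 c₀ - K * Y5 c₀) + K * Y5 c := by
    rw [hrc] at hr'
    generalize Y5 c = y at *
    rcases le_total B K with hBK | hBK
    · -- slope of the difference `(K - B) ≥ 0`
      nlinarith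
    · nlinarith
  rw [hrc]
  linarith

/-- chord in the concave region. -/
theorem Cap5.chord_line {ca cb lo hi A B : ℝ} (h1 : 0 < ca) (h2 : 1 ≤ 5 * ca ^ 2) (h3 : ca ≤ cb)
    (h4 : cb ≤ 1) (hB : 0 < B) (hlo : Y5 cb ≤ lo) (hhi : hi ≤ Y5 ca)
    (hA : A + B * Y5 ca ≤ P5 ca) (hA' : A + B * Y5 cb ≤ P5 cb)
    {r μ : ℝ} (hr : 0 < r) (hr' : lo ≤ r ^ 2) (hr'' : r ^ 2 ≤ hi) (h : Cap5 r μ) :
    A + B * r ^ 2 < μ := by
  obtain ⟨c, hc0, hc1, hrc, hPc⟩ := h.exists_param hr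
  have hccb : c ≤ cb := by
    apply le_of_Y5_le (h1.le.trans h3) hc1.le
    linarith
  have hcac : ca ≤ c := by
    apply le_of_Y5_le hc0.le (h3.trans h4)
    linarith
  have key := quasiconcave_of_deriv (D := fun c => P5 c - (A + B * Y5 c))
    (w := fun x => (32 / 9) * B * (1 - x ^ 2)) (h := fun c => c * (1 - c ^ 2) ^ 2)
    (κ := (27 / 128) / B) (a := ca) (b := cb) h3
    (fun x _ => D5_hasDerivAt hB x)
    (fun x hx => by
      have : 0 ≤ 1 - x ^ 2 := by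
        have h1 := hx.1
        have h2 := hx.2
        nlinarith
      positivity)
    (h5_anti h1.le h2 h4)
    (by
      show 0 ≤ P5 ca - (A + B * Y5 ca)
      linarith)
    (by
      show 0 ≤ P5 cb - (A + B * Y5 cb)
      linarith)
    c ⟨hcac, hccb⟩
  have key' : 0 ≤ P5 c - (A + B * Y5 c) := key
  rw [hrc]
  linarith

end Crest.Agent.S0334
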