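import Crest.Agent.S0334_F0

set_option autoImplicit false

namespace Crest.Agent.S0334

/-! ### F7: affine minorants of the optimal cap bound, `d = 7`

`D c = P7 c - (A + B * Y7 c)` has derivative `(1-c²)² (16/3) B (c (1-c²)³ - (45/256)/B)`, and `c (1-c²)³` is increasing
on `[0, 1/√7]`, decreasing on `[1/√7, 1]`; use `nonneg_of_unimodal`, `quasiconcave_of_deriv`. -/

noncomputable def Y7 (c : ℝ) : ℝ := (4 / 9) * (1 - c ^ 2) ^ 6

noncomputable def P7 (c : ℝ) : ℝ := (1 - c) ^ 3 * (8 + 9 * c + 3 * c ^ 2) / 16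

/-- optimal choice of the cap: `(1-c²)³ = (3/2) r`; (`(3/2) r < 1` from `c = 0`). -/
theorem Cap7.exists_param {r μ : ℝ} (hr : 0 < r) (h : Cap7 r μ) :
    ∃ c : ℝ, 0 < c ∧ c < 1 ∧ r ^ 2 = Y7 c ∧ P7 c < μ := by
  have h0 : (3 / 2) * r < 1 := by
    have := h 0 le_rfl zero_le_one
    norm_num at this
    linarith
  have hcont : ContinuousOn (fun c : ℝ => (1 - c ^ 2) ^ 3) (Set.Icc 0 1) := by fun_prop
  have hmem : (3 / 2) * r ∈ Set.Ioo ((fun c : ℝ => (1 - c ^ 2) ^ 3) 1)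
      ((fun c : ℝ => (1 - c ^ 2) ^ 3) 0) := by
    constructor
    · norm_num; exact hr
    · norm_num; linarith
  obtain ⟨c, hc, hc'⟩ := intermediate_value_Ioo' (zero_le_one) hcont hmem
  simp only at hc'
  refine ⟨c, hc.1, hc.2, ?_, ?_⟩
  · have : r = (2 / 3) * (1 - c ^ 2) ^ 3 := by linarith
    rw [this]; unfold Y7; ring
  · have h1 := h c hc.1.le hc.2.le
    rw [← hc'] at h1
    have h2 : (1 - c ^ 2) ^ 3 - (1 - c) ^ 4 * (5 + 4 * c + c ^ 2) / 5 = (32 / 5) * c * P7 c := by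
      unfold P7; ring
    have h3 : (32 / 5) * c * P7 c < (32 / 5) * c * μ := by linarith
    have h4 : 0 < (32 / 5) * c := by have := hc.1; positivity
    exact lt_of_mul_lt_mul_left h3 h4.le

private theorem hasDerivAt_D7 (A B κ : ℝ) (hκ : B * κ = 45 / 256) (x : ℝ) :
    HasDerivAt (fun c => P7 c - (A + B * Y7 c))
      (((1 - x ^ 2) ^ 2 * (16 / 3) * B) * (x * (1 - x ^ 2) ^ 3 - κ)) x := by
  have e1 : HasDerivAt (fun c : ℝ => (1 - c)) (-1) x := by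
    simpa using (hasDerivAt_id' x).const_sub (1 : ℝ)
  have e2 : HasDerivAt (fun c : ℝ => (1 - c ^ 2)) (-(2 * x)) x := by
    simpa using (hasDerivAt_pow 2 x).const_sub (1 : ℝ)
  have e3 : HasDerivAt (fun c : ℝ => (8 + 9 * c + 3 * c ^ 2)) (9 + 3 * (2 * x)) x := by
    have a1 : HasDerivAt (fun c : ℝ => 8 + 9 * c) 9 x := by
      simpa using ((hasDerivAt_id' x).const_mul (9 : ℝ)).const_add (8 : ℝ)
    have a2 : HasDerivAt (fun c : ℝ => 3 * c ^ 2) (3 * (2 * x)) x := by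
      simpa using (hasDerivAt_pow 2 x).const_mul (3 : ℝ)
    exact a1.fun_add a2
  have e4 := ((e1.fun_pow 3).fun_mul e3).div_const 16
  have e5 := (((e2.fun_pow 6).const_mul (4 / 9 : ℝ)).const_mul B).const_add A
  have e6 := e4.fun_sub e5
  have hval : (((1 - x ^ 2) ^ 2 * (16 / 3) * B) * (x * (1 - x ^ 2) ^ 3 - κ)) =
      (1 - x ^ 2) ^ 2 * (16 / 3) * B * x * (1 - x ^ 2) ^ 3 - (1 - x ^ 2) ^ 2 * (16 / 3) * (B * κ) := by
    ring
  rw [hval, hκ]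
  refine e6.congr_deriv ?_
  push_cast
  ring

private theorem h7_sub (x y : ℝ) (hx : 0 ≤ x) (hxy : x ≤ y) (hy : 7 * y ^ 2 ≤ 1) :
    x * (1 - x ^ 2) ^ 3 ≤ y * (1 - y ^ 2) ^ 3 := by
  have hmono : MonotoneOn (fun t : ℝ => t * (1 - t ^ 2) ^ 3) (Set.Icc x y) := by
    apply monotoneOn_of_deriv_nonneg (convex_Icc x y) (by fun_prop) (by fun_prop)
    intro t ht
    rw [interior_Icc] at ht
    have e2 : HasDerivAt (fun c : ℝ => (1 - c ^ 2)) (-(2 * t)) t := by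
      simpa using (hasDerivAt_pow 2 t).const_sub (1 : ℝ)
    have e3 := (hasDerivAt_id' t).fun_mul (e2.fun_pow 3)
    have e4 : HasDerivAt (fun t : ℝ => t * (1 - t ^ 2) ^ 3) ((1 - t ^ 2) ^ 2 * (1 - 7 * t ^ 2)) t := by
      refine e3.congr_deriv ?_
      push_cast
      ring
    rw [e4.deriv]
    have ht2 : t ^ 2 ≤ y ^ 2 := by
      have := ht.1; have := ht.2
      nlinarith
    have : 0 ≤ 1 - 7 * t ^ 2 := by linarith
    positivity
  exact hmono (Set.left_mem_Icc.mpr hxy) (Set.right_mem_Icc.mpr hxy) hxy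

private theorem h7_sub' (x y : ℝ) (hx : 0 < x) (hxy : x ≤ y) (hx7 : 1 ≤ 7 * x ^ 2) :
    y * (1 - y ^ 2) ^ 3 ≤ x * (1 - x ^ 2) ^ 3 := by
  have hmono : AntitoneOn (fun t : ℝ => t * (1 - t ^ 2) ^ 3) (Set.Icc x y) := by
    apply antitoneOn_of_deriv_nonpos (convex_Icc x y) (by fun_prop) (by fun_prop)
    intro t ht
    rw [interior_Icc] at ht
    have e2 : HasDerivAt (fun c : ℝ => (1 - c ^ 2)) (-(2 * t)) t := by
      simpa using (hasDerivAt_pow 2 t).const_sub (1 : ℝ)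
    have e3 := (hasDerivAt_id' t).fun_mul (e2.fun_pow 3)
    have e4 : HasDerivAt (fun t : ℝ => t * (1 - t ^ 2) ^ 3) ((1 - t ^ 2) ^ 2 * (1 - 7 * t ^ 2)) t := by
      refine e3.congr_deriv ?_
      push_cast
      ring
    rw [e4.deriv]
    have ht2 : x ^ 2 ≤ t ^ 2 := by
      have := ht.1; have := ht.2
      nlinarith
    have : 1 - 7 * t ^ 2 ≤ 0 := by linarith
    exact mul_nonpos_of_nonneg_of_nonpos (by positivity) this
  exact hmono (Set.left_mem_Icc.mpr hxy) (Set.right_mem_Icc.mpr hxy) hxy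

private theorem Y7_anti {x y : ℝ} (hx : 0 ≤ x) (hxy : x < y) (hy : y ≤ 1) : Y7 y < Y7 x := by
  unfold Y7
  have h1 : 0 ≤ 1 - y ^ 2 := by nlinarith
  have h2 : 1 - y ^ 2 < 1 - x ^ 2 := by nlinarith
  have h3 : (1 - y ^ 2) ^ 6 < (1 - x ^ 2) ^ 6 := pow_lt_pow_left₀ h2 h1 (by norm_num)
  linarith

private theorem Y7_le {x : ℝ} (hx : 0 ≤ x) (hy : x ≤ 1) : Y7 x ≤ 4 / 9 := by
  unfold Y7
  have h1 : 0 ≤ 1 - x ^ 2 := by nlinarith
  have h2 : 1 - x ^ 2 ≤ 1 := by nlinarith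
  have h3 : (1 - x ^ 2) ^ 6 ≤ 1 := pow_le_one₀ h1 h2
  linarith

private theorem le_of_sq_le_sq7 {x y : ℝ} (hy : 0 ≤ y) (h : x ^ 2 ≤ y ^ 2) : x ≤ y :=
  (le_abs_self x).trans (abs_le_of_sq_le_sq h hy)

/-- tangent line at `c₀` (in the convex region), then rounded (`A`, `B`). -/
theorem Cap7.tangent_line {c₀ cb lo A B : ℝ} (h1 : 0 < c₀) (h2 : 7 * c₀ ^ 2 ≤ 1) (h3 : 1 ≤ 7 * cb ^ 2)
    (h3' : 0 < cb) (h4 : cb < 1) (hlo : Y7 cb ≤ lo)
    (hcb : P7 c₀ + (45 / 256) / (c₀ * (1 - c₀ ^ 2) ^ 3) * (Y7 cb - Y7 c₀) ≤ P7 cb)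
    (hA : A + B * lo ≤ P7 c₀ + (45 / 256) / (c₀ * (1 - c₀ ^ 2) ^ 3) * (lo - Y7 c₀))
    (hA' : A + B * (4 / 9) ≤ P7 c₀ + (45 / 256) / (c₀ * (1 - c₀ ^ 2) ^ 3) * (4 / 9 - Y7 c₀))
    {r μ : ℝ} (hr : 0 < r) (hr' : lo ≤ r ^ 2) (h : Cap7 r μ) : A + B * r ^ 2 < μ := by
  obtain ⟨c, hc0, hc1, hY, hP⟩ := h.exists_param hr
  set B₀ := (45 / 256) / (c₀ * (1 - c₀ ^ 2) ^ 3) with hB₀
  have hc₀1 : c₀ ^ 2 < 1 := by linarith
  have hpos : 0 < c₀ * (1 - c₀ ^ 2) ^ 3 := by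
    have : 0 < 1 - c₀ ^ 2 := by linarith
    positivity
  have hB₀pos : 0 < B₀ := by rw [hB₀]; positivity
  have hκ : B₀ * (c₀ * (1 - c₀ ^ 2) ^ 3) = 45 / 256 := by
    rw [hB₀, div_mul_cancel₀ _ hpos.ne']
  -- `c ≤ cb`
  have hccb : c ≤ cb := by
    by_contra hcon
    push Not at hcon
    have := Y7_anti h3'.le hcon hc1.le
    linarith
  have hs : (0 : ℝ) < 1 / √7 := by positivity
  have hs2 : (1 / √7 : ℝ) ^ 2 = 1 / 7 := by
    rw [div_pow, Real.sq_sqrt (by norm_num)]; norm_num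
  have hm1 : c₀ ≤ 1 / √7 := by
    apply le_of_sq_le_sq7 hs.le
    rw [hs2]; linarith
  have hm2 : 1 / √7 ≤ cb := by
    apply le_of_sq_le_sq7 h3'.le
    rw [hs2]; linarith
  have key := nonneg_of_unimodal (D := fun c => P7 c - ((P7 c₀ - B₀ * Y7 c₀) + B₀ * Y7 c))
    (w := fun x => (1 - x ^ 2) ^ 2 * (16 / 3) * B₀) (h := fun x => x * (1 - x ^ 2) ^ 3)
    (κ := c₀ * (1 - c₀ ^ 2) ^ 3) (a := 0) (m := 1 / √7) (b := cb) (c₀ := c₀)
    hs.le hm2 (fun x _ => hasDerivAt_D7 _ _ _ hκ x) (fun x _ => by positivity)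
    (fun x hx y hy hxy => h7_sub x y hx.1 hxy (by
      have : y ^ 2 ≤ (1 / √7) ^ 2 := by
        have := hy.1; have := hy.2
        exact pow_le_pow_left₀ hy.1 hy.2 2
      rw [hs2] at this; linarith))
    (fun x hx y hy hxy => h7_sub' x y (lt_of_lt_of_le hs hx.1) hxy (by
      have : (1 / √7) ^ 2 ≤ x ^ 2 := pow_le_pow_left₀ hs.le hx.1 2
      rw [hs2] at this; linarith))
    ⟨h1.le, hm1⟩ rfl (by simp) (by linarith) c ⟨hc0.le, hccb⟩
  rw [← hY] at key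
  have hle : r ^ 2 ≤ 4 / 9 := by rw [hY]; exact Y7_le hc0.le hc1.le
  have hfin : A + B * r ^ 2 ≤ P7 c₀ + B₀ * (r ^ 2 - Y7 c₀) := by
    -- linear interpolation
    have hlo4 : lo ≤ 4 / 9 := hr'.trans hle
    by_cases hBB : B ≤ B₀
    · nlinarith [mul_nonneg (sub_nonneg.2 hBB) (sub_nonneg.2 hr')]
    · push Not at hBB
      nlinarith [mul_nonneg (sub_nonneg.2 hBB.le) (sub_nonneg.2 hle)]
  linarith

/-- chord in the concave region. -/
theorem Cap7.chord_line {ca cb lo hi A B : ℝ} (h1 : 0 < ca) (h2 : 1 ≤ 7 * ca ^ 2) (h3 : ca ≤ cb)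
    (h4 : cb ≤ 1) (hB : 0 < B) (hlo : Y7 cb ≤ lo) (hhi : hi ≤ Y7 ca)
    (hA : A + B * Y7 ca ≤ P7 ca) (hA' : A + B * Y7 cb ≤ P7 cb)
    {r μ : ℝ} (hr : 0 < r) (hr' : lo ≤ r ^ 2) (hr'' : r ^ 2 ≤ hi) (h : Cap7 r μ) :
    A + B * r ^ 2 < μ := by
  obtain ⟨c, hc0, hc1, hY, hP⟩ := h.exists_param hr
  have hcb0 : 0 < cb := h1.trans_le h3
  have hccb : c ≤ cb := by
    by_contra hcon
    push Not at hcon
    have := Y7_anti hcb0.le hcon hc1.le
    linarith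
  have hcca : ca ≤ c := by
    by_contra hcon
    push Not at hcon
    have := Y7_anti hc0.le hcon (h3.trans h4)
    linarith
  have hκ : B * ((45 / 256) / B) = 45 / 256 := by field_simp
  have key := quasiconcave_of_deriv (D := fun c => P7 c - (A + B * Y7 c))
    (w := fun x => (1 - x ^ 2) ^ 2 * (16 / 3) * B) (h := fun x => x * (1 - x ^ 2) ^ 3)
    (κ := (45 / 256) / B) (a := ca) (b := cb) h3
    (fun x _ => hasDerivAt_D7 _ _ _ hκ x) (fun x _ => by positivity)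
    (fun x hx y hy hxy => h7_sub' x y (lt_of_lt_of_le h1 hx.1) hxy (by
      have : ca ^ 2 ≤ x ^ 2 := pow_le_pow_left₀ h1.le hx.1 2
      linarith))
    (by linarith) (by linarith) c ⟨hcca, hccb⟩
  rw [← hY] at key
  linarith

end Crest.Agent.S0334
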