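import Crest.Agent.S0334_F0

set_option autoImplicit false

namespace Crest.Agent.S0334

/-! ### FV: the vertical bound

`c = √(1 - t²)` with `t⁵ = (3/2) r`; then `μ > (5/96)(1-c)³(8+9c+3c²)`, `r² = (4/9)(1-c²)⁵`; divide by
`(1-c)³`: need `(5/96)(8+9c+3c²) ≥ (4β/9)(1-c)²(1+c)⁵` for `c ≥ 0.6455` (β = 1.16),
resp. `c ≥ 0.4734` (β = 0.78); the right side is decreasing for `c ≥ 3/7`. -/

theorem Vert7.exists_param {r μ : ℝ} (hr : 0 < r) (hr1 : (3 / 2) * r < 1) (h : Vert7 r μ) :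
    ∃ c : ℝ, 0 < c ∧ c < 1 ∧ r ^ 2 = (4 / 9) * (1 - c ^ 2) ^ 5 ∧
      (5 / 96) * (1 - c) ^ 3 * (8 + 9 * c + 3 * c ^ 2) < μ := by
  set t : ℝ := ((3 / 2) * r) ^ ((1 : ℝ) / 5) with ht
  have hr0 : 0 < (3 / 2) * r := by positivity
  have ht0 : 0 < t := Real.rpow_pos_of_pos hr0 _
  have ht1 : t < 1 := Real.rpow_lt_one hr0.le hr1 (by norm_num)
  have ht5 : t ^ 5 = (3 / 2) * r := by
    rw [ht, ← Real.rpow_natCast, ← Real.rpow_mul hr0.le]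
    norm_num
  have ht2 : t ^ 2 < 1 := by nlinarith
  have hc0 : 0 < √(1 - t ^ 2) := Real.sqrt_pos.2 (by linarith)
  have hcs : √(1 - t ^ 2) ^ 2 = 1 - t ^ 2 := Real.sq_sqrt (by linarith)
  set c : ℝ := √(1 - t ^ 2) with hc
  have hc1 : c < 1 := by nlinarith [sq_nonneg t, mul_pos ht0 ht0]
  have h1 : 1 - c ^ 2 = t ^ 2 := by linarith
  refine ⟨c, hc0, hc1, ?_, ?_⟩
  · rw [h1]
    have : r = (2 / 3) * t ^ 5 := by rw [ht5]; ring
    rw [this]; ring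
  · have h2 := h c hc0.le hc1
    rw [h1, Real.sqrt_sq ht0.le] at h2
    have h3 : (3 / 2) * r * t = (1 - c ^ 2) ^ 3 := by rw [h1, ← ht5]; ring
    rw [h3] at h2
    have h4 : 0 < c * ((32 / 5) * μ - (1 - c) ^ 3 * (8 / 3 + 3 * c + c ^ 2)) := by
      nlinarith
    have h5 := (mul_pos_iff_of_pos_left hc0).1 h4
    linarith

/-- `(1-c)²(1+c)⁵` is decreasing for `c ≥ 3/7`. -/
theorem FV_anti {a b : ℝ} (ha : 3 / 7 ≤ a) (hab : a ≤ b) (hb : b ≤ 1) :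
    (1 - b) ^ 2 * (1 + b) ^ 5 ≤ (1 - a) ^ 2 * (1 + a) ^ 5 := by
  have hanti : AntitoneOn (fun c : ℝ => (1 - c) ^ 2 * (1 + c) ^ 5) (Set.Icc (3 / 7) 1) := by
    apply antitoneOn_of_deriv_nonpos (convex_Icc _ _)
    · fun_prop
    · fun_prop
    · intro x hx
      rw [interior_Icc] at hx
      have hd : HasDerivAt (fun c : ℝ => (1 - c) ^ 2 * (1 + c) ^ 5)
          ((1 - x) * (1 + x) ^ 4 * (3 - 7 * x)) x := by
        have h1 : HasDerivAt (fun c : ℝ => (1 - c) ^ 2) (2 * (1 - x) ^ 1 * (-1)) x := by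
          have := ((hasDerivAt_id x).const_sub 1).fun_pow 2
          simpa using this
        have h2 : HasDerivAt (fun c : ℝ => (1 + c) ^ 5) (5 * (1 + x) ^ 4 * 1) x := by
          have := ((hasDerivAt_id x).const_add 1).fun_pow 5
          simpa using this
        have h3 := h1.fun_mul h2
        refine h3.congr_deriv ?_
        ring
      rw [hd.deriv]
      have : 0 ≤ (1 - x) * (1 + x) ^ 4 := by
        have := hx.1; have := hx.2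
        have h3 : 0 ≤ 1 - x := by linarith
        positivity
      nlinarith [hx.1]
  exact hanti ⟨ha, hab.trans hb⟩ ⟨ha.trans hab, hb⟩ hab

theorem FV_line {β c₀ : ℝ} (hβ : 0 ≤ β) (hc₀ : 3 / 7 ≤ c₀)
    (hn : (4 / 9) * β * ((1 - c₀) ^ 2 * (1 + c₀) ^ 5) ≤ (5 / 96) * (8 + 9 * c₀ + 3 * c₀ ^ 2))
    {c : ℝ} (hc : c₀ ≤ c) (hc1 : c < 1) :
    β * ((4 / 9) * (1 - c ^ 2) ^ 5) ≤ (5 / 96) * (1 - c) ^ 3 * (8 + 9 * c + 3 * c ^ 2) := by
  have h1 := FV_anti hc₀ hc hc1.le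
  have h2 : (4 / 9) * β * ((1 - c) ^ 2 * (1 + c) ^ 5) ≤ (5 / 96) * (8 + 9 * c + 3 * c ^ 2) := by
    have h3 : (4 / 9) * β * ((1 - c) ^ 2 * (1 + c) ^ 5) ≤
        (4 / 9) * β * ((1 - c₀) ^ 2 * (1 + c₀) ^ 5) :=
      mul_le_mul_of_nonneg_left h1 (by positivity)
    have h4 : c₀ ^ 2 ≤ c ^ 2 := by nlinarith
    linarith
  have h5 : 0 ≤ (1 - c) ^ 3 := pow_nonneg (by linarith) 3
  calc β * ((4 / 9) * (1 - c ^ 2) ^ 5)
      = (1 - c) ^ 3 * ((4 / 9) * β * ((1 - c) ^ 2 * (1 + c) ^ 5)) := by ring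
    _ ≤ (1 - c) ^ 3 * ((5 / 96) * (8 + 9 * c + 3 * c ^ 2)) := mul_le_mul_of_nonneg_left h2 h5
    _ = _ := by ring

theorem Vert7.line1 {r μ : ℝ} (hr : 0 < r) (h : Vert7 r μ) (hr1 : r ^ 2 ≤ 0.03) :
    1.16 * r ^ 2 < μ := by
  obtain ⟨c, hc0, hc1, hc2, hc3⟩ := h.exists_param hr (by nlinarith)
  have hc : (0.6455 : ℝ) ≤ c := by
    by_contra hlt
    push Not at hlt
    have h1 : (0.58332975 : ℝ) ≤ 1 - c ^ 2 := by nlinarith
    have h2 : (0.58332975 : ℝ) ^ 5 ≤ (1 - c ^ 2) ^ 5 := pow_le_pow_left₀ (by norm_num) h1 5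
    norm_num at h2
    linarith
  have := FV_line (β := 1.16) (c₀ := 0.6455) (by norm_num) (by norm_num) (by norm_num) hc hc1
  rw [hc2]
  linarith

theorem Vert7.line2 {r μ : ℝ} (hr : 0 < r) (h : Vert7 r μ) (hr1 : r ^ 2 ≤ 1 / 8) :
    0.78 * r ^ 2 < μ := by
  obtain ⟨c, hc0, hc1, hc2, hc3⟩ := h.exists_param hr (by nlinarith)
  have hc : (0.4733 : ℝ) ≤ c := by
    by_contra hlt
    push Not at hlt
    have h1 : (0.77598711 : ℝ) ≤ 1 - c ^ 2 := by nlinarith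
    have h2 : (0.77598711 : ℝ) ^ 5 ≤ (1 - c ^ 2) ^ 5 := pow_le_pow_left₀ (by norm_num) h1 5
    norm_num at h2
    linarith
  have := FV_line (β := 0.78) (c₀ := 0.4733) (by norm_num) (by norm_num) (by norm_num) hc hc1
  rw [hc2]
  linarith

end Crest.Agent.S0334
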