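import Crest.Agent.S0334_Q
import Crest.Agent.S0334_D3b

set_option autoImplicit false

open MeasureTheory ProbabilityTheory
open scoped RealInnerProductSpace

namespace Crest.Agent.S0334

/-! ### G1: the lower bounds for the smallest vertex in terms of the squared norms

`a < b < c < m` indices (so the norms are decreasing). Use `Q_bound` with `T = ![a,b,c]`,
`α = -⟪v a, v b⟫`, etc; the row sums are `∑_{j ≠ a} -⟪v a, v j⟫ = ‖v a‖²` (from `o.sum`), all terms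
positive (`o.neg`), and `2(α+β+γ) ≥ 2t - 1` since
`t - 2(α+β+γ) = ∑_{i∈T, j∉T} -⟪v i, v j⟫ ≤ ∑_{j∉T} ‖v j‖² = 1 - t`.
Sides: `‖v i - v j‖² = y_i + y_j + 2 c_ij ≤ y_i + 3 y_j` for `i < j`, as `c_ij ≤ y_j`. -/

/-- row sums -/
theorem Opt.g1_row {k : ℕ} {lam : ℝ} {v : Fin k → V k} {A : Fin k → Set (V k)}
    (o : Opt k lam v A) (i : Fin k) (T : Finset (Fin k)) (hT : i ∉ T) :
    ∑ j ∈ T, -⟪v i, v j⟫ ≤ ‖v i‖ ^ 2 := by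
  have h1 : ∑ j ∈ Finset.univ.erase i, -⟪v i, v j⟫ = ‖v i‖ ^ 2 := by
    have h2 : v i + ∑ j ∈ Finset.univ.erase i, v j = 0 := by
      rw [Finset.add_sum_erase _ _ (Finset.mem_univ i)]
      exact o.sum
    have h3 : ∑ j ∈ Finset.univ.erase i, v j = - v i := by
      rw [eq_neg_iff_add_eq_zero, add_comm]
      exact h2
    rw [Finset.sum_neg_distrib, ← inner_sum, h3, inner_neg_right, real_inner_self_eq_norm_sq]
    ring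
  rw [← h1]
  apply Finset.sum_le_sum_of_subset_of_nonneg
  · intro j hj
    rw [Finset.mem_erase]
    exact ⟨fun h => hT (h ▸ hj), Finset.mem_univ _⟩
  · intro j hj _
    have := o.neg i j (Finset.ne_of_mem_erase hj).symm
    linarith

theorem Opt.g1_tri {k : ℕ} {lam : ℝ} {v : Fin k → V k} {A : Fin k → Set (V k)}
    (o : Opt k lam v A) (a b c : Fin k) (hab : a ≠ b) (hac : a ≠ c) (hbc : b ≠ c) :
    ‖v a‖ ^ 2 + ‖v b‖ ^ 2 + ‖v c‖ ^ 2 ≤ 1 ∧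
    ‖v a‖ ^ 2 + ‖v b‖ ^ 2 + ‖v c‖ ^ 2 - 1 / 2 ≤ -⟪v a, v b⟫ + -⟪v a, v c⟫ + -⟪v b, v c⟫ := by
  classical
  set T : Finset (Fin k) := {a, b, c} with hT
  have hsT : ∀ {M : Type} [AddCommMonoid M] (f : Fin k → M), ∑ i ∈ T, f i = f a + f b + f c := by
    intro M _ f
    rw [hT, Finset.sum_insert (by simp [hab, hac]), Finset.sum_insert (by simp [hbc]),
      Finset.sum_singleton, add_assoc]
  have hcompl : ∑ i ∈ Tᶜ, ‖v i‖ ^ 2 = 1 - (‖v a‖ ^ 2 + ‖v b‖ ^ 2 + ‖v c‖ ^ 2) := by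
    have := Finset.sum_add_sum_compl T (fun i => ‖v i‖ ^ 2)
    rw [o.normSq, hsT] at this
    linarith
  have hnn : 0 ≤ ∑ i ∈ Tᶜ, ‖v i‖ ^ 2 := Finset.sum_nonneg fun i _ => sq_nonneg _
  refine ⟨by linarith, ?_⟩
  set w := v a + v b + v c with hw
  have hw' : ∑ i ∈ Tᶜ, v i = - w := by
    have := Finset.sum_add_sum_compl T v
    rw [o.sum, hsT] at this
    rw [eq_neg_iff_add_eq_zero, add_comm]
    exact this
  have h1 : ‖w‖ ^ 2 ≤ ∑ j ∈ Tᶜ, ‖v j‖ ^ 2 := by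
    have h2 : ‖w‖ ^ 2 = ∑ j ∈ Tᶜ, -⟪v j, w⟫ := by
      rw [Finset.sum_neg_distrib, ← sum_inner, hw', inner_neg_left, real_inner_self_eq_norm_sq]
      ring
    rw [h2]
    refine Finset.sum_le_sum fun j hj => ?_
    have h3 := o.g1_row j T (by simpa using hj)
    rw [hsT] at h3
    rw [hw, inner_add_right, inner_add_right]
    linarith
  have h4 : ‖w‖ ^ 2 = ‖v a‖ ^ 2 + ‖v b‖ ^ 2 + ‖v c‖ ^ 2 +
      2 * (⟪v a, v b⟫ + ⟪v a, v c⟫ + ⟪v b, v c⟫) := by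
    rw [← real_inner_self_eq_norm_sq, ← real_inner_self_eq_norm_sq, ← real_inner_self_eq_norm_sq,
      ← real_inner_self_eq_norm_sq, hw]
    simp only [inner_add_left, inner_add_right]
    rw [real_inner_comm (v a) (v b), real_inner_comm (v a) (v c), real_inner_comm (v b) (v c)]
    ring
  linarith

theorem Opt.hQ {k : ℕ} (hk : 4 ≤ k) (hVB : VB (k - 1)) {lam : ℝ} {v : Fin k → V k}
    {A : Fin k → Set (V k)} (o : Opt k lam v A) (a b c m : Fin k) (hab : a < b) (hbc : b < c)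
    (hcm : c < m) (s : ℝ) (hs0 : 0 ≤ s) (hs1 : s ≤ 1)
    (hs : -(⟪v m, v a⟫ + ⟪v m, v b⟫ + ⟪v m, v c⟫) ≤ s * ‖v m‖ ^ 2)
    (C : ℝ) (hC : (81 / (4 * Real.pi)) ^ 2 *
      (((k : ℝ) - 2) / (2 * ((k : ℝ) - 1)) + s / 3) ^ 4 ≤ C) :
    (‖v c‖ ^ 2 * (2 * (‖v a‖ ^ 2 + ‖v b‖ ^ 2) - ‖v c‖ ^ 2) ≤
      (C + s ^ 2 * (‖v a‖ ^ 2 + 3 * ‖v b‖ ^ 2)) * ‖v m‖ ^ 2) ∧
    (‖v a‖ ^ 2 + ‖v b‖ ^ 2 ≤ 1 / 2 → ‖v c‖ ^ 2 * (3 * (‖v a‖ ^ 2 + ‖v b‖ ^ 2) - 1 / 2) ≤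
      (C + s ^ 2 * (‖v a‖ ^ 2 + 3 * ‖v b‖ ^ 2)) * ‖v m‖ ^ 2) ∧
    (1 / 2 ≤ ‖v a‖ ^ 2 + ‖v b‖ ^ 2 → 2 * ‖v c‖ ^ 2 * (‖v a‖ ^ 2 + ‖v b‖ ^ 2) ≤
      (C + s ^ 2 * (‖v a‖ ^ 2 + 3 * ‖v b‖ ^ 2)) * ‖v m‖ ^ 2) ∧
    ((9 / 4) * (‖v a‖ ^ 2 + ‖v b‖ ^ 2 + ‖v c‖ ^ 2) ^ 2 -
      (9 / 2) * ((‖v a‖ ^ 2) ^ 2 + (‖v b‖ ^ 2) ^ 2 + (‖v c‖ ^ 2) ^ 2) -
      (1 - (‖v a‖ ^ 2 + ‖v b‖ ^ 2 + ‖v c‖ ^ 2)) *
        ((5 / 4) * (1 + (‖v a‖ ^ 2 + ‖v b‖ ^ 2 + ‖v c‖ ^ 2)) - 6 * ‖v c‖ ^ 2) ≤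
      (C + s ^ 2 * (‖v a‖ ^ 2 + 3 * ‖v b‖ ^ 2)) * ‖v m‖ ^ 2) := by
  classical
  have nab : a ≠ b := hab.ne
  have nbc : b ≠ c := hbc.ne
  have nac : a ≠ c := (hab.trans hbc).ne
  have ncm : c ≠ m := hcm.ne
  have nbm : b ≠ m := (hbc.trans hcm).ne
  have nam : a ≠ m := (hab.trans (hbc.trans hcm)).ne
  have hα := o.neg a b nab
  have hβ := o.neg a c nac
  have hγ := o.neg b c nbc
  have ra : -⟪v a, v b⟫ + -⟪v a, v c⟫ ≤ ‖v a‖ ^ 2 := by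
    have := o.g1_row a {b, c} (by simp [nab, nac])
    rwa [Finset.sum_pair nbc] at this
  have rb : -⟪v a, v b⟫ + -⟪v b, v c⟫ ≤ ‖v b‖ ^ 2 := by
    have := o.g1_row b {a, c} (by simp [nab.symm, nbc])
    rwa [Finset.sum_pair nac, real_inner_comm (v a) (v b)] at this
  have rc : -⟪v a, v c⟫ + -⟪v b, v c⟫ ≤ ‖v c‖ ^ 2 := by
    have := o.g1_row c {a, b} (by simp [nac.symm, nbc.symm])
    rwa [Finset.sum_pair nab, real_inner_comm (v a) (v c), real_inner_comm (v b) (v c)] at this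
  have h01 : ‖v b‖ ^ 2 ≤ ‖v a‖ ^ 2 := by
    have := o.anti hab.le
    simp only at this
    gcongr
  have h12 : ‖v c‖ ^ 2 ≤ ‖v b‖ ^ 2 := by
    have := o.anti hbc.le
    simp only at this
    gcongr
  obtain ⟨ht, hσ⟩ := o.g1_tri a b c nab nac nbc
  have hQb := Q_bound hk hVB o ![a, b, c] m (by
    intro j
    fin_cases j
    · exact nam
    · exact nbm
    · exact ncm) s (by
    rw [Fin.sum_univ_three]
    exact hs) (‖v a‖ ^ 2 + 3 * ‖v b‖ ^ 2)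
    (by
      change ‖v a - v b‖ ^ 2 ≤ _
      rw [norm_sub_sq_real]
      linarith)
    (by
      change ‖v a - v c‖ ^ 2 ≤ _
      rw [norm_sub_sq_real]
      linarith)
    (by
      change ‖v b - v c‖ ^ 2 ≤ _
      rw [norm_sub_sq_real]
      linarith)
  change Qd (‖v a‖ ^ 2) (‖v b‖ ^ 2) (‖v c‖ ^ 2) (-⟪v a, v b⟫) (-⟪v a, v c⟫) (-⟪v b, v c⟫) ≤ _
    at hQb
  have hfin : Qd (‖v a‖ ^ 2) (‖v b‖ ^ 2) (‖v c‖ ^ 2) (-⟪v a, v b⟫) (-⟪v a, v c⟫) (-⟪v b, v c⟫) ≤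
      (C + s ^ 2 * (‖v a‖ ^ 2 + 3 * ‖v b‖ ^ 2)) * ‖v m‖ ^ 2 := by
    refine hQb.trans ?_
    gcongr
  have pα : 0 ≤ -⟪v a, v b⟫ := by linarith
  have pβ : 0 ≤ -⟪v a, v c⟫ := by linarith
  have pγ : 0 ≤ -⟪v b, v c⟫ := by linarith
  refine ⟨?_, fun hU => ?_, fun hU => ?_, ?_⟩
  · exact (QL1 pα pβ pγ ra rb rc h01 h12).trans hfin
  · exact (QL2 pα pβ pγ ra rb rc h01 h12 hσ hU).trans hfin
  · exact (QL3 pα pβ pγ ra rb rc h01 h12 hσ hU).trans hfin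
  · exact (QL4 pα pβ pγ ra rb rc h01 h12 hσ ht).trans hfin

/-- the hypothesis on `s` always holds with `s = 1`. -/
theorem Opt.hs_one {k : ℕ} {lam : ℝ} {v : Fin k → V k} {A : Fin k → Set (V k)}
    (o : Opt k lam v A) (a b c m : Fin k) (hab : a < b) (hbc : b < c) (hcm : c < m) :
    -(⟪v m, v a⟫ + ⟪v m, v b⟫ + ⟪v m, v c⟫) ≤ 1 * ‖v m‖ ^ 2 := by
  classical
  have nab : a ≠ b := hab.ne
  have nbc : b ≠ c := hbc.ne
  have nac : a ≠ c := (hab.trans hbc).ne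
  have ncm : c ≠ m := hcm.ne
  have nbm : b ≠ m := (hbc.trans hcm).ne
  have nam : a ≠ m := (hab.trans (hbc.trans hcm)).ne
  have := o.g1_row m {a, b, c} (by simp [nam.symm, nbm.symm, ncm.symm])
  rw [Finset.sum_insert (by simp [nab, nac]), Finset.sum_insert (by simp [nbc]),
    Finset.sum_singleton] at this
  linarith

end Crest.Agent.S0334
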