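import Crest.Agent.S0334_F3

set_option autoImplicit false
set_option maxHeartbeats 1000000

namespace Crest.Agent.S0334

/-! ### L3: the affine minorants used in dimension 3 -/

structure L3 (y m : ℝ) : Prop where
  l4 : (501/5000) ≤ y → (1/16) + (3/4) * y < m
  l7 : (11/200) ≤ y → (2721/50000) + (7803/10000) * y < m
  l9 : (7/200) ≤ y → (569/12500) + (8109/10000) * y < m
  l10 : (1/40) ≤ y → (249/6250) + (1659/2000) * y < m
  l11 : (3/200) ≤ y → (1639/50000) + (8519/10000) * y < m
  l12 : (1/100) ≤ y → (1223/50000) + (351/400) * y < m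
  l13 : (1/200) ≤ y → (49/25000) + (2359/2500) * y < m
  l14 : (1/200) ≤ y → (-5897/100000) + (5549/5000) * y < m
  l118 : (1/50) ≤ y → y ≤ (11/100) → (3633/100000) + (993/1000) * y < m
  l198 : (9/200) ≤ y → y ≤ (11/100) → (467/10000) + (8987/10000) * y < m
  l211 : (1/20) ≤ y → y ≤ (11/100) → (4807/100000) + (4431/5000) * y < m

theorem L3.of_cap {r μ : ℝ} (hr : 0 < r) (h : Cap3 r μ) : L3 (r ^ 2) μ :=
  {
    l4 := fun h1 => h.tangent_line (c₀ := (1/2)) (cb := (7247/10000)) (lo := (501/5000)) (by norm_num) (by norm_num)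
      (by norm_num) (by norm_num) (by norm_num) (by unfold Y3; norm_num) (by unfold P3 Y3; norm_num) (by unfold P3 Y3; norm_num)
      (by unfold P3 Y3; norm_num) hr h1
    l7 := fun h1 => h.tangent_line (c₀ := (227/500)) (cb := (80513/100000)) (lo := (11/200)) (by norm_num) (by norm_num)
      (by norm_num) (by norm_num) (by norm_num) (by unfold Y3; norm_num) (by unfold P3 Y3; norm_num) (by unfold P3 Y3; norm_num)
      (by unfold P3 Y3; norm_num) hr h1
    l9 := fun h1 => h.tangent_line (c₀ := (211/500)) (cb := (84817/100000)) (lo := (7/200)) (by norm_num) (by norm_num)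
      (by norm_num) (by norm_num) (by norm_num) (by unfold Y3; norm_num) (by unfold P3 Y3; norm_num) (by unfold P3 Y3; norm_num)
      (by unfold P3 Y3; norm_num) hr h1
    l10 := fun h1 => h.tangent_line (c₀ := (203/500)) (cb := (87341/100000)) (lo := (1/40)) (by norm_num) (by norm_num)
      (by norm_num) (by norm_num) (by norm_num) (by unfold Y3; norm_num) (by unfold P3 Y3; norm_num) (by unfold P3 Y3; norm_num)
      (by unfold P3 Y3; norm_num) hr h1
    l11 := fun h1 => h.tangent_line (c₀ := (389/1000)) (cb := (90349/100000)) (lo := (3/200)) (by norm_num) (by norm_num)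
      (by norm_num) (by norm_num) (by norm_num) (by unfold Y3; norm_num) (by unfold P3 Y3; norm_num) (by unfold P3 Y3; norm_num)
      (by unfold P3 Y3; norm_num) hr h1
    l12 := fun h1 => h.tangent_line (c₀ := (93/250)) (cb := (23049/25000)) (lo := (1/100)) (by norm_num) (by norm_num)
      (by norm_num) (by norm_num) (by norm_num) (by unfold Y3; norm_num) (by unfold P3 Y3; norm_num) (by unfold P3 Y3; norm_num)
      (by unfold P3 Y3; norm_num) hr h1
    l13 := fun h1 => h.tangent_line (c₀ := (42/125)) (cb := (94549/100000)) (lo := (1/200)) (by norm_num) (by norm_num)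
      (by norm_num) (by norm_num) (by norm_num) (by unfold Y3; norm_num) (by unfold P3 Y3; norm_num) (by unfold P3 Y3; norm_num)
      (by unfold P3 Y3; norm_num) hr h1
    l14 := fun h1 => h.tangent_line (c₀ := (137/500)) (cb := (94549/100000)) (lo := (1/200)) (by norm_num) (by norm_num)
      (by norm_num) (by norm_num) (by norm_num) (by unfold Y3; norm_num) (by unfold P3 Y3; norm_num) (by unfold P3 Y3; norm_num)
      (by unfold P3 Y3; norm_num) hr h1
    l118 := fun h1 h2 => h.chord_line (ca := (70887/100000)) (cb := (44381/50000)) (lo := (1/50)) (hi := (11/100)) (by norm_num) (by norm_num) (by norm_num) (by norm_num) (by norm_num)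
      (by unfold Y3; norm_num) (by unfold Y3; norm_num) (by unfold P3 Y3; norm_num) (by unfold P3 Y3; norm_num) hr h1 h2
    l198 := fun h1 h2 => h.chord_line (ca := (70887/100000)) (cb := (20643/25000)) (lo := (9/200)) (hi := (11/100)) (by norm_num) (by norm_num) (by norm_num) (by norm_num) (by norm_num)
      (by unfold Y3; norm_num) (by unfold Y3; norm_num) (by unfold P3 Y3; norm_num) (by unfold P3 Y3; norm_num) hr h1 h2
    l211 := fun h1 h2 => h.chord_line (ca := (70887/100000)) (cb := (81523/100000)) (lo := (1/20)) (hi := (11/100)) (by norm_num) (by norm_num) (by norm_num) (by norm_num) (by norm_num)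
      (by unfold Y3; norm_num) (by unfold Y3; norm_num) (by unfold P3 Y3; norm_num) (by unfold P3 Y3; norm_num) hr h1 h2
  }

end Crest.Agent.S0334
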