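import Crest.Agent.S0334_F4

set_option autoImplicit false

namespace Crest.Agent.S0334

/-! ### L4: the ten affine minorants used for `k = 5`

Values: `sin² (3π/8) = (2+√2)/4`, `sin cos (3π/8) = √2/4`; `sin² (2π/5) = (5+√5)/8`,
`sin cos (2π/5) = sin (π/5) / 2`, `sin² (π/5) = (5-√5)/8`, `sin cos (π/5) = sin (2π/5)/2`;
`sin² (5π/12) = (2+√3)/4`, `sin cos (5π/12) = 1/4`; `Y4 (π/4) = 1/18`, `Y4 (π/6) = 1/144`,
`Y4 (π/3) = 3/16`, `P4 a = a/π - sin a cos a / π`. All numerical margins are about `10⁻⁵`.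

l0: tangent_line with a₀ = 3 * Real.pi / 8, ab = Real.pi / 4, lo = 1 / 18
l1: tangent_line with a₀ = 2 * Real.pi / 5, ab = Real.pi / 6, lo = 1 / 144
l2: tangent_line with a₀ = 5 * Real.pi / 12, ab = Real.pi / 6, lo = 1 / 144
l4: chord_line with aa = Real.pi / 5, ab = 0
l5: chord_line with aa = Real.pi / 4, ab = 0
l8: chord_line with aa = Real.pi / 4, ab = Real.pi / 6
l9: chord_line with aa = Real.pi / 3, ab = Real.pi / 6
l10: chord_line with aa = Real.pi / 4, ab = Real.pi / 5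
l11: chord_line with aa = Real.pi / 3, ab = Real.pi / 5
l12: chord_line with aa = Real.pi / 3, ab = Real.pi / 4
-/

noncomputable def Y36 : ℝ := Y4 (Real.pi / 5)

theorem L4aux_ip : 0.31830984 < Real.pi⁻¹ ∧ Real.pi⁻¹ < 0.31830996 := by
  have h1 := Real.pi_gt_d6
  have h2 := Real.pi_lt_d6
  have hpi := Real.pi_pos
  constructor
  · rw [lt_inv_comm₀ (by norm_num) hpi]
    refine h2.trans ?_
    norm_num
  · rw [inv_lt_comm₀ hpi (by norm_num)]
    refine lt_trans ?_ h1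
    norm_num

theorem L4aux_s2 : 1.41421356 < √2 ∧ √2 < 1.41421357 := by
  constructor
  · exact Real.lt_sqrt_of_sq_lt (by norm_num)
  · rw [Real.sqrt_lt' (by norm_num)]; norm_num

theorem L4aux_s3 : 1.73205080 < √3 ∧ √3 < 1.73205081 := by
  constructor
  · exact Real.lt_sqrt_of_sq_lt (by norm_num)
  · rw [Real.sqrt_lt' (by norm_num)]; norm_num

theorem L4aux_s5 : 2.23606797 < √5 ∧ √5 < 2.23606798 := by
  constructor
  · exact Real.lt_sqrt_of_sq_lt (by norm_num)
  · rw [Real.sqrt_lt' (by norm_num)]; norm_num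

theorem L4aux_Y4 {a t : ℝ} (h : Real.sin a ^ 2 = t) : Y4 a = 4 / 9 * t ^ 3 := by
  unfold Y4
  rw [← h]; ring

theorem L4aux_P4 {c t : ℝ} {a : ℝ} (ha : a = c * Real.pi) (h : Real.sin a * Real.cos a = t) :
    P4 a = c - t * Real.pi⁻¹ := by
  unfold P4
  rw [h, ha]
  have hpi := Real.pi_ne_zero
  field_simp

theorem L4aux_K {a s t : ℝ} (hs : Real.sin a ^ 2 = s) (h : Real.sin a * Real.cos a = t) :
    3 / (4 * Real.pi * Real.sin a ^ 3 * Real.cos a) = (3 / 4) * Real.pi⁻¹ / (s * t) := by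
  have : 4 * Real.pi * Real.sin a ^ 3 * Real.cos a = 4 * Real.pi * (s * t) := by
    rw [← hs, ← h]; ring
  rw [this]
  have hpi := Real.pi_ne_zero
  field_simp

/-! exact values -/

theorem L4aux_sq_of_double {a c : ℝ} (h : Real.cos (2 * a) = c) : Real.sin a ^ 2 = (1 - c) / 2 := by
  have h1 := Real.cos_two_mul a
  have h2 := Real.sin_sq_add_cos_sq a
  rw [h] at h1
  linarith

theorem L4aux_sc_of_double {a s : ℝ} (h : Real.sin (2 * a) = s) :
    Real.sin a * Real.cos a = s / 2 := by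
  have h1 := Real.sin_two_mul a
  rw [h] at h1
  linarith

theorem L4aux_sin_sq_six : Real.sin (Real.pi / 6) ^ 2 = 1 / 4 := by
  rw [Real.sin_pi_div_six]; norm_num

theorem L4aux_sc_six : Real.sin (Real.pi / 6) * Real.cos (Real.pi / 6) = √3 / 4 := by
  rw [Real.sin_pi_div_six, Real.cos_pi_div_six]; ring

theorem L4aux_sin_sq_four : Real.sin (Real.pi / 4) ^ 2 = 1 / 2 := by
  rw [Real.sin_pi_div_four, div_pow, Real.sq_sqrt (by norm_num)]; norm_num

theorem L4aux_sc_four : Real.sin (Real.pi / 4) * Real.cos (Real.pi / 4) = 1 / 2 := by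
  rw [Real.sin_pi_div_four, Real.cos_pi_div_four]
  have := Real.mul_self_sqrt (show (0 : ℝ) ≤ 2 by norm_num)
  linarith

theorem L4aux_sin_sq_three : Real.sin (Real.pi / 3) ^ 2 = 3 / 4 := by
  rw [Real.sin_pi_div_three, div_pow, Real.sq_sqrt (by norm_num)]; norm_num

theorem L4aux_sc_three : Real.sin (Real.pi / 3) * Real.cos (Real.pi / 3) = √3 / 4 := by
  rw [Real.sin_pi_div_three, Real.cos_pi_div_three]; ring

theorem L4aux_sin_sq_five : Real.sin (Real.pi / 5) ^ 2 = (5 - √5) / 8 := by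
  have h2 := Real.sin_sq_add_cos_sq (Real.pi / 5)
  rw [Real.cos_pi_div_five] at h2
  have := Real.mul_self_sqrt (show (0 : ℝ) ≤ 5 by norm_num)
  nlinarith

theorem L4aux_sin_five_pos : 0 < Real.sin (Real.pi / 5) :=
  Real.sin_pos_of_pos_of_lt_pi (by linarith [Real.pi_pos]) (by linarith [Real.pi_pos])

theorem L4aux_sin_five : 0.58778525 < Real.sin (Real.pi / 5) ∧
    Real.sin (Real.pi / 5) < 0.58778526 := by
  have h := L4aux_sin_sq_five
  have h5 := L4aux_s5
  have hp := L4aux_sin_five_pos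
  constructor
  · apply lt_of_pow_lt_pow_left₀ 2 hp.le
    rw [h]
    norm_num
    linarith [h5.2]
  · apply lt_of_pow_lt_pow_left₀ 2 (by norm_num)
    rw [h]
    norm_num
    linarith [h5.1]

theorem L4aux_sc_five : 0.47552825 < Real.sin (Real.pi / 5) * Real.cos (Real.pi / 5) ∧
    Real.sin (Real.pi / 5) * Real.cos (Real.pi / 5) < 0.47552827 := by
  have h1 := L4aux_sin_five
  have h5 := L4aux_s5
  rw [Real.cos_pi_div_five]
  have hc1 : 0.80901699 < (1 + √5) / 4 := by linarith [h5.1]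
  have hc2 : (1 + √5) / 4 < 0.809016996 := by linarith [h5.2]
  constructor
  · have := mul_lt_mul'' h1.1 hc1 (by norm_num) (by norm_num)
    refine lt_trans ?_ this
    norm_num
  · have := mul_lt_mul'' h1.2 hc2 L4aux_sin_five_pos.le (by linarith)
    refine this.trans ?_
    norm_num

theorem Y36_bounds : 0.018328 < Y36 ∧ Y36 < 0.0183287 := by
  unfold Y36
  rw [L4aux_Y4 L4aux_sin_sq_five]
  have h5 := L4aux_s5
  have h := Real.mul_self_sqrt (show (0 : ℝ) ≤ 5 by norm_num)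
  have e : (4 : ℝ) / 9 * ((5 - √5) / 8) ^ 3 = (200 - 80 * √5) / 1152 := by
    have h3 : √5 ^ 3 = 5 * √5 := by
      rw [pow_succ, pow_two, h]
    have h2 : √5 ^ 2 = 5 := by rw [pow_two, h]
    ring_nf
    rw [h3, h2]
    ring
  rw [e]
  constructor <;> linarith [h5.1, h5.2]

structure L4 (y m : ℝ) : Prop where
  l0 : 1 / 18 ≤ y → 0.0438 + 0.7911 * y < m
  l1 : 1 / 144 ≤ y → 0.01105 + 0.8981 * y < m
  l2 : 1 / 144 ≤ y → (-0.03239) + 1.0235 * y < m
  l4 : y ≤ Y36 → 2.6534 * y < m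
  l5 : y ≤ 1 / 18 → 1.6351 * y < m
  l8 : 1 / 144 ≤ y → y ≤ 1 / 18 → 0.01996 + 1.2756 * y < m
  l9 : 1 / 144 ≤ y → y ≤ 3 / 16 → 0.0224 + 0.9231 * y < m
  l10 : Y36 ≤ y → y ≤ 1 / 18 → 0.02784 + 1.1339 * y < m
  l11 : Y36 ≤ y → y ≤ 3 / 16 → 0.0327 + 0.8682 * y < m
  l12 : 1 / 18 ≤ y → y ≤ 3 / 16 → 0.04676 + 0.7932 * y < m

/-! values of `Y4`, `P4` -/

theorem L4aux_Y_zero : Y4 0 = 0 := by unfold Y4; simp
theorem L4aux_P_zero : P4 0 = 0 := by unfold P4; simp

theorem L4aux_Y_six : Y4 (Real.pi / 6) = 1 / 144 := by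
  rw [L4aux_Y4 L4aux_sin_sq_six]; norm_num
theorem L4aux_Y_four : Y4 (Real.pi / 4) = 1 / 18 := by
  rw [L4aux_Y4 L4aux_sin_sq_four]; norm_num
theorem L4aux_Y_three : Y4 (Real.pi / 3) = 3 / 16 := by
  rw [L4aux_Y4 L4aux_sin_sq_three]; norm_num

theorem L4aux_mul {a b la ua lb ub : ℝ} (h1 : la < a ∧ a < ua) (h2 : lb < b ∧ b < ub)
    (p1 : 0 ≤ la) (p2 : 0 ≤ lb) : la * lb < a * b ∧ a * b < ua * ub :=
  ⟨mul_lt_mul'' h1.1 h2.1 p1 p2,
    mul_lt_mul'' h1.2 h2.2 (p1.trans h1.1.le) (p2.trans h2.1.le)⟩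

theorem L4aux_P_six : 0.0288344 < P4 (Real.pi / 6) ∧ P4 (Real.pi / 6) < 0.0288345 := by
  rw [L4aux_P4 (c := 1 / 6) (by ring) L4aux_sc_six]
  have h := L4aux_mul L4aux_s3 L4aux_ip (by norm_num) (by norm_num)
  constructor <;> [have := h.2; have := h.1] <;> norm_num at this <;> linarith

theorem L4aux_P_four : 0.090845 < P4 (Real.pi / 4) ∧ P4 (Real.pi / 4) < 0.0908451 := by
  rw [L4aux_P4 (c := 1 / 4) (by ring) L4aux_sc_four]
  have h := L4aux_ip
  constructor <;> linarith [h.1, h.2]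

theorem L4aux_P_three : 0.1955010 < P4 (Real.pi / 3) ∧ P4 (Real.pi / 3) < 0.1955012 := by
  rw [L4aux_P4 (c := 1 / 3) (by ring) L4aux_sc_three]
  have h := L4aux_mul L4aux_s3 L4aux_ip (by norm_num) (by norm_num)
  constructor <;> [have := h.2; have := h.1] <;> norm_num at this <;> linarith

theorem L4aux_P_five : 0.0486346 < P4 (Real.pi / 5) ∧ P4 (Real.pi / 5) < 0.0486348 := by
  rw [L4aux_P4 (c := 1 / 5) (by ring) rfl]
  have h := L4aux_mul L4aux_sc_five L4aux_ip (by norm_num) (by norm_num)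
  constructor <;> [have := h.2; have := h.1] <;> norm_num at this <;> linarith

/-! `3π/8` -/

theorem L4aux_sq_38 : Real.sin (3 * Real.pi / 8) ^ 2 = (2 + √2) / 4 := by
  have h : Real.cos (2 * (3 * Real.pi / 8)) = -(√2 / 2) := by
    have e : 2 * (3 * Real.pi / 8) = Real.pi - Real.pi / 4 := by ring
    rw [e, Real.cos_pi_sub, Real.cos_pi_div_four]
  rw [L4aux_sq_of_double h]; ring

theorem L4aux_sc_38 : Real.sin (3 * Real.pi / 8) * Real.cos (3 * Real.pi / 8) = √2 / 4 := by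
  have h : Real.sin (2 * (3 * Real.pi / 8)) = √2 / 2 := by
    have e : 2 * (3 * Real.pi / 8) = Real.pi - Real.pi / 4 := by ring
    rw [e, Real.sin_pi_sub, Real.sin_pi_div_four]
  rw [L4aux_sc_of_double h]; ring

theorem L4aux_Y_38 : 0.2763818 < Y4 (3 * Real.pi / 8) ∧ Y4 (3 * Real.pi / 8) < 0.2763819 := by
  rw [L4aux_Y4 L4aux_sq_38]
  have h5 := L4aux_s2
  have h := Real.mul_self_sqrt (show (0 : ℝ) ≤ 2 by norm_num)
  have e : (4 : ℝ) / 9 * ((2 + √2) / 4) ^ 3 = (20 + 14 * √2) / 144 := by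
    have h3 : √2 ^ 3 = 2 * √2 := by rw [pow_succ, pow_two, h]
    have h2 : √2 ^ 2 = 2 := by rw [pow_two, h]
    ring_nf
    rw [h3, h2]
    ring
  rw [e]
  constructor <;> linarith [h5.1, h5.2]

theorem L4aux_P_38 : 0.2624604 < P4 (3 * Real.pi / 8) ∧ P4 (3 * Real.pi / 8) < 0.2624605 := by
  rw [L4aux_P4 (c := 3 / 8) (by ring) L4aux_sc_38]
  have h := L4aux_mul L4aux_s2 L4aux_ip (by norm_num) (by norm_num)
  constructor <;> [have := h.2; have := h.1] <;> norm_num at this <;> linarith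

/-- bounds for `K` from bounds for the denominator -/
theorem L4aux_Kb {D ld ud lk uk : ℝ} (h1 : ld < D) (h2 : D < ud) (h0 : 0 < ld)
    (hlk : lk * ud ≤ (3 / 4) * 0.31830984) (hlk0 : 0 ≤ lk) (huk : (3 / 4) * 0.31830996 ≤ uk * ld) :
    lk < (3 / 4) * Real.pi⁻¹ / D ∧ (3 / 4) * Real.pi⁻¹ / D < uk := by
  have hip := L4aux_ip
  have hD : 0 < D := h0.trans h1
  have huk0 : 0 < uk := by
    by_contra hneg
    rw [not_lt] at hneg
    have : uk * ld ≤ 0 := mul_nonpos_of_nonpos_of_nonneg hneg h0.le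
    norm_num at huk
    linarith
  constructor
  · rw [lt_div_iff₀ hD]
    have : lk * D ≤ lk * ud := mul_le_mul_of_nonneg_left h2.le hlk0
    linarith [hip.1]
  · rw [div_lt_iff₀ hD]
    have : uk * ld < uk * D := mul_lt_mul_of_pos_left h1 huk0
    linarith [hip.2]

theorem L4aux_K_38 :
    0.791088 < 3 / (4 * Real.pi * Real.sin (3 * Real.pi / 8) ^ 3 * Real.cos (3 * Real.pi / 8)) ∧
    3 / (4 * Real.pi * Real.sin (3 * Real.pi / 8) ^ 3 * Real.cos (3 * Real.pi / 8)) < 0.791091 := by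
  rw [L4aux_K L4aux_sq_38 L4aux_sc_38]
  have h5 := L4aux_s2
  have h := Real.mul_self_sqrt (show (0 : ℝ) ≤ 2 by norm_num)
  apply L4aux_Kb (ld := 0.3017766) (ud := 0.3017767)
  · nlinarith [h5.1, h5.2]
  · nlinarith [h5.1, h5.2]
  · norm_num
  · norm_num
  · norm_num
  · norm_num

/-! `2π/5` -/

theorem L4aux_sq_25 : Real.sin (2 * Real.pi / 5) ^ 2 = (5 + √5) / 8 := by
  have h : Real.cos (2 * (2 * Real.pi / 5)) = -((1 + √5) / 4) := by
    have e : 2 * (2 * Real.pi / 5) = Real.pi - Real.pi / 5 := by ring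
    rw [e, Real.cos_pi_sub, Real.cos_pi_div_five]
  rw [L4aux_sq_of_double h]; ring

theorem L4aux_sc_25 : Real.sin (2 * Real.pi / 5) * Real.cos (2 * Real.pi / 5) =
    Real.sin (Real.pi / 5) / 2 := by
  have h : Real.sin (2 * (2 * Real.pi / 5)) = Real.sin (Real.pi / 5) := by
    have e : 2 * (2 * Real.pi / 5) = Real.pi - Real.pi / 5 := by ring
    rw [e, Real.sin_pi_sub]
  exact L4aux_sc_of_double h

theorem L4aux_Y_25 : 0.3288936 < Y4 (2 * Real.pi / 5) ∧ Y4 (2 * Real.pi / 5) < 0.3288937 := by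
  rw [L4aux_Y4 L4aux_sq_25]
  have h5 := L4aux_s5
  have h := Real.mul_self_sqrt (show (0 : ℝ) ≤ 5 by norm_num)
  have e : (4 : ℝ) / 9 * ((5 + √5) / 8) ^ 3 = (200 + 80 * √5) / 1152 := by
    have h3 : √5 ^ 3 = 5 * √5 := by rw [pow_succ, pow_two, h]
    have h2 : √5 ^ 2 = 5 := by rw [pow_two, h]
    ring_nf
    rw [h3, h2]
    ring
  rw [e]
  constructor <;> linarith [h5.1, h5.2]

theorem L4aux_P_25 : 0.3064510 < P4 (2 * Real.pi / 5) ∧ P4 (2 * Real.pi / 5) < 0.3064512 := by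
  rw [L4aux_P4 (c := 2 / 5) (by ring) L4aux_sc_25]
  have h := L4aux_mul L4aux_sin_five L4aux_ip (by norm_num) (by norm_num)
  constructor <;> [have := h.2; have := h.1] <;> norm_num at this <;> linarith

theorem L4aux_K_25 :
    0.898068 < 3 / (4 * Real.pi * Real.sin (2 * Real.pi / 5) ^ 3 * Real.cos (2 * Real.pi / 5)) ∧
    3 / (4 * Real.pi * Real.sin (2 * Real.pi / 5) ^ 3 * Real.cos (2 * Real.pi / 5)) < 0.898071 := by
  rw [L4aux_K L4aux_sq_25 L4aux_sc_25]
  have h5 := L4aux_s5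
  have hs := L4aux_sin_five
  have hD := L4aux_mul (a := (5 + √5) / 8) (b := Real.sin (Real.pi / 5) / 2)
    (la := 0.9045084) (ua := 0.9045086) (lb := 0.293892625) (ub := 0.29389263)
    ⟨by linarith [h5.1], by linarith [h5.2]⟩ ⟨by linarith [hs.1], by linarith [hs.2]⟩
    (by norm_num) (by norm_num)
  apply L4aux_Kb hD.1 hD.2
  · norm_num
  · norm_num
  · norm_num
  · norm_num

/-! `5π/12` -/

theorem L4aux_sq_512 : Real.sin (5 * Real.pi / 12) ^ 2 = (2 + √3) / 4 := by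
  have h : Real.cos (2 * (5 * Real.pi / 12)) = -(√3 / 2) := by
    have e : 2 * (5 * Real.pi / 12) = Real.pi - Real.pi / 6 := by ring
    rw [e, Real.cos_pi_sub, Real.cos_pi_div_six]
  rw [L4aux_sq_of_double h]; ring

theorem L4aux_sc_512 : Real.sin (5 * Real.pi / 12) * Real.cos (5 * Real.pi / 12) = 1 / 4 := by
  have h : Real.sin (2 * (5 * Real.pi / 12)) = 1 / 2 := by
    have e : 2 * (5 * Real.pi / 12) = Real.pi - Real.pi / 6 := by ring
    rw [e, Real.sin_pi_sub, Real.sin_pi_div_six]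
  rw [L4aux_sc_of_double h]; norm_num

theorem L4aux_Y_512 : 0.3609775 < Y4 (5 * Real.pi / 12) ∧ Y4 (5 * Real.pi / 12) < 0.3609776 := by
  rw [L4aux_Y4 L4aux_sq_512]
  have h5 := L4aux_s3
  have h := Real.mul_self_sqrt (show (0 : ℝ) ≤ 3 by norm_num)
  have e : (4 : ℝ) / 9 * ((2 + √3) / 4) ^ 3 = (26 + 15 * √3) / 144 := by
    have h3 : √3 ^ 3 = 3 * √3 := by rw [pow_succ, pow_two, h]
    have h2 : √3 ^ 2 = 3 := by rw [pow_two, h]
    ring_nf
    rw [h3, h2]
    ring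
  rw [e]
  constructor <;> linarith [h5.1, h5.2]

theorem L4aux_P_512 : 0.3370891 < P4 (5 * Real.pi / 12) ∧ P4 (5 * Real.pi / 12) < 0.3370893 := by
  rw [L4aux_P4 (c := 5 / 12) (by ring) L4aux_sc_512]
  have h := L4aux_ip
  constructor <;> linarith [h.1, h.2]

theorem L4aux_K_512 :
    1.023489 < 3 / (4 * Real.pi * Real.sin (5 * Real.pi / 12) ^ 3 * Real.cos (5 * Real.pi / 12)) ∧
    3 / (4 * Real.pi * Real.sin (5 * Real.pi / 12) ^ 3 * Real.cos (5 * Real.pi / 12)) < 1.023492 := by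
  rw [L4aux_K L4aux_sq_512 L4aux_sc_512]
  have h5 := L4aux_s3
  apply L4aux_Kb (ld := 0.2332531) (ud := 0.2332532)
  · linarith [h5.1, h5.2]
  · linarith [h5.1, h5.2]
  · norm_num
  · norm_num
  · norm_num
  · norm_num

theorem L4.of_cap {r μ : ℝ} (hr : 0 < r) (h : Cap4 r μ) : L4 (r ^ 2) μ := by
  have hpi := Real.pi_pos
  have P6 := L4aux_P_six
  have P4' := L4aux_P_four
  have P3 := L4aux_P_three
  have P5 := L4aux_P_five
  have Y6 := L4aux_Y_six
  have Y4' := L4aux_Y_four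
  have Y3 := L4aux_Y_three
  have Y5 := Y36_bounds
  have Y5e : Y4 (Real.pi / 5) = Y36 := rfl
  have hr2 : 0 ≤ r ^ 2 := sq_nonneg r
  constructor
  · intro hy
    have Y := L4aux_Y_38
    have P := L4aux_P_38
    have K := L4aux_K_38
    refine Cap4.tangent_line (a₀ := 3 * Real.pi / 8) (ab := Real.pi / 4) (lo := 1 / 18)
      (by linarith) (by linarith) (by linarith) (by linarith) Y4'.le ?_ ?_ ?_ hr hy h
    · rw [Y4']
      generalize 3 / (4 * Real.pi * Real.sin (3 * Real.pi / 8) ^ 3 * Real.cos (3 * Real.pi / 8)) = k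
        at K ⊢
      nlinarith [mul_nonneg (sub_nonneg.2 K.1.le) (show 0 ≤ Y4 (3 * Real.pi / 8) - 1 / 18 by
        linarith [Y.1])]
    · generalize 3 / (4 * Real.pi * Real.sin (3 * Real.pi / 8) ^ 3 * Real.cos (3 * Real.pi / 8)) = k
        at K ⊢
      nlinarith [mul_nonneg (sub_nonneg.2 K.2.le) (show 0 ≤ Y4 (3 * Real.pi / 8) - 1 / 18 by
        linarith [Y.1])]
    · generalize 3 / (4 * Real.pi * Real.sin (3 * Real.pi / 8) ^ 3 * Real.cos (3 * Real.pi / 8)) = k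
        at K ⊢
      nlinarith [mul_nonneg (sub_nonneg.2 K.1.le) (show 0 ≤ 4 / 9 - Y4 (3 * Real.pi / 8) by
        linarith [Y.2])]
  · intro hy
    have Y := L4aux_Y_25
    have P := L4aux_P_25
    have K := L4aux_K_25
    refine Cap4.tangent_line (a₀ := 2 * Real.pi / 5) (ab := Real.pi / 6) (lo := 1 / 144)
      (by linarith) (by linarith) (by linarith) (by linarith) Y6.le ?_ ?_ ?_ hr hy h
    · rw [Y6]
      generalize 3 / (4 * Real.pi * Real.sin (2 * Real.pi / 5) ^ 3 * Real.cos (2 * Real.pi / 5)) = k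
        at K ⊢
      nlinarith [mul_nonneg (sub_nonneg.2 K.1.le) (show 0 ≤ Y4 (2 * Real.pi / 5) - 1 / 144 by
        linarith [Y.1])]
    · generalize 3 / (4 * Real.pi * Real.sin (2 * Real.pi / 5) ^ 3 * Real.cos (2 * Real.pi / 5)) = k
        at K ⊢
      nlinarith [mul_nonneg (sub_nonneg.2 K.2.le) (show 0 ≤ Y4 (2 * Real.pi / 5) - 1 / 144 by
        linarith [Y.1])]
    · generalize 3 / (4 * Real.pi * Real.sin (2 * Real.pi / 5) ^ 3 * Real.cos (2 * Real.pi / 5)) = k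
        at K ⊢
      nlinarith [mul_nonneg (sub_nonneg.2 K.1.le) (show 0 ≤ 4 / 9 - Y4 (2 * Real.pi / 5) by
        linarith [Y.2])]
  · intro hy
    have Y := L4aux_Y_512
    have P := L4aux_P_512
    have K := L4aux_K_512
    refine Cap4.tangent_line (a₀ := 5 * Real.pi / 12) (ab := Real.pi / 6) (lo := 1 / 144)
      (by linarith) (by linarith) (by linarith) (by linarith) Y6.le ?_ ?_ ?_ hr hy h
    · rw [Y6]
      generalize 3 / (4 * Real.pi * Real.sin (5 * Real.pi / 12) ^ 3 *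
        Real.cos (5 * Real.pi / 12)) = k at K ⊢
      nlinarith [mul_nonneg (sub_nonneg.2 K.1.le) (show 0 ≤ Y4 (5 * Real.pi / 12) - 1 / 144 by
        linarith [Y.1])]
    · generalize 3 / (4 * Real.pi * Real.sin (5 * Real.pi / 12) ^ 3 *
        Real.cos (5 * Real.pi / 12)) = k at K ⊢
      nlinarith [mul_nonneg (sub_nonneg.2 K.2.le) (show 0 ≤ Y4 (5 * Real.pi / 12) - 1 / 144 by
        linarith [Y.1])]
    · generalize 3 / (4 * Real.pi * Real.sin (5 * Real.pi / 12) ^ 3 *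
        Real.cos (5 * Real.pi / 12)) = k at K ⊢
      nlinarith [mul_nonneg (sub_nonneg.2 K.1.le) (show 0 ≤ 4 / 9 - Y4 (5 * Real.pi / 12) by
        linarith [Y.2])]
  · intro hy
    have := Cap4.chord_line (aa := Real.pi / 5) (ab := 0) (lo := 0) (hi := Y36) (A := 0)
      (B := 2.6534) (by linarith) (by linarith) (by linarith) (by norm_num)
      (by rw [L4aux_Y_zero]) Y5e.ge (by rw [Y5e]; linarith [P5.1, Y5.2])
      (by rw [L4aux_Y_zero, L4aux_P_zero]; norm_num) hr hr2 hy h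
    linarith
  · intro hy
    have := Cap4.chord_line (aa := Real.pi / 4) (ab := 0) (lo := 0) (hi := 1 / 18) (A := 0)
      (B := 1.6351) (by linarith) (by linarith) (by linarith) (by norm_num)
      (by rw [L4aux_Y_zero]) Y4'.ge (by rw [Y4']; linarith [P4'.1])
      (by rw [L4aux_Y_zero, L4aux_P_zero]; norm_num) hr hr2 hy h
    linarith
  · intro hy hy'
    exact Cap4.chord_line (aa := Real.pi / 4) (ab := Real.pi / 6) (lo := 1 / 144) (hi := 1 / 18)
      (by linarith) (by linarith) (by linarith) (by norm_num)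
      Y6.le Y4'.ge (by rw [Y4']; linarith [P4'.1]) (by rw [Y6]; linarith [P6.1]) hr hy hy' h
  · intro hy hy'
    exact Cap4.chord_line (aa := Real.pi / 3) (ab := Real.pi / 6) (lo := 1 / 144) (hi := 3 / 16)
      (by linarith) (by linarith) (by linarith) (by norm_num)
      Y6.le Y3.ge (by rw [Y3]; linarith [P3.1]) (by rw [Y6]; linarith [P6.1]) hr hy hy' h
  · intro hy hy'
    exact Cap4.chord_line (aa := Real.pi / 4) (ab := Real.pi / 5) (lo := Y36) (hi := 1 / 18)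
      (by linarith) (by linarith) (by linarith) (by norm_num)
      Y5e.le Y4'.ge (by rw [Y4']; linarith [P4'.1]) (by rw [Y5e]; linarith [P5.1, Y5.2])
      hr hy hy' h
  · intro hy hy'
    exact Cap4.chord_line (aa := Real.pi / 3) (ab := Real.pi / 5) (lo := Y36) (hi := 3 / 16)
      (by linarith) (by linarith) (by linarith) (by norm_num)
      Y5e.le Y3.ge (by rw [Y3]; linarith [P3.1]) (by rw [Y5e]; linarith [P5.1, Y5.2])
      hr hy hy' h
  · intro hy hy'
    exact Cap4.chord_line (aa := Real.pi / 3) (ab := Real.pi / 4) (lo := 1 / 18) (hi := 3 / 16)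
      (by linarith) (by linarith) (by linarith) (by norm_num)
      Y4'.le Y3.ge (by rw [Y3]; linarith [P3.1]) (by rw [Y4']; linarith [P4'.1]) hr hy hy' h

end Crest.Agent.S0334
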