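import Crest.Agent.S0334_F5

set_option autoImplicit false
set_option maxHeartbeats 1000000

namespace Crest.Agent.S0334

/-! ### L5: the affine minorants used in dimension 5 -/

structure L5 (y m : ℝ) : Prop where
  l1 : (13/100) ≤ y → (5169/100000) + (464/625) * y < m
  l6 : (13/200) ≤ y → (4297/100000) + (1947/2500) * y < m
  l7 : (1/25) ≤ y → (1987/50000) + (791/1000) * y < m
  l9 : (1/50) ≤ y → (783/25000) + (821/1000) * y < m
  l10 : (1/80) ≤ y → (2597/100000) + (8391/10000) * y < m
  l11 : (3/400) ≤ y → (957/50000) + (1723/2000) * y < m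
  l12 : (1/500) ≤ y → (1177/100000) + (8849/10000) * y < m
  l13 : (1/500) ≤ y → (61/25000) + (571/625) * y < m
  l14 : (1/500) ≤ y → (-1119/50000) + (1973/2000) * y < m
  l16 : (1/500) ≤ y → (-24377/100000) + (15573/10000) * y < m
  l29 : y ≤ (1/25) → (17913/10000) * y < m
  l30 : y ≤ (1/20) → (16341/10000) * y < m
  l91 : (1/200) ≤ y → y ≤ (1/25) → (777/50000) + (3507/2500) * y < m
  l97 : (1/200) ≤ y → y ≤ (4/25) → (1777/100000) + (2389/2500) * y < m
  l104 : (3/400) ≤ y → y ≤ (1/25) → (1801/100000) + (1341/1000) * y < m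
  l127 : (1/80) ≤ y → y ≤ (1/25) → (2141/100000) + (157/125) * y < m
  l133 : (1/80) ≤ y → y ≤ (4/25) → (2579/100000) + (1811/2000) * y < m

theorem L5.of_cap {r μ : ℝ} (hr : 0 < r) (h : Cap5 r μ) : L5 (r ^ 2) μ :=
  {
    l1 := fun h1 => h.tangent_line (c₀ := (413/1000)) (cb := (25719/50000)) (lo := (13/100)) (by norm_num) (by norm_num)
      (by norm_num) (by norm_num) (by norm_num) (by unfold Y5; norm_num) (by unfold P5 Y5; norm_num) (by unfold P5 Y5; norm_num)
      (by unfold P5 Y5; norm_num) hr h1
    l6 := fun h1 => h.tangent_line (c₀ := (177/500)) (cb := (30887/50000)) (lo := (13/200)) (by norm_num) (by norm_num)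
      (by norm_num) (by norm_num) (by norm_num) (by unfold Y5; norm_num) (by unfold P5 Y5; norm_num) (by unfold P5 Y5; norm_num)
      (by unfold P5 Y5; norm_num) hr h1
    l7 := fun h1 => h.tangent_line (c₀ := (171/500)) (cb := (16813/25000)) (lo := (1/25)) (by norm_num) (by norm_num)
      (by norm_num) (by norm_num) (by norm_num) (by unfold Y5; norm_num) (by unfold P5 Y5; norm_num) (by unfold P5 Y5; norm_num)
      (by unfold P5 Y5; norm_num) hr h1
    l9 := fun h1 => h.tangent_line (c₀ := (159/500)) (cb := (36723/50000)) (lo := (1/50)) (by norm_num) (by norm_num)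
      (by norm_num) (by norm_num) (by norm_num) (by unfold Y5; norm_num) (by unfold P5 Y5; norm_num) (by unfold P5 Y5; norm_num)
      (by unfold P5 Y5; norm_num) hr h1
    l10 := fun h1 => h.tangent_line (c₀ := (153/500)) (cb := (76843/100000)) (lo := (1/80)) (by norm_num) (by norm_num)
      (by norm_num) (by norm_num) (by norm_num) (by unfold Y5; norm_num) (by unfold P5 Y5; norm_num) (by unfold P5 Y5; norm_num)
      (by unfold P5 Y5; norm_num) hr h1
    l11 := fun h1 => h.tangent_line (c₀ := (293/1000)) (cb := (39987/50000)) (lo := (3/400)) (by norm_num) (by norm_num)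
      (by norm_num) (by norm_num) (by norm_num) (by unfold Y5; norm_num) (by unfold P5 Y5; norm_num) (by unfold P5 Y5; norm_num)
      (by unfold P5 Y5; norm_num) hr h1
    l12 := fun h1 => h.tangent_line (c₀ := (281/1000)) (cb := (43041/50000)) (lo := (1/500)) (by norm_num) (by norm_num)
      (by norm_num) (by norm_num) (by norm_num) (by unfold Y5; norm_num) (by unfold P5 Y5; norm_num) (by unfold P5 Y5; norm_num)
      (by unfold P5 Y5; norm_num) hr h1
    l13 := fun h1 => h.tangent_line (c₀ := (67/250)) (cb := (43041/50000)) (lo := (1/500)) (by norm_num) (by norm_num)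
      (by norm_num) (by norm_num) (by norm_num) (by unfold Y5; norm_num) (by unfold P5 Y5; norm_num) (by unfold P5 Y5; norm_num)
      (by unfold P5 Y5; norm_num) hr h1
    l14 := fun h1 => h.tangent_line (c₀ := (241/1000)) (cb := (43041/50000)) (lo := (1/500)) (by norm_num) (by norm_num)
      (by norm_num) (by norm_num) (by norm_num) (by unfold Y5; norm_num) (by unfold P5 Y5; norm_num) (by unfold P5 Y5; norm_num)
      (by unfold P5 Y5; norm_num) hr h1
    l16 := fun h1 => h.tangent_line (c₀ := (141/1000)) (cb := (43041/50000)) (lo := (1/500)) (by norm_num) (by norm_num)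
      (by norm_num) (by norm_num) (by norm_num) (by unfold Y5; norm_num) (by unfold P5 Y5; norm_num) (by unfold P5 Y5; norm_num)
      (by unfold P5 Y5; norm_num) hr h1
    l29 := fun h2 => by
      have := h.chord_line (ca := (67251/100000)) (cb := 1) (lo := 0) (hi := (1/25)) (A := 0) (B := (17913/10000)) (by norm_num) (by norm_num) (by norm_num) le_rfl (by norm_num)
        (by unfold Y5; norm_num) (by unfold Y5; norm_num) (by unfold P5 Y5; norm_num) (by unfold P5 Y5; norm_num) hr (by positivity) h2
      linarith
    l30 := fun h2 => by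
      have := h.chord_line (ca := (64873/100000)) (cb := 1) (lo := 0) (hi := (1/20)) (A := 0) (B := (16341/10000)) (by norm_num) (by norm_num) (by norm_num) le_rfl (by norm_num)
        (by unfold Y5; norm_num) (by unfold Y5; norm_num) (by unfold P5 Y5; norm_num) (by unfold P5 Y5; norm_num) hr (by positivity) h2
      linarith
    l91 := fun h1 h2 => h.chord_line (ca := (67251/100000)) (cb := (41059/50000)) (lo := (1/200)) (hi := (1/25)) (by norm_num) (by norm_num) (by norm_num) (by norm_num) (by norm_num)
      (by unfold Y5; norm_num) (by unfold Y5; norm_num) (by unfold P5 Y5; norm_num) (by unfold P5 Y5; norm_num) hr h1 h2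
    l97 := fun h1 h2 => h.chord_line (ca := (11869/25000)) (cb := (41059/50000)) (lo := (1/200)) (hi := (4/25)) (by norm_num) (by norm_num) (by norm_num) (by norm_num) (by norm_num)
      (by unfold Y5; norm_num) (by unfold Y5; norm_num) (by unfold P5 Y5; norm_num) (by unfold P5 Y5; norm_num) hr h1 h2
    l104 := fun h1 h2 => h.chord_line (ca := (67251/100000)) (cb := (39987/50000)) (lo := (3/400)) (hi := (1/25)) (by norm_num) (by norm_num) (by norm_num) (by norm_num) (by norm_num)
      (by unfold Y5; norm_num) (by unfold Y5; norm_num) (by unfold P5 Y5; norm_num) (by unfold P5 Y5; norm_num) hr h1 h2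
    l127 := fun h1 h2 => h.chord_line (ca := (67251/100000)) (cb := (76843/100000)) (lo := (1/80)) (hi := (1/25)) (by norm_num) (by norm_num) (by norm_num) (by norm_num) (by norm_num)
      (by unfold Y5; norm_num) (by unfold Y5; norm_num) (by unfold P5 Y5; norm_num) (by unfold P5 Y5; norm_num) hr h1 h2
    l133 := fun h1 h2 => h.chord_line (ca := (11869/25000)) (cb := (76843/100000)) (lo := (1/80)) (hi := (4/25)) (by norm_num) (by norm_num) (by norm_num) (by norm_num) (by norm_num)
      (by unfold Y5; norm_num) (by unfold Y5; norm_num) (by unfold P5 Y5; norm_num) (by unfold P5 Y5; norm_num) hr h1 h2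
  }

end Crest.Agent.S0334
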