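import Crest.Agent.S0334_F7

set_option autoImplicit false
set_option maxHeartbeats 1000000

namespace Crest.Agent.S0334

/-! ### L7: the affine minorants used in dimension 7 -/

structure L7 (y m : ℝ) : Prop where
  l2 : (13/100) ≤ y → (463/10000) + (373/500) * y < m
  l3 : (1/10) ≤ y → (2261/50000) + (751/1000) * y < m
  l4 : (1/10) ≤ y → (4363/100000) + (7581/10000) * y < m
  l5 : (2/25) ≤ y → (261/6250) + (383/500) * y < m
  l6 : (13/200) ≤ y → (3943/100000) + (1551/2000) * y < m
  l7 : (1/20) ≤ y → (1831/50000) + (1573/2000) * y < m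
  l8 : (3/100) ≤ y → (1661/50000) + (7993/10000) * y < m
  l9 : (1/40) ≤ y → (73/2500) + (8139/10000) * y < m
  l10 : (3/200) ≤ y → (2447/100000) + (1661/2000) * y < m
  l11 : (3/400) ≤ y → (473/25000) + (8493/10000) * y < m
  l12 : (3/1000) ≤ y → (47/4000) + (1091/1250) * y < m
  l13 : (1/500) ≤ y → (411/100000) + (897/1000) * y < m
  l14 : (1/500) ≤ y → (-57/10000) + (1159/1250) * y < m
  l15 : (1/500) ≤ y → (-1541/50000) + (1001/1000) * y < m
  l16 : (1/500) ≤ y → (-2421/25000) + (11813/10000) * y < m
  l17 : (1/500) ≤ y → (-5089/20000) + (7891/5000) * y < m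
  l24 : y ≤ (1/100) → (30527/10000) * y < m
  l28 : y ≤ (1/40) → (10301/5000) * y < m
  l30 : y ≤ (1/25) → (16997/10000) * y < m
  l31 : y ≤ (1/20) → (15561/10000) * y < m
  l33 : y ≤ (2/25) → (1629/1250) * y < m
  l35 : y ≤ (13/100) → (5521/5000) * y < m
  l36 : y ≤ (4/25) → (10371/10000) * y < m
  l57 : (3/1000) ≤ y → y ≤ (1/100) → (937/100000) + (423/200) * y < m
  l59 : (3/1000) ≤ y → y ≤ (3/200) → (201/20000) + (3777/2000) * y < m
  l60 : (3/1000) ≤ y → y ≤ (1/50) → (1051/100000) + (8687/5000) * y < m
  l62 : (3/1000) ≤ y → y ≤ (3/100) → (111/10000) + (15403/10000) * y < m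
  l67 : (3/1000) ≤ y → y ≤ (1/10) → (1247/100000) + (2699/2500) * y < m
  l68 : (3/1000) ≤ y → y ≤ (13/100) → (127/10000) + (2013/2000) * y < m
  l69 : (3/1000) ≤ y → y ≤ (4/25) → (257/20000) + (598/625) * y < m
  l83 : (1/250) ≤ y → y ≤ (13/100) → (1441/100000) + (9933/10000) * y < m
  l88 : (1/200) ≤ y → y ≤ (3/200) → (599/50000) + (8801/5000) * y < m
  l90 : (1/200) ≤ y → y ≤ (1/40) → (1309/100000) + (15363/10000) * y < m
  l91 : (1/200) ≤ y → y ≤ (3/100) → (1347/100000) + (3653/2500) * y < m
  l93 : (1/200) ≤ y → y ≤ (1/20) → (361/25000) + (12673/10000) * y < m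
  l96 : (1/200) ≤ y → y ≤ (1/10) → (1553/100000) + (1049/1000) * y < m
  l97 : (1/200) ≤ y → y ≤ (13/100) → (793/50000) + (4911/5000) * y < m
  l106 : (3/400) ≤ y → y ≤ (1/20) → (337/20000) + (12191/10000) * y < m
  l116 : (1/100) ≤ y → y ≤ (3/100) → (1713/100000) + (837/625) * y < m
  l122 : (1/100) ≤ y → y ≤ (13/100) → (211/10000) + (9419/10000) * y < m
  l123 : (1/100) ≤ y → y ≤ (4/25) → (2149/100000) + (2257/2500) * y < m
  l129 : (1/80) ≤ y → y ≤ (1/20) → (2021/100000) + (11519/10000) * y < m
  l143 : (3/200) ≤ y → y ≤ (13/100) → (1233/50000) + (1829/2000) * y < m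
  l153 : (1/50) ≤ y → y ≤ (4/25) → (2801/100000) + (431/500) * y < m
  l157 : (1/40) ≤ y → y ≤ (13/200) → (2653/100000) + (999/1000) * y < m
  l167 : (3/100) ≤ y → y ≤ (13/100) → (393/12500) + (539/625) * y < m
  l173 : (1/25) ≤ y → y ≤ (13/100) → (43/1250) + (2099/2500) * y < m
  l174 : (1/25) ≤ y → y ≤ (4/25) → (3533/100000) + (8163/10000) * y < m
  l178 : (1/20) ≤ y → y ≤ (13/100) → (3671/100000) + (4109/5000) * y < m
  l179 : (1/20) ≤ y → y ≤ (4/25) → (1887/50000) + (2003/2500) * y < m
  l186 : (2/25) ≤ y → y ≤ (4/25) → (2129/50000) + (771/1000) * y < m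

theorem L7.of_cap {r μ : ℝ} (hr : 0 < r) (h : Cap7 r μ) : L7 (r ^ 2) μ :=
  {
    l2 := fun h1 => h.tangent_line (c₀ := (343/1000)) (cb := (21521/50000)) (lo := (13/100)) (by norm_num) (by norm_num)
      (by norm_num) (by norm_num) (by norm_num) (by unfold Y7; norm_num) (by unfold P7 Y7; norm_num) (by unfold P7 Y7; norm_num)
      (by unfold P7 Y7; norm_num) hr h1
    l3 := fun h1 => h.tangent_line (c₀ := (333/1000)) (cb := (46917/100000)) (lo := (1/10)) (by norm_num) (by norm_num)
      (by norm_num) (by norm_num) (by norm_num) (by unfold Y7; norm_num) (by unfold P7 Y7; norm_num) (by unfold P7 Y7; norm_num)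
      (by unfold P7 Y7; norm_num) hr h1
    l4 := fun h1 => h.tangent_line (c₀ := (161/500)) (cb := (46917/100000)) (lo := (1/10)) (by norm_num) (by norm_num)
      (by norm_num) (by norm_num) (by norm_num) (by unfold Y7; norm_num) (by unfold P7 Y7; norm_num) (by unfold P7 Y7; norm_num)
      (by unfold P7 Y7; norm_num) hr h1
    l5 := fun h1 => h.tangent_line (c₀ := (39/125)) (cb := (49859/100000)) (lo := (2/25)) (by norm_num) (by norm_num)
      (by norm_num) (by norm_num) (by norm_num) (by unfold Y7; norm_num) (by unfold P7 Y7; norm_num) (by unfold P7 Y7; norm_num)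
      (by unfold P7 Y7; norm_num) hr h1
    l6 := fun h1 => h.tangent_line (c₀ := (151/500)) (cb := (52359/100000)) (lo := (13/200)) (by norm_num) (by norm_num)
      (by norm_num) (by norm_num) (by norm_num) (by unfold Y7; norm_num) (by unfold P7 Y7; norm_num) (by unfold P7 Y7; norm_num)
      (by unfold P7 Y7; norm_num) hr h1
    l7 := fun h1 => h.tangent_line (c₀ := (73/250)) (cb := (27623/50000)) (lo := (1/20)) (by norm_num) (by norm_num)
      (by norm_num) (by norm_num) (by norm_num) (by unfold Y7; norm_num) (by unfold P7 Y7; norm_num) (by unfold P7 Y7; norm_num)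
      (by unfold P7 Y7; norm_num) hr h1
    l8 := fun h1 => h.tangent_line (c₀ := (141/500)) (cb := (60159/100000)) (lo := (3/100)) (by norm_num) (by norm_num)
      (by norm_num) (by norm_num) (by norm_num) (by unfold Y7; norm_num) (by unfold P7 Y7; norm_num) (by unfold P7 Y7; norm_num)
      (by unfold P7 Y7; norm_num) hr h1
    l9 := fun h1 => h.tangent_line (c₀ := (34/125)) (cb := (30863/50000)) (lo := (1/40)) (by norm_num) (by norm_num)
      (by norm_num) (by norm_num) (by norm_num) (by unfold Y7; norm_num) (by unfold P7 Y7; norm_num) (by unfold P7 Y7; norm_num)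
      (by unfold P7 Y7; norm_num) hr h1
    l10 := fun h1 => h.tangent_line (c₀ := (131/500)) (cb := (65691/100000)) (lo := (3/200)) (by norm_num) (by norm_num)
      (by norm_num) (by norm_num) (by norm_num) (by unfold Y7; norm_num) (by unfold P7 Y7; norm_num) (by unfold P7 Y7; norm_num)
      (by unfold P7 Y7; norm_num) hr h1
    l11 := fun h1 => h.tangent_line (c₀ := (63/250)) (cb := (70253/100000)) (lo := (3/400)) (by norm_num) (by norm_num)
      (by norm_num) (by norm_num) (by norm_num) (by unfold Y7; norm_num) (by unfold P7 Y7; norm_num) (by unfold P7 Y7; norm_num)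
      (by unfold P7 Y7; norm_num) hr h1
    l12 := fun h1 => h.tangent_line (c₀ := (241/1000)) (cb := (15037/20000)) (lo := (3/1000)) (by norm_num) (by norm_num)
      (by norm_num) (by norm_num) (by norm_num) (by unfold Y7; norm_num) (by unfold P7 Y7; norm_num) (by unfold P7 Y7; norm_num)
      (by unfold P7 Y7; norm_num) hr h1
    l13 := fun h1 => h.tangent_line (c₀ := (231/1000)) (cb := (77051/100000)) (lo := (1/500)) (by norm_num) (by norm_num)
      (by norm_num) (by norm_num) (by norm_num) (by unfold Y7; norm_num) (by unfold P7 Y7; norm_num) (by unfold P7 Y7; norm_num)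
      (by unfold P7 Y7; norm_num) hr h1
    l14 := fun h1 => h.tangent_line (c₀ := (11/50)) (cb := (77051/100000)) (lo := (1/500)) (by norm_num) (by norm_num)
      (by norm_num) (by norm_num) (by norm_num) (by unfold Y7; norm_num) (by unfold P7 Y7; norm_num) (by unfold P7 Y7; norm_num)
      (by unfold P7 Y7; norm_num) hr h1
    l15 := fun h1 => h.tangent_line (c₀ := (99/500)) (cb := (77051/100000)) (lo := (1/500)) (by norm_num) (by norm_num)
      (by norm_num) (by norm_num) (by norm_num) (by unfold Y7; norm_num) (by unfold P7 Y7; norm_num) (by unfold P7 Y7; norm_num)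
      (by unfold P7 Y7; norm_num) hr h1
    l16 := fun h1 => h.tangent_line (c₀ := (161/1000)) (cb := (77051/100000)) (lo := (1/500)) (by norm_num) (by norm_num)
      (by norm_num) (by norm_num) (by norm_num) (by unfold Y7; norm_num) (by unfold P7 Y7; norm_num) (by unfold P7 Y7; norm_num)
      (by unfold P7 Y7; norm_num) hr h1
    l17 := fun h1 => h.tangent_line (c₀ := (29/250)) (cb := (77051/100000)) (lo := (1/500)) (by norm_num) (by norm_num)
      (by norm_num) (by norm_num) (by norm_num) (by unfold Y7; norm_num) (by unfold P7 Y7; norm_num) (by unfold P7 Y7; norm_num)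
      (by unfold P7 Y7; norm_num) hr h1
    l24 := fun h2 => by
      have := h.chord_line (ca := (68459/100000)) (cb := 1) (lo := 0) (hi := (1/100)) (A := 0) (B := (30527/10000)) (by norm_num) (by norm_num) (by norm_num) le_rfl (by norm_num)
        (by unfold Y7; norm_num) (by unfold Y7; norm_num) (by unfold P7 Y7; norm_num) (by unfold P7 Y7; norm_num) hr (by positivity) h2
      linarith
    l28 := fun h2 => by
      have := h.chord_line (ca := (2469/4000)) (cb := 1) (lo := 0) (hi := (1/40)) (A := 0) (B := (10301/5000)) (by norm_num) (by norm_num) (by norm_num) le_rfl (by norm_num)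
        (by unfold Y7; norm_num) (by unfold Y7; norm_num) (by unfold P7 Y7; norm_num) (by unfold P7 Y7; norm_num) hr (by positivity) h2
      linarith
    l30 := fun h2 => by
      have := h.chord_line (ca := (28747/50000)) (cb := 1) (lo := 0) (hi := (1/25)) (A := 0) (B := (16997/10000)) (by norm_num) (by norm_num) (by norm_num) le_rfl (by norm_num)
        (by unfold Y7; norm_num) (by unfold Y7; norm_num) (by unfold P7 Y7; norm_num) (by unfold P7 Y7; norm_num) hr (by positivity) h2
      linarith
    l31 := fun h2 => by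
      have := h.chord_line (ca := (11049/20000)) (cb := 1) (lo := 0) (hi := (1/20)) (A := 0) (B := (15561/10000)) (by norm_num) (by norm_num) (by norm_num) le_rfl (by norm_num)
        (by unfold Y7; norm_num) (by unfold Y7; norm_num) (by unfold P7 Y7; norm_num) (by unfold P7 Y7; norm_num) hr (by positivity) h2
      linarith
    l33 := fun h2 => by
      have := h.chord_line (ca := (24929/50000)) (cb := 1) (lo := 0) (hi := (2/25)) (A := 0) (B := (1629/1250)) (by norm_num) (by norm_num) (by norm_num) le_rfl (by norm_num)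
        (by unfold Y7; norm_num) (by unfold Y7; norm_num) (by unfold P7 Y7; norm_num) (by unfold P7 Y7; norm_num) hr (by positivity) h2
      linarith
    l35 := fun h2 => by
      have := h.chord_line (ca := (43041/100000)) (cb := 1) (lo := 0) (hi := (13/100)) (A := 0) (B := (5521/5000)) (by norm_num) (by norm_num) (by norm_num) le_rfl (by norm_num)
        (by unfold Y7; norm_num) (by unfold Y7; norm_num) (by unfold P7 Y7; norm_num) (by unfold P7 Y7; norm_num) hr (by positivity) h2
      linarith
    l36 := fun h2 => by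
      have := h.chord_line (ca := (2473/6250)) (cb := 1) (lo := 0) (hi := (4/25)) (A := 0) (B := (10371/10000)) (by norm_num) (by norm_num) (by norm_num) le_rfl (by norm_num)
        (by unfold Y7; norm_num) (by unfold Y7; norm_num) (by unfold P7 Y7; norm_num) (by unfold P7 Y7; norm_num) hr (by positivity) h2
      linarith
    l57 := fun h1 h2 => h.chord_line (ca := (68459/100000)) (cb := (15037/20000)) (lo := (3/1000)) (hi := (1/100)) (by norm_num) (by norm_num) (by norm_num) (by norm_num) (by norm_num)
      (by unfold Y7; norm_num) (by unfold Y7; norm_num) (by unfold P7 Y7; norm_num) (by unfold P7 Y7; norm_num) hr h1 h2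
    l59 := fun h1 h2 => h.chord_line (ca := (6569/10000)) (cb := (15037/20000)) (lo := (3/1000)) (hi := (3/200)) (by norm_num) (by norm_num) (by norm_num) (by norm_num) (by norm_num)
      (by unfold Y7; norm_num) (by unfold Y7; norm_num) (by unfold P7 Y7; norm_num) (by unfold P7 Y7; norm_num) hr h1 h2
    l60 := fun h1 h2 => h.chord_line (ca := (63529/100000)) (cb := (15037/20000)) (lo := (3/1000)) (hi := (1/50)) (by norm_num) (by norm_num) (by norm_num) (by norm_num) (by norm_num)
      (by unfold Y7; norm_num) (by unfold Y7; norm_num) (by unfold P7 Y7; norm_num) (by unfold P7 Y7; norm_num) hr h1 h2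
    l62 := fun h1 h2 => h.chord_line (ca := (30079/50000)) (cb := (15037/20000)) (lo := (3/1000)) (hi := (3/100)) (by norm_num) (by norm_num) (by norm_num) (by norm_num) (by norm_num)
      (by unfold Y7; norm_num) (by unfold Y7; norm_num) (by unfold P7 Y7; norm_num) (by unfold P7 Y7; norm_num) hr h1 h2
    l67 := fun h1 h2 => h.chord_line (ca := (11729/25000)) (cb := (15037/20000)) (lo := (3/1000)) (hi := (1/10)) (by norm_num) (by norm_num) (by norm_num) (by norm_num) (by norm_num)
      (by unfold Y7; norm_num) (by unfold Y7; norm_num) (by unfold P7 Y7; norm_num) (by unfold P7 Y7; norm_num) hr h1 h2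
    l68 := fun h1 h2 => h.chord_line (ca := (43041/100000)) (cb := (15037/20000)) (lo := (3/1000)) (hi := (13/100)) (by norm_num) (by norm_num) (by norm_num) (by norm_num) (by norm_num)
      (by unfold Y7; norm_num) (by unfold Y7; norm_num) (by unfold P7 Y7; norm_num) (by unfold P7 Y7; norm_num) hr h1 h2
    l69 := fun h1 h2 => h.chord_line (ca := (2473/6250)) (cb := (15037/20000)) (lo := (3/1000)) (hi := (4/25)) (by norm_num) (by norm_num) (by norm_num) (by norm_num) (by norm_num)
      (by unfold Y7; norm_num) (by unfold Y7; norm_num) (by unfold P7 Y7; norm_num) (by unfold P7 Y7; norm_num) hr h1 h2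
    l83 := fun h1 h2 => h.chord_line (ca := (43041/100000)) (cb := (73751/100000)) (lo := (1/250)) (hi := (13/100)) (by norm_num) (by norm_num) (by norm_num) (by norm_num) (by norm_num)
      (by unfold Y7; norm_num) (by unfold Y7; norm_num) (by unfold P7 Y7; norm_num) (by unfold P7 Y7; norm_num) hr h1 h2
    l88 := fun h1 h2 => h.chord_line (ca := (6569/10000)) (cb := (7257/10000)) (lo := (1/200)) (hi := (3/200)) (by norm_num) (by norm_num) (by norm_num) (by norm_num) (by norm_num)
      (by unfold Y7; norm_num) (by unfold Y7; norm_num) (by unfold P7 Y7; norm_num) (by unfold P7 Y7; norm_num) hr h1 h2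
    l90 := fun h1 h2 => h.chord_line (ca := (2469/4000)) (cb := (7257/10000)) (lo := (1/200)) (hi := (1/40)) (by norm_num) (by norm_num) (by norm_num) (by norm_num) (by norm_num)
      (by unfold Y7; norm_num) (by unfold Y7; norm_num) (by unfold P7 Y7; norm_num) (by unfold P7 Y7; norm_num) hr h1 h2
    l91 := fun h1 h2 => h.chord_line (ca := (30079/50000)) (cb := (7257/10000)) (lo := (1/200)) (hi := (3/100)) (by norm_num) (by norm_num) (by norm_num) (by norm_num) (by norm_num)
      (by unfold Y7; norm_num) (by unfold Y7; norm_num) (by unfold P7 Y7; norm_num) (by unfold P7 Y7; norm_num) hr h1 h2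
    l93 := fun h1 h2 => h.chord_line (ca := (11049/20000)) (cb := (7257/10000)) (lo := (1/200)) (hi := (1/20)) (by norm_num) (by norm_num) (by norm_num) (by norm_num) (by norm_num)
      (by unfold Y7; norm_num) (by unfold Y7; norm_num) (by unfold P7 Y7; norm_num) (by unfold P7 Y7; norm_num) hr h1 h2
    l96 := fun h1 h2 => h.chord_line (ca := (11729/25000)) (cb := (7257/10000)) (lo := (1/200)) (hi := (1/10)) (by norm_num) (by norm_num) (by norm_num) (by norm_num) (by norm_num)
      (by unfold Y7; norm_num) (by unfold Y7; norm_num) (by unfold P7 Y7; norm_num) (by unfold P7 Y7; norm_num) hr h1 h2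
    l97 := fun h1 h2 => h.chord_line (ca := (43041/100000)) (cb := (7257/10000)) (lo := (1/200)) (hi := (13/100)) (by norm_num) (by norm_num) (by norm_num) (by norm_num) (by norm_num)
      (by unfold Y7; norm_num) (by unfold Y7; norm_num) (by unfold P7 Y7; norm_num) (by unfold P7 Y7; norm_num) hr h1 h2
    l106 := fun h1 h2 => h.chord_line (ca := (11049/20000)) (cb := (70253/100000)) (lo := (3/400)) (hi := (1/20)) (by norm_num) (by norm_num) (by norm_num) (by norm_num) (by norm_num)
      (by unfold Y7; norm_num) (by unfold Y7; norm_num) (by unfold P7 Y7; norm_num) (by unfold P7 Y7; norm_num) hr h1 h2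
    l116 := fun h1 h2 => h.chord_line (ca := (30079/50000)) (cb := (3423/5000)) (lo := (1/100)) (hi := (3/100)) (by norm_num) (by norm_num) (by norm_num) (by norm_num) (by norm_num)
      (by unfold Y7; norm_num) (by unfold Y7; norm_num) (by unfold P7 Y7; norm_num) (by unfold P7 Y7; norm_num) hr h1 h2
    l122 := fun h1 h2 => h.chord_line (ca := (43041/100000)) (cb := (3423/5000)) (lo := (1/100)) (hi := (13/100)) (by norm_num) (by norm_num) (by norm_num) (by norm_num) (by norm_num)
      (by unfold Y7; norm_num) (by unfold Y7; norm_num) (by unfold P7 Y7; norm_num) (by unfold P7 Y7; norm_num) hr h1 h2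
    l123 := fun h1 h2 => h.chord_line (ca := (2473/6250)) (cb := (3423/5000)) (lo := (1/100)) (hi := (4/25)) (by norm_num) (by norm_num) (by norm_num) (by norm_num) (by norm_num)
      (by unfold Y7; norm_num) (by unfold Y7; norm_num) (by unfold P7 Y7; norm_num) (by unfold P7 Y7; norm_num) hr h1 h2
    l129 := fun h1 h2 => h.chord_line (ca := (11049/20000)) (cb := (66973/100000)) (lo := (1/80)) (hi := (1/20)) (by norm_num) (by norm_num) (by norm_num) (by norm_num) (by norm_num)
      (by unfold Y7; norm_num) (by unfold Y7; norm_num) (by unfold P7 Y7; norm_num) (by unfold P7 Y7; norm_num) hr h1 h2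
    l143 := fun h1 h2 => h.chord_line (ca := (43041/100000)) (cb := (65691/100000)) (lo := (3/200)) (hi := (13/100)) (by norm_num) (by norm_num) (by norm_num) (by norm_num) (by norm_num)
      (by unfold Y7; norm_num) (by unfold Y7; norm_num) (by unfold P7 Y7; norm_num) (by unfold P7 Y7; norm_num) hr h1 h2
    l153 := fun h1 h2 => h.chord_line (ca := (2473/6250)) (cb := (6353/10000)) (lo := (1/50)) (hi := (4/25)) (by norm_num) (by norm_num) (by norm_num) (by norm_num) (by norm_num)
      (by unfold Y7; norm_num) (by unfold Y7; norm_num) (by unfold P7 Y7; norm_num) (by unfold P7 Y7; norm_num) hr h1 h2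
    l157 := fun h1 h2 => h.chord_line (ca := (26179/50000)) (cb := (30863/50000)) (lo := (1/40)) (hi := (13/200)) (by norm_num) (by norm_num) (by norm_num) (by norm_num) (by norm_num)
      (by unfold Y7; norm_num) (by unfold Y7; norm_num) (by unfold P7 Y7; norm_num) (by unfold P7 Y7; norm_num) hr h1 h2
    l167 := fun h1 h2 => h.chord_line (ca := (43041/100000)) (cb := (60159/100000)) (lo := (3/100)) (hi := (13/100)) (by norm_num) (by norm_num) (by norm_num) (by norm_num) (by norm_num)
      (by unfold Y7; norm_num) (by unfold Y7; norm_num) (by unfold P7 Y7; norm_num) (by unfold P7 Y7; norm_num) hr h1 h2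
    l173 := fun h1 h2 => h.chord_line (ca := (43041/100000)) (cb := (11499/20000)) (lo := (1/25)) (hi := (13/100)) (by norm_num) (by norm_num) (by norm_num) (by norm_num) (by norm_num)
      (by unfold Y7; norm_num) (by unfold Y7; norm_num) (by unfold P7 Y7; norm_num) (by unfold P7 Y7; norm_num) hr h1 h2
    l174 := fun h1 h2 => h.chord_line (ca := (2473/6250)) (cb := (11499/20000)) (lo := (1/25)) (hi := (4/25)) (by norm_num) (by norm_num) (by norm_num) (by norm_num) (by norm_num)
      (by unfold Y7; norm_num) (by unfold Y7; norm_num) (by unfold P7 Y7; norm_num) (by unfold P7 Y7; norm_num) hr h1 h2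
    l178 := fun h1 h2 => h.chord_line (ca := (43041/100000)) (cb := (27623/50000)) (lo := (1/20)) (hi := (13/100)) (by norm_num) (by norm_num) (by norm_num) (by norm_num) (by norm_num)
      (by unfold Y7; norm_num) (by unfold Y7; norm_num) (by unfold P7 Y7; norm_num) (by unfold P7 Y7; norm_num) hr h1 h2
    l179 := fun h1 h2 => h.chord_line (ca := (2473/6250)) (cb := (27623/50000)) (lo := (1/20)) (hi := (4/25)) (by norm_num) (by norm_num) (by norm_num) (by norm_num) (by norm_num)
      (by unfold Y7; norm_num) (by unfold Y7; norm_num) (by unfold P7 Y7; norm_num) (by unfold P7 Y7; norm_num) hr h1 h2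
    l186 := fun h1 h2 => h.chord_line (ca := (2473/6250)) (cb := (49859/100000)) (lo := (2/25)) (hi := (4/25)) (by norm_num) (by norm_num) (by norm_num) (by norm_num) (by norm_num)
      (by unfold Y7; norm_num) (by unfold Y7; norm_num) (by unfold P7 Y7; norm_num) (by unfold P7 Y7; norm_num) hr h1 h2
  }

end Crest.Agent.S0334
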