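import Crest.Agent.S0334_L3

set_option autoImplicit false
set_option maxHeartbeats 1000000
set_option linter.unusedVariables false

namespace Crest.Agent.S0334

/-! ### N4: the numerical contradiction for `k = 4` -/

structure N4 (y0 y1 y2 y3 m0 m1 m2 m3 : ℝ) : Prop where
  o0 : y1 ≤ y0
  o1 : y2 ≤ y1
  o2 : y3 ≤ y2
  pos : 0 < y3
  top : y0 ≤ 4/9
  sum : y0 + y1 + y2 + y3 = 1
  msum : m0 + m1 + m2 + m3 = 1
  q4 : (9 / 4) * (y0 + y1 + y2) ^ 2 - (9 / 2) * (y0 ^ 2 + y1 ^ 2 + y2 ^ 2) -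
      (1 - (y0 + y1 + y2)) * ((5 / 4) * (1 + (y0 + y1 + y2)) - 6 * y2) ≤
      ((1026/125) + (y0 + 3 * y1)) * y3
  c0 : L3 y0 m0
  c1 : L3 y1 m1
  c2 : L3 y2 m2
  c3 : L3 y3 m3

theorem N4.leafTop {y0 y1 y2 y3 m0 m1 m2 m3 : ℝ} (h : N4 y0 y1 y2 y3 m0 m1 m2 m3) (h3 : (501/5000) ≤ y3) : False := by
  obtain ⟨o0, o1, o2, pos, top, sum, msum, q4, c0, c1, c2, c3⟩ := h
  have z0 := c0.l4 (by linarith)
  have z1 := c1.l4 (by linarith)
  have z2 := c2.l4 (by linarith)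
  have z3 := c3.l4 (by linarith)
  linarith

theorem N4.leaf0 {y0 y1 y2 y3 m0 m1 m2 m3 : ℝ} (h : N4 y0 y1 y2 y3 m0 m1 m2 m3)
    (h0l : (1/4) ≤ y0) (h0u : y0 ≤ (4/9)) (h1l : 0 ≤ y1) (h1u : y1 ≤ (4/9)) (h2l : 0 ≤ y2) (h2u : y2 ≤ (1/5)) (h3l : 0 ≤ y3) (h3u : y3 ≤ (501/5000)) : False := by
  obtain ⟨o0, o1, o2, pos, top, sum, msum, q4, c0, c1, c2, c3⟩ := h
  have pK : 0 ≤ ((16/9) - (y0 + 3 * y1)) * y3 := mul_nonneg (by linarith only [o0, o1, o2, pos, top, sum, h0l, h0u, h1l, h1u, h2l, h2u, h3l, h3u]) pos.le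
  have s0 : 0 ≤ (y0 - (1/4)) * ((4/9) - y0) := mul_nonneg (by linarith only [o0, o1, o2, pos, top, sum, h0l, h0u, h1l, h1u, h2l, h2u, h3l, h3u]) (by linarith only [o0, o1, o2, pos, top, sum, h0l, h0u, h1l, h1u, h2l, h2u, h3l, h3u])
  have s1 : 0 ≤ (y1 - 0) * ((4/9) - y1) := mul_nonneg (by linarith only [o0, o1, o2, pos, top, sum, h0l, h0u, h1l, h1u, h2l, h2u, h3l, h3u]) (by linarith only [o0, o1, o2, pos, top, sum, h0l, h0u, h1l, h1u, h2l, h2u, h3l, h3u])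
  have s2 : 0 ≤ (y2 - 0) * ((1/5) - y2) := mul_nonneg (by linarith only [o0, o1, o2, pos, top, sum, h0l, h0u, h1l, h1u, h2l, h2u, h3l, h3u]) (by linarith only [o0, o1, o2, pos, top, sum, h0l, h0u, h1l, h1u, h2l, h2u, h3l, h3u])
  have sq : 0 ≤ (y3 - (501/10000)) ^ 2 := sq_nonneg _
  have pa : 0 ≤ (y3 - 0) * (y2 - 0) := mul_nonneg (by linarith only [o0, o1, o2, pos, top, sum, h0l, h0u, h1l, h1u, h2l, h2u, h3l, h3u]) (by linarith only [o0, o1, o2, pos, top, sum, h0l, h0u, h1l, h1u, h2l, h2u, h3l, h3u])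
  have pb : 0 ≤ ((501/5000) - y3) * ((1/5) - y2) := mul_nonneg (by linarith only [o0, o1, o2, pos, top, sum, h0l, h0u, h1l, h1u, h2l, h2u, h3l, h3u]) (by linarith only [o0, o1, o2, pos, top, sum, h0l, h0u, h1l, h1u, h2l, h2u, h3l, h3u])
  have e4 : (9 / 4 : ℝ) - 7 * y3 + (7 / 2) * y3 ^ 2 + 6 * (y3 * y2) - (9 / 2) * (y0 ^ 2 + y1 ^ 2 + y2 ^ 2) ≤ ((1026/125) + (y0 + 3 * y1)) * y3 := by
    have ht : y0 + y1 + y2 = 1 - y3 := by linarith only [sum]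
    rw [ht] at q4
    linarith only [q4]
  have ra : (-25/8) * y0 + (-2) * y1 + (-9/10) * y2 + (-1497157/90000) * y3 + (548242993/200000000) ≤ 0 := by
    linarith only [e4, pK, s0, s1, s2, sq, pa]
  have rb : (-25/8) * y0 + (-2) * y1 + (-747/2500) * y2 + (-1389157/90000) * y3 + (524194993/200000000) ≤ 0 := by
    linarith only [e4, pK, s0, s1, s2, sq, pb]
  have t0 : (19/100) ≤ y0 := by linarith only [o0, o1, o2, pos, top, sum, h0l, h0u, h1l, h1u, h2l, h2u, h3l, h3u, ra, rb]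
  have t1 : (19/100) ≤ y1 := by linarith only [o0, o1, o2, pos, top, sum, h0l, h0u, h1l, h1u, h2l, h2u, h3l, h3u, ra, rb]
  have t2 : (11/200) ≤ y2 := by linarith only [o0, o1, o2, pos, top, sum, h0l, h0u, h1l, h1u, h2l, h2u, h3l, h3u, ra, rb]
  have t3 : (1/50) ≤ y3 := by linarith only [o0, o1, o2, pos, top, sum, h0l, h0u, h1l, h1u, h2l, h2u, h3l, h3u, ra, rb]
  have z0 := c0.l13 (by linarith only [o0, o1, o2, pos, top, sum, h0l, h0u, h1l, h1u, h2l, h2u, h3l, h3u, ra, rb, t0, t1, t2, t3])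
  have z1 := c0.l14 (by linarith only [o0, o1, o2, pos, top, sum, h0l, h0u, h1l, h1u, h2l, h2u, h3l, h3u, ra, rb, t0, t1, t2, t3])
  have z2 := c1.l13 (by linarith only [o0, o1, o2, pos, top, sum, h0l, h0u, h1l, h1u, h2l, h2u, h3l, h3u, ra, rb, t0, t1, t2, t3])
  have z3 := c1.l14 (by linarith only [o0, o1, o2, pos, top, sum, h0l, h0u, h1l, h1u, h2l, h2u, h3l, h3u, ra, rb, t0, t1, t2, t3])
  have z4 := c2.l7 (by linarith only [o0, o1, o2, pos, top, sum, h0l, h0u, h1l, h1u, h2l, h2u, h3l, h3u, ra, rb, t0, t1, t2, t3])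
  have z5 := c3.l118 (by linarith only [o0, o1, o2, pos, top, sum, h0l, h0u, h1l, h1u, h2l, h2u, h3l, h3u, ra, rb, t0, t1, t2, t3]) (by linarith only [o0, o1, o2, pos, top, sum, h0l, h0u, h1l, h1u, h2l, h2u, h3l, h3u, ra, rb, t0, t1, t2, t3])
  linarith only [z0, z1, z2, z3, z4, z5, o0, o1, o2, pos, top, sum, h0l, h0u, h1l, h1u, h2l, h2u, h3l, h3u, ra, rb, t0, t1, t2, t3, msum]

theorem N4.leaf1 {y0 y1 y2 y3 m0 m1 m2 m3 : ℝ} (h : N4 y0 y1 y2 y3 m0 m1 m2 m3)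
    (h0l : (1/4) ≤ y0) (h0u : y0 ≤ (4/9)) (h1l : 0 ≤ y1) (h1u : y1 ≤ (3/10)) (h2l : (1/5) ≤ y2) (h2u : y2 ≤ (1/3)) (h3l : 0 ≤ y3) (h3u : y3 ≤ (501/5000)) : False := by
  obtain ⟨o0, o1, o2, pos, top, sum, msum, q4, c0, c1, c2, c3⟩ := h
  have pK : 0 ≤ ((121/90) - (y0 + 3 * y1)) * y3 := mul_nonneg (by linarith only [o0, o1, o2, pos, top, sum, h0l, h0u, h1l, h1u, h2l, h2u, h3l, h3u]) pos.le
  have s0 : 0 ≤ (y0 - (1/4)) * ((4/9) - y0) := mul_nonneg (by linarith only [o0, o1, o2, pos, top, sum, h0l, h0u, h1l, h1u, h2l, h2u, h3l, h3u]) (by linarith only [o0, o1, o2, pos, top, sum, h0l, h0u, h1l, h1u, h2l, h2u, h3l, h3u])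
  have s1 : 0 ≤ (y1 - 0) * ((3/10) - y1) := mul_nonneg (by linarith only [o0, o1, o2, pos, top, sum, h0l, h0u, h1l, h1u, h2l, h2u, h3l, h3u]) (by linarith only [o0, o1, o2, pos, top, sum, h0l, h0u, h1l, h1u, h2l, h2u, h3l, h3u])
  have s2 : 0 ≤ (y2 - (1/5)) * ((1/3) - y2) := mul_nonneg (by linarith only [o0, o1, o2, pos, top, sum, h0l, h0u, h1l, h1u, h2l, h2u, h3l, h3u]) (by linarith only [o0, o1, o2, pos, top, sum, h0l, h0u, h1l, h1u, h2l, h2u, h3l, h3u])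
  have sq : 0 ≤ (y3 - (501/10000)) ^ 2 := sq_nonneg _
  have pa : 0 ≤ (y3 - 0) * (y2 - (1/5)) := mul_nonneg (by linarith only [o0, o1, o2, pos, top, sum, h0l, h0u, h1l, h1u, h2l, h2u, h3l, h3u]) (by linarith only [o0, o1, o2, pos, top, sum, h0l, h0u, h1l, h1u, h2l, h2u, h3l, h3u])
  have pb : 0 ≤ ((501/5000) - y3) * ((1/3) - y2) := mul_nonneg (by linarith only [o0, o1, o2, pos, top, sum, h0l, h0u, h1l, h1u, h2l, h2u, h3l, h3u]) (by linarith only [o0, o1, o2, pos, top, sum, h0l, h0u, h1l, h1u, h2l, h2u, h3l, h3u])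
  have e4 : (9 / 4 : ℝ) - 7 * y3 + (7 / 2) * y3 ^ 2 + 6 * (y3 * y2) - (9 / 2) * (y0 ^ 2 + y1 ^ 2 + y2 ^ 2) ≤ ((1026/125) + (y0 + 3 * y1)) * y3 := by
    have ht : y0 + y1 + y2 = 1 - y3 := by linarith only [sum]
    rw [ht] at q4
    linarith only [q4]
  have ra : (-25/8) * y0 + (-27/20) * y1 + (-12/5) * y2 + (-1350157/90000) * y3 + (608242993/200000000) ≤ 0 := by
    linarith only [e4, pK, s0, s1, s2, sq, pa]
  have rb : (-25/8) * y0 + (-27/20) * y1 + (-4497/2500) * y2 + (-1278157/90000) * y3 + (568162993/200000000) ≤ 0 := by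
    linarith only [e4, pK, s0, s1, s2, sq, pb]
  have t0 : (19/100) ≤ y0 := by linarith only [o0, o1, o2, pos, top, sum, h0l, h0u, h1l, h1u, h2l, h2u, h3l, h3u, ra, rb]
  have t1 : (19/100) ≤ y1 := by linarith only [o0, o1, o2, pos, top, sum, h0l, h0u, h1l, h1u, h2l, h2u, h3l, h3u, ra, rb]
  have t2 : (19/100) ≤ y2 := by linarith only [o0, o1, o2, pos, top, sum, h0l, h0u, h1l, h1u, h2l, h2u, h3l, h3u, ra, rb]
  have t3 : (9/200) ≤ y3 := by linarith only [o0, o1, o2, pos, top, sum, h0l, h0u, h1l, h1u, h2l, h2u, h3l, h3u, ra, rb]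
  have z0 := c0.l12 (by linarith only [o0, o1, o2, pos, top, sum, h0l, h0u, h1l, h1u, h2l, h2u, h3l, h3u, ra, rb, t0, t1, t2, t3])
  have z1 := c0.l13 (by linarith only [o0, o1, o2, pos, top, sum, h0l, h0u, h1l, h1u, h2l, h2u, h3l, h3u, ra, rb, t0, t1, t2, t3])
  have z2 := c1.l9 (by linarith only [o0, o1, o2, pos, top, sum, h0l, h0u, h1l, h1u, h2l, h2u, h3l, h3u, ra, rb, t0, t1, t2, t3])
  have z3 := c2.l9 (by linarith only [o0, o1, o2, pos, top, sum, h0l, h0u, h1l, h1u, h2l, h2u, h3l, h3u, ra, rb, t0, t1, t2, t3])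
  have z4 := c3.l198 (by linarith only [o0, o1, o2, pos, top, sum, h0l, h0u, h1l, h1u, h2l, h2u, h3l, h3u, ra, rb, t0, t1, t2, t3]) (by linarith only [o0, o1, o2, pos, top, sum, h0l, h0u, h1l, h1u, h2l, h2u, h3l, h3u, ra, rb, t0, t1, t2, t3])
  linarith only [z0, z1, z2, z3, z4, o0, o1, o2, pos, top, sum, h0l, h0u, h1l, h1u, h2l, h2u, h3l, h3u, ra, rb, t0, t1, t2, t3, msum]

theorem N4.leaf2 {y0 y1 y2 y3 m0 m1 m2 m3 : ℝ} (h : N4 y0 y1 y2 y3 m0 m1 m2 m3)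
    (h0l : (1/4) ≤ y0) (h0u : y0 ≤ (9/25)) (h1l : (3/10) ≤ y1) (h1u : y1 ≤ (4/9)) (h2l : (1/5) ≤ y2) (h2u : y2 ≤ (1/3)) (h3l : 0 ≤ y3) (h3u : y3 ≤ (501/5000)) : False := by
  obtain ⟨o0, o1, o2, pos, top, sum, msum, q4, c0, c1, c2, c3⟩ := h
  have pK : 0 ≤ ((127/75) - (y0 + 3 * y1)) * y3 := mul_nonneg (by linarith only [o0, o1, o2, pos, top, sum, h0l, h0u, h1l, h1u, h2l, h2u, h3l, h3u]) pos.le
  have s0 : 0 ≤ (y0 - (1/4)) * ((9/25) - y0) := mul_nonneg (by linarith only [o0, o1, o2, pos, top, sum, h0l, h0u, h1l, h1u, h2l, h2u, h3l, h3u]) (by linarith only [o0, o1, o2, pos, top, sum, h0l, h0u, h1l, h1u, h2l, h2u, h3l, h3u])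
  have s1 : 0 ≤ (y1 - (3/10)) * ((4/9) - y1) := mul_nonneg (by linarith only [o0, o1, o2, pos, top, sum, h0l, h0u, h1l, h1u, h2l, h2u, h3l, h3u]) (by linarith only [o0, o1, o2, pos, top, sum, h0l, h0u, h1l, h1u, h2l, h2u, h3l, h3u])
  have s2 : 0 ≤ (y2 - (1/5)) * ((1/3) - y2) := mul_nonneg (by linarith only [o0, o1, o2, pos, top, sum, h0l, h0u, h1l, h1u, h2l, h2u, h3l, h3u]) (by linarith only [o0, o1, o2, pos, top, sum, h0l, h0u, h1l, h1u, h2l, h2u, h3l, h3u])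
  have sq : 0 ≤ (y3 - (501/10000)) ^ 2 := sq_nonneg _
  have pa : 0 ≤ (y3 - 0) * (y2 - (1/5)) := mul_nonneg (by linarith only [o0, o1, o2, pos, top, sum, h0l, h0u, h1l, h1u, h2l, h2u, h3l, h3u]) (by linarith only [o0, o1, o2, pos, top, sum, h0l, h0u, h1l, h1u, h2l, h2u, h3l, h3u])
  have pb : 0 ≤ ((501/5000) - y3) * ((1/3) - y2) := mul_nonneg (by linarith only [o0, o1, o2, pos, top, sum, h0l, h0u, h1l, h1u, h2l, h2u, h3l, h3u]) (by linarith only [o0, o1, o2, pos, top, sum, h0l, h0u, h1l, h1u, h2l, h2u, h3l, h3u])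
  have e4 : (9 / 4 : ℝ) - 7 * y3 + (7 / 2) * y3 ^ 2 + 6 * (y3 * y2) - (9 / 2) * (y0 ^ 2 + y1 ^ 2 + y2 ^ 2) ≤ ((1026/125) + (y0 + 3 * y1)) * y3 := by
    have ht : y0 + y1 + y2 = 1 - y3 := by linarith only [sum]
    rw [ht] at q4
    linarith only [q4]
  have ra : (-549/200) * y0 + (-67/20) * y1 + (-12/5) * y2 + (-460519/30000) * y3 + (709242993/200000000) ≤ 0 := by
    linarith only [e4, pK, s0, s1, s2, sq, pa]
  have rb : (-549/200) * y0 + (-67/20) * y1 + (-4497/2500) * y2 + (-436519/30000) * y3 + (669162993/200000000) ≤ 0 := by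
    linarith only [e4, pK, s0, s1, s2, sq, pb]
  have t0 : (19/100) ≤ y0 := by linarith only [o0, o1, o2, pos, top, sum, h0l, h0u, h1l, h1u, h2l, h2u, h3l, h3u, ra, rb]
  have t1 : (19/100) ≤ y1 := by linarith only [o0, o1, o2, pos, top, sum, h0l, h0u, h1l, h1u, h2l, h2u, h3l, h3u, ra, rb]
  have t2 : (19/100) ≤ y2 := by linarith only [o0, o1, o2, pos, top, sum, h0l, h0u, h1l, h1u, h2l, h2u, h3l, h3u, ra, rb]
  have t3 : (1/20) ≤ y3 := by linarith only [o0, o1, o2, pos, top, sum, h0l, h0u, h1l, h1u, h2l, h2u, h3l, h3u, ra, rb]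
  have z0 := c0.l10 (by linarith only [o0, o1, o2, pos, top, sum, h0l, h0u, h1l, h1u, h2l, h2u, h3l, h3u, ra, rb, t0, t1, t2, t3])
  have z1 := c0.l11 (by linarith only [o0, o1, o2, pos, top, sum, h0l, h0u, h1l, h1u, h2l, h2u, h3l, h3u, ra, rb, t0, t1, t2, t3])
  have z2 := c1.l10 (by linarith only [o0, o1, o2, pos, top, sum, h0l, h0u, h1l, h1u, h2l, h2u, h3l, h3u, ra, rb, t0, t1, t2, t3])
  have z3 := c1.l11 (by linarith only [o0, o1, o2, pos, top, sum, h0l, h0u, h1l, h1u, h2l, h2u, h3l, h3u, ra, rb, t0, t1, t2, t3])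
  have z4 := c2.l10 (by linarith only [o0, o1, o2, pos, top, sum, h0l, h0u, h1l, h1u, h2l, h2u, h3l, h3u, ra, rb, t0, t1, t2, t3])
  have z5 := c3.l211 (by linarith only [o0, o1, o2, pos, top, sum, h0l, h0u, h1l, h1u, h2l, h2u, h3l, h3u, ra, rb, t0, t1, t2, t3]) (by linarith only [o0, o1, o2, pos, top, sum, h0l, h0u, h1l, h1u, h2l, h2u, h3l, h3u, ra, rb, t0, t1, t2, t3])
  linarith only [z0, z1, z2, z3, z4, z5, o0, o1, o2, pos, top, sum, h0l, h0u, h1l, h1u, h2l, h2u, h3l, h3u, ra, rb, t0, t1, t2, t3, msum]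

theorem N4.leaf3 {y0 y1 y2 y3 m0 m1 m2 m3 : ℝ} (h : N4 y0 y1 y2 y3 m0 m1 m2 m3)
    (h0l : (9/25) ≤ y0) (h0u : y0 ≤ (4/9)) (h1l : (3/10) ≤ y1) (h1u : y1 ≤ (4/9)) (h2l : (1/5) ≤ y2) (h2u : y2 ≤ (1/3)) (h3l : 0 ≤ y3) (h3u : y3 ≤ (501/5000)) : False := by
  obtain ⟨o0, o1, o2, pos, top, sum, msum, q4, c0, c1, c2, c3⟩ := h
  have pK : 0 ≤ ((16/9) - (y0 + 3 * y1)) * y3 := mul_nonneg (by linarith only [o0, o1, o2, pos, top, sum, h0l, h0u, h1l, h1u, h2l, h2u, h3l, h3u]) pos.le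
  have s0 : 0 ≤ (y0 - (9/25)) * ((4/9) - y0) := mul_nonneg (by linarith only [o0, o1, o2, pos, top, sum, h0l, h0u, h1l, h1u, h2l, h2u, h3l, h3u]) (by linarith only [o0, o1, o2, pos, top, sum, h0l, h0u, h1l, h1u, h2l, h2u, h3l, h3u])
  have s1 : 0 ≤ (y1 - (3/10)) * ((4/9) - y1) := mul_nonneg (by linarith only [o0, o1, o2, pos, top, sum, h0l, h0u, h1l, h1u, h2l, h2u, h3l, h3u]) (by linarith only [o0, o1, o2, pos, top, sum, h0l, h0u, h1l, h1u, h2l, h2u, h3l, h3u])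
  have s2 : 0 ≤ (y2 - (1/5)) * ((1/3) - y2) := mul_nonneg (by linarith only [o0, o1, o2, pos, top, sum, h0l, h0u, h1l, h1u, h2l, h2u, h3l, h3u]) (by linarith only [o0, o1, o2, pos, top, sum, h0l, h0u, h1l, h1u, h2l, h2u, h3l, h3u])
  have sq : 0 ≤ (y3 - (501/10000)) ^ 2 := sq_nonneg _
  have pa : 0 ≤ (y3 - 0) * (y2 - (1/5)) := mul_nonneg (by linarith only [o0, o1, o2, pos, top, sum, h0l, h0u, h1l, h1u, h2l, h2u, h3l, h3u]) (by linarith only [o0, o1, o2, pos, top, sum, h0l, h0u, h1l, h1u, h2l, h2u, h3l, h3u])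
  have pb : 0 ≤ ((501/5000) - y3) * ((1/3) - y2) := mul_nonneg (by linarith only [o0, o1, o2, pos, top, sum, h0l, h0u, h1l, h1u, h2l, h2u, h3l, h3u]) (by linarith only [o0, o1, o2, pos, top, sum, h0l, h0u, h1l, h1u, h2l, h2u, h3l, h3u])
  have e4 : (9 / 4 : ℝ) - 7 * y3 + (7 / 2) * y3 ^ 2 + 6 * (y3 * y2) - (9 / 2) * (y0 ^ 2 + y1 ^ 2 + y2 ^ 2) ≤ ((1026/125) + (y0 + 3 * y1)) * y3 := by
    have ht : y0 + y1 + y2 = 1 - y3 := by linarith only [sum]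
    rw [ht] at q4
    linarith only [q4]
  have ra : (-181/50) * y0 + (-67/20) * y1 + (-12/5) * y2 + (-1389157/90000) * y3 + (772242993/200000000) ≤ 0 := by
    linarith only [e4, pK, s0, s1, s2, sq, pa]
  have rb : (-181/50) * y0 + (-67/20) * y1 + (-4497/2500) * y2 + (-1317157/90000) * y3 + (732162993/200000000) ≤ 0 := by
    linarith only [e4, pK, s0, s1, s2, sq, pb]
  have t0 : (19/100) ≤ y0 := by linarith only [o0, o1, o2, pos, top, sum, h0l, h0u, h1l, h1u, h2l, h2u, h3l, h3u, ra, rb]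
  have t1 : (19/100) ≤ y1 := by linarith only [o0, o1, o2, pos, top, sum, h0l, h0u, h1l, h1u, h2l, h2u, h3l, h3u, ra, rb]
  have t2 : (19/100) ≤ y2 := by linarith only [o0, o1, o2, pos, top, sum, h0l, h0u, h1l, h1u, h2l, h2u, h3l, h3u, ra, rb]
  have t3 : (9/200) ≤ y3 := by linarith only [o0, o1, o2, pos, top, sum, h0l, h0u, h1l, h1u, h2l, h2u, h3l, h3u, ra, rb]
  have z0 := c0.l13 (by linarith only [o0, o1, o2, pos, top, sum, h0l, h0u, h1l, h1u, h2l, h2u, h3l, h3u, ra, rb, t0, t1, t2, t3])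
  have z1 := c1.l9 (by linarith only [o0, o1, o2, pos, top, sum, h0l, h0u, h1l, h1u, h2l, h2u, h3l, h3u, ra, rb, t0, t1, t2, t3])
  have z2 := c2.l7 (by linarith only [o0, o1, o2, pos, top, sum, h0l, h0u, h1l, h1u, h2l, h2u, h3l, h3u, ra, rb, t0, t1, t2, t3])
  have z3 := c3.l198 (by linarith only [o0, o1, o2, pos, top, sum, h0l, h0u, h1l, h1u, h2l, h2u, h3l, h3u, ra, rb, t0, t1, t2, t3]) (by linarith only [o0, o1, o2, pos, top, sum, h0l, h0u, h1l, h1u, h2l, h2u, h3l, h3u, ra, rb, t0, t1, t2, t3])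
  linarith only [z0, z1, z2, z3, o0, o1, o2, pos, top, sum, h0l, h0u, h1l, h1u, h2l, h2u, h3l, h3u, ra, rb, t0, t1, t2, t3, msum]

theorem N4.false {y0 y1 y2 y3 m0 m1 m2 m3 : ℝ} (h : N4 y0 y1 y2 y3 m0 m1 m2 m3) : False := by
  have a0 := h.o0
  have a1 := h.o1
  have a2 := h.o2
  have a3 := h.pos
  have a4 := h.top
  have a5 := h.sum
  rcases le_total (501/5000) y3 with h3 | h3
  · exact h.leafTop h3
  rcases le_total y2 (1/5) with k1 | k1
  · exact h.leaf0 (by linarith) (by linarith) (by linarith) (by linarith) (by linarith) (by linarith) (by linarith) (by linarith)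
  · rcases le_total y1 (3/10) with k2 | k2
    · exact h.leaf1 (by linarith) (by linarith) (by linarith) (by linarith) (by linarith) (by linarith) (by linarith) (by linarith)
    · rcases le_total y0 (9/25) with k3 | k3
      · exact h.leaf2 (by linarith) (by linarith) (by linarith) (by linarith) (by linarith) (by linarith) (by linarith) (by linarith)
      · exact h.leaf3 (by linarith) (by linarith) (by linarith) (by linarith) (by linarith) (by linarith) (by linarith) (by linarith)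

end Crest.Agent.S0334
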