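import Crest.Agent.S0334_L4

set_option autoImplicit false
set_option maxHeartbeats 1000000
set_option linter.unusedVariables false

namespace Crest.Agent.S0334

/-! ### N5: the numerical contradiction (case 5); generated by a branch and bound search -/

structure N5 (y0 y1 y2 y3 y4 m0 m1 m2 m3 m4 : ℝ) : Prop where
  o0 : y1 ≤ y0
  o1 : y2 ≤ y1
  o2 : y3 ≤ y2
  o3 : y4 ≤ y3
  pos : 0 < y4
  top : y0 ≤ 4/9
  sum : y0 + y1 + y2 + y3 + y4 = 1
  msum : m0 + m1 + m2 + m3 + m4 = 1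
  q1 : y2 * (2 * (y0 + y1) - y2) ≤ ((10461/1000) + (y0 + 3 * y1)) * y4
  q2 : y0 + y1 ≤ 1/2 → y2 * (3 * (y0 + y1) - 1/2) ≤ ((10461/1000) + (y0 + 3 * y1)) * y4
  q3 : 1/2 ≤ y0 + y1 → 2 * y2 * (y0 + y1) ≤ ((10461/1000) + (y0 + 3 * y1)) * y4
  qb : y3 * (2 * (y1 + y2) - y3) ≤ ((6341/1000) + (9/16) * (y0 + 3 * y1)) * y4
  c0 : L4 y0 m0
  c1 : L4 y1 m1
  c2 : L4 y2 m2
  c3 : L4 y3 m3
  c4 : L4 y4 m4

theorem N5.leaf0 {y0 y1 y2 y3 y4 m0 m1 m2 m3 m4 : ℝ} (h : N5 y0 y1 y2 y3 y4 m0 m1 m2 m3 m4)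
    (hU1 : (2/5) ≤ y0 + y1) (hU2 : y0 + y1 ≤ (8/9)) (hb1 : 0 ≤ y2) (hb2 : y2 ≤ (1/20))
    (hd1 : 0 ≤ y3) (hd2 : y3 ≤ (1/4)) (he1 : 0 ≤ y4) (he2 : y4 ≤ (1/5)) : False := by
  obtain ⟨o0, o1, o2, o3, pos, top, sum, msum, q1, q2, q3, qb, c0, c1, c2, c3, c4⟩ := h
  obtain ⟨hY1, hY2⟩ := Y36_bounds
  have pK : 0 ≤ ((16/9) - (y0 + 3 * y1)) * y4 := mul_nonneg (by linarith only [o0, o1, o2, o3, hU1, hU2, hb1, hb2, hd1, hd2, he1, he2, hY1, hY2, top, pos]) pos.le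
  have pb1 : 0 ≤ (y2 - 0) * (y0 + y1 - (2/5)) := mul_nonneg (by linarith only [o0, o1, o2, o3, hU1, hU2, hb1, hb2, hd1, hd2, he1, he2, hY1, hY2, top, pos]) (by linarith only [o0, o1, o2, o3, hU1, hU2, hb1, hb2, hd1, hd2, he1, he2, hY1, hY2, top, pos])
  have pb2 : 0 ≤ ((1/20) - y2) * ((8/9) - (y0 + y1)) := mul_nonneg (by linarith only [o0, o1, o2, o3, hU1, hU2, hb1, hb2, hd1, hd2, he1, he2, hY1, hY2, top, pos]) (by linarith only [o0, o1, o2, o3, hU1, hU2, hb1, hb2, hd1, hd2, he1, he2, hY1, hY2, top, pos])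
  have pb3 : 0 ≤ (y2 - 0) * ((1/20) - y2) := mul_nonneg (by linarith only [o0, o1, o2, o3, hU1, hU2, hb1, hb2, hd1, hd2, he1, he2, hY1, hY2, top, pos]) (by linarith only [o0, o1, o2, o3, hU1, hU2, hb1, hb2, hd1, hd2, he1, he2, hY1, hY2, top, pos])
  have r1a : 0 * (y0 + y1) + (3/4) * y2 - (110149/9000) * y4 ≤ 0 := by
    linarith only [q1, pK, pb1, pb3]
  have r1b : (1/10) * (y0 + y1) + (311/180) * y2 - (110149/9000) * y4 ≤ (4/45) := by
    linarith only [q1, pK, pb2, pb3]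
  have pL : 0 ≤ (1 - (9/16) * (y0 + 3 * y1)) * y4 := mul_nonneg (by linarith only [o0, o1, o2, o3, hU1, hU2, hb1, hb2, hd1, hd2, he1, he2, hY1, hY2, top, pos]) (by linarith only [o0, o1, o2, o3, hU1, hU2, hb1, hb2, hd1, hd2, he1, he2, hY1, hY2, top, pos])
  have pd1 : 0 ≤ (y3 - 0) * (y1 + y2 - 0) := mul_nonneg (by linarith only [o0, o1, o2, o3, hU1, hU2, hb1, hb2, hd1, hd2, he1, he2, hY1, hY2, top, pos]) (by linarith only [o0, o1, o2, o3, hU1, hU2, hb1, hb2, hd1, hd2, he1, he2, hY1, hY2, top, pos])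
  have pd2 : 0 ≤ ((1/4) - y3) * ((89/180) - (y1 + y2)) := mul_nonneg (by linarith only [o0, o1, o2, o3, hU1, hU2, hb1, hb2, hd1, hd2, he1, he2, hY1, hY2, top, pos]) (by linarith only [o0, o1, o2, o3, hU1, hU2, hb1, hb2, hd1, hd2, he1, he2, hY1, hY2, top, pos])
  have pd3 : 0 ≤ (y3 - 0) * ((1/4) - y3) := mul_nonneg (by linarith only [o0, o1, o2, o3, hU1, hU2, hb1, hb2, hd1, hd2, he1, he2, hY1, hY2, top, pos]) (by linarith only [o0, o1, o2, o3, hU1, hU2, hb1, hb2, hd1, hd2, he1, he2, hY1, hY2, top, pos])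
  have rBa : 0 * (y1 + y2) + (-1/4) * y3 - (7341/1000) * y4 ≤ 0 := by
    linarith only [qb, pL, pd1, pd3]
  have rBb : (1/2) * (y1 + y2) + (133/180) * y3 - (7341/1000) * y4 ≤ (89/360) := by
    linarith only [qb, pL, pd2, pd3]
  have ht : (1/144) ≤ y4 := by linarith only [o0, o1, o2, o3, hU1, hU2, hb1, hb2, hd1, hd2, he1, he2, hY1, hY2, top, pos, sum, r1a, r1b, rBa, rBb]
  have z0 := c0.l2 (by linarith only [o0, o1, o2, o3, hU1, hU2, hb1, hb2, hd1, hd2, he1, he2, hY1, hY2, top, pos, ht])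
  have z1 := c1.l2 (by linarith only [o0, o1, o2, o3, hU1, hU2, hb1, hb2, hd1, hd2, he1, he2, hY1, hY2, top, pos, ht])
  have z2 := c2.l8 (by linarith only [o0, o1, o2, o3, hU1, hU2, hb1, hb2, hd1, hd2, he1, he2, hY1, hY2, top, pos, ht]) (by linarith only [o0, o1, o2, o3, hU1, hU2, hb1, hb2, hd1, hd2, he1, he2, hY1, hY2, top, pos, ht])
  have z3 := c3.l1 (by linarith only [o0, o1, o2, o3, hU1, hU2, hb1, hb2, hd1, hd2, he1, he2, hY1, hY2, top, pos, ht])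
  have z4 := c4.l1 (by linarith only [o0, o1, o2, o3, hU1, hU2, hb1, hb2, hd1, hd2, he1, he2, hY1, hY2, top, pos, ht])
  linarith only [z0, z1, z2, z3, z4, o0, o1, o2, o3, hU1, hU2, hb1, hb2, hd1, hd2, he1, he2, hY1, hY2, top, pos, ht, sum, msum, r1a, r1b, rBa, rBb]

theorem N5.leaf1 {y0 y1 y2 y3 y4 m0 m1 m2 m3 m4 : ℝ} (h : N5 y0 y1 y2 y3 y4 m0 m1 m2 m3 m4)
    (hU1 : (2/5) ≤ y0 + y1) (hU2 : y0 + y1 ≤ (8/9)) (hb1 : (1/20) ≤ y2) (hb2 : y2 ≤ (7/50))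
    (hd1 : 0 ≤ y3) (hd2 : y3 ≤ (1/18)) (he1 : 0 ≤ y4) (he2 : y4 ≤ (1/18)) : False := by
  obtain ⟨o0, o1, o2, o3, pos, top, sum, msum, q1, q2, q3, qb, c0, c1, c2, c3, c4⟩ := h
  obtain ⟨hY1, hY2⟩ := Y36_bounds
  have pK : 0 ≤ ((16/9) - (y0 + 3 * y1)) * y4 := mul_nonneg (by linarith only [o0, o1, o2, o3, hU1, hU2, hb1, hb2, hd1, hd2, he1, he2, hY1, hY2, top, pos]) pos.le
  have pb1 : 0 ≤ (y2 - (1/20)) * (y0 + y1 - (2/5)) := mul_nonneg (by linarith only [o0, o1, o2, o3, hU1, hU2, hb1, hb2, hd1, hd2, he1, he2, hY1, hY2, top, pos]) (by linarith only [o0, o1, o2, o3, hU1, hU2, hb1, hb2, hd1, hd2, he1, he2, hY1, hY2, top, pos])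
  have pb2 : 0 ≤ ((7/50) - y2) * ((8/9) - (y0 + y1)) := mul_nonneg (by linarith only [o0, o1, o2, o3, hU1, hU2, hb1, hb2, hd1, hd2, he1, he2, hY1, hY2, top, pos]) (by linarith only [o0, o1, o2, o3, hU1, hU2, hb1, hb2, hd1, hd2, he1, he2, hY1, hY2, top, pos])
  have pb3 : 0 ≤ (y2 - (1/20)) * ((7/50) - y2) := mul_nonneg (by linarith only [o0, o1, o2, o3, hU1, hU2, hb1, hb2, hd1, hd2, he1, he2, hY1, hY2, top, pos]) (by linarith only [o0, o1, o2, o3, hU1, hU2, hb1, hb2, hd1, hd2, he1, he2, hY1, hY2, top, pos])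
  have r1a : (1/10) * (y0 + y1) + (61/100) * y2 - (110149/9000) * y4 ≤ (33/1000) := by
    linarith only [q1, pK, pb1, pb3]
  have r1b : (7/25) * (y0 + y1) + (1429/900) * y2 - (110149/9000) * y4 ≤ (2177/9000) := by
    linarith only [q1, pK, pb2, pb3]
  have pL : 0 ≤ (1 - (9/16) * (y0 + 3 * y1)) * y4 := mul_nonneg (by linarith only [o0, o1, o2, o3, hU1, hU2, hb1, hb2, hd1, hd2, he1, he2, hY1, hY2, top, pos]) (by linarith only [o0, o1, o2, o3, hU1, hU2, hb1, hb2, hd1, hd2, he1, he2, hY1, hY2, top, pos])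
  have pd1 : 0 ≤ (y3 - 0) * (y1 + y2 - (1/10)) := mul_nonneg (by linarith only [o0, o1, o2, o3, hU1, hU2, hb1, hb2, hd1, hd2, he1, he2, hY1, hY2, top, pos]) (by linarith only [o0, o1, o2, o3, hU1, hU2, hb1, hb2, hd1, hd2, he1, he2, hY1, hY2, top, pos])
  have pd2 : 0 ≤ ((1/18) - y3) * ((263/450) - (y1 + y2)) := mul_nonneg (by linarith only [o0, o1, o2, o3, hU1, hU2, hb1, hb2, hd1, hd2, he1, he2, hY1, hY2, top, pos]) (by linarith only [o0, o1, o2, o3, hU1, hU2, hb1, hb2, hd1, hd2, he1, he2, hY1, hY2, top, pos])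
  have pd3 : 0 ≤ (y3 - 0) * ((1/18) - y3) := mul_nonneg (by linarith only [o0, o1, o2, o3, hU1, hU2, hb1, hb2, hd1, hd2, he1, he2, hY1, hY2, top, pos]) (by linarith only [o0, o1, o2, o3, hU1, hU2, hb1, hb2, hd1, hd2, he1, he2, hY1, hY2, top, pos])
  have rBa : 0 * (y1 + y2) + (13/90) * y3 - (7341/1000) * y4 ≤ 0 := by
    linarith only [qb, pL, pd1, pd3]
  have rBb : (1/9) * (y1 + y2) + (167/150) * y3 - (7341/1000) * y4 ≤ (263/4050) := by
    linarith only [qb, pL, pd2, pd3]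
  have ht : (1/144) ≤ y4 := by linarith only [o0, o1, o2, o3, hU1, hU2, hb1, hb2, hd1, hd2, he1, he2, hY1, hY2, top, pos, sum, r1a, r1b, rBa, rBb]
  have z0 := c0.l2 (by linarith only [o0, o1, o2, o3, hU1, hU2, hb1, hb2, hd1, hd2, he1, he2, hY1, hY2, top, pos, ht])
  have z1 := c1.l2 (by linarith only [o0, o1, o2, o3, hU1, hU2, hb1, hb2, hd1, hd2, he1, he2, hY1, hY2, top, pos, ht])
  have z2 := c2.l11 (by linarith only [o0, o1, o2, o3, hU1, hU2, hb1, hb2, hd1, hd2, he1, he2, hY1, hY2, top, pos, ht]) (by linarith only [o0, o1, o2, o3, hU1, hU2, hb1, hb2, hd1, hd2, he1, he2, hY1, hY2, top, pos, ht])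
  have z3 := c3.l8 (by linarith only [o0, o1, o2, o3, hU1, hU2, hb1, hb2, hd1, hd2, he1, he2, hY1, hY2, top, pos, ht]) (by linarith only [o0, o1, o2, o3, hU1, hU2, hb1, hb2, hd1, hd2, he1, he2, hY1, hY2, top, pos, ht])
  have z4 := c4.l8 (by linarith only [o0, o1, o2, o3, hU1, hU2, hb1, hb2, hd1, hd2, he1, he2, hY1, hY2, top, pos, ht]) (by linarith only [o0, o1, o2, o3, hU1, hU2, hb1, hb2, hd1, hd2, he1, he2, hY1, hY2, top, pos, ht])
  linarith only [z0, z1, z2, z3, z4, o0, o1, o2, o3, hU1, hU2, hb1, hb2, hd1, hd2, he1, he2, hY1, hY2, top, pos, ht, sum, msum, r1a, r1b, rBa, rBb]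

theorem N5.leaf2 {y0 y1 y2 y3 y4 m0 m1 m2 m3 m4 : ℝ} (h : N5 y0 y1 y2 y3 y4 m0 m1 m2 m3 m4)
    (hU1 : (2/5) ≤ y0 + y1) (hU2 : y0 + y1 ≤ (8/9)) (hb1 : (7/50) ≤ y2) (hb2 : y2 ≤ (1/5))
    (hd1 : 0 ≤ y3) (hd2 : y3 ≤ (1/18)) (he1 : 0 ≤ y4) (he2 : y4 ≤ (1/18)) : False := by
  obtain ⟨o0, o1, o2, o3, pos, top, sum, msum, q1, q2, q3, qb, c0, c1, c2, c3, c4⟩ := h
  obtain ⟨hY1, hY2⟩ := Y36_bounds
  have pK : 0 ≤ ((16/9) - (y0 + 3 * y1)) * y4 := mul_nonneg (by linarith only [o0, o1, o2, o3, hU1, hU2, hb1, hb2, hd1, hd2, he1, he2, hY1, hY2, top, pos]) pos.le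
  have pb1 : 0 ≤ (y2 - (7/50)) * (y0 + y1 - (2/5)) := mul_nonneg (by linarith only [o0, o1, o2, o3, hU1, hU2, hb1, hb2, hd1, hd2, he1, he2, hY1, hY2, top, pos]) (by linarith only [o0, o1, o2, o3, hU1, hU2, hb1, hb2, hd1, hd2, he1, he2, hY1, hY2, top, pos])
  have pb2 : 0 ≤ ((1/5) - y2) * ((8/9) - (y0 + y1)) := mul_nonneg (by linarith only [o0, o1, o2, o3, hU1, hU2, hb1, hb2, hd1, hd2, he1, he2, hY1, hY2, top, pos]) (by linarith only [o0, o1, o2, o3, hU1, hU2, hb1, hb2, hd1, hd2, he1, he2, hY1, hY2, top, pos])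
  have pb3 : 0 ≤ (y2 - (7/50)) * ((1/5) - y2) := mul_nonneg (by linarith only [o0, o1, o2, o3, hU1, hU2, hb1, hb2, hd1, hd2, he1, he2, hY1, hY2, top, pos]) (by linarith only [o0, o1, o2, o3, hU1, hU2, hb1, hb2, hd1, hd2, he1, he2, hY1, hY2, top, pos])
  have r1a : (7/25) * (y0 + y1) + (23/50) * y2 - (110149/9000) * y4 ≤ (21/250) := by
    linarith only [q1, pK, pb1, pb3]
  have r1b : (2/5) * (y0 + y1) + (647/450) * y2 - (110149/9000) * y4 ≤ (737/2250) := by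
    linarith only [q1, pK, pb2, pb3]
  have pL : 0 ≤ (1 - (9/16) * (y0 + 3 * y1)) * y4 := mul_nonneg (by linarith only [o0, o1, o2, o3, hU1, hU2, hb1, hb2, hd1, hd2, he1, he2, hY1, hY2, top, pos]) (by linarith only [o0, o1, o2, o3, hU1, hU2, hb1, hb2, hd1, hd2, he1, he2, hY1, hY2, top, pos])
  have pd1 : 0 ≤ (y3 - 0) * (y1 + y2 - (7/25)) := mul_nonneg (by linarith only [o0, o1, o2, o3, hU1, hU2, hb1, hb2, hd1, hd2, he1, he2, hY1, hY2, top, pos]) (by linarith only [o0, o1, o2, o3, hU1, hU2, hb1, hb2, hd1, hd2, he1, he2, hY1, hY2, top, pos])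
  have pd2 : 0 ≤ ((1/18) - y3) * ((29/45) - (y1 + y2)) := mul_nonneg (by linarith only [o0, o1, o2, o3, hU1, hU2, hb1, hb2, hd1, hd2, he1, he2, hY1, hY2, top, pos]) (by linarith only [o0, o1, o2, o3, hU1, hU2, hb1, hb2, hd1, hd2, he1, he2, hY1, hY2, top, pos])
  have pd3 : 0 ≤ (y3 - 0) * ((1/18) - y3) := mul_nonneg (by linarith only [o0, o1, o2, o3, hU1, hU2, hb1, hb2, hd1, hd2, he1, he2, hY1, hY2, top, pos]) (by linarith only [o0, o1, o2, o3, hU1, hU2, hb1, hb2, hd1, hd2, he1, he2, hY1, hY2, top, pos])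
  have rBa : 0 * (y1 + y2) + (227/450) * y3 - (7341/1000) * y4 ≤ 0 := by
    linarith only [qb, pL, pd1, pd3]
  have rBb : (1/9) * (y1 + y2) + (37/30) * y3 - (7341/1000) * y4 ≤ (29/405) := by
    linarith only [qb, pL, pd2, pd3]
  have ht : (1/144) ≤ y4 := by linarith only [o0, o1, o2, o3, hU1, hU2, hb1, hb2, hd1, hd2, he1, he2, hY1, hY2, top, pos, sum, r1a, r1b, rBa, rBb]
  have z0 := c0.l2 (by linarith only [o0, o1, o2, o3, hU1, hU2, hb1, hb2, hd1, hd2, he1, he2, hY1, hY2, top, pos, ht])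
  have z1 := c1.l2 (by linarith only [o0, o1, o2, o3, hU1, hU2, hb1, hb2, hd1, hd2, he1, he2, hY1, hY2, top, pos, ht])
  have z2 := c2.l0 (by linarith only [o0, o1, o2, o3, hU1, hU2, hb1, hb2, hd1, hd2, he1, he2, hY1, hY2, top, pos, ht])
  have z3 := c3.l8 (by linarith only [o0, o1, o2, o3, hU1, hU2, hb1, hb2, hd1, hd2, he1, he2, hY1, hY2, top, pos, ht]) (by linarith only [o0, o1, o2, o3, hU1, hU2, hb1, hb2, hd1, hd2, he1, he2, hY1, hY2, top, pos, ht])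
  have z4 := c4.l8 (by linarith only [o0, o1, o2, o3, hU1, hU2, hb1, hb2, hd1, hd2, he1, he2, hY1, hY2, top, pos, ht]) (by linarith only [o0, o1, o2, o3, hU1, hU2, hb1, hb2, hd1, hd2, he1, he2, hY1, hY2, top, pos, ht])
  linarith only [z0, z1, z2, z3, z4, o0, o1, o2, o3, hU1, hU2, hb1, hb2, hd1, hd2, he1, he2, hY1, hY2, top, pos, ht, sum, msum, r1a, r1b, rBa, rBb]

theorem N5.leaf3 {y0 y1 y2 y3 y4 m0 m1 m2 m3 m4 : ℝ} (h : N5 y0 y1 y2 y3 y4 m0 m1 m2 m3 m4)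
    (hU1 : (2/5) ≤ y0 + y1) (hU2 : y0 + y1 ≤ (3/5)) (hb1 : (1/5) ≤ y2) (hb2 : y2 ≤ (1/3))
    (hd1 : 0 ≤ y3) (hd2 : y3 ≤ (1/18)) (he1 : 0 ≤ y4) (he2 : y4 ≤ (1/18)) : False := by
  obtain ⟨o0, o1, o2, o3, pos, top, sum, msum, q1, q2, q3, qb, c0, c1, c2, c3, c4⟩ := h
  obtain ⟨hY1, hY2⟩ := Y36_bounds
  have pK : 0 ≤ ((6/5) - (y0 + 3 * y1)) * y4 := mul_nonneg (by linarith only [o0, o1, o2, o3, hU1, hU2, hb1, hb2, hd1, hd2, he1, he2, hY1, hY2, top, pos]) pos.le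
  have pb1 : 0 ≤ (y2 - (1/5)) * (y0 + y1 - (2/5)) := mul_nonneg (by linarith only [o0, o1, o2, o3, hU1, hU2, hb1, hb2, hd1, hd2, he1, he2, hY1, hY2, top, pos]) (by linarith only [o0, o1, o2, o3, hU1, hU2, hb1, hb2, hd1, hd2, he1, he2, hY1, hY2, top, pos])
  have pb2 : 0 ≤ ((1/3) - y2) * ((3/5) - (y0 + y1)) := mul_nonneg (by linarith only [o0, o1, o2, o3, hU1, hU2, hb1, hb2, hd1, hd2, he1, he2, hY1, hY2, top, pos]) (by linarith only [o0, o1, o2, o3, hU1, hU2, hb1, hb2, hd1, hd2, he1, he2, hY1, hY2, top, pos])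
  have pb3 : 0 ≤ (y2 - (1/5)) * ((1/3) - y2) := mul_nonneg (by linarith only [o0, o1, o2, o3, hU1, hU2, hb1, hb2, hd1, hd2, he1, he2, hY1, hY2, top, pos]) (by linarith only [o0, o1, o2, o3, hU1, hU2, hb1, hb2, hd1, hd2, he1, he2, hY1, hY2, top, pos])
  have r1a : (2/5) * (y0 + y1) + (4/15) * y2 - (11661/1000) * y4 ≤ (7/75) := by
    linarith only [q1, pK, pb1, pb3]
  have r1b : (2/3) * (y0 + y1) + (2/3) * y2 - (11661/1000) * y4 ≤ (1/3) := by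
    linarith only [q1, pK, pb2, pb3]
  have pL : 0 ≤ ((27/40) - (9/16) * (y0 + 3 * y1)) * y4 := mul_nonneg (by linarith only [o0, o1, o2, o3, hU1, hU2, hb1, hb2, hd1, hd2, he1, he2, hY1, hY2, top, pos]) (by linarith only [o0, o1, o2, o3, hU1, hU2, hb1, hb2, hd1, hd2, he1, he2, hY1, hY2, top, pos])
  have pd1 : 0 ≤ (y3 - 0) * (y1 + y2 - (2/5)) := mul_nonneg (by linarith only [o0, o1, o2, o3, hU1, hU2, hb1, hb2, hd1, hd2, he1, he2, hY1, hY2, top, pos]) (by linarith only [o0, o1, o2, o3, hU1, hU2, hb1, hb2, hd1, hd2, he1, he2, hY1, hY2, top, pos])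
  have pd2 : 0 ≤ ((1/18) - y3) * ((19/30) - (y1 + y2)) := mul_nonneg (by linarith only [o0, o1, o2, o3, hU1, hU2, hb1, hb2, hd1, hd2, he1, he2, hY1, hY2, top, pos]) (by linarith only [o0, o1, o2, o3, hU1, hU2, hb1, hb2, hd1, hd2, he1, he2, hY1, hY2, top, pos])
  have pd3 : 0 ≤ (y3 - 0) * ((1/18) - y3) := mul_nonneg (by linarith only [o0, o1, o2, o3, hU1, hU2, hb1, hb2, hd1, hd2, he1, he2, hY1, hY2, top, pos]) (by linarith only [o0, o1, o2, o3, hU1, hU2, hb1, hb2, hd1, hd2, he1, he2, hY1, hY2, top, pos])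
  have rBa : 0 * (y1 + y2) + (67/90) * y3 - (877/125) * y4 ≤ 0 := by
    linarith only [qb, pL, pd1, pd3]
  have rBb : (1/9) * (y1 + y2) + (109/90) * y3 - (877/125) * y4 ≤ (19/270) := by
    linarith only [qb, pL, pd2, pd3]
  have ht : Y36 ≤ y4 := by linarith only [o0, o1, o2, o3, hU1, hU2, hb1, hb2, hd1, hd2, he1, he2, hY1, hY2, top, pos, sum, r1a, r1b, rBa, rBb]
  have z0 := c0.l0 (by linarith only [o0, o1, o2, o3, hU1, hU2, hb1, hb2, hd1, hd2, he1, he2, hY1, hY2, top, pos, ht])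
  have z1 := c1.l0 (by linarith only [o0, o1, o2, o3, hU1, hU2, hb1, hb2, hd1, hd2, he1, he2, hY1, hY2, top, pos, ht])
  have z2 := c2.l0 (by linarith only [o0, o1, o2, o3, hU1, hU2, hb1, hb2, hd1, hd2, he1, he2, hY1, hY2, top, pos, ht])
  have z3 := c3.l10 (by linarith only [o0, o1, o2, o3, hU1, hU2, hb1, hb2, hd1, hd2, he1, he2, hY1, hY2, top, pos, ht]) (by linarith only [o0, o1, o2, o3, hU1, hU2, hb1, hb2, hd1, hd2, he1, he2, hY1, hY2, top, pos, ht])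
  have z4 := c4.l10 (by linarith only [o0, o1, o2, o3, hU1, hU2, hb1, hb2, hd1, hd2, he1, he2, hY1, hY2, top, pos, ht]) (by linarith only [o0, o1, o2, o3, hU1, hU2, hb1, hb2, hd1, hd2, he1, he2, hY1, hY2, top, pos, ht])
  linarith only [z0, z1, z2, z3, z4, o0, o1, o2, o3, hU1, hU2, hb1, hb2, hd1, hd2, he1, he2, hY1, hY2, top, pos, ht, sum, msum, r1a, r1b, rBa, rBb]

theorem N5.leaf4 {y0 y1 y2 y3 y4 m0 m1 m2 m3 m4 : ℝ} (h : N5 y0 y1 y2 y3 y4 m0 m1 m2 m3 m4)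
    (hU1 : (3/5) ≤ y0 + y1) (hU2 : y0 + y1 ≤ (8/9)) (hb1 : (1/5) ≤ y2) (hb2 : y2 ≤ (1/3))
    (hd1 : 0 ≤ y3) (hd2 : y3 ≤ (1/18)) (he1 : 0 ≤ y4) (he2 : y4 ≤ (1/18)) : False := by
  obtain ⟨o0, o1, o2, o3, pos, top, sum, msum, q1, q2, q3, qb, c0, c1, c2, c3, c4⟩ := h
  obtain ⟨hY1, hY2⟩ := Y36_bounds
  have pK : 0 ≤ ((16/9) - (y0 + 3 * y1)) * y4 := mul_nonneg (by linarith only [o0, o1, o2, o3, hU1, hU2, hb1, hb2, hd1, hd2, he1, he2, hY1, hY2, top, pos]) pos.le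
  have pb1 : 0 ≤ (y2 - (1/5)) * (y0 + y1 - (3/5)) := mul_nonneg (by linarith only [o0, o1, o2, o3, hU1, hU2, hb1, hb2, hd1, hd2, he1, he2, hY1, hY2, top, pos]) (by linarith only [o0, o1, o2, o3, hU1, hU2, hb1, hb2, hd1, hd2, he1, he2, hY1, hY2, top, pos])
  have pb2 : 0 ≤ ((1/3) - y2) * ((8/9) - (y0 + y1)) := mul_nonneg (by linarith only [o0, o1, o2, o3, hU1, hU2, hb1, hb2, hd1, hd2, he1, he2, hY1, hY2, top, pos]) (by linarith only [o0, o1, o2, o3, hU1, hU2, hb1, hb2, hd1, hd2, he1, he2, hY1, hY2, top, pos])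
  have pb3 : 0 ≤ (y2 - (1/5)) * ((1/3) - y2) := mul_nonneg (by linarith only [o0, o1, o2, o3, hU1, hU2, hb1, hb2, hd1, hd2, he1, he2, hY1, hY2, top, pos]) (by linarith only [o0, o1, o2, o3, hU1, hU2, hb1, hb2, hd1, hd2, he1, he2, hY1, hY2, top, pos])
  have r1a : (2/5) * (y0 + y1) + (2/3) * y2 - (110149/9000) * y4 ≤ (13/75) := by
    linarith only [q1, pK, pb1, pb3]
  have r1b : (2/3) * (y0 + y1) + (56/45) * y2 - (110149/9000) * y4 ≤ (71/135) := by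
    linarith only [q1, pK, pb2, pb3]
  have q3' := q3 (by linarith only [hU1])
  have r3a : (2/5) * (y0 + y1) + (6/5) * y2 - (110149/9000) * y4 ≤ (6/25) := by
    linarith only [q3', pK, pb1]
  have r3b : (2/3) * (y0 + y1) + (16/9) * y2 - (110149/9000) * y4 ≤ (16/27) := by
    linarith only [q3', pK, pb2]
  have pL : 0 ≤ (1 - (9/16) * (y0 + 3 * y1)) * y4 := mul_nonneg (by linarith only [o0, o1, o2, o3, hU1, hU2, hb1, hb2, hd1, hd2, he1, he2, hY1, hY2, top, pos]) (by linarith only [o0, o1, o2, o3, hU1, hU2, hb1, hb2, hd1, hd2, he1, he2, hY1, hY2, top, pos])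
  have pd1 : 0 ≤ (y3 - 0) * (y1 + y2 - (2/5)) := mul_nonneg (by linarith only [o0, o1, o2, o3, hU1, hU2, hb1, hb2, hd1, hd2, he1, he2, hY1, hY2, top, pos]) (by linarith only [o0, o1, o2, o3, hU1, hU2, hb1, hb2, hd1, hd2, he1, he2, hY1, hY2, top, pos])
  have pd2 : 0 ≤ ((1/18) - y3) * ((7/9) - (y1 + y2)) := mul_nonneg (by linarith only [o0, o1, o2, o3, hU1, hU2, hb1, hb2, hd1, hd2, he1, he2, hY1, hY2, top, pos]) (by linarith only [o0, o1, o2, o3, hU1, hU2, hb1, hb2, hd1, hd2, he1, he2, hY1, hY2, top, pos])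
  have pd3 : 0 ≤ (y3 - 0) * ((1/18) - y3) := mul_nonneg (by linarith only [o0, o1, o2, o3, hU1, hU2, hb1, hb2, hd1, hd2, he1, he2, hY1, hY2, top, pos]) (by linarith only [o0, o1, o2, o3, hU1, hU2, hb1, hb2, hd1, hd2, he1, he2, hY1, hY2, top, pos])
  have rBa : 0 * (y1 + y2) + (67/90) * y3 - (7341/1000) * y4 ≤ 0 := by
    linarith only [qb, pL, pd1, pd3]
  have rBb : (1/9) * (y1 + y2) + (3/2) * y3 - (7341/1000) * y4 ≤ (7/81) := by
    linarith only [qb, pL, pd2, pd3]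
  have ht : Y36 ≤ y4 := by linarith only [o0, o1, o2, o3, hU1, hU2, hb1, hb2, hd1, hd2, he1, he2, hY1, hY2, top, pos, sum, r1a, r1b, r3a, r3b, rBa, rBb]
  have z0 := c0.l1 (by linarith only [o0, o1, o2, o3, hU1, hU2, hb1, hb2, hd1, hd2, he1, he2, hY1, hY2, top, pos, ht])
  have z1 := c1.l1 (by linarith only [o0, o1, o2, o3, hU1, hU2, hb1, hb2, hd1, hd2, he1, he2, hY1, hY2, top, pos, ht])
  have z2 := c2.l0 (by linarith only [o0, o1, o2, o3, hU1, hU2, hb1, hb2, hd1, hd2, he1, he2, hY1, hY2, top, pos, ht])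
  have z3 := c2.l1 (by linarith only [o0, o1, o2, o3, hU1, hU2, hb1, hb2, hd1, hd2, he1, he2, hY1, hY2, top, pos, ht])
  have z4 := c3.l10 (by linarith only [o0, o1, o2, o3, hU1, hU2, hb1, hb2, hd1, hd2, he1, he2, hY1, hY2, top, pos, ht]) (by linarith only [o0, o1, o2, o3, hU1, hU2, hb1, hb2, hd1, hd2, he1, he2, hY1, hY2, top, pos, ht])
  have z5 := c4.l10 (by linarith only [o0, o1, o2, o3, hU1, hU2, hb1, hb2, hd1, hd2, he1, he2, hY1, hY2, top, pos, ht]) (by linarith only [o0, o1, o2, o3, hU1, hU2, hb1, hb2, hd1, hd2, he1, he2, hY1, hY2, top, pos, ht])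
  linarith only [z0, z1, z2, z3, z4, z5, o0, o1, o2, o3, hU1, hU2, hb1, hb2, hd1, hd2, he1, he2, hY1, hY2, top, pos, ht, sum, msum, r1a, r1b, r3a, r3b, rBa, rBb]

theorem N5.leaf5 {y0 y1 y2 y3 y4 m0 m1 m2 m3 m4 : ℝ} (h : N5 y0 y1 y2 y3 y4 m0 m1 m2 m3 m4)
    (hU1 : (2/5) ≤ y0 + y1) (hU2 : y0 + y1 ≤ (8/9)) (hb1 : (1/20) ≤ y2) (hb2 : y2 ≤ (1/3))
    (hd1 : 0 ≤ y3) (hd2 : y3 ≤ (1/18)) (he1 : (1/18) ≤ y4) (he2 : y4 ≤ (3/16)) : False := by
  obtain ⟨o0, o1, o2, o3, pos, top, sum, msum, q1, q2, q3, qb, c0, c1, c2, c3, c4⟩ := h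
  obtain ⟨hY1, hY2⟩ := Y36_bounds
  have pK : 0 ≤ ((16/9) - (y0 + 3 * y1)) * y4 := mul_nonneg (by linarith only [o0, o1, o2, o3, hU1, hU2, hb1, hb2, hd1, hd2, he1, he2, hY1, hY2, top, pos]) pos.le
  have pb1 : 0 ≤ (y2 - (1/20)) * (y0 + y1 - (2/5)) := mul_nonneg (by linarith only [o0, o1, o2, o3, hU1, hU2, hb1, hb2, hd1, hd2, he1, he2, hY1, hY2, top, pos]) (by linarith only [o0, o1, o2, o3, hU1, hU2, hb1, hb2, hd1, hd2, he1, he2, hY1, hY2, top, pos])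
  have pb2 : 0 ≤ ((1/3) - y2) * ((8/9) - (y0 + y1)) := mul_nonneg (by linarith only [o0, o1, o2, o3, hU1, hU2, hb1, hb2, hd1, hd2, he1, he2, hY1, hY2, top, pos]) (by linarith only [o0, o1, o2, o3, hU1, hU2, hb1, hb2, hd1, hd2, he1, he2, hY1, hY2, top, pos])
  have pb3 : 0 ≤ (y2 - (1/20)) * ((1/3) - y2) := mul_nonneg (by linarith only [o0, o1, o2, o3, hU1, hU2, hb1, hb2, hd1, hd2, he1, he2, hY1, hY2, top, pos]) (by linarith only [o0, o1, o2, o3, hU1, hU2, hb1, hb2, hd1, hd2, he1, he2, hY1, hY2, top, pos])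
  have r1a : (1/10) * (y0 + y1) + (5/12) * y2 - (110149/9000) * y4 ≤ (7/300) := by
    linarith only [q1, pK, pb1, pb3]
  have r1b : (2/3) * (y0 + y1) + (251/180) * y2 - (110149/9000) * y4 ≤ (311/540) := by
    linarith only [q1, pK, pb2, pb3]
  have pL : 0 ≤ (1 - (9/16) * (y0 + 3 * y1)) * y4 := mul_nonneg (by linarith only [o0, o1, o2, o3, hU1, hU2, hb1, hb2, hd1, hd2, he1, he2, hY1, hY2, top, pos]) (by linarith only [o0, o1, o2, o3, hU1, hU2, hb1, hb2, hd1, hd2, he1, he2, hY1, hY2, top, pos])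
  have pd1 : 0 ≤ (y3 - 0) * (y1 + y2 - (1/10)) := mul_nonneg (by linarith only [o0, o1, o2, o3, hU1, hU2, hb1, hb2, hd1, hd2, he1, he2, hY1, hY2, top, pos]) (by linarith only [o0, o1, o2, o3, hU1, hU2, hb1, hb2, hd1, hd2, he1, he2, hY1, hY2, top, pos])
  have pd2 : 0 ≤ ((1/18) - y3) * ((7/9) - (y1 + y2)) := mul_nonneg (by linarith only [o0, o1, o2, o3, hU1, hU2, hb1, hb2, hd1, hd2, he1, he2, hY1, hY2, top, pos]) (by linarith only [o0, o1, o2, o3, hU1, hU2, hb1, hb2, hd1, hd2, he1, he2, hY1, hY2, top, pos])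
  have pd3 : 0 ≤ (y3 - 0) * ((1/18) - y3) := mul_nonneg (by linarith only [o0, o1, o2, o3, hU1, hU2, hb1, hb2, hd1, hd2, he1, he2, hY1, hY2, top, pos]) (by linarith only [o0, o1, o2, o3, hU1, hU2, hb1, hb2, hd1, hd2, he1, he2, hY1, hY2, top, pos])
  have rBa : 0 * (y1 + y2) + (13/90) * y3 - (7341/1000) * y4 ≤ 0 := by
    linarith only [qb, pL, pd1, pd3]
  have rBb : (1/9) * (y1 + y2) + (3/2) * y3 - (7341/1000) * y4 ≤ (7/81) := by
    linarith only [qb, pL, pd2, pd3]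
  have ht : Y36 ≤ y4 := by linarith only [o0, o1, o2, o3, hU1, hU2, hb1, hb2, hd1, hd2, he1, he2, hY1, hY2, top, pos, sum, r1a, r1b, rBa, rBb]
  have z0 := c0.l1 (by linarith only [o0, o1, o2, o3, hU1, hU2, hb1, hb2, hd1, hd2, he1, he2, hY1, hY2, top, pos, ht])
  have z1 := c1.l1 (by linarith only [o0, o1, o2, o3, hU1, hU2, hb1, hb2, hd1, hd2, he1, he2, hY1, hY2, top, pos, ht])
  have z2 := c2.l1 (by linarith only [o0, o1, o2, o3, hU1, hU2, hb1, hb2, hd1, hd2, he1, he2, hY1, hY2, top, pos, ht])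
  have z3 := c3.l5 (by linarith only [o0, o1, o2, o3, hU1, hU2, hb1, hb2, hd1, hd2, he1, he2, hY1, hY2, top, pos, ht])
  have z4 := c4.l12 (by linarith only [o0, o1, o2, o3, hU1, hU2, hb1, hb2, hd1, hd2, he1, he2, hY1, hY2, top, pos, ht]) (by linarith only [o0, o1, o2, o3, hU1, hU2, hb1, hb2, hd1, hd2, he1, he2, hY1, hY2, top, pos, ht])
  linarith only [z0, z1, z2, z3, z4, o0, o1, o2, o3, hU1, hU2, hb1, hb2, hd1, hd2, he1, he2, hY1, hY2, top, pos, ht, sum, msum, r1a, r1b, rBa, rBb]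

theorem N5.leaf6 {y0 y1 y2 y3 y4 m0 m1 m2 m3 m4 : ℝ} (h : N5 y0 y1 y2 y3 y4 m0 m1 m2 m3 m4)
    (hU1 : (2/5) ≤ y0 + y1) (hU2 : y0 + y1 ≤ (8/9)) (hb1 : (1/20) ≤ y2) (hb2 : y2 ≤ (1/10))
    (hd1 : (1/18) ≤ y3) (hd2 : y3 ≤ (1/4)) (he1 : 0 ≤ y4) (he2 : y4 ≤ (3/16)) : False := by
  obtain ⟨o0, o1, o2, o3, pos, top, sum, msum, q1, q2, q3, qb, c0, c1, c2, c3, c4⟩ := h
  obtain ⟨hY1, hY2⟩ := Y36_bounds
  have pK : 0 ≤ ((16/9) - (y0 + 3 * y1)) * y4 := mul_nonneg (by linarith only [o0, o1, o2, o3, hU1, hU2, hb1, hb2, hd1, hd2, he1, he2, hY1, hY2, top, pos]) pos.le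
  have pb1 : 0 ≤ (y2 - (1/20)) * (y0 + y1 - (2/5)) := mul_nonneg (by linarith only [o0, o1, o2, o3, hU1, hU2, hb1, hb2, hd1, hd2, he1, he2, hY1, hY2, top, pos]) (by linarith only [o0, o1, o2, o3, hU1, hU2, hb1, hb2, hd1, hd2, he1, he2, hY1, hY2, top, pos])
  have pb2 : 0 ≤ ((1/10) - y2) * ((8/9) - (y0 + y1)) := mul_nonneg (by linarith only [o0, o1, o2, o3, hU1, hU2, hb1, hb2, hd1, hd2, he1, he2, hY1, hY2, top, pos]) (by linarith only [o0, o1, o2, o3, hU1, hU2, hb1, hb2, hd1, hd2, he1, he2, hY1, hY2, top, pos])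
  have pb3 : 0 ≤ (y2 - (1/20)) * ((1/10) - y2) := mul_nonneg (by linarith only [o0, o1, o2, o3, hU1, hU2, hb1, hb2, hd1, hd2, he1, he2, hY1, hY2, top, pos]) (by linarith only [o0, o1, o2, o3, hU1, hU2, hb1, hb2, hd1, hd2, he1, he2, hY1, hY2, top, pos])
  have r1a : (1/10) * (y0 + y1) + (13/20) * y2 - (110149/9000) * y4 ≤ (7/200) := by
    linarith only [q1, pK, pb1, pb3]
  have r1b : (1/5) * (y0 + y1) + (293/180) * y2 - (110149/9000) * y4 ≤ (311/1800) := by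
    linarith only [q1, pK, pb2, pb3]
  have pL : 0 ≤ (1 - (9/16) * (y0 + 3 * y1)) * y4 := mul_nonneg (by linarith only [o0, o1, o2, o3, hU1, hU2, hb1, hb2, hd1, hd2, he1, he2, hY1, hY2, top, pos]) (by linarith only [o0, o1, o2, o3, hU1, hU2, hb1, hb2, hd1, hd2, he1, he2, hY1, hY2, top, pos])
  have pd1 : 0 ≤ (y3 - (1/18)) * (y1 + y2 - (1/10)) := mul_nonneg (by linarith only [o0, o1, o2, o3, hU1, hU2, hb1, hb2, hd1, hd2, he1, he2, hY1, hY2, top, pos]) (by linarith only [o0, o1, o2, o3, hU1, hU2, hb1, hb2, hd1, hd2, he1, he2, hY1, hY2, top, pos])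
  have pd2 : 0 ≤ ((1/4) - y3) * ((49/90) - (y1 + y2)) := mul_nonneg (by linarith only [o0, o1, o2, o3, hU1, hU2, hb1, hb2, hd1, hd2, he1, he2, hY1, hY2, top, pos]) (by linarith only [o0, o1, o2, o3, hU1, hU2, hb1, hb2, hd1, hd2, he1, he2, hY1, hY2, top, pos])
  have pd3 : 0 ≤ (y3 - (1/18)) * ((1/4) - y3) := mul_nonneg (by linarith only [o0, o1, o2, o3, hU1, hU2, hb1, hb2, hd1, hd2, he1, he2, hY1, hY2, top, pos]) (by linarith only [o0, o1, o2, o3, hU1, hU2, hb1, hb2, hd1, hd2, he1, he2, hY1, hY2, top, pos])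
  have rBa : (1/9) * (y1 + y2) + (-19/180) * y3 - (7341/1000) * y4 ≤ (-1/360) := by
    linarith only [qb, pL, pd1, pd3]
  have rBb : (1/2) * (y1 + y2) + (47/60) * y3 - (7341/1000) * y4 ≤ (31/120) := by
    linarith only [qb, pL, pd2, pd3]
  have ht : (1/144) ≤ y4 := by linarith only [o0, o1, o2, o3, hU1, hU2, hb1, hb2, hd1, hd2, he1, he2, hY1, hY2, top, pos, sum, r1a, r1b, rBa, rBb]
  have z0 := c0.l2 (by linarith only [o0, o1, o2, o3, hU1, hU2, hb1, hb2, hd1, hd2, he1, he2, hY1, hY2, top, pos, ht])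
  have z1 := c1.l2 (by linarith only [o0, o1, o2, o3, hU1, hU2, hb1, hb2, hd1, hd2, he1, he2, hY1, hY2, top, pos, ht])
  have z2 := c2.l11 (by linarith only [o0, o1, o2, o3, hU1, hU2, hb1, hb2, hd1, hd2, he1, he2, hY1, hY2, top, pos, ht]) (by linarith only [o0, o1, o2, o3, hU1, hU2, hb1, hb2, hd1, hd2, he1, he2, hY1, hY2, top, pos, ht])
  have z3 := c3.l0 (by linarith only [o0, o1, o2, o3, hU1, hU2, hb1, hb2, hd1, hd2, he1, he2, hY1, hY2, top, pos, ht])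
  have z4 := c4.l9 (by linarith only [o0, o1, o2, o3, hU1, hU2, hb1, hb2, hd1, hd2, he1, he2, hY1, hY2, top, pos, ht]) (by linarith only [o0, o1, o2, o3, hU1, hU2, hb1, hb2, hd1, hd2, he1, he2, hY1, hY2, top, pos, ht])
  linarith only [z0, z1, z2, z3, z4, o0, o1, o2, o3, hU1, hU2, hb1, hb2, hd1, hd2, he1, he2, hY1, hY2, top, pos, ht, sum, msum, r1a, r1b, rBa, rBb]

theorem N5.leaf7 {y0 y1 y2 y3 y4 m0 m1 m2 m3 m4 : ℝ} (h : N5 y0 y1 y2 y3 y4 m0 m1 m2 m3 m4)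
    (hU1 : (2/5) ≤ y0 + y1) (hU2 : y0 + y1 ≤ (1/2)) (hb1 : (1/10) ≤ y2) (hb2 : y2 ≤ (1/3))
    (hd1 : (1/18) ≤ y3) (hd2 : y3 ≤ (1/4)) (he1 : 0 ≤ y4) (he2 : y4 ≤ Y36) : False := by
  obtain ⟨o0, o1, o2, o3, pos, top, sum, msum, q1, q2, q3, qb, c0, c1, c2, c3, c4⟩ := h
  obtain ⟨hY1, hY2⟩ := Y36_bounds
  have pK : 0 ≤ (1 - (y0 + 3 * y1)) * y4 := mul_nonneg (by linarith only [o0, o1, o2, o3, hU1, hU2, hb1, hb2, hd1, hd2, he1, he2, hY1, hY2, top, pos]) pos.le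
  have pb1 : 0 ≤ (y2 - (1/10)) * (y0 + y1 - (2/5)) := mul_nonneg (by linarith only [o0, o1, o2, o3, hU1, hU2, hb1, hb2, hd1, hd2, he1, he2, hY1, hY2, top, pos]) (by linarith only [o0, o1, o2, o3, hU1, hU2, hb1, hb2, hd1, hd2, he1, he2, hY1, hY2, top, pos])
  have pb2 : 0 ≤ ((1/3) - y2) * ((1/2) - (y0 + y1)) := mul_nonneg (by linarith only [o0, o1, o2, o3, hU1, hU2, hb1, hb2, hd1, hd2, he1, he2, hY1, hY2, top, pos]) (by linarith only [o0, o1, o2, o3, hU1, hU2, hb1, hb2, hd1, hd2, he1, he2, hY1, hY2, top, pos])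
  have pb3 : 0 ≤ (y2 - (1/10)) * ((1/3) - y2) := mul_nonneg (by linarith only [o0, o1, o2, o3, hU1, hU2, hb1, hb2, hd1, hd2, he1, he2, hY1, hY2, top, pos]) (by linarith only [o0, o1, o2, o3, hU1, hU2, hb1, hb2, hd1, hd2, he1, he2, hY1, hY2, top, pos])
  have r1a : (1/5) * (y0 + y1) + (11/30) * y2 - (11461/1000) * y4 ≤ (7/150) := by
    linarith only [q1, pK, pb1, pb3]
  have r1b : (2/3) * (y0 + y1) + (17/30) * y2 - (11461/1000) * y4 ≤ (3/10) := by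
    linarith only [q1, pK, pb2, pb3]
  have q2' := q2 (by linarith only [hU2])
  have r2a : (3/10) * (y0 + y1) + (7/10) * y2 - (11461/1000) * y4 ≤ (3/25) := by
    linarith only [q2', pK, pb1]
  have r2b : 1 * (y0 + y1) + 1 * y2 - (11461/1000) * y4 ≤ (1/2) := by
    linarith only [q2', pK, pb2]
  have pL : 0 ≤ ((9/16) - (9/16) * (y0 + 3 * y1)) * y4 := mul_nonneg (by linarith only [o0, o1, o2, o3, hU1, hU2, hb1, hb2, hd1, hd2, he1, he2, hY1, hY2, top, pos]) (by linarith only [o0, o1, o2, o3, hU1, hU2, hb1, hb2, hd1, hd2, he1, he2, hY1, hY2, top, pos])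
  have pd1 : 0 ≤ (y3 - (1/18)) * (y1 + y2 - (1/5)) := mul_nonneg (by linarith only [o0, o1, o2, o3, hU1, hU2, hb1, hb2, hd1, hd2, he1, he2, hY1, hY2, top, pos]) (by linarith only [o0, o1, o2, o3, hU1, hU2, hb1, hb2, hd1, hd2, he1, he2, hY1, hY2, top, pos])
  have pd2 : 0 ≤ ((1/4) - y3) * ((7/12) - (y1 + y2)) := mul_nonneg (by linarith only [o0, o1, o2, o3, hU1, hU2, hb1, hb2, hd1, hd2, he1, he2, hY1, hY2, top, pos]) (by linarith only [o0, o1, o2, o3, hU1, hU2, hb1, hb2, hd1, hd2, he1, he2, hY1, hY2, top, pos])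
  have pd3 : 0 ≤ (y3 - (1/18)) * ((1/4) - y3) := mul_nonneg (by linarith only [o0, o1, o2, o3, hU1, hU2, hb1, hb2, hd1, hd2, he1, he2, hY1, hY2, top, pos]) (by linarith only [o0, o1, o2, o3, hU1, hU2, hb1, hb2, hd1, hd2, he1, he2, hY1, hY2, top, pos])
  have rBa : (1/9) * (y1 + y2) + (17/180) * y3 - (13807/2000) * y4 ≤ (1/120) := by
    linarith only [qb, pL, pd1, pd3]
  have rBb : (1/2) * (y1 + y2) + (31/36) * y3 - (13807/2000) * y4 ≤ (5/18) := by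
    linarith only [qb, pL, pd2, pd3]
  linarith only [o0, o1, o2, o3, hU1, hU2, hb1, hb2, hd1, hd2, he1, he2, hY1, hY2, top, pos, sum, r1a, r1b, r2a, r2b, rBa, rBb]

theorem N5.leaf8 {y0 y1 y2 y3 y4 m0 m1 m2 m3 m4 : ℝ} (h : N5 y0 y1 y2 y3 y4 m0 m1 m2 m3 m4)
    (hU1 : (1/2) ≤ y0 + y1) (hU2 : y0 + y1 ≤ (3/5)) (hb1 : (1/10) ≤ y2) (hb2 : y2 ≤ (1/3))
    (hd1 : (1/18) ≤ y3) (hd2 : y3 ≤ (1/4)) (he1 : 0 ≤ y4) (he2 : y4 ≤ Y36) : False := by
  obtain ⟨o0, o1, o2, o3, pos, top, sum, msum, q1, q2, q3, qb, c0, c1, c2, c3, c4⟩ := h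
  obtain ⟨hY1, hY2⟩ := Y36_bounds
  have pK : 0 ≤ ((6/5) - (y0 + 3 * y1)) * y4 := mul_nonneg (by linarith only [o0, o1, o2, o3, hU1, hU2, hb1, hb2, hd1, hd2, he1, he2, hY1, hY2, top, pos]) pos.le
  have pb1 : 0 ≤ (y2 - (1/10)) * (y0 + y1 - (1/2)) := mul_nonneg (by linarith only [o0, o1, o2, o3, hU1, hU2, hb1, hb2, hd1, hd2, he1, he2, hY1, hY2, top, pos]) (by linarith only [o0, o1, o2, o3, hU1, hU2, hb1, hb2, hd1, hd2, he1, he2, hY1, hY2, top, pos])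
  have pb2 : 0 ≤ ((1/3) - y2) * ((3/5) - (y0 + y1)) := mul_nonneg (by linarith only [o0, o1, o2, o3, hU1, hU2, hb1, hb2, hd1, hd2, he1, he2, hY1, hY2, top, pos]) (by linarith only [o0, o1, o2, o3, hU1, hU2, hb1, hb2, hd1, hd2, he1, he2, hY1, hY2, top, pos])
  have pb3 : 0 ≤ (y2 - (1/10)) * ((1/3) - y2) := mul_nonneg (by linarith only [o0, o1, o2, o3, hU1, hU2, hb1, hb2, hd1, hd2, he1, he2, hY1, hY2, top, pos]) (by linarith only [o0, o1, o2, o3, hU1, hU2, hb1, hb2, hd1, hd2, he1, he2, hY1, hY2, top, pos])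
  have r1a : (1/5) * (y0 + y1) + (17/30) * y2 - (11661/1000) * y4 ≤ (1/15) := by
    linarith only [q1, pK, pb1, pb3]
  have r1b : (2/3) * (y0 + y1) + (23/30) * y2 - (11661/1000) * y4 ≤ (11/30) := by
    linarith only [q1, pK, pb2, pb3]
  have q3' := q3 (by linarith only [hU1])
  have r3a : (1/5) * (y0 + y1) + 1 * y2 - (11661/1000) * y4 ≤ (1/10) := by
    linarith only [q3', pK, pb1]
  have r3b : (2/3) * (y0 + y1) + (6/5) * y2 - (11661/1000) * y4 ≤ (2/5) := by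
    linarith only [q3', pK, pb2]
  have pL : 0 ≤ ((27/40) - (9/16) * (y0 + 3 * y1)) * y4 := mul_nonneg (by linarith only [o0, o1, o2, o3, hU1, hU2, hb1, hb2, hd1, hd2, he1, he2, hY1, hY2, top, pos]) (by linarith only [o0, o1, o2, o3, hU1, hU2, hb1, hb2, hd1, hd2, he1, he2, hY1, hY2, top, pos])
  have pd1 : 0 ≤ (y3 - (1/18)) * (y1 + y2 - (1/5)) := mul_nonneg (by linarith only [o0, o1, o2, o3, hU1, hU2, hb1, hb2, hd1, hd2, he1, he2, hY1, hY2, top, pos]) (by linarith only [o0, o1, o2, o3, hU1, hU2, hb1, hb2, hd1, hd2, he1, he2, hY1, hY2, top, pos])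
  have pd2 : 0 ≤ ((1/4) - y3) * ((19/30) - (y1 + y2)) := mul_nonneg (by linarith only [o0, o1, o2, o3, hU1, hU2, hb1, hb2, hd1, hd2, he1, he2, hY1, hY2, top, pos]) (by linarith only [o0, o1, o2, o3, hU1, hU2, hb1, hb2, hd1, hd2, he1, he2, hY1, hY2, top, pos])
  have pd3 : 0 ≤ (y3 - (1/18)) * ((1/4) - y3) := mul_nonneg (by linarith only [o0, o1, o2, o3, hU1, hU2, hb1, hb2, hd1, hd2, he1, he2, hY1, hY2, top, pos]) (by linarith only [o0, o1, o2, o3, hU1, hU2, hb1, hb2, hd1, hd2, he1, he2, hY1, hY2, top, pos])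
  have rBa : (1/9) * (y1 + y2) + (17/180) * y3 - (877/125) * y4 ≤ (1/120) := by
    linarith only [qb, pL, pd1, pd3]
  have rBb : (1/2) * (y1 + y2) + (173/180) * y3 - (877/125) * y4 ≤ (109/360) := by
    linarith only [qb, pL, pd2, pd3]
  linarith only [o0, o1, o2, o3, hU1, hU2, hb1, hb2, hd1, hd2, he1, he2, hY1, hY2, top, pos, sum, r1a, r1b, r3a, r3b, rBa, rBb]

theorem N5.leaf9 {y0 y1 y2 y3 y4 m0 m1 m2 m3 m4 : ℝ} (h : N5 y0 y1 y2 y3 y4 m0 m1 m2 m3 m4)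
    (hU1 : (3/5) ≤ y0 + y1) (hU2 : y0 + y1 ≤ (8/9)) (hb1 : (1/10) ≤ y2) (hb2 : y2 ≤ (1/3))
    (hd1 : (1/18) ≤ y3) (hd2 : y3 ≤ (1/4)) (he1 : 0 ≤ y4) (he2 : y4 ≤ Y36) : False := by
  obtain ⟨o0, o1, o2, o3, pos, top, sum, msum, q1, q2, q3, qb, c0, c1, c2, c3, c4⟩ := h
  obtain ⟨hY1, hY2⟩ := Y36_bounds
  have pK : 0 ≤ ((16/9) - (y0 + 3 * y1)) * y4 := mul_nonneg (by linarith only [o0, o1, o2, o3, hU1, hU2, hb1, hb2, hd1, hd2, he1, he2, hY1, hY2, top, pos]) pos.le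
  have pb1 : 0 ≤ (y2 - (1/10)) * (y0 + y1 - (3/5)) := mul_nonneg (by linarith only [o0, o1, o2, o3, hU1, hU2, hb1, hb2, hd1, hd2, he1, he2, hY1, hY2, top, pos]) (by linarith only [o0, o1, o2, o3, hU1, hU2, hb1, hb2, hd1, hd2, he1, he2, hY1, hY2, top, pos])
  have pb2 : 0 ≤ ((1/3) - y2) * ((8/9) - (y0 + y1)) := mul_nonneg (by linarith only [o0, o1, o2, o3, hU1, hU2, hb1, hb2, hd1, hd2, he1, he2, hY1, hY2, top, pos]) (by linarith only [o0, o1, o2, o3, hU1, hU2, hb1, hb2, hd1, hd2, he1, he2, hY1, hY2, top, pos])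
  have pb3 : 0 ≤ (y2 - (1/10)) * ((1/3) - y2) := mul_nonneg (by linarith only [o0, o1, o2, o3, hU1, hU2, hb1, hb2, hd1, hd2, he1, he2, hY1, hY2, top, pos]) (by linarith only [o0, o1, o2, o3, hU1, hU2, hb1, hb2, hd1, hd2, he1, he2, hY1, hY2, top, pos])
  have r1a : (1/5) * (y0 + y1) + (23/30) * y2 - (110149/9000) * y4 ≤ (13/150) := by
    linarith only [q1, pK, pb1, pb3]
  have r1b : (2/3) * (y0 + y1) + (121/90) * y2 - (110149/9000) * y4 ≤ (151/270) := by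
    linarith only [q1, pK, pb2, pb3]
  have q3' := q3 (by linarith only [hU1])
  have r3a : (1/5) * (y0 + y1) + (6/5) * y2 - (110149/9000) * y4 ≤ (3/25) := by
    linarith only [q3', pK, pb1]
  have r3b : (2/3) * (y0 + y1) + (16/9) * y2 - (110149/9000) * y4 ≤ (16/27) := by
    linarith only [q3', pK, pb2]
  have pL : 0 ≤ (1 - (9/16) * (y0 + 3 * y1)) * y4 := mul_nonneg (by linarith only [o0, o1, o2, o3, hU1, hU2, hb1, hb2, hd1, hd2, he1, he2, hY1, hY2, top, pos]) (by linarith only [o0, o1, o2, o3, hU1, hU2, hb1, hb2, hd1, hd2, he1, he2, hY1, hY2, top, pos])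
  have pd1 : 0 ≤ (y3 - (1/18)) * (y1 + y2 - (23/90)) := mul_nonneg (by linarith only [o0, o1, o2, o3, hU1, hU2, hb1, hb2, hd1, hd2, he1, he2, hY1, hY2, top, pos]) (by linarith only [o0, o1, o2, o3, hU1, hU2, hb1, hb2, hd1, hd2, he1, he2, hY1, hY2, top, pos])
  have pd2 : 0 ≤ ((1/4) - y3) * ((7/9) - (y1 + y2)) := mul_nonneg (by linarith only [o0, o1, o2, o3, hU1, hU2, hb1, hb2, hd1, hd2, he1, he2, hY1, hY2, top, pos]) (by linarith only [o0, o1, o2, o3, hU1, hU2, hb1, hb2, hd1, hd2, he1, he2, hY1, hY2, top, pos])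
  have pd3 : 0 ≤ (y3 - (1/18)) * ((1/4) - y3) := mul_nonneg (by linarith only [o0, o1, o2, o3, hU1, hU2, hb1, hb2, hd1, hd2, he1, he2, hY1, hY2, top, pos]) (by linarith only [o0, o1, o2, o3, hU1, hU2, hb1, hb2, hd1, hd2, he1, he2, hY1, hY2, top, pos])
  have rBa : (1/9) * (y1 + y2) + (37/180) * y3 - (7341/1000) * y4 ≤ (47/3240) := by
    linarith only [qb, pL, pd1, pd3]
  have rBb : (1/2) * (y1 + y2) + (5/4) * y3 - (7341/1000) * y4 ≤ (3/8) := by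
    linarith only [qb, pL, pd2, pd3]
  have ht : (1/144) ≤ y4 := by linarith only [o0, o1, o2, o3, hU1, hU2, hb1, hb2, hd1, hd2, he1, he2, hY1, hY2, top, pos, sum, r1a, r1b, r3a, r3b, rBa, rBb]
  have z0 := c0.l1 (by linarith only [o0, o1, o2, o3, hU1, hU2, hb1, hb2, hd1, hd2, he1, he2, hY1, hY2, top, pos, ht])
  have z1 := c1.l0 (by linarith only [o0, o1, o2, o3, hU1, hU2, hb1, hb2, hd1, hd2, he1, he2, hY1, hY2, top, pos, ht])
  have z2 := c1.l1 (by linarith only [o0, o1, o2, o3, hU1, hU2, hb1, hb2, hd1, hd2, he1, he2, hY1, hY2, top, pos, ht])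
  have z3 := c2.l0 (by linarith only [o0, o1, o2, o3, hU1, hU2, hb1, hb2, hd1, hd2, he1, he2, hY1, hY2, top, pos, ht])
  have z4 := c3.l0 (by linarith only [o0, o1, o2, o3, hU1, hU2, hb1, hb2, hd1, hd2, he1, he2, hY1, hY2, top, pos, ht])
  have z5 := c4.l4 (by linarith only [o0, o1, o2, o3, hU1, hU2, hb1, hb2, hd1, hd2, he1, he2, hY1, hY2, top, pos, ht])
  linarith only [z0, z1, z2, z3, z4, z5, o0, o1, o2, o3, hU1, hU2, hb1, hb2, hd1, hd2, he1, he2, hY1, hY2, top, pos, ht, sum, msum, r1a, r1b, r3a, r3b, rBa, rBb]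

theorem N5.leaf10 {y0 y1 y2 y3 y4 m0 m1 m2 m3 m4 : ℝ} (h : N5 y0 y1 y2 y3 y4 m0 m1 m2 m3 m4)
    (hU1 : (2/5) ≤ y0 + y1) (hU2 : y0 + y1 ≤ (8/9)) (hb1 : (1/10) ≤ y2) (hb2 : y2 ≤ (1/3))
    (hd1 : (1/18) ≤ y3) (hd2 : y3 ≤ (1/4)) (he1 : Y36 ≤ y4) (he2 : y4 ≤ (3/16)) : False := by
  obtain ⟨o0, o1, o2, o3, pos, top, sum, msum, q1, q2, q3, qb, c0, c1, c2, c3, c4⟩ := h
  obtain ⟨hY1, hY2⟩ := Y36_bounds
  have pK : 0 ≤ ((16/9) - (y0 + 3 * y1)) * y4 := mul_nonneg (by linarith only [o0, o1, o2, o3, hU1, hU2, hb1, hb2, hd1, hd2, he1, he2, hY1, hY2, top, pos]) pos.le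
  have pb1 : 0 ≤ (y2 - (1/10)) * (y0 + y1 - (2/5)) := mul_nonneg (by linarith only [o0, o1, o2, o3, hU1, hU2, hb1, hb2, hd1, hd2, he1, he2, hY1, hY2, top, pos]) (by linarith only [o0, o1, o2, o3, hU1, hU2, hb1, hb2, hd1, hd2, he1, he2, hY1, hY2, top, pos])
  have pb2 : 0 ≤ ((1/3) - y2) * ((8/9) - (y0 + y1)) := mul_nonneg (by linarith only [o0, o1, o2, o3, hU1, hU2, hb1, hb2, hd1, hd2, he1, he2, hY1, hY2, top, pos]) (by linarith only [o0, o1, o2, o3, hU1, hU2, hb1, hb2, hd1, hd2, he1, he2, hY1, hY2, top, pos])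
  have pb3 : 0 ≤ (y2 - (1/10)) * ((1/3) - y2) := mul_nonneg (by linarith only [o0, o1, o2, o3, hU1, hU2, hb1, hb2, hd1, hd2, he1, he2, hY1, hY2, top, pos]) (by linarith only [o0, o1, o2, o3, hU1, hU2, hb1, hb2, hd1, hd2, he1, he2, hY1, hY2, top, pos])
  have r1a : (1/5) * (y0 + y1) + (11/30) * y2 - (110149/9000) * y4 ≤ (7/150) := by
    linarith only [q1, pK, pb1, pb3]
  have r1b : (2/3) * (y0 + y1) + (121/90) * y2 - (110149/9000) * y4 ≤ (151/270) := by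
    linarith only [q1, pK, pb2, pb3]
  have pL : 0 ≤ (1 - (9/16) * (y0 + 3 * y1)) * y4 := mul_nonneg (by linarith only [o0, o1, o2, o3, hU1, hU2, hb1, hb2, hd1, hd2, he1, he2, hY1, hY2, top, pos]) (by linarith only [o0, o1, o2, o3, hU1, hU2, hb1, hb2, hd1, hd2, he1, he2, hY1, hY2, top, pos])
  have pd1 : 0 ≤ (y3 - (1/18)) * (y1 + y2 - (1/5)) := mul_nonneg (by linarith only [o0, o1, o2, o3, hU1, hU2, hb1, hb2, hd1, hd2, he1, he2, hY1, hY2, top, pos]) (by linarith only [o0, o1, o2, o3, hU1, hU2, hb1, hb2, hd1, hd2, he1, he2, hY1, hY2, top, pos])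
  have pd2 : 0 ≤ ((1/4) - y3) * ((7/9) - (y1 + y2)) := mul_nonneg (by linarith only [o0, o1, o2, o3, hU1, hU2, hb1, hb2, hd1, hd2, he1, he2, hY1, hY2, top, pos]) (by linarith only [o0, o1, o2, o3, hU1, hU2, hb1, hb2, hd1, hd2, he1, he2, hY1, hY2, top, pos])
  have pd3 : 0 ≤ (y3 - (1/18)) * ((1/4) - y3) := mul_nonneg (by linarith only [o0, o1, o2, o3, hU1, hU2, hb1, hb2, hd1, hd2, he1, he2, hY1, hY2, top, pos]) (by linarith only [o0, o1, o2, o3, hU1, hU2, hb1, hb2, hd1, hd2, he1, he2, hY1, hY2, top, pos])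
  have rBa : (1/9) * (y1 + y2) + (17/180) * y3 - (7341/1000) * y4 ≤ (1/120) := by
    linarith only [qb, pL, pd1, pd3]
  have rBb : (1/2) * (y1 + y2) + (5/4) * y3 - (7341/1000) * y4 ≤ (3/8) := by
    linarith only [qb, pL, pd2, pd3]
  have ht : (1/144) ≤ y4 := by linarith only [o0, o1, o2, o3, hU1, hU2, hb1, hb2, hd1, hd2, he1, he2, hY1, hY2, top, pos, sum, r1a, r1b, rBa, rBb]
  have z0 := c0.l0 (by linarith only [o0, o1, o2, o3, hU1, hU2, hb1, hb2, hd1, hd2, he1, he2, hY1, hY2, top, pos, ht])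
  have z1 := c1.l0 (by linarith only [o0, o1, o2, o3, hU1, hU2, hb1, hb2, hd1, hd2, he1, he2, hY1, hY2, top, pos, ht])
  have z2 := c2.l0 (by linarith only [o0, o1, o2, o3, hU1, hU2, hb1, hb2, hd1, hd2, he1, he2, hY1, hY2, top, pos, ht])
  have z3 := c3.l0 (by linarith only [o0, o1, o2, o3, hU1, hU2, hb1, hb2, hd1, hd2, he1, he2, hY1, hY2, top, pos, ht])
  have z4 := c4.l11 (by linarith only [o0, o1, o2, o3, hU1, hU2, hb1, hb2, hd1, hd2, he1, he2, hY1, hY2, top, pos, ht]) (by linarith only [o0, o1, o2, o3, hU1, hU2, hb1, hb2, hd1, hd2, he1, he2, hY1, hY2, top, pos, ht])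
  linarith only [z0, z1, z2, z3, z4, o0, o1, o2, o3, hU1, hU2, hb1, hb2, hd1, hd2, he1, he2, hY1, hY2, top, pos, ht, sum, msum, r1a, r1b, rBa, rBb]

theorem N5.leaf11 {y0 y1 y2 y3 y4 m0 m1 m2 m3 m4 : ℝ} (h : N5 y0 y1 y2 y3 y4 m0 m1 m2 m3 m4)
    (hU1 : (2/5) ≤ y0 + y1) (hU2 : y0 + y1 ≤ (8/9)) (hb1 : (1/20) ≤ y2) (hb2 : y2 ≤ (1/3))
    (hd1 : 0 ≤ y3) (hd2 : y3 ≤ (1/4)) (he1 : (3/16) ≤ y4) (he2 : y4 ≤ (1/5)) : False := by
  obtain ⟨o0, o1, o2, o3, pos, top, sum, msum, q1, q2, q3, qb, c0, c1, c2, c3, c4⟩ := h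
  obtain ⟨hY1, hY2⟩ := Y36_bounds
  have pK : 0 ≤ ((16/9) - (y0 + 3 * y1)) * y4 := mul_nonneg (by linarith only [o0, o1, o2, o3, hU1, hU2, hb1, hb2, hd1, hd2, he1, he2, hY1, hY2, top, pos]) pos.le
  have pb1 : 0 ≤ (y2 - (1/20)) * (y0 + y1 - (2/5)) := mul_nonneg (by linarith only [o0, o1, o2, o3, hU1, hU2, hb1, hb2, hd1, hd2, he1, he2, hY1, hY2, top, pos]) (by linarith only [o0, o1, o2, o3, hU1, hU2, hb1, hb2, hd1, hd2, he1, he2, hY1, hY2, top, pos])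
  have pb2 : 0 ≤ ((1/3) - y2) * ((8/9) - (y0 + y1)) := mul_nonneg (by linarith only [o0, o1, o2, o3, hU1, hU2, hb1, hb2, hd1, hd2, he1, he2, hY1, hY2, top, pos]) (by linarith only [o0, o1, o2, o3, hU1, hU2, hb1, hb2, hd1, hd2, he1, he2, hY1, hY2, top, pos])
  have pb3 : 0 ≤ (y2 - (1/20)) * ((1/3) - y2) := mul_nonneg (by linarith only [o0, o1, o2, o3, hU1, hU2, hb1, hb2, hd1, hd2, he1, he2, hY1, hY2, top, pos]) (by linarith only [o0, o1, o2, o3, hU1, hU2, hb1, hb2, hd1, hd2, he1, he2, hY1, hY2, top, pos])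
  have r1a : (1/10) * (y0 + y1) + (5/12) * y2 - (110149/9000) * y4 ≤ (7/300) := by
    linarith only [q1, pK, pb1, pb3]
  have r1b : (2/3) * (y0 + y1) + (251/180) * y2 - (110149/9000) * y4 ≤ (311/540) := by
    linarith only [q1, pK, pb2, pb3]
  have pL : 0 ≤ (1 - (9/16) * (y0 + 3 * y1)) * y4 := mul_nonneg (by linarith only [o0, o1, o2, o3, hU1, hU2, hb1, hb2, hd1, hd2, he1, he2, hY1, hY2, top, pos]) (by linarith only [o0, o1, o2, o3, hU1, hU2, hb1, hb2, hd1, hd2, he1, he2, hY1, hY2, top, pos])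
  have pd1 : 0 ≤ (y3 - 0) * (y1 + y2 - (1/10)) := mul_nonneg (by linarith only [o0, o1, o2, o3, hU1, hU2, hb1, hb2, hd1, hd2, he1, he2, hY1, hY2, top, pos]) (by linarith only [o0, o1, o2, o3, hU1, hU2, hb1, hb2, hd1, hd2, he1, he2, hY1, hY2, top, pos])
  have pd2 : 0 ≤ ((1/4) - y3) * ((7/9) - (y1 + y2)) := mul_nonneg (by linarith only [o0, o1, o2, o3, hU1, hU2, hb1, hb2, hd1, hd2, he1, he2, hY1, hY2, top, pos]) (by linarith only [o0, o1, o2, o3, hU1, hU2, hb1, hb2, hd1, hd2, he1, he2, hY1, hY2, top, pos])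
  have pd3 : 0 ≤ (y3 - 0) * ((1/4) - y3) := mul_nonneg (by linarith only [o0, o1, o2, o3, hU1, hU2, hb1, hb2, hd1, hd2, he1, he2, hY1, hY2, top, pos]) (by linarith only [o0, o1, o2, o3, hU1, hU2, hb1, hb2, hd1, hd2, he1, he2, hY1, hY2, top, pos])
  have rBa : 0 * (y1 + y2) + (-1/20) * y3 - (7341/1000) * y4 ≤ 0 := by
    linarith only [qb, pL, pd1, pd3]
  have rBb : (1/2) * (y1 + y2) + (47/36) * y3 - (7341/1000) * y4 ≤ (7/18) := by
    linarith only [qb, pL, pd2, pd3]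
  have ht : (1/18) ≤ y4 := by linarith only [o0, o1, o2, o3, hU1, hU2, hb1, hb2, hd1, hd2, he1, he2, hY1, hY2, top, pos, sum, r1a, r1b, rBa, rBb]
  have z0 := c0.l0 (by linarith only [o0, o1, o2, o3, hU1, hU2, hb1, hb2, hd1, hd2, he1, he2, hY1, hY2, top, pos, ht])
  have z1 := c1.l0 (by linarith only [o0, o1, o2, o3, hU1, hU2, hb1, hb2, hd1, hd2, he1, he2, hY1, hY2, top, pos, ht])
  have z2 := c2.l0 (by linarith only [o0, o1, o2, o3, hU1, hU2, hb1, hb2, hd1, hd2, he1, he2, hY1, hY2, top, pos, ht])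
  have z3 := c3.l0 (by linarith only [o0, o1, o2, o3, hU1, hU2, hb1, hb2, hd1, hd2, he1, he2, hY1, hY2, top, pos, ht])
  have z4 := c4.l0 (by linarith only [o0, o1, o2, o3, hU1, hU2, hb1, hb2, hd1, hd2, he1, he2, hY1, hY2, top, pos, ht])
  linarith only [z0, z1, z2, z3, z4, o0, o1, o2, o3, hU1, hU2, hb1, hb2, hd1, hd2, he1, he2, hY1, hY2, top, pos, ht, sum, msum, r1a, r1b, rBa, rBb]

theorem N5.false {y0 y1 y2 y3 y4 m0 m1 m2 m3 m4 : ℝ} (h : N5 y0 y1 y2 y3 y4 m0 m1 m2 m3 m4) : False := by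
  obtain ⟨hY1, hY2⟩ := Y36_bounds
  have ao0 := h.o0
  have ao1 := h.o1
  have ao2 := h.o2
  have ao3 := h.o3
  have apos := h.pos
  have atop := h.top
  have asum := h.sum
  rcases le_total y2 (1/20) with h1 | h1
  · exact h.leaf0 (by linarith) (by linarith) (by linarith) (by linarith) (by linarith) (by linarith) (by linarith) (by linarith)
  · rcases le_total y4 (3/16) with h2 | h2
    · rcases le_total y3 (1/18) with h3 | h3
      · rcases le_total y4 (1/18) with h4 | h4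
        · rcases le_total y2 (7/50) with h5 | h5
          · exact h.leaf1 (by linarith) (by linarith) (by linarith) (by linarith) (by linarith) (by linarith) (by linarith) (by linarith)
          · rcases le_total y2 (1/5) with h6 | h6
            · exact h.leaf2 (by linarith) (by linarith) (by linarith) (by linarith) (by linarith) (by linarith) (by linarith) (by linarith)
            · rcases le_total (y0 + y1) (3/5) with h7 | h7
              · exact h.leaf3 (by linarith) (by linarith) (by linarith) (by linarith) (by linarith) (by linarith) (by linarith) (by linarith)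
              · exact h.leaf4 (by linarith) (by linarith) (by linarith) (by linarith) (by linarith) (by linarith) (by linarith) (by linarith)
        · exact h.leaf5 (by linarith) (by linarith) (by linarith) (by linarith) (by linarith) (by linarith) (by linarith) (by linarith)
      · rcases le_total y2 (1/10) with h8 | h8
        · exact h.leaf6 (by linarith) (by linarith) (by linarith) (by linarith) (by linarith) (by linarith) (by linarith) (by linarith)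
        · rcases le_total y4 Y36 with h9 | h9
          · rcases le_total (y0 + y1) (1/2) with h10 | h10
            · exact h.leaf7 (by linarith) (by linarith) (by linarith) (by linarith) (by linarith) (by linarith) (by linarith) (by linarith)
            · rcases le_total (y0 + y1) (3/5) with h11 | h11
              · exact h.leaf8 (by linarith) (by linarith) (by linarith) (by linarith) (by linarith) (by linarith) (by linarith) (by linarith)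
              · exact h.leaf9 (by linarith) (by linarith) (by linarith) (by linarith) (by linarith) (by linarith) (by linarith) (by linarith)
          · exact h.leaf10 (by linarith) (by linarith) (by linarith) (by linarith) (by linarith) (by linarith) (by linarith) (by linarith)
    · exact h.leaf11 (by linarith) (by linarith) (by linarith) (by linarith) (by linarith) (by linarith) (by linarith) (by linarith)

end Crest.Agent.S0334
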