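import Crest.Agent.S0334_L5

set_option autoImplicit false
set_option maxHeartbeats 1000000
set_option linter.unusedVariables false

namespace Crest.Agent.S0334

/-! ### N6: the numerical contradiction (case 6); generated by a branch and bound search -/

structure N6 (y0 y1 y2 y3 y4 y5 m0 m1 m2 m3 m4 m5 : ℝ) : Prop where
  o0 : y1 ≤ y0
  o1 : y2 ≤ y1
  o2 : y3 ≤ y2
  o3 : y4 ≤ y3
  o4 : y5 ≤ y4
  pos : 0 < y5
  top : y0 ≤ 4/9
  sum : y0 + y1 + y2 + y3 + y4 + y5 = 1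
  msum : m0 + m1 + m2 + m3 + m4 + m5 = 1
  q1 : y2 * (2 * (y0 + y1) - y2) ≤ ((601/50) + (y0 + 3 * y1)) * y5
  q2 : y0 + y1 ≤ 1/2 → y2 * (3 * (y0 + y1) - 1/2) ≤ ((601/50) + (y0 + 3 * y1)) * y5
  q3 : 1/2 ≤ y0 + y1 → 2 * y2 * (y0 + y1) ≤ ((601/50) + (y0 + 3 * y1)) * y5
  qb : y3 * (2 * (y1 + y2) - y3) ≤ ((371/50) + (9/16) * (y0 + 3 * y1)) * y5
  c0 : L5 y0 m0
  c1 : L5 y1 m1
  c2 : L5 y2 m2
  c3 : L5 y3 m3
  c4 : L5 y4 m4
  c5 : L5 y5 m5

theorem N6.leaf0 {y0 y1 y2 y3 y4 y5 m0 m1 m2 m3 m4 m5 : ℝ} (h : N6 y0 y1 y2 y3 y4 y5 m0 m1 m2 m3 m4 m5)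
    (hU1 : (1/3) ≤ y0 + y1) (hU2 : y0 + y1 ≤ (8/9)) (hb1 : 0 ≤ y2) (hb2 : y2 ≤ (1/20))
    (hd1 : 0 ≤ y3) (hd2 : y3 ≤ (1/4)) (he1 : 0 ≤ y4) (he2 : y4 ≤ (1/5)) : False := by
  obtain ⟨o0, o1, o2, o3, o4, pos, top, sum, msum, q1, q2, q3, qb, c0, c1, c2, c3, c4, c5⟩ := h
  have pK : 0 ≤ ((16/9) - (y0 + 3 * y1)) * y5 := mul_nonneg (by linarith only [o0, o1, o2, o3, o4, hU1, hU2, hb1, hb2, hd1, hd2, he1, he2, top, pos]) pos.le
  have pb1 : 0 ≤ (y2 - 0) * (y0 + y1 - (1/3)) := mul_nonneg (by linarith only [o0, o1, o2, o3, o4, hU1, hU2, hb1, hb2, hd1, hd2, he1, he2, top, pos]) (by linarith only [o0, o1, o2, o3, o4, hU1, hU2, hb1, hb2, hd1, hd2, he1, he2, top, pos])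
  have pb2 : 0 ≤ ((1/20) - y2) * ((8/9) - (y0 + y1)) := mul_nonneg (by linarith only [o0, o1, o2, o3, o4, hU1, hU2, hb1, hb2, hd1, hd2, he1, he2, top, pos]) (by linarith only [o0, o1, o2, o3, o4, hU1, hU2, hb1, hb2, hd1, hd2, he1, he2, top, pos])
  have pb3 : 0 ≤ (y2 - 0) * ((1/20) - y2) := mul_nonneg (by linarith only [o0, o1, o2, o3, o4, hU1, hU2, hb1, hb2, hd1, hd2, he1, he2, top, pos]) (by linarith only [o0, o1, o2, o3, o4, hU1, hU2, hb1, hb2, hd1, hd2, he1, he2, top, pos])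
  have r1a : 0 * (y0 + y1) + (37/60) * y2 - (6209/450) * y5 ≤ 0 := by
    linarith only [q1, pK, pb1, pb3]
  have r1b : (1/10) * (y0 + y1) + (311/180) * y2 - (6209/450) * y5 ≤ (4/45) := by
    linarith only [q1, pK, pb2, pb3]
  have pL : 0 ≤ (1 - (9/16) * (y0 + 3 * y1)) * y5 := mul_nonneg (by linarith only [o0, o1, o2, o3, o4, hU1, hU2, hb1, hb2, hd1, hd2, he1, he2, top, pos]) (by linarith only [o0, o1, o2, o3, o4, hU1, hU2, hb1, hb2, hd1, hd2, he1, he2, top, pos])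
  have pd1 : 0 ≤ (y3 - 0) * (y1 + y2 - 0) := mul_nonneg (by linarith only [o0, o1, o2, o3, o4, hU1, hU2, hb1, hb2, hd1, hd2, he1, he2, top, pos]) (by linarith only [o0, o1, o2, o3, o4, hU1, hU2, hb1, hb2, hd1, hd2, he1, he2, top, pos])
  have pd2 : 0 ≤ ((1/4) - y3) * ((89/180) - (y1 + y2)) := mul_nonneg (by linarith only [o0, o1, o2, o3, o4, hU1, hU2, hb1, hb2, hd1, hd2, he1, he2, top, pos]) (by linarith only [o0, o1, o2, o3, o4, hU1, hU2, hb1, hb2, hd1, hd2, he1, he2, top, pos])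
  have pd3 : 0 ≤ (y3 - 0) * ((1/4) - y3) := mul_nonneg (by linarith only [o0, o1, o2, o3, o4, hU1, hU2, hb1, hb2, hd1, hd2, he1, he2, top, pos]) (by linarith only [o0, o1, o2, o3, o4, hU1, hU2, hb1, hb2, hd1, hd2, he1, he2, top, pos])
  have rBa : 0 * (y1 + y2) + (-1/4) * y3 - (421/50) * y5 ≤ 0 := by
    linarith only [qb, pL, pd1, pd3]
  have rBb : (1/2) * (y1 + y2) + (133/180) * y3 - (421/50) * y5 ≤ (89/360) := by
    linarith only [qb, pL, pd2, pd3]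
  have ht : (1/250) ≤ y5 := by linarith only [o0, o1, o2, o3, o4, hU1, hU2, hb1, hb2, hd1, hd2, he1, he2, top, pos, sum, r1a, r1b, rBa, rBb]
  have z0 := c0.l16 (by linarith only [o0, o1, o2, o3, o4, hU1, hU2, hb1, hb2, hd1, hd2, he1, he2, top, pos, ht])
  have z1 := c1.l16 (by linarith only [o0, o1, o2, o3, o4, hU1, hU2, hb1, hb2, hd1, hd2, he1, he2, top, pos, ht])
  have z2 := c2.l30 (by linarith only [o0, o1, o2, o3, o4, hU1, hU2, hb1, hb2, hd1, hd2, he1, he2, top, pos, ht])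
  have z3 := c3.l12 (by linarith only [o0, o1, o2, o3, o4, hU1, hU2, hb1, hb2, hd1, hd2, he1, he2, top, pos, ht])
  have z4 := c4.l12 (by linarith only [o0, o1, o2, o3, o4, hU1, hU2, hb1, hb2, hd1, hd2, he1, he2, top, pos, ht])
  have z5 := c5.l12 (by linarith only [o0, o1, o2, o3, o4, hU1, hU2, hb1, hb2, hd1, hd2, he1, he2, top, pos, ht])
  linarith only [z0, z1, z2, z3, z4, z5, o0, o1, o2, o3, o4, hU1, hU2, hb1, hb2, hd1, hd2, he1, he2, top, pos, ht, sum, msum, r1a, r1b, rBa, rBb]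

theorem N6.leaf1 {y0 y1 y2 y3 y4 y5 m0 m1 m2 m3 m4 m5 : ℝ} (h : N6 y0 y1 y2 y3 y4 y5 m0 m1 m2 m3 m4 m5)
    (hU1 : (1/3) ≤ y0 + y1) (hU2 : y0 + y1 ≤ (8/9)) (hb1 : (1/20) ≤ y2) (hb2 : y2 ≤ (1/5))
    (hd1 : 0 ≤ y3) (hd2 : y3 ≤ (3/20)) (he1 : 0 ≤ y4) (he2 : y4 ≤ (1/25)) : False := by
  obtain ⟨o0, o1, o2, o3, o4, pos, top, sum, msum, q1, q2, q3, qb, c0, c1, c2, c3, c4, c5⟩ := h
  have pK : 0 ≤ ((16/9) - (y0 + 3 * y1)) * y5 := mul_nonneg (by linarith only [o0, o1, o2, o3, o4, hU1, hU2, hb1, hb2, hd1, hd2, he1, he2, top, pos]) pos.le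
  have pb1 : 0 ≤ (y2 - (1/20)) * (y0 + y1 - (1/3)) := mul_nonneg (by linarith only [o0, o1, o2, o3, o4, hU1, hU2, hb1, hb2, hd1, hd2, he1, he2, top, pos]) (by linarith only [o0, o1, o2, o3, o4, hU1, hU2, hb1, hb2, hd1, hd2, he1, he2, top, pos])
  have pb2 : 0 ≤ ((1/5) - y2) * ((8/9) - (y0 + y1)) := mul_nonneg (by linarith only [o0, o1, o2, o3, o4, hU1, hU2, hb1, hb2, hd1, hd2, he1, he2, top, pos]) (by linarith only [o0, o1, o2, o3, o4, hU1, hU2, hb1, hb2, hd1, hd2, he1, he2, top, pos])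
  have pb3 : 0 ≤ (y2 - (1/20)) * ((1/5) - y2) := mul_nonneg (by linarith only [o0, o1, o2, o3, o4, hU1, hU2, hb1, hb2, hd1, hd2, he1, he2, top, pos]) (by linarith only [o0, o1, o2, o3, o4, hU1, hU2, hb1, hb2, hd1, hd2, he1, he2, top, pos])
  have r1a : (1/10) * (y0 + y1) + (5/12) * y2 - (6209/450) * y5 ≤ (7/300) := by
    linarith only [q1, pK, pb1, pb3]
  have r1b : (2/5) * (y0 + y1) + (55/36) * y2 - (6209/450) * y5 ≤ (311/900) := by
    linarith only [q1, pK, pb2, pb3]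
  have pL : 0 ≤ (1 - (9/16) * (y0 + 3 * y1)) * y5 := mul_nonneg (by linarith only [o0, o1, o2, o3, o4, hU1, hU2, hb1, hb2, hd1, hd2, he1, he2, top, pos]) (by linarith only [o0, o1, o2, o3, o4, hU1, hU2, hb1, hb2, hd1, hd2, he1, he2, top, pos])
  have pd1 : 0 ≤ (y3 - 0) * (y1 + y2 - (1/10)) := mul_nonneg (by linarith only [o0, o1, o2, o3, o4, hU1, hU2, hb1, hb2, hd1, hd2, he1, he2, top, pos]) (by linarith only [o0, o1, o2, o3, o4, hU1, hU2, hb1, hb2, hd1, hd2, he1, he2, top, pos])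
  have pd2 : 0 ≤ ((3/20) - y3) * ((29/45) - (y1 + y2)) := mul_nonneg (by linarith only [o0, o1, o2, o3, o4, hU1, hU2, hb1, hb2, hd1, hd2, he1, he2, top, pos]) (by linarith only [o0, o1, o2, o3, o4, hU1, hU2, hb1, hb2, hd1, hd2, he1, he2, top, pos])
  have pd3 : 0 ≤ (y3 - 0) * ((3/20) - y3) := mul_nonneg (by linarith only [o0, o1, o2, o3, o4, hU1, hU2, hb1, hb2, hd1, hd2, he1, he2, top, pos]) (by linarith only [o0, o1, o2, o3, o4, hU1, hU2, hb1, hb2, hd1, hd2, he1, he2, top, pos])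
  have rBa : 0 * (y1 + y2) + (1/20) * y3 - (421/50) * y5 ≤ 0 := by
    linarith only [qb, pL, pd1, pd3]
  have rBb : (3/10) * (y1 + y2) + (41/36) * y3 - (421/50) * y5 ≤ (29/150) := by
    linarith only [qb, pL, pd2, pd3]
  have ht : (1/200) ≤ y5 := by linarith only [o0, o1, o2, o3, o4, hU1, hU2, hb1, hb2, hd1, hd2, he1, he2, top, pos, sum, r1a, r1b, rBa, rBb]
  have z0 := c0.l13 (by linarith only [o0, o1, o2, o3, o4, hU1, hU2, hb1, hb2, hd1, hd2, he1, he2, top, pos, ht])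
  have z1 := c0.l14 (by linarith only [o0, o1, o2, o3, o4, hU1, hU2, hb1, hb2, hd1, hd2, he1, he2, top, pos, ht])
  have z2 := c1.l13 (by linarith only [o0, o1, o2, o3, o4, hU1, hU2, hb1, hb2, hd1, hd2, he1, he2, top, pos, ht])
  have z3 := c1.l14 (by linarith only [o0, o1, o2, o3, o4, hU1, hU2, hb1, hb2, hd1, hd2, he1, he2, top, pos, ht])
  have z4 := c2.l7 (by linarith only [o0, o1, o2, o3, o4, hU1, hU2, hb1, hb2, hd1, hd2, he1, he2, top, pos, ht])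
  have z5 := c3.l97 (by linarith only [o0, o1, o2, o3, o4, hU1, hU2, hb1, hb2, hd1, hd2, he1, he2, top, pos, ht]) (by linarith only [o0, o1, o2, o3, o4, hU1, hU2, hb1, hb2, hd1, hd2, he1, he2, top, pos, ht])
  have z6 := c4.l91 (by linarith only [o0, o1, o2, o3, o4, hU1, hU2, hb1, hb2, hd1, hd2, he1, he2, top, pos, ht]) (by linarith only [o0, o1, o2, o3, o4, hU1, hU2, hb1, hb2, hd1, hd2, he1, he2, top, pos, ht])
  have z7 := c5.l91 (by linarith only [o0, o1, o2, o3, o4, hU1, hU2, hb1, hb2, hd1, hd2, he1, he2, top, pos, ht]) (by linarith only [o0, o1, o2, o3, o4, hU1, hU2, hb1, hb2, hd1, hd2, he1, he2, top, pos, ht])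
  linarith only [z0, z1, z2, z3, z4, z5, z6, z7, o0, o1, o2, o3, o4, hU1, hU2, hb1, hb2, hd1, hd2, he1, he2, top, pos, ht, sum, msum, r1a, r1b, rBa, rBb]

theorem N6.leaf2 {y0 y1 y2 y3 y4 y5 m0 m1 m2 m3 m4 m5 : ℝ} (h : N6 y0 y1 y2 y3 y4 y5 m0 m1 m2 m3 m4 m5)
    (hU1 : (1/3) ≤ y0 + y1) (hU2 : y0 + y1 ≤ (8/9)) (hb1 : (1/5) ≤ y2) (hb2 : y2 ≤ (1/3))
    (hd1 : 0 ≤ y3) (hd2 : y3 ≤ (3/20)) (he1 : 0 ≤ y4) (he2 : y4 ≤ (1/25)) : False := by
  obtain ⟨o0, o1, o2, o3, o4, pos, top, sum, msum, q1, q2, q3, qb, c0, c1, c2, c3, c4, c5⟩ := h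
  have pK : 0 ≤ ((16/9) - (y0 + 3 * y1)) * y5 := mul_nonneg (by linarith only [o0, o1, o2, o3, o4, hU1, hU2, hb1, hb2, hd1, hd2, he1, he2, top, pos]) pos.le
  have pb1 : 0 ≤ (y2 - (1/5)) * (y0 + y1 - (1/3)) := mul_nonneg (by linarith only [o0, o1, o2, o3, o4, hU1, hU2, hb1, hb2, hd1, hd2, he1, he2, top, pos]) (by linarith only [o0, o1, o2, o3, o4, hU1, hU2, hb1, hb2, hd1, hd2, he1, he2, top, pos])
  have pb2 : 0 ≤ ((1/3) - y2) * ((8/9) - (y0 + y1)) := mul_nonneg (by linarith only [o0, o1, o2, o3, o4, hU1, hU2, hb1, hb2, hd1, hd2, he1, he2, top, pos]) (by linarith only [o0, o1, o2, o3, o4, hU1, hU2, hb1, hb2, hd1, hd2, he1, he2, top, pos])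
  have pb3 : 0 ≤ (y2 - (1/5)) * ((1/3) - y2) := mul_nonneg (by linarith only [o0, o1, o2, o3, o4, hU1, hU2, hb1, hb2, hd1, hd2, he1, he2, top, pos]) (by linarith only [o0, o1, o2, o3, o4, hU1, hU2, hb1, hb2, hd1, hd2, he1, he2, top, pos])
  have r1a : (2/5) * (y0 + y1) + (2/15) * y2 - (6209/450) * y5 ≤ (1/15) := by
    linarith only [q1, pK, pb1, pb3]
  have r1b : (2/3) * (y0 + y1) + (56/45) * y2 - (6209/450) * y5 ≤ (71/135) := by
    linarith only [q1, pK, pb2, pb3]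
  have pL : 0 ≤ (1 - (9/16) * (y0 + 3 * y1)) * y5 := mul_nonneg (by linarith only [o0, o1, o2, o3, o4, hU1, hU2, hb1, hb2, hd1, hd2, he1, he2, top, pos]) (by linarith only [o0, o1, o2, o3, o4, hU1, hU2, hb1, hb2, hd1, hd2, he1, he2, top, pos])
  have pd1 : 0 ≤ (y3 - 0) * (y1 + y2 - (2/5)) := mul_nonneg (by linarith only [o0, o1, o2, o3, o4, hU1, hU2, hb1, hb2, hd1, hd2, he1, he2, top, pos]) (by linarith only [o0, o1, o2, o3, o4, hU1, hU2, hb1, hb2, hd1, hd2, he1, he2, top, pos])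
  have pd2 : 0 ≤ ((3/20) - y3) * ((7/9) - (y1 + y2)) := mul_nonneg (by linarith only [o0, o1, o2, o3, o4, hU1, hU2, hb1, hb2, hd1, hd2, he1, he2, top, pos]) (by linarith only [o0, o1, o2, o3, o4, hU1, hU2, hb1, hb2, hd1, hd2, he1, he2, top, pos])
  have pd3 : 0 ≤ (y3 - 0) * ((3/20) - y3) := mul_nonneg (by linarith only [o0, o1, o2, o3, o4, hU1, hU2, hb1, hb2, hd1, hd2, he1, he2, top, pos]) (by linarith only [o0, o1, o2, o3, o4, hU1, hU2, hb1, hb2, hd1, hd2, he1, he2, top, pos])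
  have rBa : 0 * (y1 + y2) + (13/20) * y3 - (421/50) * y5 ≤ 0 := by
    linarith only [qb, pL, pd1, pd3]
  have rBb : (3/10) * (y1 + y2) + (253/180) * y3 - (421/50) * y5 ≤ (7/30) := by
    linarith only [qb, pL, pd2, pd3]
  have ht : (1/80) ≤ y5 := by linarith only [o0, o1, o2, o3, o4, hU1, hU2, hb1, hb2, hd1, hd2, he1, he2, top, pos, sum, r1a, r1b, rBa, rBb]
  have z0 := c0.l11 (by linarith only [o0, o1, o2, o3, o4, hU1, hU2, hb1, hb2, hd1, hd2, he1, he2, top, pos, ht])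
  have z1 := c0.l12 (by linarith only [o0, o1, o2, o3, o4, hU1, hU2, hb1, hb2, hd1, hd2, he1, he2, top, pos, ht])
  have z2 := c1.l11 (by linarith only [o0, o1, o2, o3, o4, hU1, hU2, hb1, hb2, hd1, hd2, he1, he2, top, pos, ht])
  have z3 := c2.l10 (by linarith only [o0, o1, o2, o3, o4, hU1, hU2, hb1, hb2, hd1, hd2, he1, he2, top, pos, ht])
  have z4 := c2.l11 (by linarith only [o0, o1, o2, o3, o4, hU1, hU2, hb1, hb2, hd1, hd2, he1, he2, top, pos, ht])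
  have z5 := c3.l133 (by linarith only [o0, o1, o2, o3, o4, hU1, hU2, hb1, hb2, hd1, hd2, he1, he2, top, pos, ht]) (by linarith only [o0, o1, o2, o3, o4, hU1, hU2, hb1, hb2, hd1, hd2, he1, he2, top, pos, ht])
  have z6 := c4.l127 (by linarith only [o0, o1, o2, o3, o4, hU1, hU2, hb1, hb2, hd1, hd2, he1, he2, top, pos, ht]) (by linarith only [o0, o1, o2, o3, o4, hU1, hU2, hb1, hb2, hd1, hd2, he1, he2, top, pos, ht])
  have z7 := c5.l127 (by linarith only [o0, o1, o2, o3, o4, hU1, hU2, hb1, hb2, hd1, hd2, he1, he2, top, pos, ht]) (by linarith only [o0, o1, o2, o3, o4, hU1, hU2, hb1, hb2, hd1, hd2, he1, he2, top, pos, ht])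
  linarith only [z0, z1, z2, z3, z4, z5, z6, z7, o0, o1, o2, o3, o4, hU1, hU2, hb1, hb2, hd1, hd2, he1, he2, top, pos, ht, sum, msum, r1a, r1b, rBa, rBb]

theorem N6.leaf3 {y0 y1 y2 y3 y4 y5 m0 m1 m2 m3 m4 m5 : ℝ} (h : N6 y0 y1 y2 y3 y4 y5 m0 m1 m2 m3 m4 m5)
    (hU1 : (1/3) ≤ y0 + y1) (hU2 : y0 + y1 ≤ (8/9)) (hb1 : (1/20) ≤ y2) (hb2 : y2 ≤ (1/3))
    (hd1 : (3/20) ≤ y3) (hd2 : y3 ≤ (1/4)) (he1 : 0 ≤ y4) (he2 : y4 ≤ (1/25)) : False := by
  obtain ⟨o0, o1, o2, o3, o4, pos, top, sum, msum, q1, q2, q3, qb, c0, c1, c2, c3, c4, c5⟩ := h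
  have pK : 0 ≤ ((16/9) - (y0 + 3 * y1)) * y5 := mul_nonneg (by linarith only [o0, o1, o2, o3, o4, hU1, hU2, hb1, hb2, hd1, hd2, he1, he2, top, pos]) pos.le
  have pb1 : 0 ≤ (y2 - (1/20)) * (y0 + y1 - (1/3)) := mul_nonneg (by linarith only [o0, o1, o2, o3, o4, hU1, hU2, hb1, hb2, hd1, hd2, he1, he2, top, pos]) (by linarith only [o0, o1, o2, o3, o4, hU1, hU2, hb1, hb2, hd1, hd2, he1, he2, top, pos])
  have pb2 : 0 ≤ ((1/3) - y2) * ((8/9) - (y0 + y1)) := mul_nonneg (by linarith only [o0, o1, o2, o3, o4, hU1, hU2, hb1, hb2, hd1, hd2, he1, he2, top, pos]) (by linarith only [o0, o1, o2, o3, o4, hU1, hU2, hb1, hb2, hd1, hd2, he1, he2, top, pos])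
  have pb3 : 0 ≤ (y2 - (1/20)) * ((1/3) - y2) := mul_nonneg (by linarith only [o0, o1, o2, o3, o4, hU1, hU2, hb1, hb2, hd1, hd2, he1, he2, top, pos]) (by linarith only [o0, o1, o2, o3, o4, hU1, hU2, hb1, hb2, hd1, hd2, he1, he2, top, pos])
  have r1a : (1/10) * (y0 + y1) + (17/60) * y2 - (6209/450) * y5 ≤ (1/60) := by
    linarith only [q1, pK, pb1, pb3]
  have r1b : (2/3) * (y0 + y1) + (251/180) * y2 - (6209/450) * y5 ≤ (311/540) := by
    linarith only [q1, pK, pb2, pb3]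
  have pL : 0 ≤ (1 - (9/16) * (y0 + 3 * y1)) * y5 := mul_nonneg (by linarith only [o0, o1, o2, o3, o4, hU1, hU2, hb1, hb2, hd1, hd2, he1, he2, top, pos]) (by linarith only [o0, o1, o2, o3, o4, hU1, hU2, hb1, hb2, hd1, hd2, he1, he2, top, pos])
  have pd1 : 0 ≤ (y3 - (3/20)) * (y1 + y2 - (1/10)) := mul_nonneg (by linarith only [o0, o1, o2, o3, o4, hU1, hU2, hb1, hb2, hd1, hd2, he1, he2, top, pos]) (by linarith only [o0, o1, o2, o3, o4, hU1, hU2, hb1, hb2, hd1, hd2, he1, he2, top, pos])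
  have pd2 : 0 ≤ ((1/4) - y3) * ((7/9) - (y1 + y2)) := mul_nonneg (by linarith only [o0, o1, o2, o3, o4, hU1, hU2, hb1, hb2, hd1, hd2, he1, he2, top, pos]) (by linarith only [o0, o1, o2, o3, o4, hU1, hU2, hb1, hb2, hd1, hd2, he1, he2, top, pos])
  have pd3 : 0 ≤ (y3 - (3/20)) * ((1/4) - y3) := mul_nonneg (by linarith only [o0, o1, o2, o3, o4, hU1, hU2, hb1, hb2, hd1, hd2, he1, he2, top, pos]) (by linarith only [o0, o1, o2, o3, o4, hU1, hU2, hb1, hb2, hd1, hd2, he1, he2, top, pos])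
  have rBa : (3/10) * (y1 + y2) + (-1/5) * y3 - (421/50) * y5 ≤ (-3/400) := by
    linarith only [qb, pL, pd1, pd3]
  have rBb : (1/2) * (y1 + y2) + (52/45) * y3 - (421/50) * y5 ≤ (253/720) := by
    linarith only [qb, pL, pd2, pd3]
  have ht : (3/400) ≤ y5 := by linarith only [o0, o1, o2, o3, o4, hU1, hU2, hb1, hb2, hd1, hd2, he1, he2, top, pos, sum, r1a, r1b, rBa, rBb]
  have z0 := c0.l10 (by linarith only [o0, o1, o2, o3, o4, hU1, hU2, hb1, hb2, hd1, hd2, he1, he2, top, pos, ht])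
  have z1 := c0.l11 (by linarith only [o0, o1, o2, o3, o4, hU1, hU2, hb1, hb2, hd1, hd2, he1, he2, top, pos, ht])
  have z2 := c1.l7 (by linarith only [o0, o1, o2, o3, o4, hU1, hU2, hb1, hb2, hd1, hd2, he1, he2, top, pos, ht])
  have z3 := c2.l7 (by linarith only [o0, o1, o2, o3, o4, hU1, hU2, hb1, hb2, hd1, hd2, he1, he2, top, pos, ht])
  have z4 := c3.l1 (by linarith only [o0, o1, o2, o3, o4, hU1, hU2, hb1, hb2, hd1, hd2, he1, he2, top, pos, ht])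
  have z5 := c4.l104 (by linarith only [o0, o1, o2, o3, o4, hU1, hU2, hb1, hb2, hd1, hd2, he1, he2, top, pos, ht]) (by linarith only [o0, o1, o2, o3, o4, hU1, hU2, hb1, hb2, hd1, hd2, he1, he2, top, pos, ht])
  have z6 := c5.l104 (by linarith only [o0, o1, o2, o3, o4, hU1, hU2, hb1, hb2, hd1, hd2, he1, he2, top, pos, ht]) (by linarith only [o0, o1, o2, o3, o4, hU1, hU2, hb1, hb2, hd1, hd2, he1, he2, top, pos, ht])
  linarith only [z0, z1, z2, z3, z4, z5, z6, o0, o1, o2, o3, o4, hU1, hU2, hb1, hb2, hd1, hd2, he1, he2, top, pos, ht, sum, msum, r1a, r1b, rBa, rBb]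

theorem N6.leaf4 {y0 y1 y2 y3 y4 y5 m0 m1 m2 m3 m4 m5 : ℝ} (h : N6 y0 y1 y2 y3 y4 y5 m0 m1 m2 m3 m4 m5)
    (hU1 : (1/3) ≤ y0 + y1) (hU2 : y0 + y1 ≤ (8/9)) (hb1 : (1/20) ≤ y2) (hb2 : y2 ≤ (1/3))
    (hd1 : 0 ≤ y3) (hd2 : y3 ≤ (1/25)) (he1 : (1/25) ≤ y4) (he2 : y4 ≤ (1/5)) : False := by
  obtain ⟨o0, o1, o2, o3, o4, pos, top, sum, msum, q1, q2, q3, qb, c0, c1, c2, c3, c4, c5⟩ := h
  have pK : 0 ≤ ((16/9) - (y0 + 3 * y1)) * y5 := mul_nonneg (by linarith only [o0, o1, o2, o3, o4, hU1, hU2, hb1, hb2, hd1, hd2, he1, he2, top, pos]) pos.le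
  have pb1 : 0 ≤ (y2 - (1/20)) * (y0 + y1 - (1/3)) := mul_nonneg (by linarith only [o0, o1, o2, o3, o4, hU1, hU2, hb1, hb2, hd1, hd2, he1, he2, top, pos]) (by linarith only [o0, o1, o2, o3, o4, hU1, hU2, hb1, hb2, hd1, hd2, he1, he2, top, pos])
  have pb2 : 0 ≤ ((1/3) - y2) * ((8/9) - (y0 + y1)) := mul_nonneg (by linarith only [o0, o1, o2, o3, o4, hU1, hU2, hb1, hb2, hd1, hd2, he1, he2, top, pos]) (by linarith only [o0, o1, o2, o3, o4, hU1, hU2, hb1, hb2, hd1, hd2, he1, he2, top, pos])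
  have pb3 : 0 ≤ (y2 - (1/20)) * ((1/3) - y2) := mul_nonneg (by linarith only [o0, o1, o2, o3, o4, hU1, hU2, hb1, hb2, hd1, hd2, he1, he2, top, pos]) (by linarith only [o0, o1, o2, o3, o4, hU1, hU2, hb1, hb2, hd1, hd2, he1, he2, top, pos])
  have r1a : (1/10) * (y0 + y1) + (17/60) * y2 - (6209/450) * y5 ≤ (1/60) := by
    linarith only [q1, pK, pb1, pb3]
  have r1b : (2/3) * (y0 + y1) + (251/180) * y2 - (6209/450) * y5 ≤ (311/540) := by
    linarith only [q1, pK, pb2, pb3]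
  have pL : 0 ≤ (1 - (9/16) * (y0 + 3 * y1)) * y5 := mul_nonneg (by linarith only [o0, o1, o2, o3, o4, hU1, hU2, hb1, hb2, hd1, hd2, he1, he2, top, pos]) (by linarith only [o0, o1, o2, o3, o4, hU1, hU2, hb1, hb2, hd1, hd2, he1, he2, top, pos])
  have pd1 : 0 ≤ (y3 - 0) * (y1 + y2 - (1/10)) := mul_nonneg (by linarith only [o0, o1, o2, o3, o4, hU1, hU2, hb1, hb2, hd1, hd2, he1, he2, top, pos]) (by linarith only [o0, o1, o2, o3, o4, hU1, hU2, hb1, hb2, hd1, hd2, he1, he2, top, pos])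
  have pd2 : 0 ≤ ((1/25) - y3) * ((7/9) - (y1 + y2)) := mul_nonneg (by linarith only [o0, o1, o2, o3, o4, hU1, hU2, hb1, hb2, hd1, hd2, he1, he2, top, pos]) (by linarith only [o0, o1, o2, o3, o4, hU1, hU2, hb1, hb2, hd1, hd2, he1, he2, top, pos])
  have pd3 : 0 ≤ (y3 - 0) * ((1/25) - y3) := mul_nonneg (by linarith only [o0, o1, o2, o3, o4, hU1, hU2, hb1, hb2, hd1, hd2, he1, he2, top, pos]) (by linarith only [o0, o1, o2, o3, o4, hU1, hU2, hb1, hb2, hd1, hd2, he1, he2, top, pos])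
  have rBa : 0 * (y1 + y2) + (4/25) * y3 - (421/50) * y5 ≤ 0 := by
    linarith only [qb, pL, pd1, pd3]
  have rBb : (2/25) * (y1 + y2) + (341/225) * y3 - (421/50) * y5 ≤ (14/225) := by
    linarith only [qb, pL, pd2, pd3]
  have ht : (1/200) ≤ y5 := by linarith only [o0, o1, o2, o3, o4, hU1, hU2, hb1, hb2, hd1, hd2, he1, he2, top, pos, sum, r1a, r1b, rBa, rBb]
  have z0 := c0.l10 (by linarith only [o0, o1, o2, o3, o4, hU1, hU2, hb1, hb2, hd1, hd2, he1, he2, top, pos, ht])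
  have z1 := c1.l10 (by linarith only [o0, o1, o2, o3, o4, hU1, hU2, hb1, hb2, hd1, hd2, he1, he2, top, pos, ht])
  have z2 := c2.l9 (by linarith only [o0, o1, o2, o3, o4, hU1, hU2, hb1, hb2, hd1, hd2, he1, he2, top, pos, ht])
  have z3 := c2.l10 (by linarith only [o0, o1, o2, o3, o4, hU1, hU2, hb1, hb2, hd1, hd2, he1, he2, top, pos, ht])
  have z4 := c3.l29 (by linarith only [o0, o1, o2, o3, o4, hU1, hU2, hb1, hb2, hd1, hd2, he1, he2, top, pos, ht])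
  have z5 := c4.l7 (by linarith only [o0, o1, o2, o3, o4, hU1, hU2, hb1, hb2, hd1, hd2, he1, he2, top, pos, ht])
  have z6 := c5.l12 (by linarith only [o0, o1, o2, o3, o4, hU1, hU2, hb1, hb2, hd1, hd2, he1, he2, top, pos, ht])
  linarith only [z0, z1, z2, z3, z4, z5, z6, o0, o1, o2, o3, o4, hU1, hU2, hb1, hb2, hd1, hd2, he1, he2, top, pos, ht, sum, msum, r1a, r1b, rBa, rBb]

theorem N6.leaf5 {y0 y1 y2 y3 y4 y5 m0 m1 m2 m3 m4 m5 : ℝ} (h : N6 y0 y1 y2 y3 y4 y5 m0 m1 m2 m3 m4 m5)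
    (hU1 : (1/3) ≤ y0 + y1) (hU2 : y0 + y1 ≤ (8/9)) (hb1 : (1/20) ≤ y2) (hb2 : y2 ≤ (1/3))
    (hd1 : (1/25) ≤ y3) (hd2 : y3 ≤ (1/4)) (he1 : (1/25) ≤ y4) (he2 : y4 ≤ (1/5)) : False := by
  obtain ⟨o0, o1, o2, o3, o4, pos, top, sum, msum, q1, q2, q3, qb, c0, c1, c2, c3, c4, c5⟩ := h
  have pK : 0 ≤ ((16/9) - (y0 + 3 * y1)) * y5 := mul_nonneg (by linarith only [o0, o1, o2, o3, o4, hU1, hU2, hb1, hb2, hd1, hd2, he1, he2, top, pos]) pos.le
  have pb1 : 0 ≤ (y2 - (1/20)) * (y0 + y1 - (1/3)) := mul_nonneg (by linarith only [o0, o1, o2, o3, o4, hU1, hU2, hb1, hb2, hd1, hd2, he1, he2, top, pos]) (by linarith only [o0, o1, o2, o3, o4, hU1, hU2, hb1, hb2, hd1, hd2, he1, he2, top, pos])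
  have pb2 : 0 ≤ ((1/3) - y2) * ((8/9) - (y0 + y1)) := mul_nonneg (by linarith only [o0, o1, o2, o3, o4, hU1, hU2, hb1, hb2, hd1, hd2, he1, he2, top, pos]) (by linarith only [o0, o1, o2, o3, o4, hU1, hU2, hb1, hb2, hd1, hd2, he1, he2, top, pos])
  have pb3 : 0 ≤ (y2 - (1/20)) * ((1/3) - y2) := mul_nonneg (by linarith only [o0, o1, o2, o3, o4, hU1, hU2, hb1, hb2, hd1, hd2, he1, he2, top, pos]) (by linarith only [o0, o1, o2, o3, o4, hU1, hU2, hb1, hb2, hd1, hd2, he1, he2, top, pos])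
  have r1a : (1/10) * (y0 + y1) + (17/60) * y2 - (6209/450) * y5 ≤ (1/60) := by
    linarith only [q1, pK, pb1, pb3]
  have r1b : (2/3) * (y0 + y1) + (251/180) * y2 - (6209/450) * y5 ≤ (311/540) := by
    linarith only [q1, pK, pb2, pb3]
  have pL : 0 ≤ (1 - (9/16) * (y0 + 3 * y1)) * y5 := mul_nonneg (by linarith only [o0, o1, o2, o3, o4, hU1, hU2, hb1, hb2, hd1, hd2, he1, he2, top, pos]) (by linarith only [o0, o1, o2, o3, o4, hU1, hU2, hb1, hb2, hd1, hd2, he1, he2, top, pos])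
  have pd1 : 0 ≤ (y3 - (1/25)) * (y1 + y2 - (1/10)) := mul_nonneg (by linarith only [o0, o1, o2, o3, o4, hU1, hU2, hb1, hb2, hd1, hd2, he1, he2, top, pos]) (by linarith only [o0, o1, o2, o3, o4, hU1, hU2, hb1, hb2, hd1, hd2, he1, he2, top, pos])
  have pd2 : 0 ≤ ((1/4) - y3) * ((7/9) - (y1 + y2)) := mul_nonneg (by linarith only [o0, o1, o2, o3, o4, hU1, hU2, hb1, hb2, hd1, hd2, he1, he2, top, pos]) (by linarith only [o0, o1, o2, o3, o4, hU1, hU2, hb1, hb2, hd1, hd2, he1, he2, top, pos])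
  have pd3 : 0 ≤ (y3 - (1/25)) * ((1/4) - y3) := mul_nonneg (by linarith only [o0, o1, o2, o3, o4, hU1, hU2, hb1, hb2, hd1, hd2, he1, he2, top, pos]) (by linarith only [o0, o1, o2, o3, o4, hU1, hU2, hb1, hb2, hd1, hd2, he1, he2, top, pos])
  have rBa : (2/25) * (y1 + y2) + (-9/100) * y3 - (421/50) * y5 ≤ (-1/500) := by
    linarith only [qb, pL, pd1, pd3]
  have rBb : (1/2) * (y1 + y2) + (1139/900) * y3 - (421/50) * y5 ≤ (341/900) := by
    linarith only [qb, pL, pd2, pd3]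
  have ht : (1/200) ≤ y5 := by linarith only [o0, o1, o2, o3, o4, hU1, hU2, hb1, hb2, hd1, hd2, he1, he2, top, pos, sum, r1a, r1b, rBa, rBb]
  have z0 := c0.l6 (by linarith only [o0, o1, o2, o3, o4, hU1, hU2, hb1, hb2, hd1, hd2, he1, he2, top, pos, ht])
  have z1 := c0.l7 (by linarith only [o0, o1, o2, o3, o4, hU1, hU2, hb1, hb2, hd1, hd2, he1, he2, top, pos, ht])
  have z2 := c1.l7 (by linarith only [o0, o1, o2, o3, o4, hU1, hU2, hb1, hb2, hd1, hd2, he1, he2, top, pos, ht])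
  have z3 := c2.l7 (by linarith only [o0, o1, o2, o3, o4, hU1, hU2, hb1, hb2, hd1, hd2, he1, he2, top, pos, ht])
  have z4 := c3.l7 (by linarith only [o0, o1, o2, o3, o4, hU1, hU2, hb1, hb2, hd1, hd2, he1, he2, top, pos, ht])
  have z5 := c4.l7 (by linarith only [o0, o1, o2, o3, o4, hU1, hU2, hb1, hb2, hd1, hd2, he1, he2, top, pos, ht])
  have z6 := c5.l12 (by linarith only [o0, o1, o2, o3, o4, hU1, hU2, hb1, hb2, hd1, hd2, he1, he2, top, pos, ht])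
  linarith only [z0, z1, z2, z3, z4, z5, z6, o0, o1, o2, o3, o4, hU1, hU2, hb1, hb2, hd1, hd2, he1, he2, top, pos, ht, sum, msum, r1a, r1b, rBa, rBb]

theorem N6.false {y0 y1 y2 y3 y4 y5 m0 m1 m2 m3 m4 m5 : ℝ} (h : N6 y0 y1 y2 y3 y4 y5 m0 m1 m2 m3 m4 m5) : False := by
  have ao0 := h.o0
  have ao1 := h.o1
  have ao2 := h.o2
  have ao3 := h.o3
  have ao4 := h.o4
  have apos := h.pos
  have atop := h.top
  have asum := h.sum
  rcases le_total y2 (1/20) with h1 | h1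
  · exact h.leaf0 (by linarith) (by linarith) (by linarith) (by linarith) (by linarith) (by linarith) (by linarith) (by linarith)
  · rcases le_total y4 (1/25) with h2 | h2
    · rcases le_total y3 (3/20) with h3 | h3
      · rcases le_total y2 (1/5) with h4 | h4
        · exact h.leaf1 (by linarith) (by linarith) (by linarith) (by linarith) (by linarith) (by linarith) (by linarith) (by linarith)
        · exact h.leaf2 (by linarith) (by linarith) (by linarith) (by linarith) (by linarith) (by linarith) (by linarith) (by linarith)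
      · exact h.leaf3 (by linarith) (by linarith) (by linarith) (by linarith) (by linarith) (by linarith) (by linarith) (by linarith)
    · rcases le_total y3 (1/25) with h5 | h5
      · exact h.leaf4 (by linarith) (by linarith) (by linarith) (by linarith) (by linarith) (by linarith) (by linarith) (by linarith)
      · exact h.leaf5 (by linarith) (by linarith) (by linarith) (by linarith) (by linarith) (by linarith) (by linarith) (by linarith)

end Crest.Agent.S0334
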