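import Crest.Agent.S0334_L7

set_option autoImplicit false
set_option maxHeartbeats 1000000
set_option linter.unusedVariables false

namespace Crest.Agent.S0334

/-! ### N7: the numerical contradiction (case 7); generated by a branch and bound search -/

structure N7 (y0 y1 y2 y3 y4 y5 y6 m0 m1 m2 m3 m4 m5 m6 : ℝ) : Prop where
  o0 : y1 ≤ y0
  o1 : y2 ≤ y1
  o2 : y3 ≤ y2
  o3 : y4 ≤ y3
  o4 : y5 ≤ y4
  o5 : y6 ≤ y5
  pos : 0 < y6
  top : y0 ≤ 4/9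
  sum : y0 + y1 + y2 + y3 + y4 + y5 + y6 = 1
  msum : m0 + m1 + m2 + m3 + m4 + m5 + m6 = 1
  q1 : y2 * (2 * (y0 + y1) - y2) ≤ ((263/20) + (y0 + 3 * y1)) * y6
  q2 : y0 + y1 ≤ 1/2 → y2 * (3 * (y0 + y1) - 1/2) ≤ ((263/20) + (y0 + 3 * y1)) * y6
  q3 : 1/2 ≤ y0 + y1 → 2 * y2 * (y0 + y1) ≤ ((263/20) + (y0 + 3 * y1)) * y6
  qb : y3 * (2 * (y1 + y2) - y3) ≤ ((821/100) + (9/16) * (y0 + 3 * y1)) * y6
  c0 : L7 y0 m0
  c1 : L7 y1 m1
  c2 : L7 y2 m2
  c3 : L7 y3 m3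
  c4 : L7 y4 m4
  c5 : L7 y5 m5
  c6 : L7 y6 m6

theorem N7.leaf0 {y0 y1 y2 y3 y4 y5 y6 m0 m1 m2 m3 m4 m5 m6 : ℝ} (h : N7 y0 y1 y2 y3 y4 y5 y6 m0 m1 m2 m3 m4 m5 m6)
    (hU1 : (2/7) ≤ y0 + y1) (hU2 : y0 + y1 ≤ (8/9)) (hb1 : 0 ≤ y2) (hb2 : y2 ≤ (1/20))
    (hd1 : 0 ≤ y3) (hd2 : y3 ≤ (1/10)) (he1 : 0 ≤ y4) (he2 : y4 ≤ (1/5)) : False := by
  obtain ⟨o0, o1, o2, o3, o4, o5, pos, top, sum, msum, q1, q2, q3, qb, c0, c1, c2, c3, c4, c5, c6⟩ := h
  have pK : 0 ≤ ((16/9) - (y0 + 3 * y1)) * y6 := mul_nonneg (by linarith only [o0, o1, o2, o3, o4, o5, hU1, hU2, hb1, hb2, hd1, hd2, he1, he2, top, pos]) pos.le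
  have pb1 : 0 ≤ (y2 - 0) * (y0 + y1 - (2/7)) := mul_nonneg (by linarith only [o0, o1, o2, o3, o4, o5, hU1, hU2, hb1, hb2, hd1, hd2, he1, he2, top, pos]) (by linarith only [o0, o1, o2, o3, o4, o5, hU1, hU2, hb1, hb2, hd1, hd2, he1, he2, top, pos])
  have pb2 : 0 ≤ ((1/20) - y2) * ((8/9) - (y0 + y1)) := mul_nonneg (by linarith only [o0, o1, o2, o3, o4, o5, hU1, hU2, hb1, hb2, hd1, hd2, he1, he2, top, pos]) (by linarith only [o0, o1, o2, o3, o4, o5, hU1, hU2, hb1, hb2, hd1, hd2, he1, he2, top, pos])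
  have pb3 : 0 ≤ (y2 - 0) * ((1/20) - y2) := mul_nonneg (by linarith only [o0, o1, o2, o3, o4, o5, hU1, hU2, hb1, hb2, hd1, hd2, he1, he2, top, pos]) (by linarith only [o0, o1, o2, o3, o4, o5, hU1, hU2, hb1, hb2, hd1, hd2, he1, he2, top, pos])
  have r1a : 0 * (y0 + y1) + (73/140) * y2 - (2687/180) * y6 ≤ 0 := by
    linarith only [q1, pK, pb1, pb3]
  have r1b : (1/10) * (y0 + y1) + (311/180) * y2 - (2687/180) * y6 ≤ (4/45) := by
    linarith only [q1, pK, pb2, pb3]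
  have pL : 0 ≤ (1 - (9/16) * (y0 + 3 * y1)) * y6 := mul_nonneg (by linarith only [o0, o1, o2, o3, o4, o5, hU1, hU2, hb1, hb2, hd1, hd2, he1, he2, top, pos]) (by linarith only [o0, o1, o2, o3, o4, o5, hU1, hU2, hb1, hb2, hd1, hd2, he1, he2, top, pos])
  have pd1 : 0 ≤ (y3 - 0) * (y1 + y2 - 0) := mul_nonneg (by linarith only [o0, o1, o2, o3, o4, o5, hU1, hU2, hb1, hb2, hd1, hd2, he1, he2, top, pos]) (by linarith only [o0, o1, o2, o3, o4, o5, hU1, hU2, hb1, hb2, hd1, hd2, he1, he2, top, pos])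
  have pd2 : 0 ≤ ((1/10) - y3) * ((89/180) - (y1 + y2)) := mul_nonneg (by linarith only [o0, o1, o2, o3, o4, o5, hU1, hU2, hb1, hb2, hd1, hd2, he1, he2, top, pos]) (by linarith only [o0, o1, o2, o3, o4, o5, hU1, hU2, hb1, hb2, hd1, hd2, he1, he2, top, pos])
  have pd3 : 0 ≤ (y3 - 0) * ((1/10) - y3) := mul_nonneg (by linarith only [o0, o1, o2, o3, o4, o5, hU1, hU2, hb1, hb2, hd1, hd2, he1, he2, top, pos]) (by linarith only [o0, o1, o2, o3, o4, o5, hU1, hU2, hb1, hb2, hd1, hd2, he1, he2, top, pos])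
  have rBa : 0 * (y1 + y2) + (-1/10) * y3 - (921/100) * y6 ≤ 0 := by
    linarith only [qb, pL, pd1, pd3]
  have rBb : (1/5) * (y1 + y2) + (8/9) * y3 - (921/100) * y6 ≤ (89/900) := by
    linarith only [qb, pL, pd2, pd3]
  have ht : (3/1000) ≤ y6 := by linarith only [o0, o1, o2, o3, o4, o5, hU1, hU2, hb1, hb2, hd1, hd2, he1, he2, top, pos, sum, r1a, r1b, rBa, rBb]
  have z0 := c0.l16 (by linarith only [o0, o1, o2, o3, o4, o5, hU1, hU2, hb1, hb2, hd1, hd2, he1, he2, top, pos, ht])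
  have z1 := c1.l16 (by linarith only [o0, o1, o2, o3, o4, o5, hU1, hU2, hb1, hb2, hd1, hd2, he1, he2, top, pos, ht])
  have z2 := c2.l31 (by linarith only [o0, o1, o2, o3, o4, o5, hU1, hU2, hb1, hb2, hd1, hd2, he1, he2, top, pos, ht])
  have z3 := c3.l67 (by linarith only [o0, o1, o2, o3, o4, o5, hU1, hU2, hb1, hb2, hd1, hd2, he1, he2, top, pos, ht]) (by linarith only [o0, o1, o2, o3, o4, o5, hU1, hU2, hb1, hb2, hd1, hd2, he1, he2, top, pos, ht])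
  have z4 := c4.l12 (by linarith only [o0, o1, o2, o3, o4, o5, hU1, hU2, hb1, hb2, hd1, hd2, he1, he2, top, pos, ht])
  have z5 := c5.l12 (by linarith only [o0, o1, o2, o3, o4, o5, hU1, hU2, hb1, hb2, hd1, hd2, he1, he2, top, pos, ht])
  have z6 := c6.l12 (by linarith only [o0, o1, o2, o3, o4, o5, hU1, hU2, hb1, hb2, hd1, hd2, he1, he2, top, pos, ht])
  linarith only [z0, z1, z2, z3, z4, z5, z6, o0, o1, o2, o3, o4, o5, hU1, hU2, hb1, hb2, hd1, hd2, he1, he2, top, pos, ht, sum, msum, r1a, r1b, rBa, rBb]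

theorem N7.leaf1 {y0 y1 y2 y3 y4 y5 y6 m0 m1 m2 m3 m4 m5 m6 : ℝ} (h : N7 y0 y1 y2 y3 y4 y5 y6 m0 m1 m2 m3 m4 m5 m6)
    (hU1 : (2/7) ≤ y0 + y1) (hU2 : y0 + y1 ≤ (8/9)) (hb1 : 0 ≤ y2) (hb2 : y2 ≤ (1/20))
    (hd1 : (1/10) ≤ y3) (hd2 : y3 ≤ (1/4)) (he1 : 0 ≤ y4) (he2 : y4 ≤ (1/5)) : False := by
  obtain ⟨o0, o1, o2, o3, o4, o5, pos, top, sum, msum, q1, q2, q3, qb, c0, c1, c2, c3, c4, c5, c6⟩ := h
  have pK : 0 ≤ ((16/9) - (y0 + 3 * y1)) * y6 := mul_nonneg (by linarith only [o0, o1, o2, o3, o4, o5, hU1, hU2, hb1, hb2, hd1, hd2, he1, he2, top, pos]) pos.le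
  have pb1 : 0 ≤ (y2 - 0) * (y0 + y1 - (2/7)) := mul_nonneg (by linarith only [o0, o1, o2, o3, o4, o5, hU1, hU2, hb1, hb2, hd1, hd2, he1, he2, top, pos]) (by linarith only [o0, o1, o2, o3, o4, o5, hU1, hU2, hb1, hb2, hd1, hd2, he1, he2, top, pos])
  have pb2 : 0 ≤ ((1/20) - y2) * ((8/9) - (y0 + y1)) := mul_nonneg (by linarith only [o0, o1, o2, o3, o4, o5, hU1, hU2, hb1, hb2, hd1, hd2, he1, he2, top, pos]) (by linarith only [o0, o1, o2, o3, o4, o5, hU1, hU2, hb1, hb2, hd1, hd2, he1, he2, top, pos])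
  have pb3 : 0 ≤ (y2 - 0) * ((1/20) - y2) := mul_nonneg (by linarith only [o0, o1, o2, o3, o4, o5, hU1, hU2, hb1, hb2, hd1, hd2, he1, he2, top, pos]) (by linarith only [o0, o1, o2, o3, o4, o5, hU1, hU2, hb1, hb2, hd1, hd2, he1, he2, top, pos])
  have r1a : 0 * (y0 + y1) + (73/140) * y2 - (2687/180) * y6 ≤ 0 := by
    linarith only [q1, pK, pb1, pb3]
  have r1b : (1/10) * (y0 + y1) + (311/180) * y2 - (2687/180) * y6 ≤ (4/45) := by
    linarith only [q1, pK, pb2, pb3]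
  have pL : 0 ≤ (1 - (9/16) * (y0 + 3 * y1)) * y6 := mul_nonneg (by linarith only [o0, o1, o2, o3, o4, o5, hU1, hU2, hb1, hb2, hd1, hd2, he1, he2, top, pos]) (by linarith only [o0, o1, o2, o3, o4, o5, hU1, hU2, hb1, hb2, hd1, hd2, he1, he2, top, pos])
  have pd1 : 0 ≤ (y3 - (1/10)) * (y1 + y2 - 0) := mul_nonneg (by linarith only [o0, o1, o2, o3, o4, o5, hU1, hU2, hb1, hb2, hd1, hd2, he1, he2, top, pos]) (by linarith only [o0, o1, o2, o3, o4, o5, hU1, hU2, hb1, hb2, hd1, hd2, he1, he2, top, pos])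
  have pd2 : 0 ≤ ((1/4) - y3) * ((89/180) - (y1 + y2)) := mul_nonneg (by linarith only [o0, o1, o2, o3, o4, o5, hU1, hU2, hb1, hb2, hd1, hd2, he1, he2, top, pos]) (by linarith only [o0, o1, o2, o3, o4, o5, hU1, hU2, hb1, hb2, hd1, hd2, he1, he2, top, pos])
  have pd3 : 0 ≤ (y3 - (1/10)) * ((1/4) - y3) := mul_nonneg (by linarith only [o0, o1, o2, o3, o4, o5, hU1, hU2, hb1, hb2, hd1, hd2, he1, he2, top, pos]) (by linarith only [o0, o1, o2, o3, o4, o5, hU1, hU2, hb1, hb2, hd1, hd2, he1, he2, top, pos])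
  have rBa : (1/5) * (y1 + y2) + (-7/20) * y3 - (921/100) * y6 ≤ (-1/40) := by
    linarith only [qb, pL, pd1, pd3]
  have rBb : (1/2) * (y1 + y2) + (23/36) * y3 - (921/100) * y6 ≤ (2/9) := by
    linarith only [qb, pL, pd2, pd3]
  linarith only [o0, o1, o2, o3, o4, o5, hU1, hU2, hb1, hb2, hd1, hd2, he1, he2, top, pos, sum, r1a, r1b, rBa, rBb]

theorem N7.leaf2 {y0 y1 y2 y3 y4 y5 y6 m0 m1 m2 m3 m4 m5 m6 : ℝ} (h : N7 y0 y1 y2 y3 y4 y5 y6 m0 m1 m2 m3 m4 m5 m6)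
    (hU1 : (2/7) ≤ y0 + y1) (hU2 : y0 + y1 ≤ (1/2)) (hb1 : (1/20) ≤ y2) (hb2 : y2 ≤ (1/3))
    (hd1 : 0 ≤ y3) (hd2 : y3 ≤ (1/4)) (he1 : 0 ≤ y4) (he2 : y4 ≤ (1/20)) : False := by
  obtain ⟨o0, o1, o2, o3, o4, o5, pos, top, sum, msum, q1, q2, q3, qb, c0, c1, c2, c3, c4, c5, c6⟩ := h
  have pK : 0 ≤ (1 - (y0 + 3 * y1)) * y6 := mul_nonneg (by linarith only [o0, o1, o2, o3, o4, o5, hU1, hU2, hb1, hb2, hd1, hd2, he1, he2, top, pos]) pos.le
  have pb1 : 0 ≤ (y2 - (1/20)) * (y0 + y1 - (2/7)) := mul_nonneg (by linarith only [o0, o1, o2, o3, o4, o5, hU1, hU2, hb1, hb2, hd1, hd2, he1, he2, top, pos]) (by linarith only [o0, o1, o2, o3, o4, o5, hU1, hU2, hb1, hb2, hd1, hd2, he1, he2, top, pos])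
  have pb2 : 0 ≤ ((1/3) - y2) * ((1/2) - (y0 + y1)) := mul_nonneg (by linarith only [o0, o1, o2, o3, o4, o5, hU1, hU2, hb1, hb2, hd1, hd2, he1, he2, top, pos]) (by linarith only [o0, o1, o2, o3, o4, o5, hU1, hU2, hb1, hb2, hd1, hd2, he1, he2, top, pos])
  have pb3 : 0 ≤ (y2 - (1/20)) * ((1/3) - y2) := mul_nonneg (by linarith only [o0, o1, o2, o3, o4, o5, hU1, hU2, hb1, hb2, hd1, hd2, he1, he2, top, pos]) (by linarith only [o0, o1, o2, o3, o4, o5, hU1, hU2, hb1, hb2, hd1, hd2, he1, he2, top, pos])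
  have r1a : (1/10) * (y0 + y1) + (79/420) * y2 - (283/20) * y6 ≤ (1/84) := by
    linarith only [q1, pK, pb1, pb3]
  have r1b : (2/3) * (y0 + y1) + (37/60) * y2 - (283/20) * y6 ≤ (19/60) := by
    linarith only [q1, pK, pb2, pb3]
  have q2' := q2 (by linarith only [hU2])
  have r2a : (3/20) * (y0 + y1) + (5/14) * y2 - (283/20) * y6 ≤ (3/70) := by
    linarith only [q2', pK, pb1]
  have r2b : 1 * (y0 + y1) + 1 * y2 - (283/20) * y6 ≤ (1/2) := by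
    linarith only [q2', pK, pb2]
  have pL : 0 ≤ ((9/16) - (9/16) * (y0 + 3 * y1)) * y6 := mul_nonneg (by linarith only [o0, o1, o2, o3, o4, o5, hU1, hU2, hb1, hb2, hd1, hd2, he1, he2, top, pos]) (by linarith only [o0, o1, o2, o3, o4, o5, hU1, hU2, hb1, hb2, hd1, hd2, he1, he2, top, pos])
  have pd1 : 0 ≤ (y3 - 0) * (y1 + y2 - (1/10)) := mul_nonneg (by linarith only [o0, o1, o2, o3, o4, o5, hU1, hU2, hb1, hb2, hd1, hd2, he1, he2, top, pos]) (by linarith only [o0, o1, o2, o3, o4, o5, hU1, hU2, hb1, hb2, hd1, hd2, he1, he2, top, pos])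
  have pd2 : 0 ≤ ((1/4) - y3) * ((7/12) - (y1 + y2)) := mul_nonneg (by linarith only [o0, o1, o2, o3, o4, o5, hU1, hU2, hb1, hb2, hd1, hd2, he1, he2, top, pos]) (by linarith only [o0, o1, o2, o3, o4, o5, hU1, hU2, hb1, hb2, hd1, hd2, he1, he2, top, pos])
  have pd3 : 0 ≤ (y3 - 0) * ((1/4) - y3) := mul_nonneg (by linarith only [o0, o1, o2, o3, o4, o5, hU1, hU2, hb1, hb2, hd1, hd2, he1, he2, top, pos]) (by linarith only [o0, o1, o2, o3, o4, o5, hU1, hU2, hb1, hb2, hd1, hd2, he1, he2, top, pos])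
  have rBa : 0 * (y1 + y2) + (-1/20) * y3 - (3509/400) * y6 ≤ 0 := by
    linarith only [qb, pL, pd1, pd3]
  have rBb : (1/2) * (y1 + y2) + (11/12) * y3 - (3509/400) * y6 ≤ (7/24) := by
    linarith only [qb, pL, pd2, pd3]
  have ht : (1/80) ≤ y6 := by linarith only [o0, o1, o2, o3, o4, o5, hU1, hU2, hb1, hb2, hd1, hd2, he1, he2, top, pos, sum, r1a, r1b, r2a, r2b, rBa, rBb]
  have z0 := c0.l7 (by linarith only [o0, o1, o2, o3, o4, o5, hU1, hU2, hb1, hb2, hd1, hd2, he1, he2, top, pos, ht])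
  have z1 := c0.l8 (by linarith only [o0, o1, o2, o3, o4, o5, hU1, hU2, hb1, hb2, hd1, hd2, he1, he2, top, pos, ht])
  have z2 := c1.l7 (by linarith only [o0, o1, o2, o3, o4, o5, hU1, hU2, hb1, hb2, hd1, hd2, he1, he2, top, pos, ht])
  have z3 := c2.l7 (by linarith only [o0, o1, o2, o3, o4, o5, hU1, hU2, hb1, hb2, hd1, hd2, he1, he2, top, pos, ht])
  have z4 := c3.l11 (by linarith only [o0, o1, o2, o3, o4, o5, hU1, hU2, hb1, hb2, hd1, hd2, he1, he2, top, pos, ht])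
  have z5 := c4.l129 (by linarith only [o0, o1, o2, o3, o4, o5, hU1, hU2, hb1, hb2, hd1, hd2, he1, he2, top, pos, ht]) (by linarith only [o0, o1, o2, o3, o4, o5, hU1, hU2, hb1, hb2, hd1, hd2, he1, he2, top, pos, ht])
  have z6 := c5.l129 (by linarith only [o0, o1, o2, o3, o4, o5, hU1, hU2, hb1, hb2, hd1, hd2, he1, he2, top, pos, ht]) (by linarith only [o0, o1, o2, o3, o4, o5, hU1, hU2, hb1, hb2, hd1, hd2, he1, he2, top, pos, ht])
  have z7 := c6.l129 (by linarith only [o0, o1, o2, o3, o4, o5, hU1, hU2, hb1, hb2, hd1, hd2, he1, he2, top, pos, ht]) (by linarith only [o0, o1, o2, o3, o4, o5, hU1, hU2, hb1, hb2, hd1, hd2, he1, he2, top, pos, ht])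
  linarith only [z0, z1, z2, z3, z4, z5, z6, z7, o0, o1, o2, o3, o4, o5, hU1, hU2, hb1, hb2, hd1, hd2, he1, he2, top, pos, ht, sum, msum, r1a, r1b, r2a, r2b, rBa, rBb]

theorem N7.leaf3 {y0 y1 y2 y3 y4 y5 y6 m0 m1 m2 m3 m4 m5 m6 : ℝ} (h : N7 y0 y1 y2 y3 y4 y5 y6 m0 m1 m2 m3 m4 m5 m6)
    (hU1 : (1/2) ≤ y0 + y1) (hU2 : y0 + y1 ≤ (8/9)) (hb1 : (1/20) ≤ y2) (hb2 : y2 ≤ (1/3))
    (hd1 : 0 ≤ y3) (hd2 : y3 ≤ (1/10)) (he1 : 0 ≤ y4) (he2 : y4 ≤ (1/40)) : False := by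
  obtain ⟨o0, o1, o2, o3, o4, o5, pos, top, sum, msum, q1, q2, q3, qb, c0, c1, c2, c3, c4, c5, c6⟩ := h
  have pK : 0 ≤ ((16/9) - (y0 + 3 * y1)) * y6 := mul_nonneg (by linarith only [o0, o1, o2, o3, o4, o5, hU1, hU2, hb1, hb2, hd1, hd2, he1, he2, top, pos]) pos.le
  have pb1 : 0 ≤ (y2 - (1/20)) * (y0 + y1 - (1/2)) := mul_nonneg (by linarith only [o0, o1, o2, o3, o4, o5, hU1, hU2, hb1, hb2, hd1, hd2, he1, he2, top, pos]) (by linarith only [o0, o1, o2, o3, o4, o5, hU1, hU2, hb1, hb2, hd1, hd2, he1, he2, top, pos])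
  have pb2 : 0 ≤ ((1/3) - y2) * ((8/9) - (y0 + y1)) := mul_nonneg (by linarith only [o0, o1, o2, o3, o4, o5, hU1, hU2, hb1, hb2, hd1, hd2, he1, he2, top, pos]) (by linarith only [o0, o1, o2, o3, o4, o5, hU1, hU2, hb1, hb2, hd1, hd2, he1, he2, top, pos])
  have pb3 : 0 ≤ (y2 - (1/20)) * ((1/3) - y2) := mul_nonneg (by linarith only [o0, o1, o2, o3, o4, o5, hU1, hU2, hb1, hb2, hd1, hd2, he1, he2, top, pos]) (by linarith only [o0, o1, o2, o3, o4, o5, hU1, hU2, hb1, hb2, hd1, hd2, he1, he2, top, pos])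
  have r1a : (1/10) * (y0 + y1) + (37/60) * y2 - (2687/180) * y6 ≤ (1/30) := by
    linarith only [q1, pK, pb1, pb3]
  have r1b : (2/3) * (y0 + y1) + (251/180) * y2 - (2687/180) * y6 ≤ (311/540) := by
    linarith only [q1, pK, pb2, pb3]
  have q3' := q3 (by linarith only [hU1])
  have r3a : (1/10) * (y0 + y1) + 1 * y2 - (2687/180) * y6 ≤ (1/20) := by
    linarith only [q3', pK, pb1]
  have r3b : (2/3) * (y0 + y1) + (16/9) * y2 - (2687/180) * y6 ≤ (16/27) := by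
    linarith only [q3', pK, pb2]
  have pL : 0 ≤ (1 - (9/16) * (y0 + 3 * y1)) * y6 := mul_nonneg (by linarith only [o0, o1, o2, o3, o4, o5, hU1, hU2, hb1, hb2, hd1, hd2, he1, he2, top, pos]) (by linarith only [o0, o1, o2, o3, o4, o5, hU1, hU2, hb1, hb2, hd1, hd2, he1, he2, top, pos])
  have pd1 : 0 ≤ (y3 - 0) * (y1 + y2 - (19/180)) := mul_nonneg (by linarith only [o0, o1, o2, o3, o4, o5, hU1, hU2, hb1, hb2, hd1, hd2, he1, he2, top, pos]) (by linarith only [o0, o1, o2, o3, o4, o5, hU1, hU2, hb1, hb2, hd1, hd2, he1, he2, top, pos])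
  have pd2 : 0 ≤ ((1/10) - y3) * ((7/9) - (y1 + y2)) := mul_nonneg (by linarith only [o0, o1, o2, o3, o4, o5, hU1, hU2, hb1, hb2, hd1, hd2, he1, he2, top, pos]) (by linarith only [o0, o1, o2, o3, o4, o5, hU1, hU2, hb1, hb2, hd1, hd2, he1, he2, top, pos])
  have pd3 : 0 ≤ (y3 - 0) * ((1/10) - y3) := mul_nonneg (by linarith only [o0, o1, o2, o3, o4, o5, hU1, hU2, hb1, hb2, hd1, hd2, he1, he2, top, pos]) (by linarith only [o0, o1, o2, o3, o4, o5, hU1, hU2, hb1, hb2, hd1, hd2, he1, he2, top, pos])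
  have rBa : 0 * (y1 + y2) + (1/9) * y3 - (921/100) * y6 ≤ 0 := by
    linarith only [qb, pL, pd1, pd3]
  have rBb : (1/5) * (y1 + y2) + (131/90) * y3 - (921/100) * y6 ≤ (7/45) := by
    linarith only [qb, pL, pd2, pd3]
  have ht : (1/200) ≤ y6 := by linarith only [o0, o1, o2, o3, o4, o5, hU1, hU2, hb1, hb2, hd1, hd2, he1, he2, top, pos, sum, r1a, r1b, r3a, r3b, rBa, rBb]
  have z0 := c0.l13 (by linarith only [o0, o1, o2, o3, o4, o5, hU1, hU2, hb1, hb2, hd1, hd2, he1, he2, top, pos, ht])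
  have z1 := c0.l14 (by linarith only [o0, o1, o2, o3, o4, o5, hU1, hU2, hb1, hb2, hd1, hd2, he1, he2, top, pos, ht])
  have z2 := c1.l13 (by linarith only [o0, o1, o2, o3, o4, o5, hU1, hU2, hb1, hb2, hd1, hd2, he1, he2, top, pos, ht])
  have z3 := c1.l14 (by linarith only [o0, o1, o2, o3, o4, o5, hU1, hU2, hb1, hb2, hd1, hd2, he1, he2, top, pos, ht])
  have z4 := c2.l8 (by linarith only [o0, o1, o2, o3, o4, o5, hU1, hU2, hb1, hb2, hd1, hd2, he1, he2, top, pos, ht])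
  have z5 := c3.l96 (by linarith only [o0, o1, o2, o3, o4, o5, hU1, hU2, hb1, hb2, hd1, hd2, he1, he2, top, pos, ht]) (by linarith only [o0, o1, o2, o3, o4, o5, hU1, hU2, hb1, hb2, hd1, hd2, he1, he2, top, pos, ht])
  have z6 := c4.l90 (by linarith only [o0, o1, o2, o3, o4, o5, hU1, hU2, hb1, hb2, hd1, hd2, he1, he2, top, pos, ht]) (by linarith only [o0, o1, o2, o3, o4, o5, hU1, hU2, hb1, hb2, hd1, hd2, he1, he2, top, pos, ht])
  have z7 := c5.l90 (by linarith only [o0, o1, o2, o3, o4, o5, hU1, hU2, hb1, hb2, hd1, hd2, he1, he2, top, pos, ht]) (by linarith only [o0, o1, o2, o3, o4, o5, hU1, hU2, hb1, hb2, hd1, hd2, he1, he2, top, pos, ht])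
  have z8 := c6.l90 (by linarith only [o0, o1, o2, o3, o4, o5, hU1, hU2, hb1, hb2, hd1, hd2, he1, he2, top, pos, ht]) (by linarith only [o0, o1, o2, o3, o4, o5, hU1, hU2, hb1, hb2, hd1, hd2, he1, he2, top, pos, ht])
  linarith only [z0, z1, z2, z3, z4, z5, z6, z7, z8, o0, o1, o2, o3, o4, o5, hU1, hU2, hb1, hb2, hd1, hd2, he1, he2, top, pos, ht, sum, msum, r1a, r1b, r3a, r3b, rBa, rBb]

theorem N7.leaf4 {y0 y1 y2 y3 y4 y5 y6 m0 m1 m2 m3 m4 m5 m6 : ℝ} (h : N7 y0 y1 y2 y3 y4 y5 y6 m0 m1 m2 m3 m4 m5 m6)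
    (hU1 : (1/2) ≤ y0 + y1) (hU2 : y0 + y1 ≤ (8/9)) (hb1 : (1/20) ≤ y2) (hb2 : y2 ≤ (1/3))
    (hd1 : 0 ≤ y3) (hd2 : y3 ≤ (1/10)) (he1 : (1/40) ≤ y4) (he2 : y4 ≤ (1/20)) : False := by
  obtain ⟨o0, o1, o2, o3, o4, o5, pos, top, sum, msum, q1, q2, q3, qb, c0, c1, c2, c3, c4, c5, c6⟩ := h
  have pK : 0 ≤ ((16/9) - (y0 + 3 * y1)) * y6 := mul_nonneg (by linarith only [o0, o1, o2, o3, o4, o5, hU1, hU2, hb1, hb2, hd1, hd2, he1, he2, top, pos]) pos.le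
  have pb1 : 0 ≤ (y2 - (1/20)) * (y0 + y1 - (1/2)) := mul_nonneg (by linarith only [o0, o1, o2, o3, o4, o5, hU1, hU2, hb1, hb2, hd1, hd2, he1, he2, top, pos]) (by linarith only [o0, o1, o2, o3, o4, o5, hU1, hU2, hb1, hb2, hd1, hd2, he1, he2, top, pos])
  have pb2 : 0 ≤ ((1/3) - y2) * ((8/9) - (y0 + y1)) := mul_nonneg (by linarith only [o0, o1, o2, o3, o4, o5, hU1, hU2, hb1, hb2, hd1, hd2, he1, he2, top, pos]) (by linarith only [o0, o1, o2, o3, o4, o5, hU1, hU2, hb1, hb2, hd1, hd2, he1, he2, top, pos])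
  have pb3 : 0 ≤ (y2 - (1/20)) * ((1/3) - y2) := mul_nonneg (by linarith only [o0, o1, o2, o3, o4, o5, hU1, hU2, hb1, hb2, hd1, hd2, he1, he2, top, pos]) (by linarith only [o0, o1, o2, o3, o4, o5, hU1, hU2, hb1, hb2, hd1, hd2, he1, he2, top, pos])
  have r1a : (1/10) * (y0 + y1) + (37/60) * y2 - (2687/180) * y6 ≤ (1/30) := by
    linarith only [q1, pK, pb1, pb3]
  have r1b : (2/3) * (y0 + y1) + (251/180) * y2 - (2687/180) * y6 ≤ (311/540) := by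
    linarith only [q1, pK, pb2, pb3]
  have q3' := q3 (by linarith only [hU1])
  have r3a : (1/10) * (y0 + y1) + 1 * y2 - (2687/180) * y6 ≤ (1/20) := by
    linarith only [q3', pK, pb1]
  have r3b : (2/3) * (y0 + y1) + (16/9) * y2 - (2687/180) * y6 ≤ (16/27) := by
    linarith only [q3', pK, pb2]
  have pL : 0 ≤ (1 - (9/16) * (y0 + 3 * y1)) * y6 := mul_nonneg (by linarith only [o0, o1, o2, o3, o4, o5, hU1, hU2, hb1, hb2, hd1, hd2, he1, he2, top, pos]) (by linarith only [o0, o1, o2, o3, o4, o5, hU1, hU2, hb1, hb2, hd1, hd2, he1, he2, top, pos])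
  have pd1 : 0 ≤ (y3 - 0) * (y1 + y2 - (19/180)) := mul_nonneg (by linarith only [o0, o1, o2, o3, o4, o5, hU1, hU2, hb1, hb2, hd1, hd2, he1, he2, top, pos]) (by linarith only [o0, o1, o2, o3, o4, o5, hU1, hU2, hb1, hb2, hd1, hd2, he1, he2, top, pos])
  have pd2 : 0 ≤ ((1/10) - y3) * ((7/9) - (y1 + y2)) := mul_nonneg (by linarith only [o0, o1, o2, o3, o4, o5, hU1, hU2, hb1, hb2, hd1, hd2, he1, he2, top, pos]) (by linarith only [o0, o1, o2, o3, o4, o5, hU1, hU2, hb1, hb2, hd1, hd2, he1, he2, top, pos])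
  have pd3 : 0 ≤ (y3 - 0) * ((1/10) - y3) := mul_nonneg (by linarith only [o0, o1, o2, o3, o4, o5, hU1, hU2, hb1, hb2, hd1, hd2, he1, he2, top, pos]) (by linarith only [o0, o1, o2, o3, o4, o5, hU1, hU2, hb1, hb2, hd1, hd2, he1, he2, top, pos])
  have rBa : 0 * (y1 + y2) + (1/9) * y3 - (921/100) * y6 ≤ 0 := by
    linarith only [qb, pL, pd1, pd3]
  have rBb : (1/5) * (y1 + y2) + (131/90) * y3 - (921/100) * y6 ≤ (7/45) := by
    linarith only [qb, pL, pd2, pd3]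
  have ht : (1/200) ≤ y6 := by linarith only [o0, o1, o2, o3, o4, o5, hU1, hU2, hb1, hb2, hd1, hd2, he1, he2, top, pos, sum, r1a, r1b, r3a, r3b, rBa, rBb]
  have z0 := c0.l12 (by linarith only [o0, o1, o2, o3, o4, o5, hU1, hU2, hb1, hb2, hd1, hd2, he1, he2, top, pos, ht])
  have z1 := c1.l12 (by linarith only [o0, o1, o2, o3, o4, o5, hU1, hU2, hb1, hb2, hd1, hd2, he1, he2, top, pos, ht])
  have z2 := c2.l9 (by linarith only [o0, o1, o2, o3, o4, o5, hU1, hU2, hb1, hb2, hd1, hd2, he1, he2, top, pos, ht])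
  have z3 := c2.l10 (by linarith only [o0, o1, o2, o3, o4, o5, hU1, hU2, hb1, hb2, hd1, hd2, he1, he2, top, pos, ht])
  have z4 := c3.l96 (by linarith only [o0, o1, o2, o3, o4, o5, hU1, hU2, hb1, hb2, hd1, hd2, he1, he2, top, pos, ht]) (by linarith only [o0, o1, o2, o3, o4, o5, hU1, hU2, hb1, hb2, hd1, hd2, he1, he2, top, pos, ht])
  have z5 := c4.l157 (by linarith only [o0, o1, o2, o3, o4, o5, hU1, hU2, hb1, hb2, hd1, hd2, he1, he2, top, pos, ht]) (by linarith only [o0, o1, o2, o3, o4, o5, hU1, hU2, hb1, hb2, hd1, hd2, he1, he2, top, pos, ht])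
  have z6 := c5.l93 (by linarith only [o0, o1, o2, o3, o4, o5, hU1, hU2, hb1, hb2, hd1, hd2, he1, he2, top, pos, ht]) (by linarith only [o0, o1, o2, o3, o4, o5, hU1, hU2, hb1, hb2, hd1, hd2, he1, he2, top, pos, ht])
  have z7 := c6.l93 (by linarith only [o0, o1, o2, o3, o4, o5, hU1, hU2, hb1, hb2, hd1, hd2, he1, he2, top, pos, ht]) (by linarith only [o0, o1, o2, o3, o4, o5, hU1, hU2, hb1, hb2, hd1, hd2, he1, he2, top, pos, ht])
  linarith only [z0, z1, z2, z3, z4, z5, z6, z7, o0, o1, o2, o3, o4, o5, hU1, hU2, hb1, hb2, hd1, hd2, he1, he2, top, pos, ht, sum, msum, r1a, r1b, r3a, r3b, rBa, rBb]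

theorem N7.leaf5 {y0 y1 y2 y3 y4 y5 y6 m0 m1 m2 m3 m4 m5 m6 : ℝ} (h : N7 y0 y1 y2 y3 y4 y5 y6 m0 m1 m2 m3 m4 m5 m6)
    (hU1 : (1/2) ≤ y0 + y1) (hU2 : y0 + y1 ≤ (8/9)) (hb1 : (1/20) ≤ y2) (hb2 : y2 ≤ (1/3))
    (hd1 : (1/10) ≤ y3) (hd2 : y3 ≤ (1/4)) (he1 : 0 ≤ y4) (he2 : y4 ≤ (1/20)) : False := by
  obtain ⟨o0, o1, o2, o3, o4, o5, pos, top, sum, msum, q1, q2, q3, qb, c0, c1, c2, c3, c4, c5, c6⟩ := h
  have pK : 0 ≤ ((16/9) - (y0 + 3 * y1)) * y6 := mul_nonneg (by linarith only [o0, o1, o2, o3, o4, o5, hU1, hU2, hb1, hb2, hd1, hd2, he1, he2, top, pos]) pos.le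
  have pb1 : 0 ≤ (y2 - (1/20)) * (y0 + y1 - (1/2)) := mul_nonneg (by linarith only [o0, o1, o2, o3, o4, o5, hU1, hU2, hb1, hb2, hd1, hd2, he1, he2, top, pos]) (by linarith only [o0, o1, o2, o3, o4, o5, hU1, hU2, hb1, hb2, hd1, hd2, he1, he2, top, pos])
  have pb2 : 0 ≤ ((1/3) - y2) * ((8/9) - (y0 + y1)) := mul_nonneg (by linarith only [o0, o1, o2, o3, o4, o5, hU1, hU2, hb1, hb2, hd1, hd2, he1, he2, top, pos]) (by linarith only [o0, o1, o2, o3, o4, o5, hU1, hU2, hb1, hb2, hd1, hd2, he1, he2, top, pos])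
  have pb3 : 0 ≤ (y2 - (1/20)) * ((1/3) - y2) := mul_nonneg (by linarith only [o0, o1, o2, o3, o4, o5, hU1, hU2, hb1, hb2, hd1, hd2, he1, he2, top, pos]) (by linarith only [o0, o1, o2, o3, o4, o5, hU1, hU2, hb1, hb2, hd1, hd2, he1, he2, top, pos])
  have r1a : (1/10) * (y0 + y1) + (37/60) * y2 - (2687/180) * y6 ≤ (1/30) := by
    linarith only [q1, pK, pb1, pb3]
  have r1b : (2/3) * (y0 + y1) + (251/180) * y2 - (2687/180) * y6 ≤ (311/540) := by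
    linarith only [q1, pK, pb2, pb3]
  have q3' := q3 (by linarith only [hU1])
  have r3a : (1/10) * (y0 + y1) + 1 * y2 - (2687/180) * y6 ≤ (1/20) := by
    linarith only [q3', pK, pb1]
  have r3b : (2/3) * (y0 + y1) + (16/9) * y2 - (2687/180) * y6 ≤ (16/27) := by
    linarith only [q3', pK, pb2]
  have pL : 0 ≤ (1 - (9/16) * (y0 + 3 * y1)) * y6 := mul_nonneg (by linarith only [o0, o1, o2, o3, o4, o5, hU1, hU2, hb1, hb2, hd1, hd2, he1, he2, top, pos]) (by linarith only [o0, o1, o2, o3, o4, o5, hU1, hU2, hb1, hb2, hd1, hd2, he1, he2, top, pos])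
  have pd1 : 0 ≤ (y3 - (1/10)) * (y1 + y2 - (19/180)) := mul_nonneg (by linarith only [o0, o1, o2, o3, o4, o5, hU1, hU2, hb1, hb2, hd1, hd2, he1, he2, top, pos]) (by linarith only [o0, o1, o2, o3, o4, o5, hU1, hU2, hb1, hb2, hd1, hd2, he1, he2, top, pos])
  have pd2 : 0 ≤ ((1/4) - y3) * ((7/9) - (y1 + y2)) := mul_nonneg (by linarith only [o0, o1, o2, o3, o4, o5, hU1, hU2, hb1, hb2, hd1, hd2, he1, he2, top, pos]) (by linarith only [o0, o1, o2, o3, o4, o5, hU1, hU2, hb1, hb2, hd1, hd2, he1, he2, top, pos])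
  have pd3 : 0 ≤ (y3 - (1/10)) * ((1/4) - y3) := mul_nonneg (by linarith only [o0, o1, o2, o3, o4, o5, hU1, hU2, hb1, hb2, hd1, hd2, he1, he2, top, pos]) (by linarith only [o0, o1, o2, o3, o4, o5, hU1, hU2, hb1, hb2, hd1, hd2, he1, he2, top, pos])
  have rBa : (1/5) * (y1 + y2) + (-5/36) * y3 - (921/100) * y6 ≤ (-7/1800) := by
    linarith only [qb, pL, pd1, pd3]
  have rBb : (1/2) * (y1 + y2) + (217/180) * y3 - (921/100) * y6 ≤ (131/360) := by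
    linarith only [qb, pL, pd2, pd3]
  have ht : (3/400) ≤ y6 := by linarith only [o0, o1, o2, o3, o4, o5, hU1, hU2, hb1, hb2, hd1, hd2, he1, he2, top, pos, sum, r1a, r1b, r3a, r3b, rBa, rBb]
  have z0 := c0.l8 (by linarith only [o0, o1, o2, o3, o4, o5, hU1, hU2, hb1, hb2, hd1, hd2, he1, he2, top, pos, ht])
  have z1 := c0.l9 (by linarith only [o0, o1, o2, o3, o4, o5, hU1, hU2, hb1, hb2, hd1, hd2, he1, he2, top, pos, ht])
  have z2 := c1.l8 (by linarith only [o0, o1, o2, o3, o4, o5, hU1, hU2, hb1, hb2, hd1, hd2, he1, he2, top, pos, ht])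
  have z3 := c1.l9 (by linarith only [o0, o1, o2, o3, o4, o5, hU1, hU2, hb1, hb2, hd1, hd2, he1, he2, top, pos, ht])
  have z4 := c2.l7 (by linarith only [o0, o1, o2, o3, o4, o5, hU1, hU2, hb1, hb2, hd1, hd2, he1, he2, top, pos, ht])
  have z5 := c3.l3 (by linarith only [o0, o1, o2, o3, o4, o5, hU1, hU2, hb1, hb2, hd1, hd2, he1, he2, top, pos, ht])
  have z6 := c4.l106 (by linarith only [o0, o1, o2, o3, o4, o5, hU1, hU2, hb1, hb2, hd1, hd2, he1, he2, top, pos, ht]) (by linarith only [o0, o1, o2, o3, o4, o5, hU1, hU2, hb1, hb2, hd1, hd2, he1, he2, top, pos, ht])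
  have z7 := c5.l106 (by linarith only [o0, o1, o2, o3, o4, o5, hU1, hU2, hb1, hb2, hd1, hd2, he1, he2, top, pos, ht]) (by linarith only [o0, o1, o2, o3, o4, o5, hU1, hU2, hb1, hb2, hd1, hd2, he1, he2, top, pos, ht])
  have z8 := c6.l106 (by linarith only [o0, o1, o2, o3, o4, o5, hU1, hU2, hb1, hb2, hd1, hd2, he1, he2, top, pos, ht]) (by linarith only [o0, o1, o2, o3, o4, o5, hU1, hU2, hb1, hb2, hd1, hd2, he1, he2, top, pos, ht])
  linarith only [z0, z1, z2, z3, z4, z5, z6, z7, z8, o0, o1, o2, o3, o4, o5, hU1, hU2, hb1, hb2, hd1, hd2, he1, he2, top, pos, ht, sum, msum, r1a, r1b, r3a, r3b, rBa, rBb]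

theorem N7.leaf6 {y0 y1 y2 y3 y4 y5 y6 m0 m1 m2 m3 m4 m5 m6 : ℝ} (h : N7 y0 y1 y2 y3 y4 y5 y6 m0 m1 m2 m3 m4 m5 m6)
    (hU1 : (2/7) ≤ y0 + y1) (hU2 : y0 + y1 ≤ (8/9)) (hb1 : (1/20) ≤ y2) (hb2 : y2 ≤ (1/3))
    (hd1 : 0 ≤ y3) (hd2 : y3 ≤ (1/25)) (he1 : (1/20) ≤ y4) (he2 : y4 ≤ (1/5)) : False := by
  obtain ⟨o0, o1, o2, o3, o4, o5, pos, top, sum, msum, q1, q2, q3, qb, c0, c1, c2, c3, c4, c5, c6⟩ := h
  have pK : 0 ≤ ((16/9) - (y0 + 3 * y1)) * y6 := mul_nonneg (by linarith only [o0, o1, o2, o3, o4, o5, hU1, hU2, hb1, hb2, hd1, hd2, he1, he2, top, pos]) pos.le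
  have pb1 : 0 ≤ (y2 - (1/20)) * (y0 + y1 - (2/7)) := mul_nonneg (by linarith only [o0, o1, o2, o3, o4, o5, hU1, hU2, hb1, hb2, hd1, hd2, he1, he2, top, pos]) (by linarith only [o0, o1, o2, o3, o4, o5, hU1, hU2, hb1, hb2, hd1, hd2, he1, he2, top, pos])
  have pb2 : 0 ≤ ((1/3) - y2) * ((8/9) - (y0 + y1)) := mul_nonneg (by linarith only [o0, o1, o2, o3, o4, o5, hU1, hU2, hb1, hb2, hd1, hd2, he1, he2, top, pos]) (by linarith only [o0, o1, o2, o3, o4, o5, hU1, hU2, hb1, hb2, hd1, hd2, he1, he2, top, pos])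
  have pb3 : 0 ≤ (y2 - (1/20)) * ((1/3) - y2) := mul_nonneg (by linarith only [o0, o1, o2, o3, o4, o5, hU1, hU2, hb1, hb2, hd1, hd2, he1, he2, top, pos]) (by linarith only [o0, o1, o2, o3, o4, o5, hU1, hU2, hb1, hb2, hd1, hd2, he1, he2, top, pos])
  have r1a : (1/10) * (y0 + y1) + (79/420) * y2 - (2687/180) * y6 ≤ (1/84) := by
    linarith only [q1, pK, pb1, pb3]
  have r1b : (2/3) * (y0 + y1) + (251/180) * y2 - (2687/180) * y6 ≤ (311/540) := by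
    linarith only [q1, pK, pb2, pb3]
  have pL : 0 ≤ (1 - (9/16) * (y0 + 3 * y1)) * y6 := mul_nonneg (by linarith only [o0, o1, o2, o3, o4, o5, hU1, hU2, hb1, hb2, hd1, hd2, he1, he2, top, pos]) (by linarith only [o0, o1, o2, o3, o4, o5, hU1, hU2, hb1, hb2, hd1, hd2, he1, he2, top, pos])
  have pd1 : 0 ≤ (y3 - 0) * (y1 + y2 - (1/10)) := mul_nonneg (by linarith only [o0, o1, o2, o3, o4, o5, hU1, hU2, hb1, hb2, hd1, hd2, he1, he2, top, pos]) (by linarith only [o0, o1, o2, o3, o4, o5, hU1, hU2, hb1, hb2, hd1, hd2, he1, he2, top, pos])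
  have pd2 : 0 ≤ ((1/25) - y3) * ((7/9) - (y1 + y2)) := mul_nonneg (by linarith only [o0, o1, o2, o3, o4, o5, hU1, hU2, hb1, hb2, hd1, hd2, he1, he2, top, pos]) (by linarith only [o0, o1, o2, o3, o4, o5, hU1, hU2, hb1, hb2, hd1, hd2, he1, he2, top, pos])
  have pd3 : 0 ≤ (y3 - 0) * ((1/25) - y3) := mul_nonneg (by linarith only [o0, o1, o2, o3, o4, o5, hU1, hU2, hb1, hb2, hd1, hd2, he1, he2, top, pos]) (by linarith only [o0, o1, o2, o3, o4, o5, hU1, hU2, hb1, hb2, hd1, hd2, he1, he2, top, pos])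
  have rBa : 0 * (y1 + y2) + (4/25) * y3 - (921/100) * y6 ≤ 0 := by
    linarith only [qb, pL, pd1, pd3]
  have rBb : (2/25) * (y1 + y2) + (341/225) * y3 - (921/100) * y6 ≤ (14/225) := by
    linarith only [qb, pL, pd2, pd3]
  linarith only [o0, o1, o2, o3, o4, o5, hU1, hU2, hb1, hb2, hd1, hd2, he1, he2, top, pos, sum, r1a, r1b, rBa, rBb]

theorem N7.leaf7 {y0 y1 y2 y3 y4 y5 y6 m0 m1 m2 m3 m4 m5 m6 : ℝ} (h : N7 y0 y1 y2 y3 y4 y5 y6 m0 m1 m2 m3 m4 m5 m6)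
    (hU1 : (2/7) ≤ y0 + y1) (hU2 : y0 + y1 ≤ (8/9)) (hb1 : (1/20) ≤ y2) (hb2 : y2 ≤ (1/3))
    (hd1 : (1/25) ≤ y3) (hd2 : y3 ≤ (4/25)) (he1 : (1/20) ≤ y4) (he2 : y4 ≤ (13/100)) : False := by
  obtain ⟨o0, o1, o2, o3, o4, o5, pos, top, sum, msum, q1, q2, q3, qb, c0, c1, c2, c3, c4, c5, c6⟩ := h
  have pK : 0 ≤ ((16/9) - (y0 + 3 * y1)) * y6 := mul_nonneg (by linarith only [o0, o1, o2, o3, o4, o5, hU1, hU2, hb1, hb2, hd1, hd2, he1, he2, top, pos]) pos.le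
  have pb1 : 0 ≤ (y2 - (1/20)) * (y0 + y1 - (2/7)) := mul_nonneg (by linarith only [o0, o1, o2, o3, o4, o5, hU1, hU2, hb1, hb2, hd1, hd2, he1, he2, top, pos]) (by linarith only [o0, o1, o2, o3, o4, o5, hU1, hU2, hb1, hb2, hd1, hd2, he1, he2, top, pos])
  have pb2 : 0 ≤ ((1/3) - y2) * ((8/9) - (y0 + y1)) := mul_nonneg (by linarith only [o0, o1, o2, o3, o4, o5, hU1, hU2, hb1, hb2, hd1, hd2, he1, he2, top, pos]) (by linarith only [o0, o1, o2, o3, o4, o5, hU1, hU2, hb1, hb2, hd1, hd2, he1, he2, top, pos])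
  have pb3 : 0 ≤ (y2 - (1/20)) * ((1/3) - y2) := mul_nonneg (by linarith only [o0, o1, o2, o3, o4, o5, hU1, hU2, hb1, hb2, hd1, hd2, he1, he2, top, pos]) (by linarith only [o0, o1, o2, o3, o4, o5, hU1, hU2, hb1, hb2, hd1, hd2, he1, he2, top, pos])
  have r1a : (1/10) * (y0 + y1) + (79/420) * y2 - (2687/180) * y6 ≤ (1/84) := by
    linarith only [q1, pK, pb1, pb3]
  have r1b : (2/3) * (y0 + y1) + (251/180) * y2 - (2687/180) * y6 ≤ (311/540) := by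
    linarith only [q1, pK, pb2, pb3]
  have pL : 0 ≤ (1 - (9/16) * (y0 + 3 * y1)) * y6 := mul_nonneg (by linarith only [o0, o1, o2, o3, o4, o5, hU1, hU2, hb1, hb2, hd1, hd2, he1, he2, top, pos]) (by linarith only [o0, o1, o2, o3, o4, o5, hU1, hU2, hb1, hb2, hd1, hd2, he1, he2, top, pos])
  have pd1 : 0 ≤ (y3 - (1/25)) * (y1 + y2 - (1/10)) := mul_nonneg (by linarith only [o0, o1, o2, o3, o4, o5, hU1, hU2, hb1, hb2, hd1, hd2, he1, he2, top, pos]) (by linarith only [o0, o1, o2, o3, o4, o5, hU1, hU2, hb1, hb2, hd1, hd2, he1, he2, top, pos])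
  have pd2 : 0 ≤ ((4/25) - y3) * ((7/9) - (y1 + y2)) := mul_nonneg (by linarith only [o0, o1, o2, o3, o4, o5, hU1, hU2, hb1, hb2, hd1, hd2, he1, he2, top, pos]) (by linarith only [o0, o1, o2, o3, o4, o5, hU1, hU2, hb1, hb2, hd1, hd2, he1, he2, top, pos])
  have pd3 : 0 ≤ (y3 - (1/25)) * ((4/25) - y3) := mul_nonneg (by linarith only [o0, o1, o2, o3, o4, o5, hU1, hU2, hb1, hb2, hd1, hd2, he1, he2, top, pos]) (by linarith only [o0, o1, o2, o3, o4, o5, hU1, hU2, hb1, hb2, hd1, hd2, he1, he2, top, pos])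
  have rBa : (2/25) * (y1 + y2) + 0 * y3 - (921/100) * y6 ≤ (1/625) := by
    linarith only [qb, pL, pd1, pd3]
  have rBb : (8/25) * (y1 + y2) + (61/45) * y3 - (921/100) * y6 ≤ (1364/5625) := by
    linarith only [qb, pL, pd2, pd3]
  have ht : (1/250) ≤ y6 := by linarith only [o0, o1, o2, o3, o4, o5, hU1, hU2, hb1, hb2, hd1, hd2, he1, he2, top, pos, sum, r1a, r1b, rBa, rBb]
  have z0 := c0.l8 (by linarith only [o0, o1, o2, o3, o4, o5, hU1, hU2, hb1, hb2, hd1, hd2, he1, he2, top, pos, ht])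
  have z1 := c0.l9 (by linarith only [o0, o1, o2, o3, o4, o5, hU1, hU2, hb1, hb2, hd1, hd2, he1, he2, top, pos, ht])
  have z2 := c1.l8 (by linarith only [o0, o1, o2, o3, o4, o5, hU1, hU2, hb1, hb2, hd1, hd2, he1, he2, top, pos, ht])
  have z3 := c2.l7 (by linarith only [o0, o1, o2, o3, o4, o5, hU1, hU2, hb1, hb2, hd1, hd2, he1, he2, top, pos, ht])
  have z4 := c3.l174 (by linarith only [o0, o1, o2, o3, o4, o5, hU1, hU2, hb1, hb2, hd1, hd2, he1, he2, top, pos, ht]) (by linarith only [o0, o1, o2, o3, o4, o5, hU1, hU2, hb1, hb2, hd1, hd2, he1, he2, top, pos, ht])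
  have z5 := c4.l178 (by linarith only [o0, o1, o2, o3, o4, o5, hU1, hU2, hb1, hb2, hd1, hd2, he1, he2, top, pos, ht]) (by linarith only [o0, o1, o2, o3, o4, o5, hU1, hU2, hb1, hb2, hd1, hd2, he1, he2, top, pos, ht])
  have z6 := c4.l179 (by linarith only [o0, o1, o2, o3, o4, o5, hU1, hU2, hb1, hb2, hd1, hd2, he1, he2, top, pos, ht]) (by linarith only [o0, o1, o2, o3, o4, o5, hU1, hU2, hb1, hb2, hd1, hd2, he1, he2, top, pos, ht])
  have z7 := c5.l83 (by linarith only [o0, o1, o2, o3, o4, o5, hU1, hU2, hb1, hb2, hd1, hd2, he1, he2, top, pos, ht]) (by linarith only [o0, o1, o2, o3, o4, o5, hU1, hU2, hb1, hb2, hd1, hd2, he1, he2, top, pos, ht])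
  have z8 := c6.l83 (by linarith only [o0, o1, o2, o3, o4, o5, hU1, hU2, hb1, hb2, hd1, hd2, he1, he2, top, pos, ht]) (by linarith only [o0, o1, o2, o3, o4, o5, hU1, hU2, hb1, hb2, hd1, hd2, he1, he2, top, pos, ht])
  linarith only [z0, z1, z2, z3, z4, z5, z6, z7, z8, o0, o1, o2, o3, o4, o5, hU1, hU2, hb1, hb2, hd1, hd2, he1, he2, top, pos, ht, sum, msum, r1a, r1b, rBa, rBb]

theorem N7.leaf8 {y0 y1 y2 y3 y4 y5 y6 m0 m1 m2 m3 m4 m5 m6 : ℝ} (h : N7 y0 y1 y2 y3 y4 y5 y6 m0 m1 m2 m3 m4 m5 m6)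
    (hU1 : (2/7) ≤ y0 + y1) (hU2 : y0 + y1 ≤ (8/9)) (hb1 : (1/20) ≤ y2) (hb2 : y2 ≤ (1/3))
    (hd1 : (1/25) ≤ y3) (hd2 : y3 ≤ (4/25)) (he1 : (13/100) ≤ y4) (he2 : y4 ≤ (1/5)) : False := by
  obtain ⟨o0, o1, o2, o3, o4, o5, pos, top, sum, msum, q1, q2, q3, qb, c0, c1, c2, c3, c4, c5, c6⟩ := h
  have pK : 0 ≤ ((16/9) - (y0 + 3 * y1)) * y6 := mul_nonneg (by linarith only [o0, o1, o2, o3, o4, o5, hU1, hU2, hb1, hb2, hd1, hd2, he1, he2, top, pos]) pos.le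
  have pb1 : 0 ≤ (y2 - (1/20)) * (y0 + y1 - (2/7)) := mul_nonneg (by linarith only [o0, o1, o2, o3, o4, o5, hU1, hU2, hb1, hb2, hd1, hd2, he1, he2, top, pos]) (by linarith only [o0, o1, o2, o3, o4, o5, hU1, hU2, hb1, hb2, hd1, hd2, he1, he2, top, pos])
  have pb2 : 0 ≤ ((1/3) - y2) * ((8/9) - (y0 + y1)) := mul_nonneg (by linarith only [o0, o1, o2, o3, o4, o5, hU1, hU2, hb1, hb2, hd1, hd2, he1, he2, top, pos]) (by linarith only [o0, o1, o2, o3, o4, o5, hU1, hU2, hb1, hb2, hd1, hd2, he1, he2, top, pos])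
  have pb3 : 0 ≤ (y2 - (1/20)) * ((1/3) - y2) := mul_nonneg (by linarith only [o0, o1, o2, o3, o4, o5, hU1, hU2, hb1, hb2, hd1, hd2, he1, he2, top, pos]) (by linarith only [o0, o1, o2, o3, o4, o5, hU1, hU2, hb1, hb2, hd1, hd2, he1, he2, top, pos])
  have r1a : (1/10) * (y0 + y1) + (79/420) * y2 - (2687/180) * y6 ≤ (1/84) := by
    linarith only [q1, pK, pb1, pb3]
  have r1b : (2/3) * (y0 + y1) + (251/180) * y2 - (2687/180) * y6 ≤ (311/540) := by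
    linarith only [q1, pK, pb2, pb3]
  have pL : 0 ≤ (1 - (9/16) * (y0 + 3 * y1)) * y6 := mul_nonneg (by linarith only [o0, o1, o2, o3, o4, o5, hU1, hU2, hb1, hb2, hd1, hd2, he1, he2, top, pos]) (by linarith only [o0, o1, o2, o3, o4, o5, hU1, hU2, hb1, hb2, hd1, hd2, he1, he2, top, pos])
  have pd1 : 0 ≤ (y3 - (1/25)) * (y1 + y2 - (1/10)) := mul_nonneg (by linarith only [o0, o1, o2, o3, o4, o5, hU1, hU2, hb1, hb2, hd1, hd2, he1, he2, top, pos]) (by linarith only [o0, o1, o2, o3, o4, o5, hU1, hU2, hb1, hb2, hd1, hd2, he1, he2, top, pos])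
  have pd2 : 0 ≤ ((4/25) - y3) * ((7/9) - (y1 + y2)) := mul_nonneg (by linarith only [o0, o1, o2, o3, o4, o5, hU1, hU2, hb1, hb2, hd1, hd2, he1, he2, top, pos]) (by linarith only [o0, o1, o2, o3, o4, o5, hU1, hU2, hb1, hb2, hd1, hd2, he1, he2, top, pos])
  have pd3 : 0 ≤ (y3 - (1/25)) * ((4/25) - y3) := mul_nonneg (by linarith only [o0, o1, o2, o3, o4, o5, hU1, hU2, hb1, hb2, hd1, hd2, he1, he2, top, pos]) (by linarith only [o0, o1, o2, o3, o4, o5, hU1, hU2, hb1, hb2, hd1, hd2, he1, he2, top, pos])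
  have rBa : (2/25) * (y1 + y2) + 0 * y3 - (921/100) * y6 ≤ (1/625) := by
    linarith only [qb, pL, pd1, pd3]
  have rBb : (8/25) * (y1 + y2) + (61/45) * y3 - (921/100) * y6 ≤ (1364/5625) := by
    linarith only [qb, pL, pd2, pd3]
  have ht : (3/1000) ≤ y6 := by linarith only [o0, o1, o2, o3, o4, o5, hU1, hU2, hb1, hb2, hd1, hd2, he1, he2, top, pos, sum, r1a, r1b, rBa, rBb]
  have z0 := c0.l7 (by linarith only [o0, o1, o2, o3, o4, o5, hU1, hU2, hb1, hb2, hd1, hd2, he1, he2, top, pos, ht])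
  have z1 := c0.l8 (by linarith only [o0, o1, o2, o3, o4, o5, hU1, hU2, hb1, hb2, hd1, hd2, he1, he2, top, pos, ht])
  have z2 := c1.l7 (by linarith only [o0, o1, o2, o3, o4, o5, hU1, hU2, hb1, hb2, hd1, hd2, he1, he2, top, pos, ht])
  have z3 := c2.l7 (by linarith only [o0, o1, o2, o3, o4, o5, hU1, hU2, hb1, hb2, hd1, hd2, he1, he2, top, pos, ht])
  have z4 := c3.l174 (by linarith only [o0, o1, o2, o3, o4, o5, hU1, hU2, hb1, hb2, hd1, hd2, he1, he2, top, pos, ht]) (by linarith only [o0, o1, o2, o3, o4, o5, hU1, hU2, hb1, hb2, hd1, hd2, he1, he2, top, pos, ht])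
  have z5 := c4.l2 (by linarith only [o0, o1, o2, o3, o4, o5, hU1, hU2, hb1, hb2, hd1, hd2, he1, he2, top, pos, ht])
  have z6 := c5.l12 (by linarith only [o0, o1, o2, o3, o4, o5, hU1, hU2, hb1, hb2, hd1, hd2, he1, he2, top, pos, ht])
  have z7 := c6.l12 (by linarith only [o0, o1, o2, o3, o4, o5, hU1, hU2, hb1, hb2, hd1, hd2, he1, he2, top, pos, ht])
  linarith only [z0, z1, z2, z3, z4, z5, z6, z7, o0, o1, o2, o3, o4, o5, hU1, hU2, hb1, hb2, hd1, hd2, he1, he2, top, pos, ht, sum, msum, r1a, r1b, rBa, rBb]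

theorem N7.leaf9 {y0 y1 y2 y3 y4 y5 y6 m0 m1 m2 m3 m4 m5 m6 : ℝ} (h : N7 y0 y1 y2 y3 y4 y5 y6 m0 m1 m2 m3 m4 m5 m6)
    (hU1 : (2/7) ≤ y0 + y1) (hU2 : y0 + y1 ≤ (8/9)) (hb1 : (1/20) ≤ y2) (hb2 : y2 ≤ (1/3))
    (hd1 : (4/25) ≤ y3) (hd2 : y3 ≤ (1/4)) (he1 : (1/20) ≤ y4) (he2 : y4 ≤ (1/5)) : False := by
  obtain ⟨o0, o1, o2, o3, o4, o5, pos, top, sum, msum, q1, q2, q3, qb, c0, c1, c2, c3, c4, c5, c6⟩ := h
  have pK : 0 ≤ ((16/9) - (y0 + 3 * y1)) * y6 := mul_nonneg (by linarith only [o0, o1, o2, o3, o4, o5, hU1, hU2, hb1, hb2, hd1, hd2, he1, he2, top, pos]) pos.le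
  have pb1 : 0 ≤ (y2 - (1/20)) * (y0 + y1 - (2/7)) := mul_nonneg (by linarith only [o0, o1, o2, o3, o4, o5, hU1, hU2, hb1, hb2, hd1, hd2, he1, he2, top, pos]) (by linarith only [o0, o1, o2, o3, o4, o5, hU1, hU2, hb1, hb2, hd1, hd2, he1, he2, top, pos])
  have pb2 : 0 ≤ ((1/3) - y2) * ((8/9) - (y0 + y1)) := mul_nonneg (by linarith only [o0, o1, o2, o3, o4, o5, hU1, hU2, hb1, hb2, hd1, hd2, he1, he2, top, pos]) (by linarith only [o0, o1, o2, o3, o4, o5, hU1, hU2, hb1, hb2, hd1, hd2, he1, he2, top, pos])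
  have pb3 : 0 ≤ (y2 - (1/20)) * ((1/3) - y2) := mul_nonneg (by linarith only [o0, o1, o2, o3, o4, o5, hU1, hU2, hb1, hb2, hd1, hd2, he1, he2, top, pos]) (by linarith only [o0, o1, o2, o3, o4, o5, hU1, hU2, hb1, hb2, hd1, hd2, he1, he2, top, pos])
  have r1a : (1/10) * (y0 + y1) + (79/420) * y2 - (2687/180) * y6 ≤ (1/84) := by
    linarith only [q1, pK, pb1, pb3]
  have r1b : (2/3) * (y0 + y1) + (251/180) * y2 - (2687/180) * y6 ≤ (311/540) := by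
    linarith only [q1, pK, pb2, pb3]
  have pL : 0 ≤ (1 - (9/16) * (y0 + 3 * y1)) * y6 := mul_nonneg (by linarith only [o0, o1, o2, o3, o4, o5, hU1, hU2, hb1, hb2, hd1, hd2, he1, he2, top, pos]) (by linarith only [o0, o1, o2, o3, o4, o5, hU1, hU2, hb1, hb2, hd1, hd2, he1, he2, top, pos])
  have pd1 : 0 ≤ (y3 - (4/25)) * (y1 + y2 - (1/10)) := mul_nonneg (by linarith only [o0, o1, o2, o3, o4, o5, hU1, hU2, hb1, hb2, hd1, hd2, he1, he2, top, pos]) (by linarith only [o0, o1, o2, o3, o4, o5, hU1, hU2, hb1, hb2, hd1, hd2, he1, he2, top, pos])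
  have pd2 : 0 ≤ ((1/4) - y3) * ((7/9) - (y1 + y2)) := mul_nonneg (by linarith only [o0, o1, o2, o3, o4, o5, hU1, hU2, hb1, hb2, hd1, hd2, he1, he2, top, pos]) (by linarith only [o0, o1, o2, o3, o4, o5, hU1, hU2, hb1, hb2, hd1, hd2, he1, he2, top, pos])
  have pd3 : 0 ≤ (y3 - (4/25)) * ((1/4) - y3) := mul_nonneg (by linarith only [o0, o1, o2, o3, o4, o5, hU1, hU2, hb1, hb2, hd1, hd2, he1, he2, top, pos]) (by linarith only [o0, o1, o2, o3, o4, o5, hU1, hU2, hb1, hb2, hd1, hd2, he1, he2, top, pos])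
  have rBa : (8/25) * (y1 + y2) + (-21/100) * y3 - (921/100) * y6 ≤ (-1/125) := by
    linarith only [qb, pL, pd1, pd3]
  have rBb : (1/2) * (y1 + y2) + (1031/900) * y3 - (921/100) * y6 ≤ (157/450) := by
    linarith only [qb, pL, pd2, pd3]
  have ht : (3/400) ≤ y6 := by linarith only [o0, o1, o2, o3, o4, o5, hU1, hU2, hb1, hb2, hd1, hd2, he1, he2, top, pos, sum, r1a, r1b, rBa, rBb]
  have z0 := c0.l6 (by linarith only [o0, o1, o2, o3, o4, o5, hU1, hU2, hb1, hb2, hd1, hd2, he1, he2, top, pos, ht])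
  have z1 := c0.l7 (by linarith only [o0, o1, o2, o3, o4, o5, hU1, hU2, hb1, hb2, hd1, hd2, he1, he2, top, pos, ht])
  have z2 := c1.l7 (by linarith only [o0, o1, o2, o3, o4, o5, hU1, hU2, hb1, hb2, hd1, hd2, he1, he2, top, pos, ht])
  have z3 := c2.l7 (by linarith only [o0, o1, o2, o3, o4, o5, hU1, hU2, hb1, hb2, hd1, hd2, he1, he2, top, pos, ht])
  have z4 := c3.l3 (by linarith only [o0, o1, o2, o3, o4, o5, hU1, hU2, hb1, hb2, hd1, hd2, he1, he2, top, pos, ht])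
  have z5 := c4.l7 (by linarith only [o0, o1, o2, o3, o4, o5, hU1, hU2, hb1, hb2, hd1, hd2, he1, he2, top, pos, ht])
  have z6 := c5.l11 (by linarith only [o0, o1, o2, o3, o4, o5, hU1, hU2, hb1, hb2, hd1, hd2, he1, he2, top, pos, ht])
  have z7 := c6.l11 (by linarith only [o0, o1, o2, o3, o4, o5, hU1, hU2, hb1, hb2, hd1, hd2, he1, he2, top, pos, ht])
  linarith only [z0, z1, z2, z3, z4, z5, z6, z7, o0, o1, o2, o3, o4, o5, hU1, hU2, hb1, hb2, hd1, hd2, he1, he2, top, pos, ht, sum, msum, r1a, r1b, rBa, rBb]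

theorem N7.false {y0 y1 y2 y3 y4 y5 y6 m0 m1 m2 m3 m4 m5 m6 : ℝ} (h : N7 y0 y1 y2 y3 y4 y5 y6 m0 m1 m2 m3 m4 m5 m6) : False := by
  have ao0 := h.o0
  have ao1 := h.o1
  have ao2 := h.o2
  have ao3 := h.o3
  have ao4 := h.o4
  have ao5 := h.o5
  have apos := h.pos
  have atop := h.top
  have asum := h.sum
  rcases le_total y2 (1/20) with h1 | h1
  · rcases le_total y3 (1/10) with h2 | h2
    · exact h.leaf0 (by linarith) (by linarith) (by linarith) (by linarith) (by linarith) (by linarith) (by linarith) (by linarith)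
    · exact h.leaf1 (by linarith) (by linarith) (by linarith) (by linarith) (by linarith) (by linarith) (by linarith) (by linarith)
  · rcases le_total y4 (1/20) with h3 | h3
    · rcases le_total (y0 + y1) (1/2) with h4 | h4
      · exact h.leaf2 (by linarith) (by linarith) (by linarith) (by linarith) (by linarith) (by linarith) (by linarith) (by linarith)
      · rcases le_total y3 (1/10) with h5 | h5
        · rcases le_total y4 (1/40) with h6 | h6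
          · exact h.leaf3 (by linarith) (by linarith) (by linarith) (by linarith) (by linarith) (by linarith) (by linarith) (by linarith)
          · exact h.leaf4 (by linarith) (by linarith) (by linarith) (by linarith) (by linarith) (by linarith) (by linarith) (by linarith)
        · exact h.leaf5 (by linarith) (by linarith) (by linarith) (by linarith) (by linarith) (by linarith) (by linarith) (by linarith)
    · rcases le_total y3 (1/25) with h7 | h7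
      · exact h.leaf6 (by linarith) (by linarith) (by linarith) (by linarith) (by linarith) (by linarith) (by linarith) (by linarith)
      · rcases le_total y3 (4/25) with h8 | h8
        · rcases le_total y4 (13/100) with h9 | h9
          · exact h.leaf7 (by linarith) (by linarith) (by linarith) (by linarith) (by linarith) (by linarith) (by linarith) (by linarith)
          · exact h.leaf8 (by linarith) (by linarith) (by linarith) (by linarith) (by linarith) (by linarith) (by linarith) (by linarith)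
        · exact h.leaf9 (by linarith) (by linarith) (by linarith) (by linarith) (by linarith) (by linarith) (by linarith) (by linarith)

end Crest.Agent.S0334
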