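import Crest.Agent.S0334_L7

set_option autoImplicit false
set_option maxHeartbeats 1000000
set_option linter.unusedVariables false

namespace Crest.Agent.S0334

/-! ### N8: the numerical contradiction (case 8+); generated by a branch and bound search -/

structure N8 (y0 y1 y2 y3 y4 y5 y6 y7 G τ m0 m1 m2 m3 m4 m5 m6 MG : ℝ) : Prop where
  o0 : y1 ≤ y0
  o1 : y2 ≤ y1
  o2 : y3 ≤ y2
  o3 : y4 ≤ y3
  o4 : y5 ≤ y4
  o5 : y6 ≤ y5
  o6 : y7 ≤ y6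
  o7 : τ ≤ y7
  o8 : y7 ≤ G
  pos : 0 < τ
  top : y0 ≤ 4/9
  sum : y0 + y1 + y2 + y3 + y4 + y5 + y6 + G = 1
  top7 : y7 ≤ 1/8
  msum : m0 + m1 + m2 + m3 + m4 + m5 + m6 + MG = 1
  p0 : 0 ≤ m0
  p1 : 0 ≤ m1
  p2 : 0 ≤ m2
  p3 : 0 ≤ m3
  p4 : 0 ≤ m4
  p5 : 0 ≤ m5
  p6 : 0 ≤ m6
  q1 : y2 * (2 * (y0 + y1) - y2) ≤ ((401/20) + (y0 + 3 * y1)) * τ
  q2 : y0 + y1 ≤ 1/2 → y2 * (3 * (y0 + y1) - 1/2) ≤ ((401/20) + (y0 + 3 * y1)) * τ
  q3 : 1/2 ≤ y0 + y1 → 2 * y2 * (y0 + y1) ≤ ((401/20) + (y0 + 3 * y1)) * τ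
  qb : y3 * (2 * (y1 + y2) - y3) ≤ ((263/20) + (9/16) * (y0 + 3 * y1)) * τ
  c0 : L7 y0 m0
  c1 : L7 y1 m1
  c2 : L7 y2 m2
  c3 : L7 y3 m3
  c4 : L7 y4 m4
  c5 : L7 y5 m5
  c6 : L7 y6 m6
  v1_100 : y7 ≤ (1/100) → (167/100) * G ≤ MG
  v3_200 : y7 ≤ (3/200) → (182/125) * G ≤ MG
  v1_50 : y7 ≤ (1/50) → (331/250) * G ≤ MG
  v3_100 : y7 ≤ (3/100) → (291/250) * G ≤ MG
  v1_8 : y7 ≤ (1/8) → (393/500) * G ≤ MG

theorem N8.leaf0 {y0 y1 y2 y3 y4 y5 y6 y7 G τ m0 m1 m2 m3 m4 m5 m6 MG : ℝ} (h : N8 y0 y1 y2 y3 y4 y5 y6 y7 G τ m0 m1 m2 m3 m4 m5 m6 MG)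
    (hU1 : 0 ≤ y0 + y1) (hU2 : y0 + y1 ≤ (1/20)) (hb1 : 0 ≤ y2) (hb2 : y2 ≤ (1/3))
    (hd1 : 0 ≤ y3) (hd2 : y3 ≤ (1/4)) (he1 : 0 ≤ y4) (he2 : y4 ≤ (1/5)) (hg1 : 0 ≤ y7) (hg2 : y7 ≤ (3/100)) : False := by
  obtain ⟨o0, o1, o2, o3, o4, o5, o6, o7, o8, pos, top, sum, top7, msum, p0, p1, p2, p3, p4, p5, p6, q1, q2, q3, qb, c0, c1, c2, c3, c4, c5, c6, v1_100, v3_200, v1_50, v3_100, v1_8⟩ := h
  have pK : 0 ≤ ((1/10) - (y0 + 3 * y1)) * τ := mul_nonneg (by linarith only [o0, o1, o2, o3, o4, o5, o6, o7, o8, hU1, hU2, hb1, hb2, hd1, hd2, he1, he2, hg1, hg2, top, pos]) pos.le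
  have pb1 : 0 ≤ (y2 - 0) * (y0 + y1 - 0) := mul_nonneg (by linarith only [o0, o1, o2, o3, o4, o5, o6, o7, o8, hU1, hU2, hb1, hb2, hd1, hd2, he1, he2, hg1, hg2, top, pos]) (by linarith only [o0, o1, o2, o3, o4, o5, o6, o7, o8, hU1, hU2, hb1, hb2, hd1, hd2, he1, he2, hg1, hg2, top, pos])
  have pb2 : 0 ≤ ((1/3) - y2) * ((1/20) - (y0 + y1)) := mul_nonneg (by linarith only [o0, o1, o2, o3, o4, o5, o6, o7, o8, hU1, hU2, hb1, hb2, hd1, hd2, he1, he2, hg1, hg2, top, pos]) (by linarith only [o0, o1, o2, o3, o4, o5, o6, o7, o8, hU1, hU2, hb1, hb2, hd1, hd2, he1, he2, hg1, hg2, top, pos])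
  have pb3 : 0 ≤ (y2 - 0) * ((1/3) - y2) := mul_nonneg (by linarith only [o0, o1, o2, o3, o4, o5, o6, o7, o8, hU1, hU2, hb1, hb2, hd1, hd2, he1, he2, hg1, hg2, top, pos]) (by linarith only [o0, o1, o2, o3, o4, o5, o6, o7, o8, hU1, hU2, hb1, hb2, hd1, hd2, he1, he2, hg1, hg2, top, pos])
  have r1a : 0 * (y0 + y1) + (-1/3) * y2 - (403/20) * τ ≤ 0 := by
    linarith only [q1, pK, pb1, pb3]
  have r1b : (2/3) * (y0 + y1) + (-7/30) * y2 - (403/20) * τ ≤ (1/30) := by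
    linarith only [q1, pK, pb2, pb3]
  have q2' := q2 (by linarith only [hU2])
  have r2a : 0 * (y0 + y1) + (-1/2) * y2 - (403/20) * τ ≤ 0 := by
    linarith only [q2', pK, pb1]
  have r2b : 1 * (y0 + y1) + (-7/20) * y2 - (403/20) * τ ≤ (1/20) := by
    linarith only [q2', pK, pb2]
  have pL : 0 ≤ ((9/160) - (9/16) * (y0 + 3 * y1)) * τ := mul_nonneg (by linarith only [o0, o1, o2, o3, o4, o5, o6, o7, o8, hU1, hU2, hb1, hb2, hd1, hd2, he1, he2, hg1, hg2, top, pos]) (by linarith only [o0, o1, o2, o3, o4, o5, o6, o7, o8, hU1, hU2, hb1, hb2, hd1, hd2, he1, he2, hg1, hg2, top, pos])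
  have pd1 : 0 ≤ (y3 - 0) * (y1 + y2 - 0) := mul_nonneg (by linarith only [o0, o1, o2, o3, o4, o5, o6, o7, o8, hU1, hU2, hb1, hb2, hd1, hd2, he1, he2, hg1, hg2, top, pos]) (by linarith only [o0, o1, o2, o3, o4, o5, o6, o7, o8, hU1, hU2, hb1, hb2, hd1, hd2, he1, he2, hg1, hg2, top, pos])
  have pd2 : 0 ≤ ((1/4) - y3) * ((43/120) - (y1 + y2)) := mul_nonneg (by linarith only [o0, o1, o2, o3, o4, o5, o6, o7, o8, hU1, hU2, hb1, hb2, hd1, hd2, he1, he2, hg1, hg2, top, pos]) (by linarith only [o0, o1, o2, o3, o4, o5, o6, o7, o8, hU1, hU2, hb1, hb2, hd1, hd2, he1, he2, hg1, hg2, top, pos])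
  have pd3 : 0 ≤ (y3 - 0) * ((1/4) - y3) := mul_nonneg (by linarith only [o0, o1, o2, o3, o4, o5, o6, o7, o8, hU1, hU2, hb1, hb2, hd1, hd2, he1, he2, hg1, hg2, top, pos]) (by linarith only [o0, o1, o2, o3, o4, o5, o6, o7, o8, hU1, hU2, hb1, hb2, hd1, hd2, he1, he2, hg1, hg2, top, pos])
  have rBa : 0 * (y1 + y2) + (-1/4) * y3 - (2113/160) * τ ≤ 0 := by
    linarith only [qb, pL, pd1, pd3]
  have rBb : (1/2) * (y1 + y2) + (7/15) * y3 - (2113/160) * τ ≤ (43/240) := by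
    linarith only [qb, pL, pd2, pd3]
  have z0 := c0.l31 (by linarith only [o0, o1, o2, o3, o4, o5, o6, o7, o8, hU1, hU2, hb1, hb2, hd1, hd2, he1, he2, hg1, hg2, top, pos])
  have z1 := c1.l28 (by linarith only [o0, o1, o2, o3, o4, o5, o6, o7, o8, hU1, hU2, hb1, hb2, hd1, hd2, he1, he2, hg1, hg2, top, pos])
  have zv := v3_100 (by linarith only [o0, o1, o2, o3, o4, o5, o6, o7, o8, hU1, hU2, hb1, hb2, hd1, hd2, he1, he2, hg1, hg2, top, pos])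
  linarith only [z0, z1, zv, o0, o1, o2, o3, o4, o5, o6, o7, o8, hU1, hU2, hb1, hb2, hd1, hd2, he1, he2, hg1, hg2, top, pos, sum, msum, r1a, r1b, r2a, r2b, rBa, rBb, p0, p1, p2, p3, p4, p5, p6]

theorem N8.leaf1 {y0 y1 y2 y3 y4 y5 y6 y7 G τ m0 m1 m2 m3 m4 m5 m6 MG : ℝ} (h : N8 y0 y1 y2 y3 y4 y5 y6 y7 G τ m0 m1 m2 m3 m4 m5 m6 MG)
    (hU1 : (1/20) ≤ y0 + y1) (hU2 : y0 + y1 ≤ (9/20)) (hb1 : 0 ≤ y2) (hb2 : y2 ≤ (1/100))
    (hd1 : 0 ≤ y3) (hd2 : y3 ≤ (13/100)) (he1 : 0 ≤ y4) (he2 : y4 ≤ (4/25)) (hg1 : 0 ≤ y7) (hg2 : y7 ≤ (3/100)) : False := by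
  obtain ⟨o0, o1, o2, o3, o4, o5, o6, o7, o8, pos, top, sum, top7, msum, p0, p1, p2, p3, p4, p5, p6, q1, q2, q3, qb, c0, c1, c2, c3, c4, c5, c6, v1_100, v3_200, v1_50, v3_100, v1_8⟩ := h
  have pK : 0 ≤ ((9/10) - (y0 + 3 * y1)) * τ := mul_nonneg (by linarith only [o0, o1, o2, o3, o4, o5, o6, o7, o8, hU1, hU2, hb1, hb2, hd1, hd2, he1, he2, hg1, hg2, top, pos]) pos.le
  have pb1 : 0 ≤ (y2 - 0) * (y0 + y1 - (1/20)) := mul_nonneg (by linarith only [o0, o1, o2, o3, o4, o5, o6, o7, o8, hU1, hU2, hb1, hb2, hd1, hd2, he1, he2, hg1, hg2, top, pos]) (by linarith only [o0, o1, o2, o3, o4, o5, o6, o7, o8, hU1, hU2, hb1, hb2, hd1, hd2, he1, he2, hg1, hg2, top, pos])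
  have pb2 : 0 ≤ ((1/100) - y2) * ((9/20) - (y0 + y1)) := mul_nonneg (by linarith only [o0, o1, o2, o3, o4, o5, o6, o7, o8, hU1, hU2, hb1, hb2, hd1, hd2, he1, he2, hg1, hg2, top, pos]) (by linarith only [o0, o1, o2, o3, o4, o5, o6, o7, o8, hU1, hU2, hb1, hb2, hd1, hd2, he1, he2, hg1, hg2, top, pos])
  have pb3 : 0 ≤ (y2 - 0) * ((1/100) - y2) := mul_nonneg (by linarith only [o0, o1, o2, o3, o4, o5, o6, o7, o8, hU1, hU2, hb1, hb2, hd1, hd2, he1, he2, hg1, hg2, top, pos]) (by linarith only [o0, o1, o2, o3, o4, o5, o6, o7, o8, hU1, hU2, hb1, hb2, hd1, hd2, he1, he2, hg1, hg2, top, pos])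
  have r1a : 0 * (y0 + y1) + (9/100) * y2 - (419/20) * τ ≤ 0 := by
    linarith only [q1, pK, pb1, pb3]
  have r1b : (1/50) * (y0 + y1) + (89/100) * y2 - (419/20) * τ ≤ (9/1000) := by
    linarith only [q1, pK, pb2, pb3]
  have q2' := q2 (by linarith only [hU2])
  have r2a : 0 * (y0 + y1) + (-7/20) * y2 - (419/20) * τ ≤ 0 := by
    linarith only [q2', pK, pb1]
  have r2b : (3/100) * (y0 + y1) + (17/20) * y2 - (419/20) * τ ≤ (27/2000) := by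
    linarith only [q2', pK, pb2]
  have pL : 0 ≤ ((81/160) - (9/16) * (y0 + 3 * y1)) * τ := mul_nonneg (by linarith only [o0, o1, o2, o3, o4, o5, o6, o7, o8, hU1, hU2, hb1, hb2, hd1, hd2, he1, he2, hg1, hg2, top, pos]) (by linarith only [o0, o1, o2, o3, o4, o5, o6, o7, o8, hU1, hU2, hb1, hb2, hd1, hd2, he1, he2, hg1, hg2, top, pos])
  have pd1 : 0 ≤ (y3 - 0) * (y1 + y2 - 0) := mul_nonneg (by linarith only [o0, o1, o2, o3, o4, o5, o6, o7, o8, hU1, hU2, hb1, hb2, hd1, hd2, he1, he2, hg1, hg2, top, pos]) (by linarith only [o0, o1, o2, o3, o4, o5, o6, o7, o8, hU1, hU2, hb1, hb2, hd1, hd2, he1, he2, hg1, hg2, top, pos])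
  have pd2 : 0 ≤ ((13/100) - y3) * ((47/200) - (y1 + y2)) := mul_nonneg (by linarith only [o0, o1, o2, o3, o4, o5, o6, o7, o8, hU1, hU2, hb1, hb2, hd1, hd2, he1, he2, hg1, hg2, top, pos]) (by linarith only [o0, o1, o2, o3, o4, o5, o6, o7, o8, hU1, hU2, hb1, hb2, hd1, hd2, he1, he2, hg1, hg2, top, pos])
  have pd3 : 0 ≤ (y3 - 0) * ((13/100) - y3) := mul_nonneg (by linarith only [o0, o1, o2, o3, o4, o5, o6, o7, o8, hU1, hU2, hb1, hb2, hd1, hd2, he1, he2, hg1, hg2, top, pos]) (by linarith only [o0, o1, o2, o3, o4, o5, o6, o7, o8, hU1, hU2, hb1, hb2, hd1, hd2, he1, he2, hg1, hg2, top, pos])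
  have rBa : 0 * (y1 + y2) + (-13/100) * y3 - (437/32) * τ ≤ 0 := by
    linarith only [qb, pL, pd1, pd3]
  have rBb : (13/50) * (y1 + y2) + (17/50) * y3 - (437/32) * τ ≤ (611/10000) := by
    linarith only [qb, pL, pd2, pd3]
  have z0 := c0.l9 (by linarith only [o0, o1, o2, o3, o4, o5, o6, o7, o8, hU1, hU2, hb1, hb2, hd1, hd2, he1, he2, hg1, hg2, top, pos])
  have z1 := c2.l24 (by linarith only [o0, o1, o2, o3, o4, o5, o6, o7, o8, hU1, hU2, hb1, hb2, hd1, hd2, he1, he2, hg1, hg2, top, pos])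
  have z2 := c3.l35 (by linarith only [o0, o1, o2, o3, o4, o5, o6, o7, o8, hU1, hU2, hb1, hb2, hd1, hd2, he1, he2, hg1, hg2, top, pos])
  have z3 := c4.l36 (by linarith only [o0, o1, o2, o3, o4, o5, o6, o7, o8, hU1, hU2, hb1, hb2, hd1, hd2, he1, he2, hg1, hg2, top, pos])
  have z4 := c5.l36 (by linarith only [o0, o1, o2, o3, o4, o5, o6, o7, o8, hU1, hU2, hb1, hb2, hd1, hd2, he1, he2, hg1, hg2, top, pos])
  have z5 := c6.l36 (by linarith only [o0, o1, o2, o3, o4, o5, o6, o7, o8, hU1, hU2, hb1, hb2, hd1, hd2, he1, he2, hg1, hg2, top, pos])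
  have zv := v1_100 (by linarith only [o0, o1, o2, o3, o4, o5, o6, o7, o8, hU1, hU2, hb1, hb2, hd1, hd2, he1, he2, hg1, hg2, top, pos])
  linarith only [z0, z1, z2, z3, z4, z5, zv, o0, o1, o2, o3, o4, o5, o6, o7, o8, hU1, hU2, hb1, hb2, hd1, hd2, he1, he2, hg1, hg2, top, pos, sum, msum, r1a, r1b, r2a, r2b, rBa, rBb, p0, p1, p2, p3, p4, p5, p6]

theorem N8.leaf2 {y0 y1 y2 y3 y4 y5 y6 y7 G τ m0 m1 m2 m3 m4 m5 m6 MG : ℝ} (h : N8 y0 y1 y2 y3 y4 y5 y6 y7 G τ m0 m1 m2 m3 m4 m5 m6 MG)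
    (hU1 : (1/20) ≤ y0 + y1) (hU2 : y0 + y1 ≤ (9/20)) (hb1 : (1/100) ≤ y2) (hb2 : y2 ≤ (1/50))
    (hd1 : 0 ≤ y3) (hd2 : y3 ≤ (13/100)) (he1 : 0 ≤ y4) (he2 : y4 ≤ (4/25)) (hg1 : 0 ≤ y7) (hg2 : y7 ≤ (3/100)) : False := by
  obtain ⟨o0, o1, o2, o3, o4, o5, o6, o7, o8, pos, top, sum, top7, msum, p0, p1, p2, p3, p4, p5, p6, q1, q2, q3, qb, c0, c1, c2, c3, c4, c5, c6, v1_100, v3_200, v1_50, v3_100, v1_8⟩ := h
  have pK : 0 ≤ ((9/10) - (y0 + 3 * y1)) * τ := mul_nonneg (by linarith only [o0, o1, o2, o3, o4, o5, o6, o7, o8, hU1, hU2, hb1, hb2, hd1, hd2, he1, he2, hg1, hg2, top, pos]) pos.le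
  have pb1 : 0 ≤ (y2 - (1/100)) * (y0 + y1 - (1/20)) := mul_nonneg (by linarith only [o0, o1, o2, o3, o4, o5, o6, o7, o8, hU1, hU2, hb1, hb2, hd1, hd2, he1, he2, hg1, hg2, top, pos]) (by linarith only [o0, o1, o2, o3, o4, o5, o6, o7, o8, hU1, hU2, hb1, hb2, hd1, hd2, he1, he2, hg1, hg2, top, pos])
  have pb2 : 0 ≤ ((1/50) - y2) * ((9/20) - (y0 + y1)) := mul_nonneg (by linarith only [o0, o1, o2, o3, o4, o5, o6, o7, o8, hU1, hU2, hb1, hb2, hd1, hd2, he1, he2, hg1, hg2, top, pos]) (by linarith only [o0, o1, o2, o3, o4, o5, o6, o7, o8, hU1, hU2, hb1, hb2, hd1, hd2, he1, he2, hg1, hg2, top, pos])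
  have pb3 : 0 ≤ (y2 - (1/100)) * ((1/50) - y2) := mul_nonneg (by linarith only [o0, o1, o2, o3, o4, o5, o6, o7, o8, hU1, hU2, hb1, hb2, hd1, hd2, he1, he2, hg1, hg2, top, pos]) (by linarith only [o0, o1, o2, o3, o4, o5, o6, o7, o8, hU1, hU2, hb1, hb2, hd1, hd2, he1, he2, hg1, hg2, top, pos])
  have r1a : (1/50) * (y0 + y1) + (7/100) * y2 - (419/20) * τ ≤ (1/1250) := by
    linarith only [q1, pK, pb1, pb3]
  have r1b : (1/25) * (y0 + y1) + (87/100) * y2 - (419/20) * τ ≤ (89/5000) := by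
    linarith only [q1, pK, pb2, pb3]
  have q2' := q2 (by linarith only [hU2])
  have r2a : (3/100) * (y0 + y1) + (-7/20) * y2 - (419/20) * τ ≤ (3/2000) := by
    linarith only [q2', pK, pb1]
  have r2b : (3/50) * (y0 + y1) + (17/20) * y2 - (419/20) * τ ≤ (27/1000) := by
    linarith only [q2', pK, pb2]
  have pL : 0 ≤ ((81/160) - (9/16) * (y0 + 3 * y1)) * τ := mul_nonneg (by linarith only [o0, o1, o2, o3, o4, o5, o6, o7, o8, hU1, hU2, hb1, hb2, hd1, hd2, he1, he2, hg1, hg2, top, pos]) (by linarith only [o0, o1, o2, o3, o4, o5, o6, o7, o8, hU1, hU2, hb1, hb2, hd1, hd2, he1, he2, hg1, hg2, top, pos])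
  have pd1 : 0 ≤ (y3 - 0) * (y1 + y2 - (1/50)) := mul_nonneg (by linarith only [o0, o1, o2, o3, o4, o5, o6, o7, o8, hU1, hU2, hb1, hb2, hd1, hd2, he1, he2, hg1, hg2, top, pos]) (by linarith only [o0, o1, o2, o3, o4, o5, o6, o7, o8, hU1, hU2, hb1, hb2, hd1, hd2, he1, he2, hg1, hg2, top, pos])
  have pd2 : 0 ≤ ((13/100) - y3) * ((49/200) - (y1 + y2)) := mul_nonneg (by linarith only [o0, o1, o2, o3, o4, o5, o6, o7, o8, hU1, hU2, hb1, hb2, hd1, hd2, he1, he2, hg1, hg2, top, pos]) (by linarith only [o0, o1, o2, o3, o4, o5, o6, o7, o8, hU1, hU2, hb1, hb2, hd1, hd2, he1, he2, hg1, hg2, top, pos])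
  have pd3 : 0 ≤ (y3 - 0) * ((13/100) - y3) := mul_nonneg (by linarith only [o0, o1, o2, o3, o4, o5, o6, o7, o8, hU1, hU2, hb1, hb2, hd1, hd2, he1, he2, hg1, hg2, top, pos]) (by linarith only [o0, o1, o2, o3, o4, o5, o6, o7, o8, hU1, hU2, hb1, hb2, hd1, hd2, he1, he2, hg1, hg2, top, pos])
  have rBa : 0 * (y1 + y2) + (-9/100) * y3 - (437/32) * τ ≤ 0 := by
    linarith only [qb, pL, pd1, pd3]
  have rBb : (13/50) * (y1 + y2) + (9/25) * y3 - (437/32) * τ ≤ (637/10000) := by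
    linarith only [qb, pL, pd2, pd3]
  have z0 := c0.l11 (by linarith only [o0, o1, o2, o3, o4, o5, o6, o7, o8, hU1, hU2, hb1, hb2, hd1, hd2, he1, he2, hg1, hg2, top, pos])
  have z1 := c1.l11 (by linarith only [o0, o1, o2, o3, o4, o5, o6, o7, o8, hU1, hU2, hb1, hb2, hd1, hd2, he1, he2, hg1, hg2, top, pos])
  have z2 := c2.l60 (by linarith only [o0, o1, o2, o3, o4, o5, o6, o7, o8, hU1, hU2, hb1, hb2, hd1, hd2, he1, he2, hg1, hg2, top, pos]) (by linarith only [o0, o1, o2, o3, o4, o5, o6, o7, o8, hU1, hU2, hb1, hb2, hd1, hd2, he1, he2, hg1, hg2, top, pos])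
  have z3 := c3.l35 (by linarith only [o0, o1, o2, o3, o4, o5, o6, o7, o8, hU1, hU2, hb1, hb2, hd1, hd2, he1, he2, hg1, hg2, top, pos])
  have z4 := c4.l36 (by linarith only [o0, o1, o2, o3, o4, o5, o6, o7, o8, hU1, hU2, hb1, hb2, hd1, hd2, he1, he2, hg1, hg2, top, pos])
  have z5 := c5.l36 (by linarith only [o0, o1, o2, o3, o4, o5, o6, o7, o8, hU1, hU2, hb1, hb2, hd1, hd2, he1, he2, hg1, hg2, top, pos])
  have z6 := c6.l36 (by linarith only [o0, o1, o2, o3, o4, o5, o6, o7, o8, hU1, hU2, hb1, hb2, hd1, hd2, he1, he2, hg1, hg2, top, pos])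
  have zv := v1_50 (by linarith only [o0, o1, o2, o3, o4, o5, o6, o7, o8, hU1, hU2, hb1, hb2, hd1, hd2, he1, he2, hg1, hg2, top, pos])
  linarith only [z0, z1, z2, z3, z4, z5, z6, zv, o0, o1, o2, o3, o4, o5, o6, o7, o8, hU1, hU2, hb1, hb2, hd1, hd2, he1, he2, hg1, hg2, top, pos, sum, msum, r1a, r1b, r2a, r2b, rBa, rBb, p0, p1, p2, p3, p4, p5, p6]

theorem N8.leaf3 {y0 y1 y2 y3 y4 y5 y6 y7 G τ m0 m1 m2 m3 m4 m5 m6 MG : ℝ} (h : N8 y0 y1 y2 y3 y4 y5 y6 y7 G τ m0 m1 m2 m3 m4 m5 m6 MG)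
    (hU1 : (1/20) ≤ y0 + y1) (hU2 : y0 + y1 ≤ (9/20)) (hb1 : (1/50) ≤ y2) (hb2 : y2 ≤ (3/20))
    (hd1 : 0 ≤ y3) (hd2 : y3 ≤ (13/100)) (he1 : 0 ≤ y4) (he2 : y4 ≤ (4/25)) (hg1 : 0 ≤ y7) (hg2 : y7 ≤ (3/100)) : False := by
  obtain ⟨o0, o1, o2, o3, o4, o5, o6, o7, o8, pos, top, sum, top7, msum, p0, p1, p2, p3, p4, p5, p6, q1, q2, q3, qb, c0, c1, c2, c3, c4, c5, c6, v1_100, v3_200, v1_50, v3_100, v1_8⟩ := h
  have pK : 0 ≤ ((9/10) - (y0 + 3 * y1)) * τ := mul_nonneg (by linarith only [o0, o1, o2, o3, o4, o5, o6, o7, o8, hU1, hU2, hb1, hb2, hd1, hd2, he1, he2, hg1, hg2, top, pos]) pos.le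
  have pb1 : 0 ≤ (y2 - (1/50)) * (y0 + y1 - (1/20)) := mul_nonneg (by linarith only [o0, o1, o2, o3, o4, o5, o6, o7, o8, hU1, hU2, hb1, hb2, hd1, hd2, he1, he2, hg1, hg2, top, pos]) (by linarith only [o0, o1, o2, o3, o4, o5, o6, o7, o8, hU1, hU2, hb1, hb2, hd1, hd2, he1, he2, hg1, hg2, top, pos])
  have pb2 : 0 ≤ ((3/20) - y2) * ((9/20) - (y0 + y1)) := mul_nonneg (by linarith only [o0, o1, o2, o3, o4, o5, o6, o7, o8, hU1, hU2, hb1, hb2, hd1, hd2, he1, he2, hg1, hg2, top, pos]) (by linarith only [o0, o1, o2, o3, o4, o5, o6, o7, o8, hU1, hU2, hb1, hb2, hd1, hd2, he1, he2, hg1, hg2, top, pos])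
  have pb3 : 0 ≤ (y2 - (1/50)) * ((3/20) - y2) := mul_nonneg (by linarith only [o0, o1, o2, o3, o4, o5, o6, o7, o8, hU1, hU2, hb1, hb2, hd1, hd2, he1, he2, hg1, hg2, top, pos]) (by linarith only [o0, o1, o2, o3, o4, o5, o6, o7, o8, hU1, hU2, hb1, hb2, hd1, hd2, he1, he2, hg1, hg2, top, pos])
  have r1a : (1/25) * (y0 + y1) + (-7/100) * y2 - (419/20) * τ ≤ (-1/1000) := by
    linarith only [q1, pK, pb1, pb3]
  have r1b : (3/10) * (y0 + y1) + (73/100) * y2 - (419/20) * τ ≤ (33/250) := by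
    linarith only [q1, pK, pb2, pb3]
  have q2' := q2 (by linarith only [hU2])
  have r2a : (3/50) * (y0 + y1) + (-7/20) * y2 - (419/20) * τ ≤ (3/1000) := by
    linarith only [q2', pK, pb1]
  have r2b : (9/20) * (y0 + y1) + (17/20) * y2 - (419/20) * τ ≤ (81/400) := by
    linarith only [q2', pK, pb2]
  have pL : 0 ≤ ((81/160) - (9/16) * (y0 + 3 * y1)) * τ := mul_nonneg (by linarith only [o0, o1, o2, o3, o4, o5, o6, o7, o8, hU1, hU2, hb1, hb2, hd1, hd2, he1, he2, hg1, hg2, top, pos]) (by linarith only [o0, o1, o2, o3, o4, o5, o6, o7, o8, hU1, hU2, hb1, hb2, hd1, hd2, he1, he2, hg1, hg2, top, pos])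
  have pd1 : 0 ≤ (y3 - 0) * (y1 + y2 - (1/25)) := mul_nonneg (by linarith only [o0, o1, o2, o3, o4, o5, o6, o7, o8, hU1, hU2, hb1, hb2, hd1, hd2, he1, he2, hg1, hg2, top, pos]) (by linarith only [o0, o1, o2, o3, o4, o5, o6, o7, o8, hU1, hU2, hb1, hb2, hd1, hd2, he1, he2, hg1, hg2, top, pos])
  have pd2 : 0 ≤ ((13/100) - y3) * ((3/8) - (y1 + y2)) := mul_nonneg (by linarith only [o0, o1, o2, o3, o4, o5, o6, o7, o8, hU1, hU2, hb1, hb2, hd1, hd2, he1, he2, hg1, hg2, top, pos]) (by linarith only [o0, o1, o2, o3, o4, o5, o6, o7, o8, hU1, hU2, hb1, hb2, hd1, hd2, he1, he2, hg1, hg2, top, pos])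
  have pd3 : 0 ≤ (y3 - 0) * ((13/100) - y3) := mul_nonneg (by linarith only [o0, o1, o2, o3, o4, o5, o6, o7, o8, hU1, hU2, hb1, hb2, hd1, hd2, he1, he2, hg1, hg2, top, pos]) (by linarith only [o0, o1, o2, o3, o4, o5, o6, o7, o8, hU1, hU2, hb1, hb2, hd1, hd2, he1, he2, hg1, hg2, top, pos])
  have rBa : 0 * (y1 + y2) + (-1/20) * y3 - (437/32) * τ ≤ 0 := by
    linarith only [qb, pL, pd1, pd3]
  have rBb : (13/50) * (y1 + y2) + (31/50) * y3 - (437/32) * τ ≤ (39/400) := by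
    linarith only [qb, pL, pd2, pd3]
  have z0 := c0.l10 (by linarith only [o0, o1, o2, o3, o4, o5, o6, o7, o8, hU1, hU2, hb1, hb2, hd1, hd2, he1, he2, hg1, hg2, top, pos])
  have z1 := c1.l10 (by linarith only [o0, o1, o2, o3, o4, o5, o6, o7, o8, hU1, hU2, hb1, hb2, hd1, hd2, he1, he2, hg1, hg2, top, pos])
  have z2 := c2.l153 (by linarith only [o0, o1, o2, o3, o4, o5, o6, o7, o8, hU1, hU2, hb1, hb2, hd1, hd2, he1, he2, hg1, hg2, top, pos]) (by linarith only [o0, o1, o2, o3, o4, o5, o6, o7, o8, hU1, hU2, hb1, hb2, hd1, hd2, he1, he2, hg1, hg2, top, pos])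
  have z3 := c3.l35 (by linarith only [o0, o1, o2, o3, o4, o5, o6, o7, o8, hU1, hU2, hb1, hb2, hd1, hd2, he1, he2, hg1, hg2, top, pos])
  have z4 := c4.l36 (by linarith only [o0, o1, o2, o3, o4, o5, o6, o7, o8, hU1, hU2, hb1, hb2, hd1, hd2, he1, he2, hg1, hg2, top, pos])
  have z5 := c5.l36 (by linarith only [o0, o1, o2, o3, o4, o5, o6, o7, o8, hU1, hU2, hb1, hb2, hd1, hd2, he1, he2, hg1, hg2, top, pos])
  have z6 := c6.l36 (by linarith only [o0, o1, o2, o3, o4, o5, o6, o7, o8, hU1, hU2, hb1, hb2, hd1, hd2, he1, he2, hg1, hg2, top, pos])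
  have zv := v3_100 (by linarith only [o0, o1, o2, o3, o4, o5, o6, o7, o8, hU1, hU2, hb1, hb2, hd1, hd2, he1, he2, hg1, hg2, top, pos])
  linarith only [z0, z1, z2, z3, z4, z5, z6, zv, o0, o1, o2, o3, o4, o5, o6, o7, o8, hU1, hU2, hb1, hb2, hd1, hd2, he1, he2, hg1, hg2, top, pos, sum, msum, r1a, r1b, r2a, r2b, rBa, rBb, p0, p1, p2, p3, p4, p5, p6]

theorem N8.leaf4 {y0 y1 y2 y3 y4 y5 y6 y7 G τ m0 m1 m2 m3 m4 m5 m6 MG : ℝ} (h : N8 y0 y1 y2 y3 y4 y5 y6 y7 G τ m0 m1 m2 m3 m4 m5 m6 MG)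
    (hU1 : (9/20) ≤ y0 + y1) (hU2 : y0 + y1 ≤ (8/9)) (hb1 : 0 ≤ y2) (hb2 : y2 ≤ (3/20))
    (hd1 : 0 ≤ y3) (hd2 : y3 ≤ (13/100)) (he1 : 0 ≤ y4) (he2 : y4 ≤ (1/100)) (hg1 : 0 ≤ y7) (hg2 : y7 ≤ (3/100)) : False := by
  obtain ⟨o0, o1, o2, o3, o4, o5, o6, o7, o8, pos, top, sum, top7, msum, p0, p1, p2, p3, p4, p5, p6, q1, q2, q3, qb, c0, c1, c2, c3, c4, c5, c6, v1_100, v3_200, v1_50, v3_100, v1_8⟩ := h
  have pK : 0 ≤ ((16/9) - (y0 + 3 * y1)) * τ := mul_nonneg (by linarith only [o0, o1, o2, o3, o4, o5, o6, o7, o8, hU1, hU2, hb1, hb2, hd1, hd2, he1, he2, hg1, hg2, top, pos]) pos.le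
  have pb1 : 0 ≤ (y2 - 0) * (y0 + y1 - (9/20)) := mul_nonneg (by linarith only [o0, o1, o2, o3, o4, o5, o6, o7, o8, hU1, hU2, hb1, hb2, hd1, hd2, he1, he2, hg1, hg2, top, pos]) (by linarith only [o0, o1, o2, o3, o4, o5, o6, o7, o8, hU1, hU2, hb1, hb2, hd1, hd2, he1, he2, hg1, hg2, top, pos])
  have pb2 : 0 ≤ ((3/20) - y2) * ((8/9) - (y0 + y1)) := mul_nonneg (by linarith only [o0, o1, o2, o3, o4, o5, o6, o7, o8, hU1, hU2, hb1, hb2, hd1, hd2, he1, he2, hg1, hg2, top, pos]) (by linarith only [o0, o1, o2, o3, o4, o5, o6, o7, o8, hU1, hU2, hb1, hb2, hd1, hd2, he1, he2, hg1, hg2, top, pos])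
  have pb3 : 0 ≤ (y2 - 0) * ((3/20) - y2) := mul_nonneg (by linarith only [o0, o1, o2, o3, o4, o5, o6, o7, o8, hU1, hU2, hb1, hb2, hd1, hd2, he1, he2, hg1, hg2, top, pos]) (by linarith only [o0, o1, o2, o3, o4, o5, o6, o7, o8, hU1, hU2, hb1, hb2, hd1, hd2, he1, he2, hg1, hg2, top, pos])
  have r1a : 0 * (y0 + y1) + (3/4) * y2 - (3929/180) * τ ≤ 0 := by
    linarith only [q1, pK, pb1, pb3]
  have r1b : (3/10) * (y0 + y1) + (293/180) * y2 - (3929/180) * τ ≤ (4/15) := by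
    linarith only [q1, pK, pb2, pb3]
  have pL : 0 ≤ (1 - (9/16) * (y0 + 3 * y1)) * τ := mul_nonneg (by linarith only [o0, o1, o2, o3, o4, o5, o6, o7, o8, hU1, hU2, hb1, hb2, hd1, hd2, he1, he2, hg1, hg2, top, pos]) (by linarith only [o0, o1, o2, o3, o4, o5, o6, o7, o8, hU1, hU2, hb1, hb2, hd1, hd2, he1, he2, hg1, hg2, top, pos])
  have pd1 : 0 ≤ (y3 - 0) * (y1 + y2 - (1/180)) := mul_nonneg (by linarith only [o0, o1, o2, o3, o4, o5, o6, o7, o8, hU1, hU2, hb1, hb2, hd1, hd2, he1, he2, hg1, hg2, top, pos]) (by linarith only [o0, o1, o2, o3, o4, o5, o6, o7, o8, hU1, hU2, hb1, hb2, hd1, hd2, he1, he2, hg1, hg2, top, pos])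
  have pd2 : 0 ≤ ((13/100) - y3) * ((107/180) - (y1 + y2)) := mul_nonneg (by linarith only [o0, o1, o2, o3, o4, o5, o6, o7, o8, hU1, hU2, hb1, hb2, hd1, hd2, he1, he2, hg1, hg2, top, pos]) (by linarith only [o0, o1, o2, o3, o4, o5, o6, o7, o8, hU1, hU2, hb1, hb2, hd1, hd2, he1, he2, hg1, hg2, top, pos])
  have pd3 : 0 ≤ (y3 - 0) * ((13/100) - y3) := mul_nonneg (by linarith only [o0, o1, o2, o3, o4, o5, o6, o7, o8, hU1, hU2, hb1, hb2, hd1, hd2, he1, he2, hg1, hg2, top, pos]) (by linarith only [o0, o1, o2, o3, o4, o5, o6, o7, o8, hU1, hU2, hb1, hb2, hd1, hd2, he1, he2, hg1, hg2, top, pos])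
  have rBa : 0 * (y1 + y2) + (-107/900) * y3 - (283/20) * τ ≤ 0 := by
    linarith only [qb, pL, pd1, pd3]
  have rBb : (13/50) * (y1 + y2) + (953/900) * y3 - (283/20) * τ ≤ (1391/9000) := by
    linarith only [qb, pL, pd2, pd3]
  have z0 := c0.l16 (by linarith only [o0, o1, o2, o3, o4, o5, o6, o7, o8, hU1, hU2, hb1, hb2, hd1, hd2, he1, he2, hg1, hg2, top, pos])
  have z1 := c0.l17 (by linarith only [o0, o1, o2, o3, o4, o5, o6, o7, o8, hU1, hU2, hb1, hb2, hd1, hd2, he1, he2, hg1, hg2, top, pos])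
  have z2 := c1.l16 (by linarith only [o0, o1, o2, o3, o4, o5, o6, o7, o8, hU1, hU2, hb1, hb2, hd1, hd2, he1, he2, hg1, hg2, top, pos])
  have z3 := c1.l17 (by linarith only [o0, o1, o2, o3, o4, o5, o6, o7, o8, hU1, hU2, hb1, hb2, hd1, hd2, he1, he2, hg1, hg2, top, pos])
  have z4 := c2.l36 (by linarith only [o0, o1, o2, o3, o4, o5, o6, o7, o8, hU1, hU2, hb1, hb2, hd1, hd2, he1, he2, hg1, hg2, top, pos])
  have z5 := c3.l35 (by linarith only [o0, o1, o2, o3, o4, o5, o6, o7, o8, hU1, hU2, hb1, hb2, hd1, hd2, he1, he2, hg1, hg2, top, pos])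
  have z6 := c4.l24 (by linarith only [o0, o1, o2, o3, o4, o5, o6, o7, o8, hU1, hU2, hb1, hb2, hd1, hd2, he1, he2, hg1, hg2, top, pos])
  have z7 := c5.l24 (by linarith only [o0, o1, o2, o3, o4, o5, o6, o7, o8, hU1, hU2, hb1, hb2, hd1, hd2, he1, he2, hg1, hg2, top, pos])
  have z8 := c6.l24 (by linarith only [o0, o1, o2, o3, o4, o5, o6, o7, o8, hU1, hU2, hb1, hb2, hd1, hd2, he1, he2, hg1, hg2, top, pos])
  have zv := v1_100 (by linarith only [o0, o1, o2, o3, o4, o5, o6, o7, o8, hU1, hU2, hb1, hb2, hd1, hd2, he1, he2, hg1, hg2, top, pos])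
  linarith only [z0, z1, z2, z3, z4, z5, z6, z7, z8, zv, o0, o1, o2, o3, o4, o5, o6, o7, o8, hU1, hU2, hb1, hb2, hd1, hd2, he1, he2, hg1, hg2, top, pos, sum, msum, r1a, r1b, rBa, rBb, p0, p1, p2, p3, p4, p5, p6]

theorem N8.leaf5 {y0 y1 y2 y3 y4 y5 y6 y7 G τ m0 m1 m2 m3 m4 m5 m6 MG : ℝ} (h : N8 y0 y1 y2 y3 y4 y5 y6 y7 G τ m0 m1 m2 m3 m4 m5 m6 MG)
    (hU1 : (9/20) ≤ y0 + y1) (hU2 : y0 + y1 ≤ (8/9)) (hb1 : 0 ≤ y2) (hb2 : y2 ≤ (2/25))
    (hd1 : 0 ≤ y3) (hd2 : y3 ≤ (1/25)) (he1 : (1/100) ≤ y4) (he2 : y4 ≤ (4/25)) (hg1 : 0 ≤ y7) (hg2 : y7 ≤ (3/100)) : False := by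
  obtain ⟨o0, o1, o2, o3, o4, o5, o6, o7, o8, pos, top, sum, top7, msum, p0, p1, p2, p3, p4, p5, p6, q1, q2, q3, qb, c0, c1, c2, c3, c4, c5, c6, v1_100, v3_200, v1_50, v3_100, v1_8⟩ := h
  have pK : 0 ≤ ((16/9) - (y0 + 3 * y1)) * τ := mul_nonneg (by linarith only [o0, o1, o2, o3, o4, o5, o6, o7, o8, hU1, hU2, hb1, hb2, hd1, hd2, he1, he2, hg1, hg2, top, pos]) pos.le
  have pb1 : 0 ≤ (y2 - 0) * (y0 + y1 - (9/20)) := mul_nonneg (by linarith only [o0, o1, o2, o3, o4, o5, o6, o7, o8, hU1, hU2, hb1, hb2, hd1, hd2, he1, he2, hg1, hg2, top, pos]) (by linarith only [o0, o1, o2, o3, o4, o5, o6, o7, o8, hU1, hU2, hb1, hb2, hd1, hd2, he1, he2, hg1, hg2, top, pos])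
  have pb2 : 0 ≤ ((2/25) - y2) * ((8/9) - (y0 + y1)) := mul_nonneg (by linarith only [o0, o1, o2, o3, o4, o5, o6, o7, o8, hU1, hU2, hb1, hb2, hd1, hd2, he1, he2, hg1, hg2, top, pos]) (by linarith only [o0, o1, o2, o3, o4, o5, o6, o7, o8, hU1, hU2, hb1, hb2, hd1, hd2, he1, he2, hg1, hg2, top, pos])
  have pb3 : 0 ≤ (y2 - 0) * ((2/25) - y2) := mul_nonneg (by linarith only [o0, o1, o2, o3, o4, o5, o6, o7, o8, hU1, hU2, hb1, hb2, hd1, hd2, he1, he2, hg1, hg2, top, pos]) (by linarith only [o0, o1, o2, o3, o4, o5, o6, o7, o8, hU1, hU2, hb1, hb2, hd1, hd2, he1, he2, hg1, hg2, top, pos])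
  have r1a : 0 * (y0 + y1) + (41/50) * y2 - (3929/180) * τ ≤ 0 := by
    linarith only [q1, pK, pb1, pb3]
  have r1b : (4/25) * (y0 + y1) + (382/225) * y2 - (3929/180) * τ ≤ (32/225) := by
    linarith only [q1, pK, pb2, pb3]
  have pL : 0 ≤ (1 - (9/16) * (y0 + 3 * y1)) * τ := mul_nonneg (by linarith only [o0, o1, o2, o3, o4, o5, o6, o7, o8, hU1, hU2, hb1, hb2, hd1, hd2, he1, he2, hg1, hg2, top, pos]) (by linarith only [o0, o1, o2, o3, o4, o5, o6, o7, o8, hU1, hU2, hb1, hb2, hd1, hd2, he1, he2, hg1, hg2, top, pos])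
  have pd1 : 0 ≤ (y3 - 0) * (y1 + y2 - (1/180)) := mul_nonneg (by linarith only [o0, o1, o2, o3, o4, o5, o6, o7, o8, hU1, hU2, hb1, hb2, hd1, hd2, he1, he2, hg1, hg2, top, pos]) (by linarith only [o0, o1, o2, o3, o4, o5, o6, o7, o8, hU1, hU2, hb1, hb2, hd1, hd2, he1, he2, hg1, hg2, top, pos])
  have pd2 : 0 ≤ ((1/25) - y3) * ((118/225) - (y1 + y2)) := mul_nonneg (by linarith only [o0, o1, o2, o3, o4, o5, o6, o7, o8, hU1, hU2, hb1, hb2, hd1, hd2, he1, he2, hg1, hg2, top, pos]) (by linarith only [o0, o1, o2, o3, o4, o5, o6, o7, o8, hU1, hU2, hb1, hb2, hd1, hd2, he1, he2, hg1, hg2, top, pos])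
  have pd3 : 0 ≤ (y3 - 0) * ((1/25) - y3) := mul_nonneg (by linarith only [o0, o1, o2, o3, o4, o5, o6, o7, o8, hU1, hU2, hb1, hb2, hd1, hd2, he1, he2, hg1, hg2, top, pos]) (by linarith only [o0, o1, o2, o3, o4, o5, o6, o7, o8, hU1, hU2, hb1, hb2, hd1, hd2, he1, he2, hg1, hg2, top, pos])
  have rBa : 0 * (y1 + y2) + (-13/450) * y3 - (283/20) * τ ≤ 0 := by
    linarith only [qb, pL, pd1, pd3]
  have rBb : (2/25) * (y1 + y2) + (227/225) * y3 - (283/20) * τ ≤ (236/5625) := by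
    linarith only [qb, pL, pd2, pd3]
  have z0 := c0.l15 (by linarith only [o0, o1, o2, o3, o4, o5, o6, o7, o8, hU1, hU2, hb1, hb2, hd1, hd2, he1, he2, hg1, hg2, top, pos])
  have z1 := c0.l16 (by linarith only [o0, o1, o2, o3, o4, o5, o6, o7, o8, hU1, hU2, hb1, hb2, hd1, hd2, he1, he2, hg1, hg2, top, pos])
  have z2 := c1.l15 (by linarith only [o0, o1, o2, o3, o4, o5, o6, o7, o8, hU1, hU2, hb1, hb2, hd1, hd2, he1, he2, hg1, hg2, top, pos])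
  have z3 := c1.l16 (by linarith only [o0, o1, o2, o3, o4, o5, o6, o7, o8, hU1, hU2, hb1, hb2, hd1, hd2, he1, he2, hg1, hg2, top, pos])
  have z4 := c2.l33 (by linarith only [o0, o1, o2, o3, o4, o5, o6, o7, o8, hU1, hU2, hb1, hb2, hd1, hd2, he1, he2, hg1, hg2, top, pos])
  have z5 := c3.l30 (by linarith only [o0, o1, o2, o3, o4, o5, o6, o7, o8, hU1, hU2, hb1, hb2, hd1, hd2, he1, he2, hg1, hg2, top, pos])
  have z6 := c4.l123 (by linarith only [o0, o1, o2, o3, o4, o5, o6, o7, o8, hU1, hU2, hb1, hb2, hd1, hd2, he1, he2, hg1, hg2, top, pos]) (by linarith only [o0, o1, o2, o3, o4, o5, o6, o7, o8, hU1, hU2, hb1, hb2, hd1, hd2, he1, he2, hg1, hg2, top, pos])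
  have z7 := c5.l36 (by linarith only [o0, o1, o2, o3, o4, o5, o6, o7, o8, hU1, hU2, hb1, hb2, hd1, hd2, he1, he2, hg1, hg2, top, pos])
  have z8 := c6.l36 (by linarith only [o0, o1, o2, o3, o4, o5, o6, o7, o8, hU1, hU2, hb1, hb2, hd1, hd2, he1, he2, hg1, hg2, top, pos])
  have zv := v3_100 (by linarith only [o0, o1, o2, o3, o4, o5, o6, o7, o8, hU1, hU2, hb1, hb2, hd1, hd2, he1, he2, hg1, hg2, top, pos])
  linarith only [z0, z1, z2, z3, z4, z5, z6, z7, z8, zv, o0, o1, o2, o3, o4, o5, o6, o7, o8, hU1, hU2, hb1, hb2, hd1, hd2, he1, he2, hg1, hg2, top, pos, sum, msum, r1a, r1b, rBa, rBb, p0, p1, p2, p3, p4, p5, p6]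

theorem N8.leaf6 {y0 y1 y2 y3 y4 y5 y6 y7 G τ m0 m1 m2 m3 m4 m5 m6 MG : ℝ} (h : N8 y0 y1 y2 y3 y4 y5 y6 y7 G τ m0 m1 m2 m3 m4 m5 m6 MG)
    (hU1 : (9/20) ≤ y0 + y1) (hU2 : y0 + y1 ≤ (8/9)) (hb1 : 0 ≤ y2) (hb2 : y2 ≤ (2/25))
    (hd1 : (1/25) ≤ y3) (hd2 : y3 ≤ (13/100)) (he1 : (1/100) ≤ y4) (he2 : y4 ≤ (4/25)) (hg1 : 0 ≤ y7) (hg2 : y7 ≤ (3/100)) : False := by
  obtain ⟨o0, o1, o2, o3, o4, o5, o6, o7, o8, pos, top, sum, top7, msum, p0, p1, p2, p3, p4, p5, p6, q1, q2, q3, qb, c0, c1, c2, c3, c4, c5, c6, v1_100, v3_200, v1_50, v3_100, v1_8⟩ := h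
  have pK : 0 ≤ ((16/9) - (y0 + 3 * y1)) * τ := mul_nonneg (by linarith only [o0, o1, o2, o3, o4, o5, o6, o7, o8, hU1, hU2, hb1, hb2, hd1, hd2, he1, he2, hg1, hg2, top, pos]) pos.le
  have pb1 : 0 ≤ (y2 - 0) * (y0 + y1 - (9/20)) := mul_nonneg (by linarith only [o0, o1, o2, o3, o4, o5, o6, o7, o8, hU1, hU2, hb1, hb2, hd1, hd2, he1, he2, hg1, hg2, top, pos]) (by linarith only [o0, o1, o2, o3, o4, o5, o6, o7, o8, hU1, hU2, hb1, hb2, hd1, hd2, he1, he2, hg1, hg2, top, pos])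
  have pb2 : 0 ≤ ((2/25) - y2) * ((8/9) - (y0 + y1)) := mul_nonneg (by linarith only [o0, o1, o2, o3, o4, o5, o6, o7, o8, hU1, hU2, hb1, hb2, hd1, hd2, he1, he2, hg1, hg2, top, pos]) (by linarith only [o0, o1, o2, o3, o4, o5, o6, o7, o8, hU1, hU2, hb1, hb2, hd1, hd2, he1, he2, hg1, hg2, top, pos])
  have pb3 : 0 ≤ (y2 - 0) * ((2/25) - y2) := mul_nonneg (by linarith only [o0, o1, o2, o3, o4, o5, o6, o7, o8, hU1, hU2, hb1, hb2, hd1, hd2, he1, he2, hg1, hg2, top, pos]) (by linarith only [o0, o1, o2, o3, o4, o5, o6, o7, o8, hU1, hU2, hb1, hb2, hd1, hd2, he1, he2, hg1, hg2, top, pos])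
  have r1a : 0 * (y0 + y1) + (41/50) * y2 - (3929/180) * τ ≤ 0 := by
    linarith only [q1, pK, pb1, pb3]
  have r1b : (4/25) * (y0 + y1) + (382/225) * y2 - (3929/180) * τ ≤ (32/225) := by
    linarith only [q1, pK, pb2, pb3]
  have pL : 0 ≤ (1 - (9/16) * (y0 + 3 * y1)) * τ := mul_nonneg (by linarith only [o0, o1, o2, o3, o4, o5, o6, o7, o8, hU1, hU2, hb1, hb2, hd1, hd2, he1, he2, hg1, hg2, top, pos]) (by linarith only [o0, o1, o2, o3, o4, o5, o6, o7, o8, hU1, hU2, hb1, hb2, hd1, hd2, he1, he2, hg1, hg2, top, pos])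
  have pd1 : 0 ≤ (y3 - (1/25)) * (y1 + y2 - (1/180)) := mul_nonneg (by linarith only [o0, o1, o2, o3, o4, o5, o6, o7, o8, hU1, hU2, hb1, hb2, hd1, hd2, he1, he2, hg1, hg2, top, pos]) (by linarith only [o0, o1, o2, o3, o4, o5, o6, o7, o8, hU1, hU2, hb1, hb2, hd1, hd2, he1, he2, hg1, hg2, top, pos])
  have pd2 : 0 ≤ ((13/100) - y3) * ((118/225) - (y1 + y2)) := mul_nonneg (by linarith only [o0, o1, o2, o3, o4, o5, o6, o7, o8, hU1, hU2, hb1, hb2, hd1, hd2, he1, he2, hg1, hg2, top, pos]) (by linarith only [o0, o1, o2, o3, o4, o5, o6, o7, o8, hU1, hU2, hb1, hb2, hd1, hd2, he1, he2, hg1, hg2, top, pos])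
  have pd3 : 0 ≤ (y3 - (1/25)) * ((13/100) - y3) := mul_nonneg (by linarith only [o0, o1, o2, o3, o4, o5, o6, o7, o8, hU1, hU2, hb1, hb2, hd1, hd2, he1, he2, hg1, hg2, top, pos]) (by linarith only [o0, o1, o2, o3, o4, o5, o6, o7, o8, hU1, hU2, hb1, hb2, hd1, hd2, he1, he2, hg1, hg2, top, pos])
  have rBa : (2/25) * (y1 + y2) + (-143/900) * y3 - (283/20) * τ ≤ (-107/22500) := by
    linarith only [qb, pL, pd1, pd3]
  have rBb : (13/50) * (y1 + y2) + (791/900) * y3 - (283/20) * τ ≤ (2951/22500) := by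
    linarith only [qb, pL, pd2, pd3]
  have z0 := c0.l15 (by linarith only [o0, o1, o2, o3, o4, o5, o6, o7, o8, hU1, hU2, hb1, hb2, hd1, hd2, he1, he2, hg1, hg2, top, pos])
  have z1 := c0.l16 (by linarith only [o0, o1, o2, o3, o4, o5, o6, o7, o8, hU1, hU2, hb1, hb2, hd1, hd2, he1, he2, hg1, hg2, top, pos])
  have z2 := c1.l15 (by linarith only [o0, o1, o2, o3, o4, o5, o6, o7, o8, hU1, hU2, hb1, hb2, hd1, hd2, he1, he2, hg1, hg2, top, pos])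
  have z3 := c1.l16 (by linarith only [o0, o1, o2, o3, o4, o5, o6, o7, o8, hU1, hU2, hb1, hb2, hd1, hd2, he1, he2, hg1, hg2, top, pos])
  have z4 := c2.l33 (by linarith only [o0, o1, o2, o3, o4, o5, o6, o7, o8, hU1, hU2, hb1, hb2, hd1, hd2, he1, he2, hg1, hg2, top, pos])
  have z5 := c3.l173 (by linarith only [o0, o1, o2, o3, o4, o5, o6, o7, o8, hU1, hU2, hb1, hb2, hd1, hd2, he1, he2, hg1, hg2, top, pos]) (by linarith only [o0, o1, o2, o3, o4, o5, o6, o7, o8, hU1, hU2, hb1, hb2, hd1, hd2, he1, he2, hg1, hg2, top, pos])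
  have z6 := c4.l123 (by linarith only [o0, o1, o2, o3, o4, o5, o6, o7, o8, hU1, hU2, hb1, hb2, hd1, hd2, he1, he2, hg1, hg2, top, pos]) (by linarith only [o0, o1, o2, o3, o4, o5, o6, o7, o8, hU1, hU2, hb1, hb2, hd1, hd2, he1, he2, hg1, hg2, top, pos])
  have z7 := c5.l36 (by linarith only [o0, o1, o2, o3, o4, o5, o6, o7, o8, hU1, hU2, hb1, hb2, hd1, hd2, he1, he2, hg1, hg2, top, pos])
  have z8 := c6.l36 (by linarith only [o0, o1, o2, o3, o4, o5, o6, o7, o8, hU1, hU2, hb1, hb2, hd1, hd2, he1, he2, hg1, hg2, top, pos])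
  have zv := v3_100 (by linarith only [o0, o1, o2, o3, o4, o5, o6, o7, o8, hU1, hU2, hb1, hb2, hd1, hd2, he1, he2, hg1, hg2, top, pos])
  linarith only [z0, z1, z2, z3, z4, z5, z6, z7, z8, zv, o0, o1, o2, o3, o4, o5, o6, o7, o8, hU1, hU2, hb1, hb2, hd1, hd2, he1, he2, hg1, hg2, top, pos, sum, msum, r1a, r1b, rBa, rBb, p0, p1, p2, p3, p4, p5, p6]

theorem N8.leaf7 {y0 y1 y2 y3 y4 y5 y6 y7 G τ m0 m1 m2 m3 m4 m5 m6 MG : ℝ} (h : N8 y0 y1 y2 y3 y4 y5 y6 y7 G τ m0 m1 m2 m3 m4 m5 m6 MG)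
    (hU1 : (9/20) ≤ y0 + y1) (hU2 : y0 + y1 ≤ (8/9)) (hb1 : (2/25) ≤ y2) (hb2 : y2 ≤ (3/20))
    (hd1 : 0 ≤ y3) (hd2 : y3 ≤ (13/100)) (he1 : (1/100) ≤ y4) (he2 : y4 ≤ (4/25)) (hg1 : 0 ≤ y7) (hg2 : y7 ≤ (3/100)) : False := by
  obtain ⟨o0, o1, o2, o3, o4, o5, o6, o7, o8, pos, top, sum, top7, msum, p0, p1, p2, p3, p4, p5, p6, q1, q2, q3, qb, c0, c1, c2, c3, c4, c5, c6, v1_100, v3_200, v1_50, v3_100, v1_8⟩ := h
  have pK : 0 ≤ ((16/9) - (y0 + 3 * y1)) * τ := mul_nonneg (by linarith only [o0, o1, o2, o3, o4, o5, o6, o7, o8, hU1, hU2, hb1, hb2, hd1, hd2, he1, he2, hg1, hg2, top, pos]) pos.le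
  have pb1 : 0 ≤ (y2 - (2/25)) * (y0 + y1 - (9/20)) := mul_nonneg (by linarith only [o0, o1, o2, o3, o4, o5, o6, o7, o8, hU1, hU2, hb1, hb2, hd1, hd2, he1, he2, hg1, hg2, top, pos]) (by linarith only [o0, o1, o2, o3, o4, o5, o6, o7, o8, hU1, hU2, hb1, hb2, hd1, hd2, he1, he2, hg1, hg2, top, pos])
  have pb2 : 0 ≤ ((3/20) - y2) * ((8/9) - (y0 + y1)) := mul_nonneg (by linarith only [o0, o1, o2, o3, o4, o5, o6, o7, o8, hU1, hU2, hb1, hb2, hd1, hd2, he1, he2, hg1, hg2, top, pos]) (by linarith only [o0, o1, o2, o3, o4, o5, o6, o7, o8, hU1, hU2, hb1, hb2, hd1, hd2, he1, he2, hg1, hg2, top, pos])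
  have pb3 : 0 ≤ (y2 - (2/25)) * ((3/20) - y2) := mul_nonneg (by linarith only [o0, o1, o2, o3, o4, o5, o6, o7, o8, hU1, hU2, hb1, hb2, hd1, hd2, he1, he2, hg1, hg2, top, pos]) (by linarith only [o0, o1, o2, o3, o4, o5, o6, o7, o8, hU1, hU2, hb1, hb2, hd1, hd2, he1, he2, hg1, hg2, top, pos])
  have r1a : (4/25) * (y0 + y1) + (67/100) * y2 - (3929/180) * τ ≤ (3/50) := by
    linarith only [q1, pK, pb1, pb3]
  have r1b : (3/10) * (y0 + y1) + (1393/900) * y2 - (3929/180) * τ ≤ (191/750) := by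
    linarith only [q1, pK, pb2, pb3]
  have pL : 0 ≤ (1 - (9/16) * (y0 + 3 * y1)) * τ := mul_nonneg (by linarith only [o0, o1, o2, o3, o4, o5, o6, o7, o8, hU1, hU2, hb1, hb2, hd1, hd2, he1, he2, hg1, hg2, top, pos]) (by linarith only [o0, o1, o2, o3, o4, o5, o6, o7, o8, hU1, hU2, hb1, hb2, hd1, hd2, he1, he2, hg1, hg2, top, pos])
  have pd1 : 0 ≤ (y3 - 0) * (y1 + y2 - (4/25)) := mul_nonneg (by linarith only [o0, o1, o2, o3, o4, o5, o6, o7, o8, hU1, hU2, hb1, hb2, hd1, hd2, he1, he2, hg1, hg2, top, pos]) (by linarith only [o0, o1, o2, o3, o4, o5, o6, o7, o8, hU1, hU2, hb1, hb2, hd1, hd2, he1, he2, hg1, hg2, top, pos])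
  have pd2 : 0 ≤ ((13/100) - y3) * ((107/180) - (y1 + y2)) := mul_nonneg (by linarith only [o0, o1, o2, o3, o4, o5, o6, o7, o8, hU1, hU2, hb1, hb2, hd1, hd2, he1, he2, hg1, hg2, top, pos]) (by linarith only [o0, o1, o2, o3, o4, o5, o6, o7, o8, hU1, hU2, hb1, hb2, hd1, hd2, he1, he2, hg1, hg2, top, pos])
  have pd3 : 0 ≤ (y3 - 0) * ((13/100) - y3) := mul_nonneg (by linarith only [o0, o1, o2, o3, o4, o5, o6, o7, o8, hU1, hU2, hb1, hb2, hd1, hd2, he1, he2, hg1, hg2, top, pos]) (by linarith only [o0, o1, o2, o3, o4, o5, o6, o7, o8, hU1, hU2, hb1, hb2, hd1, hd2, he1, he2, hg1, hg2, top, pos])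
  have rBa : 0 * (y1 + y2) + (19/100) * y3 - (283/20) * τ ≤ 0 := by
    linarith only [qb, pL, pd1, pd3]
  have rBb : (13/50) * (y1 + y2) + (953/900) * y3 - (283/20) * τ ≤ (1391/9000) := by
    linarith only [qb, pL, pd2, pd3]
  have ht : (3/1000) ≤ τ := by linarith only [o0, o1, o2, o3, o4, o5, o6, o7, o8, hU1, hU2, hb1, hb2, hd1, hd2, he1, he2, hg1, hg2, top, pos, sum, r1a, r1b, rBa, rBb]
  have z0 := c0.l14 (by linarith only [o0, o1, o2, o3, o4, o5, o6, o7, o8, hU1, hU2, hb1, hb2, hd1, hd2, he1, he2, hg1, hg2, top, pos, ht])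
  have z1 := c0.l15 (by linarith only [o0, o1, o2, o3, o4, o5, o6, o7, o8, hU1, hU2, hb1, hb2, hd1, hd2, he1, he2, hg1, hg2, top, pos, ht])
  have z2 := c1.l14 (by linarith only [o0, o1, o2, o3, o4, o5, o6, o7, o8, hU1, hU2, hb1, hb2, hd1, hd2, he1, he2, hg1, hg2, top, pos, ht])
  have z3 := c2.l186 (by linarith only [o0, o1, o2, o3, o4, o5, o6, o7, o8, hU1, hU2, hb1, hb2, hd1, hd2, he1, he2, hg1, hg2, top, pos, ht]) (by linarith only [o0, o1, o2, o3, o4, o5, o6, o7, o8, hU1, hU2, hb1, hb2, hd1, hd2, he1, he2, hg1, hg2, top, pos, ht])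
  have z4 := c3.l68 (by linarith only [o0, o1, o2, o3, o4, o5, o6, o7, o8, hU1, hU2, hb1, hb2, hd1, hd2, he1, he2, hg1, hg2, top, pos, ht]) (by linarith only [o0, o1, o2, o3, o4, o5, o6, o7, o8, hU1, hU2, hb1, hb2, hd1, hd2, he1, he2, hg1, hg2, top, pos, ht])
  have z5 := c4.l123 (by linarith only [o0, o1, o2, o3, o4, o5, o6, o7, o8, hU1, hU2, hb1, hb2, hd1, hd2, he1, he2, hg1, hg2, top, pos, ht]) (by linarith only [o0, o1, o2, o3, o4, o5, o6, o7, o8, hU1, hU2, hb1, hb2, hd1, hd2, he1, he2, hg1, hg2, top, pos, ht])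
  have z6 := c5.l69 (by linarith only [o0, o1, o2, o3, o4, o5, o6, o7, o8, hU1, hU2, hb1, hb2, hd1, hd2, he1, he2, hg1, hg2, top, pos, ht]) (by linarith only [o0, o1, o2, o3, o4, o5, o6, o7, o8, hU1, hU2, hb1, hb2, hd1, hd2, he1, he2, hg1, hg2, top, pos, ht])
  have z7 := c6.l69 (by linarith only [o0, o1, o2, o3, o4, o5, o6, o7, o8, hU1, hU2, hb1, hb2, hd1, hd2, he1, he2, hg1, hg2, top, pos, ht]) (by linarith only [o0, o1, o2, o3, o4, o5, o6, o7, o8, hU1, hU2, hb1, hb2, hd1, hd2, he1, he2, hg1, hg2, top, pos, ht])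
  have zv := v3_100 (by linarith only [o0, o1, o2, o3, o4, o5, o6, o7, o8, hU1, hU2, hb1, hb2, hd1, hd2, he1, he2, hg1, hg2, top, pos, ht])
  linarith only [z0, z1, z2, z3, z4, z5, z6, z7, zv, o0, o1, o2, o3, o4, o5, o6, o7, o8, hU1, hU2, hb1, hb2, hd1, hd2, he1, he2, hg1, hg2, top, pos, ht, sum, msum, r1a, r1b, rBa, rBb, p0, p1, p2, p3, p4, p5, p6]

theorem N8.leaf8 {y0 y1 y2 y3 y4 y5 y6 y7 G τ m0 m1 m2 m3 m4 m5 m6 MG : ℝ} (h : N8 y0 y1 y2 y3 y4 y5 y6 y7 G τ m0 m1 m2 m3 m4 m5 m6 MG)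
    (hU1 : (1/20) ≤ y0 + y1) (hU2 : y0 + y1 ≤ (8/9)) (hb1 : 0 ≤ y2) (hb2 : y2 ≤ (3/20))
    (hd1 : 0 ≤ y3) (hd2 : y3 ≤ (13/100)) (he1 : (4/25) ≤ y4) (he2 : y4 ≤ (1/5)) (hg1 : 0 ≤ y7) (hg2 : y7 ≤ (3/100)) : False := by
  obtain ⟨o0, o1, o2, o3, o4, o5, o6, o7, o8, pos, top, sum, top7, msum, p0, p1, p2, p3, p4, p5, p6, q1, q2, q3, qb, c0, c1, c2, c3, c4, c5, c6, v1_100, v3_200, v1_50, v3_100, v1_8⟩ := h
  have pK : 0 ≤ ((16/9) - (y0 + 3 * y1)) * τ := mul_nonneg (by linarith only [o0, o1, o2, o3, o4, o5, o6, o7, o8, hU1, hU2, hb1, hb2, hd1, hd2, he1, he2, hg1, hg2, top, pos]) pos.le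
  have pb1 : 0 ≤ (y2 - 0) * (y0 + y1 - (1/20)) := mul_nonneg (by linarith only [o0, o1, o2, o3, o4, o5, o6, o7, o8, hU1, hU2, hb1, hb2, hd1, hd2, he1, he2, hg1, hg2, top, pos]) (by linarith only [o0, o1, o2, o3, o4, o5, o6, o7, o8, hU1, hU2, hb1, hb2, hd1, hd2, he1, he2, hg1, hg2, top, pos])
  have pb2 : 0 ≤ ((3/20) - y2) * ((8/9) - (y0 + y1)) := mul_nonneg (by linarith only [o0, o1, o2, o3, o4, o5, o6, o7, o8, hU1, hU2, hb1, hb2, hd1, hd2, he1, he2, hg1, hg2, top, pos]) (by linarith only [o0, o1, o2, o3, o4, o5, o6, o7, o8, hU1, hU2, hb1, hb2, hd1, hd2, he1, he2, hg1, hg2, top, pos])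
  have pb3 : 0 ≤ (y2 - 0) * ((3/20) - y2) := mul_nonneg (by linarith only [o0, o1, o2, o3, o4, o5, o6, o7, o8, hU1, hU2, hb1, hb2, hd1, hd2, he1, he2, hg1, hg2, top, pos]) (by linarith only [o0, o1, o2, o3, o4, o5, o6, o7, o8, hU1, hU2, hb1, hb2, hd1, hd2, he1, he2, hg1, hg2, top, pos])
  have r1a : 0 * (y0 + y1) + (-1/20) * y2 - (3929/180) * τ ≤ 0 := by
    linarith only [q1, pK, pb1, pb3]
  have r1b : (3/10) * (y0 + y1) + (293/180) * y2 - (3929/180) * τ ≤ (4/15) := by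
    linarith only [q1, pK, pb2, pb3]
  have pL : 0 ≤ (1 - (9/16) * (y0 + 3 * y1)) * τ := mul_nonneg (by linarith only [o0, o1, o2, o3, o4, o5, o6, o7, o8, hU1, hU2, hb1, hb2, hd1, hd2, he1, he2, hg1, hg2, top, pos]) (by linarith only [o0, o1, o2, o3, o4, o5, o6, o7, o8, hU1, hU2, hb1, hb2, hd1, hd2, he1, he2, hg1, hg2, top, pos])
  have pd1 : 0 ≤ (y3 - 0) * (y1 + y2 - 0) := mul_nonneg (by linarith only [o0, o1, o2, o3, o4, o5, o6, o7, o8, hU1, hU2, hb1, hb2, hd1, hd2, he1, he2, hg1, hg2, top, pos]) (by linarith only [o0, o1, o2, o3, o4, o5, o6, o7, o8, hU1, hU2, hb1, hb2, hd1, hd2, he1, he2, hg1, hg2, top, pos])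
  have pd2 : 0 ≤ ((13/100) - y3) * ((107/180) - (y1 + y2)) := mul_nonneg (by linarith only [o0, o1, o2, o3, o4, o5, o6, o7, o8, hU1, hU2, hb1, hb2, hd1, hd2, he1, he2, hg1, hg2, top, pos]) (by linarith only [o0, o1, o2, o3, o4, o5, o6, o7, o8, hU1, hU2, hb1, hb2, hd1, hd2, he1, he2, hg1, hg2, top, pos])
  have pd3 : 0 ≤ (y3 - 0) * ((13/100) - y3) := mul_nonneg (by linarith only [o0, o1, o2, o3, o4, o5, o6, o7, o8, hU1, hU2, hb1, hb2, hd1, hd2, he1, he2, hg1, hg2, top, pos]) (by linarith only [o0, o1, o2, o3, o4, o5, o6, o7, o8, hU1, hU2, hb1, hb2, hd1, hd2, he1, he2, hg1, hg2, top, pos])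
  have rBa : 0 * (y1 + y2) + (-13/100) * y3 - (283/20) * τ ≤ 0 := by
    linarith only [qb, pL, pd1, pd3]
  have rBb : (13/50) * (y1 + y2) + (953/900) * y3 - (283/20) * τ ≤ (1391/9000) := by
    linarith only [qb, pL, pd2, pd3]
  linarith only [o0, o1, o2, o3, o4, o5, o6, o7, o8, hU1, hU2, hb1, hb2, hd1, hd2, he1, he2, hg1, hg2, top, pos, sum, r1a, r1b, rBa, rBb]

theorem N8.leaf9 {y0 y1 y2 y3 y4 y5 y6 y7 G τ m0 m1 m2 m3 m4 m5 m6 MG : ℝ} (h : N8 y0 y1 y2 y3 y4 y5 y6 y7 G τ m0 m1 m2 m3 m4 m5 m6 MG)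
    (hU1 : (1/20) ≤ y0 + y1) (hU2 : y0 + y1 ≤ (8/9)) (hb1 : (3/20) ≤ y2) (hb2 : y2 ≤ (11/50))
    (hd1 : 0 ≤ y3) (hd2 : y3 ≤ (13/100)) (he1 : 0 ≤ y4) (he2 : y4 ≤ (3/200)) (hg1 : 0 ≤ y7) (hg2 : y7 ≤ (3/100)) : False := by
  obtain ⟨o0, o1, o2, o3, o4, o5, o6, o7, o8, pos, top, sum, top7, msum, p0, p1, p2, p3, p4, p5, p6, q1, q2, q3, qb, c0, c1, c2, c3, c4, c5, c6, v1_100, v3_200, v1_50, v3_100, v1_8⟩ := h
  have pK : 0 ≤ ((16/9) - (y0 + 3 * y1)) * τ := mul_nonneg (by linarith only [o0, o1, o2, o3, o4, o5, o6, o7, o8, hU1, hU2, hb1, hb2, hd1, hd2, he1, he2, hg1, hg2, top, pos]) pos.le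
  have pb1 : 0 ≤ (y2 - (3/20)) * (y0 + y1 - (1/20)) := mul_nonneg (by linarith only [o0, o1, o2, o3, o4, o5, o6, o7, o8, hU1, hU2, hb1, hb2, hd1, hd2, he1, he2, hg1, hg2, top, pos]) (by linarith only [o0, o1, o2, o3, o4, o5, o6, o7, o8, hU1, hU2, hb1, hb2, hd1, hd2, he1, he2, hg1, hg2, top, pos])
  have pb2 : 0 ≤ ((11/50) - y2) * ((8/9) - (y0 + y1)) := mul_nonneg (by linarith only [o0, o1, o2, o3, o4, o5, o6, o7, o8, hU1, hU2, hb1, hb2, hd1, hd2, he1, he2, hg1, hg2, top, pos]) (by linarith only [o0, o1, o2, o3, o4, o5, o6, o7, o8, hU1, hU2, hb1, hb2, hd1, hd2, he1, he2, hg1, hg2, top, pos])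
  have pb3 : 0 ≤ (y2 - (3/20)) * ((11/50) - y2) := mul_nonneg (by linarith only [o0, o1, o2, o3, o4, o5, o6, o7, o8, hU1, hU2, hb1, hb2, hd1, hd2, he1, he2, hg1, hg2, top, pos]) (by linarith only [o0, o1, o2, o3, o4, o5, o6, o7, o8, hU1, hU2, hb1, hb2, hd1, hd2, he1, he2, hg1, hg2, top, pos])
  have r1a : (3/10) * (y0 + y1) + (-27/100) * y2 - (3929/180) * τ ≤ (-9/500) := by
    linarith only [q1, pK, pb1, pb3]
  have r1b : (11/25) * (y0 + y1) + (1267/900) * y2 - (3929/180) * τ ≤ (3223/9000) := by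
    linarith only [q1, pK, pb2, pb3]
  have pL : 0 ≤ (1 - (9/16) * (y0 + 3 * y1)) * τ := mul_nonneg (by linarith only [o0, o1, o2, o3, o4, o5, o6, o7, o8, hU1, hU2, hb1, hb2, hd1, hd2, he1, he2, hg1, hg2, top, pos]) (by linarith only [o0, o1, o2, o3, o4, o5, o6, o7, o8, hU1, hU2, hb1, hb2, hd1, hd2, he1, he2, hg1, hg2, top, pos])
  have pd1 : 0 ≤ (y3 - 0) * (y1 + y2 - (3/10)) := mul_nonneg (by linarith only [o0, o1, o2, o3, o4, o5, o6, o7, o8, hU1, hU2, hb1, hb2, hd1, hd2, he1, he2, hg1, hg2, top, pos]) (by linarith only [o0, o1, o2, o3, o4, o5, o6, o7, o8, hU1, hU2, hb1, hb2, hd1, hd2, he1, he2, hg1, hg2, top, pos])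
  have pd2 : 0 ≤ ((13/100) - y3) * ((299/450) - (y1 + y2)) := mul_nonneg (by linarith only [o0, o1, o2, o3, o4, o5, o6, o7, o8, hU1, hU2, hb1, hb2, hd1, hd2, he1, he2, hg1, hg2, top, pos]) (by linarith only [o0, o1, o2, o3, o4, o5, o6, o7, o8, hU1, hU2, hb1, hb2, hd1, hd2, he1, he2, hg1, hg2, top, pos])
  have pd3 : 0 ≤ (y3 - 0) * ((13/100) - y3) := mul_nonneg (by linarith only [o0, o1, o2, o3, o4, o5, o6, o7, o8, hU1, hU2, hb1, hb2, hd1, hd2, he1, he2, hg1, hg2, top, pos]) (by linarith only [o0, o1, o2, o3, o4, o5, o6, o7, o8, hU1, hU2, hb1, hb2, hd1, hd2, he1, he2, hg1, hg2, top, pos])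
  have rBa : 0 * (y1 + y2) + (47/100) * y3 - (283/20) * τ ≤ 0 := by
    linarith only [qb, pL, pd1, pd3]
  have rBb : (13/50) * (y1 + y2) + (1079/900) * y3 - (283/20) * τ ≤ (3887/22500) := by
    linarith only [qb, pL, pd2, pd3]
  have ht : (3/1000) ≤ τ := by linarith only [o0, o1, o2, o3, o4, o5, o6, o7, o8, hU1, hU2, hb1, hb2, hd1, hd2, he1, he2, hg1, hg2, top, pos, sum, r1a, r1b, rBa, rBb]
  have z0 := c0.l14 (by linarith only [o0, o1, o2, o3, o4, o5, o6, o7, o8, hU1, hU2, hb1, hb2, hd1, hd2, he1, he2, hg1, hg2, top, pos, ht])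
  have z1 := c0.l15 (by linarith only [o0, o1, o2, o3, o4, o5, o6, o7, o8, hU1, hU2, hb1, hb2, hd1, hd2, he1, he2, hg1, hg2, top, pos, ht])
  have z2 := c1.l14 (by linarith only [o0, o1, o2, o3, o4, o5, o6, o7, o8, hU1, hU2, hb1, hb2, hd1, hd2, he1, he2, hg1, hg2, top, pos, ht])
  have z3 := c2.l3 (by linarith only [o0, o1, o2, o3, o4, o5, o6, o7, o8, hU1, hU2, hb1, hb2, hd1, hd2, he1, he2, hg1, hg2, top, pos, ht])
  have z4 := c3.l68 (by linarith only [o0, o1, o2, o3, o4, o5, o6, o7, o8, hU1, hU2, hb1, hb2, hd1, hd2, he1, he2, hg1, hg2, top, pos, ht]) (by linarith only [o0, o1, o2, o3, o4, o5, o6, o7, o8, hU1, hU2, hb1, hb2, hd1, hd2, he1, he2, hg1, hg2, top, pos, ht])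
  have z5 := c4.l59 (by linarith only [o0, o1, o2, o3, o4, o5, o6, o7, o8, hU1, hU2, hb1, hb2, hd1, hd2, he1, he2, hg1, hg2, top, pos, ht]) (by linarith only [o0, o1, o2, o3, o4, o5, o6, o7, o8, hU1, hU2, hb1, hb2, hd1, hd2, he1, he2, hg1, hg2, top, pos, ht])
  have z6 := c5.l59 (by linarith only [o0, o1, o2, o3, o4, o5, o6, o7, o8, hU1, hU2, hb1, hb2, hd1, hd2, he1, he2, hg1, hg2, top, pos, ht]) (by linarith only [o0, o1, o2, o3, o4, o5, o6, o7, o8, hU1, hU2, hb1, hb2, hd1, hd2, he1, he2, hg1, hg2, top, pos, ht])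
  have z7 := c6.l59 (by linarith only [o0, o1, o2, o3, o4, o5, o6, o7, o8, hU1, hU2, hb1, hb2, hd1, hd2, he1, he2, hg1, hg2, top, pos, ht]) (by linarith only [o0, o1, o2, o3, o4, o5, o6, o7, o8, hU1, hU2, hb1, hb2, hd1, hd2, he1, he2, hg1, hg2, top, pos, ht])
  have zv := v3_200 (by linarith only [o0, o1, o2, o3, o4, o5, o6, o7, o8, hU1, hU2, hb1, hb2, hd1, hd2, he1, he2, hg1, hg2, top, pos, ht])
  linarith only [z0, z1, z2, z3, z4, z5, z6, z7, zv, o0, o1, o2, o3, o4, o5, o6, o7, o8, hU1, hU2, hb1, hb2, hd1, hd2, he1, he2, hg1, hg2, top, pos, ht, sum, msum, r1a, r1b, rBa, rBb, p0, p1, p2, p3, p4, p5, p6]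

theorem N8.leaf10 {y0 y1 y2 y3 y4 y5 y6 y7 G τ m0 m1 m2 m3 m4 m5 m6 MG : ℝ} (h : N8 y0 y1 y2 y3 y4 y5 y6 y7 G τ m0 m1 m2 m3 m4 m5 m6 MG)
    (hU1 : (1/20) ≤ y0 + y1) (hU2 : y0 + y1 ≤ (8/9)) (hb1 : (11/50) ≤ y2) (hb2 : y2 ≤ (1/3))
    (hd1 : 0 ≤ y3) (hd2 : y3 ≤ (13/100)) (he1 : 0 ≤ y4) (he2 : y4 ≤ (3/200)) (hg1 : 0 ≤ y7) (hg2 : y7 ≤ (3/100)) : False := by
  obtain ⟨o0, o1, o2, o3, o4, o5, o6, o7, o8, pos, top, sum, top7, msum, p0, p1, p2, p3, p4, p5, p6, q1, q2, q3, qb, c0, c1, c2, c3, c4, c5, c6, v1_100, v3_200, v1_50, v3_100, v1_8⟩ := h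
  have pK : 0 ≤ ((16/9) - (y0 + 3 * y1)) * τ := mul_nonneg (by linarith only [o0, o1, o2, o3, o4, o5, o6, o7, o8, hU1, hU2, hb1, hb2, hd1, hd2, he1, he2, hg1, hg2, top, pos]) pos.le
  have pb1 : 0 ≤ (y2 - (11/50)) * (y0 + y1 - (1/20)) := mul_nonneg (by linarith only [o0, o1, o2, o3, o4, o5, o6, o7, o8, hU1, hU2, hb1, hb2, hd1, hd2, he1, he2, hg1, hg2, top, pos]) (by linarith only [o0, o1, o2, o3, o4, o5, o6, o7, o8, hU1, hU2, hb1, hb2, hd1, hd2, he1, he2, hg1, hg2, top, pos])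
  have pb2 : 0 ≤ ((1/3) - y2) * ((8/9) - (y0 + y1)) := mul_nonneg (by linarith only [o0, o1, o2, o3, o4, o5, o6, o7, o8, hU1, hU2, hb1, hb2, hd1, hd2, he1, he2, hg1, hg2, top, pos]) (by linarith only [o0, o1, o2, o3, o4, o5, o6, o7, o8, hU1, hU2, hb1, hb2, hd1, hd2, he1, he2, hg1, hg2, top, pos])
  have pb3 : 0 ≤ (y2 - (11/50)) * ((1/3) - y2) := mul_nonneg (by linarith only [o0, o1, o2, o3, o4, o5, o6, o7, o8, hU1, hU2, hb1, hb2, hd1, hd2, he1, he2, hg1, hg2, top, pos]) (by linarith only [o0, o1, o2, o3, o4, o5, o6, o7, o8, hU1, hU2, hb1, hb2, hd1, hd2, he1, he2, hg1, hg2, top, pos])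
  have r1a : (11/25) * (y0 + y1) + (-34/75) * y2 - (3929/180) * τ ≤ (-77/1500) := by
    linarith only [q1, pK, pb1, pb3]
  have r1b : (2/3) * (y0 + y1) + (551/450) * y2 - (3929/180) * τ ≤ (701/1350) := by
    linarith only [q1, pK, pb2, pb3]
  have pL : 0 ≤ (1 - (9/16) * (y0 + 3 * y1)) * τ := mul_nonneg (by linarith only [o0, o1, o2, o3, o4, o5, o6, o7, o8, hU1, hU2, hb1, hb2, hd1, hd2, he1, he2, hg1, hg2, top, pos]) (by linarith only [o0, o1, o2, o3, o4, o5, o6, o7, o8, hU1, hU2, hb1, hb2, hd1, hd2, he1, he2, hg1, hg2, top, pos])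
  have pd1 : 0 ≤ (y3 - 0) * (y1 + y2 - (11/25)) := mul_nonneg (by linarith only [o0, o1, o2, o3, o4, o5, o6, o7, o8, hU1, hU2, hb1, hb2, hd1, hd2, he1, he2, hg1, hg2, top, pos]) (by linarith only [o0, o1, o2, o3, o4, o5, o6, o7, o8, hU1, hU2, hb1, hb2, hd1, hd2, he1, he2, hg1, hg2, top, pos])
  have pd2 : 0 ≤ ((13/100) - y3) * ((7/9) - (y1 + y2)) := mul_nonneg (by linarith only [o0, o1, o2, o3, o4, o5, o6, o7, o8, hU1, hU2, hb1, hb2, hd1, hd2, he1, he2, hg1, hg2, top, pos]) (by linarith only [o0, o1, o2, o3, o4, o5, o6, o7, o8, hU1, hU2, hb1, hb2, hd1, hd2, he1, he2, hg1, hg2, top, pos])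
  have pd3 : 0 ≤ (y3 - 0) * ((13/100) - y3) := mul_nonneg (by linarith only [o0, o1, o2, o3, o4, o5, o6, o7, o8, hU1, hU2, hb1, hb2, hd1, hd2, he1, he2, hg1, hg2, top, pos]) (by linarith only [o0, o1, o2, o3, o4, o5, o6, o7, o8, hU1, hU2, hb1, hb2, hd1, hd2, he1, he2, hg1, hg2, top, pos])
  have rBa : 0 * (y1 + y2) + (3/4) * y3 - (283/20) * τ ≤ 0 := by
    linarith only [qb, pL, pd1, pd3]
  have rBb : (13/50) * (y1 + y2) + (1283/900) * y3 - (283/20) * τ ≤ (91/450) := by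
    linarith only [qb, pL, pd2, pd3]
  have ht : (1/200) ≤ τ := by linarith only [o0, o1, o2, o3, o4, o5, o6, o7, o8, hU1, hU2, hb1, hb2, hd1, hd2, he1, he2, hg1, hg2, top, pos, sum, r1a, r1b, rBa, rBb]
  have z0 := c0.l13 (by linarith only [o0, o1, o2, o3, o4, o5, o6, o7, o8, hU1, hU2, hb1, hb2, hd1, hd2, he1, he2, hg1, hg2, top, pos, ht])
  have z1 := c1.l12 (by linarith only [o0, o1, o2, o3, o4, o5, o6, o7, o8, hU1, hU2, hb1, hb2, hd1, hd2, he1, he2, hg1, hg2, top, pos, ht])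
  have z2 := c1.l13 (by linarith only [o0, o1, o2, o3, o4, o5, o6, o7, o8, hU1, hU2, hb1, hb2, hd1, hd2, he1, he2, hg1, hg2, top, pos, ht])
  have z3 := c2.l9 (by linarith only [o0, o1, o2, o3, o4, o5, o6, o7, o8, hU1, hU2, hb1, hb2, hd1, hd2, he1, he2, hg1, hg2, top, pos, ht])
  have z4 := c2.l10 (by linarith only [o0, o1, o2, o3, o4, o5, o6, o7, o8, hU1, hU2, hb1, hb2, hd1, hd2, he1, he2, hg1, hg2, top, pos, ht])
  have z5 := c3.l97 (by linarith only [o0, o1, o2, o3, o4, o5, o6, o7, o8, hU1, hU2, hb1, hb2, hd1, hd2, he1, he2, hg1, hg2, top, pos, ht]) (by linarith only [o0, o1, o2, o3, o4, o5, o6, o7, o8, hU1, hU2, hb1, hb2, hd1, hd2, he1, he2, hg1, hg2, top, pos, ht])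
  have z6 := c4.l88 (by linarith only [o0, o1, o2, o3, o4, o5, o6, o7, o8, hU1, hU2, hb1, hb2, hd1, hd2, he1, he2, hg1, hg2, top, pos, ht]) (by linarith only [o0, o1, o2, o3, o4, o5, o6, o7, o8, hU1, hU2, hb1, hb2, hd1, hd2, he1, he2, hg1, hg2, top, pos, ht])
  have z7 := c5.l88 (by linarith only [o0, o1, o2, o3, o4, o5, o6, o7, o8, hU1, hU2, hb1, hb2, hd1, hd2, he1, he2, hg1, hg2, top, pos, ht]) (by linarith only [o0, o1, o2, o3, o4, o5, o6, o7, o8, hU1, hU2, hb1, hb2, hd1, hd2, he1, he2, hg1, hg2, top, pos, ht])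
  have z8 := c6.l88 (by linarith only [o0, o1, o2, o3, o4, o5, o6, o7, o8, hU1, hU2, hb1, hb2, hd1, hd2, he1, he2, hg1, hg2, top, pos, ht]) (by linarith only [o0, o1, o2, o3, o4, o5, o6, o7, o8, hU1, hU2, hb1, hb2, hd1, hd2, he1, he2, hg1, hg2, top, pos, ht])
  have zv := v3_200 (by linarith only [o0, o1, o2, o3, o4, o5, o6, o7, o8, hU1, hU2, hb1, hb2, hd1, hd2, he1, he2, hg1, hg2, top, pos, ht])
  linarith only [z0, z1, z2, z3, z4, z5, z6, z7, z8, zv, o0, o1, o2, o3, o4, o5, o6, o7, o8, hU1, hU2, hb1, hb2, hd1, hd2, he1, he2, hg1, hg2, top, pos, ht, sum, msum, r1a, r1b, rBa, rBb, p0, p1, p2, p3, p4, p5, p6]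

theorem N8.leaf11 {y0 y1 y2 y3 y4 y5 y6 y7 G τ m0 m1 m2 m3 m4 m5 m6 MG : ℝ} (h : N8 y0 y1 y2 y3 y4 y5 y6 y7 G τ m0 m1 m2 m3 m4 m5 m6 MG)
    (hU1 : (1/20) ≤ y0 + y1) (hU2 : y0 + y1 ≤ (1/2)) (hb1 : (3/20) ≤ y2) (hb2 : y2 ≤ (1/3))
    (hd1 : 0 ≤ y3) (hd2 : y3 ≤ (13/100)) (he1 : (3/200) ≤ y4) (he2 : y4 ≤ (13/100)) (hg1 : 0 ≤ y7) (hg2 : y7 ≤ (3/100)) : False := by
  obtain ⟨o0, o1, o2, o3, o4, o5, o6, o7, o8, pos, top, sum, top7, msum, p0, p1, p2, p3, p4, p5, p6, q1, q2, q3, qb, c0, c1, c2, c3, c4, c5, c6, v1_100, v3_200, v1_50, v3_100, v1_8⟩ := h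
  have pK : 0 ≤ (1 - (y0 + 3 * y1)) * τ := mul_nonneg (by linarith only [o0, o1, o2, o3, o4, o5, o6, o7, o8, hU1, hU2, hb1, hb2, hd1, hd2, he1, he2, hg1, hg2, top, pos]) pos.le
  have pb1 : 0 ≤ (y2 - (3/20)) * (y0 + y1 - (1/20)) := mul_nonneg (by linarith only [o0, o1, o2, o3, o4, o5, o6, o7, o8, hU1, hU2, hb1, hb2, hd1, hd2, he1, he2, hg1, hg2, top, pos]) (by linarith only [o0, o1, o2, o3, o4, o5, o6, o7, o8, hU1, hU2, hb1, hb2, hd1, hd2, he1, he2, hg1, hg2, top, pos])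
  have pb2 : 0 ≤ ((1/3) - y2) * ((1/2) - (y0 + y1)) := mul_nonneg (by linarith only [o0, o1, o2, o3, o4, o5, o6, o7, o8, hU1, hU2, hb1, hb2, hd1, hd2, he1, he2, hg1, hg2, top, pos]) (by linarith only [o0, o1, o2, o3, o4, o5, o6, o7, o8, hU1, hU2, hb1, hb2, hd1, hd2, he1, he2, hg1, hg2, top, pos])
  have pb3 : 0 ≤ (y2 - (3/20)) * ((1/3) - y2) := mul_nonneg (by linarith only [o0, o1, o2, o3, o4, o5, o6, o7, o8, hU1, hU2, hb1, hb2, hd1, hd2, he1, he2, hg1, hg2, top, pos]) (by linarith only [o0, o1, o2, o3, o4, o5, o6, o7, o8, hU1, hU2, hb1, hb2, hd1, hd2, he1, he2, hg1, hg2, top, pos])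
  have r1a : (3/10) * (y0 + y1) + (-23/60) * y2 - (421/20) * τ ≤ (-7/200) := by
    linarith only [q1, pK, pb1, pb3]
  have r1b : (2/3) * (y0 + y1) + (31/60) * y2 - (421/20) * τ ≤ (17/60) := by
    linarith only [q1, pK, pb2, pb3]
  have q2' := q2 (by linarith only [hU2])
  have r2a : (9/20) * (y0 + y1) + (-7/20) * y2 - (421/20) * τ ≤ (9/400) := by
    linarith only [q2', pK, pb1]
  have r2b : 1 * (y0 + y1) + 1 * y2 - (421/20) * τ ≤ (1/2) := by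
    linarith only [q2', pK, pb2]
  have pL : 0 ≤ ((9/16) - (9/16) * (y0 + 3 * y1)) * τ := mul_nonneg (by linarith only [o0, o1, o2, o3, o4, o5, o6, o7, o8, hU1, hU2, hb1, hb2, hd1, hd2, he1, he2, hg1, hg2, top, pos]) (by linarith only [o0, o1, o2, o3, o4, o5, o6, o7, o8, hU1, hU2, hb1, hb2, hd1, hd2, he1, he2, hg1, hg2, top, pos])
  have pd1 : 0 ≤ (y3 - 0) * (y1 + y2 - (3/10)) := mul_nonneg (by linarith only [o0, o1, o2, o3, o4, o5, o6, o7, o8, hU1, hU2, hb1, hb2, hd1, hd2, he1, he2, hg1, hg2, top, pos]) (by linarith only [o0, o1, o2, o3, o4, o5, o6, o7, o8, hU1, hU2, hb1, hb2, hd1, hd2, he1, he2, hg1, hg2, top, pos])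
  have pd2 : 0 ≤ ((13/100) - y3) * ((7/12) - (y1 + y2)) := mul_nonneg (by linarith only [o0, o1, o2, o3, o4, o5, o6, o7, o8, hU1, hU2, hb1, hb2, hd1, hd2, he1, he2, hg1, hg2, top, pos]) (by linarith only [o0, o1, o2, o3, o4, o5, o6, o7, o8, hU1, hU2, hb1, hb2, hd1, hd2, he1, he2, hg1, hg2, top, pos])
  have pd3 : 0 ≤ (y3 - 0) * ((13/100) - y3) := mul_nonneg (by linarith only [o0, o1, o2, o3, o4, o5, o6, o7, o8, hU1, hU2, hb1, hb2, hd1, hd2, he1, he2, hg1, hg2, top, pos]) (by linarith only [o0, o1, o2, o3, o4, o5, o6, o7, o8, hU1, hU2, hb1, hb2, hd1, hd2, he1, he2, hg1, hg2, top, pos])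
  have rBa : 0 * (y1 + y2) + (47/100) * y3 - (1097/80) * τ ≤ 0 := by
    linarith only [qb, pL, pd1, pd3]
  have rBb : (13/50) * (y1 + y2) + (311/300) * y3 - (1097/80) * τ ≤ (91/600) := by
    linarith only [qb, pL, pd2, pd3]
  have ht : (3/1000) ≤ τ := by linarith only [o0, o1, o2, o3, o4, o5, o6, o7, o8, hU1, hU2, hb1, hb2, hd1, hd2, he1, he2, hg1, hg2, top, pos, sum, r1a, r1b, r2a, r2b, rBa, rBb]
  have z0 := c0.l9 (by linarith only [o0, o1, o2, o3, o4, o5, o6, o7, o8, hU1, hU2, hb1, hb2, hd1, hd2, he1, he2, hg1, hg2, top, pos, ht])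
  have z1 := c1.l6 (by linarith only [o0, o1, o2, o3, o4, o5, o6, o7, o8, hU1, hU2, hb1, hb2, hd1, hd2, he1, he2, hg1, hg2, top, pos, ht])
  have z2 := c2.l6 (by linarith only [o0, o1, o2, o3, o4, o5, o6, o7, o8, hU1, hU2, hb1, hb2, hd1, hd2, he1, he2, hg1, hg2, top, pos, ht])
  have z3 := c3.l68 (by linarith only [o0, o1, o2, o3, o4, o5, o6, o7, o8, hU1, hU2, hb1, hb2, hd1, hd2, he1, he2, hg1, hg2, top, pos, ht]) (by linarith only [o0, o1, o2, o3, o4, o5, o6, o7, o8, hU1, hU2, hb1, hb2, hd1, hd2, he1, he2, hg1, hg2, top, pos, ht])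
  have z4 := c4.l143 (by linarith only [o0, o1, o2, o3, o4, o5, o6, o7, o8, hU1, hU2, hb1, hb2, hd1, hd2, he1, he2, hg1, hg2, top, pos, ht]) (by linarith only [o0, o1, o2, o3, o4, o5, o6, o7, o8, hU1, hU2, hb1, hb2, hd1, hd2, he1, he2, hg1, hg2, top, pos, ht])
  have z5 := c5.l68 (by linarith only [o0, o1, o2, o3, o4, o5, o6, o7, o8, hU1, hU2, hb1, hb2, hd1, hd2, he1, he2, hg1, hg2, top, pos, ht]) (by linarith only [o0, o1, o2, o3, o4, o5, o6, o7, o8, hU1, hU2, hb1, hb2, hd1, hd2, he1, he2, hg1, hg2, top, pos, ht])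
  have z6 := c6.l68 (by linarith only [o0, o1, o2, o3, o4, o5, o6, o7, o8, hU1, hU2, hb1, hb2, hd1, hd2, he1, he2, hg1, hg2, top, pos, ht]) (by linarith only [o0, o1, o2, o3, o4, o5, o6, o7, o8, hU1, hU2, hb1, hb2, hd1, hd2, he1, he2, hg1, hg2, top, pos, ht])
  have zv := v3_100 (by linarith only [o0, o1, o2, o3, o4, o5, o6, o7, o8, hU1, hU2, hb1, hb2, hd1, hd2, he1, he2, hg1, hg2, top, pos, ht])
  linarith only [z0, z1, z2, z3, z4, z5, z6, zv, o0, o1, o2, o3, o4, o5, o6, o7, o8, hU1, hU2, hb1, hb2, hd1, hd2, he1, he2, hg1, hg2, top, pos, ht, sum, msum, r1a, r1b, r2a, r2b, rBa, rBb, p0, p1, p2, p3, p4, p5, p6]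

theorem N8.leaf12 {y0 y1 y2 y3 y4 y5 y6 y7 G τ m0 m1 m2 m3 m4 m5 m6 MG : ℝ} (h : N8 y0 y1 y2 y3 y4 y5 y6 y7 G τ m0 m1 m2 m3 m4 m5 m6 MG)
    (hU1 : (1/2) ≤ y0 + y1) (hU2 : y0 + y1 ≤ (8/9)) (hb1 : (3/20) ≤ y2) (hb2 : y2 ≤ (11/50))
    (hd1 : 0 ≤ y3) (hd2 : y3 ≤ (13/100)) (he1 : (3/200) ≤ y4) (he2 : y4 ≤ (13/100)) (hg1 : 0 ≤ y7) (hg2 : y7 ≤ (3/100)) : False := by
  obtain ⟨o0, o1, o2, o3, o4, o5, o6, o7, o8, pos, top, sum, top7, msum, p0, p1, p2, p3, p4, p5, p6, q1, q2, q3, qb, c0, c1, c2, c3, c4, c5, c6, v1_100, v3_200, v1_50, v3_100, v1_8⟩ := h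
  have pK : 0 ≤ ((16/9) - (y0 + 3 * y1)) * τ := mul_nonneg (by linarith only [o0, o1, o2, o3, o4, o5, o6, o7, o8, hU1, hU2, hb1, hb2, hd1, hd2, he1, he2, hg1, hg2, top, pos]) pos.le
  have pb1 : 0 ≤ (y2 - (3/20)) * (y0 + y1 - (1/2)) := mul_nonneg (by linarith only [o0, o1, o2, o3, o4, o5, o6, o7, o8, hU1, hU2, hb1, hb2, hd1, hd2, he1, he2, hg1, hg2, top, pos]) (by linarith only [o0, o1, o2, o3, o4, o5, o6, o7, o8, hU1, hU2, hb1, hb2, hd1, hd2, he1, he2, hg1, hg2, top, pos])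
  have pb2 : 0 ≤ ((11/50) - y2) * ((8/9) - (y0 + y1)) := mul_nonneg (by linarith only [o0, o1, o2, o3, o4, o5, o6, o7, o8, hU1, hU2, hb1, hb2, hd1, hd2, he1, he2, hg1, hg2, top, pos]) (by linarith only [o0, o1, o2, o3, o4, o5, o6, o7, o8, hU1, hU2, hb1, hb2, hd1, hd2, he1, he2, hg1, hg2, top, pos])
  have pb3 : 0 ≤ (y2 - (3/20)) * ((11/50) - y2) := mul_nonneg (by linarith only [o0, o1, o2, o3, o4, o5, o6, o7, o8, hU1, hU2, hb1, hb2, hd1, hd2, he1, he2, hg1, hg2, top, pos]) (by linarith only [o0, o1, o2, o3, o4, o5, o6, o7, o8, hU1, hU2, hb1, hb2, hd1, hd2, he1, he2, hg1, hg2, top, pos])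
  have r1a : (3/10) * (y0 + y1) + (63/100) * y2 - (3929/180) * τ ≤ (117/1000) := by
    linarith only [q1, pK, pb1, pb3]
  have r1b : (11/25) * (y0 + y1) + (1267/900) * y2 - (3929/180) * τ ≤ (3223/9000) := by
    linarith only [q1, pK, pb2, pb3]
  have q3' := q3 (by linarith only [hU1])
  have r3a : (3/10) * (y0 + y1) + 1 * y2 - (3929/180) * τ ≤ (3/20) := by
    linarith only [q3', pK, pb1]
  have r3b : (11/25) * (y0 + y1) + (16/9) * y2 - (3929/180) * τ ≤ (88/225) := by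
    linarith only [q3', pK, pb2]
  have pL : 0 ≤ (1 - (9/16) * (y0 + 3 * y1)) * τ := mul_nonneg (by linarith only [o0, o1, o2, o3, o4, o5, o6, o7, o8, hU1, hU2, hb1, hb2, hd1, hd2, he1, he2, hg1, hg2, top, pos]) (by linarith only [o0, o1, o2, o3, o4, o5, o6, o7, o8, hU1, hU2, hb1, hb2, hd1, hd2, he1, he2, hg1, hg2, top, pos])
  have pd1 : 0 ≤ (y3 - 0) * (y1 + y2 - (3/10)) := mul_nonneg (by linarith only [o0, o1, o2, o3, o4, o5, o6, o7, o8, hU1, hU2, hb1, hb2, hd1, hd2, he1, he2, hg1, hg2, top, pos]) (by linarith only [o0, o1, o2, o3, o4, o5, o6, o7, o8, hU1, hU2, hb1, hb2, hd1, hd2, he1, he2, hg1, hg2, top, pos])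
  have pd2 : 0 ≤ ((13/100) - y3) * ((299/450) - (y1 + y2)) := mul_nonneg (by linarith only [o0, o1, o2, o3, o4, o5, o6, o7, o8, hU1, hU2, hb1, hb2, hd1, hd2, he1, he2, hg1, hg2, top, pos]) (by linarith only [o0, o1, o2, o3, o4, o5, o6, o7, o8, hU1, hU2, hb1, hb2, hd1, hd2, he1, he2, hg1, hg2, top, pos])
  have pd3 : 0 ≤ (y3 - 0) * ((13/100) - y3) := mul_nonneg (by linarith only [o0, o1, o2, o3, o4, o5, o6, o7, o8, hU1, hU2, hb1, hb2, hd1, hd2, he1, he2, hg1, hg2, top, pos]) (by linarith only [o0, o1, o2, o3, o4, o5, o6, o7, o8, hU1, hU2, hb1, hb2, hd1, hd2, he1, he2, hg1, hg2, top, pos])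
  have rBa : 0 * (y1 + y2) + (47/100) * y3 - (283/20) * τ ≤ 0 := by
    linarith only [qb, pL, pd1, pd3]
  have rBb : (13/50) * (y1 + y2) + (1079/900) * y3 - (283/20) * τ ≤ (3887/22500) := by
    linarith only [qb, pL, pd2, pd3]
  have ht : (1/200) ≤ τ := by linarith only [o0, o1, o2, o3, o4, o5, o6, o7, o8, hU1, hU2, hb1, hb2, hd1, hd2, he1, he2, hg1, hg2, top, pos, sum, r1a, r1b, r3a, r3b, rBa, rBb]
  have z0 := c0.l14 (by linarith only [o0, o1, o2, o3, o4, o5, o6, o7, o8, hU1, hU2, hb1, hb2, hd1, hd2, he1, he2, hg1, hg2, top, pos, ht])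
  have z1 := c0.l15 (by linarith only [o0, o1, o2, o3, o4, o5, o6, o7, o8, hU1, hU2, hb1, hb2, hd1, hd2, he1, he2, hg1, hg2, top, pos, ht])
  have z2 := c1.l14 (by linarith only [o0, o1, o2, o3, o4, o5, o6, o7, o8, hU1, hU2, hb1, hb2, hd1, hd2, he1, he2, hg1, hg2, top, pos, ht])
  have z3 := c2.l3 (by linarith only [o0, o1, o2, o3, o4, o5, o6, o7, o8, hU1, hU2, hb1, hb2, hd1, hd2, he1, he2, hg1, hg2, top, pos, ht])
  have z4 := c3.l97 (by linarith only [o0, o1, o2, o3, o4, o5, o6, o7, o8, hU1, hU2, hb1, hb2, hd1, hd2, he1, he2, hg1, hg2, top, pos, ht]) (by linarith only [o0, o1, o2, o3, o4, o5, o6, o7, o8, hU1, hU2, hb1, hb2, hd1, hd2, he1, he2, hg1, hg2, top, pos, ht])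
  have z5 := c4.l143 (by linarith only [o0, o1, o2, o3, o4, o5, o6, o7, o8, hU1, hU2, hb1, hb2, hd1, hd2, he1, he2, hg1, hg2, top, pos, ht]) (by linarith only [o0, o1, o2, o3, o4, o5, o6, o7, o8, hU1, hU2, hb1, hb2, hd1, hd2, he1, he2, hg1, hg2, top, pos, ht])
  have z6 := c5.l97 (by linarith only [o0, o1, o2, o3, o4, o5, o6, o7, o8, hU1, hU2, hb1, hb2, hd1, hd2, he1, he2, hg1, hg2, top, pos, ht]) (by linarith only [o0, o1, o2, o3, o4, o5, o6, o7, o8, hU1, hU2, hb1, hb2, hd1, hd2, he1, he2, hg1, hg2, top, pos, ht])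
  have z7 := c6.l97 (by linarith only [o0, o1, o2, o3, o4, o5, o6, o7, o8, hU1, hU2, hb1, hb2, hd1, hd2, he1, he2, hg1, hg2, top, pos, ht]) (by linarith only [o0, o1, o2, o3, o4, o5, o6, o7, o8, hU1, hU2, hb1, hb2, hd1, hd2, he1, he2, hg1, hg2, top, pos, ht])
  have zv := v3_100 (by linarith only [o0, o1, o2, o3, o4, o5, o6, o7, o8, hU1, hU2, hb1, hb2, hd1, hd2, he1, he2, hg1, hg2, top, pos, ht])
  linarith only [z0, z1, z2, z3, z4, z5, z6, z7, zv, o0, o1, o2, o3, o4, o5, o6, o7, o8, hU1, hU2, hb1, hb2, hd1, hd2, he1, he2, hg1, hg2, top, pos, ht, sum, msum, r1a, r1b, r3a, r3b, rBa, rBb, p0, p1, p2, p3, p4, p5, p6]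

theorem N8.leaf13 {y0 y1 y2 y3 y4 y5 y6 y7 G τ m0 m1 m2 m3 m4 m5 m6 MG : ℝ} (h : N8 y0 y1 y2 y3 y4 y5 y6 y7 G τ m0 m1 m2 m3 m4 m5 m6 MG)
    (hU1 : (1/2) ≤ y0 + y1) (hU2 : y0 + y1 ≤ (8/9)) (hb1 : (11/50) ≤ y2) (hb2 : y2 ≤ (1/3))
    (hd1 : 0 ≤ y3) (hd2 : y3 ≤ (13/100)) (he1 : (3/200) ≤ y4) (he2 : y4 ≤ (13/100)) (hg1 : 0 ≤ y7) (hg2 : y7 ≤ (3/100)) : False := by
  obtain ⟨o0, o1, o2, o3, o4, o5, o6, o7, o8, pos, top, sum, top7, msum, p0, p1, p2, p3, p4, p5, p6, q1, q2, q3, qb, c0, c1, c2, c3, c4, c5, c6, v1_100, v3_200, v1_50, v3_100, v1_8⟩ := h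
  have pK : 0 ≤ ((16/9) - (y0 + 3 * y1)) * τ := mul_nonneg (by linarith only [o0, o1, o2, o3, o4, o5, o6, o7, o8, hU1, hU2, hb1, hb2, hd1, hd2, he1, he2, hg1, hg2, top, pos]) pos.le
  have pb1 : 0 ≤ (y2 - (11/50)) * (y0 + y1 - (1/2)) := mul_nonneg (by linarith only [o0, o1, o2, o3, o4, o5, o6, o7, o8, hU1, hU2, hb1, hb2, hd1, hd2, he1, he2, hg1, hg2, top, pos]) (by linarith only [o0, o1, o2, o3, o4, o5, o6, o7, o8, hU1, hU2, hb1, hb2, hd1, hd2, he1, he2, hg1, hg2, top, pos])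
  have pb2 : 0 ≤ ((1/3) - y2) * ((8/9) - (y0 + y1)) := mul_nonneg (by linarith only [o0, o1, o2, o3, o4, o5, o6, o7, o8, hU1, hU2, hb1, hb2, hd1, hd2, he1, he2, hg1, hg2, top, pos]) (by linarith only [o0, o1, o2, o3, o4, o5, o6, o7, o8, hU1, hU2, hb1, hb2, hd1, hd2, he1, he2, hg1, hg2, top, pos])
  have pb3 : 0 ≤ (y2 - (11/50)) * ((1/3) - y2) := mul_nonneg (by linarith only [o0, o1, o2, o3, o4, o5, o6, o7, o8, hU1, hU2, hb1, hb2, hd1, hd2, he1, he2, hg1, hg2, top, pos]) (by linarith only [o0, o1, o2, o3, o4, o5, o6, o7, o8, hU1, hU2, hb1, hb2, hd1, hd2, he1, he2, hg1, hg2, top, pos])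
  have r1a : (11/25) * (y0 + y1) + (67/150) * y2 - (3929/180) * τ ≤ (11/75) := by
    linarith only [q1, pK, pb1, pb3]
  have r1b : (2/3) * (y0 + y1) + (551/450) * y2 - (3929/180) * τ ≤ (701/1350) := by
    linarith only [q1, pK, pb2, pb3]
  have q3' := q3 (by linarith only [hU1])
  have r3a : (11/25) * (y0 + y1) + 1 * y2 - (3929/180) * τ ≤ (11/50) := by
    linarith only [q3', pK, pb1]
  have r3b : (2/3) * (y0 + y1) + (16/9) * y2 - (3929/180) * τ ≤ (16/27) := by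
    linarith only [q3', pK, pb2]
  have pL : 0 ≤ (1 - (9/16) * (y0 + 3 * y1)) * τ := mul_nonneg (by linarith only [o0, o1, o2, o3, o4, o5, o6, o7, o8, hU1, hU2, hb1, hb2, hd1, hd2, he1, he2, hg1, hg2, top, pos]) (by linarith only [o0, o1, o2, o3, o4, o5, o6, o7, o8, hU1, hU2, hb1, hb2, hd1, hd2, he1, he2, hg1, hg2, top, pos])
  have pd1 : 0 ≤ (y3 - 0) * (y1 + y2 - (11/25)) := mul_nonneg (by linarith only [o0, o1, o2, o3, o4, o5, o6, o7, o8, hU1, hU2, hb1, hb2, hd1, hd2, he1, he2, hg1, hg2, top, pos]) (by linarith only [o0, o1, o2, o3, o4, o5, o6, o7, o8, hU1, hU2, hb1, hb2, hd1, hd2, he1, he2, hg1, hg2, top, pos])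
  have pd2 : 0 ≤ ((13/100) - y3) * ((7/9) - (y1 + y2)) := mul_nonneg (by linarith only [o0, o1, o2, o3, o4, o5, o6, o7, o8, hU1, hU2, hb1, hb2, hd1, hd2, he1, he2, hg1, hg2, top, pos]) (by linarith only [o0, o1, o2, o3, o4, o5, o6, o7, o8, hU1, hU2, hb1, hb2, hd1, hd2, he1, he2, hg1, hg2, top, pos])
  have pd3 : 0 ≤ (y3 - 0) * ((13/100) - y3) := mul_nonneg (by linarith only [o0, o1, o2, o3, o4, o5, o6, o7, o8, hU1, hU2, hb1, hb2, hd1, hd2, he1, he2, hg1, hg2, top, pos]) (by linarith only [o0, o1, o2, o3, o4, o5, o6, o7, o8, hU1, hU2, hb1, hb2, hd1, hd2, he1, he2, hg1, hg2, top, pos])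
  have rBa : 0 * (y1 + y2) + (3/4) * y3 - (283/20) * τ ≤ 0 := by
    linarith only [qb, pL, pd1, pd3]
  have rBb : (13/50) * (y1 + y2) + (1283/900) * y3 - (283/20) * τ ≤ (91/450) := by
    linarith only [qb, pL, pd2, pd3]
  have ht : (1/100) ≤ τ := by linarith only [o0, o1, o2, o3, o4, o5, o6, o7, o8, hU1, hU2, hb1, hb2, hd1, hd2, he1, he2, hg1, hg2, top, pos, sum, r1a, r1b, r3a, r3b, rBa, rBb]
  have z0 := c0.l12 (by linarith only [o0, o1, o2, o3, o4, o5, o6, o7, o8, hU1, hU2, hb1, hb2, hd1, hd2, he1, he2, hg1, hg2, top, pos, ht])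
  have z1 := c1.l12 (by linarith only [o0, o1, o2, o3, o4, o5, o6, o7, o8, hU1, hU2, hb1, hb2, hd1, hd2, he1, he2, hg1, hg2, top, pos, ht])
  have z2 := c2.l11 (by linarith only [o0, o1, o2, o3, o4, o5, o6, o7, o8, hU1, hU2, hb1, hb2, hd1, hd2, he1, he2, hg1, hg2, top, pos, ht])
  have z3 := c3.l122 (by linarith only [o0, o1, o2, o3, o4, o5, o6, o7, o8, hU1, hU2, hb1, hb2, hd1, hd2, he1, he2, hg1, hg2, top, pos, ht]) (by linarith only [o0, o1, o2, o3, o4, o5, o6, o7, o8, hU1, hU2, hb1, hb2, hd1, hd2, he1, he2, hg1, hg2, top, pos, ht])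
  have z4 := c4.l143 (by linarith only [o0, o1, o2, o3, o4, o5, o6, o7, o8, hU1, hU2, hb1, hb2, hd1, hd2, he1, he2, hg1, hg2, top, pos, ht]) (by linarith only [o0, o1, o2, o3, o4, o5, o6, o7, o8, hU1, hU2, hb1, hb2, hd1, hd2, he1, he2, hg1, hg2, top, pos, ht])
  have z5 := c5.l122 (by linarith only [o0, o1, o2, o3, o4, o5, o6, o7, o8, hU1, hU2, hb1, hb2, hd1, hd2, he1, he2, hg1, hg2, top, pos, ht]) (by linarith only [o0, o1, o2, o3, o4, o5, o6, o7, o8, hU1, hU2, hb1, hb2, hd1, hd2, he1, he2, hg1, hg2, top, pos, ht])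
  have z6 := c6.l122 (by linarith only [o0, o1, o2, o3, o4, o5, o6, o7, o8, hU1, hU2, hb1, hb2, hd1, hd2, he1, he2, hg1, hg2, top, pos, ht]) (by linarith only [o0, o1, o2, o3, o4, o5, o6, o7, o8, hU1, hU2, hb1, hb2, hd1, hd2, he1, he2, hg1, hg2, top, pos, ht])
  have zv := v3_100 (by linarith only [o0, o1, o2, o3, o4, o5, o6, o7, o8, hU1, hU2, hb1, hb2, hd1, hd2, he1, he2, hg1, hg2, top, pos, ht])
  linarith only [z0, z1, z2, z3, z4, z5, z6, zv, o0, o1, o2, o3, o4, o5, o6, o7, o8, hU1, hU2, hb1, hb2, hd1, hd2, he1, he2, hg1, hg2, top, pos, ht, sum, msum, r1a, r1b, r3a, r3b, rBa, rBb, p0, p1, p2, p3, p4, p5, p6]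

theorem N8.leaf14 {y0 y1 y2 y3 y4 y5 y6 y7 G τ m0 m1 m2 m3 m4 m5 m6 MG : ℝ} (h : N8 y0 y1 y2 y3 y4 y5 y6 y7 G τ m0 m1 m2 m3 m4 m5 m6 MG)
    (hU1 : (1/20) ≤ y0 + y1) (hU2 : y0 + y1 ≤ (8/9)) (hb1 : (3/20) ≤ y2) (hb2 : y2 ≤ (1/3))
    (hd1 : 0 ≤ y3) (hd2 : y3 ≤ (13/100)) (he1 : (13/100) ≤ y4) (he2 : y4 ≤ (1/5)) (hg1 : 0 ≤ y7) (hg2 : y7 ≤ (3/100)) : False := by
  obtain ⟨o0, o1, o2, o3, o4, o5, o6, o7, o8, pos, top, sum, top7, msum, p0, p1, p2, p3, p4, p5, p6, q1, q2, q3, qb, c0, c1, c2, c3, c4, c5, c6, v1_100, v3_200, v1_50, v3_100, v1_8⟩ := h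
  have pK : 0 ≤ ((16/9) - (y0 + 3 * y1)) * τ := mul_nonneg (by linarith only [o0, o1, o2, o3, o4, o5, o6, o7, o8, hU1, hU2, hb1, hb2, hd1, hd2, he1, he2, hg1, hg2, top, pos]) pos.le
  have pb1 : 0 ≤ (y2 - (3/20)) * (y0 + y1 - (1/20)) := mul_nonneg (by linarith only [o0, o1, o2, o3, o4, o5, o6, o7, o8, hU1, hU2, hb1, hb2, hd1, hd2, he1, he2, hg1, hg2, top, pos]) (by linarith only [o0, o1, o2, o3, o4, o5, o6, o7, o8, hU1, hU2, hb1, hb2, hd1, hd2, he1, he2, hg1, hg2, top, pos])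
  have pb2 : 0 ≤ ((1/3) - y2) * ((8/9) - (y0 + y1)) := mul_nonneg (by linarith only [o0, o1, o2, o3, o4, o5, o6, o7, o8, hU1, hU2, hb1, hb2, hd1, hd2, he1, he2, hg1, hg2, top, pos]) (by linarith only [o0, o1, o2, o3, o4, o5, o6, o7, o8, hU1, hU2, hb1, hb2, hd1, hd2, he1, he2, hg1, hg2, top, pos])
  have pb3 : 0 ≤ (y2 - (3/20)) * ((1/3) - y2) := mul_nonneg (by linarith only [o0, o1, o2, o3, o4, o5, o6, o7, o8, hU1, hU2, hb1, hb2, hd1, hd2, he1, he2, hg1, hg2, top, pos]) (by linarith only [o0, o1, o2, o3, o4, o5, o6, o7, o8, hU1, hU2, hb1, hb2, hd1, hd2, he1, he2, hg1, hg2, top, pos])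
  have r1a : (3/10) * (y0 + y1) + (-23/60) * y2 - (3929/180) * τ ≤ (-7/200) := by
    linarith only [q1, pK, pb1, pb3]
  have r1b : (2/3) * (y0 + y1) + (233/180) * y2 - (3929/180) * τ ≤ (293/540) := by
    linarith only [q1, pK, pb2, pb3]
  have pL : 0 ≤ (1 - (9/16) * (y0 + 3 * y1)) * τ := mul_nonneg (by linarith only [o0, o1, o2, o3, o4, o5, o6, o7, o8, hU1, hU2, hb1, hb2, hd1, hd2, he1, he2, hg1, hg2, top, pos]) (by linarith only [o0, o1, o2, o3, o4, o5, o6, o7, o8, hU1, hU2, hb1, hb2, hd1, hd2, he1, he2, hg1, hg2, top, pos])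
  have pd1 : 0 ≤ (y3 - 0) * (y1 + y2 - (3/10)) := mul_nonneg (by linarith only [o0, o1, o2, o3, o4, o5, o6, o7, o8, hU1, hU2, hb1, hb2, hd1, hd2, he1, he2, hg1, hg2, top, pos]) (by linarith only [o0, o1, o2, o3, o4, o5, o6, o7, o8, hU1, hU2, hb1, hb2, hd1, hd2, he1, he2, hg1, hg2, top, pos])
  have pd2 : 0 ≤ ((13/100) - y3) * ((7/9) - (y1 + y2)) := mul_nonneg (by linarith only [o0, o1, o2, o3, o4, o5, o6, o7, o8, hU1, hU2, hb1, hb2, hd1, hd2, he1, he2, hg1, hg2, top, pos]) (by linarith only [o0, o1, o2, o3, o4, o5, o6, o7, o8, hU1, hU2, hb1, hb2, hd1, hd2, he1, he2, hg1, hg2, top, pos])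
  have pd3 : 0 ≤ (y3 - 0) * ((13/100) - y3) := mul_nonneg (by linarith only [o0, o1, o2, o3, o4, o5, o6, o7, o8, hU1, hU2, hb1, hb2, hd1, hd2, he1, he2, hg1, hg2, top, pos]) (by linarith only [o0, o1, o2, o3, o4, o5, o6, o7, o8, hU1, hU2, hb1, hb2, hd1, hd2, he1, he2, hg1, hg2, top, pos])
  have rBa : 0 * (y1 + y2) + (47/100) * y3 - (283/20) * τ ≤ 0 := by
    linarith only [qb, pL, pd1, pd3]
  have rBb : (13/50) * (y1 + y2) + (1283/900) * y3 - (283/20) * τ ≤ (91/450) := by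
    linarith only [qb, pL, pd2, pd3]
  have ht : (1/250) ≤ τ := by linarith only [o0, o1, o2, o3, o4, o5, o6, o7, o8, hU1, hU2, hb1, hb2, hd1, hd2, he1, he2, hg1, hg2, top, pos, sum, r1a, r1b, rBa, rBb]
  have z0 := c0.l9 (by linarith only [o0, o1, o2, o3, o4, o5, o6, o7, o8, hU1, hU2, hb1, hb2, hd1, hd2, he1, he2, hg1, hg2, top, pos, ht])
  have z1 := c1.l5 (by linarith only [o0, o1, o2, o3, o4, o5, o6, o7, o8, hU1, hU2, hb1, hb2, hd1, hd2, he1, he2, hg1, hg2, top, pos, ht])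
  have z2 := c2.l5 (by linarith only [o0, o1, o2, o3, o4, o5, o6, o7, o8, hU1, hU2, hb1, hb2, hd1, hd2, he1, he2, hg1, hg2, top, pos, ht])
  have z3 := c3.l35 (by linarith only [o0, o1, o2, o3, o4, o5, o6, o7, o8, hU1, hU2, hb1, hb2, hd1, hd2, he1, he2, hg1, hg2, top, pos, ht])
  have z4 := c4.l2 (by linarith only [o0, o1, o2, o3, o4, o5, o6, o7, o8, hU1, hU2, hb1, hb2, hd1, hd2, he1, he2, hg1, hg2, top, pos, ht])
  have z5 := c5.l12 (by linarith only [o0, o1, o2, o3, o4, o5, o6, o7, o8, hU1, hU2, hb1, hb2, hd1, hd2, he1, he2, hg1, hg2, top, pos, ht])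
  have z6 := c6.l12 (by linarith only [o0, o1, o2, o3, o4, o5, o6, o7, o8, hU1, hU2, hb1, hb2, hd1, hd2, he1, he2, hg1, hg2, top, pos, ht])
  have zv := v3_100 (by linarith only [o0, o1, o2, o3, o4, o5, o6, o7, o8, hU1, hU2, hb1, hb2, hd1, hd2, he1, he2, hg1, hg2, top, pos, ht])
  linarith only [z0, z1, z2, z3, z4, z5, z6, zv, o0, o1, o2, o3, o4, o5, o6, o7, o8, hU1, hU2, hb1, hb2, hd1, hd2, he1, he2, hg1, hg2, top, pos, ht, sum, msum, r1a, r1b, rBa, rBb, p0, p1, p2, p3, p4, p5, p6]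

theorem N8.leaf15 {y0 y1 y2 y3 y4 y5 y6 y7 G τ m0 m1 m2 m3 m4 m5 m6 MG : ℝ} (h : N8 y0 y1 y2 y3 y4 y5 y6 y7 G τ m0 m1 m2 m3 m4 m5 m6 MG)
    (hU1 : (1/20) ≤ y0 + y1) (hU2 : y0 + y1 ≤ (8/9)) (hb1 : 0 ≤ y2) (hb2 : y2 ≤ (1/10))
    (hd1 : (13/100) ≤ y3) (hd2 : y3 ≤ (1/4)) (he1 : 0 ≤ y4) (he2 : y4 ≤ (1/5)) (hg1 : 0 ≤ y7) (hg2 : y7 ≤ (3/100)) : False := by
  obtain ⟨o0, o1, o2, o3, o4, o5, o6, o7, o8, pos, top, sum, top7, msum, p0, p1, p2, p3, p4, p5, p6, q1, q2, q3, qb, c0, c1, c2, c3, c4, c5, c6, v1_100, v3_200, v1_50, v3_100, v1_8⟩ := h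
  have pK : 0 ≤ ((16/9) - (y0 + 3 * y1)) * τ := mul_nonneg (by linarith only [o0, o1, o2, o3, o4, o5, o6, o7, o8, hU1, hU2, hb1, hb2, hd1, hd2, he1, he2, hg1, hg2, top, pos]) pos.le
  have pb1 : 0 ≤ (y2 - 0) * (y0 + y1 - (1/20)) := mul_nonneg (by linarith only [o0, o1, o2, o3, o4, o5, o6, o7, o8, hU1, hU2, hb1, hb2, hd1, hd2, he1, he2, hg1, hg2, top, pos]) (by linarith only [o0, o1, o2, o3, o4, o5, o6, o7, o8, hU1, hU2, hb1, hb2, hd1, hd2, he1, he2, hg1, hg2, top, pos])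
  have pb2 : 0 ≤ ((1/10) - y2) * ((8/9) - (y0 + y1)) := mul_nonneg (by linarith only [o0, o1, o2, o3, o4, o5, o6, o7, o8, hU1, hU2, hb1, hb2, hd1, hd2, he1, he2, hg1, hg2, top, pos]) (by linarith only [o0, o1, o2, o3, o4, o5, o6, o7, o8, hU1, hU2, hb1, hb2, hd1, hd2, he1, he2, hg1, hg2, top, pos])
  have pb3 : 0 ≤ (y2 - 0) * ((1/10) - y2) := mul_nonneg (by linarith only [o0, o1, o2, o3, o4, o5, o6, o7, o8, hU1, hU2, hb1, hb2, hd1, hd2, he1, he2, hg1, hg2, top, pos]) (by linarith only [o0, o1, o2, o3, o4, o5, o6, o7, o8, hU1, hU2, hb1, hb2, hd1, hd2, he1, he2, hg1, hg2, top, pos])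
  have r1a : 0 * (y0 + y1) + 0 * y2 - (3929/180) * τ ≤ 0 := by
    linarith only [q1, pK, pb1, pb3]
  have r1b : (1/5) * (y0 + y1) + (151/90) * y2 - (3929/180) * τ ≤ (8/45) := by
    linarith only [q1, pK, pb2, pb3]
  have pL : 0 ≤ (1 - (9/16) * (y0 + 3 * y1)) * τ := mul_nonneg (by linarith only [o0, o1, o2, o3, o4, o5, o6, o7, o8, hU1, hU2, hb1, hb2, hd1, hd2, he1, he2, hg1, hg2, top, pos]) (by linarith only [o0, o1, o2, o3, o4, o5, o6, o7, o8, hU1, hU2, hb1, hb2, hd1, hd2, he1, he2, hg1, hg2, top, pos])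
  have pd1 : 0 ≤ (y3 - (13/100)) * (y1 + y2 - 0) := mul_nonneg (by linarith only [o0, o1, o2, o3, o4, o5, o6, o7, o8, hU1, hU2, hb1, hb2, hd1, hd2, he1, he2, hg1, hg2, top, pos]) (by linarith only [o0, o1, o2, o3, o4, o5, o6, o7, o8, hU1, hU2, hb1, hb2, hd1, hd2, he1, he2, hg1, hg2, top, pos])
  have pd2 : 0 ≤ ((1/4) - y3) * ((49/90) - (y1 + y2)) := mul_nonneg (by linarith only [o0, o1, o2, o3, o4, o5, o6, o7, o8, hU1, hU2, hb1, hb2, hd1, hd2, he1, he2, hg1, hg2, top, pos]) (by linarith only [o0, o1, o2, o3, o4, o5, o6, o7, o8, hU1, hU2, hb1, hb2, hd1, hd2, he1, he2, hg1, hg2, top, pos])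
  have pd3 : 0 ≤ (y3 - (13/100)) * ((1/4) - y3) := mul_nonneg (by linarith only [o0, o1, o2, o3, o4, o5, o6, o7, o8, hU1, hU2, hb1, hb2, hd1, hd2, he1, he2, hg1, hg2, top, pos]) (by linarith only [o0, o1, o2, o3, o4, o5, o6, o7, o8, hU1, hU2, hb1, hb2, hd1, hd2, he1, he2, hg1, hg2, top, pos])
  have rBa : (13/50) * (y1 + y2) + (-19/50) * y3 - (283/20) * τ ≤ (-13/400) := by
    linarith only [qb, pL, pd1, pd3]
  have rBb : (1/2) * (y1 + y2) + (319/450) * y3 - (283/20) * τ ≤ (863/3600) := by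
    linarith only [qb, pL, pd2, pd3]
  linarith only [o0, o1, o2, o3, o4, o5, o6, o7, o8, hU1, hU2, hb1, hb2, hd1, hd2, he1, he2, hg1, hg2, top, pos, sum, r1a, r1b, rBa, rBb]

theorem N8.leaf16 {y0 y1 y2 y3 y4 y5 y6 y7 G τ m0 m1 m2 m3 m4 m5 m6 MG : ℝ} (h : N8 y0 y1 y2 y3 y4 y5 y6 y7 G τ m0 m1 m2 m3 m4 m5 m6 MG)
    (hU1 : (1/20) ≤ y0 + y1) (hU2 : y0 + y1 ≤ (8/9)) (hb1 : (1/10) ≤ y2) (hb2 : y2 ≤ (1/3))
    (hd1 : (13/100) ≤ y3) (hd2 : y3 ≤ (1/4)) (he1 : 0 ≤ y4) (he2 : y4 ≤ (1/100)) (hg1 : 0 ≤ y7) (hg2 : y7 ≤ (3/100)) : False := by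
  obtain ⟨o0, o1, o2, o3, o4, o5, o6, o7, o8, pos, top, sum, top7, msum, p0, p1, p2, p3, p4, p5, p6, q1, q2, q3, qb, c0, c1, c2, c3, c4, c5, c6, v1_100, v3_200, v1_50, v3_100, v1_8⟩ := h
  have pK : 0 ≤ ((16/9) - (y0 + 3 * y1)) * τ := mul_nonneg (by linarith only [o0, o1, o2, o3, o4, o5, o6, o7, o8, hU1, hU2, hb1, hb2, hd1, hd2, he1, he2, hg1, hg2, top, pos]) pos.le
  have pb1 : 0 ≤ (y2 - (1/10)) * (y0 + y1 - (1/20)) := mul_nonneg (by linarith only [o0, o1, o2, o3, o4, o5, o6, o7, o8, hU1, hU2, hb1, hb2, hd1, hd2, he1, he2, hg1, hg2, top, pos]) (by linarith only [o0, o1, o2, o3, o4, o5, o6, o7, o8, hU1, hU2, hb1, hb2, hd1, hd2, he1, he2, hg1, hg2, top, pos])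
  have pb2 : 0 ≤ ((1/3) - y2) * ((8/9) - (y0 + y1)) := mul_nonneg (by linarith only [o0, o1, o2, o3, o4, o5, o6, o7, o8, hU1, hU2, hb1, hb2, hd1, hd2, he1, he2, hg1, hg2, top, pos]) (by linarith only [o0, o1, o2, o3, o4, o5, o6, o7, o8, hU1, hU2, hb1, hb2, hd1, hd2, he1, he2, hg1, hg2, top, pos])
  have pb3 : 0 ≤ (y2 - (1/10)) * ((1/3) - y2) := mul_nonneg (by linarith only [o0, o1, o2, o3, o4, o5, o6, o7, o8, hU1, hU2, hb1, hb2, hd1, hd2, he1, he2, hg1, hg2, top, pos]) (by linarith only [o0, o1, o2, o3, o4, o5, o6, o7, o8, hU1, hU2, hb1, hb2, hd1, hd2, he1, he2, hg1, hg2, top, pos])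
  have r1a : (1/5) * (y0 + y1) + (-1/3) * y2 - (3929/180) * τ ≤ (-7/300) := by
    linarith only [q1, pK, pb1, pb3]
  have r1b : (2/3) * (y0 + y1) + (121/90) * y2 - (3929/180) * τ ≤ (151/270) := by
    linarith only [q1, pK, pb2, pb3]
  have pL : 0 ≤ (1 - (9/16) * (y0 + 3 * y1)) * τ := mul_nonneg (by linarith only [o0, o1, o2, o3, o4, o5, o6, o7, o8, hU1, hU2, hb1, hb2, hd1, hd2, he1, he2, hg1, hg2, top, pos]) (by linarith only [o0, o1, o2, o3, o4, o5, o6, o7, o8, hU1, hU2, hb1, hb2, hd1, hd2, he1, he2, hg1, hg2, top, pos])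
  have pd1 : 0 ≤ (y3 - (13/100)) * (y1 + y2 - (1/5)) := mul_nonneg (by linarith only [o0, o1, o2, o3, o4, o5, o6, o7, o8, hU1, hU2, hb1, hb2, hd1, hd2, he1, he2, hg1, hg2, top, pos]) (by linarith only [o0, o1, o2, o3, o4, o5, o6, o7, o8, hU1, hU2, hb1, hb2, hd1, hd2, he1, he2, hg1, hg2, top, pos])
  have pd2 : 0 ≤ ((1/4) - y3) * ((7/9) - (y1 + y2)) := mul_nonneg (by linarith only [o0, o1, o2, o3, o4, o5, o6, o7, o8, hU1, hU2, hb1, hb2, hd1, hd2, he1, he2, hg1, hg2, top, pos]) (by linarith only [o0, o1, o2, o3, o4, o5, o6, o7, o8, hU1, hU2, hb1, hb2, hd1, hd2, he1, he2, hg1, hg2, top, pos])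
  have pd3 : 0 ≤ (y3 - (13/100)) * ((1/4) - y3) := mul_nonneg (by linarith only [o0, o1, o2, o3, o4, o5, o6, o7, o8, hU1, hU2, hb1, hb2, hd1, hd2, he1, he2, hg1, hg2, top, pos]) (by linarith only [o0, o1, o2, o3, o4, o5, o6, o7, o8, hU1, hU2, hb1, hb2, hd1, hd2, he1, he2, hg1, hg2, top, pos])
  have rBa : (13/50) * (y1 + y2) + (1/50) * y3 - (283/20) * τ ≤ (39/2000) := by
    linarith only [qb, pL, pd1, pd3]
  have rBb : (1/2) * (y1 + y2) + (529/450) * y3 - (283/20) * τ ≤ (1283/3600) := by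
    linarith only [qb, pL, pd2, pd3]
  have ht : (3/1000) ≤ τ := by linarith only [o0, o1, o2, o3, o4, o5, o6, o7, o8, hU1, hU2, hb1, hb2, hd1, hd2, he1, he2, hg1, hg2, top, pos, sum, r1a, r1b, rBa, rBb]
  have z0 := c0.l11 (by linarith only [o0, o1, o2, o3, o4, o5, o6, o7, o8, hU1, hU2, hb1, hb2, hd1, hd2, he1, he2, hg1, hg2, top, pos, ht])
  have z1 := c0.l12 (by linarith only [o0, o1, o2, o3, o4, o5, o6, o7, o8, hU1, hU2, hb1, hb2, hd1, hd2, he1, he2, hg1, hg2, top, pos, ht])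
  have z2 := c1.l4 (by linarith only [o0, o1, o2, o3, o4, o5, o6, o7, o8, hU1, hU2, hb1, hb2, hd1, hd2, he1, he2, hg1, hg2, top, pos, ht])
  have z3 := c2.l4 (by linarith only [o0, o1, o2, o3, o4, o5, o6, o7, o8, hU1, hU2, hb1, hb2, hd1, hd2, he1, he2, hg1, hg2, top, pos, ht])
  have z4 := c3.l2 (by linarith only [o0, o1, o2, o3, o4, o5, o6, o7, o8, hU1, hU2, hb1, hb2, hd1, hd2, he1, he2, hg1, hg2, top, pos, ht])
  have z5 := c4.l57 (by linarith only [o0, o1, o2, o3, o4, o5, o6, o7, o8, hU1, hU2, hb1, hb2, hd1, hd2, he1, he2, hg1, hg2, top, pos, ht]) (by linarith only [o0, o1, o2, o3, o4, o5, o6, o7, o8, hU1, hU2, hb1, hb2, hd1, hd2, he1, he2, hg1, hg2, top, pos, ht])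
  have z6 := c5.l57 (by linarith only [o0, o1, o2, o3, o4, o5, o6, o7, o8, hU1, hU2, hb1, hb2, hd1, hd2, he1, he2, hg1, hg2, top, pos, ht]) (by linarith only [o0, o1, o2, o3, o4, o5, o6, o7, o8, hU1, hU2, hb1, hb2, hd1, hd2, he1, he2, hg1, hg2, top, pos, ht])
  have z7 := c6.l57 (by linarith only [o0, o1, o2, o3, o4, o5, o6, o7, o8, hU1, hU2, hb1, hb2, hd1, hd2, he1, he2, hg1, hg2, top, pos, ht]) (by linarith only [o0, o1, o2, o3, o4, o5, o6, o7, o8, hU1, hU2, hb1, hb2, hd1, hd2, he1, he2, hg1, hg2, top, pos, ht])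
  have zv := v1_100 (by linarith only [o0, o1, o2, o3, o4, o5, o6, o7, o8, hU1, hU2, hb1, hb2, hd1, hd2, he1, he2, hg1, hg2, top, pos, ht])
  linarith only [z0, z1, z2, z3, z4, z5, z6, z7, zv, o0, o1, o2, o3, o4, o5, o6, o7, o8, hU1, hU2, hb1, hb2, hd1, hd2, he1, he2, hg1, hg2, top, pos, ht, sum, msum, r1a, r1b, rBa, rBb, p0, p1, p2, p3, p4, p5, p6]

theorem N8.leaf17 {y0 y1 y2 y3 y4 y5 y6 y7 G τ m0 m1 m2 m3 m4 m5 m6 MG : ℝ} (h : N8 y0 y1 y2 y3 y4 y5 y6 y7 G τ m0 m1 m2 m3 m4 m5 m6 MG)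
    (hU1 : (1/20) ≤ y0 + y1) (hU2 : y0 + y1 ≤ (1/2)) (hb1 : (1/10) ≤ y2) (hb2 : y2 ≤ (1/3))
    (hd1 : (13/100) ≤ y3) (hd2 : y3 ≤ (1/4)) (he1 : (1/100) ≤ y4) (he2 : y4 ≤ (3/100)) (hg1 : 0 ≤ y7) (hg2 : y7 ≤ (3/100)) : False := by
  obtain ⟨o0, o1, o2, o3, o4, o5, o6, o7, o8, pos, top, sum, top7, msum, p0, p1, p2, p3, p4, p5, p6, q1, q2, q3, qb, c0, c1, c2, c3, c4, c5, c6, v1_100, v3_200, v1_50, v3_100, v1_8⟩ := h
  have pK : 0 ≤ (1 - (y0 + 3 * y1)) * τ := mul_nonneg (by linarith only [o0, o1, o2, o3, o4, o5, o6, o7, o8, hU1, hU2, hb1, hb2, hd1, hd2, he1, he2, hg1, hg2, top, pos]) pos.le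
  have pb1 : 0 ≤ (y2 - (1/10)) * (y0 + y1 - (1/20)) := mul_nonneg (by linarith only [o0, o1, o2, o3, o4, o5, o6, o7, o8, hU1, hU2, hb1, hb2, hd1, hd2, he1, he2, hg1, hg2, top, pos]) (by linarith only [o0, o1, o2, o3, o4, o5, o6, o7, o8, hU1, hU2, hb1, hb2, hd1, hd2, he1, he2, hg1, hg2, top, pos])
  have pb2 : 0 ≤ ((1/3) - y2) * ((1/2) - (y0 + y1)) := mul_nonneg (by linarith only [o0, o1, o2, o3, o4, o5, o6, o7, o8, hU1, hU2, hb1, hb2, hd1, hd2, he1, he2, hg1, hg2, top, pos]) (by linarith only [o0, o1, o2, o3, o4, o5, o6, o7, o8, hU1, hU2, hb1, hb2, hd1, hd2, he1, he2, hg1, hg2, top, pos])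
  have pb3 : 0 ≤ (y2 - (1/10)) * ((1/3) - y2) := mul_nonneg (by linarith only [o0, o1, o2, o3, o4, o5, o6, o7, o8, hU1, hU2, hb1, hb2, hd1, hd2, he1, he2, hg1, hg2, top, pos]) (by linarith only [o0, o1, o2, o3, o4, o5, o6, o7, o8, hU1, hU2, hb1, hb2, hd1, hd2, he1, he2, hg1, hg2, top, pos])
  have r1a : (1/5) * (y0 + y1) + (-1/3) * y2 - (421/20) * τ ≤ (-7/300) := by
    linarith only [q1, pK, pb1, pb3]
  have r1b : (2/3) * (y0 + y1) + (17/30) * y2 - (421/20) * τ ≤ (3/10) := by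
    linarith only [q1, pK, pb2, pb3]
  have q2' := q2 (by linarith only [hU2])
  have r2a : (3/10) * (y0 + y1) + (-7/20) * y2 - (421/20) * τ ≤ (3/200) := by
    linarith only [q2', pK, pb1]
  have r2b : 1 * (y0 + y1) + 1 * y2 - (421/20) * τ ≤ (1/2) := by
    linarith only [q2', pK, pb2]
  have pL : 0 ≤ ((9/16) - (9/16) * (y0 + 3 * y1)) * τ := mul_nonneg (by linarith only [o0, o1, o2, o3, o4, o5, o6, o7, o8, hU1, hU2, hb1, hb2, hd1, hd2, he1, he2, hg1, hg2, top, pos]) (by linarith only [o0, o1, o2, o3, o4, o5, o6, o7, o8, hU1, hU2, hb1, hb2, hd1, hd2, he1, he2, hg1, hg2, top, pos])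
  have pd1 : 0 ≤ (y3 - (13/100)) * (y1 + y2 - (1/5)) := mul_nonneg (by linarith only [o0, o1, o2, o3, o4, o5, o6, o7, o8, hU1, hU2, hb1, hb2, hd1, hd2, he1, he2, hg1, hg2, top, pos]) (by linarith only [o0, o1, o2, o3, o4, o5, o6, o7, o8, hU1, hU2, hb1, hb2, hd1, hd2, he1, he2, hg1, hg2, top, pos])
  have pd2 : 0 ≤ ((1/4) - y3) * ((7/12) - (y1 + y2)) := mul_nonneg (by linarith only [o0, o1, o2, o3, o4, o5, o6, o7, o8, hU1, hU2, hb1, hb2, hd1, hd2, he1, he2, hg1, hg2, top, pos]) (by linarith only [o0, o1, o2, o3, o4, o5, o6, o7, o8, hU1, hU2, hb1, hb2, hd1, hd2, he1, he2, hg1, hg2, top, pos])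
  have pd3 : 0 ≤ (y3 - (13/100)) * ((1/4) - y3) := mul_nonneg (by linarith only [o0, o1, o2, o3, o4, o5, o6, o7, o8, hU1, hU2, hb1, hb2, hd1, hd2, he1, he2, hg1, hg2, top, pos]) (by linarith only [o0, o1, o2, o3, o4, o5, o6, o7, o8, hU1, hU2, hb1, hb2, hd1, hd2, he1, he2, hg1, hg2, top, pos])
  have rBa : (13/50) * (y1 + y2) + (1/50) * y3 - (1097/80) * τ ≤ (39/2000) := by
    linarith only [qb, pL, pd1, pd3]
  have rBb : (1/2) * (y1 + y2) + (59/75) * y3 - (1097/80) * τ ≤ (311/1200) := by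
    linarith only [qb, pL, pd2, pd3]
  have ht : (3/1000) ≤ τ := by linarith only [o0, o1, o2, o3, o4, o5, o6, o7, o8, hU1, hU2, hb1, hb2, hd1, hd2, he1, he2, hg1, hg2, top, pos, sum, r1a, r1b, r2a, r2b, rBa, rBb]
  have z0 := c0.l9 (by linarith only [o0, o1, o2, o3, o4, o5, o6, o7, o8, hU1, hU2, hb1, hb2, hd1, hd2, he1, he2, hg1, hg2, top, pos, ht])
  have z1 := c1.l4 (by linarith only [o0, o1, o2, o3, o4, o5, o6, o7, o8, hU1, hU2, hb1, hb2, hd1, hd2, he1, he2, hg1, hg2, top, pos, ht])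
  have z2 := c2.l4 (by linarith only [o0, o1, o2, o3, o4, o5, o6, o7, o8, hU1, hU2, hb1, hb2, hd1, hd2, he1, he2, hg1, hg2, top, pos, ht])
  have z3 := c3.l3 (by linarith only [o0, o1, o2, o3, o4, o5, o6, o7, o8, hU1, hU2, hb1, hb2, hd1, hd2, he1, he2, hg1, hg2, top, pos, ht])
  have z4 := c3.l4 (by linarith only [o0, o1, o2, o3, o4, o5, o6, o7, o8, hU1, hU2, hb1, hb2, hd1, hd2, he1, he2, hg1, hg2, top, pos, ht])
  have z5 := c4.l116 (by linarith only [o0, o1, o2, o3, o4, o5, o6, o7, o8, hU1, hU2, hb1, hb2, hd1, hd2, he1, he2, hg1, hg2, top, pos, ht]) (by linarith only [o0, o1, o2, o3, o4, o5, o6, o7, o8, hU1, hU2, hb1, hb2, hd1, hd2, he1, he2, hg1, hg2, top, pos, ht])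
  have z6 := c5.l62 (by linarith only [o0, o1, o2, o3, o4, o5, o6, o7, o8, hU1, hU2, hb1, hb2, hd1, hd2, he1, he2, hg1, hg2, top, pos, ht]) (by linarith only [o0, o1, o2, o3, o4, o5, o6, o7, o8, hU1, hU2, hb1, hb2, hd1, hd2, he1, he2, hg1, hg2, top, pos, ht])
  have z7 := c6.l62 (by linarith only [o0, o1, o2, o3, o4, o5, o6, o7, o8, hU1, hU2, hb1, hb2, hd1, hd2, he1, he2, hg1, hg2, top, pos, ht]) (by linarith only [o0, o1, o2, o3, o4, o5, o6, o7, o8, hU1, hU2, hb1, hb2, hd1, hd2, he1, he2, hg1, hg2, top, pos, ht])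
  have zv := v3_100 (by linarith only [o0, o1, o2, o3, o4, o5, o6, o7, o8, hU1, hU2, hb1, hb2, hd1, hd2, he1, he2, hg1, hg2, top, pos, ht])
  linarith only [z0, z1, z2, z3, z4, z5, z6, z7, zv, o0, o1, o2, o3, o4, o5, o6, o7, o8, hU1, hU2, hb1, hb2, hd1, hd2, he1, he2, hg1, hg2, top, pos, ht, sum, msum, r1a, r1b, r2a, r2b, rBa, rBb, p0, p1, p2, p3, p4, p5, p6]

theorem N8.leaf18 {y0 y1 y2 y3 y4 y5 y6 y7 G τ m0 m1 m2 m3 m4 m5 m6 MG : ℝ} (h : N8 y0 y1 y2 y3 y4 y5 y6 y7 G τ m0 m1 m2 m3 m4 m5 m6 MG)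
    (hU1 : (1/2) ≤ y0 + y1) (hU2 : y0 + y1 ≤ (8/9)) (hb1 : (1/10) ≤ y2) (hb2 : y2 ≤ (1/3))
    (hd1 : (13/100) ≤ y3) (hd2 : y3 ≤ (1/4)) (he1 : (1/100) ≤ y4) (he2 : y4 ≤ (3/100)) (hg1 : 0 ≤ y7) (hg2 : y7 ≤ (3/100)) : False := by
  obtain ⟨o0, o1, o2, o3, o4, o5, o6, o7, o8, pos, top, sum, top7, msum, p0, p1, p2, p3, p4, p5, p6, q1, q2, q3, qb, c0, c1, c2, c3, c4, c5, c6, v1_100, v3_200, v1_50, v3_100, v1_8⟩ := h
  have pK : 0 ≤ ((16/9) - (y0 + 3 * y1)) * τ := mul_nonneg (by linarith only [o0, o1, o2, o3, o4, o5, o6, o7, o8, hU1, hU2, hb1, hb2, hd1, hd2, he1, he2, hg1, hg2, top, pos]) pos.le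
  have pb1 : 0 ≤ (y2 - (1/10)) * (y0 + y1 - (1/2)) := mul_nonneg (by linarith only [o0, o1, o2, o3, o4, o5, o6, o7, o8, hU1, hU2, hb1, hb2, hd1, hd2, he1, he2, hg1, hg2, top, pos]) (by linarith only [o0, o1, o2, o3, o4, o5, o6, o7, o8, hU1, hU2, hb1, hb2, hd1, hd2, he1, he2, hg1, hg2, top, pos])
  have pb2 : 0 ≤ ((1/3) - y2) * ((8/9) - (y0 + y1)) := mul_nonneg (by linarith only [o0, o1, o2, o3, o4, o5, o6, o7, o8, hU1, hU2, hb1, hb2, hd1, hd2, he1, he2, hg1, hg2, top, pos]) (by linarith only [o0, o1, o2, o3, o4, o5, o6, o7, o8, hU1, hU2, hb1, hb2, hd1, hd2, he1, he2, hg1, hg2, top, pos])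
  have pb3 : 0 ≤ (y2 - (1/10)) * ((1/3) - y2) := mul_nonneg (by linarith only [o0, o1, o2, o3, o4, o5, o6, o7, o8, hU1, hU2, hb1, hb2, hd1, hd2, he1, he2, hg1, hg2, top, pos]) (by linarith only [o0, o1, o2, o3, o4, o5, o6, o7, o8, hU1, hU2, hb1, hb2, hd1, hd2, he1, he2, hg1, hg2, top, pos])
  have r1a : (1/5) * (y0 + y1) + (17/30) * y2 - (3929/180) * τ ≤ (1/15) := by
    linarith only [q1, pK, pb1, pb3]
  have r1b : (2/3) * (y0 + y1) + (121/90) * y2 - (3929/180) * τ ≤ (151/270) := by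
    linarith only [q1, pK, pb2, pb3]
  have q3' := q3 (by linarith only [hU1])
  have r3a : (1/5) * (y0 + y1) + 1 * y2 - (3929/180) * τ ≤ (1/10) := by
    linarith only [q3', pK, pb1]
  have r3b : (2/3) * (y0 + y1) + (16/9) * y2 - (3929/180) * τ ≤ (16/27) := by
    linarith only [q3', pK, pb2]
  have pL : 0 ≤ (1 - (9/16) * (y0 + 3 * y1)) * τ := mul_nonneg (by linarith only [o0, o1, o2, o3, o4, o5, o6, o7, o8, hU1, hU2, hb1, hb2, hd1, hd2, he1, he2, hg1, hg2, top, pos]) (by linarith only [o0, o1, o2, o3, o4, o5, o6, o7, o8, hU1, hU2, hb1, hb2, hd1, hd2, he1, he2, hg1, hg2, top, pos])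
  have pd1 : 0 ≤ (y3 - (13/100)) * (y1 + y2 - (1/5)) := mul_nonneg (by linarith only [o0, o1, o2, o3, o4, o5, o6, o7, o8, hU1, hU2, hb1, hb2, hd1, hd2, he1, he2, hg1, hg2, top, pos]) (by linarith only [o0, o1, o2, o3, o4, o5, o6, o7, o8, hU1, hU2, hb1, hb2, hd1, hd2, he1, he2, hg1, hg2, top, pos])
  have pd2 : 0 ≤ ((1/4) - y3) * ((7/9) - (y1 + y2)) := mul_nonneg (by linarith only [o0, o1, o2, o3, o4, o5, o6, o7, o8, hU1, hU2, hb1, hb2, hd1, hd2, he1, he2, hg1, hg2, top, pos]) (by linarith only [o0, o1, o2, o3, o4, o5, o6, o7, o8, hU1, hU2, hb1, hb2, hd1, hd2, he1, he2, hg1, hg2, top, pos])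
  have pd3 : 0 ≤ (y3 - (13/100)) * ((1/4) - y3) := mul_nonneg (by linarith only [o0, o1, o2, o3, o4, o5, o6, o7, o8, hU1, hU2, hb1, hb2, hd1, hd2, he1, he2, hg1, hg2, top, pos]) (by linarith only [o0, o1, o2, o3, o4, o5, o6, o7, o8, hU1, hU2, hb1, hb2, hd1, hd2, he1, he2, hg1, hg2, top, pos])
  have rBa : (13/50) * (y1 + y2) + (1/50) * y3 - (283/20) * τ ≤ (39/2000) := by
    linarith only [qb, pL, pd1, pd3]
  have rBb : (1/2) * (y1 + y2) + (529/450) * y3 - (283/20) * τ ≤ (1283/3600) := by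
    linarith only [qb, pL, pd2, pd3]
  have ht : (1/200) ≤ τ := by linarith only [o0, o1, o2, o3, o4, o5, o6, o7, o8, hU1, hU2, hb1, hb2, hd1, hd2, he1, he2, hg1, hg2, top, pos, sum, r1a, r1b, r3a, r3b, rBa, rBb]
  have z0 := c0.l6 (by linarith only [o0, o1, o2, o3, o4, o5, o6, o7, o8, hU1, hU2, hb1, hb2, hd1, hd2, he1, he2, hg1, hg2, top, pos, ht])
  have z1 := c0.l7 (by linarith only [o0, o1, o2, o3, o4, o5, o6, o7, o8, hU1, hU2, hb1, hb2, hd1, hd2, he1, he2, hg1, hg2, top, pos, ht])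
  have z2 := c1.l6 (by linarith only [o0, o1, o2, o3, o4, o5, o6, o7, o8, hU1, hU2, hb1, hb2, hd1, hd2, he1, he2, hg1, hg2, top, pos, ht])
  have z3 := c1.l7 (by linarith only [o0, o1, o2, o3, o4, o5, o6, o7, o8, hU1, hU2, hb1, hb2, hd1, hd2, he1, he2, hg1, hg2, top, pos, ht])
  have z4 := c2.l3 (by linarith only [o0, o1, o2, o3, o4, o5, o6, o7, o8, hU1, hU2, hb1, hb2, hd1, hd2, he1, he2, hg1, hg2, top, pos, ht])
  have z5 := c3.l3 (by linarith only [o0, o1, o2, o3, o4, o5, o6, o7, o8, hU1, hU2, hb1, hb2, hd1, hd2, he1, he2, hg1, hg2, top, pos, ht])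
  have z6 := c4.l116 (by linarith only [o0, o1, o2, o3, o4, o5, o6, o7, o8, hU1, hU2, hb1, hb2, hd1, hd2, he1, he2, hg1, hg2, top, pos, ht]) (by linarith only [o0, o1, o2, o3, o4, o5, o6, o7, o8, hU1, hU2, hb1, hb2, hd1, hd2, he1, he2, hg1, hg2, top, pos, ht])
  have z7 := c5.l91 (by linarith only [o0, o1, o2, o3, o4, o5, o6, o7, o8, hU1, hU2, hb1, hb2, hd1, hd2, he1, he2, hg1, hg2, top, pos, ht]) (by linarith only [o0, o1, o2, o3, o4, o5, o6, o7, o8, hU1, hU2, hb1, hb2, hd1, hd2, he1, he2, hg1, hg2, top, pos, ht])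
  have z8 := c6.l91 (by linarith only [o0, o1, o2, o3, o4, o5, o6, o7, o8, hU1, hU2, hb1, hb2, hd1, hd2, he1, he2, hg1, hg2, top, pos, ht]) (by linarith only [o0, o1, o2, o3, o4, o5, o6, o7, o8, hU1, hU2, hb1, hb2, hd1, hd2, he1, he2, hg1, hg2, top, pos, ht])
  have zv := v3_100 (by linarith only [o0, o1, o2, o3, o4, o5, o6, o7, o8, hU1, hU2, hb1, hb2, hd1, hd2, he1, he2, hg1, hg2, top, pos, ht])
  linarith only [z0, z1, z2, z3, z4, z5, z6, z7, z8, zv, o0, o1, o2, o3, o4, o5, o6, o7, o8, hU1, hU2, hb1, hb2, hd1, hd2, he1, he2, hg1, hg2, top, pos, ht, sum, msum, r1a, r1b, r3a, r3b, rBa, rBb, p0, p1, p2, p3, p4, p5, p6]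

theorem N8.leaf19 {y0 y1 y2 y3 y4 y5 y6 y7 G τ m0 m1 m2 m3 m4 m5 m6 MG : ℝ} (h : N8 y0 y1 y2 y3 y4 y5 y6 y7 G τ m0 m1 m2 m3 m4 m5 m6 MG)
    (hU1 : (1/20) ≤ y0 + y1) (hU2 : y0 + y1 ≤ (8/9)) (hb1 : (1/10) ≤ y2) (hb2 : y2 ≤ (1/3))
    (hd1 : (13/100) ≤ y3) (hd2 : y3 ≤ (1/4)) (he1 : (3/100) ≤ y4) (he2 : y4 ≤ (1/10)) (hg1 : 0 ≤ y7) (hg2 : y7 ≤ (3/100)) : False := by
  obtain ⟨o0, o1, o2, o3, o4, o5, o6, o7, o8, pos, top, sum, top7, msum, p0, p1, p2, p3, p4, p5, p6, q1, q2, q3, qb, c0, c1, c2, c3, c4, c5, c6, v1_100, v3_200, v1_50, v3_100, v1_8⟩ := h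
  have pK : 0 ≤ ((16/9) - (y0 + 3 * y1)) * τ := mul_nonneg (by linarith only [o0, o1, o2, o3, o4, o5, o6, o7, o8, hU1, hU2, hb1, hb2, hd1, hd2, he1, he2, hg1, hg2, top, pos]) pos.le
  have pb1 : 0 ≤ (y2 - (1/10)) * (y0 + y1 - (1/20)) := mul_nonneg (by linarith only [o0, o1, o2, o3, o4, o5, o6, o7, o8, hU1, hU2, hb1, hb2, hd1, hd2, he1, he2, hg1, hg2, top, pos]) (by linarith only [o0, o1, o2, o3, o4, o5, o6, o7, o8, hU1, hU2, hb1, hb2, hd1, hd2, he1, he2, hg1, hg2, top, pos])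
  have pb2 : 0 ≤ ((1/3) - y2) * ((8/9) - (y0 + y1)) := mul_nonneg (by linarith only [o0, o1, o2, o3, o4, o5, o6, o7, o8, hU1, hU2, hb1, hb2, hd1, hd2, he1, he2, hg1, hg2, top, pos]) (by linarith only [o0, o1, o2, o3, o4, o5, o6, o7, o8, hU1, hU2, hb1, hb2, hd1, hd2, he1, he2, hg1, hg2, top, pos])
  have pb3 : 0 ≤ (y2 - (1/10)) * ((1/3) - y2) := mul_nonneg (by linarith only [o0, o1, o2, o3, o4, o5, o6, o7, o8, hU1, hU2, hb1, hb2, hd1, hd2, he1, he2, hg1, hg2, top, pos]) (by linarith only [o0, o1, o2, o3, o4, o5, o6, o7, o8, hU1, hU2, hb1, hb2, hd1, hd2, he1, he2, hg1, hg2, top, pos])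
  have r1a : (1/5) * (y0 + y1) + (-1/3) * y2 - (3929/180) * τ ≤ (-7/300) := by
    linarith only [q1, pK, pb1, pb3]
  have r1b : (2/3) * (y0 + y1) + (121/90) * y2 - (3929/180) * τ ≤ (151/270) := by
    linarith only [q1, pK, pb2, pb3]
  have pL : 0 ≤ (1 - (9/16) * (y0 + 3 * y1)) * τ := mul_nonneg (by linarith only [o0, o1, o2, o3, o4, o5, o6, o7, o8, hU1, hU2, hb1, hb2, hd1, hd2, he1, he2, hg1, hg2, top, pos]) (by linarith only [o0, o1, o2, o3, o4, o5, o6, o7, o8, hU1, hU2, hb1, hb2, hd1, hd2, he1, he2, hg1, hg2, top, pos])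
  have pd1 : 0 ≤ (y3 - (13/100)) * (y1 + y2 - (1/5)) := mul_nonneg (by linarith only [o0, o1, o2, o3, o4, o5, o6, o7, o8, hU1, hU2, hb1, hb2, hd1, hd2, he1, he2, hg1, hg2, top, pos]) (by linarith only [o0, o1, o2, o3, o4, o5, o6, o7, o8, hU1, hU2, hb1, hb2, hd1, hd2, he1, he2, hg1, hg2, top, pos])
  have pd2 : 0 ≤ ((1/4) - y3) * ((7/9) - (y1 + y2)) := mul_nonneg (by linarith only [o0, o1, o2, o3, o4, o5, o6, o7, o8, hU1, hU2, hb1, hb2, hd1, hd2, he1, he2, hg1, hg2, top, pos]) (by linarith only [o0, o1, o2, o3, o4, o5, o6, o7, o8, hU1, hU2, hb1, hb2, hd1, hd2, he1, he2, hg1, hg2, top, pos])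
  have pd3 : 0 ≤ (y3 - (13/100)) * ((1/4) - y3) := mul_nonneg (by linarith only [o0, o1, o2, o3, o4, o5, o6, o7, o8, hU1, hU2, hb1, hb2, hd1, hd2, he1, he2, hg1, hg2, top, pos]) (by linarith only [o0, o1, o2, o3, o4, o5, o6, o7, o8, hU1, hU2, hb1, hb2, hd1, hd2, he1, he2, hg1, hg2, top, pos])
  have rBa : (13/50) * (y1 + y2) + (1/50) * y3 - (283/20) * τ ≤ (39/2000) := by
    linarith only [qb, pL, pd1, pd3]
  have rBb : (1/2) * (y1 + y2) + (529/450) * y3 - (283/20) * τ ≤ (1283/3600) := by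
    linarith only [qb, pL, pd2, pd3]
  have ht : (3/1000) ≤ τ := by linarith only [o0, o1, o2, o3, o4, o5, o6, o7, o8, hU1, hU2, hb1, hb2, hd1, hd2, he1, he2, hg1, hg2, top, pos, sum, r1a, r1b, rBa, rBb]
  have z0 := c0.l9 (by linarith only [o0, o1, o2, o3, o4, o5, o6, o7, o8, hU1, hU2, hb1, hb2, hd1, hd2, he1, he2, hg1, hg2, top, pos, ht])
  have z1 := c1.l6 (by linarith only [o0, o1, o2, o3, o4, o5, o6, o7, o8, hU1, hU2, hb1, hb2, hd1, hd2, he1, he2, hg1, hg2, top, pos, ht])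
  have z2 := c2.l6 (by linarith only [o0, o1, o2, o3, o4, o5, o6, o7, o8, hU1, hU2, hb1, hb2, hd1, hd2, he1, he2, hg1, hg2, top, pos, ht])
  have z3 := c3.l2 (by linarith only [o0, o1, o2, o3, o4, o5, o6, o7, o8, hU1, hU2, hb1, hb2, hd1, hd2, he1, he2, hg1, hg2, top, pos, ht])
  have z4 := c4.l167 (by linarith only [o0, o1, o2, o3, o4, o5, o6, o7, o8, hU1, hU2, hb1, hb2, hd1, hd2, he1, he2, hg1, hg2, top, pos, ht]) (by linarith only [o0, o1, o2, o3, o4, o5, o6, o7, o8, hU1, hU2, hb1, hb2, hd1, hd2, he1, he2, hg1, hg2, top, pos, ht])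
  have z5 := c5.l67 (by linarith only [o0, o1, o2, o3, o4, o5, o6, o7, o8, hU1, hU2, hb1, hb2, hd1, hd2, he1, he2, hg1, hg2, top, pos, ht]) (by linarith only [o0, o1, o2, o3, o4, o5, o6, o7, o8, hU1, hU2, hb1, hb2, hd1, hd2, he1, he2, hg1, hg2, top, pos, ht])
  have z6 := c6.l67 (by linarith only [o0, o1, o2, o3, o4, o5, o6, o7, o8, hU1, hU2, hb1, hb2, hd1, hd2, he1, he2, hg1, hg2, top, pos, ht]) (by linarith only [o0, o1, o2, o3, o4, o5, o6, o7, o8, hU1, hU2, hb1, hb2, hd1, hd2, he1, he2, hg1, hg2, top, pos, ht])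
  have zv := v3_100 (by linarith only [o0, o1, o2, o3, o4, o5, o6, o7, o8, hU1, hU2, hb1, hb2, hd1, hd2, he1, he2, hg1, hg2, top, pos, ht])
  linarith only [z0, z1, z2, z3, z4, z5, z6, zv, o0, o1, o2, o3, o4, o5, o6, o7, o8, hU1, hU2, hb1, hb2, hd1, hd2, he1, he2, hg1, hg2, top, pos, ht, sum, msum, r1a, r1b, rBa, rBb, p0, p1, p2, p3, p4, p5, p6]

theorem N8.leaf20 {y0 y1 y2 y3 y4 y5 y6 y7 G τ m0 m1 m2 m3 m4 m5 m6 MG : ℝ} (h : N8 y0 y1 y2 y3 y4 y5 y6 y7 G τ m0 m1 m2 m3 m4 m5 m6 MG)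
    (hU1 : (1/20) ≤ y0 + y1) (hU2 : y0 + y1 ≤ (8/9)) (hb1 : (1/10) ≤ y2) (hb2 : y2 ≤ (1/3))
    (hd1 : (13/100) ≤ y3) (hd2 : y3 ≤ (1/4)) (he1 : (1/10) ≤ y4) (he2 : y4 ≤ (1/5)) (hg1 : 0 ≤ y7) (hg2 : y7 ≤ (3/100)) : False := by
  obtain ⟨o0, o1, o2, o3, o4, o5, o6, o7, o8, pos, top, sum, top7, msum, p0, p1, p2, p3, p4, p5, p6, q1, q2, q3, qb, c0, c1, c2, c3, c4, c5, c6, v1_100, v3_200, v1_50, v3_100, v1_8⟩ := h
  have pK : 0 ≤ ((16/9) - (y0 + 3 * y1)) * τ := mul_nonneg (by linarith only [o0, o1, o2, o3, o4, o5, o6, o7, o8, hU1, hU2, hb1, hb2, hd1, hd2, he1, he2, hg1, hg2, top, pos]) pos.le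
  have pb1 : 0 ≤ (y2 - (1/10)) * (y0 + y1 - (1/20)) := mul_nonneg (by linarith only [o0, o1, o2, o3, o4, o5, o6, o7, o8, hU1, hU2, hb1, hb2, hd1, hd2, he1, he2, hg1, hg2, top, pos]) (by linarith only [o0, o1, o2, o3, o4, o5, o6, o7, o8, hU1, hU2, hb1, hb2, hd1, hd2, he1, he2, hg1, hg2, top, pos])
  have pb2 : 0 ≤ ((1/3) - y2) * ((8/9) - (y0 + y1)) := mul_nonneg (by linarith only [o0, o1, o2, o3, o4, o5, o6, o7, o8, hU1, hU2, hb1, hb2, hd1, hd2, he1, he2, hg1, hg2, top, pos]) (by linarith only [o0, o1, o2, o3, o4, o5, o6, o7, o8, hU1, hU2, hb1, hb2, hd1, hd2, he1, he2, hg1, hg2, top, pos])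
  have pb3 : 0 ≤ (y2 - (1/10)) * ((1/3) - y2) := mul_nonneg (by linarith only [o0, o1, o2, o3, o4, o5, o6, o7, o8, hU1, hU2, hb1, hb2, hd1, hd2, he1, he2, hg1, hg2, top, pos]) (by linarith only [o0, o1, o2, o3, o4, o5, o6, o7, o8, hU1, hU2, hb1, hb2, hd1, hd2, he1, he2, hg1, hg2, top, pos])
  have r1a : (1/5) * (y0 + y1) + (-1/3) * y2 - (3929/180) * τ ≤ (-7/300) := by
    linarith only [q1, pK, pb1, pb3]
  have r1b : (2/3) * (y0 + y1) + (121/90) * y2 - (3929/180) * τ ≤ (151/270) := by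
    linarith only [q1, pK, pb2, pb3]
  have pL : 0 ≤ (1 - (9/16) * (y0 + 3 * y1)) * τ := mul_nonneg (by linarith only [o0, o1, o2, o3, o4, o5, o6, o7, o8, hU1, hU2, hb1, hb2, hd1, hd2, he1, he2, hg1, hg2, top, pos]) (by linarith only [o0, o1, o2, o3, o4, o5, o6, o7, o8, hU1, hU2, hb1, hb2, hd1, hd2, he1, he2, hg1, hg2, top, pos])
  have pd1 : 0 ≤ (y3 - (13/100)) * (y1 + y2 - (1/5)) := mul_nonneg (by linarith only [o0, o1, o2, o3, o4, o5, o6, o7, o8, hU1, hU2, hb1, hb2, hd1, hd2, he1, he2, hg1, hg2, top, pos]) (by linarith only [o0, o1, o2, o3, o4, o5, o6, o7, o8, hU1, hU2, hb1, hb2, hd1, hd2, he1, he2, hg1, hg2, top, pos])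
  have pd2 : 0 ≤ ((1/4) - y3) * ((7/9) - (y1 + y2)) := mul_nonneg (by linarith only [o0, o1, o2, o3, o4, o5, o6, o7, o8, hU1, hU2, hb1, hb2, hd1, hd2, he1, he2, hg1, hg2, top, pos]) (by linarith only [o0, o1, o2, o3, o4, o5, o6, o7, o8, hU1, hU2, hb1, hb2, hd1, hd2, he1, he2, hg1, hg2, top, pos])
  have pd3 : 0 ≤ (y3 - (13/100)) * ((1/4) - y3) := mul_nonneg (by linarith only [o0, o1, o2, o3, o4, o5, o6, o7, o8, hU1, hU2, hb1, hb2, hd1, hd2, he1, he2, hg1, hg2, top, pos]) (by linarith only [o0, o1, o2, o3, o4, o5, o6, o7, o8, hU1, hU2, hb1, hb2, hd1, hd2, he1, he2, hg1, hg2, top, pos])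
  have rBa : (13/50) * (y1 + y2) + (1/50) * y3 - (283/20) * τ ≤ (39/2000) := by
    linarith only [qb, pL, pd1, pd3]
  have rBb : (1/2) * (y1 + y2) + (529/450) * y3 - (283/20) * τ ≤ (1283/3600) := by
    linarith only [qb, pL, pd2, pd3]
  have ht : (3/1000) ≤ τ := by linarith only [o0, o1, o2, o3, o4, o5, o6, o7, o8, hU1, hU2, hb1, hb2, hd1, hd2, he1, he2, hg1, hg2, top, pos, sum, r1a, r1b, rBa, rBb]
  have z0 := c0.l9 (by linarith only [o0, o1, o2, o3, o4, o5, o6, o7, o8, hU1, hU2, hb1, hb2, hd1, hd2, he1, he2, hg1, hg2, top, pos, ht])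
  have z1 := c1.l3 (by linarith only [o0, o1, o2, o3, o4, o5, o6, o7, o8, hU1, hU2, hb1, hb2, hd1, hd2, he1, he2, hg1, hg2, top, pos, ht])
  have z2 := c2.l3 (by linarith only [o0, o1, o2, o3, o4, o5, o6, o7, o8, hU1, hU2, hb1, hb2, hd1, hd2, he1, he2, hg1, hg2, top, pos, ht])
  have z3 := c3.l2 (by linarith only [o0, o1, o2, o3, o4, o5, o6, o7, o8, hU1, hU2, hb1, hb2, hd1, hd2, he1, he2, hg1, hg2, top, pos, ht])
  have z4 := c4.l3 (by linarith only [o0, o1, o2, o3, o4, o5, o6, o7, o8, hU1, hU2, hb1, hb2, hd1, hd2, he1, he2, hg1, hg2, top, pos, ht])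
  have z5 := c5.l12 (by linarith only [o0, o1, o2, o3, o4, o5, o6, o7, o8, hU1, hU2, hb1, hb2, hd1, hd2, he1, he2, hg1, hg2, top, pos, ht])
  have z6 := c6.l12 (by linarith only [o0, o1, o2, o3, o4, o5, o6, o7, o8, hU1, hU2, hb1, hb2, hd1, hd2, he1, he2, hg1, hg2, top, pos, ht])
  have zv := v3_100 (by linarith only [o0, o1, o2, o3, o4, o5, o6, o7, o8, hU1, hU2, hb1, hb2, hd1, hd2, he1, he2, hg1, hg2, top, pos, ht])
  linarith only [z0, z1, z2, z3, z4, z5, z6, zv, o0, o1, o2, o3, o4, o5, o6, o7, o8, hU1, hU2, hb1, hb2, hd1, hd2, he1, he2, hg1, hg2, top, pos, ht, sum, msum, r1a, r1b, rBa, rBb, p0, p1, p2, p3, p4, p5, p6]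

theorem N8.leaf21 {y0 y1 y2 y3 y4 y5 y6 y7 G τ m0 m1 m2 m3 m4 m5 m6 MG : ℝ} (h : N8 y0 y1 y2 y3 y4 y5 y6 y7 G τ m0 m1 m2 m3 m4 m5 m6 MG)
    (hU1 : 0 ≤ y0 + y1) (hU2 : y0 + y1 ≤ (8/9)) (hb1 : 0 ≤ y2) (hb2 : y2 ≤ (1/3))
    (hd1 : 0 ≤ y3) (hd2 : y3 ≤ (1/4)) (he1 : 0 ≤ y4) (he2 : y4 ≤ (1/5)) (hg1 : (3/100) ≤ y7) (hg2 : y7 ≤ (1/8)) : False := by
  obtain ⟨o0, o1, o2, o3, o4, o5, o6, o7, o8, pos, top, sum, top7, msum, p0, p1, p2, p3, p4, p5, p6, q1, q2, q3, qb, c0, c1, c2, c3, c4, c5, c6, v1_100, v3_200, v1_50, v3_100, v1_8⟩ := h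
  have pK : 0 ≤ ((16/9) - (y0 + 3 * y1)) * τ := mul_nonneg (by linarith only [o0, o1, o2, o3, o4, o5, o6, o7, o8, hU1, hU2, hb1, hb2, hd1, hd2, he1, he2, hg1, hg2, top, pos]) pos.le
  have pb1 : 0 ≤ (y2 - 0) * (y0 + y1 - 0) := mul_nonneg (by linarith only [o0, o1, o2, o3, o4, o5, o6, o7, o8, hU1, hU2, hb1, hb2, hd1, hd2, he1, he2, hg1, hg2, top, pos]) (by linarith only [o0, o1, o2, o3, o4, o5, o6, o7, o8, hU1, hU2, hb1, hb2, hd1, hd2, he1, he2, hg1, hg2, top, pos])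
  have pb2 : 0 ≤ ((1/3) - y2) * ((8/9) - (y0 + y1)) := mul_nonneg (by linarith only [o0, o1, o2, o3, o4, o5, o6, o7, o8, hU1, hU2, hb1, hb2, hd1, hd2, he1, he2, hg1, hg2, top, pos]) (by linarith only [o0, o1, o2, o3, o4, o5, o6, o7, o8, hU1, hU2, hb1, hb2, hd1, hd2, he1, he2, hg1, hg2, top, pos])
  have pb3 : 0 ≤ (y2 - 0) * ((1/3) - y2) := mul_nonneg (by linarith only [o0, o1, o2, o3, o4, o5, o6, o7, o8, hU1, hU2, hb1, hb2, hd1, hd2, he1, he2, hg1, hg2, top, pos]) (by linarith only [o0, o1, o2, o3, o4, o5, o6, o7, o8, hU1, hU2, hb1, hb2, hd1, hd2, he1, he2, hg1, hg2, top, pos])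
  have r1a : 0 * (y0 + y1) + (-1/3) * y2 - (3929/180) * τ ≤ 0 := by
    linarith only [q1, pK, pb1, pb3]
  have r1b : (2/3) * (y0 + y1) + (13/9) * y2 - (3929/180) * τ ≤ (16/27) := by
    linarith only [q1, pK, pb2, pb3]
  have pL : 0 ≤ (1 - (9/16) * (y0 + 3 * y1)) * τ := mul_nonneg (by linarith only [o0, o1, o2, o3, o4, o5, o6, o7, o8, hU1, hU2, hb1, hb2, hd1, hd2, he1, he2, hg1, hg2, top, pos]) (by linarith only [o0, o1, o2, o3, o4, o5, o6, o7, o8, hU1, hU2, hb1, hb2, hd1, hd2, he1, he2, hg1, hg2, top, pos])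
  have pd1 : 0 ≤ (y3 - 0) * (y1 + y2 - 0) := mul_nonneg (by linarith only [o0, o1, o2, o3, o4, o5, o6, o7, o8, hU1, hU2, hb1, hb2, hd1, hd2, he1, he2, hg1, hg2, top, pos]) (by linarith only [o0, o1, o2, o3, o4, o5, o6, o7, o8, hU1, hU2, hb1, hb2, hd1, hd2, he1, he2, hg1, hg2, top, pos])
  have pd2 : 0 ≤ ((1/4) - y3) * ((7/9) - (y1 + y2)) := mul_nonneg (by linarith only [o0, o1, o2, o3, o4, o5, o6, o7, o8, hU1, hU2, hb1, hb2, hd1, hd2, he1, he2, hg1, hg2, top, pos]) (by linarith only [o0, o1, o2, o3, o4, o5, o6, o7, o8, hU1, hU2, hb1, hb2, hd1, hd2, he1, he2, hg1, hg2, top, pos])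
  have pd3 : 0 ≤ (y3 - 0) * ((1/4) - y3) := mul_nonneg (by linarith only [o0, o1, o2, o3, o4, o5, o6, o7, o8, hU1, hU2, hb1, hb2, hd1, hd2, he1, he2, hg1, hg2, top, pos]) (by linarith only [o0, o1, o2, o3, o4, o5, o6, o7, o8, hU1, hU2, hb1, hb2, hd1, hd2, he1, he2, hg1, hg2, top, pos])
  have rBa : 0 * (y1 + y2) + (-1/4) * y3 - (283/20) * τ ≤ 0 := by
    linarith only [qb, pL, pd1, pd3]
  have rBb : (1/2) * (y1 + y2) + (47/36) * y3 - (283/20) * τ ≤ (7/18) := by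
    linarith only [qb, pL, pd2, pd3]
  have z0 := c0.l8 (by linarith only [o0, o1, o2, o3, o4, o5, o6, o7, o8, hU1, hU2, hb1, hb2, hd1, hd2, he1, he2, hg1, hg2, top, pos])
  have z1 := c1.l8 (by linarith only [o0, o1, o2, o3, o4, o5, o6, o7, o8, hU1, hU2, hb1, hb2, hd1, hd2, he1, he2, hg1, hg2, top, pos])
  have z2 := c2.l8 (by linarith only [o0, o1, o2, o3, o4, o5, o6, o7, o8, hU1, hU2, hb1, hb2, hd1, hd2, he1, he2, hg1, hg2, top, pos])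
  have z3 := c3.l8 (by linarith only [o0, o1, o2, o3, o4, o5, o6, o7, o8, hU1, hU2, hb1, hb2, hd1, hd2, he1, he2, hg1, hg2, top, pos])
  have z4 := c4.l8 (by linarith only [o0, o1, o2, o3, o4, o5, o6, o7, o8, hU1, hU2, hb1, hb2, hd1, hd2, he1, he2, hg1, hg2, top, pos])
  have z5 := c5.l8 (by linarith only [o0, o1, o2, o3, o4, o5, o6, o7, o8, hU1, hU2, hb1, hb2, hd1, hd2, he1, he2, hg1, hg2, top, pos])
  have z6 := c6.l8 (by linarith only [o0, o1, o2, o3, o4, o5, o6, o7, o8, hU1, hU2, hb1, hb2, hd1, hd2, he1, he2, hg1, hg2, top, pos])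
  have zv := v1_8 (by linarith only [o0, o1, o2, o3, o4, o5, o6, o7, o8, hU1, hU2, hb1, hb2, hd1, hd2, he1, he2, hg1, hg2, top, pos])
  linarith only [z0, z1, z2, z3, z4, z5, z6, zv, o0, o1, o2, o3, o4, o5, o6, o7, o8, hU1, hU2, hb1, hb2, hd1, hd2, he1, he2, hg1, hg2, top, pos, sum, msum, r1a, r1b, rBa, rBb, p0, p1, p2, p3, p4, p5, p6]

theorem N8.false {y0 y1 y2 y3 y4 y5 y6 y7 G τ m0 m1 m2 m3 m4 m5 m6 MG : ℝ} (h : N8 y0 y1 y2 y3 y4 y5 y6 y7 G τ m0 m1 m2 m3 m4 m5 m6 MG) : False := by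
  have ao0 := h.o0
  have ao1 := h.o1
  have ao2 := h.o2
  have ao3 := h.o3
  have ao4 := h.o4
  have ao5 := h.o5
  have ao6 := h.o6
  have ao7 := h.o7
  have ao8 := h.o8
  have apos := h.pos
  have atop := h.top
  have asum := h.sum
  have atop7 := h.top7
  rcases le_total y7 (3/100) with h1 | h1
  · rcases le_total (y0 + y1) (1/20) with h2 | h2
    · exact h.leaf0 (by linarith) (by linarith) (by linarith) (by linarith) (by linarith) (by linarith) (by linarith) (by linarith) (by linarith) (by linarith)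
    · rcases le_total y3 (13/100) with h3 | h3
      · rcases le_total y2 (3/20) with h4 | h4
        · rcases le_total y4 (4/25) with h5 | h5
          · rcases le_total (y0 + y1) (9/20) with h6 | h6
            · rcases le_total y2 (1/100) with h7 | h7
              · exact h.leaf1 (by linarith) (by linarith) (by linarith) (by linarith) (by linarith) (by linarith) (by linarith) (by linarith) (by linarith) (by linarith)
              · rcases le_total y2 (1/50) with h8 | h8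
                · exact h.leaf2 (by linarith) (by linarith) (by linarith) (by linarith) (by linarith) (by linarith) (by linarith) (by linarith) (by linarith) (by linarith)
                · exact h.leaf3 (by linarith) (by linarith) (by linarith) (by linarith) (by linarith) (by linarith) (by linarith) (by linarith) (by linarith) (by linarith)
            · rcases le_total y4 (1/100) with h9 | h9
              · exact h.leaf4 (by linarith) (by linarith) (by linarith) (by linarith) (by linarith) (by linarith) (by linarith) (by linarith) (by linarith) (by linarith)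
              · rcases le_total y2 (2/25) with h10 | h10
                · rcases le_total y3 (1/25) with h11 | h11
                  · exact h.leaf5 (by linarith) (by linarith) (by linarith) (by linarith) (by linarith) (by linarith) (by linarith) (by linarith) (by linarith) (by linarith)
                  · exact h.leaf6 (by linarith) (by linarith) (by linarith) (by linarith) (by linarith) (by linarith) (by linarith) (by linarith) (by linarith) (by linarith)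
                · exact h.leaf7 (by linarith) (by linarith) (by linarith) (by linarith) (by linarith) (by linarith) (by linarith) (by linarith) (by linarith) (by linarith)
          · exact h.leaf8 (by linarith) (by linarith) (by linarith) (by linarith) (by linarith) (by linarith) (by linarith) (by linarith) (by linarith) (by linarith)
        · rcases le_total y4 (3/200) with h12 | h12
          · rcases le_total y2 (11/50) with h13 | h13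
            · exact h.leaf9 (by linarith) (by linarith) (by linarith) (by linarith) (by linarith) (by linarith) (by linarith) (by linarith) (by linarith) (by linarith)
            · exact h.leaf10 (by linarith) (by linarith) (by linarith) (by linarith) (by linarith) (by linarith) (by linarith) (by linarith) (by linarith) (by linarith)
          · rcases le_total y4 (13/100) with h14 | h14
            · rcases le_total (y0 + y1) (1/2) with h15 | h15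
              · exact h.leaf11 (by linarith) (by linarith) (by linarith) (by linarith) (by linarith) (by linarith) (by linarith) (by linarith) (by linarith) (by linarith)
              · rcases le_total y2 (11/50) with h16 | h16
                · exact h.leaf12 (by linarith) (by linarith) (by linarith) (by linarith) (by linarith) (by linarith) (by linarith) (by linarith) (by linarith) (by linarith)
                · exact h.leaf13 (by linarith) (by linarith) (by linarith) (by linarith) (by linarith) (by linarith) (by linarith) (by linarith) (by linarith) (by linarith)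
            · exact h.leaf14 (by linarith) (by linarith) (by linarith) (by linarith) (by linarith) (by linarith) (by linarith) (by linarith) (by linarith) (by linarith)
      · rcases le_total y2 (1/10) with h17 | h17
        · exact h.leaf15 (by linarith) (by linarith) (by linarith) (by linarith) (by linarith) (by linarith) (by linarith) (by linarith) (by linarith) (by linarith)
        · rcases le_total y4 (1/100) with h18 | h18
          · exact h.leaf16 (by linarith) (by linarith) (by linarith) (by linarith) (by linarith) (by linarith) (by linarith) (by linarith) (by linarith) (by linarith)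
          · rcases le_total y4 (3/100) with h19 | h19
            · rcases le_total (y0 + y1) (1/2) with h20 | h20
              · exact h.leaf17 (by linarith) (by linarith) (by linarith) (by linarith) (by linarith) (by linarith) (by linarith) (by linarith) (by linarith) (by linarith)
              · exact h.leaf18 (by linarith) (by linarith) (by linarith) (by linarith) (by linarith) (by linarith) (by linarith) (by linarith) (by linarith) (by linarith)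
            · rcases le_total y4 (1/10) with h21 | h21
              · exact h.leaf19 (by linarith) (by linarith) (by linarith) (by linarith) (by linarith) (by linarith) (by linarith) (by linarith) (by linarith) (by linarith)
              · exact h.leaf20 (by linarith) (by linarith) (by linarith) (by linarith) (by linarith) (by linarith) (by linarith) (by linarith) (by linarith) (by linarith)
  · exact h.leaf21 (by linarith) (by linarith) (by linarith) (by linarith) (by linarith) (by linarith) (by linarith) (by linarith) (by linarith) (by linarith)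

end Crest.Agent.S0334
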