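import Crest.Agent.S0334_E2c

set_option autoImplicit false

namespace Crest.Agent.S0334

/-! ### Q: lower bounds for `Qd` (pure real algebra)

Write `p0 = y0-α-β ≥ 0`, `p1 = y1-α-γ ≥ 0`, `p2 = y2-β-γ ≥ 0`, `u = α+p1-β-p2 = y1-y2 ≥ 0`,
`w = α+p0-γ-p2 = y0 - y2 ≥ 0`. Then (identity)
`Qd - y2 (2(y0+y1)-y2) = u w + 2βu + 2γw + 4αβ + 4αγ + 6βγ - α² + β² + γ² + 2 p2 (α+β+γ)`.
QL1: if `α ≤ β+p2` or `α ≤ γ+p2` then `α² ≤ α(β+p2)`; otherwise `u ≥ α-β-p2 ≥ 0`,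
`w ≥ α-γ-p2 ≥ 0`, `uw ≥ (α-β-p2)(α-γ-p2)`.
Moreover, with `σ = α+β+γ`: if `σ ≤ y2` (`α ≤ p2`) then `Qd ≥ y2(2U-y2) + y2 σ`, and if `σ ≥ y2`
(`δ := α - p2 ≥ 0`) then `Qd ≥ 2 y2 U` because
`Qd - y2(2U-y2) - y2² = u w + 2βu + 2γw + 4(αβ+αγ+βγ) - δ²` and `u ≥ δ-β`, `w ≥ δ-γ`.
QL4: with `P = p0+p1+p2 = t - 2σ ≤ 1 - t`:
`Qd = (9/4)t² - (9/2)(y0²+y1²+y2²) - (5/2) t P + (3/4) P² + 6 (p0 y0+p1 y1+p2 y2) - 2 (p0²+p1²+p2²)`,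
`p_i² ≤ P p_i`, ... -/


/-- `σ ≤ y2`, i.e. `α ≤ p2`. -/
theorem QLA {p0 p1 p2 α β γ : ℝ} (hα : 0 ≤ α) (hβ : 0 ≤ β) (hγ : 0 ≤ γ)
    (hu : 0 ≤ α + p1 - β - p2) (hw : 0 ≤ α + p0 - γ - p2) (h : α ≤ p2) :
    (p2 + β + γ) * (2 * ((p0 + α + β) + (p1 + α + γ)) - (p2 + β + γ)) +
      (p2 + β + γ) * (α + β + γ) ≤
      Qd (p0 + α + β) (p1 + α + γ) (p2 + β + γ) α β γ := by
  have key : Qd (p0 + α + β) (p1 + α + γ) (p2 + β + γ) α β γ -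
      ((p2 + β + γ) * (2 * ((p0 + α + β) + (p1 + α + γ)) - (p2 + β + γ)) +
      (p2 + β + γ) * (α + β + γ)) =
      (α + p1 - β - p2) * (α + p0 - γ - p2) + 2 * β * (α + p1 - β - p2) +
        2 * γ * (α + p0 - γ - p2) + 3 * α * β + 3 * α * γ + 4 * β * γ +
        α * (p2 - α) + p2 * (β + γ) := by
    unfold Qd; ring
  have hp2 : 0 ≤ p2 := hα.trans h
  have e1 := mul_nonneg hu hw
  have e2 := mul_nonneg hβ hu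
  have e3 := mul_nonneg hγ hw
  have e4 := mul_nonneg hα hβ
  have e5 := mul_nonneg hα hγ
  have e6 := mul_nonneg hβ hγ
  have e7 := mul_nonneg hα (sub_nonneg.2 h)
  have e8 := mul_nonneg hp2 (add_nonneg hβ hγ)
  linarith

/-- `σ ≥ y2`, i.e. `α ≥ p2`. -/
theorem QLB {p0 p1 p2 α β γ : ℝ} (hα : 0 ≤ α) (hβ : 0 ≤ β) (hγ : 0 ≤ γ)
    (hp0 : 0 ≤ p0) (hp1 : 0 ≤ p1) (hp2 : 0 ≤ p2)
    (hu : 0 ≤ α + p1 - β - p2) (hw : 0 ≤ α + p0 - γ - p2) (h : p2 ≤ α) :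
    2 * (p2 + β + γ) * ((p0 + α + β) + (p1 + α + γ)) ≤
      Qd (p0 + α + β) (p1 + α + γ) (p2 + β + γ) α β γ := by
  have key : Qd (p0 + α + β) (p1 + α + γ) (p2 + β + γ) α β γ -
      2 * (p2 + β + γ) * ((p0 + α + β) + (p1 + α + γ)) =
      (α + p1 - β - p2) * (α + p0 - γ - p2) + 2 * (β * (α + p1 - β - p2)) +
        2 * (γ * (α + p0 - γ - p2)) + 4 * (α * β) + 4 * (α * γ) + 4 * (β * γ) -
        (α - p2) ^ 2 := by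
    unfold Qd; ring
  have e1 := mul_nonneg hu hw
  have e2 := mul_nonneg hβ hu
  have e3 := mul_nonneg hγ hw
  have e4 := mul_nonneg hα hβ
  have e5 := mul_nonneg hα hγ
  have e6 := mul_nonneg hβ hγ
  have hδ : 0 ≤ α - p2 := sub_nonneg.2 h
  have hδα : α - p2 ≤ α := by linarith
  rcases le_total (α - p2) β with h1 | h1
  · have : (α - p2) ^ 2 ≤ α * β := by
      calc (α - p2) ^ 2 = (α - p2) * (α - p2) := by ring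
        _ ≤ α * β := mul_le_mul hδα h1 hδ hα
    linarith
  rcases le_total (α - p2) γ with h2 | h2
  · have : (α - p2) ^ 2 ≤ α * γ := by
      calc (α - p2) ^ 2 = (α - p2) * (α - p2) := by ring
        _ ≤ α * γ := mul_le_mul hδα h2 hδ hα
    linarith
  have h3 : (α - p2 - β) * (α - p2 - γ) ≤ (α + p1 - β - p2) * (α + p0 - γ - p2) := by
    apply mul_le_mul <;> linarith
  have h4 : (α - p2) * β ≤ α * β := mul_le_mul_of_nonneg_right hδα hβ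
  have h5 : (α - p2) * γ ≤ α * γ := mul_le_mul_of_nonneg_right hδα hγ
  have h6 : (α - p2 - β) * (α - p2 - γ) =
      (α - p2) ^ 2 - (α - p2) * β - (α - p2) * γ + β * γ := by ring
  linarith

theorem QL1 {y0 y1 y2 α β γ : ℝ} (hα : 0 ≤ α) (hβ : 0 ≤ β) (hγ : 0 ≤ γ)
    (h0 : α + β ≤ y0) (h1 : α + γ ≤ y1) (h2 : β + γ ≤ y2) (h01 : y1 ≤ y0) (h12 : y2 ≤ y1) :
    y2 * (2 * (y0 + y1) - y2) ≤ Qd y0 y1 y2 α β γ := by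
  obtain ⟨p0, rfl⟩ : ∃ p0, y0 = p0 + α + β := ⟨y0 - α - β, by ring⟩
  obtain ⟨p1, rfl⟩ : ∃ p1, y1 = p1 + α + γ := ⟨y1 - α - γ, by ring⟩
  obtain ⟨p2, rfl⟩ : ∃ p2, y2 = p2 + β + γ := ⟨y2 - β - γ, by ring⟩
  have hu : 0 ≤ α + p1 - β - p2 := by linarith
  have hw : 0 ≤ α + p0 - γ - p2 := by linarith
  have hp0 : 0 ≤ p0 := by linarith
  have hp1 : 0 ≤ p1 := by linarith
  have hp2 : 0 ≤ p2 := by linarith
  rcases le_total α p2 with h | h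
  · have := QLA hα hβ hγ hu hw h
    have e1 : 0 ≤ (p2 + β + γ) * (α + β + γ) := by positivity
    linarith
  · have := QLB hα hβ hγ hp0 hp1 hp2 hu hw h
    have e1 : 0 ≤ (p2 + β + γ) * (p2 + β + γ) := by positivity
    linarith

theorem QL2 {y0 y1 y2 α β γ : ℝ} (hα : 0 ≤ α) (hβ : 0 ≤ β) (hγ : 0 ≤ γ)
    (h0 : α + β ≤ y0) (h1 : α + γ ≤ y1) (h2 : β + γ ≤ y2) (h01 : y1 ≤ y0) (h12 : y2 ≤ y1)
    (hs : y0 + y1 + y2 - 1 / 2 ≤ α + β + γ) (hU : y0 + y1 ≤ 1 / 2) :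
    y2 * (3 * (y0 + y1) - 1 / 2) ≤ Qd y0 y1 y2 α β γ := by
  obtain ⟨p0, rfl⟩ : ∃ p0, y0 = p0 + α + β := ⟨y0 - α - β, by ring⟩
  obtain ⟨p1, rfl⟩ : ∃ p1, y1 = p1 + α + γ := ⟨y1 - α - γ, by ring⟩
  obtain ⟨p2, rfl⟩ : ∃ p2, y2 = p2 + β + γ := ⟨y2 - β - γ, by ring⟩
  have hu : 0 ≤ α + p1 - β - p2 := by linarith
  have hw : 0 ≤ α + p0 - γ - p2 := by linarith
  have hp0 : 0 ≤ p0 := by linarith
  have hp1 : 0 ≤ p1 := by linarith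
  have hp2 : 0 ≤ p2 := by linarith
  have hy2 : 0 ≤ p2 + β + γ := by positivity
  rcases le_total α p2 with h | h
  · have := QLA hα hβ hγ hu hw h
    have e1 := mul_le_mul_of_nonneg_left hs hy2
    linarith
  · have := QLB hα hβ hγ hp0 hp1 hp2 hu hw h
    have e1 := mul_le_mul_of_nonneg_left hU hy2
    linarith

theorem QL3 {y0 y1 y2 α β γ : ℝ} (hα : 0 ≤ α) (hβ : 0 ≤ β) (hγ : 0 ≤ γ)
    (h0 : α + β ≤ y0) (h1 : α + γ ≤ y1) (h2 : β + γ ≤ y2) (h01 : y1 ≤ y0) (h12 : y2 ≤ y1)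
    (hs : y0 + y1 + y2 - 1 / 2 ≤ α + β + γ) (hU : 1 / 2 ≤ y0 + y1) :
    2 * y2 * (y0 + y1) ≤ Qd y0 y1 y2 α β γ := by
  obtain ⟨p0, rfl⟩ : ∃ p0, y0 = p0 + α + β := ⟨y0 - α - β, by ring⟩
  obtain ⟨p1, rfl⟩ : ∃ p1, y1 = p1 + α + γ := ⟨y1 - α - γ, by ring⟩
  obtain ⟨p2, rfl⟩ : ∃ p2, y2 = p2 + β + γ := ⟨y2 - β - γ, by ring⟩
  exact QLB hα hβ hγ (by linarith) (by linarith) (by linarith) (by linarith) (by linarith)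
    (by linarith)

theorem QL4 {y0 y1 y2 α β γ : ℝ} (hα : 0 ≤ α) (hβ : 0 ≤ β) (hγ : 0 ≤ γ)
    (h0 : α + β ≤ y0) (h1 : α + γ ≤ y1) (h2 : β + γ ≤ y2) (h01 : y1 ≤ y0) (h12 : y2 ≤ y1)
    (hs : y0 + y1 + y2 - 1 / 2 ≤ α + β + γ) (ht : y0 + y1 + y2 ≤ 1) :
    (9 / 4) * (y0 + y1 + y2) ^ 2 - (9 / 2) * (y0 ^ 2 + y1 ^ 2 + y2 ^ 2) -
      (1 - (y0 + y1 + y2)) * ((5 / 4) * (1 + (y0 + y1 + y2)) - 6 * y2) ≤
      Qd y0 y1 y2 α β γ := by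
  obtain ⟨p0, rfl⟩ : ∃ p0, y0 = p0 + α + β := ⟨y0 - α - β, by ring⟩
  obtain ⟨p1, rfl⟩ : ∃ p1, y1 = p1 + α + γ := ⟨y1 - α - γ, by ring⟩
  obtain ⟨p2, rfl⟩ : ∃ p2, y2 = p2 + β + γ := ⟨y2 - β - γ, by ring⟩
  have hp0 : 0 ≤ p0 := by linarith
  have hp1 : 0 ≤ p1 := by linarith
  have hp2 : 0 ≤ p2 := by linarith
  have hsP : 0 ≤ 1 - (p0 + α + β + (p1 + α + γ) + (p2 + β + γ)) - (p0 + p1 + p2) := by
    linarith
  have hs0 : 0 ≤ 1 - (p0 + α + β + (p1 + α + γ) + (p2 + β + γ)) := by linarith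
  have ht3 : 0 ≤ (p0 + α + β + (p1 + α + γ) + (p2 + β + γ)) - 3 * (p2 + β + γ) := by
    linarith
  have hP : 0 ≤ p0 + p1 + p2 := by positivity
  have key : Qd (p0 + α + β) (p1 + α + γ) (p2 + β + γ) α β γ -
      ((9 / 4) * (p0 + α + β + (p1 + α + γ) + (p2 + β + γ)) ^ 2 -
        (9 / 2) * ((p0 + α + β) ^ 2 + (p1 + α + γ) ^ 2 + (p2 + β + γ) ^ 2) -
        (1 - (p0 + α + β + (p1 + α + γ) + (p2 + β + γ))) *
          ((5 / 4) * (1 + (p0 + α + β + (p1 + α + γ) + (p2 + β + γ))) -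
            6 * (p2 + β + γ))) =
      (1 - (p0 + α + β + (p1 + α + γ) + (p2 + β + γ)) - (p0 + p1 + p2)) *
        (1 / 2 + 3 / 4 * (1 - (p0 + α + β + (p1 + α + γ) + (p2 + β + γ))) +
          5 / 4 * (p0 + p1 + p2)) +
      4 * (p0 * p1 + p0 * p2 + p1 * p2) +
      6 * (p0 * ((p0 + α + β) - (p2 + β + γ)) + p1 * ((p1 + α + γ) - (p2 + β + γ))) +
      2 * ((1 - (p0 + α + β + (p1 + α + γ) + (p2 + β + γ)) - (p0 + p1 + p2)) *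
        ((p0 + α + β + (p1 + α + γ) + (p2 + β + γ)) - 3 * (p2 + β + γ))) := by
    unfold Qd; ring
  have e1 : 0 ≤ (1 - (p0 + α + β + (p1 + α + γ) + (p2 + β + γ)) - (p0 + p1 + p2)) *
        (1 / 2 + 3 / 4 * (1 - (p0 + α + β + (p1 + α + γ) + (p2 + β + γ))) +
          5 / 4 * (p0 + p1 + p2)) := mul_nonneg hsP (by linarith)
  have e2 : 0 ≤ p0 * p1 + p0 * p2 + p1 * p2 := by positivity
  have e3 : 0 ≤ p0 * ((p0 + α + β) - (p2 + β + γ)) := mul_nonneg hp0 (by linarith)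
  have e4 : 0 ≤ p1 * ((p1 + α + γ) - (p2 + β + γ)) := mul_nonneg hp1 (by linarith)
  have e5 := mul_nonneg hsP ht3
  linarith

end Crest.Agent.S0334
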