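import Crest.Statements.S0341
import Crest.Agent.NI_FB
import Crest.Agent.NI_FC

set_option autoImplicit false
open scoped ContDiff
open Crest Crest.GeometryTopology

namespace Crest.Agent.S0341

/-- There is a smooth Riemannian metric on the open square (-1,1)^2 of the Euclidean plane, given as a smooth field g of symmetric positive-definite bilinear forms, such that no open neighbourhood U of the origin inside the square carries a smooth map F to Euclidean three-space with the inner product of dF_x v and dF_x w equal to g_x(v, w) for all x in U and all vectors v, w. In words: no neighbourhood of the origin admits a smooth isometric immersion into three-space. -/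
theorem result :
    ∃ g : EuclideanSpace ℝ (Fin 2) →
        (EuclideanSpace ℝ (Fin 2) →L[ℝ] EuclideanSpace ℝ (Fin 2) →L[ℝ] ℝ),
      ContDiffOn ℝ ∞ g {x : EuclideanSpace ℝ (Fin 2) | ∀ i, x i ∈ Set.Ioo (-1 : ℝ) 1} ∧
      (∀ x ∈ {x : EuclideanSpace ℝ (Fin 2) | ∀ i, x i ∈ Set.Ioo (-1 : ℝ) 1}, ∀ v w, g x v w = g x w v) ∧
      (∀ x ∈ {x : EuclideanSpace ℝ (Fin 2) | ∀ i, x i ∈ Set.Ioo (-1 : ℝ) 1}, ∀ v, v ≠ 0 → 0 < g x v v) ∧
      ∀ U : Set (EuclideanSpace ℝ (Fin 2)), IsOpen U → (0 : EuclideanSpace ℝ (Fin 2)) ∈ U →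
        U ⊆ {x : EuclideanSpace ℝ (Fin 2) | ∀ i, x i ∈ Set.Ioo (-1 : ℝ) 1} →
        ¬ ∃ F : EuclideanSpace ℝ (Fin 2) → EuclideanSpace ℝ (Fin 3), ContDiffOn ℝ ∞ F U ∧
          ∀ x ∈ U, ∀ v w, @inner ℝ (EuclideanSpace ℝ (Fin 3)) _ (fderiv ℝ F x v) (fderiv ℝ F x w)
            = g x v w := by
  obtain ⟨k11, k12, k22, hk, hbad⟩ := NI.bad_metric
  refine ⟨NI.gE k11 k12 k22, (NI.gE_smooth k11 k12 k22).contDiffOn, ?_, ?_, ?_⟩
  · intro x _ v w
    rw [NI.gE_ap, NI.gE_ap]; ring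
  · intro x _ v hv
    exact NI.gE_pos k11 k12 k22 hk x v hv
  · intro U hU h0 _ ⟨F, hF, hi⟩
    obtain ⟨r, hr, G, hG⟩ := NI.local_to_IsomG k11 k12 k22 U hU h0 F hF hi
    exact hbad r hr G hG


end Crest.Agent.S0341
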