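import Crest.Agent.S0358_Defs

/-!
# Task T10a (finite_model) (row S0358): finite models of finite subsets of `L^p`, and change of density

`finite_model`: approximate each `x i` in `L^p` by an `L^p` simple function `s i` with `‖x i - s i‖ ≤ η/2`
(`MeasureTheory.Lp.simpleFunc.denseRange` etc.); `Ω` = the (finite) range of `ω ↦ (s_i ω)_i` in `Fin n → ℝ`
(subtype, `Type`), `m v = (μ (preimage v)).toReal`, `y i v = v i`.  A nonzero vector `v` has preimage of finite
measure (each `s i ∈ L^p`); for `v = 0` the term `|v i - v j|^p` vanishes, so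
`∑_v m v |v i - v j|^p = ∫ |s i - s j|^p = ‖s i - s j‖^p`.

`change_density`: `μ ω = (1/(n(n-1))) ∑_{i≠j} m ω |y i ω - y j ω|^p / (pn p m (y i - y j))^p`, `∑ μ = 1`,
`a i ω = y i ω (m ω/μ ω)^(1/p)` if `μ ω ≠ 0` and `0` otherwise (if `μ ω = 0` all `m ω |y i ω - y j ω|^p = 0`).
Then `μ |a i - a j|^p = m |y i - y j|^p` pointwise and `|a i ω - a j ω|^p ≤ n(n-1) pn^p ≤ n² pn^p`.
-/

set_option autoImplicit false

open scoped BigOperators ENNReal
open MeasureTheory

namespace Crest.Agent.S0358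

universe u

/-- the joint simple function -/
def T10a_joint {α : Type u} [MeasurableSpace α] {n : ℕ} (s : Fin n → SimpleFunc α ℝ) :
    SimpleFunc α (Fin n → ℝ) where
  toFun := fun ω i => s i ω
  measurableSet_fiber' := fun v =>
    (measurable_pi_lambda (fun (ω : α) (i : Fin n) => s i ω) fun i => (s i).measurable)
      (measurableSet_singleton v)
  finite_range' := by
    have h : (Set.range fun (ω : α) (i : Fin n) => s i ω) ⊆
        Set.pi Set.univ (fun i => Set.range (s i)) := by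
      rintro _ ⟨ω, rfl⟩ i _
      exact ⟨ω, rfl⟩
    exact (Set.Finite.pi' fun i => (s i).finite_range).subset (by
      refine h.trans ?_
      intro v hv i
      exact hv i (Set.mem_univ i))

theorem T10a_simple (p : ℝ≥0∞) (hp1 : 1 ≤ p) (hp : p ≠ ⊤) {α : Type u} [MeasurableSpace α]
    (μ : Measure α) (n : ℕ) (s : Fin n → SimpleFunc α ℝ) (hs : ∀ i, MemLp (s i) p μ) :
    ∃ (Ω : Type) (_ : Fintype Ω) (m : Ω → ℝ) (y : Fin n → Ω → ℝ), (∀ ω, 0 ≤ m ω) ∧
      ∀ i j, pn p.toReal m (fun ω => y i ω - y j ω) =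
        (eLpNorm (fun ω => s i ω - s j ω) p μ).toReal := by
  have hp0 : p ≠ 0 := fun h => by rw [h] at hp1; exact absurd hp1 (by simp)
  have hpr : 0 < p.toReal := ENNReal.toReal_pos hp0 hp
  set G := T10a_joint s with hG
  refine ⟨{v // v ∈ G.range}, inferInstance, fun v => (μ (G ⁻¹' {v.1})).toReal,
    fun i v => v.1 i, fun v => ENNReal.toReal_nonneg, ?_⟩
  intro i j
  have e1 : eLpNorm (fun ω => s i ω - s j ω) p μ =
      (∑ v ∈ G.range, ‖v i - v j‖ₑ ^ p.toReal * μ (G ⁻¹' {v})) ^ (1 / p.toReal) := by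
    rw [eLpNorm_eq_lintegral_rpow_enorm_toReal hp0 hp]
    congr 1
    have : (fun ω => ‖s i ω - s j ω‖ₑ ^ p.toReal) =
        (G.map fun v => ‖v i - v j‖ₑ ^ p.toReal) := by
      funext ω
      rfl
    rw [this, SimpleFunc.lintegral_eq_lintegral, SimpleFunc.map_lintegral]
  have hfin : ∀ v ∈ G.range, ‖v i - v j‖ₑ ^ p.toReal * μ (G ⁻¹' {v}) ≠ ⊤ := by
    intro v _
    by_cases hv : v i = v j
    · rw [hv, sub_self, enorm_zero, ENNReal.zero_rpow_of_pos hpr, zero_mul]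
      exact ENNReal.zero_ne_top
    · refine ENNReal.mul_ne_top (ENNReal.rpow_ne_top_of_nonneg hpr.le enorm_ne_top) ?_
      obtain ⟨k, hk⟩ : ∃ k, v k ≠ 0 := by
        by_contra h
        push Not at h
        exact hv (by rw [h i, h j])
      refine ne_of_lt (lt_of_le_of_lt (measure_mono ?_)
        (SimpleFunc.measure_preimage_lt_top_of_memLp hp0 hp (s k) (hs k) (v k) hk))
      intro ω hω
      have : G ω = v := hω
      rw [← this]
      rfl
  rw [e1, ← ENNReal.toReal_rpow, ENNReal.toReal_sum hfin, pn]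
  congr 1
  rw [← Finset.sum_coe_sort G.range]
  refine Finset.sum_congr rfl fun v _ => ?_
  rw [ENNReal.toReal_mul, ← ENNReal.toReal_rpow, toReal_enorm, Real.norm_eq_abs, mul_comm]

theorem finite_model (p : ℝ≥0∞) [Fact (1 ≤ p)] (hp : p ≠ ⊤) {α : Type u} [MeasurableSpace α]
    (μ : Measure α) (n : ℕ) (x : Fin n → Lp ℝ p μ) (η : ℝ) (hη : 0 < η) :
    ∃ (Ω : Type) (_ : Fintype Ω) (m : Ω → ℝ) (y : Fin n → Ω → ℝ), (∀ ω, 0 ≤ m ω) ∧
      ∀ i j, |pn p.toReal m (fun ω => y i ω - y j ω) - ‖x i - x j‖| ≤ η := by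
  have hp1 : 1 ≤ p := Fact.out
  have hS : ∀ i, ∃ S : Lp.simpleFunc ℝ p μ, dist (x i) (S : Lp ℝ p μ) < η / 2 := by
    intro i
    exact (Lp.simpleFunc.denseRange (E := ℝ) (μ := μ) hp).exists_dist_lt (x i) (by positivity)
  choose S hS using hS
  obtain ⟨Ω, hΩ, m, y, hm, hy⟩ := T10a_simple p hp1 hp μ n
    (fun i => Lp.simpleFunc.toSimpleFunc (S i)) (fun i => Lp.simpleFunc.memLp (S i))
  refine ⟨Ω, hΩ, m, y, hm, ?_⟩
  intro i j
  rw [hy i j]
  have e : (eLpNorm (fun ω => Lp.simpleFunc.toSimpleFunc (S i) ω -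
      Lp.simpleFunc.toSimpleFunc (S j) ω) p μ).toReal = ‖(S i : Lp ℝ p μ) - (S j : Lp ℝ p μ)‖ := by
    rw [Lp.norm_def]
    congr 1
    refine eLpNorm_congr_ae ?_
    filter_upwards [Lp.simpleFunc.toSimpleFunc_eq_toFun (S i),
      Lp.simpleFunc.toSimpleFunc_eq_toFun (S j),
      Lp.coeFn_sub (S i : Lp ℝ p μ) (S j : Lp ℝ p μ)] with ω h1 h2 h3
    rw [h3, Pi.sub_apply, h1, h2]
  rw [e]
  refine (abs_norm_sub_norm_le _ _).trans ?_
  have : (S i : Lp ℝ p μ) - (S j : Lp ℝ p μ) - (x i - x j) =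
      -((x i - (S i : Lp ℝ p μ)) - (x j - (S j : Lp ℝ p μ))) := by abel
  rw [this, norm_neg]
  refine (norm_sub_le _ _).trans ?_
  have h1 := hS i
  have h2 := hS j
  rw [dist_eq_norm] at h1 h2
  linarith

end Crest.Agent.S0358
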