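import Crest.Agent.S0358_Defs

/-!
# Task T10b (change_density) (row S0358): finite models of finite subsets of `L^p`, and change of density

`finite_model`: approximate each `x i` in `L^p` by an `L^p` simple function `s i` with `‖x i - s i‖ ≤ η/2`
(`MeasureTheory.Lp.simpleFunc.denseRange` etc.); `Ω` = the (finite) range of `ω ↦ (s_i ω)_i` in `Fin n → ℝ`
(subtype, `Type`), `m v = (μ (preimage v)).toReal`, `y i v = v i`.  A nonzero vector `v` has preimage of finite
measure (each `s i ∈ L^p`); for `v = 0` the term `|v i - v j|^p` vanishes, so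
`∑_v m v |v i - v j|^p = ∫ |s i - s j|^p = ‖s i - s j‖^p`.

`change_density`: `μ ω = (1/(n(n-1))) ∑_{i≠j} m ω |y i ω - y j ω|^p / (pn p m (y i - y j))^p`, `∑ μ = 1`,
`a i ω = y i ω (m ω/μ ω)^(1/p)` if `μ ω ≠ 0` and `0` otherwise (if `μ ω = 0` all `m ω |y i ω - y j ω|^p = 0`).
Then `μ |a i - a j|^p = m |y i - y j|^p` pointwise and `|a i ω - a j ω|^p ≤ n(n-1) pn^p ≤ n² pn^p`.
-/

set_option autoImplicit false

open scoped BigOperators ENNReal
open MeasureTheory

namespace Crest.Agent.S0358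

theorem change_density (p : ℝ) (hp : 1 ≤ p) (n : ℕ) (hn : 2 ≤ n) {Ω : Type} [Fintype Ω]
    (m : Ω → ℝ) (hm : ∀ ω, 0 ≤ m ω) (y : Fin n → Ω → ℝ)
    (hpos : ∀ i j, i ≠ j → 0 < pn p m (fun ω => y i ω - y j ω)) :
    ∃ (μ : Ω → ℝ) (a : Fin n → Ω → ℝ), (∀ ω, 0 ≤ μ ω) ∧ ∑ ω, μ ω = 1 ∧
      (∀ i j, pn p μ (fun ω => a i ω - a j ω) = pn p m (fun ω => y i ω - y j ω)) ∧
      ∀ i j ω, |a i ω - a j ω| ≤ (n : ℝ) ^ (2 / p) * pn p m (fun ω => y i ω - y j ω) := by
  classical
  have hp0 : 0 < p := by linarith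
  have hn' : (2 : ℝ) ≤ n := by exact_mod_cast hn
  set P : Fin n → Fin n → ℝ := fun i j => pn p m (fun ω => y i ω - y j ω) with hP
  have hP0 : ∀ i j, 0 ≤ P i j := fun i j => pn_nonneg hm _
  set N : ℝ := (n : ℝ) * ((n : ℝ) - 1) with hN
  have hN0 : 0 < N := by
    rw [hN]; exact mul_pos (by linarith) (by linarith)
  set T : Fin n → Fin n → Ω → ℝ := fun i j ω => m ω * |y i ω - y j ω| ^ p / P i j ^ p with hT
  have hT0 : ∀ i j ω, 0 ≤ T i j ω := fun i j ω =>
    div_nonneg (mul_nonneg (hm ω) (Real.rpow_nonneg (abs_nonneg _) _))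
      (Real.rpow_nonneg (hP0 i j) _)
  have hTs : ∀ i j, ∑ ω, T i j ω = if i = j then 0 else 1 := by
    intro i j
    split_ifs with h
    · subst h
      refine Finset.sum_eq_zero fun ω _ => ?_
      simp [hT, Real.zero_rpow hp0.ne']
    · have h1 : ∑ ω, T i j ω = (∑ ω, m ω * |y i ω - y j ω| ^ p) / P i j ^ p := by
        rw [Finset.sum_div]
      rw [h1, ← pn_rpow hp0 hm]
      exact div_self (Real.rpow_pos_of_pos (hpos i j h) p).ne'
  set μ : Ω → ℝ := fun ω => (∑ i, ∑ j, T i j ω) / N with hμ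
  have hμ0 : ∀ ω, 0 ≤ μ ω := fun ω => div_nonneg
    (Finset.sum_nonneg fun i _ => Finset.sum_nonneg fun j _ => hT0 i j ω) hN0.le
  have hle : ∀ i j ω, T i j ω ≤ N * μ ω := by
    intro i j ω
    have : N * μ ω = ∑ i, ∑ j, T i j ω := by
      rw [hμ]; field_simp
    rw [this]
    exact (Finset.single_le_sum (fun j _ => hT0 i j ω) (Finset.mem_univ j)).trans
      (Finset.single_le_sum (f := fun i => ∑ j, T i j ω)
        (fun i _ => Finset.sum_nonneg fun j _ => hT0 i j ω) (Finset.mem_univ i))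
  set a : Fin n → Ω → ℝ := fun i ω =>
    if μ ω = 0 then 0 else y i ω * (m ω / μ ω) ^ (1 / p) with ha
  have hroot : ∀ x : ℝ, 0 ≤ x → (x ^ (1 / p)) ^ p = x := by
    intro x hx
    rw [← Real.rpow_mul hx, one_div, inv_mul_cancel₀ hp0.ne', Real.rpow_one]
  have hzero : ∀ i j ω, μ ω = 0 → m ω * |y i ω - y j ω| ^ p = 0 := by
    intro i j ω h
    by_cases hij : i = j
    · subst hij; simp [Real.zero_rpow hp0.ne']
    · have h1 := hle i j ω
      rw [h, mul_zero] at h1
      have h2 : T i j ω = 0 := le_antisymm h1 (hT0 i j ω)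
      rw [hT] at h2
      simp only at h2
      rcases div_eq_zero_iff.1 h2 with h3 | h3
      · exact h3
      · exact absurd h3 (Real.rpow_pos_of_pos (hpos i j hij) p).ne'
  have hdiff : ∀ i j ω, μ ω ≠ 0 → |a i ω - a j ω| ^ p = |y i ω - y j ω| ^ p * (m ω / μ ω) := by
    intro i j ω h
    have : a i ω - a j ω = (y i ω - y j ω) * (m ω / μ ω) ^ (1 / p) := by
      simp only [ha, if_neg h]; ring
    have h0 : 0 ≤ m ω / μ ω := div_nonneg (hm ω) (hμ0 ω)
    rw [this, abs_mul, Real.mul_rpow (abs_nonneg _) (abs_nonneg _),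
      abs_of_nonneg (Real.rpow_nonneg h0 _), hroot _ h0]
  refine ⟨μ, a, hμ0, ?_, ?_, ?_⟩
  · have : ∑ ω, μ ω = (∑ i : Fin n, ∑ j : Fin n, ∑ ω, T i j ω) / N := by
      rw [hμ, ← Finset.sum_div]
      congr 1
      rw [Finset.sum_comm]
      refine Finset.sum_congr rfl fun i _ => ?_
      rw [Finset.sum_comm]
    rw [this]
    simp only [hTs]
    have h1 : ∀ i : Fin n, (∑ j : Fin n, (if i = j then (0 : ℝ) else 1)) = (n : ℝ) - 1 := by
      intro i
      have : ∀ j : Fin n, (if i = j then (0 : ℝ) else 1) = 1 - (if i = j then 1 else 0) := by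
        intro j; split_ifs <;> simp
      simp only [this]
      rw [Finset.sum_sub_distrib]
      simp
    simp only [h1]
    rw [Finset.sum_const, Finset.card_univ, Fintype.card_fin, nsmul_eq_mul, ← hN]
    exact div_self hN0.ne'
  · intro i j
    unfold pn
    congr 1
    refine Finset.sum_congr rfl fun ω _ => ?_
    by_cases h : μ ω = 0
    · rw [h, zero_mul, hzero i j ω h]
    · rw [hdiff i j ω h]
      field_simp
  · intro i j ω
    have hnn : 0 ≤ (n : ℝ) ^ (2 / p) * P i j := mul_nonneg (Real.rpow_nonneg (by positivity) _)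
      (hP0 i j)
    by_cases h : μ ω = 0
    · simp only [ha, if_pos h, sub_zero, abs_zero]
      exact hnn
    · have hμp : 0 < μ ω := lt_of_le_of_ne (hμ0 ω) (Ne.symm h)
      refine (Real.rpow_le_rpow_iff (abs_nonneg _) hnn hp0).1 ?_
      rw [hdiff i j ω h, Real.mul_rpow (Real.rpow_nonneg (by positivity) _) (hP0 i j),
        ← Real.rpow_mul (by positivity : (0 : ℝ) ≤ n), div_mul_cancel₀ _ hp0.ne']
      by_cases hij : i = j
      · subst hij
        rw [sub_self, abs_zero, Real.zero_rpow hp0.ne', zero_mul]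
        exact mul_nonneg (Real.rpow_nonneg (by positivity) _) (Real.rpow_nonneg (hP0 i i) _)
      · have hPp : 0 < P i j ^ p := Real.rpow_pos_of_pos (hpos i j hij) p
        have h1 := hle i j ω
        rw [hT] at h1
        simp only at h1
        rw [div_le_iff₀ hPp] at h1
        have h2 : |y i ω - y j ω| ^ p * (m ω / μ ω) ≤ N * P i j ^ p := by
          rw [mul_div_assoc', div_le_iff₀ hμp]
          calc |y i ω - y j ω| ^ p * m ω = m ω * |y i ω - y j ω| ^ p := by ring
            _ ≤ N * μ ω * P i j ^ p := h1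
            _ = N * P i j ^ p * μ ω := by ring
        refine h2.trans (mul_le_mul_of_nonneg_right ?_ hPp.le)
        rw [hN, Real.rpow_two]
        nlinarith

end Crest.Agent.S0358
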