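import Crest.Agent.S0358_Defs

/-!
# Task T5a (analysis_gt) (row S0358): analysis bounds (shell energies)

Fix `p`.  Write `b = bb S.M V τ ω`, `ℓ = lev b (w τ)`; if `b ≠ 0` then `w τ > 0` (since `|b| ≤ ...`, `M_le`)
and `2^ℓ w ≤ |b| < 2^(ℓ+1) w`  (`Int.zpow_log_le_self`, `Int.lt_zpow_succ_log_self`).

`analysis_gt` (`p > 2`).  On shell `ℓ`: `b = b' + b''`, `b' = ∑_e M V 1[|V| ≤ 2^(ℓ-1)]`, so
`|b'| ≤ w 2^(ℓ-1) ≤ |b|/2`, `|b| ≤ 2|b''|`, and by `A2` (for every `ω`)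
`∑_τ lam b² 1[lev = ℓ] ≤ 4 ∑_τ lam b''² ≤ 8 ∑_e g V² 1[|V| > 2^(ℓ-1)]`.  Now
`∑_{ℓ : 2^(ℓ-1) < |V|} 2^(ℓ(p-2)) ≤ C_p |V|^(p-2)` (geometric) and `∑_e g ∑_ω μ |V|^p ≤ 1`.

`analysis_lt` (`1 < p < 2`, `κ ≥ 1`).  With `𝒱_ℓ = ∑_ω μ ∑_τ lam w² 1[b ≠ 0, lev = ℓ]` the two quantities are
`≤ 4·4^ℓ 𝒱_ℓ` and `≤ 2·2^ℓ 𝒱_ℓ`, so it is enough that `∑_ℓ 2^(ℓp) 𝒱_ℓ ≤ C_p κ^(2-p)`.
Cut `V` at `κ 2^ℓ`: `b = b' + b''` (`b'` = part with `|V| ≤ κ 2^ℓ`).  On the shell `2^ℓ w ≤ |b|`, so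
`|b'| ≥ 2^(ℓ-1) w` or `|b''| ≥ 2^(ℓ-1) w`; hence `lam w² 1[..] ≤ lam b'² 4^(1-ℓ) + lam w |b''| 2^(1-ℓ)`.
First part: `A2` and `∑_{ℓ : 2^ℓ ≥ |V|/κ} 2^(-ℓ(2-p)) ≤ C_p (|V|/κ)^(p-2)` give `C_p κ^(2-p) ∑ g μ |V|^p`.
Second part: `|b''| ≤ ∑_e |M τ e| |V| 1[|V| > κ 2^ℓ]` and `∑_{ℓ : 2^ℓ < |V|/κ} 2^(ℓ(p-1)) ≤ C_p (|V|/κ)^(p-1)` give
`C_p κ^(1-p) ∑_τ lam w ∑_e |M τ e| ∑_ω μ |V e ω|^p ≤ C_p κ^(1-p) ∑ lam w² ≤ C_p κ^(2-p)`.
-/

set_option autoImplicit false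

open scoped BigOperators

namespace Crest.Agent.S0358

theorem T5a_geo_up (r : ℝ) (hr : 0 < r) (x : ℝ) (hx : 0 < x) (s : Finset ℤ)
    (hs : ∀ l ∈ s, (2 : ℝ) ^ (l : ℝ) ≤ x) :
    ∑ l ∈ s, (2 : ℝ) ^ ((l : ℝ) * r) ≤ x ^ r / (1 - 2 ^ (-r)) := by
  set q : ℝ := (2 : ℝ) ^ (-r) with hq
  have hq0 : 0 < q := Real.rpow_pos_of_pos two_pos _
  have hq1 : q < 1 := Real.rpow_lt_one_of_one_lt_of_neg one_lt_two (by linarith)
  have hq1' : 0 < 1 - q := by linarith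
  rcases s.eq_empty_or_nonempty with rfl | hne
  · simp only [Finset.sum_empty]
    positivity
  set m := s.max' hne
  have hm : (2 : ℝ) ^ (m : ℝ) ≤ x := hs m (s.max'_mem hne)
  have hle : ∀ l ∈ s, l ≤ m := fun l hl => s.le_max' l hl
  have h1 : ∀ l ∈ s, (2 : ℝ) ^ ((l : ℝ) * r) = ((2 : ℝ) ^ (m : ℝ)) ^ r * q ^ (m - l).toNat := by
    intro l hl
    rw [← Real.rpow_mul two_pos.le, hq, ← Real.rpow_natCast, ← Real.rpow_mul two_pos.le,
      ← Real.rpow_add two_pos]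
    congr 1
    have : (((m - l).toNat : ℕ) : ℝ) = (m : ℝ) - l := by
      have h2 : (((m - l).toNat : ℕ) : ℤ) = m - l := Int.toNat_of_nonneg (by have := hle l hl; omega)
      have h3 : ((((m - l).toNat : ℕ) : ℤ) : ℝ) = ((m - l : ℤ) : ℝ) := by rw [h2]
      push_cast at h3
      exact h3
    rw [this]
    ring
  rw [Finset.sum_congr rfl h1, ← Finset.mul_sum]
  have h2 : ∑ l ∈ s, q ^ (m - l).toNat ≤ (1 - q)⁻¹ := by
    have h3 : ∑ l ∈ s, q ^ (m - l).toNat = ∑ k ∈ s.image (fun l => (m - l).toNat), q ^ k := by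
      rw [Finset.sum_image]
      intro l hl l' hl' h
      have e1 := hle l hl
      have e2 := hle l' hl'
      simp only at h
      omega
    rw [h3, ← tsum_geometric_of_lt_one hq0.le hq1]
    exact (summable_geometric_of_lt_one hq0.le hq1).sum_le_tsum _
      (fun k _ => pow_nonneg hq0.le k)
  have h4 : ((2 : ℝ) ^ (m : ℝ)) ^ r ≤ x ^ r :=
    Real.rpow_le_rpow (Real.rpow_nonneg two_pos.le _) hm hr.le
  rw [div_eq_mul_inv]
  exact mul_le_mul h4 h2 (Finset.sum_nonneg fun _ _ => pow_nonneg hq0.le _)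
    (Real.rpow_nonneg hx.le _)

theorem T5a_geo_down (r : ℝ) (hr : 0 < r) (x : ℝ) (hx : 0 < x) (s : Finset ℤ)
    (hs : ∀ l ∈ s, x ≤ (2 : ℝ) ^ (l : ℝ)) :
    ∑ l ∈ s, (2 : ℝ) ^ (-((l : ℝ) * r)) ≤ x ^ (-r) / (1 - 2 ^ (-r)) := by
  have h := T5a_geo_up r hr x⁻¹ (inv_pos.2 hx) (s.image (fun l => -l)) (by
    intro l hl
    rw [Finset.mem_image] at hl
    obtain ⟨l', hl', rfl⟩ := hl
    push_cast
    rw [Real.rpow_neg two_pos.le]
    exact inv_anti₀ hx (hs l' hl'))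
  rw [Finset.sum_image (fun a _ b _ h => neg_injective h)] at h
  rw [Real.inv_rpow hx.le, ← Real.rpow_neg hx.le] at h
  convert h using 3
  push_cast
  ring

theorem T5a_w_pos {E 𝒯 Ω : Type} [Fintype E] [Fintype 𝒯] [Fintype Ω] {g : E → ℝ} {κ : ℝ}
    (S : Sys E 𝒯 g κ) (V : E → Ω → ℝ) (τ : 𝒯) (ω : Ω) (hb : bb S.M V τ ω ≠ 0) :
    0 < S.w τ := by
  rcases lt_or_eq_of_le (S.w_nonneg τ) with h | h
  · exact h
  · exfalso
    apply hb
    have h1 := S.M_le τ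
    rw [← h] at h1
    have h2 : ∀ e, |S.M τ e| = 0 := by
      intro e
      have := Finset.sum_eq_zero_iff_of_nonneg (s := Finset.univ) (f := fun e => |S.M τ e|)
        (fun e _ => abs_nonneg _)
      exact (this.1 (le_antisymm h1 (Finset.sum_nonneg fun e _ => abs_nonneg _))) e
        (Finset.mem_univ e)
    unfold bb
    refine Finset.sum_eq_zero fun e _ => ?_
    rw [abs_eq_zero.1 (h2 e), zero_mul]

/-- lower bound of a coefficient on its shell -/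
theorem T5a_shell_le {b w : ℝ} (hb : b ≠ 0) (hw : 0 < w) {l : ℤ} (hl : lev b w = l) :
    (2 : ℝ) ^ (l : ℝ) * w ≤ |b| := by
  have h1 : 0 < |b| / w := div_pos (abs_pos.2 hb) hw
  have h2 := Int.zpow_log_le_self (b := 2) (by norm_num) h1
  unfold lev at hl
  rw [hl] at h2
  rw [Real.rpow_intCast]
  push_cast at h2
  rwa [le_div_iff₀ hw] at h2

/-- upper bound of a coefficient on its shell -/
theorem T5a_shell_lt {b w : ℝ} (hw : 0 < w) {l : ℤ} (hl : lev b w = l) :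
    |b| < (2 : ℝ) ^ ((l : ℝ) + 1) * w := by
  have h2 := Int.lt_zpow_succ_log_self (b := 2) (by norm_num) (|b| / w)
  unfold lev at hl
  rw [hl] at h2
  have h3 : ((2 : ℝ)) ^ ((l : ℝ) + 1) = (2 : ℝ) ^ (l + 1) := by
    rw [← Real.rpow_intCast]
    push_cast
    rfl
  rw [h3]
  push_cast at h2
  rwa [div_lt_iff₀ hw] at h2

/-- cut-off at level `c` -/
noncomputable def T5a_cut (c : ℝ) (v : ℝ) : ℝ := if c < |v| then v else 0

theorem T5a_cut_sub (c v : ℝ) (hc : 0 ≤ c) : |v - T5a_cut c v| ≤ c := by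
  unfold T5a_cut
  split_ifs with h
  · simpa using hc
  · rw [sub_zero]
    exact not_lt.1 h

theorem T5a_low {E : Type} [Fintype E] (M v : E → ℝ) (w c : ℝ) (hc : 0 ≤ c)
    (hM : ∑ e, |M e| ≤ w) :
    |∑ e, M e * v e - ∑ e, M e * T5a_cut c (v e)| ≤ w * c := by
  rw [← Finset.sum_sub_distrib]
  calc |∑ e, (M e * v e - M e * T5a_cut c (v e))| ≤ ∑ e, |M e * v e - M e * T5a_cut c (v e)| :=
        Finset.abs_sum_le_sum_abs _ _
    _ ≤ ∑ e, |M e| * c := by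
        refine Finset.sum_le_sum fun e _ => ?_
        rw [← mul_sub, abs_mul]
        exact mul_le_mul_of_nonneg_left (T5a_cut_sub c _ hc) (abs_nonneg _)
    _ = (∑ e, |M e|) * c := by rw [Finset.sum_mul]
    _ ≤ w * c := mul_le_mul_of_nonneg_right hM hc

theorem T5a_shell {E 𝒯 Ω : Type} [Fintype E] [Fintype 𝒯] [Fintype Ω] (g : E → ℝ) (κ : ℝ)
    (S : Sys E 𝒯 g κ) (V : E → Ω → ℝ) (l : ℤ) (ω : Ω) :
    ∑ τ, (if lev (bb S.M V τ ω) (S.w τ) = l then S.lam τ * (bb S.M V τ ω) ^ 2 else 0) ≤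
      8 * ∑ e, g e * (T5a_cut ((2 : ℝ) ^ ((l : ℝ) - 1)) (V e ω)) ^ 2 := by
  set c : ℝ := (2 : ℝ) ^ ((l : ℝ) - 1) with hc
  have hc0 : 0 < c := Real.rpow_pos_of_pos two_pos _
  have h1 : ∀ τ, (if lev (bb S.M V τ ω) (S.w τ) = l then S.lam τ * (bb S.M V τ ω) ^ 2 else 0) ≤
      4 * (S.lam τ * (∑ e, S.M τ e * T5a_cut c (V e ω)) ^ 2) := by
    intro τ
    have hlam := S.lam_nonneg τ
    split_ifs with hl
    · by_cases hb : bb S.M V τ ω = 0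
      · rw [hb]
        have : 0 ≤ 4 * (S.lam τ * (∑ e, S.M τ e * T5a_cut c (V e ω)) ^ 2) := by positivity
        simpa using this
      · have hw := T5a_w_pos S V τ ω hb
        have h2 := T5a_shell_le hb hw hl
        have h3 := T5a_low (S.M τ) (fun e => V e ω) (S.w τ) c hc0.le (S.M_le τ)
        have h4 : (2 : ℝ) ^ (l : ℝ) = 2 * c := by
          rw [hc, Real.rpow_sub two_pos, Real.rpow_one]
          ring
        have h5 : |bb S.M V τ ω| ≤ 2 * |∑ e, S.M τ e * T5a_cut c (V e ω)| := by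
          have h6 : |bb S.M V τ ω - ∑ e, S.M τ e * T5a_cut c (V e ω)| ≤ S.w τ * c := h3
          have h7 : |bb S.M V τ ω| - |∑ e, S.M τ e * T5a_cut c (V e ω)| ≤
              |bb S.M V τ ω - ∑ e, S.M τ e * T5a_cut c (V e ω)| := abs_sub_abs_le_abs_sub _ _
          rw [h4] at h2
          nlinarith
        have h8 : (bb S.M V τ ω) ^ 2 ≤ 4 * (∑ e, S.M τ e * T5a_cut c (V e ω)) ^ 2 := by
          rw [← sq_abs (bb S.M V τ ω), ← sq_abs (∑ e, S.M τ e * T5a_cut c (V e ω))]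
          nlinarith [abs_nonneg (bb S.M V τ ω), abs_nonneg (∑ e, S.M τ e * T5a_cut c (V e ω))]
        calc S.lam τ * (bb S.M V τ ω) ^ 2 ≤ S.lam τ * (4 * (∑ e, S.M τ e * T5a_cut c (V e ω)) ^ 2) :=
              mul_le_mul_of_nonneg_left h8 hlam
          _ = _ := by ring
    · positivity
  calc ∑ τ, (if lev (bb S.M V τ ω) (S.w τ) = l then S.lam τ * (bb S.M V τ ω) ^ 2 else 0)
      ≤ ∑ τ, 4 * (S.lam τ * (∑ e, S.M τ e * T5a_cut c (V e ω)) ^ 2) :=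
        Finset.sum_le_sum fun τ _ => h1 τ
    _ = 4 * ∑ τ, S.lam τ * (∑ e, S.M τ e * T5a_cut c (V e ω)) ^ 2 := by rw [Finset.mul_sum]
    _ ≤ 4 * (2 * ∑ e, g e * (T5a_cut c (V e ω)) ^ 2) :=
        mul_le_mul_of_nonneg_left (S.A2 _) (by norm_num)
    _ = _ := by ring

theorem T5a_reorder {E Ω : Type} [Fintype E] [Fintype Ω] (s : Finset ℤ) (a : ℤ → ℝ)
    (μ : Ω → ℝ) (g : E → ℝ) (f : ℤ → E → Ω → ℝ) :
    ∑ l ∈ s, a l * ∑ ω, μ ω * (8 * ∑ e, g e * f l e ω) =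
      ∑ e, ∑ ω, 8 * (g e * (μ ω * ∑ l ∈ s, a l * f l e ω)) := by
  have h1 : ∑ l ∈ s, a l * ∑ ω, μ ω * (8 * ∑ e, g e * f l e ω) =
      ∑ l ∈ s, ∑ e, ∑ ω, 8 * (g e * (μ ω * (a l * f l e ω))) := by
    refine Finset.sum_congr rfl fun l _ => ?_
    rw [Finset.sum_comm, Finset.mul_sum]
    refine Finset.sum_congr rfl fun ω _ => ?_
    rw [Finset.mul_sum, Finset.mul_sum, Finset.mul_sum]
    refine Finset.sum_congr rfl fun e _ => ?_
    ring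
  rw [h1, Finset.sum_comm]
  refine Finset.sum_congr rfl fun e _ => ?_
  rw [Finset.sum_comm]
  refine Finset.sum_congr rfl fun ω _ => ?_
  simp only [Finset.mul_sum]

theorem analysis_gt (p : ℝ) (hp : 2 < p) : ∃ C : ℝ, 0 ≤ C ∧
    ∀ {E 𝒯 Ω : Type} [Fintype E] [Fintype 𝒯] [Fintype Ω] (g : E → ℝ) (_ : ∀ e, 0 ≤ g e)
      (_ : ∑ e, g e ≤ 1) (κ : ℝ) (S : Sys E 𝒯 g κ) (μ : Ω → ℝ) (_ : ∀ ω, 0 ≤ μ ω)
      (V : E → Ω → ℝ) (_ : ∀ e, ∑ ω, μ ω * |V e ω| ^ p ≤ 1) (s : Finset ℤ),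
      ∑ l ∈ s, (2 : ℝ) ^ ((l : ℝ) * (p - 2)) * ∑ ω, μ ω * ∑ τ,
        (if lev (bb S.M V τ ω) (S.w τ) = l then S.lam τ * (bb S.M V τ ω) ^ 2 else 0) ≤ C := by
  set r : ℝ := p - 2 with hr
  have hr0 : 0 < r := by linarith
  set q : ℝ := 1 - (2 : ℝ) ^ (-r) with hq
  have hq0 : 0 < q := by
    have : (2 : ℝ) ^ (-r) < 1 := Real.rpow_lt_one_of_one_lt_of_neg one_lt_two (by linarith)
    linarith
  have h2r : 0 < (2 : ℝ) ^ r := Real.rpow_pos_of_pos two_pos _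
  refine ⟨8 * (2 ^ r / q), by positivity, ?_⟩
  intro E 𝒯 Ω _ _ _ g hg hg1 κ S μ hμ V hV s
  -- pointwise geometric estimate
  have hgeo : ∀ v : ℝ, ∑ l ∈ s, (2 : ℝ) ^ ((l : ℝ) * r) * (T5a_cut ((2 : ℝ) ^ ((l : ℝ) - 1)) v) ^ 2
      ≤ 2 ^ r / q * |v| ^ p := by
    intro v
    by_cases hv : v = 0
    · subst hv
      have : ∀ c : ℝ, T5a_cut c 0 = 0 := by intro c; unfold T5a_cut; split_ifs <;> rfl
      simp only [this]
      have : 0 ≤ 2 ^ r / q * |(0:ℝ)| ^ p := by positivity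
      simpa using this
    · have hv0 : 0 < |v| := abs_pos.2 hv
      have h1 : ∑ l ∈ s, (2 : ℝ) ^ ((l : ℝ) * r) * (T5a_cut ((2 : ℝ) ^ ((l : ℝ) - 1)) v) ^ 2 =
          ∑ l ∈ s.filter (fun l : ℤ => (2 : ℝ) ^ ((l : ℝ) - 1) < |v|),
            (2 : ℝ) ^ ((l : ℝ) * r) * v ^ 2 := by
        rw [Finset.sum_filter]
        refine Finset.sum_congr rfl fun l _ => ?_
        unfold T5a_cut
        split_ifs <;> simp
      have h2 := T5a_geo_up r hr0 (2 * |v|) (by positivity)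
        (s.filter (fun l : ℤ => (2 : ℝ) ^ ((l : ℝ) - 1) < |v|)) (by
          intro l hl
          have := (Finset.mem_filter.1 hl).2
          rw [Real.rpow_sub two_pos, Real.rpow_one] at this
          linarith)
      rw [h1, ← Finset.sum_mul]
      calc (∑ l ∈ s.filter (fun l : ℤ => (2 : ℝ) ^ ((l : ℝ) - 1) < |v|), (2 : ℝ) ^ ((l : ℝ) * r)) * v ^ 2
          ≤ ((2 * |v|) ^ r / q) * v ^ 2 := mul_le_mul_of_nonneg_right h2 (sq_nonneg _)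
        _ = 2 ^ r / q * |v| ^ p := by
            rw [Real.mul_rpow two_pos.le hv0.le, ← sq_abs v]
            have : |v| ^ p = |v| ^ r * |v| ^ 2 := by
              rw [← Real.rpow_natCast, ← Real.rpow_add hv0]
              congr 1
              push_cast
              linarith
            rw [this]
            ring
  have hq' : 0 ≤ 2 ^ r / q := by positivity
  calc ∑ l ∈ s, (2 : ℝ) ^ ((l : ℝ) * r) * ∑ ω, μ ω * ∑ τ,
        (if lev (bb S.M V τ ω) (S.w τ) = l then S.lam τ * (bb S.M V τ ω) ^ 2 else 0)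
      ≤ ∑ l ∈ s, (2 : ℝ) ^ ((l : ℝ) * r) * ∑ ω, μ ω *
          (8 * ∑ e, g e * (T5a_cut ((2 : ℝ) ^ ((l : ℝ) - 1)) (V e ω)) ^ 2) := by
        refine Finset.sum_le_sum fun l _ => ?_
        refine mul_le_mul_of_nonneg_left ?_ (Real.rpow_nonneg two_pos.le _)
        refine Finset.sum_le_sum fun ω _ => ?_
        exact mul_le_mul_of_nonneg_left (T5a_shell g κ S V l ω) (hμ ω)
    _ = ∑ e, ∑ ω, 8 * (g e * (μ ω * ∑ l ∈ s, (2 : ℝ) ^ ((l : ℝ) * r) *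
          (T5a_cut ((2 : ℝ) ^ ((l : ℝ) - 1)) (V e ω)) ^ 2)) := by
        exact T5a_reorder s (fun l => (2 : ℝ) ^ ((l : ℝ) * r)) μ g
          (fun l e ω => (T5a_cut ((2 : ℝ) ^ ((l : ℝ) - 1)) (V e ω)) ^ 2)
    _ ≤ ∑ e, ∑ ω, 8 * (g e * (μ ω * (2 ^ r / q * |V e ω| ^ p))) := by
        refine Finset.sum_le_sum fun e _ => Finset.sum_le_sum fun ω _ => ?_
        have := hgeo (V e ω)
        have h1 := hg e
        have h2 := hμ ω
        gcongr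
    _ = ∑ e, 8 * (2 ^ r / q) * g e * ∑ ω, μ ω * |V e ω| ^ p := by
        refine Finset.sum_congr rfl fun e _ => ?_
        rw [Finset.mul_sum]
        refine Finset.sum_congr rfl fun ω _ => ?_
        ring
    _ ≤ ∑ e, 8 * (2 ^ r / q) * g e * 1 := by
        refine Finset.sum_le_sum fun e _ => ?_
        have h1 := hg e
        exact mul_le_mul_of_nonneg_left (hV e) (by positivity)
    _ = 8 * (2 ^ r / q) * ∑ e, g e := by
        rw [Finset.mul_sum]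
        refine Finset.sum_congr rfl fun e _ => ?_
        ring
    _ ≤ 8 * (2 ^ r / q) * 1 := mul_le_mul_of_nonneg_left hg1 (by positivity)
    _ = 8 * (2 ^ r / q) := mul_one _

end Crest.Agent.S0358
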