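import Crest.Agent.S0358_T5a

/-!
# Task T5b (analysis_lt) (row S0358): analysis bounds (shell energies)

Fix `p`.  Write `b = bb S.M V τ ω`, `ℓ = lev b (w τ)`; if `b ≠ 0` then `w τ > 0` (since `|b| ≤ ...`, `M_le`)
and `2^ℓ w ≤ |b| < 2^(ℓ+1) w`  (`Int.zpow_log_le_self`, `Int.lt_zpow_succ_log_self`).

`analysis_gt` (`p > 2`).  On shell `ℓ`: `b = b' + b''`, `b' = ∑_e M V 1[|V| ≤ 2^(ℓ-1)]`, so
`|b'| ≤ w 2^(ℓ-1) ≤ |b|/2`, `|b| ≤ 2|b''|`, and by `A2` (for every `ω`)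
`∑_τ lam b² 1[lev = ℓ] ≤ 4 ∑_τ lam b''² ≤ 8 ∑_e g V² 1[|V| > 2^(ℓ-1)]`.  Now
`∑_{ℓ : 2^(ℓ-1) < |V|} 2^(ℓ(p-2)) ≤ C_p |V|^(p-2)` (geometric) and `∑_e g ∑_ω μ |V|^p ≤ 1`.

`analysis_lt` (`1 < p < 2`, `κ ≥ 1`).  With `𝒱_ℓ = ∑_ω μ ∑_τ lam w² 1[b ≠ 0, lev = ℓ]` the two quantities are
`≤ 4·4^ℓ 𝒱_ℓ` and `≤ 2·2^ℓ 𝒱_ℓ`, so it is enough that `∑_ℓ 2^(ℓp) 𝒱_ℓ ≤ C_p κ^(2-p)`.
Cut `V` at `κ 2^ℓ`: `b = b' + b''` (`b'` = part with `|V| ≤ κ 2^ℓ`).  On the shell `2^ℓ w ≤ |b|`, so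
`|b'| ≥ 2^(ℓ-1) w` or `|b''| ≥ 2^(ℓ-1) w`; hence `lam w² 1[..] ≤ lam b'² 4^(1-ℓ) + lam w |b''| 2^(1-ℓ)`.
First part: `A2` and `∑_{ℓ : 2^ℓ ≥ |V|/κ} 2^(-ℓ(2-p)) ≤ C_p (|V|/κ)^(p-2)` give `C_p κ^(2-p) ∑ g μ |V|^p`.
Second part: `|b''| ≤ ∑_e |M τ e| |V| 1[|V| > κ 2^ℓ]` and `∑_{ℓ : 2^ℓ < |V|/κ} 2^(ℓ(p-1)) ≤ C_p (|V|/κ)^(p-1)` give
`C_p κ^(1-p) ∑_τ lam w ∑_e |M τ e| ∑_ω μ |V e ω|^p ≤ C_p κ^(1-p) ∑ lam w² ≤ C_p κ^(2-p)`.
-/

set_option autoImplicit false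

open scoped BigOperators

namespace Crest.Agent.S0358

/-- pointwise inequality on the shell -/
theorem T5b_real {T w b b1 b2 : ℝ} (hT : 0 < T) (hw : 0 < w) (h1 : T * w ≤ |b|)
    (h2 : |b| ≤ 2 * T * w) (hb : b = b1 + b2) :
    b ^ 2 + T * (w * |b|) ≤ 6 * (4 * b1 ^ 2 + 2 * T * (w * |b2|)) := by
  have hTw : 0 < T * w := mul_pos hT hw
  have h3 : b ^ 2 + T * (w * |b|) ≤ 6 * (T * w) ^ 2 := by
    rw [← sq_abs b]
    have : T * (w * |b|) = (T * w) * |b| := by ring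
    rw [this]
    have h5 : 2 * T * w = 2 * (T * w) := by ring
    rw [h5] at h2
    nlinarith [abs_nonneg b]
  have h4 : |b| ≤ |b1| + |b2| := by rw [hb]; exact abs_add_le _ _
  have h6 : (T * w) ^ 2 ≤ 4 * b1 ^ 2 + 2 * T * (w * |b2|) := by
    have e1 : 2 * T * (w * |b2|) = 2 * (T * w) * |b2| := by ring
    rw [e1, ← sq_abs b1]
    rcases le_total (T * w / 2) |b1| with h | h
    · nlinarith [abs_nonneg b1, abs_nonneg b2, mul_nonneg hTw.le (abs_nonneg b2)]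
    · have h7 : T * w / 2 ≤ |b2| := by linarith
      nlinarith [abs_nonneg b1, abs_nonneg b2, sq_nonneg (|b1|)]
  linarith

theorem T5b_point {E 𝒯 Ω : Type} [Fintype E] [Fintype 𝒯] [Fintype Ω] {g : E → ℝ} {κ : ℝ}
    (S : Sys E 𝒯 g κ) (V : E → Ω → ℝ) (p : ℝ) (l : ℤ) (c : ℝ) (τ : 𝒯) (ω : Ω) :
    (2 : ℝ) ^ ((l : ℝ) * (p - 2)) *
        (if lev (bb S.M V τ ω) (S.w τ) = l then S.lam τ * (bb S.M V τ ω) ^ 2 else 0)
      + (2 : ℝ) ^ ((l : ℝ) * (p - 1)) *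
        (if lev (bb S.M V τ ω) (S.w τ) = l then S.lam τ * (S.w τ * |bb S.M V τ ω|) else 0)
      ≤ 24 * ((2 : ℝ) ^ ((l : ℝ) * (p - 2)) *
          (S.lam τ * (∑ e, S.M τ e * (V e ω - T5a_cut c (V e ω))) ^ 2)) +
        12 * ((2 : ℝ) ^ ((l : ℝ) * (p - 1)) *
          (S.lam τ * (S.w τ * ∑ e, |S.M τ e| * |T5a_cut c (V e ω)|))) := by
  have hT : 0 < (2 : ℝ) ^ (l : ℝ) := Real.rpow_pos_of_pos two_pos _
  have hA : 0 < (2 : ℝ) ^ ((l : ℝ) * (p - 2)) := Real.rpow_pos_of_pos two_pos _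
  have hAT : (2 : ℝ) ^ ((l : ℝ) * (p - 1)) = (2 : ℝ) ^ ((l : ℝ) * (p - 2)) * (2 : ℝ) ^ (l : ℝ) := by
    rw [← Real.rpow_add two_pos]
    congr 1
    ring
  rw [hAT]
  have hlam := S.lam_nonneg τ
  have hwn := S.w_nonneg τ
  have hsum : 0 ≤ ∑ e, |S.M τ e| * |T5a_cut c (V e ω)| :=
    Finset.sum_nonneg fun e _ => mul_nonneg (abs_nonneg _) (abs_nonneg _)
  have hR : 0 ≤ 24 * ((2 : ℝ) ^ ((l : ℝ) * (p - 2)) *
          (S.lam τ * (∑ e, S.M τ e * (V e ω - T5a_cut c (V e ω))) ^ 2)) +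
        12 * ((2 : ℝ) ^ ((l : ℝ) * (p - 2)) * (2 : ℝ) ^ (l : ℝ) *
          (S.lam τ * (S.w τ * ∑ e, |S.M τ e| * |T5a_cut c (V e ω)|))) := by positivity
  split_ifs with hl
  · by_cases hb : bb S.M V τ ω = 0
    · rw [hb]
      simpa using hR
    · have hw := T5a_w_pos S V τ ω hb
      have h1 := T5a_shell_le hb hw hl
      have h2 := T5a_shell_lt (b := bb S.M V τ ω) hw hl
      have h2' : |bb S.M V τ ω| ≤ 2 * (2 : ℝ) ^ (l : ℝ) * S.w τ := by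
        rw [Real.rpow_add two_pos, Real.rpow_one] at h2
        linarith
      have hbsum : bb S.M V τ ω = (∑ e, S.M τ e * (V e ω - T5a_cut c (V e ω))) +
          ∑ e, S.M τ e * T5a_cut c (V e ω) := by
        unfold bb
        rw [← Finset.sum_add_distrib]
        refine Finset.sum_congr rfl fun e _ => ?_
        ring
      have h3 := T5b_real hT hw h1 h2' hbsum
      have h4 : |∑ e, S.M τ e * T5a_cut c (V e ω)| ≤ ∑ e, |S.M τ e| * |T5a_cut c (V e ω)| := by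
        refine (Finset.abs_sum_le_sum_abs _ _).trans (le_of_eq ?_)
        refine Finset.sum_congr rfl fun e _ => abs_mul _ _
      have h5 : (bb S.M V τ ω) ^ 2 + (2 : ℝ) ^ (l : ℝ) * (S.w τ * |bb S.M V τ ω|) ≤
          6 * (4 * (∑ e, S.M τ e * (V e ω - T5a_cut c (V e ω))) ^ 2 + 2 * (2 : ℝ) ^ (l : ℝ) *
            (S.w τ * ∑ e, |S.M τ e| * |T5a_cut c (V e ω)|)) := by
        refine h3.trans ?_
        gcongr
      have h6 := mul_le_mul_of_nonneg_left h5 (mul_nonneg hA.le hlam)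
      calc _ = (2 : ℝ) ^ ((l : ℝ) * (p - 2)) * S.lam τ *
            ((bb S.M V τ ω) ^ 2 + (2 : ℝ) ^ (l : ℝ) * (S.w τ * |bb S.M V τ ω|)) := by ring
        _ ≤ _ := h6
        _ = _ := by ring
  · simpa using hR

theorem T5b_reorder1 {E Ω : Type} [Fintype E] [Fintype Ω] (s : Finset ℤ) (a : ℤ → ℝ)
    (μ : Ω → ℝ) (g : E → ℝ) (f : ℤ → E → Ω → ℝ) :
    ∑ l ∈ s, a l * ∑ ω, μ ω * ∑ e, g e * f l e ω =
      ∑ e, g e * ∑ ω, μ ω * ∑ l ∈ s, a l * f l e ω := by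
  have h1 : ∑ l ∈ s, a l * ∑ ω, μ ω * ∑ e, g e * f l e ω =
      ∑ l ∈ s, ∑ e, ∑ ω, g e * (μ ω * (a l * f l e ω)) := by
    refine Finset.sum_congr rfl fun l _ => ?_
    rw [Finset.sum_comm, Finset.mul_sum]
    refine Finset.sum_congr rfl fun ω _ => ?_
    rw [Finset.mul_sum, Finset.mul_sum]
    refine Finset.sum_congr rfl fun e _ => ?_
    ring
  rw [h1, Finset.sum_comm]
  refine Finset.sum_congr rfl fun e _ => ?_
  rw [Finset.sum_comm, Finset.mul_sum]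
  refine Finset.sum_congr rfl fun ω _ => ?_
  simp only [Finset.mul_sum]

/-- first geometric estimate -/
theorem T5b_geo1 (p : ℝ) (hp2 : p < 2) (κ : ℝ) (hκ : 1 ≤ κ) (s : Finset ℤ) (v : ℝ) :
    ∑ l ∈ s, (2 : ℝ) ^ ((l : ℝ) * (p - 2)) * (v - T5a_cut (κ * (2 : ℝ) ^ (l : ℝ)) v) ^ 2 ≤
      κ ^ (2 - p) / (1 - 2 ^ (-(2 - p))) * |v| ^ p := by
  have hκ0 : 0 < κ := by linarith
  have hr0 : 0 < 2 - p := by linarith
  have hq0 : 0 < 1 - (2 : ℝ) ^ (-(2 - p)) := by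
    have : (2 : ℝ) ^ (-(2 - p)) < 1 := Real.rpow_lt_one_of_one_lt_of_neg one_lt_two (by linarith)
    linarith
  by_cases hv : v = 0
  · subst hv
    have : ∀ c : ℝ, T5a_cut c 0 = 0 := by intro c; unfold T5a_cut; split_ifs <;> rfl
    simp only [this]
    have : 0 ≤ κ ^ (2 - p) / (1 - 2 ^ (-(2 - p))) * |(0:ℝ)| ^ p := by positivity
    simpa using this
  · have hv0 : 0 < |v| := abs_pos.2 hv
    have h1 : ∑ l ∈ s, (2 : ℝ) ^ ((l : ℝ) * (p - 2)) *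
          (v - T5a_cut (κ * (2 : ℝ) ^ (l : ℝ)) v) ^ 2 =
        ∑ l ∈ s.filter (fun l : ℤ => |v| ≤ κ * (2 : ℝ) ^ (l : ℝ)),
          (2 : ℝ) ^ (-((l : ℝ) * (2 - p))) * v ^ 2 := by
      rw [Finset.sum_filter]
      refine Finset.sum_congr rfl fun l _ => ?_
      have e1 : (l : ℝ) * (p - 2) = -((l : ℝ) * (2 - p)) := by ring
      rw [e1]
      unfold T5a_cut
      by_cases hc : κ * (2 : ℝ) ^ (l : ℝ) < |v|
      · rw [if_pos hc, if_neg (not_le.2 hc)]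
        simp
      · rw [if_neg hc, if_pos (not_lt.1 hc)]
        simp
    have h2 := T5a_geo_down (2 - p) hr0 (|v| / κ) (by positivity)
      (s.filter (fun l : ℤ => |v| ≤ κ * (2 : ℝ) ^ (l : ℝ))) (by
        intro l hl
        have := (Finset.mem_filter.1 hl).2
        rw [div_le_iff₀ hκ0]
        linarith)
    rw [h1, ← Finset.sum_mul]
    refine (mul_le_mul_of_nonneg_right h2 (sq_nonneg _)).trans (le_of_eq ?_)
    rw [Real.div_rpow hv0.le hκ0.le, ← sq_abs v]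
    have e2 : κ ^ (-(2 - p)) = (κ ^ (2 - p))⁻¹ := Real.rpow_neg hκ0.le _
    have e3 : |v| ^ p = |v| ^ (-(2 - p)) * |v| ^ 2 := by
      rw [← Real.rpow_natCast, ← Real.rpow_add hv0]
      congr 1
      push_cast
      ring
    rw [e2, e3]
    field_simp

/-- second geometric estimate -/
theorem T5b_geo2 (p : ℝ) (hp1 : 1 < p) (κ : ℝ) (hκ : 1 ≤ κ) (s : Finset ℤ) (v : ℝ) :
    ∑ l ∈ s, (2 : ℝ) ^ ((l : ℝ) * (p - 1)) * |T5a_cut (κ * (2 : ℝ) ^ (l : ℝ)) v| ≤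
      κ ^ (1 - p) / (1 - 2 ^ (-(p - 1))) * |v| ^ p := by
  have hκ0 : 0 < κ := by linarith
  have hr0 : 0 < p - 1 := by linarith
  have hq0 : 0 < 1 - (2 : ℝ) ^ (-(p - 1)) := by
    have : (2 : ℝ) ^ (-(p - 1)) < 1 := Real.rpow_lt_one_of_one_lt_of_neg one_lt_two (by linarith)
    linarith
  by_cases hv : v = 0
  · subst hv
    have : ∀ c : ℝ, T5a_cut c 0 = 0 := by intro c; unfold T5a_cut; split_ifs <;> rfl
    simp only [this]
    have : 0 ≤ κ ^ (1 - p) / (1 - 2 ^ (-(p - 1))) * |(0:ℝ)| ^ p := by positivity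
    simpa using this
  · have hv0 : 0 < |v| := abs_pos.2 hv
    have h1 : ∑ l ∈ s, (2 : ℝ) ^ ((l : ℝ) * (p - 1)) * |T5a_cut (κ * (2 : ℝ) ^ (l : ℝ)) v| =
        ∑ l ∈ s.filter (fun l : ℤ => κ * (2 : ℝ) ^ (l : ℝ) < |v|),
          (2 : ℝ) ^ ((l : ℝ) * (p - 1)) * |v| := by
      rw [Finset.sum_filter]
      refine Finset.sum_congr rfl fun l _ => ?_
      unfold T5a_cut
      split_ifs <;> simp
    have h2 := T5a_geo_up (p - 1) hr0 (|v| / κ) (by positivity)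
      (s.filter (fun l : ℤ => κ * (2 : ℝ) ^ (l : ℝ) < |v|)) (by
        intro l hl
        have := (Finset.mem_filter.1 hl).2
        rw [le_div_iff₀ hκ0]
        linarith)
    rw [h1, ← Finset.sum_mul]
    refine (mul_le_mul_of_nonneg_right h2 (abs_nonneg _)).trans (le_of_eq ?_)
    rw [Real.div_rpow hv0.le hκ0.le]
    have e2 : κ ^ (1 - p) = (κ ^ (p - 1))⁻¹ := by
      rw [← Real.rpow_neg hκ0.le]
      congr 1
      ring
    have e3 : |v| ^ p = |v| ^ (p - 1) * |v| := by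
      conv_rhs => rw [← Real.rpow_one |v|, ← Real.rpow_mul hv0.le, ← Real.rpow_add hv0]
      congr 1
      ring
    rw [e2, e3]
    field_simp

theorem analysis_lt (p : ℝ) (hp1 : 1 < p) (hp2 : p < 2) : ∃ C : ℝ, 0 ≤ C ∧
    ∀ {E 𝒯 Ω : Type} [Fintype E] [Fintype 𝒯] [Fintype Ω] (g : E → ℝ) (_ : ∀ e, 0 ≤ g e)
      (_ : ∑ e, g e ≤ 1) (κ : ℝ) (_ : 1 ≤ κ) (S : Sys E 𝒯 g κ) (μ : Ω → ℝ)
      (_ : ∀ ω, 0 ≤ μ ω)
      (V : E → Ω → ℝ) (_ : ∀ e, ∑ ω, μ ω * |V e ω| ^ p ≤ 1) (s : Finset ℤ),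
      ∑ l ∈ s, ((2 : ℝ) ^ ((l : ℝ) * (p - 2)) * ∑ ω, μ ω * ∑ τ,
        (if lev (bb S.M V τ ω) (S.w τ) = l then S.lam τ * (bb S.M V τ ω) ^ 2 else 0)
        + (2 : ℝ) ^ ((l : ℝ) * (p - 1)) * ∑ ω, μ ω * ∑ τ,
        (if lev (bb S.M V τ ω) (S.w τ) = l then S.lam τ * (S.w τ * |bb S.M V τ ω|) else 0))
      ≤ C * κ ^ (2 - p) := by
  set q1 : ℝ := 1 - (2 : ℝ) ^ (-(2 - p)) with hq1
  set q2 : ℝ := 1 - (2 : ℝ) ^ (-(p - 1)) with hq2
  have hq10 : 0 < q1 := by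
    have : (2 : ℝ) ^ (-(2 - p)) < 1 := Real.rpow_lt_one_of_one_lt_of_neg one_lt_two (by linarith)
    linarith
  have hq20 : 0 < q2 := by
    have : (2 : ℝ) ^ (-(p - 1)) < 1 := Real.rpow_lt_one_of_one_lt_of_neg one_lt_two (by linarith)
    linarith
  refine ⟨48 / q1 + 12 / q2, by positivity, ?_⟩
  intro E 𝒯 Ω _ _ _ g hg hg1 κ hκ S μ hμ V hV s
  have hκ0 : 0 < κ := by linarith
  -- reduction to the two parts
  have hstep : ∀ l ∈ s, ((2 : ℝ) ^ ((l : ℝ) * (p - 2)) * ∑ ω, μ ω * ∑ τ,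
        (if lev (bb S.M V τ ω) (S.w τ) = l then S.lam τ * (bb S.M V τ ω) ^ 2 else 0)
        + (2 : ℝ) ^ ((l : ℝ) * (p - 1)) * ∑ ω, μ ω * ∑ τ,
        (if lev (bb S.M V τ ω) (S.w τ) = l then S.lam τ * (S.w τ * |bb S.M V τ ω|) else 0)) ≤
      48 * ((2 : ℝ) ^ ((l : ℝ) * (p - 2)) * ∑ ω, μ ω * ∑ e, g e *
        (V e ω - T5a_cut (κ * (2 : ℝ) ^ (l : ℝ)) (V e ω)) ^ 2) +
      12 * ((2 : ℝ) ^ ((l : ℝ) * (p - 1)) * ∑ ω, μ ω * ∑ τ, (S.lam τ * S.w τ) *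
        ∑ e, |S.M τ e| * |T5a_cut (κ * (2 : ℝ) ^ (l : ℝ)) (V e ω)|) := by
    intro l _
    have h1 : ∀ ω, (2 : ℝ) ^ ((l : ℝ) * (p - 2)) * ∑ τ,
        (if lev (bb S.M V τ ω) (S.w τ) = l then S.lam τ * (bb S.M V τ ω) ^ 2 else 0)
        + (2 : ℝ) ^ ((l : ℝ) * (p - 1)) * ∑ τ,
        (if lev (bb S.M V τ ω) (S.w τ) = l then S.lam τ * (S.w τ * |bb S.M V τ ω|) else 0) ≤
        48 * ((2 : ℝ) ^ ((l : ℝ) * (p - 2)) * ∑ e, g e *
          (V e ω - T5a_cut (κ * (2 : ℝ) ^ (l : ℝ)) (V e ω)) ^ 2) +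
        12 * ((2 : ℝ) ^ ((l : ℝ) * (p - 1)) * ∑ τ, (S.lam τ * S.w τ) *
          ∑ e, |S.M τ e| * |T5a_cut (κ * (2 : ℝ) ^ (l : ℝ)) (V e ω)|) := by
      intro ω
      have hA : 0 < (2 : ℝ) ^ ((l : ℝ) * (p - 2)) := Real.rpow_pos_of_pos two_pos _
      have hA2 := S.A2 (fun e => V e ω - T5a_cut (κ * (2 : ℝ) ^ (l : ℝ)) (V e ω))
      calc (2 : ℝ) ^ ((l : ℝ) * (p - 2)) * ∑ τ,
        (if lev (bb S.M V τ ω) (S.w τ) = l then S.lam τ * (bb S.M V τ ω) ^ 2 else 0)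
        + (2 : ℝ) ^ ((l : ℝ) * (p - 1)) * ∑ τ,
        (if lev (bb S.M V τ ω) (S.w τ) = l then S.lam τ * (S.w τ * |bb S.M V τ ω|) else 0)
          = ∑ τ, ((2 : ℝ) ^ ((l : ℝ) * (p - 2)) *
              (if lev (bb S.M V τ ω) (S.w τ) = l then S.lam τ * (bb S.M V τ ω) ^ 2 else 0)
            + (2 : ℝ) ^ ((l : ℝ) * (p - 1)) *
              (if lev (bb S.M V τ ω) (S.w τ) = l then S.lam τ * (S.w τ * |bb S.M V τ ω|)
                else 0)) := by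
            rw [Finset.sum_add_distrib, Finset.mul_sum, Finset.mul_sum]
        _ ≤ ∑ τ, (24 * ((2 : ℝ) ^ ((l : ℝ) * (p - 2)) *
          (S.lam τ * (∑ e, S.M τ e *
            (V e ω - T5a_cut (κ * (2 : ℝ) ^ (l : ℝ)) (V e ω))) ^ 2)) +
          12 * ((2 : ℝ) ^ ((l : ℝ) * (p - 1)) *
          (S.lam τ * (S.w τ * ∑ e, |S.M τ e| *
            |T5a_cut (κ * (2 : ℝ) ^ (l : ℝ)) (V e ω)|)))) :=
            Finset.sum_le_sum fun τ _ => T5b_point S V p l _ τ ω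
        _ = 24 * (2 : ℝ) ^ ((l : ℝ) * (p - 2)) * (∑ τ, S.lam τ * (∑ e, S.M τ e *
            (V e ω - T5a_cut (κ * (2 : ℝ) ^ (l : ℝ)) (V e ω))) ^ 2) +
            12 * ((2 : ℝ) ^ ((l : ℝ) * (p - 1)) * ∑ τ, (S.lam τ * S.w τ) *
              ∑ e, |S.M τ e| * |T5a_cut (κ * (2 : ℝ) ^ (l : ℝ)) (V e ω)|) := by
            rw [Finset.sum_add_distrib]
            congr 1
            · rw [Finset.mul_sum]
              refine Finset.sum_congr rfl fun τ _ => ?_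
              ring
            · rw [Finset.mul_sum, Finset.mul_sum]
              refine Finset.sum_congr rfl fun τ _ => ?_
              ring
        _ ≤ 24 * (2 : ℝ) ^ ((l : ℝ) * (p - 2)) * (2 * ∑ e, g e *
            (V e ω - T5a_cut (κ * (2 : ℝ) ^ (l : ℝ)) (V e ω)) ^ 2) +
            12 * ((2 : ℝ) ^ ((l : ℝ) * (p - 1)) * ∑ τ, (S.lam τ * S.w τ) *
              ∑ e, |S.M τ e| * |T5a_cut (κ * (2 : ℝ) ^ (l : ℝ)) (V e ω)|) := by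
            have := mul_le_mul_of_nonneg_left hA2
              (show (0:ℝ) ≤ 24 * (2 : ℝ) ^ ((l : ℝ) * (p - 2)) by positivity)
            linarith
        _ = _ := by ring
    calc _ = ∑ ω, μ ω * ((2 : ℝ) ^ ((l : ℝ) * (p - 2)) * ∑ τ,
        (if lev (bb S.M V τ ω) (S.w τ) = l then S.lam τ * (bb S.M V τ ω) ^ 2 else 0)
        + (2 : ℝ) ^ ((l : ℝ) * (p - 1)) * ∑ τ,
        (if lev (bb S.M V τ ω) (S.w τ) = l then S.lam τ * (S.w τ * |bb S.M V τ ω|) else 0)) := by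
          rw [Finset.mul_sum, Finset.mul_sum, ← Finset.sum_add_distrib]
          refine Finset.sum_congr rfl fun ω _ => ?_
          ring
      _ ≤ ∑ ω, μ ω * (48 * ((2 : ℝ) ^ ((l : ℝ) * (p - 2)) * ∑ e, g e *
          (V e ω - T5a_cut (κ * (2 : ℝ) ^ (l : ℝ)) (V e ω)) ^ 2) +
        12 * ((2 : ℝ) ^ ((l : ℝ) * (p - 1)) * ∑ τ, (S.lam τ * S.w τ) *
          ∑ e, |S.M τ e| * |T5a_cut (κ * (2 : ℝ) ^ (l : ℝ)) (V e ω)|)) :=
          Finset.sum_le_sum fun ω _ => mul_le_mul_of_nonneg_left (h1 ω) (hμ ω)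
      _ = _ := by
          rw [Finset.mul_sum, Finset.mul_sum, Finset.mul_sum, Finset.mul_sum,
            ← Finset.sum_add_distrib]
          refine Finset.sum_congr rfl fun ω _ => ?_
          ring
  -- first part
  have hpart1 : ∑ l ∈ s, (2 : ℝ) ^ ((l : ℝ) * (p - 2)) * ∑ ω, μ ω * ∑ e, g e *
        (V e ω - T5a_cut (κ * (2 : ℝ) ^ (l : ℝ)) (V e ω)) ^ 2 ≤ κ ^ (2 - p) / q1 := by
    have hc : 0 ≤ κ ^ (2 - p) / q1 := by positivity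
    calc _ = ∑ e, g e * ∑ ω, μ ω * ∑ l ∈ s, (2 : ℝ) ^ ((l : ℝ) * (p - 2)) *
          (V e ω - T5a_cut (κ * (2 : ℝ) ^ (l : ℝ)) (V e ω)) ^ 2 :=
          T5b_reorder1 s (fun l => (2 : ℝ) ^ ((l : ℝ) * (p - 2))) μ g
            (fun l e ω => (V e ω - T5a_cut (κ * (2 : ℝ) ^ (l : ℝ)) (V e ω)) ^ 2)
      _ ≤ ∑ e, g e * ∑ ω, μ ω * (κ ^ (2 - p) / q1 * |V e ω| ^ p) := by
          refine Finset.sum_le_sum fun e _ => mul_le_mul_of_nonneg_left ?_ (hg e)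
          refine Finset.sum_le_sum fun ω _ => mul_le_mul_of_nonneg_left ?_ (hμ ω)
          exact T5b_geo1 p hp2 κ hκ s (V e ω)
      _ = ∑ e, g e * (κ ^ (2 - p) / q1 * ∑ ω, μ ω * |V e ω| ^ p) := by
          refine Finset.sum_congr rfl fun e _ => ?_
          congr 1
          rw [Finset.mul_sum]
          refine Finset.sum_congr rfl fun ω _ => ?_
          ring
      _ ≤ ∑ e, g e * (κ ^ (2 - p) / q1 * 1) := by
          refine Finset.sum_le_sum fun e _ => mul_le_mul_of_nonneg_left ?_ (hg e)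
          exact mul_le_mul_of_nonneg_left (hV e) hc
      _ = (∑ e, g e) * (κ ^ (2 - p) / q1) := by rw [← Finset.sum_mul, mul_one]
      _ ≤ 1 * (κ ^ (2 - p) / q1) := mul_le_mul_of_nonneg_right hg1 hc
      _ = _ := one_mul _
  -- second part
  have hpart2 : ∑ l ∈ s, (2 : ℝ) ^ ((l : ℝ) * (p - 1)) * ∑ ω, μ ω * ∑ τ, (S.lam τ * S.w τ) *
        ∑ e, |S.M τ e| * |T5a_cut (κ * (2 : ℝ) ^ (l : ℝ)) (V e ω)| ≤ κ ^ (2 - p) / q2 := by
    have hc : 0 ≤ κ ^ (1 - p) / q2 := by positivity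
    have hlw : ∀ τ, 0 ≤ S.lam τ * S.w τ := fun τ => mul_nonneg (S.lam_nonneg τ) (S.w_nonneg τ)
    calc _ = ∑ τ, (S.lam τ * S.w τ) * ∑ ω, μ ω * ∑ l ∈ s, (2 : ℝ) ^ ((l : ℝ) * (p - 1)) *
          ∑ e, |S.M τ e| * |T5a_cut (κ * (2 : ℝ) ^ (l : ℝ)) (V e ω)| :=
          T5b_reorder1 s (fun l => (2 : ℝ) ^ ((l : ℝ) * (p - 1))) μ
            (fun τ => S.lam τ * S.w τ)
            (fun l τ ω => ∑ e, |S.M τ e| * |T5a_cut (κ * (2 : ℝ) ^ (l : ℝ)) (V e ω)|)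
      _ ≤ ∑ τ, (S.lam τ * S.w τ) * (κ ^ (1 - p) / q2 * S.w τ) := by
          refine Finset.sum_le_sum fun τ _ => mul_le_mul_of_nonneg_left ?_ (hlw τ)
          calc ∑ ω, μ ω * ∑ l ∈ s, (2 : ℝ) ^ ((l : ℝ) * (p - 1)) *
                ∑ e, |S.M τ e| * |T5a_cut (κ * (2 : ℝ) ^ (l : ℝ)) (V e ω)|
              = ∑ ω, μ ω * ∑ e, |S.M τ e| * ∑ l ∈ s, (2 : ℝ) ^ ((l : ℝ) * (p - 1)) *
                  |T5a_cut (κ * (2 : ℝ) ^ (l : ℝ)) (V e ω)| := by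
                refine Finset.sum_congr rfl fun ω _ => ?_
                congr 1
                simp only [Finset.mul_sum]
                rw [Finset.sum_comm]
                refine Finset.sum_congr rfl fun e _ => Finset.sum_congr rfl fun l _ => ?_
                ring
            _ ≤ ∑ ω, μ ω * ∑ e, |S.M τ e| * (κ ^ (1 - p) / q2 * |V e ω| ^ p) := by
                refine Finset.sum_le_sum fun ω _ => mul_le_mul_of_nonneg_left ?_ (hμ ω)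
                refine Finset.sum_le_sum fun e _ => mul_le_mul_of_nonneg_left ?_ (abs_nonneg _)
                exact T5b_geo2 p hp1 κ hκ s (V e ω)
            _ = κ ^ (1 - p) / q2 * ∑ e, |S.M τ e| * ∑ ω, μ ω * |V e ω| ^ p := by
                simp only [Finset.mul_sum]
                rw [Finset.sum_comm]
                refine Finset.sum_congr rfl fun e _ => Finset.sum_congr rfl fun ω _ => ?_
                ring
            _ ≤ κ ^ (1 - p) / q2 * ∑ e, |S.M τ e| * 1 := by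
                refine mul_le_mul_of_nonneg_left ?_ hc
                refine Finset.sum_le_sum fun e _ => mul_le_mul_of_nonneg_left ?_ (abs_nonneg _)
                exact hV e
            _ ≤ κ ^ (1 - p) / q2 * S.w τ := by
                refine mul_le_mul_of_nonneg_left ?_ hc
                simpa using S.M_le τ
      _ = κ ^ (1 - p) / q2 * ∑ τ, S.lam τ * S.w τ ^ 2 := by
          rw [Finset.mul_sum]
          refine Finset.sum_congr rfl fun τ _ => ?_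
          ring
      _ ≤ κ ^ (1 - p) / q2 * κ := mul_le_mul_of_nonneg_left S.W hc
      _ = κ ^ (2 - p) / q2 := by
          have : κ ^ (2 - p) = κ ^ (1 - p) * κ := by
            conv_rhs => rw [← Real.rpow_add_one hκ0.ne']
            congr 1
            ring
          rw [this]
          ring
  calc _ ≤ ∑ l ∈ s, (48 * ((2 : ℝ) ^ ((l : ℝ) * (p - 2)) * ∑ ω, μ ω * ∑ e, g e *
        (V e ω - T5a_cut (κ * (2 : ℝ) ^ (l : ℝ)) (V e ω)) ^ 2) +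
      12 * ((2 : ℝ) ^ ((l : ℝ) * (p - 1)) * ∑ ω, μ ω * ∑ τ, (S.lam τ * S.w τ) *
        ∑ e, |S.M τ e| * |T5a_cut (κ * (2 : ℝ) ^ (l : ℝ)) (V e ω)|)) :=
        Finset.sum_le_sum hstep
    _ = 48 * (∑ l ∈ s, (2 : ℝ) ^ ((l : ℝ) * (p - 2)) * ∑ ω, μ ω * ∑ e, g e *
        (V e ω - T5a_cut (κ * (2 : ℝ) ^ (l : ℝ)) (V e ω)) ^ 2) +
        12 * ∑ l ∈ s, (2 : ℝ) ^ ((l : ℝ) * (p - 1)) * ∑ ω, μ ω * ∑ τ, (S.lam τ * S.w τ) *
        ∑ e, |S.M τ e| * |T5a_cut (κ * (2 : ℝ) ^ (l : ℝ)) (V e ω)| := by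
        rw [Finset.sum_add_distrib, ← Finset.mul_sum, ← Finset.mul_sum]
    _ ≤ 48 * (κ ^ (2 - p) / q1) + 12 * (κ ^ (2 - p) / q2) := by linarith
    _ = _ := by ring

end Crest.Agent.S0358
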