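import Crest.Agent.S0358_Defs

/-!
# Task T6a (tstar_gt) (row S0358): the balancing level `t*` (pure real analysis)

`tstar_gt` (`p > 2`).  If all `α_l = 0` (`l ∈ s`) then `v = 0`; take `t = 0`, `R = 0`.  Otherwise let
`Φ(m) = ∑_{l∈s} (1 + |l - m|) α_l` and let `t` be the least integer `m` with `Φ(m) ≤ 16 Λ 2^m`
(exists: true for large `m`, false for very negative `m` as `Φ ≥ ∑ α > 0`).  `R = Λ 2^t`.
* `∑ |l - t| α_l ≤ Φ(t) ≤ 16 R`, `|v| ≤ ∑ α ≤ 16 Λ 2^t`; if `|v| ≥ 2^t` then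
  `0 ≤ log₂|v| - t ≤ log₂ (16 Λ)`, otherwise `(t - log₂|v|)|v| = 2^t x log₂(1/x) ≤ 2^t ≤ R` (`x = |v|/2^t ≤ 1`).
* minimality with `m = t - 1`: `Φ(m) > 16 Λ 2^m`, and `∑_{l ≤ m} (1 + m - l) α_l ≤ 2^(m+1) Λ ∑_j (1+j) 2^(-j) = 8 Λ 2^m`,
  so `8 Λ 2^m < ∑_{l>m} (1 + l - m) α_l ≤ (∑ 2^(l(p-2)) α_l²)^{1/2} (∑_{l>m} (1+l-m)² 2^(-l(p-2)))^{1/2}`
  (Cauchy-Schwarz), the last factor is `C_p 2^(-m(p-2)/2)`.

`tstar_lt` (`1 < p < 2`).  Same with `t` = least `m` with `Φ(m) ≤ 2^m`, `R = 2^t`.  Then `|v| ≤ 2^t`, both terms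
are `≤ 2^t`.  Minimality (`m = t-1`): `Φ(m) > 2^m`, so either `∑_{l≤m}(1+m-l) α_l > 2^(m-1)` — Cauchy-Schwarz with
weights `2^(l(p-2))` (`∑_{l≤m} (1+m-l)² 2^(l(2-p)) = C 2^(m(2-p))`) — or `∑_{l>m} (1+l-m) α_l > 2^(m-1)` —
`(1+l-m) ≤ C 2^((l-m)(p-1))`, so it is `≤ C 2^(-m(p-1)) ∑ 2^(l(p-1)) α_l`.
-/

set_option autoImplicit false
open scoped BigOperators
namespace Crest.Agent.S0358

lemma T6a_sum_le {f : ℕ → ℝ} (hf : ∀ n, 0 ≤ f n) (hs : Summable f) (s : Finset ℤ) (g : ℤ → ℕ)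
    (hg : ∀ a ∈ s, ∀ b ∈ s, g a = g b → a = b) : ∑ l ∈ s, f (g l) ≤ ∑' n, f n := by
  classical
  rw [← Finset.sum_image (f := f) (g := g) hg]
  exact hs.sum_le_tsum _ fun n _ => hf n

lemma T6a_xlog {x : ℝ} (hx : 0 < x) (hx1 : x ≤ 1) : x * (-Real.logb 2 x) ≤ 1 := by
  have hs := Real.sqrt_pos.2 hx
  have h1 : -Real.log x ≤ 2 * (1 / √x - 1) := by
    have h2 := Real.log_le_sub_one_of_pos (one_div_pos.2 hs)
    have h3 : Real.log (1 / √x) = -(Real.log x / 2) := by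
      rw [one_div, Real.log_inv, Real.log_sqrt hx.le]
    linarith
  have h4 : x * -Real.log x ≤ 1 / 2 := by
    have h5 : x * -Real.log x ≤ x * (2 * (1 / √x - 1)) := mul_le_mul_of_nonneg_left h1 hx.le
    have h6 : x * (2 * (1 / √x - 1)) = 2 * (√x - x) := by
      have : x = √x * √x := (Real.mul_self_sqrt hx.le).symm
      have h7 : x * (1 / √x) = √x := by
        rw [mul_one_div, div_eq_iff hs.ne']; exact this
      calc x * (2 * (1 / √x - 1)) = 2 * (x * (1 / √x) - x) := by ring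
        _ = _ := by rw [h7]
    have h8 : 2 * (√x - x) ≤ 1 / 2 := by nlinarith [sq_nonneg (√x - 1 / 2), Real.mul_self_sqrt hx.le]
    linarith
  have hl2 : (1 : ℝ) / 2 < Real.log 2 := by have := Real.log_two_gt_d9; linarith
  unfold Real.logb
  rw [← neg_div, mul_div_assoc', div_le_one (by linarith)]
  linarith

theorem tstar_gt (p : ℝ) (hp : 2 < p) : ∃ C : ℝ, 0 ≤ C ∧
    ∀ (s : Finset ℤ) (α : ℤ → ℝ) (_ : ∀ l, 0 ≤ α l) (Λ : ℝ) (_ : 1 ≤ Λ)
      (_ : ∀ l ∈ s, α l ≤ (2 : ℝ) ^ ((l : ℝ) + 1) * Λ) (v : ℝ) (_ : |v| ≤ ∑ l ∈ s, α l),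
      ∃ (t : ℤ) (R : ℝ), 0 ≤ R ∧
        ∑ l ∈ s, |(l : ℝ) - t| * α l + |(t : ℝ) - Real.logb 2 (|v|)| * |v|
          ≤ 17 * R + Real.logb 2 (16 * Λ) * |v| ∧
        R ^ p ≤ C * Λ ^ (p - 2) * ∑ l ∈ s, (2 : ℝ) ^ ((l : ℝ) * (p - 2)) * α l ^ 2 := by
  classical
  set r : ℝ := (2 : ℝ) ^ (-(p - 2)) with hr
  have hr0 : 0 < r := Real.rpow_pos_of_pos two_pos _
  have hr1 : r < 1 := Real.rpow_lt_one_of_one_lt_of_neg one_lt_two (by linarith)
  set f : ℕ → ℝ := fun j => (1 + (j : ℝ)) ^ 2 * r ^ j with hf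
  have hf0 : ∀ n, 0 ≤ f n := fun n => by positivity
  have hfs : Summable f := by
    have h0 := summable_pow_mul_geometric_of_norm_lt_one 0 (r := r) (by rw [Real.norm_eq_abs, abs_of_pos hr0]; exact hr1)
    have h1 := summable_pow_mul_geometric_of_norm_lt_one 1 (r := r) (by rw [Real.norm_eq_abs, abs_of_pos hr0]; exact hr1)
    have h2 := summable_pow_mul_geometric_of_norm_lt_one 2 (r := r) (by rw [Real.norm_eq_abs, abs_of_pos hr0]; exact hr1)
    have := (h0.add (h1.mul_left 2)).add h2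
    refine this.congr fun n => ?_
    simp only [hf]
    ring
  set K := ∑' n, f n with hK
  have hK0 : 0 ≤ K := tsum_nonneg hf0
  -- the sum `∑ (1+j) 2^{-j} = 4`
  set g2 : ℕ → ℝ := fun j => (1 + (j : ℝ)) * (1 / 2) ^ j with hg2
  have hg20 : ∀ n, 0 ≤ g2 n := fun n => by positivity
  have hhalf : ‖(1 / 2 : ℝ)‖ < 1 := by norm_num
  have hg2s : HasSum g2 4 := by
    have h0 := hasSum_geometric_of_norm_lt_one hhalf
    have h1 := hasSum_coe_mul_geometric_of_norm_lt_one hhalf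
    have h2 := h0.add h1
    have e : ((1 - 1 / 2 : ℝ))⁻¹ + (1 / 2 : ℝ) / (1 - 1 / 2) ^ 2 = 4 := by norm_num
    rw [e] at h2
    have e2 : g2 = fun n : ℕ => (1 / 2 : ℝ) ^ n + (n : ℝ) * (1 / 2) ^ n := by
      funext n; simp only [hg2]; ring
    rw [e2]
    exact h2
  refine ⟨2 ^ p * K / 64, by positivity, ?_⟩
  intro s α hα Λ hΛ hαΛ v hv
  have hΛ0 : 0 < Λ := by linarith
  have hA0 : 0 ≤ ∑ l ∈ s, α l := Finset.sum_nonneg fun l _ => hα l
  rcases eq_or_lt_of_le hA0 with h0 | hA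
  · have hz : ∀ l ∈ s, α l = 0 := (Finset.sum_eq_zero_iff_of_nonneg fun l _ => hα l).1 h0.symm
    have hv0 : |v| = 0 := le_antisymm (hv.trans h0.symm.le) (abs_nonneg v)
    refine ⟨0, 0, le_rfl, ?_, ?_⟩
    · rw [hv0, Finset.sum_eq_zero fun l hl => by rw [hz l hl, mul_zero]]
      simp
    · rw [Real.zero_rpow (by linarith)]
      exact mul_nonneg (mul_nonneg (by positivity) (by positivity)) (Finset.sum_nonneg fun l _ => by positivity)
  set A := ∑ l ∈ s, α l with hAdef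
  -- the functional
  set Φ : ℤ → ℝ := fun m => ∑ l ∈ s, (1 + |(l : ℝ) - m|) * α l with hΦ
  have hΦA : ∀ m : ℤ, A + ∑ l ∈ s, |(l : ℝ) - m| * α l = Φ m := by
    intro m
    simp only [hΦ, hAdef, ← Finset.sum_add_distrib]
    exact Finset.sum_congr rfl fun l _ => by ring
  have hsumabs : ∀ m : ℤ, 0 ≤ ∑ l ∈ s, |(l : ℝ) - m| * α l := fun m =>
    Finset.sum_nonneg fun l _ => mul_nonneg (abs_nonneg _) (hα l)
  have two_pos' : ∀ y : ℝ, (0 : ℝ) < (2 : ℝ) ^ y := fun y => Real.rpow_pos_of_pos two_pos y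
  obtain ⟨t, htP, htmin⟩ : ∃ t : ℤ, Φ t ≤ 16 * Λ * (2 : ℝ) ^ (t : ℝ) ∧
      ∀ z : ℤ, Φ z ≤ 16 * Λ * (2 : ℝ) ^ (z : ℝ) → t ≤ z := by
    apply Int.exists_least_of_bdd (P := fun z : ℤ => Φ z ≤ 16 * Λ * (2 : ℝ) ^ (z : ℝ))
    · refine ⟨⌊Real.logb 2 (A / (16 * Λ))⌋, fun z hz => ?_⟩
      have h1 : A / (16 * Λ) ≤ (2 : ℝ) ^ (z : ℝ) := by
        rw [div_le_iff₀ (by positivity)]
        have := hsumabs z
        have h2 := hΦA z
        linarith
      have h2 : Real.logb 2 (A / (16 * Λ)) ≤ (z : ℝ) := by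
        rw [Real.logb_le_iff_le_rpow one_lt_two (by positivity)]
        exact h1
      have h3 : ((⌊Real.logb 2 (A / (16 * Λ))⌋ : ℤ) : ℝ) ≤ (z : ℝ) := (Int.floor_le _).trans h2
      exact_mod_cast h3
    · set B := ∑ l ∈ s, (1 + |(l : ℝ)|) * α l with hB
      have hB0 : 0 ≤ B := Finset.sum_nonneg fun l _ => by have := hα l; positivity
      set k := ⌈2 * B⌉₊ with hk
      refine ⟨((2 * k : ℕ) : ℤ), ?_⟩
      have hk1 : 2 * B ≤ k := Nat.le_ceil _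
      have h1 : Φ ((2 * k : ℕ) : ℤ) ≤ B * (1 + 2 * k) := by
        simp only [hΦ, hB, Finset.sum_mul]
        refine Finset.sum_le_sum fun l _ => ?_
        have h2 : (1 + |(l : ℝ) - (((2 * k : ℕ) : ℤ) : ℝ)|) ≤ (1 + |(l : ℝ)|) * (1 + 2 * k) := by
          have h3 : |(l : ℝ) - (((2 * k : ℕ) : ℤ) : ℝ)| ≤ |(l : ℝ)| + 2 * k := by
            refine (abs_sub _ _).trans ?_
            push_cast
            rw [abs_of_nonneg (by positivity : (0 : ℝ) ≤ 2 * (k : ℝ))]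
          have h4 : 0 ≤ |(l : ℝ)| * (2 * k) := by positivity
          linarith
        calc (1 + |(l : ℝ) - (((2 * k : ℕ) : ℤ) : ℝ)|) * α l ≤ (1 + |(l : ℝ)|) * (1 + 2 * k) * α l :=
              mul_le_mul_of_nonneg_right h2 (hα l)
          _ = (1 + |(l : ℝ)|) * α l * (1 + 2 * k) := by ring
      have h2 : (2 : ℝ) ^ ((((2 * k : ℕ) : ℤ)) : ℝ) = ((2 : ℝ) ^ k) ^ 2 := by
        rw [← pow_mul, mul_comm k 2]
        rw [Int.cast_natCast, Real.rpow_natCast]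
      have h3 : (k : ℝ) + 1 ≤ (2 : ℝ) ^ k := by exact_mod_cast Nat.lt_two_pow_self
      rw [h2]
      have h4 : ((k : ℝ) + 1) ^ 2 ≤ ((2 : ℝ) ^ k) ^ 2 := by gcongr
      have hk0 : (0 : ℝ) ≤ k := by positivity
      have h5 : B * (1 + 2 * k) ≤ ((k : ℝ) + 1) ^ 2 := by nlinarith
      have h6 : ((2 : ℝ) ^ k) ^ 2 ≤ 16 * Λ * ((2 : ℝ) ^ k) ^ 2 := by
        have : 0 ≤ ((2 : ℝ) ^ k) ^ 2 := by positivity
        nlinarith
      linarith
  set R := Λ * (2 : ℝ) ^ (t : ℝ) with hR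
  have hR0 : 0 < R := mul_pos hΛ0 (two_pos' _)
  refine ⟨t, R, hR0.le, ?_, ?_⟩
  · have h1 := hΦA t
    have h2 : Φ t ≤ 16 * R := by rw [hR]; linarith
    have hvA : |v| ≤ 16 * R := by have := hsumabs t; linarith
    rcases eq_or_lt_of_le (abs_nonneg v) with hv0 | hvp
    · rw [← hv0, mul_zero, mul_zero, add_zero, add_zero]
      linarith
    · have hlog2 : (0 : ℝ) ≤ Real.logb 2 (16 * Λ) := Real.logb_nonneg one_lt_two (by linarith)
      rcases le_total ((2 : ℝ) ^ (t : ℝ)) |v| with hc | hc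
      · -- |v| large
        have h3 : (t : ℝ) ≤ Real.logb 2 |v| := by
          rw [Real.le_logb_iff_rpow_le one_lt_two hvp]; exact hc
        have h4 : Real.logb 2 |v| ≤ Real.logb 2 (16 * Λ) + t := by
          have h5 : Real.logb 2 |v| ≤ Real.logb 2 (16 * Λ * (2 : ℝ) ^ (t : ℝ)) := by
            apply Real.logb_le_logb_of_le one_lt_two hvp
            rw [hR] at hvA; linarith
          rw [Real.logb_mul (by positivity) (two_pos' _).ne', Real.logb_rpow two_pos (by norm_num)] at h5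
          exact h5
        have h6 : |(t : ℝ) - Real.logb 2 (|v|)| * |v| ≤ Real.logb 2 (16 * Λ) * |v| := by
          apply mul_le_mul_of_nonneg_right _ hvp.le
          rw [abs_sub_comm, abs_of_nonneg (by linarith)]
          linarith
        linarith
      · -- |v| small
        set x := |v| / (2 : ℝ) ^ (t : ℝ) with hx
        have hx0 : 0 < x := div_pos hvp (two_pos' _)
        have hx1 : x ≤ 1 := (div_le_one (two_pos' _)).2 hc
        have h3 := T6a_xlog hx0 hx1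
        have h4 : Real.logb 2 x = Real.logb 2 |v| - t := by
          rw [hx, Real.logb_div hvp.ne' (two_pos' _).ne', Real.logb_rpow two_pos (by norm_num)]
        have h5 : Real.logb 2 |v| ≤ t := by
          rw [Real.logb_le_iff_le_rpow one_lt_two hvp]; exact hc
        have h6 : |(t : ℝ) - Real.logb 2 (|v|)| * |v| ≤ (2 : ℝ) ^ (t : ℝ) := by
          rw [abs_of_nonneg (by linarith)]
          have h7 : |v| = x * (2 : ℝ) ^ (t : ℝ) := by rw [hx, div_mul_cancel₀ _ (two_pos' _).ne']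
          have h8 : (t - Real.logb 2 |v|) * |v| = (x * (-Real.logb 2 x)) * (2 : ℝ) ^ (t : ℝ) := by
            rw [h4]
            linear_combination ((t : ℝ) - Real.logb 2 (|v|)) * h7
          rw [h8]
          have := two_pos' (t : ℝ)
          nlinarith
        have h7 : (2 : ℝ) ^ (t : ℝ) ≤ R := by rw [hR]; have := two_pos' (t : ℝ); nlinarith
        have h8 : 0 ≤ Real.logb 2 (16 * Λ) * |v| := mul_nonneg hlog2 hvp.le
        linarith
  · -- minimality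
    set m : ℤ := t - 1 with hm
    have hmP : 16 * Λ * (2 : ℝ) ^ (m : ℝ) < Φ m := by
      by_contra hcon
      rw [not_lt] at hcon
      have := htmin m hcon
      omega
    set S := ∑ l ∈ s, (2 : ℝ) ^ ((l : ℝ) * (p - 2)) * α l ^ 2 with hS
    -- split
    have hsplit : Φ m = ∑ l ∈ s with l ≤ m, (1 + |(l : ℝ) - m|) * α l + ∑ l ∈ s with ¬ l ≤ m, (1 + |(l : ℝ) - m|) * α l := by
      rw [Finset.sum_filter_add_sum_filter_not]
    have h1 : ∑ l ∈ s with l ≤ m, (1 + |(l : ℝ) - m|) * α l ≤ 8 * Λ * (2 : ℝ) ^ (m : ℝ) := by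
      have h2 : ∀ l ∈ s.filter (fun l => l ≤ m), (1 + |(l : ℝ) - m|) * α l ≤
          (2 * Λ * (2 : ℝ) ^ (m : ℝ)) * g2 (m - l).toNat := by
        intro l hl
        obtain ⟨hls, hlm⟩ := Finset.mem_filter.1 hl
        have hcast : (((m - l).toNat : ℕ) : ℝ) = (m : ℝ) - l := by
          have : (((m - l).toNat : ℕ) : ℤ) = m - l := Int.toNat_of_nonneg (by omega)
          have h3 : ((((m - l).toNat : ℕ) : ℤ) : ℝ) = ((m - l : ℤ) : ℝ) := by rw [this]
          rw [Int.cast_natCast] at h3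
          rw [h3]; push_cast; ring
        have habs : |(l : ℝ) - m| = (m : ℝ) - l := by
          have : (l : ℝ) ≤ m := by exact_mod_cast hlm
          rw [abs_sub_comm, abs_of_nonneg (by linarith)]
        have hpow : (2 : ℝ) ^ (m : ℝ) * (1 / 2) ^ (m - l).toNat = (2 : ℝ) ^ (l : ℝ) := by
          rw [one_div, inv_pow, ← Real.rpow_natCast, hcast, ← Real.rpow_neg two_pos.le, ← Real.rpow_add two_pos]
          congr 1; ring
        simp only [hg2]
        rw [habs, hcast]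
        have h4 : α l ≤ 2 * Λ * (2 : ℝ) ^ (l : ℝ) := by
          have := hαΛ l hls
          rw [Real.rpow_add two_pos, Real.rpow_one] at this
          linarith
        have h5 : (l : ℝ) ≤ m := by exact_mod_cast hlm
        calc (1 + ((m : ℝ) - l)) * α l ≤ (1 + ((m : ℝ) - l)) * (2 * Λ * (2 : ℝ) ^ (l : ℝ)) :=
              mul_le_mul_of_nonneg_left h4 (by linarith)
          _ = _ := by rw [← hpow]; ring
      refine (Finset.sum_le_sum h2).trans ?_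
      rw [← Finset.mul_sum]
      have h3 := T6a_sum_le hg20 hg2s.summable (s.filter (fun l => l ≤ m)) (fun l => (m - l).toNat) (by
        intro a ha b hb hab
        have ha' := (Finset.mem_filter.1 ha).2
        have hb' := (Finset.mem_filter.1 hb).2
        omega)
      rw [hg2s.tsum_eq] at h3
      have h4 : 0 ≤ 2 * Λ * (2 : ℝ) ^ (m : ℝ) := by have := two_pos' (m : ℝ); positivity
      calc _ ≤ (2 * Λ * (2 : ℝ) ^ (m : ℝ)) * 4 := mul_le_mul_of_nonneg_left h3 h4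
        _ = _ := by ring
    have h2 : 8 * Λ * (2 : ℝ) ^ (m : ℝ) < ∑ l ∈ s with ¬ l ≤ m, (1 + |(l : ℝ) - m|) * α l := by
      linarith
    -- Cauchy-Schwarz
    have hcs := Finset.sum_mul_sq_le_sq_mul_sq (s.filter (fun l => ¬ l ≤ m))
      (fun l : ℤ => (2 : ℝ) ^ ((l : ℝ) * (p - 2) / 2) * α l)
      (fun l : ℤ => (1 + |(l : ℝ) - m|) * (2 : ℝ) ^ (-((l : ℝ) * (p - 2) / 2)))
    have e1 : ∀ l : ℤ, (2 : ℝ) ^ ((l : ℝ) * (p - 2) / 2) * α l * ((1 + |(l : ℝ) - m|) * (2 : ℝ) ^ (-((l : ℝ) * (p - 2) / 2))) =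
        (1 + |(l : ℝ) - m|) * α l := by
      intro l
      have : (2 : ℝ) ^ ((l : ℝ) * (p - 2) / 2) * (2 : ℝ) ^ (-((l : ℝ) * (p - 2) / 2)) = 1 := by
        rw [← Real.rpow_add two_pos, add_neg_cancel, Real.rpow_zero]
      calc _ = ((2 : ℝ) ^ ((l : ℝ) * (p - 2) / 2) * (2 : ℝ) ^ (-((l : ℝ) * (p - 2) / 2))) * ((1 + |(l : ℝ) - m|) * α l) := by ring
        _ = _ := by rw [this, one_mul]
    have e2 : ∀ l : ℤ, ((2 : ℝ) ^ ((l : ℝ) * (p - 2) / 2) * α l) ^ 2 = (2 : ℝ) ^ ((l : ℝ) * (p - 2)) * α l ^ 2 := by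
      intro l
      rw [mul_pow, ← Real.rpow_natCast ((2 : ℝ) ^ ((l : ℝ) * (p - 2) / 2)), ← Real.rpow_mul two_pos.le]
      congr 2
      push_cast; ring
    simp only [e1, e2] at hcs
    have h3 : ∑ l ∈ s with ¬ l ≤ m, (2 : ℝ) ^ ((l : ℝ) * (p - 2)) * α l ^ 2 ≤ S := by
      rw [hS]
      exact Finset.sum_le_sum_of_subset_of_nonneg (Finset.filter_subset _ _) fun l _ _ => by
        have := two_pos' ((l : ℝ) * (p - 2)); positivity
    have h4 : ∑ l ∈ s with ¬ l ≤ m, ((1 + |(l : ℝ) - m|) * (2 : ℝ) ^ (-((l : ℝ) * (p - 2) / 2))) ^ 2 ≤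
        (2 : ℝ) ^ (-((m : ℝ) * (p - 2))) * K := by
      have h5 : ∀ l ∈ s.filter (fun l => ¬ l ≤ m), ((1 + |(l : ℝ) - m|) * (2 : ℝ) ^ (-((l : ℝ) * (p - 2) / 2))) ^ 2 =
          (2 : ℝ) ^ (-((m : ℝ) * (p - 2))) * f (l - m).toNat := by
        intro l hl
        obtain ⟨hls, hlm⟩ := Finset.mem_filter.1 hl
        have hcast : (((l - m).toNat : ℕ) : ℝ) = (l : ℝ) - m := by
          have : (((l - m).toNat : ℕ) : ℤ) = l - m := Int.toNat_of_nonneg (by omega)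
          have h3 : ((((l - m).toNat : ℕ) : ℤ) : ℝ) = ((l - m : ℤ) : ℝ) := by rw [this]
          rw [Int.cast_natCast] at h3
          rw [h3]; push_cast; ring
        have habs : |(l : ℝ) - m| = (l : ℝ) - m := by
          have : (m : ℝ) ≤ l := by
            have : m ≤ l := by omega
            exact_mod_cast this
          rw [abs_of_nonneg (by linarith)]
        simp only [hf]
        rw [habs, hcast, mul_pow, hr, ← Real.rpow_natCast ((2 : ℝ) ^ (-((l : ℝ) * (p - 2) / 2))),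
          ← Real.rpow_mul two_pos.le, ← Real.rpow_natCast ((2 : ℝ) ^ (-(p - 2))), hcast, ← Real.rpow_mul two_pos.le]
        have : (2 : ℝ) ^ (-((l : ℝ) * (p - 2) / 2) * ((2 : ℕ) : ℝ)) =
            (2 : ℝ) ^ (-((m : ℝ) * (p - 2))) * (2 : ℝ) ^ (-(p - 2) * ((l : ℝ) - m)) := by
          rw [← Real.rpow_add two_pos]; congr 1; push_cast; ring
        rw [this]; ring
      rw [Finset.sum_congr rfl h5, ← Finset.mul_sum]
      have h6 := T6a_sum_le hf0 hfs (s.filter (fun l => ¬ l ≤ m)) (fun l => (l - m).toNat) (by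
        intro a ha b hb hab
        have ha' := (Finset.mem_filter.1 ha).2
        have hb' := (Finset.mem_filter.1 hb).2
        omega)
      exact mul_le_mul_of_nonneg_left h6 (two_pos' _).le
    have hS0 : 0 ≤ S := Finset.sum_nonneg fun l _ => by
      have := two_pos' ((l : ℝ) * (p - 2)); positivity
    have hq0 : 0 ≤ (2 : ℝ) ^ (-((m : ℝ) * (p - 2))) * K := mul_nonneg (two_pos' _).le hK0
    have h5 : (8 * Λ * (2 : ℝ) ^ (m : ℝ)) ^ 2 ≤ S * ((2 : ℝ) ^ (-((m : ℝ) * (p - 2))) * K) := by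
      have h6 : (8 * Λ * (2 : ℝ) ^ (m : ℝ)) ^ 2 ≤ (∑ l ∈ s with ¬ l ≤ m, (1 + |(l : ℝ) - m|) * α l) ^ 2 := by
        have : 0 ≤ 8 * Λ * (2 : ℝ) ^ (m : ℝ) := by have := two_pos' (m : ℝ); positivity
        exact pow_le_pow_left₀ this h2.le 2
      refine h6.trans (hcs.trans ?_)
      exact mul_le_mul h3 h4 (Finset.sum_nonneg fun l _ => sq_nonneg _) hS0
    -- conclude
    have h6 : Λ ^ 2 * ((2 : ℝ) ^ (m : ℝ)) ^ 2 * (2 : ℝ) ^ ((m : ℝ) * (p - 2)) ≤ S * K / 64 := by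
      have h7 : (2 : ℝ) ^ (-((m : ℝ) * (p - 2))) * (2 : ℝ) ^ ((m : ℝ) * (p - 2)) = 1 := by
        rw [← Real.rpow_add two_pos, neg_add_cancel, Real.rpow_zero]
      have h8 := mul_le_mul_of_nonneg_right h5 (two_pos' ((m : ℝ) * (p - 2))).le
      have h9 : S * ((2 : ℝ) ^ (-((m : ℝ) * (p - 2))) * K) * (2 : ℝ) ^ ((m : ℝ) * (p - 2)) = S * K := by
        calc _ = S * K * ((2 : ℝ) ^ (-((m : ℝ) * (p - 2))) * (2 : ℝ) ^ ((m : ℝ) * (p - 2))) := by ring
          _ = _ := by rw [h7, mul_one]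
      rw [h9] at h8
      rw [le_div_iff₀ (by norm_num)]
      calc _ = (8 * Λ * (2 : ℝ) ^ (m : ℝ)) ^ 2 * (2 : ℝ) ^ ((m : ℝ) * (p - 2)) := by ring
        _ ≤ _ := h8
    have h7 : R ^ p = Λ ^ (p - 2) * 2 ^ p * (Λ ^ 2 * ((2 : ℝ) ^ (m : ℝ)) ^ 2 * (2 : ℝ) ^ ((m : ℝ) * (p - 2))) := by
      rw [hR, Real.mul_rpow hΛ0.le (two_pos' _).le]
      have e3 : Λ ^ p = Λ ^ (p - 2) * Λ ^ 2 := by
        rw [← Real.rpow_natCast Λ 2, ← Real.rpow_add hΛ0]; congr 1; push_cast; ring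
      have e4 : ((2 : ℝ) ^ (t : ℝ)) ^ p = 2 ^ p * (((2 : ℝ) ^ (m : ℝ)) ^ 2 * (2 : ℝ) ^ ((m : ℝ) * (p - 2))) := by
        rw [← Real.rpow_mul two_pos.le, ← Real.rpow_natCast ((2 : ℝ) ^ (m : ℝ)), ← Real.rpow_mul two_pos.le,
          ← Real.rpow_add two_pos, ← Real.rpow_add two_pos]
        congr 1
        rw [hm]; push_cast; ring
      rw [e3, e4]; ring
    rw [h7]
    have h8 : 0 ≤ Λ ^ (p - 2) * 2 ^ p := by positivity
    calc _ ≤ Λ ^ (p - 2) * 2 ^ p * (S * K / 64) := mul_le_mul_of_nonneg_left h6 h8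
      _ = _ := by ring

end Crest.Agent.S0358
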