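import Crest.Agent.S0358_Defs

/-!
# Task T6b (tstar_lt) (row S0358): the balancing level `t*` (pure real analysis)

`tstar_gt` (`p > 2`).  If all `α_l = 0` (`l ∈ s`) then `v = 0`; take `t = 0`, `R = 0`.  Otherwise let
`Φ(m) = ∑_{l∈s} (1 + |l - m|) α_l` and let `t` be the least integer `m` with `Φ(m) ≤ 16 Λ 2^m`
(exists: true for large `m`, false for very negative `m` as `Φ ≥ ∑ α > 0`).  `R = Λ 2^t`.
* `∑ |l - t| α_l ≤ Φ(t) ≤ 16 R`, `|v| ≤ ∑ α ≤ 16 Λ 2^t`; if `|v| ≥ 2^t` then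
  `0 ≤ log₂|v| - t ≤ log₂ (16 Λ)`, otherwise `(t - log₂|v|)|v| = 2^t x log₂(1/x) ≤ 2^t ≤ R` (`x = |v|/2^t ≤ 1`).
* minimality with `m = t - 1`: `Φ(m) > 16 Λ 2^m`, and `∑_{l ≤ m} (1 + m - l) α_l ≤ 2^(m+1) Λ ∑_j (1+j) 2^(-j) = 8 Λ 2^m`,
  so `8 Λ 2^m < ∑_{l>m} (1 + l - m) α_l ≤ (∑ 2^(l(p-2)) α_l²)^{1/2} (∑_{l>m} (1+l-m)² 2^(-l(p-2)))^{1/2}`
  (Cauchy-Schwarz), the last factor is `C_p 2^(-m(p-2)/2)`.

`tstar_lt` (`1 < p < 2`).  Same with `t` = least `m` with `Φ(m) ≤ 2^m`, `R = 2^t`.  Then `|v| ≤ 2^t`, both terms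
are `≤ 2^t`.  Minimality (`m = t-1`): `Φ(m) > 2^m`, so either `∑_{l≤m}(1+m-l) α_l > 2^(m-1)` — Cauchy-Schwarz with
weights `2^(l(p-2))` (`∑_{l≤m} (1+m-l)² 2^(l(2-p)) = C 2^(m(2-p))`) — or `∑_{l>m} (1+l-m) α_l > 2^(m-1)` —
`(1+l-m) ≤ C 2^((l-m)(p-1))`, so it is `≤ C 2^(-m(p-1)) ∑ 2^(l(p-1)) α_l`.
-/

set_option autoImplicit false

open scoped BigOperators

namespace Crest.Agent.S0358

/-- `x log₂ (1/x) ≤ 1`, scaled form -/
theorem T6b_log_bound (t : ℤ) (v : ℝ) (hv : |v| ≤ (2 : ℝ) ^ (t : ℝ)) :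
    |(t : ℝ) - Real.logb 2 (|v|)| * |v| ≤ (2 : ℝ) ^ (t : ℝ) := by
  rcases (abs_nonneg v).lt_or_eq with h0 | h0
  · have hle : Real.logb 2 (|v|) ≤ t := by
      have := Real.logb_le_logb_of_le (b := 2) (by norm_num) h0 hv
      rwa [Real.logb_rpow (by norm_num) (by norm_num)] at this
    rw [abs_of_nonneg (by linarith)]
    -- y = t - log₂ |v|,  |v| = 2^(t-y)
    set y := (t : ℝ) - Real.logb 2 (|v|) with hy
    have hv2 : |v| = (2 : ℝ) ^ (t : ℝ) * (2 : ℝ) ^ (-y) := by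
      rw [← Real.rpow_add (by norm_num)]
      have : (t : ℝ) + -y = Real.logb 2 (|v|) := by rw [hy]; ring
      rw [this, Real.rpow_logb (by norm_num) (by norm_num) h0]
    have hy0 : 0 ≤ y := by rw [hy]; linarith
    rw [hv2]
    have h1 : y * (2 : ℝ) ^ (-y) ≤ 1 := by
      rw [Real.rpow_neg (by norm_num), ← div_eq_mul_inv, div_le_one (by positivity)]
      -- y ≤ 2^y
      have h2 : (2 : ℝ) ^ y = Real.exp (y * Real.log 2) := by
        rw [Real.rpow_def_of_pos (by norm_num), mul_comm]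
      have h3 := Real.add_one_le_exp (y * Real.log 2)
      have h4 : (0.6931471803 : ℝ) < Real.log 2 := Real.log_two_gt_d9
      -- use exp (y log 2) = (exp (y log 2 / 2))^2 ≥ (1 + y log 2 /2)^2 ≥ 2 y log 2
      have h5 := Real.add_one_le_exp (y * Real.log 2 / 2)
      have h6 : Real.exp (y * Real.log 2) = Real.exp (y * Real.log 2 / 2) ^ 2 := by
        rw [← Real.exp_nat_mul]; congr 1; push_cast; ring
      rw [h2, h6]
      have h7 : (y * Real.log 2 / 2 + 1) ^ 2 ≤ Real.exp (y * Real.log 2 / 2) ^ 2 := by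
        apply pow_le_pow_left₀ _ h5
        positivity
      nlinarith [sq_nonneg (y * Real.log 2 / 2 - 1)]
    calc y * ((2 : ℝ) ^ (t : ℝ) * (2 : ℝ) ^ (-y)) = (2 : ℝ) ^ (t : ℝ) * (y * (2 : ℝ) ^ (-y)) := by
          ring
      _ ≤ (2 : ℝ) ^ (t : ℝ) * 1 := by gcongr
      _ = _ := mul_one _
  · rw [← h0, mul_zero]; positivity

/-- existence of the balancing level -/
theorem T6b_level (s : Finset ℤ) (α : ℤ → ℝ) (hα : ∀ l, 0 ≤ α l) (hS : 0 < ∑ l ∈ s, α l) :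
    ∃ t : ℤ, ∑ l ∈ s, (1 + |(l : ℝ) - t|) * α l ≤ (2 : ℝ) ^ (t : ℝ) ∧
      (2 : ℝ) ^ ((t : ℝ) - 1) < ∑ l ∈ s, (1 + |(l : ℝ) - (t - 1)|) * α l := by
  have hΦ : ∀ m : ℤ, ∑ l ∈ s, α l ≤ ∑ l ∈ s, (1 + |(l : ℝ) - m|) * α l := by
    intro m
    refine Finset.sum_le_sum fun l _ => ?_
    have := mul_nonneg (abs_nonneg ((l : ℝ) - m)) (hα l)
    linarith
  obtain ⟨t, ht, hmin⟩ := Int.exists_least_of_bdd
    (P := fun m : ℤ => ∑ l ∈ s, (1 + |(l : ℝ) - m|) * α l ≤ (2 : ℝ) ^ (m : ℝ)) (by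
      refine ⟨⌊Real.logb 2 (∑ l ∈ s, α l)⌋, fun m hm => ?_⟩
      have h1 := (hΦ m).trans hm
      have h2 := Real.logb_le_logb_of_le (b := 2) (by norm_num) hS h1
      rw [Real.logb_rpow (by norm_num) (by norm_num)] at h2
      exact_mod_cast (Int.floor_le _).trans h2) (by
      -- existence for large `m`
      have ht1 := tendsto_pow_const_div_const_pow_of_one_lt 1 (show (1 : ℝ) < 2 by norm_num)
      have ht0 := tendsto_pow_const_div_const_pow_of_one_lt 0 (show (1 : ℝ) < 2 by norm_num)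
      have ht2 := (ht0.const_mul (∑ l ∈ s, (1 + |(l : ℝ)|) * α l)).add
        (ht1.const_mul (∑ l ∈ s, α l))
      rw [mul_zero, mul_zero, add_zero] at ht2
      obtain ⟨n, hn⟩ := (ht2.eventually (gt_mem_nhds (show (0 : ℝ) < 1 by norm_num))).exists
      refine ⟨(n : ℤ), ?_⟩
      have h3 : (0 : ℝ) < 2 ^ n := by positivity
      have h4 : ∑ l ∈ s, (1 + |(l : ℝ)|) * α l + (∑ l ∈ s, α l) * n ≤ 2 ^ n := by
        have h5 : (∑ l ∈ s, (1 + |(l : ℝ)|) * α l + (∑ l ∈ s, α l) * n) / 2 ^ n ≤ 1 := by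
          refine le_trans (le_of_eq ?_) hn.le
          rw [pow_zero, pow_one]; ring
        rwa [div_le_one h3] at h5
      have h6 : (2 : ℝ) ^ (((n : ℤ) : ℝ)) = 2 ^ n := by
        rw [Int.cast_natCast, Real.rpow_natCast]
      show ∑ l ∈ s, (1 + |(l : ℝ) - ((n : ℤ) : ℝ)|) * α l ≤ (2 : ℝ) ^ (((n : ℤ) : ℝ))
      rw [h6]
      refine le_trans ?_ h4
      rw [Finset.sum_mul, ← Finset.sum_add_distrib]
      refine Finset.sum_le_sum fun l _ => ?_
      have h7 : |(l : ℝ) - ((n : ℤ) : ℝ)| ≤ |(l : ℝ)| + n := by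
        refine (abs_sub _ _).trans ?_
        simp
      nlinarith [hα l])
  refine ⟨t, ht, ?_⟩
  by_contra hcon
  push Not at hcon
  have := hmin (t - 1) (by
    push_cast
    exact hcon)
  omega

theorem T6b_sum1 (β : ℝ) (hβ : 0 < β) : ∃ C1 : ℝ, 0 ≤ C1 ∧ ∀ (F : Finset ℤ) (m : ℤ),
    (∀ l ∈ F, l ≤ m) →
    ∑ l ∈ F, (1 + ((m : ℝ) - l)) ^ 2 * (2 : ℝ) ^ (-(((m : ℝ) - l) * β)) ≤ C1 := by
  classical
  set r : ℝ := (2 : ℝ) ^ (-β) with hr
  have hr0 : 0 < r := by positivity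
  have hr1 : r < 1 := by
    rw [hr]; exact Real.rpow_lt_one_of_one_lt_of_neg (by norm_num) (by linarith)
  let g : ℕ → ℝ := fun k => (1 + (k : ℝ)) ^ 2 * r ^ k
  have hg0 : ∀ k, 0 ≤ g k := fun k => by positivity
  have hgs : Summable g := by
    have h1 := summable_pow_mul_geometric_of_norm_lt_one 2 (r := r)
      (by rw [Real.norm_of_nonneg hr0.le]; exact hr1)
    have h2 := (summable_nat_add_iff 1).2 h1
    have h3 := h2.mul_right r⁻¹
    refine h3.congr fun k => ?_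
    simp only [g]
    push_cast
    rw [pow_succ]
    field_simp
    ring
  refine ⟨∑' k, g k, tsum_nonneg hg0, fun F m hF => ?_⟩
  have h1 : ∀ l ∈ F, (1 + ((m : ℝ) - l)) ^ 2 * (2 : ℝ) ^ (-(((m : ℝ) - l) * β)) =
      g (m - l).toNat := by
    intro l hl
    have h2 : (((m - l).toNat : ℕ) : ℝ) = (m : ℝ) - l := by
      have : (((m - l).toNat : ℕ) : ℤ) = m - l := Int.toNat_of_nonneg (by have := hF l hl; omega)
      exact_mod_cast this
    simp only [g]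
    rw [h2, hr, ← Real.rpow_natCast ((2 : ℝ) ^ (-β)), h2, ← Real.rpow_mul (by norm_num)]
    congr 2
    ring
  rw [Finset.sum_congr rfl h1]
  have hinj : Set.InjOn (fun l : ℤ => (m - l).toNat) F := by
    intro l hl l' hl' h
    have a1 := hF l hl
    have a2 := hF l' hl'
    simp only at h
    omega
  rw [← Finset.sum_image (f := g) hinj]
  exact hgs.sum_le_tsum _ (fun k _ => hg0 k)

theorem T6b_lin (γ : ℝ) (hγ : 0 < γ) : ∃ C2 : ℝ, 0 ≤ C2 ∧ ∀ (l m : ℤ), m ≤ l →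
    1 + ((l : ℝ) - m) ≤ C2 * (2 : ℝ) ^ (((l : ℝ) - m) * γ) := by
  have hg : 0 < (2 : ℝ) ^ γ - 1 := by
    have := Real.one_lt_rpow (show (1 : ℝ) < 2 by norm_num) hγ
    linarith
  refine ⟨1 + ((2 : ℝ) ^ γ - 1)⁻¹, by positivity, fun l m hlm => ?_⟩
  obtain ⟨k, hk⟩ : ∃ k : ℕ, l - m = k := ⟨(l - m).toNat, by omega⟩
  have hk' : (l : ℝ) - m = k := by exact_mod_cast hk
  rw [hk', mul_comm (k : ℝ) γ, Real.rpow_mul (by norm_num), Real.rpow_natCast]
  have hb := one_add_mul_le_pow (a := (2 : ℝ) ^ γ - 1) (by linarith) k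
  rw [add_sub_cancel] at hb
  have h1 : (0 : ℝ) ≤ k := Nat.cast_nonneg k
  have h2 : (k : ℝ) = ((2 : ℝ) ^ γ - 1)⁻¹ * (k * ((2 : ℝ) ^ γ - 1)) := by field_simp
  have h3 : (1 : ℝ) ≤ ((2 : ℝ) ^ γ) ^ k := by nlinarith [mul_nonneg h1 hg.le]
  have h4 : (k : ℝ) * ((2 : ℝ) ^ γ - 1) ≤ ((2 : ℝ) ^ γ) ^ k := by linarith
  have h5 := mul_le_mul_of_nonneg_left h4 (inv_nonneg.2 hg.le)
  rw [← h2] at h5
  linarith

theorem tstar_lt (p : ℝ) (hp1 : 1 < p) (hp2 : p < 2) : ∃ C : ℝ, 0 ≤ C ∧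
    ∀ (s : Finset ℤ) (α : ℤ → ℝ) (_ : ∀ l, 0 ≤ α l) (v : ℝ) (_ : |v| ≤ ∑ l ∈ s, α l),
      ∃ (t : ℤ) (R : ℝ), 0 ≤ R ∧
        ∑ l ∈ s, |(l : ℝ) - t| * α l + |(t : ℝ) - Real.logb 2 (|v|)| * |v| ≤ 2 * R ∧
        R ^ p ≤ C * ∑ l ∈ s, ((2 : ℝ) ^ ((l : ℝ) * (p - 2)) * α l ^ 2
          + (2 : ℝ) ^ ((l : ℝ) * (p - 1)) * α l) := by
  classical
  obtain ⟨C1, hC1, hsum1⟩ := T6b_sum1 (2 - p) (by linarith)
  obtain ⟨C2, hC2, hlin⟩ := T6b_lin (p - 1) (by linarith)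
  refine ⟨2 ^ p * (4 * C1 + 2 * C2), by positivity, fun s α hα v hv => ?_⟩
  have hE0 : ∀ l : ℤ, 0 ≤ (2 : ℝ) ^ ((l : ℝ) * (p - 2)) * α l ^ 2 := fun l => by positivity
  have hE1 : ∀ l : ℤ, 0 ≤ (2 : ℝ) ^ ((l : ℝ) * (p - 1)) * α l := fun l =>
    mul_nonneg (by positivity) (hα l)
  rcases (Finset.sum_nonneg fun l (_ : l ∈ s) => hα l).lt_or_eq with hS | hS
  · obtain ⟨t, ht, hmin⟩ := T6b_level s α hα hS
    have hsumle : ∑ l ∈ s, |(l : ℝ) - t| * α l + ∑ l ∈ s, α l =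
        ∑ l ∈ s, (1 + |(l : ℝ) - t|) * α l := by
      rw [← Finset.sum_add_distrib]
      exact Finset.sum_congr rfl fun l _ => by ring
    have hnn : 0 ≤ ∑ l ∈ s, |(l : ℝ) - t| * α l :=
      Finset.sum_nonneg fun l _ => mul_nonneg (abs_nonneg _) (hα l)
    have hvt : |v| ≤ (2 : ℝ) ^ (t : ℝ) := by linarith
    refine ⟨t, (2 : ℝ) ^ (t : ℝ), by positivity, ?_, ?_⟩
    · have := T6b_log_bound t v hvt
      linarith
    · -- minimality
      obtain ⟨m, hm⟩ : ∃ m : ℤ, m = t - 1 := ⟨_, rfl⟩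
      have hmt : (m : ℝ) = t - 1 := by rw [hm]; push_cast; ring
      rw [← hmt] at hmin
      have hRp : ((2 : ℝ) ^ (t : ℝ)) ^ p = 2 ^ p * 2 ^ ((m : ℝ) * p) := by
        rw [← Real.rpow_mul (by norm_num), ← Real.rpow_add (by norm_num), hmt]
        congr 1; ring
      rw [hRp, mul_assoc]
      refine mul_le_mul_of_nonneg_left ?_ (by positivity)
      have hsplit := Finset.sum_filter_add_sum_filter_not s (fun l => l ≤ m)
        (fun l => (1 + |(l : ℝ) - m|) * α l)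
      rw [← hsplit] at hmin
      have hEsplit : ∑ l ∈ s, ((2 : ℝ) ^ ((l : ℝ) * (p - 2)) * α l ^ 2
          + (2 : ℝ) ^ ((l : ℝ) * (p - 1)) * α l) = ∑ l ∈ s, (2 : ℝ) ^ ((l : ℝ) * (p - 2)) * α l ^ 2
          + ∑ l ∈ s, (2 : ℝ) ^ ((l : ℝ) * (p - 1)) * α l := Finset.sum_add_distrib
      have hA0 : 0 ≤ ∑ l ∈ s, (2 : ℝ) ^ ((l : ℝ) * (p - 2)) * α l ^ 2 :=
        Finset.sum_nonneg fun l _ => hE0 l
      have hB0 : 0 ≤ ∑ l ∈ s, (2 : ℝ) ^ ((l : ℝ) * (p - 1)) * α l :=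
        Finset.sum_nonneg fun l _ => hE1 l
      rw [hEsplit]
      have h2m : (2 : ℝ) ^ (m : ℝ) = 2 * 2 ^ ((m : ℝ) - 1) := by
        rw [Real.rpow_sub_one (by norm_num)]; ring
      have hm1pos : (0 : ℝ) < 2 ^ ((m : ℝ) - 1) := by positivity
      by_cases hcase : (2 : ℝ) ^ ((m : ℝ) - 1) <
          ∑ l ∈ s.filter (fun l => l ≤ m), (1 + |(l : ℝ) - m|) * α l
      · -- low levels, Cauchy-Schwarz
        have hcs := Finset.sum_mul_sq_le_sq_mul_sq (s.filter (fun l => l ≤ m))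
          (fun l => (2 : ℝ) ^ ((l : ℝ) * (p - 2) / 2) * α l)
          (fun l => (1 + ((m : ℝ) - l)) * (2 : ℝ) ^ (-((l : ℝ) * (p - 2) / 2)))
        have e1 : ∑ l ∈ s.filter (fun l => l ≤ m),
            ((2 : ℝ) ^ ((l : ℝ) * (p - 2) / 2) * α l) *
              ((1 + ((m : ℝ) - l)) * (2 : ℝ) ^ (-((l : ℝ) * (p - 2) / 2))) =
            ∑ l ∈ s.filter (fun l => l ≤ m), (1 + |(l : ℝ) - m|) * α l := by
          refine Finset.sum_congr rfl fun l hl => ?_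
          have hlm : (l : ℝ) ≤ m := by exact_mod_cast (Finset.mem_filter.1 hl).2
          rw [abs_of_nonpos (by linarith), Real.rpow_neg (by norm_num)]
          have : (2 : ℝ) ^ ((l : ℝ) * (p - 2) / 2) ≠ 0 := by positivity
          field_simp
          ring
        have e2 : ∑ l ∈ s.filter (fun l => l ≤ m), ((2 : ℝ) ^ ((l : ℝ) * (p - 2) / 2) * α l) ^ 2 ≤
            ∑ l ∈ s, (2 : ℝ) ^ ((l : ℝ) * (p - 2)) * α l ^ 2 := by
          have : ∀ l : ℤ, ((2 : ℝ) ^ ((l : ℝ) * (p - 2) / 2) * α l) ^ 2 =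
              (2 : ℝ) ^ ((l : ℝ) * (p - 2)) * α l ^ 2 := by
            intro l
            rw [mul_pow, ← Real.rpow_natCast, ← Real.rpow_mul (by norm_num)]
            congr 2; push_cast; ring
          simp only [this]
          exact Finset.sum_le_sum_of_subset_of_nonneg (Finset.filter_subset _ _)
            (fun l _ _ => hE0 l)
        have e3 : ∑ l ∈ s.filter (fun l => l ≤ m),
            ((1 + ((m : ℝ) - l)) * (2 : ℝ) ^ (-((l : ℝ) * (p - 2) / 2))) ^ 2 ≤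
            (2 : ℝ) ^ ((m : ℝ) * (2 - p)) * C1 := by
          have h3 : ∀ l : ℤ, ((1 + ((m : ℝ) - l)) * (2 : ℝ) ^ (-((l : ℝ) * (p - 2) / 2))) ^ 2 =
              (2 : ℝ) ^ ((m : ℝ) * (2 - p)) * ((1 + ((m : ℝ) - l)) ^ 2 *
                (2 : ℝ) ^ (-(((m : ℝ) - l) * (2 - p)))) := by
            intro l
            rw [mul_pow, ← Real.rpow_natCast ((2:ℝ) ^ _), ← Real.rpow_mul (by norm_num),
              mul_left_comm, ← Real.rpow_add (by norm_num)]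
            congr 2; push_cast; ring
          simp only [h3]
          rw [← Finset.mul_sum]
          refine mul_le_mul_of_nonneg_left ?_ (by positivity)
          exact hsum1 _ m (fun l hl => (Finset.mem_filter.1 hl).2)
        rw [e1] at hcs
        have h4 : (2 : ℝ) ^ ((m : ℝ) - 1) * 2 ^ ((m : ℝ) - 1) ≤
            (∑ l ∈ s, (2 : ℝ) ^ ((l : ℝ) * (p - 2)) * α l ^ 2) *
              ((2 : ℝ) ^ ((m : ℝ) * (2 - p)) * C1) := by
          refine le_trans ?_ (hcs.trans (mul_le_mul e2 e3 (Finset.sum_nonneg fun _ _ => sq_nonneg _)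
            hA0))
          rw [sq]
          exact mul_le_mul hcase.le hcase.le hm1pos.le (hm1pos.le.trans hcase.le)
        have h5 : (2 : ℝ) ^ ((m : ℝ) * p) * 2 ^ ((m : ℝ) * (2 - p)) =
            4 * (2 ^ ((m : ℝ) - 1) * 2 ^ ((m : ℝ) - 1)) := by
          rw [← Real.rpow_add (by norm_num), ← Real.rpow_add (by norm_num)]
          have : (m : ℝ) - 1 + (m - 1) = (m : ℝ) * p + m * (2 - p) - 2 := by ring
          rw [this, Real.rpow_sub (by norm_num) _ 2]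
          norm_num
          ring
        have h6 : (0 : ℝ) < 2 ^ ((m : ℝ) * (2 - p)) := by positivity
        have h7 : (2 : ℝ) ^ ((m : ℝ) * p) * 2 ^ ((m : ℝ) * (2 - p)) ≤
            (4 * C1 * ∑ l ∈ s, (2 : ℝ) ^ ((l : ℝ) * (p - 2)) * α l ^ 2) *
              2 ^ ((m : ℝ) * (2 - p)) := by
          rw [h5]; nlinarith
        have h8 := le_of_mul_le_mul_right h7 h6
        nlinarith [mul_nonneg hC2 hA0, mul_nonneg hC1 hB0, mul_nonneg hC2 hB0]
      · -- high levels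
        have hhigh : (2 : ℝ) ^ ((m : ℝ) - 1) <
            ∑ l ∈ s.filter (fun l => ¬ l ≤ m), (1 + |(l : ℝ) - m|) * α l := by
          push Not at hcase
          push Not at hmin
          push Not
          linarith
        have e1 : ∑ l ∈ s.filter (fun l => ¬ l ≤ m), (1 + |(l : ℝ) - m|) * α l ≤
            C2 * 2 ^ (-((m : ℝ) * (p - 1))) * ∑ l ∈ s, (2 : ℝ) ^ ((l : ℝ) * (p - 1)) * α l := by
          rw [Finset.mul_sum]
          refine le_trans (Finset.sum_le_sum fun l hl => ?_)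
            (Finset.sum_le_sum_of_subset_of_nonneg (Finset.filter_subset _ _)
            (fun l _ _ => mul_nonneg (by positivity) (hE1 l)))
          have hlm : m ≤ l := (not_le.1 (Finset.mem_filter.1 hl).2).le
          have hlm' : (m : ℝ) ≤ l := by exact_mod_cast hlm
          rw [abs_of_nonneg (by linarith)]
          have h1 := mul_le_mul_of_nonneg_right (hlin l m hlm) (hα l)
          refine h1.trans (le_of_eq ?_)
          have : (2 : ℝ) ^ (((l : ℝ) - m) * (p - 1)) =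
              2 ^ (-((m : ℝ) * (p - 1))) * 2 ^ ((l : ℝ) * (p - 1)) := by
            rw [← Real.rpow_add (by norm_num)]; congr 1; ring
          rw [this]; ring
        have h4 := hhigh.le.trans e1
        have h5 : (2 : ℝ) ^ ((m : ℝ) * p) = 2 * 2 ^ ((m : ℝ) - 1) * 2 ^ ((m : ℝ) * (p - 1)) := by
          rw [← h2m, ← Real.rpow_add (by norm_num)]; congr 1; ring
        have h6 : (2 : ℝ) ^ (-((m : ℝ) * (p - 1))) * 2 ^ ((m : ℝ) * (p - 1)) = 1 := by
          rw [← Real.rpow_add (by norm_num), neg_add_cancel, Real.rpow_zero]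
        have h7 : (0 : ℝ) < 2 ^ ((m : ℝ) * (p - 1)) := by positivity
        have h8 : (2 : ℝ) ^ ((m : ℝ) * p) ≤
            2 * C2 * ∑ l ∈ s, (2 : ℝ) ^ ((l : ℝ) * (p - 1)) * α l := by
          rw [h5]
          calc 2 * 2 ^ ((m : ℝ) - 1) * 2 ^ ((m : ℝ) * (p - 1))
              ≤ 2 * (C2 * 2 ^ (-((m : ℝ) * (p - 1))) *
                ∑ l ∈ s, (2 : ℝ) ^ ((l : ℝ) * (p - 1)) * α l) * 2 ^ ((m : ℝ) * (p - 1)) := by
                gcongr
            _ = 2 * C2 * (2 ^ (-((m : ℝ) * (p - 1))) * 2 ^ ((m : ℝ) * (p - 1))) *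
                ∑ l ∈ s, (2 : ℝ) ^ ((l : ℝ) * (p - 1)) * α l := by ring
            _ = _ := by rw [h6]; ring
        nlinarith [mul_nonneg hC1 hA0, mul_nonneg hC2 hA0, mul_nonneg hC1 hB0]
  · -- trivial case
    have hz := (Finset.sum_eq_zero_iff_of_nonneg (fun l _ => hα l)).1 hS.symm
    have hv0 : v = 0 := by
      rw [← hS] at hv
      exact abs_nonpos_iff.1 hv
    refine ⟨0, 0, le_rfl, ?_, ?_⟩
    · rw [hv0, abs_zero, mul_zero, add_zero, mul_zero]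
      exact le_of_eq (Finset.sum_eq_zero fun l hl => by rw [hz l hl, mul_zero])
    · rw [Real.zero_rpow (by linarith)]
      exact mul_nonneg (by positivity) (Finset.sum_nonneg fun l _ => add_nonneg (hE0 l) (hE1 l))

end Crest.Agent.S0358
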