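import Crest.Agent.S0358_T1
import Crest.Agent.S0358_T5a
import Crest.Agent.S0358_T5b
import Crest.Agent.S0358_T6a
import Crest.Agent.S0358_T6b

/-!
# Task T7 (row S0358): the interpolation estimate (assembly of T1, T5, T6)

For `e, ω` let `α_l = |∑_{τ : lev = l} K e τ b τ ω|`, `V' = ∑_τ K e τ b τ ω` (`|V - V'| ≤ η`).
For any real `t`:
`‖(GG_i - VV_i(V'))_i‖_p ≤ (16/L)(∑_l |l - t| α_l + |t - log₂|V'|| |V'|)` (`Psi_lip`, Minkowski), and
`‖(VV_i(V') - VV_i(V))_i‖_p ≤ (1 + 32/L) η` (`VV_lip`).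
-/

set_option autoImplicit false

open scoped BigOperators

namespace Crest.Agent.S0358

theorem T7_pn_prod {ι Ω : Type*} [Fintype ι] [Fintype Ω] {p : ℝ} (hp : 0 < p) {μ : Ω → ℝ}
    (H : ι → Ω → ℝ) :
    pn p (fun q : ι × Ω => μ q.2) (fun q => H q.1 q.2)
      = pn p μ (fun ω => pn p (fun _ : ι => 1) (fun i => H i ω)) := by
  have hsum : ∑ q : ι × Ω, μ q.2 * |H q.1 q.2| ^ p
      = ∑ ω, μ ω * |pn p (fun _ : ι => 1) (fun i => H i ω)| ^ p := by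
    rw [Fintype.sum_prod_type_right]
    refine Finset.sum_congr rfl fun ω _ => ?_
    dsimp only
    rw [← Finset.mul_sum]
    congr 1
    have h0 : 0 ≤ pn p (fun _ : ι => 1) (fun i => H i ω) := pn_nonneg (fun _ => zero_le_one) _
    have h1 := pn_rpow hp (fun _ : ι => zero_le_one) (fun i => H i ω) (μ := fun _ => (1 : ℝ))
    simp only [one_mul] at h1
    rw [abs_of_nonneg h0, h1]
  calc pn p (fun q : ι × Ω => μ q.2) (fun q => H q.1 q.2)
      = (∑ q : ι × Ω, μ q.2 * |H q.1 q.2| ^ p) ^ (1 / p) := rfl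
    _ = _ := by rw [hsum]; rfl

theorem T7_pointwise {p L : ℝ} (hp : 1 ≤ p) (hL : 0 < L) (J : ℕ) {𝒯 : Type*} [Fintype 𝒯]
    (c : 𝒯 → ℝ) (lv : 𝒯 → ℤ) (s : Finset ℤ) (hs : ∀ τ, lv τ ∈ s) (t : ℝ) :
    pn p (fun _ : Fin (J + 1) => 1)
        (fun i => (∑ τ, c τ * Psi p L J i (lv τ : ℤ)) - VV p L J i (∑ τ, c τ))
      ≤ 16 / L * (∑ l ∈ s, |(l : ℝ) - t| * |∑ τ, (if lv τ = l then c τ else 0)|
          + |t - Real.logb 2 (|∑ τ, c τ|)| * |∑ τ, c τ|) := by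
  have hp0 : 0 < p := by linarith
  have hone : ∀ _ : Fin (J + 1), (0 : ℝ) ≤ 1 := fun _ => zero_le_one
  set v : ℝ := ∑ τ, c τ with hv
  set al : ℤ → ℝ := fun l => ∑ τ, (if lv τ = l then c τ else 0) with hal
  have h1 : ∀ F : ℤ → ℝ, ∑ τ, c τ * F (lv τ) = ∑ l ∈ s, al l * F l := by
    intro F
    simp only [hal, Finset.sum_mul]
    rw [Finset.sum_comm]
    refine Finset.sum_congr rfl fun τ _ => ?_
    rw [Finset.sum_eq_single (lv τ)]
    · simp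
    · intro l _ hl
      rw [if_neg (Ne.symm hl), zero_mul]
    · intro h; exact absurd (hs τ) h
  have h2 : v = ∑ l ∈ s, al l := by
    have := h1 (fun _ => 1)
    simpa [hv] using this
  have h3 : (fun i : Fin (J + 1) => (∑ τ, c τ * Psi p L J i (lv τ : ℤ)) - VV p L J i v)
      = fun i => (∑ l ∈ s, al l * (Psi p L J i (l : ℤ) - Psi p L J i t))
          + v * (Psi p L J i t - Psi p L J i (Real.logb 2 |v|)) := by
    funext i
    rw [h1 (fun l => Psi p L J i (l : ℤ))]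
    simp only [mul_sub, Finset.sum_sub_distrib, ← Finset.sum_mul]
    rw [← h2]
    unfold VV
    ring
  rw [h3]
  refine (pn_add_le hp hone _ _).trans ?_
  rw [mul_add]
  refine add_le_add ?_ ?_
  · refine (pn_sum_le hp hone s _).trans ?_
    rw [Finset.mul_sum]
    refine Finset.sum_le_sum fun l _ => ?_
    rw [pn_const_mul hp0 hone]
    have := Psi_lip (J := J) hp hL (l : ℝ) t
    calc |al l| * pn p (fun _ => 1) (fun i => Psi p L J i (l : ℤ) - Psi p L J i t)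
        ≤ |al l| * (16 / L * |(l : ℝ) - t|) := mul_le_mul_of_nonneg_left this (abs_nonneg _)
      _ = _ := by ring
  · rw [pn_const_mul hp0 hone]
    have := Psi_lip (J := J) hp hL t (Real.logb 2 |v|)
    calc |v| * pn p (fun _ => 1) (fun i => Psi p L J i t - Psi p L J i (Real.logb 2 |v|))
        ≤ |v| * (16 / L * |t - Real.logb 2 (|v|)|) := mul_le_mul_of_nonneg_left this (abs_nonneg _)
      _ = _ := by ring

/-- Jensen for the concave power `θ ≤ 1` -/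
theorem T7_rpow_avg {E : Type*} [Fintype E] (g : E → ℝ) (hg : ∀ e, 0 ≤ g e) (hg1 : ∑ e, g e = 1)
    (θ : ℝ) (hθ0 : 0 ≤ θ) (hθ1 : θ ≤ 1) (Y : E → ℝ) (hY : ∀ e, 0 ≤ Y e) (Y0 : ℝ) (hY0 : 0 < Y0)
    (h : ∑ e, g e * Y e ≤ Y0) : ∑ e, g e * Y e ^ θ ≤ Y0 ^ θ := by
  have h1 : ∀ e, Y e ^ θ ≤ Y0 ^ θ * (θ * (Y e / Y0) + (1 - θ)) := by
    intro e
    have h2 := Real.geom_mean_le_arith_mean2_weighted hθ0 (by linarith : (0:ℝ) ≤ 1 - θ)
      (div_nonneg (hY e) hY0.le) zero_le_one (by ring)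
    rw [Real.one_rpow, mul_one, mul_one, Real.div_rpow (hY e) hY0.le,
      div_le_iff₀ (Real.rpow_pos_of_pos hY0 θ)] at h2
    linarith
  calc ∑ e, g e * Y e ^ θ ≤ ∑ e, g e * (Y0 ^ θ * (θ * (Y e / Y0) + (1 - θ))) :=
        Finset.sum_le_sum fun e _ => mul_le_mul_of_nonneg_left (h1 e) (hg e)
    _ = Y0 ^ θ * (θ * ((∑ e, g e * Y e) / Y0) + (1 - θ) * ∑ e, g e) := by
        rw [Finset.sum_div, Finset.mul_sum, Finset.mul_sum, ← Finset.sum_add_distrib,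
          Finset.mul_sum]
        refine Finset.sum_congr rfl fun e _ => by ring
    _ ≤ Y0 ^ θ * (θ * 1 + (1 - θ) * 1) := by
        rw [hg1]
        have : (∑ e, g e * Y e) / Y0 ≤ 1 := by rw [div_le_one hY0]; exact h
        gcongr
    _ = Y0 ^ θ := by ring

/-- Hölder-type bound -/
theorem T7_rpow_avg2 {E : Type*} [Fintype E] (g : E → ℝ) (hg : ∀ e, 0 ≤ g e)
    (hg1 : ∑ e, g e = 1) (p : ℝ) (hp : 2 < p) (X Z : E → ℝ) (hX : ∀ e, 0 ≤ X e)
    (hZ : ∀ e, 0 ≤ Z e) (X0 Z0 : ℝ) (hX0 : 0 < X0) (hZ0 : 0 ≤ Z0)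
    (h1 : ∑ e, g e * X e ≤ X0) (h2 : ∑ e, g e * Z e ≤ Z0) :
    ∑ e, g e * (X e ^ (1 - 2 / p) * Z e ^ (1 / p)) ≤ X0 ^ (1 - 2 / p) * (1 + Z0) := by
  have hp0 : 0 < p := by linarith
  have hθ0 : 0 ≤ 1 - 2 / p := by
    rw [sub_nonneg, div_le_one hp0]; linarith
  have key : ∀ e, X e ^ (1 - 2 / p) * Z e ^ (1 / p)
      ≤ X0 ^ (1 - 2 / p) * ((1 - 2 / p) * (X e / X0) + 1 / p * Z e + 1 / p) := by
    intro e
    have h3 := Real.geom_mean_le_arith_mean3_weighted hθ0 (by positivity : (0:ℝ) ≤ 1 / p)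
      (by positivity : (0:ℝ) ≤ 1 / p)
      (div_nonneg (hX e) hX0.le) (hZ e) zero_le_one (by ring)
    rw [Real.one_rpow, mul_one, mul_one, Real.div_rpow (hX e) hX0.le, div_mul_eq_mul_div,
      div_le_iff₀ (Real.rpow_pos_of_pos hX0 _)] at h3
    linarith
  calc ∑ e, g e * (X e ^ (1 - 2 / p) * Z e ^ (1 / p))
      ≤ ∑ e, g e * (X0 ^ (1 - 2 / p) * ((1 - 2 / p) * (X e / X0) + 1 / p * Z e + 1 / p)) :=
        Finset.sum_le_sum fun e _ => mul_le_mul_of_nonneg_left (key e) (hg e)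
    _ = X0 ^ (1 - 2 / p) * ((1 - 2 / p) * ((∑ e, g e * X e) / X0) + 1 / p * (∑ e, g e * Z e)
          + 1 / p * ∑ e, g e) := by
        rw [Finset.sum_div, Finset.mul_sum, Finset.mul_sum, Finset.mul_sum,
          ← Finset.sum_add_distrib, ← Finset.sum_add_distrib, Finset.mul_sum]
        refine Finset.sum_congr rfl fun e _ => by ring
    _ ≤ X0 ^ (1 - 2 / p) * ((1 - 2 / p) * 1 + 1 / p * Z0 + 1 / p * 1) := by
        rw [hg1]
        have : (∑ e, g e * X e) / X0 ≤ 1 := by rw [div_le_one hX0]; exact h1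
        gcongr
    _ ≤ X0 ^ (1 - 2 / p) * (1 + Z0) := by
        apply mul_le_mul_of_nonneg_left _ (Real.rpow_nonneg hX0.le _)
        have h3 : 1 / p ≤ 1 := by rw [div_le_one hp0]; linarith
        have h4 : 1 / p * Z0 ≤ 1 * Z0 := mul_le_mul_of_nonneg_right h3 hZ0
        have h5 : 2 / p = 1 / p + 1 / p := by ring
        have h6 : 0 < 1 / p := by positivity
        rw [h5]
        linarith

theorem T7_pn_const {Ω : Type*} [Fintype Ω] {p : ℝ} (hp : 0 < p) {μ : Ω → ℝ}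
    (hμ1 : ∑ ω, μ ω = 1) {c : ℝ} (hc : 0 ≤ c) : pn p μ (fun _ => c) = c := by
  unfold pn
  rw [← Finset.sum_mul, hμ1, one_mul, abs_of_nonneg hc, ← Real.rpow_mul hc,
    mul_one_div_cancel hp.ne', Real.rpow_one]

theorem T7_err {Ω : Type*} [Fintype Ω] {p L : ℝ} (hp : 1 ≤ p) (hL : 1 ≤ L) (J : ℕ) {μ : Ω → ℝ}
    (hμ : ∀ ω, 0 ≤ μ ω) (hμ1 : ∑ ω, μ ω = 1) (H : Fin (J + 1) → Ω → ℝ) (v v' B : Ω → ℝ)
    (_ : ∀ ω, 0 ≤ B ω) (η : ℝ) (hη : 0 ≤ η) (hv : ∀ ω, |v ω - v' ω| ≤ η)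
    (h : ∀ ω, pn p (fun _ : Fin (J + 1) => 1) (fun i => H i ω - VV p L J i (v' ω))
      ≤ 16 / L * B ω) :
    pn p (fun q : Fin (J + 1) × Ω => μ q.2) (fun q => H q.1 q.2 - VV p L J q.1 (v q.2))
      ≤ 16 / L * pn p μ B + 33 * η := by
  have hp0 : 0 < p := by linarith
  have hL0 : 0 < L := by linarith
  have hone : ∀ _ : Fin (J + 1), (0 : ℝ) ≤ 1 := fun _ => zero_le_one
  rw [T7_pn_prod hp0 (fun i ω => H i ω - VV p L J i (v ω))]
  have h1 : ∀ ω, pn p (fun _ : Fin (J + 1) => 1) (fun i => H i ω - VV p L J i (v ω))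
      ≤ 16 / L * B ω + 33 * η := by
    intro ω
    have h2 := pn_add_le hp hone (fun i => H i ω - VV p L J i (v' ω))
      (fun i => VV p L J i (v' ω) - VV p L J i (v ω))
    simp only [sub_add_sub_cancel] at h2
    refine h2.trans (add_le_add (h ω) ?_)
    refine (VV_lip hp hL0 _ _).trans ?_
    have h3 : (1 + 32 / L) ≤ 33 := by
      have : 32 / L ≤ 32 := by rw [div_le_iff₀ hL0]; linarith
      linarith
    rw [abs_sub_comm]
    exact mul_le_mul h3 (hv ω) (abs_nonneg _) (by norm_num)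
  calc pn p μ (fun ω => pn p (fun _ : Fin (J + 1) => 1) (fun i => H i ω - VV p L J i (v ω)))
      ≤ pn p μ (fun ω => 16 / L * B ω + 33 * η) := by
        apply pn_mono hp0 hμ
        intro ω
        rw [abs_of_nonneg (pn_nonneg hone _)]
        exact (h1 ω).trans (le_abs_self _)
    _ ≤ pn p μ (fun ω => 16 / L * B ω) + pn p μ (fun _ => 33 * η) := pn_add_le hp hμ _ _
    _ = 16 / L * pn p μ B + 33 * η := by
        rw [pn_const_mul hp0 hμ, abs_of_nonneg (by positivity), T7_pn_const hp0 hμ1 (by positivity)]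

/-- the level amplitudes -/
noncomputable def T7al {E 𝒯 Ω : Type*} [Fintype E] [Fintype 𝒯] (w : 𝒯 → ℝ)
    (M : 𝒯 → E → ℝ) (K : E → 𝒯 → ℝ) (V : E → Ω → ℝ) (e : E) (ω : Ω) (l : ℤ) : ℝ :=
  |∑ τ, (if lev (bb M V τ ω) (w τ) = l then K e τ * bb M V τ ω else 0)|

theorem T7_GG {E 𝒯 Ω : Type*} [Fintype E] [Fintype 𝒯] {p L : ℝ} (hp : 1 ≤ p) (hL : 0 < L) (J : ℕ)
    (w : 𝒯 → ℝ) (M : 𝒯 → E → ℝ) (K : E → 𝒯 → ℝ) (V : E → Ω → ℝ) (e : E) (ω : Ω)
    (s : Finset ℤ) (hs : ∀ τ, lev (bb M V τ ω) (w τ) ∈ s) (t : ℝ) :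
    pn p (fun _ : Fin (J + 1) => 1)
        (fun i => GG p L J w M K V i e ω - VV p L J i (∑ τ, K e τ * bb M V τ ω))
      ≤ 16 / L * (∑ l ∈ s, |(l : ℝ) - t| * T7al w M K V e ω l
          + |t - Real.logb 2 (|∑ τ, K e τ * bb M V τ ω|)| * |∑ τ, K e τ * bb M V τ ω|) := by
  have := T7_pointwise hp hL J (fun τ => K e τ * bb M V τ ω)
    (fun τ => lev (bb M V τ ω) (w τ)) s hs t
  unfold T7al GG
  simpa only [mul_assoc] using this

theorem T7_abs_le_sum {E 𝒯 Ω : Type*} [Fintype E] [Fintype 𝒯]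
    (w : 𝒯 → ℝ) (M : 𝒯 → E → ℝ) (K : E → 𝒯 → ℝ) (V : E → Ω → ℝ) (e : E) (ω : Ω)
    (s : Finset ℤ) (hs : ∀ τ, lev (bb M V τ ω) (w τ) ∈ s) :
    |∑ τ, K e τ * bb M V τ ω| ≤ ∑ l ∈ s, T7al w M K V e ω l := by
  have h1 : ∑ τ, K e τ * bb M V τ ω
      = ∑ l ∈ s, ∑ τ, (if lev (bb M V τ ω) (w τ) = l then K e τ * bb M V τ ω else 0) := by
    rw [Finset.sum_comm]
    refine Finset.sum_congr rfl fun τ _ => ?_
    rw [Finset.sum_eq_single (lev (bb M V τ ω) (w τ))]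
    · simp
    · intro l _ hl
      rw [if_neg (Ne.symm hl)]
    · intro h; exact absurd (hs τ) h
  rw [h1]
  exact Finset.abs_sum_le_sum_abs _ _

theorem T7_S2 {E 𝒯 Ω : Type} [Fintype E] [Fintype 𝒯] {g : E → ℝ} {κ : ℝ} (S : Sys E 𝒯 g κ)
    (V : E → Ω → ℝ) (ω : Ω) (l : ℤ) :
    ∑ e, g e * T7al S.w S.M S.K V e ω l ^ 2
      ≤ 2 * ∑ τ, (if lev (bb S.M V τ ω) (S.w τ) = l then S.lam τ * (bb S.M V τ ω) ^ 2 else 0) := by
  have h := S.S2 (fun τ => if lev (bb S.M V τ ω) (S.w τ) = l then bb S.M V τ ω else 0)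
  refine le_trans (le_of_eq ?_) (h.trans (le_of_eq ?_))
  · refine Finset.sum_congr rfl fun e _ => ?_
    unfold T7al
    rw [sq_abs]
    congr 3
    funext τ
    split_ifs <;> simp
  · congr 1
    refine Finset.sum_congr rfl fun τ _ => ?_
    split_ifs <;> simp

theorem T7_S1 {E 𝒯 Ω : Type} [Fintype E] [Fintype 𝒯] {g : E → ℝ} (hg : ∀ e, 0 ≤ g e) {κ : ℝ}
    (S : Sys E 𝒯 g κ) (V : E → Ω → ℝ) (ω : Ω) (l : ℤ) :
    ∑ e, g e * T7al S.w S.M S.K V e ω l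
      ≤ 2 * ∑ τ, (if lev (bb S.M V τ ω) (S.w τ) = l then S.lam τ * (S.w τ * |bb S.M V τ ω|)
          else 0) := by
  have h1 : ∀ e, g e * T7al S.w S.M S.K V e ω l
      ≤ ∑ τ, (g e * |S.K e τ|) *
          (if lev (bb S.M V τ ω) (S.w τ) = l then |bb S.M V τ ω| else 0) := by
    intro e
    unfold T7al
    calc g e * |∑ τ, (if lev (bb S.M V τ ω) (S.w τ) = l then S.K e τ * bb S.M V τ ω else 0)|
        ≤ g e * ∑ τ, |(if lev (bb S.M V τ ω) (S.w τ) = l then S.K e τ * bb S.M V τ ω else 0)| :=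
          mul_le_mul_of_nonneg_left (Finset.abs_sum_le_sum_abs _ _) (hg e)
      _ = _ := by
          rw [Finset.mul_sum]
          refine Finset.sum_congr rfl fun τ _ => ?_
          split_ifs
          · rw [abs_mul]; ring
          · simp
  calc ∑ e, g e * T7al S.w S.M S.K V e ω l
      ≤ ∑ e, ∑ τ, (g e * |S.K e τ|) *
          (if lev (bb S.M V τ ω) (S.w τ) = l then |bb S.M V τ ω| else 0) :=
        Finset.sum_le_sum fun e _ => h1 e
    _ = ∑ τ, (∑ e, g e * |S.K e τ|) *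
          (if lev (bb S.M V τ ω) (S.w τ) = l then |bb S.M V τ ω| else 0) := by
        rw [Finset.sum_comm]
        refine Finset.sum_congr rfl fun τ _ => by rw [Finset.sum_mul]
    _ ≤ ∑ τ, (2 * S.lam τ * S.w τ) *
          (if lev (bb S.M V τ ω) (S.w τ) = l then |bb S.M V τ ω| else 0) := by
        refine Finset.sum_le_sum fun τ _ => mul_le_mul_of_nonneg_right (S.K_le τ) ?_
        split_ifs
        · exact abs_nonneg _
        · exact le_rfl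
    _ = _ := by
        rw [Finset.mul_sum]
        refine Finset.sum_congr rfl fun τ _ => ?_
        split_ifs
        · ring
        · simp

theorem T7_bb_lt {E 𝒯 Ω : Type} [Fintype E] [Fintype 𝒯] {g : E → ℝ} {κ : ℝ}
    (S : Sys E 𝒯 g κ) (V : E → Ω → ℝ) (τ : 𝒯) (ω : Ω) :
    |bb S.M V τ ω| ≤ (2 : ℝ) ^ ((lev (bb S.M V τ ω) (S.w τ) : ℝ) + 1) * S.w τ := by
  by_cases hw : S.w τ = 0
  · have h1 : ∀ e, S.M τ e = 0 := by
      intro e
      have h2 : |S.M τ e| ≤ ∑ e, |S.M τ e| :=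
        Finset.single_le_sum (f := fun e => |S.M τ e|) (fun e _ => abs_nonneg _)
          (Finset.mem_univ e)
      have h3 := S.M_le τ
      rw [hw] at h3
      exact abs_eq_zero.1 (le_antisymm (h2.trans h3) (abs_nonneg _))
    have : bb S.M V τ ω = 0 := by unfold bb; simp [h1]
    rw [this, abs_zero, hw, mul_zero]
  · have hw0 : 0 < S.w τ := lt_of_le_of_ne (S.w_nonneg τ) (Ne.symm hw)
    have h1 := Int.lt_zpow_succ_log_self (b := 2) (by norm_num) (|bb S.M V τ ω| / S.w τ)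
    rw [div_lt_iff₀ hw0] at h1
    refine h1.le.trans (le_of_eq ?_)
    congr 1
    rw [← Real.rpow_intCast]
    unfold lev
    push_cast
    rfl

theorem T7al_le {E 𝒯 Ω : Type} [Fintype E] [Fintype 𝒯] {g : E → ℝ} {κ : ℝ}
    (S : Sys E 𝒯 g κ) (V : E → Ω → ℝ) (e : E) (ω : Ω) (l : ℤ) :
    T7al S.w S.M S.K V e ω l ≤ (2 : ℝ) ^ ((l : ℝ) + 1) * ∑ τ, |S.K e τ| * S.w τ := by
  unfold T7al
  refine (Finset.abs_sum_le_sum_abs _ _).trans ?_
  rw [Finset.mul_sum]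
  refine Finset.sum_le_sum fun τ _ => ?_
  split_ifs with h
  · rw [abs_mul]
    have := T7_bb_lt S V τ ω
    rw [h] at this
    calc |S.K e τ| * |bb S.M V τ ω| ≤ |S.K e τ| * ((2 : ℝ) ^ ((l : ℝ) + 1) * S.w τ) :=
          mul_le_mul_of_nonneg_left this (abs_nonneg _)
      _ = _ := by ring
  · rw [abs_zero]
    have := S.w_nonneg τ
    positivity

theorem T7_swap {E Ω : Type*} [Fintype E] [Fintype Ω] (g : E → ℝ) (μ : Ω → ℝ) (s : Finset ℤ)
    (F : E → Ω → ℤ → ℝ) (W : ℤ → ℝ) :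
    ∑ e, g e * ∑ ω, μ ω * ∑ l ∈ s, W l * F e ω l
      = ∑ l ∈ s, W l * ∑ ω, μ ω * ∑ e, g e * F e ω l := by
  simp only [Finset.mul_sum]
  rw [Finset.sum_comm]
  rw [Finset.sum_comm (s := s)]
  refine Finset.sum_congr rfl fun ω _ => ?_
  rw [Finset.sum_comm]
  refine Finset.sum_congr rfl fun l _ => Finset.sum_congr rfl fun e _ => by ring

theorem T7_interp_gt (p : ℝ) (hp : 2 < p) : ∃ C : ℝ, 0 ≤ C ∧
    ∀ {E 𝒯 Ω : Type} [Fintype E] [Fintype 𝒯] [Fintype Ω] (g : E → ℝ) (_ : ∀ e, 0 ≤ g e)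
      (_ : ∑ e, g e = 1) (κ : ℝ) (_ : 1 ≤ κ) (S : Sys E 𝒯 g κ) (μ : Ω → ℝ)
      (_ : ∀ ω, 0 ≤ μ ω) (_ : ∑ ω, μ ω = 1)
      (V : E → Ω → ℝ) (_ : ∀ e, ∑ ω, μ ω * |V e ω| ^ p ≤ 1) (L : ℝ) (_ : 1 ≤ L) (J : ℕ)
      (η : ℝ) (_ : 0 ≤ η) (_ : η ≤ 1)
      (_ : ∀ e ω, |V e ω - ∑ τ, S.K e τ * bb S.M V τ ω| ≤ η),
      ∑ e, g e * pn p (fun q : Fin (J + 1) × Ω => μ q.2)
          (fun q => GG p L J S.w S.M S.K V q.1 e q.2 - VV p L J q.1 (V e q.2))
        ≤ C / L * κ ^ (1 - 2 / p) + C * η := by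
  classical
  have hp0 : 0 < p := by linarith
  have hp1 : 1 ≤ p := by linarith
  obtain ⟨C6, hC60, hC6⟩ := tstar_gt p hp
  obtain ⟨C5, hC50, hC5⟩ := analysis_gt p hp
  set θ : ℝ := 1 - 2 / p with hθ
  have hθ0 : 0 < θ := by rw [hθ, sub_pos, div_lt_one hp0]; exact hp
  have hθ1 : θ ≤ 1 := by
    rw [hθ]; have : 0 < 2 / p := by positivity
    linarith
  have hlog2 : 0 < Real.log 2 := Real.log_pos (by norm_num)
  set A1 : ℝ := 17 * (C6 ^ (1 / p) * (1 + 2 * C5)) with hA1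
  set A2 : ℝ := 2 * (16 ^ θ / (θ * Real.log 2)) with hA2
  have hA10 : 0 ≤ A1 := by positivity
  have hA20 : 0 ≤ A2 := by positivity
  refine ⟨16 * 3 * (A1 + A2) + 33, by positivity, ?_⟩
  intro E 𝒯 Ω _ _ _ g hg hg1 κ hκ S μ hμ hμ1 V hV L hL J η hη hη1 hrep
  have hL0 : 0 < L := by linarith
  set s : Finset ℤ := Finset.univ.image (fun q : 𝒯 × Ω => lev (bb S.M V q.1 q.2) (S.w q.1)) with hs
  have hsm : ∀ ω τ, lev (bb S.M V τ ω) (S.w τ) ∈ s := by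
    intro ω τ
    rw [hs, Finset.mem_image]
    exact ⟨(τ, ω), Finset.mem_univ _, rfl⟩
  set Λ : E → ℝ := fun e => ∑ τ, |S.K e τ| * S.w τ with hΛ
  have hΛ0 : ∀ e, 0 ≤ Λ e := fun e =>
    Finset.sum_nonneg fun τ _ => mul_nonneg (abs_nonneg _) (S.w_nonneg τ)
  set X : E → ℝ := fun e => max (Λ e) 1 with hX
  have hX1 : ∀ e, 1 ≤ X e := fun e => le_max_right _ _
  have hXΛ : ∀ e, Λ e ≤ X e := fun e => le_max_left _ _
  have hX0 : ∀ e, 0 < X e := fun e => lt_of_lt_of_le one_pos (hX1 e)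
  have hgΛ : ∑ e, g e * Λ e ≤ 2 * κ := by
    calc ∑ e, g e * ∑ τ, |S.K e τ| * S.w τ
        = ∑ τ, (∑ e, g e * |S.K e τ|) * S.w τ := by
          simp only [Finset.mul_sum, Finset.sum_mul]
          rw [Finset.sum_comm]
          refine Finset.sum_congr rfl fun τ _ => Finset.sum_congr rfl fun e _ => by ring
      _ ≤ ∑ τ, (2 * S.lam τ * S.w τ) * S.w τ :=
          Finset.sum_le_sum fun τ _ => mul_le_mul_of_nonneg_right (S.K_le τ) (S.w_nonneg τ)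
      _ = 2 * ∑ τ, S.lam τ * S.w τ ^ 2 := by
          rw [Finset.mul_sum]
          refine Finset.sum_congr rfl fun τ _ => by ring
      _ ≤ 2 * κ := by
          have := S.W
          linarith
  have hgX : ∑ e, g e * X e ≤ 3 * κ := by
    calc ∑ e, g e * X e ≤ ∑ e, (g e * Λ e + g e) := by
          refine Finset.sum_le_sum fun e _ => ?_
          have : X e ≤ Λ e + 1 := max_le (by linarith) (by linarith [hΛ0 e])
          calc g e * X e ≤ g e * (Λ e + 1) := mul_le_mul_of_nonneg_left this (hg e)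
            _ = _ := by ring
      _ = (∑ e, g e * Λ e) + 1 := by rw [Finset.sum_add_distrib, hg1]
      _ ≤ 3 * κ := by linarith
  set al : E → Ω → ℤ → ℝ := fun e ω l => T7al S.w S.M S.K V e ω l with hal
  have hal0 : ∀ e ω l, 0 ≤ al e ω l := fun e ω l => abs_nonneg _
  set V' : E → Ω → ℝ := fun e ω => ∑ τ, S.K e τ * bb S.M V τ ω with hV'
  have hex : ∀ e ω, ∃ (t : ℤ) (R : ℝ), 0 ≤ R ∧
        ∑ l ∈ s, |(l : ℝ) - t| * al e ω l + |(t : ℝ) - Real.logb 2 (|V' e ω|)| * |V' e ω|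
          ≤ 17 * R + Real.logb 2 (16 * X e) * |V' e ω| ∧
        R ^ p ≤ C6 * X e ^ (p - 2) * ∑ l ∈ s, (2 : ℝ) ^ ((l : ℝ) * (p - 2)) * al e ω l ^ 2 := by
    intro e ω
    refine hC6 s (al e ω) (hal0 e ω) (X e) (hX1 e) ?_ (V' e ω) ?_
    · intro l _
      exact (T7al_le S V e ω l).trans (mul_le_mul_of_nonneg_left (hXΛ e) (by positivity))
    · exact T7_abs_le_sum S.w S.M S.K V e ω s (hsm ω)
  choose t R hR0 hR1 hR2 using hex
  set Z : E → ℝ := fun e => ∑ ω, μ ω * ∑ l ∈ s, (2 : ℝ) ^ ((l : ℝ) * (p - 2)) * al e ω l ^ 2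
    with hZ
  have hZ0 : ∀ e, 0 ≤ Z e := fun e => Finset.sum_nonneg fun ω _ => mul_nonneg (hμ ω)
    (Finset.sum_nonneg fun l _ => by positivity)
  have hgZ : ∑ e, g e * Z e ≤ 2 * C5 := by
    have h1 := hC5 g hg hg1.le κ S μ hμ V hV s
    calc ∑ e, g e * Z e
        = ∑ l ∈ s, (2 : ℝ) ^ ((l : ℝ) * (p - 2)) * ∑ ω, μ ω * ∑ e, g e * al e ω l ^ 2 := by
          exact T7_swap g μ s (fun e ω l => al e ω l ^ 2) (fun l => (2 : ℝ) ^ ((l : ℝ) * (p - 2)))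
      _ ≤ ∑ l ∈ s, (2 : ℝ) ^ ((l : ℝ) * (p - 2)) * ∑ ω, μ ω * (2 * ∑ τ,
            (if lev (bb S.M V τ ω) (S.w τ) = l then S.lam τ * (bb S.M V τ ω) ^ 2 else 0)) := by
          refine Finset.sum_le_sum fun l _ => mul_le_mul_of_nonneg_left ?_ (by positivity)
          exact Finset.sum_le_sum fun ω _ => mul_le_mul_of_nonneg_left (T7_S2 S V ω l) (hμ ω)
      _ = 2 * ∑ l ∈ s, (2 : ℝ) ^ ((l : ℝ) * (p - 2)) * ∑ ω, μ ω * ∑ τ,
            (if lev (bb S.M V τ ω) (S.w τ) = l then S.lam τ * (bb S.M V τ ω) ^ 2 else 0) := by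
          rw [Finset.mul_sum]
          refine Finset.sum_congr rfl fun l _ => ?_
          rw [Finset.mul_sum, Finset.mul_sum, Finset.mul_sum]
          refine Finset.sum_congr rfl fun ω _ => by ring
      _ ≤ 2 * C5 := by linarith
  have hpnR : ∀ e, pn p μ (R e) ≤ C6 ^ (1 / p) * (X e ^ θ * Z e ^ (1 / p)) := by
    intro e
    unfold pn
    have h1 : ∑ ω, μ ω * |R e ω| ^ p ≤ C6 * X e ^ (p - 2) * Z e := by
      calc ∑ ω, μ ω * |R e ω| ^ p
          ≤ ∑ ω, μ ω * (C6 * X e ^ (p - 2)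
              * ∑ l ∈ s, (2 : ℝ) ^ ((l : ℝ) * (p - 2)) * al e ω l ^ 2) := by
            refine Finset.sum_le_sum fun ω _ => mul_le_mul_of_nonneg_left ?_ (hμ ω)
            rw [abs_of_nonneg (hR0 e ω)]
            exact hR2 e ω
        _ = _ := by
            rw [hZ, Finset.mul_sum]
            refine Finset.sum_congr rfl fun ω _ => by ring
    calc (∑ ω, μ ω * |R e ω| ^ p) ^ (1 / p) ≤ (C6 * X e ^ (p - 2) * Z e) ^ (1 / p) :=
          Real.rpow_le_rpow (sum_pn_nonneg hμ _) h1 (by positivity)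
      _ = C6 ^ (1 / p) * (X e ^ θ * Z e ^ (1 / p)) := by
          rw [Real.mul_rpow (by have := hX0 e; positivity) (hZ0 e),
            Real.mul_rpow hC60 (by have := hX0 e; positivity), ← Real.rpow_mul (hX0 e).le, mul_assoc]
          congr 3
          rw [hθ]; field_simp
  have hpnV' : ∀ e, pn p μ (V' e) ≤ 2 := by
    intro e
    have h1 : pn p μ (V e) ≤ 1 := by
      rw [pn_le_iff hp0 hμ _ zero_le_one, Real.one_rpow]
      exact hV e
    have h2 := pn_sub_le hp1 hμ (V e) (fun ω => V e ω - V' e ω)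
    simp only [sub_sub_cancel] at h2
    have h3 : pn p μ (fun ω => V e ω - V' e ω) ≤ 1 := by
      calc pn p μ (fun ω => V e ω - V' e ω) ≤ pn p μ (fun _ => 1) := by
            apply pn_mono hp0 hμ
            intro ω
            rw [abs_one]
            exact (hrep e ω).trans hη1
        _ = 1 := T7_pn_const hp0 hμ1 zero_le_one
    have h4 : pn p μ (V' e) ≤ pn p μ (V e) + pn p μ (fun ω => V e ω - V' e ω) := h2
    linarith
  have hlogX : ∀ e, 0 ≤ Real.logb 2 (16 * X e) := fun e =>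
    Real.logb_nonneg (by norm_num) (by linarith [hX1 e])
  have hlogX2 : ∀ e, Real.logb 2 (16 * X e) ≤ 16 ^ θ / (θ * Real.log 2) * X e ^ θ := by
    intro e
    have h1 : Real.log (16 * X e) ≤ (16 * X e) ^ θ / θ :=
      Real.log_le_rpow_div (by have := hX0 e; positivity) hθ0
    rw [Real.mul_rpow (by norm_num) (hX0 e).le] at h1
    unfold Real.logb
    rw [div_le_iff₀ hlog2]
    refine h1.trans (le_of_eq ?_)
    field_simp
  have hEe : ∀ e, pn p (fun q : Fin (J + 1) × Ω => μ q.2)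
          (fun q => GG p L J S.w S.M S.K V q.1 e q.2 - VV p L J q.1 (V e q.2))
      ≤ 16 / L * (A1 / (1 + 2 * C5) * (X e ^ θ * Z e ^ (1 / p)) + A2 * X e ^ θ) + 33 * η := by
    intro e
    have h1 := T7_err hp1 hL J hμ hμ1 (fun i ω => GG p L J S.w S.M S.K V i e ω) (V e) (V' e)
      (fun ω => 17 * R e ω + Real.logb 2 (16 * X e) * |V' e ω|)
      (fun ω => by have := hR0 e ω; have := hlogX e; positivity) η hη (hrep e)
      (fun ω => (T7_GG hp1 hL0 J S.w S.M S.K V e ω s (hsm ω) (t e ω)).trans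
        (mul_le_mul_of_nonneg_left (hR1 e ω) (by positivity)))
    refine h1.trans ?_
    have h2 : pn p μ (fun ω => 17 * R e ω + Real.logb 2 (16 * X e) * |V' e ω|)
        ≤ A1 / (1 + 2 * C5) * (X e ^ θ * Z e ^ (1 / p)) + A2 * X e ^ θ := by
      refine (pn_add_le hp1 hμ _ _).trans ?_
      rw [pn_const_mul hp0 hμ, pn_const_mul hp0 hμ, pn_abs, abs_of_nonneg (hlogX e),
        abs_of_nonneg (by norm_num : (0:ℝ) ≤ 17)]
      refine add_le_add ?_ ?_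
      · calc 17 * pn p μ (fun ω => R e ω) ≤ 17 * (C6 ^ (1 / p) * (X e ^ θ * Z e ^ (1 / p))) :=
              mul_le_mul_of_nonneg_left (hpnR e) (by norm_num)
          _ = _ := by rw [hA1]; field_simp
      · calc Real.logb 2 (16 * X e) * pn p μ (fun ω => V' e ω)
            ≤ (16 ^ θ / (θ * Real.log 2) * X e ^ θ) * 2 :=
              mul_le_mul (hlogX2 e) (hpnV' e) (pn_nonneg hμ _)
                ((hlogX e).trans (hlogX2 e))
          _ = _ := by rw [hA2]; ring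
    have h3 : 16 / L * pn p μ (fun ω => 17 * R e ω + Real.logb 2 (16 * X e) * |V' e ω|)
        ≤ 16 / L * (A1 / (1 + 2 * C5) * (X e ^ θ * Z e ^ (1 / p)) + A2 * X e ^ θ) :=
      mul_le_mul_of_nonneg_left h2 (by positivity)
    linarith
  have hκ0 : 0 < κ := by linarith
  have hs1 := T7_rpow_avg2 g hg hg1 p hp X Z (fun e => (hX0 e).le) hZ0 (3 * κ) (2 * C5)
    (by positivity) (by positivity) hgX hgZ
  have hs2 := T7_rpow_avg g hg hg1 θ hθ0.le hθ1 X (fun e => (hX0 e).le) (3 * κ)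
    (by positivity) hgX
  have h3κ : (3 * κ) ^ θ ≤ 3 * κ ^ θ := by
    rw [Real.mul_rpow (by norm_num) hκ0.le]
    apply mul_le_mul_of_nonneg_right _ (by positivity)
    calc (3 : ℝ) ^ θ ≤ 3 ^ (1 : ℝ) := Real.rpow_le_rpow_of_exponent_le (by norm_num) hθ1
      _ = 3 := Real.rpow_one 3
  calc ∑ e, g e * pn p (fun q : Fin (J + 1) × Ω => μ q.2)
          (fun q => GG p L J S.w S.M S.K V q.1 e q.2 - VV p L J q.1 (V e q.2))
      ≤ ∑ e, g e * (16 / L * (A1 / (1 + 2 * C5) * (X e ^ θ * Z e ^ (1 / p)) + A2 * X e ^ θ)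
          + 33 * η) :=
        Finset.sum_le_sum fun e _ => mul_le_mul_of_nonneg_left (hEe e) (hg e)
    _ = 16 / L * (A1 / (1 + 2 * C5) * (∑ e, g e * (X e ^ θ * Z e ^ (1 / p)))
          + A2 * ∑ e, g e * X e ^ θ) + 33 * η * ∑ e, g e := by
        simp only [Finset.mul_sum, ← Finset.sum_add_distrib]
        refine Finset.sum_congr rfl fun e _ => by ring
    _ ≤ 16 / L * (A1 / (1 + 2 * C5) * ((3 * κ) ^ θ * (1 + 2 * C5)) + A2 * (3 * κ) ^ θ)
          + 33 * η * 1 := by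
        rw [hg1]
        have hh1 : A1 / (1 + 2 * C5) * (∑ e, g e * (X e ^ θ * Z e ^ (1 / p)))
            ≤ A1 / (1 + 2 * C5) * ((3 * κ) ^ θ * (1 + 2 * C5)) :=
          mul_le_mul_of_nonneg_left hs1 (by positivity)
        have hh2 : A2 * ∑ e, g e * X e ^ θ ≤ A2 * (3 * κ) ^ θ :=
          mul_le_mul_of_nonneg_left hs2 hA20
        have hh3 := mul_le_mul_of_nonneg_left (add_le_add hh1 hh2)
          (by positivity : 0 ≤ 16 / L)
        linarith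
    _ = 16 / L * ((A1 + A2) * (3 * κ) ^ θ) + 33 * η := by
        field_simp
    _ ≤ 16 / L * ((A1 + A2) * (3 * κ ^ θ)) + 33 * η := by
        have := mul_le_mul_of_nonneg_left h3κ (by positivity : 0 ≤ A1 + A2)
        have := mul_le_mul_of_nonneg_left this (by positivity : 0 ≤ 16 / L)
        linarith
    _ ≤ (16 * 3 * (A1 + A2) + 33) / L * κ ^ θ + (16 * 3 * (A1 + A2) + 33) * η := by
        have h5 : 0 ≤ 33 / L * κ ^ θ := by positivity
        have h6 : 0 ≤ 16 * 3 * (A1 + A2) * η := by positivity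
        have h7 : (16 * 3 * (A1 + A2) + 33) / L * κ ^ θ
            = 16 / L * ((A1 + A2) * (3 * κ ^ θ)) + 33 / L * κ ^ θ := by ring
        rw [h7]
        linarith

theorem T7_interp_lt (p : ℝ) (hp1 : 1 < p) (hp2 : p < 2) : ∃ C : ℝ, 0 ≤ C ∧
    ∀ {E 𝒯 Ω : Type} [Fintype E] [Fintype 𝒯] [Fintype Ω] (g : E → ℝ) (_ : ∀ e, 0 ≤ g e)
      (_ : ∑ e, g e = 1) (κ : ℝ) (_ : 1 ≤ κ) (S : Sys E 𝒯 g κ) (μ : Ω → ℝ)
      (_ : ∀ ω, 0 ≤ μ ω) (_ : ∑ ω, μ ω = 1)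
      (V : E → Ω → ℝ) (_ : ∀ e, ∑ ω, μ ω * |V e ω| ^ p ≤ 1) (L : ℝ) (_ : 1 ≤ L) (J : ℕ)
      (η : ℝ) (_ : 0 ≤ η) (_ : η ≤ 1)
      (_ : ∀ e ω, |V e ω - ∑ τ, S.K e τ * bb S.M V τ ω| ≤ η),
      ∑ e, g e * pn p (fun q : Fin (J + 1) × Ω => μ q.2)
          (fun q => GG p L J S.w S.M S.K V q.1 e q.2 - VV p L J q.1 (V e q.2))
        ≤ C / L * κ ^ (2 / p - 1) + C * η := by
  classical
  have hp0 : 0 < p := by linarith
  obtain ⟨C6, hC60, hC6⟩ := tstar_lt p hp1 hp2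
  obtain ⟨C5, hC50, hC5⟩ := analysis_lt p hp1 hp2
  set A1 : ℝ := 32 * (C6 ^ (1 / p) * (2 * C5 + 1) ^ (1 / p)) with hA1
  have hA10 : 0 ≤ A1 := by positivity
  refine ⟨A1 + 33, by positivity, ?_⟩
  intro E 𝒯 Ω _ _ _ g hg hg1 κ hκ S μ hμ hμ1 V hV L hL J η hη hη1 hrep
  have hL0 : 0 < L := by linarith
  have hκ0 : 0 < κ := by linarith
  set s : Finset ℤ := Finset.univ.image (fun q : 𝒯 × Ω => lev (bb S.M V q.1 q.2) (S.w q.1)) with hs
  have hsm : ∀ ω τ, lev (bb S.M V τ ω) (S.w τ) ∈ s := by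
    intro ω τ
    rw [hs, Finset.mem_image]
    exact ⟨(τ, ω), Finset.mem_univ _, rfl⟩
  set al : E → Ω → ℤ → ℝ := fun e ω l => T7al S.w S.M S.K V e ω l with hal
  have hal0 : ∀ e ω l, 0 ≤ al e ω l := fun e ω l => abs_nonneg _
  set V' : E → Ω → ℝ := fun e ω => ∑ τ, S.K e τ * bb S.M V τ ω with hV'
  have hex : ∀ e ω, ∃ (t : ℤ) (R : ℝ), 0 ≤ R ∧
        ∑ l ∈ s, |(l : ℝ) - t| * al e ω l + |(t : ℝ) - Real.logb 2 (|V' e ω|)| * |V' e ω|
          ≤ 2 * R ∧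
        R ^ p ≤ C6 * ∑ l ∈ s, ((2 : ℝ) ^ ((l : ℝ) * (p - 2)) * al e ω l ^ 2
          + (2 : ℝ) ^ ((l : ℝ) * (p - 1)) * al e ω l) := by
    intro e ω
    exact hC6 s (al e ω) (hal0 e ω) (V' e ω) (T7_abs_le_sum S.w S.M S.K V e ω s (hsm ω))
  choose t R hR0 hR1 hR2 using hex
  set Z1 : E → ℝ := fun e => ∑ ω, μ ω * ∑ l ∈ s, (2 : ℝ) ^ ((l : ℝ) * (p - 2)) * al e ω l ^ 2
    with hZ1
  set Z2 : E → ℝ := fun e => ∑ ω, μ ω * ∑ l ∈ s, (2 : ℝ) ^ ((l : ℝ) * (p - 1)) * al e ω l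
    with hZ2
  have hZ10 : ∀ e, 0 ≤ Z1 e := fun e => Finset.sum_nonneg fun ω _ => mul_nonneg (hμ ω)
    (Finset.sum_nonneg fun l _ => by positivity)
  have hZ20 : ∀ e, 0 ≤ Z2 e := fun e => Finset.sum_nonneg fun ω _ => mul_nonneg (hμ ω)
    (Finset.sum_nonneg fun l _ => by have := hal0 e ω l; positivity)
  have hgZ : ∑ e, g e * (Z1 e + Z2 e) ≤ (2 * C5 + 1) * κ ^ (2 - p) := by
    have h1 := hC5 g hg hg1.le κ hκ S μ hμ V hV s
    have e1 : ∑ e, g e * Z1 e ≤ 2 * ∑ l ∈ s, (2 : ℝ) ^ ((l : ℝ) * (p - 2)) * ∑ ω, μ ω * ∑ τ,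
        (if lev (bb S.M V τ ω) (S.w τ) = l then S.lam τ * (bb S.M V τ ω) ^ 2 else 0) := by
      calc ∑ e, g e * Z1 e
          = ∑ l ∈ s, (2 : ℝ) ^ ((l : ℝ) * (p - 2)) * ∑ ω, μ ω * ∑ e, g e * al e ω l ^ 2 := by
            exact T7_swap g μ s (fun e ω l => al e ω l ^ 2)
              (fun l => (2 : ℝ) ^ ((l : ℝ) * (p - 2)))
        _ ≤ ∑ l ∈ s, (2 : ℝ) ^ ((l : ℝ) * (p - 2)) * ∑ ω, μ ω * (2 * ∑ τ,
              (if lev (bb S.M V τ ω) (S.w τ) = l then S.lam τ * (bb S.M V τ ω) ^ 2 else 0)) := by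
            refine Finset.sum_le_sum fun l _ => mul_le_mul_of_nonneg_left ?_ (by positivity)
            exact Finset.sum_le_sum fun ω _ => mul_le_mul_of_nonneg_left (T7_S2 S V ω l) (hμ ω)
        _ = _ := by
            rw [Finset.mul_sum]
            refine Finset.sum_congr rfl fun l _ => ?_
            rw [Finset.mul_sum, Finset.mul_sum, Finset.mul_sum]
            refine Finset.sum_congr rfl fun ω _ => by ring
    have e2 : ∑ e, g e * Z2 e ≤ 2 * ∑ l ∈ s, (2 : ℝ) ^ ((l : ℝ) * (p - 1)) * ∑ ω, μ ω * ∑ τ,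
        (if lev (bb S.M V τ ω) (S.w τ) = l then S.lam τ * (S.w τ * |bb S.M V τ ω|) else 0) := by
      calc ∑ e, g e * Z2 e
          = ∑ l ∈ s, (2 : ℝ) ^ ((l : ℝ) * (p - 1)) * ∑ ω, μ ω * ∑ e, g e * al e ω l := by
            exact T7_swap g μ s (fun e ω l => al e ω l)
              (fun l => (2 : ℝ) ^ ((l : ℝ) * (p - 1)))
        _ ≤ ∑ l ∈ s, (2 : ℝ) ^ ((l : ℝ) * (p - 1)) * ∑ ω, μ ω * (2 * ∑ τ,
              (if lev (bb S.M V τ ω) (S.w τ) = l then S.lam τ * (S.w τ * |bb S.M V τ ω|)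
                else 0)) := by
            refine Finset.sum_le_sum fun l _ => mul_le_mul_of_nonneg_left ?_ (by positivity)
            exact Finset.sum_le_sum fun ω _ => mul_le_mul_of_nonneg_left (T7_S1 hg S V ω l) (hμ ω)
        _ = _ := by
            rw [Finset.mul_sum]
            refine Finset.sum_congr rfl fun l _ => ?_
            rw [Finset.mul_sum, Finset.mul_sum, Finset.mul_sum]
            refine Finset.sum_congr rfl fun ω _ => by ring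
    have e3 : ∑ e, g e * (Z1 e + Z2 e) = ∑ e, g e * Z1 e + ∑ e, g e * Z2 e := by
      rw [← Finset.sum_add_distrib]
      refine Finset.sum_congr rfl fun e _ => by ring
    rw [Finset.sum_add_distrib] at h1
    have h0 : 0 ≤ κ ^ (2 - p) := by positivity
    rw [e3]
    linarith
  have hpnR : ∀ e, pn p μ (R e) ≤ C6 ^ (1 / p) * (Z1 e + Z2 e) ^ (1 / p) := by
    intro e
    unfold pn
    have h1 : ∑ ω, μ ω * |R e ω| ^ p ≤ C6 * (Z1 e + Z2 e) := by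
      calc ∑ ω, μ ω * |R e ω| ^ p
          ≤ ∑ ω, μ ω * (C6 * ∑ l ∈ s, ((2 : ℝ) ^ ((l : ℝ) * (p - 2)) * al e ω l ^ 2
          + (2 : ℝ) ^ ((l : ℝ) * (p - 1)) * al e ω l)) := by
            refine Finset.sum_le_sum fun ω _ => mul_le_mul_of_nonneg_left ?_ (hμ ω)
            rw [abs_of_nonneg (hR0 e ω)]
            exact hR2 e ω
        _ = _ := by
            rw [hZ1, hZ2, ← Finset.sum_add_distrib, Finset.mul_sum]
            refine Finset.sum_congr rfl fun ω _ => ?_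
            rw [Finset.sum_add_distrib]
            ring
    calc (∑ ω, μ ω * |R e ω| ^ p) ^ (1 / p) ≤ (C6 * (Z1 e + Z2 e)) ^ (1 / p) :=
          Real.rpow_le_rpow (sum_pn_nonneg hμ _) h1 (by positivity)
      _ = C6 ^ (1 / p) * (Z1 e + Z2 e) ^ (1 / p) := by
          rw [Real.mul_rpow hC60 (add_nonneg (hZ10 e) (hZ20 e))]
  have hEe : ∀ e, pn p (fun q : Fin (J + 1) × Ω => μ q.2)
          (fun q => GG p L J S.w S.M S.K V q.1 e q.2 - VV p L J q.1 (V e q.2))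
      ≤ 16 / L * (2 * (C6 ^ (1 / p) * (Z1 e + Z2 e) ^ (1 / p))) + 33 * η := by
    intro e
    have h1 := T7_err hp1.le hL J hμ hμ1 (fun i ω => GG p L J S.w S.M S.K V i e ω) (V e) (V' e)
      (fun ω => 2 * R e ω)
      (fun ω => by have := hR0 e ω; positivity) η hη (hrep e)
      (fun ω => (T7_GG hp1.le hL0 J S.w S.M S.K V e ω s (hsm ω) (t e ω)).trans
        (mul_le_mul_of_nonneg_left (hR1 e ω) (by positivity)))
    refine h1.trans ?_
    have h2 : pn p μ (fun ω => 2 * R e ω) ≤ 2 * (C6 ^ (1 / p) * (Z1 e + Z2 e) ^ (1 / p)) := by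
      rw [pn_const_mul hp0 hμ, abs_of_nonneg (by norm_num : (0:ℝ) ≤ 2)]
      exact mul_le_mul_of_nonneg_left (hpnR e) (by norm_num)
    have h3 : 16 / L * pn p μ (fun ω => 2 * R e ω)
        ≤ 16 / L * (2 * (C6 ^ (1 / p) * (Z1 e + Z2 e) ^ (1 / p))) :=
      mul_le_mul_of_nonneg_left h2 (by positivity)
    linarith
  have h1p : 1 / p ≤ 1 := by rw [div_le_one hp0]; linarith
  have hs2 := T7_rpow_avg g hg hg1 (1 / p) (by positivity) h1p (fun e => Z1 e + Z2 e)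
    (fun e => add_nonneg (hZ10 e) (hZ20 e)) ((2 * C5 + 1) * κ ^ (2 - p)) (by positivity) hgZ
  have hpow : ((2 * C5 + 1) * κ ^ (2 - p)) ^ (1 / p)
      = (2 * C5 + 1) ^ (1 / p) * κ ^ (2 / p - 1) := by
    rw [Real.mul_rpow (by positivity) (by positivity), ← Real.rpow_mul hκ0.le]
    congr 2
    field_simp
  calc ∑ e, g e * pn p (fun q : Fin (J + 1) × Ω => μ q.2)
          (fun q => GG p L J S.w S.M S.K V q.1 e q.2 - VV p L J q.1 (V e q.2))
      ≤ ∑ e, g e * (16 / L * (2 * (C6 ^ (1 / p) * (Z1 e + Z2 e) ^ (1 / p))) + 33 * η) :=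
        Finset.sum_le_sum fun e _ => mul_le_mul_of_nonneg_left (hEe e) (hg e)
    _ = 32 / L * C6 ^ (1 / p) * (∑ e, g e * (Z1 e + Z2 e) ^ (1 / p)) + 33 * η * ∑ e, g e := by
        simp only [Finset.mul_sum, ← Finset.sum_add_distrib]
        refine Finset.sum_congr rfl fun e _ => by ring
    _ ≤ 32 / L * C6 ^ (1 / p) * ((2 * C5 + 1) ^ (1 / p) * κ ^ (2 / p - 1)) + 33 * η * 1 := by
        rw [hg1, ← hpow]
        have := mul_le_mul_of_nonneg_left hs2 (by positivity : 0 ≤ 32 / L * C6 ^ (1 / p))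
        linarith
    _ ≤ (A1 + 33) / L * κ ^ (2 / p - 1) + (A1 + 33) * η := by
        have h5 : 0 ≤ 33 / L * κ ^ (2 / p - 1) := by positivity
        have h6 : 0 ≤ A1 * η := by positivity
        have h7 : (A1 + 33) / L * κ ^ (2 / p - 1)
            = 32 / L * C6 ^ (1 / p) * ((2 * C5 + 1) ^ (1 / p) * κ ^ (2 / p - 1))
              + 33 / L * κ ^ (2 / p - 1) := by rw [hA1]; ring
        rw [h7]
        linarith

theorem interp (p : ℝ) (hp1 : 1 < p) (hp2 : p ≠ 2) : ∃ C : ℝ, 0 ≤ C ∧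
    ∀ {E 𝒯 Ω : Type} [Fintype E] [Fintype 𝒯] [Fintype Ω] (g : E → ℝ) (_ : ∀ e, 0 ≤ g e)
      (_ : ∑ e, g e = 1) (κ : ℝ) (_ : 1 ≤ κ) (S : Sys E 𝒯 g κ) (μ : Ω → ℝ)
      (_ : ∀ ω, 0 ≤ μ ω) (_ : ∑ ω, μ ω = 1)
      (V : E → Ω → ℝ) (_ : ∀ e, ∑ ω, μ ω * |V e ω| ^ p ≤ 1) (L : ℝ) (_ : 1 ≤ L) (J : ℕ)
      (η : ℝ) (_ : 0 ≤ η) (_ : η ≤ 1)
      (_ : ∀ e ω, |V e ω - ∑ τ, S.K e τ * bb S.M V τ ω| ≤ η),
      ∑ e, g e * pn p (fun q : Fin (J + 1) × Ω => μ q.2)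
          (fun q => GG p L J S.w S.M S.K V q.1 e q.2 - VV p L J q.1 (V e q.2))
        ≤ C / L * κ ^ |1 - 2 / p| + C * η := by
  have hp0 : 0 < p := by linarith
  rcases lt_or_gt_of_ne hp2 with h | h
  · have h1 : |1 - 2 / p| = 2 / p - 1 := by
      rw [abs_of_nonpos]
      · ring
      · have : 1 ≤ 2 / p := by rw [le_div_iff₀ hp0]; linarith
        linarith
    rw [h1]
    exact T7_interp_lt p hp1 h
  · have h1 : |1 - 2 / p| = 1 - 2 / p := by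
      rw [abs_of_nonneg]
      have : 2 / p ≤ 1 := by rw [div_le_iff₀ hp0]; linarith
      linarith
    rw [h1]
    exact T7_interp_gt p h

end Crest.Agent.S0358
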