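import Crest.Agent.S0358_T1

/-!
# Task T7a (row S0358): pointwise bounds for the windowed synthesis `GG`

`|b τ ω| ≤ ∑_e |M τ e| |V e ω| ≤ w τ * sup |V|`; `2^lev w ≤ |b| < 2^(lev+1) w` when `b ≠ 0` (then `w τ > 0`).
* `GG_sup`: if `Psi_i(lev) ≠ 0` and `i < J` then `lev < (i+1) L` (`Psi_high`), so `|b| ≤ w 2^((i+1)L+1)`; if `i = J` use
  `|b| ≤ w 2^(J L)`.  `Psi ≤ 1`.
* `GG_L1`: if `Psi_i(lev) ≠ 0` then `(i-1) L < lev` (`Psi_low`), so `|b| ≥ w 2^((i-1)L)` and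
  `|b| ≤ |b|^p (w 2^((i-1)L))^(-(p-1))`; and `∑_ω μ |b|^p ≤ w^p` (Minkowski / `pn_sum_le`: `pn(b τ) ≤ ∑_e |M τ e| pn(V e) ≤ w τ`).
-/

set_option autoImplicit false

open scoped BigOperators

namespace Crest.Agent.S0358

theorem lev_le {b w : ℝ} (hb : b ≠ 0) (hw : 0 < w) : w * (2 : ℝ) ^ ((lev b w : ℤ) : ℝ) ≤ |b| := by
  have hx : 0 < |b| / w := div_pos (abs_pos.2 hb) hw
  have := Int.zpow_log_le_self (R := ℝ) (b := 2) (by norm_num) hx
  rw [le_div_iff₀ hw] at this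
  rw [Real.rpow_intCast]
  unfold lev
  push_cast at this
  linarith

theorem lt_lev {b w : ℝ} (hw : 0 < w) : |b| < w * (2 : ℝ) ^ (((lev b w : ℤ) : ℝ) + 1) := by
  have := Int.lt_zpow_succ_log_self (R := ℝ) (b := 2) (by norm_num) (|b| / w)
  rw [div_lt_iff₀ hw] at this
  have h2 : (2 : ℝ) ^ (((lev b w : ℤ) : ℝ) + 1) = (2 : ℝ) ^ (lev b w + 1 : ℤ) := by
    rw [← Real.rpow_intCast]; push_cast; rfl
  rw [h2]
  unfold lev
  push_cast at this
  linarith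

theorem abs_bb_le {E 𝒯 Ω : Type} [Fintype E] [Fintype 𝒯] {g : E → ℝ} {κ : ℝ}
    (S : Sys E 𝒯 g κ) (V : E → Ω → ℝ) {B : ℝ} (hB : 0 ≤ B) {ω : Ω}
    (hV : ∀ e, |V e ω| ≤ B) (τ : 𝒯) : |bb S.M V τ ω| ≤ S.w τ * B := by
  unfold bb
  calc |∑ e, S.M τ e * V e ω| ≤ ∑ e, |S.M τ e * V e ω| := Finset.abs_sum_le_sum_abs _ _
    _ ≤ ∑ e, |S.M τ e| * B := by
        refine Finset.sum_le_sum fun e _ => ?_
        rw [abs_mul]
        exact mul_le_mul_of_nonneg_left (hV e) (abs_nonneg _)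
    _ = (∑ e, |S.M τ e|) * B := by rw [Finset.sum_mul]
    _ ≤ S.w τ * B := mul_le_mul_of_nonneg_right (S.M_le τ) hB

theorem bb_eq_zero_of_w {E 𝒯 Ω : Type} [Fintype E] [Fintype 𝒯] {g : E → ℝ} {κ : ℝ}
    (S : Sys E 𝒯 g κ) (V : E → Ω → ℝ) {τ : 𝒯} (hw : S.w τ = 0) (ω : Ω) :
    bb S.M V τ ω = 0 := by
  have h0 : ∑ e, |S.M τ e| = 0 :=
    le_antisymm (hw ▸ S.M_le τ) (Finset.sum_nonneg fun e _ => abs_nonneg _)
  have h1 := (Finset.sum_eq_zero_iff_of_nonneg (fun e _ => abs_nonneg (S.M τ e))).1 h0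
  unfold bb
  refine Finset.sum_eq_zero fun e he => ?_
  rw [abs_eq_zero.1 (h1 e he), zero_mul]

/-- sup bound for the windowed synthesis -/
theorem GG_sup {E 𝒯 Ω : Type} [Fintype E] [Fintype 𝒯] [Fintype Ω] {g : E → ℝ} {κ : ℝ}
    (S : Sys E 𝒯 g κ) (V : E → Ω → ℝ) {p L : ℝ} (hp1 : 1 < p) (hL : 1 ≤ L) (J : ℕ)
    (hV : ∀ e ω, |V e ω| ≤ (2 : ℝ) ^ ((J : ℝ) * L)) (i : Fin (J + 1)) (e : E) (ω : Ω) :
    |GG p L J S.w S.M S.K V i e ω|
      ≤ (2 : ℝ) ^ (((i : ℕ) + 1 : ℝ) * L + 1) * ∑ τ, |S.K e τ| * S.w τ := by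
  have hL0 : 0 < L := by linarith
  have key : ∀ τ, |bb S.M V τ ω * Psi p L J i (lev (bb S.M V τ ω) (S.w τ) : ℤ)|
      ≤ (2 : ℝ) ^ (((i : ℕ) + 1 : ℝ) * L + 1) * S.w τ := by
    intro τ
    set b := bb S.M V τ ω with hb
    set w := S.w τ with hw
    have hw0 : 0 ≤ w := S.w_nonneg τ
    have hpos : (0 : ℝ) < (2 : ℝ) ^ (((i : ℕ) + 1 : ℝ) * L + 1) := Real.rpow_pos_of_pos (by norm_num) _
    have hrhs : 0 ≤ (2 : ℝ) ^ (((i : ℕ) + 1 : ℝ) * L + 1) * w := mul_nonneg hpos.le hw0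
    by_cases hP : Psi p L J i (lev b w : ℤ) = 0
    · rw [hP, mul_zero, abs_zero]; exact hrhs
    by_cases hb0 : b = 0
    · rw [hb0, zero_mul, abs_zero]; exact hrhs
    have hwpos : 0 < w := by
      rcases hw0.lt_or_eq with h | h
      · exact h
      · exact absurd (bb_eq_zero_of_w S V (h.symm) ω) hb0
    have hPn := Psi_nonneg p L J i (lev b w : ℤ)
    have hP1 := Psi_le_one (p := p) (J := J) hp1.le hL0 i (lev b w : ℤ)
    have hbb : |b| ≤ (2 : ℝ) ^ (((i : ℕ) + 1 : ℝ) * L + 1) * w := by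
      rcases Nat.lt_or_ge (i : ℕ) J with hi | hi
      · have h1 := Psi_high (p := p) hL0 hP hi
        have h2 := lt_lev (b := b) hwpos
        refine h2.le.trans ?_
        rw [mul_comm]
        refine mul_le_mul_of_nonneg_right ?_ hw0
        exact Real.rpow_le_rpow_of_exponent_le (by norm_num) (by linarith)
      · have hiJ : (i : ℕ) = J := by have := i.2; omega
        have h1 := abs_bb_le S V (B := (2 : ℝ) ^ ((J : ℝ) * L))
          (Real.rpow_nonneg (by norm_num) _) (fun e => hV e ω) τ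
        refine h1.trans ?_
        rw [mul_comm]
        refine mul_le_mul_of_nonneg_right ?_ hw0
        apply Real.rpow_le_rpow_of_exponent_le (by norm_num)
        rw [hiJ]
        nlinarith
    rw [abs_mul, abs_of_nonneg hPn]
    calc |b| * Psi p L J i (lev b w : ℤ) ≤ |b| * 1 := mul_le_mul_of_nonneg_left hP1 (abs_nonneg _)
      _ = |b| := mul_one _
      _ ≤ _ := hbb
  unfold GG
  calc |∑ τ, S.K e τ * (bb S.M V τ ω * Psi p L J i (lev (bb S.M V τ ω) (S.w τ) : ℤ))|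
      ≤ ∑ τ, |S.K e τ * (bb S.M V τ ω * Psi p L J i (lev (bb S.M V τ ω) (S.w τ) : ℤ))| :=
        Finset.abs_sum_le_sum_abs _ _
    _ ≤ ∑ τ, |S.K e τ| * ((2 : ℝ) ^ (((i : ℕ) + 1 : ℝ) * L + 1) * S.w τ) := by
        refine Finset.sum_le_sum fun τ _ => ?_
        rw [abs_mul]
        exact mul_le_mul_of_nonneg_left (key τ) (abs_nonneg _)
    _ = (2 : ℝ) ^ (((i : ℕ) + 1 : ℝ) * L + 1) * ∑ τ, |S.K e τ| * S.w τ := by
        rw [Finset.mul_sum]
        refine Finset.sum_congr rfl fun τ _ => ?_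
        ring

/-- Minkowski for the analysis coefficients: `∑ μ |b|^p ≤ w^p`. -/
theorem bb_Lp {E 𝒯 Ω : Type} [Fintype E] [Fintype 𝒯] [Fintype Ω] {g : E → ℝ} {κ : ℝ}
    (S : Sys E 𝒯 g κ) (V : E → Ω → ℝ) {p : ℝ} (hp1 : 1 ≤ p)
    (μ : Ω → ℝ) (hμ : ∀ ω, 0 ≤ μ ω) (hV : ∀ e, ∑ ω, μ ω * |V e ω| ^ p ≤ 1) (τ : 𝒯) :
    ∑ ω, μ ω * |bb S.M V τ ω| ^ p ≤ S.w τ ^ p := by
  have hp0 : 0 < p := by linarith
  rw [← pn_le_iff hp0 hμ _ (S.w_nonneg τ)]
  have h1 : pn p μ (fun ω => ∑ e ∈ Finset.univ, S.M τ e * V e ω)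
      ≤ ∑ e ∈ Finset.univ, pn p μ (fun ω => S.M τ e * V e ω) :=
    pn_sum_le hp1 hμ Finset.univ (fun e ω => S.M τ e * V e ω)
  refine le_trans h1 ?_
  refine le_trans ?_ (S.M_le τ)
  refine Finset.sum_le_sum fun e _ => ?_
  rw [pn_const_mul hp0 hμ]
  have h2 : pn p μ (V e) ≤ 1 := by
    rw [pn_le_iff hp0 hμ _ zero_le_one, Real.one_rpow]
    exact hV e
  calc |S.M τ e| * pn p μ (fun ω => V e ω) ≤ |S.M τ e| * 1 :=
        mul_le_mul_of_nonneg_left h2 (abs_nonneg _)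
    _ = |S.M τ e| := mul_one _

/-- `L¹` bound for the windowed synthesis -/
theorem GG_L1 {E 𝒯 Ω : Type} [Fintype E] [Fintype 𝒯] [Fintype Ω] {g : E → ℝ} {κ : ℝ}
    (S : Sys E 𝒯 g κ) (V : E → Ω → ℝ) {p L : ℝ} (hp1 : 1 < p) (hL : 1 ≤ L) (J : ℕ)
    (μ : Ω → ℝ) (hμ : ∀ ω, 0 ≤ μ ω) (hV : ∀ e, ∑ ω, μ ω * |V e ω| ^ p ≤ 1)
    (i : Fin (J + 1)) (hi : 1 ≤ (i : ℕ)) (e : E) :
    ∑ ω, μ ω * |GG p L J S.w S.M S.K V i e ω|
      ≤ (2 : ℝ) ^ (-((p - 1) * ((i : ℕ) - 1 : ℝ) * L)) * ∑ τ, |S.K e τ| * S.w τ := by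
  have hL0 : 0 < L := by linarith
  set c : ℝ := (2 : ℝ) ^ (-((p - 1) * ((i : ℕ) - 1 : ℝ) * L)) with hc
  have hc0 : 0 < c := Real.rpow_pos_of_pos (by norm_num) _
  -- pointwise bound
  have key : ∀ τ, ∑ ω, μ ω * |bb S.M V τ ω * Psi p L J i (lev (bb S.M V τ ω) (S.w τ) : ℤ)|
      ≤ c * S.w τ := by
    intro τ
    rcases (S.w_nonneg τ).lt_or_eq with hwpos | hw0
    · set w := S.w τ with hw
      have hpt : ∀ ω, |bb S.M V τ ω * Psi p L J i (lev (bb S.M V τ ω) w : ℤ)|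
          ≤ c * w ^ (1 - p) * |bb S.M V τ ω| ^ p := by
        intro ω
        set b := bb S.M V τ ω with hb
        have hrhs : 0 ≤ c * w ^ (1 - p) * |b| ^ p := by positivity
        by_cases hP : Psi p L J i (lev b w : ℤ) = 0
        · rw [hP, mul_zero, abs_zero]; exact hrhs
        by_cases hb0 : b = 0
        · have h00 : |b * Psi p L J i (lev b w : ℤ)| = 0 := by rw [hb0, zero_mul, abs_zero]
          rw [h00]; exact hrhs
        have hPn := Psi_nonneg p L J i (lev b w : ℤ)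
        have hP1 := Psi_le_one (p := p) (J := J) hp1.le hL0 i (lev b w : ℤ)
        have h1 := Psi_low (p := p) hL0 hP hi
        have h2 := lev_le hb0 hwpos
        have hbpos : 0 < |b| := abs_pos.2 hb0
        have h3 : w * (2 : ℝ) ^ (((i : ℕ) - 1 : ℝ) * L) ≤ |b| := by
          refine le_trans ?_ h2
          refine mul_le_mul_of_nonneg_left ?_ hwpos.le
          exact Real.rpow_le_rpow_of_exponent_le (by norm_num) h1.le
        have h4 : |b| ≤ c * w ^ (1 - p) * |b| ^ p := by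
          have h5 : (w * (2 : ℝ) ^ (((i : ℕ) - 1 : ℝ) * L)) ^ (p - 1) ≤ |b| ^ (p - 1) :=
            Real.rpow_le_rpow (by positivity) h3 (by linarith)
          have h6 : (w * (2 : ℝ) ^ (((i : ℕ) - 1 : ℝ) * L)) ^ (p - 1)
              = w ^ (p - 1) * (2 : ℝ) ^ ((p - 1) * ((i : ℕ) - 1 : ℝ) * L) := by
            rw [Real.mul_rpow hwpos.le (by positivity), ← Real.rpow_mul (by norm_num)]
            congr 2; ring
          rw [h6] at h5
          have h7 : |b| ^ p = |b| * |b| ^ (p - 1) := by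
            rw [← Real.rpow_one_add' (abs_nonneg b) (by linarith)]
            congr 1; ring
          rw [h7]
          have h8 : c * w ^ (1 - p) * (w ^ (p - 1) * (2 : ℝ) ^ ((p - 1) * ((i : ℕ) - 1 : ℝ) * L)) = 1 := by
            have h9 : w ^ (1 - p) * w ^ (p - 1) = 1 := by
              rw [← Real.rpow_add hwpos]; simp
            have h10 : c * (2 : ℝ) ^ ((p - 1) * ((i : ℕ) - 1 : ℝ) * L) = 1 := by
              rw [hc, ← Real.rpow_add (by norm_num)]; simp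
            calc _ = (w ^ (1 - p) * w ^ (p - 1)) * (c * (2 : ℝ) ^ ((p - 1) * ((i : ℕ) - 1 : ℝ) * L)) := by ring
              _ = 1 := by rw [h9, h10, mul_one]
          calc |b| = |b| * (c * w ^ (1 - p) * (w ^ (p - 1) * (2 : ℝ) ^ ((p - 1) * ((i : ℕ) - 1 : ℝ) * L))) := by
                rw [h8, mul_one]
            _ ≤ |b| * (c * w ^ (1 - p) * |b| ^ (p - 1)) := by gcongr
            _ = c * w ^ (1 - p) * (|b| * |b| ^ (p - 1)) := by ring
        rw [abs_mul, abs_of_nonneg hPn]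
        calc |b| * Psi p L J i (lev b w : ℤ) ≤ |b| * 1 :=
              mul_le_mul_of_nonneg_left hP1 (abs_nonneg _)
          _ = |b| := mul_one _
          _ ≤ _ := h4
      calc ∑ ω, μ ω * |bb S.M V τ ω * Psi p L J i (lev (bb S.M V τ ω) w : ℤ)|
          ≤ ∑ ω, μ ω * (c * w ^ (1 - p) * |bb S.M V τ ω| ^ p) :=
            Finset.sum_le_sum fun ω _ => mul_le_mul_of_nonneg_left (hpt ω) (hμ ω)
        _ = c * w ^ (1 - p) * ∑ ω, μ ω * |bb S.M V τ ω| ^ p := by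
            rw [Finset.mul_sum]
            refine Finset.sum_congr rfl fun ω _ => ?_
            ring
        _ ≤ c * w ^ (1 - p) * w ^ p := by
            refine mul_le_mul_of_nonneg_left (bb_Lp S V hp1.le μ hμ hV τ) (by positivity)
        _ = c * w := by
            rw [mul_assoc, ← Real.rpow_add hwpos]
            simp
    · have h0 : ∀ ω, bb S.M V τ ω = 0 := bb_eq_zero_of_w S V hw0.symm
      rw [← hw0, mul_zero]
      apply le_of_eq
      refine Finset.sum_eq_zero fun ω _ => ?_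
      rw [h0 ω, zero_mul, abs_zero, mul_zero]
  unfold GG
  calc ∑ ω, μ ω * |∑ τ, S.K e τ * (bb S.M V τ ω * Psi p L J i (lev (bb S.M V τ ω) (S.w τ) : ℤ))|
      ≤ ∑ ω, μ ω * ∑ τ, |S.K e τ| * |bb S.M V τ ω * Psi p L J i (lev (bb S.M V τ ω) (S.w τ) : ℤ)| := by
        refine Finset.sum_le_sum fun ω _ => mul_le_mul_of_nonneg_left ?_ (hμ ω)
        refine (Finset.abs_sum_le_sum_abs _ _).trans (Finset.sum_le_sum fun τ _ => ?_)
        rw [abs_mul]
    _ = ∑ τ, |S.K e τ| * ∑ ω, μ ω * |bb S.M V τ ω * Psi p L J i (lev (bb S.M V τ ω) (S.w τ) : ℤ)| := by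
        simp only [Finset.mul_sum]
        rw [Finset.sum_comm]
        refine Finset.sum_congr rfl fun τ _ => Finset.sum_congr rfl fun ω _ => ?_
        ring
    _ ≤ ∑ τ, |S.K e τ| * (c * S.w τ) :=
        Finset.sum_le_sum fun τ _ => mul_le_mul_of_nonneg_left (key τ) (abs_nonneg _)
    _ = c * ∑ τ, |S.K e τ| * S.w τ := by
        rw [Finset.mul_sum]
        refine Finset.sum_congr rfl fun τ _ => ?_
        ring

end Crest.Agent.S0358
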