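import Crest.Agent.S0358_Defs

/-!
# Task T8 (row S0358): a finite minimax lemma

Suppose not.  `U = {u : P → ℝ | ∃ z ∈ 𝒞, ∀ e, c e z < u e}` is convex, open and does not contain the constant
vector `B'`; separate (`geometric_hahn_banach_open_point`): `f u < f (B'·1)` on `U`.  `U` is upward closed, so
`h e := - f (Pi.single e 1) ≥ 0`, and `h ≠ 0`; normalise.  `∑ h e u e > B'` on `U`, contradiction with
`u = c(z) + small`, `∑ h c(z) ≤ B < B'`.
-/

set_option autoImplicit false

open scoped BigOperators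

namespace Crest.Agent.S0358

theorem minimax {P Z : Type} [Fintype P] [Nonempty P] [AddCommGroup Z] [Module ℝ Z]
    (𝒞 : Set Z) (h𝒞 : Convex ℝ 𝒞) (c : P → Z → ℝ) (hc : ∀ e, ConvexOn ℝ 𝒞 (c e))
    (B B' : ℝ) (hB : B < B')
    (H : ∀ h : P → ℝ, (∀ e, 0 ≤ h e) → ∑ e, h e = 1 → ∃ z ∈ 𝒞, ∑ e, h e * c e z ≤ B) :
    ∃ z ∈ 𝒞, ∀ e, c e z ≤ B' := by
  classical
  by_contra hcon
  push Not at hcon
  -- the convex set is nonempty
  obtain ⟨z0, hz0⟩ : 𝒞.Nonempty := by
    obtain ⟨z, hz, _⟩ := H (fun _ => ((Fintype.card P : ℕ) : ℝ)⁻¹) (fun e => by positivity) (by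
      rw [Finset.sum_const, Finset.card_univ, nsmul_eq_mul, mul_inv_cancel₀]
      exact_mod_cast Fintype.card_ne_zero)
    exact ⟨z, hz⟩
  let U : Set (P → ℝ) := {u | ∃ z ∈ 𝒞, ∀ e, c e z < u e}
  have hUconv : Convex ℝ U := by
    rintro u ⟨z, hz, hu⟩ u' ⟨z', hz', hu'⟩ a b ha hb hab
    refine ⟨a • z + b • z', h𝒞 hz hz' ha hb hab, fun e => ?_⟩
    have h1 := (hc e).2 hz hz' ha hb hab
    simp only [smul_eq_mul] at h1
    refine lt_of_le_of_lt h1 ?_
    simp only [Pi.add_apply, Pi.smul_apply, smul_eq_mul]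
    rcases ha.lt_or_eq with ha' | ha'
    · have := mul_lt_mul_of_pos_left (hu e) ha'
      have := mul_le_mul_of_nonneg_left (hu' e).le hb
      linarith
    · have hb1 : b = 1 := by linarith
      rw [← ha', hb1]
      have := hu' e
      linarith
  have hUopen : IsOpen U := by
    have : U = ⋃ z ∈ 𝒞, ⋂ e, {u : P → ℝ | c e z < u e} := by
      ext u
      simp [U]
    rw [this]
    refine isOpen_biUnion fun z _ => isOpen_iInter_of_finite fun e => ?_
    exact isOpen_lt continuous_const (continuous_apply e)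
  have hB'U : (fun _ => B' : P → ℝ) ∉ U := by
    rintro ⟨z, hz, hu⟩
    obtain ⟨e, he⟩ := hcon z hz
    exact absurd (hu e) (not_lt.2 he.le)
  obtain ⟨f, hf⟩ := geometric_hahn_banach_open_point hUconv hUopen hB'U
  let dl : P → P → ℝ := fun e j => if e = j then 1 else 0
  have hfs : ∀ u : P → ℝ, f u = ∑ e, u e * f (dl e) := by
    intro u
    have := LinearMap.pi_apply_eq_sum_univ (f : (P → ℝ) →ₗ[ℝ] ℝ) u
    simpa [dl] using this
  have hup : ∀ u ∈ U, ∀ v : P → ℝ, (∀ e, 0 ≤ v e) → u + v ∈ U := by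
    rintro u ⟨z, hz, hu⟩ v hv
    refine ⟨z, hz, fun e => ?_⟩
    have := hu e
    have := hv e
    simp only [Pi.add_apply]
    linarith
  have hu0 : (fun e => c e z0 + 1) ∈ U := ⟨z0, hz0, fun e => by linarith⟩
  have hneg : ∀ e, f (dl e) ≤ 0 := by
    intro e
    by_contra hpos
    push Not at hpos
    set u0 : P → ℝ := fun e => c e z0 + 1 with hu0def
    have h1 : ∀ t : ℝ, 0 ≤ t → f u0 + t * f (dl e) < f (fun _ => B') := by
      intro t ht
      have := hf _ (hup u0 hu0 (t • dl e) (fun j => by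
        simp only [Pi.smul_apply, smul_eq_mul, dl]
        split_ifs <;> simp [ht]))
      rwa [map_add, map_smul, smul_eq_mul] at this
    have h2 := h1 ((|f (fun _ => B')| + |f u0|) / f (dl e)) (by positivity)
    rw [div_mul_cancel₀ _ hpos.ne'] at h2
    have := le_abs_self (f (fun _ => B'))
    have := neg_abs_le (f u0)
    linarith
  let h : P → ℝ := fun e => -f (dl e)
  have hh0 : ∀ e, 0 ≤ h e := fun e => neg_nonneg.2 (hneg e)
  have hhU : ∀ u ∈ U, B' * ∑ e, h e < ∑ e, h e * u e := by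
    intro u hu
    have h1 := hf u hu
    rw [hfs u, hfs (fun _ => B')] at h1
    have h2 : ∑ e, h e * u e = -∑ e, u e * f (dl e) := by
      rw [← Finset.sum_neg_distrib]
      exact Finset.sum_congr rfl fun e _ => by simp only [h]; ring
    have h3 : B' * ∑ e, h e = -∑ e, B' * f (dl e) := by
      rw [Finset.mul_sum, ← Finset.sum_neg_distrib]
      exact Finset.sum_congr rfl fun e _ => by simp only [h]; ring
    rw [h2, h3]
    linarith
  have hS : 0 < ∑ e, h e := by
    rcases (Finset.sum_nonneg fun e (_ : e ∈ Finset.univ) => hh0 e).lt_or_eq with h1 | h1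
    · exact h1
    · exfalso
      have h2 := (Finset.sum_eq_zero_iff_of_nonneg (fun e _ => hh0 e)).1 h1.symm
      have h3 := hhU _ hu0
      rw [← h1, mul_zero, Finset.sum_eq_zero fun e he => by rw [h2 e he, zero_mul]] at h3
      exact lt_irrefl _ h3
  obtain ⟨z, hz, hzB⟩ := H (fun e => h e / ∑ e, h e) (fun e => div_nonneg (hh0 e) hS.le) (by
    rw [← Finset.sum_div, div_self hS.ne'])
  have hu : (fun e => c e z + (B' - B)) ∈ U := ⟨z, hz, fun e => by linarith⟩
  have h4 := hhU _ hu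
  have h5 : ∑ e, h e * (c e z + (B' - B)) = (∑ e, h e) * (∑ e, h e / (∑ e, h e) * c e z)
      + (B' - B) * ∑ e, h e := by
    rw [Finset.mul_sum, Finset.mul_sum, ← Finset.sum_add_distrib]
    refine Finset.sum_congr rfl fun e _ => ?_
    field_simp
  rw [h5] at h4
  have h6 := mul_le_mul_of_nonneg_left hzB hS.le
  nlinarith

end Crest.Agent.S0358
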