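import Crest.Agent.S0358_T9a

/-!
# Task T9b (row S0358): sampling all windows (parameter choice for `window_sampling`)

For window `i` take `m_i = max 1 ⌊2^(p L i - M L)⌋₊`, `M = 3p + 4` or so, `B_i = 2^((i+1)L+1) Λ`,
`D_i = 2^(-(p-1)(i-1)L) Λ`, `ε_i = ε/(J+1)`, `R = 2 + log (8 N |P|)` (+1), `N = ⌊2^(C' L)⌋₊`.
`T_i F = (N m_i)^(-1/p) (∑_r F (f_i s r))_s`.  Exponent bookkeeping (powers of 2, `poly = Λ, log|P|, J+1, 1/ε, L` are all `≤ 2^(cL)`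
by `hyp`; `L ≤ 2^(cL)·const`):
* `c1`: `p i - M - (p-1)(i-1) - (i+1) = p - 2 - M ≤ 0`.
* `c2`, `p < 2`: `m^(p-1) D^p`: exponent `(p-1)(p i - M) - p(p-1)(i-1) = (p-1)(p - M)` negative for `M > p`.
* `c2`, `p ≥ 2`: `m B^(p-2) D²`: `p i - M + (p-2)(i+1) - 2(p-1)(i-1) = 3p - 4 - M` negative.
* `c3, c4`: `N m_i ≥ ½ N 2^(pLi - ML)` (or `m_i = 1` when `p i < M + small`, then `B_i^p ≤ 2^((M + 2p) L + p) Λ^p`).
* `c5`: `N |P| e^(2-R) = 1/8`.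
Final: Minkowski in the outer `l^p(i)`: the difference of the two norms is `≤ (∑_i ε_i^p)^(1/p) ≤ ∑_i ε_i ≤ ε`.
-/

set_option autoImplicit false

open scoped BigOperators

namespace Crest.Agent.S0358

/-- outer Minkowski step -/
theorem T9b_outer (p : ℝ) (hp : 1 < p) {Ω P : Type} [Fintype Ω] (μ : Ω → ℝ) (hμ : ∀ ω, 0 ≤ μ ω)
    (J N : ℕ) (hN : 1 ≤ N) (m : Fin (J + 1) → ℕ) (G : Fin (J + 1) → P → Ω → ℝ)
    (f : ∀ i : Fin (J + 1), Fin N → Fin (m i) → Ω) (ε : ℝ) (hε : 0 < ε)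
    (h : ∀ i e, |(1 / ((N : ℝ) * m i) * ∑ s, |∑ r, G i e (f i s r)| ^ p) ^ (1 / p)
        - (∑ ω, μ ω * |G i e ω| ^ p) ^ (1 / p)| ≤ ε / (J + 1)) :
    ∃ (T : Fin (J + 1) → (Ω → ℝ) →ₗ[ℝ] (Fin N → ℝ)),
        ∀ e, |pn p (fun _ : Fin (J + 1) × Fin N => 1) (fun q => T q.1 (G q.1 e) q.2)
          - pn p (fun q : Fin (J + 1) × Ω => μ q.2) (fun q => G q.1 e q.2)| ≤ ε := by
  have hp0 : 0 < p := by linarith
  let c : Fin (J + 1) → ℝ := fun i => (1 / ((N : ℝ) * m i)) ^ (1 / p)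
  have hc : ∀ i, 0 ≤ c i := fun i => Real.rpow_nonneg (by positivity) _
  have hcp : ∀ i, c i ^ p = 1 / ((N : ℝ) * m i) := by
    intro i
    simp only [c]
    rw [← Real.rpow_mul (by positivity), one_div_mul_cancel hp0.ne', Real.rpow_one]
  let T : Fin (J + 1) → (Ω → ℝ) →ₗ[ℝ] (Fin N → ℝ) := fun i =>
    { toFun := fun F s => c i * ∑ r, F (f i s r)
      map_add' := by
        intro F F'
        funext s
        simp only [Pi.add_apply, Finset.sum_add_distrib, mul_add]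
      map_smul' := by
        intro a F
        funext s
        simp only [Pi.smul_apply, smul_eq_mul, ← Finset.mul_sum, RingHom.id_apply]
        ring }
  refine ⟨T, fun e => ?_⟩
  let a : Fin (J + 1) → ℝ := fun i =>
    (1 / ((N : ℝ) * m i) * ∑ s, |∑ r, G i e (f i s r)| ^ p) ^ (1 / p)
  let b : Fin (J + 1) → ℝ := fun i => (∑ ω, μ ω * |G i e ω| ^ p) ^ (1 / p)
  have ha0 : ∀ i, 0 ≤ 1 / ((N : ℝ) * m i) * ∑ s, |∑ r, G i e (f i s r)| ^ p := fun i =>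
    mul_nonneg (by positivity) (Finset.sum_nonneg fun s _ => Real.rpow_nonneg (abs_nonneg _) _)
  have hb0 : ∀ i, 0 ≤ ∑ ω, μ ω * |G i e ω| ^ p := fun i =>
    Finset.sum_nonneg fun ω _ => mul_nonneg (hμ ω) (Real.rpow_nonneg (abs_nonneg _) _)
  have hpow : ∀ y : ℝ, 0 ≤ y → |y ^ (1 / p)| ^ p = y := by
    intro y hy
    rw [abs_of_nonneg (Real.rpow_nonneg hy _), ← Real.rpow_mul hy, one_div_mul_cancel hp0.ne',
      Real.rpow_one]
  have h1 : pn p (fun _ : Fin (J + 1) × Fin N => 1) (fun q => T q.1 (G q.1 e) q.2) =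
      pn p (fun _ : Fin (J + 1) => 1) a := by
    unfold pn
    congr 1
    rw [Fintype.sum_prod_type]
    refine Finset.sum_congr rfl fun i _ => ?_
    simp only [one_mul]
    rw [hpow _ (ha0 i), Finset.mul_sum]
    refine Finset.sum_congr rfl fun s _ => ?_
    show |c i * ∑ r, G i e (f i s r)| ^ p = _
    rw [abs_mul, Real.mul_rpow (abs_nonneg _) (abs_nonneg _), abs_of_nonneg (hc i), hcp]
  have h2 : pn p (fun q : Fin (J + 1) × Ω => μ q.2) (fun q => G q.1 e q.2) =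
      pn p (fun _ : Fin (J + 1) => 1) b := by
    unfold pn
    congr 1
    rw [Fintype.sum_prod_type]
    refine Finset.sum_congr rfl fun i _ => ?_
    simp only [one_mul]
    rw [hpow _ (hb0 i)]
  rw [h1, h2]
  have hone : ∀ i : Fin (J + 1), (0 : ℝ) ≤ (fun _ : Fin (J + 1) => (1 : ℝ)) i := fun _ => zero_le_one
  refine (abs_pn_sub_pn_le hp.le hone a b).trans ?_
  have h3 : pn p (fun _ : Fin (J + 1) => (1 : ℝ)) (fun i => a i - b i) ≤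
      pn p (fun _ : Fin (J + 1) => (1 : ℝ)) (fun _ => ε / (J + 1)) := by
    apply pn_mono hp0 hone
    intro i
    refine (h i e).trans (le_abs_self _)
  refine h3.trans ?_
  have h4 : (0 : ℝ) ≤ ε / (J + 1) := by positivity
  rw [pn_le_iff hp0 hone _ hε.le]
  simp only [one_mul, Finset.sum_const, Finset.card_univ, Fintype.card_fin, nsmul_eq_mul]
  rw [abs_of_nonneg h4]
  have hJ : (1 : ℝ) ≤ (J : ℝ) + 1 := by
    have : (0 : ℝ) ≤ J := Nat.cast_nonneg J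
    linarith
  have h5 : ε = ((J : ℝ) + 1) * (ε / (J + 1)) := by field_simp
  have h6 : ε ^ p = ((J : ℝ) + 1) ^ p * (ε / (J + 1)) ^ p := by
    conv_lhs => rw [h5]
    rw [Real.mul_rpow (by positivity) h4]
  rw [h6]
  push_cast
  apply mul_le_mul_of_nonneg_right _ (Real.rpow_nonneg h4 _)
  calc ((J : ℝ) + 1) = ((J : ℝ) + 1) ^ (1 : ℝ) := (Real.rpow_one _).symm
    _ ≤ ((J : ℝ) + 1) ^ p := Real.rpow_le_rpow_of_exponent_le hJ hp.le


set_option maxHeartbeats 4000000 in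
/-- numeric part for one window -/
theorem T9b_window (p : ℝ) (hp : 1 < p) (K L Λ ε' lg R x : ℝ) (i m N : ℕ)
    (hK1 : 1 ≤ K) (hKa : (p + 1) ≤ (p - 1) * K) (hKb : 4 * p + 2 ≤ K)
    (hL : 1 ≤ L) (hΛ : 1 ≤ Λ) (hε' : 0 < ε') (hx : x = (2 : ℝ) ^ (L / K))
    (hΛx : Λ / ε' ≤ x) (hεx : 1 / ε' ≤ x) (hlg0 : 0 ≤ lg) (hlg : lg ≤ 3 * x)
    (hR0 : 1 ≤ R) (hR : R ≤ x ^ (3 : ℝ))
    (k1 : 8 * (8 : ℝ) ^ p ≤ x) (k2 : 4 * ((2 : ℝ) ^ (p - 2) * (8 : ℝ) ^ p) ≤ x)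
    (k3 : 12 * ((2 : ℝ) ^ (p + 2) * (2 : ℝ) ^ p * (4 : ℝ) ^ p * (4 : ℝ) ^ p) ≤ x)
    (k4 : 24 * ((2 : ℝ) ^ p * (8 : ℝ) ^ p) ≤ x)
    (hm1 : 1 ≤ m) (hmlow : (2 : ℝ) ^ ((p * i - (3 * p + 4)) * L) ≤ 2 * m)
    (hmup : 2 ≤ m → (m : ℝ) ≤ (2 : ℝ) ^ ((p * i - (3 * p + 4)) * L))
    (hN : (2 : ℝ) ^ ((4 * p + 5) * L) ≤ 2 * N) :
    (2 ≤ m → (m : ℝ) * ((2 : ℝ) ^ (-((p - 1) * ((i : ℝ) - 1) * L)) * Λ)
      ≤ (2 : ℝ) ^ (((i : ℝ) + 1) * L + 1) * Λ) ∧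
    (2 ≤ m → 4 * (if 2 ≤ p then (R * ((2 : ℝ) ^ (((i : ℝ) + 1) * L + 1) * Λ)) ^ (p - 2) *
        ((m : ℝ) * ((2 : ℝ) ^ (-((p - 1) * ((i : ℝ) - 1) * L)) * Λ)) ^ 2
      else 2 * ((m : ℝ) * ((2 : ℝ) ^ (-((p - 1) * ((i : ℝ) - 1) * L)) * Λ)) ^ p)
        ≤ m * (ε' / 8) ^ p) ∧
    (2 ^ (p + 2) * ((2 : ℝ) ^ (((i : ℝ) + 1) * L + 1) * Λ) ^ p * lg
      ≤ (N : ℝ) * m * ((ε' / 4) ^ p) ^ 2) ∧
    (2 * (R * ((2 : ℝ) ^ (((i : ℝ) + 1) * L + 1) * Λ)) ^ p * lg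
      ≤ (N : ℝ) * m * (ε' / 8) ^ p) := by
  have hp0 : 0 < p := by linarith
  have hK0 : 0 < K := by linarith
  have hL0 : 0 < L := by linarith
  have hΛ0 : 0 < Λ := by linarith
  have h2 : (0 : ℝ) < 2 := two_pos
  have hx1 : 1 ≤ x := by
    rw [hx]
    exact Real.one_le_rpow one_le_two (by positivity)
  have hx0 : 0 < x := by linarith
  have hm0 : (0 : ℝ) < m := by
    have : (1 : ℝ) ≤ m := by exact_mod_cast hm1
    linarith
  -- powers of x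
  have hxpow : ∀ a E : ℝ, a ≤ E * K → x ^ a ≤ (2 : ℝ) ^ (E * L) := by
    intro a E h
    rw [hx, ← Real.rpow_mul h2.le]
    apply Real.rpow_le_rpow_of_exponent_le one_le_two
    have h1 : L / K * a ≤ L / K * (E * K) := mul_le_mul_of_nonneg_left h (by positivity)
    have h3 : L / K * (E * K) = E * L := by field_simp
    linarith
  have hΛp : Λ ^ p ≤ x ^ p * ε' ^ p := by
    rw [← Real.mul_rpow hx0.le hε'.le]
    apply Real.rpow_le_rpow hΛ0.le _ hp0.le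
    rwa [div_le_iff₀ hε'] at hΛx
  have hε'p : 0 < ε' ^ p := Real.rpow_pos_of_pos hε' _
  have hone : 1 ≤ x ^ p * ε' ^ p := by
    rw [← Real.mul_rpow hx0.le hε'.le]
    apply Real.one_le_rpow _ hp0.le
    rwa [div_le_iff₀ hε'] at hεx
  set A : ℝ := (2 : ℝ) ^ ((p * i - (3 * p + 4)) * L) with hA
  have hA0 : 0 < A := Real.rpow_pos_of_pos h2 _
  set U : ℝ := (2 : ℝ) ^ (-((p - 1) * ((i : ℝ) - 1) * L)) with hU
  have hU0 : 0 < U := Real.rpow_pos_of_pos h2 _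
  set Bb : ℝ := (2 : ℝ) ^ (((i : ℝ) + 1) * L + 1) with hBb
  have hBb0 : 0 < Bb := Real.rpow_pos_of_pos h2 _
  have hi0 : (0 : ℝ) ≤ i := Nat.cast_nonneg i
  refine ⟨?_, ?_, ?_, ?_⟩
  · -- c1
    intro hm2
    have h3 : (m : ℝ) * (U * Λ) ≤ A * (U * Λ) :=
      mul_le_mul_of_nonneg_right (hmup hm2) (by positivity)
    refine h3.trans ?_
    rw [← mul_assoc]
    apply mul_le_mul_of_nonneg_right _ hΛ0.le
    rw [hA, hU, hBb, ← Real.rpow_add h2]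
    apply Real.rpow_le_rpow_of_exponent_le one_le_two
    nlinarith [mul_pos hp0 hL0]
  · -- c2
    intro hm2
    have hmA := hmup hm2
    split_ifs with hp2
    · -- p ≥ 2
      have e1 : (R * (Bb * Λ)) ^ (p - 2) = R ^ (p - 2) * (Bb ^ (p - 2) * Λ ^ (p - 2)) := by
        rw [Real.mul_rpow (by linarith) (by positivity), Real.mul_rpow hBb0.le hΛ0.le]
      have e2 : Λ ^ (p - 2) * Λ ^ 2 = Λ ^ p := by
        rw [← Real.rpow_natCast Λ 2, ← Real.rpow_add hΛ0]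
        congr 1; push_cast; ring
      have e3 : ((m : ℝ) * (U * Λ)) ^ 2 ≤ m * (A * U ^ 2 * Λ ^ 2) := by
        have : ((m : ℝ) * (U * Λ)) ^ 2 = m * (m * U ^ 2 * Λ ^ 2) := by ring
        rw [this]
        apply mul_le_mul_of_nonneg_left _ hm0.le
        apply mul_le_mul_of_nonneg_right _ (by positivity)
        exact mul_le_mul_of_nonneg_right hmA (by positivity)
      have e4 : Bb ^ (p - 2) * (A * U ^ 2) = (2 : ℝ) ^ (p - 2) * (2 : ℝ) ^ (-(8 * L)) := by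
        rw [hBb, hA, hU, ← Real.rpow_mul h2.le, ← Real.rpow_natCast _ 2, ← Real.rpow_mul h2.le,
          ← Real.rpow_add h2, ← Real.rpow_add h2, ← Real.rpow_add h2]
        congr 1; push_cast; ring
      have e5 : R ^ (p - 2) ≤ x ^ (3 * (p - 2)) := by
        rw [Real.rpow_mul hx0.le]
        exact Real.rpow_le_rpow (by linarith) hR (by linarith)
      have hRp : 0 ≤ R ^ (p - 2) := Real.rpow_nonneg (by linarith) _
      have hΛq : 0 ≤ Λ ^ (p - 2) := Real.rpow_nonneg hΛ0.le _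
      have hBq : 0 ≤ Bb ^ (p - 2) := Real.rpow_nonneg hBb0.le _
      calc 4 * ((R * (Bb * Λ)) ^ (p - 2) * ((m : ℝ) * (U * Λ)) ^ 2)
          ≤ 4 * ((R ^ (p - 2) * (Bb ^ (p - 2) * Λ ^ (p - 2))) * (m * (A * U ^ 2 * Λ ^ 2))) := by
            rw [e1]
            apply mul_le_mul_of_nonneg_left _ (by norm_num)
            exact mul_le_mul_of_nonneg_left e3 (by positivity)
        _ = m * (4 * R ^ (p - 2) * (Bb ^ (p - 2) * (A * U ^ 2)) * (Λ ^ (p - 2) * Λ ^ 2)) := by ring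
        _ = m * (4 * R ^ (p - 2) * ((2 : ℝ) ^ (p - 2) * (2 : ℝ) ^ (-(8 * L))) * Λ ^ p) := by
            rw [e4, e2]
        _ ≤ m * (4 * x ^ (3 * (p - 2)) * ((2 : ℝ) ^ (p - 2) * (2 : ℝ) ^ (-(8 * L))) *
              (x ^ p * ε' ^ p)) := by
            apply mul_le_mul_of_nonneg_left _ hm0.le
            gcongr
        _ = m * ((4 * ((2 : ℝ) ^ (p - 2) * (8 : ℝ) ^ p)) * (x ^ (3 * (p - 2)) * x ^ p) *
              (2 : ℝ) ^ (-(8 * L)) * (ε' ^ p / (8 : ℝ) ^ p)) := by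
            field_simp
        _ ≤ m * (x * (x ^ (3 * (p - 2)) * x ^ p) * (2 : ℝ) ^ (-(8 * L)) * (ε' ^ p / (8 : ℝ) ^ p)) := by
            gcongr
        _ = m * (x ^ (1 + (3 * (p - 2) + p)) * (2 : ℝ) ^ (-(8 * L)) * (ε' ^ p / (8 : ℝ) ^ p)) := by
            rw [Real.rpow_add hx0, Real.rpow_add hx0, Real.rpow_one]
        _ ≤ m * ((2 : ℝ) ^ (8 * L) * (2 : ℝ) ^ (-(8 * L)) * (ε' ^ p / (8 : ℝ) ^ p)) := by
            gcongr
            apply hxpow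
            nlinarith
        _ = m * (ε' / 8) ^ p := by
            rw [← Real.rpow_add h2, Real.div_rpow hε'.le (by norm_num)]
            simp
    · -- p < 2
      have e1 : ((m : ℝ) * (U * Λ)) ^ p ≤ m * (A ^ (p - 1) * U ^ p * Λ ^ p) := by
        rw [Real.mul_rpow hm0.le (by positivity), Real.mul_rpow hU0.le hΛ0.le]
        have : (m : ℝ) ^ p = m * (m : ℝ) ^ (p - 1) := by
          rw [Real.rpow_sub_one hm0.ne']
          field_simp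
        rw [this]
        have h4 : (m : ℝ) ^ (p - 1) ≤ A ^ (p - 1) := Real.rpow_le_rpow hm0.le hmA (by linarith)
        calc (m : ℝ) * (m : ℝ) ^ (p - 1) * (U ^ p * Λ ^ p) = m * ((m : ℝ) ^ (p - 1) * U ^ p * Λ ^ p) := by ring
          _ ≤ m * (A ^ (p - 1) * U ^ p * Λ ^ p) := by gcongr
      have e4 : A ^ (p - 1) * U ^ p = (2 : ℝ) ^ (-(((p - 1) * (2 * p + 4)) * L)) := by
        rw [hA, hU, ← Real.rpow_mul h2.le, ← Real.rpow_mul h2.le, ← Real.rpow_add h2]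
        congr 1; ring
      calc 4 * (2 * ((m : ℝ) * (U * Λ)) ^ p)
          ≤ 4 * (2 * (m * (A ^ (p - 1) * U ^ p * Λ ^ p))) := by gcongr
        _ = m * (8 * (2 : ℝ) ^ (-(((p - 1) * (2 * p + 4)) * L)) * Λ ^ p) := by rw [e4]; ring
        _ ≤ m * (8 * (2 : ℝ) ^ (-(((p - 1) * (2 * p + 4)) * L)) * (x ^ p * ε' ^ p)) := by gcongr
        _ = m * ((8 * (8 : ℝ) ^ p) * x ^ p * (2 : ℝ) ^ (-(((p - 1) * (2 * p + 4)) * L)) *
              (ε' ^ p / (8 : ℝ) ^ p)) := by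
            field_simp
        _ ≤ m * (x * x ^ p * (2 : ℝ) ^ (-(((p - 1) * (2 * p + 4)) * L)) *
              (ε' ^ p / (8 : ℝ) ^ p)) := by gcongr
        _ = m * (x ^ (1 + p) * (2 : ℝ) ^ (-(((p - 1) * (2 * p + 4)) * L)) *
              (ε' ^ p / (8 : ℝ) ^ p)) := by rw [Real.rpow_add hx0, Real.rpow_one]
        _ ≤ m * ((2 : ℝ) ^ (((p - 1) * (2 * p + 4)) * L) * (2 : ℝ) ^ (-(((p - 1) * (2 * p + 4)) * L)) *
              (ε' ^ p / (8 : ℝ) ^ p)) := by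
            gcongr
            apply hxpow
            nlinarith [mul_pos (sub_pos.2 hp) hK0]
        _ = m * (ε' / 8) ^ p := by
            rw [← Real.rpow_add h2, Real.div_rpow hε'.le (by norm_num)]
            simp
  · -- c3
    have hNm : (2 : ℝ) ^ ((4 * p + 5) * L) * A ≤ 4 * ((N : ℝ) * m) := by
      calc (2 : ℝ) ^ ((4 * p + 5) * L) * A ≤ (2 * N) * (2 * m) :=
            mul_le_mul hN hmlow hA0.le (by positivity)
        _ = 4 * ((N : ℝ) * m) := by ring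
    have e0 : (Bb * Λ) ^ p = Bb ^ p * Λ ^ p := Real.mul_rpow hBb0.le hΛ0.le
    have e1 : (2 : ℝ) ^ ((4 * p + 5) * L) * A = (Bb ^ p / (2 : ℝ) ^ p) * (2 : ℝ) ^ (1 * L) := by
      rw [hBb, hA, ← Real.rpow_mul h2.le, ← Real.rpow_sub h2, ← Real.rpow_add h2, ← Real.rpow_add h2]
      congr 1; ring
    have hBp : 0 < Bb ^ p := Real.rpow_pos_of_pos hBb0 _
    rw [e0]
    have e2 : ((ε' / 4) ^ p) ^ 2 = ε' ^ p * ε' ^ p / ((4 : ℝ) ^ p * (4 : ℝ) ^ p) := by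
      rw [Real.div_rpow hε'.le (by norm_num)]
      rw [div_pow]
      ring
    rw [e2]
    calc (2 : ℝ) ^ (p + 2) * (Bb ^ p * Λ ^ p) * lg
        ≤ (2 : ℝ) ^ (p + 2) * (Bb ^ p * (x ^ p * ε' ^ p)) * (3 * x) := by gcongr
      _ ≤ (2 : ℝ) ^ (p + 2) * (Bb ^ p * (x ^ p * ε' ^ p)) * (3 * x) * (x ^ p * ε' ^ p) :=
          le_mul_of_one_le_right (by positivity) hone
      _ = (12 * ((2 : ℝ) ^ (p + 2) * (2 : ℝ) ^ p * (4 : ℝ) ^ p * (4 : ℝ) ^ p)) * (x ^ p * x ^ p * x) *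
            (Bb ^ p / (2 : ℝ) ^ p) * (ε' ^ p * ε' ^ p / ((4 : ℝ) ^ p * (4 : ℝ) ^ p)) / 4 := by
          field_simp
          ring
      _ ≤ x * (x ^ p * x ^ p * x) *
            (Bb ^ p / (2 : ℝ) ^ p) * (ε' ^ p * ε' ^ p / ((4 : ℝ) ^ p * (4 : ℝ) ^ p)) / 4 := by gcongr
      _ = x ^ (1 + (p + p + 1)) *
            (Bb ^ p / (2 : ℝ) ^ p) * (ε' ^ p * ε' ^ p / ((4 : ℝ) ^ p * (4 : ℝ) ^ p)) / 4 := by
          rw [Real.rpow_add hx0, Real.rpow_add hx0, Real.rpow_add hx0, Real.rpow_one]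
      _ ≤ (2 : ℝ) ^ (1 * L) *
            (Bb ^ p / (2 : ℝ) ^ p) * (ε' ^ p * ε' ^ p / ((4 : ℝ) ^ p * (4 : ℝ) ^ p)) / 4 := by
          gcongr
          apply hxpow
          linarith
      _ = ((2 : ℝ) ^ ((4 * p + 5) * L) * A) * (ε' ^ p * ε' ^ p / ((4 : ℝ) ^ p * (4 : ℝ) ^ p)) / 4 := by
          rw [e1]; ring
      _ ≤ (4 * ((N : ℝ) * m)) * (ε' ^ p * ε' ^ p / ((4 : ℝ) ^ p * (4 : ℝ) ^ p)) / 4 := by gcongr
      _ = (N : ℝ) * m * (ε' ^ p * ε' ^ p / ((4 : ℝ) ^ p * (4 : ℝ) ^ p)) := by ring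
  · -- c4
    have hNm : (2 : ℝ) ^ ((4 * p + 5) * L) * A ≤ 4 * ((N : ℝ) * m) := by
      calc (2 : ℝ) ^ ((4 * p + 5) * L) * A ≤ (2 * N) * (2 * m) :=
            mul_le_mul hN hmlow hA0.le (by positivity)
        _ = 4 * ((N : ℝ) * m) := by ring
    have e0 : (R * (Bb * Λ)) ^ p = R ^ p * (Bb ^ p * Λ ^ p) := by
      rw [Real.mul_rpow (by linarith) (by positivity), Real.mul_rpow hBb0.le hΛ0.le]
    have e1 : (2 : ℝ) ^ ((4 * p + 5) * L) * A = (Bb ^ p / (2 : ℝ) ^ p) * (2 : ℝ) ^ (1 * L) := by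
      rw [hBb, hA, ← Real.rpow_mul h2.le, ← Real.rpow_sub h2, ← Real.rpow_add h2, ← Real.rpow_add h2]
      congr 1; ring
    have e5 : R ^ p ≤ x ^ (3 * p) := by
      rw [Real.rpow_mul hx0.le]
      exact Real.rpow_le_rpow (by linarith) hR (by linarith)
    have hBp : 0 < Bb ^ p := Real.rpow_pos_of_pos hBb0 _
    rw [e0]
    have e2 : (ε' / 8) ^ p = ε' ^ p / (8 : ℝ) ^ p := Real.div_rpow hε'.le (by norm_num) _
    rw [e2]
    calc 2 * (R ^ p * (Bb ^ p * Λ ^ p)) * lg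
        ≤ 2 * (x ^ (3 * p) * (Bb ^ p * (x ^ p * ε' ^ p))) * (3 * x) := by gcongr
      _ = (24 * ((2 : ℝ) ^ p * (8 : ℝ) ^ p)) * (x ^ (3 * p) * x ^ p * x) *
            (Bb ^ p / (2 : ℝ) ^ p) * (ε' ^ p / (8 : ℝ) ^ p) / 4 := by
          field_simp
          ring
      _ ≤ x * (x ^ (3 * p) * x ^ p * x) *
            (Bb ^ p / (2 : ℝ) ^ p) * (ε' ^ p / (8 : ℝ) ^ p) / 4 := by gcongr
      _ = x ^ (1 + (3 * p + p + 1)) *
            (Bb ^ p / (2 : ℝ) ^ p) * (ε' ^ p / (8 : ℝ) ^ p) / 4 := by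
          rw [Real.rpow_add hx0, Real.rpow_add hx0, Real.rpow_add hx0, Real.rpow_one]
      _ ≤ (2 : ℝ) ^ (1 * L) *
            (Bb ^ p / (2 : ℝ) ^ p) * (ε' ^ p / (8 : ℝ) ^ p) / 4 := by
          gcongr
          apply hxpow
          linarith
      _ = ((2 : ℝ) ^ ((4 * p + 5) * L) * A) * (ε' ^ p / (8 : ℝ) ^ p) / 4 := by
          rw [e1]; ring
      _ ≤ (4 * ((N : ℝ) * m)) * (ε' ^ p / (8 : ℝ) ^ p) / 4 := by gcongr
      _ = (N : ℝ) * m * (ε' ^ p / (8 : ℝ) ^ p) := by ring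

theorem T9b_Lx (L K x : ℝ) (hK : 0 < K) (hL : 0 ≤ L) (hx : x = (2 : ℝ) ^ (L / K)) :
    L ≤ 2 * K * x := by
  have h4 : L / K * Real.log 2 ≤ x := by
    rw [hx, Real.rpow_def_of_pos two_pos]
    have := Real.add_one_le_exp (Real.log 2 * (L / K))
    linarith
  have h5 : (1 / 2 : ℝ) ≤ Real.log 2 := by
    have := Real.log_two_gt_d9
    linarith
  have h6 : L / K * (1 / 2) ≤ x := le_trans (mul_le_mul_of_nonneg_left h5 (by positivity)) h4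
  have h7 : (L / K * (1 / 2)) * (2 * K) ≤ x * (2 * K) :=
    mul_le_mul_of_nonneg_right h6 (by positivity)
  have h8 : (L / K * (1 / 2)) * (2 * K) = L := by field_simp
  rw [h8] at h7
  linarith

theorem T9b_logN (N : ℕ) (y : ℝ) (hN1 : (1 : ℝ) ≤ N) (hy : 0 ≤ y)
    (h : (N : ℝ) ≤ (2 : ℝ) ^ y) : Real.log N ≤ y := by
  have h4 : Real.log N ≤ Real.log ((2 : ℝ) ^ y) := Real.log_le_log (by linarith) h
  rw [Real.log_rpow two_pos] at h4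
  refine h4.trans ?_
  have h5 := Real.log_two_lt_d9
  have h6 : y * Real.log 2 ≤ y * 1 := mul_le_mul_of_nonneg_left (by linarith) hy
  linarith

theorem T9b_R (p L Q l8 lN lP : ℝ) (hp : 1 < p) (hL : 1 ≤ L) (hQ : 1 ≤ Q) (h8 : l8 ≤ 3)
    (hN : lN ≤ (4 * p + 5) * L) (hP : lP ≤ Q) :
    2 + (l8 + (lN + lP)) ≤ (4 * p + 11) * (L * Q) := by
  have h6 : 1 ≤ L * Q := one_le_mul_of_one_le_of_one_le hL hQ
  have h7 : L ≤ L * Q := le_mul_of_one_le_right (by linarith) hQ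
  have h9 : Q ≤ L * Q := le_mul_of_one_le_left (by linarith) hL
  have h10 := mul_le_mul_of_nonneg_left h7 (show 0 ≤ 4 * p + 5 by linarith)
  have h11 : (4 * p + 11) * (L * Q) = (4 * p + 5) * (L * Q) + 5 * (L * Q) + L * Q := by ring
  rw [h11]
  linarith

theorem T9b_R3 (R a L Q K x : ℝ) (ha : 0 ≤ a) (hL : 0 ≤ L) (hQ : 0 ≤ Q) (hK : 0 ≤ K)
    (hx : 0 ≤ x) (h1 : R ≤ a * (L * Q)) (h2 : L ≤ 2 * K * x) (h3 : Q ≤ x)
    (h4 : a * (2 * K) ≤ x) : R ≤ x ^ (3 : ℝ) := by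
  have h5 : L * Q ≤ (2 * K * x) * x := mul_le_mul h2 h3 hQ (by positivity)
  calc R ≤ a * (L * Q) := h1
    _ ≤ a * ((2 * K * x) * x) := mul_le_mul_of_nonneg_left h5 ha
    _ = (a * (2 * K)) * (x * x) := by ring
    _ ≤ x * (x * x) := mul_le_mul_of_nonneg_right h4 (by positivity)
    _ = x ^ (3 : ℝ) := by
        rw [show (3 : ℝ) = ((3 : ℕ) : ℝ) by norm_num, Real.rpow_natCast]
        ring

theorem T9b_NP (a b : ℝ) (ha : 1 ≤ a) (hb : 1 ≤ b) : 1 ≤ 8 * a * b := by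
  have : 1 ≤ a * b := one_le_mul_of_one_le_of_one_le ha hb
  have h : 8 * a * b = 8 * (a * b) := by ring
  rw [h]; linarith

theorem T9b_c5 (a b R : ℝ) (ha : 1 ≤ a) (hb : 1 ≤ b) (hR : R = 2 + Real.log (8 * a * b)) :
    a * b * Real.exp (2 - R) ≤ 1 / 8 := by
  have h0 := T9b_NP a b ha hb
  have h4 : 2 - R = - Real.log (8 * a * b) := by rw [hR]; ring
  rw [h4, Real.exp_neg, Real.exp_log (by linarith)]
  apply le_of_eq
  have h1 : a ≠ 0 := by linarith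
  have h2 : b ≠ 0 := by linarith
  field_simp

theorem T9b_zero (p L : ℝ) (hp : 1 < p) (hL : 1 ≤ L) (i : ℕ) (hi : i = 0) :
    (2 : ℝ) ^ ((p * (i : ℝ) - (3 * p + 4)) * L) ≤ 1 := by
  apply Real.rpow_le_one_of_one_le_of_nonpos one_le_two
  rw [hi]
  push_cast
  have : 0 ≤ (3 * p + 4) * L := by positivity
  linarith

theorem T9b_Q (C Λ ℓ j : ℝ) (hC : 1 ≤ C) (hΛ : 1 ≤ Λ) (hℓ : 1 ≤ ℓ) (hj : 1 ≤ j) :
    C ≤ C * (Λ * (ℓ * j)) ∧ j ≤ C * (Λ * (ℓ * j)) ∧ Λ * j ≤ C * (Λ * (ℓ * j)) ∧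
      ℓ ≤ C * (Λ * (ℓ * j)) := by
  have hm1 : 1 ≤ ℓ * j := one_le_mul_of_one_le_of_one_le hℓ hj
  have hm2 : 1 ≤ Λ * (ℓ * j) := one_le_mul_of_one_le_of_one_le hΛ hm1
  have h6 : Λ * (ℓ * j) ≤ C * (Λ * (ℓ * j)) := le_mul_of_one_le_left (by linarith) hC
  have h4 : j ≤ ℓ * j := le_mul_of_one_le_left (by linarith) hℓ
  have h5 : ℓ * j ≤ Λ * (ℓ * j) := le_mul_of_one_le_left (by linarith) hΛ
  have h7 : ℓ ≤ ℓ * j := le_mul_of_one_le_right (by linarith) hj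
  refine ⟨le_mul_of_one_le_right (by linarith) hm2, by linarith, ?_, by linarith⟩
  exact (mul_le_mul_of_nonneg_left h4 (by linarith)).trans h6

set_option maxHeartbeats 4000000 in
theorem sampling (p : ℝ) (hp : 1 < p) : ∃ C : ℝ, 1 ≤ C ∧
    ∀ {Ω P : Type} [Fintype Ω] [Fintype P] [Nonempty P] (μ : Ω → ℝ) (_ : ∀ ω, 0 ≤ μ ω)
      (_ : ∑ ω, μ ω = 1) (J : ℕ) (L Λ ε : ℝ) (_ : 1 ≤ L) (_ : 1 ≤ Λ) (_ : 0 < ε) (_ : ε ≤ 1)
      (G : Fin (J + 1) → P → Ω → ℝ)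
      (_ : ∀ (i : Fin (J + 1)) (e : P) (ω : Ω), |G i e ω| ≤ (2 : ℝ) ^ (((i : ℕ) + 1 : ℝ) * L + 1) * Λ)
      (_ : ∀ (i : Fin (J + 1)) (e : P), 1 ≤ (i : ℕ) →
        ∑ ω, μ ω * |G i e ω| ≤ (2 : ℝ) ^ (-((p - 1) * ((i : ℕ) - 1 : ℝ) * L)) * Λ)
      (_ : ∀ (i : Fin (J + 1)) (e : P), ∑ ω, μ ω * |G i e ω| ^ p ≤ 2 ^ p)
      (_ : (C * Λ * (1 + Real.log (Fintype.card P)) * (J + 1) / ε) ^ C ≤ (2 : ℝ) ^ L),
      ∃ (N : ℕ) (T : Fin (J + 1) → (Ω → ℝ) →ₗ[ℝ] (Fin N → ℝ)),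
        (N : ℝ) ≤ (2 : ℝ) ^ (C * L) ∧
        ∀ e, |pn p (fun _ : Fin (J + 1) × Fin N => 1) (fun q => T q.1 (G q.1 e) q.2)
          - pn p (fun q : Fin (J + 1) × Ω => μ q.2) (fun q => G q.1 e q.2)| ≤ ε := by
  have hp0 : 0 < p := by linarith
  have hp1 : 0 < p - 1 := by linarith
  obtain ⟨K, hK⟩ : ∃ K : ℝ, K = 5 * p + 10 + (p + 1) / (p - 1) := ⟨_, rfl⟩
  have hKpos : 0 < (p + 1) / (p - 1) := by positivity
  have hK1 : 1 ≤ K := by rw [hK]; nlinarith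
  have hK0 : 0 < K := by linarith
  have hKa : (p + 1) ≤ (p - 1) * K := by
    have : (p - 1) * ((p + 1) / (p - 1)) = p + 1 := by field_simp
    rw [hK, mul_add, this]
    have : 0 ≤ (p - 1) * (5 * p + 10) := by positivity
    linarith
  have hKb : 4 * p + 2 ≤ K := by rw [hK]; nlinarith
  -- the constants
  have q1 : 0 < 8 * (8 : ℝ) ^ p := by positivity
  have q2 : 0 < 4 * ((2 : ℝ) ^ (p - 2) * (8 : ℝ) ^ p) := by positivity
  have q3 : 0 < 12 * ((2 : ℝ) ^ (p + 2) * (2 : ℝ) ^ p * (4 : ℝ) ^ p * (4 : ℝ) ^ p) := by positivity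
  have q4 : 0 < 24 * ((2 : ℝ) ^ p * (8 : ℝ) ^ p) := by positivity
  have q5 : 0 < (4 * p + 11) * (2 * K) := by positivity
  obtain ⟨K1, hK1def⟩ : ∃ K1 : ℝ, K1 = 1 + 8 * (8 : ℝ) ^ p + 4 * ((2 : ℝ) ^ (p - 2) * (8 : ℝ) ^ p) +
    12 * ((2 : ℝ) ^ (p + 2) * (2 : ℝ) ^ p * (4 : ℝ) ^ p * (4 : ℝ) ^ p) +
    24 * ((2 : ℝ) ^ p * (8 : ℝ) ^ p) + (4 * p + 11) * (2 * K) := ⟨_, rfl⟩
  have hK1one : 1 ≤ K1 := by rw [hK1def]; linarith
  have hlogK1 : 0 ≤ Real.logb 2 K1 := Real.logb_nonneg one_lt_two hK1one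
  obtain ⟨C, hC⟩ : ∃ C : ℝ, C = K + K * Real.logb 2 K1 + (4 * p + 5) + 2 := ⟨_, rfl⟩
  have hKl : 0 ≤ K * Real.logb 2 K1 := by positivity
  have hCK : K ≤ C := by rw [hC]; linarith
  have hCl : K * Real.logb 2 K1 ≤ C := by rw [hC]; linarith
  have hCN : 4 * p + 5 ≤ C := by rw [hC]; linarith
  have hC2 : 2 ≤ C := by rw [hC]; linarith
  refine ⟨C, by linarith, ?_⟩
  intro Ω P _ _ _ μ hμ hμ1 J L Λ ε hL hΛ hε hε1 G h1 h2 h3 hyp
  have hC0 : 0 < C := by linarith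
  have hcard : (1 : ℝ) ≤ Fintype.card P := by
    exact_mod_cast Fintype.card_pos
  have hcard0 : (0 : ℝ) < Fintype.card P := by linarith
  have hlogP : 0 ≤ Real.log (Fintype.card P) := Real.log_nonneg hcard
  have hJ : (1 : ℝ) ≤ (J : ℝ) + 1 := by
    have : (0 : ℝ) ≤ J := Nat.cast_nonneg J
    linarith
  have hJε : 1 ≤ ((J : ℝ) + 1) / ε := by
    rw [le_div_iff₀ hε]
    linarith
  set ℓ : ℝ := 1 + Real.log (Fintype.card P) with hℓ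
  have hℓ1 : 1 ≤ ℓ := by linarith
  obtain ⟨Q, hQ⟩ : ∃ Q : ℝ, Q = C * Λ * ℓ * (J + 1) / ε := ⟨_, rfl⟩
  rw [← hQ] at hyp
  have hQ' : Q = C * (Λ * (ℓ * (((J : ℝ) + 1) / ε))) := by rw [hQ]; ring
  have hm1 : 1 ≤ ℓ * (((J : ℝ) + 1) / ε) := one_le_mul_of_one_le_of_one_le hℓ1 hJε
  have hm2 : 1 ≤ Λ * (ℓ * (((J : ℝ) + 1) / ε)) := one_le_mul_of_one_le_of_one_le hΛ hm1
  have hCQ : C ≤ Q := by
    rw [hQ']
    exact le_mul_of_one_le_right hC0.le hm2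
  have hQ2 : 2 ≤ Q := hC2.trans hCQ
  have hQ0 : 0 < Q := by linarith
  -- L ≥ C
  have hLC : C ≤ L := by
    have h4 : (2 : ℝ) ^ C ≤ (2 : ℝ) ^ L :=
      (Real.rpow_le_rpow two_pos.le hQ2 hC0.le).trans hyp
    exact (Real.rpow_le_rpow_left_iff one_lt_two).1 h4
  obtain ⟨x, hx⟩ : ∃ x : ℝ, x = (2 : ℝ) ^ (L / K) := ⟨_, rfl⟩
  have hx1 : 1 ≤ x := by
    rw [hx]
    exact Real.one_le_rpow one_le_two (by positivity)
  have hx0 : 0 < x := by linarith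
  have hQx : Q ≤ x := by
    have h4 : Q = (Q ^ C) ^ (1 / C) := by
      rw [← Real.rpow_mul hQ0.le, mul_one_div_cancel hC0.ne', Real.rpow_one]
    rw [h4]
    calc (Q ^ C) ^ (1 / C) ≤ ((2 : ℝ) ^ L) ^ (1 / C) :=
          Real.rpow_le_rpow (Real.rpow_nonneg hQ0.le _) hyp (by positivity)
      _ = (2 : ℝ) ^ (L / C) := by rw [← Real.rpow_mul two_pos.le]; congr 1; ring
      _ ≤ x := by
          rw [hx]
          apply Real.rpow_le_rpow_of_exponent_le one_le_two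
          exact div_le_div_of_nonneg_left (by linarith) hK0 hCK
  have hK1x : K1 ≤ x := by
    have h4 : K1 = (2 : ℝ) ^ (Real.logb 2 K1) := by
      rw [Real.rpow_logb two_pos (by norm_num) (by linarith)]
    rw [h4, hx]
    apply Real.rpow_le_rpow_of_exponent_le one_le_two
    rw [le_div_iff₀ hK0]
    linarith
  have hLx : L ≤ 2 * K * x := T9b_Lx L K x hK0 (le_trans zero_le_one hL) hx
  -- N
  obtain ⟨N, hNdef⟩ : ∃ N : ℕ, N = ⌊(2 : ℝ) ^ ((4 * p + 5) * L)⌋₊ := ⟨_, rfl⟩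
  have hy1 : (1 : ℝ) ≤ (2 : ℝ) ^ ((4 * p + 5) * L) := Real.one_le_rpow one_le_two (by positivity)
  have hN1 : 1 ≤ N := by
    rw [hNdef]
    exact Nat.le_floor (by exact_mod_cast hy1)
  have hNle : (N : ℝ) ≤ (2 : ℝ) ^ ((4 * p + 5) * L) := by
    rw [hNdef]
    exact Nat.floor_le (by linarith)
  have hfl : ∀ y : ℝ, 1 ≤ y → y ≤ 2 * (⌊y⌋₊ : ℝ) := by
    intro y hy
    have h4 := Nat.lt_floor_add_one y
    have h5 : (1 : ℝ) ≤ ⌊y⌋₊ := by exact_mod_cast (Nat.le_floor (by exact_mod_cast hy) : 1 ≤ ⌊y⌋₊)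
    linarith
  have hNge : (2 : ℝ) ^ ((4 * p + 5) * L) ≤ 2 * N := by
    rw [hNdef]
    exact hfl _ hy1
  have hN1' : (1 : ℝ) ≤ N := by exact_mod_cast hN1
  -- multiplicities
  let m : Fin (J + 1) → ℕ := fun i => max 1 ⌊(2 : ℝ) ^ ((p * (i : ℕ) - (3 * p + 4)) * L)⌋₊
  have hm1' : ∀ i : Fin (J + 1), 1 ≤ m i := fun i => le_max_left _ _
  have hmlow : ∀ i : Fin (J + 1), (2 : ℝ) ^ ((p * (i : ℕ) - (3 * p + 4)) * L) ≤ 2 * (m i : ℝ) := by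
    intro i
    rcases le_total 1 ((2 : ℝ) ^ ((p * (i : ℕ) - (3 * p + 4)) * L)) with h4 | h4
    · refine (hfl _ h4).trans ?_
      have : (⌊(2 : ℝ) ^ ((p * (i : ℕ) - (3 * p + 4)) * L)⌋₊ : ℝ) ≤ (m i : ℝ) := by
        exact_mod_cast le_max_right _ _
      linarith
    · have : (1 : ℝ) ≤ (m i : ℝ) := by exact_mod_cast hm1' i
      linarith
  have hmfl : ∀ i : Fin (J + 1), 2 ≤ m i → m i = ⌊(2 : ℝ) ^ ((p * (i : ℕ) - (3 * p + 4)) * L)⌋₊ := by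
    intro i h4
    rcases max_choice 1 ⌊(2 : ℝ) ^ ((p * (i : ℕ) - (3 * p + 4)) * L)⌋₊ with h5 | h5
    · exfalso
      have : m i = 1 := h5
      omega
    · exact h5
  have hmup : ∀ i : Fin (J + 1), 2 ≤ m i → (m i : ℝ) ≤ (2 : ℝ) ^ ((p * (i : ℕ) - (3 * p + 4)) * L) := by
    intro i h4
    rw [hmfl i h4]
    exact Nat.floor_le (by positivity)
  have hmi : ∀ i : Fin (J + 1), 2 ≤ m i → 1 ≤ (i : ℕ) := by
    intro i h4
    by_contra h5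
    have h6 : (i : ℕ) = 0 := by omega
    have h7 := hmup i h4
    have h8 : (2 : ℝ) ≤ m i := by exact_mod_cast h4
    have h9 : (2 : ℝ) ^ ((p * (i : ℕ) - (3 * p + 4)) * L) ≤ 1 := T9b_zero p L hp hL i h6
    exact absurd (h8.trans (h7.trans h9)) (by norm_num)
  -- the parameters
  obtain ⟨ε', hε'def⟩ : ∃ ε' : ℝ, ε' = ε / ((J : ℝ) + 1) := ⟨_, rfl⟩
  have hε'0 : 0 < ε' := by rw [hε'def]; positivity
  have hε'1 : ε' ≤ 1 := by
    rw [hε'def, div_le_one (by linarith)]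
    linarith
  have hinv : 1 / ε' = ((J : ℝ) + 1) / ε := by rw [hε'def, one_div_div]
  have hC1 : 1 ≤ C := le_trans one_le_two hC2
  obtain ⟨g1, g2, g3, g4⟩ := T9b_Q C Λ ℓ (((J : ℝ) + 1) / ε) hC1 hΛ hℓ1 hJε
  rw [← hQ'] at g2 g3 g4
  have hεx : 1 / ε' ≤ x := by
    rw [hinv]
    exact g2.trans hQx
  have hΛx : Λ / ε' ≤ x := by
    have h3 : Λ / ε' = Λ * (((J : ℝ) + 1) / ε) := by rw [← hinv]; ring
    rw [h3]
    exact g3.trans hQx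
  have hℓQ : ℓ ≤ Q := g4
  have hlog8 : Real.log 8 ≤ 3 := by
    have : (8 : ℝ) = 2 ^ (3 : ℕ) := by norm_num
    rw [this, Real.log_pow]
    have := Real.log_two_lt_d9
    push_cast
    linarith
  have hlog8' : 0 ≤ Real.log 8 := Real.log_nonneg (by norm_num)
  obtain ⟨lg, hlgdef⟩ : ∃ lg : ℝ, lg = Real.log (8 * Fintype.card P) := ⟨_, rfl⟩
  have hlg' : lg = Real.log 8 + Real.log (Fintype.card P) := by
    rw [hlgdef, Real.log_mul (by norm_num) hcard0.ne']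
  have hlg0 : 0 ≤ lg := by rw [hlg']; linarith
  have hlg : lg ≤ 3 * x := by
    rw [hlg']
    have : ℓ ≤ x := hℓQ.trans hQx
    linarith
  obtain ⟨R, hRdef⟩ : ∃ R : ℝ, R = 2 + Real.log (8 * N * Fintype.card P) := ⟨_, rfl⟩
  have hNP : (1 : ℝ) ≤ 8 * N * Fintype.card P := T9b_NP _ _ hN1' hcard
  have hR1 : 1 ≤ R := by
    have h4 := Real.log_nonneg hNP
    rw [hRdef]
    exact le_trans one_le_two (le_add_of_nonneg_right h4)
  have hyL : 0 ≤ (4 * p + 5) * L := by positivity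
  have hlogN : Real.log N ≤ (4 * p + 5) * L := T9b_logN N _ hN1' hyL hNle
  have hN0' : (N : ℝ) ≠ 0 := (lt_of_lt_of_le zero_lt_one hN1').ne'
  have hR : R ≤ x ^ (3 : ℝ) := by
    have h5 : Real.log (Fintype.card P) ≤ Q := le_trans (by rw [hℓ]; exact le_add_of_nonneg_left zero_le_one) hℓQ
    have h4 : R ≤ (4 * p + 11) * (L * Q) := by
      rw [hRdef, mul_assoc, Real.log_mul (by norm_num) (mul_ne_zero hN0' hcard0.ne'),
        Real.log_mul hN0' hcard0.ne']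
      exact T9b_R p L Q _ _ _ hp hL (le_trans one_le_two hQ2) hlog8 hlogN h5
    have h6 : (4 * p + 11) * (2 * K) ≤ x := by
      refine le_trans ?_ hK1x
      rw [hK1def]
      linarith only [q1, q2, q3, q4]
    exact T9b_R3 R (4 * p + 11) L Q K x (by positivity) (le_trans zero_le_one hL) hQ0.le hK0.le
      hx0.le h4 hLx hQx h6
  have c5 : (N : ℝ) * Fintype.card P * Real.exp (2 - R) ≤ 1 / 8 :=
    T9b_c5 _ _ R hN1' hcard hRdef
  have key : ∀ i : Fin (J + 1), ∃ f : Fin N → Fin (m i) → Ω, ∀ e,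
      |(1 / ((N : ℝ) * m i) * ∑ s, |∑ r, G i e (f s r)| ^ p) ^ (1 / p)
        - (∑ ω, μ ω * |G i e ω| ^ p) ^ (1 / p)| ≤ ε' := by
    intro i
    obtain ⟨d1, d2, d3, d4⟩ := T9b_window p hp K L Λ ε' lg R x (i : ℕ) (m i) N hK1 hKa hKb hL hΛ
      hε'0 hx hΛx hεx hlg0 hlg hR1 hR
      (le_trans (by rw [hK1def]; linarith only [q1, q2, q3, q4, q5]) hK1x) (le_trans (by rw [hK1def]; linarith only [q1, q2, q3, q4, q5]) hK1x)
      (le_trans (by rw [hK1def]; linarith only [q1, q2, q3, q4, q5]) hK1x) (le_trans (by rw [hK1def]; linarith only [q1, q2, q3, q4, q5]) hK1x)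
      (hm1' i) (hmlow i) (hmup i) hNge
    refine window_sampling p hp μ hμ hμ1 (G i) _ _ ε' R (by positivity) (by positivity) hε'0 hε'1
      hR1 (m i) N (hm1' i) hN1 (h1 i) (fun h4 e => h2 i e (hmi i h4)) (h3 i) d1 d2 ?_ ?_ c5
    · rw [← hlgdef]; exact d3
    · rw [← hlgdef]; exact d4
  choose f hf using key
  obtain ⟨T, hT⟩ := T9b_outer p hp μ hμ J N hN1 m G f ε hε (by
    intro i e
    have := hf i e
    rwa [hε'def] at this)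
  refine ⟨N, T, hNle.trans ?_, hT⟩
  apply Real.rpow_le_rpow_of_exponent_le one_le_two
  exact mul_le_mul_of_nonneg_right hCN (by linarith)

end Crest.Agent.S0358
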