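import Crest.Agent.S0358_T4
import Crest.Agent.S0358_T7
import Crest.Agent.S0358_T7a
import Crest.Agent.S0358_T8
import Crest.Agent.S0358_T9b
import Crest.Agent.S0358_T10a
import Crest.Agent.S0358_T10b

/-!
# Task T13 (row S0358): assembly (owner helper66)
-/

set_option autoImplicit false

open scoped BigOperators

namespace Crest.Agent.S0358

/-- the normalised difference -/
noncomputable def T13V {n : ℕ} {Ω : Type} (d : Fin n → Fin n → ℝ) (a : Fin n → Ω → ℝ)
    (e : Fin n × Fin n) (ω : Ω) : ℝ := (a e.1 ω - a e.2 ω) / d e.1 e.2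

/-- error functional -/
noncomputable def T13Err {n : ℕ} {Ω : Type} [Fintype Ω] (p L : ℝ) (J : ℕ) (μ : Ω → ℝ)
    (d : Fin n → Fin n → ℝ) (a : Fin n → Ω → ℝ)
    (e : Fin n × Fin n) (F : Fin (J + 1) → Fin n → Ω → ℝ) : ℝ :=
  pn p (fun q : Fin (J + 1) × Ω => μ q.2)
    (fun q => (F q.1 e.1 q.2 - F q.1 e.2 q.2) / d e.1 e.2 - VV p L J q.1 (T13V d a e q.2))

/-- the admissible set -/
def T13Adm {n : ℕ} {Ω : Type} [Fintype Ω] (p L : ℝ) (J : ℕ) (μ : Ω → ℝ)
    (d : Fin n → Fin n → ℝ) :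
    Set ((Fin (J + 1) → Fin n → Ω → ℝ) × (Fin n × Fin n → ℝ)) :=
  {z | ∀ e : Fin n × Fin n, 0 ≤ z.2 e ∧
    (∀ (i : Fin (J + 1)) (ω : Ω), |(z.1 i e.1 ω - z.1 i e.2 ω) / d e.1 e.2|
      ≤ (2 : ℝ) ^ (((i : ℕ) + 1 : ℝ) * L + 1) * z.2 e) ∧
    (∀ (i : Fin (J + 1)), 1 ≤ (i : ℕ) →
      ∑ ω, μ ω * |(z.1 i e.1 ω - z.1 i e.2 ω) / d e.1 e.2|
        ≤ (2 : ℝ) ^ (-((p - 1) * ((i : ℕ) - 1 : ℝ) * L)) * z.2 e)}

theorem T13V_sum {n : ℕ} {Ω : Type} [Fintype Ω] {p : ℝ} (hp1 : 1 < p)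
    {μ : Ω → ℝ} (hμ : ∀ ω, 0 ≤ μ ω) (a : Fin n → Ω → ℝ)
    (hpos : ∀ i j, i ≠ j → 0 < pn p μ (fun ω => a i ω - a j ω)) (e : Fin n × Fin n) :
    ∑ ω, μ ω * |T13V (fun i j => pn p μ (fun ω => a i ω - a j ω)) a e ω| ^ p ≤ 1 := by
  have hp0 : 0 < p := by linarith
  by_cases he : e.1 = e.2
  · have : ∀ ω, T13V (fun i j => pn p μ (fun ω => a i ω - a j ω)) a e ω = 0 := by
      intro ω; simp [T13V, he]
    simp [this, Real.zero_rpow hp0.ne']
  · have h0 := hpos e.1 e.2 he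
    have : ∀ ω, μ ω * |T13V (fun i j => pn p μ (fun ω => a i ω - a j ω)) a e ω| ^ p
        = (μ ω * |a e.1 ω - a e.2 ω| ^ p) / (pn p μ (fun ω => a e.1 ω - a e.2 ω)) ^ p := by
      intro ω
      unfold T13V
      rw [abs_div, Real.div_rpow (abs_nonneg _) (abs_nonneg _), abs_of_pos h0]
      ring
    simp only [this]
    rw [← Finset.sum_div, ← pn_rpow hp0 hμ]
    rw [div_self (Real.rpow_pos_of_pos h0 p).ne']

theorem T13_good (p : ℝ) (hp1 : 1 < p) (C : ℝ)
    (hC : ∀ {E 𝒯 Ω : Type} [Fintype E] [Fintype 𝒯] [Fintype Ω] (g : E → ℝ) (_ : ∀ e, 0 ≤ g e)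
      (_ : ∑ e, g e = 1) (κ : ℝ) (_ : 1 ≤ κ) (S : Sys E 𝒯 g κ) (μ : Ω → ℝ)
      (_ : ∀ ω, 0 ≤ μ ω) (_ : ∑ ω, μ ω = 1)
      (V : E → Ω → ℝ) (_ : ∀ e, ∑ ω, μ ω * |V e ω| ^ p ≤ 1) (L : ℝ) (_ : 1 ≤ L) (J : ℕ)
      (η : ℝ) (_ : 0 ≤ η) (_ : η ≤ 1)
      (_ : ∀ e ω, |V e ω - ∑ τ, S.K e τ * bb S.M V τ ω| ≤ η),
      ∑ e, g e * pn p (fun q : Fin (J + 1) × Ω => μ q.2)
          (fun q => GG p L J S.w S.M S.K V q.1 e q.2 - VV p L J q.1 (V e q.2))
        ≤ C / L * κ ^ |1 - 2 / p| + C * η)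
    {n : ℕ} (hn : 2 ≤ n) {Ω : Type} [Fintype Ω] (μ : Ω → ℝ) (hμ : ∀ ω, 0 ≤ μ ω)
    (hμ1 : ∑ ω, μ ω = 1) (a : Fin n → Ω → ℝ)
    (hpos : ∀ i j, i ≠ j → 0 < pn p μ (fun ω => a i ω - a j ω))
    (hsup : ∀ i j ω, |a i ω - a j ω| ≤ (n : ℝ) ^ (2 / p) * pn p μ (fun ω => a i ω - a j ω))
    (L : ℝ) (hL : 1 ≤ L) (J : ℕ) (hJ : (n : ℝ) ^ (2 / p) ≤ (2 : ℝ) ^ ((J : ℝ) * L))
    (η : ℝ) (hη : 0 < η) (hη1 : η ≤ 1)
    (g : Fin n × Fin n → ℝ) (hgsymm : ∀ x y, g (x, y) = g (y, x)) (hgdiag : ∀ x, g (x, x) = 0)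
    (hgsum : ∑ e, g e = 1) (hglow : ∀ x y, x ≠ y → 1 / (2 * (n : ℝ) * ((n : ℝ) - 1)) ≤ g (x, y)) :
    ∃ z ∈ T13Adm p L J μ (fun i j => pn p μ (fun ω => a i ω - a j ω)),
      ∑ e, g e * z.2 e ≤ 2 * (8 * Real.log (2 * n)) ∧
      ∑ e, g e * T13Err p L J μ (fun i j => pn p μ (fun ω => a i ω - a j ω)) a e z.1
        ≤ C / L * (8 * Real.log (2 * n)) ^ |1 - 2 / p| + C * η := by
  have hp0 : 0 < p := by linarith
  have hn0 : (0 : ℝ) < n := by positivity
  have hn1 : (1 : ℝ) < n := by exact_mod_cast (show 1 < n by omega)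
  have hgnn : ∀ e, 0 ≤ g e := by
    rintro ⟨x, y⟩
    by_cases hxy : x = y
    · subst hxy; rw [hgdiag]
    · refine le_trans ?_ (hglow x y hxy)
      have : 0 < (n : ℝ) - 1 := by linarith
      positivity
  have hκ : 1 ≤ 8 * Real.log (2 * n) := by
    have h1 : Real.log 2 ≤ Real.log (2 * n) := by
      apply Real.log_le_log (by norm_num); linarith
    have := Real.log_two_gt_d9
    linarith
  set d : Fin n → Fin n → ℝ := fun i j => pn p μ (fun ω => a i ω - a j ω) with hd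
  have hdsymm : ∀ x y, d x y = d y x := by
    intro x y
    simp only [hd]
    rw [← pn_neg]
    congr 1
    funext ω; ring
  obtain ⟨T, S, k, hK, hrep⟩ := chain n hn d hdsymm hpos g hgsymm hgdiag hgsum hglow a η hη
  have hV := T13V_sum hp1 hμ a hpos
  have hVsup : ∀ e ω, |T13V d a e ω| ≤ (2 : ℝ) ^ ((J : ℝ) * L) := by
    intro e ω
    refine le_trans ?_ hJ
    unfold T13V
    by_cases he : e.1 = e.2
    · rw [he]; simp; positivity
    · have h0 : 0 < d e.1 e.2 := hpos e.1 e.2 he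
      rw [abs_div, abs_of_pos h0, div_le_iff₀ h0]
      exact hsup e.1 e.2 ω
  have hGG : ∀ (i : Fin (J + 1)) (e : Fin n × Fin n) (ω : Ω),
      ((∑ τ, k e.1 τ * (bb S.M (T13V d a) τ ω *
          Psi p L J i (lev (bb S.M (T13V d a) τ ω) (S.w τ) : ℤ)))
        - (∑ τ, k e.2 τ * (bb S.M (T13V d a) τ ω *
          Psi p L J i (lev (bb S.M (T13V d a) τ ω) (S.w τ) : ℤ)))) / d e.1 e.2
        = GG p L J S.w S.M S.K (T13V d a) i e ω := by
    intro i e ω
    unfold GG
    rw [← Finset.sum_sub_distrib, Finset.sum_div]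
    refine Finset.sum_congr rfl fun τ _ => ?_
    rw [show e = (e.1, e.2) from rfl, hK]
    ring
  refine ⟨(fun i x ω => ∑ τ, k x τ * (bb S.M (T13V d a) τ ω *
          Psi p L J i (lev (bb S.M (T13V d a) τ ω) (S.w τ) : ℤ)),
          fun e => ∑ τ, |S.K e τ| * S.w τ), ?_, ?_, ?_⟩
  · intro e
    refine ⟨Finset.sum_nonneg fun τ _ => mul_nonneg (abs_nonneg _) (S.w_nonneg τ), ?_, ?_⟩
    · intro i ω
      simp only
      rw [hGG]
      exact GG_sup S (T13V d a) hp1 hL J hVsup i e ω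
    · intro i hi
      simp only
      simp only [hGG]
      exact GG_L1 S (T13V d a) hp1 hL J μ hμ hV i hi e
  · simp only
    calc ∑ e, g e * ∑ τ, |S.K e τ| * S.w τ
        = ∑ τ, (∑ e, g e * |S.K e τ|) * S.w τ := by
          simp only [Finset.mul_sum, Finset.sum_mul]
          rw [Finset.sum_comm]
          refine Finset.sum_congr rfl fun τ _ => Finset.sum_congr rfl fun e _ => by ring
      _ ≤ ∑ τ, (2 * S.lam τ * S.w τ) * S.w τ :=
          Finset.sum_le_sum fun τ _ => mul_le_mul_of_nonneg_right (S.K_le τ) (S.w_nonneg τ)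
      _ = 2 * ∑ τ, S.lam τ * S.w τ ^ 2 := by
          rw [Finset.mul_sum]
          refine Finset.sum_congr rfl fun τ _ => by ring
      _ ≤ 2 * (8 * Real.log (2 * n)) := by
          have := S.W
          linarith
  · have := hC g hgnn hgsum (8 * Real.log (2 * n)) hκ S μ hμ hμ1 (T13V d a) hV L hL J η hη.le hη1
      (fun e ω => hrep e.1 e.2 ω)
    refine le_trans (le_of_eq ?_) this
    refine Finset.sum_congr rfl fun e _ => ?_
    unfold T13Err
    simp only [hGG]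

theorem T13Err_convex {n : ℕ} {Ω : Type} [Fintype Ω] {p : ℝ} (hp1 : 1 ≤ p) (L : ℝ) (J : ℕ)
    {μ : Ω → ℝ} (hμ : ∀ ω, 0 ≤ μ ω) (d : Fin n → Fin n → ℝ) (a : Fin n → Ω → ℝ)
    (e : Fin n × Fin n) (F F' : Fin (J + 1) → Fin n → Ω → ℝ) (s t : ℝ) (hs : 0 ≤ s) (ht : 0 ≤ t)
    (hst : s + t = 1) :
    T13Err p L J μ d a e (s • F + t • F')
      ≤ s * T13Err p L J μ d a e F + t * T13Err p L J μ d a e F' := by
  have hp0 : 0 < p := by linarith
  have hμ' : ∀ q : Fin (J + 1) × Ω, 0 ≤ μ q.2 := fun q => hμ _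
  unfold T13Err
  have h1 := pn_const_mul hp0 hμ' s
    (fun q => (F q.1 e.1 q.2 - F q.1 e.2 q.2) / d e.1 e.2 - VV p L J q.1 (T13V d a e q.2))
  have h2 := pn_const_mul hp0 hμ' t
    (fun q => (F' q.1 e.1 q.2 - F' q.1 e.2 q.2) / d e.1 e.2 - VV p L J q.1 (T13V d a e q.2))
  rw [abs_of_nonneg hs] at h1
  rw [abs_of_nonneg ht] at h2
  rw [← h1, ← h2]
  refine le_trans (le_of_eq ?_) (pn_add_le hp1 hμ' _ _)
  congr 1
  funext q
  simp only [Pi.add_apply, Pi.smul_apply, smul_eq_mul]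
  generalize VV p L J q.1 (T13V d a e q.2) = v
  have hv : v = s * v + t * v := by
    rw [← add_mul, hst, one_mul]
  linear_combination (-1 : ℝ) * hv

theorem T13Adm_convex {n : ℕ} {Ω : Type} [Fintype Ω] (p L : ℝ) (J : ℕ) (μ : Ω → ℝ)
    (hμ : ∀ ω, 0 ≤ μ ω) (d : Fin n → Fin n → ℝ) : Convex ℝ (T13Adm p L J μ d) := by
  intro z hz z' hz' s t hs ht hst e
  obtain ⟨h1, h2, h3⟩ := hz e
  obtain ⟨h1', h2', h3'⟩ := hz' e
  have key : ∀ (i : Fin (J + 1)) (ω : Ω),
      |((s • z + t • z').1 i e.1 ω - (s • z + t • z').1 i e.2 ω) / d e.1 e.2|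
        ≤ s * |(z.1 i e.1 ω - z.1 i e.2 ω) / d e.1 e.2|
          + t * |(z'.1 i e.1 ω - z'.1 i e.2 ω) / d e.1 e.2| := by
    intro i ω
    have : ((s • z + t • z').1 i e.1 ω - (s • z + t • z').1 i e.2 ω) / d e.1 e.2
        = s * ((z.1 i e.1 ω - z.1 i e.2 ω) / d e.1 e.2)
          + t * ((z'.1 i e.1 ω - z'.1 i e.2 ω) / d e.1 e.2) := by
      simp only [Prod.fst_add, Prod.smul_fst, Pi.add_apply, Pi.smul_apply, smul_eq_mul]
      ring
    rw [this]
    refine (abs_add_le _ _).trans ?_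
    rw [abs_mul, abs_mul, abs_of_nonneg hs, abs_of_nonneg ht]
  have e2 : (s • z + t • z').2 e = s * z.2 e + t * z'.2 e := by
    simp only [Prod.snd_add, Prod.smul_snd, Pi.add_apply, Pi.smul_apply, smul_eq_mul]
  refine ⟨?_, ?_, ?_⟩
  · rw [e2]; positivity
  · intro i ω
    refine (key i ω).trans ?_
    rw [e2]
    have a1 := mul_le_mul_of_nonneg_left (h2 i ω) hs
    have a2 := mul_le_mul_of_nonneg_left (h2' i ω) ht
    calc _ ≤ _ := add_le_add a1 a2
      _ = _ := by ring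
  · intro i hi
    have a0 : ∑ ω, μ ω * |((s • z + t • z').1 i e.1 ω - (s • z + t • z').1 i e.2 ω) / d e.1 e.2|
        ≤ ∑ ω, μ ω * (s * |(z.1 i e.1 ω - z.1 i e.2 ω) / d e.1 e.2|
          + t * |(z'.1 i e.1 ω - z'.1 i e.2 ω) / d e.1 e.2|) :=
      Finset.sum_le_sum fun ω _ => mul_le_mul_of_nonneg_left (key i ω) (hμ ω)
    refine a0.trans ?_
    rw [e2]
    have a1 := mul_le_mul_of_nonneg_left (h3 i hi) hs
    have a2 := mul_le_mul_of_nonneg_left (h3' i hi) ht
    rw [Finset.mul_sum] at a1 a2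
    calc _ = (∑ ω, s * (μ ω * |(z.1 i e.1 ω - z.1 i e.2 ω) / d e.1 e.2|))
          + ∑ ω, t * (μ ω * |(z'.1 i e.1 ω - z'.1 i e.2 ω) / d e.1 e.2|) := by
          rw [← Finset.sum_add_distrib]
          refine Finset.sum_congr rfl fun ω _ => by ring
      _ ≤ _ := add_le_add a1 a2
      _ = _ := by ring

theorem T13_minimax {n : ℕ} (hn : 2 ≤ n) {Ω : Type} [Fintype Ω] {p : ℝ} (hp1 : 1 ≤ p) (L : ℝ)
    (J : ℕ) {μ : Ω → ℝ} (hμ : ∀ ω, 0 ≤ μ ω) (d : Fin n → Fin n → ℝ) (a : Fin n → Ω → ℝ)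
    (κ E0 : ℝ) (hκ : 0 < κ) (hE0 : 0 < E0)
    (H : ∀ g : Fin n × Fin n → ℝ, (∀ x y, g (x, y) = g (y, x)) → (∀ x, g (x, x) = 0) →
      ∑ e, g e = 1 → (∀ x y, x ≠ y → 1 / (2 * (n : ℝ) * ((n : ℝ) - 1)) ≤ g (x, y)) →
      ∃ z ∈ T13Adm p L J μ d, ∑ e, g e * z.2 e ≤ 2 * κ ∧
        ∑ e, g e * T13Err p L J μ d a e z.1 ≤ E0) :
    ∃ z ∈ T13Adm p L J μ d, ∀ e : Fin n × Fin n, e.1 ≠ e.2 →
      z.2 e ≤ 18 * κ ∧ T13Err p L J μ d a e z.1 ≤ 9 * E0 := by
  classical
  have hn0 : (0 : ℝ) < n := by positivity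
  have hn1 : (1 : ℝ) < n := by exact_mod_cast (show 1 < n by omega)
  have hErr0 : ∀ e F, 0 ≤ T13Err p L J μ d a e F := fun e F => pn_nonneg (fun q => hμ _) _
  have : Nonempty (Fin n × Fin n) := ⟨(⟨0, by omega⟩, ⟨0, by omega⟩)⟩
  set c : Fin n × Fin n → ((Fin (J + 1) → Fin n → Ω → ℝ) × (Fin n × Fin n → ℝ)) → ℝ :=
    fun e z => if e.1 = e.2 then 0 else z.2 e / (2 * κ) + T13Err p L J μ d a e z.1 / E0 with hc
  have hconv : ∀ e, ConvexOn ℝ (T13Adm p L J μ d) (c e) := by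
    intro e
    refine ⟨T13Adm_convex p L J μ hμ d, ?_⟩
    intro z hz z' hz' s t hs ht hst
    simp only [hc]
    split_ifs with he
    · simp
    · have h1 := T13Err_convex hp1 L J hμ d a e z.1 z'.1 s t hs ht hst
      have h2 : (s • z + t • z').2 e = s * z.2 e + t * z'.2 e := by
        simp only [Prod.snd_add, Prod.smul_snd, Pi.add_apply, Pi.smul_apply, smul_eq_mul]
      have h3 : (s • z + t • z').1 = s • z.1 + t • z'.1 := by
        simp only [Prod.fst_add, Prod.smul_fst]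
      rw [h2, h3]
      simp only [smul_eq_mul]
      have h4 := div_le_div_of_nonneg_right h1 hE0.le
      calc _ ≤ (s * z.2 e + t * z'.2 e) / (2 * κ)
            + (s * T13Err p L J μ d a e z.1 + t * T13Err p L J μ d a e z'.1) / E0 := by
              linarith
        _ = _ := by ring
  have hB : ∀ h : Fin n × Fin n → ℝ, (∀ e, 0 ≤ h e) → ∑ e, h e = 1 →
      ∃ z ∈ T13Adm p L J μ d, ∑ e, h e * c e z ≤ 8 := by
    intro h hh0 hh1
    set s : ℝ := ∑ e : Fin n × Fin n, if e.1 = e.2 then 0 else h e with hs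
    have hs1 : s ≤ 1 := by
      rw [← hh1]
      refine Finset.sum_le_sum fun e _ => ?_
      split_ifs
      · exact hh0 e
      · exact le_rfl
    set g : Fin n × Fin n → ℝ := fun e => if e.1 = e.2 then 0 else
      (h e + h (e.2, e.1)) / 4 + (1 - s / 2) / ((n : ℝ) * ((n : ℝ) - 1)) with hg
    have hnn : 0 < (n : ℝ) * ((n : ℝ) - 1) := mul_pos hn0 (by linarith)
    have hcard : (∑ e : Fin n × Fin n, if e.1 = e.2 then (0 : ℝ) else 1)
        = (n : ℝ) * ((n : ℝ) - 1) := by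
      rw [Fintype.sum_prod_type]
      have : ∀ x : Fin n, (∑ y : Fin n, if x = y then (0 : ℝ) else 1) = (n : ℝ) - 1 := by
        intro x
        have : ∀ y : Fin n, (if x = y then (0 : ℝ) else 1) = 1 - if x = y then 1 else 0 := by
          intro y; split_ifs <;> norm_num
        simp only [this, Finset.sum_sub_distrib]
        simp
      simp only [this]
      simp
      ring
    have hswap : (∑ e : Fin n × Fin n, if e.1 = e.2 then (0 : ℝ) else h (e.2, e.1)) = s := by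
      rw [hs, Fintype.sum_prod_type, Fintype.sum_prod_type, Finset.sum_comm]
      refine Finset.sum_congr rfl fun x _ => Finset.sum_congr rfl fun y _ => ?_
      simp only [eq_comm]
    have hgsum : ∑ e, g e = 1 := by
      have : ∀ e, g e = (1 / 4) * (if e.1 = e.2 then 0 else h e)
          + (1 / 4) * (if e.1 = e.2 then 0 else h (e.2, e.1))
          + ((1 - s / 2) / ((n : ℝ) * ((n : ℝ) - 1))) * (if e.1 = e.2 then (0 : ℝ) else 1) := by
        intro e
        simp only [hg]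
        split_ifs <;> ring
      simp only [this, Finset.sum_add_distrib, ← Finset.mul_sum, hcard, hswap]
      rw [← hs, div_mul_cancel₀ _ hnn.ne']
      ring
    obtain ⟨z, hz, hz1, hz2⟩ := H g
      (by
        intro x y
        simp only [hg]
        by_cases hxy : x = y
        · simp [hxy]
        · rw [if_neg hxy, if_neg (Ne.symm hxy)]
          ring)
      (by intro x; simp [hg]) hgsum
      (by
        intro x y hxy
        simp only [hg]
        rw [if_neg hxy]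
        have h1 : 0 ≤ (h (x, y) + h (y, x)) / 4 := by
          have := hh0 (x, y)
          have := hh0 (y, x)
          positivity
        have h2 : 1 / (2 * (n : ℝ) * ((n : ℝ) - 1)) = (1 / 2) / ((n : ℝ) * ((n : ℝ) - 1)) := by
          rw [div_div]; congr 1; ring
        have h3 : (1 / 2) / ((n : ℝ) * ((n : ℝ) - 1)) ≤ (1 - s / 2) / ((n : ℝ) * ((n : ℝ) - 1)) :=
          div_le_div_of_nonneg_right (by linarith) hnn.le
        linarith)
    refine ⟨z, hz, ?_⟩
    have hle : ∀ e, h e * c e z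
        ≤ 4 * (g e * z.2 e / (2 * κ) + g e * T13Err p L J μ d a e z.1 / E0) := by
      intro e
      by_cases he : e.1 = e.2
      · simp [hc, hg, he]
      · have h0 : 0 ≤ z.2 e := (hz e).1
        have hcc : c e z = z.2 e / (2 * κ) + T13Err p L J μ d a e z.1 / E0 := by
          simp only [hc]; rw [if_neg he]
        have hc0 : 0 ≤ z.2 e / (2 * κ) + T13Err p L J μ d a e z.1 / E0 := by
          have := hErr0 e z.1
          positivity
        have hgh : h e ≤ 4 * g e := by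
          simp only [hg]
          rw [if_neg he]
          have h1 := hh0 (e.2, e.1)
          have h3 : 0 ≤ (1 - s / 2) / ((n : ℝ) * ((n : ℝ) - 1)) :=
            div_nonneg (by linarith) hnn.le
          linarith
        rw [hcc]
        calc _ ≤ 4 * g e * (z.2 e / (2 * κ) + T13Err p L J μ d a e z.1 / E0) :=
              mul_le_mul_of_nonneg_right hgh hc0
          _ = _ := by ring
    calc ∑ e, h e * c e z
        ≤ ∑ e, 4 * (g e * z.2 e / (2 * κ) + g e * T13Err p L J μ d a e z.1 / E0) :=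
          Finset.sum_le_sum fun e _ => hle e
      _ = 4 * ((∑ e, g e * z.2 e) / (2 * κ)
            + (∑ e, g e * T13Err p L J μ d a e z.1) / E0) := by
          rw [← Finset.mul_sum, Finset.sum_add_distrib, Finset.sum_div, Finset.sum_div]
      _ ≤ 4 * (1 + 1) := by
          have h1 : (∑ e, g e * z.2 e) / (2 * κ) ≤ 1 := by
            rw [div_le_one (by positivity)]; exact hz1
          have h2 : (∑ e, g e * T13Err p L J μ d a e z.1) / E0 ≤ 1 := by
            rw [div_le_one hE0]; exact hz2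
          linarith
      _ = 8 := by norm_num
  obtain ⟨z, hz, hzc⟩ := minimax (T13Adm p L J μ d) (T13Adm_convex p L J μ hμ d) c hconv 8 9
    (by norm_num) hB
  refine ⟨z, hz, fun e he => ?_⟩
  have h1 := hzc e
  simp only [hc] at h1
  rw [if_neg he] at h1
  have h0 : 0 ≤ z.2 e := (hz e).1
  have h2 := hErr0 e z.1
  have h3 : 0 ≤ z.2 e / (2 * κ) := by positivity
  have h4 : 0 ≤ T13Err p L J μ d a e z.1 / E0 := by positivity
  constructor
  · have : z.2 e / (2 * κ) ≤ 9 := by linarith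
    rw [div_le_iff₀ (by positivity)] at this
    linarith
  · have : T13Err p L J μ d a e z.1 / E0 ≤ 9 := by linarith
    rw [div_le_iff₀ hE0] at this
    exact this

theorem pn_equiv {α β : Type*} [Fintype α] [Fintype β] (p : ℝ) (σ : α ≃ β) (μ f : β → ℝ) :
    pn p (fun a => μ (σ a)) (fun a => f (σ a)) = pn p μ f := by
  unfold pn
  congr 1
  exact Equiv.sum_comp σ (fun b => μ b * |f b| ^ p)

theorem T13_VV_norm {n : ℕ} {Ω : Type} [Fintype Ω] {p : ℝ} (hp1 : 1 < p) {L : ℝ} (hL : 1 ≤ L)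
    (J : ℕ) {μ : Ω → ℝ} (hμ : ∀ ω, 0 ≤ μ ω) (a : Fin n → Ω → ℝ)
    (hpos : ∀ i j, i ≠ j → 0 < pn p μ (fun ω => a i ω - a j ω)) (e : Fin n × Fin n)
    (he : e.1 ≠ e.2) :
    pn p (fun q : Fin (J + 1) × Ω => μ q.2) (fun q => VV p L J q.1
      (T13V (fun i j => pn p μ (fun ω => a i ω - a j ω)) a e q.2)) = 1 := by
  have hp0 : 0 < p := by linarith
  have h0 := hpos e.1 e.2 he
  have h1 : ∑ q : Fin (J + 1) × Ω, μ q.2 * |VV p L J q.1
      (T13V (fun i j => pn p μ (fun ω => a i ω - a j ω)) a e q.2)| ^ p = 1 := by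
    rw [Fintype.sum_prod_type_right]
    have : ∀ ω, ∑ i : Fin (J + 1), μ ω * |VV p L J i
        (T13V (fun i j => pn p μ (fun ω => a i ω - a j ω)) a e ω)| ^ p
        = (μ ω * |a e.1 ω - a e.2 ω| ^ p) / (pn p μ (fun ω => a e.1 ω - a e.2 ω)) ^ p := by
      intro ω
      rw [← Finset.mul_sum, sum_VV_rpow hp1.le (by linarith)]
      unfold T13V
      rw [abs_div, Real.div_rpow (abs_nonneg _) (abs_nonneg _), abs_of_pos h0]
      ring
    simp only [this]
    rw [← Finset.sum_div, ← pn_rpow hp0 hμ]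
    rw [div_self (Real.rpow_pos_of_pos h0 p).ne']
  unfold pn at h1 ⊢
  rw [h1, Real.one_rpow]

theorem main_finite (p : ℝ) (hp1 : 1 < p) (hp2 : p ≠ 2) (ε : ℝ) (hε : 0 < ε) (hε1 : ε ≤ 1) :
    ∃ C : ℝ, ∀ (n : ℕ), 2 ≤ n → ∀ {Ω : Type} [Fintype Ω] (μ : Ω → ℝ) (_ : ∀ ω, 0 ≤ μ ω)
      (_ : ∑ ω, μ ω = 1) (a : Fin n → Ω → ℝ)
      (_ : ∀ i j, i ≠ j → 0 < pn p μ (fun ω => a i ω - a j ω))
      (_ : ∀ i j ω, |a i ω - a j ω| ≤ (n : ℝ) ^ (2 / p) * pn p μ (fun ω => a i ω - a j ω)),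
      ∃ (d : ℕ) (y : Fin n → Fin d → ℝ),
        (d : ℝ) ≤ Real.exp (C * Real.log n ^ |1 - 2 / p|) ∧
        ∀ i j, |pn p (fun _ => 1) (fun q => y i q - y j q) - pn p μ (fun ω => a i ω - a j ω)|
          ≤ ε * pn p μ (fun ω => a i ω - a j ω) := by
  have hp0 : 0 < p := by linarith
  obtain ⟨C7, hC70, hC7⟩ := interp p hp1 hp2
  obtain ⟨C9, hC91, hC9⟩ := sampling p hp1
  set θ : ℝ := |1 - 2 / p| with hθ
  have hθ0 : 0 < θ := by
    rw [hθ, abs_pos, sub_ne_zero]
    intro h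
    apply hp2
    field_simp at h
    exact h
  set c7 : ℝ := max C7 1 with hc7
  have hc71 : 1 ≤ c7 := le_max_right _ _
  have hc7' : C7 ≤ c7 := le_max_left _ _
  have hlog2 : 0 < Real.log 2 := Real.log_pos (by norm_num)
  have hl36 : 0 ≤ Real.log (36 * C9 / ε) := by
    apply Real.log_nonneg
    rw [le_div_iff₀ hε]
    linarith
  set L1 : ℝ := 1 + 36 * c7 / ε + C9 * (Real.log (36 * C9 / ε) + 3 / θ) / Real.log 2 with hL1
  have hL1a : 0 ≤ 36 * c7 / ε := by positivity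
  have hL1b : 0 ≤ C9 * (Real.log (36 * C9 / ε) + 3 / θ) / Real.log 2 := by positivity
  have hL11 : 1 ≤ L1 := by linarith
  have hL1pos : 0 < L1 := by linarith
  refine ⟨(1 / θ + C9 * L1 * Real.log 2) * 16 ^ θ, ?_⟩
  intro n hn Ω _ μ hμ hμ1 a hpos hsup
  have hn0 : (0 : ℝ) < n := by positivity
  have hn2 : (2 : ℝ) ≤ n := by exact_mod_cast hn
  have hlogn : Real.log 2 ≤ Real.log n := Real.log_le_log (by norm_num) hn2
  have hlog2a := Real.log_two_gt_d9
  have hlog2b := Real.log_two_lt_d9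
  set κ : ℝ := 8 * Real.log (2 * n) with hκ
  have hκ' : κ = 8 * Real.log 2 + 8 * Real.log n := by
    rw [hκ, Real.log_mul (by norm_num) hn0.ne']; ring
  have hκ1 : 1 ≤ κ := by rw [hκ']; linarith
  have hκ0 : 0 < κ := by linarith
  have hκθ : 1 ≤ κ ^ θ := Real.one_le_rpow hκ1 hθ0.le
  set L : ℝ := L1 * κ ^ θ with hL
  have hLone : 1 ≤ L := by
    calc (1 : ℝ) = 1 * 1 := by norm_num
      _ ≤ L1 * κ ^ θ := mul_le_mul hL11 hκθ (by norm_num) hL1pos.le
  have hLpos : 0 < L := by linarith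
  set J : ℕ := ⌈(2 / p) * Real.logb 2 n / L⌉₊ with hJ
  have hlogb : 0 ≤ Real.logb 2 n := Real.logb_nonneg (by norm_num) (by linarith)
  have hJ1 : (2 / p) * Real.logb 2 n ≤ J * L := by
    have := Nat.le_ceil ((2 / p) * Real.logb 2 n / L)
    rw [div_le_iff₀ hLpos] at this
    exact this
  have hJ2 : (n : ℝ) ^ (2 / p) ≤ (2 : ℝ) ^ ((J : ℝ) * L) := by
    calc (n : ℝ) ^ (2 / p) = (2 : ℝ) ^ ((2 / p) * Real.logb 2 n) := by
          rw [mul_comm, Real.rpow_mul (by norm_num), Real.rpow_logb (by norm_num) (by norm_num) hn0]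
      _ ≤ _ := Real.rpow_le_rpow_of_exponent_le (by norm_num) hJ1
  have hJ3 : (J : ℝ) + 1 ≤ κ := by
    have h1 : (J : ℝ) < (2 / p) * Real.logb 2 n / L + 1 := Nat.ceil_lt_add_one (by positivity)
    have h2 : (2 / p) * Real.logb 2 n / L ≤ 2 * Real.logb 2 n := by
      rw [div_le_iff₀ hLpos]
      have h3 : 2 / p ≤ 2 := by
        rw [div_le_iff₀ hp0]; linarith
      calc (2 / p) * Real.logb 2 n ≤ 2 * Real.logb 2 n := mul_le_mul_of_nonneg_right h3 hlogb
        _ = 2 * Real.logb 2 n * 1 := by ring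
        _ ≤ 2 * Real.logb 2 n * L := mul_le_mul_of_nonneg_left hLone (by positivity)
    have h3 : Real.logb 2 n ≤ 2 * Real.log n := by
      unfold Real.logb
      rw [div_le_iff₀ hlog2]
      have : 0 ≤ Real.log n := by linarith
      nlinarith
    rw [hκ']
    linarith
  have hΛn : 1 + Real.log ((n : ℝ) ^ 2) ≤ κ := by
    rw [Real.log_pow, hκ']
    push_cast
    linarith
  -- choose the good element for all pairs
  set dd : Fin n → Fin n → ℝ := fun i j => pn p μ (fun ω => a i ω - a j ω) with hdd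
  have hE0 : 0 < 2 * c7 / L1 := by positivity
  obtain ⟨z, hz, hzE⟩ := T13_minimax hn hp1.le L J hμ dd a κ (2 * c7 / L1) hκ0 hE0 (by
    intro g hgsymm hgdiag hgsum hglow
    obtain ⟨z, hz, h1, h2⟩ := T13_good p hp1 C7 hC7 hn μ hμ hμ1 a hpos hsup L hLone J hJ2
      (1 / L1) (by positivity) (by rw [div_le_one hL1pos]; exact hL11) g hgsymm hgdiag hgsum hglow
    refine ⟨z, hz, h1, h2.trans ?_⟩
    have h3 : C7 / L * κ ^ θ = C7 / L1 := by
      rw [hL]
      have : κ ^ θ ≠ 0 := by positivity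
      field_simp
    have h4 : C7 / L1 ≤ c7 / L1 := div_le_div_of_nonneg_right hc7' hL1pos.le
    calc C7 / L * (8 * Real.log (2 * n)) ^ |1 - 2 / p| + C7 * (1 / L1)
        = C7 / L1 + C7 / L1 := by
          rw [show C7 / L * (8 * Real.log (2 * n)) ^ |1 - 2 / p| = C7 / L1 from h3]; ring
      _ ≤ 2 * c7 / L1 := by
        have : 2 * c7 / L1 = c7 / L1 + c7 / L1 := by ring
        linarith)
  have hErr : ∀ e : Fin n × Fin n, e.1 ≠ e.2 → T13Err p L J μ dd a e z.1 ≤ ε / 2 := by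
    intro e he
    refine (hzE e he).2.trans ?_
    have h1 : 36 * c7 / ε ≤ L1 := by linarith
    rw [div_le_iff₀ hε] at h1
    rw [mul_div_assoc', div_le_iff₀ hL1pos]
    linarith
  set G : Fin (J + 1) → Fin n × Fin n → Ω → ℝ :=
    fun i e ω => (z.1 i e.1 ω - z.1 i e.2 ω) / dd e.1 e.2 with hG
  have hμ' : ∀ q : Fin (J + 1) × Ω, 0 ≤ μ q.2 := fun q => hμ _
  have hG0 : ∀ i (e : Fin n × Fin n) ω, e.1 = e.2 → G i e ω = 0 := by
    intro i e ω he
    simp only [hG]
    rw [he, sub_self, zero_div]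
  have hGV : ∀ e : Fin n × Fin n, e.1 ≠ e.2 →
      |pn p (fun q : Fin (J + 1) × Ω => μ q.2) (fun q => G q.1 e q.2) - 1| ≤ ε / 2 := by
    intro e he
    rw [← T13_VV_norm hp1 hLone J hμ a hpos e he]
    exact (abs_pn_sub_pn_le hp1.le hμ' _ _).trans (hErr e he)
  have hpnG : ∀ e : Fin n × Fin n,
      pn p (fun q : Fin (J + 1) × Ω => μ q.2) (fun q => G q.1 e q.2) ≤ 2 := by
    intro e
    by_cases he : e.1 = e.2
    · have : (fun q : Fin (J + 1) × Ω => G q.1 e q.2) = fun _ => 0 := by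
        funext q; exact hG0 _ _ _ he
      rw [this, pn_zero hp0]; norm_num
    · have := abs_le.1 (hGV e he)
      linarith [this.2]
  have hG3 : ∀ (i : Fin (J + 1)) (e : Fin n × Fin n), ∑ ω, μ ω * |G i e ω| ^ p ≤ 2 ^ p := by
    intro i e
    have h1 := (pn_le_iff hp0 hμ' _ (by norm_num)).1 (hpnG e)
    refine le_trans ?_ h1
    rw [Fintype.sum_prod_type]
    exact Finset.single_le_sum (f := fun i => ∑ ω, μ ω * |G i e ω| ^ p)
      (fun j _ => Finset.sum_nonneg fun ω _ => mul_nonneg (hμ ω)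
        (Real.rpow_nonneg (abs_nonneg _) _)) (Finset.mem_univ i)
  have hne : Nonempty (Fin n × Fin n) := ⟨(⟨0, by omega⟩, ⟨0, by omega⟩)⟩
  have hcard : ((Fintype.card (Fin n × Fin n) : ℕ) : ℝ) = (n : ℝ) ^ 2 := by
    simp [sq]
  have hL2 : C9 * (Real.log (36 * C9 / ε) + 3 / θ) ≤ L1 * Real.log 2 := by
    have : C9 * (Real.log (36 * C9 / ε) + 3 / θ) / Real.log 2 ≤ L1 := by linarith
    rwa [div_le_iff₀ hlog2] at this
  have hκlog : Real.log κ ≤ κ ^ θ / θ := Real.log_le_rpow_div hκ0.le hθ0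
  obtain ⟨N, T, hN, hT⟩ := hC9 μ hμ hμ1 J L (18 * κ) (ε / 2) hLone (by linarith) (by linarith)
    (by linarith) G
    (by
      intro i e ω
      by_cases he : e.1 = e.2
      · rw [hG0 i e ω he, abs_zero]; positivity
      · exact ((hz e).2.1 i ω).trans
          (mul_le_mul_of_nonneg_left (hzE e he).1 (by positivity)))
    (by
      intro i e hi
      by_cases he : e.1 = e.2
      · simp only [hG0 i e _ he, abs_zero, mul_zero, Finset.sum_const_zero]; positivity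
      · exact ((hz e).2.2 i hi).trans
          (mul_le_mul_of_nonneg_left (hzE e he).1 (by positivity)))
    hG3
    (by
      rw [hcard]
      set base : ℝ := C9 * (18 * κ) * (1 + Real.log ((n : ℝ) ^ 2)) * (J + 1) / (ε / 2) with hbase
      have hb0 : 0 < base := by
        have : 0 ≤ Real.log ((n : ℝ) ^ 2) := by
          rw [Real.log_pow]; push_cast; linarith
        positivity
      have hb1 : base ≤ 36 * C9 / ε * κ ^ 3 := by
        rw [hbase]
        have h1 : C9 * (18 * κ) * (1 + Real.log ((n : ℝ) ^ 2)) * (J + 1)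
            ≤ C9 * (18 * κ) * κ * κ := by
          have : 0 ≤ Real.log ((n : ℝ) ^ 2) := by
            rw [Real.log_pow]; push_cast; linarith
          gcongr
        calc C9 * (18 * κ) * (1 + Real.log ((n : ℝ) ^ 2)) * (J + 1) / (ε / 2)
            ≤ C9 * (18 * κ) * κ * κ / (ε / 2) :=
              div_le_div_of_nonneg_right h1 (by positivity)
          _ = 36 * C9 / ε * κ ^ 3 := by field_simp; ring
      have hlb : Real.log base ≤ Real.log (36 * C9 / ε) + 3 * Real.log κ := by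
        calc Real.log base ≤ Real.log (36 * C9 / ε * κ ^ 3) := Real.log_le_log hb0 hb1
          _ = _ := by
            rw [Real.log_mul (by positivity) (by positivity), Real.log_pow]; push_cast; ring
      have hlb2 : Real.log base ≤ κ ^ θ * (Real.log (36 * C9 / ε) + 3 / θ) := by
        calc Real.log base ≤ Real.log (36 * C9 / ε) + 3 * Real.log κ := hlb
          _ ≤ κ ^ θ * Real.log (36 * C9 / ε) + 3 * (κ ^ θ / θ) := by
            have : 1 * Real.log (36 * C9 / ε) ≤ κ ^ θ * Real.log (36 * C9 / ε) :=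
              mul_le_mul_of_nonneg_right hκθ hl36
            linarith
          _ = _ := by ring
      rw [Real.rpow_def_of_pos hb0, Real.rpow_def_of_pos (by norm_num : (0 : ℝ) < 2),
        Real.exp_le_exp, hL]
      calc Real.log base * C9 ≤ κ ^ θ * (Real.log (36 * C9 / ε) + 3 / θ) * C9 :=
            mul_le_mul_of_nonneg_right hlb2 (by linarith)
        _ = κ ^ θ * (C9 * (Real.log (36 * C9 / ε) + 3 / θ)) := by ring
        _ ≤ κ ^ θ * (L1 * Real.log 2) := mul_le_mul_of_nonneg_left hL2 (by positivity)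
        _ = Real.log 2 * (L1 * κ ^ θ) := by ring)
  refine ⟨(J + 1) * N, fun x q => T (finProdFinEquiv.symm q).1 (z.1 (finProdFinEquiv.symm q).1 x)
    (finProdFinEquiv.symm q).2, ?_, ?_⟩
  · push_cast
    have hlog2n : κ ≤ 16 * Real.log n := by rw [hκ']; linarith
    have hκn : κ ^ θ ≤ 16 ^ θ * Real.log n ^ θ := by
      rw [← Real.mul_rpow (by norm_num) (by linarith)]
      exact Real.rpow_le_rpow hκ0.le hlog2n hθ0.le
    calc ((J : ℝ) + 1) * N ≤ κ * (2 : ℝ) ^ (C9 * L) := by gcongr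
      _ = Real.exp (Real.log κ + C9 * L1 * Real.log 2 * κ ^ θ) := by
          rw [Real.exp_add, Real.exp_log hκ0, Real.rpow_def_of_pos (by norm_num : (0 : ℝ) < 2), hL]
          congr 2
          ring
      _ ≤ Real.exp ((1 / θ + C9 * L1 * Real.log 2) * κ ^ θ) := by
          rw [Real.exp_le_exp]
          have : (1 / θ + C9 * L1 * Real.log 2) * κ ^ θ
              = κ ^ θ / θ + C9 * L1 * Real.log 2 * κ ^ θ := by ring
          rw [this]
          linarith
      _ ≤ Real.exp ((1 / θ + C9 * L1 * Real.log 2) * 16 ^ θ * Real.log n ^ θ) := by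
          rw [Real.exp_le_exp, mul_assoc _ (16 ^ θ)]
          exact mul_le_mul_of_nonneg_left hκn (by positivity)
  · intro i j
    by_cases hij : i = j
    · subst hij
      simp only [sub_self]
      rw [pn_zero hp0, pn_zero hp0]
      simp
    · have hd0 : 0 < dd i j := hpos i j hij
      have h1 : pn p (fun _ => 1) (fun q : Fin ((J + 1) * N) =>
          T (finProdFinEquiv.symm q).1 (z.1 (finProdFinEquiv.symm q).1 i) (finProdFinEquiv.symm q).2
          - T (finProdFinEquiv.symm q).1 (z.1 (finProdFinEquiv.symm q).1 j)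
            (finProdFinEquiv.symm q).2)
          = dd i j * pn p (fun _ : Fin (J + 1) × Fin N => 1)
              (fun q => T q.1 (G q.1 (i, j)) q.2) := by
        rw [pn_equiv p finProdFinEquiv.symm (fun _ : Fin (J + 1) × Fin N => (1 : ℝ))
          (fun q => T q.1 (z.1 q.1 i) q.2 - T q.1 (z.1 q.1 j) q.2)]
        rw [← abs_of_pos hd0, ← pn_const_mul hp0 (fun _ => by norm_num)]
        congr 1
        funext q
        have : z.1 q.1 i = z.1 q.1 j + dd i j • G q.1 (i, j) := by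
          funext ω
          simp only [hG, Pi.add_apply, Pi.smul_apply, smul_eq_mul]
          field_simp
          ring
        rw [this, map_add, map_smul]
        simp
      rw [h1]
      have h2 := hT (i, j)
      have h3 := hGV (i, j) hij
      have h4 : dd i j * pn p (fun _ : Fin (J + 1) × Fin N => 1)
              (fun q => T q.1 (G q.1 (i, j)) q.2) - dd i j
          = dd i j * (pn p (fun _ : Fin (J + 1) × Fin N => 1)
              (fun q => T q.1 (G q.1 (i, j)) q.2) - 1) := by ring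
      change |dd i j * pn p (fun _ : Fin (J + 1) × Fin N => 1)
              (fun q => T q.1 (G q.1 (i, j)) q.2) - dd i j| ≤ ε * dd i j
      rw [h4, abs_mul, abs_of_pos hd0, mul_comm ε]
      apply mul_le_mul_of_nonneg_left _ hd0.le
      have h5 := abs_le.1 h2
      have h6 := abs_le.1 h3
      rw [abs_le]
      constructor <;> linarith [h5.1, h5.2, h6.1, h6.2]

end Crest.Agent.S0358
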