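import Crest.Statements.S0358
import Crest.Agent.S0358_T13

set_option autoImplicit false
open MeasureTheory
open scoped ENNReal
universe u
open Crest Crest.GeometryTopology

namespace Crest.Agent.S0358

/-- Fix an exponent `1 < p < ∞` with `p ≠ 2` and a distortion `D > 1`, and put `γ = 2 - p` if `p < 2` and `γ = 1 - 2/p` if `p > 2`. There is a constant `C`, depending only on `p` and `D`, such that for every `n ≥ 2`, every `n` distinct points of any real `L^p` space can be mapped to points of the `d`-dimensional real `ℓ^p` space for some `d ≤ exp (C (log n)^γ)`, so that after a common rescaling by some `s > 0` all pairwise distances are preserved up to the factor `D`. -/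
theorem result
    (p : ℝ≥0∞) [Fact (1 ≤ p)] (hp1 : 1 < p) (hptop : p ≠ ⊤) (hp2 : p ≠ 2)
    (D : ℝ) (hD : 1 < D) :
    ∃ C : ℝ, ∀ (n : ℕ), 2 ≤ n →
      ∀ (α : Type u) [MeasurableSpace α] (μ : Measure α) (x : Fin n → Lp ℝ p μ),
        Function.Injective x →
        ∃ d : ℕ, (d : ℝ) ≤ Real.exp (C * Real.log n ^ (if p.toReal < 2 then 2 - p.toReal else 1 - 2 / p.toReal)) ∧
          ∃ (y : Fin n → PiLp p (fun _ : Fin d => ℝ)) (s : ℝ), 0 < s ∧
            ∀ i j, s * ‖x i - x j‖ ≤ ‖y i - y j‖ ∧ ‖y i - y j‖ ≤ D * s * ‖x i - x j‖ := by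
  have hq1 : 1 < p.toReal := by
    rw [← ENNReal.toReal_one]
    exact (ENNReal.toReal_lt_toReal ENNReal.one_ne_top hptop).2 hp1
  have hq2 : p.toReal ≠ 2 := by
    intro h
    apply hp2
    rw [← ENNReal.ofReal_toReal hptop, h]
    simp
  set q : ℝ := p.toReal with hq
  have hq0 : 0 < q := by linarith
  -- the distortion parameter
  have hD0 : 0 < D := by linarith
  have hsq : 1 < Real.sqrt D := by
    rw [show (1 : ℝ) = Real.sqrt 1 by simp]
    exact Real.sqrt_lt_sqrt (by norm_num) hD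
  set δ : ℝ := (Real.sqrt D - 1) / (Real.sqrt D + 1) with hδ
  have hs1 : 0 < Real.sqrt D + 1 := by linarith
  have hδ0 : 0 < δ := div_pos (by linarith) hs1
  have hδ1 : δ < 1 := by rw [hδ, div_lt_one hs1]; linarith
  have hδD : (1 + δ) = Real.sqrt D * (1 - δ) := by
    rw [hδ]; field_simp; ring
  obtain ⟨C, hC⟩ := S0358.main_finite q hq1 hq2 δ hδ0 hδ1.le
  set θ : ℝ := |1 - 2 / q| with hθ
  set γ : ℝ := if q < 2 then 2 - q else 1 - 2 / q with hγ
  have hθγ : θ ≤ γ := by
    rw [hθ, hγ]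
    split_ifs with h
    · have h1 : 1 < 2 / q := by rw [lt_div_iff₀ hq0]; linarith
      rw [abs_of_neg (by linarith)]
      have h2 : 2 / q - 1 = (2 - q) / q := by field_simp
      have h3 : (2 - q) / q ≤ 2 - q := by
        rw [div_le_iff₀ hq0]; nlinarith
      linarith
    · have h1 : 2 / q ≤ 1 := by rw [div_le_one hq0]; linarith
      rw [abs_of_nonneg (by linarith)]
  refine ⟨|C| * Real.log 2 ^ (θ - γ), ?_⟩
  intro n hn α _ μ x hx
  have hn2 : (2 : ℝ) ≤ n := by exact_mod_cast hn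
  have hlog2 : 0 < Real.log 2 := Real.log_pos (by norm_num)
  have hlogn : Real.log 2 ≤ Real.log n := Real.log_le_log (by norm_num) hn2
  -- minimal distance
  obtain ⟨m, hm0, hm⟩ : ∃ m : ℝ, 0 < m ∧ ∀ i j, i ≠ j → m ≤ ‖x i - x j‖ := by
    classical
    have hne : (Finset.univ.filter (fun e : Fin n × Fin n => e.1 ≠ e.2)).Nonempty :=
      ⟨(⟨0, by omega⟩, ⟨1, by omega⟩), by simp⟩
    obtain ⟨e, he, hmin⟩ := Finset.exists_min_image _ (fun e : Fin n × Fin n => ‖x e.1 - x e.2‖) hne
    refine ⟨‖x e.1 - x e.2‖, ?_, fun i j hij => hmin (i, j) (by simp [hij])⟩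
    rw [norm_pos_iff, sub_ne_zero]
    intro h
    exact (Finset.mem_filter.1 he).2 (hx h)
  obtain ⟨Ω, hΩ, w, y, hw, hy⟩ := S0358.finite_model p hptop μ n x (δ * m) (by positivity)
  have hy' : ∀ i j, |S0358.pn q w (fun ω => y i ω - y j ω) - ‖x i - x j‖| ≤ δ * ‖x i - x j‖ := by
    intro i j
    by_cases hij : i = j
    · subst hij
      simp only [sub_self, norm_zero, mul_zero]
      rw [S0358.pn_zero hq0]; simp
    · exact (hy i j).trans (mul_le_mul_of_nonneg_left (hm i j hij) hδ0.le)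
  have hypos : ∀ i j, i ≠ j → 0 < S0358.pn q w (fun ω => y i ω - y j ω) := by
    intro i j hij
    have h1 := (abs_le.1 (hy' i j)).1
    have h2 : 0 < ‖x i - x j‖ := lt_of_lt_of_le hm0 (hm i j hij)
    nlinarith
  obtain ⟨ν, a, hν, hν1, ha, hab⟩ := S0358.change_density q hq1.le n hn w hw y hypos
  obtain ⟨d, z, hd, hz⟩ := hC n hn ν hν hν1 a
    (fun i j hij => by rw [ha]; exact hypos i j hij)
    (fun i j ω => by rw [ha]; exact hab i j ω)
  refine ⟨d, hd.trans ?_, fun i => WithLp.toLp p (z i), (1 - δ) ^ 2, by nlinarith, ?_⟩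
  · rw [Real.exp_le_exp]
    have hl0 : 0 < Real.log n := by linarith
    have h1 : Real.log n ^ θ ≤ Real.log 2 ^ (θ - γ) * Real.log n ^ γ := by
      have : Real.log n ^ θ = Real.log n ^ (θ - γ) * Real.log n ^ γ := by
        rw [← Real.rpow_add hl0]; congr 1; ring
      rw [this]
      apply mul_le_mul_of_nonneg_right _ (Real.rpow_nonneg hl0.le _)
      exact Real.rpow_le_rpow_of_nonpos hlog2 hlogn (by linarith)
    calc C * Real.log n ^ θ ≤ |C| * Real.log n ^ θ :=
          mul_le_mul_of_nonneg_right (le_abs_self C) (Real.rpow_nonneg hl0.le _)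
      _ ≤ |C| * (Real.log 2 ^ (θ - γ) * Real.log n ^ γ) :=
          mul_le_mul_of_nonneg_left h1 (abs_nonneg C)
      _ = _ := by ring
  · intro i j
    have hnorm : ‖WithLp.toLp p (z i) - WithLp.toLp p (z j)‖
        = S0358.pn q (fun _ => 1) (fun k => z i k - z j k) := by
      rw [PiLp.norm_eq_sum (by rw [← hq]; exact hq0)]
      unfold S0358.pn
      simp only [one_mul]
      rfl
    rw [hnorm]
    have h1 := abs_le.1 (hz i j)
    rw [ha i j] at h1
    have h2 := abs_le.1 (hy' i j)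
    set A : ℝ := ‖x i - x j‖ with hA
    set B : ℝ := S0358.pn q w (fun ω => y i ω - y j ω) with hB
    set Z : ℝ := S0358.pn q (fun _ => 1) (fun k => z i k - z j k) with hZ
    have hA0 : 0 ≤ A := norm_nonneg _
    have e1 : (1 - δ) * B ≤ Z := by linarith [h1.1]
    have e2 : Z ≤ (1 + δ) * B := by linarith [h1.2]
    have e3 : (1 - δ) * A ≤ B := by linarith [h2.1]
    have e4 : B ≤ (1 + δ) * A := by linarith [h2.2]
    constructor
    · calc (1 - δ) ^ 2 * A = (1 - δ) * ((1 - δ) * A) := by ring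
        _ ≤ (1 - δ) * B := mul_le_mul_of_nonneg_left e3 (by linarith)
        _ ≤ Z := e1
    · calc Z ≤ (1 + δ) * B := e2
        _ ≤ (1 + δ) * ((1 + δ) * A) := mul_le_mul_of_nonneg_left e4 (by linarith)
        _ = (Real.sqrt D * Real.sqrt D) * (1 - δ) ^ 2 * A := by rw [hδD]; ring
        _ = D * (1 - δ) ^ 2 * A := by rw [Real.mul_self_sqrt hD0.le]

end Crest.Agent.S0358
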