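import Mathlib

/-!
# S0358: dimension reduction in L_p  --  basic definitions and `pn` (weighted l^p norm) API
-/

set_option autoImplicit false

open scoped BigOperators

namespace Crest.Agent.S0358

/-- Weighted `l^p` norm of `f : α → ℝ` with weights `μ` (nonnegative in all applications). -/
noncomputable def pn {α : Type*} [Fintype α] (p : ℝ) (μ f : α → ℝ) : ℝ :=
  (∑ a, μ a * |f a| ^ p) ^ (1 / p)

section pn
variable {α : Type*} [Fintype α] {p : ℝ} {μ f h : α → ℝ}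

theorem sum_pn_nonneg (hμ : ∀ a, 0 ≤ μ a) (f : α → ℝ) : 0 ≤ ∑ a, μ a * |f a| ^ p :=
  Finset.sum_nonneg fun a _ => mul_nonneg (hμ a) (Real.rpow_nonneg (abs_nonneg _) _)

theorem pn_nonneg (hμ : ∀ a, 0 ≤ μ a) (f : α → ℝ) : 0 ≤ pn p μ f :=
  Real.rpow_nonneg (sum_pn_nonneg hμ f) _

theorem pn_rpow (hp : 0 < p) (hμ : ∀ a, 0 ≤ μ a) (f : α → ℝ) :
    pn p μ f ^ p = ∑ a, μ a * |f a| ^ p := by
  unfold pn
  rw [← Real.rpow_mul (sum_pn_nonneg hμ f), one_div, inv_mul_cancel₀ hp.ne', Real.rpow_one]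

theorem pn_le_iff (hp : 0 < p) (hμ : ∀ a, 0 ≤ μ a) (f : α → ℝ) {c : ℝ} (hc : 0 ≤ c) :
    pn p μ f ≤ c ↔ ∑ a, μ a * |f a| ^ p ≤ c ^ p := by
  rw [← pn_rpow hp hμ f]
  exact (Real.rpow_le_rpow_iff (pn_nonneg hμ f) hc hp).symm

theorem pn_mono (hp : 0 < p) (hμ : ∀ a, 0 ≤ μ a) (hfh : ∀ a, |f a| ≤ |h a|) :
    pn p μ f ≤ pn p μ h := by
  unfold pn
  apply Real.rpow_le_rpow (sum_pn_nonneg hμ f) _ (by positivity)
  exact Finset.sum_le_sum fun a _ => mul_le_mul_of_nonneg_left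
    (Real.rpow_le_rpow (abs_nonneg _) (hfh a) hp.le) (hμ a)

theorem pn_abs : pn p μ (fun a => |f a|) = pn p μ f := by
  unfold pn; simp only [abs_abs]

theorem pn_neg : pn p μ (fun a => - f a) = pn p μ f := by
  unfold pn; simp only [abs_neg]

theorem pn_zero (hp : 0 < p) : pn p μ (fun _ => 0) = 0 := by
  unfold pn
  simp [Real.zero_rpow hp.ne', Real.zero_rpow (inv_pos.2 hp).ne']

theorem pn_const_mul (hp : 0 < p) (hμ : ∀ a, 0 ≤ μ a) (c : ℝ) (f : α → ℝ) :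
    pn p μ (fun a => c * f a) = |c| * pn p μ f := by
  unfold pn
  have : ∑ a, μ a * |c * f a| ^ p = |c| ^ p * ∑ a, μ a * |f a| ^ p := by
    rw [Finset.mul_sum]
    refine Finset.sum_congr rfl fun a _ => ?_
    rw [abs_mul, Real.mul_rpow (abs_nonneg _) (abs_nonneg _)]
    ring
  rw [this, Real.mul_rpow (Real.rpow_nonneg (abs_nonneg _) _) (sum_pn_nonneg hμ f),
    ← Real.rpow_mul (abs_nonneg _), mul_one_div_cancel hp.ne', Real.rpow_one]

/-- Minkowski. -/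
theorem pn_add_le (hp : 1 ≤ p) (hμ : ∀ a, 0 ≤ μ a) (f h : α → ℝ) :
    pn p μ (fun a => f a + h a) ≤ pn p μ f + pn p μ h := by
  have hp0 : 0 < p := by linarith
  have key := Real.Lp_add_le Finset.univ (fun a => μ a ^ (1 / p) * f a)
    (fun a => μ a ^ (1 / p) * h a) hp
  have e : ∀ u : α → ℝ, (∑ a, |μ a ^ (1 / p) * u a| ^ p) = ∑ a, μ a * |u a| ^ p := by
    intro u
    refine Finset.sum_congr rfl fun a _ => ?_
    rw [abs_mul, Real.mul_rpow (abs_nonneg _) (abs_nonneg _),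
      abs_of_nonneg (Real.rpow_nonneg (hμ a) _), ← Real.rpow_mul (hμ a),
      one_div, inv_mul_cancel₀ hp0.ne', Real.rpow_one]
  have e2 : (fun a => μ a ^ (1 / p) * f a + μ a ^ (1 / p) * h a)
      = fun a => μ a ^ (1 / p) * (f a + h a) := by
    funext a; ring
  simp only [e] at key
  have e3 : (∑ a, |μ a ^ (1 / p) * f a + μ a ^ (1 / p) * h a| ^ p)
      = ∑ a, μ a * |f a + h a| ^ p := by
    rw [← e (fun a => f a + h a)]
    refine Finset.sum_congr rfl fun a _ => ?_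
    rw [← mul_add]
  rw [e3] at key
  exact key

theorem pn_sub_le (hp : 1 ≤ p) (hμ : ∀ a, 0 ≤ μ a) (f h : α → ℝ) :
    pn p μ (fun a => f a - h a) ≤ pn p μ f + pn p μ h := by
  have := pn_add_le hp hμ f (fun a => - h a)
  rw [pn_neg] at this
  simpa only [sub_eq_add_neg] using this

theorem abs_pn_sub_pn_le (hp : 1 ≤ p) (hμ : ∀ a, 0 ≤ μ a) (f h : α → ℝ) :
    |pn p μ f - pn p μ h| ≤ pn p μ (fun a => f a - h a) := by
  rw [abs_le]
  constructor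
  · have := pn_sub_le hp hμ f (fun a => f a - h a)
    simp only [sub_sub_cancel] at this
    linarith
  · have := pn_add_le hp hμ h (fun a => f a - h a)
    simp only [add_sub_cancel] at this
    linarith

theorem pn_sum_le (hp : 1 ≤ p) (hμ : ∀ a, 0 ≤ μ a) {ι : Type*} (s : Finset ι)
    (F : ι → α → ℝ) :
    pn p μ (fun a => ∑ i ∈ s, F i a) ≤ ∑ i ∈ s, pn p μ (F i) := by
  classical
  induction s using Finset.induction_on with
  | empty => simp [pn_zero (show 0 < p by linarith)]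
  | insert i s hi ih =>
    simp only [Finset.sum_insert hi]
    exact (pn_add_le hp hμ _ _).trans (by gcongr)

end pn

/-- clamp of `t / L` to `[0, J]` -/
noncomputable def cl (L : ℝ) (J : ℕ) (t : ℝ) : ℝ := max 0 (min (t / L) J)

/-- tent functions on the log scale -/
noncomputable def tent (L : ℝ) (J : ℕ) (i : Fin (J + 1)) (t : ℝ) : ℝ :=
  max 0 (1 - |cl L J t - (i : ℕ)|)

/-- `l^p` partition of unity on the log scale -/
noncomputable def Psi (p L : ℝ) (J : ℕ) (i : Fin (J + 1)) (t : ℝ) : ℝ :=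
  tent L J i t / (∑ j, tent L J j t ^ p) ^ (1 / p)

/-- windowed coordinates of a real number `z` -/
noncomputable def VV (p L : ℝ) (J : ℕ) (i : Fin (J + 1)) (z : ℝ) : ℝ :=
  Psi p L J i (Real.logb 2 |z|) * z

/-- analysis coefficients: `bb M V τ ω = ∑ e, M τ e * V e ω` -/
noncomputable def bb {E 𝒯 Ω : Type*} [Fintype E] (M : 𝒯 → E → ℝ) (V : E → Ω → ℝ) (τ : 𝒯)
    (ω : Ω) : ℝ := ∑ e, M τ e * V e ω

/-- level of a coefficient: `Int.log 2 (|b| / w)`, i.e. for `0 < |b|/w`: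
`2^lev ≤ |b|/w < 2^(lev+1)` -/
noncomputable def lev (b w : ℝ) : ℤ := Int.log 2 (|b| / w)

/-- An analysis/synthesis system over the weighted finite edge set `(E,g)`. -/
structure Sys (E 𝒯 : Type*) [Fintype E] [Fintype 𝒯] (g : E → ℝ) (κ : ℝ) where
  lam : 𝒯 → ℝ
  w : 𝒯 → ℝ
  M : 𝒯 → E → ℝ
  K : E → 𝒯 → ℝ
  lam_nonneg : ∀ τ, 0 ≤ lam τ
  w_nonneg : ∀ τ, 0 ≤ w τ
  M_le : ∀ τ, ∑ e, |M τ e| ≤ w τ
  K_le : ∀ τ, ∑ e, g e * |K e τ| ≤ 2 * lam τ * w τ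
  A2 : ∀ V : E → ℝ, ∑ τ, lam τ * (∑ e, M τ e * V e) ^ 2 ≤ 2 * ∑ e, g e * V e ^ 2
  S2 : ∀ h : 𝒯 → ℝ, ∑ e, g e * (∑ τ, K e τ * h τ) ^ 2 ≤ 2 * ∑ τ, lam τ * h τ ^ 2
  W : ∑ τ, lam τ * w τ ^ 2 ≤ κ

/-- windowed synthesis:  `GG i e ω = ∑ τ, K e τ * b τ ω * Ψ_i (lev τ ω)` -/
noncomputable def GG {E 𝒯 Ω : Type*} [Fintype E] [Fintype 𝒯] (p L : ℝ) (J : ℕ) (w : 𝒯 → ℝ)
    (M : 𝒯 → E → ℝ) (K : E → 𝒯 → ℝ) (V : E → Ω → ℝ) (i : Fin (J + 1)) (e : E) (ω : Ω) : ℝ :=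
  ∑ τ, K e τ * (bb M V τ ω * Psi p L J i (lev (bb M V τ ω) (w τ) : ℤ))

/-- lazy reversible Markov kernel `A` with respect to `ν` -/
structure RevLazy {X : Type*} [Fintype X] [DecidableEq X] (ν : X → ℝ) (A : Matrix X X ℝ) :
    Prop where
  nu_pos : ∀ x, 0 < ν x
  nonneg : ∀ x y, 0 ≤ A x y
  row_sum : ∀ x, ∑ y, A x y = 1
  lazy : ∀ x, 1 / 2 ≤ A x x
  rev : ∀ x y, ν x * A x y = ν y * A y x

/-- `L²(ν)` inner product -/
noncomputable def ip {X : Type*} [Fintype X] (ν f h : X → ℝ) : ℝ := ∑ x, ν x * f x * h x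

end Crest.Agent.S0358
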