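import Crest.Agent.S0358_Defs

/-!
# Task T1 (row S0358): the window functions `Psi` and `VV`

All statements are elementary.  Sketch:

* `tent` as a function of `s = cl L J t ∈ [0,J]`: each `tent_i` is `1`-Lipschitz in `s`, at most two are
  nonzero at any `s` (those with `|s - i| < 1`), and `∑_i tent_i = 1`  (`s ∈ [k,k+1]`: `tent_k + tent_{k+1} = 1`),
  so `N(t) := (∑ tent_i^p)^(1/p) ∈ [1/2, 1]` (one of the two values is `≥ 1/2`).
* hence `‖tent(t) - tent(t')‖_p ≤ ‖·‖_1 ≤ 4 |s - s'| ≤ (4/L) |t - t'|`, and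
  `‖u/‖u‖ - v/‖v‖‖ ≤ 2 ‖u - v‖/‖u‖ ≤ 4 ‖u - v‖`, giving the `16/L`.
* `VV_lip`: w.l.o.g. `0 < |z| ≤ |z'|` (if `z = 0` use `VV_norm`);
  `‖VV z - VV z'‖ ≤ ‖Ψ(z) - Ψ(z')‖ |z| + ‖Ψ(z')‖ |z - z'| ≤ (16/L) |log₂|z| - log₂|z'|| |z| + |z - z'|`
  and `|z| log₂(|z'|/|z|) ≤ (|z'| - |z|)/log 2 ≤ 2 |z - z'|`.
-/

set_option autoImplicit false

open scoped BigOperators

namespace Crest.Agent.S0358

variable {p L : ℝ} {J : ℕ}

theorem T1_tent_nonneg (L : ℝ) (J : ℕ) (i : Fin (J + 1)) (t : ℝ) : 0 ≤ tent L J i t :=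
  le_max_left _ _

theorem T1_cl_nonneg (L : ℝ) (J : ℕ) (t : ℝ) : 0 ≤ cl L J t := le_max_left _ _

theorem T1_cl_le (L : ℝ) (J : ℕ) (t : ℝ) : cl L J t ≤ J :=
  max_le (Nat.cast_nonneg J) (min_le_right _ _)

theorem T1_cl_lip (hL : 0 < L) (t t' : ℝ) : |cl L J t - cl L J t'| ≤ |t - t'| / L := by
  have h1 : |cl L J t - cl L J t'| ≤ |t / L - t' / L| := by
    unfold cl
    have e1 := abs_max_sub_max_le_max (0 : ℝ) (min (t / L) J) 0 (min (t' / L) J)
    have e2 := abs_min_sub_min_le_max (t / L) (J : ℝ) (t' / L) J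
    rw [sub_self, abs_zero, max_eq_right (a := 0) (b := |_|) (abs_nonneg _)] at e1
    rw [sub_self, abs_zero, max_eq_left (a := |_|) (b := 0) (abs_nonneg _)] at e2
    exact e1.trans e2
  rw [← sub_div, abs_div, abs_of_pos hL] at h1
  exact h1

theorem T1_tent_lip (i : Fin (J + 1)) (t t' : ℝ) :
    |tent L J i t - tent L J i t'| ≤ |cl L J t - cl L J t'| := by
  unfold tent
  have e1 := abs_max_sub_max_le_max (0 : ℝ) (1 - |cl L J t - (i : ℕ)|) 0 (1 - |cl L J t' - (i : ℕ)|)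
  rw [sub_self, abs_zero, max_eq_right (a := 0) (b := |_|) (abs_nonneg _)] at e1
  refine e1.trans ?_
  have e2 := abs_abs_sub_abs_le_abs_sub (cl L J t' - (i : ℕ)) (cl L J t - (i : ℕ))
  have e3 : 1 - |cl L J t - (i : ℕ)| - (1 - |cl L J t' - (i : ℕ)|) =
    |cl L J t' - (i : ℕ)| - |cl L J t - (i : ℕ)| := by ring
  have e4 : cl L J t' - (i : ℕ) - (cl L J t - (i : ℕ)) = cl L J t' - cl L J t := by ring
  rw [e3]
  rw [e4] at e2
  rw [abs_sub_comm (cl L J t) (cl L J t')]
  exact e2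

/-- some tent value is at least `1/2` -/
theorem T1_exists_half (L : ℝ) (J : ℕ) (t : ℝ) : ∃ i : Fin (J + 1), 1 / 2 ≤ tent L J i t := by
  have h0 := T1_cl_nonneg L J t
  have h1 := T1_cl_le L J t
  set s := cl L J t with hs
  -- round `s`
  have h2 : ⌊s + 1 / 2⌋₊ < J + 1 := by
    rw [Nat.floor_lt (by linarith)]
    push_cast
    linarith
  refine ⟨⟨⌊s + 1 / 2⌋₊, h2⟩, ?_⟩
  unfold tent
  rw [← hs]
  refine le_max_of_le_right ?_
  have h3 := Nat.floor_le (show 0 ≤ s + 1 / 2 by linarith)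
  have h4 := Nat.lt_floor_add_one (s + 1 / 2)
  have h5 : |s - ((⌊s + 1 / 2⌋₊ : ℕ) : ℝ)| ≤ 1 / 2 := by
    rw [abs_le]; constructor <;> linarith
  simp only
  linarith

/-- active indices -/
noncomputable def T1_act (L : ℝ) (J : ℕ) (t : ℝ) : Finset (Fin (J + 1)) :=
  Finset.univ.filter fun i => |cl L J t - (i : ℕ)| < 1

theorem T1_act_card (L : ℝ) (J : ℕ) (t : ℝ) : (T1_act L J t).card ≤ 2 := by
  have h0 := T1_cl_nonneg L J t
  set s := cl L J t with hs
  have h1 : (T1_act L J t).image (fun i : Fin (J + 1) => (i : ℕ)) ⊆ {⌊s⌋₊, ⌊s⌋₊ + 1} := by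
    intro n hn
    rw [Finset.mem_image] at hn
    obtain ⟨i, hi, rfl⟩ := hn
    simp only [T1_act, Finset.mem_filter, Finset.mem_univ, true_and] at hi
    rw [← hs, abs_lt] at hi
    rw [Finset.mem_insert, Finset.mem_singleton]
    have h3 := Nat.floor_le h0
    have h4 := Nat.lt_floor_add_one s
    have h5 : (⌊s⌋₊ : ℝ) < ((i : ℕ) : ℝ) + 1 := by linarith [hi.2]
    have h6 : ((i : ℕ) : ℝ) < (⌊s⌋₊ : ℝ) + 2 := by linarith [hi.1]
    have h7 : ⌊s⌋₊ < (i : ℕ) + 1 := by exact_mod_cast h5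
    have h8 : (i : ℕ) < ⌊s⌋₊ + 2 := by exact_mod_cast h6
    omega
  rw [← Finset.card_image_of_injective (T1_act L J t) Fin.val_injective]
  exact (Finset.card_le_card h1).trans Finset.card_le_two

theorem T1_tent_zero {i : Fin (J + 1)} {t : ℝ} (h : i ∉ T1_act L J t) : tent L J i t = 0 := by
  simp only [T1_act, Finset.mem_filter, Finset.mem_univ, true_and, not_lt] at h
  unfold tent
  exact max_eq_left (by linarith)

theorem T1_tent_pos {i : Fin (J + 1)} {t : ℝ} (h : tent L J i t ≠ 0) :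
    |cl L J t - (i : ℕ)| < 1 := by
  by_contra h1
  apply h
  unfold tent
  exact max_eq_left (by linarith)

theorem T1_sum_lip (t t' : ℝ) :
    ∑ i : Fin (J + 1), |tent L J i t - tent L J i t'| ≤ 4 * |cl L J t - cl L J t'| := by
  classical
  have h1 : ∑ i : Fin (J + 1), |tent L J i t - tent L J i t'| =
      ∑ i ∈ T1_act L J t ∪ T1_act L J t', |tent L J i t - tent L J i t'| := by
    symm
    refine Finset.sum_subset (Finset.subset_univ _) fun i _ hi => ?_
    rw [Finset.mem_union, not_or] at hi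
    rw [T1_tent_zero hi.1, T1_tent_zero hi.2, sub_self, abs_zero]
  rw [h1]
  refine (Finset.sum_le_card_nsmul _ _ _ fun i _ => T1_tent_lip i t t').trans ?_
  rw [nsmul_eq_mul]
  refine mul_le_mul_of_nonneg_right ?_ (abs_nonneg _)
  have h2 : (T1_act L J t ∪ T1_act L J t').card ≤ 4 :=
    (Finset.card_union_le _ _).trans (by
      have := T1_act_card L J t
      have := T1_act_card L J t'
      omega)
  exact_mod_cast h2

theorem T1_single_le {α : Type*} [Fintype α] (hp : 1 ≤ p) (f : α → ℝ) (i : α) :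
    |f i| ≤ pn p (fun _ => 1) f := by
  have hp0 : 0 < p := by linarith
  have h1 : (|f i| ^ p) ^ (1 / p) ≤ pn p (fun _ => 1) f := by
    unfold pn
    refine Real.rpow_le_rpow (Real.rpow_nonneg (abs_nonneg _) _) ?_ (by positivity)
    simp only [one_mul]
    exact Finset.single_le_sum (f := fun a => |f a| ^ p)
      (fun a _ => Real.rpow_nonneg (abs_nonneg _) _) (Finset.mem_univ i)
  rwa [← Real.rpow_mul (abs_nonneg _), mul_one_div_cancel hp0.ne', Real.rpow_one] at h1

theorem T1_pn_le_sum {α : Type*} [Fintype α] (hp : 1 ≤ p) (f : α → ℝ) :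
    pn p (fun _ => 1) f ≤ ∑ a, |f a| := by
  classical
  have hp0 : 0 < p := by linarith
  have h1 := pn_sum_le (α := α) (μ := fun _ => 1) hp (fun _ => zero_le_one) Finset.univ
    (fun i a => if a = i then f i else 0)
  have h2 : (fun a => ∑ i, (if a = i then f i else 0)) = f := by
    funext a
    simp
  rw [h2] at h1
  refine h1.trans (Finset.sum_le_sum fun i _ => ?_)
  unfold pn
  rw [Finset.sum_eq_single i]
  · simp only [if_true, one_mul]
    rw [← Real.rpow_mul (abs_nonneg _), mul_one_div_cancel hp0.ne', Real.rpow_one]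
  · intro b _ hb
    simp only [if_neg hb, abs_zero, Real.zero_rpow hp0.ne', mul_zero]
  · intro h
    exact absurd (Finset.mem_univ i) h

/-- the normalisation -/
theorem T1_pn_tent (p L : ℝ) (J : ℕ) (t : ℝ) :
    pn p (fun _ : Fin (J + 1) => 1) (fun i => tent L J i t) =
      (∑ j, tent L J j t ^ p) ^ (1 / p) := by
  unfold pn
  simp only [one_mul, abs_of_nonneg (T1_tent_nonneg L J _ t)]

theorem T1_Psi_eq (p L : ℝ) (J : ℕ) (i : Fin (J + 1)) (t : ℝ) :
    Psi p L J i t = tent L J i t / pn p (fun _ : Fin (J + 1) => 1) (fun i => tent L J i t) := by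
  rw [T1_pn_tent]
  rfl

theorem T1_pn_half (hp : 1 ≤ p) (L : ℝ) (J : ℕ) (t : ℝ) :
    1 / 2 ≤ pn p (fun _ : Fin (J + 1) => 1) (fun i => tent L J i t) := by
  obtain ⟨i, hi⟩ := T1_exists_half L J t
  refine hi.trans ((le_abs_self _).trans (T1_single_le hp (fun i => tent L J i t) i))

theorem Psi_nonneg (p L : ℝ) (J : ℕ) (i : Fin (J + 1)) (t : ℝ) : 0 ≤ Psi p L J i t := by
  unfold Psi
  exact div_nonneg (T1_tent_nonneg _ _ _ _) (Real.rpow_nonneg
    (Finset.sum_nonneg fun j _ => Real.rpow_nonneg (T1_tent_nonneg _ _ _ _) _) _)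

theorem pn_Psi (hp : 1 ≤ p) (hL : 0 < L) (t : ℝ) :
    pn p (fun _ : Fin (J + 1) => 1) (fun i => Psi p L J i t) = 1 := by
  have h1 := T1_pn_half hp L J t
  simp only [T1_Psi_eq]
  set N := pn p (fun _ : Fin (J + 1) => 1) (fun i => tent L J i t) with hN
  have h2 : (fun i : Fin (J + 1) => tent L J i t / N) = fun i => N⁻¹ * tent L J i t := by
    funext i
    rw [div_eq_inv_mul]
  rw [h2, pn_const_mul (by linarith) (fun _ => zero_le_one), ← hN,
    abs_of_pos (inv_pos.2 (by linarith)), inv_mul_cancel₀ (by linarith)]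

theorem sum_Psi_rpow (hp : 1 ≤ p) (hL : 0 < L) (t : ℝ) : ∑ i, Psi p L J i t ^ p = 1 := by
  have h1 := pn_rpow (α := Fin (J + 1)) (p := p) (μ := fun _ => 1) (by linarith)
    (fun _ => zero_le_one) (fun i => Psi p L J i t)
  rw [pn_Psi hp hL, Real.one_rpow] at h1
  simp only [one_mul, abs_of_nonneg (Psi_nonneg p L J _ t)] at h1
  exact h1.symm

theorem Psi_le_one (hp : 1 ≤ p) (hL : 0 < L) (i : Fin (J + 1)) (t : ℝ) : Psi p L J i t ≤ 1 := by
  have h := T1_single_le hp (fun i => Psi p L J i t) i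
  rw [pn_Psi hp hL] at h
  exact (le_abs_self _).trans h

theorem Psi_lip (hp : 1 ≤ p) (hL : 0 < L) (t t' : ℝ) :
    pn p (fun _ : Fin (J + 1) => 1) (fun i => Psi p L J i t - Psi p L J i t')
      ≤ 16 / L * |t - t'| := by
  have hp0 : 0 < p := by linarith
  simp only [T1_Psi_eq]
  have hu := T1_pn_half hp L J t
  have hv := T1_pn_half hp L J t'
  have hd : pn p (fun _ : Fin (J + 1) => 1) (fun i => tent L J i t - tent L J i t') ≤
      4 * |cl L J t - cl L J t'| := (T1_pn_le_sum hp _).trans (T1_sum_lip t t')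
  have hab := abs_pn_sub_pn_le (α := Fin (J + 1)) (μ := fun _ => 1) hp (fun _ => zero_le_one)
    (fun i => tent L J i t) (fun i => tent L J i t')
  set N := pn p (fun _ : Fin (J + 1) => 1) (fun i => tent L J i t) with hN
  set N' := pn p (fun _ : Fin (J + 1) => 1) (fun i => tent L J i t') with hN'
  set D := pn p (fun _ : Fin (J + 1) => 1) (fun i => tent L J i t - tent L J i t') with hD
  have hN0 : 0 < N := by linarith
  have hN0' : 0 < N' := by linarith
  have h2 : (fun i : Fin (J + 1) => tent L J i t / N - tent L J i t' / N') =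
      fun i => N⁻¹ * (tent L J i t - tent L J i t') + (N⁻¹ - N'⁻¹) * tent L J i t' := by
    funext i
    rw [div_eq_inv_mul, div_eq_inv_mul]
    ring
  rw [h2]
  refine (pn_add_le hp (fun _ => zero_le_one) _ _).trans ?_
  rw [pn_const_mul hp0 (fun _ => zero_le_one), pn_const_mul hp0 (fun _ => zero_le_one), ← hD,
    ← hN', abs_of_pos (inv_pos.2 hN0)]
  have h3 : |N⁻¹ - N'⁻¹| * N' = N⁻¹ * |N - N'| := by
    have : N⁻¹ - N'⁻¹ = (N' - N) * (N⁻¹ * N'⁻¹) := by field_simp
    rw [this, abs_mul, abs_of_pos (mul_pos (inv_pos.2 hN0) (inv_pos.2 hN0')), abs_sub_comm]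
    field_simp
  rw [h3]
  have h4 : N⁻¹ ≤ 2 := by
    rw [inv_le_comm₀ hN0 (by norm_num)]
    linarith
  have h5 : 0 ≤ D := pn_nonneg (fun _ => zero_le_one) _
  have h6 : N⁻¹ * D + N⁻¹ * |N - N'| ≤ 4 * D := by
    have : N⁻¹ * |N - N'| ≤ N⁻¹ * D := mul_le_mul_of_nonneg_left hab (inv_pos.2 hN0).le
    nlinarith
  have h7 := T1_cl_lip (J := J) hL t t'
  calc N⁻¹ * D + N⁻¹ * |N - N'| ≤ 4 * D := h6
    _ ≤ 4 * (4 * |cl L J t - cl L J t'|) := by linarith
    _ ≤ 4 * (4 * (|t - t'| / L)) := by linarith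
    _ = 16 / L * |t - t'| := by ring

/-- if window `i ≥ 1` is active at `t` then `(i-1) L < t` -/
theorem Psi_low (hL : 0 < L) {i : Fin (J + 1)} {t : ℝ} (h : Psi p L J i t ≠ 0)
    (hi : 1 ≤ (i : ℕ)) : ((i : ℕ) - 1 : ℝ) * L < t := by
  have h1 : tent L J i t ≠ 0 := fun h2 => h (by unfold Psi; rw [h2, zero_div])
  have h2 := T1_tent_pos h1
  rw [abs_lt] at h2
  have h3 : ((i : ℕ) : ℝ) - 1 < cl L J t := by linarith [h2.1]
  unfold cl at h3
  have hi' : (1 : ℝ) ≤ ((i : ℕ) : ℝ) := by exact_mod_cast hi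
  rcases lt_max_iff.1 h3 with h4 | h4
  · linarith
  · have h5 := (lt_min_iff.1 h4).1
    rwa [lt_div_iff₀ hL] at h5

/-- if window `i < J` is active at `t` then `t < (i+1) L` -/
theorem Psi_high (hL : 0 < L) {i : Fin (J + 1)} {t : ℝ} (h : Psi p L J i t ≠ 0)
    (hi : (i : ℕ) < J) : t < ((i : ℕ) + 1 : ℝ) * L := by
  have h1 : tent L J i t ≠ 0 := fun h2 => h (by unfold Psi; rw [h2, zero_div])
  have h2 := T1_tent_pos h1
  rw [abs_lt] at h2
  have h3 : cl L J t < ((i : ℕ) : ℝ) + 1 := by linarith [h2.2]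
  unfold cl at h3
  have hi' : ((i : ℕ) : ℝ) + 1 ≤ (J : ℝ) := by exact_mod_cast hi
  rcases min_lt_iff.1 (max_lt_iff.1 h3).2 with h4 | h4
  · rwa [div_lt_iff₀ hL] at h4
  · linarith

theorem sum_VV_rpow (hp : 1 ≤ p) (hL : 0 < L) (z : ℝ) :
    ∑ i, |VV p L J i z| ^ p = |z| ^ p := by
  have h1 : ∀ i : Fin (J + 1), |VV p L J i z| ^ p = Psi p L J i (Real.logb 2 |z|) ^ p * |z| ^ p := by
    intro i
    unfold VV
    rw [abs_mul, abs_of_nonneg (Psi_nonneg _ _ _ _ _), Real.mul_rpow (Psi_nonneg _ _ _ _ _)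
      (abs_nonneg _)]
  simp only [h1]
  rw [← Finset.sum_mul, sum_Psi_rpow hp hL, one_mul]

theorem T1_pn_VV (hp : 1 ≤ p) (hL : 0 < L) (z : ℝ) :
    pn p (fun _ : Fin (J + 1) => 1) (fun i => VV p L J i z) = |z| := by
  have hp0 : 0 < p := by linarith
  unfold pn
  simp only [one_mul]
  rw [sum_VV_rpow hp hL, ← Real.rpow_mul (abs_nonneg _), mul_one_div_cancel hp0.ne',
    Real.rpow_one]

theorem VV_lip (hp : 1 ≤ p) (hL : 0 < L) (z z' : ℝ) :
    pn p (fun _ : Fin (J + 1) => 1) (fun i => VV p L J i z - VV p L J i z')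
      ≤ (1 + 32 / L) * |z - z'| := by
  have hp0 : 0 < p := by linarith
  have hL' : 0 ≤ 32 / L := by positivity
  -- main case
  have main : ∀ z z' : ℝ, z ≠ 0 → |z| ≤ |z'| →
      pn p (fun _ : Fin (J + 1) => 1) (fun i => VV p L J i z - VV p L J i z')
        ≤ (1 + 32 / L) * |z - z'| := by
    intro z z' hz hzz
    have hz0 : 0 < |z| := abs_pos.2 hz
    have hz0' : 0 < |z'| := lt_of_lt_of_le hz0 hzz
    have h2 : (fun i : Fin (J + 1) => VV p L J i z - VV p L J i z') =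
        fun i => z * (Psi p L J i (Real.logb 2 |z|) - Psi p L J i (Real.logb 2 |z'|)) +
          (z - z') * Psi p L J i (Real.logb 2 |z'|) := by
      funext i
      unfold VV
      ring
    rw [h2]
    refine (pn_add_le hp (fun _ => zero_le_one) _ _).trans ?_
    rw [pn_const_mul hp0 (fun _ => zero_le_one), pn_const_mul hp0 (fun _ => zero_le_one),
      pn_Psi hp hL, mul_one]
    have h3 := Psi_lip (J := J) hp hL (Real.logb 2 |z|) (Real.logb 2 |z'|)
    have h4 : |z| * |Real.logb 2 |z| - Real.logb 2 (|z'|)| ≤ 2 * |z - z'| := by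
      have h5 : Real.logb 2 |z| ≤ Real.logb 2 |z'| :=
        Real.logb_le_logb_of_le (by norm_num) hz0 hzz
      rw [abs_sub_comm, abs_of_nonneg (sub_nonneg.2 h5)]
      rw [← Real.logb_div hz0'.ne' hz0.ne', Real.logb]
      have h6 : Real.log (|z'| / |z|) ≤ |z'| / |z| - 1 :=
        Real.log_le_sub_one_of_pos (by positivity)
      have h7 : 1 / 2 < Real.log 2 := by
        have := Real.log_two_gt_d9
        linarith
      have h8 : |z'| - |z| ≤ |z - z'| := by
        have := abs_sub_abs_le_abs_sub z' z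
        rwa [abs_sub_comm z' z] at this
      calc |z| * (Real.log (|z'| / |z|) / Real.log 2)
          ≤ |z| * ((|z'| / |z| - 1) / Real.log 2) := by gcongr
        _ = (|z'| - |z|) / Real.log 2 := by field_simp
        _ ≤ (|z'| - |z|) / (1 / 2) := by
            gcongr
        _ = 2 * (|z'| - |z|) := by ring
        _ ≤ 2 * |z - z'| := by linarith
    calc |z| * pn p (fun _ : Fin (J + 1) => 1)
          (fun i => Psi p L J i (Real.logb 2 |z|) - Psi p L J i (Real.logb 2 |z'|)) + |z - z'|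
        ≤ |z| * (16 / L * |Real.logb 2 |z| - Real.logb 2 (|z'|)|) + |z - z'| := by gcongr
      _ = 16 / L * (|z| * |Real.logb 2 |z| - Real.logb 2 (|z'|)|) + |z - z'| := by ring
      _ ≤ 16 / L * (2 * |z - z'|) + |z - z'| := by gcongr
      _ = (1 + 32 / L) * |z - z'| := by ring
  have hsymm : ∀ z z' : ℝ, pn p (fun _ : Fin (J + 1) => 1) (fun i => VV p L J i z - VV p L J i z') =
      pn p (fun _ : Fin (J + 1) => 1) (fun i => VV p L J i z' - VV p L J i z) := by
    intro z z'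
    rw [← pn_neg]
    congr 1
    funext i
    ring
  have hzero : ∀ z : ℝ, pn p (fun _ : Fin (J + 1) => 1) (fun i => VV p L J i z - VV p L J i 0)
      ≤ (1 + 32 / L) * |z - 0| := by
    intro z
    have h1 : (fun i : Fin (J + 1) => VV p L J i z - VV p L J i 0) = fun i => VV p L J i z := by
      funext i
      unfold VV
      ring
    rw [h1, T1_pn_VV hp hL, sub_zero]
    have := abs_nonneg z
    nlinarith
  by_cases hz : z = 0
  · subst hz
    rw [hsymm, abs_sub_comm]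
    exact hzero z'
  by_cases hz' : z' = 0
  · subst hz'
    exact hzero z
  rcases le_total |z| |z'| with h | h
  · exact main z z' hz h
  · rw [hsymm, abs_sub_comm]
    exact main z' z hz' h

end Crest.Agent.S0358
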