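import Crest.Agent.S0358_Defs

/-!
# Task T2 (row S0358): `L²(ν)` inequalities for a lazy reversible Markov kernel

`ip ν f h = ∑ x, ν x * f x * h x`.  `A` is self-adjoint for `ip ν` (by `rev`).
Positivity facts used: (PSD1) `0 ≤ ip ν (A f) f` (by laziness:
`∑ ν A(x,x) f² + ∑_{x≠y} ν A f(x) f(y) ≥ ∑ ν f² (A(x,x) - ∑_{y≠x} A(x,y)) ≥ 0`),
(PSD2) `0 ≤ ip ν (f - A f) f` (= energy), and then for every `m`
`0 ≤ ip ν (A^m f) f` and `0 ≤ ip ν (A^m (f - A f)) f` (for even `m = 2k`: move `A^k` to the other side;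
for odd `m`: use `A(I-A) = A(I-A)A + (I-A)A(I-A)`).
-/

set_option autoImplicit false

open scoped BigOperators

namespace Crest.Agent.S0358

set_option linter.unusedSectionVars false

variable {X : Type} [Fintype X] [DecidableEq X] {ν : X → ℝ} {A : Matrix X X ℝ}

/-! ### bilinearity of `ip` -/

theorem T2_ip_comm (f g : X → ℝ) : ip ν f g = ip ν g f := by
  unfold ip; exact Finset.sum_congr rfl fun x _ => by ring

theorem T2_ip_add_left (f g u : X → ℝ) : ip ν (f + g) u = ip ν f u + ip ν g u := by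
  unfold ip
  rw [← Finset.sum_add_distrib]
  exact Finset.sum_congr rfl fun x _ => by simp only [Pi.add_apply]; ring

theorem T2_ip_sub_left (f g u : X → ℝ) : ip ν (f - g) u = ip ν f u - ip ν g u := by
  unfold ip
  rw [← Finset.sum_sub_distrib]
  exact Finset.sum_congr rfl fun x _ => by simp only [Pi.sub_apply]; ring

theorem T2_ip_smul_left (c : ℝ) (f u : X → ℝ) : ip ν (c • f) u = c * ip ν f u := by
  unfold ip
  rw [Finset.mul_sum]
  exact Finset.sum_congr rfl fun x _ => by simp only [Pi.smul_apply, smul_eq_mul]; ring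

theorem T2_ip_sum_left {ι : Type*} (s : Finset ι) (f : ι → X → ℝ) (u : X → ℝ) :
    ip ν (∑ i ∈ s, f i) u = ∑ i ∈ s, ip ν (f i) u := by
  unfold ip
  rw [Finset.sum_comm]
  exact Finset.sum_congr rfl fun x _ => by
    simp only [Finset.sum_apply, Finset.mul_sum, Finset.sum_mul]

theorem T2_ip_sum_right {ι : Type*} (s : Finset ι) (f : ι → X → ℝ) (u : X → ℝ) :
    ip ν u (∑ i ∈ s, f i) = ∑ i ∈ s, ip ν u (f i) := by
  rw [T2_ip_comm, T2_ip_sum_left]
  exact Finset.sum_congr rfl fun x _ => T2_ip_comm _ _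

theorem T2_ip_self_nonneg (h : RevLazy ν A) (f : X → ℝ) : 0 ≤ ip ν f f := by
  unfold ip
  refine Finset.sum_nonneg fun x _ => ?_
  rw [mul_assoc]
  exact mul_nonneg (h.nu_pos x).le (mul_self_nonneg _)

theorem T2_cs (h : RevLazy ν A) (f g : X → ℝ) :
    ip ν f g ≤ 1 / 2 * ip ν f f + 1 / 2 * ip ν g g := by
  have h1 := T2_ip_self_nonneg h (f - g)
  rw [T2_ip_sub_left, T2_ip_comm f (f - g), T2_ip_comm g (f - g), T2_ip_sub_left,
    T2_ip_sub_left, T2_ip_comm g f] at h1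
  linarith

theorem ip_selfadj (h : RevLazy ν A) (f u : X → ℝ) :
    ip ν (A.mulVec f) u = ip ν f (A.mulVec u) := by
  unfold ip Matrix.mulVec dotProduct
  simp only [Finset.mul_sum, Finset.sum_mul]
  rw [Finset.sum_comm]
  refine Finset.sum_congr rfl fun x _ => Finset.sum_congr rfl fun y _ => ?_
  have := h.rev y x
  linear_combination (f x * u y) * this

theorem ip_selfadj_pow (h : RevLazy ν A) (t : ℕ) (f u : X → ℝ) :
    ip ν ((A ^ t).mulVec f) u = ip ν f ((A ^ t).mulVec u) := by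
  induction t generalizing f u with
  | zero => simp
  | succ t ih =>
    have e1 : (A ^ (t + 1)).mulVec f = (A ^ t).mulVec (A.mulVec f) := by
      rw [pow_succ, Matrix.mulVec_mulVec]
    have e2 : (A ^ (t + 1)).mulVec u = A.mulVec ((A ^ t).mulVec u) := by
      rw [pow_succ', Matrix.mulVec_mulVec]
    rw [e1, e2, ih, ip_selfadj h]

theorem T2_sub_eq (f : X → ℝ) : (fun x => f x - A.mulVec f x) = (1 - A).mulVec f := by
  funext x
  rw [Matrix.sub_mulVec, Matrix.one_mulVec]; rfl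

theorem T2_col (h : RevLazy ν A) (y : X) : ∑ x, ν x * A x y = ν y := by
  simp only [fun x => h.rev x y, ← Finset.mul_sum, h.row_sum, mul_one]

theorem T2_expand (h : RevLazy ν A) (f : X → ℝ) (s : ℝ) :
    ∑ x, ∑ y, ν x * A x y * (f x + s * f y) ^ 2
      = (1 + s ^ 2) * ip ν f f + 2 * s * ip ν (A.mulVec f) f := by
  have e1 : ∑ x, ∑ y, ν x * A x y * (f x) ^ 2 = ip ν f f := by
    unfold ip
    refine Finset.sum_congr rfl fun x _ => ?_
    rw [← Finset.sum_mul, ← Finset.mul_sum, h.row_sum]; ring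
  have e2 : ∑ x, ∑ y, ν x * A x y * (f y) ^ 2 = ip ν f f := by
    rw [Finset.sum_comm]
    unfold ip
    refine Finset.sum_congr rfl fun y _ => ?_
    rw [← Finset.sum_mul, T2_col h]; ring
  have e3 : ∑ x, ∑ y, ν x * A x y * (f x * f y) = ip ν (A.mulVec f) f := by
    unfold ip Matrix.mulVec dotProduct
    refine Finset.sum_congr rfl fun x _ => ?_
    rw [Finset.mul_sum, Finset.sum_mul]
    exact Finset.sum_congr rfl fun y _ => by ring
  have e : ∀ x y, ν x * A x y * (f x + s * f y) ^ 2 =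
      ν x * A x y * (f x) ^ 2 + (s ^ 2 * (ν x * A x y * (f y) ^ 2)
        + 2 * s * (ν x * A x y * (f x * f y))) := by
    intro x y; ring
  simp only [e, Finset.sum_add_distrib, ← Finset.mul_sum, e1, e2, e3]
  ring

/-- energy identity -/
theorem energy_eq (h : RevLazy ν A) (f : X → ℝ) :
    ip ν (fun x => f x - A.mulVec f x) f
      = 1 / 2 * ∑ x, ∑ y, ν x * A x y * (f x - f y) ^ 2 := by
  have := T2_expand h f (-1)
  have e : ∀ x y, f x + (-1) * f y = f x - f y := by intro x y; ring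
  simp only [e] at this
  rw [this, show (fun x => f x - A.mulVec f x) = f - A.mulVec f from rfl, T2_ip_sub_left]
  ring

/-! ### positivity -/

theorem T2_psd_A (h : RevLazy ν A) (f : X → ℝ) : 0 ≤ ip ν (A.mulVec f) f := by
  have h1 := T2_expand h f 1
  have h2 : ∑ x, ν x * A x x * (f x + 1 * f x) ^ 2 ≤
      ∑ x, ∑ y, ν x * A x y * (f x + 1 * f y) ^ 2 := by
    refine Finset.sum_le_sum fun x _ => ?_
    exact Finset.single_le_sum (f := fun y => ν x * A x y * (f x + 1 * f y) ^ 2)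
      (fun y _ => mul_nonneg (mul_nonneg (h.nu_pos x).le (h.nonneg x y)) (sq_nonneg _))
      (Finset.mem_univ x)
  have h3 : 2 * ip ν f f ≤ ∑ x, ν x * A x x * (f x + 1 * f x) ^ 2 := by
    unfold ip
    rw [Finset.mul_sum]
    refine Finset.sum_le_sum fun x _ => ?_
    have := mul_le_mul_of_nonneg_right (h.lazy x)
      (mul_nonneg (h.nu_pos x).le (sq_nonneg (f x)))
    nlinarith
  nlinarith

theorem T2_psd_IA (h : RevLazy ν A) (f : X → ℝ) : 0 ≤ ip ν ((1 - A).mulVec f) f := by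
  rw [← T2_sub_eq, energy_eq h]
  refine mul_nonneg (by norm_num) (Finset.sum_nonneg fun x _ => Finset.sum_nonneg fun y _ =>
    mul_nonneg (mul_nonneg (h.nu_pos x).le (h.nonneg x y)) (sq_nonneg _))

theorem T2_selfadj_IA (h : RevLazy ν A) (f u : X → ℝ) :
    ip ν ((1 - A).mulVec f) u = ip ν f ((1 - A).mulVec u) := by
  rw [Matrix.sub_mulVec, Matrix.sub_mulVec, Matrix.one_mulVec, Matrix.one_mulVec, T2_ip_sub_left,
    T2_ip_comm f (u - A.mulVec u), T2_ip_sub_left, ip_selfadj h f u, T2_ip_comm f u,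
    T2_ip_comm f (A.mulVec u)]

/-- positive semidefiniteness for `ip ν` -/
def T2_Psd (ν : X → ℝ) (M : Matrix X X ℝ) : Prop := ∀ f, 0 ≤ ip ν (M.mulVec f) f

theorem T2_Psd.add {M N : Matrix X X ℝ} (hM : T2_Psd ν M) (hN : T2_Psd ν N) :
    T2_Psd ν (M + N) := by
  intro f
  rw [Matrix.add_mulVec, T2_ip_add_left]
  exact add_nonneg (hM f) (hN f)

theorem T2_Psd.smul {M : Matrix X X ℝ} (hM : T2_Psd ν M) {c : ℝ} (hc : 0 ≤ c) :
    T2_Psd ν (c • M) := by
  intro f
  rw [Matrix.smul_mulVec, T2_ip_smul_left]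
  exact mul_nonneg hc (hM f)

theorem T2_Psd.zero : T2_Psd ν (0 : Matrix X X ℝ) := by
  intro f
  rw [Matrix.zero_mulVec]; simp [ip]

theorem T2_Psd.sum {ι : Type*} (s : Finset ι) {M : ι → Matrix X X ℝ}
    (hM : ∀ i ∈ s, T2_Psd ν (M i)) : T2_Psd ν (∑ i ∈ s, M i) := by
  classical
  induction s using Finset.induction_on with
  | empty => simpa using T2_Psd.zero
  | insert i s hi ih =>
    rw [Finset.sum_insert hi]
    exact (hM i (Finset.mem_insert_self _ _)).add
      (ih fun j hj => hM j (Finset.mem_insert_of_mem hj))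

theorem T2_Psd.conjA (h : RevLazy ν A) {M : Matrix X X ℝ} (hM : T2_Psd ν M) :
    T2_Psd ν (A * M * A) := by
  intro f
  rw [← Matrix.mulVec_mulVec, ← Matrix.mulVec_mulVec, ip_selfadj h]
  exact hM _

theorem T2_Psd.conjIA (h : RevLazy ν A) {M : Matrix X X ℝ} (hM : T2_Psd ν M) :
    T2_Psd ν ((1 - A) * M * (1 - A)) := by
  intro f
  rw [← Matrix.mulVec_mulVec, ← Matrix.mulVec_mulVec, T2_selfadj_IA h]
  exact hM _

theorem T2_comm : Commute A (1 - A) := (Commute.one_right A).sub_right (Commute.refl A)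

theorem T2_psd_pow (h : RevLazy ν A) : ∀ n m k : ℕ, m + k ≤ n →
    T2_Psd ν (A ^ m * (1 - A) ^ k) := by
  have hc : Commute A (1 - A) := T2_comm
  intro n
  induction n with
  | zero =>
    intro m k hmk
    obtain ⟨rfl, rfl⟩ : m = 0 ∧ k = 0 := by omega
    intro f
    simpa using T2_ip_self_nonneg h f
  | succ n ih =>
    intro m k hmk
    rcases m with _ | _ | m
    · rcases k with _ | _ | k
      · intro f
        simpa using T2_ip_self_nonneg h f
      · intro f
        simpa using T2_psd_IA h f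
      · have := (ih 0 k (by omega)).conjIA h
        have e : (1 - A) * (A ^ 0 * (1 - A) ^ k) * (1 - A) = A ^ 0 * (1 - A) ^ (k + 1 + 1) := by
          rw [pow_zero, one_mul, one_mul, ← pow_succ', ← pow_succ]
        rwa [e] at this
    · rcases k with _ | _ | k
      · intro f
        simpa using T2_psd_A h f
      · -- A (1 - A)
        have h1 : T2_Psd ν (A * (1 - A) * A) := T2_Psd.conjA h (fun f => T2_psd_IA h f)
        have h2 : T2_Psd ν ((1 - A) * A * (1 - A)) := T2_Psd.conjIA h (fun f => T2_psd_A h f)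
        have e : A * (1 - A) * A + (1 - A) * A * (1 - A) = A ^ (0 + 1) * (1 - A) ^ (0 + 1) := by
          rw [zero_add, pow_one, pow_one]
          noncomm_ring
        rw [← e]
        exact h1.add h2
      · have := (ih 1 k (by omega)).conjIA h
        have e : (1 - A) * (A ^ 1 * (1 - A) ^ k) * (1 - A)
            = A ^ (0 + 1) * (1 - A) ^ (k + 1 + 1) := by
          rw [zero_add, pow_one, ← mul_assoc, ← hc.eq, mul_assoc, mul_assoc,
            ← pow_succ, ← pow_succ']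
        rwa [e] at this
    · have := (ih m k (by omega)).conjA h
      have e : A * (A ^ m * (1 - A) ^ k) * A = A ^ (m + 1 + 1) * (1 - A) ^ k := by
        have hc' : Commute ((1 - A) ^ k) A := (hc.pow_right k).symm
        rw [← mul_assoc, ← pow_succ', mul_assoc, hc'.eq, ← mul_assoc, ← pow_succ]
      rwa [e] at this

theorem T2_psd (h : RevLazy ν A) (m k : ℕ) : T2_Psd ν (A ^ m * (1 - A) ^ k) :=
  T2_psd_pow h (m + k) m k le_rfl

theorem ip_contraction (h : RevLazy ν A) (f : X → ℝ) :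
    ip ν (A.mulVec f) (A.mulVec f) ≤ ip ν f f := by
  have h1 := ((T2_psd h 0 1).add (T2_psd h 1 1)) f
  have e : A ^ 0 * (1 - A) ^ 1 + A ^ 1 * (1 - A) ^ 1 = 1 - A * A := by
    rw [pow_zero, pow_one, pow_one]; noncomm_ring
  rw [e, Matrix.sub_mulVec, Matrix.one_mulVec, T2_ip_sub_left, ← Matrix.mulVec_mulVec,
    ip_selfadj h (A.mulVec f) f] at h1
  linarith

/-- the identity `I - (I-A) S = ∑ A^(2t+1) (I - A) + A^(2T)` with `S = ∑_{t<T} A^(2t)` -/
theorem T2_identity (T : ℕ) :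
    1 - (1 - A) * ∑ t ∈ Finset.range T, A ^ (2 * t)
      = ∑ t ∈ Finset.range T, A ^ (2 * t + 1) * (1 - A) ^ 1 + A ^ (2 * T) * (1 - A) ^ 0 := by
  induction T with
  | zero => simp
  | succ T ih =>
    have e0 : 1 - (1 - A) * ∑ t ∈ Finset.range (T + 1), A ^ (2 * t)
        = (1 - (1 - A) * ∑ t ∈ Finset.range T, A ^ (2 * t)) - (1 - A) * A ^ (2 * T) := by
      rw [Finset.sum_range_succ]; noncomm_ring
    rw [e0, ih, Finset.sum_range_succ]
    have hc : Commute (1 - A) (A ^ (2 * T)) := (T2_comm (A := A)).symm.pow_right _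
    have e1 : A ^ (2 * T + 1) = A ^ (2 * T) * A := pow_succ _ _
    have e2 : A ^ (2 * (T + 1)) = A ^ (2 * T) * A * A := by
      rw [show 2 * (T + 1) = 2 * T + 1 + 1 by ring, pow_succ, pow_succ]
    rw [e1, e2, hc.eq]
    noncomm_ring

/-- Analysis inequality.  With `f = S u`, `S = ∑_{t<T} A^(2t)`:
`⟨(I-A) f, f⟩ ≤ ⟨u, S u⟩ = ∑_{t<T} ‖A^t u‖²`.
Proof: `(I-A) S = I - [∑_{t<T} A^(2t+1)(I-A) + A^(2T)]`, and the bracket times `S` is a sum of
commuting products which are PSD. -/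
theorem mk_analysis (h : RevLazy ν A) (T : ℕ) (u : X → ℝ) :
    let f : X → ℝ := fun x => ∑ t ∈ Finset.range T, (A ^ (2 * t)).mulVec u x
    ip ν (fun x => f x - A.mulVec f x) f ≤ ip ν u f ∧
      ip ν u f = ∑ t ∈ Finset.range T, ip ν ((A ^ t).mulVec u) ((A ^ t).mulVec u) := by
  intro f
  set S : Matrix X X ℝ := ∑ t ∈ Finset.range T, A ^ (2 * t) with hS
  have hf : f = S.mulVec u := by
    funext x
    simp only [f, hS, Matrix.sum_mulVec, Finset.sum_apply]
  have hf' : f = ∑ t ∈ Finset.range T, (A ^ (2 * t)).mulVec u := by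
    funext x
    simp only [f, Finset.sum_apply]
  constructor
  · rw [T2_sub_eq]
    -- `ip u f - ip ((1-A) f) f = ip ((1 - (1-A) S) S u) u`
    have hSadj : ∀ g w : X → ℝ, ip ν (S.mulVec g) w = ip ν g (S.mulVec w) := by
      intro g w
      rw [hS, Matrix.sum_mulVec, Matrix.sum_mulVec, T2_ip_sum_left, T2_ip_sum_right]
      exact Finset.sum_congr rfl fun t _ => ip_selfadj_pow h _ _ _
    have hpsd : T2_Psd ν (S * (1 - (1 - A) * S)) := by
      rw [hS, T2_identity, Finset.sum_mul]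
      refine T2_Psd.sum _ fun s _ => ?_
      rw [mul_add, Finset.mul_sum]
      refine T2_Psd.add (T2_Psd.sum _ fun t _ => ?_) ?_
      · rw [← mul_assoc, ← pow_add]
        exact T2_psd h _ _
      · rw [← mul_assoc, ← pow_add]
        exact T2_psd h _ _
    have h1 := hpsd u
    have e : S * (1 - (1 - A) * S) = S - S * (1 - A) * S := by noncomm_ring
    rw [e, Matrix.sub_mulVec, T2_ip_sub_left, ← Matrix.mulVec_mulVec, ← Matrix.mulVec_mulVec,
      hSadj ((1 - A).mulVec (S.mulVec u)) u, ← hf, T2_ip_comm f u] at h1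
    linarith
  · rw [hf', T2_ip_sum_right]
    refine Finset.sum_congr rfl fun t _ => ?_
    rw [two_mul, pow_add, ← Matrix.mulVec_mulVec, ← ip_selfadj_pow h]

/-- Synthesis inequality.  `f = ∑_{t<T} A^t h_t` satisfies `⟨(I-A) f, f⟩ ≤ ∑ ‖h_t‖²`.
Proof: `⟨(I-A)f,f⟩ = ∑_t ⟨h_t, A^t (I-A) f⟩ ≤ ½ ∑ ‖h_t‖² + ½ ∑_t ‖A^t (I-A) f‖²` and
`∑_{t<T} ‖A^t (I-A) f‖² = ⟨(I-A) S (I-A) f, f⟩ ≤ ⟨(I-A) f, f⟩` (same identity as in `mk_analysis`). -/
theorem mk_synthesis (h : RevLazy ν A) (T : ℕ) (u : ℕ → X → ℝ) :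
    let f : X → ℝ := fun x => ∑ t ∈ Finset.range T, (A ^ t).mulVec (u t) x
    ip ν (fun x => f x - A.mulVec f x) f ≤ ∑ t ∈ Finset.range T, ip ν (u t) (u t) := by
  intro f
  have hf' : f = ∑ t ∈ Finset.range T, (A ^ t).mulVec (u t) := by
    funext x
    simp only [f, Finset.sum_apply]
  rw [T2_sub_eq]
  set g : X → ℝ := (1 - A).mulVec f with hg
  have h1 : ip ν g f = ∑ t ∈ Finset.range T, ip ν ((A ^ t).mulVec g) (u t) := by
    rw [hf', T2_ip_sum_right]
    exact Finset.sum_congr rfl fun t _ => (ip_selfadj_pow h _ _ _).symm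
  have h2 : ip ν g f ≤ 1 / 2 * ∑ t ∈ Finset.range T, ip ν ((A ^ t).mulVec g) ((A ^ t).mulVec g)
      + 1 / 2 * ∑ t ∈ Finset.range T, ip ν (u t) (u t) := by
    rw [h1, Finset.mul_sum, Finset.mul_sum, ← Finset.sum_add_distrib]
    exact Finset.sum_le_sum fun t _ => T2_cs h _ _
  have h3 : ∑ t ∈ Finset.range T, ip ν ((A ^ t).mulVec g) ((A ^ t).mulVec g) ≤ ip ν g f := by
    set S : Matrix X X ℝ := ∑ t ∈ Finset.range T, A ^ (2 * t) with hS
    have e1 : ∑ t ∈ Finset.range T, ip ν ((A ^ t).mulVec g) ((A ^ t).mulVec g)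
        = ip ν (S.mulVec g) g := by
      rw [hS, Matrix.sum_mulVec, T2_ip_sum_left]
      refine Finset.sum_congr rfl fun t _ => ?_
      rw [two_mul, pow_add, ← Matrix.mulVec_mulVec, ip_selfadj_pow h t ((A ^ t).mulVec g) g]
    have hpsd : T2_Psd ν ((1 - (1 - A) * S) * (1 - A)) := by
      rw [hS, T2_identity, add_mul, Finset.sum_mul]
      refine T2_Psd.add (T2_Psd.sum _ fun t _ => ?_) ?_
      · rw [mul_assoc, ← pow_succ]
        exact T2_psd h _ _
      · rw [mul_assoc, ← pow_succ]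
        exact T2_psd h _ _
    have h4 := hpsd f
    have e : (1 - (1 - A) * S) * (1 - A) = (1 - A) - (1 - A) * S * (1 - A) := by noncomm_ring
    rw [e, Matrix.sub_mulVec, T2_ip_sub_left, ← Matrix.mulVec_mulVec, ← Matrix.mulVec_mulVec,
      ← hg, T2_selfadj_IA h (S.mulVec g) f, ← hg, T2_ip_comm (S.mulVec g) g] at h4
    rw [e1, T2_ip_comm (S.mulVec g) g]
    linarith
  linarith

/-- Residual: `(m+1) ⟨f, A^m (I-A) f⟩ ≤ ⟨f, f⟩`
(`∑_{k≤m} A^k (I-A) = I - A^(m+1) ≤ I`, and `⟨f, A^k (I-A) f⟩` is nonincreasing in `k`). -/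
theorem mk_residual (h : RevLazy ν A) (m : ℕ) (f : X → ℝ) :
    (m + 1 : ℝ) * ip ν f ((A ^ m).mulVec (fun x => f x - A.mulVec f x)) ≤ ip ν f f := by
  rw [T2_sub_eq, Matrix.mulVec_mulVec]
  have hpsd : ∀ m : ℕ, T2_Psd ν (1 - A ^ (m + 1) - ((m : ℝ) + 1) • (A ^ m * (1 - A))) := by
    intro m
    induction m with
    | zero =>
      have e : 1 - A ^ (0 + 1) - (((0 : ℕ) : ℝ) + 1) • (A ^ 0 * (1 - A)) = 0 := by
        simp
      rw [e]; exact T2_Psd.zero
    | succ m ih =>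
      have e : 1 - A ^ (m + 1 + 1) - (((m + 1 : ℕ) : ℝ) + 1) • (A ^ (m + 1) * (1 - A))
          = (1 - A ^ (m + 1) - ((m : ℝ) + 1) • (A ^ m * (1 - A)))
            + ((m : ℝ) + 1) • (A ^ m * (1 - A) ^ 2) := by
        have e1 : A ^ (m + 1 + 1) = A ^ (m + 1) - A ^ (m + 1) * (1 - A) := by
          rw [pow_succ _ (m + 1)]; noncomm_ring
        have e2 : A ^ m * (1 - A) ^ 2 = A ^ m * (1 - A) - A ^ (m + 1) * (1 - A) := by
          rw [pow_succ A m]; noncomm_ring
        rw [e1, e2]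
        push_cast
        module
      rw [e]
      exact ih.add ((T2_psd h m 2).smul (by positivity))
  have h1 := ((hpsd m).add (T2_psd h (m + 1) 0)) f
  rw [pow_zero, mul_one] at h1
  have e : 1 - A ^ (m + 1) - ((m : ℝ) + 1) • (A ^ m * (1 - A)) + A ^ (m + 1)
      = 1 - ((m : ℝ) + 1) • (A ^ m * (1 - A)) := by
    abel
  rw [e, Matrix.sub_mulVec, Matrix.one_mulVec, T2_ip_sub_left, Matrix.smul_mulVec,
    T2_ip_smul_left, T2_ip_comm ((A ^ m * (1 - A)).mulVec f) f] at h1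
  linarith

end Crest.Agent.S0358
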