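import Crest.Agent.S0358_Defs

/-!
# Task T3 (row S0358): entropy bound for a lazy reversible Markov kernel

Let `ρ_t(x) = (A^t)(v,x)/ν(x)`.  Then `ρ_{t+1} = A ρ_t` (reversibility) and `∑ ν ρ_t = 1`, `ρ_t ≥ 0`.
`H_t = ∑ ν(x) ρ_t(x) log ρ_t(x)`; `H_0 = log (1/ν v)`; `H_t ≥ 0` (`u log u ≥ u - 1`, `∑ ν = 1`).
`H_t - H_{t+1} = ∑_{x,y} ν(x) A(x,y) [ρ(y) log ρ(y) - ρ(y) log ρ̄(x) - ρ(y) + ρ̄(x)]`, `ρ̄ = A ρ`,
and `u log u - u log ū - u + ū ≥ (√u - √ū)²` for `u ≥ 0, ū > 0` (i.e. `log r ≤ r - 1`, `r = √(ū/u)`);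
(if `ρ̄(x) = 0` then `ρ(y) = 0` whenever `A(x,y) > 0`; Lean convention `0 * log 0 = 0`.)
Laziness: `A(x,x) ≥ 1/2 ≥ ∑_{y≠x} A(x,y)`, so with `c = √ρ̄(x)`
`∑_y A(x,y) (√ρ(y) - c)² ≥ ∑_{y≠x} A(x,y) [(√ρ(x) - c)² + (√ρ(y) - c)²] ≥ ½ ∑_y A(x,y) (√ρ(y) - √ρ(x))²`.
Summing over `t < T` telescopes to `2 (H_0 - H_T) ≤ 2 H_0`.
-/

set_option autoImplicit false

open scoped BigOperators

namespace Crest.Agent.S0358

variable {X : Type} [Fintype X] [DecidableEq X] {ν : X → ℝ} {A : Matrix X X ℝ}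

theorem T3_scalar {u m : ℝ} (hu : 0 ≤ u) (hm : 0 < m) :
    (Real.sqrt u - Real.sqrt m) ^ 2 ≤ u * Real.log u - u * Real.log m - u + m := by
  have hm2 : Real.sqrt m ^ 2 = m := Real.sq_sqrt hm.le
  have hu2 : Real.sqrt u ^ 2 = u := Real.sq_sqrt hu
  rcases hu.eq_or_lt with rfl | hu
  · simp [Real.sqrt_zero]; linarith
  · have hsu : 0 < Real.sqrt u := Real.sqrt_pos.2 hu
    have hsm : 0 < Real.sqrt m := Real.sqrt_pos.2 hm
    have h1 : Real.log (Real.sqrt m / Real.sqrt u) ≤ Real.sqrt m / Real.sqrt u - 1 :=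
      Real.log_le_sub_one_of_pos (div_pos hsm hsu)
    have h2 : Real.log (Real.sqrt m / Real.sqrt u) = (Real.log m - Real.log u) / 2 := by
      rw [Real.log_div hsm.ne' hsu.ne', Real.log_sqrt hm.le, Real.log_sqrt hu.le]; ring
    rw [h2] at h1
    have h3 : u * (Real.sqrt m / Real.sqrt u) = Real.sqrt u * Real.sqrt m := by
      nth_rw 1 [← hu2]; field_simp
    have h4 : u * ((Real.log m - Real.log u) / 2) ≤ u * (Real.sqrt m / Real.sqrt u - 1) :=
      mul_le_mul_of_nonneg_left h1 hu.le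
    have h5 : u * (Real.sqrt m / Real.sqrt u - 1) = Real.sqrt u * Real.sqrt m - u := by
      rw [mul_sub, h3, mul_one]
    rw [h5] at h4
    have : (Real.sqrt u - Real.sqrt m) ^ 2 = u - 2 * (Real.sqrt u * Real.sqrt m) + m := by
      rw [sub_sq, hu2, hm2]; ring
    rw [this]; linarith

theorem T3_local (q ρ : X → ℝ) (hq : ∀ y, 0 ≤ q y) (hs : ∑ y, q y = 1) (x : X)
    (hx : 1 / 2 ≤ q x) (hρ : ∀ y, 0 ≤ ρ y) :
    ∑ y, q y * (Real.sqrt (ρ x) - Real.sqrt (ρ y)) ^ 2 ≤
      2 * (∑ y, q y * (ρ y * Real.log (ρ y)) -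
        (∑ y, q y * ρ y) * Real.log (∑ y, q y * ρ y)) := by
  classical
  set m := ∑ y, q y * ρ y with hm
  have hm0 : 0 ≤ m := Finset.sum_nonneg fun y _ => mul_nonneg (hq y) (hρ y)
  rcases hm0.eq_or_lt with h0 | hmp
  · have hz : ∀ y, q y * ρ y = 0 := by
      intro y
      have := (Finset.sum_eq_zero_iff_of_nonneg
        (fun y _ => mul_nonneg (hq y) (hρ y))).1 (h0.symm : ∑ y, q y * ρ y = 0)
      exact this y (Finset.mem_univ _)
    have hxρ : ρ x = 0 := by
      rcases mul_eq_zero.1 (hz x) with h | h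
      · rw [h] at hx; norm_num at hx
      · exact h
    have e1 : ∀ y, q y * (Real.sqrt (ρ x) - Real.sqrt (ρ y)) ^ 2 = 0 := by
      intro y
      rw [hxρ, Real.sqrt_zero, zero_sub, neg_sq, Real.sq_sqrt (hρ y), hz]
    have e2 : ∀ y, q y * (ρ y * Real.log (ρ y)) = 0 := by
      intro y; rw [← mul_assoc, hz, zero_mul]
    simp only [e1, e2, ← h0]
    simp
  · have h1 : ∑ y, q y * (Real.sqrt (ρ y) - Real.sqrt m) ^ 2 ≤
        ∑ y, q y * (ρ y * Real.log (ρ y)) - m * Real.log m := by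
      have : ∑ y, q y * (Real.sqrt (ρ y) - Real.sqrt m) ^ 2 ≤
          ∑ y, q y * (ρ y * Real.log (ρ y) - ρ y * Real.log m - ρ y + m) :=
        Finset.sum_le_sum fun y _ => mul_le_mul_of_nonneg_left (T3_scalar (hρ y) hmp) (hq y)
      refine this.trans (le_of_eq ?_)
      have e : ∀ y, q y * (ρ y * Real.log (ρ y) - ρ y * Real.log m - ρ y + m)
          = q y * (ρ y * Real.log (ρ y)) - (q y * ρ y) * Real.log m - q y * ρ y + q y * m := by
        intro y; ring
      simp only [e, Finset.sum_add_distrib, Finset.sum_sub_distrib, ← Finset.sum_mul, hs, ← hm]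
      ring
    have h2 : ∑ y, q y * (Real.sqrt (ρ x) - Real.sqrt (ρ y)) ^ 2 ≤
        2 * ∑ y, q y * (Real.sqrt (ρ y) - Real.sqrt m) ^ 2 := by
      set a : X → ℝ := fun y => Real.sqrt (ρ y) with ha
      set c := Real.sqrt m
      have hsx : ∑ y ∈ Finset.univ.erase x, q y + q x = 1 := by
        rw [Finset.sum_erase_add _ _ (Finset.mem_univ x), hs]
      have g1 : ∑ y, q y * (a x - a y) ^ 2 = ∑ y ∈ Finset.univ.erase x, q y * (a x - a y) ^ 2 := by
        rw [← Finset.sum_erase_add _ _ (Finset.mem_univ x)]; simp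
      have g2 : ∑ y, q y * (a y - c) ^ 2 = ∑ y ∈ Finset.univ.erase x, q y * (a y - c) ^ 2
          + q x * (a x - c) ^ 2 := by
        rw [← Finset.sum_erase_add _ _ (Finset.mem_univ x)]
      have g3 : ∑ y ∈ Finset.univ.erase x, q y * (a x - a y) ^ 2 ≤
          ∑ y ∈ Finset.univ.erase x, (2 * (q y * (a y - c) ^ 2) + 2 * (q y * (a x - c) ^ 2)) := by
        refine Finset.sum_le_sum fun y _ => ?_
        have : (a x - a y) ^ 2 ≤ 2 * (a y - c) ^ 2 + 2 * (a x - c) ^ 2 := by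
          nlinarith [sq_nonneg ((a x - c) + (a y - c))]
        nlinarith [mul_le_mul_of_nonneg_left this (hq y)]
      rw [Finset.sum_add_distrib, ← Finset.mul_sum, ← Finset.mul_sum, ← Finset.sum_mul] at g3
      have g4 : (∑ y ∈ Finset.univ.erase x, q y) * (a x - c) ^ 2 ≤ q x * (a x - c) ^ 2 :=
        mul_le_mul_of_nonneg_right (by linarith) (sq_nonneg _)
      change ∑ y, q y * (a x - a y) ^ 2 ≤ 2 * ∑ y, q y * (a y - c) ^ 2
      rw [g1, g2]
      linarith
    linarith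

theorem T3_pow_nonneg (h : RevLazy ν A) (v : X) (t : ℕ) : ∀ x, 0 ≤ (A ^ t) v x := by
  induction t with
  | zero =>
    intro x
    rw [pow_zero, Matrix.one_apply]
    split_ifs <;> norm_num
  | succ t ih =>
    intro x
    rw [pow_succ, Matrix.mul_apply]
    exact Finset.sum_nonneg fun y _ => mul_nonneg (ih y) (h.nonneg y x)

theorem T3_pow_sum (h : RevLazy ν A) (v : X) (t : ℕ) : ∑ x, (A ^ t) v x = 1 := by
  induction t with
  | zero => simp [Matrix.one_apply]
  | succ t ih =>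
    simp only [pow_succ, Matrix.mul_apply]
    rw [Finset.sum_comm]
    simp only [← Finset.mul_sum, h.row_sum, mul_one, ih]

theorem T3_step (h : RevLazy ν A) (v : X) (t : ℕ) (x : X) :
    (A ^ (t + 1)) v x / ν x = ∑ y, A x y * ((A ^ t) v y / ν y) := by
  rw [pow_succ, Matrix.mul_apply, Finset.sum_div]
  refine Finset.sum_congr rfl fun y _ => ?_
  have h1 := h.rev x y
  have hx := h.nu_pos x
  have hy := h.nu_pos y
  field_simp
  linear_combination (-(A ^ t) v y) * h1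

theorem entropy_bound (h : RevLazy ν A) (hν : ∑ x, ν x = 1) (v : X) (T : ℕ) :
    ∑ t ∈ Finset.range T, ∑ x, ∑ y, ν x * A x y *
        (Real.sqrt ((A ^ t) v x / ν x) - Real.sqrt ((A ^ t) v y / ν y)) ^ 2
      ≤ 2 * Real.log (1 / ν v) := by
  set ρ : ℕ → X → ℝ := fun t x => (A ^ t) v x / ν x with hρdef
  set H : ℕ → ℝ := fun t => ∑ x, ν x * (ρ t x * Real.log (ρ t x)) with hHdef
  have hρ : ∀ t x, 0 ≤ ρ t x := fun t x => div_nonneg (T3_pow_nonneg h v t x) (h.nu_pos x).le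
  have hνρ : ∀ t, ∑ x, ν x * ρ t x = 1 := by
    intro t
    rw [← T3_pow_sum h v t]
    refine Finset.sum_congr rfl fun x _ => ?_
    exact mul_div_cancel₀ _ (h.nu_pos x).ne'
  have hcol : ∀ y, ∑ x, ν x * A x y = ν y := by
    intro y
    simp only [fun x => h.rev x y, ← Finset.mul_sum, h.row_sum, mul_one]
  have hstep : ∀ t, ∑ x, ∑ y, ν x * A x y * (Real.sqrt (ρ t x) - Real.sqrt (ρ t y)) ^ 2 ≤
      2 * (H t - H (t + 1)) := by
    intro t
    have h1 : H t = ∑ x, ν x * ∑ y, A x y * (ρ t y * Real.log (ρ t y)) := by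
      simp only [Finset.mul_sum]
      rw [Finset.sum_comm]
      refine Finset.sum_congr rfl fun y _ => ?_
      simp only [← mul_assoc, ← Finset.sum_mul, hcol]
    have h2 : H (t + 1) = ∑ x, ν x * ((∑ y, A x y * ρ t y) * Real.log (∑ y, A x y * ρ t y)) := by
      refine Finset.sum_congr rfl fun x _ => ?_
      rw [show ρ (t + 1) x = ∑ y, A x y * ρ t y from T3_step h v t x]
    rw [h1, h2, ← Finset.sum_sub_distrib, Finset.mul_sum]
    refine Finset.sum_le_sum fun x _ => ?_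
    have := mul_le_mul_of_nonneg_left (T3_local (fun y => A x y) (ρ t) (h.nonneg x) (h.row_sum x) x
      (h.lazy x) (hρ t)) (h.nu_pos x).le
    rw [Finset.mul_sum] at this
    simp only [← mul_assoc] at this ⊢
    refine this.trans (le_of_eq ?_)
    ring
  have hH0 : H 0 = Real.log (1 / ν v) := by
    have : ∀ x, ν x * (ρ 0 x * Real.log (ρ 0 x)) = if v = x then Real.log (1 / ν v) else 0 := by
      intro x
      simp only [hρdef, pow_zero, Matrix.one_apply]
      split_ifs with hvx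
      · subst hvx
        have := h.nu_pos v
        field_simp
      · simp
    simp only [hHdef, this]
    simp
  have hHT : ∀ t, 0 ≤ H t := by
    intro t
    have h1 : ∑ x, ν x * (ρ t x - 1) = 0 := by
      simp only [mul_sub, Finset.sum_sub_distrib, hνρ, mul_one, hν, sub_self]
    rw [← h1]
    refine Finset.sum_le_sum fun x _ => mul_le_mul_of_nonneg_left ?_ (h.nu_pos x).le
    rcases (hρ t x).eq_or_lt with h0 | hp
    · rw [← h0]; simp
    · have := Real.one_sub_inv_le_log_of_pos hp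
      have h3 := mul_le_mul_of_nonneg_left this hp.le
      rw [mul_sub, mul_inv_cancel₀ hp.ne', mul_one] at h3
      exact h3
  calc ∑ t ∈ Finset.range T, ∑ x, ∑ y, ν x * A x y *
        (Real.sqrt ((A ^ t) v x / ν x) - Real.sqrt ((A ^ t) v y / ν y)) ^ 2
      ≤ ∑ t ∈ Finset.range T, 2 * (H t - H (t + 1)) := Finset.sum_le_sum fun t _ => hstep t
    _ = 2 * (H 0 - H T) := by
        rw [← Finset.mul_sum, Finset.sum_range_sub']
    _ ≤ 2 * Real.log (1 / ν v) := by
        rw [hH0]; linarith [hHT T]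

end Crest.Agent.S0358
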