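import Crest.Agent.S0358_T2
import Crest.Agent.S0358_T3

/-!
# Task T4 (row S0358): the Markov chain gives an analysis/synthesis system

Put `ν x = ∑_y g (x,y) ≥ 1/(2n)`, `δ = ½ min_{x≠y} d(x,y)²`, `A(x,y) = δ g(x,y)/(d(x,y)² ν x)` for `x ≠ y`,
`A(x,x) = 1 - ∑_{y≠x} A(x,y) ≥ 1/2`.  `ν(x) A(x,y) = δ g/d²` is symmetric: `RevLazy ν A`, `∑ ν = 1`.
Index `τ = (t,v)`, `t < T`, `v : Fin n`.  `ρ^t_v(x) = (A^t)(v,x)/ν x`, `q_t(v) = ∑_e (g/d)|ρ^t_v(x) - ρ^t_v(y)|`.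
* `lam τ = ν v/δ`, `w τ = (δ/2)(q_t(v) + q_{t+1}(v))`,
* `M τ (x,y) = (δ/2)(g(x,y)/d(x,y)) [ρ^t_v(x) - ρ^t_v(y) + ρ^{t+1}_v(x) - ρ^{t+1}_v(y)]`,
* `k x τ = (A^t) x v`, `K (x,y) τ = (k x τ - k y τ)/d(x,y) = ν v (ρ^t_v(x) - ρ^t_v(y))/d(x,y)`.
* `M_le`: triangle inequality.   `K_le`: `∑_e g|K| = ν v q_t(v) ≤ ν v (2/δ) w = 2 lam w`.
* `A2`: for `V : E → ℝ` let `u_V(x) = (δ/ν x) ∑_y (g/d)(V(x,y) - V(y,x))/2`; then
  `⟨u_V,f⟩ = (δ/2) ∑_e g ∇f(e) V(e)` with `∇f(x,y) = (f x - f y)/d(x,y)`, and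
  `∑_e M τ e V e = ((I+A) A^t u_V)(v)`.   `⟨(I-A) f,f⟩ = (δ/2) ∑ g (∇f)²`.   With `f = S u_V`, `Y = ⟨u_V, S u_V⟩`:
  `Y = (δ/2) ∑ g ∇f V ≤ (δ/2) ((2/δ)⟨(I-A)f,f⟩)^{1/2} (∑ g V²)^{1/2} ≤ (δ/2)((2/δ) Y)^{1/2}(∑ g V²)^{1/2}`, so
  `∑_t ‖A^t u_V‖² = Y ≤ (δ/2) ∑ g V²`; `‖(I+A) f‖² ≤ 4‖f‖²` gives
  `∑_τ lam (∑ M V)² = (1/δ) ∑_t ‖(I+A)A^t u_V‖² ≤ (4/δ)(δ/2) ∑ g V² = 2 ∑ g V²`.
* `S2`: `∑_τ K(e,τ) h(τ) = ∇f(e)`, `f = ∑_{t<T} A^t h_t`; `∑ g|∇f|² = (2/δ)⟨(I-A)f,f⟩ ≤ (2/δ) ∑ ‖h_t‖² = 2 ∑ lam h²`.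
* `W`: `q_t(v)² ≤ (∑ (g/d²)(√ρ(x) - √ρ(y))²)(∑ g (√ρ(x)+√ρ(y))²) ≤ 4 ∑ (g/d²)(√ρ(x)-√ρ(y))²` (Cauchy-Schwarz; `∑_e g (ρ x + ρ y) = 2`),
  and `δ g/d² = ν A` off the diagonal, so by `entropy_bound`, `δ ∑_{t<T'} q_t(v)² ≤ 8 log (1/ν v) ≤ 8 log (2n)` for every `T'`;
  `∑_τ lam w² ≤ ∑_v ν v (δ/4) ∑_{t<T} 2 (q_t² + q_{t+1}²) ≤ ∑_v ν v δ ∑_{t≤T} q_t² ≤ 8 log (2n)`.
* representation: for `V = ∇a` (antisymmetric) `u_V = (I-A) a`, so `∑_τ k(x,τ) b(τ) = ∑_{t<T} A^{2t}(I+A)(I-A) a = a - A^{2T} a`,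
  `V - ∑ K b = ∇ A^{2T} a` and `g(e) |∇ A^{2T} a (e)|² ≤ (2/δ)⟨(I-A)A^{4T} a,a⟩ ≤ (2/δ)⟨a,a⟩/(4T+1)` (`mk_residual`) → 0 as `T → ∞`.
-/

set_option autoImplicit false

open scoped BigOperators

namespace Crest.Agent.S0358

/-- data of the chain -/
structure T4Dat (n : ℕ) where
  d : Fin n → Fin n → ℝ
  g : Fin n × Fin n → ℝ
  δ : ℝ
  hsymm : ∀ x y, d x y = d y x
  hpos : ∀ x y, x ≠ y → 0 < d x y
  hgsymm : ∀ x y, g (x, y) = g (y, x)
  hgdiag : ∀ x, g (x, x) = 0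
  hg0 : ∀ x y, 0 ≤ g (x, y)
  hgsum : ∑ e, g e = 1
  hν : ∀ x, 0 < ∑ y, g (x, y)
  hδ : 0 < δ
  hδd : ∀ x y, x ≠ y → 2 * δ ≤ d x y ^ 2

namespace T4Dat

variable {n : ℕ} (D : T4Dat n)

noncomputable def ν (x : Fin n) : ℝ := ∑ y, D.g (x, y)

noncomputable def c (x y : Fin n) : ℝ := D.δ * D.g (x, y) / D.d x y ^ 2

noncomputable def A : Matrix (Fin n) (Fin n) ℝ := fun x y =>
  if x = y then 1 - ∑ z, D.c x z / D.ν x else D.c x y / D.ν x

theorem ν_pos (x : Fin n) : 0 < D.ν x := D.hν x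

theorem c_symm (x y : Fin n) : D.c x y = D.c y x := by
  unfold c
  rw [D.hgsymm, D.hsymm]

theorem c_diag (x : Fin n) : D.c x x = 0 := by
  unfold c
  rw [D.hgdiag]
  simp

theorem c_nonneg (x y : Fin n) : 0 ≤ D.c x y := by
  unfold c
  have := D.hg0 x y
  have := D.hδ
  positivity

theorem c_le (x y : Fin n) : D.c x y ≤ D.g (x, y) / 2 := by
  by_cases h : x = y
  · subst h
    rw [c_diag, D.hgdiag]
    simp
  · unfold c
    have h1 := D.hδd x y h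
    have h2 := D.hδ
    have h3 := D.hg0 x y
    rw [div_le_iff₀ (by nlinarith)]
    nlinarith

theorem sum_ν : ∑ x, D.ν x = 1 := by
  unfold ν
  rw [← D.hgsum, Fintype.sum_prod_type]

theorem sum_c_le (x : Fin n) : ∑ z, D.c x z / D.ν x ≤ 1 / 2 := by
  rw [← Finset.sum_div, div_le_iff₀ (D.ν_pos x)]
  calc ∑ z, D.c x z ≤ ∑ z, D.g (x, z) / 2 := Finset.sum_le_sum fun z _ => D.c_le x z
    _ = 1 / 2 * D.ν x := by
      unfold ν
      rw [← Finset.sum_div]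
      ring

theorem nuA_ne {x y : Fin n} (h : x ≠ y) : D.ν x * D.A x y = D.c x y := by
  unfold A
  rw [if_neg h, mul_div_cancel₀ _ (D.ν_pos x).ne']

theorem nuA_mul (x y : Fin n) {F : ℝ} (hF : x = y → F = 0) : D.ν x * D.A x y * F = D.c x y * F := by
  by_cases h : x = y
  · rw [hF h, mul_zero, mul_zero]
  · rw [D.nuA_ne h]

theorem row_sum (x : Fin n) : ∑ y, D.A x y = 1 := by
  have h : ∀ y, D.A x y = (if x = y then 1 - ∑ z, D.c x z / D.ν x else 0) + D.c x y / D.ν x := by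
    intro y
    by_cases h : x = y
    · subst h
      simp [A, D.c_diag]
    · simp [A, h]
  simp only [h, Finset.sum_add_distrib, Finset.sum_ite_eq, Finset.mem_univ, if_true]
  ring

theorem revLazy : RevLazy D.ν D.A where
  nu_pos := D.ν_pos
  nonneg x y := by
    by_cases h : x = y
    · subst h
      have := D.sum_c_le x
      simp only [A, if_true]
      linarith
    · simp only [A, if_neg h]
      exact div_nonneg (D.c_nonneg x y) (D.ν_pos x).le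
  row_sum := D.row_sum
  lazy x := by
    have := D.sum_c_le x
    simp only [A, if_true]
    linarith
  rev x y := by
    by_cases h : x = y
    · subst h; rfl
    · rw [D.nuA_ne h, D.nuA_ne (Ne.symm h), D.c_symm]

theorem IA_apply (f : Fin n → ℝ) (x : Fin n) :
    D.ν x * (f x - D.A.mulVec f x) = ∑ y, D.c x y * (f x - f y) := by
  have h1 : f x - D.A.mulVec f x = ∑ y, D.A x y * (f x - f y) := by
    simp only [mul_sub, Finset.sum_sub_distrib, ← Finset.sum_mul, D.row_sum, one_mul]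
    rfl
  rw [h1, Finset.mul_sum]
  refine Finset.sum_congr rfl fun y _ => ?_
  rw [← mul_assoc]
  exact D.nuA_mul x y (fun h => by rw [h, sub_self])

/-- gradient -/
noncomputable def nab (f : Fin n → ℝ) (e : Fin n × Fin n) : ℝ := (f e.1 - f e.2) / D.d e.1 e.2

theorem c_eq (x y : Fin n) (F : ℝ) : D.c x y * F ^ 2 = D.δ * (D.g (x, y) * (F / D.d x y) ^ 2) := by
  unfold c
  rw [div_pow]
  ring

theorem energy (f : Fin n → ℝ) :
    ip D.ν (fun x => f x - D.A.mulVec f x) f = D.δ / 2 * ∑ e, D.g e * D.nab f e ^ 2 := by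
  rw [energy_eq D.revLazy, Fintype.sum_prod_type, Finset.mul_sum, Finset.mul_sum]
  refine Finset.sum_congr rfl fun x _ => ?_
  rw [Finset.mul_sum, Finset.mul_sum]
  refine Finset.sum_congr rfl fun y _ => ?_
  rw [D.nuA_mul x y (fun h => by rw [h, sub_self]; simp), D.c_eq]
  unfold nab
  ring

theorem pow_nonneg' (t : ℕ) (x y : Fin n) : 0 ≤ (D.A ^ t) x y := by
  induction t generalizing x y with
  | zero =>
    rw [pow_zero, Matrix.one_apply]
    split_ifs <;> norm_num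
  | succ t ih =>
    rw [pow_succ, Matrix.mul_apply]
    exact Finset.sum_nonneg fun z _ => mul_nonneg (ih x z) (D.revLazy.nonneg z y)

theorem pow_row_sum (t : ℕ) (x : Fin n) : ∑ y, (D.A ^ t) x y = 1 := by
  induction t generalizing x with
  | zero => simp [Matrix.one_apply]
  | succ t ih =>
    simp only [pow_succ, Matrix.mul_apply]
    rw [Finset.sum_comm]
    simp only [← Finset.mul_sum, D.row_sum, mul_one]
    exact ih x

theorem pow_rev (t : ℕ) (x v : Fin n) : D.ν x * (D.A ^ t) x v = D.ν v * (D.A ^ t) v x := by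
  have h := ip_selfadj_pow D.revLazy t (Pi.single v 1) (Pi.single x 1)
  unfold ip at h
  simp only [Matrix.mulVec_single_one, Matrix.col_apply, Pi.single_apply, mul_ite, mul_one,
    mul_zero, ite_mul, zero_mul, Finset.sum_ite_eq', Finset.mem_univ, if_true] at h
  exact h

/-- density of the chain started at `v` -/
noncomputable def rho (t : ℕ) (v x : Fin n) : ℝ := (D.A ^ t) v x / D.ν x

theorem rho_nonneg (t : ℕ) (v x : Fin n) : 0 ≤ D.rho t v x :=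
  div_nonneg (D.pow_nonneg' t v x) (D.ν_pos x).le

theorem pow_eq_rho (t : ℕ) (x v : Fin n) : (D.A ^ t) x v = D.ν v * D.rho t v x := by
  unfold rho
  rw [← mul_div_assoc, ← D.pow_rev, mul_div_assoc, mul_comm, div_mul_cancel₀ _ (D.ν_pos x).ne']

theorem sum_rho (t : ℕ) (v : Fin n) : ∑ x, D.ν x * D.rho t v x = 1 := by
  rw [← D.pow_row_sum t v]
  refine Finset.sum_congr rfl fun x _ => ?_
  unfold rho
  rw [mul_div_cancel₀ _ (D.ν_pos x).ne']

/-- total variation of the density -/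
noncomputable def q (t : ℕ) (v : Fin n) : ℝ :=
  ∑ e : Fin n × Fin n, D.g e / D.d e.1 e.2 * |D.rho t v e.1 - D.rho t v e.2|

theorem gd_nonneg (e : Fin n × Fin n) : 0 ≤ D.g e / D.d e.1 e.2 := by
  obtain ⟨x, y⟩ := e
  by_cases h : x = y
  · subst h
    rw [D.hgdiag]
    simp
  · exact div_nonneg (D.hg0 x y) (D.hpos x y h).le

theorem g_abs_div (e : Fin n × Fin n) (F : ℝ) :
    D.g e * |F / D.d e.1 e.2| = D.g e / D.d e.1 e.2 * |F| := by
  obtain ⟨x, y⟩ := e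
  by_cases h : x = y
  · subst h
    rw [D.hgdiag]
    simp
  · rw [abs_div, abs_of_pos (D.hpos x y h)]
    ring

theorem q_nonneg (t : ℕ) (v : Fin n) : 0 ≤ D.q t v :=
  Finset.sum_nonneg fun e _ => mul_nonneg (D.gd_nonneg e) (abs_nonneg _)

theorem sum_g_fst (f : Fin n → ℝ) : ∑ e : Fin n × Fin n, D.g e * f e.1 = ∑ x, D.ν x * f x := by
  rw [Fintype.sum_prod_type]
  refine Finset.sum_congr rfl fun x _ => ?_
  unfold ν
  rw [Finset.sum_mul]

theorem sum_g_snd (f : Fin n → ℝ) : ∑ e : Fin n × Fin n, D.g e * f e.2 = ∑ x, D.ν x * f x := by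
  rw [Fintype.sum_prod_type, Finset.sum_comm]
  refine Finset.sum_congr rfl fun x _ => ?_
  unfold ν
  rw [Finset.sum_mul]
  refine Finset.sum_congr rfl fun y _ => ?_
  rw [D.hgsymm]

theorem q_sq_le (t : ℕ) (v : Fin n) : D.q t v ^ 2 ≤
    4 / D.δ * ∑ x, ∑ y, D.ν x * D.A x y *
        (Real.sqrt ((D.A ^ t) v x / D.ν x) - Real.sqrt ((D.A ^ t) v y / D.ν y)) ^ 2 := by
  have hδ := D.hδ
  set r : Fin n → ℝ := fun x => Real.sqrt (D.rho t v x) with hr
  have hr2 : ∀ x, r x ^ 2 = D.rho t v x := fun x => Real.sq_sqrt (D.rho_nonneg t v x)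
  have hr0 : ∀ x, 0 ≤ r x := fun x => Real.sqrt_nonneg _
  have hg0 : ∀ e, 0 ≤ D.g e := fun e => D.hg0 e.1 e.2
  have h1 : D.q t v = ∑ e : Fin n × Fin n,
      (Real.sqrt (D.g e) * (|r e.1 - r e.2| / D.d e.1 e.2)) *
        (Real.sqrt (D.g e) * (r e.1 + r e.2)) := by
    unfold q
    refine Finset.sum_congr rfl fun e _ => ?_
    have h2 : |D.rho t v e.1 - D.rho t v e.2| = |r e.1 - r e.2| * (r e.1 + r e.2) := by
      rw [← hr2, ← hr2, sq_sub_sq, abs_mul, mul_comm, abs_of_nonneg (add_nonneg (hr0 _) (hr0 _))]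
    rw [h2]
    calc D.g e / D.d e.1 e.2 * (|r e.1 - r e.2| * (r e.1 + r e.2))
        = (Real.sqrt (D.g e) * Real.sqrt (D.g e)) / D.d e.1 e.2 *
          (|r e.1 - r e.2| * (r e.1 + r e.2)) := by rw [Real.mul_self_sqrt (hg0 e)]
      _ = _ := by ring
  rw [h1]
  refine (Finset.sum_mul_sq_le_sq_mul_sq _ _ _).trans ?_
  have h3 : ∑ e : Fin n × Fin n, (Real.sqrt (D.g e) * (|r e.1 - r e.2| / D.d e.1 e.2)) ^ 2 =
      1 / D.δ * ∑ x, ∑ y, D.ν x * D.A x y * (r x - r y) ^ 2 := by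
    rw [Fintype.sum_prod_type, Finset.mul_sum]
    refine Finset.sum_congr rfl fun x _ => ?_
    rw [Finset.mul_sum]
    refine Finset.sum_congr rfl fun y _ => ?_
    rw [D.nuA_mul x y (fun h => by rw [h, sub_self]; simp), D.c_eq, mul_pow, Real.sq_sqrt (hg0 _),
      div_pow, div_pow, sq_abs]
    field_simp
  have h4 : ∑ e : Fin n × Fin n, (Real.sqrt (D.g e) * (r e.1 + r e.2)) ^ 2 ≤ 4 := by
    calc ∑ e : Fin n × Fin n, (Real.sqrt (D.g e) * (r e.1 + r e.2)) ^ 2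
        ≤ ∑ e : Fin n × Fin n, (2 * (D.g e * D.rho t v e.1) + 2 * (D.g e * D.rho t v e.2)) := by
          refine Finset.sum_le_sum fun e _ => ?_
          rw [mul_pow, Real.sq_sqrt (hg0 _), ← hr2, ← hr2]
          have h5 : (r e.1 + r e.2) ^ 2 ≤ 2 * r e.1 ^ 2 + 2 * r e.2 ^ 2 := by
            nlinarith [sq_nonneg (r e.1 - r e.2)]
          have h6 := mul_le_mul_of_nonneg_left h5 (hg0 e)
          linarith
      _ = 4 := by
          rw [Finset.sum_add_distrib, ← Finset.mul_sum, ← Finset.mul_sum, D.sum_g_fst (D.rho t v),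
            D.sum_g_snd (D.rho t v), D.sum_rho]
          norm_num
  have h7 : 0 ≤ ∑ x, ∑ y, D.ν x * D.A x y * (r x - r y) ^ 2 :=
    Finset.sum_nonneg fun x _ => Finset.sum_nonneg fun y _ =>
      mul_nonneg (mul_nonneg (D.ν_pos x).le (D.revLazy.nonneg x y)) (sq_nonneg _)
  rw [h3]
  calc 1 / D.δ * (∑ x, ∑ y, D.ν x * D.A x y * (r x - r y) ^ 2) *
        ∑ e : Fin n × Fin n, (Real.sqrt (D.g e) * (r e.1 + r e.2)) ^ 2
      ≤ 1 / D.δ * (∑ x, ∑ y, D.ν x * D.A x y * (r x - r y) ^ 2) * 4 := by gcongr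
    _ = 4 / D.δ * ∑ x, ∑ y, D.ν x * D.A x y * (r x - r y) ^ 2 := by ring

theorem sum_q_sq_le (T : ℕ) (v : Fin n) :
    ∑ t ∈ Finset.range T, D.q t v ^ 2 ≤ 8 / D.δ * Real.log (1 / D.ν v) := by
  have hδ := D.hδ
  have h := entropy_bound D.revLazy D.sum_ν v T
  calc ∑ t ∈ Finset.range T, D.q t v ^ 2
      ≤ ∑ t ∈ Finset.range T, 4 / D.δ * ∑ x, ∑ y, D.ν x * D.A x y *
        (Real.sqrt ((D.A ^ t) v x / D.ν x) - Real.sqrt ((D.A ^ t) v y / D.ν y)) ^ 2 :=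
        Finset.sum_le_sum fun t _ => D.q_sq_le t v
    _ ≤ 4 / D.δ * (2 * Real.log (1 / D.ν v)) := by
        rw [← Finset.mul_sum]
        gcongr
    _ = 8 / D.δ * Real.log (1 / D.ν v) := by ring

/-! ### the operators -/

/-- divergence -/
noncomputable def uu (V : Fin n × Fin n → ℝ) (x : Fin n) : ℝ :=
  D.δ / D.ν x * ∑ y, D.g (x, y) / D.d x y * ((V (x, y) - V (y, x)) / 2)

theorem ip_uu (V : Fin n × Fin n → ℝ) (f : Fin n → ℝ) :
    ip D.ν (D.uu V) f = D.δ / 2 * ∑ e : Fin n × Fin n, D.g e / D.d e.1 e.2 *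
      (f e.1 - f e.2) * V e := by
  have h1 : ip D.ν (D.uu V) f = D.δ / 2 * (∑ x, ∑ y, D.g (x, y) / D.d x y * V (x, y) * f x -
      ∑ x, ∑ y, D.g (x, y) / D.d x y * V (y, x) * f x) := by
    unfold ip uu
    rw [← Finset.sum_sub_distrib, Finset.mul_sum]
    refine Finset.sum_congr rfl fun x _ => ?_
    have hx := (D.ν_pos x).ne'
    have h2 : ∀ S : ℝ, D.ν x * (D.δ / D.ν x * S) * f x = D.δ * S * f x := by
      intro S
      field_simp
    rw [h2, ← Finset.sum_sub_distrib, Finset.mul_sum, Finset.mul_sum, Finset.sum_mul]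
    refine Finset.sum_congr rfl fun y _ => ?_
    ring
  have h2 : ∑ x, ∑ y, D.g (x, y) / D.d x y * V (y, x) * f x =
      ∑ x, ∑ y, D.g (x, y) / D.d x y * V (x, y) * f y := by
    rw [Finset.sum_comm]
    refine Finset.sum_congr rfl fun x _ => Finset.sum_congr rfl fun y _ => ?_
    rw [D.hgsymm, D.hsymm]
  rw [h1, h2, Fintype.sum_prod_type, ← Finset.sum_sub_distrib]
  congr 1
  refine Finset.sum_congr rfl fun x _ => ?_
  rw [← Finset.sum_sub_distrib]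
  refine Finset.sum_congr rfl fun y _ => ?_
  ring

/-- analysis kernel -/
noncomputable def MM (t : ℕ) (v : Fin n) (e : Fin n × Fin n) : ℝ :=
  D.δ / 2 * (D.g e / D.d e.1 e.2) *
    ((D.rho t v e.1 - D.rho t v e.2) + (D.rho (t + 1) v e.1 - D.rho (t + 1) v e.2))

theorem sum_MM (t : ℕ) (v : Fin n) (V : Fin n × Fin n → ℝ) :
    ∑ e, D.MM t v e * V e = (D.A ^ t).mulVec (D.uu V) v + (D.A ^ (t + 1)).mulVec (D.uu V) v := by
  have h1 : ∀ s, (D.A ^ s).mulVec (D.uu V) v = ip D.ν (D.uu V) (D.rho s v) := by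
    intro s
    unfold ip Matrix.mulVec dotProduct
    refine Finset.sum_congr rfl fun x _ => ?_
    unfold rho
    have hx := (D.ν_pos x).ne'
    field_simp
  rw [h1, h1, ip_uu, ip_uu, ← mul_add, ← Finset.sum_add_distrib, Finset.mul_sum]
  refine Finset.sum_congr rfl fun e _ => ?_
  unfold MM
  ring

theorem MM_le (t : ℕ) (v : Fin n) : ∑ e, |D.MM t v e| ≤ D.δ / 2 * (D.q t v + D.q (t + 1) v) := by
  have hδ := D.hδ
  unfold q
  rw [← Finset.sum_add_distrib, Finset.mul_sum]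
  refine Finset.sum_le_sum fun e _ => ?_
  unfold MM
  rw [abs_mul, abs_of_nonneg (mul_nonneg (by positivity) (D.gd_nonneg e)), mul_assoc]
  rw [← mul_add]
  have h1 := D.gd_nonneg e
  gcongr
  exact abs_add_le _ _

theorem ip_sq_nonneg (f : Fin n → ℝ) : 0 ≤ ip D.ν f f := by
  unfold ip
  refine Finset.sum_nonneg fun x _ => ?_
  have := D.ν_pos x
  nlinarith [mul_nonneg this.le (sq_nonneg (f x))]

/-- the analysis inequality -/
theorem Y_le (T : ℕ) (V : Fin n × Fin n → ℝ) :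
    ∑ t ∈ Finset.range T, ip D.ν ((D.A ^ t).mulVec (D.uu V)) ((D.A ^ t).mulVec (D.uu V)) ≤
      D.δ / 2 * ∑ e, D.g e * V e ^ 2 := by
  have hδ := D.hδ
  have hg0 : ∀ e, 0 ≤ D.g e := fun e => D.hg0 e.1 e.2
  obtain ⟨h1, h2⟩ := mk_analysis D.revLazy T (D.uu V)
  set f : Fin n → ℝ := fun x => ∑ t ∈ Finset.range T, (D.A ^ (2 * t)).mulVec (D.uu V) x with hf
  rw [← h2]
  rw [energy] at h1
  set Y := ip D.ν (D.uu V) f with hY
  have h3 : Y = D.δ / 2 * ∑ e, (Real.sqrt (D.g e) * D.nab f e) * (Real.sqrt (D.g e) * V e) := by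
    rw [hY, ip_uu]
    congr 1
    refine Finset.sum_congr rfl fun e _ => ?_
    have h4 : Real.sqrt (D.g e) * D.nab f e * (Real.sqrt (D.g e) * V e) =
      (Real.sqrt (D.g e) * Real.sqrt (D.g e)) * D.nab f e * V e := by ring
    rw [h4, Real.mul_self_sqrt (hg0 e)]
    unfold nab
    ring
  have h5 := Finset.sum_mul_sq_le_sq_mul_sq Finset.univ
    (fun e => Real.sqrt (D.g e) * D.nab f e) (fun e => Real.sqrt (D.g e) * V e)
  simp only [mul_pow, Real.sq_sqrt (hg0 _)] at h5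
  have hY0 : 0 ≤ Y := by
    rw [h2]
    exact Finset.sum_nonneg fun t _ => D.ip_sq_nonneg _
  have hV0 : 0 ≤ ∑ e, D.g e * V e ^ 2 :=
    Finset.sum_nonneg fun e _ => mul_nonneg (hg0 e) (sq_nonneg _)
  have h6 : Y ^ 2 ≤ (D.δ / 2 * ∑ e, D.g e * V e ^ 2) * Y := by
    calc Y ^ 2 = (D.δ / 2) ^ 2 *
          (∑ e, Real.sqrt (D.g e) * D.nab f e * (Real.sqrt (D.g e) * V e)) ^ 2 := by
          rw [h3]; ring
      _ ≤ (D.δ / 2) ^ 2 * ((∑ e, D.g e * D.nab f e ^ 2) * ∑ e, D.g e * V e ^ 2) := by gcongr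
      _ = (D.δ / 2 * ∑ e, D.g e * V e ^ 2) * (D.δ / 2 * ∑ e, D.g e * D.nab f e ^ 2) := by ring
      _ ≤ (D.δ / 2 * ∑ e, D.g e * V e ^ 2) * Y := by gcongr
  rcases eq_or_lt_of_le hY0 with h | h
  · rw [← h]
    positivity
  · rw [pow_two] at h6
    exact le_of_mul_le_mul_right h6 h

theorem ip_add_sq_le (f h : Fin n → ℝ) :
    ip D.ν (fun x => f x + h x) (fun x => f x + h x) ≤ 2 * ip D.ν f f + 2 * ip D.ν h h := by
  unfold ip
  rw [Finset.mul_sum, Finset.mul_sum, ← Finset.sum_add_distrib]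
  refine Finset.sum_le_sum fun x _ => ?_
  have h1 := mul_nonneg (D.ν_pos x).le (sq_nonneg (f x - h x))
  nlinarith

theorem ip_comm' (f h : Fin n → ℝ) : ip D.ν f h = ip D.ν h f := by
  unfold ip
  refine Finset.sum_congr rfl fun x _ => ?_
  ring

theorem pow_succ_mulVec (t : ℕ) (f : Fin n → ℝ) :
    (D.A ^ (t + 1)).mulVec f = D.A.mulVec ((D.A ^ t).mulVec f) := by
  rw [pow_succ', Matrix.mulVec_mulVec]

/-- kernel of the synthesis -/
noncomputable def kk (x : Fin n) {T : ℕ} (τ : Fin T × Fin n) : ℝ := (D.A ^ (τ.1 : ℕ)) x τ.2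

noncomputable def KK {T : ℕ} (e : Fin n × Fin n) (τ : Fin T × Fin n) : ℝ :=
  (D.kk e.1 τ - D.kk e.2 τ) / D.d e.1 e.2

theorem sum_kk {T : ℕ} (x : Fin n) (h : Fin T × Fin n → ℝ) (u : ℕ → Fin n → ℝ)
    (hu : ∀ (t : Fin T) v, u t v = h (t, v)) :
    ∑ τ, D.kk x τ * h τ = ∑ t ∈ Finset.range T, (D.A ^ t).mulVec (u t) x := by
  rw [Fintype.sum_prod_type, ← Fin.sum_univ_eq_sum_range (fun t => (D.A ^ t).mulVec (u t) x)]
  refine Finset.sum_congr rfl fun t _ => ?_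
  unfold Matrix.mulVec dotProduct
  refine Finset.sum_congr rfl fun v _ => ?_
  rw [hu]
  rfl

theorem sum_KK {T : ℕ} (e : Fin n × Fin n) (h : Fin T × Fin n → ℝ) (u : ℕ → Fin n → ℝ)
    (hu : ∀ (t : Fin T) v, u t v = h (t, v)) :
    ∑ τ, D.KK e τ * h τ =
      D.nab (fun x => ∑ t ∈ Finset.range T, (D.A ^ t).mulVec (u t) x) e := by
  unfold nab
  dsimp only
  rw [← D.sum_kk e.1 h u hu, ← D.sum_kk e.2 h u hu, ← Finset.sum_sub_distrib, Finset.sum_div]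
  refine Finset.sum_congr rfl fun τ _ => ?_
  unfold KK
  ring

theorem K_le' {T : ℕ} (τ : Fin T × Fin n) :
    ∑ e, D.g e * |D.KK e τ| = D.ν τ.2 * D.q τ.1 τ.2 := by
  unfold q
  rw [Finset.mul_sum]
  refine Finset.sum_congr rfl fun e _ => ?_
  unfold KK kk
  rw [D.g_abs_div, D.pow_eq_rho, D.pow_eq_rho, ← mul_sub, abs_mul, abs_of_pos (D.ν_pos _)]
  ring

theorem A2' (T : ℕ) (V : Fin n × Fin n → ℝ) :
    ∑ τ : Fin T × Fin n, D.ν τ.2 / D.δ * (∑ e, D.MM τ.1 τ.2 e * V e) ^ 2 ≤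
      2 * ∑ e, D.g e * V e ^ 2 := by
  have hδ := D.hδ
  have h1 : ∑ τ : Fin T × Fin n, D.ν τ.2 / D.δ * (∑ e, D.MM τ.1 τ.2 e * V e) ^ 2 =
      1 / D.δ * ∑ t ∈ Finset.range T,
        ip D.ν (fun v => (D.A ^ t).mulVec (D.uu V) v + (D.A ^ (t + 1)).mulVec (D.uu V) v)
          (fun v => (D.A ^ t).mulVec (D.uu V) v + (D.A ^ (t + 1)).mulVec (D.uu V) v) := by
    rw [Fintype.sum_prod_type, ← Fin.sum_univ_eq_sum_range (fun t =>
      ip D.ν (fun v => (D.A ^ t).mulVec (D.uu V) v + (D.A ^ (t + 1)).mulVec (D.uu V) v)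
          (fun v => (D.A ^ t).mulVec (D.uu V) v + (D.A ^ (t + 1)).mulVec (D.uu V) v)),
      Finset.mul_sum]
    refine Finset.sum_congr rfl fun t _ => ?_
    unfold ip
    rw [Finset.mul_sum]
    refine Finset.sum_congr rfl fun v _ => ?_
    dsimp only
    rw [D.sum_MM]
    ring
  rw [h1]
  have h2 : ∀ t ∈ Finset.range T,
      ip D.ν (fun v => (D.A ^ t).mulVec (D.uu V) v + (D.A ^ (t + 1)).mulVec (D.uu V) v)
          (fun v => (D.A ^ t).mulVec (D.uu V) v + (D.A ^ (t + 1)).mulVec (D.uu V) v) ≤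
        4 * ip D.ν ((D.A ^ t).mulVec (D.uu V)) ((D.A ^ t).mulVec (D.uu V)) := by
    intro t _
    refine (D.ip_add_sq_le _ _).trans ?_
    have h3 := ip_contraction D.revLazy ((D.A ^ t).mulVec (D.uu V))
    rw [← D.pow_succ_mulVec] at h3
    linarith
  calc 1 / D.δ * _ ≤ 1 / D.δ * ∑ t ∈ Finset.range T,
        4 * ip D.ν ((D.A ^ t).mulVec (D.uu V)) ((D.A ^ t).mulVec (D.uu V)) := by
        gcongr with t ht
        exact h2 t ht
    _ ≤ 1 / D.δ * (4 * (D.δ / 2 * ∑ e, D.g e * V e ^ 2)) := by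
        rw [← Finset.mul_sum]
        have := D.Y_le T V
        gcongr
    _ = 2 * ∑ e, D.g e * V e ^ 2 := by
        field_simp
        ring

theorem S2' {T : ℕ} (h : Fin T × Fin n → ℝ) :
    ∑ e, D.g e * (∑ τ, D.KK e τ * h τ) ^ 2 ≤ 2 * ∑ τ, D.ν τ.2 / D.δ * h τ ^ 2 := by
  have hδ := D.hδ
  set u : ℕ → Fin n → ℝ := fun t v => if ht : t < T then h (⟨t, ht⟩, v) else 0 with hu
  have hu' : ∀ (t : Fin T) v, u t v = h (t, v) := by
    intro t v
    simp [hu]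
  simp only [D.sum_KK _ h u hu']
  have h1 := mk_synthesis D.revLazy T u
  dsimp only at h1
  rw [energy] at h1
  have h2 : ∑ τ : Fin T × Fin n, D.ν τ.2 / D.δ * h τ ^ 2 =
      1 / D.δ * ∑ t ∈ Finset.range T, ip D.ν (u t) (u t) := by
    rw [Fintype.sum_prod_type, ← Fin.sum_univ_eq_sum_range (fun t => ip D.ν (u t) (u t)),
      Finset.mul_sum]
    refine Finset.sum_congr rfl fun t _ => ?_
    unfold ip
    rw [Finset.mul_sum]
    refine Finset.sum_congr rfl fun v _ => ?_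
    rw [hu']
    ring
  rw [h2]
  have h3 : ∑ e, D.g e * D.nab (fun x => ∑ t ∈ Finset.range T, (D.A ^ t).mulVec (u t) x) e ^ 2 =
      2 / D.δ * (D.δ / 2 *
        ∑ e, D.g e * D.nab (fun x => ∑ t ∈ Finset.range T, (D.A ^ t).mulVec (u t) x) e ^ 2) := by
    field_simp
  rw [h3]
  calc 2 / D.δ * (D.δ / 2 *
        ∑ e, D.g e * D.nab (fun x => ∑ t ∈ Finset.range T, (D.A ^ t).mulVec (u t) x) e ^ 2)
      ≤ 2 / D.δ * ∑ t ∈ Finset.range T, ip D.ν (u t) (u t) := by gcongr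
    _ = _ := by ring

theorem W' (T : ℕ) {κ : ℝ} (hκ : ∀ v, 8 * Real.log (1 / D.ν v) ≤ κ) :
    ∑ τ : Fin T × Fin n, D.ν τ.2 / D.δ * (D.δ / 2 * (D.q τ.1 τ.2 + D.q (τ.1 + 1) τ.2)) ^ 2 ≤ κ := by
  have hδ := D.hδ
  rw [Fintype.sum_prod_type_right]
  dsimp only
  have h1 : ∀ v, ∑ t : Fin T, D.ν v / D.δ * (D.δ / 2 * (D.q t v + D.q (t + 1) v)) ^ 2 ≤
      D.ν v * κ := by
    intro v
    have hv := D.ν_pos v
    rw [Fin.sum_univ_eq_sum_range
      (fun t => D.ν v / D.δ * (D.δ / 2 * (D.q t v + D.q (t + 1) v)) ^ 2)]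
    have h2 : ∑ t ∈ Finset.range T, D.q t v ^ 2 ≤ ∑ t ∈ Finset.range (T + 1), D.q t v ^ 2 := by
      rw [Finset.sum_range_succ]
      have := sq_nonneg (D.q T v)
      linarith
    have h3 : ∑ t ∈ Finset.range T, D.q (t + 1) v ^ 2 ≤
        ∑ t ∈ Finset.range (T + 1), D.q t v ^ 2 := by
      rw [Finset.sum_range_succ']
      have := sq_nonneg (D.q 0 v)
      linarith
    have h4 := D.sum_q_sq_le (T + 1) v
    calc ∑ t ∈ Finset.range T, D.ν v / D.δ * (D.δ / 2 * (D.q t v + D.q (t + 1) v)) ^ 2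
        ≤ ∑ t ∈ Finset.range T, (D.ν v * D.δ / 2) * (D.q t v ^ 2 + D.q (t + 1) v ^ 2) := by
          refine Finset.sum_le_sum fun t _ => ?_
          have h5 : D.ν v / D.δ * (D.δ / 2 * (D.q t v + D.q (t + 1) v)) ^ 2 =
              (D.ν v * D.δ / 4) * (D.q t v + D.q (t + 1) v) ^ 2 := by
            field_simp
            ring
          rw [h5]
          have h6 : (D.q t v + D.q (t + 1) v) ^ 2 ≤ 2 * (D.q t v ^ 2 + D.q (t + 1) v ^ 2) := by
            nlinarith [sq_nonneg (D.q t v - D.q (t + 1) v)]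
          calc (D.ν v * D.δ / 4) * (D.q t v + D.q (t + 1) v) ^ 2
              ≤ (D.ν v * D.δ / 4) * (2 * (D.q t v ^ 2 + D.q (t + 1) v ^ 2)) := by gcongr
            _ = _ := by ring
      _ = (D.ν v * D.δ / 2) * (∑ t ∈ Finset.range T, D.q t v ^ 2 +
            ∑ t ∈ Finset.range T, D.q (t + 1) v ^ 2) := by
          rw [← Finset.mul_sum, Finset.sum_add_distrib]
      _ ≤ (D.ν v * D.δ / 2) * (8 / D.δ * Real.log (1 / D.ν v) + 8 / D.δ * Real.log (1 / D.ν v)) := by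
          gcongr
          · exact h2.trans h4
          · exact h3.trans h4
      _ = D.ν v * (8 * Real.log (1 / D.ν v)) := by
          field_simp
          ring
      _ ≤ D.ν v * κ := by
          have := hκ v
          gcongr
  calc _ ≤ ∑ v, D.ν v * κ := Finset.sum_le_sum fun v _ => h1 v
    _ = κ := by rw [← Finset.sum_mul, D.sum_ν, one_mul]

/-- the system -/
noncomputable def sys (T : ℕ) {κ : ℝ} (hκ : ∀ v, 8 * Real.log (1 / D.ν v) ≤ κ) :
    Sys (Fin n × Fin n) (Fin T × Fin n) D.g κ where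
  lam τ := D.ν τ.2 / D.δ
  w τ := D.δ / 2 * (D.q τ.1 τ.2 + D.q (τ.1 + 1) τ.2)
  M τ e := D.MM τ.1 τ.2 e
  K e τ := D.KK e τ
  lam_nonneg τ := div_nonneg (D.ν_pos _).le D.hδ.le
  w_nonneg τ := mul_nonneg (by have := D.hδ; positivity) (add_nonneg (D.q_nonneg _ _) (D.q_nonneg _ _))
  M_le τ := D.MM_le _ _
  K_le τ := by
    rw [D.K_le']
    have hδ := D.hδ
    have h1 := D.q_nonneg (τ.1 + 1) τ.2
    have h2 := D.ν_pos τ.2
    have h3 : 2 * (D.ν τ.2 / D.δ) * (D.δ / 2 * (D.q τ.1 τ.2 + D.q (τ.1 + 1) τ.2)) =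
      D.ν τ.2 * (D.q τ.1 τ.2 + D.q (τ.1 + 1) τ.2) := by
      field_simp
    rw [h3]
    gcongr
    linarith
  A2 V := D.A2' T V
  S2 h := D.S2' h
  W := D.W' T hκ

theorem uu_nab (α : Fin n → ℝ) : D.uu (D.nab α) = fun x => α x - D.A.mulVec α x := by
  funext x
  have h1 := D.IA_apply α x
  have hx := (D.ν_pos x).ne'
  have h2 : D.uu (D.nab α) x = (1 / D.ν x) * ∑ y, D.c x y * (α x - α y) := by
    unfold uu
    rw [div_mul_eq_mul_div, Finset.mul_sum, Finset.sum_div, Finset.mul_sum]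
    refine Finset.sum_congr rfl fun y _ => ?_
    unfold nab c
    dsimp only
    rw [D.hsymm y x]
    by_cases hxy : x = y
    · subst hxy
      simp
    · have := (D.hpos x y hxy).ne'
      field_simp
      ring
  rw [h2, ← h1]
  field_simp

theorem rep (T : ℕ) (α : Fin n → ℝ) (e : Fin n × Fin n) :
    ∑ τ : Fin T × Fin n, D.KK e τ * ∑ e', D.MM τ.1 τ.2 e' * D.nab α e' =
      D.nab α e - D.nab ((D.A ^ (2 * T)).mulVec α) e := by
  set u : Fin n → ℝ := D.uu (D.nab α) with hu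
  rw [D.sum_KK e (fun τ : Fin T × Fin n => ∑ e', D.MM τ.1 τ.2 e' * D.nab α e')
    (fun t => (D.A ^ t).mulVec u + (D.A ^ (t + 1)).mulVec u) (by
      intro t v
      dsimp only
      rw [D.sum_MM]
      rfl)]
  have h1 : (fun x => ∑ t ∈ Finset.range T,
      (D.A ^ t).mulVec ((D.A ^ t).mulVec u + (D.A ^ (t + 1)).mulVec u) x) =
      fun x => α x - (D.A ^ (2 * T)).mulVec α x := by
    funext x
    have h2 : ∀ t, (D.A ^ t).mulVec ((D.A ^ t).mulVec u + (D.A ^ (t + 1)).mulVec u) x =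
        (D.A ^ (2 * t)).mulVec α x - (D.A ^ (2 * (t + 1))).mulVec α x := by
      intro t
      have h3 : u = α - D.A.mulVec α := by
        rw [hu, D.uu_nab]
        rfl
      rw [Matrix.mulVec_add, Matrix.mulVec_mulVec, Matrix.mulVec_mulVec, h3, Matrix.mulVec_sub,
        Matrix.mulVec_sub, Matrix.mulVec_mulVec, Matrix.mulVec_mulVec, ← pow_add, ← pow_add,
        ← pow_succ, ← pow_succ]
      have e1 : t + t = 2 * t := by ring
      have e2 : t + (t + 1) = t + t + 1 := by ring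
      have e3 : t + t + 1 + 1 = 2 * (t + 1) := by ring
      rw [e2, e3, e1]
      simp only [Pi.add_apply, Pi.sub_apply]
      ring
    simp only [h2]
    rw [Finset.sum_range_sub']
    simp
  rw [h1]
  unfold nab
  ring

theorem residual (T : ℕ) (α : Fin n → ℝ) :
    (4 * (T : ℝ) + 1) * ∑ e, D.g e * D.nab ((D.A ^ (2 * T)).mulVec α) e ^ 2 ≤
      2 / D.δ * ip D.ν α α := by
  have hδ := D.hδ
  have h1 := mk_residual D.revLazy (4 * T) α
  have h2 : ip D.ν α ((D.A ^ (4 * T)).mulVec (fun x => α x - D.A.mulVec α x)) =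
      D.δ / 2 * ∑ e, D.g e * D.nab ((D.A ^ (2 * T)).mulVec α) e ^ 2 := by
    rw [← D.energy]
    have h3 : (fun x => (D.A ^ (2 * T)).mulVec α x -
        D.A.mulVec ((D.A ^ (2 * T)).mulVec α) x) =
        (D.A ^ (2 * T)).mulVec (fun x => α x - D.A.mulVec α x) := by
      have h4 : (fun x => α x - D.A.mulVec α x) = α - D.A.mulVec α := rfl
      rw [h4, Matrix.mulVec_sub, Matrix.mulVec_mulVec, Matrix.mulVec_mulVec, ← pow_succ, ← pow_succ']
      rfl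
    have h5 : 4 * T = 2 * T + 2 * T := by ring
    rw [h3, h5, pow_add, ← Matrix.mulVec_mulVec, ← ip_selfadj_pow D.revLazy, D.ip_comm']
  rw [h2] at h1
  push_cast at h1
  have h6 : (4 * (T : ℝ) + 1) * ∑ e, D.g e * D.nab ((D.A ^ (2 * T)).mulVec α) e ^ 2 =
      2 / D.δ * ((4 * (T : ℝ) + 1) *
        (D.δ / 2 * ∑ e, D.g e * D.nab ((D.A ^ (2 * T)).mulVec α) e ^ 2)) := by
    field_simp
  rw [h6]
  gcongr

end T4Dat

theorem chain (n : ℕ) (hn : 2 ≤ n) (d : Fin n → Fin n → ℝ) (hsymm : ∀ x y, d x y = d y x)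
    (hpos : ∀ x y, x ≠ y → 0 < d x y)
    (g : Fin n × Fin n → ℝ) (hgsymm : ∀ x y, g (x, y) = g (y, x)) (hgdiag : ∀ x, g (x, x) = 0)
    (hgsum : ∑ e, g e = 1) (hglow : ∀ x y, x ≠ y → 1 / (2 * (n : ℝ) * ((n : ℝ) - 1)) ≤ g (x, y))
    {Ω : Type} [Fintype Ω] (a : Fin n → Ω → ℝ) (η : ℝ) (hη : 0 < η) :
    ∃ (T : ℕ) (S : Sys (Fin n × Fin n) (Fin T × Fin n) g (8 * Real.log (2 * n)))
      (k : Fin n → Fin T × Fin n → ℝ),
      (∀ x y τ, S.K (x, y) τ = (k x τ - k y τ) / d x y) ∧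
      ∀ x y ω, |(a x ω - a y ω) / d x y
        - ∑ τ, S.K (x, y) τ *
            bb S.M (fun (e : Fin n × Fin n) ω => (a e.1 ω - a e.2 ω) / d e.1 e.2) τ ω| ≤ η := by
  have hn' : (2 : ℝ) ≤ n := by exact_mod_cast hn
  have hg1 : 0 < 1 / (2 * (n : ℝ) * ((n : ℝ) - 1)) := by
    apply one_div_pos.2
    nlinarith
  set g1 := 1 / (2 * (n : ℝ) * ((n : ℝ) - 1)) with hg1def
  have hg0 : ∀ x y, 0 ≤ g (x, y) := by
    intro x y
    by_cases h : x = y
    · subst h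
      rw [hgdiag]
    · exact hg1.le.trans (hglow x y h)
  have hνlow : ∀ x, 1 / (2 * (n : ℝ)) ≤ ∑ y, g (x, y) := by
    intro x
    have h1 : ∑ y ∈ Finset.univ.erase x, g1 ≤ ∑ y ∈ Finset.univ.erase x, g (x, y) :=
      Finset.sum_le_sum fun y hy => hglow x y (Finset.ne_of_mem_erase hy).symm
    rw [Finset.sum_const, Finset.card_erase_of_mem (Finset.mem_univ _), Finset.card_univ,
      Fintype.card_fin, nsmul_eq_mul, Nat.cast_sub (by omega), Nat.cast_one] at h1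
    have h2 : ((n : ℝ) - 1) * g1 = 1 / (2 * (n : ℝ)) := by
      rw [hg1def]
      have : (n : ℝ) - 1 ≠ 0 := by
        intro h
        linarith
      field_simp
    have h3 : ∑ y ∈ Finset.univ.erase x, g (x, y) ≤ ∑ y, g (x, y) :=
      Finset.sum_le_sum_of_subset_of_nonneg (Finset.subset_univ _) fun y _ _ => hg0 x y
    linarith
  have hνpos : ∀ x, 0 < ∑ y, g (x, y) := fun x =>
    lt_of_lt_of_le (by positivity) (hνlow x)
  obtain ⟨δ, hδ, hδd⟩ : ∃ δ : ℝ, 0 < δ ∧ ∀ x y, x ≠ y → 2 * δ ≤ d x y ^ 2 := by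
    have hne : ((Finset.univ : Finset (Fin n × Fin n)).filter (fun e => e.1 ≠ e.2)).Nonempty := by
      refine ⟨(⟨0, by omega⟩, ⟨1, by omega⟩), ?_⟩
      simp
    obtain ⟨e, he, hmin⟩ := Finset.exists_min_image _ (fun e : Fin n × Fin n => d e.1 e.2 ^ 2) hne
    rw [Finset.mem_filter] at he
    refine ⟨d e.1 e.2 ^ 2 / 2, ?_, fun x y hxy => ?_⟩
    · have := hpos _ _ he.2
      positivity
    · have := hmin (x, y) (by simpa using hxy)
      linarith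
  let D : T4Dat n := ⟨d, g, δ, hsymm, hpos, hgsymm, hgdiag, hg0, hgsum, hνpos, hδ, hδd⟩
  have hκ : ∀ v, 8 * Real.log (1 / D.ν v) ≤ 8 * Real.log (2 * n) := by
    intro v
    have h1 := hνlow v
    have h2 : 1 / D.ν v ≤ 2 * n := by
      rw [div_le_iff₀ (D.ν_pos v)]
      rw [div_le_iff₀ (by positivity)] at h1
      calc (1 : ℝ) ≤ (∑ y, g (v, y)) * (2 * n) := h1
        _ = 2 * n * D.ν v := by
          rw [mul_comm]
          rfl
    have h3 : 0 < 1 / D.ν v := one_div_pos.2 (D.ν_pos v)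
    have := Real.log_le_log h3 h2
    linarith
  obtain ⟨T, hT⟩ := exists_nat_ge ((2 / δ * ∑ ω, ip D.ν (fun x => a x ω) (fun x => a x ω)) /
    (g1 * η ^ 2))
  refine ⟨T, D.sys T hκ, fun x τ => D.kk x τ, fun x y τ => rfl, fun x y ω => ?_⟩
  by_cases hxy : x = y
  · subst hxy
    have h1 : ∀ τ, (D.sys T hκ).K (x, x) τ = 0 := by
      intro τ
      change (D.kk x τ - D.kk x τ) / d x x = 0
      rw [sub_self, zero_div]
    simp only [h1, zero_mul, Finset.sum_const_zero, sub_self, zero_div, abs_zero]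
    exact hη.le
  · have h1 : ∑ τ, (D.sys T hκ).K (x, y) τ *
            bb (D.sys T hκ).M (fun (e : Fin n × Fin n) ω => (a e.1 ω - a e.2 ω) / d e.1 e.2) τ ω =
        D.nab (fun x => a x ω) (x, y) -
          D.nab ((D.A ^ (2 * T)).mulVec (fun x => a x ω)) (x, y) :=
      D.rep T (fun x => a x ω) (x, y)
    have h2 : (a x ω - a y ω) / d x y = D.nab (fun x => a x ω) (x, y) := rfl
    rw [h1, h2, sub_sub_cancel]
    set β := D.nab ((D.A ^ (2 * T)).mulVec (fun x => a x ω)) with hβ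
    have h3 := D.residual T (fun x => a x ω)
    rw [← hβ] at h3
    have h4 : g1 * β (x, y) ^ 2 ≤ ∑ e, D.g e * β e ^ 2 := by
      calc g1 * β (x, y) ^ 2 ≤ D.g (x, y) * β (x, y) ^ 2 := by
            have := hglow x y hxy
            gcongr
        _ ≤ ∑ e, D.g e * β e ^ 2 :=
            Finset.single_le_sum (f := fun e => D.g e * β e ^ 2)
              (fun e _ => mul_nonneg (hg0 e.1 e.2) (sq_nonneg _)) (Finset.mem_univ _)
    have h5 : ip D.ν (fun x => a x ω) (fun x => a x ω) ≤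
        ∑ ω, ip D.ν (fun x => a x ω) (fun x => a x ω) :=
      Finset.single_le_sum (f := fun ω => ip D.ν (fun x => a x ω) (fun x => a x ω))
        (fun ω _ => D.ip_sq_nonneg _) (Finset.mem_univ ω)
    rw [div_le_iff₀ (by positivity)] at hT
    have h6 : (4 * (T : ℝ) + 1) * (g1 * β (x, y) ^ 2) ≤ T * (g1 * η ^ 2) := by
      calc (4 * (T : ℝ) + 1) * (g1 * β (x, y) ^ 2) ≤ (4 * (T : ℝ) + 1) * ∑ e, D.g e * β e ^ 2 := by
            gcongr
        _ ≤ 2 / δ * ip D.ν (fun x => a x ω) (fun x => a x ω) := h3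
        _ ≤ 2 / δ * ∑ ω, ip D.ν (fun x => a x ω) (fun x => a x ω) := by gcongr
        _ ≤ T * (g1 * η ^ 2) := hT
    have h7 : β (x, y) ^ 2 ≤ η ^ 2 := by
      by_contra hcon
      push Not at hcon
      have h8 : (T : ℝ) * (g1 * η ^ 2) ≤ T * (g1 * β (x, y) ^ 2) := by gcongr
      have h9 : 0 < g1 * β (x, y) ^ 2 := by
        have : 0 < β (x, y) ^ 2 := lt_of_le_of_lt (sq_nonneg _) hcon
        positivity
      have h10 : 0 ≤ (T : ℝ) * (g1 * β (x, y) ^ 2) := by positivity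
      linarith
    exact abs_le_of_sq_le_sq h7 hη.le

end Crest.Agent.S0358
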