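import Crest.Agent.S0358_Defs

/-!
# Task T9a (row S0358): random sampling for one window

`f : Fin N → Fin m → Ω` iid `~ μ` (product weights `∏_s ∏_r μ (f s r)`; all expectations are finite sums, computed with
`Finset.prod_univ_sum`/`Fintype.piFinset_univ`, i.e. `∑_f ∏_k φ k (f k) = ∏_k ∑_a φ k a`).
Write `g = G e (f s r)`, `S_s = ∑_r |g|`, `a_s = max_r |g|`, `Y_s = ∑_r g`, `W_s = (∑_r |g|^p)^(1/p)`, `K = N m`.

1. Deterministic: `| |Y_s| - W_s | ≤ 2 (S_s - a_s)` (`|Y| ≤ S`, `|Y| ≥ 2a - S`, `a ≤ W ≤ S`), so by Minkowski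
   `|(1/K ∑_s |Y_s|^p)^(1/p) - (1/K ∑_{s,r} |g|^p)^(1/p)| ≤ 2 (1/K ∑_s (S_s - a_s)^p)^(1/p)`; for `m = 1` it is `0`.
   `|x^(1/p) - y^(1/p)| ≤ |x-y|^(1/p)`.
2. `(E1)` `|1/K ∑_{s,r} |g|^p - ∑ μ |G e|^p| ≤ ε' := (ε/4)^p`: moment generating function: for `X ∈ [0,b]`, `b = B^p`, mean
   `A ≤ 2^p`: `E e^{λ(X-A)} ≤ 1 + λ² E (X-A)² ≤ exp(λ² b 2^p)` for `|λ| b ≤ 1`; `λ = ± ε'/(2 b 2^p)`, exponent
   `- K ε'²/(4 b 2^p) ≤ - log (8 |P|)` by `c3`.
3. `(E2)` (`m ≥ 2`) `∑_s Z_s ≤ K ε''`, `ε'' = (ε/8)^p`, `Z_s = min(S_s - a_s, R B)^p ∈ [0, (RB)^p]`: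
   `E Z_s ≤ Q`; `E e^{λ Z} ≤ e^{2 λ Q}` for `λ = (RB)^(-p)`; exponent `λ N (2Q - m ε'') ≤ - N m ε''/(2 (RB)^p) ≤ - log(8|P|)` by `c2, c4`.
   Moment bound: `(S-a)² ≤ (S-a) S ≤ S² - ∑ g² = ∑_{r≠r'} |g_r g_r'|`, mean `≤ (mD)²`.
   `p ≥ 2`: `Z ≤ (RB)^(p-2) (S-a)²`, `Q = (RB)^(p-2) (mD)²`.   `p < 2`: `x^p ≤ c^(p-2) x² + c^p` with `c = mD`: `Q = 2 (mD)^p`
   (if `D = 0` everything vanishes / use `c → 0`, or replace `D` by `D + tiny`; feel free to assume `0 < D`).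
4. `(E3)` all `S_s ≤ R B`: `∑_s E e^{S_s/B - R} ≤ N e^{2mD/B - R} ≤ N e^{2-R} ≤ 1/(8|P|)` by `c1, c5`
   (`E e^{|g|/B} ≤ 1 + 2 E|g|/B`).
Sum of all these nonnegative random variables (over `e ∈ P`) has mean `< 1`, so some `f` makes every one `< 1`.
-/

set_option autoImplicit false

open scoped BigOperators

namespace Crest.Agent.S0358

/-! ### finite product probability -/

/-- product weight -/
noncomputable def T9a_wt {Ω ι : Type} [Fintype ι] (μ : Ω → ℝ) (h : ι → Ω) : ℝ := ∏ i, μ (h i)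

theorem T9a_wt_nonneg {Ω ι : Type} [Fintype ι] {μ : Ω → ℝ} (hμ : ∀ ω, 0 ≤ μ ω) (h : ι → Ω) :
    0 ≤ T9a_wt μ h := Finset.prod_nonneg fun _ _ => hμ _

theorem T9a_prod {Ω ι : Type} [Fintype Ω] [Fintype ι] [DecidableEq ι] (μ : Ω → ℝ)
    (φ : ι → Ω → ℝ) :
    ∑ h : ι → Ω, T9a_wt μ h * ∏ i, φ i (h i) = ∏ i, ∑ a, μ a * φ i a := by
  unfold T9a_wt
  simp only [← Finset.prod_mul_distrib]
  rw [Finset.prod_univ_sum, Fintype.piFinset_univ]

theorem T9a_sum_wt {Ω ι : Type} [Fintype Ω] [Fintype ι] [DecidableEq ι] {μ : Ω → ℝ}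
    (hμ1 : ∑ ω, μ ω = 1) : ∑ h : ι → Ω, T9a_wt μ h = 1 := by
  have := T9a_prod μ (fun (_ : ι) (_ : Ω) => (1 : ℝ))
  simpa [hμ1] using this

theorem T9a_marg {Ω ι : Type} [Fintype Ω] [Fintype ι] [DecidableEq ι] {μ : Ω → ℝ}
    (hμ1 : ∑ ω, μ ω = 1) (φ : Ω → ℝ) (s : ι) :
    ∑ h : ι → Ω, T9a_wt μ h * φ (h s) = ∑ a, μ a * φ a := by
  have h1 := T9a_prod μ (fun (i : ι) (a : Ω) => if i = s then φ a else (1 : ℝ))
  have h2 : ∀ h : ι → Ω, (∏ i, if i = s then φ (h i) else (1 : ℝ)) = φ (h s) := by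
    intro h
    rw [Finset.prod_ite_eq' Finset.univ s (fun i => φ (h i)), if_pos (Finset.mem_univ s)]
  simp only [h2] at h1
  rw [h1]
  have h3 : ∀ i, (∑ a, μ a * if i = s then φ a else 1) = if i = s then ∑ a, μ a * φ a else 1 := by
    intro i
    by_cases h : i = s
    · simp [h]
    · simp [h, hμ1]
  simp only [h3]
  rw [Finset.prod_ite_eq' Finset.univ s, if_pos (Finset.mem_univ s)]

theorem T9a_marg2 {Ω ι : Type} [Fintype Ω] [Fintype ι] [DecidableEq ι] {μ : Ω → ℝ}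
    (hμ1 : ∑ ω, μ ω = 1) (φ : Ω → ℝ) {s t : ι} (hst : s ≠ t) :
    ∑ h : ι → Ω, T9a_wt μ h * (φ (h s) * φ (h t)) = (∑ a, μ a * φ a) ^ 2 := by
  have h1 := T9a_prod μ (fun (i : ι) (a : Ω) =>
    (if i = s then φ a else (1 : ℝ)) * (if i = t then φ a else (1 : ℝ)))
  have h2 : ∀ h : ι → Ω, (∏ i, ((if i = s then φ (h i) else (1 : ℝ)) *
      (if i = t then φ (h i) else (1 : ℝ)))) = φ (h s) * φ (h t) := by
    intro h
    rw [Finset.prod_mul_distrib, Finset.prod_ite_eq' Finset.univ s (fun i => φ (h i)),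
      Finset.prod_ite_eq' Finset.univ t (fun i => φ (h i)), if_pos (Finset.mem_univ s),
      if_pos (Finset.mem_univ t)]
  simp only [h2] at h1
  rw [h1]
  have h3 : ∀ i, (∑ a, μ a * ((if i = s then φ a else (1 : ℝ)) *
      (if i = t then φ a else (1 : ℝ)))) = (if i = s then ∑ a, μ a * φ a else 1) *
      (if i = t then ∑ a, μ a * φ a else 1) := by
    intro i
    by_cases h : i = s
    · have h' : i ≠ t := fun h' => hst (h ▸ h')
      simp [h, hst]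
    · by_cases h' : i = t
      · simp [h', hst.symm]
      · simp [h, h', hμ1]
  simp only [h3]
  rw [Finset.prod_mul_distrib, Finset.prod_ite_eq' Finset.univ s,
    Finset.prod_ite_eq' Finset.univ t, if_pos (Finset.mem_univ s),
      if_pos (Finset.mem_univ t), sq]

/-! ### one-variable moment generating functions -/

theorem T9a_mgf {Ω : Type} [Fintype Ω] {μ : Ω → ℝ} (hμ : ∀ ω, 0 ≤ μ ω) (hμ1 : ∑ ω, μ ω = 1)
    (Y : Ω → ℝ) (hY0 : ∑ ω, μ ω * Y ω = 0) (c v : ℝ) (hc : ∀ ω, |c * Y ω| ≤ 1)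
    (hv : ∑ ω, μ ω * Y ω ^ 2 ≤ v) :
    ∑ ω, μ ω * Real.exp (c * Y ω) ≤ Real.exp (c ^ 2 * v) := by
  have h1 : ∀ ω, Real.exp (c * Y ω) ≤ 1 + c * Y ω + (c * Y ω) ^ 2 := by
    intro ω
    have := (abs_le.1 (Real.abs_exp_sub_one_sub_id_le (hc ω))).2
    linarith
  calc ∑ ω, μ ω * Real.exp (c * Y ω)
      ≤ ∑ ω, μ ω * (1 + c * Y ω + (c * Y ω) ^ 2) :=
        Finset.sum_le_sum fun ω _ => mul_le_mul_of_nonneg_left (h1 ω) (hμ ω)
    _ = ∑ ω, μ ω + c * ∑ ω, μ ω * Y ω + c ^ 2 * ∑ ω, μ ω * Y ω ^ 2 := by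
        rw [Finset.mul_sum, Finset.mul_sum, ← Finset.sum_add_distrib, ← Finset.sum_add_distrib]
        exact Finset.sum_congr rfl fun ω _ => by ring
    _ ≤ 1 + c ^ 2 * v := by
        rw [hμ1, hY0]
        have := mul_le_mul_of_nonneg_left hv (sq_nonneg c)
        linarith
    _ ≤ Real.exp (c ^ 2 * v) := by
        have := Real.add_one_le_exp (c ^ 2 * v)
        linarith

theorem T9a_exp_le {x : ℝ} (h0 : 0 ≤ x) (h1 : x ≤ 1) : Real.exp x ≤ 1 + 2 * x := by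
  have := (abs_le.1 (Real.abs_exp_sub_one_sub_id_le (x := x) (by rw [abs_of_nonneg h0]; exact h1))).2
  nlinarith

theorem T9a_mgf2 {Ω : Type} [Fintype Ω] {μ : Ω → ℝ} (hμ : ∀ ω, 0 ≤ μ ω) (hμ1 : ∑ ω, μ ω = 1)
    (Z : Ω → ℝ) (hZ0 : ∀ ω, 0 ≤ Z ω) (hZ1 : ∀ ω, Z ω ≤ 1) (Q : ℝ)
    (hQ : ∑ ω, μ ω * Z ω ≤ Q) :
    ∑ ω, μ ω * Real.exp (Z ω) ≤ Real.exp (2 * Q) := by
  calc ∑ ω, μ ω * Real.exp (Z ω)
      ≤ ∑ ω, μ ω * (1 + 2 * Z ω) :=
        Finset.sum_le_sum fun ω _ => mul_le_mul_of_nonneg_left (T9a_exp_le (hZ0 ω) (hZ1 ω)) (hμ ω)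
    _ = ∑ ω, μ ω + 2 * ∑ ω, μ ω * Z ω := by
        rw [Finset.mul_sum, ← Finset.sum_add_distrib]
        exact Finset.sum_congr rfl fun ω _ => by ring
    _ ≤ 1 + 2 * Q := by
        rw [hμ1]
        linarith
    _ ≤ Real.exp (2 * Q) := by
        have := Real.add_one_le_exp (2 * Q)
        linarith

/-- exponential moments of sums -/
theorem T9a_expsum {Ω ι : Type} [Fintype Ω] [Fintype ι] [DecidableEq ι] (μ : Ω → ℝ)
    (Z : Ω → ℝ) :
    ∑ h : ι → Ω, T9a_wt μ h * Real.exp (∑ i, Z (h i)) =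
      (∑ a, μ a * Real.exp (Z a)) ^ Fintype.card ι := by
  have := T9a_prod μ (fun (_ : ι) (a : Ω) => Real.exp (Z a))
  simp only [← Real.exp_sum] at this
  rw [this, Finset.prod_const, Finset.card_univ]

/-! ### the deterministic part -/

theorem T9a_W_le {m : ℕ} {p : ℝ} (hp : 1 < p) (u : Fin m → ℝ) :
    (∑ r, |u r| ^ p) ^ (1 / p) ≤ ∑ r, |u r| := by
  have hp0 : 0 < p := by linarith
  have hS : 0 ≤ ∑ r, |u r| := Finset.sum_nonneg fun _ _ => abs_nonneg _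
  have h0 : 0 ≤ ∑ r, |u r| ^ p := Finset.sum_nonneg fun _ _ => Real.rpow_nonneg (abs_nonneg _) _
  have h1 : ∑ r, |u r| ^ p ≤ (∑ r, |u r|) ^ p := by
    have h2 : ∀ r, |u r| ^ p ≤ |u r| * (∑ r, |u r|) ^ (p - 1) := by
      intro r
      have h3 : |u r| ≤ ∑ r, |u r| :=
        Finset.single_le_sum (f := fun r => |u r|) (fun _ _ => abs_nonneg _) (Finset.mem_univ r)
      have h4 : |u r| ^ p = |u r| * |u r| ^ (p - 1) := by
        rcases eq_or_lt_of_le (abs_nonneg (u r)) with h | h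
        · rw [← h, Real.zero_rpow hp0.ne', zero_mul]
        · rw [Real.rpow_sub_one h.ne']
          field_simp
      rw [h4]
      exact mul_le_mul_of_nonneg_left (Real.rpow_le_rpow (abs_nonneg _) h3 (by linarith))
        (abs_nonneg _)
    calc ∑ r, |u r| ^ p ≤ ∑ r, |u r| * (∑ r, |u r|) ^ (p - 1) := Finset.sum_le_sum fun r _ => h2 r
      _ = (∑ r, |u r|) * (∑ r, |u r|) ^ (p - 1) := by rw [Finset.sum_mul]
      _ = (∑ r, |u r|) ^ p := by
        rcases eq_or_lt_of_le hS with h | h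
        · rw [← h, Real.zero_rpow hp0.ne', zero_mul]
        · rw [Real.rpow_sub_one h.ne']
          field_simp
  calc (∑ r, |u r| ^ p) ^ (1 / p) ≤ ((∑ r, |u r|) ^ p) ^ (1 / p) :=
        Real.rpow_le_rpow h0 h1 (by positivity)
    _ = ∑ r, |u r| := by
        rw [← Real.rpow_mul hS, mul_one_div_cancel hp0.ne', Real.rpow_one]

theorem T9a_le_W {m : ℕ} {p : ℝ} (hp : 1 < p) (u : Fin m → ℝ) (r : Fin m) :
    |u r| ≤ (∑ r, |u r| ^ p) ^ (1 / p) := by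
  have hp0 : 0 < p := by linarith
  have h1 : |u r| ^ p ≤ ∑ r, |u r| ^ p :=
    Finset.single_le_sum (f := fun r => |u r| ^ p)
      (fun _ _ => Real.rpow_nonneg (abs_nonneg _) _) (Finset.mem_univ r)
  calc |u r| = (|u r| ^ p) ^ (1 / p) := by
        rw [← Real.rpow_mul (abs_nonneg _), mul_one_div_cancel hp0.ne', Real.rpow_one]
    _ ≤ _ := Real.rpow_le_rpow (Real.rpow_nonneg (abs_nonneg _) _) h1 (by positivity)

/-- excess of the `l¹` norm over the sup norm -/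
noncomputable def T9a_ex {m : ℕ} [NeZero m] (u : Fin m → ℝ) : ℝ :=
  (∑ r, |u r|) - Finset.univ.sup' Finset.univ_nonempty (fun r => |u r|)

theorem T9a_ex_nonneg {m : ℕ} [NeZero m] (u : Fin m → ℝ) : 0 ≤ T9a_ex u := by
  unfold T9a_ex
  have : Finset.univ.sup' Finset.univ_nonempty (fun r => |u r|) ≤ ∑ r, |u r| := by
    apply Finset.sup'_le
    intro r _
    exact Finset.single_le_sum (f := fun r => |u r|) (fun _ _ => abs_nonneg _) (Finset.mem_univ r)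
  linarith

theorem T9a_ex_le_sum {m : ℕ} [NeZero m] (u : Fin m → ℝ) : T9a_ex u ≤ ∑ r, |u r| := by
  unfold T9a_ex
  have : 0 ≤ Finset.univ.sup' Finset.univ_nonempty (fun r => |u r|) :=
    (abs_nonneg (u 0)).trans (Finset.le_sup' (fun r => |u r|) (Finset.mem_univ 0))
  linarith

theorem T9a_dev {m : ℕ} [NeZero m] {p : ℝ} (hp : 1 < p) (u : Fin m → ℝ) :
    |(|∑ r, u r|) - (∑ r, |u r| ^ p) ^ (1 / p)| ≤ 2 * T9a_ex u := by
  obtain ⟨r0, _, hr0⟩ := Finset.exists_mem_eq_sup' Finset.univ_nonempty (fun r : Fin m => |u r|)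
  have h1 := T9a_W_le hp u
  have h2 := T9a_le_W hp u r0
  have h3 : |∑ r, u r| ≤ ∑ r, |u r| := Finset.abs_sum_le_sum_abs _ _
  have h4 : |u r0| - (∑ r, |u r| - |u r0|) ≤ |∑ r, u r| := by
    have e1 : ∑ r, |u r| - |u r0| = ∑ r ∈ Finset.univ.erase r0, |u r| := by
      rw [← Finset.add_sum_erase Finset.univ _ (Finset.mem_univ r0)]
      ring
    have e2 : ∑ r, u r = u r0 + ∑ r ∈ Finset.univ.erase r0, u r := by
      rw [← Finset.add_sum_erase Finset.univ _ (Finset.mem_univ r0)]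
    rw [e1, e2]
    have e3 : |∑ r ∈ Finset.univ.erase r0, u r| ≤ ∑ r ∈ Finset.univ.erase r0, |u r| :=
      Finset.abs_sum_le_sum_abs _ _
    have e4 := abs_sub_abs_le_abs_add (u r0) (∑ r ∈ Finset.univ.erase r0, u r)
    linarith
  unfold T9a_ex
  rw [hr0]
  rw [abs_le]
  have h5 : |u r0| ≤ ∑ r, |u r| :=
    Finset.single_le_sum (f := fun r => |u r|) (fun _ _ => abs_nonneg _) (Finset.mem_univ r0)
  constructor <;> linarith

theorem T9a_root_sub {p : ℝ} (hp : 1 < p) {x y : ℝ} (hx : 0 ≤ x) (hy : 0 ≤ y) :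
    |x ^ (1 / p) - y ^ (1 / p)| ≤ |x - y| ^ (1 / p) := by
  have hp0 : 0 < 1 / p := by positivity
  have hp1 : 1 / p ≤ 1 := by
    rw [div_le_one (by linarith)]
    exact hp.le
  have key : ∀ a b : ℝ, 0 ≤ a → a ≤ b → |a ^ (1 / p) - b ^ (1 / p)| ≤ |a - b| ^ (1 / p) := by
    intro a b ha hab
    have h1 := Real.rpow_add_le_add_rpow ha (sub_nonneg.2 hab) hp0.le hp1
    rw [add_sub_cancel] at h1
    have h2 : a ^ (1 / p) ≤ b ^ (1 / p) := Real.rpow_le_rpow ha hab hp0.le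
    rw [abs_sub_comm, abs_of_nonneg (sub_nonneg.2 h2), abs_sub_comm,
      abs_of_nonneg (sub_nonneg.2 hab)]
    linarith
  rcases le_total x y with h | h
  · exact key x y hx h
  · have := key y x hy h
    rw [abs_sub_comm, abs_sub_comm x y]
    exact this

theorem T9a_det {m N : ℕ} [NeZero m] {p : ℝ} (hp : 1 < p) (hN : 1 ≤ N) {ε : ℝ} (hε : 0 < ε)
    (u : Fin N → Fin m → ℝ) {A : ℝ} (hA : 0 ≤ A)
    (h1 : |1 / ((N : ℝ) * m) * ∑ s, ∑ r, |u s r| ^ p - A| ≤ (ε / 4) ^ p)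
    (h2 : ∑ s, T9a_ex (u s) ^ p ≤ (N : ℝ) * m * (ε / 8) ^ p) :
    |(1 / ((N : ℝ) * m) * ∑ s, |∑ r, u s r| ^ p) ^ (1 / p) - A ^ (1 / p)| ≤ ε := by
  have hp0 : 0 < p := by linarith
  have hm0 : (0 : ℝ) < m := by exact_mod_cast Nat.pos_of_ne_zero (NeZero.ne m)
  have hN0 : (0 : ℝ) < N := by exact_mod_cast hN
  have hK : 0 < (N : ℝ) * m := by positivity
  set κ : ℝ := 1 / ((N : ℝ) * m) with hκ
  have hκ0 : 0 < κ := by positivity
  set W : Fin N → ℝ := fun s => (∑ r, |u s r| ^ p) ^ (1 / p) with hW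
  have hWp : ∀ s, |W s| ^ p = ∑ r, |u s r| ^ p := by
    intro s
    have h0 : 0 ≤ ∑ r, |u s r| ^ p :=
      Finset.sum_nonneg fun _ _ => Real.rpow_nonneg (abs_nonneg _) _
    have hW0 : 0 ≤ W s := Real.rpow_nonneg h0 _
    rw [abs_of_nonneg hW0]
    simp only [hW]
    rw [← Real.rpow_mul h0, one_div, inv_mul_cancel₀ hp0.ne', Real.rpow_one]
  have e1 : (κ * ∑ s, |∑ r, u s r| ^ p) ^ (1 / p) =
      pn p (fun _ : Fin N => κ) (fun s => |∑ r, u s r|) := by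
    unfold pn
    rw [Finset.mul_sum]
    simp only [abs_abs]
  have e2 : (κ * ∑ s, ∑ r, |u s r| ^ p) ^ (1 / p) = pn p (fun _ : Fin N => κ) W := by
    unfold pn
    rw [Finset.mul_sum]
    simp only [hWp]
  have d1 : |pn p (fun _ : Fin N => κ) (fun s => |∑ r, u s r|) - pn p (fun _ : Fin N => κ) W|
      ≤ ε / 4 := by
    refine (abs_pn_sub_pn_le hp.le (fun _ => hκ0.le) _ _).trans ?_
    have d2 : pn p (fun _ : Fin N => κ) (fun s => |∑ r, u s r| - W s) ≤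
        pn p (fun _ : Fin N => κ) (fun s => 2 * T9a_ex (u s)) := by
      refine pn_mono hp0 (fun _ => hκ0.le) fun s => ?_
      rw [abs_of_nonneg (mul_nonneg (by norm_num) (T9a_ex_nonneg _) : 0 ≤ 2 * T9a_ex (u s))]
      exact T9a_dev hp (u s)
    refine d2.trans ?_
    rw [pn_const_mul hp0 (fun _ => hκ0.le)]
    have d3 : pn p (fun _ : Fin N => κ) (fun s => T9a_ex (u s)) ≤ ε / 8 := by
      rw [pn_le_iff hp0 (fun _ => hκ0.le) _ (by positivity)]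
      have d4 : ∑ s : Fin N, κ * |T9a_ex (u s)| ^ p = κ * ∑ s, T9a_ex (u s) ^ p := by
        rw [Finset.mul_sum]
        refine Finset.sum_congr rfl fun s _ => ?_
        rw [abs_of_nonneg (T9a_ex_nonneg _)]
      rw [d4]
      have d5 := mul_le_mul_of_nonneg_left h2 hκ0.le
      refine d5.trans (le_of_eq ?_)
      rw [hκ]
      field_simp
    rw [abs_of_pos (by norm_num : (0 : ℝ) < 2)]
    linarith
  have d6 : |(κ * ∑ s, ∑ r, |u s r| ^ p) ^ (1 / p) - A ^ (1 / p)| ≤ ε / 4 := by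
    have h0 : 0 ≤ κ * ∑ s, ∑ r, |u s r| ^ p :=
      mul_nonneg hκ0.le (Finset.sum_nonneg fun _ _ => Finset.sum_nonneg fun _ _ =>
        Real.rpow_nonneg (abs_nonneg _) _)
    refine (T9a_root_sub hp h0 hA).trans ?_
    calc |κ * ∑ s, ∑ r, |u s r| ^ p - A| ^ (1 / p) ≤ ((ε / 4) ^ p) ^ (1 / p) :=
          Real.rpow_le_rpow (abs_nonneg _) h1 (by positivity)
      _ = ε / 4 := by
          rw [← Real.rpow_mul (by positivity), mul_one_div_cancel hp0.ne', Real.rpow_one]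
  rw [e1]
  rw [e2] at d6
  have := abs_sub_le (pn p (fun _ : Fin N => κ) (fun s => |∑ r, u s r|))
    (pn p (fun _ : Fin N => κ) W) (A ^ (1 / p))
  linarith

/-! ### moments of the excess -/

theorem T9a_ex_sq {m : ℕ} [NeZero m] (u : Fin m → ℝ) :
    T9a_ex u ^ 2 ≤ ∑ r, ∑ r' ∈ Finset.univ.erase r, |u r| * |u r'| := by
  have h0 := T9a_ex_nonneg u
  have h1 := T9a_ex_le_sum u
  have hS : 0 ≤ ∑ r, |u r| := Finset.sum_nonneg fun _ _ => abs_nonneg _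
  have h2 : T9a_ex u ^ 2 ≤ T9a_ex u * ∑ r, |u r| := by
    rw [sq]
    exact mul_le_mul_of_nonneg_left h1 h0
  have h3 : ∑ r, |u r| * |u r| ≤
      Finset.univ.sup' Finset.univ_nonempty (fun r => |u r|) * ∑ r, |u r| := by
    rw [Finset.mul_sum]
    refine Finset.sum_le_sum fun r _ => mul_le_mul_of_nonneg_right ?_ (abs_nonneg _)
    exact Finset.le_sup' (fun r => |u r|) (Finset.mem_univ r)
  have h4 : (∑ r, |u r|) * ∑ r, |u r| = ∑ r, |u r| * |u r| +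
      ∑ r, ∑ r' ∈ Finset.univ.erase r, |u r| * |u r'| := by
    rw [Finset.sum_mul_sum, ← Finset.sum_add_distrib]
    refine Finset.sum_congr rfl fun r _ => ?_
    rw [Finset.add_sum_erase Finset.univ (fun r' => |u r| * |u r'|) (Finset.mem_univ r)]
  have h5 : T9a_ex u * ∑ r, |u r| = (∑ r, |u r|) * (∑ r, |u r|) -
      Finset.univ.sup' Finset.univ_nonempty (fun r => |u r|) * ∑ r, |u r| := by
    unfold T9a_ex
    ring
  linarith

theorem T9a_E_ex_sq {Ω : Type} [Fintype Ω] {μ : Ω → ℝ} (hμ : ∀ ω, 0 ≤ μ ω)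
    (hμ1 : ∑ ω, μ ω = 1) {m : ℕ} [NeZero m] (G : Ω → ℝ) {D : ℝ}
    (hG : ∑ ω, μ ω * |G ω| ≤ D) :
    ∑ h : Fin m → Ω, T9a_wt μ h * T9a_ex (fun r => G (h r)) ^ 2 ≤ ((m : ℝ) * D) ^ 2 := by
  have h0 : 0 ≤ ∑ ω, μ ω * |G ω| :=
    Finset.sum_nonneg fun ω _ => mul_nonneg (hμ ω) (abs_nonneg _)
  calc ∑ h : Fin m → Ω, T9a_wt μ h * T9a_ex (fun r => G (h r)) ^ 2
      ≤ ∑ h : Fin m → Ω, T9a_wt μ h *
          ∑ r, ∑ r' ∈ Finset.univ.erase r, |G (h r)| * |G (h r')| :=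
        Finset.sum_le_sum fun h _ => mul_le_mul_of_nonneg_left (T9a_ex_sq _) (T9a_wt_nonneg hμ h)
    _ = ∑ r : Fin m, ∑ r' ∈ Finset.univ.erase r, ∑ h : Fin m → Ω,
          T9a_wt μ h * (|G (h r)| * |G (h r')|) := by
        simp only [Finset.mul_sum]
        rw [Finset.sum_comm]
        refine Finset.sum_congr rfl fun r _ => ?_
        rw [Finset.sum_comm]
    _ = ∑ r : Fin m, ∑ r' ∈ Finset.univ.erase r, (∑ ω, μ ω * |G ω|) ^ 2 := by
        refine Finset.sum_congr rfl fun r _ => Finset.sum_congr rfl fun r' hr' => ?_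
        exact T9a_marg2 hμ1 (fun ω => |G ω|) (Finset.ne_of_mem_erase hr').symm
    _ ≤ ∑ r : Fin m, ∑ r' : Fin m, (∑ ω, μ ω * |G ω|) ^ 2 := by
        refine Finset.sum_le_sum fun r _ => ?_
        exact Finset.sum_le_sum_of_subset_of_nonneg (Finset.erase_subset _ _)
          (fun _ _ _ => sq_nonneg _)
    _ = ((m : ℝ) * (∑ ω, μ ω * |G ω|)) ^ 2 := by
        simp only [Finset.sum_const, Finset.card_univ, Fintype.card_fin, nsmul_eq_mul]
        ring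
    _ ≤ ((m : ℝ) * D) ^ 2 :=
        pow_le_pow_left₀ (by positivity) (mul_le_mul_of_nonneg_left hG (by positivity)) 2

theorem T9a_pow_ge {p : ℝ} (hp : 1 < p) (hp2 : 2 ≤ p) {x y c : ℝ} (hy : 0 ≤ y) (hyx : y ≤ x)
    (hyc : y ≤ c) : y ^ p ≤ c ^ (p - 2) * x ^ 2 := by
  rcases eq_or_lt_of_le hy with h | h
  · rw [← h, Real.zero_rpow (by linarith)]
    have hc : 0 ≤ c := hy.trans hyc
    positivity
  · have e : y ^ p = y ^ (p - 2) * y ^ 2 := by
      rw [← Real.rpow_natCast, ← Real.rpow_add h]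
      norm_num
    rw [e]
    apply mul_le_mul (Real.rpow_le_rpow hy hyc (by linarith))
      (pow_le_pow_left₀ hy hyx 2) (by positivity)
    exact Real.rpow_nonneg (hy.trans hyc) _

theorem T9a_pow_lt {p : ℝ} (hp : 1 < p) (hp2 : p < 2) {x y c : ℝ} (hy : 0 ≤ y) (hyx : y ≤ x)
    (hc : 0 < c) : y ^ p ≤ c ^ (p - 2) * x ^ 2 + c ^ p := by
  have hcp : 0 < c ^ p := Real.rpow_pos_of_pos hc _
  have hcp2 : 0 < c ^ (p - 2) := Real.rpow_pos_of_pos hc _
  rcases le_total y c with h | h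
  · have h1 : y ^ p ≤ c ^ p := Real.rpow_le_rpow hy h (by linarith)
    have : 0 ≤ c ^ (p - 2) * x ^ 2 := by positivity
    linarith
  · have hy0 : 0 < y := lt_of_lt_of_le hc h
    have e : y ^ p = y ^ (p - 2) * y ^ 2 := by
      rw [← Real.rpow_natCast, ← Real.rpow_add hy0]
      norm_num
    have h1 : y ^ (p - 2) ≤ c ^ (p - 2) :=
      Real.rpow_le_rpow_of_nonpos hc h (by linarith)
    have h2 : y ^ p ≤ c ^ (p - 2) * x ^ 2 := by
      rw [e]
      exact mul_le_mul h1 (pow_le_pow_left₀ hy hyx 2) (by positivity) hcp2.le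
    linarith

theorem T9a_EZ {Ω : Type} [Fintype Ω] {μ : Ω → ℝ} (hμ : ∀ ω, 0 ≤ μ ω)
    (hμ1 : ∑ ω, μ ω = 1) {m : ℕ} [NeZero m] (G : Ω → ℝ) {D p c : ℝ} (hp : 1 < p) (hD : 0 < D)
    (hc : 0 < c) (hG : ∑ ω, μ ω * |G ω| ≤ D) :
    ∑ h : Fin m → Ω, T9a_wt μ h * (min (T9a_ex (fun r => G (h r))) c) ^ p ≤
      if 2 ≤ p then c ^ (p - 2) * ((m : ℝ) * D) ^ 2 else 2 * ((m : ℝ) * D) ^ p := by
  have hE := T9a_E_ex_sq hμ hμ1 (m := m) G hG
  have hm0 : (0 : ℝ) < m := by exact_mod_cast Nat.pos_of_ne_zero (NeZero.ne m)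
  have hw := fun h : Fin m → Ω => T9a_wt_nonneg hμ h
  have hmin : ∀ h : Fin m → Ω, 0 ≤ min (T9a_ex (fun r => G (h r))) c := fun h =>
    le_min (T9a_ex_nonneg _) hc.le
  by_cases hp2 : 2 ≤ p
  · rw [if_pos hp2]
    calc ∑ h : Fin m → Ω, T9a_wt μ h * (min (T9a_ex (fun r => G (h r))) c) ^ p
        ≤ ∑ h : Fin m → Ω, T9a_wt μ h * (c ^ (p - 2) * T9a_ex (fun r => G (h r)) ^ 2) :=
          Finset.sum_le_sum fun h _ => mul_le_mul_of_nonneg_left
            (T9a_pow_ge hp hp2 (hmin h) (min_le_left _ _) (min_le_right _ _)) (hw h)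
      _ = c ^ (p - 2) * ∑ h : Fin m → Ω, T9a_wt μ h * T9a_ex (fun r => G (h r)) ^ 2 := by
          rw [Finset.mul_sum]
          exact Finset.sum_congr rfl fun h _ => by ring
      _ ≤ c ^ (p - 2) * ((m : ℝ) * D) ^ 2 :=
          mul_le_mul_of_nonneg_left hE (Real.rpow_nonneg hc.le _)
  · rw [if_neg hp2]
    push Not at hp2
    set d : ℝ := (m : ℝ) * D with hd
    have hd0 : 0 < d := by positivity
    calc ∑ h : Fin m → Ω, T9a_wt μ h * (min (T9a_ex (fun r => G (h r))) c) ^ p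
        ≤ ∑ h : Fin m → Ω, T9a_wt μ h * (d ^ (p - 2) * T9a_ex (fun r => G (h r)) ^ 2 + d ^ p) :=
          Finset.sum_le_sum fun h _ => mul_le_mul_of_nonneg_left
            (T9a_pow_lt hp hp2 (hmin h) (min_le_left _ _) hd0) (hw h)
      _ = d ^ (p - 2) * (∑ h : Fin m → Ω, T9a_wt μ h * T9a_ex (fun r => G (h r)) ^ 2) +
          d ^ p * ∑ h : Fin m → Ω, T9a_wt μ h := by
          rw [Finset.mul_sum, Finset.mul_sum, ← Finset.sum_add_distrib]
          exact Finset.sum_congr rfl fun h _ => by ring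
      _ ≤ d ^ (p - 2) * d ^ 2 + d ^ p * 1 := by
          rw [T9a_sum_wt hμ1]
          have := mul_le_mul_of_nonneg_left hE (Real.rpow_nonneg hd0.le (p - 2))
          linarith
      _ = 2 * d ^ p := by
          have e : d ^ p = d ^ (p - 2) * d ^ 2 := by
            rw [← Real.rpow_natCast, ← Real.rpow_add hd0]
            norm_num
          rw [← e]
          ring

/-! ### the three exponential functionals -/

/-- `(E1)` -/
theorem T9a_F1 {Ω : Type} [Fintype Ω] {μ : Ω → ℝ} (hμ : ∀ ω, 0 ≤ μ ω)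
    (hμ1 : ∑ ω, μ ω = 1) {p B ε : ℝ} (hp : 1 < p) (hB : 0 < B) (hε : 0 < ε) (hε1 : ε ≤ 1)
    (m N n : ℕ) (hn : 1 ≤ n) (G : Ω → ℝ) (h1 : ∀ ω, |G ω| ≤ B)
    (h3 : ∑ ω, μ ω * |G ω| ^ p ≤ 2 ^ p)
    (c3 : 2 ^ (p + 2) * B ^ p * Real.log (8 * n) ≤ (N : ℝ) * m * ((ε / 4) ^ p) ^ 2)
    (lam : ℝ) (hlam : lam = (ε / 4) ^ p / (2 * (B ^ p * 2 ^ p))) (σ : ℝ) (hσ : σ = 1 ∨ σ = -1) :
    ∑ f : Fin N → Fin m → Ω, T9a_wt (T9a_wt μ) f *
      Real.exp (∑ s, ∑ r, σ * lam * (|G (f s r)| ^ p - ∑ ω, μ ω * |G ω| ^ p) -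
        lam * ((N : ℝ) * m * (ε / 4) ^ p)) ≤ 1 / (8 * n) := by
  have hp0 : 0 < p := by linarith
  set A : ℝ := ∑ ω, μ ω * |G ω| ^ p with hA
  set e' : ℝ := (ε / 4) ^ p with he'
  have he'0 : 0 < e' := by positivity
  have he'1 : e' ≤ 1 := by
    apply Real.rpow_le_one (by positivity) (by linarith) hp0.le
  set v : ℝ := B ^ p * 2 ^ p with hv
  have hv0 : 0 < v := by positivity
  have hlam0 : 0 < lam := by rw [hlam]; positivity
  have hn0 : (0 : ℝ) < n := by exact_mod_cast hn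
  have hX0 : ∀ ω, 0 ≤ |G ω| ^ p := fun ω => Real.rpow_nonneg (abs_nonneg _) _
  have hXb : ∀ ω, |G ω| ^ p ≤ B ^ p := fun ω => Real.rpow_le_rpow (abs_nonneg _) (h1 ω) hp0.le
  have hA0 : 0 ≤ A := Finset.sum_nonneg fun ω _ => mul_nonneg (hμ ω) (hX0 ω)
  have hAb : A ≤ B ^ p := by
    calc A ≤ ∑ ω, μ ω * B ^ p :=
          Finset.sum_le_sum fun ω _ => mul_le_mul_of_nonneg_left (hXb ω) (hμ ω)
      _ = B ^ p := by rw [← Finset.sum_mul, hμ1, one_mul]
  have hY0 : ∑ ω, μ ω * (|G ω| ^ p - A) = 0 := by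
    simp only [mul_sub, Finset.sum_sub_distrib, ← Finset.sum_mul, hμ1, one_mul]
    rw [← hA, sub_self]
  have hσ2 : σ ^ 2 = 1 := by rcases hσ with h | h <;> rw [h] <;> norm_num
  have hσa : |σ| = 1 := by rcases hσ with h | h <;> rw [h] <;> norm_num
  have hc : ∀ ω, |σ * lam * (|G ω| ^ p - A)| ≤ 1 := by
    intro ω
    rw [abs_mul, abs_mul, hσa, one_mul, abs_of_pos hlam0]
    have h4 : |(|G ω| ^ p - A)| ≤ B ^ p := by
      rw [abs_le]
      constructor <;> linarith [hX0 ω, hXb ω]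
    calc lam * |(|G ω| ^ p - A)| ≤ lam * B ^ p := mul_le_mul_of_nonneg_left h4 hlam0.le
      _ = e' / (2 * 2 ^ p) := by
          rw [hlam, hv]
          field_simp
      _ ≤ 1 := by
          rw [div_le_one (by positivity)]
          have : (1 : ℝ) ≤ 2 ^ p := Real.one_le_rpow (by norm_num) hp0.le
          linarith
  have hY2 : ∑ ω, μ ω * (|G ω| ^ p - A) ^ 2 ≤ v := by
    have h4 : ∑ ω, μ ω * (|G ω| ^ p - A) ^ 2 = ∑ ω, μ ω * (|G ω| ^ p) ^ 2 - A ^ 2 := by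
      have e1 : ∀ ω, μ ω * (|G ω| ^ p - A) ^ 2 = μ ω * (|G ω| ^ p) ^ 2 -
          2 * A * (μ ω * |G ω| ^ p) + A ^ 2 * μ ω := fun ω => by ring
      simp only [e1, Finset.sum_add_distrib, Finset.sum_sub_distrib, ← Finset.mul_sum, hμ1]
      rw [← hA]
      ring
    have h5 : ∑ ω, μ ω * (|G ω| ^ p) ^ 2 ≤ B ^ p * A := by
      rw [hA, Finset.mul_sum]
      refine Finset.sum_le_sum fun ω _ => ?_
      have := mul_le_mul_of_nonneg_left (mul_le_mul_of_nonneg_right (hXb ω) (hX0 ω)) (hμ ω)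
      rw [sq]
      linarith
    have h6 : B ^ p * A ≤ v := mul_le_mul_of_nonneg_left h3 (by positivity)
    nlinarith [sq_nonneg A]
  have hmgf := T9a_mgf hμ hμ1 (fun ω => |G ω| ^ p - A) hY0 (σ * lam) v hc hY2
  have hmgf' : ∑ ω, μ ω * Real.exp (σ * lam * (|G ω| ^ p - A)) ≤ Real.exp (lam ^ 2 * v) := by
    have : (σ * lam) ^ 2 = lam ^ 2 := by rw [mul_pow, hσ2, one_mul]
    rw [← this]
    exact hmgf
  have hmgf0 : 0 ≤ ∑ ω, μ ω * Real.exp (σ * lam * (|G ω| ^ p - A)) :=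
    Finset.sum_nonneg fun ω _ => mul_nonneg (hμ ω) (Real.exp_pos _).le
  have key : ∑ f : Fin N → Fin m → Ω, T9a_wt (T9a_wt μ) f *
      Real.exp (∑ s, ∑ r, σ * lam * (|G (f s r)| ^ p - A)) ≤ Real.exp (lam ^ 2 * v * (N * m)) := by
    have e1 := T9a_expsum (ι := Fin N) (T9a_wt μ)
      (fun h : Fin m → Ω => ∑ r, σ * lam * (|G (h r)| ^ p - A))
    have e2 := T9a_expsum (ι := Fin m) μ (fun ω => σ * lam * (|G ω| ^ p - A))
    rw [e1, e2, Fintype.card_fin, Fintype.card_fin, ← pow_mul]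
    calc (∑ a, μ a * Real.exp (σ * lam * (|G a| ^ p - A))) ^ (m * N)
        ≤ Real.exp (lam ^ 2 * v) ^ (m * N) := pow_le_pow_left₀ hmgf0 hmgf' _
      _ = Real.exp (lam ^ 2 * v * (N * m)) := by
          rw [← Real.exp_nat_mul]
          congr 1
          push_cast
          ring
  have e3 : ∀ f : Fin N → Fin m → Ω, T9a_wt (T9a_wt μ) f *
      Real.exp (∑ s, ∑ r, σ * lam * (|G (f s r)| ^ p - A) - lam * ((N : ℝ) * m * e')) =
      Real.exp (-(lam * ((N : ℝ) * m * e'))) * (T9a_wt (T9a_wt μ) f *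
      Real.exp (∑ s, ∑ r, σ * lam * (|G (f s r)| ^ p - A))) := by
    intro f
    rw [sub_eq_add_neg, Real.exp_add]
    ring
  rw [Finset.sum_congr rfl (fun f _ => e3 f), ← Finset.mul_sum]
  calc Real.exp (-(lam * ((N : ℝ) * m * e'))) * ∑ f : Fin N → Fin m → Ω,
        T9a_wt (T9a_wt μ) f * Real.exp (∑ s, ∑ r, σ * lam * (|G (f s r)| ^ p - A))
      ≤ Real.exp (-(lam * ((N : ℝ) * m * e'))) * Real.exp (lam ^ 2 * v * (N * m)) :=
        mul_le_mul_of_nonneg_left key (Real.exp_pos _).le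
    _ = Real.exp (-((N : ℝ) * m * e' ^ 2 / (4 * v))) := by
        rw [← Real.exp_add]
        congr 1
        rw [hlam]
        field_simp
        ring
    _ ≤ Real.exp (-Real.log (8 * n)) := by
        apply Real.exp_le_exp.2
        apply neg_le_neg
        rw [le_div_iff₀ (by positivity)]
        have e4 : (2 : ℝ) ^ (p + 2) = 2 ^ p * 4 := by
          rw [Real.rpow_add (by norm_num)]
          norm_num
        rw [e4] at c3
        rw [hv]
        linarith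
    _ = 1 / (8 * n) := by
        rw [Real.exp_neg, Real.exp_log (by positivity), one_div]

/-- `(E2)` -/
theorem T9a_F2 {Ω : Type} [Fintype Ω] {μ : Ω → ℝ} (hμ : ∀ ω, 0 ≤ μ ω)
    (hμ1 : ∑ ω, μ ω = 1) {p B D ε R : ℝ} (hp : 1 < p) (hB : 0 < B) (hD : 0 < D) (hε : 0 < ε)
    (hR : 1 ≤ R) (m N n : ℕ) [NeZero m] (hn : 1 ≤ n) (G : Ω → ℝ)
    (h2 : ∑ ω, μ ω * |G ω| ≤ D)
    (c2 : 4 * (if 2 ≤ p then (R * B) ^ (p - 2) * ((m : ℝ) * D) ^ 2
      else 2 * ((m : ℝ) * D) ^ p) ≤ m * (ε / 8) ^ p)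
    (c4 : 2 * (R * B) ^ p * Real.log (8 * n) ≤ (N : ℝ) * m * (ε / 8) ^ p) :
    ∑ f : Fin N → Fin m → Ω, T9a_wt (T9a_wt μ) f *
      Real.exp (∑ s, (min (T9a_ex (fun r => G (f s r))) (R * B)) ^ p / (R * B) ^ p -
        (N : ℝ) * m * (ε / 8) ^ p / (R * B) ^ p) ≤ 1 / (8 * n) := by
  have hp0 : 0 < p := by linarith
  have hc0 : 0 < R * B := by positivity
  set c : ℝ := R * B with hc
  have hcp : 0 < c ^ p := Real.rpow_pos_of_pos hc0 _
  set Q : ℝ := (if 2 ≤ p then c ^ (p - 2) * ((m : ℝ) * D) ^ 2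
      else 2 * ((m : ℝ) * D) ^ p) with hQ
  set e' : ℝ := (ε / 8) ^ p with he'
  have he'0 : 0 < e' := by positivity
  have hn0 : (0 : ℝ) < n := by exact_mod_cast hn
  have hEZ := T9a_EZ hμ hμ1 (m := m) G hp hD hc0 h2
  rw [← hQ] at hEZ
  have hmin : ∀ h : Fin m → Ω, 0 ≤ min (T9a_ex (fun r => G (h r))) c := fun h =>
    le_min (T9a_ex_nonneg _) hc0.le
  have hmgf := T9a_mgf2 (fun h : Fin m → Ω => T9a_wt_nonneg hμ h) (T9a_sum_wt hμ1)
    (fun h : Fin m → Ω => (min (T9a_ex (fun r => G (h r))) c) ^ p / c ^ p)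
    (fun h => div_nonneg (Real.rpow_nonneg (hmin h) _) hcp.le)
    (fun h => (div_le_one hcp).2 (Real.rpow_le_rpow (hmin h) (min_le_right _ _) hp0.le))
    (Q / c ^ p) (by
      have : ∑ h : Fin m → Ω, T9a_wt μ h * ((min (T9a_ex (fun r => G (h r))) c) ^ p / c ^ p) =
          (∑ h : Fin m → Ω, T9a_wt μ h * (min (T9a_ex (fun r => G (h r))) c) ^ p) / c ^ p := by
        rw [Finset.sum_div]
        exact Finset.sum_congr rfl fun h _ => by ring
      rw [this]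
      exact div_le_div_of_nonneg_right hEZ hcp.le)
  have hmgf0 : 0 ≤ ∑ h : Fin m → Ω, T9a_wt μ h *
      Real.exp ((min (T9a_ex (fun r => G (h r))) c) ^ p / c ^ p) :=
    Finset.sum_nonneg fun h _ => mul_nonneg (T9a_wt_nonneg hμ h) (Real.exp_pos _).le
  have key : ∑ f : Fin N → Fin m → Ω, T9a_wt (T9a_wt μ) f *
      Real.exp (∑ s, (min (T9a_ex (fun r => G (f s r))) c) ^ p / c ^ p) ≤
      Real.exp (N * (2 * (Q / c ^ p))) := by
    have e1 := T9a_expsum (ι := Fin N) (T9a_wt μ)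
      (fun h : Fin m → Ω => (min (T9a_ex (fun r => G (h r))) c) ^ p / c ^ p)
    rw [e1, Fintype.card_fin, Real.exp_nat_mul]
    exact pow_le_pow_left₀ hmgf0 hmgf _
  have e3 : ∀ f : Fin N → Fin m → Ω, T9a_wt (T9a_wt μ) f *
      Real.exp (∑ s, (min (T9a_ex (fun r => G (f s r))) c) ^ p / c ^ p -
        (N : ℝ) * m * e' / c ^ p) =
      Real.exp (-((N : ℝ) * m * e' / c ^ p)) * (T9a_wt (T9a_wt μ) f *
      Real.exp (∑ s, (min (T9a_ex (fun r => G (f s r))) c) ^ p / c ^ p)) := by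
    intro f
    rw [sub_eq_add_neg, Real.exp_add]
    ring
  simp only [e3, ← Finset.mul_sum]
  calc Real.exp (-((N : ℝ) * m * e' / c ^ p)) * ∑ f : Fin N → Fin m → Ω,
        T9a_wt (T9a_wt μ) f * Real.exp (∑ s, (min (T9a_ex (fun r => G (f s r))) c) ^ p / c ^ p)
      ≤ Real.exp (-((N : ℝ) * m * e' / c ^ p)) * Real.exp (N * (2 * (Q / c ^ p))) :=
        mul_le_mul_of_nonneg_left key (Real.exp_pos _).le
    _ = Real.exp (-(((N : ℝ) * m * e' - 2 * N * Q) / c ^ p)) := by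
        rw [← Real.exp_add]
        congr 1
        field_simp
        ring
    _ ≤ Real.exp (-Real.log (8 * n)) := by
        apply Real.exp_le_exp.2
        apply neg_le_neg
        rw [le_div_iff₀ hcp]
        have h4 := mul_le_mul_of_nonneg_left c2 (Nat.cast_nonneg N : (0 : ℝ) ≤ N)
        nlinarith
    _ = 1 / (8 * n) := by
        rw [Real.exp_neg, Real.exp_log (by positivity), one_div]

/-- `(E3)` -/
theorem T9a_F3 {Ω : Type} [Fintype Ω] {μ : Ω → ℝ} (hμ : ∀ ω, 0 ≤ μ ω)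
    (hμ1 : ∑ ω, μ ω = 1) {B D R : ℝ} (hB : 0 < B)
    (m N n : ℕ) (hn : 1 ≤ n) (G : Ω → ℝ) (h1 : ∀ ω, |G ω| ≤ B)
    (h2 : ∑ ω, μ ω * |G ω| ≤ D) (c1 : (m : ℝ) * D ≤ B)
    (c5 : (N : ℝ) * n * Real.exp (2 - R) ≤ 1 / 8) :
    ∑ f : Fin N → Fin m → Ω, T9a_wt (T9a_wt μ) f *
      ∑ s, Real.exp ((∑ r, |G (f s r)| / B) - R) ≤ 1 / (8 * n) := by
  have hn0 : (0 : ℝ) < n := by exact_mod_cast hn
  have hmgf := T9a_mgf2 hμ hμ1 (fun ω => |G ω| / B)
    (fun ω => div_nonneg (abs_nonneg _) hB.le) (fun ω => (div_le_one hB).2 (h1 ω)) (D / B) (by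
      have : ∑ ω, μ ω * (|G ω| / B) = (∑ ω, μ ω * |G ω|) / B := by
        rw [Finset.sum_div]
        exact Finset.sum_congr rfl fun h _ => by ring
      rw [this]
      exact div_le_div_of_nonneg_right h2 hB.le)
  have hmgf0 : 0 ≤ ∑ ω, μ ω * Real.exp (|G ω| / B) :=
    Finset.sum_nonneg fun h _ => mul_nonneg (hμ h) (Real.exp_pos _).le
  have hs : ∀ s : Fin N, ∑ f : Fin N → Fin m → Ω, T9a_wt (T9a_wt μ) f *
      Real.exp ((∑ r, |G (f s r)| / B) - R) ≤ Real.exp (2 - R) := by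
    intro s
    have e1 := T9a_marg (ι := Fin N) (μ := T9a_wt μ) (T9a_sum_wt hμ1)
      (fun h : Fin m → Ω => Real.exp ((∑ r, |G (h r)| / B) - R)) s
    rw [e1]
    have e2 := T9a_expsum (ι := Fin m) μ (fun ω => |G ω| / B)
    have e3 : ∀ h : Fin m → Ω, T9a_wt μ h * Real.exp ((∑ r, |G (h r)| / B) - R) =
        Real.exp (-R) * (T9a_wt μ h * Real.exp (∑ r, |G (h r)| / B)) := by
      intro h
      rw [sub_eq_add_neg, Real.exp_add]
      ring
    simp only [e3, ← Finset.mul_sum]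
    rw [e2, Fintype.card_fin]
    calc Real.exp (-R) * (∑ a, μ a * Real.exp (|G a| / B)) ^ m
        ≤ Real.exp (-R) * Real.exp (2 * (D / B)) ^ m :=
          mul_le_mul_of_nonneg_left (pow_le_pow_left₀ hmgf0 hmgf _) (Real.exp_pos _).le
      _ = Real.exp (2 * ((m : ℝ) * D / B) - R) := by
          rw [← Real.exp_nat_mul, ← Real.exp_add]
          congr 1
          ring
      _ ≤ Real.exp (2 - R) := by
          apply Real.exp_le_exp.2
          have : (m : ℝ) * D / B ≤ 1 := (div_le_one hB).2 c1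
          linarith
  simp only [Finset.mul_sum]
  rw [Finset.sum_comm]
  calc ∑ s : Fin N, ∑ f : Fin N → Fin m → Ω, T9a_wt (T9a_wt μ) f *
        Real.exp ((∑ r, |G (f s r)| / B) - R)
      ≤ ∑ s : Fin N, Real.exp (2 - R) := Finset.sum_le_sum fun s _ => hs s
    _ = (N : ℝ) * Real.exp (2 - R) := by simp
    _ ≤ 1 / (8 * n) := by
        rw [le_div_iff₀ (by positivity)]
        linarith

/-! ### assembly -/

theorem window_sampling (p : ℝ) (hp : 1 < p) {Ω P : Type} [Fintype Ω] [Fintype P] [Nonempty P]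
    (μ : Ω → ℝ) (hμ : ∀ ω, 0 ≤ μ ω) (hμ1 : ∑ ω, μ ω = 1) (G : P → Ω → ℝ)
    (B D ε R : ℝ) (hB : 0 < B) (hD : 0 < D) (hε : 0 < ε) (hε1 : ε ≤ 1) (hR : 1 ≤ R)
    (m N : ℕ) (hm : 1 ≤ m) (hN : 1 ≤ N)
    (h1 : ∀ e ω, |G e ω| ≤ B) (h2 : 2 ≤ m → ∀ e, ∑ ω, μ ω * |G e ω| ≤ D)
    (h3 : ∀ e, ∑ ω, μ ω * |G e ω| ^ p ≤ 2 ^ p)
    (c1 : 2 ≤ m → (m : ℝ) * D ≤ B)
    (c2 : 2 ≤ m → 4 * (if 2 ≤ p then (R * B) ^ (p - 2) * ((m : ℝ) * D) ^ 2
      else 2 * ((m : ℝ) * D) ^ p) ≤ m * (ε / 8) ^ p)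
    (c3 : 2 ^ (p + 2) * B ^ p * Real.log (8 * Fintype.card P)
      ≤ (N : ℝ) * m * ((ε / 4) ^ p) ^ 2)
    (c4 : 2 * (R * B) ^ p * Real.log (8 * Fintype.card P) ≤ (N : ℝ) * m * (ε / 8) ^ p)
    (c5 : (N : ℝ) * Fintype.card P * Real.exp (2 - R) ≤ 1 / 8) :
    ∃ f : Fin N → Fin m → Ω, ∀ e,
      |(1 / ((N : ℝ) * m) * ∑ s, |∑ r, G e (f s r)| ^ p) ^ (1 / p)
        - (∑ ω, μ ω * |G e ω| ^ p) ^ (1 / p)| ≤ ε := by
  classical
  have hp0 : 0 < p := by linarith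
  have : NeZero m := ⟨by omega⟩
  set n : ℕ := Fintype.card P with hn
  have hn1 : 1 ≤ n := Fintype.card_pos
  have hn0 : (0 : ℝ) < n := by exact_mod_cast hn1
  have hm0 : (0 : ℝ) < m := by exact_mod_cast hm
  have hN0 : (0 : ℝ) < N := by exact_mod_cast hN
  have hK : 0 < (N : ℝ) * m := by positivity
  have hc0 : 0 < R * B := by positivity
  have hcp : 0 < (R * B) ^ p := Real.rpow_pos_of_pos hc0 _
  set lam : ℝ := (ε / 4) ^ p / (2 * (B ^ p * 2 ^ p)) with hlam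
  have hlam0 : 0 < lam := by positivity
  set A : P → ℝ := fun e => ∑ ω, μ ω * |G e ω| ^ p with hA
  have hA0 : ∀ e, 0 ≤ A e := fun e =>
    Finset.sum_nonneg fun ω _ => mul_nonneg (hμ ω) (Real.rpow_nonneg (abs_nonneg _) _)
  -- the functionals
  set F1 : ℝ → P → (Fin N → Fin m → Ω) → ℝ := fun σ e f =>
    Real.exp (∑ s, ∑ r, σ * lam * (|G e (f s r)| ^ p - A e) -
        lam * ((N : ℝ) * m * (ε / 4) ^ p)) with hF1
  set F2 : P → (Fin N → Fin m → Ω) → ℝ := fun e f =>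
    Real.exp (∑ s, (min (T9a_ex (fun r => G e (f s r))) (R * B)) ^ p / (R * B) ^ p -
        (N : ℝ) * m * (ε / 8) ^ p / (R * B) ^ p) with hF2
  set F3 : P → (Fin N → Fin m → Ω) → ℝ := fun e f =>
    ∑ s, Real.exp ((∑ r, |G e (f s r)| / B) - R) with hF3
  set W : (Fin N → Fin m → Ω) → ℝ := fun f => T9a_wt (T9a_wt μ) f with hW
  have hW0 : ∀ f, 0 ≤ W f := fun f => T9a_wt_nonneg (fun h => T9a_wt_nonneg hμ h) f
  have hW1 : ∑ f, W f = 1 := T9a_sum_wt (T9a_sum_wt hμ1)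
  have hE1 : ∀ e σ, (σ = 1 ∨ σ = -1) → ∑ f, W f * F1 σ e f ≤ 1 / (8 * n) := fun e σ hσ =>
    T9a_F1 hμ hμ1 hp hB hε hε1 m N n hn1 (G e) (h1 e) (h3 e) c3 lam hlam σ hσ
  have hE2 : 2 ≤ m → ∀ e, ∑ f, W f * F2 e f ≤ 1 / (8 * n) := fun hm2 e =>
    T9a_F2 hμ hμ1 hp hB hD hε hR m N n hn1 (G e) (h2 hm2 e) (c2 hm2) c4
  have hE3 : 2 ≤ m → ∀ e, ∑ f, W f * F3 e f ≤ 1 / (8 * n) := fun hm2 e =>
    T9a_F3 hμ hμ1 hB m N n hn1 (G e) (h1 e) (h2 hm2 e) (c1 hm2) c5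
  set F : (Fin N → Fin m → Ω) → ℝ := fun f =>
    ∑ e, (F1 1 e f + F1 (-1) e f + if 2 ≤ m then F2 e f + F3 e f else 0) with hF
  have hEF : ∑ f, W f * F f ≤ 1 / 2 := by
    have e1 : ∑ f, W f * F f = ∑ e, ((∑ f, W f * F1 1 e f) + (∑ f, W f * F1 (-1) e f) +
        if 2 ≤ m then (∑ f, W f * F2 e f) + ∑ f, W f * F3 e f else 0) := by
      simp only [hF, Finset.mul_sum]
      rw [Finset.sum_comm]
      refine Finset.sum_congr rfl fun e _ => ?_
      by_cases hm2 : 2 ≤ m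
      · simp only [hm2, if_true, mul_add, Finset.sum_add_distrib]
      · simp only [hm2, if_false, mul_add, Finset.sum_add_distrib, mul_zero, Finset.sum_const_zero]
    rw [e1]
    calc ∑ e, ((∑ f, W f * F1 1 e f) + (∑ f, W f * F1 (-1) e f) +
        if 2 ≤ m then (∑ f, W f * F2 e f) + ∑ f, W f * F3 e f else 0)
        ≤ ∑ e : P, (4 * (1 / (8 * (n : ℝ)))) := by
          refine Finset.sum_le_sum fun e _ => ?_
          have a1 := hE1 e 1 (Or.inl rfl)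
          have a2 := hE1 e (-1) (Or.inr rfl)
          have a5 : 0 < 1 / (8 * (n : ℝ)) := by positivity
          by_cases hm2 : 2 ≤ m
          · have a3 := hE2 hm2 e
            have a4 := hE3 hm2 e
            simp only [hm2, if_true]
            linarith
          · simp only [hm2, if_false]
            linarith
      _ = 1 / 2 := by
          rw [Finset.sum_const, Finset.card_univ, nsmul_eq_mul, ← hn]
          field_simp
          norm_num
  obtain ⟨f, hf⟩ : ∃ f, F f < 1 := by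
    by_contra hcon
    push Not at hcon
    have : 1 ≤ ∑ f, W f * F f := by
      calc (1 : ℝ) = ∑ f, W f * 1 := by simp [hW1]
        _ ≤ ∑ f, W f * F f :=
          Finset.sum_le_sum fun f _ => mul_le_mul_of_nonneg_left (hcon f) (hW0 f)
    linarith
  refine ⟨f, fun e => ?_⟩
  -- each functional is `< 1` at `f`
  have hF1pos : ∀ σ e, 0 ≤ F1 σ e f := fun σ e => (Real.exp_pos _).le
  have hF2pos : ∀ e, 0 ≤ F2 e f := fun e => (Real.exp_pos _).le
  have hF3pos : ∀ e, 0 ≤ F3 e f := fun e => Finset.sum_nonneg fun s _ => (Real.exp_pos _).le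
  have hterm : F1 1 e f + F1 (-1) e f + (if 2 ≤ m then F2 e f + F3 e f else 0) < 1 := by
    refine lt_of_le_of_lt ?_ hf
    apply Finset.single_le_sum (f := fun e => F1 1 e f + F1 (-1) e f +
      if 2 ≤ m then F2 e f + F3 e f else 0) _ (Finset.mem_univ e)
    intro e' _
    have a1 := hF1pos 1 e'
    have a2 := hF1pos (-1) e'
    have a3 := hF2pos e'
    have a4 := hF3pos e'
    by_cases hm2 : 2 ≤ m
    · simp only [hm2, if_true]; linarith
    · simp only [hm2, if_false]; linarith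
  have hite0 : 0 ≤ (if 2 ≤ m then F2 e f + F3 e f else 0) := by
    by_cases hm2 : 2 ≤ m
    · simp only [hm2, if_true]; linarith [hF2pos e, hF3pos e]
    · simp only [hm2, if_false]; exact le_rfl
  have l1 : F1 1 e f < 1 := by linarith [hF1pos 1 e, hF1pos (-1) e]
  have l2 : F1 (-1) e f < 1 := by linarith [hF1pos 1 e, hF1pos (-1) e]
  have hXs : ∀ σ : ℝ, ∑ s, ∑ r, σ * lam * (|G e (f s r)| ^ p - A e) =
      σ * lam * ((∑ s, ∑ r, |G e (f s r)| ^ p) - (N : ℝ) * m * A e) := by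
    intro σ
    simp only [← Finset.mul_sum]
    congr 1
    simp only [Finset.sum_sub_distrib, Finset.sum_const, Finset.card_univ, Fintype.card_fin,
      nsmul_eq_mul]
    ring
  have g1 : (∑ s, ∑ r, |G e (f s r)| ^ p) - (N : ℝ) * m * A e < (N : ℝ) * m * (ε / 4) ^ p := by
    have := (Real.exp_lt_one_iff).1 l1
    rw [hXs 1] at this
    have h4 : lam * (((∑ s, ∑ r, |G e (f s r)| ^ p) - (N : ℝ) * m * A e) -
      (N : ℝ) * m * (ε / 4) ^ p) < 0 := by linarith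
    by_contra hcon
    push Not at hcon
    have := mul_nonneg hlam0.le (sub_nonneg.2 hcon)
    linarith
  have g2 : -((∑ s, ∑ r, |G e (f s r)| ^ p) - (N : ℝ) * m * A e) < (N : ℝ) * m * (ε / 4) ^ p := by
    have := (Real.exp_lt_one_iff).1 l2
    rw [hXs (-1)] at this
    have h4 : lam * (-((∑ s, ∑ r, |G e (f s r)| ^ p) - (N : ℝ) * m * A e) -
      (N : ℝ) * m * (ε / 4) ^ p) < 0 := by linarith
    by_contra hcon
    push Not at hcon
    have := mul_nonneg hlam0.le (sub_nonneg.2 hcon)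
    linarith
  have hdet1 : |1 / ((N : ℝ) * m) * ∑ s, ∑ r, |G e (f s r)| ^ p - A e| ≤ (ε / 4) ^ p := by
    have e1 : 1 / ((N : ℝ) * m) * ∑ s, ∑ r, |G e (f s r)| ^ p - A e =
        ((∑ s, ∑ r, |G e (f s r)| ^ p) - (N : ℝ) * m * A e) / ((N : ℝ) * m) := by
      field_simp
    rw [e1, abs_div, abs_of_pos hK, div_le_iff₀ hK, abs_le]
    constructor <;> linarith
  refine T9a_det hp hN hε (fun s r => G e (f s r)) (hA0 e) hdet1 ?_
  by_cases hm2 : 2 ≤ m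
  · simp only [hm2, if_true] at hterm
    have l3 : F2 e f < 1 := by
      linarith [hF1pos 1 e, hF1pos (-1) e, hF2pos e, hF3pos e]
    have l4 : F3 e f < 1 := by
      linarith [hF1pos 1 e, hF1pos (-1) e, hF2pos e, hF3pos e]
    have g3 : ∀ s, ∑ r, |G e (f s r)| ≤ R * B := by
      intro s
      have h5 : Real.exp ((∑ r, |G e (f s r)| / B) - R) < 1 := by
        refine lt_of_le_of_lt ?_ l4
        exact Finset.single_le_sum (f := fun s => Real.exp ((∑ r, |G e (f s r)| / B) - R))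
          (fun _ _ => (Real.exp_pos _).le) (Finset.mem_univ s)
      have h6 := (Real.exp_lt_one_iff).1 h5
      rw [← Finset.sum_div] at h6
      have h7 : (∑ r, |G e (f s r)|) / B < R := by linarith
      rw [div_lt_iff₀ hB] at h7
      exact h7.le
    have g4 : ∀ s, min (T9a_ex (fun r => G e (f s r))) (R * B) = T9a_ex (fun r => G e (f s r)) :=
      fun s => min_eq_left ((T9a_ex_le_sum _).trans (g3 s))
    have h8 := (Real.exp_lt_one_iff).1 l3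
    simp only [g4] at h8
    rw [← Finset.sum_div, ← sub_div, div_lt_iff₀ hcp, zero_mul] at h8
    linarith
  · have hm1 : m = 1 := by omega
    have h9 : ∀ s, T9a_ex (fun r => G e (f s r)) = 0 := by
      intro s
      apply le_antisymm _ (T9a_ex_nonneg _)
      unfold T9a_ex
      have hsub : Subsingleton (Fin m) := by subst hm1; infer_instance
      have h10 : ∑ r, |G e (f s r)| = |G e (f s 0)| := by
        rw [Fintype.sum_subsingleton _ (0 : Fin m)]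
      rw [h10]
      have := Finset.le_sup' (fun r => |G e (f s r)|) (Finset.mem_univ (0 : Fin m))
      linarith
    simp only [h9, Real.zero_rpow hp0.ne', Finset.sum_const_zero]
    positivity

end Crest.Agent.S0358
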