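import Crest.Statements.S0359

set_option autoImplicit false
open MeasureTheory
open scoped ENNReal
open Crest Crest.GeometryTopology

namespace Crest.Agent.S0359

theorem strict_super {q x y : ℝ} (hq : 1 < q) (hx : 0 < x) (hy : 0 < y) :
    x ^ q + y ^ q < (x + y) ^ q := by
  have h1 : (x + y) ^ q = x * (x + y) ^ (q - 1) + y * (x + y) ^ (q - 1) := by
    rw [← add_mul, ← Real.rpow_one_add' (by positivity) (by linarith)]
    congr 1; ring
  have h2 : x ^ q = x * x ^ (q - 1) := by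
    rw [← Real.rpow_one_add' hx.le (by linarith)]; congr 1; ring
  have h3 : y ^ q = y * y ^ (q - 1) := by
    rw [← Real.rpow_one_add' hy.le (by linarith)]; congr 1; ring
  rw [h1, h2, h3]
  have h4 : x ^ (q - 1) < (x + y) ^ (q - 1) :=
    Real.rpow_lt_rpow hx.le (by linarith) (by linarith)
  have h5 : y ^ (q - 1) < (x + y) ^ (q - 1) :=
    Real.rpow_lt_rpow hy.le (by linarith) (by linarith)
  have := mul_lt_mul_of_pos_left h4 hx
  have := mul_lt_mul_of_pos_left h5 hy
  linarith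

theorem strict_sub {q x y : ℝ} (hq : q < 1) (hq0 : 0 < q) (hx : 0 < x) (hy : 0 < y) :
    (x + y) ^ q < x ^ q + y ^ q := by
  have hxy : 0 < x + y := by linarith
  have h1 : (x + y) ^ q = x * (x + y) ^ (q - 1) + y * (x + y) ^ (q - 1) := by
    rw [← add_mul, ← Real.rpow_one_add' (by positivity) (by linarith)]
    congr 1; ring
  have h2 : x ^ q = x * x ^ (q - 1) := by
    rw [← Real.rpow_one_add' hx.le (by linarith)]; congr 1; ring
  have h3 : y ^ q = y * y ^ (q - 1) := by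
    rw [← Real.rpow_one_add' hy.le (by linarith)]; congr 1; ring
  rw [h1, h2, h3]
  have h4 : (x + y) ^ (q - 1) < x ^ (q - 1) :=
    Real.rpow_lt_rpow_of_neg hx (by linarith) (by linarith)
  have h5 : (x + y) ^ (q - 1) < y ^ (q - 1) :=
    Real.rpow_lt_rpow_of_neg hy (by linarith) (by linarith)
  have := mul_lt_mul_of_pos_left h4 hx
  have := mul_lt_mul_of_pos_left h5 hy
  linarith

theorem abs_rpow_eq (a p : ℝ) : |a| ^ p = (a ^ 2) ^ (p / 2) := by
  rw [← sq_abs a, ← Real.rpow_natCast, ← Real.rpow_mul (abs_nonneg a)]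
  congr 1; push_cast; ring

/-- the defect in the Clarkson identity -/
noncomputable def gd (p a b : ℝ) : ℝ :=
  |a + b| ^ p + |a - b| ^ p - 2 * |a| ^ p - 2 * |b| ^ p

theorem gd_zero {p a b : ℝ} (hp : 0 < p) (h : a * b = 0) : gd p a b = 0 := by
  unfold gd
  rcases mul_eq_zero.1 h with h | h
  · subst h
    have : |(0:ℝ) - b| = |b| := by rw [zero_sub, abs_neg]
    rw [this, zero_add, abs_zero, Real.zero_rpow hp.ne']; ring
  · subst h
    rw [add_zero, sub_zero, abs_zero, Real.zero_rpow hp.ne']; ring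

theorem gd_pos {p a b : ℝ} (hp : 2 < p) : 0 ≤ gd p a b := by
  have hq : 1 < p / 2 := by linarith
  unfold gd
  rw [abs_rpow_eq (a + b), abs_rpow_eq (a - b), abs_rpow_eq a, abs_rpow_eq b]
  have hc := (convexOn_rpow hq.le).2
    (Set.mem_Ici.2 (sq_nonneg (a + b))) (Set.mem_Ici.2 (sq_nonneg (a - b)))
    (show (0:ℝ) ≤ 1 / 2 by norm_num) (show (0:ℝ) ≤ 1 / 2 by norm_num) (by norm_num)
  simp only [smul_eq_mul] at hc
  have h1 : 1 / 2 * (a + b) ^ 2 + 1 / 2 * (a - b) ^ 2 = a ^ 2 + b ^ 2 := by ring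
  rw [h1] at hc
  have h2 : (a ^ 2) ^ (p / 2) + (b ^ 2) ^ (p / 2) ≤ (a ^ 2 + b ^ 2) ^ (p / 2) := by
    rcases (sq_nonneg a).lt_or_eq with ha | ha
    · rcases (sq_nonneg b).lt_or_eq with hb | hb
      · exact (strict_super hq ha hb).le
      · rw [← hb, add_zero, Real.zero_rpow (by linarith), add_zero]
    · rw [← ha, zero_add, Real.zero_rpow (by linarith), zero_add]
  linarith

theorem gd_eq_zero_of_pos {p a b : ℝ} (hp : 2 < p) (h : gd p a b = 0) : a * b = 0 := by
  by_contra hab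
  have ha : a ≠ 0 := fun h => hab (by rw [h, zero_mul])
  have hb : b ≠ 0 := fun h => hab (by rw [h, mul_zero])
  have hq : 1 < p / 2 := by linarith
  unfold gd at h
  rw [abs_rpow_eq (a + b), abs_rpow_eq (a - b), abs_rpow_eq a, abs_rpow_eq b] at h
  have hc := (convexOn_rpow hq.le).2
    (Set.mem_Ici.2 (sq_nonneg (a + b))) (Set.mem_Ici.2 (sq_nonneg (a - b)))
    (show (0:ℝ) ≤ 1 / 2 by norm_num) (show (0:ℝ) ≤ 1 / 2 by norm_num) (by norm_num)
  simp only [smul_eq_mul] at hc
  have h1 : 1 / 2 * (a + b) ^ 2 + 1 / 2 * (a - b) ^ 2 = a ^ 2 + b ^ 2 := by ring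
  rw [h1] at hc
  have h2 := strict_super hq (x := a ^ 2) (y := b ^ 2) (by positivity) (by positivity)
  linarith

theorem gd_neg {p a b : ℝ} (hp1 : 0 < p) (hp : p < 2) : gd p a b ≤ 0 := by
  have hq : p / 2 < 1 := by linarith
  unfold gd
  rw [abs_rpow_eq (a + b), abs_rpow_eq (a - b), abs_rpow_eq a, abs_rpow_eq b]
  have hc := (Real.concaveOn_rpow (p := p / 2) (by linarith) hq.le).2
    (Set.mem_Ici.2 (sq_nonneg (a + b))) (Set.mem_Ici.2 (sq_nonneg (a - b)))
    (show (0:ℝ) ≤ 1 / 2 by norm_num) (show (0:ℝ) ≤ 1 / 2 by norm_num) (by norm_num)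
  simp only [smul_eq_mul] at hc
  have h1 : 1 / 2 * (a + b) ^ 2 + 1 / 2 * (a - b) ^ 2 = a ^ 2 + b ^ 2 := by ring
  rw [h1] at hc
  have h2 : (a ^ 2 + b ^ 2) ^ (p / 2) ≤ (a ^ 2) ^ (p / 2) + (b ^ 2) ^ (p / 2) := by
    rcases (sq_nonneg a).lt_or_eq with ha | ha
    · rcases (sq_nonneg b).lt_or_eq with hb | hb
      · exact (strict_sub hq (by linarith) ha hb).le
      · rw [← hb, add_zero, Real.zero_rpow (by linarith), add_zero]
    · rw [← ha, zero_add, Real.zero_rpow (by linarith), zero_add]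
  linarith

theorem gd_eq_zero_of_neg {p a b : ℝ} (hp1 : 0 < p) (hp : p < 2) (h : gd p a b = 0) :
    a * b = 0 := by
  by_contra hab
  have ha : a ≠ 0 := fun h => hab (by rw [h, zero_mul])
  have hb : b ≠ 0 := fun h => hab (by rw [h, mul_zero])
  have hq : p / 2 < 1 := by linarith
  unfold gd at h
  rw [abs_rpow_eq (a + b), abs_rpow_eq (a - b), abs_rpow_eq a, abs_rpow_eq b] at h
  have hc := (Real.concaveOn_rpow (p := p / 2) (by linarith) hq.le).2
    (Set.mem_Ici.2 (sq_nonneg (a + b))) (Set.mem_Ici.2 (sq_nonneg (a - b)))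
    (show (0:ℝ) ≤ 1 / 2 by norm_num) (show (0:ℝ) ≤ 1 / 2 by norm_num) (by norm_num)
  simp only [smul_eq_mul] at hc
  have h1 : 1 / 2 * (a + b) ^ 2 + 1 / 2 * (a - b) ^ 2 = a ^ 2 + b ^ 2 := by ring
  rw [h1] at hc
  have h2 := strict_sub hq (by linarith) (x := a ^ 2) (y := b ^ 2) (by positivity) (by positivity)
  linarith

/-- Over a finite index set the total Clarkson defect vanishes iff the supports are disjoint. -/
theorem sum_gd {ι : Type*} [Fintype ι] {p : ℝ} (hp1 : 0 < p) (hp2 : p ≠ 2) (a b : ι → ℝ) :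
    ∑ t, gd p (a t) (b t) = 0 ↔ ∀ t, a t * b t = 0 := by
  constructor
  · intro h t
    rcases lt_or_gt_of_ne hp2 with hp | hp
    · have := (Finset.sum_eq_zero_iff_of_nonpos (fun t _ => gd_neg hp1 hp)).1 h t (Finset.mem_univ t)
      exact gd_eq_zero_of_neg hp1 hp this
    · have := (Finset.sum_eq_zero_iff_of_nonneg (fun t _ => gd_pos hp)).1 h t (Finset.mem_univ t)
      exact gd_eq_zero_of_pos hp this
  · intro h
    exact Finset.sum_eq_zero fun t _ => gd_zero hp1 (h t)

/-- strict convexity of `|.|^p` -/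
theorem abs_rpow_mid {p a b : ℝ} (hp : 1 < p) :
    |a + b| ^ p ≤ 2 ^ (p - 1) * (|a| ^ p + |b| ^ p) := by
  have h0 : |a + b| ≤ |a| + |b| := abs_add_le a b
  have h1 : |a + b| ^ p ≤ (|a| + |b|) ^ p :=
    Real.rpow_le_rpow (abs_nonneg _) h0 (by linarith)
  have hc := (convexOn_rpow hp.le).2
    (Set.mem_Ici.2 (abs_nonneg a)) (Set.mem_Ici.2 (abs_nonneg b))
    (show (0:ℝ) ≤ 1 / 2 by norm_num) (show (0:ℝ) ≤ 1 / 2 by norm_num) (by norm_num)
  simp only [smul_eq_mul] at hc
  have h2 : (1 / 2 * |a| + 1 / 2 * |b|) ^ p = (|a| + |b|) ^ p * (2 ^ p)⁻¹ := by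
    rw [← mul_add, Real.mul_rpow (by norm_num) (by positivity), one_div,
      Real.inv_rpow (by norm_num), mul_comm]
  rw [h2] at hc
  have h3 : (0 : ℝ) < 2 ^ p := by positivity
  rw [mul_inv_le_iff₀ h3] at hc
  have h4 : (2 : ℝ) ^ (p - 1) = 2 ^ p * (1 / 2) := by
    rw [Real.rpow_sub_one (by norm_num)]; ring
  rw [h4]
  nlinarith

theorem eq_of_abs_rpow_mid {p a b : ℝ} (hp : 1 < p)
    (h : |a + b| ^ p = 2 ^ (p - 1) * (|a| ^ p + |b| ^ p)) : a = b := by
  have h0 : |a + b| ≤ |a| + |b| := abs_add_le a b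
  have h4 : (2 : ℝ) ^ (p - 1) = 2 ^ p * (1 / 2) := by
    rw [Real.rpow_sub_one (by norm_num)]; ring
  have h2 : (1 / 2 * |a| + 1 / 2 * |b|) ^ p = (|a| + |b|) ^ p * (2 ^ p)⁻¹ := by
    rw [← mul_add, Real.mul_rpow (by norm_num) (by positivity), one_div,
      Real.inv_rpow (by norm_num), mul_comm]
  have h3 : (0 : ℝ) < 2 ^ p := by positivity
  have habs : |a| = |b| := by
    by_contra hne
    have hc := (strictConvexOn_rpow hp).2
      (Set.mem_Ici.2 (abs_nonneg a)) (Set.mem_Ici.2 (abs_nonneg b)) hne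
      (show (0:ℝ) < 1 / 2 by norm_num) (show (0:ℝ) < 1 / 2 by norm_num) (by norm_num)
    simp only [smul_eq_mul] at hc
    rw [h2, mul_inv_lt_iff₀ h3] at hc
    have h1 : |a + b| ^ p ≤ (|a| + |b|) ^ p :=
      Real.rpow_le_rpow (abs_nonneg _) h0 (by linarith)
    rw [h, h4] at h1
    nlinarith
  rcases abs_eq_abs.1 habs with h5 | h5
  · exact h5
  · subst h5
    rw [neg_add_cancel, abs_zero, Real.zero_rpow (by linarith), abs_neg] at h
    have : |b| ^ p = 0 := by
      have : (0:ℝ) < 2 ^ (p - 1) := by positivity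
      have h6 : |b| ^ p + |b| ^ p = 0 := by
        rcases mul_eq_zero.1 h.symm with h7 | h7
        · linarith
        · exact h7
      linarith
    have hb : |b| = 0 := (Real.rpow_eq_zero (abs_nonneg b) (by linarith)).1 this
    rw [abs_eq_zero] at hb
    rw [hb, neg_zero]


section L

variable {ι : Type} [Fintype ι] [MeasurableSpace ι] [DiscreteMeasurableSpace ι]
variable (p : ℝ≥0∞)

/-- vectors as elements of `L^p` of the counting measure -/
noncomputable def toL (v : ι → ℝ) : Lp ℝ p (Measure.count : Measure ι) :=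
  (MemLp.of_discrete : MemLp v p (Measure.count : Measure ι)).toLp v

theorem toL_sub (v w : ι → ℝ) : toL p v - toL p w = toL p (v - w) :=
  (MemLp.toLp_sub _ _).symm

theorem toL_neg (v : ι → ℝ) : -toL p v = toL p (-v) :=
  (MemLp.toLp_neg _).symm

theorem norm_toL (hp1 : 1 < p) (hptop : p ≠ ⊤) (v : ι → ℝ) :
    ‖toL p v‖ ^ p.toReal = ∑ t, |v t| ^ p.toReal := by
  have hp0 : p ≠ 0 := (zero_lt_one.trans hp1).ne'
  have hpr : 0 < p.toReal := ENNReal.toReal_pos hp0 hptop
  rw [toL, Lp.norm_toLp, eLpNorm_eq_lintegral_rpow_enorm_toReal hp0 hptop, lintegral_count,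
    tsum_fintype, ENNReal.toReal_rpow, ← ENNReal.rpow_mul, one_div, inv_mul_cancel₀ hpr.ne',
    ENNReal.rpow_one, ENNReal.toReal_sum]
  · refine Finset.sum_congr rfl fun t _ => ?_
    rw [← ENNReal.toReal_rpow]
    simp
  · intro t _
    exact ENNReal.rpow_ne_top_of_nonneg hpr.le (by simp)

theorem norm_pi {d : ℕ} (hp1 : 1 < p) (hptop : p ≠ ⊤) (v : PiLp p (fun _ : Fin d => ℝ)) :
    ‖v‖ ^ p.toReal = ∑ t, |v t| ^ p.toReal := by
  have hp0 : p ≠ 0 := (zero_lt_one.trans hp1).ne'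
  have hpr : 0 < p.toReal := ENNReal.toReal_pos hp0 hptop
  rw [PiLp.norm_eq_sum hpr, ← Real.rpow_mul (Finset.sum_nonneg fun t _ =>
    Real.rpow_nonneg (norm_nonneg _) _), one_div, inv_mul_cancel₀ hpr.ne', Real.rpow_one]
  rfl

end L


section Main

variable {p : ℝ≥0∞} [Fact (1 ≤ p)] {d : ℕ}

theorem anti (hp1 : 1 < p) (hptop : p ≠ ⊤) (a b : PiLp p (fun _ : Fin d => ℝ)) (R : ℝ)
    (hR : 0 ≤ R) (ha : ‖a‖ = R) (hb : ‖b‖ = R) (hab : ‖a + b‖ = 2 * R) : a = b := by
  have hpr1 : 1 < p.toReal := by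
    have := (ENNReal.toReal_lt_toReal ENNReal.one_ne_top hptop).2 hp1
    simpa using this
  have e1 := norm_pi p hp1 hptop a
  have e2 := norm_pi p hp1 hptop b
  have e3 := norm_pi p hp1 hptop (a + b)
  rw [ha] at e1; rw [hb] at e2
  rw [hab, Real.mul_rpow (by norm_num) hR] at e3
  have h4 : (2 : ℝ) ^ (p.toReal - 1) = 2 ^ p.toReal * (1 / 2) := by
    rw [Real.rpow_sub_one (by norm_num)]; ring
  have hsum : ∑ t, (2 ^ (p.toReal - 1) * (|a t| ^ p.toReal + |b t| ^ p.toReal)
      - |a t + b t| ^ p.toReal) = 0 := by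
    rw [Finset.sum_sub_distrib, ← Finset.mul_sum, Finset.sum_add_distrib, ← e1, ← e2, h4]
    have : ∑ t, |a t + b t| ^ p.toReal = ∑ t, |(a + b) t| ^ p.toReal := rfl
    rw [this, ← e3]
    ring
  have hz := (Finset.sum_eq_zero_iff_of_nonneg (fun t _ => by
    have := abs_rpow_mid (a := a t) (b := b t) hpr1
    linarith)).1 hsum
  ext t
  have := hz t (Finset.mem_univ t)
  exact eq_of_abs_rpow_mid hpr1 (by linarith)

theorem sum_gd_pi (hp1 : 1 < p) (hptop : p ≠ ⊤) (a b : PiLp p (fun _ : Fin d => ℝ)) :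
    ∑ t, gd p.toReal (a t) (b t) = ‖a + b‖ ^ p.toReal + ‖a - b‖ ^ p.toReal
      - 2 * ‖a‖ ^ p.toReal - 2 * ‖b‖ ^ p.toReal := by
  rw [norm_pi p hp1 hptop a, norm_pi p hp1 hptop b, norm_pi p hp1 hptop (a + b),
    norm_pi p hp1 hptop (a - b)]
  simp only [gd, Finset.sum_sub_distrib, Finset.sum_add_distrib, Finset.mul_sum]
  rfl

theorem sum_gd_toL {ι : Type} [Fintype ι] [MeasurableSpace ι] [DiscreteMeasurableSpace ι]
    (hp1 : 1 < p) (hptop : p ≠ ⊤) (a b : ι → ℝ) :
    ∑ t, gd p.toReal (a t) (b t) = ‖toL p a + toL p b‖ ^ p.toReal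
      + ‖toL p a - toL p b‖ ^ p.toReal
      - 2 * ‖toL p a‖ ^ p.toReal - 2 * ‖toL p b‖ ^ p.toReal := by
  have h : toL p a + toL p b = toL p (a + b) := by
    have := toL_sub p a (-b)
    rwa [← toL_neg, sub_neg_eq_add, sub_neg_eq_add] at this
  rw [h, toL_sub, norm_toL p hp1 hptop, norm_toL p hp1 hptop, norm_toL p hp1 hptop,
    norm_toL p hp1 hptop]
  simp only [gd, Finset.sum_sub_distrib, Finset.sum_add_distrib, Finset.mul_sum]
  rfl

/-- row indicator -/
noncomputable def rr {m : ℕ} (i : Fin m) : Fin m × Fin m → ℝ := fun t => if t.1 = i then 1 else 0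

/-- column indicator -/
noncomputable def cc {m : ℕ} (j : Fin m) : Fin m × Fin m → ℝ := fun t => if t.2 = j then 1 else 0

end Main

/-- Fix an exponent 1 < p < ∞ with p ≠ 2 and n ≥ 9. If d is a dimension such that every n distinct points of any real L^p space can be mapped to the d-dimensional real ℓ^p space with all pairwise distances multiplied by one common factor s > 0 (an isometric embedding up to scaling), then ⌊(n − 1)/4⌋² ≤ d. -/
theorem result
    (p : ℝ≥0∞) [Fact (1 ≤ p)] (hp1 : 1 < p) (hptop : p ≠ ⊤) (hp2 : p ≠ 2)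
    (n : ℕ) (hn : 9 ≤ n) (d : ℕ)
    (hd : ∀ (α : Type) [MeasurableSpace α] (μ : Measure α) (x : Fin n → Lp ℝ p μ),
      Function.Injective x →
      ∃ (y : Fin n → PiLp p (fun _ : Fin d => ℝ)) (s : ℝ), 0 < s ∧
        ∀ i j, ‖y i - y j‖ = s * ‖x i - x j‖) :
    ((n - 1) / 4) ^ 2 ≤ d := by
  classical
  have hp0 : p ≠ 0 := (zero_lt_one.trans hp1).ne'
  have hpr : 0 < p.toReal := ENNReal.toReal_pos hp0 hptop
  have hpr2 : p.toReal ≠ 2 := by
    intro h
    apply hp2
    rw [← ENNReal.ofReal_toReal hptop, h]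
    norm_num
  obtain ⟨m, hm⟩ : ∃ m, m = (n - 1) / 4 := ⟨_, rfl⟩
  rw [← hm]
  have hm2 : 2 ≤ m := by omega
  have hmn : 4 * m + 1 ≤ n := by omega
  let E := Lp ℝ p (Measure.count : Measure (Fin m × Fin m))
  -- the space is infinite
  let i0 : Fin m := ⟨0, by omega⟩
  have hne : (toL p (rr i0) : E) ≠ 0 := by
    intro h
    have h1 := norm_toL p hp1 hptop (rr i0)
    rw [h, norm_zero, Real.zero_rpow hpr.ne'] at h1
    have h2 := (Finset.sum_eq_zero_iff_of_nonneg (fun t _ =>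
      Real.rpow_nonneg (abs_nonneg (rr i0 t)) p.toReal)).1 h1.symm (i0, i0) (Finset.mem_univ _)
    simp [rr] at h2
  have : Infinite E := Infinite.of_injective (fun s : ℝ => s • (toL p (rr i0) : E))
    (smul_left_injective ℝ hne)
  -- the configuration
  let P : Finset E := {0} ∪ (Finset.univ.image (fun i : Fin m => (toL p (rr i) : E)))
    ∪ (Finset.univ.image (fun i : Fin m => -(toL p (rr i) : E)))
    ∪ (Finset.univ.image (fun i : Fin m => (toL p (cc i) : E)))
    ∪ (Finset.univ.image (fun i : Fin m => -(toL p (cc i) : E)))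
  have hPcard : P.card ≤ n := by
    have hi : ∀ f : Fin m → E, (Finset.univ.image f).card ≤ m := fun f =>
      Finset.card_image_le.trans (by simp)
    have h1 := hi (fun i : Fin m => (toL p (rr i) : E))
    have h2 := hi (fun i : Fin m => -(toL p (rr i) : E))
    have h3 := hi (fun i : Fin m => (toL p (cc i) : E))
    have h4 := hi (fun i : Fin m => -(toL p (cc i) : E))
    have h5 : ({0} : Finset E).card = 1 := Finset.card_singleton _
    refine le_trans ?_ hmn
    refine (Finset.card_union_le _ _).trans ?_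
    refine (Nat.add_le_add (Finset.card_union_le _ _) h4).trans ?_
    refine (Nat.add_le_add (Nat.add_le_add (Finset.card_union_le _ _) h3) le_rfl).trans ?_
    refine (Nat.add_le_add (Nat.add_le_add (Nat.add_le_add (Finset.card_union_le _ _) h2)
      le_rfl) le_rfl).trans ?_
    omega
  obtain ⟨Q, hPQ, hQ⟩ := Infinite.exists_superset_card_eq P n hPcard
  let e : Q ≃ Fin n := Finset.equivFinOfCardEq hQ
  obtain ⟨y, s, hs, hy⟩ := hd (Fin m × Fin m) Measure.count (fun k => ((e.symm k : Q) : E))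
    (fun a b h => e.symm.injective (Subtype.ext h))
  -- the image of a vector
  let Z : E → PiLp p (fun _ : Fin d => ℝ) := fun v => if h : v ∈ Q then y (e ⟨v, h⟩) else 0
  have hZ : ∀ v ∈ Q, ∀ w ∈ Q, ‖Z v - Z w‖ = s * ‖v - w‖ := by
    intro v hv w hw
    simp only [Z, dif_pos hv, dif_pos hw]
    rw [hy]
    simp
  have h0Q : (0 : E) ∈ Q := hPQ (by simp [P])
  have hrQ : ∀ i, (toL p (rr i) : E) ∈ Q := fun i => hPQ (by simp [P])
  have hrQ' : ∀ i, -(toL p (rr i) : E) ∈ Q := fun i => hPQ (by simp [P])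
  have hcQ : ∀ i, (toL p (cc i) : E) ∈ Q := fun i => hPQ (by simp [P])
  have hcQ' : ∀ i, -(toL p (cc i) : E) ∈ Q := fun i => hPQ (by simp [P])
  let W : E → PiLp p (fun _ : Fin d => ℝ) := fun v => Z v - Z 0
  have hW : ∀ v ∈ Q, ∀ w ∈ Q, ‖W v - W w‖ = s * ‖v - w‖ := by
    intro v hv w hw
    simp only [W, sub_sub_sub_cancel_right]
    exact hZ v hv w hw
  have hWn : ∀ v ∈ Q, ‖W v‖ = s * ‖v‖ := by
    intro v hv
    have := hZ v hv 0 h0Q
    rwa [sub_zero] at this
  have hWneg : ∀ v ∈ Q, -v ∈ Q → W (-v) = -W v := by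
    intro v hv hv'
    have h := anti hp1 hptop (W v) (-W (-v)) (s * ‖v‖) (by positivity) (hWn v hv)
      (by rw [norm_neg, hWn _ hv', norm_neg]) (by
        rw [← sub_eq_add_neg, hW v hv (-v) hv', sub_neg_eq_add, ← two_smul ℝ v, norm_smul]
        simp; ring)
    rw [h, neg_neg]
  have key : ∀ a b : Fin m × Fin m → ℝ, (toL p a : E) ∈ Q → (toL p b : E) ∈ Q →
      -(toL p b : E) ∈ Q →
      ((∀ t, W (toL p a) t * W (toL p b) t = 0) ↔ (∀ t, a t * b t = 0)) := by
    intro a b ha hb hb'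
    rw [← sum_gd hpr hpr2, ← sum_gd hpr hpr2, sum_gd_pi hp1 hptop, sum_gd_toL hp1 hptop]
    have h1 : ‖W (toL p a) + W (toL p b)‖ = s * ‖(toL p a : E) + toL p b‖ := by
      have := hW _ ha _ hb'
      rwa [hWneg _ hb hb', sub_neg_eq_add, sub_neg_eq_add] at this
    rw [h1, hW _ ha _ hb, hWn _ ha, hWn _ hb, Real.mul_rpow hs.le (norm_nonneg _),
      Real.mul_rpow hs.le (norm_nonneg _), Real.mul_rpow hs.le (norm_nonneg _),
      Real.mul_rpow hs.le (norm_nonneg _)]
    have hsp : 0 < s ^ p.toReal := by positivity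
    constructor
    · intro h
      have : s ^ p.toReal * (‖(toL p a : E) + toL p b‖ ^ p.toReal
        + ‖(toL p a : E) - toL p b‖ ^ p.toReal
        - 2 * ‖(toL p a : E)‖ ^ p.toReal - 2 * ‖(toL p b : E)‖ ^ p.toReal) = 0 := by
        rw [← h]; ring
      exact (mul_eq_zero.1 this).resolve_left hsp.ne'
    · intro h
      have : s ^ p.toReal * (‖(toL p a : E) + toL p b‖ ^ p.toReal
        + ‖(toL p a : E) - toL p b‖ ^ p.toReal
        - 2 * ‖(toL p a : E)‖ ^ p.toReal - 2 * ‖(toL p b : E)‖ ^ p.toReal) = 0 := by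
        rw [h, mul_zero]
      rw [← this]; ring
  have hex : ∀ q : Fin m × Fin m, ∃ t : Fin d, W (toL p (rr q.1)) t * W (toL p (cc q.2)) t ≠ 0 := by
    intro q
    by_contra hcon
    push Not at hcon
    have := (key _ _ (hrQ q.1) (hcQ q.2) (hcQ' q.2)).1 hcon q
    simp [rr, cc] at this
  choose T hT using hex
  have hinj : Function.Injective T := by
    intro q q' hqq
    have h1 := hT q
    have h2 := hT q'
    rw [← hqq] at h2
    have a1 := left_ne_zero_of_mul h1
    have a2 := right_ne_zero_of_mul h1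
    have b1 := left_ne_zero_of_mul h2
    have b2 := right_ne_zero_of_mul h2
    refine Prod.ext ?_ ?_
    · by_contra hne
      have := (key _ _ (hrQ q.1) (hrQ q'.1) (hrQ' q'.1)).2 (fun t => by
        simp only [rr]
        by_cases h : t.1 = q.1
        · have : t.1 ≠ q'.1 := fun h' => hne (h.symm.trans h')
          simp [this]
        · simp [h]) (T q)
      exact (mul_ne_zero a1 b1) this
    · by_contra hne
      have := (key _ _ (hcQ q.2) (hcQ q'.2) (hcQ' q'.2)).2 (fun t => by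
        simp only [cc]
        by_cases h : t.2 = q.2
        · have : t.2 ≠ q'.2 := fun h' => hne (h.symm.trans h')
          simp [this]
        · simp [h]) (T q)
      exact (mul_ne_zero a2 b2) this
  have := Fintype.card_le_of_injective T hinj
  simpa [sq] using this

end Crest.Agent.S0359
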