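import Mathlib

set_option autoImplicit false

namespace Crest.Agent.S0504

/-- layer types: the periodic word `(yz)^L z` -/
def isP (L t : ℕ) : Prop := (t % (2 * L + 1)) % 2 = 0 ∧ t % (2 * L + 1) ≠ 2 * L

instance (L t : ℕ) : Decidable (isP L t) := by unfold isP; infer_instance

abbrev Quad (n : ℕ) := Fin n × Fin n × Fin n × Fin n

/-- compatibility of one layer: the edges `1,3` and `2,4` agree as multisets. -/
def quadOk {n : ℕ} (a b : Quad n) : Prop :=
  ((a.1, b.1) = (a.2.1, b.2.1) ∧ (a.2.2.1, b.2.2.1) = (a.2.2.2, b.2.2.2)) ∨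
  ((a.1, b.1) = (a.2.2.2, b.2.2.2) ∧ (a.2.2.1, b.2.2.1) = (a.2.1, b.2.1))

instance {n : ℕ} (a b : Quad n) : Decidable (quadOk a b) := by unfold quadOk; infer_instance

/-- one layer of the quadruple kernel -/
noncomputable def kern (n : ℕ) (p q : ℝ) (isp : Prop) [Decidable isp] : Matrix (Quad n) (Quad n) ℝ :=
  Matrix.of fun a b =>
    if quadOk a b then
      if isp then (if (a.1, b.1) ≠ (a.2.2.2, b.2.2.2) then p else 1)
      else (if (a.1, b.1) ≠ (a.2.1, b.2.1) then q else 1)
    else 0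

end Crest.Agent.S0504
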