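import Mathlib

set_option autoImplicit false

namespace Crest.Agent.S0504

lemma mc_succ (a x : ℕ) (ha : 1 ≤ a) :
    ((a.multichoose (x + 1) : ℕ) : ℝ) * (x + 1) = (a.multichoose x : ℕ) * (a + x) := by
  obtain ⟨a, rfl⟩ : ∃ b, a = b + 1 := ⟨a - 1, by omega⟩
  rw [Nat.multichoose_eq, Nat.multichoose_eq]
  have h := Nat.add_one_mul_choose_eq (a + x) x
  have e1 : a + 1 + (x + 1) - 1 = a + x + 1 := by omega
  have e2 : a + 1 + x - 1 = a + x := by omega
  rw [e1, e2]
  have h' : (((a + x + 1) * (a + x).choose x : ℕ) : ℝ) =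
      (((a + x + 1).choose (x + 1) * (x + 1) : ℕ) : ℝ) := by exact_mod_cast h
  push_cast at h' ⊢
  linarith

lemma mc_pos (a x : ℕ) (ha : 1 ≤ a) : (0 : ℝ) < (a.multichoose x : ℕ) := by
  have : 0 < a.multichoose x := by
    rw [Nat.multichoose_eq]
    apply Nat.choose_pos
    omega
  exact_mod_cast this

lemma mc_down (a x : ℕ) (R : ℝ) (hR : 1 ≤ R) (ha : 1 ≤ a) (h : (R - 1) * x + 1 ≤ a) (c : ℕ) :
    c ≤ x → ((a.multichoose (x - c) : ℕ) : ℝ) ≤ (a.multichoose x : ℕ) / R ^ c := by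
  induction c with
  | zero => intro _; simp
  | succ c ih =>
    intro hc
    have ih' := ih (by omega)
    have hs := mc_succ a (x - (c + 1)) ha
    have e1 : x - (c + 1) + 1 = x - c := by omega
    rw [e1] at hs
    have hxc : ((x - (c + 1) : ℕ) : ℝ) = (x : ℝ) - (c + 1) := by
      rw [Nat.cast_sub hc]; push_cast; ring
    rw [hxc] at hs
    have hx0 : (c : ℝ) + 1 ≤ x := by exact_mod_cast hc
    have hM0 := mc_pos a (x - (c + 1)) ha
    have hM1 := mc_pos a (x - c) ha
    -- M(x-c-1) * (a + x - c - 1) = M(x-c) * (x-c)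
    have key : ((a.multichoose (x - (c + 1)) : ℕ) : ℝ) * R ≤ (a.multichoose (x - c) : ℕ) := by
      have h2 : R * ((x : ℝ) - c) ≤ a + (x - (c + 1)) := by nlinarith
      have h3 : 0 < (x : ℝ) - c := by linarith
      have h4 : ((a.multichoose (x - (c + 1)) : ℕ) : ℝ) * (R * ((x : ℝ) - c)) ≤
          (a.multichoose (x - c) : ℕ) * ((x : ℝ) - c) := by
        calc _ ≤ ((a.multichoose (x - (c + 1)) : ℕ) : ℝ) * (a + (x - (c + 1))) :=
              mul_le_mul_of_nonneg_left h2 hM0.le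
          _ = _ := by rw [← hs]; ring
      have h5 : (((a.multichoose (x - (c + 1)) : ℕ) : ℝ) * R) * ((x : ℝ) - c) ≤
          (a.multichoose (x - c) : ℕ) * ((x : ℝ) - c) := by linarith [h4]
      exact le_of_mul_le_mul_right h5 h3
    have hR0 : 0 < R := by linarith
    rw [pow_succ, ← div_div, le_div_iff₀ hR0]
    exact key.trans ih'

lemma mc_up (b x : ℕ) (R : ℝ) (hR : 1 ≤ R) (hb : 1 ≤ b) (h : (b : ℝ) ≤ (R - 1) * x + 1) (c : ℕ) :
    ((b.multichoose (x + c) : ℕ) : ℝ) ≤ (b.multichoose x : ℕ) * R ^ c := by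
  induction c with
  | zero => simp
  | succ c ih =>
    have hs := mc_succ b (x + c) hb
    push_cast at hs
    have hM0 := mc_pos b (x + c) hb
    have h2 : (b : ℝ) + (x + c) ≤ R * (x + c + 1) := by
      have : (0 : ℝ) ≤ c := by positivity
      nlinarith
    have h3 : (0 : ℝ) < (x : ℝ) + c + 1 := by positivity
    have h4 : ((b.multichoose (x + (c + 1)) : ℕ) : ℝ) * ((x : ℝ) + c + 1) ≤
        ((b.multichoose (x + c) : ℕ) * R) * ((x : ℝ) + c + 1) := by
      calc ((b.multichoose (x + (c + 1)) : ℕ) : ℝ) * ((x : ℝ) + c + 1)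
          = (b.multichoose (x + c) : ℕ) * ((b : ℝ) + (x + c)) := by
            rw [← hs]; rfl
        _ ≤ (b.multichoose (x + c) : ℕ) * (R * (x + c + 1)) :=
            mul_le_mul_of_nonneg_left h2 hM0.le
        _ = _ := by ring
    have h5 := le_of_mul_le_mul_right h4 h3
    calc _ ≤ ((b.multichoose (x + c) : ℕ) : ℝ) * R := h5
      _ ≤ ((b.multichoose x : ℕ) * R ^ c) * R := by
          apply mul_le_mul_of_nonneg_right ih (by linarith)
      _ = _ := by ring

lemma mc_lower (a x : ℕ) (R : ℝ) (hR : 1 ≤ R) (ha : 1 ≤ a) (h : (a : ℝ) = (R - 1) * x + 1)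
    (hx : 1 ≤ x) (c : ℕ) : c ≤ x →
      ((a.multichoose x : ℕ) / R ^ c) * (1 - (c : ℝ) ^ 2 / x) ≤ ((a.multichoose (x - c) : ℕ) : ℝ)
      := by
  induction c with
  | zero => intro _; simp
  | succ c ih =>
    intro hc
    have ih' := ih (by omega)
    have hs := mc_succ a (x - (c + 1)) ha
    have e1 : x - (c + 1) + 1 = x - c := by omega
    rw [e1] at hs
    have hxc : ((x - (c + 1) : ℕ) : ℝ) = (x : ℝ) - (c + 1) := by
      rw [Nat.cast_sub hc]; push_cast; ring
    rw [hxc] at hs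
    have hx0 : (c : ℝ) + 1 ≤ x := by exact_mod_cast hc
    have hx1 : (1 : ℝ) ≤ x := by exact_mod_cast hx
    have hM0 := mc_pos a (x - (c + 1)) ha
    have hM1 := mc_pos a (x - c) ha
    have hM := mc_pos a x ha
    have hR0 : 0 < R := by linarith
    have hc0 : (0 : ℝ) ≤ c := by positivity
    -- M(x-c-1) * (R x - c) = M(x-c) * (x-c)
    have hs' : ((a.multichoose (x - c) : ℕ) : ℝ) * ((x : ℝ) - c) =
        (a.multichoose (x - (c + 1)) : ℕ) * (R * x - c) := by
      have : (a : ℝ) + (x - (c + 1)) = R * x - c := by rw [h]; ring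
      rw [← this, ← hs]; ring
    have hxc0 : 0 < (x : ℝ) - c := by linarith
    have hRx : 0 < R * x := by positivity
    -- M(x-c-1) ≥ M(x-c) (x-c) / (R x)
    have h1 : ((a.multichoose (x - c) : ℕ) : ℝ) * ((x : ℝ) - c) ≤
        (a.multichoose (x - (c + 1)) : ℕ) * (R * x) := by
      rw [hs']
      apply mul_le_mul_of_nonneg_left _ hM0.le
      linarith
    have h2 : ((a.multichoose (x - c) : ℕ) : ℝ) * (1 - c / x) / R ≤
        (a.multichoose (x - (c + 1)) : ℕ) := by
      rw [div_le_iff₀ hR0]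
      have : ((a.multichoose (x - c) : ℕ) : ℝ) * (1 - c / x) =
          (((a.multichoose (x - c) : ℕ) : ℝ) * (x - c)) / x := by
        field_simp
      rw [this, div_le_iff₀ (by linarith)]
      linarith [h1]
    refine le_trans ?_ h2
    have h3 : 0 ≤ 1 - (c : ℝ) / x := by
      rw [sub_nonneg, div_le_one (by linarith)]; linarith
    have h4 : ((a.multichoose x : ℕ) / R ^ c) * (1 - (c : ℝ) ^ 2 / x) * (1 - c / x) / R ≤
        ((a.multichoose (x - c) : ℕ) : ℝ) * (1 - c / x) / R := by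
      apply div_le_div_of_nonneg_right _ hR0.le
      exact mul_le_mul_of_nonneg_right ih' h3
    refine le_trans ?_ h4
    have h5 : ((a.multichoose x : ℕ) / R ^ (c + 1)) * (1 - ((c + 1 : ℕ) : ℝ) ^ 2 / x) ≤
        ((a.multichoose x : ℕ) / R ^ (c + 1)) * ((1 - (c : ℝ) ^ 2 / x) * (1 - c / x)) := by
      apply mul_le_mul_of_nonneg_left _ (by positivity)
      have : (1 - (c : ℝ) ^ 2 / x) * (1 - c / x) =
          1 - ((c : ℝ) ^ 2 + c) / x + (c : ℝ) ^ 3 / x ^ 2 := by field_simp; ring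
      rw [this]
      push_cast
      have h6 : ((c : ℝ) ^ 2 + c) / x ≤ ((c : ℝ) + 1) ^ 2 / x := by
        apply div_le_div_of_nonneg_right _ (by linarith)
        nlinarith
      have h7 : 0 ≤ (c : ℝ) ^ 3 / x ^ 2 := by positivity
      linarith
    refine h5.trans (le_of_eq ?_)
    rw [pow_succ]
    field_simp

end Crest.Agent.S0504
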