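import Mathlib
import Crest.Prelude.Def_SPSPS
set_option autoImplicit false
namespace Crest.Agent.S0504
open MvPolynomial Crest.ArithCircuit

/-- symmetric real matrices: `(tr G)^2 ≤ rank G * tr (G^2)` -/
theorem trace_sq_le_rank_mul {C : Type*} [Fintype C] [DecidableEq C] (G : Matrix C C ℝ)
    (hG : G.IsHermitian) : (G.trace) ^ 2 ≤ (G.rank : ℝ) * (G * G).trace := by
  have h1 : G.trace = ∑ i, hG.eigenvalues i := by
    simpa using hG.trace_eq_sum_eigenvalues
  have h2 : (G * G).trace = ∑ i, (hG.eigenvalues i) ^ 2 := by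
    have hs := hG.spectral_theorem
    set U := hG.eigenvectorUnitary
    set D : Matrix C C ℝ := Matrix.diagonal ((RCLike.ofReal : ℝ → ℝ) ∘ hG.eigenvalues)
    have : G * G = Unitary.conjStarAlgAut ℝ _ U (D * D) := by
      conv_lhs => rw [hs]
      rw [map_mul]
    rw [this, Unitary.conjStarAlgAut_apply, Matrix.trace_mul_cycle]
    simp [D, Matrix.diagonal_mul_diagonal, Matrix.trace_diagonal, pow_two]
  have h3 : G.rank = Fintype.card {i // hG.eigenvalues i ≠ 0} := hG.rank_eq_card_non_zero_eigs
  rw [h1, h2, h3, Fintype.card_subtype]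
  have h4 : ∑ i, hG.eigenvalues i
      = ∑ i ∈ Finset.univ.filter (fun i => hG.eigenvalues i ≠ 0), hG.eigenvalues i := by
    rw [Finset.sum_filter_ne_zero]
  have h5 : ∑ i, (hG.eigenvalues i) ^ 2
      = ∑ i ∈ Finset.univ.filter (fun i => hG.eigenvalues i ≠ 0), (hG.eigenvalues i) ^ 2 := by
    rw [Finset.sum_filter]
    apply Finset.sum_congr rfl
    intro i _
    by_cases h : hG.eigenvalues i = 0 <;> simp [h]
  rw [h4, h5]
  exact sq_sum_le_card_mul_sum_sq

/-- rank of the image of a rational matrix in a field extension -/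
theorem rank_map_rat_le {L : Type*} [Field L] [Algebra ℚ L] {R C : Type*} [Fintype R] [Fintype C]
    (M : Matrix R C ℚ) : (M.map (algebraMap ℚ L)).rank ≤ M.rank := by
  classical
  rw [Matrix.rank_eq_finrank_span_cols, Matrix.rank_eq_finrank_span_cols]
  set s : Submodule ℚ (R → ℚ) := Submodule.span ℚ (Set.range M.col) with hs
  let b := Module.finBasis ℚ s
  let g : (R → ℚ) → (R → L) := fun v => algebraMap ℚ L ∘ v
  have key : Submodule.span L (Set.range (M.map (algebraMap ℚ L)).col)
      ≤ Submodule.span L (Set.range fun i => g (b i : R → ℚ)) := by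
    rw [Submodule.span_le]
    rintro _ ⟨c, rfl⟩
    have hc : M.col c ∈ s := Submodule.subset_span ⟨c, rfl⟩
    have hrep := b.sum_repr ⟨M.col c, hc⟩
    have hrep2 : M.col c = ∑ i, (b.repr ⟨M.col c, hc⟩ i) • (b i : R → ℚ) := by
      have h := congrArg s.subtype hrep
      rw [map_sum] at h
      simpa only [map_smul, Submodule.subtype_apply] using h.symm
    have : (M.map (algebraMap ℚ L)).col c
        = ∑ i, (algebraMap ℚ L (b.repr ⟨M.col c, hc⟩ i)) • g (b i : R → ℚ) := by
      ext r
      have h := congrFun hrep2 r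
      simp only [Matrix.col_apply, Finset.sum_apply, Pi.smul_apply, smul_eq_mul] at h
      simp only [Matrix.col_apply, Matrix.map_apply, Finset.sum_apply, Pi.smul_apply, smul_eq_mul, g,
        Function.comp_apply]
      rw [h, map_sum]
      exact Finset.sum_congr rfl fun x _ => map_mul _ _ _
    rw [this]
    exact Submodule.sum_mem _ fun i _ => Submodule.smul_mem _ _ (Submodule.subset_span ⟨i, rfl⟩)
  calc Module.finrank L (Submodule.span L (Set.range (M.map (algebraMap ℚ L)).col))
      ≤ Module.finrank L (Submodule.span L (Set.range fun i => g (b i : R → ℚ))) :=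
        Submodule.finrank_mono key
    _ ≤ Fintype.card (Fin (Module.finrank ℚ s)) := finrank_range_le_card _
    _ = Module.finrank ℚ s := by simp

theorem rank_le_rank_map {L : Type*} [Field L] [Algebra ℚ L] {R C : Type*} [Fintype R] [Fintype C]
    (M : Matrix R C ℚ) : M.rank ≤ (M.map (algebraMap ℚ L)).rank := by
  classical
  rw [Matrix.rank_eq_finrank_span_cols, Matrix.rank_eq_finrank_span_cols]
  obtain ⟨κ, a, ha, hspan, hli⟩ := exists_linearIndependent' ℚ M.col
  have : Finite κ := Finite.of_injective a ha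
  have : Fintype κ := Fintype.ofFinite κ
  have hli' : LinearIndependent L (fun i => algebraMap ℚ L ∘ (M.col ∘ a) i) :=
    linearIndependent_algebraMap_comp_iff.2 hli
  have h1 : Module.finrank ℚ (Submodule.span ℚ (Set.range M.col)) = Fintype.card κ := by
    rw [← hspan, finrank_span_eq_card hli]
  rw [h1, ← finrank_span_eq_card hli']
  apply Submodule.finrank_mono
  rw [Submodule.span_le]
  rintro _ ⟨i, rfl⟩
  exact Submodule.subset_span ⟨a i, rfl⟩

/-- T3 -/
theorem rank_trace_bound {K : Type*} [Field K] [CharZero K] {R C : Type*} [Fintype R] [Fintype C]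
    (N : R → C → ℕ) :
    ((∑ c, ∑ r, (N r c) ^ 2 : ℕ) : ℝ) ^ 2 ≤
      ((Matrix.of fun r c => (N r c : K)).rank : ℝ) *
        ((∑ c, ∑ c', (∑ r, N r c * N r c') ^ 2 : ℕ) : ℝ) := by
  classical
  set MQ : Matrix R C ℚ := Matrix.of fun r c => (N r c : ℚ) with hMQ
  set MR : Matrix R C ℝ := Matrix.of fun r c => (N r c : ℝ) with hMR
  let _ : Algebra ℚ K := DivisionRing.toRatAlgebra
  have hK : (Matrix.of fun r c => (N r c : K)) = MQ.map (algebraMap ℚ K) := by
    ext r c; simp [hMQ]
  have hR : MR = MQ.map (algebraMap ℚ ℝ) := by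
    ext r c; simp [hMQ, hMR]
  have hrank : (MR.rank : ℝ) ≤ ((Matrix.of fun r c => (N r c : K)).rank : ℝ) := by
    rw [hK, hR]
    exact_mod_cast (rank_map_rat_le MQ).trans (rank_le_rank_map (L := K) MQ)
  set G : Matrix C C ℝ := MR.transpose * MR with hG
  have hGh : G.IsHermitian := by
    have := Matrix.isHermitian_conjTranspose_mul_self MR
    simpa [Matrix.conjTranspose_eq_transpose_of_trivial] using this
  have hGr : G.rank = MR.rank := Matrix.rank_transpose_mul_self MR
  have ht : G.trace = ((∑ c, ∑ r, (N r c) ^ 2 : ℕ) : ℝ) := by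
    simp [G, Matrix.trace, Matrix.mul_apply, hMR, pow_two]
  have hGe : ∀ c c', G c c' = ((∑ r, N r c * N r c' : ℕ) : ℝ) := by
    intro c c'
    simp [G, Matrix.mul_apply, hMR]
  have ht2 : (G * G).trace = ((∑ c, ∑ c', (∑ r, N r c * N r c') ^ 2 : ℕ) : ℝ) := by
    simp only [Matrix.trace, Matrix.diag_apply, Matrix.mul_apply (M := G) (N := G)]
    push_cast
    apply Finset.sum_congr rfl; intro c _
    apply Finset.sum_congr rfl; intro c' _
    rw [hGe c c', hGe c' c, pow_two]
    push_cast
    congr 1
    exact Finset.sum_congr rfl fun r _ => mul_comm _ _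
  have hmain := trace_sq_le_rank_mul G hGh
  rw [ht, ht2, hGr] at hmain
  refine hmain.trans ?_
  exact mul_le_mul_of_nonneg_right hrank (by positivity)

end Crest.Agent.S0504
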