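import Mathlib
import Crest.Prelude.Def_SPSPS
set_option autoImplicit false
namespace Crest.Agent.S0504
open MvPolynomial Crest.ArithCircuit

/-- T5 -/
theorem list_prod_apply {κ A : Type*} [Fintype κ] [DecidableEq κ] [CommSemiring A] (m : ℕ)
    (M : Fin m → Matrix κ κ A) (i j : κ) :
    (List.ofFn M).prod i j = ∑ w : Fin (m + 1) → κ,
      if w 0 = i ∧ w (Fin.last m) = j then ∏ t : Fin m, M t (w t.castSucc) (w t.succ) else 0 := by
  induction m generalizing i with
  | zero =>
    rw [← (Equiv.funUnique (Fin 1) κ).symm.sum_comp]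
    simp only [List.ofFn_zero, List.prod_nil, Finset.univ_eq_empty, Finset.prod_empty]
    rw [Matrix.one_apply]
    by_cases h : i = j
    · subst h
      rw [if_pos rfl]
      symm
      rw [Finset.sum_eq_single i]
      · simp [Equiv.funUnique]
      · intro b _ hb
        simp [Equiv.funUnique, hb]
      · simp
    · rw [if_neg h, Finset.sum_eq_zero]
      intro b _
      rw [if_neg]
      rintro ⟨h1, h2⟩
      apply h
      rw [← h1, ← h2]
      rfl
  | succ m ih =>
    have hL : (List.ofFn M).prod i j = ∑ w : Fin (m + 1) → κ,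
        if w (Fin.last m) = j then
          M 0 i (w 0) * ∏ t : Fin m, M t.succ (w t.castSucc) (w t.succ) else 0 := by
      rw [List.ofFn_succ, List.prod_cons, Matrix.mul_apply]
      simp only [ih]
      simp_rw [Finset.mul_sum]
      rw [Finset.sum_comm]
      apply Finset.sum_congr rfl
      intro w _
      rw [Finset.sum_eq_single (w 0)]
      · by_cases h : w (Fin.last m) = j
        · rw [if_pos h, if_pos ⟨rfl, h⟩]
        · rw [if_neg h, if_neg (fun h' => h h'.2), mul_zero]
      · intro k _ hk
        rw [if_neg (fun h' => hk h'.1.symm), mul_zero]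
      · simp
    have hR : (∑ w : Fin (m + 1 + 1) → κ,
      if w 0 = i ∧ w (Fin.last (m + 1)) = j then
        ∏ t : Fin (m + 1), M t (w t.castSucc) (w t.succ) else 0)
        = ∑ w : Fin (m + 1) → κ,
        if w (Fin.last m) = j then
          M 0 i (w 0) * ∏ t : Fin m, M t.succ (w t.castSucc) (w t.succ) else 0 := by
      rw [← (Fin.consEquiv (fun _ : Fin (m + 2) => κ)).sum_comp, Fintype.sum_prod_type]
      have hc : ∀ (b : κ) (w : Fin (m + 1) → κ),
          (Fin.consEquiv (fun _ : Fin (m + 2) => κ)) (b, w)
            = (Fin.cons b w : Fin (m + 2) → κ) := fun _ _ => rfl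
      have hl : ∀ (b : κ) (w : Fin (m + 1) → κ),
          (Fin.cons b w : Fin (m + 2) → κ) (Fin.last (m + 1)) = w (Fin.last m) := by
        intro b w
        rw [← Fin.succ_last, Fin.cons_succ]
      simp only [hc, hl, Fin.cons_zero, Fin.cons_succ]
      rw [Finset.sum_eq_single i]
      · apply Finset.sum_congr rfl
        intro w _
        by_cases h : w (Fin.last m) = j
        · rw [if_pos h, if_pos ⟨rfl, h⟩, Fin.prod_univ_succ]
          simp only [Fin.castSucc_zero, Fin.cons_zero]
          rfl
        · rw [if_neg h, if_neg (fun h' => h h'.2)]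
      · intro b _ hb
        apply Finset.sum_eq_zero
        intro w _
        rw [if_neg (fun h' => hb h'.1)]
      · simp
    rw [hL, hR]

end Crest.Agent.S0504
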