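import Mathlib

set_option autoImplicit false

namespace Crest.Agent.S0504

open MvPolynomial

section Op

variable {Y Z : Type}

/-- basis states of the two-sided shifted space: a monomial in the `Y` variables (on which `Y`
variables act by contraction) and one in the `Z` variables (on which `Z` acts by multiplication) -/
abbrev St (Y Z : Type) := (Y →₀ ℕ) × (Z →₀ ℕ)

/-- the `Y` part of an exponent -/
noncomputable def mY (m : (Y ⊕ Z) →₀ ℕ) : Y →₀ ℕ := m.comapDomain Sum.inl Sum.inl_injective.injOn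

/-- the `Z` part of an exponent -/
noncomputable def mZ (m : (Y ⊕ Z) →₀ ℕ) : Z →₀ ℕ := m.comapDomain Sum.inr Sum.inr_injective.injOn

@[simp] lemma mY_apply (m : (Y ⊕ Z) →₀ ℕ) (y : Y) : mY m y = m (Sum.inl y) := rfl
@[simp] lemma mZ_apply (m : (Y ⊕ Z) →₀ ℕ) (z : Z) : mZ m z = m (Sum.inr z) := rfl

lemma mY_add (m m' : (Y ⊕ Z) →₀ ℕ) : mY (m + m') = mY m + mY m' := by ext; simp
lemma mZ_add (m m' : (Y ⊕ Z) →₀ ℕ) : mZ (m + m') = mZ m + mZ m' := by ext; simp
lemma mY_zero : mY (0 : (Y ⊕ Z) →₀ ℕ) = 0 := by ext; simp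
lemma mZ_zero : mZ (0 : (Y ⊕ Z) →₀ ℕ) = 0 := by ext; simp

open Classical in
/-- the action of a monomial on a basis state -/
noncomputable def actS (K : Type*) [Field K] (m : (Y ⊕ Z) →₀ ℕ) (c : St Y Z) : St Y Z →₀ K :=
  if mY m ≤ c.1 then Finsupp.single (c.1 - mY m, c.2 + mZ m) (1 : K) else 0

/-- the action of a monomial -/
noncomputable def act (K : Type*) [Field K] (m : (Y ⊕ Z) →₀ ℕ) :
    Module.End K (St Y Z →₀ K) :=
  Finsupp.linearCombination K (actS K m)

lemma act_single (K : Type*) [Field K] (m : (Y ⊕ Z) →₀ ℕ) (c : St Y Z) (x : K) :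
    act K m (Finsupp.single c x) = x • actS K m c := by
  simp [act]

lemma act_zero (K : Type*) [Field K] : act K (0 : (Y ⊕ Z) →₀ ℕ) = 1 := by
  apply Finsupp.lhom_ext
  intro c x
  rw [act_single]
  simp [actS, mY_zero, mZ_zero]

lemma act_add (K : Type*) [Field K] (m m' : (Y ⊕ Z) →₀ ℕ) :
    act K (m + m') = act K m * act K m' := by
  apply Finsupp.lhom_ext
  intro c x
  rw [Module.End.mul_apply, act_single, act_single, map_smul]
  congr 1
  unfold actS
  rw [mY_add, mZ_add]
  by_cases h' : mY m' ≤ c.1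
  · rw [if_pos h', act_single, one_smul]
    unfold actS
    by_cases h : mY m ≤ c.1 - mY m'
    · have h2 : mY m + mY m' ≤ c.1 := by
        rw [le_tsub_iff_right h'] at h; exact h
      rw [if_pos h2, if_pos h]
      congr 2
      · rw [add_comm (mY m), tsub_add_eq_tsub_tsub]
      · rw [add_assoc, add_comm (mZ m)]
    · have h2 : ¬ (mY m + mY m' ≤ c.1) := by
        rw [le_tsub_iff_right h'] at h; exact h
      rw [if_neg h2, if_neg h]
  · have h2 : ¬ (mY m + mY m' ≤ c.1) := fun h => h' (le_trans (self_le_add_left _ _) h)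
    rw [if_neg h2, if_neg h', map_zero]

/-- the action as a monoid hom -/
noncomputable def actHom (K : Type*) [Field K] (Y Z : Type) :
    Multiplicative ((Y ⊕ Z) →₀ ℕ) →* Module.End K (St Y Z →₀ K) where
  toFun m := act K m.toAdd
  map_one' := act_zero K
  map_mul' m m' := act_add K _ _

/-- polynomials act on states -/
noncomputable def Phi (K : Type*) [Field K] (Y Z : Type) :
    MvPolynomial (Y ⊕ Z) K →ₐ[K] Module.End K (St Y Z →₀ K) :=
  AddMonoidAlgebra.lift K _ _ (actHom K Y Z)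

lemma Phi_monomial (K : Type*) [Field K] (m : (Y ⊕ Z) →₀ ℕ) (x : K) :
    Phi K Y Z (monomial m x) = x • act K m := by
  show AddMonoidAlgebra.lift K _ _ (actHom K Y Z) (AddMonoidAlgebra.single m x) = _
  rw [AddMonoidAlgebra.lift_single]
  rfl

/-- bihomogeneous polynomials -/
def IsBihom {K : Type*} [Field K] (F : MvPolynomial (Y ⊕ Z) K) (κ l : ℕ) : Prop :=
  ∀ m ∈ F.support, (mY m).degree = κ ∧ (mZ m).degree = l

end Op

end Crest.Agent.S0504
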