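import Mathlib
import Crest.Agent.S0504_Op

set_option autoImplicit false

namespace Crest.Agent.S0504

open MvPolynomial

section Bihom
variable {Y Z : Type}

lemma degree_eq_add [Fintype Y] [Fintype Z] (m : (Y ⊕ Z) →₀ ℕ) : m.degree = (mY m).degree + (mZ m).degree := by
  classical
  rw [Finsupp.degree_eq_sum, Finsupp.degree_eq_sum, Finsupp.degree_eq_sum, Fintype.sum_sum_type]
  rfl

variable {K : Type*} [Field K]

lemma IsBihom.mul {F G : MvPolynomial (Y ⊕ Z) K} {κ l κ' l' : ℕ} (hF : IsBihom F κ l)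
    (hG : IsBihom G κ' l') : IsBihom (F * G) (κ + κ') (l + l') := by
  classical
  intro m hm
  have := MvPolynomial.support_mul F G hm
  rw [Finset.mem_add] at this
  obtain ⟨a, ha, b, hb, rfl⟩ := this
  rw [mY_add, mZ_add, map_add, map_add]
  exact ⟨by rw [(hF a ha).1, (hG b hb).1], by rw [(hF a ha).2, (hG b hb).2]⟩

lemma IsBihom.one : IsBihom (1 : MvPolynomial (Y ⊕ Z) K) 0 0 := by
  classical
  intro m hm
  rw [MvPolynomial.mem_support_iff, MvPolynomial.coeff_one] at hm
  have : m = 0 := by
    by_contra h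
    exact hm (if_neg (fun h' => h h'.symm))
  subst this
  simp [mY_zero, mZ_zero]

lemma IsBihom.prod {ι : Type*} (s : Finset ι) (F : ι → MvPolynomial (Y ⊕ Z) K) (κ l : ι → ℕ)
    (h : ∀ i ∈ s, IsBihom (F i) (κ i) (l i)) :
    IsBihom (∏ i ∈ s, F i) (∑ i ∈ s, κ i) (∑ i ∈ s, l i) := by
  classical
  induction s using Finset.induction_on with
  | empty => simpa using IsBihom.one
  | insert a s ha ih =>
    rw [Finset.prod_insert ha, Finset.sum_insert ha, Finset.sum_insert ha]
    exact (h a (Finset.mem_insert_self _ _)).mul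
      (ih fun i hi => h i (Finset.mem_insert_of_mem hi))

lemma IsBihom.smul {F : MvPolynomial (Y ⊕ Z) K} {κ l : ℕ} (hF : IsBihom F κ l) (c : K) :
    IsBihom (c • F) κ l := fun m hm => hF m (MvPolynomial.support_smul hm)

/-- component of `Y`-degree `κ` -/
noncomputable def comp (κ : ℕ) (Q : MvPolynomial (Y ⊕ Z) K) : MvPolynomial (Y ⊕ Z) K :=
  ∑ m ∈ Q.support.filter (fun m => (mY m).degree = κ), monomial m (coeff m Q)

lemma coeff_comp (κ : ℕ) (Q : MvPolynomial (Y ⊕ Z) K) (m : (Y ⊕ Z) →₀ ℕ) :
    coeff m (comp κ Q) = if (mY m).degree = κ then coeff m Q else 0 := by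
  classical
  unfold comp
  rw [MvPolynomial.coeff_sum]
  simp only [MvPolynomial.coeff_monomial]
  rw [Finset.sum_ite_eq']
  by_cases h : (mY m).degree = κ
  · rw [if_pos h]
    by_cases h2 : m ∈ Q.support
    · rw [if_pos (Finset.mem_filter.2 ⟨h2, h⟩)]
    · rw [if_neg (fun h' => h2 (Finset.mem_filter.1 h').1)]
      rw [MvPolynomial.notMem_support_iff] at h2
      exact h2.symm
  · rw [if_neg h]
    have h3 : m ∉ Q.support.filter (fun m => (mY m).degree = κ) :=
      fun h' => h (Finset.mem_filter.1 h').2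
    exact if_neg h3

lemma comp_isBihom [Fintype Y] [Fintype Z] {Q : MvPolynomial (Y ⊕ Z) K} {d : ℕ} (hQ : Q.IsHomogeneous d) (κ : ℕ) :
    IsBihom (comp κ Q) κ (d - κ) := by
  intro m hm
  rw [MvPolynomial.mem_support_iff, coeff_comp] at hm
  have h1 : (mY m).degree = κ := by
    by_contra h
    exact hm (if_neg h)
  rw [if_pos h1] at hm
  have h2 : m.degree = d := by
    have := hQ hm
    rwa [Finsupp.degree_eq_weight_one]
  rw [degree_eq_add] at h2
  exact ⟨h1, by omega⟩

lemma sum_comp [Fintype Y] [Fintype Z] {Q : MvPolynomial (Y ⊕ Z) K} {d : ℕ} (hQ : Q.IsHomogeneous d) :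
    ∑ κ ∈ Finset.range (d + 1), comp κ Q = Q := by
  classical
  ext m
  rw [MvPolynomial.coeff_sum]
  simp only [coeff_comp]
  rw [Finset.sum_ite_eq]
  split_ifs with h
  · rfl
  · symm
    by_contra hne
    apply h
    have h2 : m.degree = d := by
      have := hQ hne
      rwa [Finsupp.degree_eq_weight_one]
    rw [degree_eq_add] at h2
    rw [Finset.mem_range]
    omega

end Bihom

section Mu
variable {Y Z : Type} [Fintype Y] [Fintype Z]

open Classical in
/-- the basis states of bidegree `(u, l)` -/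
noncomputable def stF (Y Z : Type) [Fintype Y] [Fintype Z] (u l : ℕ) : Finset (St Y Z) :=
  (Finset.univ.finsuppAntidiag u) ×ˢ (Finset.univ.finsuppAntidiag l)

lemma mem_stF {u l : ℕ} {c : St Y Z} :
    c ∈ stF Y Z u l ↔ c.1.degree = u ∧ c.2.degree = l := by
  classical
  unfold stF
  rw [Finset.mem_product, Finset.mem_finsuppAntidiag, Finset.mem_finsuppAntidiag,
    Finsupp.degree_eq_sum, Finsupp.degree_eq_sum]
  simp

lemma card_stF (u l : ℕ) : (stF Y Z u l).card =
    (Fintype.card Y).multichoose u * (Fintype.card Z).multichoose l := by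
  classical
  unfold stF
  rw [Finset.card_product, Finset.card_finsuppAntidiag_nat_eq_multichoose,
    Finset.card_finsuppAntidiag_nat_eq_multichoose, Finset.card_univ, Finset.card_univ]

/-- the space spanned by the states of bidegree `(u, l)` -/
noncomputable def Vs (K : Type*) [Field K] (Y Z : Type) [Fintype Y] [Fintype Z] (u l : ℕ) :
    Submodule K (St Y Z →₀ K) := Finsupp.supported K K (stF Y Z u l : Set (St Y Z))

variable (K : Type*) [Field K]

instance (u l : ℕ) : FiniteDimensional K (Vs K Y Z u l) :=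
  Module.Finite.equiv (Finsupp.supportedEquivFinsupp (R := K) (M := K)
    (stF Y Z u l : Set (St Y Z))).symm

lemma finrank_Vs (u l : ℕ) : Module.finrank K (Vs K Y Z u l) =
    (Fintype.card Y).multichoose u * (Fintype.card Z).multichoose l := by
  classical
  unfold Vs
  rw [LinearEquiv.finrank_eq (Finsupp.supportedEquivFinsupp (R := K) (M := K)
    (stF Y Z u l : Set (St Y Z))), Module.finrank_finsupp_self]
  simp [card_stF]

open Classical in
/-- compression of the action of `F` to a map into the states of bidegree `(u', l')` -/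
noncomputable def Top (u' l' : ℕ) (F : MvPolynomial (Y ⊕ Z) K) :
    (St Y Z →₀ K) →ₗ[K] (St Y Z →₀ K) :=
  (Submodule.subtype _ ∘ₗ
    (Finsupp.restrictDom K K (stF Y Z u' l' : Set (St Y Z)))) ∘ₗ (Phi K Y Z F)

/-- the complexity measure -/
noncomputable def mu (u l u' l' : ℕ) (F : MvPolynomial (Y ⊕ Z) K) : ℕ :=
  Module.finrank K (Submodule.map (Top K u' l' F) (Vs K Y Z u l))

lemma mu_zero (u l u' l' : ℕ) : mu K u l u' l' (0 : MvPolynomial (Y ⊕ Z) K) = 0 := by
  unfold mu Top
  rw [map_zero, LinearMap.comp_zero, Submodule.map_zero]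
  exact finrank_bot K _

lemma mu_add (u l u' l' : ℕ) (F G : MvPolynomial (Y ⊕ Z) K) :
    mu K u l u' l' (F + G) ≤ mu K u l u' l' F + mu K u l u' l' G := by
  unfold mu
  have h : Submodule.map (Top K u' l' (F + G)) (Vs K Y Z u l) ≤
      Submodule.map (Top K u' l' F) (Vs K Y Z u l) ⊔ Submodule.map (Top K u' l' G) (Vs K Y Z u l) := by
    rintro _ ⟨v, hv, rfl⟩
    have : Top K u' l' (F + G) v = Top K u' l' F v + Top K u' l' G v := by
      simp [Top, map_add]
    rw [this]
    exact Submodule.add_mem_sup (Submodule.mem_map_of_mem hv) (Submodule.mem_map_of_mem hv)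
  exact (Submodule.finrank_mono h).trans (Submodule.finrank_add_le_finrank_add_finrank _ _)

lemma mu_smul (u l u' l' : ℕ) (c : K) (F : MvPolynomial (Y ⊕ Z) K) :
    mu K u l u' l' (c • F) ≤ mu K u l u' l' F := by
  unfold mu
  apply Submodule.finrank_mono
  rintro _ ⟨v, hv, rfl⟩
  refine ⟨c • v, Submodule.smul_mem _ _ hv, ?_⟩
  simp [Top, map_smul]

end Mu

end Crest.Agent.S0504
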