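import Mathlib
import Crest.Agent.S0504_Mu

set_option autoImplicit false

namespace Crest.Agent.S0504

open MvPolynomial

section Upper
variable {Y Z : Type} [Fintype Y] [Fintype Z]
variable {K : Type*} [Field K]

omit [Fintype Y] [Fintype Z] in
lemma Phi_eq_sum (F : MvPolynomial (Y ⊕ Z) K) :
    Phi K Y Z F = ∑ m ∈ F.support, (coeff m F) • act K m := by
  conv_lhs => rw [← MvPolynomial.support_sum_monomial_coeff F]
  rw [map_sum]
  exact Finset.sum_congr rfl fun m _ => Phi_monomial K m _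

lemma act_map_Vs (m : (Y ⊕ Z) →₀ ℕ) (u l κ l' : ℕ) (h1 : (mY m).degree = κ)
    (h2 : (mZ m).degree = l') (v : St Y Z →₀ K) (hv : v ∈ Vs K Y Z u l) :
    act K m v ∈ Vs K Y Z (u - κ) (l + l') := by
  have hle : Vs K Y Z u l ≤ (Vs K Y Z (u - κ) (l + l')).comap (act K m) := by
    unfold Vs
    rw [Finsupp.supported_eq_span_single, Submodule.span_le]
    rintro _ ⟨c, hc, rfl⟩
    have hc' : c ∈ stF Y Z u l := hc
    rw [mem_stF] at hc'
    show act K m (Finsupp.single c 1) ∈ Finsupp.supported K K _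
    rw [act_single, one_smul]
    unfold actS
    split_ifs with h
    · apply Finsupp.single_mem_supported
      show _ ∈ stF Y Z (u - κ) (l + l')
      rw [mem_stF]
      constructor
      · have : (c.1 - mY m) + mY m = c.1 := tsub_add_cancel_of_le h
        have h3 := congrArg Finsupp.degree this
        rw [map_add] at h3
        show (c.1 - mY m).degree = u - κ
        omega
      · show (c.2 + mZ m).degree = l + l'
        rw [map_add]; omega
    · exact Submodule.zero_mem _
  exact hle hv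

lemma Phi_map_Vs {F : MvPolynomial (Y ⊕ Z) K} {κ l' : ℕ} (hF : IsBihom F κ l') (u l : ℕ)
    (v : St Y Z →₀ K) (hv : v ∈ Vs K Y Z u l) :
    Phi K Y Z F v ∈ Vs K Y Z (u - κ) (l + l') := by
  rw [Phi_eq_sum, LinearMap.sum_apply]
  apply Submodule.sum_mem
  intro m hm
  rw [LinearMap.smul_apply]
  apply Submodule.smul_mem
  exact act_map_Vs m u l κ l' (hF m hm).1 (hF m hm).2 v hv

lemma mu_mul_le (F₁ : MvPolynomial (Y ⊕ Z) K) {F₂ : MvPolynomial (Y ⊕ Z) K} {κ l₂ : ℕ}
    (hF : IsBihom F₂ κ l₂) (u l u' l' : ℕ) :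
    mu K u l u' l' (F₁ * F₂) ≤
      (Fintype.card Y).multichoose (u - κ) * (Fintype.card Z).multichoose (l + l₂) := by
  rw [← finrank_Vs K (Y := Y) (Z := Z) (u - κ) (l + l₂)]
  unfold mu
  have h : Submodule.map (Top K u' l' (F₁ * F₂)) (Vs K Y Z u l) ≤
      Submodule.map (Top K u' l' F₁) (Vs K Y Z (u - κ) (l + l₂)) := by
    rintro _ ⟨v, hv, rfl⟩
    refine ⟨Phi K Y Z F₂ v, Phi_map_Vs hF u l v hv, ?_⟩
    simp [Top, map_mul, Module.End.mul_apply]
  exact (Submodule.finrank_mono h).trans (Submodule.finrank_map_le _ _)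

lemma mu_eq_zero {F : MvPolynomial (Y ⊕ Z) K} {κ l₂ : ℕ}
    (hF : IsBihom F κ l₂) (u l u' l' : ℕ) (hne : l + l₂ ≠ l') :
    mu K u l u' l' F = 0 := by
  classical
  unfold mu
  have h : Submodule.map (Top K u' l' F) (Vs K Y Z u l) = ⊥ := by
    rw [Submodule.eq_bot_iff]
    rintro _ ⟨v, hv, rfl⟩
    have h2 := Phi_map_Vs hF u l v hv
    show ((Finsupp.restrictDom K K (stF Y Z u' l' : Set (St Y Z)) (Phi K Y Z F v) :
      Finsupp.supported K K (stF Y Z u' l' : Set (St Y Z))) : St Y Z →₀ K) = 0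
    rw [Finsupp.restrictDom_apply]
    ext c
    rw [Finsupp.filter_apply]
    split_ifs with hc
    · have hc' : c ∈ stF Y Z u' l' := hc
      rw [mem_stF] at hc'
      have h3 : c ∉ stF Y Z (u - κ) (l + l₂) := by
        rw [mem_stF]
        rintro ⟨-, h4⟩
        omega
      unfold Vs at h2
      rw [Finsupp.mem_supported'] at h2
      exact h2 c h3
    · rfl
  rw [h]
  exact finrank_bot K _

lemma mu_sum {ι : Type*} (s : Finset ι) (F : ι → MvPolynomial (Y ⊕ Z) K) (u l u' l' : ℕ) :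
    mu K u l u' l' (∑ i ∈ s, F i) ≤ ∑ i ∈ s, mu K u l u' l' (F i) := by
  classical
  induction s using Finset.induction_on with
  | empty => simp [mu_zero]
  | insert a s ha ih =>
    rw [Finset.sum_insert ha, Finset.sum_insert ha]
    exact (mu_add K u l u' l' _ _).trans (Nat.add_le_add_left ih _)

/-- the hypotheses on the dimensions -/
structure DimHyp (a b u l k : ℕ) (P Q : ℝ) : Prop where
  hQ1 : 1 ≤ Q
  hPQ : Q ≤ P
  hk : k ≤ u
  hY : ∀ c ≤ u, ((a.multichoose (u - c) : ℕ) : ℝ) ≤ (a.multichoose u : ℕ) / P ^ c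
  hZ : ∀ c, ((b.multichoose (l + c) : ℕ) : ℝ) ≤ (b.multichoose l : ℕ) * Q ^ c

lemma mu_mul_le_real {F₁ F₂ : MvPolynomial (Y ⊕ Z) K} {κ l₂ : ℕ}
    (hF : IsBihom F₂ κ l₂) (u l u' l' k : ℕ) {P Q : ℝ}
    (hD : DimHyp (Fintype.card Y) (Fintype.card Z) u l k P Q) (hκ : κ ≤ u) :
    (mu K u l u' l' (F₁ * F₂) : ℝ) ≤
      ((Fintype.card Y).multichoose u * (Fintype.card Z).multichoose l : ℕ) *
        (Q ^ l₂ / P ^ κ) := by
  have h1 : (mu K u l u' l' (F₁ * F₂) : ℝ) ≤ ((Fintype.card Y).multichoose (u - κ) *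
      (Fintype.card Z).multichoose (l + l₂) : ℕ) := by
    exact_mod_cast mu_mul_le F₁ hF u l u' l'
  refine h1.trans ?_
  push_cast
  have hP0 : 0 < P := by linarith [hD.hQ1, hD.hPQ]
  calc (((Fintype.card Y).multichoose (u - κ) : ℕ) : ℝ) *
        ((Fintype.card Z).multichoose (l + l₂) : ℕ)
      ≤ (((Fintype.card Y).multichoose u : ℕ) / P ^ κ) *
        (((Fintype.card Z).multichoose l : ℕ) * Q ^ l₂) := by
        apply mul_le_mul (hD.hY κ hκ) (hD.hZ l₂) (by positivity) (by positivity)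
    _ = _ := by ring

/-- the weight of a factor -/
noncomputable def xw (P Q : ℝ) (d κ : ℕ) : ℝ := Q ^ (d - κ) / P ^ κ

/-- the pattern sum of a factor of degree `d` -/
noncomputable def phiw (P Q : ℝ) (d : ℕ) : ℝ :=
  ∑ κ ∈ Finset.range (d + 1), min (Real.sqrt (xw P Q d κ)) (Real.sqrt (xw P Q d κ)⁻¹)

theorem mu_prod_le {m : ℕ} (F : Fin m → MvPolynomial (Y ⊕ Z) K) (d : Fin m → ℕ)
    (hF : ∀ i, (F i).IsHomogeneous (d i)) (u l k e : ℕ) {P Q : ℝ}
    (hD : DimHyp (Fintype.card Y) (Fintype.card Z) u l k P Q) (hd : ∑ i, d i = k + e) :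
    (mu K u l (u - k) (l + e) (∏ i, F i) : ℝ) ≤
      ((Fintype.card Y).multichoose u * (Fintype.card Z).multichoose l : ℕ) *
        (Real.sqrt (Q ^ e / P ^ k) * ∏ i, phiw P Q (d i)) := by
  classical
  have hQ0 : 0 < Q := by linarith [hD.hQ1]
  have hP0 : 0 < P := by linarith [hD.hQ1, hD.hPQ]
  have hx0 : ∀ d κ, 0 < xw P Q d κ := fun d κ => by unfold xw; positivity
  set D : ℝ := (((Fintype.card Y).multichoose u * (Fintype.card Z).multichoose l : ℕ) : ℝ) with hDdef
  have hD0 : 0 ≤ D := by positivity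
  have hexp : ∏ i, F i = ∑ κ ∈ Fintype.piFinset (fun i => Finset.range (d i + 1)),
      ∏ i, comp (κ i) (F i) := by
    rw [← Finset.prod_univ_sum (fun i => Finset.range (d i + 1)) (fun i κ => comp κ (F i))]
    exact Finset.prod_congr rfl fun i _ => (sum_comp (hF i)).symm
  have key : ∀ κ ∈ Fintype.piFinset (fun i => Finset.range (d i + 1)),
      (mu K u l (u - k) (l + e) (∏ i, comp (κ i) (F i)) : ℝ) ≤
        D * (Real.sqrt (Q ^ e / P ^ k) *
          ∏ i, min (Real.sqrt (xw P Q (d i) (κ i))) (Real.sqrt (xw P Q (d i) (κ i))⁻¹)) := by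
    intro κ hκ
    rw [Fintype.mem_piFinset] at hκ
    have hκd : ∀ i, κ i ≤ d i := fun i => by
      have := Finset.mem_range.1 (hκ i); omega
    have hbi : ∀ i, IsBihom (comp (κ i) (F i)) (κ i) (d i - κ i) := fun i =>
      comp_isBihom (hF i) (κ i)
    have hsum : ∑ i, κ i + ∑ i, (d i - κ i) = k + e := by
      rw [← hd, ← Finset.sum_add_distrib]
      exact Finset.sum_congr rfl fun i _ => by have := hκd i; omega
    by_cases hk : ∑ i, κ i = k
    · have he : ∑ i, (d i - κ i) = e := by omega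
      set B : Finset (Fin m) := Finset.univ.filter (fun i => xw P Q (d i) (κ i) < 1) with hB
      have hsplit : ∏ i, comp (κ i) (F i) =
          (∏ i ∈ Bᶜ, comp (κ i) (F i)) * (∏ i ∈ B, comp (κ i) (F i)) :=
        (Finset.prod_compl_mul_prod B _).symm
      rw [hsplit]
      have hbB : IsBihom (∏ i ∈ B, comp (κ i) (F i)) (∑ i ∈ B, κ i) (∑ i ∈ B, (d i - κ i)) :=
        IsBihom.prod B _ _ _ fun i _ => hbi i
      have hBk : ∑ i ∈ B, κ i ≤ u := by
        calc ∑ i ∈ B, κ i ≤ ∑ i, κ i := Finset.sum_le_sum_of_subset (Finset.subset_univ _)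
          _ = k := hk
          _ ≤ u := hD.hk
      refine (mu_mul_le_real (F₁ := ∏ i ∈ Bᶜ, comp (κ i) (F i)) hbB u l (u - k) (l + e) k hD
        hBk).trans ?_
      apply mul_le_mul_of_nonneg_left _ hD0
      have e1 : Q ^ (∑ i ∈ B, (d i - κ i)) / P ^ (∑ i ∈ B, κ i) =
          ∏ i ∈ B, xw P Q (d i) (κ i) := by
        unfold xw
        rw [Finset.prod_div_distrib, Finset.prod_pow_eq_pow_sum, Finset.prod_pow_eq_pow_sum]
      have e2 : Q ^ e / P ^ k = ∏ i, xw P Q (d i) (κ i) := by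
        unfold xw
        rw [Finset.prod_div_distrib, Finset.prod_pow_eq_pow_sum, Finset.prod_pow_eq_pow_sum,
          hk, he]
      have e3 : Real.sqrt (Q ^ e / P ^ k) = ∏ i, Real.sqrt (xw P Q (d i) (κ i)) := by
        rw [e2]
        exact Real.sqrt_prod _ fun i _ => (hx0 _ _).le
      rw [e1, e3, ← Finset.prod_mul_distrib]
      have e4 : ∏ i ∈ B, xw P Q (d i) (κ i) =
          ∏ i, (if i ∈ B then xw P Q (d i) (κ i) else 1) := by
        rw [Finset.prod_ite_mem, Finset.univ_inter]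
      rw [e4]
      apply Finset.prod_le_prod
      · intro i _
        split_ifs
        · exact (hx0 _ _).le
        · exact zero_le_one
      · intro i _
        have hxi := hx0 (d i) (κ i)
        by_cases hi : xw P Q (d i) (κ i) < 1
        · have hiB : i ∈ B := Finset.mem_filter.2 ⟨Finset.mem_univ _, hi⟩
          rw [if_pos hiB, min_eq_left, Real.mul_self_sqrt hxi.le]
          apply Real.sqrt_le_sqrt
          have : 1 ≤ (xw P Q (d i) (κ i))⁻¹ := (one_le_inv₀ hxi).2 hi.le
          linarith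
        · have hiB : i ∉ B := fun h => hi (Finset.mem_filter.1 h).2
          push Not at hi
          rw [if_neg hiB, min_eq_right, ← Real.sqrt_mul hxi.le, mul_inv_cancel₀ hxi.ne',
            Real.sqrt_one]
          apply Real.sqrt_le_sqrt
          have : (xw P Q (d i) (κ i))⁻¹ ≤ 1 := inv_le_one_of_one_le₀ hi
          linarith
    · have he : ∑ i, (d i - κ i) ≠ e := by omega
      have hb : IsBihom (∏ i, comp (κ i) (F i)) (∑ i, κ i) (∑ i, (d i - κ i)) :=
        IsBihom.prod Finset.univ _ _ _ fun i _ => hbi i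
      rw [mu_eq_zero hb u l (u - k) (l + e) (by omega)]
      have : 0 ≤ ∏ i, min (Real.sqrt (xw P Q (d i) (κ i))) (Real.sqrt (xw P Q (d i) (κ i))⁻¹) :=
        Finset.prod_nonneg fun i _ => le_min (Real.sqrt_nonneg _) (Real.sqrt_nonneg _)
      have h5 := Real.sqrt_nonneg (Q ^ e / P ^ k)
      rw [Nat.cast_zero]
      positivity
  calc (mu K u l (u - k) (l + e) (∏ i, F i) : ℝ)
      ≤ ∑ κ ∈ Fintype.piFinset (fun i => Finset.range (d i + 1)),
        (mu K u l (u - k) (l + e) (∏ i, comp (κ i) (F i)) : ℝ) := by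
        rw [hexp]
        exact_mod_cast mu_sum _ _ _ _ _ _
    _ ≤ ∑ κ ∈ Fintype.piFinset (fun i => Finset.range (d i + 1)),
        D * (Real.sqrt (Q ^ e / P ^ k) *
          ∏ i, min (Real.sqrt (xw P Q (d i) (κ i))) (Real.sqrt (xw P Q (d i) (κ i))⁻¹)) :=
        Finset.sum_le_sum key
    _ = _ := by
        rw [← Finset.mul_sum, ← Finset.mul_sum]
        unfold phiw
        rw [Finset.prod_univ_sum]

theorem mu_lin_le {D' : ℕ} (ℓ : Fin D' → MvPolynomial (Y ⊕ Z) K) (G : MvPolynomial (Y ⊕ Z) K)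
    (hℓ : ∀ i, (ℓ i).IsHomogeneous 1) (u l k e : ℕ) (hG : G.IsHomogeneous (k + e - D'))
    (hD' : D' ≤ k + e) {P Q : ℝ}
    (hD : DimHyp (Fintype.card Y) (Fintype.card Z) u l k P Q) :
    (mu K u l (u - k) (l + e) ((∏ i, ℓ i) * G) : ℝ) ≤
      ((Fintype.card Y).multichoose u * (Fintype.card Z).multichoose l : ℕ) *
        (Real.sqrt (Q ^ e / P ^ k) * (2 / Real.sqrt Q) ^ D') := by
  classical
  have hQ0 : 0 < Q := by linarith [hD.hQ1]
  have hP0 : 0 < P := by linarith [hD.hQ1, hD.hPQ]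
  set D : ℝ := (((Fintype.card Y).multichoose u * (Fintype.card Z).multichoose l : ℕ) : ℝ) with hDdef
  have hD0 : 0 ≤ D := by positivity
  have hexp : ∏ i, ℓ i = ∑ κ ∈ Fintype.piFinset (fun _ : Fin D' => Finset.range (1 + 1)),
      ∏ i, comp (κ i) (ℓ i) := by
    rw [← Finset.prod_univ_sum (fun _ : Fin D' => Finset.range (1 + 1)) (fun i κ => comp κ (ℓ i))]
    exact Finset.prod_congr rfl fun i _ => (sum_comp (hℓ i)).symm
  have key : ∀ κ ∈ Fintype.piFinset (fun _ : Fin D' => Finset.range (1 + 1)),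
      (mu K u l (u - k) (l + e) ((∏ i, comp (κ i) (ℓ i)) * G) : ℝ) ≤
        D * (Real.sqrt (Q ^ e / P ^ k) * (1 / Real.sqrt Q) ^ D') := by
    intro κ hκ
    rw [Fintype.mem_piFinset] at hκ
    have hκd : ∀ i, κ i ≤ 1 := fun i => by
      have := Finset.mem_range.1 (hκ i); omega
    have hbi : ∀ i, IsBihom (comp (κ i) (ℓ i)) (κ i) (1 - κ i) := fun i =>
      comp_isBihom (hℓ i) (κ i)
    set a : ℕ := ∑ i, κ i with ha
    have hsum : a + ∑ i, (1 - κ i) = D' := by
      rw [ha, ← Finset.sum_add_distrib]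
      have : ∀ i : Fin D', κ i + (1 - κ i) = 1 := fun i => by have := hκd i; omega
      simp [this]
    have hGexp : (∏ i, comp (κ i) (ℓ i)) * G = ∑ κ' ∈ Finset.range (k + e - D' + 1),
        (∏ i, comp (κ i) (ℓ i)) * comp κ' G := by
      rw [← Finset.mul_sum, sum_comp hG]
    have hR0 : 0 ≤ D * (Real.sqrt (Q ^ e / P ^ k) * (1 / Real.sqrt Q) ^ D') := by
      have h5 := Real.sqrt_nonneg (Q ^ e / P ^ k)
      have h6 := Real.sqrt_nonneg Q
      positivity
    have hterm : ∀ κ' ∈ Finset.range (k + e - D' + 1),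
        (mu K u l (u - k) (l + e) ((∏ i, comp (κ i) (ℓ i)) * comp κ' G) : ℝ) ≤
          if κ' = k - a then D * (Real.sqrt (Q ^ e / P ^ k) * (1 / Real.sqrt Q) ^ D') else 0 := by
      intro κ' hκ'
      rw [Finset.mem_range] at hκ'
      have hbG : IsBihom (comp κ' G) κ' (k + e - D' - κ') := comp_isBihom hG κ'
      have hball : IsBihom (∏ i, comp (κ i) (ℓ i)) a (∑ i, (1 - κ i)) :=
        IsBihom.prod Finset.univ _ _ _ fun i _ => hbi i
      by_cases hk : a + κ' = k
      · rw [if_pos (by omega)]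
        set B : Finset (Fin D') := Finset.univ.filter (fun i => κ i = 1) with hB
        have hsplit : ∏ i, comp (κ i) (ℓ i) =
            (∏ i ∈ Bᶜ, comp (κ i) (ℓ i)) * (∏ i ∈ B, comp (κ i) (ℓ i)) :=
          (Finset.prod_compl_mul_prod B _).symm
        have hbB : IsBihom (∏ i ∈ B, comp (κ i) (ℓ i)) (∑ i ∈ B, κ i) (∑ i ∈ B, (1 - κ i)) :=
          IsBihom.prod B _ _ _ fun i _ => hbi i
        have hB1 : ∑ i ∈ B, κ i = a := by
          rw [ha, ← Finset.sum_add_sum_compl B]
          have : ∑ i ∈ Bᶜ, κ i = 0 := by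
            apply Finset.sum_eq_zero
            intro i hi
            have h2 : i ∉ B := Finset.mem_compl.1 hi
            have h3 : κ i ≠ 1 := fun h => h2 (Finset.mem_filter.2 ⟨Finset.mem_univ _, h⟩)
            have := hκd i
            omega
          omega
        have hB2 : ∑ i ∈ B, (1 - κ i) = 0 := by
          apply Finset.sum_eq_zero
          intro i hi
          have := (Finset.mem_filter.1 hi).2
          omega
        rw [hB1, hB2] at hbB
        have hku := hD.hk
        -- first bound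
        have b1 : (mu K u l (u - k) (l + e) ((∏ i, comp (κ i) (ℓ i)) * comp κ' G) : ℝ) ≤
            D * (Q ^ 0 / P ^ a) := by
          have : (∏ i, comp (κ i) (ℓ i)) * comp κ' G =
              ((∏ i ∈ Bᶜ, comp (κ i) (ℓ i)) * comp κ' G) * (∏ i ∈ B, comp (κ i) (ℓ i)) := by
            rw [hsplit]; ring
          rw [this]
          exact mu_mul_le_real hbB u l (u - k) (l + e) k hD (by omega)
        have hbBG : IsBihom ((∏ i ∈ B, comp (κ i) (ℓ i)) * comp κ' G) (a + κ')
            (0 + (k + e - D' - κ')) := hbB.mul hbG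
        have b2 : (mu K u l (u - k) (l + e) ((∏ i, comp (κ i) (ℓ i)) * comp κ' G) : ℝ) ≤
            D * (Q ^ (0 + (k + e - D' - κ')) / P ^ (a + κ')) := by
          have : (∏ i, comp (κ i) (ℓ i)) * comp κ' G =
              (∏ i ∈ Bᶜ, comp (κ i) (ℓ i)) * ((∏ i ∈ B, comp (κ i) (ℓ i)) * comp κ' G) := by
            rw [hsplit]; ring
          rw [this]
          exact mu_mul_le_real hbBG u l (u - k) (l + e) k hD (by omega)
        have hpowe : Q ^ (0 + (k + e - D' - κ')) * Q ^ (D' - a) = Q ^ e := by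
          rw [← pow_add]; congr 1; omega
        rw [hk] at b2
        set x : ℝ := (mu K u l (u - k) (l + e) ((∏ i, comp (κ i) (ℓ i)) * comp κ' G) : ℝ) with hx
        have hx0 : 0 ≤ x := by positivity
        have hxx : x * x ≤ (D * (Real.sqrt (Q ^ e / P ^ k) * (1 / Real.sqrt Q) ^ D')) ^ 2 := by
          have h7 : (D * (Real.sqrt (Q ^ e / P ^ k) * (1 / Real.sqrt Q) ^ D')) ^ 2 =
              D ^ 2 * ((Q ^ e / P ^ k) * (1 / Q) ^ D') := by
            rw [mul_pow, mul_pow, Real.sq_sqrt (by positivity), ← pow_mul, mul_comm D' 2, pow_mul,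
              div_pow, one_pow, Real.sq_sqrt hQ0.le]
          rw [h7]
          calc x * x ≤ (D * (Q ^ 0 / P ^ a)) * (D * (Q ^ (0 + (k + e - D' - κ')) / P ^ k)) :=
                mul_le_mul b1 b2 hx0 (by positivity)
            _ = D ^ 2 * ((1 / P ^ a) * (Q ^ (0 + (k + e - D' - κ')) / P ^ k)) := by
                rw [pow_zero]; ring
            _ ≤ D ^ 2 * ((1 / Q ^ a) * (Q ^ (0 + (k + e - D' - κ')) / P ^ k)) := by
                apply mul_le_mul_of_nonneg_left _ (by positivity)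
                apply mul_le_mul_of_nonneg_right _ (by positivity)
                apply one_div_le_one_div_of_le (by positivity)
                exact pow_le_pow_left₀ hQ0.le hD.hPQ a
            _ = D ^ 2 * ((Q ^ e / P ^ k) * (1 / Q) ^ D') := by
                rw [← hpowe]
                have h8 : Q ^ D' = Q ^ a * Q ^ (D' - a) := by
                  rw [← pow_add]; congr 1; omega
                rw [one_div_pow, h8]
                field_simp
        rw [← sq] at hxx
        exact (sq_le_sq₀ hx0 hR0).1 hxx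
      · have hz : mu K u l (u - k) (l + e) ((∏ i, comp (κ i) (ℓ i)) * comp κ' G) = 0 := by
          apply mu_eq_zero (hball.mul hbG)
          omega
        rw [hz, Nat.cast_zero]
        split_ifs
        · exact hR0
        · exact le_rfl
    calc (mu K u l (u - k) (l + e) ((∏ i, comp (κ i) (ℓ i)) * G) : ℝ)
        ≤ ∑ κ' ∈ Finset.range (k + e - D' + 1),
          (mu K u l (u - k) (l + e) ((∏ i, comp (κ i) (ℓ i)) * comp κ' G) : ℝ) := by
          rw [hGexp]
          exact_mod_cast mu_sum _ _ _ _ _ _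
      _ ≤ ∑ κ' ∈ Finset.range (k + e - D' + 1),
          (if κ' = k - a then D * (Real.sqrt (Q ^ e / P ^ k) * (1 / Real.sqrt Q) ^ D') else 0) :=
          Finset.sum_le_sum hterm
      _ ≤ _ := by
          rw [Finset.sum_ite_eq']
          split_ifs
          · exact le_rfl
          · exact hR0
  calc (mu K u l (u - k) (l + e) ((∏ i, ℓ i) * G) : ℝ)
      ≤ ∑ κ ∈ Fintype.piFinset (fun _ : Fin D' => Finset.range (1 + 1)),
        (mu K u l (u - k) (l + e) ((∏ i, comp (κ i) (ℓ i)) * G) : ℝ) := by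
        rw [hexp, Finset.sum_mul]
        exact_mod_cast mu_sum _ _ _ _ _ _
    _ ≤ ∑ κ ∈ Fintype.piFinset (fun _ : Fin D' => Finset.range (1 + 1)),
        D * (Real.sqrt (Q ^ e / P ^ k) * (1 / Real.sqrt Q) ^ D') := Finset.sum_le_sum key
    _ = _ := by
        rw [Finset.sum_const, Fintype.card_piFinset]
        simp only [Finset.card_range, Finset.prod_const, Finset.card_univ, Fintype.card_fin,
          nsmul_eq_mul]
        push_cast
        rw [div_pow, div_pow]
        ring

end Upper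

end Crest.Agent.S0504
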