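import Mathlib
import Crest.Prelude.Def_SPSPS
import Crest.Agent.S0504_Defs
import Crest.Agent.S0504_Upper
import Crest.Agent.S0504_Dim
import Crest.Agent.S0504_T3
import Crest.Agent.S0504_T5

set_option autoImplicit false

namespace Crest.Agent.S0504

open MvPolynomial Crest.ArithCircuit

section LowerBasic
variable {Y Z : Type}

lemma mY_sum {ι : Type*} (s : Finset ι) (f : ι → ((Y ⊕ Z) →₀ ℕ)) :
    mY (∑ i ∈ s, f i) = ∑ i ∈ s, mY (f i) := by
  classical
  induction s using Finset.induction_on with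
  | empty => simp [mY_zero]
  | insert a s ha ih => rw [Finset.sum_insert ha, Finset.sum_insert ha, mY_add, ih]

lemma mZ_sum {ι : Type*} (s : Finset ι) (f : ι → ((Y ⊕ Z) →₀ ℕ)) :
    mZ (∑ i ∈ s, f i) = ∑ i ∈ s, mZ (f i) := by
  classical
  induction s using Finset.induction_on with
  | empty => simp [mZ_zero]
  | insert a s ha ih => rw [Finset.sum_insert ha, Finset.sum_insert ha, mZ_add, ih]

lemma mY_single_inl (y : Y) : mY (Finsupp.single (Sum.inl y : Y ⊕ Z) 1) = Finsupp.single y 1 := by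
  classical
  ext x
  simp [Finsupp.single_apply]

lemma mY_single_inr (z : Z) : mY (Finsupp.single (Sum.inr z : Y ⊕ Z) 1) = 0 := by
  classical
  ext x
  simp

lemma mZ_single_inl (y : Y) : mZ (Finsupp.single (Sum.inl y : Y ⊕ Z) 1) = 0 := by
  classical
  ext x
  simp

lemma mZ_single_inr (z : Z) : mZ (Finsupp.single (Sum.inr z : Y ⊕ Z) 1) = Finsupp.single z 1 := by
  classical
  ext x
  simp [Finsupp.single_apply]

/-- edge of the path `w` at layer `t` -/
def edge {n : ℕ} (w : Fin (n + 1) → Fin n) (t : Fin n) : Fin n × Fin n × Fin n :=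
  (t, w t.castSucc, w t.succ)

/-- closed paths -/
def pths (n : ℕ) [NeZero n] : Finset (Fin (n + 1) → Fin n) :=
  Finset.univ.filter (fun w => w 0 = 0 ∧ w (Fin.last n) = 0)

/-- partial monomial exponent of a path -/
noncomputable def ms {n : ℕ} (σ : Fin n × Fin n × Fin n → Y ⊕ Z) (w : Fin (n + 1) → Fin n)
    (T : Finset (Fin n)) : (Y ⊕ Z) →₀ ℕ := ∑ t ∈ T, Finsupp.single (σ (edge w t)) 1

lemma ms_apply {n : ℕ} {σ : Fin n × Fin n × Fin n → Y ⊕ Z} (hσ : Function.Injective σ)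
    (w : Fin (n + 1) → Fin n) (T : Finset (Fin n)) (t i j : Fin n) :
    ms σ w T (σ (t, i, j)) = if t ∈ T ∧ edge w t = (t, i, j) then 1 else 0 := by
  classical
  unfold ms
  rw [Finsupp.finsetSum_apply]
  simp only [Finsupp.single_apply]
  have : ∀ t' ∈ T, (if σ (edge w t') = σ (t, i, j) then 1 else 0) =
      if t' = t then (if edge w t = (t, i, j) then 1 else 0) else 0 := by
    intro t' _
    by_cases h : t' = t
    · subst h
      rw [if_pos rfl]
      by_cases h2 : edge w t' = (t', i, j)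
      · rw [if_pos (by rw [h2]), if_pos h2]
      · rw [if_neg (fun h3 => h2 (hσ h3)), if_neg h2]
    · rw [if_neg h, if_neg]
      intro h3
      have := hσ h3
      exact h (congrArg Prod.fst this)
  rw [Finset.sum_congr rfl this, Finset.sum_ite_eq']
  by_cases h : t ∈ T
  · simp [h]
  · simp [h]

lemma ms_apply_notMem {n : ℕ} {σ : Fin n × Fin n × Fin n → Y ⊕ Z}
    (w : Fin (n + 1) → Fin n) (T : Finset (Fin n)) (x : Y ⊕ Z) (hx : ∀ v, σ v ≠ x) :
    ms σ w T x = 0 := by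
  classical
  unfold ms
  rw [Finsupp.finsetSum_apply]
  apply Finset.sum_eq_zero
  intro t _
  rw [Finsupp.single_apply, if_neg (hx _)]

/-- the placement hypotheses -/
structure Plc {n : ℕ} (σ : Fin n × Fin n × Fin n → Y ⊕ Z) (isp : Fin n → Prop) : Prop where
  inj : Function.Injective σ
  hY : ∀ t i j, isp t → ∃ y, σ (t, i, j) = Sum.inl y
  hZ : ∀ t i j, ¬ isp t → ∃ z, σ (t, i, j) = Sum.inr z

lemma degree_mY_ms {n : ℕ} {σ : Fin n × Fin n × Fin n → Y ⊕ Z} {isp : Fin n → Prop}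
    [DecidablePred isp] (hσ : Plc σ isp) (w : Fin (n + 1) → Fin n) (T : Finset (Fin n)) :
    (mY (ms σ w T)).degree = (T.filter isp).card := by
  unfold ms
  rw [mY_sum, map_sum, Finset.card_filter]
  apply Finset.sum_congr rfl
  intro t _
  by_cases h : isp t
  · obtain ⟨y, hy⟩ := hσ.hY t (w t.castSucc) (w t.succ) h
    rw [if_pos h, show σ (edge w t) = Sum.inl y from hy, mY_single_inl, Finsupp.degree_single]
  · obtain ⟨z, hz⟩ := hσ.hZ t (w t.castSucc) (w t.succ) h
    rw [if_neg h, show σ (edge w t) = Sum.inr z from hz, mY_single_inr, map_zero]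

lemma degree_mZ_ms {n : ℕ} {σ : Fin n × Fin n × Fin n → Y ⊕ Z} {isp : Fin n → Prop}
    [DecidablePred isp] (hσ : Plc σ isp) (w : Fin (n + 1) → Fin n) (T : Finset (Fin n)) :
    (mZ (ms σ w T)).degree = (T.filter (fun t => ¬ isp t)).card := by
  unfold ms
  rw [mZ_sum, map_sum, Finset.card_filter]
  apply Finset.sum_congr rfl
  intro t _
  by_cases h : isp t
  · obtain ⟨y, hy⟩ := hσ.hY t (w t.castSucc) (w t.succ) h
    rw [if_neg (not_not.2 h), show σ (edge w t) = Sum.inl y from hy, mZ_single_inl, map_zero]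
  · obtain ⟨z, hz⟩ := hσ.hZ t (w t.castSucc) (w t.succ) h
    rw [if_pos h, show σ (edge w t) = Sum.inr z from hz, mZ_single_inr, Finsupp.degree_single]

theorem rename_imm (K : Type*) [Field K] (n : ℕ) [NeZero n]
    (σ : Fin n × Fin n × Fin n → Y ⊕ Z) :
    rename σ (imm K n) = ∑ w ∈ pths n, monomial (ms σ w Finset.univ) (1 : K) := by
  classical
  obtain ⟨m, rfl⟩ : ∃ m, n = m + 1 := ⟨n - 1, by have := NeZero.ne n; omega⟩
  show rename σ ((List.ofFn (varMatrix K (m + 1))).prod 0 0) = _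
  rw [list_prod_apply, map_sum]
  unfold pths
  rw [Finset.sum_filter]
  apply Finset.sum_congr rfl
  intro w _
  split_ifs with h
  · rw [map_prod]
    unfold ms
    rw [MvPolynomial.monomial_sum_one]
    apply Finset.prod_congr rfl
    intro t _
    show rename σ (X (t, w t.castSucc, w t.succ)) = _
    rw [rename_X]
    rfl
  · rw [map_zero]

/-- the transition relation of a path -/
def rel {n : ℕ} (σ : Fin n × Fin n × Fin n → Y ⊕ Z) (w : Fin (n + 1) → Fin n) (c r : St Y Z) :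
    Prop := c.1 = r.1 + mY (ms σ w Finset.univ) ∧ r.2 = c.2 + mZ (ms σ w Finset.univ)

open Classical in
lemma actS_apply (K : Type*) [Field K] (m : (Y ⊕ Z) →₀ ℕ) (c r : St Y Z) :
    actS K m c r = if (c.1 = r.1 + mY m ∧ r.2 = c.2 + mZ m) then 1 else 0 := by
  unfold actS
  by_cases h : mY m ≤ c.1
  · rw [if_pos h, Finsupp.single_apply]
    apply if_congr _ rfl rfl
    constructor
    · intro h2
      rw [← h2]
      exact ⟨(tsub_add_cancel_of_le h).symm, rfl⟩
    · rintro ⟨h2, h3⟩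
      apply Prod.ext
      · show c.1 - mY m = r.1
        rw [h2, add_tsub_cancel_right]
      · exact h3.symm
  · rw [if_neg h, if_neg]
    · rfl
    · rintro ⟨h2, -⟩
      apply h
      rw [h2]
      exact self_le_add_left _ _

end LowerBasic

section LowerRank
variable {Y Z : Type} [Fintype Y] [Fintype Z]

open Classical in
/-- the transition count matrix -/
noncomputable def Nmat {n : ℕ} [NeZero n] (σ : Fin n × Fin n × Fin n → Y ⊕ Z) (u l u' l' : ℕ)
    (r : ↥(stF Y Z u' l')) (c : ↥(stF Y Z u l)) : ℕ :=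
  ∑ w ∈ pths n, if rel σ w c.1 r.1 then 1 else 0

theorem rank_le_mu (K : Type*) [Field K] {n : ℕ} [NeZero n]
    (σ : Fin n × Fin n × Fin n → Y ⊕ Z) (u l u' l' : ℕ) :
    (Matrix.of fun r c => (Nmat σ u l u' l' r c : K)).rank ≤
      mu K u l u' l' (rename σ (imm K n)) := by
  classical
  rw [Matrix.rank_eq_finrank_span_cols]
  set g : (St Y Z →₀ K) →ₗ[K] (↥(stF Y Z u' l') → K) :=
    LinearMap.pi (fun r => Finsupp.lapply r.1) with hg
  have hle : Submodule.span K (Set.range (Matrix.of fun r c => (Nmat σ u l u' l' r c : K)).col) ≤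
      Submodule.map g (Submodule.map (Top K u' l' (rename σ (imm K n))) (Vs K Y Z u l)) := by
    rw [Submodule.span_le]
    rintro _ ⟨c, rfl⟩
    refine ⟨Top K u' l' (rename σ (imm K n)) (Finsupp.single c.1 1), ⟨Finsupp.single c.1 1, ?_, rfl⟩, ?_⟩
    · exact Finsupp.single_mem_supported K _ c.2
    · funext r
      show Top K u' l' (rename σ (imm K n)) (Finsupp.single c.1 1) r.1 = (Nmat σ u l u' l' r c : K)
      show ((Finsupp.restrictDom K K (stF Y Z u' l' : Set (St Y Z))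
        (Phi K Y Z (rename σ (imm K n)) (Finsupp.single c.1 1)) :
        Finsupp.supported K K (stF Y Z u' l' : Set (St Y Z))) : St Y Z →₀ K) r.1 = _
      rw [Finsupp.restrictDom_apply, Finsupp.filter_apply, if_pos (show r.1 ∈ (stF Y Z u' l' :
        Set (St Y Z)) from r.2), rename_imm, map_sum, LinearMap.sum_apply, Finsupp.finsetSum_apply]
      unfold Nmat
      push_cast
      apply Finset.sum_congr rfl
      intro w _
      rw [Phi_monomial, one_smul, act_single, one_smul, actS_apply]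
      exact if_congr Iff.rfl rfl rfl
  calc Module.finrank K _ ≤ Module.finrank K (Submodule.map g
        (Submodule.map (Top K u' l' (rename σ (imm K n))) (Vs K Y Z u l))) :=
        Submodule.finrank_mono hle
    _ ≤ _ := Submodule.finrank_map_le _ _

open Classical in
/-- the indicator of the transition relation -/
noncomputable def aw {n : ℕ} (σ : Fin n × Fin n × Fin n → Y ⊕ Z) {S S' : Finset (St Y Z)}
    (w : Fin (n + 1) → Fin n) (c : ↥S) (r : ↥S') : ℕ := if rel σ w c.1 r.1 then 1 else 0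

omit [Fintype Y] [Fintype Z] in
lemma sum3 {α β γ : Type*} (s : Finset γ) (S₁ : Finset α) (S₂ : Finset β) (g : α → β → γ → ℕ) :
    ∑ a ∈ S₁, ∑ b ∈ S₂, ∑ w ∈ s, g a b w = ∑ w ∈ s, ∑ a ∈ S₁, ∑ b ∈ S₂, g a b w := by
  calc _ = ∑ a ∈ S₁, ∑ w ∈ s, ∑ b ∈ S₂, g a b w := by
        apply Finset.sum_congr rfl; intro a _
        exact Finset.sum_comm
    _ = _ := Finset.sum_comm

theorem count_A {n : ℕ} [NeZero n] {σ : Fin n × Fin n × Fin n → Y ⊕ Z} {isp : Fin n → Prop}
    [DecidablePred isp] (hσ : Plc σ isp) (u l k e : ℕ)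
    (hk : (Finset.univ.filter isp).card = k) (he : (Finset.univ.filter (fun t => ¬ isp t)).card = e)
    (hku : k ≤ u) :
    (pths n).card * ((Fintype.card Y).multichoose (u - k) * (Fintype.card Z).multichoose l) ≤
      ∑ c, ∑ r, (Nmat σ u l (u - k) (l + e) r c) ^ 2 := by
  classical
  have h1 : ∑ c, ∑ r, (Nmat σ u l (u - k) (l + e) r c) ≤
      ∑ c, ∑ r, (Nmat σ u l (u - k) (l + e) r c) ^ 2 := by
    apply Finset.sum_le_sum; intro c _
    apply Finset.sum_le_sum; intro r _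
    nlinarith [Nat.zero_le (Nmat σ u l (u - k) (l + e) r c),
      Nat.le_self_pow (two_ne_zero) (Nmat σ u l (u - k) (l + e) r c)]
  refine le_trans ?_ h1
  have h2 : ∑ c, ∑ r, (Nmat σ u l (u - k) (l + e) r c) =
      ∑ w ∈ pths n, ∑ c : ↥(stF Y Z u l), ∑ r : ↥(stF Y Z (u - k) (l + e)), aw σ w c r := by
    unfold Nmat aw
    exact sum3 _ _ _ _
  rw [h2, ← smul_eq_mul, ← Finset.sum_const]
  apply Finset.sum_le_sum
  intro w _
  rw [← card_stF]
  have h3 : ∑ c : ↥(stF Y Z u l), ∑ r : ↥(stF Y Z (u - k) (l + e)), aw σ w c r =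
      ((Finset.univ : Finset (↥(stF Y Z u l) × ↥(stF Y Z (u - k) (l + e)))).filter
        (fun p => rel σ w p.1.1 p.2.1)).card := by
    rw [Finset.card_filter, Fintype.sum_prod_type]
    rfl
  rw [h3, ← Finset.card_attach]
  have hdY := degree_mY_ms hσ w Finset.univ
  have hdZ := degree_mZ_ms hσ w Finset.univ
  rw [hk] at hdY
  rw [he] at hdZ
  have hm : ∀ c' : ↥(stF Y Z (u - k) l),
      ((c'.1.1 + mY (ms σ w Finset.univ), c'.1.2) : St Y Z) ∈ stF Y Z u l := by
    intro c'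
    have := mem_stF.1 c'.2
    rw [mem_stF]
    refine ⟨?_, this.2⟩
    show (c'.1.1 + mY (ms σ w Finset.univ)).degree = u
    rw [map_add, this.1, hdY]; omega
  have hm' : ∀ c' : ↥(stF Y Z (u - k) l),
      ((c'.1.1, c'.1.2 + mZ (ms σ w Finset.univ)) : St Y Z) ∈ stF Y Z (u - k) (l + e) := by
    intro c'
    have := mem_stF.1 c'.2
    rw [mem_stF]
    refine ⟨this.1, ?_⟩
    show (c'.1.2 + mZ (ms σ w Finset.univ)).degree = l + e
    rw [map_add, this.2, hdZ]
  apply Finset.card_le_card_of_injOn (fun c' => (⟨_, hm c'⟩, ⟨_, hm' c'⟩))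
  · intro c' _
    simp only [Finset.coe_filter, Finset.mem_univ, true_and, Set.mem_ofPred_eq]
    exact ⟨rfl, rfl⟩
  · intro a _ b _ hab
    simp only [Prod.mk.injEq, Subtype.mk.injEq] at hab
    apply Subtype.ext
    exact Prod.ext hab.2.1 hab.1.2

/-- number of closed 4-walks with given labels -/
noncomputable def Tq {n : ℕ} (σ : Fin n × Fin n × Fin n → Y ⊕ Z) (S S' : Finset (St Y Z))
    (w₁ w₂ w₃ w₄ : Fin (n + 1) → Fin n) : ℕ :=
  ∑ c : ↥S, ∑ c' : ↥S, (∑ r : ↥S', aw σ w₁ c r * aw σ w₂ c' r) *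
    (∑ r : ↥S', aw σ w₄ c r * aw σ w₃ c' r)

theorem count_B {n : ℕ} [NeZero n] (σ : Fin n × Fin n × Fin n → Y ⊕ Z) (u l u' l' : ℕ) :
    ∑ c, ∑ c', (∑ r, Nmat σ u l u' l' r c * Nmat σ u l u' l' r c') ^ 2 =
      ∑ w₁ ∈ pths n, ∑ w₂ ∈ pths n, ∑ w₃ ∈ pths n, ∑ w₄ ∈ pths n,
        Tq σ (stF Y Z u l) (stF Y Z u' l') w₁ w₂ w₃ w₄ := by
  classical
  have h1 : ∀ c c', (∑ r, Nmat σ u l u' l' r c * Nmat σ u l u' l' r c') =
      ∑ w₁ ∈ pths n, ∑ w₂ ∈ pths n, ∑ r : ↥(stF Y Z u' l'), aw σ w₁ c r * aw σ w₂ c' r := by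
    intro c c'
    have : ∀ r, Nmat σ u l u' l' r c * Nmat σ u l u' l' r c' =
        ∑ w₁ ∈ pths n, ∑ w₂ ∈ pths n, aw σ w₁ c r * aw σ w₂ c' r := by
      intro r
      unfold Nmat
      rw [Finset.sum_mul_sum]
      rfl
    rw [Finset.sum_congr rfl (fun r _ => this r), Finset.sum_comm]
    apply Finset.sum_congr rfl
    intro w₁ _
    rw [Finset.sum_comm]
  simp only [h1, Tq]
  have h2 : ∀ c c' : ↥(stF Y Z u l), (∑ w₁ ∈ pths n, ∑ w₂ ∈ pths n,
      ∑ r : ↥(stF Y Z u' l'), aw σ w₁ c r * aw σ w₂ c' r) ^ 2 =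
      ∑ w₁ ∈ pths n, ∑ w₂ ∈ pths n, ∑ w₃ ∈ pths n, ∑ w₄ ∈ pths n,
        (∑ r : ↥(stF Y Z u' l'), aw σ w₁ c r * aw σ w₂ c' r) *
          (∑ r : ↥(stF Y Z u' l'), aw σ w₄ c r * aw σ w₃ c' r) := by
    intro c c'
    rw [sq, Finset.sum_mul]
    apply Finset.sum_congr rfl
    intro w₁ _
    rw [Finset.sum_mul]
    apply Finset.sum_congr rfl
    intro w₂ _
    rw [Finset.sum_comm (s := pths n) (t := pths n), Finset.mul_sum]
    apply Finset.sum_congr rfl
    intro w₃ _
    rw [Finset.mul_sum]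
  simp only [h2]
  rw [sum3]
  apply Finset.sum_congr rfl; intro w₁ _
  rw [sum3]
  apply Finset.sum_congr rfl; intro w₂ _
  rw [sum3]
  apply Finset.sum_congr rfl; intro w₃ _
  rw [sum3]

end LowerRank

end Crest.Agent.S0504
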