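import Mathlib
import Crest.Prelude.Def_SPSPS
import Crest.Agent.S0504_Lower

set_option autoImplicit false

namespace Crest.Agent.S0504

open MvPolynomial Crest.ArithCircuit

section Count
variable {Y Z : Type}

/-- the quadruple of nodes at a level -/
def quad {n : ℕ} (w₁ w₂ w₃ w₄ : Fin (n + 1) → Fin n) (t : Fin (n + 1)) : Quad n :=
  (w₁ t, w₂ t, w₃ t, w₄ t)

lemma edge_eq_iff {n : ℕ} (w w' : Fin (n + 1) → Fin n) (t : Fin n) :
    edge w t = edge w' t ↔ (w t.castSucc, w t.succ) = (w' t.castSucc, w' t.succ) := by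
  unfold edge
  simp

lemma quadOk_of_eq {n : ℕ} {σ : Fin n × Fin n × Fin n → Y ⊕ Z} (hσ : Function.Injective σ)
    (w₁ w₂ w₃ w₄ : Fin (n + 1) → Fin n)
    (h : ∀ x, ms σ w₁ Finset.univ x + ms σ w₃ Finset.univ x =
      ms σ w₂ Finset.univ x + ms σ w₄ Finset.univ x) (t : Fin n) :
    quadOk (quad w₁ w₂ w₃ w₄ t.castSucc) (quad w₁ w₂ w₃ w₄ t.succ) := by
  classical
  have key : ∀ w : Fin (n + 1) → Fin n,
      (if edge w₁ t = edge w t then 1 else 0) + (if edge w₃ t = edge w t then 1 else 0) =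
      (if edge w₂ t = edge w t then 1 else 0) + (if edge w₄ t = edge w t then 1 else 0) := by
    intro w
    have := h (σ (edge w t))
    unfold edge at this
    rw [ms_apply hσ, ms_apply hσ, ms_apply hσ, ms_apply hσ] at this
    simpa [edge] using this
  unfold quadOk quad
  show ((w₁ t.castSucc, w₁ t.succ) = (w₂ t.castSucc, w₂ t.succ) ∧
      (w₃ t.castSucc, w₃ t.succ) = (w₄ t.castSucc, w₄ t.succ)) ∨
    ((w₁ t.castSucc, w₁ t.succ) = (w₄ t.castSucc, w₄ t.succ) ∧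
      (w₃ t.castSucc, w₃ t.succ) = (w₂ t.castSucc, w₂ t.succ))
  rw [← edge_eq_iff, ← edge_eq_iff, ← edge_eq_iff, ← edge_eq_iff]
  have k1 := key w₁
  have k3 := key w₃
  rw [if_pos rfl] at k1
  by_cases h2 : edge w₂ t = edge w₁ t
  · left
    refine ⟨h2.symm, ?_⟩
    rw [if_pos (rfl : edge w₃ t = edge w₃ t), h2] at k3
    by_contra h4
    rw [if_neg (fun h5 : edge w₄ t = edge w₃ t => h4 h5.symm)] at k3
    omega
  · right
    rw [if_neg h2] at k1
    have h4 : edge w₄ t = edge w₁ t := by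
      by_contra h4
      rw [if_neg h4] at k1
      omega
    refine ⟨h4.symm, ?_⟩
    rw [if_pos (rfl : edge w₃ t = edge w₃ t), h4] at k3
    by_contra h5
    rw [if_neg (fun h6 : edge w₂ t = edge w₃ t => h5 h6.symm)] at k3
    omega

lemma Tq_eq_card {n : ℕ} (σ : Fin n × Fin n × Fin n → Y ⊕ Z) (S S' : Finset (St Y Z))
    (w₁ w₂ w₃ w₄ : Fin (n + 1) → Fin n) [DecidablePred fun p : ↥S × ↥S × ↥S' × ↥S' =>
      (rel σ w₁ p.1.1 p.2.2.1.1 ∧ rel σ w₂ p.2.1.1 p.2.2.1.1) ∧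
      (rel σ w₄ p.1.1 p.2.2.2.1 ∧ rel σ w₃ p.2.1.1 p.2.2.2.1)] :
    Tq σ S S' w₁ w₂ w₃ w₄ =
      ((Finset.univ : Finset (↥S × ↥S × ↥S' × ↥S')).filter (fun p =>
        (rel σ w₁ p.1.1 p.2.2.1.1 ∧ rel σ w₂ p.2.1.1 p.2.2.1.1) ∧
        (rel σ w₄ p.1.1 p.2.2.2.1 ∧ rel σ w₃ p.2.1.1 p.2.2.2.1))).card := by
  classical
  rw [Finset.card_filter, Fintype.sum_prod_type]
  unfold Tq
  apply Finset.sum_congr rfl; intro c _
  rw [Fintype.sum_prod_type]
  apply Finset.sum_congr rfl; intro c' _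
  rw [Fintype.sum_prod_type, Finset.sum_mul_sum]
  apply Finset.sum_congr rfl; intro r _
  apply Finset.sum_congr rfl; intro r' _
  unfold aw
  by_cases h1 : rel σ w₁ c.1 r.1 <;> by_cases h2 : rel σ w₂ c'.1 r.1 <;>
    by_cases h3 : rel σ w₄ c.1 r'.1 <;> by_cases h4 : rel σ w₃ c'.1 r'.1 <;>
    simp [h1, h2, h3, h4]

variable [Fintype Y] [Fintype Z]

theorem Tq_le {n : ℕ} {σ : Fin n × Fin n × Fin n → Y ⊕ Z} {isp : Fin n → Prop}
    [DecidablePred isp] (hσ : Plc σ isp) (u l k e : ℕ) {P Q : ℝ} (hQ : 1 ≤ Q) (hP : 1 ≤ P)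
    (hk : (Finset.univ.filter isp).card = k)
    (hu : k + n ≤ u) (hl : n ≤ l) (ha : 1 ≤ Fintype.card Y) (hb : 1 ≤ Fintype.card Z)
    (haP : (P - 1) * u + 1 ≤ Fintype.card Y) (hbQ : (Q - 1) * l + 1 ≤ Fintype.card Z)
    (w₁ w₂ w₃ w₄ : Fin (n + 1) → Fin n) :
    (Tq σ (stF Y Z u l) (stF Y Z (u - k) (l + e)) w₁ w₂ w₃ w₄ : ℝ) ≤
      ((Fintype.card Y).multichoose (u - k) * (Fintype.card Z).multichoose l : ℕ) *
      ∏ t : Fin n, kern n (1 / P) (1 / Q) (isp t) (quad w₁ w₂ w₃ w₄ t.castSucc)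
        (quad w₁ w₂ w₃ w₄ t.succ) := by
  classical
  have hP0 : 0 < P := by linarith
  have hQ0 : 0 < Q := by linarith
  have hkern0 : ∀ t : Fin n, 0 ≤ kern n (1 / P) (1 / Q) (isp t) (quad w₁ w₂ w₃ w₄ t.castSucc)
        (quad w₁ w₂ w₃ w₄ t.succ) := by
    intro t
    unfold kern
    simp only [Matrix.of_apply]
    split_ifs <;> positivity
  set S := stF Y Z u l with hS
  set S' := stF Y Z (u - k) (l + e) with hS'
  rw [Tq_eq_card]
  set A := ((Finset.univ : Finset (↥S × ↥S × ↥S' × ↥S')).filter (fun p =>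
        (rel σ w₁ p.1.1 p.2.2.1.1 ∧ rel σ w₂ p.2.1.1 p.2.2.1.1) ∧
        (rel σ w₄ p.1.1 p.2.2.2.1 ∧ rel σ w₃ p.2.1.1 p.2.2.2.1))) with hA
  by_cases hAe : A = ∅
  · rw [hAe, Finset.card_empty, Nat.cast_zero]
    have := Finset.prod_nonneg fun t (_ : t ∈ (Finset.univ : Finset (Fin n))) => hkern0 t
    positivity
  -- the quadruple is compatible
  have hq : ∀ t : Fin n, quadOk (quad w₁ w₂ w₃ w₄ t.castSucc) (quad w₁ w₂ w₃ w₄ t.succ) := by
    obtain ⟨p, hp⟩ := Finset.nonempty_iff_ne_empty.2 hAe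
    rw [hA, Finset.mem_filter] at hp
    obtain ⟨-, ⟨⟨h1, h1'⟩, ⟨h2, h2'⟩⟩, ⟨⟨h4, h4'⟩, ⟨h3, h3'⟩⟩⟩ := hp
    apply quadOk_of_eq hσ.inj
    rintro (y | z)
    · have e1 := DFunLike.congr_fun h1 y
      have e2 := DFunLike.congr_fun h2 y
      have e3 := DFunLike.congr_fun h3 y
      have e4 := DFunLike.congr_fun h4 y
      simp only [Finsupp.add_apply, mY_apply] at e1 e2 e3 e4
      omega
    · have e1 := DFunLike.congr_fun h1' z
      have e2 := DFunLike.congr_fun h2' z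
      have e3 := DFunLike.congr_fun h3' z
      have e4 := DFunLike.congr_fun h4' z
      simp only [Finsupp.add_apply, mZ_apply] at e1 e2 e3 e4
      omega
  set T0 : Finset (Fin n) := Finset.univ.filter (fun t => edge w₁ t ≠ edge w₄ t) with hT0
  set T1 : Finset (Fin n) := Finset.univ.filter (fun t => edge w₁ t ≠ edge w₂ t) with hT1
  set δP := (T0.filter isp).card with hδP
  set δN := (T1.filter (fun t => ¬ isp t)).card with hδN
  set v0 := mY (ms σ w₁ Finset.univ) + mY (ms σ w₄ T0) with hv0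
  set v1 := mZ (ms σ w₂ T1) with hv1
  have hdv0 : v0.degree = k + δP := by
    rw [hv0, map_add, degree_mY_ms hσ, degree_mY_ms hσ, hk]
  have hdv1 : v1.degree = δN := by
    rw [hv1, degree_mZ_ms hσ]
  have hcard : A.card ≤ (stF Y Z (u - (k + δP)) (l - δN)).card := by
    have hle0 : ∀ p ∈ A, v0 ≤ p.1.1.1 := by
      intro p hp y
      rw [hA, Finset.mem_filter] at hp
      obtain ⟨-, ⟨⟨h1, h1'⟩, ⟨h2, h2'⟩⟩, ⟨⟨h4, h4'⟩, ⟨h3, h3'⟩⟩⟩ := hp
      have e1 := DFunLike.congr_fun h1 y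
      have e4 := DFunLike.congr_fun h4 y
      simp only [Finsupp.add_apply, mY_apply] at e1 e4
      rw [hv0, Finsupp.add_apply, mY_apply, mY_apply]
      by_cases hy : ∃ v, σ v = Sum.inl y
      · obtain ⟨⟨t, i, j⟩, hv⟩ := hy
        rw [← hv] at e1 e4 ⊢
        rw [ms_apply hσ.inj] at e1 e4
        rw [ms_apply hσ.inj, ms_apply hσ.inj]
        simp only [Finset.mem_univ, true_and] at e1 e4 ⊢
        by_cases h5 : edge w₁ t = (t, i, j)
        · have h6 : ¬ (t ∈ T0 ∧ edge w₄ t = (t, i, j)) := by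
            rintro ⟨h7, h8⟩
            exact (Finset.mem_filter.1 h7).2 (by rw [h5, h8])
          rw [if_pos h5] at e1 ⊢
          rw [if_neg h6]
          omega
        · rw [if_neg h5]
          by_cases h6 : edge w₄ t = (t, i, j)
          · rw [if_pos h6] at e4
            split_ifs <;> omega
          · rw [if_neg (fun h => h6 h.2)]
            omega
      · push Not at hy
        rw [ms_apply_notMem _ _ _ hy, ms_apply_notMem _ _ _ hy]
        exact Nat.zero_le _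
    have hle1 : ∀ p ∈ A, v1 ≤ p.1.1.2 := by
      intro p hp z
      rw [hA, Finset.mem_filter] at hp
      obtain ⟨-, ⟨⟨h1, h1'⟩, ⟨h2, h2'⟩⟩, ⟨⟨h4, h4'⟩, ⟨h3, h3'⟩⟩⟩ := hp
      have e1 := DFunLike.congr_fun h1' z
      have e2 := DFunLike.congr_fun h2' z
      simp only [Finsupp.add_apply, mZ_apply] at e1 e2
      rw [hv1, mZ_apply]
      by_cases hz : ∃ v, σ v = Sum.inr z
      · obtain ⟨⟨t, i, j⟩, hv⟩ := hz
        rw [← hv] at e1 e2 ⊢
        rw [ms_apply hσ.inj] at e1 e2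
        rw [ms_apply hσ.inj]
        simp only [Finset.mem_univ, true_and] at e1 e2 ⊢
        by_cases h5 : t ∈ T1 ∧ edge w₂ t = (t, i, j)
        · have h6 : edge w₁ t ≠ (t, i, j) := by
            intro h7
            exact (Finset.mem_filter.1 h5.1).2 (by rw [h7, h5.2])
          rw [if_neg h6] at e1
          rw [if_pos h5.2] at e2
          rw [if_pos h5]
          omega
        · rw [if_neg h5]
          exact Nat.zero_le _
      · push Not at hz
        rw [ms_apply_notMem _ _ _ hz]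
        exact Nat.zero_le _
    apply Finset.card_le_card_of_injOn (fun p => ((p.1.1.1 - v0, p.1.1.2 - v1) : St Y Z))
    · intro p hp
      have g0 := hle0 p hp
      have g1 := hle1 p hp
      have hm := mem_stF.1 p.1.2
      show _ ∈ stF Y Z (u - (k + δP)) (l - δN)
      rw [mem_stF]
      have f0 := congrArg Finsupp.degree (tsub_add_cancel_of_le g0)
      have f1 := congrArg Finsupp.degree (tsub_add_cancel_of_le g1)
      rw [map_add] at f0 f1
      show (p.1.1.1 - v0).degree = _ ∧ (p.1.1.2 - v1).degree = _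
      omega
    · intro p hp p' hp' hpp
      have g0 := hle0 p hp
      have g1 := hle1 p hp
      have g0' := hle0 p' hp'
      have g1' := hle1 p' hp'
      simp only [Prod.mk.injEq] at hpp
      have c1 : p.1.1.1 = p'.1.1.1 := by
        rw [← tsub_add_cancel_of_le g0, ← tsub_add_cancel_of_le g0', hpp.1]
      have c2 : p.1.1.2 = p'.1.1.2 := by
        rw [← tsub_add_cancel_of_le g1, ← tsub_add_cancel_of_le g1', hpp.2]
      have hpA : p ∈ A := hp
      have hpA' : p' ∈ A := hp'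
      rw [hA, Finset.mem_filter] at hpA hpA'
      obtain ⟨-, ⟨⟨h1, h1'⟩, ⟨h2, h2'⟩⟩, ⟨⟨h4, h4'⟩, ⟨h3, h3'⟩⟩⟩ := hpA
      obtain ⟨-, ⟨⟨k1, k1'⟩, ⟨k2, k2'⟩⟩, ⟨⟨k4, k4'⟩, ⟨k3, k3'⟩⟩⟩ := hpA'
      have hc : p.1 = p'.1 := Subtype.ext (Prod.ext c1 c2)
      have hr1 : p.2.2.1.1.1 = p'.2.2.1.1.1 := by
        rw [h1, k1] at c1
        exact add_right_cancel c1
      have hr2 : p.2.2.1.1.2 = p'.2.2.1.1.2 := by rw [h1', k1', c2]
      have hr : p.2.2.1 = p'.2.2.1 := Subtype.ext (Prod.ext hr1 hr2)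
      have hs1 : p.2.2.2.1.1 = p'.2.2.2.1.1 := by
        rw [h4, k4] at c1
        exact add_right_cancel c1
      have hs2 : p.2.2.2.1.2 = p'.2.2.2.1.2 := by rw [h4', k4', c2]
      have hs : p.2.2.2 = p'.2.2.2 := Subtype.ext (Prod.ext hs1 hs2)
      have hc1 : p.2.1.1.1 = p'.2.1.1.1 := by rw [h2, k2, hr1]
      have hc2 : p.2.1.1.2 = p'.2.1.1.2 := by
        rw [h2', k2'] at hr2
        exact add_right_cancel hr2
      have hc' : p.2.1 = p'.2.1 := Subtype.ext (Prod.ext hc1 hc2)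
      exact Prod.ext hc (Prod.ext hc' (Prod.ext hr hs))
  have hprod : ∏ t : Fin n, kern n (1 / P) (1 / Q) (isp t) (quad w₁ w₂ w₃ w₄ t.castSucc)
        (quad w₁ w₂ w₃ w₄ t.succ) = (1 / P) ^ δP * (1 / Q) ^ δN := by
    have e1 : ∀ t : Fin n, kern n (1 / P) (1 / Q) (isp t) (quad w₁ w₂ w₃ w₄ t.castSucc)
        (quad w₁ w₂ w₃ w₄ t.succ) =
        (if edge w₁ t ≠ edge w₄ t ∧ isp t then 1 / P else 1) *
        (if edge w₁ t ≠ edge w₂ t ∧ ¬ isp t then 1 / Q else 1) := by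
      intro t
      unfold kern
      simp only [Matrix.of_apply]
      rw [if_pos (hq t)]
      have q1 : ((quad w₁ w₂ w₃ w₄ t.castSucc).1, (quad w₁ w₂ w₃ w₄ t.succ).1) ≠
          ((quad w₁ w₂ w₃ w₄ t.castSucc).2.2.2, (quad w₁ w₂ w₃ w₄ t.succ).2.2.2) ↔
          edge w₁ t ≠ edge w₄ t := by
        rw [Ne, Ne, edge_eq_iff]; rfl
      have q2 : ((quad w₁ w₂ w₃ w₄ t.castSucc).1, (quad w₁ w₂ w₃ w₄ t.succ).1) ≠
          ((quad w₁ w₂ w₃ w₄ t.castSucc).2.1, (quad w₁ w₂ w₃ w₄ t.succ).2.1) ↔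
          edge w₁ t ≠ edge w₂ t := by
        rw [Ne, Ne, edge_eq_iff]; rfl
      simp only [q1, q2]
      by_cases h : isp t
      · simp [h]
      · simp [h]
    rw [Finset.prod_congr rfl (fun t _ => e1 t), Finset.prod_mul_distrib]
    congr 1
    · rw [Finset.prod_ite, Finset.prod_const, Finset.prod_const_one, mul_one, hδP, hT0,
        Finset.filter_filter]
    · rw [Finset.prod_ite, Finset.prod_const, Finset.prod_const_one, mul_one, hδN, hT1,
        Finset.filter_filter]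
  rw [hprod]
  have hδPn : δP ≤ n := by
    calc δP ≤ (Finset.univ : Finset (Fin n)).card := Finset.card_le_card (Finset.subset_univ _)
      _ = n := by simp
  have hδNn : δN ≤ n := by
    calc δN ≤ (Finset.univ : Finset (Fin n)).card := Finset.card_le_card (Finset.subset_univ _)
      _ = n := by simp
  have m1 : (((Fintype.card Y).multichoose (u - (k + δP)) : ℕ) : ℝ) ≤
      ((Fintype.card Y).multichoose (u - k) : ℕ) / P ^ δP := by
    have h1 : u - (k + δP) = (u - k) - δP := by omega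
    rw [h1]
    apply mc_down _ _ P hP ha
    · have : ((u - k : ℕ) : ℝ) ≤ u := by exact_mod_cast Nat.sub_le u k
      nlinarith
    · omega
  have m2 : (((Fintype.card Z).multichoose (l - δN) : ℕ) : ℝ) ≤
      ((Fintype.card Z).multichoose l : ℕ) / Q ^ δN := by
    apply mc_down _ _ Q hQ hb hbQ
    omega
  calc (A.card : ℝ) ≤ (stF Y Z (u - (k + δP)) (l - δN)).card := by exact_mod_cast hcard
    _ = (((Fintype.card Y).multichoose (u - (k + δP)) : ℕ) : ℝ) *
        ((Fintype.card Z).multichoose (l - δN) : ℕ) := by rw [card_stF]; push_cast; rfl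
    _ ≤ (((Fintype.card Y).multichoose (u - k) : ℕ) / P ^ δP) *
        (((Fintype.card Z).multichoose l : ℕ) / Q ^ δN) := by
        apply mul_le_mul m1 m2 (by positivity) (by positivity)
    _ = _ := by
        push_cast
        rw [one_div_pow, one_div_pow]
        ring

end Count

end Crest.Agent.S0504
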