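import Mathlib
import Crest.Prelude.Def_SPSPS
import Crest.Agent.S0504_Count

set_option autoImplicit false

namespace Crest.Agent.S0504

open MvPolynomial Crest.ArithCircuit

lemma ones_pow (n m : ℕ) (i j : Fin n) :
    ((Matrix.of fun _ _ => 1 : Matrix (Fin n) (Fin n) ℕ) ^ (m + 1)) i j = n ^ m := by
  induction m generalizing i j with
  | zero => simp
  | succ m ih =>
    rw [pow_succ, Matrix.mul_apply]
    simp only [ih]
    simp [pow_succ, mul_comm]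

lemma card_pths (n : ℕ) [NeZero n] : (pths n).card = n ^ (n - 1) := by
  have h := list_prod_apply n (fun _ : Fin n => (Matrix.of fun _ _ => 1 : Matrix (Fin n) (Fin n) ℕ))
    0 0
  have h2 : (List.ofFn (fun _ : Fin n => (Matrix.of fun _ _ => 1 : Matrix (Fin n) (Fin n) ℕ))).prod
      = (Matrix.of fun _ _ => 1 : Matrix (Fin n) (Fin n) ℕ) ^ n := by
    rw [List.ofFn_const, List.prod_replicate]
  rw [h2] at h
  have h3 : ((Matrix.of fun _ _ => 1 : Matrix (Fin n) (Fin n) ℕ) ^ n) 0 0 = n ^ (n - 1) := by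
    have hn : n = (n - 1) + 1 := by have := NeZero.ne n; omega
    have h5 : (Matrix.of fun _ _ => 1 : Matrix (Fin n) (Fin n) ℕ) ^ n =
        (Matrix.of fun _ _ => 1 : Matrix (Fin n) (Fin n) ℕ) ^ ((n - 1) + 1) := by
      rw [← hn]
    rw [h5]
    exact ones_pow n (n - 1) 0 0
  rw [h3] at h
  rw [h]
  unfold pths
  rw [Finset.card_filter]
  apply Finset.sum_congr rfl
  intro w _
  split_ifs <;> simp

lemma sum_quad {n : ℕ} [NeZero n] (M : Fin n → Matrix (Quad n) (Quad n) ℝ) :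
    ∑ w₁ ∈ pths n, ∑ w₂ ∈ pths n, ∑ w₃ ∈ pths n, ∑ w₄ ∈ pths n,
      ∏ t : Fin n, M t (quad w₁ w₂ w₃ w₄ t.castSucc) (quad w₁ w₂ w₃ w₄ t.succ) =
    (List.ofFn M).prod (0, 0, 0, 0) (0, 0, 0, 0) := by
  classical
  rw [list_prod_apply, ← Finset.sum_filter]
  symm
  have e1 : ∑ w₁ ∈ pths n, ∑ w₂ ∈ pths n, ∑ w₃ ∈ pths n, ∑ w₄ ∈ pths n,
      ∏ t : Fin n, M t (quad w₁ w₂ w₃ w₄ t.castSucc) (quad w₁ w₂ w₃ w₄ t.succ) =
      ∑ p ∈ pths n ×ˢ pths n ×ˢ pths n ×ˢ pths n,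
        ∏ t : Fin n, M t (quad p.1 p.2.1 p.2.2.1 p.2.2.2 t.castSucc)
          (quad p.1 p.2.1 p.2.2.1 p.2.2.2 t.succ) := by
    rw [Finset.sum_product]
    apply Finset.sum_congr rfl; intro w₁ _
    rw [Finset.sum_product]
    apply Finset.sum_congr rfl; intro w₂ _
    rw [Finset.sum_product]
  rw [e1]
  apply Finset.sum_nbij' (i := fun W => (fun t => (W t).1, fun t => (W t).2.1,
    fun t => (W t).2.2.1, fun t => (W t).2.2.2)) (j := fun p => quad p.1 p.2.1 p.2.2.1 p.2.2.2)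
  · intro W hW
    rw [Finset.mem_filter] at hW
    simp only [Finset.mem_product, pths, Finset.mem_filter, Finset.mem_univ, true_and]
    rw [hW.2.1, hW.2.2]
    simp
  · intro p hp
    simp only [Finset.mem_product, pths, Finset.mem_filter, Finset.mem_univ, true_and] at hp
    rw [Finset.mem_filter]
    obtain ⟨h1, h2, h3, h4⟩ := hp
    refine ⟨Finset.mem_univ _, ?_, ?_⟩
    · simp only [quad, h1.1, h2.1, h3.1, h4.1]
    · simp only [quad, h1.2, h2.2, h3.2, h4.2]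
  · intro W _
    funext t
    rfl
  · intro p _
    rfl
  · intro W _
    rfl

lemma aux_ineq {a b r μ c d : ℝ} (ha : 0 ≤ a) (hμ : 0 ≤ μ) (hab : a ≤ b) (h3 : b ^ 2 ≤ r * c)
    (hr : r ≤ μ) (hc : c ≤ d) (hc0 : 0 ≤ c := by positivity) :
    a ^ 2 ≤ μ * d := by
  calc a ^ 2 ≤ b ^ 2 := pow_le_pow_left₀ ha hab 2
    _ ≤ r * c := h3
    _ ≤ μ * c := mul_le_mul_of_nonneg_right hr hc0
    _ ≤ μ * d := mul_le_mul_of_nonneg_left hc hμ

theorem lower_main (K : Type*) [Field K] [CharZero K] {n : ℕ} [NeZero n] {Y Z : Type}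
    [Fintype Y] [Fintype Z]
    {σ : Fin n × Fin n × Fin n → Y ⊕ Z} {isp : Fin n → Prop}
    [DecidablePred isp] (hσ : Plc σ isp) (u l k e : ℕ) {P Q : ℝ} (hQ : 1 ≤ Q) (hP : 1 ≤ P)
    (hk : (Finset.univ.filter isp).card = k) (he : (Finset.univ.filter (fun t => ¬ isp t)).card = e)
    (hu : k + n ≤ u) (hl : n ≤ l) (ha : 1 ≤ Fintype.card Y) (hb : 1 ≤ Fintype.card Z)
    (haP : (P - 1) * u + 1 ≤ Fintype.card Y) (hbQ : (Q - 1) * l + 1 ≤ Fintype.card Z) :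
    ((n : ℝ) ^ (n - 1)) ^ 2 *
      ((Fintype.card Y).multichoose (u - k) * (Fintype.card Z).multichoose l : ℕ) ≤
    (mu K u l (u - k) (l + e) (rename σ (imm K n)) : ℝ) *
      (List.ofFn fun t : Fin n => kern n (1 / P) (1 / Q) (isp t)).prod (0, 0, 0, 0) (0, 0, 0, 0)
      := by
  classical
  set M : ℝ := (((Fintype.card Y).multichoose (u - k) * (Fintype.card Z).multichoose l : ℕ) : ℝ)
    with hM
  have hM0 : 0 < M := by
    rw [hM]; push_cast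
    exact mul_pos (mc_pos _ _ ha) (mc_pos _ _ hb)
  set Kp := (List.ofFn fun t : Fin n => kern n (1 / P) (1 / Q) (isp t)).prod (0, 0, 0, 0)
    (0, 0, 0, 0) with hKp
  have h3 := rank_trace_bound (K := K) (Nmat σ u l (u - k) (l + e))
  have hA := count_A hσ u l k e hk he (by omega)
  have hrk := rank_le_mu K σ u l (u - k) (l + e)
  rw [count_B] at h3
  have hB : ((∑ w₁ ∈ pths n, ∑ w₂ ∈ pths n, ∑ w₃ ∈ pths n, ∑ w₄ ∈ pths n,
        Tq σ (stF Y Z u l) (stF Y Z (u - k) (l + e)) w₁ w₂ w₃ w₄ : ℕ) : ℝ) ≤ M * Kp := by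
    rw [hKp, ← sum_quad, Finset.mul_sum]
    push_cast
    apply Finset.sum_le_sum; intro w₁ _
    rw [Finset.mul_sum]
    apply Finset.sum_le_sum; intro w₂ _
    rw [Finset.mul_sum]
    apply Finset.sum_le_sum; intro w₃ _
    rw [Finset.mul_sum]
    apply Finset.sum_le_sum; intro w₄ _
    exact Tq_le hσ u l k e hQ hP hk hu hl ha hb haP hbQ w₁ w₂ w₃ w₄
  have hA' : (n : ℝ) ^ (n - 1) * M ≤
      ((∑ c, ∑ r, (Nmat σ u l (u - k) (l + e) r c) ^ 2 : ℕ) : ℝ) := by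
    rw [card_pths] at hA
    have : (((n ^ (n - 1)) * ((Fintype.card Y).multichoose (u - k) *
        (Fintype.card Z).multichoose l) : ℕ) : ℝ) ≤
        ((∑ c, ∑ r, (Nmat σ u l (u - k) (l + e) r c) ^ 2 : ℕ) : ℝ) := by exact_mod_cast hA
    rw [Nat.cast_mul, Nat.cast_pow] at this
    exact this
  have hrk' : ((Matrix.of fun r c => (Nmat σ u l (u - k) (l + e) r c : K)).rank : ℝ) ≤
      (mu K u l (u - k) (l + e) (rename σ (imm K n)) : ℝ) := by exact_mod_cast hrk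
  have hpos1 : 0 ≤ (n : ℝ) ^ (n - 1) * M := mul_nonneg (by positivity) hM0.le
  have hpos2 : 0 ≤ (mu K u l (u - k) (l + e) (rename σ (imm K n)) : ℝ) := Nat.cast_nonneg _
  have hpos3 : 0 ≤ ((∑ w₁ ∈ pths n, ∑ w₂ ∈ pths n, ∑ w₃ ∈ pths n, ∑ w₄ ∈ pths n,
        Tq σ (stF Y Z u l) (stF Y Z (u - k) (l + e)) w₁ w₂ w₃ w₄ : ℕ) : ℝ) := Nat.cast_nonneg _
  have h4 : ((n : ℝ) ^ (n - 1) * M) ^ 2 ≤
      (mu K u l (u - k) (l + e) (rename σ (imm K n)) : ℝ) * (M * Kp) := by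
    clear_value M Kp
    generalize ((∑ w₁ ∈ pths n, ∑ w₂ ∈ pths n, ∑ w₃ ∈ pths n, ∑ w₄ ∈ pths n,
        Tq σ (stF Y Z u l) (stF Y Z (u - k) (l + e)) w₁ w₂ w₃ w₄ : ℕ) : ℝ) = B at *
    generalize ((∑ c, ∑ r, (Nmat σ u l (u - k) (l + e) r c) ^ 2 : ℕ) : ℝ) = A at *
    generalize ((Matrix.of fun r c => (Nmat σ u l (u - k) (l + e) r c : K)).rank : ℝ) = rk at *
    exact aux_ineq hpos1 hpos2 hA' h3 hrk' hB hpos3
  have h5 : M * (((n : ℝ) ^ (n - 1)) ^ 2 * M) ≤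
      M * ((mu K u l (u - k) (l + e) (rename σ (imm K n)) : ℝ) * Kp) := by
    calc M * (((n : ℝ) ^ (n - 1)) ^ 2 * M) = ((n : ℝ) ^ (n - 1) * M) ^ 2 := by ring
      _ ≤ _ := h4
      _ = _ := by ring
  exact le_of_mul_le_mul_left h5 hM0

end Crest.Agent.S0504
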