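import Mathlib
import Crest.Prelude.Def_SPSPS
set_option autoImplicit false
namespace Crest.Agent.S0504
open MvPolynomial Crest.ArithCircuit

namespace T2

lemma multiset_hom {K ι A : Type*} [CommSemiring K] (s : Multiset A) (v : A → MvPolynomial ι K)
    (d : A → ℕ) (h : ∀ x ∈ s, (v x).IsHomogeneous (d x)) :
    ((s.map v).prod).IsHomogeneous (s.map d).sum := by
  induction s using Multiset.induction with
  | empty => simpa using MvPolynomial.isHomogeneous_one ι K
  | cons a s ih =>
    rw [Multiset.map_cons, Multiset.prod_cons, Multiset.map_cons, Multiset.sum_cons]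
    exact (h a (Multiset.mem_cons_self a s)).mul (ih fun x hx => h x (Multiset.mem_cons_of_mem hx))

variable {K ι L B P S R : Type*} [Field K]

lemma leaf_hom (C : SPSPS K ι L B P S R) (l : L) : (C.leafVal l).IsHomogeneous (C.leafDeg l) := by
  unfold SPSPS.leafVal SPSPS.leafDeg
  rcases C.leaf l with i | c
  · exact MvPolynomial.isHomogeneous_X K i
  · exact MvPolynomial.isHomogeneous_C ι c

lemma leafDeg_le (C : SPSPS K ι L B P S R) (l : L) : C.leafDeg l ≤ 1 := by
  unfold SPSPS.leafDeg
  rcases C.leaf l with i | c <;> simp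

lemma sum_hom {A : Type*} (s : Finset A) (c : A → K) (v : A → MvPolynomial ι K) (d : ℕ)
    (h : ∀ x ∈ s, (v x).IsHomogeneous d) : (∑ x ∈ s, c x • v x).IsHomogeneous d := by
  apply MvPolynomial.IsHomogeneous.sum
  intro x hx
  rw [MvPolynomial.smul_eq_C_mul]
  have := (MvPolynomial.isHomogeneous_C ι (c x)).mul (h x hx)
  rwa [zero_add] at this

lemma valB_hom (C : SPSPS K ι L B P S R) (hC : C.IsHomogeneous) (b : B) :
    (C.valB b).IsHomogeneous (C.degB b) := by
  apply sum_hom
  intro l hl
  rw [← hC.1 b l hl]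
  exact leaf_hom C l

lemma degB_le (C : SPSPS K ι L B P S R) (b : B) : C.degB b ≤ 1 := by
  unfold SPSPS.degB
  exact Finset.sup_le fun l _ => leafDeg_le C l

lemma valP_hom (C : SPSPS K ι L B P S R) (hC : C.IsHomogeneous) (p : P) :
    (C.valP p).IsHomogeneous (C.degP p) :=
  multiset_hom _ _ _ fun b _ => valB_hom C hC b

lemma valS_hom (C : SPSPS K ι L B P S R) (hC : C.IsHomogeneous) (s : S) :
    (C.valS s).IsHomogeneous (C.degS s) := by
  apply sum_hom
  intro p hp
  rw [← hC.2.1 s p hp]
  exact valP_hom C hC p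

lemma valR_hom (C : SPSPS K ι L B P S R) (hC : C.IsHomogeneous) (r : R) :
    (C.valR r).IsHomogeneous (C.degR r) :=
  multiset_hom _ _ _ fun s _ => valS_hom C hC s

lemma out_hom (C : SPSPS K ι L B P S R) (hC : C.IsHomogeneous) :
    (C.output).IsHomogeneous (C.degOut) := by
  apply sum_hom
  intro r hr
  rw [← hC.2.2 r hr]
  exact valR_hom C hC r

lemma mu_sum (μ : MvPolynomial ι K → ℝ) (hμ0 : μ 0 = 0) (hμadd : ∀ f g, μ (f + g) ≤ μ f + μ g)
    {A : Type*} (s : Finset A) (v : A → MvPolynomial ι K) :
    μ (∑ x ∈ s, v x) ≤ ∑ x ∈ s, μ (v x) := by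
  classical
  induction s using Finset.induction with
  | empty => simp [hμ0]
  | insert a s ha ih =>
    rw [Finset.sum_insert ha, Finset.sum_insert ha]
    exact (hμadd _ _).trans (by linarith)

lemma mu_sum_smul (μ : MvPolynomial ι K → ℝ) (hμ0 : μ 0 = 0)
    (hμadd : ∀ f g, μ (f + g) ≤ μ f + μ g) (hμsmul : ∀ (c : K) f, μ (c • f) ≤ μ f)
    {A : Type*} [Fintype A] (s : Finset A) (c : A → K) (v : A → MvPolynomial ι K) (M : ℝ)
    (hM : 0 ≤ M) (h : ∀ x ∈ s, μ (v x) ≤ M) :
    μ (∑ x ∈ s, c x • v x) ≤ Fintype.card A * M := by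
  refine (mu_sum μ hμ0 hμadd s _).trans ?_
  calc ∑ x ∈ s, μ (c x • v x) ≤ ∑ _x ∈ s, M :=
        Finset.sum_le_sum fun x hx => (hμsmul _ _).trans (h x hx)
    _ = s.card * M := by simp
    _ ≤ Fintype.card A * M := by
      apply mul_le_mul_of_nonneg_right _ hM
      exact_mod_cast Finset.card_le_univ s

/-- a product over a multiset written as a product over `Fin`. -/
lemma multiset_fin {A : Type*} (s : Multiset A) :
    ∃ (m : ℕ) (a : Fin m → A), s = Multiset.map a Finset.univ.val := by
  induction s using Quotient.inductionOn with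
  | _ l =>
    refine ⟨l.length, l.get, ?_⟩
    have : (Finset.univ : Finset (Fin l.length)).val = (List.finRange l.length : Multiset _) := rfl
    rw [this]
    simp

lemma multiset_prod_fin {A : Type*} (s : Multiset A) (v : A → MvPolynomial ι K) (d : A → ℕ) :
    ∃ (m : ℕ) (a : Fin m → A), (∀ i, a i ∈ s) ∧ (s.map v).prod = ∏ i, v (a i) ∧
      (s.map d).sum = ∑ i, d (a i) := by
  obtain ⟨m, a, rfl⟩ := multiset_fin s
  refine ⟨m, a, ?_, ?_, ?_⟩
  · intro i
    simp
  · rw [Multiset.map_map]; rfl
  · rw [Multiset.map_map]; rfl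

end T2

open T2 in
/-- T2 -/
theorem circuit_bound {K ι L B P S R : Type*} [Field K] [Fintype L] [Fintype B] [Fintype P]
    [Fintype S] [Fintype R] (C : SPSPS K ι L B P S R) (hC : C.IsHomogeneous) (n : ℕ)
    (F : MvPolynomial ι K) (hF : C.output = F) (hF0 : F ≠ 0) (hFn : F.IsHomogeneous n)
    (μ : MvPolynomial ι K → ℝ) (hμ0 : μ 0 = 0) (hμadd : ∀ f g, μ (f + g) ≤ μ f + μ g)
    (hμsmul : ∀ (c : K) f, μ (c • f) ≤ μ f) (t : ℕ) (Ma Mb : ℝ) (hMa : 0 ≤ Ma) (hMb : 0 ≤ Mb)
    (ha : ∀ (m : ℕ) (Q : Fin m → MvPolynomial ι K) (d : Fin m → ℕ),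
      (∀ i, (Q i).IsHomogeneous (d i)) → (∀ i, d i ≤ t) → ∑ i, d i = n → μ (∏ i, Q i) ≤ Ma)
    (hb : ∀ (D : ℕ) (ℓ : Fin D → MvPolynomial ι K) (G : MvPolynomial ι K),
      (∀ i, (ℓ i).IsHomogeneous 1) → t < D → D ≤ n → G.IsHomogeneous (n - D) →
        μ ((∏ i, ℓ i) * G) ≤ Mb) :
    μ F ≤ (C.size : ℝ) ^ 2 * (Ma + Mb) := by
  classical
  have hdeg : C.degOut = n := by
    have h1 := out_hom C hC
    rw [hF] at h1
    exact h1.inj_right hFn hF0
  -- bound for one top product gate
  have hR : ∀ r ∈ C.inOut, μ (C.valR r) ≤ Ma + Fintype.card P * Mb := by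
    intro r hr
    have hdr : C.degR r = n := (hC.2.2 r hr).trans hdeg
    by_cases hcase : ∀ s ∈ C.inR r, C.degS s ≤ t
    · obtain ⟨m, a, ham, hprod, hsum⟩ := multiset_prod_fin (C.inR r) C.valS C.degS
      have h1 : C.valR r = ∏ i, C.valS (a i) := hprod
      have h2 : ∑ i, C.degS (a i) = n := by rw [← hsum]; exact hdr
      rw [h1]
      have h3 := ha m (fun i => C.valS (a i)) (fun i => C.degS (a i))
        (fun i => valS_hom C hC _) (fun i => hcase _ (ham i)) h2
      have h4 : 0 ≤ (Fintype.card P : ℝ) * Mb := by positivity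
      linarith
    · push Not at hcase
      obtain ⟨s, hs, hst⟩ := hcase
      obtain ⟨rest, hrest⟩ := Multiset.exists_cons_of_mem hs
      have h1 : C.valR r = C.valS s * (rest.map C.valS).prod := by
        unfold SPSPS.valR
        rw [hrest, Multiset.map_cons, Multiset.prod_cons]
      have h2 : C.degS s + (rest.map C.degS).sum = n := by
        rw [← hdr]
        unfold SPSPS.degR
        rw [hrest, Multiset.map_cons, Multiset.sum_cons]
      have hG : ((rest.map C.valS).prod).IsHomogeneous (n - C.degS s) := by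
        have h3 := multiset_hom rest C.valS C.degS (fun x _ => valS_hom C hC x)
        have h4 : (rest.map C.degS).sum = n - C.degS s := by omega
        rwa [h4] at h3
      set G := (rest.map C.valS).prod with hGdef
      have h5 : C.valR r = ∑ p ∈ C.inS s, C.coefS s p • (C.valP p * G) := by
        rw [h1]
        unfold SPSPS.valS
        rw [Finset.sum_mul]
        refine Finset.sum_congr rfl fun p _ => ?_
        rw [smul_mul_assoc]
      rw [h5]
      have h6 : μ (∑ p ∈ C.inS s, C.coefS s p • (C.valP p * G)) ≤ Fintype.card P * Mb := by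
        apply mu_sum_smul μ hμ0 hμadd hμsmul _ _ _ _ hMb
        intro p hp
        have hdp : C.degP p = C.degS s := hC.2.1 s p hp
        -- split the product
        have h7 : C.inP p = (C.inP p).filter (fun b => C.degB b = 1) +
            (C.inP p).filter (fun b => ¬ C.degB b = 1) := by
          rw [Multiset.filter_add_not]
        set s1 := (C.inP p).filter (fun b => C.degB b = 1) with hs1
        set s0 := (C.inP p).filter (fun b => ¬ C.degB b = 1) with hs0
        have h8 : C.valP p = (s1.map C.valB).prod * (s0.map C.valB).prod := by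
          unfold SPSPS.valP
          rw [h7, Multiset.map_add, Multiset.prod_add]
        have h9 : C.degP p = (s1.map C.degB).sum + (s0.map C.degB).sum := by
          unfold SPSPS.degP
          rw [h7, Multiset.map_add, Multiset.sum_add]
        have hz : (s0.map C.degB).sum = 0 := by
          rw [Multiset.sum_eq_zero_iff]
          intro x hx
          rw [Multiset.mem_map] at hx
          obtain ⟨b, hb1, rfl⟩ := hx
          have hb2 := (Multiset.mem_filter.1 hb1).2
          have := degB_le C b
          omega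
        obtain ⟨m, a, ham, hprod, hsum⟩ := multiset_prod_fin s1 C.valB C.degB
        have h10 : ∀ i, C.degB (a i) = 1 := fun i => (Multiset.mem_filter.1 (ham i)).2
        have hm : m = C.degS s := by
          have : ∑ i, C.degB (a i) = m := by simp [h10]
          omega
        have hG' : ((s0.map C.valB).prod * G).IsHomogeneous (n - m) := by
          have h11 := multiset_hom s0 C.valB C.degB (fun x _ => valB_hom C hC x)
          rw [hz] at h11
          have h12 := h11.mul hG
          rwa [zero_add, ← hm] at h12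
        rw [h8, hprod, mul_assoc]
        apply hb m (fun i => C.valB (a i)) _ _ (by omega) (by omega) hG'
        intro i
        have := valB_hom C hC (a i)
        rwa [h10 i] at this
      linarith
  have hPc : (0:ℝ) ≤ Fintype.card P := by positivity
  have hfin : μ F ≤ Fintype.card R * (Ma + Fintype.card P * Mb) := by
    rw [← hF]
    exact mu_sum_smul μ hμ0 hμadd hμsmul _ _ _ _ (by positivity) hR
  have hsize1 : (Fintype.card R : ℝ) ≤ C.size := by
    unfold SPSPS.size
    push_cast
    have h1 : (0:ℝ) ≤ Fintype.card L := by positivity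
    have h2 : (0:ℝ) ≤ Fintype.card B := by positivity
    have h3 : (0:ℝ) ≤ Fintype.card S := by positivity
    linarith
  have hsize2 : (Fintype.card P : ℝ) ≤ C.size := by
    unfold SPSPS.size
    push_cast
    have h1 : (0:ℝ) ≤ Fintype.card L := by positivity
    have h2 : (0:ℝ) ≤ Fintype.card B := by positivity
    have h3 : (0:ℝ) ≤ Fintype.card S := by positivity
    have h4 : (0:ℝ) ≤ Fintype.card R := by positivity
    linarith
  have hsize3 : (1:ℝ) ≤ C.size := by
    unfold SPSPS.size
    push_cast
    have h1 : (0:ℝ) ≤ Fintype.card L := by positivity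
    have h2 : (0:ℝ) ≤ Fintype.card B := by positivity
    have h3 : (0:ℝ) ≤ Fintype.card S := by positivity
    have h4 : (0:ℝ) ≤ Fintype.card R := by positivity
    linarith
  have hR0 : (0:ℝ) ≤ Fintype.card R := by positivity
  calc μ F ≤ Fintype.card R * (Ma + Fintype.card P * Mb) := hfin
    _ ≤ C.size * (C.size * Ma + C.size * Mb) := by
      apply mul_le_mul hsize1 _ (by positivity) (by positivity)
      apply add_le_add
      · nlinarith
      · exact mul_le_mul_of_nonneg_right hsize2 hMb
    _ = _ := by ring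

end Crest.Agent.S0504
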