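import Mathlib
import Crest.Prelude.Def_SPSPS
set_option autoImplicit false
namespace Crest.Agent.S0504
open MvPolynomial Crest.ArithCircuit

namespace T4

lemma geom_le {s : ℝ} (hs : 2 ≤ s) (e : ℕ) : ∑ i ∈ Finset.range e, 1 / s ^ i ≤ 2 := by
  calc ∑ i ∈ Finset.range e, 1 / s ^ i ≤ ∑ i ∈ Finset.range e, (1 / (2:ℝ)) ^ i := by
        refine Finset.sum_le_sum fun i _ => ?_
        rw [div_pow, one_pow]
        apply one_div_le_one_div_of_le (by positivity)
        exact pow_le_pow_left₀ (by norm_num) hs i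
    _ ≤ 2 := sum_geometric_two_le e

end T4

open T4 in
/-- T4 -/
theorem phi_bound (s j d : ℕ) (hj : 600 ≤ j) (hjs : 2 ^ j ≤ s) (hd : 1 ≤ d) (hds : 8 * d ≤ s) :
    ∑ κ ∈ Finset.range (d + 1),
      min (Real.sqrt ((s : ℝ) ^ (d - κ) / ((s : ℝ) + j) ^ κ))
        (Real.sqrt (((s : ℝ) + j) ^ κ / (s : ℝ) ^ (d - κ))) ≤
      (1 + (j : ℝ) / s) ^ (-(d : ℝ) / 8) := by
  have hs2 : (2:ℝ) ^ j ≤ s := by exact_mod_cast hjs
  have hjs' : j ≤ s := (Nat.lt_two_pow_self).le.trans hjs
  have hjR : (600:ℝ) ≤ j := by exact_mod_cast hj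
  have hjsR : (j:ℝ) ≤ s := by exact_mod_cast hjs'
  have hdsR : 8 * (d:ℝ) ≤ s := by exact_mod_cast hds
  have hdR : (1:ℝ) ≤ d := by exact_mod_cast hd
  set S : ℝ := (s:ℝ) with hSdef
  set J : ℝ := (j:ℝ) with hJdef
  have hS0 : 0 < S := by linarith
  have hS2 : 2 ≤ S := by linarith
  set r : ℝ := 1 + J / S with hr
  have hJS0 : 0 ≤ J / S := by positivity
  have hJS1 : J / S ≤ 1 := by rw [div_le_one hS0]; exact hjsR
  have hr1 : 1 ≤ r := by linarith
  have hr0 : 0 < r := by linarith
  have hP : S + J = S * r := by rw [hr]; field_simp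
  set v : ℝ := r ^ ((d:ℝ) / 8) with hv
  have hv1 : 1 ≤ v := Real.one_le_rpow hr1 (by positivity)
  have hv0 : 0 < v := by linarith
  have hv4 : v ^ 4 = r ^ ((d:ℝ) / 2) := by
    rw [hv, ← Real.rpow_natCast, ← Real.rpow_mul hr0.le]
    congr 1
    push_cast
    ring
  have hrhs : r ^ (-(d : ℝ) / 8) = 1 / v := by
    rw [neg_div, Real.rpow_neg hr0.le, one_div]
  -- upper bound on v
  have hv6 : 16 * v ^ 6 ≤ S := by
    have h1 : r ≤ Real.exp (J / S) := by
      have := Real.add_one_le_exp (J / S)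
      linarith
    have h2 : v ≤ Real.exp (J / 64) := by
      calc v ≤ (Real.exp (J / S)) ^ ((d:ℝ) / 8) := Real.rpow_le_rpow hr0.le h1 (by positivity)
        _ = Real.exp (J / S * (d / 8)) := by rw [← Real.exp_mul]
        _ ≤ Real.exp (J / 64) := by
          apply Real.exp_le_exp.2
          rw [div_mul_div_comm, div_le_div_iff₀ (by positivity) (by norm_num)]
          nlinarith
    have h3 : v ^ 6 ≤ Real.exp (3 * J / 32) := by
      calc v ^ 6 ≤ (Real.exp (J / 64)) ^ 6 := pow_le_pow_left₀ hv0.le h2 6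
        _ = Real.exp (3 * J / 32) := by
          rw [← Real.exp_nat_mul]
          congr 1
          push_cast
          ring
    have h4 : (2:ℝ) ^ j = Real.exp (J * Real.log 2) := by
      rw [← Real.rpow_natCast, Real.rpow_def_of_pos (by norm_num), mul_comm]
    have h5 : (16:ℝ) = Real.exp (4 * Real.log 2) := by
      rw [show (4:ℝ) * Real.log 2 = Real.log 2 * (4:ℕ) by push_cast; ring, Real.exp_mul,
        Real.exp_log (by norm_num), Real.rpow_natCast]
      norm_num
    calc 16 * v ^ 6 ≤ Real.exp (4 * Real.log 2) * Real.exp (3 * J / 32) := by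
          rw [← h5]
          exact mul_le_mul_of_nonneg_left h3 (by norm_num)
      _ = Real.exp (4 * Real.log 2 + 3 * J / 32) := by rw [Real.exp_add]
      _ ≤ Real.exp (J * Real.log 2) := by
          apply Real.exp_le_exp.2
          have := Real.log_two_gt_d9
          have := Real.log_two_lt_d9
          nlinarith
      _ = (2:ℝ) ^ j := h4.symm
      _ ≤ S := hs2
  have hv3 : 8 * v ^ 3 ≤ S := by
    have h1 : 1 ≤ v ^ 3 := one_le_pow₀ hv1
    nlinarith [h1, mul_le_mul_of_nonneg_left h1 (by positivity : 0 ≤ v ^ 3)]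
  -- term bounds
  have tlow : ∀ κ i : ℕ, κ ≤ d → 2 * κ ≤ d → Real.sqrt ((S + J) ^ κ / S ^ (d - κ)) ≤
      v ^ 2 * Real.sqrt (1 / S ^ (d - 2 * κ)) := by
    intro κ i hκ h2
    have e1 : (S + J) ^ κ / S ^ (d - κ) = r ^ κ * (1 / S ^ (d - 2 * κ)) := by
      have : d - κ = (d - 2 * κ) + κ := by omega
      rw [hP, mul_pow, this, pow_add]
      field_simp
    rw [e1, Real.sqrt_mul (by positivity)]
    apply mul_le_mul_of_nonneg_right _ (Real.sqrt_nonneg _)
    rw [Real.sqrt_le_left (by positivity), ← pow_mul, hv4]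
    calc r ^ κ = r ^ ((κ:ℕ):ℝ) := (Real.rpow_natCast _ _).symm
      _ ≤ r ^ ((d:ℝ) / 2) := by
        apply Real.rpow_le_rpow_of_exponent_le hr1
        rw [le_div_iff₀ (by norm_num)]
        have : ((2 * κ : ℕ):ℝ) ≤ d := by exact_mod_cast h2
        push_cast at this
        linarith
  have tup : ∀ κ : ℕ, κ ≤ d → d ≤ 2 * κ → Real.sqrt (S ^ (d - κ) / (S + J) ^ κ) ≤
      Real.sqrt (1 / S ^ (2 * κ - d)) := by
    intro κ hκ h2
    apply Real.sqrt_le_sqrt
    have e1 : κ = (2 * κ - d) + (d - κ) := by omega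
    calc S ^ (d - κ) / (S + J) ^ κ ≤ S ^ (d - κ) / S ^ κ := by
          apply div_le_div_of_nonneg_left (by positivity) (by positivity)
          apply pow_le_pow_left₀ hS0.le
          linarith
      _ = 1 / S ^ (2 * κ - d) := by
        have e2 : S ^ κ = S ^ (2 * κ - d) * S ^ (d - κ) := by
          rw [← pow_add]
          congr 1
        rw [e2]
        field_simp
  have hsq : ∀ i : ℕ, Real.sqrt (1 / S ^ (2 * i)) = 1 / S ^ i := by
    intro i
    rw [show (1:ℝ) / S ^ (2 * i) = (1 / S ^ i) ^ 2 by rw [div_pow, one_pow, ← pow_mul, mul_comm i 2]]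
    exact Real.sqrt_sq (by positivity)
  rw [hrhs]
  rcases Nat.even_or_odd' d with ⟨e, he | he⟩
  · -- even case
    have hgeo : ∑ i ∈ Finset.range e, 1 / S ^ (i + 1) ≤ 2 / S := by
      have h1 := geom_le hS2 e
      calc ∑ i ∈ Finset.range e, 1 / S ^ (i + 1) = (1 / S) * ∑ i ∈ Finset.range e, 1 / S ^ i := by
            rw [Finset.mul_sum]
            refine Finset.sum_congr rfl fun i _ => ?_
            rw [pow_succ]
            field_simp
        _ ≤ (1 / S) * 2 := mul_le_mul_of_nonneg_left h1 (by positivity)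
        _ = 2 / S := by ring
    have hsplit : d + 1 = e + (1 + e) := by omega
    rw [hsplit, Finset.sum_range_add, Finset.sum_range_add]
    have hlow : ∑ x ∈ Finset.range e, min (Real.sqrt (S ^ (d - x) / (S + J) ^ x))
        (Real.sqrt ((S + J) ^ x / S ^ (d - x))) ≤ v ^ 2 * (2 / S) := by
      rw [← Finset.sum_range_reflect]
      calc _ ≤ ∑ i ∈ Finset.range e, v ^ 2 * (1 / S ^ (i + 1)) := by
            refine Finset.sum_le_sum fun i hi => ?_
            have hi' := Finset.mem_range.1 hi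
            refine (min_le_right _ _).trans ?_
            have h1 := tlow (e - 1 - i) 0 (by omega) (by omega)
            have h2 : d - 2 * (e - 1 - i) = 2 * (i + 1) := by omega
            rw [h2, hsq] at h1
            exact h1
        _ = v ^ 2 * ∑ i ∈ Finset.range e, 1 / S ^ (i + 1) := by rw [Finset.mul_sum]
        _ ≤ _ := mul_le_mul_of_nonneg_left hgeo (by positivity)
    have hup : ∑ x ∈ Finset.range e, min (Real.sqrt (S ^ (d - (e + (1 + x))) / (S + J) ^ (e + (1 + x))))
        (Real.sqrt ((S + J) ^ (e + (1 + x)) / S ^ (d - (e + (1 + x))))) ≤ 2 / S := by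
      refine le_trans (Finset.sum_le_sum fun i hi => ?_) hgeo
      have hi' := Finset.mem_range.1 hi
      refine (min_le_left _ _).trans ?_
      have h1 := tup (e + (1 + i)) (by omega) (by omega)
      have h2 : 2 * (e + (1 + i)) - d = 2 * (i + 1) := by omega
      rw [h2, hsq] at h1
      exact h1
    have hmid : min (Real.sqrt (S ^ (d - (e + 0)) / (S + J) ^ (e + 0)))
        (Real.sqrt ((S + J) ^ (e + 0) / S ^ (d - (e + 0)))) ≤ 1 / v ^ 2 := by
      refine (min_le_left _ _).trans ?_
      have h1 : S ^ (d - (e + 0)) / (S + J) ^ (e + 0) = (1 / v ^ 2) ^ 2 := by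
        have h2 : d - (e + 0) = e := by omega
        rw [h2, hP, mul_pow, add_zero, div_pow, one_pow, ← pow_mul, hv4]
        have h3 : r ^ ((d:ℝ) / 2) = r ^ e := by
          rw [← Real.rpow_natCast]
          congr 1
          rw [he]
          push_cast
          ring
        rw [h3]
        field_simp
      rw [h1, Real.sqrt_sq (by positivity)]
    simp only [Finset.sum_range_one]
    -- lower bound on v - 1
    have hvlow : 64 ≤ S * (v - 1) := by
      have h1 : 1 + J / S / 8 ≤ v := by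
        have h2 : (1 + J / S / 8) ^ 4 ≤ r := by
          rw [hr]
          set x := J / S with hx
          nlinarith [mul_nonneg hJS0 hJS0, mul_nonneg (mul_nonneg hJS0 hJS0) hJS0,
            mul_nonneg (mul_nonneg (mul_nonneg hJS0 hJS0) hJS0) hJS0,
            mul_nonneg hJS0 (sub_nonneg.2 hJS1), mul_nonneg (mul_nonneg hJS0 hJS0) (sub_nonneg.2 hJS1),
            mul_nonneg (mul_nonneg (mul_nonneg hJS0 hJS0) hJS0) (sub_nonneg.2 hJS1)]
        calc 1 + J / S / 8 = ((1 + J / S / 8) ^ 4) ^ ((1:ℝ) / 4) := by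
              rw [← Real.rpow_natCast, ← Real.rpow_mul (by positivity)]
              norm_num
          _ ≤ r ^ ((1:ℝ) / 4) := Real.rpow_le_rpow (by positivity) h2 (by norm_num)
          _ ≤ r ^ ((d:ℝ) / 8) := by
            apply Real.rpow_le_rpow_of_exponent_le hr1
            have : (2:ℝ) ≤ d := by
              have : 2 ≤ d := by omega
              exact_mod_cast this
            linarith
      have h3 : S * (J / S / 8) = J / 8 := by field_simp
      nlinarith
    have hfinal : v ^ 2 * (2 / S) + (1 / v ^ 2 + 2 / S) ≤ 1 / v := by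
      have h1 : 2 * (v ^ 2 + 1) * v ^ 2 ≤ S * (v - 1) := by
        by_cases hv2 : v ≤ 2
        · have h5 : v ^ 2 ≤ 4 := by nlinarith
          have h6 : 2 * (v ^ 2 + 1) * v ^ 2 ≤ 2 * (4 + 1) * 4 := by gcongr
          linarith
        · push Not at hv2
          have h2 : v / 2 ≤ v - 1 := by linarith
          have h3 : S * (v / 2) ≤ S * (v - 1) := mul_le_mul_of_nonneg_left h2 hS0.le
          have h4 : 8 * v ^ 3 * (v / 2) ≤ S * (v / 2) :=
            mul_le_mul_of_nonneg_right hv3 (by positivity)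
          have h5 : 1 ≤ v ^ 2 := one_le_pow₀ hv1
          have h6 : 2 * (v ^ 2 + 1) * v ^ 2 ≤ 2 * (v ^ 2 + v ^ 2) * v ^ 2 := by gcongr
          have h7 : 2 * (v ^ 2 + v ^ 2) * v ^ 2 = 8 * v ^ 3 * (v / 2) := by ring
          linarith
      have h2 : 1 / v - (v ^ 2 * (2 / S) + (1 / v ^ 2 + 2 / S)) =
          (S * (v - 1) - 2 * (v ^ 2 + 1) * v ^ 2) / (S * v ^ 2) := by
        field_simp
        ring
      have h3 : 0 ≤ (S * (v - 1) - 2 * (v ^ 2 + 1) * v ^ 2) / (S * v ^ 2) :=
        div_nonneg (by linarith) (by positivity)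
      linarith
    linarith
  · -- odd case
    have hgeo : ∑ i ∈ Finset.range (e + 1), Real.sqrt (1 / S ^ (2 * i + 1)) ≤ 2 / Real.sqrt S := by
      have h1 := geom_le hS2 (e + 1)
      calc ∑ i ∈ Finset.range (e + 1), Real.sqrt (1 / S ^ (2 * i + 1))
          = (1 / Real.sqrt S) * ∑ i ∈ Finset.range (e + 1), 1 / S ^ i := by
            rw [Finset.mul_sum]
            refine Finset.sum_congr rfl fun i _ => ?_
            rw [show (1:ℝ) / S ^ (2 * i + 1) = (1 / S) * (1 / S ^ (2 * i)) by
              rw [pow_succ]; field_simp]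
            rw [Real.sqrt_mul (by positivity), hsq, Real.sqrt_div zero_le_one, Real.sqrt_one]
        _ ≤ (1 / Real.sqrt S) * 2 := mul_le_mul_of_nonneg_left h1 (by positivity)
        _ = 2 / Real.sqrt S := by ring
    have hsplit : d + 1 = (e + 1) + (e + 1) := by omega
    rw [hsplit, Finset.sum_range_add]
    have hlow : ∑ x ∈ Finset.range (e + 1), min (Real.sqrt (S ^ (d - x) / (S + J) ^ x))
        (Real.sqrt ((S + J) ^ x / S ^ (d - x))) ≤ v ^ 2 * (2 / Real.sqrt S) := by
      rw [← Finset.sum_range_reflect]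
      calc _ ≤ ∑ i ∈ Finset.range (e + 1), v ^ 2 * Real.sqrt (1 / S ^ (2 * i + 1)) := by
            refine Finset.sum_le_sum fun i hi => ?_
            have hi' := Finset.mem_range.1 hi
            refine (min_le_right _ _).trans ?_
            have h1 := tlow (e + 1 - 1 - i) 0 (by omega) (by omega)
            have h2 : d - 2 * (e + 1 - 1 - i) = 2 * i + 1 := by omega
            rw [h2] at h1
            exact h1
        _ = v ^ 2 * ∑ i ∈ Finset.range (e + 1), Real.sqrt (1 / S ^ (2 * i + 1)) := by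
            rw [Finset.mul_sum]
        _ ≤ _ := mul_le_mul_of_nonneg_left hgeo (by positivity)
    have hup : ∑ x ∈ Finset.range (e + 1),
        min (Real.sqrt (S ^ (d - (e + 1 + x)) / (S + J) ^ (e + 1 + x)))
        (Real.sqrt ((S + J) ^ (e + 1 + x) / S ^ (d - (e + 1 + x)))) ≤ 2 / Real.sqrt S := by
      refine le_trans (Finset.sum_le_sum fun i hi => ?_) hgeo
      have hi' := Finset.mem_range.1 hi
      refine (min_le_left _ _).trans ?_
      have h1 := tup (e + 1 + i) (by omega) (by omega)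
      have h2 : 2 * (e + 1 + i) - d = 2 * i + 1 := by omega
      rw [h2] at h1
      exact h1
    have hT : 4 * v ^ 3 ≤ Real.sqrt S := by
      apply Real.le_sqrt_of_sq_le
      calc (4 * v ^ 3) ^ 2 = 16 * v ^ 6 := by ring
        _ ≤ S := hv6
    have hT0 : 0 < Real.sqrt S := Real.sqrt_pos.2 hS0
    have hfinal : v ^ 2 * (2 / Real.sqrt S) + 2 / Real.sqrt S ≤ 1 / v := by
      have h2 : 1 / v - (v ^ 2 * (2 / Real.sqrt S) + 2 / Real.sqrt S) =
          (Real.sqrt S - 2 * v * (v ^ 2 + 1)) / (Real.sqrt S * v) := by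
        field_simp
      have h4 : 2 * v * (v ^ 2 + 1) ≤ 4 * v ^ 3 := by
        have : 1 ≤ v ^ 2 := one_le_pow₀ hv1
        nlinarith
      have h3 : 0 ≤ (Real.sqrt S - 2 * v * (v ^ 2 + 1)) / (Real.sqrt S * v) :=
        div_nonneg (by linarith) (by positivity)
      linarith
    linarith

end Crest.Agent.S0504
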