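import Mathlib
import Crest.Prelude.Def_SPSPS
import Crest.Agent.S0504_Defs
set_option autoImplicit false
namespace Crest.Agent.S0504
open MvPolynomial Crest.ArithCircuit

namespace T6

/-! ### Generic Lyapunov induction -/

lemma list_prod_nonneg {Q : Type*} [Fintype Q] [DecidableEq Q] (M : ℕ → Matrix Q Q ℝ)
    (hM : ∀ t a b, 0 ≤ M t a b) (m : ℕ) :
    ∀ a b, 0 ≤ (List.ofFn fun t : Fin m => M t).prod a b := by
  induction m with
  | zero =>
    intro a b
    simp only [List.ofFn_zero, List.prod_nil, Matrix.one_apply]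
    split_ifs <;> norm_num
  | succ m ih =>
    intro a b
    rw [List.ofFn_succ', List.prod_concat, Matrix.mul_apply]
    apply Finset.sum_nonneg
    intro c _
    exact mul_nonneg (ih a c) (hM _ _ _)

lemma lyapunov {Q : Type*} [Fintype Q] [DecidableEq Q] (M : ℕ → Matrix Q Q ℝ)
    (hM : ∀ t a b, 0 ≤ M t a b) (w : ℕ → Q → ℝ) (c : ℕ → ℝ) (hc : ∀ t, 0 ≤ c t)
    (h : ∀ t a, ∑ b, M t a b * w (t + 1) b ≤ c t * w t a) (m : ℕ) :
    ∀ a, ∑ b, (List.ofFn fun t : Fin m => M t).prod a b * w m b ≤ (∏ t : Fin m, c t) * w 0 a := by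
  induction m with
  | zero =>
    intro a
    simp [Matrix.one_apply]
  | succ m ih =>
    intro a
    rw [List.ofFn_succ', List.prod_concat]
    have e1 : ∑ b, ((List.ofFn fun t : Fin m => M (Fin.castSucc t : Fin (m+1))).prod *
        M (Fin.last m : Fin (m+1))) a b * w (m + 1) b =
        ∑ d, (List.ofFn fun t : Fin m => M t).prod a d * ∑ b, M m d b * w (m + 1) b := by
      simp only [Matrix.mul_apply, Finset.sum_mul, Finset.mul_sum, Fin.val_castSucc, Fin.val_last]
      rw [Finset.sum_comm]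
      refine Finset.sum_congr rfl fun d _ => Finset.sum_congr rfl fun b _ => ?_
      ring
    rw [e1]
    calc ∑ d, (List.ofFn fun t : Fin m => M t).prod a d * ∑ b, M m d b * w (m + 1) b
        ≤ ∑ d, (List.ofFn fun t : Fin m => M t).prod a d * (c m * w m d) := by
          refine Finset.sum_le_sum fun d _ => ?_
          exact mul_le_mul_of_nonneg_left (h m d) (list_prod_nonneg M hM m a d)
      _ = c m * ∑ d, (List.ofFn fun t : Fin m => M t).prod a d * w m d := by
          rw [Finset.mul_sum]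
          refine Finset.sum_congr rfl fun d _ => ?_
          ring
      _ ≤ c m * ((∏ t : Fin m, c t) * w 0 a) := mul_le_mul_of_nonneg_left (ih a) (hc m)
      _ = (∏ t : Fin (m + 1), c t) * w 0 a := by
          rw [Fin.prod_univ_castSucc]
          simp only [Fin.val_castSucc, Fin.val_last]
          ring

/-! ### Node types -/

def isE {n : ℕ} (a : Quad n) : Prop := a.1 = a.2.1 ∧ a.2.1 = a.2.2.1 ∧ a.2.2.1 = a.2.2.2
def isS {n : ℕ} (a : Quad n) : Prop := a.1 = a.2.1 ∧ a.2.2.1 = a.2.2.2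
def isX {n : ℕ} (a : Quad n) : Prop := a.1 = a.2.2.2 ∧ a.2.2.1 = a.2.1

instance {n : ℕ} (a : Quad n) : Decidable (isE a) := by unfold isE; infer_instance
instance {n : ℕ} (a : Quad n) : Decidable (isS a) := by unfold isS; infer_instance
instance {n : ℕ} (a : Quad n) : Decidable (isX a) := by unfold isX; infer_instance

noncomputable def wt {n : ℕ} (k h : ℝ) (a : Quad n) : ℝ :=
  if isE a then k else if isS a then 1 else if isX a then h else 0

/-- summation over the supported quadruples -/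
lemma sum_quad_le {n : ℕ} (f : Quad n → ℝ) (hf : ∀ b, 0 ≤ f b)
    (hsupp : ∀ b, ¬ isS b → ¬ isX b → f b = 0) :
    ∑ b, f b ≤ ∑ x : Fin n, f (x, x, x, x) +
      ∑ xy : Fin n × Fin n, (if xy.1 ≠ xy.2 then f (xy.1, xy.1, xy.2, xy.2) else 0) +
      ∑ xy : Fin n × Fin n, (if xy.1 ≠ xy.2 then f (xy.1, xy.2, xy.2, xy.1) else 0) := by
  have key : ∀ b, f b ≤ (∑ x : Fin n, if b = (x, x, x, x) then f (x, x, x, x) else 0) +
      (∑ xy : Fin n × Fin n, if b = (xy.1, xy.1, xy.2, xy.2) then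
        (if xy.1 ≠ xy.2 then f (xy.1, xy.1, xy.2, xy.2) else 0) else 0) +
      (∑ xy : Fin n × Fin n, if b = (xy.1, xy.2, xy.2, xy.1) then
        (if xy.1 ≠ xy.2 then f (xy.1, xy.2, xy.2, xy.1) else 0) else 0) := by
    intro b
    have n1 : 0 ≤ ∑ x : Fin n, (if b = (x, x, x, x) then f (x, x, x, x) else 0) :=
      Finset.sum_nonneg fun x _ => by split_ifs; exacts [hf _, le_rfl]
    have n2 : 0 ≤ (∑ xy : Fin n × Fin n, if b = (xy.1, xy.1, xy.2, xy.2) then
        (if xy.1 ≠ xy.2 then f (xy.1, xy.1, xy.2, xy.2) else 0) else 0) :=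
      Finset.sum_nonneg fun x _ => by split_ifs <;> first | exact hf _ | exact le_rfl
    have n3 : 0 ≤ (∑ xy : Fin n × Fin n, if b = (xy.1, xy.2, xy.2, xy.1) then
        (if xy.1 ≠ xy.2 then f (xy.1, xy.2, xy.2, xy.1) else 0) else 0) :=
      Finset.sum_nonneg fun x _ => by split_ifs <;> first | exact hf _ | exact le_rfl
    obtain ⟨b1, b2, b3, b4⟩ := b
    by_cases hS : isS (b1, b2, b3, b4)
    · obtain ⟨h1, h2⟩ := hS
      simp only at h1 h2
      subst h1 h2
      by_cases h3 : b1 = b3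
      · subst h3
        have : f (b1, b1, b1, b1) ≤
            ∑ x : Fin n, (if (b1, b1, b1, b1) = (x, x, x, x) then f (x, x, x, x) else 0) := by
          refine le_trans ?_ (Finset.single_le_sum (f := fun x : Fin n =>
            if (b1, b1, b1, b1) = (x, x, x, x) then f (x, x, x, x) else 0)
            (fun x _ => by split_ifs; exacts [hf _, le_rfl]) (Finset.mem_univ b1))
          simp
        linarith
      · have : f (b1, b1, b3, b3) ≤ (∑ xy : Fin n × Fin n,
            if (b1, b1, b3, b3) = (xy.1, xy.1, xy.2, xy.2) then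
            (if xy.1 ≠ xy.2 then f (xy.1, xy.1, xy.2, xy.2) else 0) else 0) := by
          refine le_trans ?_ (Finset.single_le_sum (f := fun xy : Fin n × Fin n =>
            if (b1, b1, b3, b3) = (xy.1, xy.1, xy.2, xy.2) then
            (if xy.1 ≠ xy.2 then f (xy.1, xy.1, xy.2, xy.2) else 0) else 0)
            (fun x _ => by split_ifs <;> first | exact hf _ | exact le_rfl)
              (Finset.mem_univ (b1, b3)))
          simp [h3]
        linarith
    · by_cases hX : isX (b1, b2, b3, b4)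
      · obtain ⟨h1, h2⟩ := hX
        simp only at h1 h2
        subst h1 h2
        have h3 : b1 ≠ b3 := by
          intro h
          exact hS ⟨h, h.symm⟩
        have : f (b1, b3, b3, b1) ≤ (∑ xy : Fin n × Fin n,
            if (b1, b3, b3, b1) = (xy.1, xy.2, xy.2, xy.1) then
            (if xy.1 ≠ xy.2 then f (xy.1, xy.2, xy.2, xy.1) else 0) else 0) := by
          refine le_trans ?_ (Finset.single_le_sum (f := fun xy : Fin n × Fin n =>
            if (b1, b3, b3, b1) = (xy.1, xy.2, xy.2, xy.1) then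
            (if xy.1 ≠ xy.2 then f (xy.1, xy.2, xy.2, xy.1) else 0) else 0)
            (fun x _ => by split_ifs <;> first | exact hf _ | exact le_rfl)
              (Finset.mem_univ (b1, b3)))
          simp [h3]
        linarith
      · rw [hsupp _ hS hX]
        linarith
  calc ∑ b, f b ≤ ∑ b, ((∑ x : Fin n, if b = (x, x, x, x) then f (x, x, x, x) else 0) +
      (∑ xy : Fin n × Fin n, if b = (xy.1, xy.1, xy.2, xy.2) then
        (if xy.1 ≠ xy.2 then f (xy.1, xy.1, xy.2, xy.2) else 0) else 0) +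
      (∑ xy : Fin n × Fin n, if b = (xy.1, xy.2, xy.2, xy.1) then
        (if xy.1 ≠ xy.2 then f (xy.1, xy.2, xy.2, xy.1) else 0) else 0)) :=
        Finset.sum_le_sum fun b _ => key b
    _ = _ := by
      rw [Finset.sum_add_distrib, Finset.sum_add_distrib]
      congr 1
      · congr 1
        · rw [Finset.sum_comm]
          refine Finset.sum_congr rfl fun x _ => ?_
          simp
        · rw [Finset.sum_comm]
          refine Finset.sum_congr rfl fun x _ => ?_
          simp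
      · rw [Finset.sum_comm]
        refine Finset.sum_congr rfl fun x _ => ?_
        simp


lemma kern_nonneg {n : ℕ} {p q : ℝ} (hp : 0 ≤ p) (hq : 0 ≤ q) (isp : Prop) [Decidable isp]
    (a b : Quad n) : 0 ≤ kern n p q isp a b := by
  unfold kern
  simp only [Matrix.of_apply]
  split_ifs <;> first | exact hp | exact hq | exact zero_le_one | exact le_rfl

lemma wt_nonneg {n : ℕ} {k h : ℝ} (hk : 0 ≤ k) (hh : 0 ≤ h) (a : Quad n) : 0 ≤ wt k h a := by
  unfold wt
  split_ifs <;> first | exact hk | exact hh | exact zero_le_one | exact le_rfl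

/-- Abstract one-layer bound. `αS`, `αX` are the weights of `S`- and `X`-type edges. -/
lemma layer_bound {n : ℕ} (M : Matrix (Quad n) (Quad n) ℝ) (αS αX : ℝ) (hS : 0 ≤ αS) (hX : 0 ≤ αX)
    (hM0 : ∀ a b, 0 ≤ M a b)
    (hMok : ∀ a b, ¬ quadOk a b → M a b = 0)
    (hME : ∀ a b, M a b ≤ 1)
    (hMS : ∀ a b : Quad n, isS a → isS b → ¬ isE b → M a b ≤ αS)
    (hMS' : ∀ a b : Quad n, isS a → ¬ isE a → isS b → M a b ≤ αS)
    (hMX : ∀ a b : Quad n, isX a → isX b → ¬ isE b → M a b ≤ αX)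
    (hMX' : ∀ a b : Quad n, isX a → ¬ isE a → isX b → M a b ≤ αX)
    (k h : ℝ) (hk : 0 ≤ k) (hh : 0 ≤ h) (a : Quad n) :
    ∑ b, M a b * wt k h b ≤
      if isE a then n * k + (n:ℝ)^2 * αS + (n:ℝ)^2 * αX * h
      else if isS a then αS * (n * k + (n:ℝ)^2)
      else if isX a then αX * (n * k + (n:ℝ)^2 * h) else 0 := by
  have hf : ∀ b, 0 ≤ M a b * wt k h b := fun b => mul_nonneg (hM0 a b) (wt_nonneg hk hh b)
  have hsupp : ∀ b : Quad n, ¬ isS b → ¬ isX b → M a b * wt k h b = 0 := by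
    intro b h1 h2
    have h3 : ¬ isE b := by
      rintro ⟨e1, e2, e3⟩
      exact h1 ⟨e1, e3⟩
    simp [wt, h1, h2, h3]
  have hsum := sum_quad_le (fun b => M a b * wt k h b) hf hsupp
  refine hsum.trans ?_
  have wE : ∀ x : Fin n, wt k h (x, x, x, x) = k := by
    intro x; simp [wt, isE]
  have wS : ∀ x y : Fin n, x ≠ y → wt k h (x, x, y, y) = 1 := by
    intro x y hxy; simp [wt, isE, isS, hxy]
  have wX : ∀ x y : Fin n, x ≠ y → wt k h (x, y, y, x) = h := by
    intro x y hxy; simp [wt, isE, isS, isX, hxy]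
  have cardn : ∀ c : ℝ, ∑ _x : Fin n, c = n * c := by
    intro c; simp
  have cardnn : ∀ c : ℝ, ∑ _xy : Fin n × Fin n, c = (n:ℝ)^2 * c := by
    intro c; simp [sq]
  -- facts for quadOk
  have ok_S : ∀ b : Quad n, isS b → ¬ isE b → ¬ isS a → M a b = 0 := by
    intro b hb hbE ha
    apply hMok
    rintro (⟨h1, h2⟩ | ⟨h1, h2⟩)
    · exact ha ⟨(Prod.ext_iff.1 h1).1, (Prod.ext_iff.1 h2).1⟩
    · apply hbE
      have e1 := (Prod.ext_iff.1 h1).2
      have e2 := (Prod.ext_iff.1 h2).2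
      obtain ⟨e3, e4⟩ := hb
      simp only at e1 e2
      exact ⟨e3, e2.symm, e4⟩
  have ok_X : ∀ b : Quad n, isX b → ¬ isE b → ¬ isX a → M a b = 0 := by
    intro b hb hbE ha
    apply hMok
    rintro (⟨h1, h2⟩ | ⟨h1, h2⟩)
    · apply hbE
      have e1 := (Prod.ext_iff.1 h1).2
      have e2 := (Prod.ext_iff.1 h2).2
      obtain ⟨e3, e4⟩ := hb
      simp only at e1 e2
      exact ⟨e1, e4.symm, e2⟩
    · exact ha ⟨(Prod.ext_iff.1 h1).1, (Prod.ext_iff.1 h2).1⟩
  have ok_none : ∀ b : Quad n, ¬ isS a → ¬ isX a → M a b = 0 := by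
    intro b h1 h2
    apply hMok
    rintro (⟨h3, h4⟩ | ⟨h3, h4⟩)
    · exact h1 ⟨(Prod.ext_iff.1 h3).1, (Prod.ext_iff.1 h4).1⟩
    · exact h2 ⟨(Prod.ext_iff.1 h3).1, (Prod.ext_iff.1 h4).1⟩
  have bS : ∀ x : Fin n, isS (x, x, x, x) := fun x => ⟨rfl, rfl⟩
  have bX : ∀ x : Fin n, isX (x, x, x, x) := fun x => ⟨rfl, rfl⟩
  have neE1 : ∀ x y : Fin n, x ≠ y → ¬ isE (x, x, y, y) := by
    intro x y hxy h; exact hxy h.2.1
  have neE2 : ∀ x y : Fin n, x ≠ y → ¬ isE (x, y, y, x) := by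
    intro x y hxy h; exact hxy h.1
  have EtoS : isE a → isS a := fun h => ⟨h.1, h.2.2⟩
  have EtoX : isE a → isX a := fun h => ⟨h.1.trans (h.2.1.trans h.2.2), h.2.1.symm⟩
  have SXtoE : isS a → isX a → isE a := fun h1 h2 => ⟨h1.1, h2.2.symm, h1.2⟩
  -- term bounds
  have hterm1 : ∀ c : ℝ, (∀ x : Fin n, M a (x, x, x, x) ≤ c) →
      ∑ x : Fin n, M a (x, x, x, x) * wt k h (x, x, x, x) ≤ n * (c * k) := by
    intro c hc
    rw [← cardn]
    refine Finset.sum_le_sum fun x _ => ?_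
    rw [wE]
    exact mul_le_mul_of_nonneg_right (hc x) hk
  have hterm2 : ∀ c : ℝ, 0 ≤ c → (∀ x y : Fin n, x ≠ y → M a (x, x, y, y) ≤ c) →
      ∑ xy : Fin n × Fin n, (if xy.1 ≠ xy.2 then M a (xy.1, xy.1, xy.2, xy.2) *
        wt k h (xy.1, xy.1, xy.2, xy.2) else 0) ≤ (n:ℝ)^2 * c := by
    intro c hc0 hc
    rw [← cardnn]
    refine Finset.sum_le_sum fun x _ => ?_
    split_ifs with hx
    · rw [wS _ _ hx, mul_one]
      exact hc _ _ hx
    · exact hc0
  have hterm3 : ∀ c : ℝ, 0 ≤ c → (∀ x y : Fin n, x ≠ y → M a (x, y, y, x) ≤ c) →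
      ∑ xy : Fin n × Fin n, (if xy.1 ≠ xy.2 then M a (xy.1, xy.2, xy.2, xy.1) *
        wt k h (xy.1, xy.2, xy.2, xy.1) else 0) ≤ (n:ℝ)^2 * (c * h) := by
    intro c hc0 hc
    rw [← cardnn]
    refine Finset.sum_le_sum fun x _ => ?_
    split_ifs with hx
    · rw [wX _ _ hx]
      exact mul_le_mul_of_nonneg_right (hc _ _ hx) hh
    · exact mul_nonneg hc0 hh
  by_cases hE : isE a
  · rw [if_pos hE]
    have t1 := hterm1 1 (fun x => hME _ _)
    have t2 := hterm2 αS hS (fun x y hxy => hMS a _ (EtoS hE) ⟨rfl, rfl⟩ (neE1 x y hxy))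
    have t3 := hterm3 αX hX (fun x y hxy => hMX a _ (EtoX hE) ⟨rfl, rfl⟩ (neE2 x y hxy))
    refine (add_le_add (add_le_add t1 t2) t3).trans ?_
    linarith
  · rw [if_neg hE]
    by_cases hSa : isS a
    · rw [if_pos hSa]
      have hXa : ¬ isX a := fun h => hE (SXtoE hSa h)
      have t1 := hterm1 αS (fun x => hMS' a _ hSa hE (bS x))
      have t2 := hterm2 αS hS (fun x y hxy => hMS a _ hSa ⟨rfl, rfl⟩ (neE1 x y hxy))
      have t3 := hterm3 0 le_rfl (fun x y hxy => (ok_X _ ⟨rfl, rfl⟩ (neE2 x y hxy) hXa).le)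
      refine (add_le_add (add_le_add t1 t2) t3).trans ?_
      linarith
    · rw [if_neg hSa]
      by_cases hXa : isX a
      · rw [if_pos hXa]
        have t1 := hterm1 αX (fun x => hMX' a _ hXa hE (bX x))
        have t2 := hterm2 0 le_rfl (fun x y hxy => (ok_S _ ⟨rfl, rfl⟩ (neE1 x y hxy) hSa).le)
        have t3 := hterm3 αX hX (fun x y hxy => hMX a _ hXa ⟨rfl, rfl⟩ (neE2 x y hxy))
        refine (add_le_add (add_le_add t1 t2) t3).trans ?_
        linarith
      · rw [if_neg hXa]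
        have t1 := hterm1 0 (fun x => (ok_none _ hSa hXa).le)
        have t2 := hterm2 0 le_rfl (fun x y hxy => (ok_none _ hSa hXa).le)
        have t3 := hterm3 0 le_rfl (fun x y hxy => (ok_none _ hSa hXa).le)
        refine (add_le_add (add_le_add t1 t2) t3).trans ?_
        linarith

lemma kern_P {n : ℕ} {p q : ℝ} (hp : 0 ≤ p) (hp1 : p ≤ 1) (hq : 0 ≤ q)
    (isp : Prop) [Decidable isp] (hisp : isp)
    (k h : ℝ) (hk : 0 ≤ k) (hh : 0 ≤ h) (a : Quad n) :
    ∑ b, kern n p q isp a b * wt k h b ≤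
      if isE a then n * k + (n:ℝ)^2 * p + (n:ℝ)^2 * 1 * h
      else if isS a then p * (n * k + (n:ℝ)^2)
      else if isX a then 1 * (n * k + (n:ℝ)^2 * h) else 0 := by
  have hval : ∀ a b : Quad n, kern n p q isp a b =
      if quadOk a b then (if (a.1, b.1) ≠ (a.2.2.2, b.2.2.2) then p else 1) else 0 := by
    intro a b
    simp [kern, hisp]
  have hle1 : ∀ a b : Quad n, kern n p q isp a b ≤ 1 := by
    intro a b
    rw [hval]
    split_ifs <;> first | exact hp1 | exact le_rfl | exact zero_le_one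
  apply layer_bound (kern n p q isp) p 1 hp zero_le_one
  · exact fun a b => kern_nonneg hp hq _ a b
  · intro a b hab
    rw [hval, if_neg hab]
  · exact hle1
  · intro a b ha hb hbE
    rw [hval]
    by_cases hok : quadOk a b
    · rw [if_pos hok, if_pos]
      intro h
      apply hbE
      have h1 := (Prod.ext_iff.1 h).2
      simp only at h1
      obtain ⟨e1, e2⟩ := hb
      exact ⟨e1, by rw [← e1, h1, e2], e2⟩
    · rw [if_neg hok]; exact hp
  · intro a b ha haE hb
    rw [hval]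
    by_cases hok : quadOk a b
    · rw [if_pos hok, if_pos]
      intro h
      apply haE
      have h1 := (Prod.ext_iff.1 h).1
      simp only at h1
      obtain ⟨e1, e2⟩ := ha
      exact ⟨e1, by rw [← e1, h1, e2], e2⟩
    · rw [if_neg hok]; exact hp
  · exact fun a b _ _ _ => hle1 a b
  · exact fun a b _ _ _ => hle1 a b
  · exact hk
  · exact hh

lemma kern_N {n : ℕ} {p q : ℝ} (hp : 0 ≤ p) (hq : 0 ≤ q) (hq1 : q ≤ 1)
    (isp : Prop) [Decidable isp] (hisp : ¬ isp)
    (k h : ℝ) (hk : 0 ≤ k) (hh : 0 ≤ h) (a : Quad n) :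
    ∑ b, kern n p q isp a b * wt k h b ≤
      if isE a then n * k + (n:ℝ)^2 * 1 + (n:ℝ)^2 * q * h
      else if isS a then 1 * (n * k + (n:ℝ)^2)
      else if isX a then q * (n * k + (n:ℝ)^2 * h) else 0 := by
  have hval : ∀ a b : Quad n, kern n p q isp a b =
      if quadOk a b then (if (a.1, b.1) ≠ (a.2.1, b.2.1) then q else 1) else 0 := by
    intro a b
    simp [kern, hisp]
  have hle1 : ∀ a b : Quad n, kern n p q isp a b ≤ 1 := by
    intro a b
    rw [hval]
    split_ifs <;> first | exact hq1 | exact le_rfl | exact zero_le_one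
  apply layer_bound (kern n p q isp) 1 q zero_le_one hq
  · exact fun a b => kern_nonneg hp hq _ a b
  · intro a b hab
    rw [hval, if_neg hab]
  · exact hle1
  · exact fun a b _ _ _ => hle1 a b
  · exact fun a b _ _ _ => hle1 a b
  · intro a b ha hb hbE
    rw [hval]
    by_cases hok : quadOk a b
    · rw [if_pos hok, if_pos]
      intro h
      apply hbE
      have h1 := (Prod.ext_iff.1 h).2
      simp only at h1
      obtain ⟨e1, e2⟩ := hb
      exact ⟨h1, e2.symm, by rw [e2, ← h1, e1]⟩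
    · rw [if_neg hok]; exact hq
  · intro a b ha haE hb
    rw [hval]
    by_cases hok : quadOk a b
    · rw [if_pos hok, if_pos]
      intro h
      apply haE
      have h1 := (Prod.ext_iff.1 h).1
      simp only at h1
      obtain ⟨e1, e2⟩ := ha
      exact ⟨h1, e2.symm, by rw [e2, ← h1, e1]⟩
    · rw [if_neg hok]; exact hq
  · exact hk
  · exact hh


/-! ### Weights -/

noncomputable def Hw (s j τ : ℕ) : ℝ :=
  (1 + (j : ℝ) / s) ^ (τ / 2) / s * (if τ % 2 = 1 then ((s : ℝ) + j) else 1)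

noncomputable def kw (s j τ : ℕ) : ℝ := if τ % 2 = 1 then 3 else 2 + 1 / Hw s j τ

lemma Hw_pos {s j τ : ℕ} (hs : 2 ≤ s) : 0 < Hw s j τ := by
  have h1 : (0:ℝ) < s := by positivity
  unfold Hw
  split_ifs <;> positivity

lemma kw_ge {s j τ : ℕ} (hs : 2 ≤ s) : 2 ≤ kw s j τ := by
  have := Hw_pos (s := s) (j := j) (τ := τ) hs
  unfold kw
  split_ifs
  · norm_num
  · have : 0 < 1 / Hw s j τ := by positivity
    linarith

/-- numeric facts, P layer -/
lemma num_P {N S J x : ℝ} (hS : 2 ≤ S) (hN : S ^ 2 ≤ N) (hJ0 : 0 ≤ J) (hJS : J ≤ S)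
    (hx1 : 1 ≤ x) (hxS : x ≤ S) :
    (N * 3 + N ^ 2 * (1 / (S + J)) + N ^ 2 * 1 * (1 / (x / S * (S + J))) ≤
      (1 + 6 / S) * (N ^ 2 * (1 / (S + J))) * (2 + 1 / (x / S * 1))) ∧
    (1 / (S + J) * (N * 3 + N ^ 2) ≤ (1 + 6 / S) * (N ^ 2 * (1 / (S + J))) * 1) ∧
    (1 * (N * 3 + N ^ 2 * (1 / (x / S * (S + J)))) ≤
      (1 + 6 / S) * (N ^ 2 * (1 / (S + J))) * (1 / (x / S * 1))) := by
  have hS0 : 0 < S := by linarith
  have hx0 : 0 < x := by linarith
  have hSJ : 0 < S + J := by linarith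
  have hN0 : 0 < N := by nlinarith
  set p := 1 / (S + J) with hp
  have hp0 : 0 < p := by positivity
  set y := S / x with hy
  have hy1 : 1 ≤ y := by rw [hy, le_div_iff₀ hx0]; linarith
  have e1 : 1 / (x / S * (S + J)) = y * p := by rw [hy, hp]; field_simp
  have e2 : 1 / (x / S * 1) = y := by rw [hy]; field_simp
  have hD : N * 3 ≤ 6 / S * (N ^ 2 * p) := by
    have h1 : 6 / S * (N ^ 2 * p) = N * (6 * N / (S * (S + J))) := by rw [hp]; field_simp
    rw [h1]
    apply mul_le_mul_of_nonneg_left _ hN0.le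
    rw [le_div_iff₀ (by positivity)]
    nlinarith
  have hNp : 0 < N ^ 2 * p := by positivity
  have h6 : 0 < 6 / S := by positivity
  refine ⟨?_, ?_, ?_⟩
  · rw [e1, e2]
    have a1 : 0 ≤ 6 / S * (N ^ 2 * p) * (1 + y) := by positivity
    nlinarith
  · have h2 : N * 3 ≤ 6 / S * N ^ 2 := by
      have h1 : 6 / S * N ^ 2 = N * (6 * N / S) := by field_simp
      rw [h1]
      apply mul_le_mul_of_nonneg_left _ hN0.le
      rw [le_div_iff₀ (by positivity)]
      nlinarith
    have h3 : p * (N * 3 + N ^ 2) ≤ p * (6 / S * N ^ 2 + N ^ 2) :=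
      mul_le_mul_of_nonneg_left (by linarith) hp0.le
    calc p * (N * 3 + N ^ 2) ≤ p * (6 / S * N ^ 2 + N ^ 2) := h3
      _ = _ := by ring
  · rw [e1, e2]
    have a1 : 0 ≤ 6 / S * (N ^ 2 * p) * (y - 1) := by
      apply mul_nonneg (by positivity); linarith
    nlinarith

/-- numeric facts, odd N layer -/
lemma num_N {N S J x : ℝ} (hS : 2 ≤ S) (hN : S ^ 2 ≤ N) (hJ0 : 0 ≤ J)
    (hx1 : 1 ≤ x) (hxS : x * (1 + J / S) ≤ S) :
    (N * (2 + 1 / (x * (1 + J / S) / S * 1)) + N ^ 2 * 1 +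
        N ^ 2 * (1 / S) * (1 / (x * (1 + J / S) / S * 1)) ≤ (1 + 6 / S) * (N ^ 2 * 1) * 3) ∧
    (1 * (N * (2 + 1 / (x * (1 + J / S) / S * 1)) + N ^ 2) ≤ (1 + 6 / S) * (N ^ 2 * 1) * 1) ∧
    (1 / S * (N * (2 + 1 / (x * (1 + J / S) / S * 1)) +
        N ^ 2 * (1 / (x * (1 + J / S) / S * 1))) ≤
      (1 + 6 / S) * (N ^ 2 * 1) * (1 / (x / S * (S + J)))) := by
  have hS0 : 0 < S := by linarith
  have hx0 : 0 < x := by linarith
  have hSJ : 0 < S + J := by linarith
  have hN0 : 0 < N := by nlinarith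
  have hR : 1 ≤ 1 + J / S := by
    have : 0 ≤ J / S := by positivity
    linarith
  have hxR : 1 ≤ x * (1 + J / S) := by nlinarith
  set X := x * (1 + J / S) with hX
  have hX0 : 0 < X := by linarith
  set y := 1 / X with hy
  have hy0 : 0 < y := by positivity
  have hy1 : y ≤ 1 := by rw [hy, div_le_one hX0]; exact hxR
  have hyS : 1 ≤ S * y := by rw [hy, mul_one_div, le_div_iff₀ hX0]; linarith
  have hyS' : S * y ≤ S := by nlinarith
  have e1 : 1 / (X / S * 1) = S * y := by rw [hy]; field_simp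
  have e2 : 1 / (x / S * (S + J)) = y := by
    rw [hy, hX]
    have : x / S * (S + J) = x * (1 + J / S) := by field_simp
    rw [this]
  have hq : S ^ 2 ≥ S + 2 := by nlinarith
  have h6 : 0 < 6 / S := by positivity
  rw [e1]
  refine ⟨?_, ?_, ?_⟩
  · have e3 : N ^ 2 * (1 / S) * (S * y) = N ^ 2 * y := by field_simp
    rw [e3]
    have a1 : N * (2 + S * y) ≤ N * N := by
      apply mul_le_mul_of_nonneg_left _ hN0.le
      linarith
    have a2 : N ^ 2 * y ≤ N ^ 2 * 1 := mul_le_mul_of_nonneg_left hy1 (by positivity)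
    have a3 : 0 ≤ 6 / S * N ^ 2 := by positivity
    nlinarith
  · have a1 : N * (2 + S * y) ≤ 6 / S * N ^ 2 := by
      have h1 : 6 / S * N ^ 2 = N * (6 * N / S) := by field_simp
      rw [h1]
      apply mul_le_mul_of_nonneg_left _ hN0.le
      rw [le_div_iff₀ (by positivity)]
      nlinarith
    nlinarith
  · rw [e2]
    have e3 : 1 / S * (N * (2 + S * y) + N ^ 2 * (S * y)) =
        N / S * (2 + S * y) + N ^ 2 * y := by field_simp
    rw [e3]
    have a1 : N / S * (2 + S * y) ≤ 6 / S * N ^ 2 * y := by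
      have h1 : 6 / S * N ^ 2 * y = N / S * (6 * N * y) := by field_simp
      rw [h1]
      apply mul_le_mul_of_nonneg_left _ (by positivity)
      nlinarith
    nlinarith

/-- numeric facts, extra N layer -/
lemma num_L {N S x : ℝ} (hS : 2 ≤ S) (hN : S ^ 2 ≤ N)
    (hx1 : 1 ≤ x) (hxS : x ≤ S) :
    (N * (2 + 1 / (1 / S * 1)) + N ^ 2 * 1 +
        N ^ 2 * (1 / S) * (1 / (1 / S * 1)) ≤ (1 + 6 / S) * (N ^ 2 * 1) * (2 + 1 / (x / S * 1))) ∧
    (1 * (N * (2 + 1 / (1 / S * 1)) + N ^ 2) ≤ (1 + 6 / S) * (N ^ 2 * 1) * 1) ∧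
    (1 / S * (N * (2 + 1 / (1 / S * 1)) + N ^ 2 * (1 / (1 / S * 1))) ≤
      (1 + 6 / S) * (N ^ 2 * 1) * (1 / (x / S * 1))) := by
  have hS0 : 0 < S := by linarith
  have hx0 : 0 < x := by linarith
  have hN0 : 0 < N := by nlinarith
  set y := S / x with hy
  have hy1 : 1 ≤ y := by rw [hy, le_div_iff₀ hx0]; linarith
  have e1 : 1 / (1 / S * 1) = S := by field_simp
  have e2 : 1 / (x / S * 1) = y := by rw [hy]; field_simp
  have hq : S ^ 2 ≥ S + 2 := by nlinarith
  have h6 : 0 < 6 / S := by positivity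
  rw [e1, e2]
  have a1 : N * (2 + S) ≤ 6 / S * N ^ 2 := by
    have h1 : 6 / S * N ^ 2 = N * (6 * N / S) := by field_simp
    rw [h1]
    apply mul_le_mul_of_nonneg_left _ hN0.le
    rw [le_div_iff₀ (by positivity)]
    nlinarith
  have hN2 : 0 < N ^ 2 := by positivity
  refine ⟨?_, ?_, ?_⟩
  · have e3 : N ^ 2 * (1 / S) * S = N ^ 2 := by field_simp
    rw [e3]
    have a3 : 0 ≤ 6 / S * N ^ 2 := by positivity
    have a4 : 0 ≤ (1 + 6 / S) * N ^ 2 * y := by positivity
    nlinarith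
  · nlinarith
  · have e3 : 1 / S * (N * (2 + S) + N ^ 2 * S) = (N * (2 + S)) / S + N ^ 2 := by field_simp
    rw [e3]
    have a2 : N * (2 + S) / S ≤ N * (2 + S) := by
      apply div_le_self (by positivity); linarith
    have a3 : (1 + 6 / S) * (N ^ 2 * 1) * 1 ≤ (1 + 6 / S) * (N ^ 2 * 1) * y := by
      apply mul_le_mul_of_nonneg_left hy1 (by positivity)
    nlinarith

end T6

open T6 in
/-- T6: transfer matrix bound -/
theorem kern_bound (n m s j L : ℕ) [NeZero n] (hs : 2 ≤ s) (hsn : s ^ 2 ≤ n) (hj : 1 ≤ j) (hjs : j ≤ s)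
    (hL : (1 + (j : ℝ) / s) ^ L ≤ s) :
    (List.ofFn fun t : Fin m => kern n (1 / ((s : ℝ) + j)) (1 / (s : ℝ)) (isP L t)).prod
        (0, 0, 0, 0) (0, 0, 0, 0) ≤
      ((s : ℝ) + 2) * (1 + 6 / (s : ℝ)) ^ m *
        ∏ t : Fin m, ((n : ℝ) ^ 2 * (if isP L t then 1 / ((s : ℝ) + j) else 1)) := by
  have hS : (2:ℝ) ≤ s := by exact_mod_cast hs
  have hS0 : (0:ℝ) < s := by linarith
  have hN : (s:ℝ) ^ 2 ≤ n := by exact_mod_cast hsn
  have hJ0 : (0:ℝ) ≤ j := by positivity
  have hJS : (j:ℝ) ≤ s := by exact_mod_cast hjs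
  have hR : 1 ≤ 1 + (j:ℝ) / s := by
    have : 0 ≤ (j:ℝ) / s := by positivity
    linarith
  have hxk : ∀ k, 1 ≤ (1 + (j:ℝ)/s) ^ k := fun k => one_le_pow₀ hR
  have hxL : ∀ k, k ≤ L → (1 + (j:ℝ)/s) ^ k ≤ s := fun k hk => (pow_le_pow_right₀ hR hk).trans hL
  have hp0 : 0 ≤ 1 / ((s:ℝ) + j) := by positivity
  have hp1 : 1 / ((s:ℝ) + j) ≤ 1 := by
    rw [div_le_one (by positivity)]; linarith
  have hq0 : 0 ≤ 1 / (s:ℝ) := by positivity
  have hq1 : 1 / (s:ℝ) ≤ 1 := by
    rw [div_le_one hS0]; linarith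
  let M : ℕ → Matrix (Quad n) (Quad n) ℝ := fun t =>
    kern n (1 / ((s : ℝ) + j)) (1 / (s : ℝ)) (isP L t)
  let w : ℕ → Quad n → ℝ := fun g a =>
    wt (kw s j (g % (2 * L + 1))) (1 / Hw s j (g % (2 * L + 1))) a
  let c : ℕ → ℝ := fun g => (1 + 6 / (s:ℝ)) * ((n : ℝ) ^ 2 * (if isP L g then 1 / ((s : ℝ) + j) else 1))
  have hc : ∀ t, 0 ≤ c t := by
    intro t
    simp only [c]
    apply mul_nonneg (by positivity)
    apply mul_nonneg (by positivity)
    split_ifs
    · exact hp0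
    · exact zero_le_one
  have hM : ∀ t a b, 0 ≤ M t a b := fun t a b => kern_nonneg hp0 hq0 _ a b
  have hstep : ∀ t a, ∑ b, M t a b * w (t + 1) b ≤ c t * w t a := by
    intro t a
    simp only [M, w, c]
    have hτ : t % (2 * L + 1) < 2 * L + 1 := Nat.mod_lt _ (by omega)
    have hH' := Hw_pos (s := s) (j := j) (τ := (t + 1) % (2 * L + 1)) hs
    have hk' := kw_ge (s := s) (j := j) (τ := (t + 1) % (2 * L + 1)) hs
    by_cases hP : isP L t
    · rw [if_pos hP]
      refine (kern_P hp0 hp1 hq0 (isP L t) hP _ _ (by linarith) (by positivity) a).trans ?_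
      obtain ⟨h1, h2⟩ := hP
      set τ := t % (2 * L + 1) with hτdef
      have h3 : (t + 1) % (2 * L + 1) = τ + 1 := by
        rw [Nat.add_mod, ← hτdef]
        rcases Nat.eq_zero_or_pos L with hL0 | hLpos
        · subst hL0; omega
        · rw [Nat.mod_eq_of_lt (show 1 < 2 * L + 1 by omega), Nat.mod_eq_of_lt (by omega)]
      have h4 : (τ + 1) % 2 = 1 := by omega
      have h5 : (τ + 1) / 2 = τ / 2 := by omega
      have h6 : τ / 2 ≤ L := by omega
      have h1' : ¬ (τ % 2 = 1) := by omega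
      have e1 : Hw s j ((t+1) % (2 * L + 1)) = (1 + (j:ℝ)/s)^(τ/2) / s * ((s:ℝ) + j) := by
        rw [h3, Hw, if_pos h4, h5]
      have e2 : kw s j ((t+1) % (2 * L + 1)) = 3 := by rw [h3, kw, if_pos h4]
      have e3 : Hw s j τ = (1 + (j:ℝ)/s)^(τ/2) / s * 1 := by rw [Hw, if_neg h1']
      have e4 : kw s j τ = 2 + 1 / ((1 + (j:ℝ)/s)^(τ/2) / s * 1) := by rw [kw, if_neg h1', e3]
      rw [e1, e2, e3, e4]
      obtain ⟨n1, n2, n3⟩ := num_P hS hN hJ0 hJS (hxk (τ/2)) (hxL _ h6)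
      unfold wt
      split_ifs
      · exact n1
      · exact n2
      · exact n3
      · simp
    · rw [if_neg hP]
      refine (kern_N hp0 hq0 hq1 (isP L t) hP _ _ (by linarith) (by positivity) a).trans ?_
      have hP' : (t % (2 * L + 1)) % 2 = 1 ∨ t % (2 * L + 1) = 2 * L := by
        unfold isP at hP
        by_contra hcon
        push Not at hcon
        apply hP
        refine ⟨by omega, hcon.2⟩
      set τ := t % (2 * L + 1) with hτdef
      rcases hP' with h1 | h1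
      · have h3 : (t + 1) % (2 * L + 1) = τ + 1 := by
          rw [Nat.add_mod, ← hτdef]
          rcases Nat.eq_zero_or_pos L with hL0 | hLpos
          · subst hL0; omega
          · rw [Nat.mod_eq_of_lt (show 1 < 2 * L + 1 by omega), Nat.mod_eq_of_lt (by omega)]
        have h4 : ¬ ((τ + 1) % 2 = 1) := by omega
        have h5 : (τ + 1) / 2 = τ / 2 + 1 := by omega
        have h6 : τ / 2 + 1 ≤ L := by omega
        have e1 : Hw s j ((t+1) % (2 * L + 1)) =
            (1 + (j:ℝ)/s)^(τ/2) * (1 + (j:ℝ)/s) / s * 1 := by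
          rw [h3, Hw, if_neg h4, h5, pow_succ]
        have e2 : kw s j ((t+1) % (2 * L + 1)) =
            2 + 1 / ((1 + (j:ℝ)/s)^(τ/2) * (1 + (j:ℝ)/s) / s * 1) := by
          rw [← e1, h3, kw, if_neg h4]
        have e3 : Hw s j τ = (1 + (j:ℝ)/s)^(τ/2) / s * ((s:ℝ) + j) := by rw [Hw, if_pos h1]
        have e4 : kw s j τ = 3 := by rw [kw, if_pos h1]
        rw [e1, e2, e3, e4]
        have hx' : (1 + (j:ℝ)/s)^(τ/2) * (1 + (j:ℝ)/s) ≤ s := by
          rw [← pow_succ]; exact hxL _ h6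
        obtain ⟨n1, n2, n3⟩ := num_N hS hN hJ0 (hxk (τ/2)) hx'
        unfold wt
        split_ifs
        · exact n1
        · exact n2
        · exact n3
        · simp
      · have h3 : (t + 1) % (2 * L + 1) = 0 := by
          rw [Nat.add_mod, ← hτdef, h1]
          rcases Nat.eq_zero_or_pos L with hL0 | hLpos
          · subst hL0; simp
          · rw [Nat.mod_eq_of_lt (show 1 < 2 * L + 1 by omega), Nat.mod_self]
        have h4 : ¬ (τ % 2 = 1) := by omega
        have h5 : τ / 2 = L := by omega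
        have e1 : Hw s j ((t+1) % (2 * L + 1)) = 1 / (s:ℝ) * 1 := by
          rw [h3, Hw]; simp
        have e2 : kw s j ((t+1) % (2 * L + 1)) = 2 + 1 / (1 / (s:ℝ) * 1) := by
          rw [← e1, h3, kw]; simp
        have e3 : Hw s j τ = (1 + (j:ℝ)/s)^L / s * 1 := by rw [Hw, if_neg h4, h5]
        have e4 : kw s j τ = 2 + 1 / ((1 + (j:ℝ)/s)^L / s * 1) := by rw [kw, if_neg h4, e3]
        rw [e1, e2, e3, e4]
        obtain ⟨n1, n2, n3⟩ := num_L hS hN (hxk L) hL
        unfold wt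
        split_ifs
        · exact n1
        · exact n2
        · exact n3
        · simp
  have hmain := lyapunov M hM w c hc hstep m (0, 0, 0, 0)
  have hwE : ∀ g, w g ((0, 0, 0, 0) : Quad n) = kw s j (g % (2 * L + 1)) := by
    intro g
    simp [w, wt, isE]
  have hw0 : w 0 ((0, 0, 0, 0) : Quad n) = (s:ℝ) + 2 := by
    rw [hwE]
    simp [kw, Hw]
    ring
  have hwm : 1 ≤ w m ((0, 0, 0, 0) : Quad n) := by
    rw [hwE]
    have := kw_ge (s := s) (j := j) (τ := m % (2 * L + 1)) hs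
    linarith
  have hPn := list_prod_nonneg M hM m
  have hwn : ∀ b, 0 ≤ w m b := by
    intro b
    have h1 := kw_ge (s := s) (j := j) (τ := m % (2 * L + 1)) hs
    have h2 := Hw_pos (s := s) (j := j) (τ := m % (2 * L + 1)) hs
    exact wt_nonneg (by linarith) (by positivity) b
  calc (List.ofFn fun t : Fin m => kern n (1 / ((s : ℝ) + j)) (1 / (s : ℝ)) (isP L t)).prod
        (0, 0, 0, 0) (0, 0, 0, 0)
      ≤ (List.ofFn fun t : Fin m => M t).prod (0, 0, 0, 0) (0, 0, 0, 0) *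
          w m ((0, 0, 0, 0) : Quad n) := le_mul_of_one_le_right (hPn _ _) hwm
    _ ≤ ∑ b, (List.ofFn fun t : Fin m => M t).prod (0, 0, 0, 0) b * w m b :=
        Finset.single_le_sum (f := fun b => (List.ofFn fun t : Fin m => M t).prod (0, 0, 0, 0) b * w m b)
          (fun b _ => mul_nonneg (hPn _ _) (hwn b)) (Finset.mem_univ _)
    _ ≤ (∏ t : Fin m, c t) * w 0 (0, 0, 0, 0) := hmain
    _ = _ := by
      rw [hw0]
      simp only [c]
      rw [Finset.prod_mul_distrib, Finset.prod_const, Finset.card_univ, Fintype.card_fin]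
      ring

end Crest.Agent.S0504
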