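import Mathlib
import Crest.Prelude.Def_SPSPS
import Crest.Agent.S0504_Defs
set_option autoImplicit false
namespace Crest.Agent.S0504
open MvPolynomial Crest.ArithCircuit
/-- T7: balance -/
theorem rho_bound (n s j L : ℕ) (hs : 2 ≤ s) (hj : 1 ≤ j) (hjs : j ≤ s)
    (hL : (s : ℝ) < (1 + (j : ℝ) / s) ^ (L + 1)) :
    ∏ t : Fin n, (if isP L t then 1 / ((s : ℝ) + j) else (s : ℝ)) ≤
      (1 + (j : ℝ) / s) ^ (n / (2 * L + 1)) := by
  classical
  have hs0 : (0 : ℝ) < s := by positivity
  set r : ℝ := 1 + (j : ℝ) / s with hr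
  have hr1 : 1 ≤ r := by
    have : (0 : ℝ) ≤ (j : ℝ) / s := by positivity
    linarith
  have hr0 : 0 < r := by linarith
  set P : ℝ := (s : ℝ) + j with hP
  have hP0 : 0 < P := by positivity
  have hPr : P = s * r := by
    rw [hP, hr]; field_simp
  let h : ℕ → ℝ := fun t => if isP L t then 1 / P else (s : ℝ)
  let G : ℕ → ℝ := fun τ => (1 / r) ^ (τ / 2) * (if τ % 2 = 1 then 1 / P else 1)
  have hG1 : ∀ τ, G τ ≤ 1 := by
    intro τ
    have h1 : (1 / r) ^ (τ / 2) ≤ 1 := by
      apply pow_le_one₀ (by positivity)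
      rw [div_le_one hr0]; exact hr1
    have h2 : (if τ % 2 = 1 then 1 / P else 1) ≤ (1 : ℝ) := by
      split_ifs
      · rw [div_le_one hP0]
        have : (2 : ℝ) ≤ s := by exact_mod_cast hs
        have : (0 : ℝ) ≤ j := by positivity
        rw [hP]; linarith
      · exact le_refl _
    have h3 : (0 : ℝ) ≤ (if τ % 2 = 1 then 1 / P else 1) := by split_ifs <;> positivity
    calc G τ ≤ 1 * 1 := mul_le_mul h1 h2 h3 (by norm_num)
      _ = 1 := by norm_num
  have hG0 : ∀ τ, 0 ≤ G τ := by
    intro τ
    have h3 : (0 : ℝ) ≤ (if τ % 2 = 1 then 1 / P else 1) := by split_ifs <;> positivity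
    exact mul_nonneg (by positivity) h3
  have key : ∀ q τ, τ ≤ 2 * L → ∏ t ∈ Finset.range (q * (2 * L + 1) + τ), h t ≤ r ^ q * G τ := by
    have step : ∀ q τ, τ < 2 * L → ∏ t ∈ Finset.range (q * (2 * L + 1) + τ), h t ≤ r ^ q * G τ →
        ∏ t ∈ Finset.range (q * (2 * L + 1) + (τ + 1)), h t ≤ r ^ q * G (τ + 1) := by
      intro q τ hτ ih
      rw [← add_assoc, Finset.prod_range_succ]
      have hmod : (q * (2 * L + 1) + τ) % (2 * L + 1) = τ := by
        rw [Nat.mul_comm, Nat.mul_add_mod, Nat.mod_eq_of_lt (by omega)]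
      by_cases hev : τ % 2 = 0
      · have hh : h (q * (2 * L + 1) + τ) = 1 / P := by
          simp only [h]
          rw [if_pos]
          unfold isP
          rw [hmod]; exact ⟨hev, by omega⟩
        rw [hh]
        have hGG : G (τ + 1) = G τ * (1 / P) := by
          simp only [G]
          have e1 : (τ + 1) / 2 = τ / 2 := by omega
          have e2 : (τ + 1) % 2 = 1 := by omega
          have e3 : ¬ τ % 2 = 1 := by omega
          rw [e1, if_pos e2, if_neg e3]; ring
        rw [hGG, ← mul_assoc]
        exact mul_le_mul_of_nonneg_right ih (by positivity)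
      · have hod : τ % 2 = 1 := by omega
        have hh : h (q * (2 * L + 1) + τ) = (s : ℝ) := by
          simp only [h]
          rw [if_neg]
          unfold isP
          rw [hmod]; omega
        rw [hh]
        have hGG : G (τ + 1) = G τ * (s : ℝ) := by
          simp only [G]
          have e1 : (τ + 1) / 2 = τ / 2 + 1 := by omega
          have e2 : ¬ (τ + 1) % 2 = 1 := by omega
          rw [e1, if_neg e2, if_pos hod, hPr, pow_succ]
          field_simp
        rw [hGG, ← mul_assoc]
        exact mul_le_mul_of_nonneg_right ih (by positivity)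
    have fill : ∀ q, ∏ t ∈ Finset.range (q * (2 * L + 1) + 0), h t ≤ r ^ q * G 0 →
        ∀ τ, τ ≤ 2 * L → ∏ t ∈ Finset.range (q * (2 * L + 1) + τ), h t ≤ r ^ q * G τ := by
      intro q h0 τ
      induction τ with
      | zero => intro _; exact h0
      | succ τ ih => intro hτ; exact step q τ (by omega) (ih (by omega))
    have start : ∀ q, ∏ t ∈ Finset.range (q * (2 * L + 1) + 0), h t ≤ r ^ q * G 0 := by
      intro q
      induction q with
      | zero => simp [G]
      | succ q ih =>
        have hfull := fill q ih (2 * L) le_rfl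
        have e : (q + 1) * (2 * L + 1) + 0 = (q * (2 * L + 1) + 2 * L) + 1 := by ring
        rw [e, Finset.prod_range_succ]
        have hmod : (q * (2 * L + 1) + 2 * L) % (2 * L + 1) = 2 * L := by
          rw [Nat.mul_comm, Nat.mul_add_mod, Nat.mod_eq_of_lt (by omega)]
        have hh : h (q * (2 * L + 1) + 2 * L) = (s : ℝ) := by
          simp only [h]
          rw [if_neg]
          unfold isP
          rw [hmod]; omega
        rw [hh]
        have hG2 : G (2 * L) = (1 / r) ^ L := by
          simp [G]
        have hG00 : G 0 = 1 := by simp [G]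
        rw [hG2] at hfull
        rw [hG00, mul_one]
        calc _ ≤ r ^ q * (1 / r) ^ L * (s : ℝ) := mul_le_mul_of_nonneg_right hfull hs0.le
          _ ≤ r ^ q * (1 / r) ^ L * r ^ (L + 1) :=
              mul_le_mul_of_nonneg_left hL.le (by positivity)
          _ = r ^ (q + 1) := by
              rw [div_pow, one_pow, pow_succ r L, pow_succ r q]
              field_simp
    intro q τ hτ
    exact fill q (start q) τ hτ
  have hfin : ∏ t : Fin n, (if isP L t then 1 / P else (s : ℝ)) = ∏ t ∈ Finset.range n, h t := by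
    rw [Finset.prod_range]
  rw [hfin]
  have hn : n = (n / (2 * L + 1)) * (2 * L + 1) + n % (2 * L + 1) := by
    rw [Nat.mul_comm]; exact (Nat.div_add_mod _ _).symm
  have hlt : n % (2 * L + 1) < 2 * L + 1 := Nat.mod_lt _ (by omega)
  have hk := key (n / (2 * L + 1)) (n % (2 * L + 1)) (by omega)
  rw [← hn] at hk
  refine hk.trans ?_
  calc r ^ (n / (2 * L + 1)) * G (n % (2 * L + 1)) ≤ r ^ (n / (2 * L + 1)) * 1 :=
        mul_le_mul_of_nonneg_left (hG1 _) (by positivity)
    _ = _ := by ring

end Crest.Agent.S0504
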