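import Mathlib
import Crest.Prelude.Def_SPSPS
set_option autoImplicit false
namespace Crest.Agent.S0504
open MvPolynomial Crest.ArithCircuit

/-- core real inequality, all quantities abstract -/
theorem final_core (n s j L : ℕ) (hsn : s * s ≤ n) (hns : n < (s + 1) * (s + 1))
    (hsexp : Real.exp 1000 ≤ (s : ℝ)) (hj1 : 2 ^ j ≤ s) (hj2 : s < 2 ^ (j + 1))
    (hL : (s : ℝ) < (1 + (j : ℝ) / s) ^ (L + 1)) (S : ℝ) (hS : 1 ≤ S)
    (hmain : 1 / (2 * (n : ℝ) ^ 2 * ((s : ℝ) + 2) * (1 + 6 / (s : ℝ)) ^ n) ≤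
        S ^ 2 * (Real.sqrt ((1 + (j : ℝ) / (s : ℝ)) ^ (n / (2 * L + 1))) *
          ((1 + (j : ℝ) / (s : ℝ)) ^ (-(n : ℝ) / 8) +
            (2 / Real.sqrt (s : ℝ)) ^ (s / 8 + 1)))) :
      (n : ℝ) ^ (Real.sqrt n / 400) ≤ S := by
  have hs1001 : (1001 : ℝ) ≤ s := by
    have := Real.add_one_le_exp (1000 : ℝ); linarith
  have hs0 : (0 : ℝ) < s := by linarith
  have hsne : s ≠ 0 := by intro h; rw [h] at hs0; simp at hs0
  set x : ℝ := Real.log s with hx
  have hx1000 : 1000 ≤ x := by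
    rw [hx, Real.le_log_iff_exp_le hs0]; exact hsexp
  have hexpx : Real.exp x = s := Real.exp_log hs0
  have hnR1 : (s : ℝ) * s ≤ n := by exact_mod_cast hsn
  have hnR2 : (n : ℝ) ≤ ((s : ℝ) + 1) * (s + 1) := by exact_mod_cast hns.le
  have hnR2' : (n : ℝ) ≤ (s : ℝ) * (s + 2) := by
    have : n ≤ s * (s + 2) := by
      have : n < (s + 1) * (s + 1) := hns
      nlinarith
    exact_mod_cast this
  have hn0 : (0 : ℝ) < n := by nlinarith
  -- j bounds
  have hlog2 : Real.log 2 ≤ 1 := by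
    have := Real.log_le_sub_one_of_pos (show (0:ℝ) < 2 by norm_num); linarith
  have hlog2' : (1 : ℝ) / 2 < Real.log 2 := by
    have := Real.log_two_gt_d9; linarith
  have hjx : (j : ℝ) * Real.log 2 ≤ x := by
    have : ((2 : ℝ) ^ j) ≤ s := by exact_mod_cast hj1
    have h := Real.log_le_log (by positivity) this
    rwa [Real.log_pow] at h
  have hxj : x ≤ (j : ℝ) + 1 := by
    have : (s : ℝ) ≤ (2 : ℝ) ^ (j + 1) := by exact_mod_cast hj2.le
    have h := Real.log_le_log hs0 this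
    rw [Real.log_pow] at h
    push_cast at h
    nlinarith
  have hjpos : (0 : ℝ) < j := by linarith
  have hjs : (j : ℝ) ≤ s := by
    have : j < 2 ^ j := Nat.lt_two_pow_self
    exact_mod_cast (this.le.trans hj1)
  set y : ℝ := (j : ℝ) / s with hy
  have hy0 : 0 < y := by positivity
  have hy1 : y ≤ 1 := by rw [hy, div_le_one hs0]; exact hjs
  have hr0 : (0 : ℝ) < 1 + y := by linarith
  have hre : 1 + y ≤ Real.exp y := by linarith [Real.add_one_le_exp y]
  have hyj : y * s = j := by rw [hy]; field_simp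
  -- L bound
  have hLbig : (s : ℝ) / 2 < (L : ℝ) + 1 := by
    have h1 : (s : ℝ) < Real.exp (y * (L + 1)) := by
      calc (s : ℝ) < (1 + y) ^ (L + 1) := hL
        _ ≤ (Real.exp y) ^ (L + 1) := pow_le_pow_left₀ hr0.le hre _
        _ = Real.exp (y * (L + 1)) := by
            rw [← Real.exp_nat_mul]; push_cast; ring_nf
    have h2 : x < y * (L + 1) := by
      rw [hx, Real.log_lt_iff_lt_exp hs0]; exact h1
    have h3 : (j : ℝ) * Real.log 2 < (j / s) * (L + 1) := lt_of_le_of_lt hjx h2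
    have h4 : Real.log 2 * s < (L + 1) := by
      have h5 : (j : ℝ) * (Real.log 2 * s) < j * (L + 1) := by
        have := mul_lt_mul_of_pos_right h3 hs0
        have e : (j : ℝ) / s * (L + 1) * s = j * (L + 1) := by field_simp
        rw [e] at this
        linarith
      exact lt_of_mul_lt_mul_left h5 hjpos.le
    nlinarith
  -- exponent of r
  have hquot : ((n / (2 * L + 1) : ℕ) : ℝ) ≤ 2 * (s + 2) := by
    have h1 : ((n / (2 * L + 1) : ℕ) : ℝ) ≤ (n : ℝ) / ((2 * L + 1 : ℕ) : ℝ) := Nat.cast_div_le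
    refine h1.trans ?_
    push_cast
    rw [div_le_iff₀ (by positivity)]
    have hL0 : (0 : ℝ) ≤ L := Nat.cast_nonneg _
    have : (s : ℝ) * (s + 2) ≤ 2 * (s + 2) * (L + 1) := by nlinarith
    nlinarith
  have hsq : Real.sqrt ((1 + y) ^ (n / (2 * L + 1))) ≤ Real.exp (s + 2) := by
    rw [Real.sqrt_le_left (Real.exp_pos _).le]
    calc (1 + y) ^ (n / (2 * L + 1)) ≤ (Real.exp y) ^ (n / (2 * L + 1)) :=
          pow_le_pow_left₀ hr0.le hre _
      _ = Real.exp ((n / (2 * L + 1) : ℕ) * y) := by rw [← Real.exp_nat_mul]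
      _ ≤ Real.exp (2 * (s + 2)) := by
          apply Real.exp_le_exp.2
          have : (0 : ℝ) ≤ ((n / (2 * L + 1) : ℕ) : ℝ) := Nat.cast_nonneg _
          nlinarith
      _ = Real.exp (s + 2) ^ 2 := by rw [← Real.exp_nat_mul]; push_cast; ring_nf
  -- r^{-n/8}
  have hrn : (1 + y) ^ (-(n : ℝ) / 8) ≤ Real.exp (s / 8 - s * x / 16) := by
    rw [Real.rpow_def_of_pos hr0]
    apply Real.exp_le_exp.2
    have hlog : y / 2 ≤ Real.log (1 + y) := by
      have h1 := Real.one_sub_inv_le_log_of_pos hr0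
      have h2 : y / 2 ≤ 1 - (1 + y)⁻¹ := by
        have : 1 - (1 + y)⁻¹ = y / (1 + y) := by field_simp; ring
        rw [this, div_le_div_iff₀ (by norm_num) hr0]
        nlinarith
      linarith
    have h1 : (n : ℝ) / 8 * (y / 2) ≤ (n : ℝ) / 8 * Real.log (1 + y) :=
      mul_le_mul_of_nonneg_left hlog (by positivity)
    have h2 : (s : ℝ) * j / 16 ≤ (n : ℝ) / 8 * (y / 2) := by
      rw [hy]
      have : (n : ℝ) / 8 * (j / s / 2) = n * j / (16 * s) := by field_simp; ring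
      rw [this, div_le_div_iff₀ (by norm_num) (by positivity)]
      have : (s : ℝ) * s * j ≤ n * j := mul_le_mul_of_nonneg_right hnR1 hjpos.le
      nlinarith
    have h3 : (s : ℝ) * (x - 1) / 16 ≤ s * j / 16 := by
      have : (s : ℝ) * (x - 1) ≤ s * j := mul_le_mul_of_nonneg_left (by linarith) hs0.le
      linarith
    nlinarith
  have hsec : (2 / Real.sqrt (s : ℝ)) ^ (s / 8 + 1) ≤ Real.exp (s / 8 - s * x / 16) := by
    have hsqrt : Real.sqrt (s : ℝ) = Real.exp (x / 2) := by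
      rw [Real.sqrt_eq_iff_mul_self_eq hs0.le (Real.exp_pos _).le, ← Real.exp_add]
      rw [show x / 2 + x / 2 = x by ring]; exact hexpx.symm
    have h2e : (2 : ℝ) ≤ Real.exp 1 := by linarith [Real.add_one_le_exp (1 : ℝ)]
    have hb : 2 / Real.sqrt (s : ℝ) ≤ Real.exp (1 - x / 2) := by
      rw [hsqrt, Real.exp_sub]
      exact div_le_div_of_nonneg_right h2e (Real.exp_pos _).le
    calc (2 / Real.sqrt (s : ℝ)) ^ (s / 8 + 1) ≤ (Real.exp (1 - x / 2)) ^ (s / 8 + 1) :=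
          pow_le_pow_left₀ (by positivity) hb _
      _ = Real.exp ((s / 8 + 1 : ℕ) * (1 - x / 2)) := by rw [← Real.exp_nat_mul]
      _ ≤ Real.exp (s / 8 - s * x / 16) := by
          apply Real.exp_le_exp.2
          have hq : (s : ℝ) / 8 ≤ ((s / 8 + 1 : ℕ) : ℝ) := by
            have : s ≤ 8 * (s / 8 + 1) := by omega
            have h : (s : ℝ) ≤ 8 * ((s / 8 + 1 : ℕ) : ℝ) := by exact_mod_cast this
            linarith
          nlinarith
  have hsum : (1 + y) ^ (-(n : ℝ) / 8) + (2 / Real.sqrt (s : ℝ)) ^ (s / 8 + 1)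
      ≤ Real.exp (1 + s / 8 - s * x / 16) := by
    have h2e : (2 : ℝ) ≤ Real.exp 1 := by linarith [Real.add_one_le_exp (1 : ℝ)]
    calc _ ≤ 2 * Real.exp (s / 8 - s * x / 16) := by linarith
      _ ≤ Real.exp 1 * Real.exp (s / 8 - s * x / 16) :=
          mul_le_mul_of_nonneg_right h2e (Real.exp_pos _).le
      _ = _ := by rw [← Real.exp_add]; ring_nf
  -- A inverse
  have hA : 2 * (n : ℝ) ^ 2 * ((s : ℝ) + 2) * (1 + 6 / (s : ℝ)) ^ n ≤ Real.exp (11 * s + 14) := by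
    have h2e : (2 : ℝ) ≤ Real.exp 1 := by linarith [Real.add_one_le_exp (1 : ℝ)]
    have hs1 : (s : ℝ) + 1 ≤ Real.exp s := Real.add_one_le_exp _
    have hn1 : (n : ℝ) ≤ Real.exp (2 * s) := by
      calc (n : ℝ) ≤ ((s : ℝ) + 1) * (s + 1) := hnR2
        _ ≤ Real.exp s * Real.exp s := mul_le_mul hs1 hs1 (by positivity) (Real.exp_pos _).le
        _ = Real.exp (2 * s) := by rw [← Real.exp_add]; ring_nf
    have hn2 : (n : ℝ) ^ 2 ≤ Real.exp (4 * s) := by
      calc (n : ℝ) ^ 2 ≤ (Real.exp (2 * s)) ^ 2 := pow_le_pow_left₀ hn0.le hn1 _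
        _ = _ := by rw [← Real.exp_nat_mul]; push_cast; ring_nf
    have hs2 : (s : ℝ) + 2 ≤ Real.exp (s + 1) := by
      have := Real.add_one_le_exp ((s : ℝ) + 1); linarith
    have h6 : (1 + 6 / (s : ℝ)) ^ n ≤ Real.exp (6 * s + 12) := by
      calc (1 + 6 / (s : ℝ)) ^ n ≤ (Real.exp (6 / s)) ^ n := by
            apply pow_le_pow_left₀ (by positivity)
            have := Real.add_one_le_exp (6 / (s : ℝ)); linarith
        _ = Real.exp (n * (6 / s)) := by rw [← Real.exp_nat_mul]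
        _ ≤ Real.exp (6 * s + 12) := by
            apply Real.exp_le_exp.2
            rw [← mul_div_assoc, div_le_iff₀ hs0]
            nlinarith
    calc 2 * (n : ℝ) ^ 2 * ((s : ℝ) + 2) * (1 + 6 / (s : ℝ)) ^ n
        ≤ Real.exp 1 * Real.exp (4 * s) * Real.exp (s + 1) * Real.exp (6 * s + 12) := by
          gcongr
      _ = Real.exp (11 * s + 14) := by
          rw [← Real.exp_add, ← Real.exp_add, ← Real.exp_add]; ring_nf
  have hA0 : 0 < 2 * (n : ℝ) ^ 2 * ((s : ℝ) + 2) * (1 + 6 / (s : ℝ)) ^ n := by positivity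
  have hS2 : Real.exp (s * x / 50) ≤ S ^ 2 := by
    have h1 : Real.exp (-(11 * s + 14)) ≤ 1 / (2 * (n : ℝ) ^ 2 * ((s : ℝ) + 2) * (1 + 6 / (s : ℝ)) ^ n) := by
      rw [Real.exp_neg, ← one_div]
      exact one_div_le_one_div_of_le hA0 hA
    have h2 : Real.sqrt ((1 + y) ^ (n / (2 * L + 1))) *
          ((1 + y) ^ (-(n : ℝ) / 8) + (2 / Real.sqrt (s : ℝ)) ^ (s / 8 + 1))
          ≤ Real.exp (s + 2) * Real.exp (1 + s / 8 - s * x / 16) := by
      apply mul_le_mul hsq hsum _ (Real.exp_pos _).le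
      positivity
    have h3 : Real.exp (-(11 * s + 14)) ≤ S ^ 2 * Real.exp (s + 3 + s / 8 - s * x / 16) := by
      calc Real.exp (-(11 * s + 14)) ≤ _ := h1
        _ ≤ _ := hmain
        _ ≤ S ^ 2 * (Real.exp (s + 2) * Real.exp (1 + s / 8 - s * x / 16)) :=
            mul_le_mul_of_nonneg_left h2 (by positivity)
        _ = _ := by rw [← Real.exp_add]; ring_nf
    have h4 : Real.exp (s * x / 50) * Real.exp (s + 3 + s / 8 - s * x / 16)
        ≤ S ^ 2 * Real.exp (s + 3 + s / 8 - s * x / 16) := by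
      refine le_trans ?_ h3
      rw [← Real.exp_add]
      apply Real.exp_le_exp.2
      nlinarith
    exact le_of_mul_le_mul_right h4 (Real.exp_pos _)
  -- final
  have hfin : (n : ℝ) ^ (Real.sqrt n / 400) ≤ Real.exp (s * x / 100) := by
    rw [Real.rpow_def_of_pos hn0]
    apply Real.exp_le_exp.2
    have hsqn : Real.sqrt n ≤ s + 1 := by
      rw [Real.sqrt_le_left (by positivity)]
      rw [pow_two]; exact hnR2
    have hlog1 : Real.log (s + 1) ≤ x + 1 := by
      have : (s : ℝ) + 1 ≤ s * Real.exp 1 := by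
        have := Real.add_one_le_exp (1 : ℝ); nlinarith
      have h := Real.log_le_log (by positivity) this
      rw [Real.log_mul hs0.ne' (Real.exp_pos _).ne', Real.log_exp] at h
      exact h
    have hlogn : Real.log n ≤ 2 * (x + 1) := by
      have h := Real.log_le_log hn0 hnR2
      rw [Real.log_mul (by positivity) (by positivity)] at h
      linarith
    have hlogn0 : 0 ≤ Real.log n := Real.log_nonneg (by nlinarith)
    have h5 : Real.log n * (Real.sqrt n / 400) ≤ 2 * (x + 1) * ((s + 1) / 400) := by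
      apply mul_le_mul hlogn _ (by positivity) (by linarith)
      linarith
    refine h5.trans ?_
    nlinarith
  have h0 : (0 : ℝ) ≤ (n : ℝ) ^ (Real.sqrt n / 400) := by positivity
  have h6 : ((n : ℝ) ^ (Real.sqrt n / 400)) ^ 2 ≤ S ^ 2 := by
    calc ((n : ℝ) ^ (Real.sqrt n / 400)) ^ 2 ≤ (Real.exp (s * x / 100)) ^ 2 :=
          pow_le_pow_left₀ h0 hfin _
      _ = Real.exp (s * x / 50) := by rw [← Real.exp_nat_mul]; push_cast; ring_nf
      _ ≤ S ^ 2 := hS2
  exact (pow_le_pow_iff_left₀ h0 (by linarith) (by norm_num)).1 h6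

theorem final_asymptotics : ∃ n₀ : ℕ, ∀ n : ℕ, n₀ ≤ n → ∀ L : ℕ,
    (1 + (Nat.log 2 (Nat.sqrt n) : ℝ) / (Nat.sqrt n : ℝ)) ^ L ≤ (Nat.sqrt n : ℝ) →
    (Nat.sqrt n : ℝ) < (1 + (Nat.log 2 (Nat.sqrt n) : ℝ) / (Nat.sqrt n : ℝ)) ^ (L + 1) →
    ∀ S : ℝ, 1 ≤ S →
      1 / (2 * (n : ℝ) ^ 2 * ((Nat.sqrt n : ℝ) + 2) * (1 + 6 / (Nat.sqrt n : ℝ)) ^ n) ≤
        S ^ 2 * (Real.sqrt ((1 + (Nat.log 2 (Nat.sqrt n) : ℝ) / (Nat.sqrt n : ℝ)) ^ (n / (2 * L + 1))) *
          ((1 + (Nat.log 2 (Nat.sqrt n) : ℝ) / (Nat.sqrt n : ℝ)) ^ (-(n : ℝ) / 8) +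
            (2 / Real.sqrt (Nat.sqrt n : ℝ)) ^ (Nat.sqrt n / 8 + 1))) →
      (n : ℝ) ^ (Real.sqrt n / 400) ≤ S := by
  refine ⟨(⌈Real.exp 1000⌉₊) ^ 2, ?_⟩
  intro n hn L _ hL S hS hmain
  have hsbig : ⌈Real.exp 1000⌉₊ ≤ Nat.sqrt n := by
    rw [Nat.le_sqrt']; exact hn
  have hsexp : Real.exp 1000 ≤ (Nat.sqrt n : ℝ) :=
    (Nat.le_ceil _).trans (by exact_mod_cast hsbig)
  have hsne : Nat.sqrt n ≠ 0 := by
    intro h
    rw [h] at hsexp
    have := Real.exp_pos 1000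
    simp at hsexp
    linarith
  exact final_core n (Nat.sqrt n) (Nat.log 2 (Nat.sqrt n)) L (Nat.sqrt_le n) (Nat.lt_succ_sqrt n) hsexp
    (Nat.pow_log_le_self 2 hsne) (Nat.lt_pow_succ_log_self (by norm_num) _) hL S hS hmain

end Crest.Agent.S0504
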