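import Crest.Statements.S0504
import Crest.Agent.S0504_T2
import Crest.Agent.S0504_T4
import Crest.Agent.S0504_T6
import Crest.Agent.S0504_T7
import Crest.Agent.S0504_T9
import Crest.Agent.S0504_LowerMain

set_option autoImplicit false
universe u v
open Crest Crest.LogicCS

namespace Crest.Agent.S0504

open MvPolynomial Crest.ArithCircuit

/-- the encoding of variables -/
def encV (n : ℕ) : Fin n × Fin n × Fin n ≃ Fin (n * (n * n)) :=
  (Equiv.prodCongr (Equiv.refl _) finProdFinEquiv).trans finProdFinEquiv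

/-- the placement of the variables -/
def sig (n L a b : ℕ) (ha : n * (n * n) ≤ a) (hb : n * (n * n) ≤ b)
    (v : Fin n × Fin n × Fin n) : Fin a ⊕ Fin b :=
  if isP L v.1 then Sum.inl (Fin.castLE ha (encV n v)) else Sum.inr (Fin.castLE hb (encV n v))

lemma sig_plc (n L a b : ℕ) (ha : n * (n * n) ≤ a) (hb : n * (n * n) ≤ b) :
    Plc (sig n L a b ha hb) (fun t : Fin n => isP L t) where
  inj := by
    intro v v' h
    unfold sig at h
    by_cases h1 : isP L v.1 <;> by_cases h2 : isP L v'.1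
    · rw [if_pos h1, if_pos h2] at h
      exact (encV n).injective (Fin.castLE_injective ha (Sum.inl.inj h))
    · rw [if_pos h1, if_neg h2] at h
      exact absurd h (by simp)
    · rw [if_neg h1, if_pos h2] at h
      exact absurd h (by simp)
    · rw [if_neg h1, if_neg h2] at h
      exact (encV n).injective (Fin.castLE_injective hb (Sum.inr.inj h))
  hY := fun t i j ht => ⟨_, if_pos ht⟩
  hZ := fun t i j ht => ⟨_, if_neg ht⟩

lemma imm_homog (K : Type*) [Field K] (n : ℕ) [NeZero n] : (imm K n).IsHomogeneous n := by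
  classical
  obtain ⟨m, rfl⟩ : ∃ m, n = m + 1 := ⟨n - 1, by have := NeZero.ne n; omega⟩
  show ((List.ofFn (varMatrix K (m + 1))).prod 0 0).IsHomogeneous (m + 1)
  rw [list_prod_apply]
  apply IsHomogeneous.sum
  intro w _
  split_ifs with h
  · have := IsHomogeneous.prod (Finset.univ : Finset (Fin (m + 1)))
      (fun t => varMatrix K (m + 1) t (w t.castSucc) (w t.succ)) (fun _ => 1)
      (fun t _ => isHomogeneous_X K (t, w t.castSucc, w t.succ))
    simpa using this
  · exact isHomogeneous_zero _ _ _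

lemma phiw_zero (P Q : ℝ) : phiw P Q 0 = 1 := by
  unfold phiw xw
  simp

lemma phiw_le (s j d : ℕ) (hj : 600 ≤ j) (hjs : 2 ^ j ≤ s) (hds : d ≤ s / 8) :
    phiw ((s : ℝ) + j) s d ≤ (1 + (j : ℝ) / s) ^ (-(d : ℝ) / 8) := by
  rcases Nat.eq_zero_or_pos d with rfl | hd
  · rw [phiw_zero]; simp
  · have h8 : 8 * d ≤ s := by omega
    have := phi_bound s j d hj hjs hd h8
    refine le_trans (le_of_eq ?_) this
    unfold phiw xw
    apply Finset.sum_congr rfl
    intro κ _
    rw [inv_div]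

set_option maxHeartbeats 1000000 in
/-- the main inequality -/
theorem main_ineq (n : ℕ) [NeZero n] (s j L : ℕ) (hs : s = Nat.sqrt n) (hj : j = Nat.log 2 s)
    (hj600 : 600 ≤ j) (hL1 : (1 + (j : ℝ) / s) ^ L ≤ s) (hL2 : (s : ℝ) < (1 + (j : ℝ) / s) ^ (L + 1))
    (K : Type u) [Field K] [CharZero K]
    (L' B P S R : Type v) [Fintype L'] [Fintype B] [Fintype P] [Fintype S] [Fintype R]
    (C : Crest.ArithCircuit.SPSPS K (Fin n × Fin n × Fin n) L' B P S R)
    (hC : C.IsHomogeneous) (hout : C.output = Crest.ArithCircuit.imm K n) :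
    1 / (2 * (n : ℝ) ^ 2 * ((s : ℝ) + 2) * (1 + 6 / (s : ℝ)) ^ n) ≤
      (C.size : ℝ) ^ 2 * (Real.sqrt ((1 + (j : ℝ) / s) ^ (n / (2 * L + 1))) *
        ((1 + (j : ℝ) / s) ^ (-(n : ℝ) / 8) + (2 / Real.sqrt (s : ℝ)) ^ (s / 8 + 1))) := by
  classical
  -- basic facts
  have hjs2 : 2 ^ j ≤ s := by
    rw [hj]
    apply Nat.pow_log_le_self
    intro h0
    rw [hj, h0] at hj600
    simp at hj600
  have hjs : j ≤ s := (Nat.lt_two_pow_self).le.trans hjs2
  have hs600 : 600 ≤ s := by omega
  have hsn : s ^ 2 ≤ n := by rw [hs, sq]; exact Nat.sqrt_le n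
  have hn1 : 1 ≤ n := by nlinarith
  have hn2 : 2 ≤ n := by nlinarith
  set r : ℝ := 1 + (j : ℝ) / s with hr
  have hsR : (600 : ℝ) ≤ s := by exact_mod_cast hs600
  have hjR : (600 : ℝ) ≤ j := by exact_mod_cast hj600
  have hr0 : 0 < r := by rw [hr]; positivity
  set u : ℕ := n ^ 3 with hu
  set a : ℕ := u * (s + j - 1) + 1 with ha
  set b : ℕ := u * (s - 1) + 1 with hb
  have hn3 : n * (n * n) = u := by rw [hu]; ring
  have haN : n * (n * n) ≤ a := by rw [hn3, ha]; nlinarith [Nat.le_sub_one_of_lt (show 1 < s + j by omega), Nat.zero_le u]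
  have hbN : n * (n * n) ≤ b := by rw [hn3, hb]; nlinarith [Nat.le_sub_one_of_lt (show 1 < s by omega), Nat.zero_le u]
  set σ := sig n L a b haN hbN with hσ
  have hplc : Plc σ (fun t : Fin n => isP L t) := sig_plc n L a b haN hbN
  set k : ℕ := (Finset.univ.filter (fun t : Fin n => isP L t)).card with hk
  set e : ℕ := (Finset.univ.filter (fun t : Fin n => ¬ isP L t)).card with he
  have hke : k + e = n := by
    rw [hk, he, Finset.card_filter_add_card_filter_not]; simp
  have hun : n ^ 2 * n = u := by rw [hu]; ring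
  have hnu : 2 * n ≤ u := by nlinarith
  have hku : k + n ≤ u := by omega
  set PP : ℝ := (s : ℝ) + j with hPP
  set QQ : ℝ := (s : ℝ) with hQQ
  have hQ1 : 1 ≤ QQ := by linarith
  have hPQ : QQ ≤ PP := by linarith
  have hP1 : 1 ≤ PP := by linarith
  have haR : (a : ℝ) = (PP - 1) * u + 1 := by
    rw [ha]; push_cast [Nat.cast_sub (show 1 ≤ s + j by omega)]
    rw [hPP]; ring
  have hbR : (b : ℝ) = (QQ - 1) * u + 1 := by
    rw [hb]; push_cast [Nat.cast_sub (show 1 ≤ s by omega)]
    rw [hQQ]; ring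
  have ha1 : 1 ≤ a := by omega
  have hb1 : 1 ≤ b := by omega
  have hDim : DimHyp (Fintype.card (Fin a)) (Fintype.card (Fin b)) u u k PP QQ := by
    rw [Fintype.card_fin, Fintype.card_fin]
    refine ⟨hQ1, hPQ, by omega, ?_, ?_⟩
    · intro c hc
      exact mc_down a u PP hP1 ha1 (le_of_eq haR.symm) c hc
    · intro c
      exact mc_up b u QQ hQ1 hb1 (le_of_eq hbR) c
  set D : ℝ := (((Fintype.card (Fin a)).multichoose u * (Fintype.card (Fin b)).multichoose u : ℕ) : ℝ)
    with hD
  have hDY : 0 < (((Fintype.card (Fin a)).multichoose u : ℕ) : ℝ) := by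
    rw [Fintype.card_fin]; exact mc_pos a u ha1
  have hDZ : 0 < (((Fintype.card (Fin b)).multichoose u : ℕ) : ℝ) := by
    rw [Fintype.card_fin]; exact mc_pos b u hb1
  have hD0 : 0 < D := by
    rw [hD]; push_cast; exact mul_pos hDY hDZ
  -- the measure
  set μ : MvPolynomial (Fin n × Fin n × Fin n) K → ℝ :=
    fun F => (mu K u u (u - k) (u + e) (rename σ F) : ℝ) with hμ
  set ρ : ℝ := QQ ^ e / PP ^ k with hρ
  -- lower bound
  have hlow := lower_main K hplc u u k e hQ1 hP1 hk.symm he.symm hku (by omega)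
    (by rw [Fintype.card_fin]; exact ha1) (by rw [Fintype.card_fin]; exact hb1)
    (by rw [Fintype.card_fin]; exact le_of_eq haR.symm)
    (by rw [Fintype.card_fin]; exact le_of_eq hbR.symm)
  have hkern := kern_bound n n s j L (by omega) hsn (by omega) hjs hL1
  have hprodP : ∏ t : Fin n, ((n : ℝ) ^ 2 * (if isP L t then 1 / ((s : ℝ) + j) else 1)) =
      (n : ℝ) ^ (2 * n) * (1 / PP ^ k) := by
    rw [Finset.prod_mul_distrib, Finset.prod_const, Finset.card_univ, Fintype.card_fin, ← pow_mul,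
      Finset.prod_ite, Finset.prod_const, Finset.prod_const_one, mul_one, one_div_pow]
  rw [hprodP] at hkern
  have hmu0 : 0 ≤ μ (imm K n) := Nat.cast_nonneg _
  have hPk : 0 < PP ^ k := by positivity
  have hnR : (2 : ℝ) ≤ n := by exact_mod_cast hn2
  have hDk : D / PP ^ k / 2 ≤ (((Fintype.card (Fin a)).multichoose (u - k) *
      (Fintype.card (Fin b)).multichoose u : ℕ) : ℝ) := by
    have h1 := mc_lower a u PP hP1 ha1 haR (by omega) k (by omega)
    have h2 : (1 : ℝ) / 2 ≤ 1 - (k : ℝ) ^ 2 / u := by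
      have hkn : (k : ℝ) ≤ n := by exact_mod_cast (show k ≤ n by omega)
      have hu0 : (0 : ℝ) < u := by
        have : 0 < u := by omega
        exact_mod_cast this
      have : (k : ℝ) ^ 2 / u ≤ 1 / 2 := by
        rw [div_le_iff₀ hu0, hu]
        push_cast
        have hk0 : (0 : ℝ) ≤ k := by positivity
        nlinarith [mul_le_mul hkn hkn hk0 (by linarith), sq_nonneg (n : ℝ)]
      linarith
    rw [hD]
    push_cast
    rw [Fintype.card_fin, Fintype.card_fin] at *
    calc ((a.multichoose u : ℕ) : ℝ) * (b.multichoose u : ℕ) / PP ^ k / 2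
        = ((a.multichoose u : ℕ) / PP ^ k * (1 / 2)) * (b.multichoose u : ℕ) := by ring
      _ ≤ ((a.multichoose u : ℕ) / PP ^ k * (1 - (k : ℝ) ^ 2 / u)) * (b.multichoose u : ℕ) := by
          apply mul_le_mul_of_nonneg_right _ hDZ.le
          apply mul_le_mul_of_nonneg_left h2 (by positivity)
      _ ≤ _ := mul_le_mul_of_nonneg_right h1 hDZ.le
  set Λ : ℝ := 2 * (n : ℝ) ^ 2 * ((s : ℝ) + 2) * (1 + 6 / (s : ℝ)) ^ n with hΛ
  have hΛ0 : 0 < Λ := by rw [hΛ]; positivity
  have hlow2 : D ≤ μ (imm K n) * Λ := by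
    have hn0 : (0 : ℝ) < (n : ℝ) ^ (2 * n - 2) := by positivity
    have e1 : ((n : ℝ) ^ (n - 1)) ^ 2 = (n : ℝ) ^ (2 * n - 2) := by
      rw [← pow_mul]; congr 1; omega
    have e2 : (n : ℝ) ^ (2 * n) = (n : ℝ) ^ (2 * n - 2) * (n : ℝ) ^ 2 := by
      rw [← pow_add]; congr 1; omega
    have h1 : (n : ℝ) ^ (2 * n - 2) * (D / PP ^ k / 2) ≤
        μ (imm K n) * (((s : ℝ) + 2) * (1 + 6 / (s : ℝ)) ^ n *
          ((n : ℝ) ^ (2 * n) * (1 / PP ^ k))) := by
      calc (n : ℝ) ^ (2 * n - 2) * (D / PP ^ k / 2)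
          ≤ (n : ℝ) ^ (2 * n - 2) * (((Fintype.card (Fin a)).multichoose (u - k) *
            (Fintype.card (Fin b)).multichoose u : ℕ) : ℝ) :=
            mul_le_mul_of_nonneg_left hDk hn0.le
        _ ≤ _ := by rw [← e1]; exact hlow
        _ ≤ _ := mul_le_mul_of_nonneg_left hkern hmu0
    rw [e2] at h1
    have h2 : (n : ℝ) ^ (2 * n - 2) * (D / PP ^ k / 2) =
        ((n : ℝ) ^ (2 * n - 2) / PP ^ k / 2) * D := by ring
    have h3 : μ (imm K n) * (((s : ℝ) + 2) * (1 + 6 / (s : ℝ)) ^ n *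
          ((n : ℝ) ^ (2 * n - 2) * (n : ℝ) ^ 2 * (1 / PP ^ k))) =
        ((n : ℝ) ^ (2 * n - 2) / PP ^ k / 2) * (μ (imm K n) * Λ) := by
      rw [hΛ]; field_simp
    rw [h2, h3] at h1
    exact le_of_mul_le_mul_left h1 (by positivity)
  have hmupos : 0 < μ (imm K n) := by
    by_contra h
    push Not at h
    nlinarith
  have himm0 : imm K n ≠ 0 := by
    intro h0
    have : μ (imm K n) = 0 := by
      rw [hμ, h0]
      show ((mu K u u (u - k) (u + e) (rename σ (0 : MvPolynomial _ K)) : ℕ) : ℝ) = 0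
      rw [map_zero, mu_zero, Nat.cast_zero]
    linarith
  -- upper bound
  have hs4 : 2 / Real.sqrt (s : ℝ) ≤ 1 := by
    rw [div_le_one (Real.sqrt_pos.2 (by linarith))]
    apply Real.le_sqrt_of_sq_le
    linarith
  have hs40 : 0 ≤ 2 / Real.sqrt (s : ℝ) := by positivity
  have hup := circuit_bound C hC n (imm K n) hout himm0 (imm_homog K n) μ
    (by
      show ((mu K u u (u - k) (u + e) (rename σ (0 : MvPolynomial _ K)) : ℕ) : ℝ) = 0
      rw [map_zero, mu_zero, Nat.cast_zero])
    (by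
      intro f g
      show ((mu K u u (u - k) (u + e) (rename σ (f + g)) : ℕ) : ℝ) ≤
        ((mu K u u (u - k) (u + e) (rename σ f) : ℕ) : ℝ) +
          ((mu K u u (u - k) (u + e) (rename σ g) : ℕ) : ℝ)
      rw [map_add]
      exact_mod_cast mu_add K u u (u - k) (u + e) (rename σ f) (rename σ g))
    (by
      intro c f
      show ((mu K u u (u - k) (u + e) (rename σ (c • f)) : ℕ) : ℝ) ≤
        ((mu K u u (u - k) (u + e) (rename σ f) : ℕ) : ℝ)
      rw [map_smul]
      exact_mod_cast mu_smul K u u (u - k) (u + e) c (rename σ f))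
    (s / 8) (D * (Real.sqrt ρ * r ^ (-(n : ℝ) / 8)))
    (D * (Real.sqrt ρ * (2 / Real.sqrt (s : ℝ)) ^ (s / 8 + 1)))
    (by positivity) (by positivity)
    (by
      intro m Q d hQd hdt hdn
      show ((mu K u u (u - k) (u + e) (rename σ (∏ i, Q i)) : ℕ) : ℝ) ≤ _
      rw [map_prod]
      refine (mu_prod_le (fun i => rename σ (Q i)) d
        (fun i => (hQd i).rename_isHomogeneous) u u k e hDim (by omega)).trans ?_
      apply mul_le_mul_of_nonneg_left _ hD0.le
      apply mul_le_mul_of_nonneg_left _ (Real.sqrt_nonneg _)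
      calc ∏ i, phiw PP QQ (d i) ≤ ∏ i, r ^ (-(d i : ℝ) / 8) := by
            apply Finset.prod_le_prod
            · intro i _
              unfold phiw
              exact Finset.sum_nonneg fun _ _ => le_min (Real.sqrt_nonneg _) (Real.sqrt_nonneg _)
            · intro i _
              exact phiw_le s j (d i) hj600 hjs2 (hdt i)
        _ = r ^ (-(n : ℝ) / 8) := by
            rw [← Real.rpow_sum_of_pos hr0]
            congr 1
            rw [← hdn]
            push_cast
            rw [← Finset.sum_div, Finset.sum_neg_distrib])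
    (by
      intro D' ℓ G hℓ htD hDn hG
      show ((mu K u u (u - k) (u + e) (rename σ ((∏ i, ℓ i) * G)) : ℕ) : ℝ) ≤ _
      rw [map_mul, map_prod]
      refine (mu_lin_le (fun i => rename σ (ℓ i)) (rename σ G)
        (fun i => (hℓ i).rename_isHomogeneous) u u k e
        (by rw [hke]; exact hG.rename_isHomogeneous) (by omega) hDim).trans ?_
      apply mul_le_mul_of_nonneg_left _ hD0.le
      apply mul_le_mul_of_nonneg_left _ (Real.sqrt_nonneg _)
      exact pow_le_pow_of_le_one hs40 hs4 (by omega))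
  -- rho
  have hρle : ρ ≤ r ^ (n / (2 * L + 1)) := by
    have h1 := rho_bound n s j L (by omega) (by omega) hjs hL2
    refine le_trans (le_of_eq ?_) h1
    rw [Finset.prod_ite, Finset.prod_const, Finset.prod_const, one_div_pow, hρ]
    rw [← hk, ← he]
    field_simp
    exact mul_comm _ _
  have hsq : Real.sqrt ρ ≤ Real.sqrt (r ^ (n / (2 * L + 1))) := Real.sqrt_le_sqrt hρle
  -- combine
  have hfin : D ≤ ((C.size : ℝ) ^ 2 * (Real.sqrt (r ^ (n / (2 * L + 1))) *
        (r ^ (-(n : ℝ) / 8) + (2 / Real.sqrt (s : ℝ)) ^ (s / 8 + 1)))) * Λ * D := by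
    calc D ≤ μ (imm K n) * Λ := hlow2
      _ ≤ ((C.size : ℝ) ^ 2 * (D * (Real.sqrt ρ * r ^ (-(n : ℝ) / 8)) +
          D * (Real.sqrt ρ * (2 / Real.sqrt (s : ℝ)) ^ (s / 8 + 1)))) * Λ :=
          mul_le_mul_of_nonneg_right hup hΛ0.le
      _ = ((C.size : ℝ) ^ 2 * (Real.sqrt ρ *
        (r ^ (-(n : ℝ) / 8) + (2 / Real.sqrt (s : ℝ)) ^ (s / 8 + 1)))) * Λ * D := by ring
      _ ≤ _ := by
          apply mul_le_mul_of_nonneg_right _ hD0.le
          apply mul_le_mul_of_nonneg_right _ hΛ0.le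
          apply mul_le_mul_of_nonneg_left _ (by positivity)
          apply mul_le_mul_of_nonneg_right hsq (by positivity)
  rw [div_le_iff₀ hΛ0]
  have h1 : 1 * D ≤ ((C.size : ℝ) ^ 2 * (Real.sqrt (r ^ (n / (2 * L + 1))) *
        (r ^ (-(n : ℝ) / 8) + (2 / Real.sqrt (s : ℝ)) ^ (s / 8 + 1)))) * Λ * D := by
    rw [one_mul]; exact hfin
  exact le_of_mul_le_mul_right h1 hD0

/-- There is an absolute threshold n₀ such that, for every n ≥ n₀, every field K of characteristic zero, and every syntactically homogeneous depth-five sum-product circuit over K in the n³ matrix-entry variables (gates may be shared; fan-in is unrestricted; a bottom sum may read any number of leaves) whose output is the top-left entry of the ordered product of the n variable matrices of order n, the number of vertices of the circuit, leaves included, is at least n^(√n/400). -/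
theorem result :
    ∃ n₀ : ℕ, ∀ n ≥ n₀, ∀ (K : Type u) [Field K] [CharZero K]
      (L B P S R : Type v) [Fintype L] [Fintype B] [Fintype P] [Fintype S] [Fintype R]
      (C : Crest.ArithCircuit.SPSPS K (Fin n × Fin n × Fin n) L B P S R),
      C.IsHomogeneous → C.output = Crest.ArithCircuit.imm K n →
        (n : ℝ) ^ (Real.sqrt n / 400) ≤ (C.size : ℝ) := by
  obtain ⟨n₁, h₁⟩ := final_asymptotics
  refine ⟨max n₁ (2 ^ 600 * 2 ^ 600), ?_⟩
  intro n hn K _ _ L' B P S R _ _ _ _ _ C hC hout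
  have hn1 : n₁ ≤ n := le_trans (le_max_left _ _) hn
  have hn2 : 2 ^ 600 * 2 ^ 600 ≤ n := le_trans (le_max_right _ _) hn
  have : NeZero n := ⟨by
    intro h0
    rw [h0] at hn2
    exact absurd hn2 (not_le.2 (by positivity))⟩
  have hs : 2 ^ 600 ≤ Nat.sqrt n := Nat.le_sqrt.2 hn2
  have hj : 600 ≤ Nat.log 2 (Nat.sqrt n) := by
    apply Nat.le_log_of_pow_le (by norm_num) hs
  have hs1 : (1 : ℝ) ≤ (Nat.sqrt n : ℝ) := by
    have : 1 ≤ Nat.sqrt n := le_trans (Nat.one_le_two_pow) hs
    exact_mod_cast this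
  have hr1 : (1 : ℝ) < 1 + (Nat.log 2 (Nat.sqrt n) : ℝ) / (Nat.sqrt n : ℝ) := by
    have : (0 : ℝ) < (Nat.log 2 (Nat.sqrt n) : ℝ) := by
      have : 0 < Nat.log 2 (Nat.sqrt n) := by omega
      exact_mod_cast this
    have : 0 < (Nat.log 2 (Nat.sqrt n) : ℝ) / (Nat.sqrt n : ℝ) := by positivity
    linarith
  obtain ⟨L, hL1, hL2⟩ := exists_nat_pow_near hs1 hr1
  apply h₁ n hn1 L hL1 hL2
  · have : 1 ≤ C.size := by unfold SPSPS.size; omega
    exact_mod_cast this
  · exact main_ineq n (Nat.sqrt n) (Nat.log 2 (Nat.sqrt n)) L rfl rfl hj hL1 hL2 K L' B P S R C hC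
      hout

end Crest.Agent.S0504
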