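import Mathlib
import Crest.Prelude.Def_SPSPS

set_option autoImplicit false

namespace Crest.Agent.S0505

open MvPolynomial Crest.ArithCircuit

universe u

/-- path sum for products of matrices, with fixed end points -/
theorem prod_ofFn_apply {ι R : Type*} [Fintype ι] [DecidableEq ι] [CommRing R] :
    ∀ (m : ℕ) (A : Fin (m + 1) → Matrix ι ι R) (i j : ι),
      (List.ofFn A).prod i j =
        ∑ u : Fin m → ι, ∏ k : Fin (m + 1),
          A k ((Fin.cons i u : Fin (m + 1) → ι) k) ((Fin.snoc u j : Fin (m + 1) → ι) k) := by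
  intro m
  induction m with
  | zero =>
    intro A i j
    simp [List.ofFn_succ, Fin.snoc]
  | succ m ih =>
    intro A i j
    rw [List.ofFn_succ, List.prod_cons, Matrix.mul_apply]
    rw [← (Fin.consEquiv fun _ : Fin (m + 1) => ι).sum_comp, Fintype.sum_prod_type]
    refine Finset.sum_congr rfl fun l _ => ?_
    rw [ih, Finset.mul_sum]
    refine Finset.sum_congr rfl fun u _ => ?_
    conv_rhs => rw [Fin.prod_univ_succ]
    have h1 : (Fin.snoc ((Fin.consEquiv fun _ : Fin (m + 1) => ι) (l, u)) j : Fin (m + 2) → ι)
        = Fin.cons l (Fin.snoc u j : Fin (m + 1) → ι) := by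
      exact (Fin.cons_snoc_eq_snoc_cons l u j).symm
    rw [h1]
    rfl

/-- transport of a circuit along equivalences of the index types -/
def reindex {K ι L B P S R L' B' P' S' R' : Type*} [CommSemiring K]
    (C : SPSPS K ι L B P S R) (eL : L ≃ L') (eB : B ≃ B') (eP : P ≃ P') (eS : S ≃ S')
    (eR : R ≃ R') : SPSPS K ι L' B' P' S' R' where
  leaf l := C.leaf (eL.symm l)
  inB b := (C.inB (eB.symm b)).map eL.toEmbedding
  coefB b l := C.coefB (eB.symm b) (eL.symm l)
  inP p := (C.inP (eP.symm p)).map eB
  inS s := (C.inS (eS.symm s)).map eP.toEmbedding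
  coefS s p := C.coefS (eS.symm s) (eP.symm p)
  inR r := (C.inR (eR.symm r)).map eS
  inOut := C.inOut.map eR.toEmbedding
  coefOut r := C.coefOut (eR.symm r)

section reindex
variable {K ι L B P S R L' B' P' S' R' : Type*} [CommSemiring K]
    (C : SPSPS K ι L B P S R) (eL : L ≃ L') (eB : B ≃ B') (eP : P ≃ P') (eS : S ≃ S')
    (eR : R ≃ R')

theorem reindex_leafVal (l : L') : (reindex C eL eB eP eS eR).leafVal l = C.leafVal (eL.symm l) := rfl
theorem reindex_leafDeg (l : L') : (reindex C eL eB eP eS eR).leafDeg l = C.leafDeg (eL.symm l) := rfl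

theorem reindex_valB (b : B') : (reindex C eL eB eP eS eR).valB b = C.valB (eB.symm b) := by
  simp [SPSPS.valB, reindex, SPSPS.leafVal]

theorem reindex_degB (b : B') : (reindex C eL eB eP eS eR).degB b = C.degB (eB.symm b) := by
  simp only [SPSPS.degB, reindex, Finset.sup_map]
  congr 1
  funext l
  simp [SPSPS.leafDeg]

theorem reindex_valP (p : P') : (reindex C eL eB eP eS eR).valP p = C.valP (eP.symm p) := by
  have : ∀ b, (reindex C eL eB eP eS eR).valB (eB b) = C.valB b := by
    intro b; rw [reindex_valB]; simp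
  simp only [SPSPS.valP]
  change (((C.inP (eP.symm p)).map eB).map _).prod = _
  rw [Multiset.map_map]
  congr 1
  refine Multiset.map_congr rfl fun b _ => ?_
  exact this b

theorem reindex_degP (p : P') : (reindex C eL eB eP eS eR).degP p = C.degP (eP.symm p) := by
  have : ∀ b, (reindex C eL eB eP eS eR).degB (eB b) = C.degB b := by
    intro b; rw [reindex_degB]; simp
  simp only [SPSPS.degP]
  change (((C.inP (eP.symm p)).map eB).map _).sum = _
  rw [Multiset.map_map]
  congr 1
  refine Multiset.map_congr rfl fun b _ => ?_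
  exact this b

theorem reindex_valS (s : S') : (reindex C eL eB eP eS eR).valS s = C.valS (eS.symm s) := by
  simp only [SPSPS.valS]
  change ∑ p ∈ (C.inS (eS.symm s)).map eP.toEmbedding, _ = _
  rw [Finset.sum_map]
  refine Finset.sum_congr rfl fun p _ => ?_
  rw [reindex_valP]
  simp [reindex]

theorem reindex_degS (s : S') : (reindex C eL eB eP eS eR).degS s = C.degS (eS.symm s) := by
  simp only [SPSPS.degS]
  change ((C.inS (eS.symm s)).map eP.toEmbedding).sup _ = _
  rw [Finset.sup_map]
  congr 1
  funext p
  simp [reindex_degP]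

theorem reindex_valR (r : R') : (reindex C eL eB eP eS eR).valR r = C.valR (eR.symm r) := by
  have : ∀ b, (reindex C eL eB eP eS eR).valS (eS b) = C.valS b := by
    intro b; rw [reindex_valS]; simp
  simp only [SPSPS.valR]
  change (((C.inR (eR.symm r)).map eS).map _).prod = _
  rw [Multiset.map_map]
  congr 1
  refine Multiset.map_congr rfl fun b _ => ?_
  exact this b

theorem reindex_degR (r : R') : (reindex C eL eB eP eS eR).degR r = C.degR (eR.symm r) := by
  have : ∀ b, (reindex C eL eB eP eS eR).degS (eS b) = C.degS b := by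
    intro b; rw [reindex_degS]; simp
  simp only [SPSPS.degR]
  change (((C.inR (eR.symm r)).map eS).map _).sum = _
  rw [Multiset.map_map]
  congr 1
  refine Multiset.map_congr rfl fun b _ => ?_
  exact this b

theorem reindex_output : (reindex C eL eB eP eS eR).output = C.output := by
  simp only [SPSPS.output]
  change ∑ p ∈ C.inOut.map eR.toEmbedding, _ = _
  rw [Finset.sum_map]
  refine Finset.sum_congr rfl fun p _ => ?_
  rw [reindex_valR]
  simp [reindex]

theorem reindex_degOut : (reindex C eL eB eP eS eR).degOut = C.degOut := by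
  simp only [SPSPS.degOut]
  change (C.inOut.map eR.toEmbedding).sup _ = _
  rw [Finset.sup_map]
  congr 1
  funext p
  simp [reindex_degR]

theorem reindex_isHomogeneous (h : C.IsHomogeneous) :
    (reindex C eL eB eP eS eR).IsHomogeneous := by
  obtain ⟨h1, h2, h3⟩ := h
  refine ⟨?_, ?_, ?_⟩
  · intro b l hl
    rw [reindex_leafDeg, reindex_degB]
    apply h1
    change l ∈ (C.inB (eB.symm b)).map eL.toEmbedding at hl
    rw [Finset.mem_map] at hl
    obtain ⟨l', hl', rfl⟩ := hl
    simpa using hl'
  · intro b l hl
    rw [reindex_degP, reindex_degS]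
    apply h2
    change l ∈ (C.inS (eS.symm b)).map eP.toEmbedding at hl
    rw [Finset.mem_map] at hl
    obtain ⟨l', hl', rfl⟩ := hl
    simpa using hl'
  · intro l hl
    rw [reindex_degR, reindex_degOut]
    apply h3
    change l ∈ C.inOut.map eR.toEmbedding at hl
    rw [Finset.mem_map] at hl
    obtain ⟨l', hl', rfl⟩ := hl
    simpa using hl'

theorem reindex_size [Fintype L] [Fintype B] [Fintype P] [Fintype S] [Fintype R]
    [Fintype L'] [Fintype B'] [Fintype P'] [Fintype S'] [Fintype R'] :
    (reindex C eL eB eP eS eR).size = C.size := by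
  simp only [SPSPS.size]
  rw [Fintype.card_congr eL, Fintype.card_congr eB, Fintype.card_congr eP, Fintype.card_congr eS,
    Fintype.card_congr eR]

end reindex

end Crest.Agent.S0505
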