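import Mathlib
import Crest.Prelude.Def_SPSPS
import Crest.Agent.S0505_Aux

set_option autoImplicit false

namespace Crest.Agent.S0505

open MvPolynomial Crest.ArithCircuit

universe u

/-- chunking a product: the product over `range n` is the product of chunk products -/
theorem prod_chunks {M : Type*} [Monoid M] (f : ℕ → M) (st : ℕ → ℕ) (ln : ℕ → ℕ)
    (h0 : st 0 = 0) (hs : ∀ a, st (a + 1) = st a + ln a) (r : ℕ) :
    ((List.range (st r)).map f).prod =
      ((List.range r).map fun a => ((List.range (ln a)).map fun k => f (st a + k)).prod).prod := by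
  induction r with
  | zero => simp [h0]
  | succ r ih =>
    rw [hs, List.range_add, List.map_append, List.prod_append, ih, List.range_succ,
      List.map_append, List.prod_append]
    simp [Function.comp_def]

section construction

variable (K : Type u) [Field K] (n r' : ℕ) (st : Fin (r' + 1) → ℕ) (el : Fin (r' + 1) → ℕ)
  (hst : ∀ a, st a + el a + 1 ≤ n) (z : Fin n)

/-- the lower product gates -/
abbrev PT : Type := Σ a : Fin (r' + 1), Fin n × Fin n × (Fin (el a) → Fin n)

/-- the variable read at position `k` of the word `p` -/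
def wv (p : PT n r' el) (k : Fin (el p.1 + 1)) : Fin n × Fin n × Fin n :=
  (⟨st p.1 + k, by have := hst p.1; have := k.2; omega⟩,
      (Fin.cons p.2.1 p.2.2.2 : Fin (el p.1 + 1) → Fin n) k,
      (Fin.snoc p.2.2.2 p.2.2.1 : Fin (el p.1 + 1) → Fin n) k)

/-- the middle gate used for block `a` -/
def tv (u : Fin r' → Fin n) (a : Fin (r' + 1)) : Fin (r' + 1) × Fin n × Fin n :=
  (a, (Fin.cons z u : Fin (r' + 1) → Fin n) a, (Fin.snoc u z : Fin (r' + 1) → Fin n) a)

/-- the circuit with structured index types; block `a` has length `el a + 1`, starting at `st a` -/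
noncomputable def circ :
    SPSPS K (Fin n × Fin n × Fin n) (Fin n × Fin n × Fin n) (Fin n × Fin n × Fin n)
      (PT n r' el) (Fin (r' + 1) × Fin n × Fin n) (Fin r' → Fin n) where
  leaf l := Sum.inl l
  inB b := {b}
  coefB _ _ := 1
  inP p := (Finset.univ : Finset (Fin (el p.1 + 1))).val.map (wv n r' st el hst p)
  inS s := (Finset.univ : Finset (Fin (el s.1) → Fin n)).map
    ⟨fun u => (⟨s.1, s.2.1, s.2.2, u⟩ : PT n r' el), fun u v h => by
      simpa using h⟩
  coefS _ _ := 1
  inR u := (Finset.univ : Finset (Fin (r' + 1))).val.map (tv n r' z u)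
  inOut := Finset.univ
  coefOut _ := 1

theorem circ_inP (p : PT n r' el) : (circ K n r' st el hst z).inP p =
    (Finset.univ : Finset (Fin (el p.1 + 1))).val.map (wv n r' st el hst p) := rfl

theorem circ_inR (u : Fin r' → Fin n) : (circ K n r' st el hst z).inR u =
    (Finset.univ : Finset (Fin (r' + 1))).val.map (tv n r' z u) := rfl

theorem circ_valB (b : Fin n × Fin n × Fin n) :
    (circ K n r' st el hst z).valB b = X b := by
  simp [SPSPS.valB, circ, SPSPS.leafVal]

theorem circ_degB (b : Fin n × Fin n × Fin n) :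
    (circ K n r' st el hst z).degB b = 1 := by
  simp [SPSPS.degB, circ, SPSPS.leafDeg]

theorem circ_valP (p : PT n r' el) :
    (circ K n r' st el hst z).valP p = ∏ k : Fin (el p.1 + 1), X (wv n r' st el hst p k) := by
  simp only [SPSPS.valP]
  rw [circ_inP, Multiset.map_map]
  refine congrArg Multiset.prod (Multiset.map_congr rfl fun k _ => ?_)
  exact circ_valB K n r' st el hst z _

theorem circ_degP (p : PT n r' el) :
    (circ K n r' st el hst z).degP p = el p.1 + 1 := by
  simp only [SPSPS.degP]
  rw [circ_inP, Multiset.map_map]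
  have : ((circ K n r' st el hst z).degB ∘ wv n r' st el hst p) = fun _ => 1 := by
    funext k
    exact circ_degB K n r' st el hst z _
  rw [this]
  simp [Nat.add_comm]

theorem circ_valS (s : Fin (r' + 1) × Fin n × Fin n) :
    (circ K n r' st el hst z).valS s = ∑ u : Fin (el s.1) → Fin n, ∏ k : Fin (el s.1 + 1),
      X (wv n r' st el hst ⟨s.1, s.2.1, s.2.2, u⟩ k) := by
  simp only [SPSPS.valS]
  change ∑ p ∈ Finset.map _ _, _ = _
  rw [Finset.sum_map]
  refine Finset.sum_congr rfl fun u _ => ?_
  rw [circ_valP]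
  change (1 : K) • _ = _
  rw [one_smul]
  rfl

theorem circ_degS (s : Fin (r' + 1) × Fin n × Fin n) :
    (circ K n r' st el hst z).degS s = el s.1 + 1 := by
  simp only [SPSPS.degS]
  change (Finset.map _ _).sup _ = _
  rw [Finset.sup_map]
  have : ((fun p => (circ K n r' st el hst z).degP p) ∘ fun u : Fin (el s.1) → Fin n =>
    (⟨s.1, s.2.1, s.2.2, u⟩ : PT n r' el)) = fun _ => el s.1 + 1 := by
    funext u
    exact circ_degP K n r' st el hst z _
  erw [this]
  have : Nonempty (Fin (el s.1) → Fin n) := ⟨fun _ => s.2.1⟩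
  exact Finset.sup_const Finset.univ_nonempty _

theorem circ_valR (u : Fin r' → Fin n) :
    (circ K n r' st el hst z).valR u = ∏ a : Fin (r' + 1), (circ K n r' st el hst z).valS
      (tv n r' z u a) := by
  simp only [SPSPS.valR]
  rw [circ_inR, Multiset.map_map]
  rfl

theorem circ_degR (u : Fin r' → Fin n) :
    (circ K n r' st el hst z).degR u = ∑ a : Fin (r' + 1), (el a + 1) := by
  simp only [SPSPS.degR]
  rw [circ_inR, Multiset.map_map]
  refine congrArg Multiset.sum (Multiset.map_congr rfl fun k _ => ?_)
  exact circ_degS K n r' st el hst z _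

theorem circ_isHomogeneous : (circ K n r' st el hst z).IsHomogeneous := by
  refine ⟨?_, ?_, ?_⟩
  · intro b l _
    rw [circ_degB]; rfl
  · intro s p hp
    rw [circ_degP, circ_degS]
    change p ∈ Finset.map _ _ at hp
    rw [Finset.mem_map] at hp
    obtain ⟨u, _, rfl⟩ := hp
    rfl
  · intro u _
    simp only [SPSPS.degOut]
    have h2 : (circ K n r' st el hst z).degR = fun _ => ∑ a : Fin (r' + 1), (el a + 1) := by
      funext u
      exact circ_degR K n r' st el hst z u
    rw [h2]
    change _ = (Finset.univ).sup _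
    have : Nonempty (Fin r' → Fin n) := ⟨fun _ => z⟩
    rw [Finset.sup_const Finset.univ_nonempty]

theorem circ_size : (circ K n r' st el hst z).size =
    2 * n ^ 3 + (r' + 1) * n ^ 2 + (∑ a : Fin (r' + 1), n ^ (el a + 2)) + n ^ r' + 1 := by
  simp only [SPSPS.size, Fintype.card_sigma, Fintype.card_prod, Fintype.card_fin,
    Fintype.card_pi, Finset.prod_const, Finset.card_univ]
  have : ∀ a : Fin (r' + 1), n * (n * n ^ el a) = n ^ (el a + 2) := by
    intro a; ring
  simp only [this]
  ring

/-- the matrix of variables with a natural number index (junk outside the range) -/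
noncomputable def vm (k : ℕ) : Matrix (Fin n) (Fin n) (MvPolynomial (Fin n × Fin n × Fin n) K) :=
  if h : k < n then varMatrix K n ⟨k, h⟩ else 1

theorem circ_valS_eq (s : Fin (r' + 1) × Fin n × Fin n) :
    (circ K n r' st el hst z).valS s =
      ((List.range (el s.1 + 1)).map fun k => vm K n (st s.1 + k)).prod s.2.1 s.2.2 := by
  have h1 : (List.range (el s.1 + 1)).map (fun k => vm K n (st s.1 + k)) =
      List.ofFn (fun k : Fin (el s.1 + 1) => vm K n (st s.1 + k)) := by
    rw [List.ofFn_eq_map, ← List.map_coe_finRange_eq_range, List.map_map]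
    rfl
  rw [h1, prod_ofFn_apply, circ_valS]
  refine Finset.sum_congr rfl fun u _ => Finset.prod_congr rfl fun k _ => ?_
  have hk : st s.1 + (k : ℕ) < n := by have := hst s.1; have := k.2; omega
  simp only [vm, dif_pos hk, varMatrix, wv, Matrix.of_apply]

theorem circ_output (st' : ℕ → ℕ) (ln' : ℕ → ℕ) (h0 : st' 0 = 0)
    (hs : ∀ a, st' (a + 1) = st' a + ln' a) (hn : st' (r' + 1) = n)
    (h1 : ∀ a : Fin (r' + 1), st a = st' a) (h2 : ∀ a : Fin (r' + 1), el a + 1 = ln' a) :
    (circ K n r' st el hst z).output = ((List.range n).map (vm K n)).prod z z := by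
  have h3 := prod_chunks (vm K n) st' ln' h0 hs (r' + 1)
  rw [hn] at h3
  rw [h3]
  have h4 : (List.range (r' + 1)).map
      (fun a => ((List.range (ln' a)).map fun k => vm K n (st' a + k)).prod) =
      List.ofFn (fun a : Fin (r' + 1) =>
        ((List.range (ln' a)).map fun k => vm K n (st' a + k)).prod) := by
    rw [List.ofFn_eq_map, ← List.map_coe_finRange_eq_range, List.map_map]
    rfl
  rw [h4, prod_ofFn_apply]
  simp only [SPSPS.output]
  change ∑ u ∈ Finset.univ, _ = _
  refine Finset.sum_congr rfl fun u _ => ?_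
  rw [circ_valR]
  change (1 : K) • _ = _
  rw [one_smul]
  refine Finset.prod_congr rfl fun a _ => ?_
  rw [circ_valS_eq]
  simp only [tv]
  rw [h1, h2]

end construction

theorem imm_eq (K : Type u) [Field K] (n : ℕ) (hn : 0 < n) :
    imm K n = ((List.range n).map (vm K n)).prod ⟨0, hn⟩ ⟨0, hn⟩ := by
  obtain ⟨m, rfl⟩ : ∃ m, n = m + 1 := ⟨n - 1, by omega⟩
  have h1 : (List.range (m + 1)).map (vm K (m + 1)) =
      List.ofFn (fun k : Fin (m + 1) => varMatrix K (m + 1) k) := by
    rw [List.ofFn_eq_map, ← List.map_coe_finRange_eq_range, List.map_map]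
    refine List.map_congr_left fun k _ => ?_
    simp only [Function.comp_apply, vm, dif_pos k.2]
  rw [h1]
  rfl

end Crest.Agent.S0505
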