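import Crest.Statements.S0505
import Crest.Agent.S0505_Aux
import Crest.Agent.S0505_Main

set_option autoImplicit false
universe u
open Crest Crest.LogicCS

namespace Crest.Agent.S0505

theorem exists_circ (K : Type u) [Field K] (n : ℕ) (hn : 2 ≤ n) (t r : ℕ) (ht : 1 ≤ t)
    (hr : ∀ a, a < r → a * t < n) (hr2 : n ≤ r * t) (hr1 : 1 ≤ r) :
    ∃ (l b p s r₀ : ℕ)
      (C : Crest.ArithCircuit.SPSPS K (Fin n × Fin n × Fin n) (Fin l) (Fin b) (Fin p) (Fin s) (Fin r₀)),
      C.IsHomogeneous ∧ C.output = Crest.ArithCircuit.imm K n ∧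
        C.size ≤ 2 * n ^ 3 + r * n ^ 2 + r * n ^ (t + 1) + n ^ (r - 1) + 1 := by
  obtain ⟨r', rfl⟩ : ∃ r', r = r' + 1 := ⟨r - 1, by omega⟩
  set st' : ℕ → ℕ := fun a => min (a * t) n with hst'
  set ln' : ℕ → ℕ := fun a => min ((a + 1) * t) n - min (a * t) n with hln'
  have hmono : ∀ a, min (a * t) n ≤ min ((a + 1) * t) n := fun a =>
    min_le_min_right _ (Nat.mul_le_mul_right _ (Nat.le_succ a))
  have hs : ∀ a, st' (a + 1) = st' a + ln' a := by
    intro a
    simp only [hst', hln']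
    have := hmono a
    omega
  have h0 : st' 0 = 0 := by simp [hst']
  have hnr : st' (r' + 1) = n := by
    simp only [hst']
    exact min_eq_right hr2
  have hpos : ∀ a : Fin (r' + 1), 1 ≤ ln' a := by
    intro a
    have h1 := hr a a.2
    simp only [hln']
    have h2 : min ((a : ℕ) * t) n = a * t := min_eq_left h1.le
    rw [h2]
    have h3 : ((a : ℕ) + 1) * t = a * t + t := by ring
    rw [h3]
    omega
  have hle : ∀ a : ℕ, ln' a ≤ t := by
    intro a
    simp only [hln']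
    have h3 : ((a : ℕ) + 1) * t = a * t + t := by ring
    rw [h3]
    omega
  have hst : ∀ a : Fin (r' + 1), st' a + (ln' a - 1) + 1 ≤ n := by
    intro a
    have h1 := hs a
    have h2 := hpos a
    have h3 : st' (a + 1) ≤ n := min_le_right _ _
    omega
  have hn0 : 0 < n := by omega
  set C := circ K n r' (fun a => st' a) (fun a => ln' a - 1) hst ⟨0, hn0⟩ with hC
  refine ⟨_, _, _, _, _, reindex C (Fintype.equivFin _) (Fintype.equivFin _) (Fintype.equivFin _)
    (Fintype.equivFin _) (Fintype.equivFin _), ?_, ?_, ?_⟩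
  · exact reindex_isHomogeneous _ _ _ _ _ _ (circ_isHomogeneous K n r' _ _ hst _)
  · rw [reindex_output, imm_eq K n hn0]
    exact circ_output K n r' _ _ hst _ st' ln' h0 hs hnr (fun a => rfl)
      (fun a => Nat.sub_add_cancel (hpos a))
  · rw [reindex_size, hC, circ_size]
    have h1 : ∑ a : Fin (r' + 1), n ^ (ln' a - 1 + 2) ≤ (r' + 1) * n ^ (t + 1) := by
      calc ∑ a : Fin (r' + 1), n ^ (ln' a - 1 + 2) ≤ ∑ a : Fin (r' + 1), n ^ (t + 1) := by
            refine Finset.sum_le_sum fun a _ => ?_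
            refine Nat.pow_le_pow_right hn0 ?_
            have := hpos a
            have := hle a
            omega
        _ = (r' + 1) * n ^ (t + 1) := by simp
    have h2 : r' + 1 - 1 = r' := by omega
    rw [h2]
    omega

/-- For every field K and every n ≥ 2 there is a syntactically homogeneous depth-five sum-product circuit over K in the n³ matrix-entry variables (shared gates, unrestricted fan-in and bottom support) whose output is the top-left entry of the ordered product of the n variable matrices of order n and whose number of vertices, leaves included, is at most 2n³ + r·n² + r·n^(t+1) + n^(r−1) + 1 with t = ⌈√n⌉, r = ⌈n/t⌉, and also at most n^(√n + 4). Layers are indexed by initial segments of ℕ. -/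
theorem result (K : Type u) [Field K] (n : ℕ)
    (hn : 2 ≤ n) :
    ∃ (l b p s r : ℕ)
      (C : Crest.ArithCircuit.SPSPS K (Fin n × Fin n × Fin n) (Fin l) (Fin b) (Fin p) (Fin s) (Fin r)),
      C.IsHomogeneous ∧ C.output = Crest.ArithCircuit.imm K n ∧
        C.size ≤ 2 * n ^ 3 + ⌈(n : ℝ) / ⌈Real.sqrt n⌉₊⌉₊ * n ^ 2 +
          ⌈(n : ℝ) / ⌈Real.sqrt n⌉₊⌉₊ * n ^ (⌈Real.sqrt n⌉₊ + 1) +
          n ^ (⌈(n : ℝ) / ⌈Real.sqrt n⌉₊⌉₊ - 1) + 1 ∧
        (C.size : ℝ) ≤ (n : ℝ) ^ (Real.sqrt n + 4) := by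
  have hn' : (2 : ℝ) ≤ n := by exact_mod_cast hn
  have hn0 : (0 : ℝ) < n := by linarith
  have hsq : (1 : ℝ) < Real.sqrt n := by
    rw [Real.lt_sqrt (by norm_num)]; linarith
  have hsq0 : (0 : ℝ) < Real.sqrt n := by linarith
  set t : ℕ := ⌈Real.sqrt n⌉₊ with ht
  have ht1 : Real.sqrt n ≤ t := Nat.le_ceil _
  have ht2 : (t : ℝ) < Real.sqrt n + 1 := Nat.ceil_lt_add_one hsq0.le
  have ht0 : 2 ≤ t := by
    have : (1 : ℝ) < t := lt_of_lt_of_le hsq ht1
    exact_mod_cast this
  have htpos : (0 : ℝ) < t := by linarith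
  set r : ℕ := ⌈(n : ℝ) / t⌉₊ with hr
  have hrt : (n : ℝ) / t ≤ Real.sqrt n := by
    rw [div_le_iff₀ htpos]
    nlinarith [Real.mul_self_sqrt hn0.le]
  have hr_le : r ≤ t := Nat.ceil_le.mpr (hrt.trans ht1)
  have hr1 : 1 ≤ r := by
    rw [hr, Nat.one_le_ceil_iff]; positivity
  obtain ⟨l, b, p, s, r₀, C, hC1, hC2, hC3⟩ := exists_circ K n hn t r (by omega)
    (by
      intro a ha
      rw [hr, Nat.lt_ceil, lt_div_iff₀ htpos] at ha
      exact_mod_cast ha)
    (by
      have := Nat.le_ceil ((n : ℝ) / t)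
      rw [← hr, div_le_iff₀ htpos] at this
      exact_mod_cast this) hr1
  refine ⟨l, b, p, s, r₀, C, hC1, hC2, hC3, ?_⟩
  have hC4 : (C.size : ℝ) ≤ ((2 * n ^ 3 + r * n ^ 2 + r * n ^ (t + 1) + n ^ (r - 1) + 1 : ℕ) : ℝ) := by
    exact_mod_cast hC3
  refine hC4.trans ?_
  have htn : t ≤ n := by
    rw [ht, Nat.ceil_le]
    rw [Real.sqrt_le_left hn0.le]
    nlinarith
  have hrn : r ≤ n := hr_le.trans htn
  rcases Nat.lt_or_ge 2 n with h3 | h3
  · -- n ≥ 3
    have hkey : 2 * n ^ 3 + r * n ^ 2 + r * n ^ (t + 1) + n ^ (r - 1) + 1 ≤ n ^ 2 * n ^ (t + 1) := by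
      have hnpos : 0 < n := by omega
      have e1 : n ^ 3 ≤ n ^ (t + 1) := Nat.pow_le_pow_right hnpos (by omega)
      have e2 : r * n ^ 2 ≤ n ^ (t + 1) := by
        calc r * n ^ 2 ≤ n * n ^ 2 := Nat.mul_le_mul_right _ hrn
          _ = n ^ 3 := by ring
          _ ≤ _ := e1
      have e3 : n ^ (r - 1) ≤ n ^ (t + 1) := Nat.pow_le_pow_right hnpos (by omega)
      have e4 : 1 ≤ n ^ (t + 1) := Nat.one_le_pow _ _ hnpos
      have e5 : r * n ^ (t + 1) ≤ n * n ^ (t + 1) := Nat.mul_le_mul_right _ hrn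
      have e6 : (n + 5) * n ^ (t + 1) ≤ n ^ 2 * n ^ (t + 1) := by
        refine Nat.mul_le_mul_right _ ?_
        nlinarith
      nlinarith
    calc ((2 * n ^ 3 + r * n ^ 2 + r * n ^ (t + 1) + n ^ (r - 1) + 1 : ℕ) : ℝ)
        ≤ ((n ^ 2 * n ^ (t + 1) : ℕ) : ℝ) := by exact_mod_cast hkey
      _ = (n : ℝ) ^ ((t : ℝ) + 3) := by
          push_cast
          rw [← pow_add, ← Real.rpow_natCast]
          congr 1
          push_cast
          ring
      _ ≤ (n : ℝ) ^ (Real.sqrt n + 4) := by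
          refine Real.rpow_le_rpow_of_exponent_le (by linarith) ?_
          linarith
  · -- n = 2
    have hn2 : n = 2 := by omega
    subst hn2
    have ht' : t = 2 := by omega
    have hr' : r = 1 := by
      rw [hr, ht']
      norm_num
    rw [ht', hr']
    calc (((2 * 2 ^ 3 + 1 * 2 ^ 2 + 1 * 2 ^ (2 + 1) + 2 ^ (1 - 1) + 1 : ℕ)) : ℝ) ≤ (2 : ℝ) ^ (5 : ℝ) := by
          norm_num
      _ ≤ ((2 : ℕ) : ℝ) ^ (Real.sqrt (2 : ℕ) + 4) := by
          push_cast
          refine Real.rpow_le_rpow_of_exponent_le (by norm_num) ?_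
          push_cast at hsq
          linarith

end Crest.Agent.S0505
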