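import Crest.Statements.S0539
import Crest.Agent.QA_Asym
import Crest.Agent.QA_Trans
import Crest.Agent.QA_Final

set_option autoImplicit false
open Crest.Quantum.Circuit
open Crest Crest.MathPhysics

namespace Crest.Agent.S0539

/-- Fix a depth `d`, an exponent `c` and `ε > 0`. For all large `n`: every circuit on `N` wires with `n ≤ N ≤ n ^ c`, made of at most `d` layers of pairwise disjoint one-qubit unitary gates and generalized Toffoli gates, run on the input `x` written on the first `n` wires with every other wire at `0`, has, whichever wire is measured, some input `x` for which the measured bit equals the parity of `x` with probability less than `1/2 + ε`. -/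
theorem result (d c : ℕ) (ε : ℝ) (hε : 0 < ε) :
    ∃ n₀ : ℕ, ∀ n ≥ n₀, ∀ N : ℕ, n ≤ N → N ≤ n ^ c →
      ∀ C : List (List (Gate N)), CircuitWF C → C.length ≤ d →
        ∀ o : Fin N, ∃ x : Fin n → Bool,
          outcomeProb o (parity x) (runCircuit C (basisState (inputString n x))) < 1 / 2 + ε := by
  -- the exponent: `A ≤ N^{1/(2(c+1))} ≤ √n`
  obtain ⟨Λ₀, hΛ₀⟩ : ∃ Λ₀ : ℕ, (1 / 2 : ℝ) ^ Λ₀ < 2 * ε :=
    exists_pow_lt_of_lt_one (by positivity) (by norm_num)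
  obtain ⟨Λ, hΛ1, hΛ⟩ : ∃ Λ : ℕ, 1 ≤ Λ ∧ (1 / 2 : ℝ) ^ Λ < 2 * ε :=
    ⟨Λ₀ + 1, by omega, lt_of_le_of_lt
      (pow_le_pow_of_le_one (by norm_num) (by norm_num) (Nat.le_succ _)) hΛ₀⟩
  obtain ⟨N₀, hN₀⟩ := Crest.Agent.QA.good_small d (1 / (2 * ((c : ℝ) + 1))) (by positivity)
  refine ⟨max N₀ (Λ ^ 2 + 1), ?_⟩
  intro n hn N hnN hNc C hC hCd o
  have hnN₀ : N₀ ≤ N := le_trans (le_trans (le_max_left _ _) hn) hnN
  have hnΛ : Λ ^ 2 + 1 ≤ n := le_trans (le_max_right _ _) hn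
  obtain ⟨A, hA1, hAN, hgood⟩ := hN₀ N hnN₀
  obtain ⟨U, hU, hrun⟩ := Crest.Agent.QA.circ_of_circuit C hC
  have hU' := Crest.Agent.QA.Circ_mono hCd hU
  -- `A ≤ √n`
  have hA2 : (A : ℝ) ^ 2 ≤ n := by
    have hn1 : (1 : ℝ) ≤ n := by exact_mod_cast (by omega : 1 ≤ n)
    have hNc' : (N : ℝ) ≤ (n : ℝ) ^ ((c : ℝ) + 1) := by
      calc (N : ℝ) ≤ ((n ^ c : ℕ) : ℝ) := by exact_mod_cast hNc
        _ = (n : ℝ) ^ (c : ℝ) := by push_cast; rw [Real.rpow_natCast]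
        _ ≤ (n : ℝ) ^ ((c : ℝ) + 1) := Real.rpow_le_rpow_of_exponent_le hn1 (by linarith)
    have h1 : (A : ℝ) ≤ (n : ℝ) ^ (1 / 2 : ℝ) := by
      calc (A : ℝ) ≤ (N : ℝ) ^ (1 / (2 * ((c : ℝ) + 1))) := hAN
        _ ≤ ((n : ℝ) ^ ((c : ℝ) + 1)) ^ (1 / (2 * ((c : ℝ) + 1))) :=
            Real.rpow_le_rpow (by positivity) hNc' (by positivity)
        _ = (n : ℝ) ^ (1 / 2 : ℝ) := by
            rw [← Real.rpow_mul (by positivity)]
            congr 1
            field_simp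
    calc (A : ℝ) ^ 2 ≤ ((n : ℝ) ^ (1 / 2 : ℝ)) ^ 2 := by gcongr
      _ = (n : ℝ) := by
          rw [← Real.rpow_natCast, ← Real.rpow_mul (by positivity)]
          norm_num
  have hAΛ : A * Λ < n := by
    have h2 : A ^ 2 ≤ n := by exact_mod_cast hA2
    have h3 : Λ ^ 2 < n := by omega
    by_contra hcon
    push Not at hcon
    have h4 : n * n ≤ (A * Λ) * (A * Λ) := Nat.mul_le_mul hcon hcon
    have h5 : (A * Λ) * (A * Λ) = A ^ 2 * Λ ^ 2 := by ring
    have h6 : A ^ 2 * Λ ^ 2 ≤ n * Λ ^ 2 := Nat.mul_le_mul_right _ h2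
    have h7 : n * Λ ^ 2 < n * n := by
      apply Nat.mul_lt_mul_of_pos_left h3
      omega
    omega
  obtain ⟨x, hx⟩ := Crest.Agent.QA.exists_bad_input hnN hgood hΛ1 hAΛ hU' o ε hΛ
  exact ⟨x, by rw [hrun]; exact hx⟩

end Crest.Agent.S0539
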