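import Crest.Agent.S0554_Defs

/-!
S0554 T7: level-`ℓ` Fourier bound for decision trees at a biased point.
-/

set_option autoImplicit false

namespace Crest.Agent.S0554

open Finset

namespace Level

/-! ### Two-point hypercontractivity -/

theorem choose_le (p j : ℕ) : (2 * p).choose (2 * j) ≤ p.choose j * (2 * p - 1) ^ j := by
  induction j with
  | zero => simp
  | succ j ih =>
    by_cases h : p ≤ j
    · rw [Nat.choose_eq_zero_of_lt (by omega)]; exact Nat.zero_le _
    · obtain ⟨q, rfl⟩ : ∃ q, p = j + (q + 1) := ⟨p - j - 1, by omega⟩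
      have e1 := Nat.choose_succ_right_eq (2 * (j + (q + 1))) (2 * j)
      have e2 := Nat.choose_succ_right_eq (2 * (j + (q + 1))) (2 * j + 1)
      have e3 := Nat.choose_succ_right_eq (j + (q + 1)) j
      have h1 : 2 * (j + (q + 1)) - 2 * j = 2 * (q + 1) := by omega
      have h2 : 2 * (j + (q + 1)) - (2 * j + 1) = 2 * q + 1 := by omega
      have h3 : j + (q + 1) - j = q + 1 := by omega
      rw [h1] at e1
      rw [h2] at e2
      rw [h3] at e3
      have h4 : 2 * (j + (q + 1)) - 1 = 2 * j + 2 * q + 1 := by omega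
      rw [h4] at ih ⊢
      have h5 : 2 * (j + 1) = 2 * j + 1 + 1 := by ring
      rw [h5]
      set A := (2 * (j + (q + 1))).choose (2 * j) with hA
      set B := (2 * (j + (q + 1))).choose (2 * j + 1) with hB
      set C := (2 * (j + (q + 1))).choose (2 * j + 1 + 1) with hC
      set D := (j + (q + 1)).choose j with hD
      set E := (j + (q + 1)).choose (j + 1) with hE
      have key : C * ((2 * j + 1 + 1) * (2 * j + 1)) = A * (2 * (q + 1) * (2 * q + 1)) := by
        calc C * ((2 * j + 1 + 1) * (2 * j + 1)) = (C * (2 * j + 1 + 1)) * (2 * j + 1) := by ring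
          _ = (B * (2 * j + 1)) * (2 * q + 1) := by rw [e2]; ring
          _ = A * (2 * (q + 1) * (2 * q + 1)) := by rw [e1]; ring
      have pos : 0 < (2 * j + 1 + 1) * (2 * j + 1) := by positivity
      refine Nat.le_of_mul_le_mul_right ?_ pos
      rw [key]
      calc A * (2 * (q + 1) * (2 * q + 1))
          ≤ (D * (2 * j + 2 * q + 1) ^ j) * (2 * (q + 1) * (2 * j + 2 * q + 1)) := by
            refine Nat.mul_le_mul ih (Nat.mul_le_mul le_rfl (by omega))
        _ = 2 * (D * (q + 1)) * (2 * j + 2 * q + 1) ^ (j + 1) := by ring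
        _ = 2 * (E * (j + 1)) * (2 * j + 2 * q + 1) ^ (j + 1) := by rw [e3]
        _ = E * (2 * j + 2 * q + 1) ^ (j + 1) * ((2 * j + 1 + 1) * 1) := by ring
        _ ≤ E * (2 * j + 2 * q + 1) ^ (j + 1) * ((2 * j + 1 + 1) * (2 * j + 1)) := by
            refine Nat.mul_le_mul le_rfl (Nat.mul_le_mul le_rfl (by omega))

theorem sum_even_odd (h : ℕ → ℝ) (p : ℕ) :
    ∑ k ∈ range (2 * p + 1), h k =
      ∑ j ∈ range (p + 1), h (2 * j) + ∑ j ∈ range p, h (2 * j + 1) := by
  induction p with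
  | zero => simp
  | succ p ih =>
    rw [show 2 * (p + 1) + 1 = 2 * p + 1 + 1 + 1 by ring, sum_range_succ, sum_range_succ, ih,
      sum_range_succ (fun j => h (2 * j)) (p + 1), sum_range_succ (fun j => h (2 * j + 1)) p]
    rw [show 2 * (p + 1) = 2 * p + 1 + 1 by ring]
    ring

theorem two_point (p : ℕ) (hp : 1 ≤ p) (f g : ℝ) :
    ((f + g) ^ (2 * p) + (f - g) ^ (2 * p)) / 2 ≤
      (f ^ 2 + (2 * (p : ℝ) - 1) * g ^ 2) ^ p := by
  have h1 : (f + g) ^ (2 * p) + (f - g) ^ (2 * p) =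
      ∑ k ∈ range (2 * p + 1), (g ^ k + (-g) ^ k) * f ^ (2 * p - k) * ((2 * p).choose k : ℝ) := by
    rw [sub_eq_add_neg, add_comm f g, add_comm f (-g), add_pow, add_pow, ← sum_add_distrib]
    refine sum_congr rfl fun k _ => ?_
    ring
  rw [h1, sum_even_odd]
  have h2 : ∑ j ∈ range p, (g ^ (2 * j + 1) + (-g) ^ (2 * j + 1)) * f ^ (2 * p - (2 * j + 1)) *
      ((2 * p).choose (2 * j + 1) : ℝ) = 0 := by
    refine sum_eq_zero fun j _ => ?_
    rw [Odd.neg_pow ⟨j, rfl⟩]
    ring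
  rw [h2, add_zero, add_comm (f ^ 2), add_pow, sum_div]
  refine sum_le_sum fun j hj => ?_
  have hj' : j ≤ p := by simpa [Nat.lt_succ_iff] using hj
  have e1 : (-g) ^ (2 * j) = g ^ (2 * j) := Even.neg_pow ⟨j, by ring⟩ g
  have e2 : f ^ (2 * p - 2 * j) = (f ^ 2) ^ (p - j) := by
    rw [← pow_mul]; congr 1; omega
  have hc : ((2 * p).choose (2 * j) : ℝ) ≤ (p.choose j : ℝ) * (2 * (p : ℝ) - 1) ^ j := by
    have := choose_le p j
    have h3 : ((2 * p - 1 : ℕ) : ℝ) = 2 * (p : ℝ) - 1 := by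
      rw [Nat.cast_sub (by omega)]; push_cast; ring
    rw [← h3]
    exact_mod_cast this
  rw [e1, e2]
  have hnn : 0 ≤ g ^ (2 * j) * (f ^ 2) ^ (p - j) := by
    rw [pow_mul]; positivity
  calc (g ^ (2 * j) + g ^ (2 * j)) * (f ^ 2) ^ (p - j) * ((2 * p).choose (2 * j) : ℝ) / 2
      = g ^ (2 * j) * (f ^ 2) ^ (p - j) * ((2 * p).choose (2 * j) : ℝ) := by ring
    _ ≤ g ^ (2 * j) * (f ^ 2) ^ (p - j) * ((p.choose j : ℝ) * (2 * (p : ℝ) - 1) ^ j) :=
        mul_le_mul_of_nonneg_left hc hnn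
    _ = ((2 * (p : ℝ) - 1) * g ^ 2) ^ j * (f ^ 2) ^ (p - j) * (p.choose j : ℝ) := by
        rw [mul_pow, ← pow_mul]; ring

/-- weight of the bit `b` at bias `z` -/
noncomputable def wt (z : ℝ) (b : Bool) : ℝ := (1 + sg b * z) / 2

/-- normalized character value -/
noncomputable def ph (z : ℝ) (b : Bool) : ℝ := sg b / (1 + sg b * z)

theorem wt_nonneg {z : ℝ} (hz : |z| ≤ 1) (b : Bool) : 0 ≤ wt z b := by
  rw [abs_le] at hz
  cases b <;> simp [wt, sg] <;> linarith [hz.1, hz.2]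

theorem wt_sum (z : ℝ) : wt z true + wt z false = 1 := by
  simp [wt, sg]; ring

theorem wt_ph {z : ℝ} (hz : |z| ≤ 1 / 2) (b : Bool) : wt z b * ph z b = sg b / 2 := by
  rw [abs_le] at hz
  have : (1 + sg b * z) ≠ 0 := by
    cases b <;> simp [sg] <;> linarith [hz.1, hz.2]
  rw [wt, ph]
  field_simp

theorem convex_pow (p : ℕ) (a b x y : ℝ) (ha : 0 ≤ a) (hb : 0 ≤ b) (hab : a + b = 1) :
    (a * x + b * y) ^ (2 * p) ≤ a * x ^ (2 * p) + b * y ^ (2 * p) := by
  have h := (even_two_mul p).convexOn_pow (𝕜 := ℝ) |>.2 (Set.mem_univ x) (Set.mem_univ y) ha hb hab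
  simpa using h

theorem biased_point (p : ℕ) (hp : 1 ≤ p) (z : ℝ) (hz : |z| ≤ 1 / 2) (f g : ℝ) :
    ∑ b : Bool, wt z b * (f + ph z b * g) ^ (2 * p) ≤
      (f ^ 2 + 4 * (2 * (p : ℝ) - 1) * g ^ 2) ^ p := by
  have hz' := abs_le.1 hz
  have h0 : (0 : ℝ) < 1 + z := by linarith [hz'.1]
  have h1 : (0 : ℝ) < 1 - z := by linarith [hz'.2]
  have key : ∀ s : ℝ, 0 < 1 + s → -1 ≤ 2 * s → ∀ g' : ℝ,
      (1 + s) / 2 * (f + g' / (1 + s)) ^ (2 * p) ≤
        1 / 4 * (f + 2 * g') ^ (2 * p) + (1 + 2 * s) / 4 * f ^ (2 * p) := by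
    intro s hs hs' g'
    have hc := convex_pow p (1 / (2 * (1 + s))) ((1 + 2 * s) / (2 * (1 + s))) (f + 2 * g') f
      (by positivity) (div_nonneg (by linarith) (by positivity)) (by field_simp; ring)
    have e : 1 / (2 * (1 + s)) * (f + 2 * g') + (1 + 2 * s) / (2 * (1 + s)) * f =
        f + g' / (1 + s) := by field_simp; ring
    rw [e] at hc
    calc (1 + s) / 2 * (f + g' / (1 + s)) ^ (2 * p)
        ≤ (1 + s) / 2 * (1 / (2 * (1 + s)) * (f + 2 * g') ^ (2 * p) +
          (1 + 2 * s) / (2 * (1 + s)) * f ^ (2 * p)) :=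
          mul_le_mul_of_nonneg_left hc (by positivity)
      _ = _ := by field_simp; ring
  have k0 := key z h0 (by linarith [hz'.1]) g
  have k1 := key (-z) (by linarith) (by linarith [hz'.2]) (-g)
  have k2 := two_point p hp f (2 * g)
  have k3 := two_point p hp f 0
  have hp1 : (1 : ℝ) ≤ p := by exact_mod_cast hp
  have k4 : (f ^ 2 + (2 * (p : ℝ) - 1) * 0 ^ 2) ^ p ≤
      (f ^ 2 + 4 * (2 * (p : ℝ) - 1) * g ^ 2) ^ p := by
    have : 0 ≤ 4 * (2 * (p : ℝ) - 1) * g ^ 2 :=
      mul_nonneg (by linarith) (sq_nonneg g)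
    have e : (2 * (p : ℝ) - 1) * 0 ^ 2 = 0 := by ring
    rw [e, add_zero]
    exact pow_le_pow_left₀ (sq_nonneg f) (by linarith) p
  have e2 : (2 * (p : ℝ) - 1) * (2 * g) ^ 2 = 4 * (2 * (p : ℝ) - 1) * g ^ 2 := by ring
  rw [e2] at k2
  rw [add_zero, sub_zero] at k3
  have e5 : ∑ b : Bool, wt z b * (f + ph z b * g) ^ (2 * p) =
      (1 + z) / 2 * (f + g / (1 + z)) ^ (2 * p) +
        (1 + -z) / 2 * (f + -g / (1 + -z)) ^ (2 * p) := by
    rw [Fintype.sum_bool]
    simp only [wt, ph, sg, if_true, Bool.false_eq_true, if_false, one_mul]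
    rw [add_comm]
    congr 2
    · congr 2; ring
    · ring
    · congr 2; ring
  rw [e5]
  have e6 : (f + 2 * -g) ^ (2 * p) = (f - 2 * g) ^ (2 * p) := by congr 1; ring
  rw [e6] at k1
  have k5 := k3.trans k4
  generalize (1 + z) / 2 * (f + g / (1 + z)) ^ (2 * p) = a at *
  generalize (1 + -z) / 2 * (f + -g / (1 + -z)) ^ (2 * p) = b at *
  generalize (f + 2 * g) ^ (2 * p) = c at *
  generalize (f - 2 * g) ^ (2 * p) = c' at *
  generalize (f ^ 2 + 4 * (2 * (p : ℝ) - 1) * g ^ 2) ^ p = Q at *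
  generalize f ^ (2 * p) = F at *
  nlinarith [k0, k1, k2, k5]

/-! ### Minkowski without roots -/

theorem mink2 {B : Type} (s : Finset B) (p : ℕ) (w F G : B → ℝ) (hw : ∀ b ∈ s, 0 ≤ w b)
    (hF : ∀ b ∈ s, 0 ≤ F b) (hG : ∀ b ∈ s, 0 ≤ G b) (R₁ R₂ : ℝ) (h₁ : 0 ≤ R₁) (h₂ : 0 ≤ R₂)
    (hp : 1 ≤ p) (hFR : ∑ b ∈ s, w b * F b ^ p ≤ R₁ ^ p) (hGR : ∑ b ∈ s, w b * G b ^ p ≤ R₂ ^ p) :
    ∑ b ∈ s, w b * (F b + G b) ^ p ≤ (R₁ + R₂) ^ p := by
  have hp0 : p ≠ 0 := by omega
  rcases h₁.eq_or_lt with h | h₁'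
  · subst h
    have hz : ∑ b ∈ s, w b * F b ^ p = 0 := by
      refine le_antisymm (by simpa [hp0] using hFR) (sum_nonneg fun b hb => ?_)
      exact mul_nonneg (hw b hb) (pow_nonneg (hF b hb) p)
    rw [sum_eq_zero_iff_of_nonneg (fun b hb => mul_nonneg (hw b hb) (pow_nonneg (hF b hb) p))]
      at hz
    rw [zero_add]
    refine le_trans (le_of_eq (sum_congr rfl fun b hb => ?_)) hGR
    rcases mul_eq_zero.1 (hz b hb) with h | h
    · rw [h, zero_mul, zero_mul]
    · rw [pow_eq_zero_iff hp0] at h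
      rw [h, zero_add]
  rcases h₂.eq_or_lt with h | h₂'
  · subst h
    have hz : ∑ b ∈ s, w b * G b ^ p = 0 := by
      refine le_antisymm (by simpa [hp0] using hGR) (sum_nonneg fun b hb => ?_)
      exact mul_nonneg (hw b hb) (pow_nonneg (hG b hb) p)
    rw [sum_eq_zero_iff_of_nonneg (fun b hb => mul_nonneg (hw b hb) (pow_nonneg (hG b hb) p))]
      at hz
    rw [add_zero]
    refine le_trans (le_of_eq (sum_congr rfl fun b hb => ?_)) hFR
    rcases mul_eq_zero.1 (hz b hb) with h | h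
    · rw [h, zero_mul, zero_mul]
    · rw [pow_eq_zero_iff hp0] at h
      rw [h, add_zero]
  have hR : 0 < R₁ + R₂ := by positivity
  have key : ∀ b ∈ s, w b * (F b + G b) ^ p ≤ (R₁ + R₂) ^ p *
      (R₁ / (R₁ + R₂) * (w b * F b ^ p / R₁ ^ p) + R₂ / (R₁ + R₂) * (w b * G b ^ p / R₂ ^ p)) := by
    intro b hb
    have hx : F b / R₁ ∈ Set.Ici (0 : ℝ) := Set.mem_Ici.2 (div_nonneg (hF b hb) h₁)
    have hy : G b / R₂ ∈ Set.Ici (0 : ℝ) := Set.mem_Ici.2 (div_nonneg (hG b hb) h₂)
    have ha : 0 ≤ R₁ / (R₁ + R₂) := by positivity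
    have hb' : 0 ≤ R₂ / (R₁ + R₂) := by positivity
    have hab : R₁ / (R₁ + R₂) + R₂ / (R₁ + R₂) = 1 := by field_simp
    have hc := (convexOn_pow (𝕜 := ℝ) p).2 hx hy ha hb' hab
    simp only [smul_eq_mul] at hc
    have e : R₁ / (R₁ + R₂) * (F b / R₁) + R₂ / (R₁ + R₂) * (G b / R₂) =
        (F b + G b) / (R₁ + R₂) := by field_simp
    rw [e, div_pow, div_le_iff₀ (by positivity)] at hc
    calc w b * (F b + G b) ^ p ≤ w b * ((R₁ / (R₁ + R₂) * (F b / R₁) ^ p +
          R₂ / (R₁ + R₂) * (G b / R₂) ^ p) * (R₁ + R₂) ^ p) :=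
          mul_le_mul_of_nonneg_left hc (hw b hb)
      _ = _ := by rw [div_pow, div_pow]; ring
  calc ∑ b ∈ s, w b * (F b + G b) ^ p ≤ ∑ b ∈ s, (R₁ + R₂) ^ p *
      (R₁ / (R₁ + R₂) * (w b * F b ^ p / R₁ ^ p) + R₂ / (R₁ + R₂) * (w b * G b ^ p / R₂ ^ p)) :=
        sum_le_sum key
    _ = (R₁ + R₂) ^ p * (R₁ / (R₁ + R₂) * ((∑ b ∈ s, w b * F b ^ p) / R₁ ^ p) +
          R₂ / (R₁ + R₂) * ((∑ b ∈ s, w b * G b ^ p) / R₂ ^ p)) := by
        rw [← mul_sum, sum_add_distrib, ← mul_sum, ← mul_sum, sum_div, sum_div]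
    _ ≤ (R₁ + R₂) ^ p * (R₁ / (R₁ + R₂) * 1 + R₂ / (R₁ + R₂) * 1) := by
        refine mul_le_mul_of_nonneg_left (add_le_add ?_ ?_) (by positivity)
        · refine mul_le_mul_of_nonneg_left ?_ (by positivity)
          rw [div_le_one (by positivity)]; exact hFR
        · refine mul_le_mul_of_nonneg_left ?_ (by positivity)
          rw [div_le_one (by positivity)]; exact hGR
    _ = (R₁ + R₂) ^ p := by field_simp

theorem mink {B J : Type} [DecidableEq J] (s : Finset B) (p : ℕ) (hp : 1 ≤ p) (w : B → ℝ)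
    (hw : ∀ b ∈ s, 0 ≤ w b) (r : Finset J) (F : J → B → ℝ) (hF : ∀ j ∈ r, ∀ b ∈ s, 0 ≤ F j b)
    (Q : J → ℝ) (hQ : ∀ j ∈ r, 0 ≤ Q j) (h : ∀ j ∈ r, ∑ b ∈ s, w b * F j b ^ p ≤ Q j ^ p) :
    ∑ b ∈ s, w b * (∑ j ∈ r, F j b) ^ p ≤ (∑ j ∈ r, Q j) ^ p := by
  induction r using Finset.induction_on with
  | empty => simp [show p ≠ 0 by omega]
  | insert a r ha ih =>
    rw [sum_insert ha]
    simp only [sum_insert ha]
    have ih' := ih (fun j hj => hF j (mem_insert_of_mem hj)) (fun j hj => hQ j (mem_insert_of_mem hj))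
      (fun j hj => h j (mem_insert_of_mem hj))
    exact mink2 s p w (F a) (fun b => ∑ j ∈ r, F j b) hw (hF a (mem_insert_self a r))
      (fun b hb => sum_nonneg fun j hj => hF j (mem_insert_of_mem hj) b hb) _ _
      (hQ a (mem_insert_self a r)) (sum_nonneg fun j hj => hQ j (mem_insert_of_mem hj)) hp
      (h a (mem_insert_self a r)) ih'

/-! ### Recursion for the extension -/

section Rec

variable {ι : Type} [Fintype ι] [DecidableEq ι]

theorem dext_split (φ : (ι → Bool) → ℝ) (S : Finset ι) (z : ι → ℝ) (i : ι) :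
    dext φ S z = ∑ f : ι → Bool, φ f * ((if i ∈ S then sg (f i) / 2 else wt (z i) (f i)) *
      ∏ j ∈ univ.erase i, (if j ∈ S then sg (f j) / 2 else (1 + sg (f j) * z j) / 2)) := by
  rw [dext]
  refine sum_congr rfl fun f _ => ?_
  rw [← mul_prod_erase univ _ (mem_univ i)]
  rfl

theorem wt_sg (a b : Bool) : wt (sg b) a = if a = b then 1 else 0 := by
  cases a <;> cases b <;> simp [wt, sg]

theorem dext_congr_of_fixed (φ ψ : (ι → Bool) → ℝ) (S : Finset ι) (z : ι → ℝ) (i : ι) (b : Bool)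
    (hi : i ∉ S) (hz : z i = sg b) (h : ∀ f : ι → Bool, f i = b → φ f = ψ f) :
    dext φ S z = dext ψ S z := by
  rw [dext_split φ S z i, dext_split ψ S z i]
  refine sum_congr rfl fun f _ => ?_
  by_cases hf : f i = b
  · rw [h f hf]
  · rw [if_neg hi, hz, wt_sg, if_neg hf]; ring

theorem dext_fixed (φ : (ι → Bool) → ℝ) (S : Finset ι) (z : ι → ℝ) (i : ι) (b : Bool)
    (hi : i ∉ S) :
    dext φ S (Function.update z i (sg b)) = ∑ f : ι → Bool, φ f * ((if f i = b then 1 else 0) *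
      ∏ j ∈ univ.erase i, (if j ∈ S then sg (f j) / 2 else (1 + sg (f j) * z j) / 2)) := by
  rw [dext_split φ S _ i]
  refine sum_congr rfl fun f _ => ?_
  rw [if_neg hi, Function.update_self, wt_sg]
  congr 2
  refine prod_congr rfl fun j hj => ?_
  rw [Function.update_of_ne (ne_of_mem_erase hj)]

theorem dext_notMem (φ : (ι → Bool) → ℝ) (S : Finset ι) (z : ι → ℝ) (i : ι) (hi : i ∉ S) :
    dext φ S z = ∑ b : Bool, wt (z i) b * dext φ S (Function.update z i (sg b)) := by
  rw [dext_split φ S z i]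
  simp only [dext_fixed φ S z i _ hi, mul_sum]
  rw [sum_comm]
  refine sum_congr rfl fun f _ => ?_
  rw [if_neg hi, Fintype.sum_bool]
  cases h : f i <;> simp <;> ring

theorem dext_insert (φ : (ι → Bool) → ℝ) (S : Finset ι) (z : ι → ℝ) (i : ι) (hi : i ∉ S) :
    dext φ (insert i S) z =
      ∑ b : Bool, sg b / 2 * dext φ S (Function.update z i (sg b)) := by
  rw [dext_split φ (insert i S) z i]
  simp only [dext_fixed φ S z i _ hi, mul_sum]
  rw [sum_comm]
  refine sum_congr rfl fun f _ => ?_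
  rw [if_pos (mem_insert_self i S), Fintype.sum_bool]
  have e : ∏ j ∈ univ.erase i, (if j ∈ insert i S then sg (f j) / 2
      else (1 + sg (f j) * z j) / 2) =
      ∏ j ∈ univ.erase i, (if j ∈ S then sg (f j) / 2 else (1 + sg (f j) * z j) / 2) := by
    refine prod_congr rfl fun j hj => ?_
    have hne := ne_of_mem_erase hj
    simp [mem_insert, hne]
  rw [e]
  cases h : f i <;> simp <;> ring

/-- the pairing -/
noncomputable def G (T : Prog ι Bool) (u : Finset ι → ℝ) (z : ι → ℝ) : ℝ :=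
  ∑ S : Finset ι, u S * dext (ind T) S z

/-- the state update -/
noncomputable def upd (z : ι → ℝ) (i : ι) (b : Bool) (u : Finset ι → ℝ) : Finset ι → ℝ :=
  fun S => if i ∈ S then 0 else u S + ph (z i) b * u (insert i S)

theorem sum_split (F : Finset ι → ℝ) (i : ι) :
    ∑ S : Finset ι, F S = ∑ S ∈ (univ.erase i).powerset, (F S + F (insert i S)) := by
  have h := sum_powerset_insert (notMem_erase i (univ : Finset ι)) F
  rw [insert_erase (mem_univ i), powerset_univ] at h
  rw [h, sum_add_distrib]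

theorem G_live (i : ι) (k : Bool → Prog ι Bool) (u : Finset ι → ℝ) (z : ι → ℝ)
    (hz : |z i| ≤ 1 / 2) :
    G (.ask i k) u z =
      ∑ b : Bool, wt (z i) b * G (k b) (upd z i b u) (Function.update z i (sg b)) := by
  have hG : ∀ b, G (k b) (upd z i b u) (Function.update z i (sg b)) =
      ∑ S ∈ (univ.erase i).powerset, (u S + ph (z i) b * u (insert i S)) *
        dext (ind (k b)) S (Function.update z i (sg b)) := by
    intro b
    rw [G, sum_split _ i]
    refine sum_congr rfl fun S hS => ?_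
    have hi : i ∉ S := fun h => notMem_erase i univ (mem_powerset.1 hS h)
    simp [upd, hi]
  simp only [hG, mul_sum]
  rw [G, sum_split _ i, sum_comm]
  refine sum_congr rfl fun S hS => ?_
  have hi : i ∉ S := fun h => notMem_erase i univ (mem_powerset.1 hS h)
  rw [dext_notMem _ S z i hi, dext_insert _ S z i hi, mul_sum, mul_sum, ← sum_add_distrib]
  refine sum_congr rfl fun b _ => ?_
  have e : dext (ind (Prog.ask i k)) S (Function.update z i (sg b)) =
      dext (ind (k b)) S (Function.update z i (sg b)) := by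
    refine dext_congr_of_fixed _ _ S _ i b hi (by simp) fun f hf => ?_
    simp [ind, Prog.eval, hf]
  rw [e, ← wt_ph hz b]
  ring

theorem G_dead (i : ι) (k : Bool → Prog ι Bool) (u : Finset ι → ℝ) (z : ι → ℝ) (b : Bool)
    (hz : z i = sg b) (hu : ∀ S, i ∈ S → u S = 0) :
    G (.ask i k) u z = G (k b) u z := by
  refine sum_congr rfl fun S _ => ?_
  by_cases hi : i ∈ S
  · rw [hu S hi]; ring
  · congr 1
    refine dext_congr_of_fixed _ _ S _ i b hi hz fun f hf => ?_
    simp [ind, Prog.eval, hf]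

theorem dext_ret (b : Bool) (S : Finset ι) (z : ι → ℝ) :
    dext (ind (Prog.ret b)) S z = if S = ∅ then (if b then 1 else 0) else 0 := by
  have h : dext (ind (Prog.ret b)) S z =
      (if b then 1 else 0) * ∏ i : ι, ∑ c : Bool,
        (if i ∈ S then sg c / 2 else (1 + sg c * z i) / 2) := by
    rw [dext, prod_univ_sum]
    rw [Fintype.piFinset_univ, mul_sum]
    rfl
  rw [h]
  by_cases hS : S = ∅
  · subst hS
    rw [if_pos rfl]
    have : ∀ i : ι, (∑ c : Bool,
        (if i ∈ (∅ : Finset ι) then sg c / 2 else (1 + sg c * z i) / 2)) = 1 := by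
      intro i
      simp [sg]
      ring
    simp only [this, prod_const_one, mul_one]
  · rw [if_neg hS]
    obtain ⟨i, hi⟩ := nonempty_iff_ne_empty.2 hS
    rw [prod_eq_zero (mem_univ i), mul_zero]
    simp [hi, sg]
    norm_num

end Rec

section Main

variable {ι : Type} [Fintype ι] [DecidableEq ι]

/-- `2p`-th moment at level `j` -/
noncomputable def Mm (p : ℕ) (u : Finset ι → ℝ) (j : ℕ) : ℝ :=
  ∑ S ∈ (univ : Finset ι).powersetCard j, u S ^ (2 * p)

/-- its `p`-th root -/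
noncomputable def Nn (p : ℕ) (u : Finset ι → ℝ) (j : ℕ) : ℝ := (Mm p u j) ^ ((p : ℝ)⁻¹)

omit [DecidableEq ι] in
theorem Mm_nonneg (p : ℕ) (u : Finset ι → ℝ) (j : ℕ) : 0 ≤ Mm p u j :=
  sum_nonneg fun S _ => by rw [pow_mul]; positivity

theorem Nn_nonneg (p : ℕ) (u : Finset ι → ℝ) (j : ℕ) : 0 ≤ Nn p u j :=
  Real.rpow_nonneg (Mm_nonneg p u j) _

theorem Nn_pow (p : ℕ) (hp : 1 ≤ p) (u : Finset ι → ℝ) (j : ℕ) : Nn p u j ^ p = Mm p u j :=
  Real.rpow_inv_natCast_pow (Mm_nonneg p u j) (by omega)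

theorem Nn_eq_zero (p : ℕ) (hp : 1 ≤ p) (u : Finset ι → ℝ) (j : ℕ) (h : Mm p u j = 0) :
    Nn p u j = 0 := by
  rw [← Nn_pow p hp] at h
  exact (pow_eq_zero_iff (by omega)).1 h

theorem Nn_top (p : ℕ) (hp : 1 ≤ p) (u : Finset ι → ℝ) :
    Nn p u (Fintype.card ι + 1) = 0 := by
  refine Nn_eq_zero p hp u _ ?_
  rw [Mm, powersetCard_eq_empty.2 (by simp), sum_empty]

theorem Nn_zero (p : ℕ) (hp : 1 ≤ p) (u : Finset ι → ℝ) : Nn p u 0 = u ∅ ^ 2 := by
  have h := Nn_pow p hp u 0
  rw [Mm, powersetCard_zero, sum_singleton, pow_mul] at h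
  exact (pow_left_inj₀ (Nn_nonneg p u 0) (sq_nonneg _) (by omega)).1 h

/-- the hypercontractivity constant -/
noncomputable def cst (p : ℕ) : ℝ := 4 * (2 * (p : ℝ) - 1)

theorem cst_nonneg (p : ℕ) (hp : 1 ≤ p) : 0 ≤ cst p := by
  have : (1 : ℝ) ≤ p := by exact_mod_cast hp
  rw [cst]; linarith

/-- coefficients -/
noncomputable def cc (p t j : ℕ) : ℝ := cst p ^ j * (t.choose j : ℝ)

theorem cc_nonneg (p : ℕ) (hp : 1 ≤ p) (t j : ℕ) : 0 ≤ cc p t j :=
  mul_nonneg (pow_nonneg (cst_nonneg p hp) j) (Nat.cast_nonneg _)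

theorem cc_succ (p t j : ℕ) : cc p (t + 1) (j + 1) = cc p t (j + 1) + cc p t j * cst p := by
  rw [cc, cc, cc, Nat.choose_succ_succ]
  push_cast
  ring

theorem upd_moment (p : ℕ) (hp : 1 ≤ p) (z : ι → ℝ) (i : ι) (hz : |z i| ≤ 1 / 2)
    (u : Finset ι → ℝ) (j : ℕ) :
    ∑ b : Bool, wt (z i) b * Mm p (upd z i b u) j ≤
      (Nn p u j + cst p * Nn p u (j + 1)) ^ p := by
  set P := (univ.erase i).powersetCard j with hP
  have hPi : ∀ S ∈ P, i ∉ S := fun S hS h =>
    notMem_erase i univ ((mem_powersetCard.1 hS).1 h)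
  have hM : ∀ b, Mm p (upd z i b u) j =
      ∑ S ∈ P, (u S + ph (z i) b * u (insert i S)) ^ (2 * p) := by
    intro b
    rw [Mm]
    symm
    have hsub : P ⊆ (univ : Finset ι).powersetCard j := powersetCard_mono (erase_subset i univ)
    rw [← sum_subset hsub]
    · refine sum_congr rfl fun S hS => ?_
      rw [upd, if_neg (hPi S hS)]
    · intro S hS hS'
      have hi : i ∈ S := by
        by_contra hi
        refine hS' (mem_powersetCard.2 ⟨fun a ha => mem_erase.2 ⟨?_, mem_univ a⟩,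
          (mem_powersetCard.1 hS).2⟩)
        rintro rfl
        exact hi ha
      rw [upd, if_pos hi, zero_pow (by omega)]
  simp only [hM, mul_sum]
  rw [sum_comm]
  have h1 : ∑ S ∈ P, ∑ b : Bool, wt (z i) b * (u S + ph (z i) b * u (insert i S)) ^ (2 * p) ≤
      ∑ S ∈ P, 1 * (u S ^ 2 + cst p * u (insert i S) ^ 2) ^ p := by
    refine sum_le_sum fun S _ => ?_
    rw [one_mul]
    exact biased_point p hp (z i) hz (u S) (u (insert i S))
  refine h1.trans ?_
  refine mink2 P p (fun _ => 1) _ _ (fun _ _ => zero_le_one) (fun _ _ => sq_nonneg _)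
    (fun _ _ => mul_nonneg (cst_nonneg p hp) (sq_nonneg _)) _ _ (Nn_nonneg _ _ _)
    (mul_nonneg (cst_nonneg p hp) (Nn_nonneg _ _ _)) hp ?_ ?_
  · rw [Nn_pow p hp, Mm]
    simp only [one_mul]
    refine le_trans (le_of_eq (sum_congr rfl fun S _ => (pow_mul (u S) 2 p).symm)) ?_
    exact sum_le_sum_of_subset_of_nonneg (powersetCard_mono (erase_subset i univ))
      fun S _ _ => by rw [pow_mul]; positivity
  · rw [mul_pow, Nn_pow p hp, Mm, mul_sum]
    have himg : ∑ S ∈ P, (1 : ℝ) * (cst p * u (insert i S) ^ 2) ^ p =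
        ∑ S ∈ P.image (insert i), cst p ^ p * u S ^ (2 * p) := by
      rw [sum_image]
      · refine sum_congr rfl fun S _ => ?_
        rw [one_mul, mul_pow, pow_mul]
      · intro S hS S' hS' h
        have h1 := hPi S hS
        have h2 := hPi S' hS'
        rw [← erase_insert h1, h, erase_insert h2]
    rw [himg]
    refine sum_le_sum_of_subset_of_nonneg ?_ fun S _ _ => ?_
    · intro S hS
      obtain ⟨S', hS', rfl⟩ := mem_image.1 hS
      refine mem_powersetCard.2 ⟨subset_univ _, ?_⟩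
      rw [card_insert_of_notMem (hPi S' hS'), (mem_powersetCard.1 hS').2]
    · rw [pow_mul]
      exact mul_nonneg (pow_nonneg (cst_nonneg p hp) p) (by positivity)

theorem sum_shift (p : ℕ) (t n : ℕ) (R : ℕ → ℝ) (hR : R (n + 1) = 0) :
    ∑ j ∈ range (n + 1), cc p t j * (R j + cst p * R (j + 1)) =
      ∑ j ∈ range (n + 1), cc p (t + 1) j * R j := by
  have e1 : ∑ j ∈ range (n + 1), cc p t j * (R j + cst p * R (j + 1)) =
      ∑ j ∈ range (n + 1), cc p t j * R j + ∑ j ∈ range (n + 1), cc p t j * cst p * R (j + 1) := by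
    rw [← sum_add_distrib]
    exact sum_congr rfl fun j _ => by ring
  rw [e1, sum_range_succ (fun j => cc p t j * cst p * R (j + 1)), hR, mul_zero, add_zero,
    sum_range_succ' (fun j => cc p t j * R j), sum_range_succ' (fun j => cc p (t + 1) j * R j)]
  have e2 : ∑ j ∈ range n, cc p (t + 1) (j + 1) * R (j + 1) =
      ∑ j ∈ range n, cc p t (j + 1) * R (j + 1) + ∑ j ∈ range n, cc p t j * cst p * R (j + 1) := by
    rw [← sum_add_distrib]
    exact sum_congr rfl fun j _ => by rw [cc_succ]; ring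
  rw [e2]
  have e3 : cc p (t + 1) 0 = cc p t 0 := by simp [cc]
  rw [e3]
  ring

theorem sg_injective {a b : Bool} (h : sg a = sg b) : a = b := by
  cases a <;> cases b <;> simp [sg] at h ⊢ <;> norm_num at h

theorem main (p : ℕ) (hp : 1 ≤ p) (T : Prog ι Bool) :
    ∀ (t : ℕ) (z : ι → ℝ) (u : Finset ι → ℝ), T.depth ≤ t →
      (∀ i, |z i| ≤ 1 / 2 ∨ ∃ b, z i = sg b) →
      (∀ i b, z i = sg b → ∀ S, i ∈ S → u S = 0) →
      (G T u z) ^ 2 ≤ ∑ j ∈ range (Fintype.card ι + 1), cc p t j * Nn p u j := by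
  induction T with
  | ret b =>
    intro t z u _ _ _
    have hG : G (Prog.ret b) u z = u ∅ * (if b then 1 else 0) := by
      rw [G, Fintype.sum_eq_single ∅]
      · rw [dext_ret, if_pos rfl]
      · intro S hS
        rw [dext_ret, if_neg hS, mul_zero]
    rw [hG]
    calc (u ∅ * (if b then 1 else 0)) ^ 2 ≤ u ∅ ^ 2 := by
          cases b
          · simp; positivity
          · simp
      _ = cc p t 0 * Nn p u 0 := by rw [Nn_zero p hp]; simp [cc]
      _ ≤ _ := single_le_sum (f := fun j => cc p t j * Nn p u j)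
          (fun j _ => mul_nonneg (cc_nonneg p hp t j) (Nn_nonneg p u j)) (by simp)
  | ask i k ih =>
    intro t z u hT hz hu
    have hT' : max (k false).depth (k true).depth + 1 ≤ t := hT
    have hk : ∀ b, (k b).depth + 1 ≤ t := by
      intro b
      cases b
      · exact le_trans (Nat.succ_le_succ (le_max_left _ _)) hT'
      · exact le_trans (Nat.succ_le_succ (le_max_right _ _)) hT'
    rcases hz i with hi | ⟨b, hb⟩
    · obtain ⟨t', rfl⟩ : ∃ t', t = t' + 1 := ⟨t - 1, by have := hk true; omega⟩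
      rw [G_live i k u z hi]
      have hw : ∀ b, 0 ≤ wt (z i) b := fun b => wt_nonneg (hi.trans (by norm_num)) b
      have hw1 : ∑ b : Bool, wt (z i) b = 1 := by rw [Fintype.sum_bool]; exact wt_sum _
      set H : Bool → ℝ := fun b => ∑ j ∈ range (Fintype.card ι + 1),
        cc p t' j * Nn p (upd z i b u) j with hH
      have hH0 : ∀ b, 0 ≤ H b := fun b => sum_nonneg fun j _ =>
        mul_nonneg (cc_nonneg p hp t' j) (Nn_nonneg p _ j)
      have hg : ∀ b, (G (k b) (upd z i b u) (Function.update z i (sg b))) ^ 2 ≤ H b := by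
        intro b
        refine ih b t' _ _ (by have := hk b; omega) ?_ ?_
        · intro i'
          by_cases h : i' = i
          · subst h; right; exact ⟨b, by simp⟩
          · rw [Function.update_of_ne h]; exact hz i'
        · intro i' b' h S hS
          rw [upd]
          split_ifs with hiS
          · rfl
          · by_cases h' : i' = i
            · subst h'; exact absurd hS hiS
            · rw [Function.update_of_ne h'] at h
              rw [hu i' b' h S hS, hu i' b' h (insert i S) (mem_insert_of_mem hS)]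
              ring
      have s1 : (∑ b : Bool, wt (z i) b * G (k b) (upd z i b u) (Function.update z i (sg b))) ^ 2
          ≤ ∑ b : Bool, wt (z i) b * H b := by
        refine (Real.pow_arith_mean_le_arith_mean_pow_of_even univ _ _ (fun b _ => hw b) hw1
          (even_two)).trans ?_
        exact sum_le_sum fun b _ => mul_le_mul_of_nonneg_left (hg b) (hw b)
      refine s1.trans ?_
      rw [← sum_shift p t' (Fintype.card ι) (Nn p u) (Nn_top p hp u)]
      set Q := ∑ j ∈ range (Fintype.card ι + 1),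
        cc p t' j * (Nn p u j + cst p * Nn p u (j + 1)) with hQ
      have hq : ∀ j, 0 ≤ cc p t' j * (Nn p u j + cst p * Nn p u (j + 1)) := fun j =>
        mul_nonneg (cc_nonneg p hp t' j) (add_nonneg (Nn_nonneg p u j)
          (mul_nonneg (cst_nonneg p hp) (Nn_nonneg p u _)))
      have hQ0 : 0 ≤ Q := sum_nonneg fun j _ => hq j
      have s2 : (∑ b : Bool, wt (z i) b * H b) ^ p ≤ Q ^ p := by
        refine (Real.pow_arith_mean_le_arith_mean_pow univ _ _ (fun b _ => hw b) hw1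
          (fun b _ => hH0 b) p).trans ?_
        refine mink univ p hp (wt (z i)) (fun b _ => hw b) (range (Fintype.card ι + 1))
          (fun j b => cc p t' j * Nn p (upd z i b u) j)
          (fun j _ b _ => mul_nonneg (cc_nonneg p hp t' j) (Nn_nonneg p _ j))
          (fun j => cc p t' j * (Nn p u j + cst p * Nn p u (j + 1))) (fun j _ => hq j) ?_
        intro j _
        have e : ∑ b : Bool, wt (z i) b * (cc p t' j * Nn p (upd z i b u) j) ^ p =
            cc p t' j ^ p * ∑ b : Bool, wt (z i) b * Mm p (upd z i b u) j := by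
          rw [mul_sum]
          refine sum_congr rfl fun b _ => ?_
          rw [mul_pow, Nn_pow p hp]; ring
        rw [e, mul_pow]
        exact mul_le_mul_of_nonneg_left (upd_moment p hp z i hi u j)
          (pow_nonneg (cc_nonneg p hp t' j) p)
      exact (pow_le_pow_iff_left₀ (sum_nonneg fun b _ => mul_nonneg (hw b) (hH0 b)) hQ0
        (by omega)).1 s2
    · rw [G_dead i k u z b hb (hu i b hb)]
      exact ih b t z u (by have := hk b; omega) hz hu

end Main

end Level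

open Level in
/-- T7: level-`ℓ` `L¹` Fourier bound for decision trees at a biased point,
`(∑_{|S|=ℓ} |∂_S ext(z)|)^{2p} ≤ ((4 (2p-1) d)^p n)^ℓ`. -/
theorem level_bound {ι : Type} [Fintype ι] [DecidableEq ι] (T : Prog ι Bool) (d : ℕ)
    (hT : T.depth ≤ d) (ℓ p : ℕ) (hp : 1 ≤ p) (z : ι → ℝ) (hz : ∀ i, |z i| ≤ 1 / 2) :
    (∑ S ∈ (Finset.univ : Finset ι).powersetCard ℓ, |dext (ind T) S z|) ^ (2 * p) ≤
      ((4 * (2 * (p : ℝ) - 1) * d) ^ p * Fintype.card ι) ^ ℓ := by
  set u : Finset ι → ℝ := fun S =>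
    if S.card = ℓ then (if 0 ≤ dext (ind T) S z then 1 else -1) else 0 with hu
  have hz' : ∀ i b, z i ≠ sg b := by
    intro i b h
    have := hz i
    rw [h] at this
    cases b <;> simp [sg] at this <;> norm_num at this
  have h1 := main p hp T d z u hT (fun i => Or.inl (hz i)) (fun i b h => absurd h (hz' i b))
  have hG : G T u z = ∑ S ∈ (Finset.univ : Finset ι).powersetCard ℓ, |dext (ind T) S z| := by
    rw [G, ← Finset.sum_subset (Finset.subset_univ ((Finset.univ : Finset ι).powersetCard ℓ))]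
    · refine Finset.sum_congr rfl fun S hS => ?_
      rw [hu]
      simp only
      rw [if_pos (Finset.mem_powersetCard.1 hS).2]
      split_ifs with h
      · rw [abs_of_nonneg h, one_mul]
      · rw [abs_of_neg (not_le.1 h)]; ring
    · intro S _ hS
      have : S.card ≠ ℓ := fun h => hS (Finset.mem_powersetCard.2 ⟨Finset.subset_univ S, h⟩)
      rw [hu]
      simp only
      rw [if_neg this, zero_mul]
  have hM : ∀ j, j ≠ ℓ → Nn p u j = 0 := by
    intro j hj
    refine Nn_eq_zero p hp u j (Finset.sum_eq_zero fun S hS => ?_)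
    rw [hu]
    simp only
    rw [if_neg (by rw [(Finset.mem_powersetCard.1 hS).2]; exact hj), zero_pow (by omega)]
  have hMl : Mm p u ℓ ≤ (Fintype.card ι : ℝ) ^ ℓ := by
    have : Mm p u ℓ ≤ ∑ S ∈ (Finset.univ : Finset ι).powersetCard ℓ, (1 : ℝ) := by
      refine Finset.sum_le_sum fun S hS => ?_
      rw [hu]
      simp only
      rw [if_pos (Finset.mem_powersetCard.1 hS).2]
      split_ifs
      · rw [one_pow]
      · rw [(even_two_mul p).neg_pow, one_pow]
    refine this.trans ?_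
    rw [Finset.sum_const, Finset.card_powersetCard, nsmul_eq_mul, mul_one, Finset.card_univ]
    exact_mod_cast Nat.choose_le_pow (Fintype.card ι) ℓ
  have h2 : (G T u z) ^ 2 ≤ cc p d ℓ * Nn p u ℓ := by
    refine h1.trans ?_
    by_cases hl : ℓ ∈ Finset.range (Fintype.card ι + 1)
    · rw [Finset.sum_eq_single_of_mem ℓ hl]
      intro j _ hj
      rw [hM j hj, mul_zero]
    · rw [Finset.sum_eq_zero]
      · exact mul_nonneg (cc_nonneg p hp d ℓ) (Nn_nonneg p u ℓ)
      · intro j hj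
        rw [hM j (by rintro rfl; exact hl hj), mul_zero]
  rw [← hG, pow_mul]
  have hc : cc p d ℓ ≤ (cst p * d) ^ ℓ := by
    rw [cc, mul_pow]
    refine mul_le_mul_of_nonneg_left ?_ (pow_nonneg (cst_nonneg p hp) ℓ)
    exact_mod_cast Nat.choose_le_pow d ℓ
  calc ((G T u z) ^ 2) ^ p ≤ (cc p d ℓ * Nn p u ℓ) ^ p :=
        pow_le_pow_left₀ (sq_nonneg _) h2 p
    _ = cc p d ℓ ^ p * Mm p u ℓ := by rw [mul_pow, Nn_pow p hp]
    _ ≤ ((cst p * d) ^ ℓ) ^ p * (Fintype.card ι : ℝ) ^ ℓ := by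
        refine mul_le_mul (pow_le_pow_left₀ (cc_nonneg p hp d ℓ) hc p) hMl
          (Mm_nonneg p u ℓ) (by have := cst_nonneg p hp; positivity)
    _ = ((4 * (2 * (p : ℝ) - 1) * d) ^ p * Fintype.card ι) ^ ℓ := by
        rw [cst, mul_pow (_ ^ p), ← pow_mul, ← pow_mul, mul_comm ℓ p]

end Crest.Agent.S0554
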