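import Crest.Agent.S0554_Defs

/-!
S0554, tasks T4b-T4d: Parseval for `vec`, transcripts of the fast Walsh–Hadamard transform.
-/

set_option autoImplicit false

namespace Crest.Agent.S0554

open Crest.MathPhysics.Query

theorem sgz_sq (b : Bool) : sgz b * sgz b = 1 := by cases b <;> simp [sgz]

theorem abs_sgz (b : Bool) : |sgz b| = 1 := by cases b <;> simp [sgz]

theorem abs_chz {ν : ℕ} (i l : I ν) : |chz i l| = 1 := by
  unfold chz
  rw [Finset.abs_prod]
  simp [abs_sgz]

theorem chz_orth {ν : ℕ} (i i' : I ν) :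
    ∑ j : I ν, chz j i * chz j i' = if i = i' then 2 ^ ν else 0 := by
  have h1 : ∀ j : I ν, chz j i * chz j i' =
      ∏ t, (fun (t : Fin ν) (b : Bool) => sgz (b && i t) * sgz (b && i' t)) t (j t) := by
    intro j
    unfold chz
    rw [← Finset.prod_mul_distrib]
  rw [Finset.sum_congr rfl fun j _ => h1 j]
  have h2 : ∑ j : I ν, ∏ t, (fun (t : Fin ν) (b : Bool) => sgz (b && i t) * sgz (b && i' t)) t (j t)
      = ∏ t : Fin ν, ∑ b : Bool, sgz (b && i t) * sgz (b && i' t) := by
    rw [← Fintype.piFinset_univ]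
    exact (Finset.prod_univ_sum (fun _ => Finset.univ)
      (fun (t : Fin ν) (b : Bool) => sgz (b && i t) * sgz (b && i' t))).symm
  rw [h2]
  split_ifs with h
  · subst h
    have : ∀ t : Fin ν, ∑ b : Bool, sgz (b && i t) * sgz (b && i t) = 2 := by
      intro t
      simp [sgz_sq]
    rw [Finset.prod_congr rfl fun t _ => this t]
    simp
  · obtain ⟨t, ht⟩ := Function.ne_iff.mp h
    apply Finset.prod_eq_zero (Finset.mem_univ t)
    revert ht
    cases i t <;> cases i' t <;> simp [sgz]

/-- Parseval for the unnormalized Walsh–Hadamard transform. -/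
theorem wht_parseval {ν : ℕ} (u : I ν → ℤ) :
    ∑ j : I ν, (∑ i, chz j i * u i) ^ 2 = 2 ^ ν * ∑ i, u i ^ 2 := by
  have h1 : ∀ j : I ν, (∑ i, chz j i * u i) ^ 2 =
      ∑ i, ∑ i', (chz j i * chz j i') * (u i * u i') := by
    intro j
    rw [sq, Finset.sum_mul_sum]
    refine Finset.sum_congr rfl fun i _ => Finset.sum_congr rfl fun i' _ => ?_
    ring
  simp only [h1]
  rw [Finset.sum_comm]
  rw [Finset.mul_sum]
  refine Finset.sum_congr rfl fun i _ => ?_
  rw [Finset.sum_comm]
  have h2 : ∀ i' : I ν, ∑ j : I ν, chz j i * chz j i' * (u i * u i') =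
      if i = i' then 2 ^ ν * (u i * u i') else 0 := by
    intro i'
    rw [← Finset.sum_mul, chz_orth]
    split_ifs <;> simp
  simp only [h2]
  simp only [Finset.sum_ite_eq, Finset.mem_univ, if_true]
  ring

/-- T4b: Parseval for `vec`. -/
theorem vec_parseval {ν : ℕ} (Y : ℕ → I ν → Bool) (a : ℕ) :
    ∑ j, (vec Y a j) ^ 2 = (2 ^ ν) ^ (a + 1) := by
  induction a with
  | zero => simp [vec]
  | succ a ih =>
    have h : ∀ j, vec Y (a + 1) j = ∑ i, chz j i * (sgz (Y a i) * vec Y a i) := fun j => rfl
    simp only [h]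
    rw [wht_parseval]
    have h2 : ∀ i, (sgz (Y a i) * vec Y a i) ^ 2 = vec Y a i ^ 2 := by
      intro i
      rw [mul_pow, sq (sgz _), sgz_sq, one_mul]
    simp only [h2]
    rw [ih]
    ring

/-- The product kernel of the first `t` layers. -/
def ker {ν : ℕ} (t : Fin (ν + 1)) (i l : I ν) : ℤ :=
  ∏ t' : Fin ν, if t'.val < t.val then sgz (i t' && l t') else if l t' = i t' then 1 else 0

theorem ker_zero {ν : ℕ} (i l : I ν) : ker 0 i l = if l = i then 1 else 0 := by
  unfold ker
  split_ifs with h
  · subst h; simp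
  · obtain ⟨t, ht⟩ := Function.ne_iff.mp h
    apply Finset.prod_eq_zero (Finset.mem_univ t)
    simp [ht]

theorem ker_last {ν : ℕ} (i l : I ν) : ker (Fin.last ν) i l = chz i l := by
  unfold ker chz
  refine Finset.prod_congr rfl fun t _ => ?_
  simp

theorem ker_succ {ν : ℕ} (t : Fin ν) (i l : I ν) :
    ker t.succ i l = ∑ b : Bool, sgz (i t && b) * ker t.castSucc (Function.update i t b) l := by
  unfold ker
  -- the common factor
  set G : ℤ := ∏ t' ∈ Finset.univ.erase t, if t'.val < t.succ.val then sgz (i t' && l t')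
    else if l t' = i t' then 1 else 0 with hG
  have h1 : (∏ t' : Fin ν, if t'.val < t.succ.val then sgz (i t' && l t')
      else if l t' = i t' then 1 else 0) = sgz (i t && l t) * G := by
    rw [← Finset.mul_prod_erase Finset.univ _ (Finset.mem_univ t)]
    simp [hG]
  have h2 : ∀ b : Bool, (∏ t' : Fin ν, if t'.val < t.castSucc.val then
      sgz ((Function.update i t b) t' && l t')
      else if l t' = (Function.update i t b) t' then 1 else 0) =
      (if l t = b then 1 else 0) * G := by
    intro b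
    rw [← Finset.mul_prod_erase Finset.univ _ (Finset.mem_univ t)]
    congr 1
    · simp
    · rw [hG]
      refine Finset.prod_congr rfl fun t' ht' => ?_
      have hne : t' ≠ t := Finset.ne_of_mem_erase ht'
      have hv : t'.val ≠ t.val := fun h => hne (Fin.ext h)
      simp only [Function.update_of_ne hne, Fin.val_castSucc, Fin.val_succ]
      have hiff : t'.val < t.val ↔ t'.val < t.val + 1 := by omega
      simp only [hiff]
  rw [h1]
  simp only [h2]
  cases l t <;> simp

theorem abs_ker_le {ν : ℕ} (t : Fin (ν + 1)) (i l : I ν) : |ker t i l| ≤ 1 := by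
  unfold ker
  rw [Finset.abs_prod]
  apply Finset.prod_le_one
  · intro t' _; positivity
  · intro t' _
    split_ifs
    · rw [abs_sgz]
    · simp
    · simp

theorem layer_ker {ν : ℕ} (w : Fin (ν + 1) → I ν → ℤ)
    (hstep : ∀ (t : Fin ν) i, w t.succ i =
      ∑ b : Bool, sgz (i t && b) * w t.castSucc (Function.update i t b)) (t : Fin (ν + 1)) :
    ∀ i, w t i = ∑ l, ker t i l * w 0 l := by
  induction t using Fin.induction with
  | zero =>
    intro i
    simp [ker_zero]
  | succ t ih =>
    intro i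
    rw [hstep]
    simp only [ker_succ, Finset.sum_mul]
    rw [Finset.sum_comm]
    refine Finset.sum_congr rfl fun b _ => ?_
    rw [ih, Finset.mul_sum]
    refine Finset.sum_congr rfl fun l _ => ?_
    ring

theorem layer_last {ν : ℕ} (w : Fin (ν + 1) → I ν → ℤ)
    (hstep : ∀ (t : Fin ν) i, w t.succ i =
      ∑ b : Bool, sgz (i t && b) * w t.castSucc (Function.update i t b)) (i : I ν) :
    w (Fin.last ν) i = ∑ l, chz i l * w 0 l := by
  rw [layer_ker w hstep]
  simp only [ker_last]

/-- T4c: the transcript constraints force the transcript to be the true one. -/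
theorem valid_vec {ν κ K B : ℕ} (hκ : 0 < κ) {dec : (Fin B → Bool) → ℤ} {θ : ℝ}
    {x : Idx ν κ K B → Bool} {j s : I ν} (h : Valid dec θ x j s) :
    θ ≤ ∑ c, (vec (Yv x s c) κ j : ℝ) := by
  have key : ∀ (c : Fin K) (n : ℕ) (hn : n < κ) (i : I ν),
      Wv dec x j s c ⟨n, hn⟩ (Fin.last ν) i = vec (Yv x s c) (n + 1) i := by
    intro c n
    induction n with
    | zero =>
      intro hn i
      rw [layer_last (fun t i => Wv dec x j s c ⟨0, hn⟩ t i) (fun t i => h.step c _ t i)]
      show _ = ∑ l, chz i l * (sgz (Yv x s c 0 l) * vec (Yv x s c) 0 l)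
      refine Finset.sum_congr rfl fun l _ => ?_
      rw [h.init]
      simp [Wprev, Yv, hn, vec]
    | succ n ih =>
      intro hn i
      rw [layer_last (fun t i => Wv dec x j s c ⟨n + 1, hn⟩ t i) (fun t i => h.step c _ t i)]
      show _ = ∑ l, chz i l * (sgz (Yv x s c (n + 1) l) * vec (Yv x s c) (n + 1) l)
      refine Finset.sum_congr rfl fun l _ => ?_
      rw [h.init, ← ih (by omega)]
      simp [Wprev, Yv, hn]
  have hf := h.final hκ
  refine hf.trans (le_of_eq ?_)
  push_cast
  refine Finset.sum_congr rfl fun c _ => ?_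
  rw [key c (κ - 1) (by omega) j]
  have : κ - 1 + 1 = κ := by omega
  rw [this]

theorem abs_vec_le {ν : ℕ} (Y : ℕ → I ν → Bool) (a : ℕ) (j : I ν) :
    |vec Y a j| ≤ (2 ^ ν) ^ a := by
  induction a generalizing j with
  | zero => simp [vec]
  | succ a ih =>
    show |∑ i, chz j i * (sgz (Y a i) * vec Y a i)| ≤ _
    refine (Finset.abs_sum_le_sum_abs _ _).trans ?_
    calc ∑ i, |chz j i * (sgz (Y a i) * vec Y a i)|
        ≤ ∑ _i : I ν, ((2 : ℤ) ^ ν) ^ a := by
          refine Finset.sum_le_sum fun i _ => ?_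
          rw [abs_mul, abs_mul, abs_chz, abs_sgz, one_mul, one_mul]
          exact ih i
      _ = (2 ^ ν) ^ (a + 1) := by
          rw [Finset.sum_const, Finset.card_univ]
          simp [pow_succ]
          ring

/-- T4d: true transcripts exist. -/
theorem exists_transcript {ν κ K B : ℕ} (hκ : 0 < κ) {dec : (Fin B → Bool) → ℤ}
    (hdec : ∀ z : ℤ, |z| ≤ 2 ^ (ν * (κ + 1)) → ∃ w, dec w = z)
    (Y : Fin K → Fin κ → I ν → Bool) (jj : I ν) :
    ∃ w : Fin K → Fin κ → Fin (ν + 1) → I ν → Fin B → Bool,
      (∀ c a i, dec (w c a 0 i) = sgz (Y c a i) *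
        (if h : a.val = 0 then 1 else dec (w c ⟨a.val - 1, by omega⟩ (Fin.last ν) i))) ∧
      (∀ c a (t : Fin ν) i, dec (w c a t.succ i) =
        ∑ b : Bool, sgz (i t && b) * dec (w c a t.castSucc (Function.update i t b))) ∧
      (∑ c, dec (w c ⟨κ - 1, by omega⟩ (Fin.last ν) jj) =
        ∑ c, vec (fun a i => if h : a < κ then Y c ⟨a, h⟩ i else false) κ jj) := by
  set Ye : Fin K → ℕ → I ν → Bool := fun c a i => if h : a < κ then Y c ⟨a, h⟩ i else false
    with hYe
  set Wt : Fin K → Fin κ → Fin (ν + 1) → I ν → ℤ := fun c a t i =>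
    ∑ l, ker t i l * (sgz (Y c a l) * vec (Ye c) a.val l) with hWt
  have hbound : ∀ c a t i, |Wt c a t i| ≤ 2 ^ (ν * (κ + 1)) := by
    intro c a t i
    refine (Finset.abs_sum_le_sum_abs _ _).trans ?_
    calc ∑ l, |ker t i l * (sgz (Y c a l) * vec (Ye c) a.val l)|
        ≤ ∑ _l : I ν, ((2 : ℤ) ^ ν) ^ a.val := by
          refine Finset.sum_le_sum fun l _ => ?_
          rw [abs_mul, abs_mul, abs_sgz, one_mul]
          calc |ker t i l| * |vec (Ye c) a.val l| ≤ 1 * (2 ^ ν) ^ a.val :=
                mul_le_mul (abs_ker_le t i l) (abs_vec_le _ _ _) (abs_nonneg _) (by norm_num)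
            _ = _ := one_mul _
      _ = 2 ^ (ν * (a.val + 1)) := by
          rw [Finset.sum_const, Finset.card_univ]
          simp [pow_mul, pow_succ]
          ring
      _ ≤ 2 ^ (ν * (κ + 1)) := by
          apply pow_le_pow_right₀ (by norm_num)
          apply Nat.mul_le_mul_left
          have := a.isLt
          omega
  choose w hw using fun c a t i => hdec (Wt c a t i) (hbound c a t i)
  have hlast : ∀ c (a : Fin κ) i, Wt c a (Fin.last ν) i = vec (Ye c) (a.val + 1) i := by
    intro c a i
    show _ = ∑ l, chz i l * (sgz (Ye c a.val l) * vec (Ye c) a.val l)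
    simp only [hWt, ker_last]
    refine Finset.sum_congr rfl fun l _ => ?_
    simp [hYe]
  refine ⟨w, ?_, ?_, ?_⟩
  · intro c a i
    rw [hw]
    have h0 : Wt c a 0 i = sgz (Y c a i) * vec (Ye c) a.val i := by
      simp only [hWt, ker_zero]
      simp
    rw [h0]
    congr 1
    split_ifs with h
    · rw [h]; rfl
    · rw [hw, hlast]
      have : a.val - 1 + 1 = a.val := by omega
      simp only [this]
  · intro c a t i
    rw [hw]
    simp only [hw]
    simp only [hWt, ker_succ, Finset.sum_mul]
    rw [Finset.sum_comm]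
    refine Finset.sum_congr rfl fun b _ => ?_
    rw [Finset.mul_sum]
    refine Finset.sum_congr rfl fun l _ => ?_
    ring
  · refine Finset.sum_congr rfl fun c _ => ?_
    rw [hw, hlast]
    have : κ - 1 + 1 = κ := by omega
    simp only [this, hYe]

end Crest.Agent.S0554
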