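import Crest.Agent.S0554_LowerCore
import Crest.Agent.S0554_Vec

/-!
S0554, task T10: the randomized lower bound.
-/

set_option autoImplicit false

namespace Crest.Agent.S0554

open Crest.MathPhysics.Query

/-- T10 (file S0554_Lower): the randomized lower bound from a family of hard slot laws `DD j`
(law of the slot content for column `j`): nonnegative, total mass one, indistinguishable from
uniform by depth-`d` programs, and decoding to `j` except with probability `ε`. -/
theorem lower_bound {ν κ K B : ℕ} (hκ : 0 < κ) (dec : (Fin B → Bool) → ℤ) (θ : ℝ)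
    (hdec : ∀ z : ℤ, |z| ≤ 2 ^ (ν * (κ + 1)) → ∃ w, dec w = z)
    (DD : I ν → ((Fin K × (Fin κ × I ν)) → Bool) → ℝ)
    (hD0 : ∀ j f, 0 ≤ DD j f) (hD1 : ∀ j, ∑ f, DD j f = 1) (d : ℕ) (δ ε : ℝ)
    (hind : ∀ j (T : Prog (Fin K × (Fin κ × I ν)) Bool), T.depth ≤ d →
      |∑ f, DD j f * ind T f - avg (ind T)| ≤ δ)
    (hdecode : ∀ j, (∑ f, (open Classical in
      if θ ≤ ∑ c, (vec (fun a i => if h : a < κ then f (c, (⟨a, h⟩, i)) else false) κ j : ℝ)
      then 0 else DD j f)) ≤ ε)
    {n : ℕ} (e : Idx ν κ K B ≃ Fin n) (r : ℕ)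
    (hr : RandomizedComputes (fun x : Fin n → Bool => FF dec θ (fun i => x (e i))) r) :
    1 / 3 - ε ≤ 3 * r / (2 ^ ν) ^ 2 + r / (2 ^ ν * (d + 1)) + δ :=
  lower_bound_core hκ dec θ DD hD0 hD1 d δ ε hind hdecode
    (fun j f => exists_transcript hκ hdec (fun c a i => f (c, (a, i))) j) e r hr

end Crest.Agent.S0554
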