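import Crest.Agent.S0554_ClosImpl

/-!
S0554 T2b: closure properties of `Rlz`.
-/

set_option autoImplicit false
set_option linter.unusedSectionVars false

namespace Crest.Agent.S0554

open Crest.MathPhysics.Query

/-- renaming of the query indices of a program -/
def Prog.ren {ι ι' α : Type} (g : ι → ι') : Prog ι α → Prog ι' α
  | .ret a => .ret a
  | .ask i k => .ask (g i) (fun b => (k b).ren g)

theorem Prog.ren_depth {ι ι' α : Type} (g : ι → ι') (T : Prog ι α) :
    (T.ren g).depth = T.depth := by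
  induction T with
  | ret a => rfl
  | ask i k ih => simp [Prog.ren, Prog.depth, ih]

theorem Prog.ren_eval {ι ι' α : Type} (g : ι → ι') (T : Prog ι α) (y : ι' → Bool) :
    (T.ren g).eval y = T.eval (fun i => y (g i)) := by
  induction T with
  | ret a => rfl
  | ask i k ih => simp [Prog.ren, Prog.eval, ih]

section Q

variable {ι : Type} {β γ : Type} {D q : ℕ}

theorem Impl.rename {ι' : Type} (g : ι → ι') {E : Type} [Fintype E] [DecidableEq E]
    {U : (ι → Bool) → Matrix E E ℂ} (h : Impl D q U) :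
    Impl D q (fun (y : ι' → Bool) => U (fun i => y (g i))) := by
  obtain ⟨V, pr, hV, hpr, hU⟩ := h
  refine ⟨V, fun t e => (pr t e).ren g, hV, fun t e => ?_, fun y => ?_⟩
  · rw [Prog.ren_depth]; exact hpr t e
  · simp only [hU]
    clear hU
    induction q with
    | zero => rfl
    | succ q ih =>
      simp only [seqU]
      rw [ih]
      simp only [Prog.ren_eval]

/-- columns of a unitary matrix have norm one -/
theorem sum_col_sq {E : Type} [Fintype E] [DecidableEq E] {U : Matrix E E ℂ}
    (hU : U ∈ Matrix.unitaryGroup E ℂ) (e0 : E) : ∑ e, ‖U e e0‖ ^ 2 = 1 := by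
  have h := Matrix.mem_unitaryGroup_iff'.1 hU
  have h1 := congrFun (congrFun h e0) e0
  rw [Matrix.mul_apply, Matrix.one_apply_eq] at h1
  have h2 : (∑ e, ((‖U e e0‖ ^ 2 : ℝ) : ℂ)) = 1 := by
    rw [← h1]
    refine Finset.sum_congr rfl fun e _ => ?_
    rw [Matrix.star_apply, Complex.ofReal_pow, ← Complex.conj_mul']
    rfl
  exact_mod_cast h2

theorem Rlz.nonneg {p : (ι → Bool) → β → ℝ} (h : Rlz D q p) (x : ι → Bool) (b : β) :
    0 ≤ p x b := by
  obtain ⟨E, _, _, U, e0, out, hU, hp⟩ := h
  rw [hp]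
  refine Finset.sum_nonneg fun e _ => ?_
  split_ifs <;> positivity

theorem Rlz.sum_eq_one [Fintype β] {p : (ι → Bool) → β → ℝ} (h : Rlz D q p) (x : ι → Bool) :
    ∑ b, p x b = 1 := by
  classical
  obtain ⟨E, _, _, U, e0, out, hU, hp⟩ := h
  simp only [hp]
  rw [Finset.sum_comm, ← sum_col_sq (hU.unitary x) e0]
  refine Finset.sum_congr rfl fun e _ => ?_
  simp

open Classical in
theorem Rlz.pure (b₀ : β) : Rlz D 0 (fun (_ : ι → Bool) (b : β) => if b = b₀ then 1 else 0) := by
  refine ⟨Unit, inferInstance, inferInstance, fun _ => 1, (), fun _ => b₀,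
    Impl.const D 1 (one_mem _), fun x b => ?_⟩
  by_cases h : b = b₀
  · simp [h]
  · simp [h, Ne.symm h]

/-- the Hadamard gate -/
noncomputable def hadM : Matrix Bool Bool ℂ :=
  Matrix.of fun a b => if a && b then -((√2 : ℝ) : ℂ)⁻¹ else ((√2 : ℝ) : ℂ)⁻¹

theorem hadM_sq : ((√2 : ℝ) : ℂ)⁻¹ * ((√2 : ℝ) : ℂ)⁻¹ = 1 / 2 := by
  rw [← mul_inv, ← Complex.ofReal_mul, Real.mul_self_sqrt (by norm_num)]
  norm_num

theorem hadM_mem : hadM ∈ Matrix.unitaryGroup Bool ℂ := by
  rw [Matrix.mem_unitaryGroup_iff]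
  ext a b
  rw [Matrix.mul_apply]
  have := hadM_sq
  cases a <;> cases b <;>
    simp [hadM, Matrix.star_apply, Complex.conj_ofReal, this] <;> norm_num

open Classical in
theorem Rlz.ask (pr : Prog ι Bool) (h : pr.depth ≤ D) :
    Rlz D 1 (fun x (b : Bool) => if b = pr.eval x then 1 else 0) := by
  refine ⟨Bool, inferInstance, inferInstance,
    fun x => hadM * phase (fun e : Bool => ((if e then pr else .ret false : Prog ι Bool)).eval x) *
      hadM,
    false, id, ?_, fun x b => ?_⟩
  · refine (Impl.const (ι := ι) D hadM hadM_mem).step hadM hadM_mem _ fun e => ?_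
    cases e
    · exact Nat.zero_le _
    · simpa using h
  · have h2 := hadM_sq
    have e1 : ∀ b, (hadM * phase (fun e : Bool =>
        ((if e then pr else .ret false : Prog ι Bool)).eval x) * hadM) b false = if b = pr.eval x then 1 else 0 := by
      intro b
      rw [Matrix.mul_apply]
      simp only [Fintype.sum_bool, phase, Matrix.mul_diagonal, hadM, Matrix.of_apply]
      cases b <;> cases hx : pr.eval x <;> simp [Prog.eval, hx, h2] <;> norm_num
    simp only [e1, id]
    rw [Finset.sum_eq_single b]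
    · by_cases hb : b = pr.eval x <;> simp [hb]
    · intro c _ hc
      simp [hc]
    · simp

open Classical in
theorem Rlz.map [Fintype β] (g : β → γ) {p : (ι → Bool) → β → ℝ} (h : Rlz D q p) :
    Rlz D q (fun x c => ∑ b, if g b = c then p x b else 0) := by
  obtain ⟨E, i1, i2, U, e0, out, hU, hp⟩ := h
  refine ⟨E, i1, i2, U, e0, fun e => g (out e), hU, fun x c => ?_⟩
  simp only [hp]
  have : ∀ b, (if g b = c then ∑ e, (if out e = b then ‖U x e e0‖ ^ 2 else 0) else 0) =
      ∑ e, if out e = b ∧ g b = c then ‖U x e e0‖ ^ 2 else 0 := by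
    intro b
    by_cases h : g b = c <;> simp [h]
  simp only [this]
  rw [Finset.sum_comm]
  refine Finset.sum_congr rfl fun e _ => ?_
  rw [Finset.sum_eq_single (out e)]
  · simp
  · intro b _ hb
    simp [Ne.symm hb]
  · simp

/-- dependent block diagonal family -/
theorem Impl.sigma [Fintype β] [DecidableEq β] {E : β → Type} [∀ b, Fintype (E b)]
    [∀ b, DecidableEq (E b)] {U : ∀ b, (ι → Bool) → Matrix (E b) (E b) ℂ}
    (h : ∀ b, Impl D q (U b)) :
    Impl D q (fun x => Matrix.blockDiagonal' fun b => U b x) := by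
  choose V pr hV hpr hU using h
  refine ⟨fun t => Matrix.blockDiagonal' fun b => V b t, fun t s => pr s.1 t s.2, fun t => ?_,
    fun t s => hpr s.1 t s.2, fun x => ?_⟩
  · rw [Matrix.mem_unitaryGroup_iff, Matrix.star_eq_conjTranspose,
      Matrix.blockDiagonal'_conjTranspose, ← Matrix.blockDiagonal'_mul,
      ← Matrix.blockDiagonal'_one]
    congr 1
    funext b
    have := Matrix.mem_unitaryGroup_iff.1 (hV b t)
    rwa [Matrix.star_eq_conjTranspose] at this
  · simp only [hU]
    clear hU
    induction q with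
    | zero => rfl
    | succ q ih =>
      simp only [seqU]
      rw [← ih, Matrix.blockDiagonal'_mul, Matrix.blockDiagonal'_mul]
      congr 2
      exact Matrix.blockDiagonal'_diagonal (fun b e => if (pr b q e).eval x then (-1 : ℂ) else 1)

theorem Rlz.bind [Fintype β] {q₁ q₂ : ℕ} {p : (ι → Bool) → β → ℝ} (h : Rlz D q₁ p)
    {p' : β → (ι → Bool) → γ → ℝ} (h' : ∀ b, Rlz D q₂ (p' b)) :
    Rlz D (q₁ + q₂) (fun x c => ∑ b, p x b * p' b x c) := by
  classical
  obtain ⟨E, i1, i2, U, e0, out, hU, hp⟩ := h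
  choose E' i1' i2' U' e0' out' hU' hp' using h'
  set s0 : (b : β) × E' b := ⟨out e0, e0' (out e0)⟩ with hs0
  have hW : ∀ e : E, ∃ W ∈ Matrix.unitaryGroup ((b : β) × E' b) ℂ,
      ∀ s, W s s0 = if s = ⟨out e, e0' (out e)⟩ then 1 else 0 := by
    intro e
    refine exists_unitary_col s0 _ ?_
    rw [Finset.sum_eq_single ⟨out e, e0' (out e)⟩]
    · simp
    · intro s _ hs
      simp [hs]
    · simp
  choose W hWm hWc using hW
  set B : (ι → Bool) → Matrix ((b : β) × E' b) ((b : β) × E' b) ℂ :=
    fun x => Matrix.blockDiagonal' fun b => U' b x with hB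
  have hBI : Impl D q₂ B := Impl.sigma hU'
  have I1 := Impl.lift_left (F := (b : β) × E' b) hU
  have I2 : Impl D 0 (fun _ : ι → Bool => blk W) := Impl.const D _ (blk_mem hWm)
  have I3 := Impl.lift_right (F := E) hBI
  have I := (I1.mul I2).mul I3
  refine ⟨E × ((b : β) × E' b), inferInstance, inferInstance, _, (e0, s0),
    fun es => out' es.2.1 es.2.2, by simpa using I, fun x c => ?_⟩
  have key : ∀ (e : E) (s : (b : β) × E' b),
      ((Matrix.of fun fe fe' : E × ((b : β) × E' b) =>
        if fe.1 = fe'.1 then B x fe.2 fe'.2 else 0) * (blk W *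
        (Matrix.of fun ef ef' : E × ((b : β) × E' b) =>
          if ef.2 = ef'.2 then U x ef.1 ef'.1 else 0))) (e, s) (e0, s0) =
      B x s ⟨out e, e0' (out e)⟩ * U x e e0 := by
    intro e s
    rw [Matrix.mul_apply, Fintype.sum_prod_type, Finset.sum_eq_single e]
    · have h1 : ∀ t, (blk W * (Matrix.of fun ef ef' : E × ((b : β) × E' b) =>
          if ef.2 = ef'.2 then U x ef.1 ef'.1 else 0)) (e, t) (e0, s0) =
          W e t s0 * U x e e0 := by
        intro t
        rw [Matrix.mul_apply, Fintype.sum_prod_type, Finset.sum_eq_single e]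
        · rw [Finset.sum_eq_single s0]
          · simp [blk]
          · intro u _ hu
            simp [hu]
          · simp
        · intro e' _ he'
          simp [blk, Ne.symm he']
        · simp
      simp only [h1, hWc]
      rw [Finset.sum_eq_single ⟨out e, e0' (out e)⟩]
      · simp
      · intro t _ ht
        simp [ht]
      · simp
    · intro e' _ he'
      simp [Ne.symm he']
    · simp
  rw [Fintype.sum_prod_type]
  simp only [key]
  have h2 : ∀ e : E, ∑ s : (b : β) × E' b, (if out' s.1 s.2 = c then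
      ‖B x s ⟨out e, e0' (out e)⟩ * U x e e0‖ ^ 2 else 0) = p' (out e) x c * ‖U x e e0‖ ^ 2 := by
    intro e
    rw [Fintype.sum_sigma, Finset.sum_eq_single (out e), hp', Finset.sum_mul]
    · refine Finset.sum_congr rfl fun e' _ => ?_
      rw [hB]
      simp only [Matrix.blockDiagonal'_apply_eq, norm_mul, mul_pow]
      split_ifs <;> simp
    · intro b _ hb
      refine Finset.sum_eq_zero fun e' _ => ?_
      rw [hB]
      simp only [Matrix.blockDiagonal'_apply_ne _ _ _ hb]
      simp
    · simp
  simp only [h2, hp]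
  simp only [Finset.sum_mul]
  rw [Finset.sum_comm]
  refine Finset.sum_congr rfl fun e _ => ?_
  rw [Finset.sum_eq_single (out e)]
  · simp [mul_comm]
  · intro b _ hb
    simp [Ne.symm hb]
  · simp

theorem Rlz.mono_q {p : (ι → Bool) → β → ℝ} {q' : ℕ} (hq : q ≤ q') (h : Rlz D q p) :
    Rlz D q' p := by
  obtain ⟨E, i1, i2, U, e0, out, hU, hp⟩ := h
  exact ⟨E, i1, i2, U, e0, out, hU.mono_q hq, hp⟩

/-- renaming of input indices -/
theorem Rlz.rename {ι' : Type} (g : ι → ι') {p : (ι → Bool) → β → ℝ} (h : Rlz D q p) :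
    Rlz D q (fun (y : ι' → Bool) => p (fun i => y (g i))) := by
  obtain ⟨E, i1, i2, U, e0, out, hU, hp⟩ := h
  exact ⟨E, i1, i2, _, e0, out, hU.rename g, fun y b => hp _ b⟩

end Q

end Crest.Agent.S0554
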