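import Crest.Agent.S0554_Defs

/-!
S0554, task T1: the flexible query model compiles to the Prelude model.
-/

set_option autoImplicit false

namespace Crest.Agent.S0554

open Crest.MathPhysics.Query

section Compile

variable {n : ℕ}

/-- Basis states with an arbitrary work register. -/
abbrev QI (n : ℕ) (Z : Type) : Type := Fin n × Bool × Z

/-- Oracle on an arbitrary work register. -/
def orc {Z : Type} (x : Fin n → Bool) (ψ : QI n Z → ℂ) : QI n Z → ℂ :=
  fun e => ψ (e.1, xor e.2.1 (x e.1), e.2.2)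

section General

variable {Z : Type} [Fintype Z] [DecidableEq Z]

/-- Run on an arbitrary work register. -/
def runZ (U : ℕ → Matrix (QI n Z) (QI n Z) ℂ) (x : Fin n → Bool) (ψ₀ : QI n Z → ℂ) :
    ℕ → QI n Z → ℂ
  | 0 => (U 0).mulVec ψ₀
  | t + 1 => (U (t + 1)).mulVec (orc x (runZ U x ψ₀ t))

/-- State maps implementable with exactly `q` oracle calls. -/
def IsQ (q : ℕ) (Φ : (Fin n → Bool) → (QI n Z → ℂ) → (QI n Z → ℂ)) : Prop :=
  ∃ U : ℕ → Matrix (QI n Z) (QI n Z) ℂ, (∀ t, U t ∈ Matrix.unitaryGroup (QI n Z) ℂ) ∧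
    ∀ x ψ, Φ x ψ = runZ U x ψ q

theorem IsQ.of_unitary (M : Matrix (QI n Z) (QI n Z) ℂ)
    (hM : M ∈ Matrix.unitaryGroup (QI n Z) ℂ) : IsQ 0 (fun _ ψ => M.mulVec ψ) :=
  ⟨fun _ => M, fun _ => hM, fun _ _ => rfl⟩

theorem IsQ.id : IsQ (n := n) (Z := Z) 0 (fun _ ψ => ψ) :=
  ⟨fun _ => 1, fun _ => one_mem _, fun _ ψ => by simp [runZ]⟩

theorem IsQ.oracle : IsQ (n := n) (Z := Z) 1 (fun x ψ => orc x ψ) :=
  ⟨fun _ => 1, fun _ => one_mem _, fun _ ψ => by simp [runZ]⟩

theorem IsQ.comp {q₁ q₂ : ℕ} {Φ₁ Φ₂ : (Fin n → Bool) → (QI n Z → ℂ) → (QI n Z → ℂ)}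
    (h₁ : IsQ q₁ Φ₁) (h₂ : IsQ q₂ Φ₂) : IsQ (q₁ + q₂) (fun x ψ => Φ₂ x (Φ₁ x ψ)) := by
  obtain ⟨U₁, hU₁, e₁⟩ := h₁
  obtain ⟨U₂, hU₂, e₂⟩ := h₂
  let U : ℕ → Matrix (QI n Z) (QI n Z) ℂ := fun t =>
    if t < q₁ then U₁ t else if t = q₁ then U₂ 0 * U₁ q₁ else U₂ (t - q₁)
  refine ⟨U, ?_, ?_⟩
  · intro t
    simp only [U]
    split_ifs
    · exact hU₁ t
    · exact mul_mem (hU₂ 0) (hU₁ q₁)
    · exact hU₂ _
  · intro x ψ
    have hlt : ∀ t, t < q₁ → runZ U x ψ t = runZ U₁ x ψ t := by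
      intro t
      induction t with
      | zero => intro h; simp [runZ, U, h]
      | succ t ih =>
        intro h
        rw [runZ, runZ, ih (by omega)]
        simp [U, h]
    have hbase : runZ U x ψ q₁ = (U₂ 0).mulVec (runZ U₁ x ψ q₁) := by
      cases q₁ with
      | zero => simp [runZ, U, Matrix.mulVec_mulVec]
      | succ k =>
        rw [runZ, hlt k (by omega)]
        simp only [runZ, U, Matrix.mulVec_mulVec]
        simp
    have key : ∀ s, runZ U x ψ (q₁ + s) = runZ U₂ x (runZ U₁ x ψ q₁) s := by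
      intro s
      induction s with
      | zero => simpa [runZ] using hbase
      | succ s ih =>
        rw [← Nat.add_assoc, runZ, ih, runZ]
        congr 1
        simp only [U]
        rw [if_neg (by omega), if_neg (by omega)]
        congr 1
        omega
    rw [key, ← e₁, ← e₂]

/-- permutation operators cost nothing -/
theorem IsQ.perm (σ : Equiv.Perm (QI n Z)) : IsQ (n := n) (Z := Z) 0 (fun _ ψ s => ψ (σ s)) := by
  have hM : (Matrix.of fun i j : QI n Z => if σ i = j then (1 : ℂ) else 0) ∈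
      Matrix.unitaryGroup (QI n Z) ℂ := by
    rw [Matrix.mem_unitaryGroup_iff]
    ext i j
    simp only [Matrix.mul_apply, Matrix.of_apply, Matrix.star_apply, Matrix.one_apply]
    rw [Finset.sum_eq_single (σ i)]
    · by_cases h : i = j
      · subst h; simp
      · have : σ j ≠ σ i := fun h' => h (σ.injective h').symm
        simp [h, this]
    · intro b _ hb
      simp [Ne.symm hb]
    · simp
  obtain ⟨U, hU, e⟩ := IsQ.of_unitary _ hM
  refine ⟨U, hU, fun x ψ => ?_⟩
  rw [← e x ψ]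
  ext s
  simp [Matrix.mulVec, dotProduct]

end General

/-- transport of the work register -/
theorem IsQ.transport {Z Z' : Type} [Fintype Z] [DecidableEq Z] [Fintype Z'] [DecidableEq Z']
    (σ : Z ≃ Z') {q : ℕ} {Φ : (Fin n → Bool) → (QI n Z → ℂ) → (QI n Z → ℂ)} (h : IsQ q Φ) :
    IsQ q (fun x (ψ : QI n Z' → ℂ) s =>
      Φ x (fun s' => ψ (s'.1, s'.2.1, σ s'.2.2)) (s.1, s.2.1, σ.symm s.2.2)) := by
  obtain ⟨U, hU, e⟩ := h
  let τ : QI n Z' ≃ QI n Z :=
    Equiv.prodCongr (Equiv.refl _) (Equiv.prodCongr (Equiv.refl _) σ.symm)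
  refine ⟨fun t => (U t).submatrix τ τ, ?_, ?_⟩
  · intro t
    have := hU t
    rw [Matrix.mem_unitaryGroup_iff] at this ⊢
    rw [Matrix.star_eq_conjTranspose, Matrix.conjTranspose_submatrix,
      Matrix.submatrix_mul_equiv, ← Matrix.star_eq_conjTranspose, this,
      Matrix.submatrix_one_equiv]
  · intro x ψ
    have key : ∀ t, runZ (fun t => (U t).submatrix τ τ) x ψ t =
        (runZ U x (ψ ∘ τ.symm) t) ∘ τ := by
      intro t
      induction t with
      | zero => simp only [runZ]; rw [Matrix.submatrix_mulVec_equiv]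
      | succ t ih =>
        simp only [runZ]
        rw [Matrix.submatrix_mulVec_equiv, ih]
        congr 2
        ext ⟨i, b, z⟩
        simp [orc, τ]
    rw [key]
    ext s
    simp only [Function.comp]
    rw [e]
    rfl

/-- embedding of states of `E` as states with a clean query register and a clean ancilla. -/
def emb {Z A : Type} [DecidableEq A] (i0 : Fin n) (a0 : A) (v : Z → ℂ) :
    QI n (Z × A) → ℂ :=
  fun s => if s.1 = i0 ∧ s.2.1 = false ∧ s.2.2.2 = a0 then v s.2.2.1 else 0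

/-- next query position of a program (dummy position `i0` when it has returned) -/
def posP (i0 : Fin n) : Prog (Fin n) Bool → Fin n
  | .ret _ => i0
  | .ask i _ => i

/-- continuation of a program -/
def contP (b : Bool) : Prog (Fin n) Bool → Prog (Fin n) Bool
  | .ret a => .ret a
  | .ask _ k => k b

theorem contP_depth (b : Bool) (p : Prog (Fin n) Bool) (D : ℕ) (h : p.depth ≤ D + 1) :
    (contP b p).depth ≤ D := by
  cases p with
  | ret a => simp [contP, Prog.depth]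
  | ask i k =>
    simp only [Prog.depth] at h
    cases b <;> simp only [contP] <;> omega

theorem contP_eval (i0 : Fin n) (x : Fin n → Bool) (p : Prog (Fin n) Bool) :
    (contP (x (posP i0 p)) p).eval x = p.eval x := by
  cases p with
  | ret a => rfl
  | ask i k => rfl

/-- one clean query writing `x (pos z)` into the ancilla bit -/
theorem isQ_step {Z A : Type} [Fintype Z] [DecidableEq Z] [Fintype A] [DecidableEq A]
    (i0 : Fin n) (a0 : A) (pos : Z → Fin n) :
    ∃ Φ : (Fin n → Bool) → (QI n ((Z × Bool) × A) → ℂ) → (QI n ((Z × Bool) × A) → ℂ),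
      IsQ 1 Φ ∧ ∀ x (v : Z × Bool → ℂ), Φ x (emb i0 a0 v) =
        emb i0 a0 (fun zc => v (zc.1, xor zc.2 (x (pos zc.1)))) := by
  let σf : QI n ((Z × Bool) × A) → QI n ((Z × Bool) × A) := fun s =>
    (Equiv.swap i0 (pos s.2.2.1.1) s.1, s.2.2.1.2, ((s.2.2.1.1, s.2.1), s.2.2.2))
  have hinv : ∀ s, σf (σf s) = s := by
    rintro ⟨i, b, ⟨⟨z, c⟩, a⟩⟩
    simp [σf]
  let σ : Equiv.Perm (QI n ((Z × Bool) × A)) := ⟨σf, σf, hinv, hinv⟩
  refine ⟨_, ((IsQ.perm σ).comp IsQ.oracle).comp (IsQ.perm σ), ?_⟩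
  intro x v
  ext ⟨i, b, ⟨⟨z, c⟩, a⟩⟩
  simp only [σ, σf, Equiv.coe_fn_mk, orc, emb, Equiv.swap_apply_self]
  by_cases h : i = i0 ∧ b = false ∧ a = a0
  · obtain ⟨rfl, rfl, rfl⟩ := h
    simp
  · rw [if_neg h, if_neg h]

theorem isQ_phase (i0 : Fin n) (D : ℕ) : ∃ (A : Type) (_ : Fintype A) (_ : DecidableEq A) (a0 : A),
    ∀ (Z : Type) [Fintype Z] [DecidableEq Z] (pr : Z → Prog (Fin n) Bool),
      (∀ z, (pr z).depth ≤ D) →
      ∃ Φ : (Fin n → Bool) → (QI n (Z × A) → ℂ) → (QI n (Z × A) → ℂ),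
        IsQ (2 * D) Φ ∧ ∀ x (v : Z → ℂ), Φ x (emb i0 a0 v) =
          emb i0 a0 (fun z => (if (pr z).eval x then -1 else 1) * v z) := by
  induction D with
  | zero =>
    refine ⟨Unit, inferInstance, inferInstance, (), ?_⟩
    intro Z _ _ pr hpr
    let d : QI n (Z × Unit) → ℂ := fun s =>
      if (pr s.2.2.1).eval (fun _ => false) then -1 else 1
    have hd : Matrix.diagonal d ∈ Matrix.unitaryGroup (QI n (Z × Unit)) ℂ := by
      rw [Matrix.mem_unitaryGroup_iff, Matrix.star_eq_conjTranspose,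
        Matrix.diagonal_conjTranspose, Matrix.diagonal_mul_diagonal]
      rw [← Matrix.diagonal_one]
      congr 1
      ext s
      simp only [d, Pi.star_apply]
      split_ifs <;> simp
    refine ⟨_, IsQ.of_unitary _ hd, ?_⟩
    intro x v
    ext ⟨i, b, z, a⟩
    simp only [Matrix.mulVec_diagonal, d, emb]
    have he : (pr z).eval (fun _ => false) = (pr z).eval x := by
      have := hpr z
      cases h : pr z with
      | ret a => rfl
      | ask i k => rw [h] at this; simp [Prog.depth] at this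
    rw [he]
    split_ifs <;> simp
  | succ D ih =>
    obtain ⟨A, _, _, a0, hA⟩ := ih
    refine ⟨Bool × A, inferInstance, inferInstance, (false, a0), ?_⟩
    intro Z _ _ pr hpr
    obtain ⟨Φ, hΦ, eΦ⟩ := hA (Z × Bool) (fun zc => contP zc.2 (pr zc.1))
      (fun zc => contP_depth _ _ _ (hpr zc.1))
    obtain ⟨S, hS, eS⟩ := isQ_step (Z := Z) (A := A) i0 a0 (fun z => posP i0 (pr z))
    have h1 := ((hS.comp hΦ).comp hS).transport (Equiv.prodAssoc Z Bool A)
    refine ⟨_, (show 1 + 2 * D + 1 = 2 * (D + 1) by ring) ▸ h1, ?_⟩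
    intro x v
    have h2 : (fun s' : QI n ((Z × Bool) × A) =>
        emb (n := n) i0 ((false, a0) : Bool × A) v (s'.1, s'.2.1, Equiv.prodAssoc Z Bool A s'.2.2)) =
        emb i0 a0 (fun zc : Z × Bool => if zc.2 = false then v zc.1 else 0) := by
      ext ⟨i, b, ⟨⟨z, c⟩, a⟩⟩
      simp only [emb, Equiv.prodAssoc_apply, Prod.mk.injEq]
      split_ifs <;> simp_all
    simp only [h2, eS, eΦ]
    ext ⟨i, b, z, c, a⟩
    simp only [emb, Equiv.prodAssoc_symm_apply, Prod.mk.injEq]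
    by_cases h : i = i0 ∧ b = false ∧ a = a0
    · obtain ⟨rfl, rfl, rfl⟩ := h
      cases c with
      | false => simp [contP_eval]
      | true => simp
    · rw [if_neg h, if_neg (by tauto)]

theorem sum_emb {Z A : Type} [Fintype Z] [Fintype A] [DecidableEq A] (i0 : Fin n) (a0 : A)
    (v : Z → ℂ) (F : Z → ℂ → ℝ) (hF : ∀ z, F z 0 = 0) :
    ∑ s : QI n (Z × A), F s.2.2.1 (emb i0 a0 v s) = ∑ z, F z (v z) := by
  rw [Fintype.sum_prod_type]
  rw [Finset.sum_eq_single i0]
  · rw [Fintype.sum_prod_type]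
    rw [Finset.sum_eq_single false]
    · rw [Fintype.sum_prod_type]
      refine Finset.sum_congr rfl fun z _ => ?_
      rw [Finset.sum_eq_single a0]
      · simp [emb]
      · intro a _ ha
        simp [emb, ha, hF]
      · simp
    · intro b _ hb
      refine Finset.sum_eq_zero fun s _ => ?_
      simp [emb, hb, hF]
    · simp
  · intro i _ hi
    refine Finset.sum_eq_zero fun s _ => ?_
    simp [emb, hi, hF]
  · simp

theorem runZ_eq_stateAfter {w : ℕ} (U : ℕ → Matrix (QIdx n w) (QIdx n w) ℂ) (x : Fin n → Bool)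
    (ψ₀ : QIdx n w → ℂ) (t : ℕ) : runZ (Z := Fin w) U x ψ₀ t = stateAfter U x ψ₀ t := by
  induction t with
  | zero => rfl
  | succ t ih =>
    rw [runZ, stateAfter, ih]
    rfl

end Compile

open scoped Kronecker in
theorem quantumComputes_of_rlz {n : ℕ} (hn : 0 < n) (f : (Fin n → Bool) → Bool) {D q : ℕ}
    (p : (Fin n → Bool) → Bool → ℝ) (hp : Rlz D q p) (h : ∀ x, 2 / 3 ≤ p x (f x)) :
    QuantumComputes f (q * (2 * D)) := by
  classical
  obtain ⟨E, _, _, U, e0, out, ⟨V, pr, hV, hpr, hU⟩, hpU⟩ := hp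
  let i0 : Fin n := ⟨0, hn⟩
  obtain ⟨A, _, _, a0, hA⟩ := isQ_phase i0 D
  -- lift of a unitary on `E`
  have hlift : ∀ M ∈ Matrix.unitaryGroup E ℂ, ∃ Φ : (Fin n → Bool) → (QI n (E × A) → ℂ) →
      (QI n (E × A) → ℂ), IsQ 0 Φ ∧ ∀ x (v : E → ℂ), Φ x (emb i0 a0 v) =
        emb i0 a0 (M.mulVec v) := by
    intro M hM
    let τ : QI n (E × A) ≃ E × (Fin n × Bool × A) :=
      ⟨fun s => (s.2.2.1, s.1, s.2.1, s.2.2.2), fun s => (s.2.1, s.2.2.1, s.1, s.2.2.2),
        fun _ => rfl, fun _ => rfl⟩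
    let N : Matrix (QI n (E × A)) (QI n (E × A)) ℂ :=
      (M ⊗ₖ (1 : Matrix (Fin n × Bool × A) (Fin n × Bool × A) ℂ)).submatrix τ τ
    have hN : N ∈ Matrix.unitaryGroup (QI n (E × A)) ℂ := by
      rw [Matrix.mem_unitaryGroup_iff] at hM ⊢
      rw [Matrix.star_eq_conjTranspose, Matrix.conjTranspose_submatrix,
        Matrix.submatrix_mul_equiv, Matrix.conjTranspose_kronecker, ← Matrix.mul_kronecker_mul,
        ← Matrix.star_eq_conjTranspose, hM]
      simp
    refine ⟨_, IsQ.of_unitary N hN, ?_⟩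
    intro x v
    simp only [N]
    rw [Matrix.submatrix_mulVec_equiv]
    ext ⟨i, b, z, a⟩
    simp only [Function.comp, Matrix.mulVec, dotProduct, Matrix.kroneckerMap_apply, τ,
      Equiv.coe_fn_mk, Equiv.coe_fn_symm_mk, emb, Matrix.one_apply]
    rw [Fintype.sum_prod_type]
    by_cases hc : i = i0 ∧ b = false ∧ a = a0
    · rw [if_pos hc]
      refine Finset.sum_congr rfl fun e _ => ?_
      rw [Finset.sum_eq_single (i, b, a)]
      · simp [hc]
      · intro y _ hy
        simp [Ne.symm hy]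
      · simp
    · rw [if_neg hc]
      refine Finset.sum_eq_zero fun e _ => Finset.sum_eq_zero fun y _ => ?_
      by_cases hy : (i, b, a) = y
      · subst hy
        simp [hc]
      · simp [hy]
  have main : ∀ t, ∃ Φ : (Fin n → Bool) → (QI n (E × A) → ℂ) → (QI n (E × A) → ℂ),
      IsQ (t * (2 * D)) Φ ∧ ∀ x, Φ x (emb i0 a0 (Pi.single e0 1)) =
        emb i0 a0 (fun e => seqU V pr x t e e0) := by
    intro t
    induction t with
    | zero =>
      obtain ⟨Φ, hΦ, e⟩ := hlift (V 0) (hV 0)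
      refine ⟨Φ, by simpa using hΦ, fun x => ?_⟩
      rw [e]
      congr 1
      ext e'
      simp [seqU]
    | succ t ih =>
      obtain ⟨Φ, hΦ, eΦ⟩ := ih
      obtain ⟨Ψ, hΨ, eΨ⟩ := hA E (pr t) (hpr t)
      obtain ⟨Θ, hΘ, eΘ⟩ := hlift (V (t + 1)) (hV (t + 1))
      have h1 := (hΦ.comp hΨ).comp hΘ
      refine ⟨_, (show t * (2 * D) + 2 * D + 0 = (t + 1) * (2 * D) by ring) ▸ h1, ?_⟩
      intro x
      simp only [eΦ, eΨ, eΘ]
      congr 1
      ext e'
      simp only [seqU, phase, Matrix.mul_assoc]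
      rw [Matrix.mul_apply]
      simp only [Matrix.mulVec, dotProduct, Matrix.diagonal_mul]
  obtain ⟨Φ, hΦ, eΦ⟩ := main q
  let σ := Fintype.equivFin (E × A)
  obtain ⟨W, hW, eW⟩ := hΦ.transport σ
  let τ : QIdx n (Fintype.card (E × A)) ≃ QI n (E × A) :=
    Equiv.prodCongr (Equiv.refl _) (Equiv.prodCongr (Equiv.refl _) σ.symm)
  refine ⟨Fintype.card (E × A), W, fun s => emb i0 a0 (Pi.single e0 1) (τ s),
    fun s => out (τ s).2.2.1, hW, ?_, ?_⟩
  · rw [Equiv.sum_comp τ (fun s => ‖emb (n := n) i0 a0 (Pi.single e0 (1 : ℂ)) s‖ ^ 2)]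
    rw [sum_emb i0 a0 (Pi.single e0 (1 : ℂ)) (fun _ c => ‖c‖ ^ 2) (by simp)]
    rw [Finset.sum_eq_single e0]
    · simp
    · intro b _ hb
      simp [hb]
    · simp
  · intro x
    have hst : ∀ s, stateAfter W x (fun s => emb i0 a0 (Pi.single e0 1) (τ s)) (q * (2 * D)) s =
        emb i0 a0 (fun e => U x e e0) (τ s) := by
      intro s
      rw [← runZ_eq_stateAfter, ← eW, hU]
      have : (fun s' : QI n (E × A) => (fun s => emb (n := n) i0 a0 (Pi.single e0 (1 : ℂ)) (τ s))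
          (s'.1, s'.2.1, σ s'.2.2)) = emb i0 a0 (Pi.single e0 1) := by
        ext ⟨i, b, z⟩
        simp [τ]
      have h3 := congrFun (eΦ x) (τ s)
      rw [← this] at h3
      exact h3
    simp only [hst]
    refine (h x).trans (le_of_eq ?_)
    rw [hpU]
    rw [Equiv.sum_comp τ (fun s => if out s.2.2.1 = f x then
      ‖emb (n := n) i0 a0 (fun e => U x e e0) s‖ ^ 2 else 0)]
    rw [sum_emb i0 a0 (fun e => U x e e0) (fun e c => if out e = f x then ‖c‖ ^ 2 else 0)
      (by simp)]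
    refine Finset.sum_congr rfl fun e _ => ?_
    split_ifs <;> rfl

end Crest.Agent.S0554
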