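import Crest.Agent.S0554_Defs

/-!
S0554: definitions for the quantum algorithm (tasks T6*).
-/

set_option autoImplicit false

namespace Crest.Agent.S0554

section

variable {ν κ K B : ℕ}

/-- Roots are pairs (column, slot).  `e` kills `r`. -/
def Kill (x : Idx ν κ K B → Bool) (e r : I ν × I ν) : Prop :=
  e ≠ r ∧ (e.1 = r.1 ∨ x (.X r.1 (Pv x e.1 e.2 r.1)) = false ∨
    x (.X e.1 (Pv x r.1 r.2 e.1)) = true)

instance (x : Idx ν κ K B → Bool) : DecidableRel (Kill x) := fun e r => by
  unfold Kill; infer_instance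

/-- Flagged roots. -/
def Cand (x : Idx ν κ K B → Bool) (r : I ν × I ν) : Prop := x (.Fl r.1 r.2) = true

instance (x : Idx ν κ K B → Bool) : DecidablePred (Cand x) := fun r => by
  unfold Cand; infer_instance

/-- The sampling weight of the root `r` (sums to one over all roots). -/
noncomputable def mu (x : Idx ν κ K B → Bool) (r : I ν × I ν) : ℝ :=
  ∑ c : Fin K, (vec (Yv x r.2 c) κ r.1 : ℝ) ^ 2 / (K * 2 ^ ν * (2 ^ ν) ^ (κ + 1))

/-- The surviving weight. -/
noncomputable def MM (x : Idx ν κ K B → Bool) (L : List (I ν × I ν)) : ℝ :=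
  ∑ r, if Cand x r ∧ ∀ e ∈ L, ¬ Kill x e r then mu x r else 0

end

end Crest.Agent.S0554
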