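import Crest.Agent.S0554_Defs
import Crest.Agent.S0554_Defs6

/-!
S0554, task T6d: programs that read a few bits.
-/

set_option autoImplicit false

namespace Crest.Agent.S0554

open Crest.MathPhysics.Query

namespace Prog

variable {ι α β : Type}

theorem eval_bind' (x : ι → Bool) (p : Prog ι α) (f : α → Prog ι β) :
    (p.bind f).eval x = (f (p.eval x)).eval x := by
  induction p with
  | ret a => rfl
  | ask i k ih => exact ih (x i)

theorem depth_bind_le' (p : Prog ι α) (f : α → Prog ι β) {d : ℕ} (h : ∀ a, (f a).depth ≤ d) :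
    (p.bind f).depth ≤ p.depth + d := by
  induction p with
  | ret a => simpa [bind, depth] using h a
  | ask i k ih =>
    have h0 := ih false
    have h1 := ih true
    simp only [bind, depth]
    omega

/-- read a tuple of bits -/
def readAll : (t : ℕ) → (Fin t → ι) → Prog ι (Fin t → Bool)
  | 0, _ => ret fun i => i.elim0
  | t + 1, q => ask (q 0) fun b => (readAll t (Fin.tail q)).bind fun r => ret (Fin.cons b r)

theorem eval_readAll (x : ι → Bool) : ∀ (t : ℕ) (q : Fin t → ι),
    (readAll t q).eval x = fun i => x (q i)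
  | 0, q => by funext i; exact i.elim0
  | t + 1, q => by
    simp only [readAll, eval, eval_bind', eval_readAll x t]
    funext i
    refine Fin.cases ?_ (fun i => ?_) i
    · simp
    · simp [Fin.tail]

theorem depth_readAll : ∀ (t : ℕ) (q : Fin t → ι), (readAll t q).depth ≤ t
  | 0, q => by simp [readAll, depth]
  | t + 1, q => by
    have h : ∀ b : Bool, ((readAll t (Fin.tail q)).bind fun r =>
        (ret (Fin.cons b r) : Prog ι (Fin (t + 1) → Bool))).depth ≤ t := fun b =>
      (depth_bind_le' (d := 0) _ _ (fun a => le_refl _)).trans (by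
        simpa using depth_readAll t (Fin.tail q))
    simp only [readAll, depth]
    have h0 := h false
    have h1 := h true
    omega

/-- A function of the input that depends only on the coordinates in `S` is computed by a program
reading at most `S.card` bits. -/
theorem exists_of_dep (S : Finset ι) (F : (ι → Bool) → α)
    (hF : ∀ x y, (∀ i ∈ S, x i = y i) → F x = F y) :
    ∃ P : Prog ι α, P.depth ≤ S.card ∧ ∀ x, P.eval x = F x := by
  classical
  let e := S.equivFin
  refine ⟨(readAll S.card (fun t => ((e.symm t : S) : ι))).bind fun r =>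
    ret (F fun i => if h : i ∈ S then r (e ⟨i, h⟩) else false), ?_, ?_⟩
  · exact (depth_bind_le' (d := 0) _ _ (fun a => le_refl _)).trans (by
      simpa using depth_readAll _ _)
  · intro x
    rw [eval_bind', eval_readAll]
    simp only [eval]
    refine hF _ _ fun i hi => ?_
    simp [hi]

end Prog

open Prog

section

variable {ν κ K B : ℕ}

theorem kill_or (x : Idx ν κ K B → Bool) (e r : I ν × I ν) (h : e ≠ r) :
    Kill x e r ∨ Kill x r e := by
  unfold Kill
  cases hx : x (.X r.1 (Pv x e.1 e.2 r.1))
  · left; exact ⟨h, Or.inr (Or.inl rfl)⟩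
  · right; exact ⟨h.symm, Or.inr (Or.inr rfl)⟩

theorem valid_not_killed {dec : (Fin B → Bool) → ℤ} {θ : ℝ}
    {x : Idx ν κ K B → Bool} {j s : I ν} (h : Valid dec θ x j s) (e : I ν × I ν)
    (he : Cand x e) : ¬ Kill x e (j, s) := by
  rintro ⟨hne, hk⟩
  by_cases hj : e.1 = j
  · apply hne
    have h1 : x (.Fl j e.2) = true := by rw [← hj]; exact he
    have h2 := (h.flag e.2).mp h1
    exact Prod.ext hj h2
  · rcases hk with h1 | h1 | h1
    · exact hj h1
    · rw [h.col] at h1; exact absurd h1 (by simp)
    · have := h.zero e.1 hj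
      rw [this] at h1; exact absurd h1 (by simp)

/-- the program deciding `Kill` -/
theorem kill_prog (e r : I ν × I ν) :
    ∃ g : Prog (Idx ν κ K B) Bool, g.depth ≤ 2 * ν + 2 ∧ ∀ x, g.eval x = true ↔ Kill x e r := by
  by_cases her : e = r
  · exact ⟨.ret false, Nat.zero_le _, fun x => by simp [Prog.eval, Kill, her]⟩
  by_cases he1 : e.1 = r.1
  · exact ⟨.ret true, Nat.zero_le _, fun x => by simp [Prog.eval, Kill, her, he1]⟩
  have hinner : ∀ w : I ν, (Prog.ask (.X e.1 w) fun b' =>
      (.ret b' : Prog (Idx ν κ K B) Bool)).depth ≤ 1 := fun w => by simp [Prog.depth]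
  have h2 : ((readAll ν (fun t => (.P r.1 r.2 e.1 t : Idx ν κ K B))).bind fun w =>
      Prog.ask (.X e.1 w) fun b' => (.ret b' : Prog (Idx ν κ K B) Bool)).depth ≤ ν + 1 :=
    (depth_bind_le' _ _ hinner).trans (Nat.add_le_add_right (depth_readAll _ _) _)
  refine ⟨(readAll ν (fun t => (.P e.1 e.2 r.1 t : Idx ν κ K B))).bind fun v =>
    .ask (.X r.1 v) fun b => if b then
      ((readAll ν (fun t => (.P r.1 r.2 e.1 t : Idx ν κ K B))).bind fun w =>
        .ask (.X e.1 w) fun b' => .ret b') else .ret true, ?_, fun x => ?_⟩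
  · refine (depth_bind_le' (d := ν + 2) _ _ fun v => ?_).trans ?_
    · simp only [Prog.depth, if_true, Bool.false_eq_true, if_false]
      omega
    · have := depth_readAll ν (fun t => (.P e.1 e.2 r.1 t : Idx ν κ K B))
      omega
  · rw [eval_bind', eval_readAll]
    simp only [Prog.eval]
    unfold Kill
    have hPv : (fun t => x (.P e.1 e.2 r.1 t)) = Pv x e.1 e.2 r.1 := rfl
    rw [hPv]
    cases hx : x (.X r.1 (Pv x e.1 e.2 r.1))
    · simp [Prog.eval, her]
    · simp only [if_true, eval_bind', eval_readAll, Prog.eval]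
      have hPv' : (fun t => x (.P r.1 r.2 e.1 t)) = Pv x r.1 r.2 e.1 := rfl
      rw [hPv']
      simp [her, he1]

theorem good_prog (L : List (I ν × I ν)) (r : I ν × I ν) :
    ∃ g : Prog (Idx ν κ K B) Bool, g.depth ≤ 1 + L.length * (2 * ν + 2) ∧
      ∀ x, g.eval x = true ↔ Cand x r ∧ ∀ e ∈ L, ¬ Kill x e r := by
  induction L with
  | nil =>
    refine ⟨.ask (.Fl r.1 r.2) fun b => .ret b, by simp [Prog.depth], fun x => ?_⟩
    simp [Prog.eval, Cand]
  | cons e L ih =>
    obtain ⟨g, hg, hgx⟩ := ih
    obtain ⟨k, hk, hkx⟩ := kill_prog (κ := κ) (K := K) (B := B) e r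
    refine ⟨k.bind fun b => if b then .ret false else g, ?_, fun x => ?_⟩
    · refine (depth_bind_le' (d := 1 + L.length * (2 * ν + 2)) _ _ fun b => ?_).trans ?_
      · cases b
        · simpa using hg
        · simp [Prog.depth]
      · simp only [List.length_cons]
        nlinarith
    · rw [eval_bind']
      cases hb : k.eval x
      · have hnk : ¬ Kill x e r := fun h => by rw [← hkx x, hb] at h; exact absurd h (by simp)
        simp only [Bool.false_eq_true, if_false, hgx, List.forall_mem_cons]
        tauto
      · have hkk : Kill x e r := (hkx x).mp hb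
        simp only [if_true, Prog.eval, List.forall_mem_cons]
        simp [hkk]

end

/-! ### validity as a conjunction -/

theorem valid_constraints (ν κ K B : ℕ) (hκ : 1 ≤ κ) (dec : (Fin B → Bool) → ℤ) (θ : ℝ)
    (j s : I ν) :
    ∃ (C : Type) (_ : Fintype C) (_ : DecidableEq C) (_ : Nonempty C)
      (viol : C → Prog (Idx ν κ K B) Bool),
      Fintype.card C ≤ (K * κ + 3) * (ν + 1) * 2 ^ ν + 1 ∧
      (∀ c, (viol c).depth ≤ (K + 3) * B + ν + 2) ∧
      ∀ x, Valid dec θ x j s ↔ ∀ c, (viol c).eval x = false := by
  classical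
  -- bits of a transcript word
  let WS : Fin K → Fin κ → Fin (ν + 1) → I ν → Finset (Idx ν κ K B) := fun c a t i =>
    Finset.univ.image fun b => .W j s c a t i b
  have hWS : ∀ c a t i, (WS c a t i).card ≤ B := fun c a t i => by
    refine Finset.card_image_le.trans ?_
    simp
  have hWv : ∀ c a t i (S : Finset (Idx ν κ K B)) (x y : Idx ν κ K B → Bool), WS c a t i ⊆ S →
      (∀ i ∈ S, x i = y i) → Wv dec x j s c a t i = Wv dec y j s c a t i := by
    intro c a t i S x y hS hxy
    unfold Wv
    congr 1
    funext b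
    exact hxy _ (hS (Finset.mem_image_of_mem _ (Finset.mem_univ b)))
  -- each constraint has a program
  have hcol : ∀ r : I ν, ∃ P : Prog (Idx ν κ K B) Bool, P.depth ≤ (K + 3) * B + ν + 2 ∧
      ∀ x, P.eval x = false ↔ x (.X j r) = true := fun r =>
    ⟨.ask (.X j r) fun b => .ret (!b), by simp only [Prog.depth]; omega,
      fun x => by simp [Prog.eval]⟩
  have hflag : ∀ s' : I ν, ∃ P : Prog (Idx ν κ K B) Bool, P.depth ≤ (K + 3) * B + ν + 2 ∧
      ∀ x, P.eval x = false ↔ (x (.Fl j s') = true ↔ s' = s) := fun s' =>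
    ⟨.ask (.Fl j s') fun b => .ret (xor b (decide (s' = s))), by simp only [Prog.depth]; omega,
      fun x => by
        simp only [Prog.eval]
        by_cases h : s' = s <;> simp [h]⟩
  have hzero : ∀ i : I ν, ∃ P : Prog (Idx ν κ K B) Bool, P.depth ≤ (K + 3) * B + ν + 2 ∧
      ∀ x, P.eval x = false ↔ (i ≠ j → x (.X i (Pv x j s i)) = false) := by
    intro i
    by_cases hij : i = j
    · exact ⟨.ret false, Nat.zero_le _, fun x => by simp [Prog.eval, hij]⟩
    · refine ⟨(readAll ν (fun t => (.P j s i t : Idx ν κ K B))).bind fun v =>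
        .ask (.X i v) fun b => .ret b, ?_, fun x => ?_⟩
      · refine (depth_bind_le' (d := 1) _ _ fun v => by simp [Prog.depth]).trans ?_
        have := depth_readAll ν (fun t => (.P j s i t : Idx ν κ K B))
        omega
      · rw [eval_bind', eval_readAll]
        simp only [Prog.eval]
        have hPv : (fun t => x (.P j s i t)) = Pv x j s i := rfl
        rw [hPv]
        simp [hij]
  have hinit : ∀ (c : Fin K) (a : Fin κ) (i : I ν), ∃ P : Prog (Idx ν κ K B) Bool,
      P.depth ≤ (K + 3) * B + ν + 2 ∧
      ∀ x, P.eval x = false ↔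
        Wv dec x j s c a 0 i = sgz (x (.A s c a i)) * Wprev dec x j s c a i := by
    intro c a i
    by_cases ha : a.val = 0
    · obtain ⟨P, hP, hPx⟩ := Prog.exists_of_dep (WS c a 0 i ∪ {.A s c a i})
        (fun x => decide (¬ Wv dec x j s c a 0 i = sgz (x (.A s c a i)) * Wprev dec x j s c a i))
        (by
          intro x y hxy
          have h1 := hWv c a 0 i _ x y Finset.subset_union_left hxy
          have h2 : x (.A s c a i) = y (.A s c a i) := hxy _ (by simp)
          have h3 : Wprev dec x j s c a i = Wprev dec y j s c a i := by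
            simp [Wprev, ha]
          rw [h1, h2, h3])
      refine ⟨P, hP.trans ?_, fun x => by rw [hPx]; simp⟩
      have h1 := Finset.card_union_le (WS c a 0 i) {Idx.A s c a i}
      rw [Finset.card_singleton] at h1
      have h2 := hWS c a 0 i
      nlinarith
    · obtain ⟨P, hP, hPx⟩ := Prog.exists_of_dep (WS c a 0 i ∪ {.A s c a i} ∪
        WS c ⟨a.val - 1, by omega⟩ (Fin.last ν) i)
        (fun x => decide (¬ Wv dec x j s c a 0 i = sgz (x (.A s c a i)) * Wprev dec x j s c a i))
        (by
          intro x y hxy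
          have h1 := hWv c a 0 i _ x y
            (Finset.subset_union_left.trans Finset.subset_union_left) hxy
          have h2 : x (.A s c a i) = y (.A s c a i) := hxy _ (by simp)
          have h3 : Wprev dec x j s c a i = Wprev dec y j s c a i := by
            unfold Wprev
            rw [dif_neg ha, dif_neg ha]
            exact hWv c _ _ i _ x y Finset.subset_union_right hxy
          rw [h1, h2, h3])
      refine ⟨P, hP.trans ?_, fun x => by rw [hPx]; simp⟩
      have h1 := Finset.card_union_le (WS c a 0 i) {Idx.A s c a i}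
      have h1' := Finset.card_union_le (WS c a 0 i ∪ {Idx.A s c a i})
        (WS c ⟨a.val - 1, by omega⟩ (Fin.last ν) i)
      rw [Finset.card_singleton] at h1
      have h2 := hWS c a 0 i
      have h3 := hWS c ⟨a.val - 1, by omega⟩ (Fin.last ν) i
      nlinarith
  have hstep : ∀ (c : Fin K) (a : Fin κ) (t : Fin ν) (i : I ν), ∃ P : Prog (Idx ν κ K B) Bool,
      P.depth ≤ (K + 3) * B + ν + 2 ∧
      ∀ x, P.eval x = false ↔
        Wv dec x j s c a t.succ i =
          ∑ b : Bool, sgz (i t && b) * Wv dec x j s c a t.castSucc (Function.update i t b) := by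
    intro c a t i
    obtain ⟨P, hP, hPx⟩ := Prog.exists_of_dep (WS c a t.succ i ∪
        WS c a t.castSucc (Function.update i t false) ∪
        WS c a t.castSucc (Function.update i t true))
      (fun x => decide (¬ Wv dec x j s c a t.succ i =
        ∑ b : Bool, sgz (i t && b) * Wv dec x j s c a t.castSucc (Function.update i t b)))
      (by
        intro x y hxy
        have h1 := hWv c a t.succ i _ x y
          (Finset.subset_union_left.trans Finset.subset_union_left) hxy
        have h2 := hWv c a t.castSucc (Function.update i t false) _ x y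
          (Finset.subset_union_right.trans Finset.subset_union_left) hxy
        have h3 := hWv c a t.castSucc (Function.update i t true) _ x y
          Finset.subset_union_right hxy
        rw [Fintype.sum_bool, Fintype.sum_bool, h1, h2, h3])
    refine ⟨P, hP.trans ?_, fun x => by rw [hPx]; simp⟩
    have h1 := Finset.card_union_le (WS c a t.succ i)
      (WS c a t.castSucc (Function.update i t false))
    have h2 := Finset.card_union_le (WS c a t.succ i ∪
        WS c a t.castSucc (Function.update i t false))
        (WS c a t.castSucc (Function.update i t true))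
    have h3 := hWS c a t.succ i
    have h4 := hWS c a t.castSucc (Function.update i t false)
    have h5 := hWS c a t.castSucc (Function.update i t true)
    nlinarith
  have hfinal : ∃ P : Prog (Idx ν κ K B) Bool, P.depth ≤ (K + 3) * B + ν + 2 ∧
      ∀ x, P.eval x = false ↔
        θ ≤ ((∑ c, Wv dec x j s c ⟨κ - 1, by omega⟩ (Fin.last ν) j : ℤ) : ℝ) := by
    obtain ⟨P, hP, hPx⟩ := Prog.exists_of_dep
      (Finset.univ.biUnion fun c => WS c ⟨κ - 1, by omega⟩ (Fin.last ν) j)
      (fun x => decide (¬ θ ≤ ((∑ c, Wv dec x j s c ⟨κ - 1, by omega⟩ (Fin.last ν) j : ℤ) : ℝ)))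
      (by
        intro x y hxy
        have h1 : ∀ c, Wv dec x j s c ⟨κ - 1, by omega⟩ (Fin.last ν) j =
            Wv dec y j s c ⟨κ - 1, by omega⟩ (Fin.last ν) j := fun c =>
          hWv c _ _ j _ x y (Finset.subset_biUnion_of_mem
            (fun c => WS c ⟨κ - 1, by omega⟩ (Fin.last ν) j) (Finset.mem_univ c)) hxy
        rw [Finset.sum_congr rfl fun c _ => h1 c])
    refine ⟨P, hP.trans ?_, fun x => by rw [hPx]; simp⟩
    have h1 := Finset.card_biUnion_le_card_mul (Finset.univ : Finset (Fin K))
      (fun c => WS c ⟨κ - 1, by omega⟩ (Fin.last ν) j) B (fun c _ => hWS c _ _ j)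
    rw [Finset.card_univ, Fintype.card_fin] at h1
    nlinarith
  choose Pc hPc hPc' using hcol
  choose Pf hPf hPf' using hflag
  choose Pz hPz hPz' using hzero
  choose Pi hPi hPi' using hinit
  choose Ps hPs hPs' using hstep
  obtain ⟨Pl, hPl, hPl'⟩ := hfinal
  refine ⟨I ν ⊕ I ν ⊕ I ν ⊕ (Fin K × Fin κ × Fin (ν + 1) × I ν) ⊕ Unit, inferInstance,
    inferInstance, ⟨.inr (.inr (.inr (.inr ())))⟩, fun cc => match cc with
    | .inl r => Pc r
    | .inr (.inl s') => Pf s'
    | .inr (.inr (.inl i)) => Pz i
    | .inr (.inr (.inr (.inl (c, a, t, i)))) =>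
      Fin.cases (Pi c a i) (fun t => Ps c a t i) t
    | .inr (.inr (.inr (.inr ()))) => Pl, ?_, ?_, ?_⟩
  · simp only [Fintype.card_sum, Fintype.card_prod, Fintype.card_pi, Fintype.card_fin,
      Fintype.card_bool, Finset.prod_const, Finset.card_univ, Fintype.card_unit]
    have h1 : 1 ≤ 2 ^ ν := Nat.one_le_two_pow
    nlinarith [Nat.zero_le (ν * 2 ^ ν)]
  · rintro (r | s' | i | ⟨c, a, t, i⟩ | _)
    · exact hPc r
    · exact hPf s'
    · exact hPz i
    · refine Fin.cases ?_ (fun t => ?_) t
      · exact hPi c a i
      · exact hPs c a t i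
    · exact hPl
  · intro x
    constructor
    · intro h
      rintro (r | s' | i | ⟨c, a, t, i⟩ | _)
      · exact (hPc' r x).mpr (h.col r)
      · exact (hPf' s' x).mpr (h.flag s')
      · exact (hPz' i x).mpr (h.zero i)
      · revert t
        refine Fin.cases ?_ (fun t => ?_)
        · exact (hPi' c a i x).mpr (h.init c a i)
        · exact (hPs' c a t i x).mpr (h.step c a t i)
      · exact (hPl' x).mpr (h.final (by omega))
    · intro h
      exact
        { col := fun r => (hPc' r x).mp (h (.inl r))
          flag := fun s' => (hPf' s' x).mp (h (.inr (.inl s')))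
          zero := fun i => (hPz' i x).mp (h (.inr (.inr (.inl i))))
          init := fun c a i => (hPi' c a i x).mp (h (.inr (.inr (.inr (.inl (c, a, 0, i))))))
          step := fun c a t i => (hPs' c a t i x).mp
            (h (.inr (.inr (.inr (.inl (c, a, t.succ, i))))))
          final := fun _ => (hPl' x).mp (h (.inr (.inr (.inr (.inr ()))))) }

end Crest.Agent.S0554
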