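import Crest.Agent.S0554_Defs

/-!
S0554 T2a: closure properties of `Impl`.
-/

set_option autoImplicit false
set_option linter.unusedSectionVars false

namespace Crest.Agent.S0554

open Crest.MathPhysics.Query

section Q

variable {ι : Type} {D q : ℕ}

section Basic

variable {E : Type} [Fintype E] [DecidableEq E]

theorem seqU_congr {V V' : ℕ → Matrix E E ℂ} {pr pr' : ℕ → E → Prog ι Bool} (x : ι → Bool)
    (q : ℕ) (hV : ∀ t ≤ q, V t = V' t) (hpr : ∀ t < q, pr t = pr' t) :
    seqU V pr x q = seqU V' pr' x q := by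
  induction q with
  | zero => simpa [seqU] using hV 0 le_rfl
  | succ q ih =>
    simp only [seqU]
    rw [ih (fun t ht => hV t (by omega)) (fun t ht => hpr t (by omega)), hV (q + 1) le_rfl,
      hpr q (by omega)]

theorem phase_star (f : E → Bool) : (phase f).conjTranspose = phase f := by
  unfold phase
  rw [Matrix.diagonal_conjTranspose]
  congr 1
  funext e
  by_cases h : f e <;> simp [h]

theorem phase_mul_self (f : E → Bool) : phase f * phase f = 1 := by
  unfold phase
  rw [Matrix.diagonal_mul_diagonal, ← Matrix.diagonal_one]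
  congr 1
  funext e
  by_cases h : f e <;> simp [h]

theorem phase_mem (f : E → Bool) : phase f ∈ Matrix.unitaryGroup E ℂ := by
  rw [Matrix.mem_unitaryGroup_iff, Matrix.star_eq_conjTranspose, phase_star, phase_mul_self]

theorem phase_false : phase (fun _ : E => false) = 1 := by
  unfold phase
  simp

theorem Impl.const (D : ℕ) (V : Matrix E E ℂ)
    (hV : V ∈ Matrix.unitaryGroup E ℂ) : Impl D 0 (fun _ : ι → Bool => V) :=
  ⟨fun _ => V, fun _ _ => .ret false, fun _ => hV, fun _ _ => Nat.zero_le _, fun _ => rfl⟩

/-- One more query on top. -/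
theorem Impl.step {U : (ι → Bool) → Matrix E E ℂ} (h : Impl D q U) (W : Matrix E E ℂ)
    (hW : W ∈ Matrix.unitaryGroup E ℂ) (p : E → Prog ι Bool) (hp : ∀ e, (p e).depth ≤ D) :
    Impl D (q + 1) (fun x => W * phase (fun e => (p e).eval x) * U x) := by
  obtain ⟨V, pr, hV, hpr, hU⟩ := h
  refine ⟨fun t => if t ≤ q then V t else W, fun t => if t < q then pr t else p, ?_, ?_, ?_⟩
  · intro t
    by_cases ht : t ≤ q
    · simpa [ht] using hV t
    · simpa [ht] using hW
  · intro t e
    by_cases ht : t < q
    · simpa [ht] using hpr t e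
    · simpa [ht] using hp e
  · intro x
    have h1 : seqU (fun t => if t ≤ q then V t else W) (fun t => if t < q then pr t else p) x q
        = seqU V pr x q :=
      seqU_congr x q (fun t ht => by simp [ht]) (fun t ht => by simp [ht])
    simp only [seqU]
    rw [h1, hU x]
    simp

/-- Left multiplication by a constant unitary. -/
theorem Impl.constMul {U : (ι → Bool) → Matrix E E ℂ} (h : Impl D q U) (W : Matrix E E ℂ)
    (hW : W ∈ Matrix.unitaryGroup E ℂ) : Impl D q (fun x => W * U x) := by
  obtain ⟨V, pr, hV, hpr, hU⟩ := h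
  refine ⟨fun t => if t = q then W * V q else V t, pr, ?_, hpr, ?_⟩
  · intro t
    by_cases ht : t = q
    · simpa [ht] using mul_mem hW (hV q)
    · simpa [ht] using hV t
  · intro x
    simp only [hU x]
    cases q with
    | zero => simp [seqU]
    | succ q =>
      simp only [seqU]
      have h1 : seqU (fun t => if t = q + 1 then W * V (q + 1) else V t) pr x q
          = seqU V pr x q :=
        seqU_congr x q (fun t ht => by
          have : t ≠ q + 1 := by omega
          simp [this]) (fun t ht => rfl)
      rw [h1]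
      simp [Matrix.mul_assoc]

theorem Impl.query (pr : E → Prog ι Bool)
    (h : ∀ e, (pr e).depth ≤ D) : Impl D 1 (fun x => phase (fun e => (pr e).eval x)) := by
  have := (Impl.const (ι := ι) D (1 : Matrix E E ℂ) (one_mem _)).step 1 (one_mem _) pr h
  simpa using this

theorem Impl.mul {q₁ q₂ : ℕ}
    {U₁ U₂ : (ι → Bool) → Matrix E E ℂ} (h₁ : Impl D q₁ U₁) (h₂ : Impl D q₂ U₂) :
    Impl D (q₁ + q₂) (fun x => U₂ x * U₁ x) := by
  obtain ⟨V, pr, hV, hpr, hU⟩ := h₂
  have key : ∀ t, Impl D (q₁ + t) (fun x => seqU V pr x t * U₁ x) := by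
    intro t
    induction t with
    | zero => exact h₁.constMul (V 0) (hV 0)
    | succ t ih =>
      have := ih.step (V (t + 1)) (hV _) (pr t) (hpr t)
      simpa [seqU, Matrix.mul_assoc, Nat.add_assoc] using this
  have := key q₂
  simpa [← hU] using this

theorem Impl.unitary {U : (ι → Bool) → Matrix E E ℂ}
    (h : Impl D q U) (x : ι → Bool) : U x ∈ Matrix.unitaryGroup E ℂ := by
  obtain ⟨V, pr, hV, -, hU⟩ := h
  rw [hU x]
  clear hU
  induction q with
  | zero => exact hV 0
  | succ q ih => exact mul_mem (mul_mem (hV _) (phase_mem _)) ih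

theorem conjTranspose_mem {V : Matrix E E ℂ} (hV : V ∈ Matrix.unitaryGroup E ℂ) :
    V.conjTranspose ∈ Matrix.unitaryGroup E ℂ := by
  rw [← Matrix.star_eq_conjTranspose]
  exact Unitary.star_mem hV

theorem Impl.inv {U : (ι → Bool) → Matrix E E ℂ}
    (h : Impl D q U) : Impl D q (fun x => (U x).conjTranspose) := by
  obtain ⟨V, pr, hV, hpr, hU⟩ := h
  have key : ∀ t, Impl D t (fun x => (seqU V pr x t).conjTranspose) := by
    intro t
    induction t with
    | zero => exact Impl.const D _ (conjTranspose_mem (hV 0))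
    | succ t ih =>
      have h1 : Impl D 1 (fun x : ι → Bool =>
          phase (fun e => (pr t e).eval x) * (V (t + 1)).conjTranspose) := by
        have := (Impl.const (ι := ι) D _ (conjTranspose_mem (hV (t + 1)))).step 1 (one_mem _)
          (pr t) (hpr t)
        simpa using this
      have h2 := h1.mul ih
      rw [Nat.add_comm] at h2
      simpa [seqU, Matrix.conjTranspose_mul, phase_star, Matrix.mul_assoc] using h2
  have := key q
  simpa [← hU] using this

theorem Impl.mono_q {U : (ι → Bool) → Matrix E E ℂ}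
    {q' : ℕ} (hq : q ≤ q') (h : Impl D q U) : Impl D q' U := by
  induction q', hq using Nat.le_induction with
  | base => exact h
  | succ t _ ih =>
    have := ih.step 1 (one_mem _) (fun _ => .ret false) (fun _ => Nat.zero_le _)
    simpa [Prog.eval, phase_false] using this

theorem Impl.mono_D {U : (ι → Bool) → Matrix E E ℂ}
    {D' : ℕ} (hD : D ≤ D') (h : Impl D q U) : Impl D' q U := by
  obtain ⟨V, pr, hV, hpr, hU⟩ := h
  exact ⟨V, pr, hV, fun t e => (hpr t e).trans hD, hU⟩

end Basic

/-! ### block diagonal matrices -/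

section Block

/-- block diagonal matrix, block index first -/
def blk {B E : Type} [DecidableEq B] (U : B → Matrix E E ℂ) : Matrix (B × E) (B × E) ℂ :=
  Matrix.of fun be be' : B × E => if be.1 = be'.1 then U be.1 be.2 be'.2 else 0

variable {B E : Type} [Fintype E] [DecidableEq E] [Fintype B] [DecidableEq B]

theorem blk_mul (U V : B → Matrix E E ℂ) : blk U * blk V = blk fun b => U b * V b := by
  ext ⟨b, e⟩ ⟨b', e'⟩
  rw [Matrix.mul_apply, Fintype.sum_prod_type]
  simp only [blk, Matrix.of_apply]
  rw [Finset.sum_eq_single b]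
  · by_cases h : b = b'
    · simp [h, Matrix.mul_apply]
    · simp [h]
  · intro c _ hc
    simp [Ne.symm hc]
  · simp

theorem blk_one : blk (fun _ : B => (1 : Matrix E E ℂ)) = 1 := by
  ext ⟨b, e⟩ ⟨b', e'⟩
  simp only [blk, Matrix.of_apply, Matrix.one_apply, Prod.mk.injEq]
  by_cases h : b = b' <;> by_cases h' : e = e' <;> simp [h, h']

theorem blk_star (U : B → Matrix E E ℂ) :
    (blk U).conjTranspose = blk fun b => (U b).conjTranspose := by
  ext ⟨b, e⟩ ⟨b', e'⟩
  simp only [blk, Matrix.of_apply, Matrix.conjTranspose_apply]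
  by_cases h : b = b'
  · simp [h]
  · simp [h, Ne.symm h]

theorem blk_mem {U : B → Matrix E E ℂ} (hU : ∀ b, U b ∈ Matrix.unitaryGroup E ℂ) :
    blk U ∈ Matrix.unitaryGroup (B × E) ℂ := by
  rw [Matrix.mem_unitaryGroup_iff, Matrix.star_eq_conjTranspose, blk_star, blk_mul, ← blk_one]
  congr 1
  funext b
  have := Matrix.mem_unitaryGroup_iff.1 (hU b)
  rwa [Matrix.star_eq_conjTranspose] at this

theorem blk_phase (f : B → E → Bool) :
    blk (fun b => phase (f b)) = phase fun be : B × E => f be.1 be.2 := by
  ext ⟨b, e⟩ ⟨b', e'⟩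
  simp only [blk, phase, Matrix.of_apply, Matrix.diagonal_apply, Prod.mk.injEq]
  by_cases h : b = b' <;> by_cases h' : e = e' <;> simp [h, h']

theorem blk_seqU (V : B → ℕ → Matrix E E ℂ) (pr : B → ℕ → E → Prog ι Bool) (x : ι → Bool)
    (q : ℕ) : blk (fun b => seqU (V b) (pr b) x q) =
      seqU (fun t => blk fun b => V b t) (fun t be => pr be.1 t be.2) x q := by
  induction q with
  | zero => rfl
  | succ q ih =>
    simp only [seqU]
    rw [← ih, ← blk_phase (fun b e => (pr b q e).eval x), blk_mul, blk_mul]

theorem Impl.blk {U : B → (ι → Bool) → Matrix E E ℂ} (h : ∀ b, Impl D q (U b)) :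
    Impl D q (fun x => S0554.blk fun b => U b x) := by
  choose V pr hV hpr hU using h
  refine ⟨fun t => S0554.blk fun b => V b t, fun t be => pr be.1 t be.2,
    fun t => blk_mem fun b => hV b t, fun t be => hpr be.1 t be.2, fun x => ?_⟩
  rw [← blk_seqU]
  exact congrArg S0554.blk (funext fun b => hU b x)

/-- block-controlled application -/
theorem Impl.block
    {U : B → (ι → Bool) → Matrix E E ℂ} (h : ∀ b, Impl D q (U b)) :
    Impl D q (fun x => (Matrix.of fun be be' : B × E =>
      if be.1 = be'.1 then U be.1 x be.2 be'.2 else 0)) :=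
  Impl.blk h

end Block

/-- acting on the second factor -/
theorem Impl.lift_right {F E : Type} [Fintype E] [DecidableEq E] [Fintype F] [DecidableEq F]
    {U : (ι → Bool) → Matrix E E ℂ} (h : Impl D q U) :
    Impl D q (fun x => (Matrix.of fun fe fe' : F × E =>
      if fe.1 = fe'.1 then U x fe.2 fe'.2 else 0)) :=
  Impl.blk (B := F) (U := fun _ => U) fun _ => h

/-- transport along an equivalence of basis states -/
theorem Impl.reindex {E E' : Type} [Fintype E] [DecidableEq E] [Fintype E'] [DecidableEq E']
    (g : E' ≃ E) {U : (ι → Bool) → Matrix E E ℂ} (h : Impl D q U) :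
    Impl D q (fun x => (U x).submatrix g g) := by
  obtain ⟨V, pr, hV, hpr, hU⟩ := h
  refine ⟨fun t => (V t).submatrix g g, fun t e => pr t (g e), fun t => ?_,
    fun t e => hpr t (g e), fun x => ?_⟩
  · have := Matrix.mem_unitaryGroup_iff.1 (hV t)
    rw [Matrix.mem_unitaryGroup_iff, Matrix.star_eq_conjTranspose, Matrix.conjTranspose_submatrix,
      Matrix.submatrix_mul_equiv, ← Matrix.star_eq_conjTranspose, this, Matrix.submatrix_one_equiv]
  · simp only [hU x]
    clear hU
    induction q with
    | zero => rfl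
    | succ q ih =>
      simp only [seqU]
      rw [← ih, ← Matrix.submatrix_mul_equiv _ _ g g g, ← Matrix.submatrix_mul_equiv _ _ g g g]
      congr 2
      ext e e'
      simp [phase, Matrix.diagonal_apply]

/-- acting on the first factor -/
theorem Impl.lift_left {F E : Type} [Fintype E] [DecidableEq E] [Fintype F] [DecidableEq F]
    {U : (ι → Bool) → Matrix E E ℂ} (h : Impl D q U) :
    Impl D q (fun x => (Matrix.of fun ef ef' : E × F =>
      if ef.2 = ef'.2 then U x ef.1 ef'.1 else 0)) :=
  (Impl.lift_right (F := F) h).reindex (Equiv.prodComm E F)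

/-- any unit vector is the first column of a unitary -/
theorem exists_unitary_col {E : Type} [Fintype E] [DecidableEq E] (e0 : E) (v : E → ℂ)
    (hv : ∑ e, ‖v e‖ ^ 2 = 1) : ∃ U ∈ Matrix.unitaryGroup E ℂ, ∀ e, U e e0 = v e := by
  classical
  set w : EuclideanSpace ℂ E := WithLp.toLp 2 v with hw
  have hnorm : ‖w‖ = 1 := by
    rw [EuclideanSpace.norm_eq]
    simp [hw, hv]
  have horth : Orthonormal ℂ (({e0} : Set E).domRestrict (fun _ : E => w)) := by
    constructor
    · intro i; exact hnorm
    · intro i j hij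
      exact absurd (Subsingleton.elim i j) hij
  obtain ⟨b, hb⟩ := horth.exists_orthonormalBasis_extension_of_card_eq
    (ι := E) (by simp)
  refine ⟨(EuclideanSpace.basisFun E ℂ).toBasis.toMatrix b, ?_, ?_⟩
  · exact (EuclideanSpace.basisFun E ℂ).toMatrix_orthonormalBasis_mem_unitary b
  · intro e
    have : b e0 = w := hb e0 rfl
    simp [Module.Basis.toMatrix_apply, this, hw]

end Q

end Crest.Agent.S0554
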