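import Crest.Agent.S0554_Defs

/-!
S0554 T4a: state preparation for iterated forrelation.
-/

set_option autoImplicit false

namespace Crest.Agent.S0554

open Crest.MathPhysics.Query

namespace Prep

/-- any unit vector is the first column of a unitary -/
theorem exists_col {E : Type} [Fintype E] [DecidableEq E] (e0 : E) (v : E → ℂ)
    (hv : ∑ e, ‖v e‖ ^ 2 = 1) : ∃ U ∈ Matrix.unitaryGroup E ℂ, ∀ e, U e e0 = v e := by
  classical
  have h1 : Orthonormal ℂ (({e0} : Set E).domRestrict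
      (fun _ : E => (WithLp.toLp 2 v : EuclideanSpace ℂ E))) := by
    constructor
    · intro i
      show ‖(WithLp.toLp 2 v : EuclideanSpace ℂ E)‖ = 1
      rw [EuclideanSpace.norm_eq]
      simp [hv]
    · rintro ⟨i, hi⟩ ⟨j, hj⟩ hij
      exact absurd (Subtype.ext (hi.trans hj.symm)) hij
  obtain ⟨b, hb⟩ := h1.exists_orthonormalBasis_extension_of_card_eq (by simp)
  refine ⟨Matrix.of fun e e' => b e' e, ?_, ?_⟩
  · rw [Matrix.mem_unitaryGroup_iff']
    ext i j
    rw [Matrix.mul_apply]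
    have := (orthonormal_iff_ite.mp b.orthonormal) i j
    rw [Matrix.one_apply, ← this]
    simp [PiLp.inner_apply, Matrix.star_apply, mul_comm]
  · intro e
    have := hb e0 rfl
    simp [this]

theorem sgz_mul_self (b : Bool) : sgz b * sgz b = 1 := by cases b <;> rfl

theorem chz_orth {ν : ℕ} (j j' : I ν) :
    ∑ i : I ν, chz j i * chz j' i = if j = j' then 2 ^ ν else 0 := by
  have h1 : ∀ i : I ν, chz j i * chz j' i = ∏ t, (sgz (j t && i t) * sgz (j' t && i t)) := by
    intro i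
    simp only [chz, Finset.prod_mul_distrib]
  simp_rw [h1]
  have h2 := Finset.prod_univ_sum (fun _ : Fin ν => (Finset.univ : Finset Bool))
    (fun t b => sgz (j t && b) * sgz (j' t && b))
  rw [Fintype.piFinset_univ] at h2
  rw [← h2]
  split_ifs with h
  · subst h
    have : ∀ t : Fin ν, ∑ b : Bool, sgz (j t && b) * sgz (j t && b) = 2 := by
      intro t
      simp only [sgz_mul_self]
      simp
    rw [Finset.prod_congr rfl (fun t _ => this t)]
    simp
  · obtain ⟨t, ht⟩ := Function.ne_iff.mp h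
    refine Finset.prod_eq_zero (Finset.mem_univ t) ?_
    cases h1 : j t <;> cases h2 : j' t <;> simp [h1, h2, sgz] at ht ⊢

/-- Walsh-Hadamard transform on the position register. -/
noncomputable def Wh (ν K : ℕ) :
    Matrix (I ν × Fin K × I ν × Bool × Bool) (I ν × Fin K × I ν × Bool × Bool) ℂ :=
  Matrix.of fun e e' =>
    if e.1 = e'.1 ∧ e.2.1 = e'.2.1 ∧ e.2.2.2 = e'.2.2.2 then
      ((1 / √(2 ^ ν : ℝ) : ℝ) : ℂ) * ((chz e.2.2.1 e'.2.2.1 : ℤ) : ℂ) else 0

/-- the action of `Wh` on a vector -/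
theorem Wh_sum (ν K : ℕ) (s : I ν) (c : Fin K) (j : I ν) (b : Bool × Bool)
    (f : I ν × Fin K × I ν × Bool × Bool → ℂ) :
    ∑ e', Wh ν K (s, c, j, b) e' * f e' =
      ∑ i : I ν, ((1 / √(2 ^ ν : ℝ) : ℝ) : ℂ) * ((chz j i : ℤ) : ℂ) * f (s, c, i, b) := by
  rw [Fintype.sum_prod_type]
  rw [Finset.sum_eq_single s]
  · rw [Fintype.sum_prod_type]
    rw [Finset.sum_eq_single c]
    · rw [Fintype.sum_prod_type]
      refine Finset.sum_congr rfl fun i _ => ?_
      rw [Finset.sum_eq_single b]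
      · simp [Wh]
      · intro b' _ hb'
        simp only [Wh, Matrix.of_apply]
        rw [if_neg (by rintro ⟨-, -, h⟩; exact hb' h.symm), zero_mul]
      · simp
    · intro c' _ hc'
      refine Finset.sum_eq_zero fun e _ => ?_
      simp only [Wh, Matrix.of_apply]
      rw [if_neg (by rintro ⟨-, h, -⟩; exact hc' h.symm), zero_mul]
    · simp
  · intro s' _ hs'
    refine Finset.sum_eq_zero fun e _ => ?_
    simp only [Wh, Matrix.of_apply]
    rw [if_neg (by rintro ⟨h, -, -⟩; exact hs' h.symm), zero_mul]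
  · simp

theorem Wh_mem (ν K : ℕ) : Wh ν K ∈ Matrix.unitaryGroup _ ℂ := by
  rw [Matrix.mem_unitaryGroup_iff]
  ext ⟨s, c, j, b⟩ ⟨s', c', j', b'⟩
  rw [Matrix.mul_apply, Wh_sum, Matrix.one_apply]
  have hpos : (0:ℝ) < 2 ^ ν := by positivity
  have hsq : ((1 / √(2 ^ ν : ℝ) : ℝ) : ℂ) * ((1 / √(2 ^ ν : ℝ) : ℝ) : ℂ) = 1 / (2 : ℂ) ^ ν := by
    rw [← Complex.ofReal_mul]
    have : 1 / √(2 ^ ν : ℝ) * (1 / √(2 ^ ν : ℝ)) = 1 / 2 ^ ν := by
      rw [div_mul_div_comm, Real.mul_self_sqrt hpos.le, one_mul]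
    rw [this]
    push_cast
    rfl
  by_cases h : s = s' ∧ c = c' ∧ b = b'
  · obtain ⟨rfl, rfl, rfl⟩ := h
    have h1 : ∀ i : I ν, ((1 / √(2 ^ ν : ℝ) : ℝ) : ℂ) * ((chz j i : ℤ) : ℂ) *
        star (Wh ν K) (s, c, i, b) (s, c, j', b) = 1 / (2 : ℂ) ^ ν * ((chz j i * chz j' i : ℤ) : ℂ) := by
      intro i
      have : star (Wh ν K) (s, c, i, b) (s, c, j', b) =
          ((1 / √(2 ^ ν : ℝ) : ℝ) : ℂ) * ((chz j' i : ℤ) : ℂ) := by
        rw [Matrix.star_apply]
        simp [Wh]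
      rw [this, ← hsq]
      push_cast
      ring
    simp_rw [h1]
    rw [← Finset.mul_sum, ← Int.cast_sum, chz_orth]
    by_cases hj : j = j'
    · subst hj
      simp
    · rw [if_neg hj, if_neg (by simp [hj])]
      simp
  · rw [if_neg (by
      intro h'
      apply h
      simp only [Prod.mk.injEq] at h'
      exact ⟨h'.1, h'.2.1, h'.2.2.2⟩)]
    refine Finset.sum_eq_zero fun i _ => ?_
    have : star (Wh ν K) (s, c, i, b) (s', c', j', b') = 0 := by
      rw [Matrix.star_apply]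
      simp only [Wh, Matrix.of_apply]
      rw [if_neg (by rintro ⟨h1, h2, h3⟩; exact h ⟨h1.symm, h2.symm, h3.symm⟩), star_zero]
    rw [this, mul_zero]

end Prep

open Prep in
theorem state_prep (ν κ K B : ℕ) (hK : 0 < K) :
    ∃ (A : (Idx ν κ K B → Bool) →
        Matrix (I ν × Fin K × I ν × Bool × Bool) (I ν × Fin K × I ν × Bool × Bool) ℂ)
      (e0 : I ν × Fin K × I ν × Bool × Bool), Impl 1 κ A ∧
      ∀ x s c j b₁ b₂, ‖A x (s, c, j, b₁, b₂) e0‖ ^ 2 =
        (vec (Yv x s c) κ j : ℝ) ^ 2 / (4 * K * 2 ^ ν * (2 ^ ν) ^ (κ + 1)) := by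
  set E := I ν × Fin K × I ν × Bool × Bool
  let e0 : E := (fun _ => false, ⟨0, hK⟩, fun _ => false, false, false)
  have hcard : (Fintype.card E : ℝ) = 4 * K * 2 ^ ν * 2 ^ ν := by
    simp only [E, Fintype.card_prod, Fintype.card_fun, Fintype.card_bool, Fintype.card_fin]
    push_cast
    ring
  have hKr : (0:ℝ) < K := by exact_mod_cast hK
  have hcpos : (0:ℝ) < Fintype.card E := by rw [hcard]; positivity
  obtain ⟨V0, hV0, hV0c⟩ := exists_col e0 (fun _ : E => ((1 / √(Fintype.card E : ℝ) : ℝ) : ℂ)) (by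
    simp only [Complex.norm_real, Real.norm_eq_abs, sq_abs, div_pow, one_pow, Real.sq_sqrt hcpos.le]
    rw [Finset.sum_const, Finset.card_univ, nsmul_eq_mul]
    field_simp)
  let V : ℕ → Matrix E E ℂ := fun t => if t = 0 then V0 else Wh ν K
  let pr : ℕ → E → Prog (Idx ν κ K B) Bool := fun t e =>
    if h : t < κ then .ask (.A e.1 e.2.1 ⟨t, h⟩ e.2.2.1) .ret else .ret false
  have key : ∀ x : Idx ν κ K B → Bool, ∀ t, t ≤ κ → ∀ s c j b,
      seqU V pr x t (s, c, j, b) e0 =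
        ((1 / √(Fintype.card E : ℝ) : ℝ) : ℂ) * ((1 / √(2 ^ ν : ℝ) : ℝ) : ℂ) ^ t *
          ((vec (Yv x s c) t j : ℤ) : ℂ) := by
    intro x t
    induction t with
    | zero =>
      intro _ s c j b
      simp only [seqU, V, if_true, hV0c, vec]
      simp
    | succ t ih =>
      intro ht s c j b
      have ih' := ih (by omega)
      simp only [seqU, V, Nat.add_eq_zero_iff, one_ne_zero, and_false, if_false]
      rw [Matrix.mul_assoc, Matrix.mul_apply, Wh_sum]
      simp only [phase, Matrix.diagonal_mul, vec]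
      rw [Int.cast_sum, Finset.mul_sum]
      refine Finset.sum_congr rfl fun i _ => ?_
      rw [ih' s c i b]
      have hsg : (if (pr t (s, c, i, b)).eval x = true then (-1 : ℂ) else 1) =
          ((sgz (Yv x s c t i) : ℤ) : ℂ) := by
        have ht' : t < κ := by omega
        simp only [pr, ht', dif_pos, Prog.eval, Yv, sgz]
        split_ifs <;> simp
      rw [hsg]
      push_cast
      ring
  refine ⟨fun x => seqU V pr x κ, e0, ⟨V, pr, ?_, ?_, fun x => rfl⟩, ?_⟩
  · intro t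
    simp only [V]
    split_ifs
    · exact hV0
    · exact Wh_mem ν K
  · intro t e
    simp only [pr]
    split_ifs <;> simp [Prog.depth]
  · intro x s c j b₁ b₂
    have := key x κ le_rfl s c j (b₁, b₂)
    show ‖seqU V pr x κ (s, c, j, b₁, b₂) e0‖ ^ 2 = _
    rw [this]
    rw [norm_mul, norm_mul, norm_pow, mul_pow, mul_pow]
    simp only [Complex.norm_real, Real.norm_eq_abs, sq_abs]
    have h1 : ‖((vec (Yv x s c) κ j : ℤ) : ℂ)‖ ^ 2 = (vec (Yv x s c) κ j : ℝ) ^ 2 := by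
      rw [Complex.norm_intCast, sq_abs]
    rw [h1]
    have h2 : (1 / √(Fintype.card E : ℝ)) ^ 2 = 1 / (4 * K * 2 ^ ν * 2 ^ ν) := by
      rw [div_pow, one_pow, Real.sq_sqrt hcpos.le, hcard]
    have h3 : (|1 / √(2 ^ ν : ℝ)| ^ κ) ^ 2 = 1 / (2 ^ ν) ^ κ := by
      rw [← pow_mul, mul_comm, pow_mul, sq_abs, div_pow, one_pow, Real.sq_sqrt (by positivity)]
      rw [div_pow, one_pow]
    rw [h2, h3]
    rw [pow_succ ((2:ℝ) ^ ν) κ]
    field_simp

end Crest.Agent.S0554
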