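import Crest.Agent.S0554_Amp
import Crest.Agent.S0554_ClosRlz

/-!
S0554, task T6a: first success among `R` trials; amplified and certified search.
-/

set_option autoImplicit false

namespace Crest.Agent.S0554

open Crest.MathPhysics.Query

theorem rlz_first {ι : Type} {D q : ℕ} {β : Type} [Fintype β]
    {p : (ι → Bool) → Option β → ℝ} (h : Rlz D q p) (R : ℕ) :
    ∃ p' : (ι → Bool) → Option β → ℝ, Rlz D (R * q) p' ∧
      ∀ x, (∀ b, p' x (some b) = (∑ i ∈ Finset.range R, (p x none) ^ i) * p x (some b)) ∧
        p' x none = (p x none) ^ R := by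
  classical
  induction R with
  | zero =>
    refine ⟨_, (by rw [Nat.zero_mul]; exact Rlz.pure none), fun x => ⟨fun b => ?_, ?_⟩⟩
    · simp
    · simp
  | succ R ih =>
    obtain ⟨p', hp', hlaw⟩ := ih
    have hb := Rlz.bind h (p' := fun o => match o with
      | none => p'
      | some b => fun (_ : ι → Bool) (c : Option β) => if c = some b then 1 else 0)
      (q₂ := R * q) (fun o => by
        cases o with
        | none => exact hp'
        | some b =>
          have := (Rlz.pure (ι := ι) (D := D) (some b)).mono_q (Nat.zero_le (R * q))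
          convert this)
    have hq : q + R * q = (R + 1) * q := by ring
    rw [hq] at hb
    refine ⟨_, hb, fun x => ⟨fun b => ?_, ?_⟩⟩
    · rw [Fintype.sum_option]
      simp only [(hlaw x).1 b]
      rw [Finset.sum_eq_single b]
      · rw [if_pos rfl, Finset.sum_range_succ', Finset.sum_congr rfl fun i _ => pow_succ' (p x none) i,
          ← Finset.mul_sum]
        ring
      · intro b' _ hne
        rw [if_neg (fun hc => hne (Option.some.inj hc).symm), mul_zero]
      · intro hb; exact absurd (Finset.mem_univ _) hb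
    · rw [Fintype.sum_option]
      simp only [(hlaw x).2]
      simp [pow_succ']

theorem rlz_search {ι : Type} {D : ℕ} {E : Type} [Fintype E] [DecidableEq E] {a : ℕ}
    {A : (ι → Bool) → Matrix E E ℂ} (hA : Impl D a A) (e0 : E) (g : E → Prog ι Bool)
    (hg : ∀ e, (g e).depth ≤ D) (J : ℕ) (hJ : 0 < J) (R : ℕ) :
    ∃ p : (ι → Bool) → Option E → ℝ, Rlz D (R * (a + J * (2 * a + 1) + 1)) p ∧
      (∀ x e, (g e).eval x = false → p x (some e) = 0) ∧
      ∀ x, 0 < (∑ e, if (g e).eval x then ‖A x e e0‖ ^ 2 else 0) →
        (∑ e, if (g e).eval x then ‖A x e e0‖ ^ 2 else 0) ≤ 1 / 4 →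
        1 / √(∑ e, if (g e).eval x then ‖A x e e0‖ ^ 2 else 0) ≤ J →
        ∃ σ : ℝ, 1 - (3 / 4) ^ R ≤ σ ∧ σ ≤ 1 ∧ ∀ e, (g e).eval x = true →
          p x (some e) =
            σ / (∑ e, if (g e).eval x then ‖A x e e0‖ ^ 2 else 0) * ‖A x e e0‖ ^ 2 := by
  obtain ⟨p, hp, hlaw⟩ := rlz_amp hA e0 g hg J hJ
  -- one certified trial
  have htrial := Rlz.bind hp (fun e => Rlz.map (γ := Option E)
    (fun b : Bool => if b then some e else none) (Rlz.ask (g e) (hg e)))
  set t : (ι → Bool) → Option E → ℝ := fun x c => ∑ e, p x e * (∑ b : Bool,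
    (open Classical in if (if b then some e else none) = c then
      (if b = (g e).eval x then 1 else 0) else 0)) with ht
  have htr : Rlz D (a + J * (2 * a + 1) + 1) t := by
    have he : t = fun x c => ∑ e, p x e * (∑ b : Bool,
        (open Classical in if (if b then some e else none) = c then
          (if b = (g e).eval x then 1 else 0) else 0)) := ht
    rw [he]
    convert htrial
  have htsome : ∀ x e, t x (some e) = if (g e).eval x then p x e else 0 := by
    intro x e
    rw [ht]
    beta_reduce
    rw [Finset.sum_eq_single e]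
    · cases h : (g e).eval x <;> simp
    · intro e' _ hne
      simp [hne]
    · intro h; exact absurd (Finset.mem_univ _) h
  have htnone : ∀ x, t x none = 1 - ∑ e, t x (some e) := by
    intro x
    have := htr.sum_eq_one x
    rw [Fintype.sum_option] at this
    linarith
  obtain ⟨p', hp', hlaw'⟩ := rlz_first htr R
  refine ⟨p', hp', ?_, ?_⟩
  · intro x e he
    rw [(hlaw' x).1 e, htsome, he]
    simp
  · intro x hpos hle hJM
    obtain ⟨σ, hσ1, hσ2, hσ⟩ := hlaw x hpos hle hJM
    set M := (∑ e, if (g e).eval x then ‖A x e e0‖ ^ 2 else 0) with hM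
    have hsum : ∑ e, t x (some e) = σ := by
      have h1 : ∀ e, t x (some e) = σ / M * (if (g e).eval x then ‖A x e e0‖ ^ 2 else 0) := by
        intro e
        rw [htsome]
        by_cases h : (g e).eval x = true
        · rw [if_pos h, if_pos h, hσ e h]
        · rw [if_neg h, if_neg h, mul_zero]
      rw [Finset.sum_congr rfl fun e _ => h1 e, ← Finset.mul_sum, ← hM]
      field_simp
    have hnone : t x none = 1 - σ := by rw [htnone, hsum]
    have hgeom : (∑ i ∈ Finset.range R, (1 - σ) ^ i) * σ = 1 - (1 - σ) ^ R := by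
      have := geom_sum_mul_neg (1 - σ) R
      rw [sub_sub_cancel] at this
      exact this
    have h34 : (1 - σ) ^ R ≤ (3 / 4) ^ R :=
      pow_le_pow_left₀ (by linarith) (by linarith) R
    have h0 : 0 ≤ (1 - σ) ^ R := pow_nonneg (by linarith) R
    refine ⟨1 - (1 - σ) ^ R, by linarith, by linarith, ?_⟩
    intro e he
    rw [(hlaw' x).1 e, hnone, htsome, if_pos he, hσ e he, ← hgeom]
    ring

end Crest.Agent.S0554
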