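import Crest.Agent.S0554_Defs

/-!
S0554, task T5: the halving tournament, abstractly.
-/

set_option autoImplicit false

namespace Crest.Agent.S0554

/-- Cauchy–Schwarz in the form `W² ≤ (∑ w y) (∑ w / y)`. -/
theorem tour_cs {R : Type} [Fintype R] (w y : R → ℝ) (hw : ∀ e, 0 ≤ w e)
    (hy : ∀ e, 0 < w e → 0 < y e) :
    (∑ e, w e) ^ 2 ≤ (∑ e, w e * y e) * (∑ e, w e / y e) := by
  have h := Finset.sum_mul_sq_le_sq_mul_sq (Finset.univ : Finset R)
    (fun e => √(w e * y e)) (fun e => √(w e / y e))
  have h1 : ∀ e, √(w e * y e) * √(w e / y e) = w e := by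
    intro e
    rcases (hw e).eq_or_lt with h0 | h0
    · simp [← h0]
    · have hy0 := hy e h0
      rw [← Real.sqrt_mul (by positivity)]
      have : w e * y e * (w e / y e) = w e ^ 2 := by
        field_simp
      rw [this, Real.sqrt_sq h0.le]
  have h2 : ∀ e, √(w e * y e) ^ 2 = w e * y e := by
    intro e
    rcases (hw e).eq_or_lt with h0 | h0
    · simp [← h0]
    · have hy0 := hy e h0
      exact Real.sq_sqrt (by positivity)
  have h3 : ∀ e, √(w e / y e) ^ 2 = w e / y e := by
    intro e
    rcases (hw e).eq_or_lt with h0 | h0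
    · simp [← h0]
    · have hy0 := hy e h0
      exact Real.sq_sqrt (by positivity)
  simpa only [h1, h2, h3] using h

/-- T5 (file S0554_Tournament): the halving tournament, abstractly.
`surv L r`: root `r` survives the list `L` of sampled roots; `kill e r`: `e` kills `r`. -/
theorem tournament {R : Type} [Fintype R] [DecidableEq R] (μ : R → ℝ) (hμ0 : ∀ r, 0 ≤ μ r)
    (m : ℝ) (hm : 0 < m) (hμ : ∀ r, μ r ≤ 1 / m) (hsum : ∑ r, μ r ≤ 1)
    (cand : R → Prop) (kill : R → R → Prop) [DecidablePred cand] [DecidableRel kill]
    (hk : ∀ e r, e ≠ r → cand e → cand r → kill e r ∨ kill r e)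
    (rs : R) (hrs : cand rs) (hrs' : ∀ e, cand e → ¬ kill e rs) (hpos : 0 < μ rs)
    (M : List R → ℝ)
    (hM : ∀ L, M L = ∑ r, if cand r ∧ ∀ e ∈ L, ¬ kill e r then μ r else 0)
    (σ : List R → ℝ) (δ : ℝ) (hδ : 0 ≤ δ) (hδ1 : δ ≤ 1)
    (hσ : ∀ L, (∀ e ∈ L, cand e) → 1 - δ ≤ σ L ∧ σ L ≤ 1)
    (P : ℕ → List R → ℝ)
    (hP0 : ∀ L, P 0 L = σ L * μ rs / M L)
    (hPs : ∀ t L, P (t + 1) L =
      ∑ e, if cand e ∧ ∀ e' ∈ L, ¬ kill e' e then σ L * μ e / M L * P t (e :: L) else 0)
    (t : ℕ) (L : List R) (hL : ∀ e ∈ L, cand e) :
    (1 - δ) ^ (t + 1) * μ rs / (M L / 2 ^ t + 2 / m) ≤ P t L := by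
  have hδ' : 0 ≤ 1 - δ := by linarith
  -- positivity of `M`
  have hMpos : ∀ L : List R, (∀ e ∈ L, cand e) → 0 < M L := by
    intro L hL
    rw [hM]
    have hle : μ rs ≤ ∑ r, if cand r ∧ ∀ e ∈ L, ¬ kill e r then μ r else 0 := by
      have h1 : (if cand rs ∧ ∀ e ∈ L, ¬ kill e rs then μ rs else 0) = μ rs := by
        rw [if_pos]
        exact ⟨hrs, fun e he => hrs' e (hL e he)⟩
      calc μ rs = (if cand rs ∧ ∀ e ∈ L, ¬ kill e rs then μ rs else 0) := h1.symm
        _ ≤ _ := Finset.single_le_sum
            (f := fun r => if cand r ∧ ∀ e ∈ L, ¬ kill e r then μ r else 0)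
            (fun r _ => by
              show (0 : ℝ) ≤ if cand r ∧ ∀ e ∈ L, ¬ kill e r then μ r else 0
              split_ifs
              · exact hμ0 r
              · exact le_rfl) (Finset.mem_univ rs)
    linarith
  -- the stronger bound
  have key : ∀ (t : ℕ) (L : List R), (∀ e ∈ L, cand e) →
      (1 - δ) ^ (t + 1) * μ rs / (M L / 2 ^ t + 2 / m * (1 - 1 / 2 ^ t)) ≤ P t L := by
    intro t
    induction t with
    | zero =>
      intro L hL
      rw [hP0]
      have hMp := hMpos L hL
      have hs := hσ L hL
      simp only [zero_add, pow_one, pow_zero, div_one, sub_self, mul_zero, add_zero]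
      gcongr
      exact hs.1
    | succ t ih =>
      intro L hL
      have hMp := hMpos L hL
      have hs := hσ L hL
      set c : ℝ := 2 / m * (1 - 1 / 2 ^ t) with hc
      set w : R → ℝ := fun e => if cand e ∧ ∀ e' ∈ L, ¬ kill e' e then μ e else 0 with hw
      have hw0 : ∀ e, 0 ≤ w e := by
        intro e
        simp only [hw]
        split_ifs
        · exact hμ0 e
        · exact le_rfl
      have hwμ : ∀ e, w e ≤ 1 / m := by
        intro e
        simp only [hw]
        split_ifs
        · exact hμ e
        · positivity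
      have hW : M L = ∑ e, w e := hM L
      have hcand : ∀ e, w e ≠ 0 → cand e ∧ ∀ e' ∈ L, ¬ kill e' e := by
        intro e he
        by_contra hcon
        apply he
        simp only [hw]
        rw [if_neg hcon]
      have hMc : ∀ e, M (e :: L) = ∑ r, if kill e r then 0 else w r := by
        intro e
        rw [hM]
        refine Finset.sum_congr rfl fun r _ => ?_
        simp only [hw, List.mem_cons, forall_eq_or_imp]
        by_cases h1 : kill e r
        · simp [h1]
        · by_cases h2 : cand r ∧ ∀ e' ∈ L, ¬ kill e' r
          · simp [h1, h2]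
          · rw [if_neg, if_neg h1, if_neg h2]
            rintro ⟨h3, h4, h5⟩
            exact h2 ⟨h3, h5⟩
      -- the pair bound
      set A : ℝ := ∑ e, w e * M (e :: L) with hA
      have hA1 : A = ∑ e, ∑ r, (if kill e r then 0 else w e * w r) := by
        rw [hA]
        refine Finset.sum_congr rfl fun e _ => ?_
        rw [hMc, Finset.mul_sum]
        refine Finset.sum_congr rfl fun r _ => ?_
        split_ifs <;> simp
      have hA2 : A = ∑ e, ∑ r, (if kill r e then 0 else w e * w r) := by
        rw [hA1, Finset.sum_comm]
        refine Finset.sum_congr rfl fun e _ => Finset.sum_congr rfl fun r _ => ?_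
        split_ifs
        · rfl
        · ring
      have hA3 : 2 * A ≤ M L ^ 2 + M L * (1 / m) := by
        have h1 : 2 * A = ∑ e, ∑ r, ((if kill e r then 0 else w e * w r) +
            (if kill r e then 0 else w e * w r)) := by
          simp only [Finset.sum_add_distrib]
          rw [← hA1, ← hA2]; ring
        have h2 : M L ^ 2 + M L * (1 / m) ≥
            ∑ e, ∑ r, (w e * w r + if e = r then w e * w r else 0) := by
          simp only [Finset.sum_add_distrib]
          simp only [Finset.sum_ite_eq, Finset.mem_univ, if_true]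
          have h3 : M L ^ 2 = ∑ e, ∑ r, w e * w r := by
            rw [hW, sq, Finset.sum_mul_sum]
          have h4 : ∑ e, w e * w e ≤ M L * (1 / m) := by
            rw [hW, Finset.sum_mul]
            exact Finset.sum_le_sum fun e _ =>
              mul_le_mul_of_nonneg_left (hwμ e) (hw0 e)
          linarith
        refine le_trans ?_ h2
        rw [h1]
        refine Finset.sum_le_sum fun e _ => Finset.sum_le_sum fun r _ => ?_
        have hwr : 0 ≤ w e * w r := mul_nonneg (hw0 e) (hw0 r)
        by_cases her : e = r
        · subst her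
          simp only [if_true]
          split_ifs
          · linarith
          · linarith
        · rw [if_neg her]
          by_cases h5 : w e = 0
          · simp [h5]
          by_cases h6 : w r = 0
          · simp [h6]
          rcases hk e r her (hcand e h5).1 (hcand r h6).1 with h7 | h7
          · rw [if_pos h7]
            split_ifs <;> linarith
          · rw [if_pos h7]
            split_ifs <;> linarith
      have hApos : 0 ≤ A := by
        rw [hA1]
        refine Finset.sum_nonneg fun e _ => Finset.sum_nonneg fun r _ => ?_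
        split_ifs
        · exact le_rfl
        · exact mul_nonneg (hw0 e) (hw0 r)
      have h2t : (0 : ℝ) < 2 ^ t := by positivity
      have h2t1 : (1 : ℝ) ≤ 2 ^ t := one_le_pow₀ (by norm_num)
      have hc0 : 0 ≤ c := by
        rw [hc]
        have : (1 : ℝ) / 2 ^ t ≤ 1 := by
          rw [div_le_one h2t]; exact h2t1
        have : (0 : ℝ) ≤ 1 - 1 / 2 ^ t := by linarith
        positivity
      set y : R → ℝ := fun e => M (e :: L) / 2 ^ t + c with hy
      have hypos : ∀ e, 0 < w e → 0 < y e := by
        intro e he
        have hce := hcand e he.ne'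
        have hM' : 0 < M (e :: L) := by
          apply hMpos
          intro e' he'
          rcases List.mem_cons.mp he' with h | h
          · rw [h]; exact hce.1
          · exact hL e' h
        simp only [hy]
        positivity
      have hcs := tour_cs w y hw0 hypos
      rw [← hW] at hcs
      -- lower bound for `P (t+1) L`
      have hstep : (1 - δ) ^ (t + 2) * μ rs / M L * (∑ e, w e / y e) ≤ P (t + 1) L := by
        rw [hPs, Finset.mul_sum]
        refine Finset.sum_le_sum fun e _ => ?_
        by_cases h : cand e ∧ ∀ e' ∈ L, ¬ kill e' e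
        · rw [if_pos h]
          have hwe : w e = μ e := by simp only [hw]; rw [if_pos h]
          have hLe : ∀ e' ∈ e :: L, cand e' := by
            intro e' he'
            rcases List.mem_cons.mp he' with h' | h'
            · rw [h']; exact h.1
            · exact hL e' h'
          have hM' : 0 < M (e :: L) := hMpos _ hLe
          have hih := ih (e :: L) hLe
          have hy' : M (e :: L) / 2 ^ t + 2 / m * (1 - 1 / 2 ^ t) = y e := by
            simp only [hy, hc]
          rw [hy'] at hih
          have hye : 0 < y e := by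
            simp only [hy]; positivity
          rw [hwe]
          have e1 : (1 - δ) ^ (t + 2) * μ rs / M L * (μ e / y e) =
              ((1 - δ) * μ e / M L) * ((1 - δ) ^ (t + 1) * μ rs / y e) := by
            rw [show t + 2 = (t + 1) + 1 from rfl, pow_succ (1 - δ) (t + 1)]
            ring
          rw [e1]
          have hmue := hμ0 e
          apply mul_le_mul _ hih
          · positivity
          · have := hs.1
            have : 0 ≤ σ L := by linarith
            positivity
          · gcongr
            exact hs.1
        · rw [if_neg h]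
          have hwe : w e = 0 := by simp only [hw]; rw [if_neg h]
          rw [hwe]; simp
      refine le_trans ?_ hstep
      -- final inequality
      have hwy : ∑ e, w e * y e = A / 2 ^ t + c * M L := by
        simp only [hy, mul_add, Finset.sum_add_distrib]
        rw [hA, hW, Finset.sum_div, Finset.mul_sum]
        congr 1
        · refine Finset.sum_congr rfl fun e _ => ?_
          ring
        · refine Finset.sum_congr rfl fun e _ => ?_
          ring
      set D : ℝ := M L / 2 ^ (t + 1) + 2 / m * (1 - 1 / 2 ^ (t + 1)) with hD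
      have hDpos : 0 < D := by
        have h2t1' : (1 : ℝ) ≤ 2 ^ (t + 1) := one_le_pow₀ (by norm_num)
        have : (1 : ℝ) / 2 ^ (t + 1) ≤ 1 := by
          rw [div_le_one (by positivity)]; exact h2t1'
        have : (0 : ℝ) ≤ 1 - 1 / 2 ^ (t + 1) := by linarith
        rw [hD]
        positivity
      have hwyD : ∑ e, w e * y e ≤ M L * D := by
        rw [hwy, hD, hc]
        have h8 : A / 2 ^ t ≤ (M L ^ 2 + M L * (1 / m)) / 2 / 2 ^ t := by
          gcongr
          linarith
        have h9 : M L * (M L / 2 ^ (t + 1) + 2 / m * (1 - 1 / 2 ^ (t + 1))) =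
            (M L ^ 2 + 2 * M L * (1 / m)) / 2 / 2 ^ t + 2 / m * (1 - 1 / 2 ^ t) * M L := by
          rw [pow_succ]
          field_simp
          ring
        rw [h9]
        have h10 : (M L ^ 2 + M L * (1 / m)) / 2 / 2 ^ t ≤
            (M L ^ 2 + 2 * M L * (1 / m)) / 2 / 2 ^ t := by
          have : 0 < M L * (1 / m) := by positivity
          gcongr
          linarith
        linarith
      have hZ0 : 0 ≤ ∑ e, w e / y e := by
        refine Finset.sum_nonneg fun e _ => ?_
        rcases (hw0 e).eq_or_lt with h0 | h0
        · rw [← h0]; simp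
        · exact (div_pos h0 (hypos e h0)).le
      have h11 : M L ^ 2 ≤ M L * D * ∑ e, w e / y e :=
        hcs.trans (mul_le_mul_of_nonneg_right hwyD hZ0)
      have h12 : M L / D ≤ ∑ e, w e / y e := by
        rw [div_le_iff₀ hDpos]
        have h13 : M L * M L ≤ M L * ((∑ e, w e / y e) * D) := by
          calc M L * M L = M L ^ 2 := by ring
            _ ≤ M L * D * ∑ e, w e / y e := h11
            _ = M L * ((∑ e, w e / y e) * D) := by ring
        exact le_of_mul_le_mul_left h13 hMp
      calc (1 - δ) ^ (t + 1 + 1) * μ rs / D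
          = (1 - δ) ^ (t + 2) * μ rs / M L * (M L / D) := by
            field_simp
        _ ≤ _ := by
            apply mul_le_mul_of_nonneg_left h12
            positivity
  refine le_trans ?_ (key t L hL)
  have hMp := hMpos L hL
  have h2t : (0 : ℝ) < 2 ^ t := by positivity
  have h2t1 : (1 : ℝ) ≤ 2 ^ t := one_le_pow₀ (by norm_num)
  have h3 : (1 : ℝ) / 2 ^ t ≤ 1 := by
    rw [div_le_one h2t]; exact h2t1
  have h4 : (0 : ℝ) ≤ 1 - 1 / 2 ^ t := by linarith
  apply div_le_div_of_nonneg_left
  · positivity
  · positivity
  · have : 2 / m * (1 - 1 / 2 ^ t) ≤ 2 / m * 1 := by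
      apply mul_le_mul_of_nonneg_left _ (by positivity)
      have : 0 < (1 : ℝ) / 2 ^ t := by positivity
      linarith
    linarith

end Crest.Agent.S0554
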