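import Crest.Agent.S0554_Defs6
import Crest.Agent.S0554_ClosImpl
import Crest.Agent.S0554_ClosRlz
import Crest.Agent.S0554_Prep
import Crest.Agent.S0554_Vec
import Crest.Agent.S0554_Tournament
import Crest.Agent.S0554_Search
import Crest.Agent.S0554_Constraints

/-!
S0554, task T6e: one tournament pass.
-/

set_option autoImplicit false

namespace Crest.Agent.S0554

variable {ν κ K B : ℕ}

namespace Pass

theorem Rlz.mono_D' {ι β : Type} {D D' q : ℕ} (hD : D ≤ D') {p : (ι → Bool) → β → ℝ}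
    (h : Rlz D q p) : Rlz D' q p := by
  obtain ⟨E, i1, i2, U, e0, out, hU, hp⟩ := h
  exact ⟨E, i1, i2, U, e0, out, Impl.mono_D hD hU, hp⟩


/-- Basis states of the search. -/
abbrev St (ν K : ℕ) : Type := I ν × Fin K × I ν × Bool × Bool

/-- The root of a basis state. -/
def toRoot (e : St ν K) : I ν × I ν := (e.2.2.1, e.1)

/-- The survival test program. -/
noncomputable def gpr (L : List (I ν × I ν)) (r : I ν × I ν) : Prog (Idx ν κ K B) Bool :=
  (good_prog L r).choose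

theorem gpr_depth (L : List (I ν × I ν)) (r : I ν × I ν) :
    (gpr (κ := κ) (K := K) (B := B) L r).depth ≤ 1 + L.length * (2 * ν + 2) :=
  (good_prog (κ := κ) (K := K) (B := B) L r).choose_spec.1

theorem gpr_eval (L : List (I ν × I ν)) (r : I ν × I ν) (x : Idx ν κ K B → Bool) :
    (gpr L r).eval x = true ↔ Cand x r ∧ ∀ e ∈ L, ¬ Kill x e r :=
  (good_prog (κ := κ) (K := K) (B := B) L r).choose_spec.2 x

/-- The test attached to a basis state. -/
noncomputable def gSt (L : List (I ν × I ν)) (e : St ν K) : Prog (Idx ν κ K B) Bool :=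
  if e.2.2.2.1 || e.2.2.2.2 then .ret false else gpr L (toRoot e)

theorem gSt_depth (L : List (I ν × I ν)) (e : St ν K) :
    (gSt (κ := κ) (B := B) L e).depth ≤ 1 + L.length * (2 * ν + 2) := by
  unfold gSt
  split_ifs
  · simp [Prog.depth]
  · exact gpr_depth L _

theorem gSt_eval (L : List (I ν × I ν)) (s : I ν) (c : Fin K) (j : I ν) (b₁ b₂ : Bool)
    (x : Idx ν κ K B → Bool) :
    (gSt L (s, c, j, b₁, b₂)).eval x = true ↔
      (b₁ = false ∧ b₂ = false) ∧ (Cand x (j, s) ∧ ∀ e ∈ L, ¬ Kill x e (j, s)) := by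
  unfold gSt
  cases b₁ <;> cases b₂ <;> simp [Prog.eval, toRoot, gpr_eval]

theorem mu_nonneg (x : Idx ν κ K B → Bool) (r : I ν × I ν) : 0 ≤ mu x r := by
  unfold mu
  positivity

theorem vec_sq_le (x : Idx ν κ K B → Bool) (s : I ν) (c : Fin K) (j : I ν) :
    (vec (Yv x s c) κ j : ℝ) ^ 2 ≤ (2 ^ ν) ^ (κ + 1) := by
  have h := vec_parseval (Yv x s c) κ
  have h2 : (vec (Yv x s c) κ j) ^ 2 ≤ (2 ^ ν) ^ (κ + 1) := by
    rw [← h]
    exact Finset.single_le_sum (f := fun j => (vec (Yv x s c) κ j) ^ 2)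
      (fun i _ => sq_nonneg _) (Finset.mem_univ j)
  exact_mod_cast h2

theorem vec_sq_sum (x : Idx ν κ K B → Bool) (s : I ν) (c : Fin K) :
    ∑ j, (vec (Yv x s c) κ j : ℝ) ^ 2 = (2 ^ ν) ^ (κ + 1) := by
  have h := vec_parseval (Yv x s c) κ
  exact_mod_cast h

theorem mu_le (hK : 1 ≤ K) (x : Idx ν κ K B → Bool) (r : I ν × I ν) :
    mu x r ≤ 1 / 2 ^ ν := by
  unfold mu
  have hK' : (0 : ℝ) < K := by exact_mod_cast hK
  calc ∑ c : Fin K, (vec (Yv x r.2 c) κ r.1 : ℝ) ^ 2 / (K * 2 ^ ν * (2 ^ ν) ^ (κ + 1))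
      ≤ ∑ c : Fin K, (1 : ℝ) / (K * 2 ^ ν) := by
        apply Finset.sum_le_sum
        intro c _
        rw [div_le_div_iff₀ (by positivity) (by positivity)]
        have := vec_sq_le x r.2 c r.1
        nlinarith [this, mul_pos hK' (pow_pos (two_pos : (0:ℝ) < 2) ν)]
    _ = 1 / 2 ^ ν := by
        rw [Finset.sum_const, Finset.card_univ, Fintype.card_fin, nsmul_eq_mul]
        field_simp

theorem mu_sum (hK : 1 ≤ K) (x : Idx ν κ K B → Bool) : ∑ r, mu x r = 1 := by
  have hK' : (0 : ℝ) < K := by exact_mod_cast hK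
  unfold mu
  rw [Fintype.sum_prod_type, Finset.sum_comm]
  have h1 : ∀ s : I ν, ∑ j : I ν, ∑ c : Fin K,
      (vec (Yv x s c) κ j : ℝ) ^ 2 / (K * 2 ^ ν * (2 ^ ν) ^ (κ + 1)) = 1 / 2 ^ ν := by
    intro s
    rw [Finset.sum_comm]
    have h2 : ∀ c : Fin K, ∑ j : I ν,
        (vec (Yv x s c) κ j : ℝ) ^ 2 / (K * 2 ^ ν * (2 ^ ν) ^ (κ + 1)) =
          (1 : ℝ) / (K * 2 ^ ν) := by
      intro c
      rw [← Finset.sum_div, vec_sq_sum]
      field_simp
    rw [Finset.sum_congr rfl (fun c _ => h2 c), Finset.sum_const, Finset.card_univ,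
      Fintype.card_fin, nsmul_eq_mul]
    field_simp
  rw [Finset.sum_congr rfl (fun s _ => h1 s), Finset.sum_const, Finset.card_univ]
  simp

theorem MM_le_one (hK : 1 ≤ K) (x : Idx ν κ K B → Bool) (L : List (I ν × I ν)) :
    MM x L ≤ 1 := by
  rw [← mu_sum hK x]
  unfold MM
  apply Finset.sum_le_sum
  intro r _
  split_ifs
  · exact le_rfl
  · exact mu_nonneg x r

theorem mu_le_MM (x : Idx ν κ K B → Bool) (L : List (I ν × I ν)) (r : I ν × I ν)
    (h1 : Cand x r) (h2 : ∀ e ∈ L, ¬ Kill x e r) : mu x r ≤ MM x L := by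
  unfold MM
  have := Finset.single_le_sum
    (f := fun r => if Cand x r ∧ ∀ e ∈ L, ¬ Kill x e r then mu x r else 0)
    (fun i _ => by
      split_ifs
      · exact mu_nonneg x i
      · exact le_rfl) (Finset.mem_univ r)
  rw [if_pos ⟨h1, h2⟩] at this
  exact this

theorem mu_valid (hκ : 1 ≤ κ) (hK : 1 ≤ K) (dec : (Fin B → Bool) → ℤ) (τ : ℝ) (hτ : 0 < τ)
    (x : Idx ν κ K B → Bool) (j s : I ν)
    (h : Valid dec (τ * K * √(2 ^ ν) ^ (κ + 1)) x j s) : τ ^ 2 / 2 ^ ν ≤ mu x (j, s) := by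
  have hK' : (0 : ℝ) < K := by exact_mod_cast hK
  have h1 := valid_vec (by omega) h
  have hθ : 0 ≤ τ * K * √(2 ^ ν) ^ (κ + 1) := by positivity
  have h2 : (τ * K * √(2 ^ ν) ^ (κ + 1)) ^ 2 ≤ (∑ c, (vec (Yv x s c) κ j : ℝ)) ^ 2 :=
    pow_le_pow_left₀ hθ h1 2
  have h3 : (∑ c, (vec (Yv x s c) κ j : ℝ)) ^ 2 ≤ K * ∑ c, (vec (Yv x s c) κ j : ℝ) ^ 2 := by
    have := sq_sum_le_card_mul_sum_sq (s := (Finset.univ : Finset (Fin K)))
      (f := fun c => (vec (Yv x s c) κ j : ℝ))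
    simpa using this
  have h4 : (τ * K * √(2 ^ ν) ^ (κ + 1)) ^ 2 = τ ^ 2 * K ^ 2 * (2 ^ ν) ^ (κ + 1) := by
    have : √((2:ℝ) ^ ν) ^ 2 = 2 ^ ν := Real.sq_sqrt (by positivity)
    calc (τ * K * √(2 ^ ν) ^ (κ + 1)) ^ 2 = τ ^ 2 * K ^ 2 * (√((2:ℝ) ^ ν) ^ 2) ^ (κ + 1) := by
          ring
      _ = _ := by rw [this]
  have h5 : τ ^ 2 * K * (2 ^ ν) ^ (κ + 1) ≤ ∑ c, (vec (Yv x s c) κ j : ℝ) ^ 2 := by
    have h6 : K * (τ ^ 2 * K * (2 ^ ν) ^ (κ + 1)) ≤ K * ∑ c, (vec (Yv x s c) κ j : ℝ) ^ 2 := by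
      calc (K : ℝ) * (τ ^ 2 * K * (2 ^ ν) ^ (κ + 1)) = τ ^ 2 * K ^ 2 * (2 ^ ν) ^ (κ + 1) := by
            ring
        _ ≤ _ := by rw [← h4]; exact h2.trans h3
    exact le_of_mul_le_mul_left h6 hK'
  unfold mu
  rw [← Finset.sum_div, le_div_iff₀ (by positivity)]
  calc τ ^ 2 / 2 ^ ν * (K * 2 ^ ν * (2 ^ ν) ^ (κ + 1)) = τ ^ 2 * K * (2 ^ ν) ^ (κ + 1) := by
        field_simp
    _ ≤ _ := h5

theorem St_sum (f : St ν K → ℝ) :
    ∑ e, f e = ∑ s, ∑ c, ∑ j, ∑ b₁, ∑ b₂, f (s, c, j, b₁, b₂) := by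
  rw [Fintype.sum_prod_type]
  refine Finset.sum_congr rfl fun s _ => ?_
  rw [Fintype.sum_prod_type]
  refine Finset.sum_congr rfl fun c _ => ?_
  rw [Fintype.sum_prod_type]
  refine Finset.sum_congr rfl fun j _ => ?_
  rw [Fintype.sum_prod_type]

/-- One certified sample. -/
theorem exists_sample (hK : 1 ≤ K) (τ : ℝ) (hτ : 0 < τ) (J R : ℕ)
    (hJ : 2 * √(2 ^ ν) / τ ≤ J) (L : List (I ν × I ν)) :
    ∃ S : (Idx ν κ K B → Bool) → Option (I ν × I ν) → ℝ,
      Rlz (1 + L.length * (2 * ν + 2)) (R * (κ + J * (2 * κ + 1) + 1)) S ∧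
      ∀ x, τ ^ 2 / 2 ^ ν ≤ MM x L → ∃ σ : ℝ, 1 - (3 / 4) ^ R ≤ σ ∧ σ ≤ 1 ∧
        ∀ r, S x (some r) =
          if Cand x r ∧ ∀ e ∈ L, ¬ Kill x e r then σ * mu x r / MM x L else 0 := by
  have hK' : (0 : ℝ) < K := by exact_mod_cast hK
  have hJpos : 0 < J := by
    have : (0 : ℝ) < J := lt_of_lt_of_le (by positivity) hJ
    exact_mod_cast this
  obtain ⟨A, e0, hA, hamp⟩ := state_prep ν κ K B hK
  obtain ⟨p, hp, hp0, hp1⟩ := rlz_search (D := 1 + L.length * (2 * ν + 2))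
    (Impl.mono_D (by omega) hA) e0 (gSt L) (gSt_depth L) J hJpos R
  refine ⟨_, Rlz.map (Option.map toRoot) hp, ?_⟩
  intro x hM
  have hMpos : 0 < MM x L := lt_of_lt_of_le (by positivity) hM
  have hterm : ∀ (s : I ν) (c : Fin K) (j : I ν) (b₁ b₂ : Bool), (if (gSt L (s, c, j, b₁, b₂)).eval x = true then
      ‖A x (s, c, j, b₁, b₂) e0‖ ^ 2 else 0) =
      if b₁ = false ∧ b₂ = false then (if Cand x (j, s) ∧ ∀ e ∈ L, ¬ Kill x e (j, s) then
        (vec (Yv x s c) κ j : ℝ) ^ 2 / (4 * K * 2 ^ ν * (2 ^ ν) ^ (κ + 1)) else 0) else 0 := by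
    intro s c j b₁ b₂
    rw [hamp]
    by_cases h1 : b₁ = false ∧ b₂ = false
    · by_cases h2 : Cand x (j, s) ∧ ∀ e ∈ L, ¬ Kill x e (j, s)
      · rw [if_pos ((gSt_eval L s c j b₁ b₂ x).2 ⟨h1, h2⟩), if_pos h1, if_pos h2]
      · rw [if_neg (fun h => h2 ((gSt_eval L s c j b₁ b₂ x).1 h).2), if_pos h1, if_neg h2]
    · rw [if_neg (fun h => h1 ((gSt_eval L s c j b₁ b₂ x).1 h).1), if_neg h1]
  have hmass : (∑ e, if (gSt L e).eval x = true then ‖A x e e0‖ ^ 2 else 0) = MM x L / 4 := by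
    rw [St_sum]
    have h1 : ∀ (s : I ν) (c : Fin K) (j : I ν), (∑ b₁ : Bool, ∑ b₂ : Bool,
        if (gSt L (s, c, j, b₁, b₂)).eval x = true then
        ‖A x (s, c, j, b₁, b₂) e0‖ ^ 2 else 0) =
        (if Cand x (j, s) ∧ ∀ e ∈ L, ¬ Kill x e (j, s) then
          (vec (Yv x s c) κ j : ℝ) ^ 2 / (4 * K * 2 ^ ν * (2 ^ ν) ^ (κ + 1)) else 0) := by
      intro s c j
      simp only [hterm, Fintype.sum_bool]
      simp
    simp only [h1]
    have hR : MM x L = ∑ s : I ν, ∑ j : I ν,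
        if Cand x (j, s) ∧ ∀ e ∈ L, ¬ Kill x e (j, s) then mu x (j, s) else 0 := by
      unfold MM
      rw [Fintype.sum_prod_type, Finset.sum_comm]
    rw [hR, Finset.sum_div]
    refine Finset.sum_congr rfl fun s _ => ?_
    rw [Finset.sum_comm, Finset.sum_div]
    refine Finset.sum_congr rfl fun j _ => ?_
    by_cases h2 : Cand x (j, s) ∧ ∀ e ∈ L, ¬ Kill x e (j, s)
    · simp only [if_pos h2]
      unfold mu
      rw [Finset.sum_div]
      refine Finset.sum_congr rfl fun c _ => ?_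
      dsimp only
      field_simp
    · simp only [if_neg h2]
      simp
  have hb1 : 0 < MM x L / 4 := by positivity
  have hb2 : MM x L / 4 ≤ 1 / 4 := by linarith [MM_le_one hK x L]
  have hb3 : 1 / √(MM x L / 4) ≤ J := by
    refine le_trans ?_ hJ
    have h1 : τ / (2 * √(2 ^ ν)) ≤ √(MM x L / 4) := by
      apply Real.le_sqrt_of_sq_le
      have : √((2:ℝ) ^ ν) ^ 2 = 2 ^ ν := Real.sq_sqrt (by positivity)
      rw [div_pow, mul_pow, this]
      calc τ ^ 2 / (2 ^ 2 * 2 ^ ν) = (τ ^ 2 / 2 ^ ν) / 4 := by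
            field_simp
            norm_num
        _ ≤ MM x L / 4 := by linarith
    calc 1 / √(MM x L / 4) ≤ 1 / (τ / (2 * √(2 ^ ν))) :=
          one_div_le_one_div_of_le (by positivity) h1
      _ = 2 * √(2 ^ ν) / τ := by rw [one_div_div]
  obtain ⟨σ, hσ1, hσ2, hσ3⟩ := hp1 x (by rw [hmass]; exact hb1) (by rw [hmass]; exact hb2)
    (by rw [hmass]; exact hb3)
  rw [hmass] at hσ3
  refine ⟨σ, hσ1, hσ2, ?_⟩
  rintro ⟨j, s⟩
  have hpt : ∀ (s' : I ν) (c : Fin K) (j' : I ν) (b₁ b₂ : Bool), p x (some (s', c, j', b₁, b₂)) =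
      if b₁ = false ∧ b₂ = false then (if Cand x (j', s') ∧ ∀ e ∈ L, ¬ Kill x e (j', s') then
        σ / (MM x L / 4) * ((vec (Yv x s' c) κ j' : ℝ) ^ 2 /
          (4 * K * 2 ^ ν * (2 ^ ν) ^ (κ + 1))) else 0) else 0 := by
    intro s' c j' b₁ b₂
    by_cases h1 : b₁ = false ∧ b₂ = false
    · by_cases h2 : Cand x (j', s') ∧ ∀ e ∈ L, ¬ Kill x e (j', s')
      · rw [if_pos h1, if_pos h2, hσ3 _ ((gSt_eval L s' c j' b₁ b₂ x).2 ⟨h1, h2⟩), hamp]
      · rw [if_pos h1, if_neg h2]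
        apply hp0
        rw [← Bool.not_eq_true]
        exact fun h => h2 ((gSt_eval L s' c j' b₁ b₂ x).1 h).2
    · rw [if_neg h1]
      apply hp0
      rw [← Bool.not_eq_true]
      exact fun h => h1 ((gSt_eval L s' c j' b₁ b₂ x).1 h).1
  rw [Fintype.sum_option]
  simp only [Option.map_none, Option.map_some, reduceCtorEq, if_false, zero_add,
    Option.some.injEq, toRoot]
  rw [St_sum]
  have h1 : ∀ (s' : I ν) (c : Fin K) (j' : I ν), (∑ b₁ : Bool, ∑ b₂ : Bool, if ((j', s') : I ν × I ν) = (j, s) then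
      p x (some (s', c, j', b₁, b₂)) else 0) =
      if j' = j then (if s' = s then (if Cand x (j, s) ∧ ∀ e ∈ L, ¬ Kill x e (j, s) then
        σ / (MM x L / 4) * ((vec (Yv x s c) κ j : ℝ) ^ 2 /
          (4 * K * 2 ^ ν * (2 ^ ν) ^ (κ + 1))) else 0) else 0) else 0 := by
    intro s' c j'
    by_cases hj : j' = j
    · by_cases hs : s' = s
      · subst hj hs
        simp only [if_true, hpt, Fintype.sum_bool]
        simp
      · have : ¬ ((j', s') : I ν × I ν) = (j, s) := by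
          intro h
          exact hs (Prod.mk.inj h).2
        simp [this, hs]
    · have : ¬ ((j', s') : I ν × I ν) = (j, s) := by
        intro h
        exact hj (Prod.mk.inj h).1
      simp [this, hj]
  simp only [h1]
  simp only [Finset.sum_ite_eq', Finset.mem_univ, if_true]
  rw [Finset.sum_comm]
  simp only [Finset.sum_ite_eq', Finset.mem_univ, if_true]
  by_cases h2 : Cand x (j, s) ∧ ∀ e ∈ L, ¬ Kill x e (j, s)
  · simp only [if_pos h2]
    unfold mu
    rw [Finset.mul_sum, Finset.sum_div]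
    refine Finset.sum_congr rfl fun c _ => ?_
    dsimp only
    field_simp
  · simp only [if_neg h2]
    simp

open Classical in
/-- Iterated sampling: `t + 1` samples in total, each list extended by the previous sample. -/
noncomputable def law {ι α : Type} [Fintype α] (S : List α → (ι → Bool) → Option α → ℝ) :
    ℕ → List α → (ι → Bool) → Option α → ℝ
  | 0, L => S L
  | t + 1, L => fun x c => ∑ b : Option α, S L x b *
      (match b with
        | none => if c = none then 1 else 0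
        | some e => law S t (e :: L) x c)

theorem law_rlz {ι α : Type} [Fintype α] {S : List α → (ι → Bool) → Option α → ℝ}
    {q D T : ℕ} (hS : ∀ L, L.length ≤ T → Rlz D q (S L)) (t : ℕ) :
    ∀ L : List α, L.length + t ≤ T → Rlz D ((t + 1) * q) (law S t L) := by
  induction t with
  | zero =>
    intro L hL
    rw [zero_add, one_mul]
    exact hS L (by omega)
  | succ t ih =>
    intro L hL
    have h0 : Rlz D 0 (fun (_ : ι → Bool) (c : Option α) =>
        (open Classical in if c = none then (1 : ℝ) else 0)) := by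
      have h := Rlz.pure (ι := ι) (D := D) (none : Option α)
      have h' : (fun (_ : ι → Bool) (c : Option α) =>
          (open Classical in if c = none then (1 : ℝ) else 0)) =
          (fun (_ : ι → Bool) (c : Option α) =>
            @ite ℝ (c = none) (Classical.propDecidable _) 1 0) := by
        funext _ c
        by_cases hc : c = none
        · rw [if_pos hc, if_pos hc]
        · rw [if_neg hc, if_neg hc]
      rw [h']
      exact h
    have h1 : ∀ b : Option α, Rlz D ((t + 1) * q) (fun (x : ι → Bool) (c : Option α) =>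
        (match b with
        | none => (open Classical in if c = none then (1 : ℝ) else 0)
        | some e => law S t (e :: L) x c)) := by
      intro b
      cases b with
      | none => exact Rlz.mono_q (Nat.zero_le _) h0
      | some e => exact ih (e :: L) (by simp only [List.length_cons]; omega)
    have h2 := Rlz.bind (hS L (by omega)) h1
    have h3 : q + (t + 1) * q = (t + 1 + 1) * q := by ring
    rw [h3] at h2
    exact h2

/-- The recursion of `tournament`. -/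
noncomputable def PP {R : Type} [Fintype R] (μ : R → ℝ) (M σ : List R → ℝ) (cand : R → Prop)
    (kill : R → R → Prop) [DecidablePred cand] [DecidableRel kill] (rs : R) : ℕ → List R → ℝ
  | 0, L => σ L * μ rs / M L
  | t + 1, L => ∑ e, if cand e ∧ ∀ e' ∈ L, ¬ kill e' e then
      σ L * μ e / M L * PP μ M σ cand kill rs t (e :: L) else 0

end Pass

open Pass

theorem rlz_pass (hκ : 1 ≤ κ) (hK : 1 ≤ K) (dec : (Fin B → Bool) → ℤ)
    (τ : ℝ) (hτ : 0 < τ) (D J R T : ℕ) (hD : 1 + T * (2 * ν + 2) ≤ D)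
    (hJ : 2 * √(2 ^ ν) / τ ≤ J) (hR : 1 ≤ R) :
    ∃ p : (Idx ν κ K B → Bool) → Option (I ν × I ν) → ℝ,
      Rlz D ((T + 1) * (R * (κ + J * (2 * κ + 1) + 1))) p ∧
      ∀ x j s, Valid dec (τ * K * √(2 ^ ν) ^ (κ + 1)) x j s →
        (1 - (3 / 4) ^ R) ^ (T + 1) * (τ ^ 2 / 2 ^ ν) / (1 / 2 ^ T + 2 / 2 ^ ν) ≤
          p x (some (j, s)) := by
  choose S hS1 hS2 using
    fun L => exists_sample (ν := ν) (κ := κ) (K := K) (B := B) hK τ hτ J R hJ L
  refine ⟨law S T [], ?_, ?_⟩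
  · refine law_rlz (T := T) (fun L hL => Rlz.mono_D' ?_ (hS1 L)) T [] (by simp)
    have : L.length * (2 * ν + 2) ≤ T * (2 * ν + 2) := Nat.mul_le_mul_right _ hL
    omega
  · intro x j s hv
    have hc : Cand x (j, s) := (hv.flag s).2 rfl
    have hnk : ∀ e, Cand x e → ¬ Kill x e (j, s) := fun e he => valid_not_killed hv e he
    have hmuv := mu_valid hκ hK dec τ hτ x j s hv
    have hMM : ∀ L : List (I ν × I ν), (∀ e ∈ L, Cand x e) → τ ^ 2 / 2 ^ ν ≤ MM x L :=
      fun L hL => hmuv.trans (mu_le_MM x L (j, s) hc fun e he => hnk e (hL e he))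
    have hex := fun (L : List (I ν × I ν)) (hL : ∀ e ∈ L, Cand x e) => hS2 L x (hMM L hL)
    obtain ⟨σ, hσ⟩ : ∃ σ : List (I ν × I ν) → ℝ, ∀ L, (∀ e ∈ L, Cand x e) →
        1 - (3 / 4) ^ R ≤ σ L ∧ σ L ≤ 1 ∧ ∀ r, S L x (some r) =
          if Cand x r ∧ ∀ e ∈ L, ¬ Kill x e r then σ L * mu x r / MM x L else 0 := by
      classical
      refine ⟨fun L => if h : ∀ e ∈ L, Cand x e then (hex L h).choose else 1, ?_⟩
      intro L hL
      have := (hex L hL).choose_spec
      simp only [dif_pos hL]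
      exact this
    have hlaw : ∀ t (L : List (I ν × I ν)), (∀ e ∈ L, Cand x e) →
        law S t L x (some (j, s)) = PP (mu x) (MM x) σ (Cand x) (Kill x) (j, s) t L := by
      intro t
      induction t with
      | zero =>
        intro L hL
        show S L x (some (j, s)) = σ L * mu x (j, s) / MM x L
        rw [(hσ L hL).2.2, if_pos ⟨hc, fun e he => hnk e (hL e he)⟩]
      | succ t ih =>
        intro L hL
        simp only [law, PP]
        rw [Fintype.sum_option]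
        simp only [reduceCtorEq, if_false, mul_zero, zero_add]
        refine Finset.sum_congr rfl fun e _ => ?_
        rw [(hσ L hL).2.2]
        by_cases h : Cand x e ∧ ∀ e' ∈ L, ¬ Kill x e' e
        · rw [if_pos h, if_pos h, ih (e :: L)]
          intro e' he'
          rcases List.mem_cons.1 he' with h' | h'
          · rw [h']; exact h.1
          · exact hL e' h'
        · rw [if_neg h, if_neg h, zero_mul]
    have hδ1 : ((3 : ℝ) / 4) ^ R ≤ 1 := pow_le_one₀ (by norm_num) (by norm_num)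
    have h2ν : (0:ℝ) < 2 ^ ν := by positivity
    have hδ0 : (0:ℝ) ≤ (3 / 4) ^ R := by positivity
    have hτν : (0:ℝ) < τ ^ 2 / 2 ^ ν := by positivity
    have htour : (1 - (3 / 4) ^ R) ^ (T + 1) * mu x (j, s) / (MM x [] / 2 ^ T + 2 / 2 ^ ν) ≤
        PP (mu x) (MM x) σ (Cand x) (Kill x) (j, s) T [] := by
      refine tournament (R := I ν × I ν) (mu x) (mu_nonneg x) ((2:ℝ) ^ ν) h2ν (mu_le hK x)
        (mu_sum hK x).le (Cand x) (Kill x) (fun e r her _ _ => kill_or x e r her) (j, s) hc hnk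
        (lt_of_lt_of_le hτν hmuv) (MM x) ?_ σ ((3 / 4) ^ R)
        hδ0 hδ1 (fun L hL => ⟨(hσ L hL).1, (hσ L hL).2.1⟩)
        (PP (mu x) (MM x) σ (Cand x) (Kill x) (j, s)) ?_ ?_ T [] (fun e he => by simp at he)
      · intro L
        rw [MM]
        refine Finset.sum_congr rfl fun r _ => ?_
        by_cases h : Cand x r ∧ ∀ e ∈ L, ¬ Kill x e r
        · rw [if_pos h, if_pos h]
        · rw [if_neg h, if_neg h]
      · intro L
        rw [PP]
      · intro t L
        rw [PP]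
        refine Finset.sum_congr rfl fun r _ => ?_
        by_cases h : Cand x r ∧ ∀ e ∈ L, ¬ Kill x e r
        · rw [if_pos h, if_pos h]
        · rw [if_neg h, if_neg h]
    rw [hlaw T [] (fun e he => by simp at he)]
    refine le_trans ?_ htour
    have hM1 : MM x [] ≤ 1 := MM_le_one hK x []
    have hM0 : 0 ≤ MM x [] := le_trans (by positivity) (hMM [] (fun e he => by simp at he))
    have h1 : 0 ≤ (1 - (3 / 4 : ℝ) ^ R) ^ (T + 1) := pow_nonneg (by linarith) _
    apply div_le_div₀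
    · exact mul_nonneg h1 (mu_nonneg x _)
    · exact mul_le_mul_of_nonneg_left hmuv h1
    · positivity
    · gcongr

end Crest.Agent.S0554
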