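import Crest.Agent.S0554_Search

/-!
S0554, task T6c: verification of a conjunction by amplified search for a violated constraint.
-/

set_option autoImplicit false

namespace Crest.Agent.S0554

open Crest.MathPhysics.Query

theorem rlz_forall {ι : Type} {D : ℕ} {C : Type} [Fintype C] [DecidableEq C] [Nonempty C]
    (viol : C → Prog ι Bool)
    (hv : ∀ c, (viol c).depth ≤ D) (J : ℕ) (hJ : 2 * √(Fintype.card C : ℝ) ≤ J) (R : ℕ) :
    ∃ p : (ι → Bool) → Bool → ℝ, Rlz D (R * (J + 1)) p ∧
      ∀ x, ((∀ c, (viol c).eval x = false) → p x true = 1) ∧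
        ((∃ c, (viol c).eval x = true) → p x true ≤ (3 / 4) ^ R) := by
  classical
  have hC : (0 : ℝ) < Fintype.card C := by exact_mod_cast Fintype.card_pos
  have hC' : 0 < √(Fintype.card C : ℝ) := Real.sqrt_pos.mpr hC
  have hJ0 : 0 < J := by
    have : (0 : ℝ) < J := lt_of_lt_of_le (by positivity) hJ
    exact_mod_cast this
  -- the constant unitary with uniform column
  obtain ⟨A, hA, hAv⟩ := exists_unitary_col (E := C × Bool × Bool)
    (Classical.arbitrary C, false, false)
    (fun _ => ((1 / √(4 * (Fintype.card C : ℝ)) : ℝ) : ℂ)) (by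
      have h1 : ‖((1 / √(4 * (Fintype.card C : ℝ)) : ℝ) : ℂ)‖ ^ 2 = 1 / (4 * Fintype.card C) := by
        rw [Complex.norm_real, Real.norm_eq_abs, sq_abs, div_pow, Real.sq_sqrt (by positivity),
          one_pow]
      rw [Finset.sum_congr rfl fun _ _ => h1, Finset.sum_const, Finset.card_univ]
      simp only [Fintype.card_prod, Fintype.card_bool, nsmul_eq_mul]
      push_cast
      field_simp)
  set e0 : C × Bool × Bool := (Classical.arbitrary C, false, false) with he0
  have hAn : ∀ e, ‖A e e0‖ ^ 2 = 1 / (4 * Fintype.card C) := by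
    intro e
    rw [hAv, Complex.norm_real, Real.norm_eq_abs, sq_abs, div_pow, Real.sq_sqrt (by positivity),
      one_pow]
  set g : C × Bool × Bool → Prog ι Bool := fun e =>
    if e.2.1 || e.2.2 then Prog.ret false else viol e.1 with hg
  have hgd : ∀ e, (g e).depth ≤ D := by
    intro e
    by_cases h : (e.2.1 || e.2.2) = true
    · simp only [hg, h, if_true]; exact Nat.zero_le _
    · simp only [hg, h]; exact hv _
  obtain ⟨p, hp, hp0, hp1⟩ := rlz_search (Impl.const (ι := ι) D A hA) e0 g hgd J hJ0 R
  have hmap := Rlz.map (fun o : Option (C × Bool × Bool) => o.isNone) hp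
  have hq : R * (0 + J * (2 * 0 + 1) + 1) = R * (J + 1) := by ring
  rw [hq] at hmap
  obtain ⟨p', hp', hval⟩ : ∃ p' : (ι → Bool) → Bool → ℝ, Rlz D (R * (J + 1)) p' ∧
      ∀ x, p' x true = p x none :=
    ⟨_, hmap, fun x => by rw [Fintype.sum_option]; simp⟩
  refine ⟨p', hp', fun x => ?_⟩
  have hsum := hp.sum_eq_one x
  rw [Fintype.sum_option] at hsum
  have hgood : ∀ e : C × Bool × Bool, (g e).eval x =
      (!e.2.1 && (!e.2.2 && (viol e.1).eval x)) := by
    rintro ⟨c, b1, b2⟩
    cases b1 <;> cases b2 <;> simp [hg, Prog.eval]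
  constructor
  · intro hall
    have h1 : ∀ e, p x (some e) = 0 := fun e => hp0 x e (by rw [hgood, hall]; simp)
    simp only [h1, Finset.sum_const_zero, add_zero] at hsum
    rw [hval, hsum]
  · rintro ⟨c, hc⟩
    set M := (∑ e, if (g e).eval x then ‖A e e0‖ ^ 2 else 0) with hM
    have hMeq : M = (∑ c, if (viol c).eval x then 1 / (4 * (Fintype.card C : ℝ)) else 0) := by
      rw [hM, Fintype.sum_prod_type]
      refine Finset.sum_congr rfl fun c _ => ?_
      simp only [hgood, hAn, Fintype.sum_prod_type, Fintype.sum_bool]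
      simp
    have hMpos : 1 / (4 * (Fintype.card C : ℝ)) ≤ M := by
      rw [hMeq]
      have := Finset.single_le_sum (f := fun c => if (viol c).eval x then
        1 / (4 * (Fintype.card C : ℝ)) else 0) (fun c _ => by
          by_cases h : (viol c).eval x = true
          · simp only [h, if_true]; positivity
          · simp [h]) (Finset.mem_univ c)
      simpa [hc] using this
    have hM4 : M ≤ 1 / 4 := by
      rw [hMeq]
      calc (∑ c, if (viol c).eval x then 1 / (4 * (Fintype.card C : ℝ)) else 0)
          ≤ ∑ _c : C, 1 / (4 * (Fintype.card C : ℝ)) := by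
            refine Finset.sum_le_sum fun c _ => ?_
            by_cases h : (viol c).eval x = true
            · simp [h]
            · simp only [h]; simp
        _ = 1 / 4 := by
            rw [Finset.sum_const, Finset.card_univ, nsmul_eq_mul]
            field_simp
    have hMp : 0 < M := lt_of_lt_of_le (by positivity) hMpos
    have hJM : 1 / √M ≤ J := by
      refine le_trans ?_ hJ
      rw [div_le_iff₀ (Real.sqrt_pos.mpr hMp)]
      have h1 : √(1 / (4 * (Fintype.card C : ℝ))) ≤ √M := Real.sqrt_le_sqrt hMpos
      have h2 : √(1 / (4 * (Fintype.card C : ℝ))) = 1 / (2 * √(Fintype.card C : ℝ)) := by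
        rw [Real.sqrt_div (by norm_num), Real.sqrt_one, Real.sqrt_mul (by norm_num)]
        congr 2
        rw [show (4 : ℝ) = 2 ^ 2 by norm_num, Real.sqrt_sq (by norm_num)]
      rw [h2, div_le_iff₀ (by positivity)] at h1
      linarith
    obtain ⟨σ, hσ1, hσ2, hσ⟩ := hp1 x hMp hM4 hJM
    have hs : ∑ e, p x (some e) = σ := by
      have h1 : ∀ e, p x (some e) = σ / M * (if (g e).eval x then ‖A e e0‖ ^ 2 else 0) := by
        intro e
        by_cases h : (g e).eval x = true
        · rw [if_pos h, hσ e h]
        · rw [if_neg h, mul_zero, hp0 x e (by simpa using h)]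
      rw [Finset.sum_congr rfl fun e _ => h1 e, ← Finset.mul_sum, ← hM]
      field_simp
    rw [hval]
    rw [hs] at hsum
    linarith

end Crest.Agent.S0554
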