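import Crest.Agent.S0554_Defs6
import Crest.Agent.S0554_ClosRlz
import Crest.Agent.S0554_Compile
import Crest.Agent.S0554_Search
import Crest.Agent.S0554_Verify
import Crest.Agent.S0554_Constraints
import Crest.Agent.S0554_Pass

/-!
S0554 T6f: the quantum algorithm and the quantum upper bound.
-/

set_option autoImplicit false

namespace Crest.Agent.S0554

open Crest.MathPhysics.Query

/-! ### elementary inequalities -/

theorem quant_two_mul_le_three_pow (n : ℕ) : (2 * n : ℝ) ≤ 3 ^ n := by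
  have h := one_add_mul_le_pow (a := (2 : ℝ)) (by norm_num) n
  have : (1 + (n : ℝ) * 2) ≤ 3 ^ n := by
    calc (1 + (n : ℝ) * 2) ≤ (1 + 2) ^ n := h
      _ = 3 ^ n := by norm_num
  linarith

theorem quant_half (ν R : ℕ) (hR : 4 * (ν + 1) ≤ R) :
    (1 : ℝ) / 2 ≤ (1 - (3 / 4 : ℝ) ^ R) ^ (ν + 1) := by
  have h1 : (3 / 4 : ℝ) ^ R ≤ (3 / 4 : ℝ) ^ (4 * (ν + 1)) :=
    pow_le_pow_of_le_one (by norm_num) (by norm_num) hR
  have h2 : (3 / 4 : ℝ) ^ (4 * (ν + 1)) ≤ (1 / 3 : ℝ) ^ (ν + 1) := by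
    rw [pow_mul]
    exact pow_le_pow_left₀ (by norm_num) (by norm_num) _
  have h3 : (1 / 3 : ℝ) ^ (ν + 1) ≤ 1 / (2 * (ν + 1)) := by
    rw [one_div_pow]
    have := quant_two_mul_le_three_pow (ν + 1)
    push_cast at this
    exact one_div_le_one_div_of_le (by positivity) this
  have h4 : (3 / 4 : ℝ) ^ R ≤ 1 / (2 * (ν + 1)) := h1.trans (h2.trans h3)
  have h5 : (3 / 4 : ℝ) ^ R ≤ 1 := pow_le_one₀ (by norm_num) (by norm_num)
  have h6 := one_add_mul_le_pow (a := -(3 / 4 : ℝ) ^ R) (by linarith) (ν + 1)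
  have h7 : ((ν + 1 : ℕ) : ℝ) * (3 / 4 : ℝ) ^ R ≤ 1 / 2 := by
    have h8 : ((ν + 1 : ℕ) : ℝ) * (3 / 4 : ℝ) ^ R ≤ ((ν + 1 : ℕ) : ℝ) * (1 / (2 * (ν + 1))) :=
      mul_le_mul_of_nonneg_left h4 (by positivity)
    refine h8.trans (le_of_eq ?_)
    push_cast
    field_simp
  have h9 : (1 + -(3 / 4 : ℝ) ^ R) = 1 - (3 / 4 : ℝ) ^ R := by ring
  rw [h9] at h6
  refine le_trans ?_ h6
  have : ((ν + 1 : ℕ) : ℝ) * -(3 / 4 : ℝ) ^ R = -(((ν + 1 : ℕ) : ℝ) * (3 / 4 : ℝ) ^ R) := by ring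
  rw [this]
  linarith

theorem quant_exp (τ : ℝ) (hτ : 0 < τ) (P : ℕ) (hP : 12 / τ ^ 2 ≤ P) (y : ℝ) (hy0 : 0 ≤ y)
    (hy : y ≤ 1 - τ ^ 2 / 6) : y ^ P ≤ 1 / 3 := by
  have h1 : y ≤ Real.exp (-(τ ^ 2 / 6)) := by
    have := Real.add_one_le_exp (-(τ ^ 2 / 6))
    linarith
  have h2 : y ^ P ≤ Real.exp (-(τ ^ 2 / 6)) ^ P := pow_le_pow_left₀ hy0 h1 P
  rw [← Real.exp_nat_mul] at h2
  have h3 : (P : ℝ) * -(τ ^ 2 / 6) ≤ -2 := by
    rw [div_le_iff₀ (by positivity)] at hP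
    nlinarith
  have h4 : Real.exp ((P : ℝ) * -(τ ^ 2 / 6)) ≤ Real.exp (-2) := Real.exp_le_exp.2 h3
  have h5 : Real.exp (-2) ≤ 1 / 3 := by
    rw [Real.exp_neg, ← one_div]
    apply one_div_le_one_div_of_le (by norm_num)
    have := Real.add_one_le_exp (2 : ℝ)
    linarith
  linarith

/-! ### pass and verification, repeated -/

/-- T6f (file S0554_Quantum): pass + verification, repeated. -/
theorem quantum_rlz {ν κ K B : ℕ} (hκ : 1 ≤ κ) (hK : 1 ≤ K) (dec : (Fin B → Bool) → ℤ)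
    (τ : ℝ) (hτ : 0 < τ) (D J J' R R' P : ℕ) (hD : 1 + ν * (2 * ν + 2) ≤ D)
    (hD' : (K + 3) * B + ν + 2 ≤ D) (hJ : 2 * √(2 ^ ν) / τ ≤ J)
    (hJ' : 2 * √(((K * κ + 3) * (ν + 1) * 2 ^ ν + 1 : ℕ) : ℝ) ≤ J')
    (hR : 4 * (ν + 1) ≤ R) (hP : 12 / τ ^ 2 ≤ P) (hR' : P * (3 / 4 : ℝ) ^ R' ≤ 1 / 3) :
    ∃ p : (Idx ν κ K B → Bool) → Bool → ℝ,
      Rlz D (P * ((ν + 1) * (R * (κ + J * (2 * κ + 1) + 1)) + R' * (J' + 1))) p ∧
      ∀ x, 2 / 3 ≤ p x (FF dec (τ * K * √(2 ^ ν) ^ (κ + 1)) x) := by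
  classical
  set θ : ℝ := τ * K * √(2 ^ ν) ^ (κ + 1) with hθ
  -- the pass
  obtain ⟨p₁, hp₁, hpass⟩ := rlz_pass hκ hK dec τ hτ D J R ν hD hJ (by omega)
  -- the verification
  have hver : ∀ r : I ν × I ν, ∃ v : (Idx ν κ K B → Bool) → Bool → ℝ, Rlz D (R' * (J' + 1)) v ∧
      ∀ x, (Valid dec θ x r.1 r.2 → v x true = 1) ∧
        (¬ Valid dec θ x r.1 r.2 → v x true ≤ (3 / 4) ^ R') := by
    intro r
    obtain ⟨C, _, _, _, viol, hcard, hdep, hval⟩ := valid_constraints ν κ K B hκ dec θ r.1 r.2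
    obtain ⟨v, hv, hv'⟩ := rlz_forall viol (fun c => (hdep c).trans hD') J' (by
      refine le_trans ?_ hJ'
      apply mul_le_mul_of_nonneg_left _ (by norm_num)
      apply Real.sqrt_le_sqrt
      exact_mod_cast hcard) R'
    refine ⟨v, hv, fun x => ⟨fun h => (hv' x).1 ((hval x).1 h), fun h => (hv' x).2 ?_⟩⟩
    by_contra hne
    push Not at hne
    apply h
    rw [hval x]
    intro c
    have := hne c
    simpa using this
  choose v hv hvx using hver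
  -- one round
  set V : Option (I ν × I ν) → (Idx ν κ K B → Bool) → Bool → ℝ := fun o =>
    match o with
    | none => fun _ b => if b = false then 1 else 0
    | some r => v r with hV
  have hVr : ∀ o, Rlz D (R' * (J' + 1)) (V o) := by
    intro o
    match o with
    | none =>
      have h0 := (Rlz.pure (ι := Idx ν κ K B) (D := D) false).mono_q (Nat.zero_le (R' * (J' + 1)))
      convert h0 using 3
      simp [hV]
    | some r => exact hv r
  have hround := hp₁.bind hVr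
  set p₂ : (Idx ν κ K B → Bool) → Bool → ℝ := fun x c => ∑ b, p₁ x b * V b x c with hp₂
  -- the output `true` has mass at least `τ²/6` if `FF` and at most `(3/4)^R'` otherwise
  have htrue : ∀ x, FF dec θ x = true → τ ^ 2 / 6 ≤ p₂ x true := by
    intro x hx
    have hx' : ∃ j s, Valid dec θ x j s := by simpa [FF] using hx
    obtain ⟨j, s, hval⟩ := hx'
    have h1 : p₁ x (some (j, s)) * V (some (j, s)) x true ≤ p₂ x true := by
      apply Finset.single_le_sum (f := fun b => p₁ x b * V b x true) _ (Finset.mem_univ _)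
      intro o _
      exact mul_nonneg (hp₁.nonneg x o) ((hVr o).nonneg x true)
    have h2 : V (some (j, s)) x true = 1 := (hvx (j, s) x).1 hval
    rw [h2, mul_one] at h1
    refine le_trans ?_ h1
    refine le_trans ?_ (hpass x j s hval)
    have h3 : (1 - (3 / 4 : ℝ) ^ R) ^ (ν + 1) * (τ ^ 2 / 2 ^ ν) / (1 / 2 ^ ν + 2 / 2 ^ ν) =
        (1 - (3 / 4 : ℝ) ^ R) ^ (ν + 1) * (τ ^ 2 / 3) := by
      field_simp
      ring
    rw [h3]
    have h4 := quant_half ν R hR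
    have h5 : 0 < τ ^ 2 / 3 := by positivity
    nlinarith
  have hfalse : ∀ x, FF dec θ x = false → p₂ x true ≤ (3 / 4) ^ R' := by
    intro x hx
    have hx' : ¬ ∃ j s, Valid dec θ x j s := by simpa [FF] using hx
    have h1 : ∀ o, V o x true ≤ (3 / 4 : ℝ) ^ R' := by
      intro o
      match o with
      | none =>
        have : V none x true = 0 := by simp [hV]
        rw [this]
        positivity
      | some r => exact (hvx r x).2 (fun h => hx' ⟨_, _, h⟩)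
    calc p₂ x true ≤ ∑ b, p₁ x b * (3 / 4 : ℝ) ^ R' :=
          Finset.sum_le_sum fun b _ => mul_le_mul_of_nonneg_left (h1 b) (hp₁.nonneg x b)
      _ = (3 / 4 : ℝ) ^ R' := by rw [← Finset.sum_mul, hp₁.sum_eq_one x, one_mul]
  -- convert to Option Unit
  set g : Bool → Option Unit := fun b => if b then some () else none with hg
  have hm := Rlz.map g hround
  obtain ⟨p₃, hp₃, hp₃x⟩ := rlz_first hm P
  set g' : Option Unit → Bool := fun o => o.isSome with hg'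
  have hm' := Rlz.map g' hp₃
  have hsum₂ : ∀ x, p₂ x true + p₂ x false = 1 := by
    intro x
    have := hround.sum_eq_one x
    rw [Fintype.sum_bool] at this
    exact this
  have hnn₂ : ∀ x b, 0 ≤ p₂ x b := fun x b => hround.nonneg x b
  refine ⟨_, hm', fun x => ?_⟩
  have hnone : p₃ x none = (p₂ x false) ^ P := by
    rw [(hp₃x x).2]
    congr 1
    rw [Fintype.sum_bool]
    simp [hg]
  have hsum₃ : p₃ x none + p₃ x (some ()) = 1 := by
    have := hp₃.sum_eq_one x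
    rw [Fintype.sum_option] at this
    simpa using this
  have hfinF : (∑ b, @ite ℝ (g' b = false) (Classical.propDecidable _) (p₃ x b) 0) =
      (p₂ x false) ^ P := by
    rw [Fintype.sum_option]
    simp [hg', hnone]
  have hfinT : (∑ b, @ite ℝ (g' b = true) (Classical.propDecidable _) (p₃ x b) 0) =
      1 - (p₂ x false) ^ P := by
    rw [Fintype.sum_option]
    simp only [hg', Option.isSome_none, Bool.false_eq_true, if_false, Option.isSome_some, if_true,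
      zero_add, Finset.univ_unique, Finset.sum_singleton]
    have : p₃ x (some default) = p₃ x (some ()) := rfl
    rw [this, ← hnone]
    linarith
  have hs := hsum₂ x
  cases hFF : FF dec θ x with
  | true =>
    change 2 / 3 ≤ ∑ b, @ite ℝ (g' b = true) (Classical.propDecidable _) (p₃ x b) 0
    rw [hfinT]
    have h1 := quant_exp τ hτ P hP (p₂ x false) (hnn₂ x false) (by linarith [htrue x hFF])
    linarith
  | false =>
    change 2 / 3 ≤ ∑ b, @ite ℝ (g' b = false) (Classical.propDecidable _) (p₃ x b) 0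
    rw [hfinF]
    have h1 := hfalse x hFF
    have h2 : 1 - (3 / 4 : ℝ) ^ R' ≤ p₂ x false := by linarith
    have h3 : (3 / 4 : ℝ) ^ R' ≤ 1 := pow_le_one₀ (by norm_num) (by norm_num)
    have h4 : (1 - (3 / 4 : ℝ) ^ R') ^ P ≤ (p₂ x false) ^ P :=
      pow_le_pow_left₀ (by linarith) h2 P
    have h5 := one_add_mul_le_pow (a := -(3 / 4 : ℝ) ^ R') (by linarith) P
    have h6 : (1 + -(3 / 4 : ℝ) ^ R') = 1 - (3 / 4 : ℝ) ^ R' := by ring
    rw [h6] at h5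
    have h7 : (P : ℝ) * -(3 / 4 : ℝ) ^ R' = -((P : ℝ) * (3 / 4 : ℝ) ^ R') := by ring
    rw [h7] at h5
    linarith

/-! ### the numeric bound -/

set_option maxHeartbeats 1000000 in
/-- T6 (file S0554_Quantum): the quantum upper bound. -/
theorem quantum_upper (κ K : ℕ) (hκ : 1 ≤ κ) (hK : 1 ≤ K) (τ : ℝ) (hτ : 0 < τ) (hτ1 : τ ≤ 1) :
    ∃ C b : ℝ, 0 < C ∧ 0 < b ∧ ∀ ν : ℕ, 1 ≤ ν →
      ∀ (dec : (Fin (ν * (κ + 1) + 2) → Bool) → ℤ) (n : ℕ)
        (e : Idx ν κ K (ν * (κ + 1) + 2) ≃ Fin n),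
        ∃ q : ℕ, (q : ℝ) ≤ C * √(2 ^ ν) * (ν : ℝ) ^ b ∧
          QuantumComputes (fun x : Fin n → Bool =>
            FF dec (τ * K * √(2 ^ ν) ^ (κ + 1)) (fun i => x (e i))) q := by
  set P : ℕ := ⌈12 / τ ^ 2⌉₊ with hPdef
  have hP : 12 / τ ^ 2 ≤ P := Nat.le_ceil _
  have hP0 : 0 < (P : ℝ) := lt_of_lt_of_le (by positivity) hP
  obtain ⟨R', hR'⟩ : ∃ R' : ℕ, P * (3 / 4 : ℝ) ^ R' ≤ 1 / 3 := by
    obtain ⟨R', hR'⟩ := exists_pow_lt_of_lt_one (show (0 : ℝ) < 1 / (3 * P) by positivity)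
      (show (3 / 4 : ℝ) < 1 by norm_num)
    refine ⟨R', ?_⟩
    have := mul_le_mul_of_nonneg_left hR'.le hP0.le
    refine this.trans (le_of_eq ?_)
    field_simp
  set CD : ℝ := 8 + (K + 3) * (κ + 3) with hCD
  set CJ : ℝ := κ + (2 / τ + 1) * (2 * κ + 1) + 1 with hCJ
  set c : ℝ := 2 * (K * κ + 3) + 1 with hc
  set CQ : ℝ := P * (16 * CJ + R' * (2 * c + 2)) with hCQ
  have hK0 : (0 : ℝ) ≤ K := Nat.cast_nonneg _
  have hκ0 : (0 : ℝ) ≤ κ := Nat.cast_nonneg _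
  have hCD0 : 0 < CD := by positivity
  have hCJ0 : 0 < CJ := by positivity
  have hc0 : 1 ≤ c := by
    have : 0 ≤ (K : ℝ) * κ := by positivity
    rw [hc]; linarith
  have hCQ0 : 0 < CQ := by positivity
  refine ⟨2 * CD * CQ, 4, by positivity, by norm_num, ?_⟩
  intro ν hν dec n e
  set s : ℝ := √(2 ^ ν) with hs
  have hs1 : 1 ≤ s := by
    rw [hs]
    apply Real.one_le_sqrt.2
    exact one_le_pow₀ (by norm_num)
  have hν1 : (1 : ℝ) ≤ ν := by exact_mod_cast hν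
  set D : ℕ := (1 + ν * (2 * ν + 2)) + ((K + 3) * (ν * (κ + 1) + 2) + ν + 2) with hD
  set J : ℕ := ⌈2 * s / τ⌉₊ with hJ
  set J' : ℕ := ⌈2 * √(((K * κ + 3) * (ν + 1) * 2 ^ ν + 1 : ℕ) : ℝ)⌉₊ with hJ'
  obtain ⟨p, hp, hpx⟩ := quantum_rlz (ν := ν) (κ := κ) (K := K) hκ hK dec τ hτ D J J'
    (4 * (ν + 1)) R' P (by omega) (by omega) (Nat.le_ceil _) (Nat.le_ceil _) le_rfl hP hR'
  have hn : 0 < n := by
    have : Nonempty (Fin n) := ⟨e (.X (fun _ => false) (fun _ => false))⟩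
    exact Fin.pos_iff_nonempty.2 this
  set Q : ℕ := P * ((ν + 1) * ((4 * (ν + 1)) * (κ + J * (2 * κ + 1) + 1)) + R' * (J' + 1)) with hQ
  refine ⟨Q * (2 * D), ?_, quantumComputes_of_rlz hn _ _ (hp.rename e)
    (fun x => hpx (fun i => x (e i)))⟩
  -- the bounds
  have hDle : (D : ℝ) ≤ CD * ν ^ 2 := by
    rw [hD, hCD]
    push_cast
    have e1 : (0 : ℝ) ≤ (K + 3) * (κ + 1) := by positivity
    have e2 : (ν : ℝ) ≤ ν ^ 2 := by nlinarith
    have e3 : (1 : ℝ) ≤ ν ^ 2 := by nlinarith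
    have e4 : ((K : ℝ) + 3) * (κ + 1) * ν ≤ (K + 3) * (κ + 1) * ν ^ 2 :=
      mul_le_mul_of_nonneg_left e2 e1
    have e5 : ((K : ℝ) + 3) * 2 * 1 ≤ (K + 3) * 2 * ν ^ 2 :=
      mul_le_mul_of_nonneg_left e3 (by positivity)
    have e6 : (1 : ℝ) + ν * (2 * ν + 2) + ((K + 3) * (ν * (κ + 1) + 2) + ν + 2) =
      3 + 2 * ν ^ 2 + 3 * ν + (K + 3) * (κ + 1) * ν + (K + 3) * 2 * 1 := by ring
    have e7 : (8 + ((K : ℝ) + 3) * (κ + 3)) * ν ^ 2 =
      8 * ν ^ 2 + (K + 3) * (κ + 1) * ν ^ 2 + (K + 3) * 2 * ν ^ 2 := by ring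
    rw [e6, e7]
    linarith
  have hJle : (J : ℝ) ≤ (2 / τ + 1) * s := by
    have h1 : (J : ℝ) < 2 * s / τ + 1 := Nat.ceil_lt_add_one (by positivity)
    have h2 : 2 * s / τ = 2 / τ * s := by ring
    rw [h2] at h1
    have h3 : (2 / τ + 1) * s = 2 / τ * s + s := by ring
    rw [h3]
    linarith
  have hJle2 : ((κ : ℝ) + J * (2 * κ + 1) + 1) ≤ CJ * s := by
    have h1 : (J : ℝ) * (2 * κ + 1) ≤ (2 / τ + 1) * s * (2 * κ + 1) :=
      mul_le_mul_of_nonneg_right hJle (by positivity)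
    have h2 : CJ * s = κ * s + (2 / τ + 1) * s * (2 * κ + 1) + s := by rw [hCJ]; ring
    have h3 : (κ : ℝ) * 1 ≤ κ * s := mul_le_mul_of_nonneg_left hs1 hκ0
    rw [h2]
    linarith
  have hJ'le : (J' : ℝ) + 1 ≤ (2 * c + 2) * ν * s := by
    have h1 : (J' : ℝ) < 2 * √(((K * κ + 3) * (ν + 1) * 2 ^ ν + 1 : ℕ) : ℝ) + 1 :=
      Nat.ceil_lt_add_one (by positivity)
    have h2 : √(((K * κ + 3) * (ν + 1) * 2 ^ ν + 1 : ℕ) : ℝ) ≤ c * ν * s := by
      apply Real.sqrt_le_iff.2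
      refine ⟨by positivity, ?_⟩
      have hs2 : s ^ 2 = 2 ^ ν := Real.sq_sqrt (by positivity)
      rw [mul_pow, hs2]
      push_cast
      have h3 : (1 : ℝ) ≤ 2 ^ ν := one_le_pow₀ (by norm_num)
      have h4 : ((K : ℝ) * κ + 3) * (ν + 1) * 2 ^ ν + 1 ≤ (((K : ℝ) * κ + 3) * (ν + 1) + 1) * 2 ^ ν := by
        nlinarith
      refine h4.trans (mul_le_mul_of_nonneg_right ?_ (by positivity))
      have h5 : (0 : ℝ) ≤ (K : ℝ) * κ := by positivity
      have h6 : ((K : ℝ) * κ + 3) * (ν + 1) + 1 ≤ c * ν := by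
        have h9 : ((K : ℝ) * κ + 3) * 1 ≤ ((K : ℝ) * κ + 3) * ν :=
          mul_le_mul_of_nonneg_left hν1 (by linarith)
        have h10 : c * ν = 2 * (((K : ℝ) * κ + 3) * ν) + ν := by rw [hc]; ring
        have h11 : ((K : ℝ) * κ + 3) * (ν + 1) = ((K : ℝ) * κ + 3) * ν + ((K : ℝ) * κ + 3) * 1 := by
          ring
        rw [h10, h11]
        linarith
      have h7 : c * ν ≤ (c * ν) ^ 2 := by
        have h9 : 1 * 1 ≤ c * ν := mul_le_mul hc0 hν1 (by norm_num) (by linarith)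
        rw [one_mul] at h9
        exact le_self_pow₀ h9 (by norm_num)
      linarith
    have h8 : 1 * 1 ≤ (ν : ℝ) * s := mul_le_mul hν1 hs1 (by norm_num) (by linarith)
    have h12 : (2 * c + 2) * ν * s = 2 * (c * ν * s) + 2 * (ν * s) := by ring
    rw [h12]
    linarith
  have hQle : (Q : ℝ) ≤ CQ * ν ^ 2 * s := by
    rw [hQ, hCQ]
    push_cast
    have h1 : ((ν : ℝ) + 1) * (4 * (ν + 1)) ≤ 16 * ν ^ 2 := by nlinarith
    have h2 : ((ν : ℝ) + 1) * (4 * (ν + 1)) * ((κ : ℝ) + J * (2 * κ + 1) + 1) ≤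
        16 * ν ^ 2 * (CJ * s) := by
      apply mul_le_mul h1 hJle2 (by positivity) (by positivity)
    have h3 : (R' : ℝ) * (J' + 1) ≤ R' * ((2 * c + 2) * ν * s) :=
      mul_le_mul_of_nonneg_left hJ'le (Nat.cast_nonneg _)
    have h4 : (R' : ℝ) * ((2 * c + 2) * ν * s) ≤ R' * ((2 * c + 2) * ν ^ 2 * s) := by
      have e2 : (ν : ℝ) ≤ ν ^ 2 := by nlinarith
      have e3 : (2 * c + 2) * ν * s ≤ (2 * c + 2) * ν ^ 2 * s := by
        apply mul_le_mul_of_nonneg_right _ (by linarith)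
        apply mul_le_mul_of_nonneg_left e2 (by linarith)
      exact mul_le_mul_of_nonneg_left e3 (Nat.cast_nonneg _)
    have h5 : ((ν : ℝ) + 1) * (4 * (ν + 1) * ((κ : ℝ) + J * (2 * κ + 1) + 1)) + R' * (J' + 1) ≤
        (16 * CJ + R' * (2 * c + 2)) * ν ^ 2 * s := by
      have e1 : ((ν : ℝ) + 1) * (4 * (ν + 1) * ((κ : ℝ) + J * (2 * κ + 1) + 1)) =
        ((ν : ℝ) + 1) * (4 * (ν + 1)) * ((κ : ℝ) + J * (2 * κ + 1) + 1) := by ring
      have e2 : (16 * CJ + R' * (2 * c + 2)) * ν ^ 2 * s =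
        16 * ν ^ 2 * (CJ * s) + R' * ((2 * c + 2) * ν ^ 2 * s) := by ring
      rw [e1, e2]
      linarith
    have h6 := mul_le_mul_of_nonneg_left h5 hP0.le
    refine h6.trans (le_of_eq ?_)
    ring
  have hpow : (ν : ℝ) ^ (4 : ℝ) = (ν : ℝ) ^ 4 := by
    rw [← Real.rpow_natCast]
    norm_num
  rw [hpow]
  push_cast
  have h1 : (Q : ℝ) * (2 * D) ≤ (CQ * ν ^ 2 * s) * (2 * (CD * ν ^ 2)) := by
    apply mul_le_mul hQle _ (by positivity) (by positivity)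
    linarith
  refine h1.trans (le_of_eq ?_)
  ring

end Crest.Agent.S0554
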