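import Crest.Agent.S0554_Defs

/-!
S0554 T9a, T9b: hybrid argument over copies, flipping by a mask.
-/

set_option autoImplicit false

namespace Crest.Agent.S0554

open Crest.MathPhysics.Query

namespace Indist

/-- flip the answers of a program by a mask -/
def flipP {J α : Type} (s : J → Bool) : Prog J α → Prog J α
  | .ret a => .ret a
  | .ask i k => .ask i (fun b => flipP s (k (xor b (s i))))

theorem eval_flipP {J α : Type} (s : J → Bool) (T : Prog J α) (x : J → Bool) :
    (flipP s T).eval x = T.eval (fun i => xor (x i) (s i)) := by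
  induction T with
  | ret a => rfl
  | ask i k ih => simp only [flipP, Prog.eval, ih]

theorem depth_flipP {J α : Type} (s : J → Bool) (T : Prog J α) :
    (flipP s T).depth = T.depth := by
  induction T with
  | ret a => rfl
  | ask i k ih =>
    simp only [flipP, Prog.depth, ih]
    cases s i <;> simp [max_comm]

/-- resolve the queries outside copy `c₀` -/
def restr {C J α : Type} [DecidableEq C] (Y : C → J → Bool) (c₀ : C) :
    Prog (C × J) α → Prog J α
  | .ret a => .ret a
  | .ask i k => if i.1 = c₀ then .ask i.2 (fun b => restr Y c₀ (k b)) else restr Y c₀ (k (Y i.1 i.2))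

theorem eval_restr {C J α : Type} [DecidableEq C] (Y : C → J → Bool) (c₀ : C)
    (T : Prog (C × J) α) (f : J → Bool) :
    (restr Y c₀ T).eval f = T.eval (fun i => Function.update Y c₀ f i.1 i.2) := by
  induction T with
  | ret a => rfl
  | ask i k ih =>
    simp only [restr, Prog.eval]
    split_ifs with h
    · simp only [Prog.eval, ih]
      obtain ⟨c, j⟩ := i
      simp only at h
      subst h
      simp
    · rw [ih, Function.update_of_ne h]

theorem depth_restr {C J α : Type} [DecidableEq C] (Y : C → J → Bool) (c₀ : C)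
    (T : Prog (C × J) α) : (restr Y c₀ T).depth ≤ T.depth := by
  induction T with
  | ret a => exact le_rfl
  | ask i k ih =>
    simp only [restr, Prog.depth]
    split_ifs with h
    · simp only [Prog.depth]
      have h1 := ih false
      have h2 := ih true
      omega
    · have h1 := ih false
      have h2 := ih true
      cases Y i.1 i.2 <;> omega

/-- resampling one coordinate -/
theorem sum_update {C X : Type} [Fintype C] [DecidableEq C] [Fintype X] (c₀ : C)
    (F : (C → X) → ℝ) :
    ∑ Y : C → X, ∑ f : X, F (Function.update Y c₀ f) = Fintype.card X * ∑ Y, F Y := by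
  classical
  have h1 : ∑ Y : C → X, ∑ f : X, F (Function.update Y c₀ f) =
      ∑ q : (C → X) × X, F (Function.update q.1 c₀ q.2) := by
    rw [Fintype.sum_prod_type]
  have h2 : ∑ q : (C → X) × X, F (Function.update q.1 c₀ q.2) = ∑ q : (C → X) × X, F q.1 := by
    refine Finset.sum_nbij' (fun q => (Function.update q.1 c₀ q.2, q.1 c₀))
      (fun q => (Function.update q.1 c₀ q.2, q.1 c₀)) ?_ ?_ ?_ ?_ ?_
    · simp
    · simp
    · rintro ⟨Y, f⟩ _; simp
    · rintro ⟨Y, f⟩ _; simp
    · rintro ⟨Y, f⟩ _; simp
  rw [h1, h2, Fintype.sum_prod_type, Finset.mul_sum]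
  refine Finset.sum_congr rfl fun Y _ => ?_
  simp

theorem hybrid {J : Type} [Fintype J] [DecidableEq J] (D : (J → Bool) → ℝ)
    (hD0 : ∀ f, 0 ≤ D f) (hD1 : ∑ f, D f = 1) (d : ℕ) (δ : ℝ)
    (h : ∀ T : Prog J Bool, T.depth ≤ d → |∑ f, D f * ind T f - avg (ind T)| ≤ δ)
    {C : Type} [Fintype C] [DecidableEq C] (T : Prog (C × J) Bool) (hT : T.depth ≤ d)
    (S : Finset C) :
    |∑ Y : C → J → Bool, (∏ c, (if c ∈ S then D (Y c) else 1 / 2 ^ Fintype.card J)) *
        ind T (fun i => Y i.1 i.2) -
      ∑ Y : C → J → Bool, (∏ _c : C, (1 / 2 ^ Fintype.card J : ℝ)) * ind T (fun i => Y i.1 i.2)| ≤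
      S.card * δ := by
  classical
  set u : ℝ := 1 / 2 ^ Fintype.card J with hu
  have hu0 : 0 < u := by positivity
  have husum : ∑ _f : J → Bool, u = 1 := by
    rw [Finset.sum_const, Finset.card_univ, Fintype.card_fun, Fintype.card_bool, nsmul_eq_mul]
    rw [hu]
    push_cast
    field_simp
  induction S using Finset.induction_on with
  | empty => simp
  | insert c₀ S hc₀ ih =>
    have hstep : |∑ Y : C → J → Bool, (∏ c, (if c ∈ insert c₀ S then D (Y c) else u)) *
        ind T (fun i => Y i.1 i.2) -
      ∑ Y : C → J → Bool, (∏ c, (if c ∈ S then D (Y c) else u)) *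
        ind T (fun i => Y i.1 i.2)| ≤ δ := by
      set w : (C → J → Bool) → ℝ := fun Y => ∏ c ∈ Finset.univ.erase c₀, (if c ∈ S then D (Y c) else u)
      have hw0 : ∀ Y, 0 ≤ w Y := by
        intro Y
        refine Finset.prod_nonneg fun c _ => ?_
        split_ifs
        · exact hD0 _
        · exact hu0.le
      have hw : ∀ Y f, w (Function.update Y c₀ f) = w Y := by
        intro Y f
        refine Finset.prod_congr rfl fun c hc => ?_
        rw [Function.update_of_ne (Finset.ne_of_mem_erase hc)]
      have e1 : ∀ Y : C → J → Bool, (∏ c, (if c ∈ insert c₀ S then D (Y c) else u)) =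
          D (Y c₀) * w Y := by
        intro Y
        rw [← Finset.mul_prod_erase _ _ (Finset.mem_univ c₀)]
        simp only [Finset.mem_insert_self, if_true]
        congr 1
        refine Finset.prod_congr rfl fun c hc => ?_
        have : c ≠ c₀ := Finset.ne_of_mem_erase hc
        simp [this]
      have e2 : ∀ Y : C → J → Bool, (∏ c, (if c ∈ S then D (Y c) else u)) = u * w Y := by
        intro Y
        rw [← Finset.mul_prod_erase _ _ (Finset.mem_univ c₀)]
        simp only [hc₀, if_false]
        rfl
      have e3 : ∑ Y : C → J → Bool, (∏ c, (if c ∈ insert c₀ S then D (Y c) else u)) *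
            ind T (fun i => Y i.1 i.2) -
          ∑ Y : C → J → Bool, (∏ c, (if c ∈ S then D (Y c) else u)) * ind T (fun i => Y i.1 i.2) =
          ∑ Y : C → J → Bool, w Y * ((D (Y c₀) - u) * ind T (fun i => Y i.1 i.2)) := by
        rw [← Finset.sum_sub_distrib]
        refine Finset.sum_congr rfl fun Y _ => ?_
        rw [e1, e2]; ring
      rw [e3]
      have hN : (0:ℝ) < Fintype.card (J → Bool) := by
        exact_mod_cast Fintype.card_pos
      have e4 := sum_update c₀ (fun Y : C → J → Bool =>
        w Y * ((D (Y c₀) - u) * ind T (fun i => Y i.1 i.2)))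
      have e5 := sum_update c₀ w
      have e6 : ∑ Y : C → J → Bool, w Y = Fintype.card (J → Bool) := by
        have : ∀ Y, w Y = ∏ c, (if c = c₀ then 1 else if c ∈ S then D (Y c) else u) := by
          intro Y
          rw [← Finset.mul_prod_erase _ _ (Finset.mem_univ c₀)]
          simp only [if_true, one_mul]
          refine Finset.prod_congr rfl fun c hc => ?_
          rw [if_neg (Finset.ne_of_mem_erase hc)]
        simp_rw [this]
        have h2 := Finset.prod_univ_sum (fun _ : C => (Finset.univ : Finset (J → Bool)))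
          (fun c f => if c = c₀ then (1:ℝ) else if c ∈ S then D f else u)
        rw [Fintype.piFinset_univ] at h2
        rw [← h2, ← Finset.mul_prod_erase _ _ (Finset.mem_univ c₀)]
        have h3 : ∏ c ∈ Finset.univ.erase c₀,
            (∑ f : J → Bool, if c = c₀ then (1:ℝ) else if c ∈ S then D f else u) = 1 := by
          refine Finset.prod_eq_one fun c hc => ?_
          simp only [if_neg (Finset.ne_of_mem_erase hc)]
          split_ifs
          · exact hD1
          · exact husum
        rw [h3]
        simp
      have e7 : ∀ Y : C → J → Bool,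
          |∑ f : J → Bool, (D f - u) * ind T (fun i => Function.update Y c₀ f i.1 i.2)| ≤ δ := by
        intro Y
        have := h (restr Y c₀ T) ((depth_restr Y c₀ T).trans hT)
        convert this using 2
        rw [avg, Finset.sum_div, ← Finset.sum_sub_distrib]
        refine Finset.sum_congr rfl fun f _ => ?_
        simp only [ind, eval_restr]
        rw [hu]
        ring
      have e8 : (Fintype.card (J → Bool) : ℝ) *
          |∑ Y : C → J → Bool, w Y * ((D (Y c₀) - u) * ind T (fun i => Y i.1 i.2))| ≤
          Fintype.card (J → Bool) * δ := by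
        rw [← abs_of_pos hN, ← abs_mul, abs_of_pos hN, ← e4]
        calc |∑ Y : C → J → Bool, ∑ f : J → Bool, w (Function.update Y c₀ f) *
              ((D (Function.update Y c₀ f c₀) - u) *
                ind T (fun i => Function.update Y c₀ f i.1 i.2))|
            = |∑ Y : C → J → Bool, w Y * ∑ f : J → Bool, (D f - u) *
                ind T (fun i => Function.update Y c₀ f i.1 i.2)| := by
              congr 1
              refine Finset.sum_congr rfl fun Y _ => ?_
              rw [Finset.mul_sum]
              refine Finset.sum_congr rfl fun f _ => ?_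
              rw [hw, Function.update_self]
          _ ≤ ∑ Y : C → J → Bool, |w Y * ∑ f : J → Bool, (D f - u) *
                ind T (fun i => Function.update Y c₀ f i.1 i.2)| := Finset.abs_sum_le_sum_abs _ _
          _ ≤ ∑ Y : C → J → Bool, w Y * δ := by
              refine Finset.sum_le_sum fun Y _ => ?_
              rw [abs_mul, abs_of_nonneg (hw0 Y)]
              exact mul_le_mul_of_nonneg_left (e7 Y) (hw0 Y)
          _ = Fintype.card (J → Bool) * δ := by
              rw [← Finset.sum_mul, e6]
      exact le_of_mul_le_mul_left e8 hN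
    rw [Finset.card_insert_of_notMem hc₀]
    push_cast
    calc _ ≤ |∑ Y : C → J → Bool, (∏ c, (if c ∈ insert c₀ S then D (Y c) else u)) *
        ind T (fun i => Y i.1 i.2) -
      ∑ Y : C → J → Bool, (∏ c, (if c ∈ S then D (Y c) else u)) *
        ind T (fun i => Y i.1 i.2)| + |∑ Y : C → J → Bool, (∏ c, (if c ∈ S then D (Y c) else u)) *
        ind T (fun i => Y i.1 i.2) - ∑ Y : C → J → Bool, (∏ _c : C, (u : ℝ)) *
        ind T (fun i => Y i.1 i.2)| := abs_sub_le _ _ _
      _ ≤ δ + S.card * δ := add_le_add hstep ih
      _ = (S.card + 1) * δ := by ring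

end Indist

open Indist in
/-- T9a: hybrid over copies. -/
theorem indist_copies {J : Type} [Fintype J] [DecidableEq J] (D : (J → Bool) → ℝ)
    (hD0 : ∀ f, 0 ≤ D f) (hD1 : ∑ f, D f = 1) (d : ℕ) (δ : ℝ)
    (h : ∀ T : Prog J Bool, T.depth ≤ d → |∑ f, D f * ind T f - avg (ind T)| ≤ δ)
    (K : ℕ) (T : Prog (Fin K × J) Bool) (hT : T.depth ≤ d) :
    |∑ Y : Fin K × J → Bool, (∏ c, D (fun i => Y (c, i))) * ind T Y - avg (ind T)| ≤ K * δ := by
  have key := hybrid D hD0 hD1 d δ h T hT Finset.univ
  have e1 : ∑ Y : Fin K × J → Bool, (∏ c, D (fun i => Y (c, i))) * ind T Y =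
      ∑ Y : Fin K → J → Bool, (∏ c, D (Y c)) * ind T (fun i => Y i.1 i.2) := by
    refine Fintype.sum_equiv (Equiv.curry (Fin K) J Bool) _ _ fun Y => ?_
    rfl
  have e2 : avg (ind T) = ∑ Y : Fin K → J → Bool,
      (∏ _c : Fin K, (1 / 2 ^ Fintype.card J : ℝ)) * ind T (fun i => Y i.1 i.2) := by
    rw [avg, Finset.sum_div]
    refine Fintype.sum_equiv (Equiv.curry (Fin K) J Bool) _ _ fun Y => ?_
    have : (fun i : Fin K × J => (Equiv.curry (Fin K) J Bool) Y i.1 i.2) = Y := rfl
    rw [this, Finset.prod_const, Finset.card_univ, Fintype.card_prod, Fintype.card_fin,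
      div_pow, one_pow, ← pow_mul, mul_comm (Fintype.card J)]
    ring
  rw [e1, e2]
  simpa using key

open Indist in
/-- T9b: flipping input bits by a fixed mask `s` preserves indistinguishability. -/
theorem indist_flip {J : Type} [Fintype J] [DecidableEq J] (D : (J → Bool) → ℝ) (d : ℕ) (δ : ℝ)
    (h : ∀ T : Prog J Bool, T.depth ≤ d → |∑ f, D f * ind T f - avg (ind T)| ≤ δ)
    (s : J → Bool) (T : Prog J Bool) (hT : T.depth ≤ d) :
    |∑ f, D (fun i => xor (f i) (s i)) * ind T f - avg (ind T)| ≤ δ := by
  have key := h (flipP s T) (by rwa [depth_flipP])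
  let φ : (J → Bool) ≃ (J → Bool) :=
    { toFun := fun f i => xor (f i) (s i)
      invFun := fun f i => xor (f i) (s i)
      left_inv := by intro f; ext i; simp
      right_inv := by intro f; ext i; simp }
  have e1 : ∑ f, D (fun i => xor (f i) (s i)) * ind T f = ∑ f, D f * ind (flipP s T) f := by
    refine Fintype.sum_equiv φ _ _ fun f => ?_
    have : (fun i => xor (φ f i) (s i)) = f := by ext i; simp [φ]
    simp only [ind, eval_flipP]
    rw [this]
    rfl
  have e2 : avg (ind T) = avg (ind (flipP s T)) := by
    rw [avg, avg]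
    congr 1
    refine Fintype.sum_equiv φ _ _ fun f => ?_
    have : (fun i => xor (φ f i) (s i)) = f := by ext i; simp [φ]
    simp only [ind, eval_flipP]
    rw [this]
  rw [e1, e2]
  exact key

end Crest.Agent.S0554
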