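import Crest.Agent.S0554_Defs
import Crest.Agent.S0554_Vec
import Crest.Agent.S0554_Indist

/-!
S0554, task T9c: the slot laws for all columns, with concentration and decoding.
-/

set_option autoImplicit false

namespace Crest.Agent.S0554

open Crest.MathPhysics.Query

namespace Slots

/-- Xor with a fixed mask as an equivalence. -/
def xorEquiv {J : Type} (s : J → Bool) : (J → Bool) ≃ (J → Bool) where
  toFun f := fun i => xor (f i) (s i)
  invFun f := fun i => xor (f i) (s i)
  left_inv f := by funext i; simp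
  right_inv f := by funext i; simp

theorem sum_xor {J : Type} [Fintype J] [DecidableEq J] (s : J → Bool)
    (φ : (J → Bool) → (J → Bool) → ℝ) :
    ∑ f, φ (fun i => xor (f i) (s i)) f = ∑ f, φ f (fun i => xor (f i) (s i)) := by
  refine Fintype.sum_equiv (xorEquiv s) _ _ ?_
  intro f
  have h : (fun i => xor ((xorEquiv s f) i) (s i)) = f := (xorEquiv s).left_inv f
  rw [h]
  rfl

/-- product formula on `Fin K × J → Bool` -/
theorem sum_prod {J : Type} [Fintype J] [DecidableEq J] (K : ℕ) (F : Fin K → (J → Bool) → ℝ) :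
    ∑ Y : Fin K × J → Bool, ∏ c, F c (fun i => Y (c, i)) = ∏ c, ∑ g, F c g := by
  rw [Finset.prod_univ_sum]
  rw [Fintype.piFinset_univ]
  refine Fintype.sum_equiv (Equiv.curry (Fin K) J Bool) _ _ ?_
  intro Y
  rfl

theorem second_moment {J : Type} [Fintype J] [DecidableEq J] (K : ℕ)
    (D : (J → Bool) → ℝ) (hD1 : ∑ g, D g = 1) (W : (J → Bool) → ℝ)
    (hW : ∑ g, D g * W g = 0) :
    ∑ Y : Fin K × J → Bool, (∏ c, D (fun i => Y (c, i))) * (∑ c, W (fun i => Y (c, i))) ^ 2
      = K * ∑ g, D g * W g ^ 2 := by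
  have key : ∀ c₁ c₂ : Fin K, ∑ Y : Fin K × J → Bool, (∏ c, D (fun i => Y (c, i))) *
      (W (fun i => Y (c₁, i)) * W (fun i => Y (c₂, i))) =
      if c₁ = c₂ then ∑ g, D g * W g ^ 2 else 0 := by
    intro c₁ c₂
    have h1 : ∀ Y : Fin K × J → Bool, (∏ c, D (fun i => Y (c, i))) *
        (W (fun i => Y (c₁, i)) * W (fun i => Y (c₂, i))) =
        ∏ c, (D (fun i => Y (c, i)) * ((if c = c₁ then W (fun i => Y (c, i)) else 1) *
          (if c = c₂ then W (fun i => Y (c, i)) else 1))) := by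
      intro Y
      rw [Finset.prod_mul_distrib, Finset.prod_mul_distrib]
      congr 1
      congr 1
      · simp [Finset.prod_ite_eq']
      · simp [Finset.prod_ite_eq']
    simp_rw [h1]
    rw [sum_prod K (fun c g => D g * ((if c = c₁ then W g else 1) * (if c = c₂ then W g else 1)))]
    split_ifs with h
    · subst h
      rw [Finset.prod_eq_single c₁]
      · simp [pow_two]
      · intro b _ hb
        simp [hb, hD1]
      · simp
    · apply Finset.prod_eq_zero (Finset.mem_univ c₁)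
      simp [h, hW]
  calc ∑ Y : Fin K × J → Bool, (∏ c, D (fun i => Y (c, i))) * (∑ c, W (fun i => Y (c, i))) ^ 2
      = ∑ Y : Fin K × J → Bool, ∑ c₁, ∑ c₂, (∏ c, D (fun i => Y (c, i))) *
          (W (fun i => Y (c₁, i)) * W (fun i => Y (c₂, i))) := by
        refine Finset.sum_congr rfl fun Y _ => ?_
        rw [pow_two, Finset.sum_mul_sum, Finset.mul_sum]
        refine Finset.sum_congr rfl fun c₁ _ => ?_
        rw [Finset.mul_sum]
    _ = ∑ c₁, ∑ c₂, ∑ Y : Fin K × J → Bool, (∏ c, D (fun i => Y (c, i))) *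
          (W (fun i => Y (c₁, i)) * W (fun i => Y (c₂, i))) := by
        rw [Finset.sum_comm]
        refine Finset.sum_congr rfl fun c₁ _ => ?_
        rw [Finset.sum_comm]
    _ = K * ∑ g, D g * W g ^ 2 := by
        simp_rw [key]
        simp

theorem chz_sq {ν : ℕ} (i l : I ν) : chz i l = 1 ∨ chz i l = -1 := by
  unfold chz
  refine Finset.prod_induction _ (fun z : ℤ => z = 1 ∨ z = -1) ?_ (Or.inl rfl) ?_
  · rintro a b (rfl | rfl) (rfl | rfl) <;> simp
  · intro t _
    unfold sgz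
    split_ifs <;> simp

/-- The Boolean whose sign is `chz j i`. -/
def par {ν : ℕ} (j i : I ν) : Bool := decide (chz j i = -1)

theorem sgz_par {ν : ℕ} (j i : I ν) : sgz (par j i) = chz j i := by
  unfold par sgz
  rcases chz_sq j i with h | h <;> simp [h]

theorem sgz_xor (a b : Bool) : sgz (xor a b) = sgz a * sgz b := by
  cases a <;> cases b <;> rfl

theorem chz_false {ν : ℕ} (i : I ν) : chz (fun _ => false) i = 1 := by
  unfold chz sgz
  simp

theorem vec_congr {ν : ℕ} (Y Y' : ℕ → I ν → Bool) (a : ℕ) (h : ∀ b < a, Y b = Y' b) :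
    vec Y a = vec Y' a := by
  induction a with
  | zero => rfl
  | succ a ih =>
    funext j
    have h1 := ih (fun b hb => h b (by omega))
    have h2 := h a (by omega)
    simp only [vec, h1, h2]

/-- the mask of column `j` -/
def mask {ν : ℕ} (κ : ℕ) (j : I ν) : Fin κ × I ν → Bool :=
  fun ai => decide (ai.1.val + 1 = κ) && par j ai.2

/-- extension of an instance by `false` -/
def ext {ν κ : ℕ} (f : Fin κ × I ν → Bool) : ℕ → I ν → Bool :=
  fun a i => if h : a < κ then f (⟨a, h⟩, i) else false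

theorem vec_mask {ν κ : ℕ} (hκ : 0 < κ) (f : Fin κ × I ν → Bool) (j : I ν) :
    vec (ext (fun ai => xor (f ai) (mask κ j ai))) κ j = vec (ext f) κ (fun _ => false) := by
  obtain ⟨k, rfl⟩ : ∃ k, κ = k + 1 := ⟨κ - 1, by omega⟩
  have h1 : vec (ext (fun ai => xor (f ai) (mask (k+1) j ai))) k = vec (ext f) k := by
    apply vec_congr
    intro b hb
    funext i
    have hb' : b < k + 1 := by omega
    have hb'' : ¬ (b = k) := by omega
    simp [ext, mask, hb', hb'']
  simp only [vec]
  rw [h1]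
  refine Finset.sum_congr rfl fun i _ => ?_
  rw [chz_false]
  have h2 : ext (fun ai => xor (f ai) (mask (k+1) j ai)) k i = xor (ext f k i) (par j i) := by
    simp [ext, mask]
  rw [h2, sgz_xor, sgz_par]
  rcases chz_sq j i with h | h <;> simp [h]

theorem vec_sq_le {ν : ℕ} (Y : ℕ → I ν → Bool) (a : ℕ) (j : I ν) :
    ((vec Y a j : ℤ) : ℝ) ^ 2 ≤ (√(2 ^ ν) ^ (a + 1)) ^ 2 := by
  have h1 : (vec Y a j) ^ 2 ≤ (2 ^ ν : ℤ) ^ (a + 1) := by
    rw [← vec_parseval Y a]
    exact Finset.single_le_sum (f := fun j => (vec Y a j) ^ 2) (fun _ _ => sq_nonneg _)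
      (Finset.mem_univ j)
  have h2 : (((vec Y a j) ^ 2 : ℤ) : ℝ) ≤ (((2 ^ ν : ℤ) ^ (a + 1) : ℤ) : ℝ) := by
    exact_mod_cast h1
  have h3 : (√(2 ^ ν : ℝ) ^ (a + 1)) ^ 2 = (2 ^ ν : ℝ) ^ (a + 1) := by
    rw [← pow_mul, mul_comm, pow_mul, Real.sq_sqrt (by positivity)]
  rw [h3]
  push_cast at h2
  exact h2

end Slots

open Slots in
/-- T9c (file S0554_Slots): the slot laws for all columns, with concentration and decoding. -/
theorem exists_hard_slots {ν κ K : ℕ} (hκ : 2 ≤ κ) (hK : 1 ≤ K)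
    (D : ((Fin κ × I ν) → Bool) → ℝ) (hD0 : ∀ f, 0 ≤ D f) (hD1 : ∑ f, D f = 1) (d : ℕ) (δ : ℝ)
    (hind : ∀ T : Prog (Fin κ × I ν) Bool, T.depth ≤ d → |∑ f, D f * ind T f - avg (ind T)| ≤ δ)
    (τ : ℝ) (hτ : 0 < τ)
    (hmean : 2 * τ * √(2 ^ ν) ^ (κ + 1) ≤
      ∑ f, D f * (vec (fun a i => if h : a < κ then f (⟨a, h⟩, i) else false) κ
        (fun _ => false) : ℝ)) :
    ∃ DD : I ν → ((Fin K × (Fin κ × I ν)) → Bool) → ℝ,
      (∀ j f, 0 ≤ DD j f) ∧ (∀ j, ∑ f, DD j f = 1) ∧
      (∀ j (T : Prog (Fin K × (Fin κ × I ν)) Bool), T.depth ≤ d →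
        |∑ f, DD j f * ind T f - avg (ind T)| ≤ K * δ) ∧
      (∀ j, (∑ f, (open Classical in
        if τ * K * √(2 ^ ν) ^ (κ + 1) ≤
          ∑ c, (vec (fun a i => if h : a < κ then f (c, (⟨a, h⟩, i)) else false) κ j : ℝ)
        then 0 else DD j f)) ≤ 1 / (K * τ ^ 2)) := by
  classical
  set s : ℝ := √(2 ^ ν) ^ (κ + 1) with hs
  have hs0 : 0 < s := by rw [hs]; positivity
  -- the masked law
  set D' : I ν → ((Fin κ × I ν) → Bool) → ℝ :=
    fun j f => D (fun ai => xor (f ai) (mask κ j ai)) with hD'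
  have hD'0 : ∀ j f, 0 ≤ D' j f := fun j f => hD0 _
  have hD'1 : ∀ j, ∑ f, D' j f = 1 := by
    intro j
    rw [← hD1]
    exact sum_xor (mask κ j) (fun f _ => D f)
  have hind' : ∀ j (T : Prog (Fin κ × I ν) Bool), T.depth ≤ d →
      |∑ f, D' j f * ind T f - avg (ind T)| ≤ δ := fun j T hT =>
    indist_flip D d δ hind (mask κ j) T hT
  refine ⟨fun j f => ∏ c, D' j (fun ai => f (c, ai)), ?_, ?_, ?_, ?_⟩
  · intro j f
    exact Finset.prod_nonneg fun c _ => hD'0 _ _
  · intro j
    rw [sum_prod K (fun _ => D' j)]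
    simp [hD'1]
  · intro j T hT
    exact indist_copies (D' j) (hD'0 j) (hD'1 j) d δ (hind' j) K T hT
  · intro j
    -- the mean
    set V : ((Fin κ × I ν) → Bool) → ℝ := fun f => (vec (ext f) κ j : ℝ) with hV
    set μ : ℝ := ∑ f, D' j f * V f with hμ
    have hμ' : μ = ∑ f, D f * (vec (ext f) κ (fun _ => false) : ℝ) := by
      rw [hμ]
      have := sum_xor (mask κ j) (fun f g => D f * V g)
      rw [hD']
      simp only at this ⊢
      rw [this]
      refine Finset.sum_congr rfl fun f _ => ?_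
      rw [hV]
      simp only
      rw [vec_mask (by omega) f j]
    have hμge : 2 * τ * s ≤ μ := by
      rw [hμ']
      exact hmean
    -- second moment
    set W : ((Fin κ × I ν) → Bool) → ℝ := fun f => V f - μ with hWdef
    have hW0 : ∑ f, D' j f * W f = 0 := by
      simp only [hWdef, mul_sub, Finset.sum_sub_distrib]
      rw [← Finset.sum_mul, hD'1, ← hμ]
      ring
    have hW2 : ∑ f, D' j f * W f ^ 2 ≤ s ^ 2 := by
      have e1 : ∑ f, D' j f * W f ^ 2 = ∑ f, D' j f * V f ^ 2 - μ ^ 2 := by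
        have : ∀ f, D' j f * W f ^ 2 = D' j f * V f ^ 2 - 2 * μ * (D' j f * V f)
            + μ ^ 2 * D' j f := by
          intro f; simp only [hWdef]; ring
        simp_rw [this]
        rw [Finset.sum_add_distrib, Finset.sum_sub_distrib, ← Finset.mul_sum, ← Finset.mul_sum,
          hD'1, ← hμ]
        ring
      have e2 : ∑ f, D' j f * V f ^ 2 ≤ ∑ f, D' j f * s ^ 2 := by
        refine Finset.sum_le_sum fun f _ => ?_
        exact mul_le_mul_of_nonneg_left (vec_sq_le _ _ _) (hD'0 _ _)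
      rw [← Finset.sum_mul, hD'1, one_mul] at e2
      rw [e1]
      nlinarith [sq_nonneg μ]
    have hsm := second_moment K (D' j) (hD'1 j) W hW0
    have hKpos : (0 : ℝ) < K := by exact_mod_cast hK
    have hT : 0 < τ * K * s := by positivity
    -- pointwise Chebyshev
    have hpt : ∀ f : (Fin K × (Fin κ × I ν)) → Bool,
        (if τ * K * s ≤
          ∑ c, (vec (fun a i => if h : a < κ then f (c, (⟨a, h⟩, i)) else false) κ j : ℝ)
          then 0 else ∏ c, D' j (fun ai => f (c, ai))) ≤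
        (∏ c, D' j (fun ai => f (c, ai))) * (∑ c, W (fun ai => f (c, ai))) ^ 2 /
          (τ * K * s) ^ 2 := by
      intro f
      have hp : 0 ≤ ∏ c, D' j (fun ai => f (c, ai)) := Finset.prod_nonneg fun c _ => hD'0 _ _
      split_ifs with hc
      · positivity
      · have hc' : ∑ c, V (fun ai => f (c, ai)) < τ * K * s := not_le.mp hc
        have hsumW : ∑ c, W (fun ai => f (c, ai)) = ∑ c, V (fun ai => f (c, ai)) - K * μ := by
          simp [hWdef, Finset.sum_sub_distrib]
        have hneg : τ * K * s ≤ -(∑ c, W (fun ai => f (c, ai))) := by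
          rw [hsumW]
          have : K * (2 * τ * s) ≤ K * μ := mul_le_mul_of_nonneg_left hμge hKpos.le
          nlinarith
        have hsq : (τ * K * s) ^ 2 ≤ (∑ c, W (fun ai => f (c, ai))) ^ 2 := by
          have := pow_le_pow_left₀ hT.le hneg 2
          rwa [neg_sq] at this
        rw [le_div_iff₀ (by positivity)]
        exact mul_le_mul_of_nonneg_left hsq hp
    calc (∑ f : (Fin K × (Fin κ × I ν)) → Bool,
        (if τ * K * s ≤
          ∑ c, (vec (fun a i => if h : a < κ then f (c, (⟨a, h⟩, i)) else false) κ j : ℝ)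
          then 0 else ∏ c, D' j (fun ai => f (c, ai))))
        ≤ ∑ f : (Fin K × (Fin κ × I ν)) → Bool,
          (∏ c, D' j (fun ai => f (c, ai))) * (∑ c, W (fun ai => f (c, ai))) ^ 2 /
          (τ * K * s) ^ 2 := Finset.sum_le_sum fun f _ => hpt f
      _ = (K * ∑ f, D' j f * W f ^ 2) / (τ * K * s) ^ 2 := by
          rw [← Finset.sum_div, hsm]
      _ ≤ (K * s ^ 2) / (τ * K * s) ^ 2 := by
          gcongr
      _ = 1 / (K * τ ^ 2) := by
          field_simp

end Crest.Agent.S0554
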