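import Crest.Agent.S0554_Gauss
import Crest.Agent.S0554_Level
import Crest.Agent.S0554_Slots
import Crest.Agent.S0554_Lower
import Crest.Agent.S0554_Quantum

/-!
S0554, T12: final assembly.
-/

set_option autoImplicit false

namespace Crest.Agent.S0554

open Crest.MathPhysics.Query

/-- decoding of integers exists -/
theorem exists_dec (s : ℕ) : ∃ dec : (Fin (s + 2) → Bool) → ℤ,
    ∀ z : ℤ, |z| ≤ 2 ^ s → ∃ w, dec w = z := by
  classical
  set W : Finset ℤ := Finset.Icc (-(2 ^ s : ℤ)) (2 ^ s : ℤ) with hW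
  have hcard : Fintype.card W ≤ Fintype.card (Fin (s + 2) → Bool) := by
    rw [Fintype.card_coe, hW, Int.card_Icc, Fintype.card_fun, Fintype.card_bool, Fintype.card_fin]
    have h1 : (2 ^ s + 1 - -(2 ^ s) : ℤ) = ((2 * 2 ^ s + 1 : ℕ) : ℤ) := by push_cast; ring
    rw [h1, Int.toNat_natCast, pow_add]
    have : 1 ≤ 2 ^ s := Nat.one_le_two_pow
    omega
  obtain ⟨emb⟩ := Function.Embedding.nonempty_of_card_le hcard
  refine ⟨Function.extend emb (fun z => z.1) fun _ => 0, fun z hz => ?_⟩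
  have hz' : z ∈ W := by
    rw [hW, Finset.mem_Icc]
    exact abs_le.mp hz
  exact ⟨emb ⟨z, hz'⟩, by rw [emb.injective.extend_apply]⟩

/-- The path sum is dominated by the level sum. -/
theorem path_sum_le {κ ν : ℕ} (φ : ((Fin κ × I ν) → Bool) → ℝ) (z : Fin κ × I ν → ℝ) :
    ∑ i : Fin κ → I ν, |dext φ (Finset.univ.image fun a => (a, i a)) z| ≤
      ∑ S ∈ (Finset.univ : Finset (Fin κ × I ν)).powersetCard κ, |dext φ S z| := by
  classical
  have hinj : Function.Injective fun i : Fin κ → I ν =>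
      (Finset.univ.image fun a => (a, i a) : Finset (Fin κ × I ν)) := by
    intro i j hij
    funext a
    have h1 : (a, i a) ∈ (Finset.univ.image fun a => (a, i a) : Finset (Fin κ × I ν)) :=
      Finset.mem_image_of_mem _ (Finset.mem_univ a)
    simp only at hij
    rw [hij] at h1
    obtain ⟨b, _, hb⟩ := Finset.mem_image.mp h1
    simp only [Prod.mk.injEq] at hb
    rw [← hb.2, hb.1]
  rw [← Finset.sum_image (s := Finset.univ)
    (g := fun i : Fin κ → I ν => (Finset.univ.image fun a => (a, i a) : Finset (Fin κ × I ν)))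
    (f := fun S => |dext φ S z|) (fun i _ j _ h => hinj h)]
  refine Finset.sum_le_sum_of_subset_of_nonneg ?_ fun _ _ _ => abs_nonneg _
  intro S hS
  obtain ⟨i, _, rfl⟩ := Finset.mem_image.mp hS
  rw [Finset.mem_powersetCard]
  refine ⟨Finset.subset_univ _, ?_⟩
  rw [Finset.card_image_of_injective]
  · simp
  · intro a b hab
    exact (Prod.mk.inj hab).1

/-- Indistinguishability of the forrelated distribution, in fourth powers. -/
theorem forr_indist {k ν : ℕ} (hk : 2 ≤ k) (D : ((Fin (2 * k) × I ν) → Bool) → ℝ)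
    (hD : ∀ (φ : ((Fin (2 * k) × I ν) → Bool) → ℝ) (L : ℝ),
        (∀ z : Fin (2 * k) × I ν → ℝ, (∀ i, |z i| ≤ 1 / 2) →
          ∑ i : Fin (2 * k) → I ν, |dext φ (Finset.univ.image fun a => (a, i a)) z| ≤ L) →
        |∑ f, D f * φ f - avg φ| ≤
          (1 / 8) ^ (2 * k - 1) * (1 / √(2 ^ ν)) ^ (2 * k - 1) * L)
    (d : ℕ) (δ : ℝ) (hδ : 0 < δ)
    (hd : (4 * (8 * k - 1) * (d : ℝ)) ^ (4 * k) * (2 * k) ≤ δ ^ 4 * (2 ^ ν) ^ (4 * k - 3))
    (T : Prog (Fin (2 * k) × I ν) Bool) (hT : T.depth ≤ d) :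
    |∑ f, D f * ind T f - avg (ind T)| ≤ δ := by
  classical
  have hN : (0 : ℝ) < 2 ^ ν := by positivity
  have hs : 0 < √(2 ^ ν : ℝ) := Real.sqrt_pos.mpr hN
  have hs2 : √(2 ^ ν : ℝ) ^ 2 = 2 ^ ν := Real.sq_sqrt hN.le
  set M : ℝ := δ * √(2 ^ ν) ^ (2 * k - 1) with hM
  have hM0 : 0 < M := by positivity
  have hk1 : (1 : ℝ) ≤ k := by exact_mod_cast (by omega : 1 ≤ k)
  have hL : ∀ z : Fin (2 * k) × I ν → ℝ, (∀ i, |z i| ≤ 1 / 2) →
      ∑ i : Fin (2 * k) → I ν, |dext (ind T) (Finset.univ.image fun a => (a, i a)) z| ≤ M := by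
    intro z hz
    refine (path_sum_le _ z).trans ?_
    set X := ∑ S ∈ (Finset.univ : Finset (Fin (2 * k) × I ν)).powersetCard (2 * k),
      |dext (ind T) S z| with hX
    have hX0 : 0 ≤ X := Finset.sum_nonneg fun _ _ => abs_nonneg _
    have h1 := level_bound T d hT (2 * k) (4 * k) (by omega) z hz
    rw [← hX] at h1
    have hcard : (Fintype.card (Fin (2 * k) × I ν) : ℝ) = 2 * k * 2 ^ ν := by
      simp [Fintype.card_prod]
    rw [hcard] at h1
    push_cast at h1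
    have h2 : (X ^ 4) ^ (2 * k) ≤
        ((4 * (2 * (4 * (k : ℝ)) - 1) * d) ^ (4 * k) * (2 * k * 2 ^ ν)) ^ (2 * k) := by
      calc (X ^ 4) ^ (2 * k) = X ^ (2 * (4 * k)) := by rw [← pow_mul]; congr 1; ring
        _ ≤ _ := h1
    have h3 : X ^ 4 ≤ (4 * (2 * (4 * (k : ℝ)) - 1) * d) ^ (4 * k) * (2 * k * 2 ^ ν) := by
      refine le_of_pow_le_pow_left₀ (by omega) ?_ h2
      have : 0 ≤ 2 * (4 * (k : ℝ)) - 1 := by linarith
      positivity
    have h4 : X ^ 4 ≤ M ^ 4 := by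
      refine h3.trans ?_
      have e1 : (4 * (2 * (4 * (k : ℝ)) - 1) * d) = 4 * (8 * k - 1) * (d : ℝ) := by ring
      rw [e1]
      have e2 : M ^ 4 = δ ^ 4 * (2 ^ ν) ^ (4 * k - 3) * 2 ^ ν := by
        rw [hM, mul_pow, ← pow_mul]
        have e3 : (2 * k - 1) * 4 = 2 * (4 * k - 3 + 1) := by omega
        rw [e3, pow_mul, hs2, pow_succ]
        ring
      rw [e2]
      calc (4 * (8 * k - 1) * (d : ℝ)) ^ (4 * k) * (2 * k * 2 ^ ν) =
            (4 * (8 * k - 1) * (d : ℝ)) ^ (4 * k) * (2 * k) * 2 ^ ν := by ring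
        _ ≤ δ ^ 4 * (2 ^ ν) ^ (4 * k - 3) * 2 ^ ν := by gcongr
    exact le_of_pow_le_pow_left₀ (by norm_num) hM0.le h4
  have h := hD (ind T) M hL
  refine h.trans ?_
  rw [hM]
  have e1 : (1 / 8 : ℝ) ^ (2 * k - 1) ≤ 1 := pow_le_one₀ (by norm_num) (by norm_num)
  have e2 : (1 / √(2 ^ ν : ℝ)) ^ (2 * k - 1) * √(2 ^ ν : ℝ) ^ (2 * k - 1) = 1 := by
    rw [← mul_pow, one_div, inv_mul_cancel₀ hs.ne', one_pow]
  calc (1 / 8 : ℝ) ^ (2 * k - 1) * (1 / √(2 ^ ν)) ^ (2 * k - 1) *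
        (δ * √(2 ^ ν) ^ (2 * k - 1)) =
        (1 / 8 : ℝ) ^ (2 * k - 1) * δ *
          ((1 / √(2 ^ ν : ℝ)) ^ (2 * k - 1) * √(2 ^ ν : ℝ) ^ (2 * k - 1)) := by ring
    _ = (1 / 8 : ℝ) ^ (2 * k - 1) * δ := by rw [e2, mul_one]
    _ ≤ 1 * δ := by gcongr
    _ = δ := one_mul _

/-- The lower bound for the explicit function, all parameters fixed. -/
theorem lower_final (k : ℕ) (hk : 2 ≤ k) (K : ℕ) (τ : ℝ) (hτ : 0 < τ)
    (hτ2 : 2 * τ ≤ (1 / (16 * Real.exp 1)) ^ (2 * k - 1)) (hK : 20 / τ ^ 2 ≤ K) :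
    ∃ c : ℝ, 0 < c ∧ ∀ (ν B : ℕ) (dec : (Fin B → Bool) → ℤ),
      (∀ z : ℤ, |z| ≤ 2 ^ (ν * (2 * k + 1)) → ∃ w, dec w = z) →
      ∀ (n : ℕ) (e : Idx ν (2 * k) K B ≃ Fin n) (r : ℕ),
        RandomizedComputes (fun x : Fin n → Bool =>
          FF dec (τ * K * √(2 ^ ν) ^ (2 * k + 1)) (fun i => x (e i))) r →
        c * ((2 : ℝ) ^ ν) ^ (2 - 3 / (4 * (k : ℝ))) ≤ r := by
  classical
  have hKpos : (0 : ℝ) < K := lt_of_lt_of_le (by positivity) hK
  have hK1 : 1 ≤ K := by exact_mod_cast hKpos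
  have hk0 : (0 : ℝ) < k := by exact_mod_cast (by omega : 0 < k)
  have hk2 : (2 : ℝ) ≤ k := by exact_mod_cast hk
  set c1 : ℝ := 4 * (8 * k - 1) with hc1
  have hc1pos : 0 < c1 := by rw [hc1]; nlinarith
  set δ : ℝ := 1 / (20 * K) with hδ
  have hδpos : 0 < δ := by rw [hδ]; positivity
  -- `c2`: the constant of `d`
  set A : ℝ := δ ^ 4 / (2 * k) with hA
  have hApos : 0 < A := by rw [hA]; positivity
  set c2 : ℝ := A ^ (1 / (4 * (k : ℝ))) / c1 with hc2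
  have hc2pos : 0 < c2 := by rw [hc2]; positivity
  set c : ℝ := (7 / 30) / (3 + 1 / c2) with hc
  have hcpos : 0 < c := by rw [hc]; positivity
  refine ⟨c, hcpos, ?_⟩
  intro ν B dec hdec n e r hr
  set N : ℝ := (2 : ℝ) ^ ν with hN
  have hN1 : 1 ≤ N := by rw [hN]; exact one_le_pow₀ (by norm_num)
  have hN0 : 0 < N := by linarith
  set x : ℝ := N ^ (1 - 3 / (4 * (k : ℝ))) with hx
  have hx0 : 0 < x := by rw [hx]; positivity
  set d : ℕ := ⌊c2 * x⌋₊ with hd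
  have hdle : (d : ℝ) ≤ c2 * x := Nat.floor_le (by positivity)
  have hdlt : c2 * x < (d : ℝ) + 1 := Nat.lt_floor_add_one _
  have hpow : (c1 * (d : ℝ)) ^ (4 * k) ≤ A * N ^ (4 * k - 3) := by
    have h1 : c1 * (d : ℝ) ≤ A ^ (1 / (4 * (k : ℝ))) * x := by
      calc c1 * (d : ℝ) ≤ c1 * (c2 * x) := by gcongr
        _ = A ^ (1 / (4 * (k : ℝ))) * x := by rw [hc2]; field_simp
    calc (c1 * (d : ℝ)) ^ (4 * k) ≤ (A ^ (1 / (4 * (k : ℝ))) * x) ^ (4 * k) := by gcongr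
      _ = (A ^ (1 / (4 * (k : ℝ)))) ^ (4 * k) * x ^ (4 * k) := mul_pow _ _ _
      _ = A * N ^ (4 * k - 3) := by
        congr 1
        · rw [← Real.rpow_natCast, ← Real.rpow_mul hApos.le]
          push_cast
          rw [one_div, inv_mul_cancel₀ (by positivity), Real.rpow_one]
        · rw [hx, ← Real.rpow_natCast, ← Real.rpow_mul hN0.le, ← Real.rpow_natCast]
          congr 1
          rw [Nat.cast_sub (by omega)]
          push_cast
          field_simp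
  have hdcond : (4 * (8 * k - 1) * (d : ℝ)) ^ (4 * k) * (2 * k) ≤
      δ ^ 4 * (2 ^ ν) ^ (4 * k - 3) := by
    rw [← hc1, ← hN]
    calc (c1 * (d : ℝ)) ^ (4 * k) * (2 * k) ≤ A * N ^ (4 * k - 3) * (2 * k) := by gcongr
      _ = δ ^ 4 * N ^ (4 * k - 3) := by rw [hA]; field_simp
  obtain ⟨D, hD0, hD1, hDφ, hDm⟩ := exists_forr_dist ν (2 * k) (by omega)
  have hind := fun T hT => forr_indist (ν := ν) hk D hDφ d δ hδpos hdcond T hT
  have hmean : 2 * τ * √(2 ^ ν) ^ (2 * k + 1) ≤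
      ∑ f, D f * (vec (fun a i => if h : a < 2 * k then f (⟨a, h⟩, i) else false) (2 * k)
        (fun _ => false) : ℝ) := by
    refine le_trans ?_ hDm
    gcongr
  obtain ⟨DD, hDD0, hDD1, hDDind, hDDdec⟩ := exists_hard_slots (by omega) hK1 D hD0 hD1 d δ hind
    τ hτ hmean
  have hfin := lower_bound (by omega) dec (τ * K * √(2 ^ ν) ^ (2 * k + 1)) hdec DD hDD0 hDD1 d
    (K * δ) (1 / (K * τ ^ 2)) hDDind hDDdec e r hr
  have hKδ : (K : ℝ) * δ = 1 / 20 := by rw [hδ]; field_simp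
  have hε : 1 / ((K : ℝ) * τ ^ 2) ≤ 1 / 20 := by
    rw [div_le_iff₀ (by positivity)] at hK
    rw [div_le_div_iff_of_pos_left one_pos (by positivity) (by norm_num)]
    exact hK
  rw [hKδ, ← hN] at hfin
  have hfin2 : (7 : ℝ) / 30 ≤ 3 * r / N ^ 2 + r / (N * (d + 1)) := by linarith
  -- powers of `N`
  set y : ℝ := N ^ (2 - 3 / (4 * (k : ℝ))) with hy
  have hy0 : 0 < y := by rw [hy]; positivity
  have hNx : N * x = y := by
    rw [hx, hy]
    nth_rewrite 1 [← Real.rpow_one N]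
    rw [← Real.rpow_add hN0]
    congr 1
    ring
  have hyN : y ≤ N ^ 2 := by
    rw [hy, ← Real.rpow_natCast]
    refine Real.rpow_le_rpow_of_exponent_le hN1 ?_
    have : 0 ≤ 3 / (4 * (k : ℝ)) := by positivity
    push_cast
    linarith
  have hr0 : (0 : ℝ) ≤ r := Nat.cast_nonneg r
  have h1 : 3 * (r : ℝ) / N ^ 2 ≤ 3 * r / y := by gcongr
  have h2 : (r : ℝ) / (N * (d + 1)) ≤ r / (c2 * y) := by
    have : c2 * y ≤ N * (d + 1) := by
      calc c2 * y = N * (c2 * x) := by rw [← hNx]; ring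
        _ ≤ N * (d + 1) := by gcongr
    gcongr
  have h3 : (7 : ℝ) / 30 ≤ (r / y) * (3 + 1 / c2) := by
    calc (7 : ℝ) / 30 ≤ 3 * r / N ^ 2 + r / (N * (d + 1)) := hfin2
      _ ≤ 3 * r / y + r / (c2 * y) := add_le_add h1 h2
      _ = (r / y) * (3 + 1 / c2) := by field_simp
  have h4 : c ≤ r / y := by
    rw [hc, div_le_iff₀ (by positivity)]
    exact h3
  rwa [le_div_iff₀ hy0] at h4

theorem main (k : ℕ) (hk : 2 ≤ k) :
    ∃ (c C b : ℝ), 0 < c ∧ 0 < C ∧ 0 < b ∧ ∃ m₀ : ℕ, ∀ m : ℕ, m₀ ≤ m → (∃ j : ℕ, m = 4 ^ j) →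
      ∃ (n : ℕ) (F : (Fin n → Bool) → Bool),
        (∃ q : ℕ, (q : ℝ) ≤ C * Real.sqrt m * Real.log m ^ b ∧ QuantumComputes F q) ∧
        (∀ r : ℕ, RandomizedComputes F r →
          c * (m : ℝ) ^ (2 - 1 / (k : ℝ)) / Real.log m ^ 2 ≤ r) := by
  have hk0 : (0 : ℝ) < k := by exact_mod_cast (by omega : 0 < k)
  set τ : ℝ := (1 / (16 * Real.exp 1)) ^ (2 * k - 1) / 2 with hτ
  have he : (1 : ℝ) ≤ 16 * Real.exp 1 := by
    have := Real.add_one_le_exp (1 : ℝ)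
    linarith
  have hτ0 : 0 < τ := by rw [hτ]; positivity
  have hτ1 : τ ≤ 1 := by
    have : (1 / (16 * Real.exp 1)) ^ (2 * k - 1) ≤ (1 : ℝ) := by
      apply pow_le_one₀ (by positivity)
      rw [div_le_one (by positivity)]
      exact he
    rw [hτ]
    linarith
  set K : ℕ := ⌈20 / τ ^ 2⌉₊ with hK
  have hKge : 20 / τ ^ 2 ≤ K := Nat.le_ceil _
  have hKpos : (0 : ℝ) < K := lt_of_lt_of_le (by positivity) hKge
  have hK1 : 1 ≤ K := by exact_mod_cast hKpos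
  obtain ⟨c, hc, hlow⟩ := lower_final k hk K τ hτ0 (by rw [hτ]; linarith) hKge
  obtain ⟨C, b, hC, hb, hup⟩ := quantum_upper (2 * k) K (by omega) hK1 τ hτ0 hτ1
  have hlog2 : 0 < Real.log 2 := Real.log_pos (by norm_num)
  refine ⟨c, C / Real.log 2 ^ b, b, hc, by positivity, hb, 4, ?_⟩
  intro m hm ⟨j, hj⟩
  have hj1 : 1 ≤ j := by
    rcases Nat.eq_zero_or_pos j with h | h
    · rw [h] at hj; omega
    · exact h
  set ν : ℕ := 2 * j with hν
  have hm2 : (m : ℝ) = 2 ^ ν := by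
    rw [hj, hν, pow_mul]
    norm_num
  obtain ⟨dec, hdec⟩ := exists_dec (ν * (2 * k + 1))
  set e := Fintype.equivFin (Idx ν (2 * k) K (ν * (2 * k + 1) + 2)) with he'
  refine ⟨_, fun x => FF dec (τ * K * √(2 ^ ν) ^ (2 * k + 1)) (fun i => x (e i)), ?_, ?_⟩
  · obtain ⟨q, hq1, hq2⟩ := hup ν (by omega) dec _ e
    refine ⟨q, ?_, hq2⟩
    have hlog : Real.log m = ν * Real.log 2 := by
      rw [hm2, Real.log_pow]
    have hνlog : (ν : ℝ) = Real.log m / Real.log 2 := by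
      rw [hlog]; field_simp
    have hlogm : 0 ≤ Real.log m := by rw [hlog]; positivity
    calc (q : ℝ) ≤ C * √(2 ^ ν) * (ν : ℝ) ^ b := hq1
      _ = C / Real.log 2 ^ b * √m * Real.log m ^ b := by
        rw [← hm2, hνlog, Real.div_rpow hlogm hlog2.le]
        ring
  · intro r hr
    have h := hlow ν (ν * (2 * k + 1) + 2) dec hdec _ e r hr
    rw [← hm2] at h
    have hm4 : (4 : ℝ) ≤ m := by exact_mod_cast hm
    have hlog1 : 1 ≤ Real.log m := by
      rw [Real.le_log_iff_exp_le (by linarith)]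
      have := Real.exp_one_lt_d9
      linarith
    calc c * (m : ℝ) ^ (2 - 1 / (k : ℝ)) / Real.log m ^ 2 ≤
          c * (m : ℝ) ^ (2 - 1 / (k : ℝ)) := by
          apply div_le_self (by positivity)
          nlinarith
      _ ≤ c * (m : ℝ) ^ (2 - 3 / (4 * (k : ℝ))) := by
          refine mul_le_mul_of_nonneg_left ?_ hc.le
          refine Real.rpow_le_rpow_of_exponent_le (by linarith) ?_
          have : 3 / (4 * (k : ℝ)) ≤ 1 / k := by
            rw [div_le_div_iff₀ (by positivity) hk0]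
            nlinarith
          linarith
      _ ≤ r := h

end Crest.Agent.S0554
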