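import Crest.Agent.S0554_Defs
import Crest.Agent.S0554_ClosImpl

/-!
S0554, task T3: amplitude amplification with a random number of iterations.
-/

set_option autoImplicit false

namespace Crest.Agent.S0554

open Crest.MathPhysics.Query

namespace Amp

/-! ### trigonometric sums -/

theorem sum_sin_sq (θ : ℝ) (J : ℕ) :
    (∑ j ∈ Finset.range J, Real.sin ((2 * (j : ℝ) + 1) * θ) ^ 2) * (4 * Real.sin (2 * θ)) =
      J / 2 * (4 * Real.sin (2 * θ)) - Real.sin (4 * J * θ) := by
  induction J with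
  | zero => simp
  | succ J ih =>
    rw [Finset.sum_range_succ, add_mul, ih]
    have h1 : Real.sin ((2 * (J : ℝ) + 1) * θ) ^ 2 =
        1 / 2 - Real.cos (2 * ((2 * (J : ℝ) + 1) * θ)) / 2 := by
      rw [Real.cos_two_mul, Real.sin_sq]
      ring
    have h2 : Real.sin (4 * ((J + 1 : ℕ) : ℝ) * θ) =
        Real.sin (2 * ((2 * (J : ℝ) + 1) * θ) + 2 * θ) := by
      congr 1; push_cast; ring
    have h3 : Real.sin (4 * (J : ℝ) * θ) =
        Real.sin (2 * ((2 * (J : ℝ) + 1) * θ) - 2 * θ) := by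
      congr 1; ring
    rw [h1, h2, h3, Real.sin_add, Real.sin_sub]
    push_cast
    ring

/-- the averaged success probability -/
noncomputable def sig (θ : ℝ) (J : ℕ) : ℝ :=
  (∑ j ∈ Finset.range J, Real.sin ((2 * (j : ℝ) + 1) * θ) ^ 2) / J

theorem sig_le_one (θ : ℝ) {J : ℕ} (hJ : 0 < J) : sig θ J ≤ 1 := by
  have hJ' : (0 : ℝ) < J := by exact_mod_cast hJ
  unfold sig
  rw [div_le_one hJ']
  calc (∑ j ∈ Finset.range J, Real.sin ((2 * (j : ℝ) + 1) * θ) ^ 2)
      ≤ ∑ j ∈ Finset.range J, (1 : ℝ) := Finset.sum_le_sum fun j _ => Real.sin_sq_le_one _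
    _ = J := by simp

theorem quarter_le_sig {θ : ℝ} {J : ℕ} (hJ : 0 < J) (h : 1 ≤ J * Real.sin (2 * θ)) :
    1 / 4 ≤ sig θ J := by
  have hJ' : (0 : ℝ) < J := by exact_mod_cast hJ
  have hs : 0 < Real.sin (2 * θ) := by
    by_contra hcon
    push Not at hcon
    have : (J : ℝ) * Real.sin (2 * θ) ≤ 0 := mul_nonpos_of_nonneg_of_nonpos hJ'.le hcon
    linarith
  unfold sig
  rw [div_le_div_iff₀ (by norm_num) hJ']
  have h1 := sum_sin_sq θ J
  have h2 : Real.sin (4 * J * θ) ≤ 1 := Real.sin_le_one _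
  set S := ∑ j ∈ Finset.range J, Real.sin ((2 * (j : ℝ) + 1) * θ) ^ 2
  -- S * (4 s) = J/2 * 4 s - sin >= 2 J s - 1 >= J s
  have h3 : (J : ℝ) * Real.sin (2 * θ) ≤ S * (4 * Real.sin (2 * θ)) := by
    rw [h1]; nlinarith
  have h4 : ((J : ℝ) - 4 * S) * Real.sin (2 * θ) ≤ 0 := by nlinarith
  have h5 : (J : ℝ) - 4 * S ≤ 0 := by
    by_contra hcon
    push Not at hcon
    have := mul_pos hcon hs
    linarith
  linarith

/-- from the good mass `M` to the angle -/
theorem exists_angle {M : ℝ} (hM : 0 < M) (hM4 : M ≤ 1 / 4) {J : ℕ} (hJ : 1 / √M ≤ J) :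
    ∃ θ : ℝ, Real.sin θ ^ 2 = M ∧ 0 < Real.sin θ ∧ 0 < Real.cos θ ∧
      1 ≤ J * Real.sin (2 * θ) := by
  have hs : 0 < √M := Real.sqrt_pos.mpr hM
  have hsq : √M ^ 2 = M := Real.sq_sqrt hM.le
  have hs2 : √M ≤ 1 / 2 := by
    rw [Real.sqrt_le_left (by norm_num)]
    norm_num; linarith
  have hsin : Real.sin (Real.arcsin (√M)) = √M :=
    Real.sin_arcsin (by linarith) (by linarith)
  have hcos : Real.cos (Real.arcsin (√M)) = √(1 - √M ^ 2) := Real.cos_arcsin _
  have hcos2 : 1 / 2 ≤ Real.cos (Real.arcsin (√M)) := by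
    rw [hcos, hsq]
    apply Real.le_sqrt_of_sq_le
    linarith
  refine ⟨Real.arcsin (√M), ?_, ?_, ?_, ?_⟩
  · rw [hsin, hsq]
  · rw [hsin]; exact hs
  · linarith
  · rw [Real.sin_two_mul, hsin]
    have h1 : 1 ≤ J * √M := by
      rw [div_le_iff₀ hs] at hJ
      exact hJ
    have h2 : (J : ℝ) * √M * 1 ≤ J * √M * (2 * Real.cos (Real.arcsin (√M))) := by
      apply mul_le_mul_of_nonneg_left
      · linarith
      · linarith
    calc (1 : ℝ) ≤ J * √M * 1 := by linarith
      _ ≤ J * √M * (2 * Real.cos (Real.arcsin (√M))) := h2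
      _ = _ := by ring

end Amp

/-! ### The iteration -/

section Iter

open Matrix

variable {ι : Type} {E : Type} [Fintype E] [DecidableEq E] {D : ℕ}

theorem Amp.phase_mem (f : E → Bool) : phase f ∈ Matrix.unitaryGroup E ℂ := by
  rw [Matrix.mem_unitaryGroup_iff, phase, Matrix.star_eq_conjTranspose,
    Matrix.diagonal_conjTranspose, Matrix.diagonal_mul_diagonal]
  rw [← Matrix.diagonal_one]
  congr 1
  funext e
  by_cases h : f e <;> simp [h]

/-- reflection through the start vector -/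
noncomputable def Amp.refl (e0 : E) : Matrix E E ℂ := phase fun e => decide (e ≠ e0)

/-- Grover step -/
noncomputable def Amp.step (A : Matrix E E ℂ) (e0 : E) (G : E → Bool) : Matrix E E ℂ :=
  A * (Amp.refl e0 * (A.conjTranspose * phase G))

/-- action of the Grover step on a vector of the two-dimensional invariant space -/
theorem Amp.step_mulVec {A : Matrix E E ℂ} (hA : A ∈ Matrix.unitaryGroup E ℂ) (e0 : E)
    (G : E → Bool) (al be : ℝ) (M : ℝ) (hM : M = ∑ e, if G e then ‖A e e0‖ ^ 2 else 0) :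
    (Amp.step A e0 G).mulVec (fun e => ((if G e then al else be : ℝ) : ℂ) * A e e0) =
      fun e => ((if G e then 2 * (-al * M + be * (1 - M)) + al
        else 2 * (-al * M + be * (1 - M)) - be : ℝ) : ℂ) * A e e0 := by
  have hAA : A * A.conjTranspose = 1 := by
    have := Matrix.mem_unitaryGroup_iff.mp hA
    simpa [Matrix.star_eq_conjTranspose] using this
  have hAA' : A.conjTranspose * A = 1 := by
    have := Matrix.mem_unitaryGroup_iff'.mp hA
    simpa [Matrix.star_eq_conjTranspose] using this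
  have hnorm : ∑ e, ‖A e e0‖ ^ 2 = 1 := by
    have h := congrFun (congrFun hAA' e0) e0
    rw [Matrix.mul_apply, Matrix.one_apply_eq] at h
    have h2 : ((∑ e, ‖A e e0‖ ^ 2 : ℝ) : ℂ) = 1 := by
      rw [← h]
      push_cast
      refine Finset.sum_congr rfl fun e _ => ?_
      rw [Matrix.conjTranspose_apply, mul_comm, Complex.star_def, Complex.mul_conj,
        Complex.normSq_eq_norm_sq]
      push_cast; rfl
    exact_mod_cast h2
  -- the phase
  have hph : (phase G).mulVec (fun e => ((if G e then al else be : ℝ) : ℂ) * A e e0) =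
      fun e => ((if G e then -al else be : ℝ) : ℂ) * A e e0 := by
    funext e
    rw [phase, Matrix.mulVec_diagonal]
    by_cases h : G e <;> simp [h]
  -- the inner product
  set w : E → ℂ := fun e => ((if G e then -al else be : ℝ) : ℂ) * A e e0 with hw
  set c : ℝ := -al * M + be * (1 - M) with hc
  have hinner : (A.conjTranspose.mulVec w) e0 = (c : ℂ) := by
    have h1 : (A.conjTranspose.mulVec w) e0 =
        ((∑ e, (if G e then -al else be) * ‖A e e0‖ ^ 2 : ℝ) : ℂ) := by
      rw [Matrix.mulVec, dotProduct]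
      push_cast
      refine Finset.sum_congr rfl fun e _ => ?_
      rw [Matrix.conjTranspose_apply, hw]
      have : star (A e e0) * A e e0 = ((‖A e e0‖ ^ 2 : ℝ) : ℂ) := by
        rw [mul_comm, Complex.star_def, Complex.mul_conj, Complex.normSq_eq_norm_sq]
      calc star (A e e0) * (((if G e then -al else be : ℝ) : ℂ) * A e e0)
          = ((if G e then -al else be : ℝ) : ℂ) * (star (A e e0) * A e e0) := by ring
        _ = _ := by rw [this]; push_cast; rfl
    rw [h1]
    congr 1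
    have h2 : ∀ e, (if G e then -al else be) * ‖A e e0‖ ^ 2 =
        (-al - be) * (if G e then ‖A e e0‖ ^ 2 else 0) + be * ‖A e e0‖ ^ 2 := by
      intro e
      by_cases h : G e <;> simp [h]
      ring
    rw [Finset.sum_congr rfl fun e _ => h2 e, Finset.sum_add_distrib, ← Finset.mul_sum,
      ← Finset.mul_sum, ← hM, hnorm, hc]
    ring
  -- the reflection
  have hrefl : ∀ v : E → ℂ, (Amp.refl e0).mulVec v = fun e => 2 * (if e = e0 then v e0 else 0) - v e := by
    intro v
    funext e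
    unfold Amp.refl
    rw [phase, Matrix.mulVec_diagonal]
    by_cases h : e = e0
    · subst h; simp; ring
    · simp [h]
  funext e
  rw [Amp.step, ← Matrix.mulVec_mulVec, ← Matrix.mulVec_mulVec, ← Matrix.mulVec_mulVec, hph,
    hrefl, hinner]
  have h3 : (fun e => 2 * (if e = e0 then (c : ℂ) else 0) - (A.conjTranspose.mulVec w) e) =
      (2 * (c : ℂ)) • (Pi.single e0 1 : E → ℂ) - A.conjTranspose.mulVec w := by
    funext e
    by_cases h : e = e0 <;> simp [h]
  rw [h3, Matrix.mulVec_sub, Matrix.mulVec_smul, Matrix.mulVec_mulVec, hAA, Matrix.one_mulVec,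
    Matrix.mulVec_single_one]
  simp only [Pi.sub_apply, Pi.smul_apply, smul_eq_mul, Matrix.col_apply, hw]
  by_cases h : G e <;> simp [h] <;> ring

theorem Amp.pow_step_apply {A : Matrix E E ℂ} (hA : A ∈ Matrix.unitaryGroup E ℂ) (e0 : E)
    (G : E → Bool) (θ : ℝ) (hs : Real.sin θ ≠ 0) (hc : Real.cos θ ≠ 0)
    (hM : Real.sin θ ^ 2 = ∑ e, if G e then ‖A e e0‖ ^ 2 else 0) (j : ℕ) (e : E) :
    (Amp.step A e0 G ^ j * A) e e0 =
      ((if G e then Real.sin ((2 * (j : ℝ) + 1) * θ) / Real.sin θ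
        else Real.cos ((2 * (j : ℝ) + 1) * θ) / Real.cos θ : ℝ) : ℂ) * A e e0 := by
  have key : (Amp.step A e0 G ^ j * A).col e0 =
      fun e => ((if G e then Real.sin ((2 * (j : ℝ) + 1) * θ) / Real.sin θ
        else Real.cos ((2 * (j : ℝ) + 1) * θ) / Real.cos θ : ℝ) : ℂ) * A e e0 := by
    induction j with
    | zero =>
      funext e
      by_cases h : G e <;> simp [h, hs, hc]
    | succ j ih =>
      have h1 : (Amp.step A e0 G ^ (j + 1) * A).col e0 =
          (Amp.step A e0 G).mulVec ((Amp.step A e0 G ^ j * A).col e0) := by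
        rw [pow_succ', Matrix.mul_assoc]
        funext e
        rw [Matrix.col_apply, Matrix.mul_apply]
        rfl
      rw [h1, ih, Amp.step_mulVec hA e0 G _ _ _ hM]
      funext e
      congr 2
      -- trigonometry
      have hcc : -(Real.sin ((2 * (j : ℝ) + 1) * θ) / Real.sin θ) * Real.sin θ ^ 2 +
          Real.cos ((2 * (j : ℝ) + 1) * θ) / Real.cos θ * (1 - Real.sin θ ^ 2) =
          Real.cos ((2 * (j : ℝ) + 2) * θ) := by
        have h2 : 1 - Real.sin θ ^ 2 = Real.cos θ ^ 2 := by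
          rw [← Real.cos_sq_add_sin_sq θ]; ring
        rw [h2]
        have h3 : (2 * (j : ℝ) + 2) * θ = (2 * (j : ℝ) + 1) * θ + θ := by ring
        rw [h3, Real.cos_add]
        field_simp
        ring
      rw [hcc]
      have h4 : (2 * ((j + 1 : ℕ) : ℝ) + 1) * θ = (2 * (j : ℝ) + 2) * θ + θ := by
        push_cast; ring
      have h5 : (2 * (j : ℝ) + 1) * θ = (2 * (j : ℝ) + 2) * θ - θ := by ring
      by_cases h : G e
      · simp only [h, if_true]
        rw [h4, h5, Real.sin_add, Real.sin_sub]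
        field_simp
        ring
      · simp only [h]
        rw [h4, h5, Real.cos_add, Real.cos_sub]
        simp only [Bool.false_eq_true, if_false]
        field_simp
        ring
  exact congrFun key e

theorem Amp.impl_step {a : ℕ} {A : (ι → Bool) → Matrix E E ℂ} (hA : Impl D a A) (e0 : E)
    (g : E → Prog ι Bool) (hg : ∀ e, (g e).depth ≤ D) :
    Impl D (2 * a + 1) (fun x => Amp.step (A x) e0 (fun e => (g e).eval x)) := by
  have h1 := Impl.mul (Impl.query g hg) hA.inv
  have h2 := Impl.mul h1 (Impl.const (ι := ι) D (Amp.refl e0) (Amp.phase_mem _))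
  have h3 := Impl.mul h2 hA
  have h4 : 1 + a + 0 + a = 2 * a + 1 := by ring
  rw [h4] at h3
  exact h3

theorem Amp.impl_pow {a : ℕ} {A : (ι → Bool) → Matrix E E ℂ} (hA : Impl D a A) (e0 : E)
    (g : E → Prog ι Bool) (hg : ∀ e, (g e).depth ≤ D) (j : ℕ) :
    Impl D (a + j * (2 * a + 1))
      (fun x => Amp.step (A x) e0 (fun e => (g e).eval x) ^ j * A x) := by
  induction j with
  | zero => simpa using hA
  | succ j ih =>
    have h := Impl.mul ih (Amp.impl_step hA e0 g hg)
    have h4 : a + j * (2 * a + 1) + (2 * a + 1) = a + (j + 1) * (2 * a + 1) := by ring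
    rw [h4] at h
    convert h using 2 with x
    rw [pow_succ', Matrix.mul_assoc]

end Iter

theorem rlz_amp {ι : Type} {D : ℕ} {E : Type} [Fintype E] [DecidableEq E] {a : ℕ}
    {A : (ι → Bool) → Matrix E E ℂ} (hA : Impl D a A) (e0 : E) (g : E → Prog ι Bool)
    (hg : ∀ e, (g e).depth ≤ D) (J : ℕ) (hJ : 0 < J) :
    ∃ p : (ι → Bool) → E → ℝ, Rlz D (a + J * (2 * a + 1)) p ∧
      ∀ x, 0 < (∑ e, if (g e).eval x then ‖A x e e0‖ ^ 2 else 0) →
        (∑ e, if (g e).eval x then ‖A x e e0‖ ^ 2 else 0) ≤ 1 / 4 →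
        1 / √(∑ e, if (g e).eval x then ‖A x e e0‖ ^ 2 else 0) ≤ J →
        ∃ σ : ℝ, 1 / 4 ≤ σ ∧ σ ≤ 1 ∧ ∀ e, (g e).eval x = true →
          p x e = σ / (∑ e, if (g e).eval x then ‖A x e e0‖ ^ 2 else 0) * ‖A x e e0‖ ^ 2 := by
  have hJ' : (0 : ℝ) < J := by exact_mod_cast hJ
  -- controlled iterations
  have hblock := Impl.block (B := Fin J) (q := a + J * (2 * a + 1)) (D := D)
    (U := fun j x => Amp.step (A x) e0 (fun e => (g e).eval x) ^ (j : ℕ) * A x)
    (fun j => (Amp.impl_pow hA e0 g hg j).mono_q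
      (Nat.add_le_add_left (Nat.mul_le_mul_right _ j.2.le) _))
  -- uniform superposition of the counter
  obtain ⟨F, hF, hFv⟩ := exists_unitary_col (E := Fin J × E) (⟨0, hJ⟩, e0)
    (fun je => if je.2 = e0 then ((1 / √(J : ℝ) : ℝ) : ℂ) else 0) (by
      rw [Fintype.sum_prod_type]
      have : ∀ (j : Fin J), ∑ e : E, ‖(if e = e0 then ((1 / √(J : ℝ) : ℝ) : ℂ) else 0)‖ ^ 2 =
          1 / J := by
        intro j
        rw [Finset.sum_eq_single e0]
        · rw [if_pos rfl, Complex.norm_real, Real.norm_eq_abs, sq_abs, div_pow,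
            Real.sq_sqrt hJ'.le, one_pow]
        · intro e _ he; simp [he]
        · intro h; exact absurd (Finset.mem_univ _) h
      rw [Finset.sum_congr rfl fun j _ => this j]
      rw [Finset.sum_const, Finset.card_univ, Fintype.card_fin, nsmul_eq_mul]
      field_simp)
  have htot := Impl.mul (Impl.const (ι := ι) D F hF) hblock
  rw [Nat.zero_add] at htot
  set U : (ι → Bool) → Matrix (Fin J × E) (Fin J × E) ℂ := fun x =>
    (Matrix.of fun be be' : Fin J × E => if be.1 = be'.1 then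
      (Amp.step (A x) e0 (fun e => (g e).eval x) ^ (be.1 : ℕ) * A x) be.2 be'.2 else 0) * F
    with hU
  have hUcol : ∀ x (be : Fin J × E), U x be (⟨0, hJ⟩, e0) =
      (Amp.step (A x) e0 (fun e => (g e).eval x) ^ (be.1 : ℕ) * A x) be.2 e0 *
        ((1 / √(J : ℝ) : ℝ) : ℂ) := by
    intro x be
    rw [hU]
    simp only
    rw [Matrix.mul_apply, Finset.sum_eq_single (be.1, e0)]
    · rw [hFv]; simp
    · rintro ⟨j, e⟩ _ hne
      rw [hFv]
      by_cases h1 : be.1 = j
      · have : e ≠ e0 := fun h2 => hne (by rw [h1, h2])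
        simp [this]
      · simp [h1]
    · intro h; exact absurd (Finset.mem_univ _) h
  refine ⟨fun x b => ∑ be : Fin J × E, (open Classical in
    if be.2 = b then ‖U x be (⟨0, hJ⟩, e0)‖ ^ 2 else 0),
    ⟨Fin J × E, inferInstance, inferInstance, U, (⟨0, hJ⟩, e0), Prod.snd, htot,
      fun x b => Finset.sum_congr rfl fun e _ => by congr⟩, ?_⟩
  intro x hpos hle hJM
  obtain ⟨θ, hθM, hsin, hcos, hJs⟩ := Amp.exists_angle hpos hle hJM
  refine ⟨Amp.sig θ J, Amp.quarter_le_sig hJ hJs, Amp.sig_le_one θ hJ, ?_⟩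
  intro e he
  beta_reduce
  rw [Fintype.sum_prod_type]
  have h1 : ∀ j : Fin J, (∑ e' : E, (open Classical in
      if (j, e').2 = e then ‖U x (j, e') (⟨0, hJ⟩, e0)‖ ^ 2 else 0)) =
      Real.sin ((2 * ((j : ℕ) : ℝ) + 1) * θ) ^ 2 * (‖A x e e0‖ ^ 2 / (Real.sin θ ^ 2 * J)) := by
    intro j
    rw [Finset.sum_eq_single e]
    · rw [if_pos rfl, hUcol, Amp.pow_step_apply (hA.unitary x) e0 _ θ hsin.ne' hcos.ne' hθM]
      simp only [he, if_true]
      rw [norm_mul, norm_mul, Complex.norm_real, Complex.norm_real, Real.norm_eq_abs,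
        Real.norm_eq_abs, mul_pow, mul_pow, sq_abs, sq_abs, div_pow, div_pow,
        Real.sq_sqrt hJ'.le]
      field_simp
    · intro e' _ hne; simp [hne]
    · intro h; exact absurd (Finset.mem_univ _) h
  rw [Finset.sum_congr rfl fun j _ => h1 j, ← Finset.sum_mul,
    Fin.sum_univ_eq_sum_range (fun j : ℕ => Real.sin ((2 * (j : ℝ) + 1) * θ) ^ 2) J]
  rw [← hθM]
  unfold Amp.sig
  generalize (∑ j ∈ Finset.range J, Real.sin ((2 * (j : ℝ) + 1) * θ) ^ 2) = S
  field_simp

end Crest.Agent.S0554
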