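import Mathlib
import Crest.Prelude.Def_QueryComplexity

/-!
S0554: definitions.  Everything lives in `Crest.Agent.S0554`.
-/

set_option autoImplicit false

namespace Crest.Agent.S0554

open Crest.MathPhysics.Query

/-! ### Query programs (decision trees with arbitrary output type) -/

/-- Adaptive deterministic query programs over input bits indexed by `ι`, with outputs in `α`. -/
inductive Prog (ι : Type) (α : Type) : Type
  | ret (a : α) : Prog ι α
  | ask (i : ι) (k : Bool → Prog ι α) : Prog ι α

namespace Prog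

variable {ι α β : Type}

/-- Output of the program on input `x`. -/
def eval (x : ι → Bool) : Prog ι α → α
  | ret a => a
  | ask i k => (k (x i)).eval x

/-- Worst-case number of queries. -/
def depth : Prog ι α → ℕ
  | ret _ => 0
  | ask _ k => max (k false).depth (k true).depth + 1

/-- The list of queried indices on input `x` (in order, with repetitions). -/
def path (x : ι → Bool) : Prog ι α → List ι
  | ret _ => []
  | ask i k => i :: (k (x i)).path x

/-- Sequential composition. -/
def bind : Prog ι α → (α → Prog ι β) → Prog ι β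
  | ret a, f => f a
  | ask i k, f => ask i (fun b => (k b).bind f)

end Prog

/-- `Prelude` decision trees as programs. -/
def ofDTree {n : ℕ} : DTree n → Prog (Fin n) Bool
  | .answer b => .ret b
  | .read i t₀ t₁ => .ask i (fun b => if b then ofDTree t₁ else ofDTree t₀)

/-! ### The flexible quantum query model

`E` is an arbitrary finite type of basis states.  One generalized query multiplies the basis
state `e` by `-1` iff the program attached to `e` returns `true` on the input. -/

section Model

variable {ι : Type} {E : Type} [Fintype E] [DecidableEq E]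

/-- Diagonal phase matrix. -/
noncomputable def phase (f : E → Bool) : Matrix E E ℂ :=
  Matrix.diagonal fun e => if f e then -1 else 1

/-- Unitary after `t` generalized queries: `V t · phase · V (t-1) ⋯ phase · V 0`. -/
noncomputable def seqU (V : ℕ → Matrix E E ℂ) (pr : ℕ → E → Prog ι Bool) (x : ι → Bool) :
    ℕ → Matrix E E ℂ
  | 0 => V 0
  | t + 1 => V (t + 1) * phase (fun e => (pr t e).eval x) * seqU V pr x t

/-- The input-dependent matrix `U` is implementable with exactly `q` generalized queries whose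
programs have depth at most `D`. -/
def Impl (D q : ℕ) (U : (ι → Bool) → Matrix E E ℂ) : Prop :=
  ∃ (V : ℕ → Matrix E E ℂ) (pr : ℕ → E → Prog ι Bool),
    (∀ t, V t ∈ Matrix.unitaryGroup E ℂ) ∧ (∀ t e, (pr t e).depth ≤ D) ∧
      ∀ x, U x = seqU V pr x q

end Model

/-- The input-dependent distribution `p x : β → ℝ` is realizable by a `q`-query algorithm in the
flexible model (start in the basis state `e0`, apply `U x`, measure, output `out e`). -/
def Rlz {ι : Type} (D q : ℕ) {β : Type} (p : (ι → Bool) → β → ℝ) : Prop :=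
  ∃ (E : Type) (_ : Fintype E) (_ : DecidableEq E) (U : (ι → Bool) → Matrix E E ℂ) (e0 : E)
    (out : E → β), Impl D q U ∧
      ∀ x b, p x b = ∑ e, (open Classical in if out e = b then ‖U x e e0‖ ^ 2 else 0)

/-! ### Signs, characters, the integer vectors of iterated forrelation -/

/-- positions: bit vectors of length `ν`; `m = 2 ^ ν`. -/
abbrev I (ν : ℕ) : Type := Fin ν → Bool

/-- Integer sign of a bit: `false ↦ 1`, `true ↦ -1`. -/
def sgz (b : Bool) : ℤ := if b then -1 else 1

/-- Real sign of a bit: `false ↦ 1`, `true ↦ -1`. -/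
noncomputable def sg (b : Bool) : ℝ := if b then -1 else 1

/-- Walsh character `(-1)^{⟨i,l⟩}`. -/
def chz {ν : ℕ} (i l : I ν) : ℤ := ∏ t, sgz (i t && l t)

/-- `vec Y a = H̃ D_{Y (a-1)} H̃ ⋯ H̃ D_{Y 0} 1` with the unnormalized Walsh–Hadamard matrix
`H̃ i l = chz i l` and `D_f = diag (sgz f)`. -/
def vec {ν : ℕ} (Y : ℕ → I ν → Bool) : ℕ → I ν → ℤ
  | 0 => fun _ => 1
  | a + 1 => fun j => ∑ i, chz j i * (sgz (Y a i) * vec Y a i)

/-! ### The input format and the total function -/

/-- Input bit indices.  `m = 2^ν` columns/rows/slots, `κ` blocks, `K` copies, `B` bits/integer. -/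
inductive Idx (ν κ K B : ℕ) : Type
  /-- matrix bit: column `j`, row `r` -/
  | X (j r : I ν)
  /-- root flag of the pair (column `j`, slot `s`) -/
  | Fl (j s : I ν)
  /-- bit `t` of the row pointer of root `(j,s)` into column `i` -/
  | P (j s i : I ν) (t : Fin ν)
  /-- slot `s`, copy `c`, block `a`, position `i` -/
  | A (s : I ν) (c : Fin K) (a : Fin κ) (i : I ν)
  /-- transcript of root `(j,s)`: copy `c`, block `a`, layer `t`, position `i`, bit `b` -/
  | W (j s : I ν) (c : Fin K) (a : Fin κ) (t : Fin (ν + 1)) (i : I ν) (b : Fin B)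
  deriving DecidableEq

/-- `Idx` as an iterated sum of products. -/
def idxEquiv (ν κ K B : ℕ) :
    (I ν × I ν) ⊕ (I ν × I ν) ⊕ (I ν × I ν × I ν × Fin ν) ⊕ (I ν × Fin K × Fin κ × I ν) ⊕
      (I ν × I ν × Fin K × Fin κ × Fin (ν + 1) × I ν × Fin B) ≃ Idx ν κ K B where
  toFun
    | .inl p => .X p.1 p.2
    | .inr (.inl p) => .Fl p.1 p.2
    | .inr (.inr (.inl p)) => .P p.1 p.2.1 p.2.2.1 p.2.2.2
    | .inr (.inr (.inr (.inl p))) => .A p.1 p.2.1 p.2.2.1 p.2.2.2
    | .inr (.inr (.inr (.inr p))) =>
      .W p.1 p.2.1 p.2.2.1 p.2.2.2.1 p.2.2.2.2.1 p.2.2.2.2.2.1 p.2.2.2.2.2.2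
  invFun
    | .X j r => .inl (j, r)
    | .Fl j s => .inr (.inl (j, s))
    | .P j s i t => .inr (.inr (.inl (j, s, i, t)))
    | .A s c a i => .inr (.inr (.inr (.inl (s, c, a, i))))
    | .W j s c a t i b => .inr (.inr (.inr (.inr (j, s, c, a, t, i, b))))
  left_inv := by rintro (p | p | p | p | p) <;> rfl
  right_inv := by rintro (_ | _ | _ | _ | _) <;> rfl

instance (ν κ K B : ℕ) : Fintype (Idx ν κ K B) := Fintype.ofEquiv _ (idxEquiv ν κ K B)

section Total

variable {ν κ K B : ℕ}

/-- Row pointer. -/
def Pv (x : Idx ν κ K B → Bool) (j s i : I ν) : I ν := fun t => x (.P j s i t)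

/-- Transcript integer. -/
def Wv (dec : (Fin B → Bool) → ℤ) (x : Idx ν κ K B → Bool) (j s : I ν) (c : Fin K) (a : Fin κ)
    (t : Fin (ν + 1)) (i : I ν) : ℤ := dec fun b => x (.W j s c a t i b)

/-- The forrelation instance in slot `s`, copy `c`, extended by `false`. -/
def Yv (x : Idx ν κ K B → Bool) (s : I ν) (c : Fin K) : ℕ → I ν → Bool :=
  fun a i => if h : a < κ then x (.A s c ⟨a, h⟩ i) else false

/-- The transcript value preceding block `a` (the output of block `a - 1`, or `1`). -/
def Wprev (dec : (Fin B → Bool) → ℤ) (x : Idx ν κ K B → Bool) (j s : I ν) (c : Fin K)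
    (a : Fin κ) (i : I ν) : ℤ :=
  if h : a.val = 0 then 1 else Wv dec x j s c ⟨a.val - 1, by omega⟩ (Fin.last ν) i

/-- `(j, s)` is a valid root of the input `x`. `θ` is the (real) threshold. -/
structure Valid (dec : (Fin B → Bool) → ℤ) (θ : ℝ) (x : Idx ν κ K B → Bool) (j s : I ν) :
    Prop where
  col : ∀ r, x (.X j r) = true
  flag : ∀ s', x (.Fl j s') = true ↔ s' = s
  zero : ∀ i, i ≠ j → x (.X i (Pv x j s i)) = false
  init : ∀ c a i, Wv dec x j s c a 0 i = sgz (x (.A s c a i)) * Wprev dec x j s c a i
  step : ∀ c a (t : Fin ν) i, Wv dec x j s c a t.succ i =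
    ∑ b : Bool, sgz (i t && b) * Wv dec x j s c a t.castSucc (Function.update i t b)
  final : ∀ h : 0 < κ, θ ≤ ((∑ c, Wv dec x j s c ⟨κ - 1, by omega⟩ (Fin.last ν) j : ℤ) : ℝ)

open Classical in
/-- The total function. -/
noncomputable def FF (dec : (Fin B → Bool) → ℤ) (θ : ℝ) (x : Idx ν κ K B → Bool) : Bool :=
  decide (∃ j s, Valid dec θ x j s)

end Total

/-! ### Multi-affine extensions -/

section Ext

variable {ι : Type} [Fintype ι] [DecidableEq ι]

/-- `dext φ S z = ∂_S` of the multi-affine extension of `φ : {±1}^ι → ℝ` at `z`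
(for `S = ∅` the extension itself).  Bits are read as signs through `sg`. -/
noncomputable def dext (φ : (ι → Bool) → ℝ) (S : Finset ι) (z : ι → ℝ) : ℝ :=
  ∑ f : ι → Bool, φ f * ∏ i, (if i ∈ S then sg (f i) / 2 else (1 + sg (f i) * z i) / 2)

/-- Uniform average. -/
noncomputable def avg (φ : (ι → Bool) → ℝ) : ℝ :=
  (∑ f : ι → Bool, φ f) / 2 ^ Fintype.card ι

/-- Indicator that a program outputs `true`, as a real function of the input. -/
noncomputable def ind (T : Prog ι Bool) : (ι → Bool) → ℝ := fun f => if T.eval f then 1 else 0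

end Ext

end Crest.Agent.S0554
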