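import Crest.Agent.S0554_GDefs

/-!
S0554 T8b: the multi-affine extension.
-/

set_option autoImplicit false

namespace Crest.Agent.S0554

open Finset

section
variable {ι : Type} [Fintype ι] [DecidableEq ι]

theorem dext_zero (φ : (ι → Bool) → ℝ) : dext φ ∅ 0 = avg φ := by
  rw [dext, avg, sum_div]
  refine sum_congr rfl fun f _ => ?_
  have : ∀ i : ι, (if i ∈ (∅ : Finset ι) then sg (f i) / 2
      else (1 + sg (f i) * (0 : ι → ℝ) i) / 2) = 1 / 2 := by
    intro i; simp
  rw [prod_congr rfl fun i _ => this i, prod_const, card_univ, div_pow, one_pow]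
  ring

theorem Dext.abs_sg (b : Bool) : |sg b| = 1 := by cases b <;> simp [sg]

theorem Dext.sg_mul_self (b : Bool) : sg b * sg b = 1 := by cases b <;> simp [sg]

theorem dext_hasDerivAt (φ : (ι → Bool) → ℝ) (S : Finset ι) (z : ℝ → ι → ℝ) (z' : ι → ℝ) (t : ℝ)
    (h : ∀ p, HasDerivAt (fun t => z t p) (z' p) t) :
    HasDerivAt (fun t => dext φ S (z t))
      (∑ p ∈ Sᶜ, z' p * dext φ (insert p S) (z t)) t := by
  have hfac : ∀ (f : ι → Bool) (i : ι), HasDerivAt
      (fun t => (if i ∈ S then sg (f i) / 2 else (1 + sg (f i) * z t i) / 2))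
      (if i ∈ S then 0 else sg (f i) * z' i / 2) t := by
    intro f i
    by_cases hi : i ∈ S
    · simp only [if_pos hi]; exact hasDerivAt_const _ _
    · simp only [if_neg hi]
      exact (((h i).const_mul (sg (f i))).const_add 1).div_const 2
  have hprod : ∀ f : ι → Bool, HasDerivAt
      (fun t => φ f * ∏ i, (if i ∈ S then sg (f i) / 2 else (1 + sg (f i) * z t i) / 2))
      (φ f * ∑ i, (∏ j ∈ univ.erase i,
        (if j ∈ S then sg (f j) / 2 else (1 + sg (f j) * z t j) / 2)) •
          (if i ∈ S then 0 else sg (f i) * z' i / 2)) t := by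
    intro f
    exact (HasDerivAt.fun_finsetProd (u := univ) fun i _ => hfac f i).const_mul (φ f)
  have hsum := HasDerivAt.fun_sum (u := (univ : Finset (ι → Bool))) fun f _ => hprod f
  refine hsum.congr_deriv ?_
  simp only [mul_sum]
  rw [sum_comm, ← sum_subset (subset_univ Sᶜ)]
  · refine sum_congr rfl fun p hp => ?_
    have hpS : p ∉ S := by simpa using hp
    rw [dext, mul_sum]
    refine sum_congr rfl fun f _ => ?_
    rw [← mul_prod_erase univ (fun i => if i ∈ insert p S then sg (f i) / 2
      else (1 + sg (f i) * z t i) / 2) (mem_univ p), if_pos (mem_insert_self p S), if_neg hpS]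
    have e : ∏ j ∈ univ.erase p, (if j ∈ insert p S then sg (f j) / 2
        else (1 + sg (f j) * z t j) / 2) =
        ∏ j ∈ univ.erase p, (if j ∈ S then sg (f j) / 2 else (1 + sg (f j) * z t j) / 2) := by
      refine prod_congr rfl fun j hj => ?_
      have hne := ne_of_mem_erase hj
      simp [mem_insert, hne]
    rw [e, smul_eq_mul]
    ring
  · intro p _ hp
    have hpS : p ∈ S := by simpa using hp
    refine sum_eq_zero fun f _ => ?_
    rw [if_pos hpS, smul_zero, mul_zero]

theorem dext_bound (φ : (ι → Bool) → ℝ) (R : ℝ) :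
    ∃ C, 0 ≤ C ∧ ∀ (S : Finset ι) (z : ι → ℝ), (∀ i, |z i| ≤ R) → |dext φ S z| ≤ C := by
  refine ⟨∑ f : ι → Bool, |φ f| * (1 + |R|) ^ Fintype.card ι, by positivity, ?_⟩
  intro S z hz
  rw [dext]
  refine (abs_sum_le_sum_abs _ _).trans (sum_le_sum fun f _ => ?_)
  rw [abs_mul, abs_prod]
  refine mul_le_mul_of_nonneg_left ?_ (abs_nonneg _)
  rw [← card_univ, ← prod_const]
  refine prod_le_prod (fun i _ => abs_nonneg _) fun i _ => ?_
  have hR : |z i| ≤ |R| := (hz i).trans (le_abs_self R)
  split_ifs
  · rw [abs_div, Dext.abs_sg, abs_two]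
    have := abs_nonneg R
    linarith
  · rw [abs_div, abs_two]
    have h1 : |1 + sg (f i) * z i| ≤ 1 + |z i| := by
      refine (abs_add_le _ _).trans ?_
      rw [abs_one, abs_mul, Dext.abs_sg, one_mul]
    have := abs_nonneg R
    linarith

theorem dext_continuous (φ : (ι → Bool) → ℝ) (S : Finset ι) : Continuous (dext φ S) := by
  unfold dext
  refine continuous_finsetSum _ fun f _ => continuous_const.mul
    (continuous_finsetProd _ fun i _ => ?_)
  split_ifs
  · exact continuous_const
  · exact (continuous_const.add (continuous_const.mul (continuous_apply i))).div_const 2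

theorem Dext.sum_prod (F : ι → Bool → ℝ) :
    (∑ f : ι → Bool, ∏ i, F i (f i)) = ∏ i, ∑ b : Bool, F i b := by
  rw [prod_univ_sum, Fintype.piFinset_univ]

/-- monomials over distinct variables extend to themselves -/
theorem dext_monomial {A : Type} [Fintype A] (j : A → ι) (hj : Function.Injective j)
    (z : ι → ℝ) : dext (fun f => ∏ a, sg (f (j a))) ∅ z = ∏ a, z (j a) := by
  classical
  have h1 : ∀ f : ι → Bool, (∏ a, sg (f (j a))) =
      ∏ i, (if i ∈ univ.image j then sg (f i) else 1) := by
    intro f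
    rw [prod_ite_mem, univ_inter, prod_image fun a _ b _ h => hj h]
  have h2 : (∏ a, z (j a)) = ∏ i, (if i ∈ univ.image j then z i else 1) := by
    rw [prod_ite_mem, univ_inter, prod_image fun a _ b _ h => hj h]
  rw [h2, dext]
  simp only [h1]
  simp only [← prod_mul_distrib, notMem_empty, if_false]
  rw [Dext.sum_prod (fun i b => (if i ∈ univ.image j then sg b else 1) * ((1 + sg b * z i) / 2))]
  refine prod_congr rfl fun i _ => ?_
  rw [Fintype.sum_bool]
  split_ifs <;> simp [sg] <;> ring

theorem dext_weights (z : ι → ℝ) : (∑ f : ι → Bool, ∏ i, (1 + sg (f i) * z i) / 2) = 1 := by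
  rw [Dext.sum_prod (fun i b => (1 + sg b * z i) / 2)]
  refine prod_eq_one fun i _ => ?_
  rw [Fintype.sum_bool]
  simp [sg]
  ring

end

end Crest.Agent.S0554
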