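import Crest.Agent.S0554_GBasic

/-!
S0554, task T8a2: algebra of the Gaussian expectation.
-/

set_option autoImplicit false

namespace Crest.Agent.S0554

open MeasureTheory

section
variable {n ν : ℕ}

theorem gw_pos' (g : GS n ν) : 0 < gw g := Real.exp_pos _

theorem qq_nonneg' (g : GS n ν) : 0 ≤ qq g :=
  Finset.sum_nonneg fun _ _ => Finset.sum_nonneg fun _ _ => sq_nonneg _

theorem gw_integrable_bdd (Θ : GS n ν → ℝ) (hc : Continuous Θ) (C : ℝ)
    (hb : ∀ g, |Θ g| ≤ C) : Integrable (fun g => gw g * Θ g) := by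
  refine gw_integrable Θ hc C fun g => (hb g).trans ?_
  have hC : 0 ≤ C := (abs_nonneg _).trans (hb g)
  have := qq_nonneg' g
  nlinarith [mul_nonneg hC this, mul_nonneg hC (mul_nonneg this this)]

theorem Ex_const (c : ℝ) : Ex (fun _ : GS n ν => c) = c := by
  have h : (∫ g : GS n ν, gw g) ≠ 0 := (integral_gw_pos).ne'
  unfold Ex
  rw [integral_mul_const, mul_comm, mul_div_assoc, div_self h, mul_one]

theorem Ex_add (Θ₁ Θ₂ : GS n ν → ℝ) (h₁ : Integrable fun g => gw g * Θ₁ g)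
    (h₂ : Integrable fun g => gw g * Θ₂ g) :
    Ex (fun g => Θ₁ g + Θ₂ g) = Ex Θ₁ + Ex Θ₂ := by
  unfold Ex
  rw [← add_div, ← integral_add h₁ h₂]
  simp only [mul_add]

theorem Ex_sum {J : Type*} (s : Finset J) (Θ : J → GS n ν → ℝ)
    (h : ∀ j ∈ s, Integrable fun g => gw g * Θ j g) :
    Ex (fun g => ∑ j ∈ s, Θ j g) = ∑ j ∈ s, Ex (Θ j) := by
  unfold Ex
  rw [← Finset.sum_div, ← integral_finsetSum s h]
  simp only [Finset.mul_sum]

theorem Ex_const_mul (c : ℝ) (Θ : GS n ν → ℝ) : Ex (fun g => c * Θ g) = c * Ex Θ := by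
  unfold Ex
  rw [← mul_div_assoc, ← integral_const_mul]
  simp only [mul_left_comm]

theorem Ex_mono (Θ₁ Θ₂ : GS n ν → ℝ) (h₁ : Integrable fun g => gw g * Θ₁ g)
    (h₂ : Integrable fun g => gw g * Θ₂ g) (h : ∀ g, Θ₁ g ≤ Θ₂ g) : Ex Θ₁ ≤ Ex Θ₂ := by
  unfold Ex
  refine div_le_div_of_nonneg_right ?_ (integral_gw_pos).le
  exact integral_mono h₁ h₂ fun g => mul_le_mul_of_nonneg_left (h g) (gw_pos' g).le

theorem abs_Ex_le (Θ : GS n ν → ℝ) : |Ex Θ| ≤ Ex (fun g => |Θ g|) := by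
  unfold Ex
  rw [abs_div, abs_of_pos (integral_gw_pos (n := n) (ν := ν))]
  refine div_le_div_of_nonneg_right ?_ (integral_gw_pos).le
  refine (abs_integral_le_integral_abs).trans (le_of_eq ?_)
  refine integral_congr_ae (Filter.Eventually.of_forall fun g => ?_)
  simp only [abs_mul, abs_of_pos (gw_pos' g)]

/-- differentiation under the Gaussian expectation (bounded case) -/
theorem hasDerivAt_Ex (Θ Θ' : ℝ → GS n ν → ℝ) (C : ℝ) (hc : ∀ t, Continuous (Θ t))
    (hc' : ∀ t, Continuous (Θ' t)) (t₀ : ℝ) (hb : ∀ g, |Θ t₀ g| ≤ C)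
    (hb' : ∀ t ∈ Metric.ball t₀ 1, ∀ g, |Θ' t g| ≤ C)
    (hd : ∀ t ∈ Metric.ball t₀ 1, ∀ g, HasDerivAt (fun t => Θ t g) (Θ' t g) t) :
    HasDerivAt (fun t => Ex (Θ t)) (Ex (Θ' t₀)) t₀ := by
  have hgc : Continuous (gw : GS n ν → ℝ) := by
    unfold gw qq
    fun_prop
  have hint : Integrable (fun g : GS n ν => gw g * C) :=
    gw_integrable_bdd _ continuous_const |C| fun g => le_rfl
  have key := hasDerivAt_integral_of_dominated_loc_of_deriv_le (μ := (volume : Measure (GS n ν)))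
    (F := fun t g => gw g * Θ t g) (F' := fun t g => gw g * Θ' t g) (x₀ := t₀)
    (bound := fun g => gw g * C) (s := Metric.ball t₀ 1) (Metric.ball_mem_nhds t₀ one_pos)
    (Filter.Eventually.of_forall fun t => (hgc.mul (hc t)).aestronglyMeasurable)
    (gw_integrable_bdd _ (hc t₀) C hb)
    ((hgc.mul (hc' t₀)).aestronglyMeasurable)
    (Filter.Eventually.of_forall fun g t ht => by
      rw [norm_mul, Real.norm_of_nonneg (gw_pos' g).le]
      exact mul_le_mul_of_nonneg_left (hb' t ht g) (gw_pos' g).le)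
    hint
    (Filter.Eventually.of_forall fun g t ht => (hd t ht g).const_mul (gw g))
  unfold Ex
  exact key.2.div_const _

/-- independence of the blocks -/
theorem Ex_prod_blocks (θ : Fin (n + 1) → (I ν → ℝ) → ℝ) :
    Ex (fun g : GS n ν => ∏ a, θ a (g a)) =
      ∏ a, Ex (fun g : GS 0 ν => θ a (g 0)) := by
  have hgw : ∀ (m : ℕ) (g : GS m ν), gw g = ∏ a, Real.exp (-(∑ i, g a i ^ 2) / 2) := by
    intro m g
    rw [← Real.exp_sum]
    unfold gw qq
    congr 1
    rw [← Finset.sum_neg_distrib, Finset.sum_div]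
  have h1 : ∀ (θ : (I ν → ℝ) → ℝ), (∫ g : GS 0 ν, gw g * θ (g 0)) =
      ∫ u : I ν → ℝ, Real.exp (-(∑ i, u i ^ 2) / 2) * θ u := by
    intro θ
    have := integral_fintype_prod_volume_eq_prod (𝕜 := ℝ) (ι := Fin (0 + 1))
      (E := fun _ => I ν → ℝ) (fun _ u => Real.exp (-(∑ i, u i ^ 2) / 2) * θ u)
    simpa [hgw] using this
  have h2 : (∫ g : GS 0 ν, gw g) = ∫ u : I ν → ℝ, Real.exp (-(∑ i, u i ^ 2) / 2) := by
    have := h1 (fun _ => 1)
    simpa using this
  have h3 : (∫ g : GS n ν, gw g * ∏ a, θ a (g a)) =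
      ∏ a, ∫ u : I ν → ℝ, Real.exp (-(∑ i, u i ^ 2) / 2) * θ a u := by
    rw [← integral_fintype_prod_volume_eq_prod]
    refine integral_congr_ae (Filter.Eventually.of_forall fun g => ?_)
    simp only [hgw, Finset.prod_mul_distrib]
  have h4 : (∫ g : GS n ν, gw g) = ∏ _a : Fin (n + 1), ∫ u : I ν → ℝ, Real.exp (-(∑ i, u i ^ 2) / 2) := by
    rw [← integral_fintype_prod_volume_eq_prod]
    refine integral_congr_ae (Filter.Eventually.of_forall fun g => ?_)
    simp only [hgw]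
  unfold Ex
  rw [h3, h4, ← Finset.prod_div_distrib]
  refine Finset.prod_congr rfl fun a _ => ?_
  rw [h1 (θ a), h2]

end

end Crest.Agent.S0554
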