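import Crest.Agent.S0554_GDefs

/-!
S0554, task T8a1: one-variable bounds, Gaussian integrability, integration by parts.
-/

set_option autoImplicit false

namespace Crest.Agent.S0554

open MeasureTheory

/-! ### one-variable facts -/

theorem exp_neg_half_le (y : ℝ) : Real.exp (-y) * (1 + y) ≤ 1 := by
  have h : y + 1 ≤ Real.exp y := Real.add_one_le_exp y
  have h2 : Real.exp (-y) * Real.exp y = 1 := by rw [← Real.exp_add]; simp
  have h3 := Real.exp_pos (-y)
  nlinarith

theorem exp_sq_half_mul_le (x : ℝ) : Real.exp (-x ^ 2 / 2) * (1 + x ^ 2 / 2) ≤ 1 := by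
  have := exp_neg_half_le (x ^ 2 / 2)
  have e : -x ^ 2 / 2 = -(x ^ 2 / 2) := by ring
  rw [e]; exact this

theorem abs_ss_le (x : ℝ) : |ss x| ≤ 1 / 2 := by
  unfold ss
  have h := exp_sq_half_mul_le x
  have h0 := Real.exp_pos (-x ^ 2 / 2)
  rw [abs_mul, abs_of_pos h0, abs_div, abs_of_pos (by norm_num : (0:ℝ) < 2)]
  have hx : |x| ≤ 1 + x ^ 2 / 2 := by
    have := sq_nonneg (|x| - 1)
    have h2 : |x| ^ 2 = x ^ 2 := sq_abs x
    nlinarith
  nlinarith

theorem SS_nonneg_le (x : ℝ) : 0 ≤ SS x ∧ SS x ≤ 1 / 4 := by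
  unfold SS
  have h0 := Real.exp_pos (-x ^ 2 / 2)
  have h1 : Real.exp (-x ^ 2 / 2) ≤ 1 := Real.exp_le_one_iff.2 (by nlinarith [sq_nonneg x])
  constructor <;> linarith

theorem abs_sd_le (x : ℝ) : |sd x| ≤ 1 / 2 := by
  unfold sd
  have h0 := Real.exp_pos (-x ^ 2 / 2)
  have h1 : Real.exp (-x ^ 2 / 2) ≤ 1 := Real.exp_le_one_iff.2 (by nlinarith [sq_nonneg x])
  -- exp (-x²/2) = exp(-x²/4)^2, exp(-x²/4) (1 + x²/4) ≤ 1
  have h2 : Real.exp (-x ^ 2 / 2) * (x ^ 2) ≤ 1 := by
    have h := exp_neg_half_le (x ^ 2 / 4)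
    have e : Real.exp (-x ^ 2 / 2) = Real.exp (-(x ^ 2 / 4)) * Real.exp (-(x ^ 2 / 4)) := by
      rw [← Real.exp_add]; ring_nf
    have h3 := Real.exp_pos (-(x ^ 2 / 4))
    have h4 : (Real.exp (-(x ^ 2 / 4)) * (1 + x ^ 2 / 4)) ^ 2 ≤ 1 := by
      apply pow_le_one₀ _ h
      positivity
    have h5 : x ^ 2 ≤ (1 + x ^ 2 / 4) ^ 2 := by nlinarith [sq_nonneg (1 - x ^ 2 / 4)]
    rw [e]
    have h6 : (0:ℝ) ≤ Real.exp (-(x ^ 2 / 4)) ^ 2 := by positivity
    nlinarith
  rw [abs_le]
  constructor <;> nlinarith [sq_nonneg x]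

theorem hasDerivAt_exp_sq (x : ℝ) :
    HasDerivAt (fun x : ℝ => Real.exp (-x ^ 2 / 2)) (Real.exp (-x ^ 2 / 2) * (-x)) x := by
  have h : HasDerivAt (fun x : ℝ => -x ^ 2 / 2) (-x) x := by
    have h1 := ((hasDerivAt_pow 2 x).neg).div_const 2
    exact h1.congr_deriv (by simp; ring)
  exact h.exp

theorem hasDerivAt_ss (x : ℝ) : HasDerivAt ss (sd x) x := by
  have h := ((hasDerivAt_id x).div_const 2).mul (hasDerivAt_exp_sq x)
  have e : ss = (fun x : ℝ => id x / 2) * fun x : ℝ => Real.exp (-x ^ 2 / 2) := by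
    funext y; simp [ss]
  rw [e]
  refine h.congr_deriv ?_
  simp only [sd, id]
  ring

theorem hasDerivAt_SS (x : ℝ) : HasDerivAt SS (x * SS x - ss x) x := by
  have h := (hasDerivAt_exp_sq x).const_mul (1 / 4 : ℝ)
  have e : SS = (fun x : ℝ => 1 / 4 * Real.exp (-x ^ 2 / 2)) := by
    funext y; simp [SS]
  rw [e]
  refine h.congr_deriv ?_
  simp only [ss]
  ring

theorem continuous_ss : Continuous ss := by unfold ss; fun_prop
theorem continuous_SS : Continuous SS := by unfold SS; fun_prop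
theorem continuous_sd : Continuous sd := by unfold sd; fun_prop

theorem abs_mul_SS_le (x : ℝ) : |x * SS x| ≤ 1 / 4 := by
  have h : x * SS x = ss x / 2 := by unfold SS ss; ring
  rw [h, abs_div, abs_of_pos (by norm_num : (0:ℝ) < 2)]
  have := abs_ss_le x
  linarith

section
variable {n ν : ℕ}

theorem qq_nonneg (g : GS n ν) : 0 ≤ qq g := by
  unfold qq; positivity

theorem gw_pos (g : GS n ν) : 0 < gw g := Real.exp_pos _

theorem gw_le_one (g : GS n ν) : gw g ≤ 1 := by
  unfold gw
  rw [Real.exp_le_one_iff]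
  have := qq_nonneg g
  linarith

theorem continuous_qq : Continuous (qq : GS n ν → ℝ) := by unfold qq; fun_prop

theorem continuous_gw : Continuous (gw : GS n ν → ℝ) := by
  unfold gw; have := continuous_qq (n := n) (ν := ν); fun_prop

theorem continuous_ip (v : GS n ν) : Continuous (ip v) := by unfold ip; fun_prop

theorem integrable_exp_qq (c : ℝ) (hc : 0 < c) :
    Integrable (fun g : GS n ν => Real.exp (-(c * qq g))) := by
  have e : (fun g : GS n ν => Real.exp (-(c * qq g))) =
      fun g : GS n ν => ∏ a, (fun u : I ν → ℝ => ∏ i, Real.exp (-c * (u i) ^ 2)) (g a) := by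
    funext g
    simp only [← Real.exp_sum]
    congr 1
    unfold qq
    rw [Finset.mul_sum, ← Finset.sum_neg_distrib]
    refine Finset.sum_congr rfl fun a _ => ?_
    rw [Finset.mul_sum, ← Finset.sum_neg_distrib]
    refine Finset.sum_congr rfl fun i _ => ?_
    ring
  rw [e]
  have h1 : Integrable (fun u : I ν → ℝ => ∏ i, Real.exp (-c * (u i) ^ 2)) :=
    Integrable.fintype_prod (f := fun (_ : I ν) (x : ℝ) => Real.exp (-c * x ^ 2))
      fun _ => integrable_exp_neg_mul_sq hc
  exact Integrable.fintype_prod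
    (f := fun (_ : Fin (n + 1)) (u : I ν → ℝ) => ∏ i, Real.exp (-c * (u i) ^ 2)) fun _ => h1

theorem one_add_sq_exp_le (q : ℝ) (hq : 0 ≤ q) :
    Real.exp (-q / 2) * (1 + q) ^ 2 ≤ 64 * Real.exp (-(1 / 4 * q)) := by
  -- exp(-q/4) (1+q)^2 ≤ 64
  have h := exp_neg_half_le (q / 8)
  have h3 := Real.exp_pos (-(q / 8))
  have e : Real.exp (-q / 2) = Real.exp (-(1 / 4 * q)) * (Real.exp (-(q / 8))) ^ 2 := by
    rw [← Real.exp_nat_mul, ← Real.exp_add]; push_cast; ring_nf
  have h4 : Real.exp (-(q / 8)) * (1 + q) ≤ 8 := by nlinarith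
  have h5 : (Real.exp (-(q / 8)) * (1 + q)) ^ 2 ≤ 8 ^ 2 := by
    apply pow_le_pow_left₀ _ h4
    positivity
  have h6 := Real.exp_pos (-(1 / 4 * q))
  rw [e]
  nlinarith

theorem gw_integrable (Θ : GS n ν → ℝ) (hc : Continuous Θ) (C : ℝ)
    (hb : ∀ g, |Θ g| ≤ C * (1 + qq g) ^ 2) : Integrable (fun g => gw g * Θ g) := by
  have h1 := (integrable_exp_qq (n := n) (ν := ν) (1 / 4) (by norm_num)).const_mul (C * 64)
  refine h1.mono' ?_ ?_
  · exact (continuous_gw.mul hc).aestronglyMeasurable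
  · refine Filter.Eventually.of_forall fun g => ?_
    rw [Real.norm_eq_abs, abs_mul, abs_of_pos (gw_pos g)]
    have hq := qq_nonneg g
    have hC : 0 ≤ C := by
      have := (abs_nonneg _).trans (hb g)
      have h2 : 0 < (1 + qq g) ^ 2 := by positivity
      by_contra hneg
      push Not at hneg
      nlinarith
    calc gw g * |Θ g| ≤ gw g * (C * (1 + qq g) ^ 2) :=
          mul_le_mul_of_nonneg_left (hb g) (gw_pos g).le
      _ = C * (Real.exp (-(qq g) / 2) * (1 + qq g) ^ 2) := by unfold gw; ring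
      _ ≤ C * (64 * Real.exp (-(1 / 4 * qq g))) :=
          mul_le_mul_of_nonneg_left (one_add_sq_exp_le _ hq) hC
      _ = _ := by ring

theorem integral_gw_pos : 0 < ∫ g : GS n ν, gw g := by
  have hI : Integrable (fun g : GS n ν => gw g) := by
    have := gw_integrable (n := n) (ν := ν) (fun _ => 1) continuous_const 1 (fun g => by
      have hq := qq_nonneg g
      rw [abs_one]
      nlinarith)
    simpa using this
  rw [integral_pos_iff_support_of_nonneg (fun g => (gw_pos g).le) hI]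
  have : Function.support (fun g : GS n ν => gw g) = Set.univ := by
    ext g
    simp [Function.mem_support, (gw_pos g).ne']
  rw [this]
  exact Measure.measure_univ_pos.2 (NeZero.ne _)

theorem ip_add_smul (v g w : GS n ν) (t : ℝ) : ip v (g + t • w) = ip v g + t * ip v w := by
  unfold ip
  simp only [Finset.mul_sum, ← Finset.sum_add_distrib]
  refine Finset.sum_congr rfl fun a _ => Finset.sum_congr rfl fun i _ => ?_
  simp only [Pi.add_apply, Pi.smul_apply, smul_eq_mul]
  ring

theorem qq_add_smul (g v : GS n ν) (t : ℝ) :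
    qq (g + t • v) = qq g + 2 * t * ip v g + t ^ 2 * qq v := by
  unfold ip qq
  simp only [Finset.mul_sum, ← Finset.sum_add_distrib]
  refine Finset.sum_congr rfl fun a _ => Finset.sum_congr rfl fun i _ => ?_
  simp only [Pi.add_apply, Pi.smul_apply, smul_eq_mul]
  ring

theorem hasLineDerivAt_gw (v g : GS n ν) :
    HasLineDerivAt ℝ gw (-(ip v g) * gw g) g v := by
  unfold HasLineDerivAt
  have e : (fun t : ℝ => gw (g + t • v)) =
      fun t => Real.exp (-(qq g + 2 * t * ip v g + t ^ 2 * qq v) / 2) := by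
    funext t
    unfold gw
    rw [qq_add_smul]
  rw [e]
  have h1 : HasDerivAt (fun t : ℝ => -(qq g + 2 * t * ip v g + t ^ 2 * qq v) / 2)
      (-(ip v g)) 0 := by
    have a1 : HasDerivAt (fun t : ℝ => 2 * t * ip v g) (2 * ip v g) 0 := by
      have := ((hasDerivAt_id (0:ℝ)).const_mul 2).mul_const (ip v g)
      simpa using this
    have a2 : HasDerivAt (fun t : ℝ => t ^ 2 * qq v) 0 0 := by
      have := (hasDerivAt_pow 2 (0:ℝ)).mul_const (qq v)
      simpa using this
    have a3 := ((((hasDerivAt_const (0:ℝ) (qq g)).add a1).add a2).neg).div_const 2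
    exact a3.congr_deriv (by ring)
  have h2 := h1.exp
  refine h2.congr_deriv ?_
  unfold gw
  simp
  ring

theorem hasLineDerivAt_ip (v w g : GS n ν) :
    HasLineDerivAt ℝ (ip v) (ip v w) g w := by
  unfold HasLineDerivAt
  have e : (fun t : ℝ => ip v (g + t • w)) = fun t => ip v g + t * ip v w := by
    funext t; rw [ip_add_smul]
  rw [e]
  have := ((hasDerivAt_id (0:ℝ)).mul_const (ip v w)).const_add (ip v g)
  simpa using this

/-- Cauchy–Schwarz in the weak form we need. -/
theorem abs_ip_le (v g : GS n ν) : |ip v g| ≤ (qq v + qq g) / 2 := by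
  have h1 := qq_nonneg (g + (1:ℝ) • v)
  have h2 := qq_nonneg (g + (-1:ℝ) • v)
  rw [qq_add_smul] at h1 h2
  rw [abs_le]
  constructor <;> linarith

theorem abs_ip_le' (v g : GS n ν) : |ip v g| ≤ ((qq v + 1) / 2) * (1 + qq g) := by
  have h := abs_ip_le v g
  have h1 := qq_nonneg v
  have h2 := qq_nonneg g
  nlinarith [mul_nonneg h1 h2]

theorem Ex_ibp (v : GS n ν) (Θ Θ' : GS n ν → ℝ) (hc : Continuous Θ) (hc' : Continuous Θ') (C : ℝ)
    (hb : ∀ g, |Θ g| ≤ C * (1 + qq g)) (hb' : ∀ g, |Θ' g| ≤ C * (1 + qq g))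
    (hd : ∀ g, HasLineDerivAt ℝ Θ (Θ' g) g v) :
    Ex (fun g => ip v g * Θ g) = Ex Θ' := by
  have hC : 0 ≤ C := by
    have h := (abs_nonneg _).trans (hb 0)
    have h2 := qq_nonneg (0 : GS n ν)
    by_contra hneg
    push Not at hneg
    nlinarith
  have I1 : Integrable (fun g => gw g * (ip v g * Θ g)) := by
    refine gw_integrable _ ((continuous_ip v).mul hc) (((qq v + 1) / 2) * C) fun g => ?_
    rw [abs_mul]
    have h1 := abs_ip_le' v g
    have h2 := hb g
    calc |ip v g| * |Θ g| ≤ (((qq v + 1) / 2) * (1 + qq g)) * (C * (1 + qq g)) :=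
          mul_le_mul h1 h2 (abs_nonneg _) (by have := qq_nonneg v; have := qq_nonneg g; positivity)
      _ = _ := by ring
  have key : ∀ Θ : GS n ν → ℝ, Continuous Θ → (∀ g, |Θ g| ≤ C * (1 + qq g)) →
      Integrable (fun g => gw g * Θ g) := by
    intro Θ hc hb
    refine gw_integrable _ hc C fun g => (hb g).trans ?_
    have := qq_nonneg g
    apply mul_le_mul_of_nonneg_left _ hC
    nlinarith
  have I2 := key Θ hc hb
  have I3 := key Θ' hc' hb'
  have main := integral_bilinear_hasLineDerivAt_right_eq_neg_left_of_integrable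
    (μ := (volume : Measure (GS n ν))) (f := (gw : GS n ν → ℝ))
    (f' := fun g => -(ip v g) * gw g) (g := Θ) (g' := Θ') (v := v)
    (B := ContinuousLinearMap.mul ℝ ℝ)
    (by
      have : (fun x : GS n ν => (ContinuousLinearMap.mul ℝ ℝ) (-(ip v x) * gw x) (Θ x)) =
          fun g => -(gw g * (ip v g * Θ g)) := by
        funext g; simp only [ContinuousLinearMap.mul_apply']; ring
      rw [this]
      exact I1.neg)
    (by simpa only [ContinuousLinearMap.mul_apply'] using I3)
    (by simpa only [ContinuousLinearMap.mul_apply'] using I2)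
    (fun g _ => hasLineDerivAt_gw v g) (fun g _ => hd g)
  unfold Ex
  congr 1
  simp only [ContinuousLinearMap.mul_apply'] at main
  rw [main, ← integral_neg]
  refine integral_congr_ae (Filter.Eventually.of_forall fun g => ?_)
  simp only
  ring

/-- integration by parts against `s` -/
theorem Ex_ss (v : GS n ν) (hv : ip v v = 1) (Θ Θ' : GS n ν → ℝ) (hc : Continuous Θ)
    (hc' : Continuous Θ') (C : ℝ) (hb : ∀ g, |Θ g| ≤ C) (hb' : ∀ g, |Θ' g| ≤ C)
    (hd : ∀ g, HasLineDerivAt ℝ Θ (Θ' g) g v) :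
    Ex (fun g => ss (ip v g) * Θ g) = Ex (fun g => SS (ip v g) * Θ' g) := by
  have hC : 0 ≤ C := (abs_nonneg _).trans (hb 0)
  have cip := continuous_ip v
  have cS : Continuous fun g : GS n ν => SS (ip v g) := continuous_SS.comp cip
  have cs : Continuous fun g : GS n ν => ss (ip v g) := continuous_ss.comp cip
  have bS : ∀ g : GS n ν, |SS (ip v g)| ≤ 1 / 4 := fun g => by
    have := SS_nonneg_le (ip v g)
    rw [abs_of_nonneg this.1]; exact this.2
  have h := Ex_ibp v (fun g => SS (ip v g) * Θ g)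
    (fun g => (ip v g * SS (ip v g) - ss (ip v g)) * Θ g + SS (ip v g) * Θ' g)
    (cS.mul hc) (((cip.mul cS).sub cs).mul hc |>.add (cS.mul hc')) C
    (fun g => by
      have := qq_nonneg g
      rw [abs_mul]
      calc |SS (ip v g)| * |Θ g| ≤ 1 / 4 * C := by
            exact mul_le_mul (bS g) (hb g) (abs_nonneg _) (by norm_num)
        _ ≤ C * (1 + qq g) := by nlinarith [mul_nonneg hC this])
    (fun g => by
      have := qq_nonneg g
      have h1 : |(ip v g * SS (ip v g) - ss (ip v g)) * Θ g + SS (ip v g) * Θ' g| ≤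
          (1 / 4 + 1 / 2) * C + 1 / 4 * C := by
        refine (abs_add_le _ _).trans ?_
        rw [abs_mul, abs_mul]
        refine add_le_add ?_ ?_
        · refine mul_le_mul ?_ (hb g) (abs_nonneg _) (by norm_num)
          refine (abs_sub _ _).trans ?_
          exact add_le_add (abs_mul_SS_le _) (abs_ss_le _)
        · exact mul_le_mul (bS g) (hb' g) (abs_nonneg _) (by norm_num)
      nlinarith [mul_nonneg hC this])
    (fun g => by
      have h1 : HasLineDerivAt ℝ (fun g => SS (ip v g))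
          (ip v g * SS (ip v g) - ss (ip v g)) g v := by
        have h2 := hasLineDerivAt_ip v v g
        unfold HasLineDerivAt at h2 ⊢
        rw [hv] at h2
        have h3 := (hasDerivAt_SS (ip v (g + (0:ℝ) • v))).comp (0:ℝ) h2
        simpa [Function.comp_def] using h3
      have h2 := hd g
      unfold HasLineDerivAt at h1 h2 ⊢
      have h3 := h1.mul h2
      simpa [Pi.mul_def] using h3)
  -- split
  have J1 : Integrable (fun g => gw g * (ip v g * (SS (ip v g) * Θ g))) := by
    refine gw_integrable _ (cip.mul (cS.mul hc)) C fun g => ?_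
    have := qq_nonneg g
    have e : ip v g * (SS (ip v g) * Θ g) = (ip v g * SS (ip v g)) * Θ g := by ring
    rw [e, abs_mul]
    calc _ ≤ 1 / 4 * C := mul_le_mul (abs_mul_SS_le _) (hb g) (abs_nonneg _) (by norm_num)
      _ ≤ C * (1 + qq g) ^ 2 := by nlinarith [mul_nonneg hC this, mul_nonneg hC (sq_nonneg (qq g))]
  have J2 : Integrable (fun g => gw g * (ss (ip v g) * Θ g)) := by
    refine gw_integrable _ (cs.mul hc) C fun g => ?_
    have := qq_nonneg g
    rw [abs_mul]
    calc _ ≤ 1 / 2 * C := mul_le_mul (abs_ss_le _) (hb g) (abs_nonneg _) (by norm_num)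
      _ ≤ C * (1 + qq g) ^ 2 := by nlinarith [mul_nonneg hC this, mul_nonneg hC (sq_nonneg (qq g))]
  have J3 : Integrable (fun g => gw g * (SS (ip v g) * Θ' g)) := by
    refine gw_integrable _ (cS.mul hc') C fun g => ?_
    have := qq_nonneg g
    rw [abs_mul]
    calc _ ≤ 1 / 4 * C := mul_le_mul (bS g) (hb' g) (abs_nonneg _) (by norm_num)
      _ ≤ C * (1 + qq g) ^ 2 := by nlinarith [mul_nonneg hC this, mul_nonneg hC (sq_nonneg (qq g))]
  have hpos := integral_gw_pos (n := n) (ν := ν)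
  unfold Ex at h ⊢
  rw [div_left_inj' hpos.ne'] at h ⊢
  have e1 : ∫ g, gw g * ((ip v g * SS (ip v g) - ss (ip v g)) * Θ g + SS (ip v g) * Θ' g) =
      (∫ g, gw g * (ip v g * (SS (ip v g) * Θ g))) - (∫ g, gw g * (ss (ip v g) * Θ g)) +
        ∫ g, gw g * (SS (ip v g) * Θ' g) := by
    have e2 := integral_add (J1.sub J2) J3
    simp only [Pi.sub_apply] at e2
    rw [← integral_sub J1 J2, ← e2]
    refine integral_congr_ae (Filter.Eventually.of_forall fun g => ?_)
    simp only
    ring
  rw [e1] at h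
  linarith

end

end Crest.Agent.S0554
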