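import Crest.Agent.S0554_GDeriv

/-!
S0554, T8e: the chain of integrations by parts.
-/

set_option autoImplicit false

namespace Crest.Agent.S0554

open MeasureTheory

namespace GC

section
variable {n ν : ℕ}

/-! ### continuity and bounds for the random point -/

theorem continuous_HT (a : Fin (n + 1)) (j : I ν) : Continuous fun g : GS n ν => HT (g a) j := by
  unfold HT
  fun_prop

theorem continuous_uu (a : Fin (n + 2)) (i : I ν) : Continuous fun g : GS n ν => uu g a i := by
  refine Fin.cases ?_ (fun a' => ?_) a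
  · simpa using continuous_const
  · simp only [uu_succ]
    exact continuous_ss.comp (continuous_HT a' i)

theorem continuous_vv (a : Fin (n + 2)) (i : I ν) : Continuous fun g : GS n ν => vv g a i := by
  refine Fin.lastCases ?_ (fun a' => ?_) a
  · simpa using continuous_const
  · simp only [vv_castSucc]
    exact continuous_ss.comp (by fun_prop)

theorem continuous_FT (τ : Fin (n + 2) → ℝ) : Continuous fun g : GS n ν => FT τ g := by
  refine continuous_pi fun p => ?_
  unfold FT
  exact continuous_const.mul ((continuous_uu _ _).mul (continuous_vv _ _))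

theorem abs_uu_le (g : GS n ν) (a : Fin (n + 2)) (i : I ν) : |uu g a i| ≤ 1 := by
  refine Fin.cases ?_ (fun a' => ?_) a
  · simp
  · simp only [uu_succ]
    exact (abs_ss_le _).trans (by norm_num)

theorem abs_vv_le (g : GS n ν) (a : Fin (n + 2)) (i : I ν) : |vv g a i| ≤ 1 := by
  refine Fin.lastCases ?_ (fun a' => ?_) a
  · simp
  · simp only [vv_castSucc]
    exact (abs_ss_le _).trans (by norm_num)

theorem abs_FT_le (τ : Fin (n + 2) → ℝ) (hτ : ∀ a, |τ a| ≤ 1) (g : GS n ν)
    (p : Fin (n + 2) × I ν) : |FT τ g p| ≤ 1 / 2 := by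
  obtain ⟨a, i⟩ := p
  unfold FT
  rw [abs_mul, abs_mul]
  have h1 := hτ a
  have key : |uu g a i| * |vv g a i| ≤ 1 / 2 := by
    refine Fin.cases ?_ (fun a' => ?_) a
    · have h0 : (0 : Fin (n + 2)) = (0 : Fin (n + 1)).castSucc := rfl
      simp only [uu_zero, abs_one, one_mul]
      rw [h0, vv_castSucc]
      exact abs_ss_le _
    · have h2 := abs_vv_le g a'.succ i
      have h3 := abs_ss_le (HT (g a') i)
      simp only [uu_succ]
      calc |ss (HT (g a') i)| * |vv g a'.succ i| ≤ (1 / 2) * 1 := by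
            apply mul_le_mul h3 h2 (abs_nonneg _) (by norm_num)
        _ = 1 / 2 := by norm_num
  calc |τ a| * (|uu g a i| * |vv g a i|) ≤ 1 * (1 / 2) :=
        mul_le_mul h1 key (by positivity) (by norm_num)
    _ = 1 / 2 := by norm_num

theorem int_of_bdd (Θ : GS n ν → ℝ) (hc : Continuous Θ) (C : ℝ) (hb : ∀ g, |Θ g| ≤ C) :
    Integrable (fun g => gw g * Θ g) := by
  refine gw_integrable Θ hc |C| fun g => ?_
  have h1 : (0 : ℝ) ≤ qq g := by unfold qq; positivity
  have h2 : (1 : ℝ) ≤ (1 + qq g) ^ 2 := by nlinarith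
  calc |Θ g| ≤ C := hb g
    _ ≤ |C| := le_abs_self _
    _ = |C| * 1 := (mul_one _).symm
    _ ≤ |C| * (1 + qq g) ^ 2 := by gcongr

theorem dext_FT_bound (φ : ((Fin (n + 2) × I ν) → Bool) → ℝ) :
    ∃ C, 0 ≤ C ∧ ∀ (τ : Fin (n + 2) → ℝ), (∀ a, |τ a| ≤ 1) →
      ∀ (S : Finset (Fin (n + 2) × I ν)) (g : GS n ν), |dext φ S (FT τ g)| ≤ C := by
  obtain ⟨C, h0, h⟩ := dext_bound φ 1
  refine ⟨C, h0, fun τ hτ S g => h S _ fun p => ?_⟩
  exact (abs_FT_le τ hτ g p).trans (by norm_num)

theorem continuous_dext_FT (φ : ((Fin (n + 2) × I ν) → Bool) → ℝ) (τ : Fin (n + 2) → ℝ)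
    (S : Finset (Fin (n + 2) × I ν)) : Continuous fun g : GS n ν => dext φ S (FT τ g) :=
  (dext_continuous φ S).comp (continuous_FT τ)

/-! ### tails of paths -/

/-- The block with `k` blocks remaining after it. -/
def blk (n k : ℕ) : Fin (n + 2) := ⟨n + 1 - k, by omega⟩

/-- Sum of absolute derivatives over all continuations of `S` through the last `k` blocks. -/
noncomputable def Tail (φ : ((Fin (n + 2) × I ν) → Bool) → ℝ) :
    ℕ → Finset (Fin (n + 2) × I ν) → (Fin (n + 2) × I ν → ℝ) → ℝ
  | 0, S, z => |dext φ S z|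
  | k + 1, S, z => ∑ i', Tail φ k (insert (blk n k, i') S) z

theorem Tail_continuous (φ : ((Fin (n + 2) × I ν) → Bool) → ℝ) (k : ℕ) :
    ∀ S, Continuous (Tail φ k S) := by
  induction k with
  | zero => intro S; exact (dext_continuous φ S).abs
  | succ k ih =>
    intro S
    simp only [Tail]
    exact continuous_finsetSum _ fun i' _ => ih _

theorem Tail_nonneg (φ : ((Fin (n + 2) × I ν) → Bool) → ℝ) (k : ℕ) :
    ∀ S z, 0 ≤ Tail φ k S z := by
  induction k with
  | zero => intro S z; exact abs_nonneg _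
  | succ k ih =>
    intro S z
    simp only [Tail]
    exact Finset.sum_nonneg fun i' _ => ih _ _

theorem Tail_FT_bound (φ : ((Fin (n + 2) × I ν) → Bool) → ℝ) (k : ℕ) :
    ∃ C, 0 ≤ C ∧ ∀ (τ : Fin (n + 2) → ℝ), (∀ a, |τ a| ≤ 1) →
      ∀ (S : Finset (Fin (n + 2) × I ν)) (g : GS n ν), |Tail φ k S (FT τ g)| ≤ C := by
  induction k with
  | zero =>
    obtain ⟨C, h0, h⟩ := dext_FT_bound φ
    refine ⟨C, h0, fun τ hτ S g => ?_⟩
    simp only [Tail, abs_abs]
    exact h τ hτ S g
  | succ k ih =>
    obtain ⟨C, h0, h⟩ := ih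
    refine ⟨∑ _i : I ν, C, by positivity, fun τ hτ S g => ?_⟩
    simp only [Tail]
    refine (Finset.abs_sum_le_sum_abs _ _).trans (Finset.sum_le_sum fun i' _ => h τ hτ _ g)

theorem Tail_eq (φ : ((Fin (n + 2) × I ν) → Bool) → ℝ) (k : ℕ) (hk : k ≤ n + 2) :
    ∀ S z, Tail φ k S z = ∑ j : Fin k → I ν,
      |dext φ (S ∪ Finset.univ.image fun t : Fin k =>
        ((⟨n + 2 - k + t, by omega⟩ : Fin (n + 2)), j t)) z| := by
  induction k with
  | zero =>
    intro S z
    simp [Tail]
  | succ k ih =>
    intro S z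
    simp only [Tail]
    rw [← (Fin.consEquiv (fun _ : Fin (k + 1) => I ν)).sum_comp, Fintype.sum_prod_type]
    refine Finset.sum_congr rfl fun i' _ => ?_
    rw [ih (by omega)]
    refine Finset.sum_congr rfl fun j _ => ?_
    congr 2
    ext ⟨p, q⟩
    simp only [Finset.mem_union, Finset.mem_insert, Finset.mem_image, Finset.mem_univ, true_and,
      Fin.consEquiv, Equiv.coe_fn_mk, Prod.mk.injEq, blk]
    constructor
    · rintro ((⟨h1, h2⟩ | h) | ⟨t, h1, h2⟩)
      · right
        refine ⟨0, ?_, ?_⟩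
        · rw [h1]; ext; simp
        · rw [h2]; simp
      · left; exact h
      · right
        refine ⟨t.succ, ?_, ?_⟩
        · rw [← h1]; ext; simp; omega
        · rw [← h2]; simp
    · rintro (h | ⟨t, h1, h2⟩)
      · left; right; exact h
      · revert h1 h2
        refine Fin.cases ?_ (fun t' => ?_) t
        · intro h1 h2
          left; left
          refine ⟨?_, ?_⟩
          · rw [← h1]; ext; simp
          · rw [← h2]; simp
        · intro h1 h2
          right
          refine ⟨t', ?_, ?_⟩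
          · rw [← h1]; ext; simp; omega
          · rw [← h2]; simp

theorem abs_Hm (i l : I ν) : |Hm i l| = 1 / √(2 ^ ν) := by
  have h : |(chz i l : ℝ)| = 1 := by
    unfold chz
    push_cast
    rw [Finset.abs_prod]
    apply Finset.prod_eq_one
    intro t _
    unfold sgz
    split_ifs <;> simp
  unfold Hm
  rw [abs_div, h, abs_of_nonneg (Real.sqrt_nonneg _)]

theorem chain_aux (φ : ((Fin (n + 2) × I ν) → Bool) → ℝ) (τ : Fin (n + 2) → ℝ)
    (h1 : ∀ a, a ≠ 0 → τ a = 1) (hτ : ∀ a, |τ a| ≤ 1) (k : ℕ) (hk : k ≤ n + 1) :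
    ∀ (S : Finset (Fin (n + 2) × I ν)) (i : I ν) (Ψ : GS n ν → ℝ) (c : ℝ), 0 ≤ c →
      Continuous Ψ → (∀ g, |Ψ g| ≤ c) →
      (∀ b : Fin (n + 1), n + 1 - k ≤ b.val → ∀ g v, Ψ (g + Pi.single b v) = Ψ g) →
      (blk n k, i) ∈ S → (∀ p ∈ S, p.1.val ≤ n + 1 - k) →
      |Ex (fun g => Ψ g * vv g (blk n k) i * dext φ S (FT τ g))| ≤
        c * (1 / 8 * (1 / √(2 ^ ν))) ^ k * Ex (fun g => Tail φ k S (FT τ g)) := by
  induction k with
  | zero =>
    intro S i Ψ c hc hΨc hΨ _ _ _
    have hb : blk n 0 = Fin.last (n + 1) := by ext; simp [blk]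
    obtain ⟨C, hC0, hC⟩ := dext_FT_bound φ
    rw [hb]
    simp only [vv_last, mul_one, pow_zero, Tail]
    refine (abs_Ex_le _).trans ?_
    rw [← Ex_const_mul]
    refine Ex_mono _ _ ?_ ?_ ?_
    · refine int_of_bdd _ ?_ (c * C) ?_
      · exact (hΨc.mul (continuous_dext_FT φ τ S)).abs
      · intro g
        rw [abs_abs, abs_mul]
        exact mul_le_mul (hΨ g) (hC τ hτ S g) (abs_nonneg _) hc
    · refine int_of_bdd _ ?_ (c * C) ?_
      · exact continuous_const.mul (continuous_dext_FT φ τ S).abs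
      · intro g
        rw [abs_mul, abs_abs, abs_of_nonneg hc]
        exact mul_le_mul_of_nonneg_left (hC τ hτ S g) hc
    · intro g
      rw [abs_mul]
      exact mul_le_mul_of_nonneg_right (hΨ g) (abs_nonneg _)
  | succ k ih =>
    intro S i Ψ c hc hΨc hΨ hΨd hS1 hS2
    obtain ⟨C, hC0, hC⟩ := dext_FT_bound φ
    obtain ⟨C', hC'0, hC'⟩ := Tail_FT_bound φ k
    set a' : Fin (n + 1) := ⟨n - k, by omega⟩ with ha'
    have hb1 : blk n (k + 1) = a'.castSucc := by ext; simp [blk, ha']
    have hb2 : blk n k = a'.succ := by ext; simp [blk, ha']; omega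
    set v : GS n ν := Pi.single a' (Pi.single i 1) with hv
    have hip : ∀ g : GS n ν, ip v g = g a' i := by
      intro g
      unfold ip
      rw [Finset.sum_eq_single a', Finset.sum_eq_single i]
      · simp [hv]
      · intro j _ hj; simp [hv, hj]
      · simp
      · intro b _ hb
        apply Finset.sum_eq_zero
        intro j _
        simp [hv, Pi.single_eq_of_ne hb]
      · simp
    have hvv : ip v v = 1 := by rw [hip]; simp [hv]
    set Θ : GS n ν → ℝ := fun g => Ψ g * dext φ S (FT τ g) with hΘ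
    set Θ' : GS n ν → ℝ := fun g => Ψ g * ∑ i', Hm i' i * sd (HT (g a') i') *
      vv g a'.succ i' * dext φ (insert (a'.succ, i') S) (FT τ g) with hΘ'
    have hτs : τ a'.succ = 1 := h1 _ (Fin.succ_ne_zero a')
    have hSn : ∀ i', (a'.succ, i') ∉ S := by
      intro i' hmem
      have := hS2 _ hmem
      simp only [Fin.val_succ, ha'] at this
      omega
    have hHT : ∀ i', HT (Pi.single i (1 : ℝ)) i' = Hm i' i := by
      intro i'
      unfold HT
      rw [Finset.sum_eq_single i]
      · simp
      · intro j _ hj; simp [hj]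
      · simp
    have hd : ∀ g, HasLineDerivAt ℝ Θ (Θ' g) g v := by
      intro g
      have h := hasLineDerivAt_dext_FT φ τ S a' (Pi.single i (1 : ℝ)) g
      have hsecond : (∑ j, if (a'.castSucc, j) ∈ S then 0 else
          τ a'.castSucc * uu g a'.castSucc j * (Pi.single i (1 : ℝ) : I ν → ℝ) j * sd (g a' j) *
            dext φ (insert (a'.castSucc, j) S) (FT τ g)) = 0 := by
        apply Finset.sum_eq_zero
        intro j _
        split_ifs with hj
        · rfl
        · have hji : j ≠ i := by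
            rintro rfl
            rw [hb1] at hS1
            exact hj hS1
          simp [hji]
      rw [hsecond, add_zero] at h
      have hfirst : (∑ j, if (a'.succ, j) ∈ S then 0 else
          τ a'.succ * HT (Pi.single i (1 : ℝ)) j * sd (HT (g a') j) * vv g a'.succ j *
            dext φ (insert (a'.succ, j) S) (FT τ g)) =
          ∑ i', Hm i' i * sd (HT (g a') i') *
            vv g a'.succ i' * dext φ (insert (a'.succ, i') S) (FT τ g) := by
        refine Finset.sum_congr rfl fun j _ => ?_
        rw [if_neg (hSn j), hHT, hτs, one_mul]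
      rw [hfirst] at h
      have hcon : ∀ t : ℝ, Ψ (g + t • v) = Ψ g := by
        intro t
        have : t • v = Pi.single a' (t • (Pi.single i (1 : ℝ) : I ν → ℝ)) := by
          rw [hv, Pi.single_smul]
        rw [this]
        exact hΨd a' (by simp only [ha']; omega) g _
      unfold HasLineDerivAt at h ⊢
      have h' := h.const_mul (Ψ g)
      refine h'.congr_of_eventuallyEq (Filter.Eventually.of_forall fun t => ?_)
      simp only [hΘ, hcon]
      rfl
    have hΘc : Continuous Θ := hΨc.mul (continuous_dext_FT φ τ S)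
    have hΘ'c : Continuous Θ' := by
      refine hΨc.mul (continuous_finsetSum _ fun i' _ => ?_)
      refine ((continuous_const.mul (continuous_sd.comp (continuous_HT a' i'))).mul
        (continuous_vv _ _)).mul (continuous_dext_FT φ τ _)
    have hterm : ∀ i' g, |Hm i' i * sd (HT (g a') i') * vv g a'.succ i' *
        dext φ (insert (a'.succ, i') S) (FT τ g)| ≤ 1 / √(2 ^ ν) * C := by
      intro i' g
      rw [abs_mul, abs_mul, abs_mul, abs_Hm]
      have e1 := abs_sd_le (HT (g a') i')
      have e2 := abs_vv_le g a'.succ i'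
      have e3 := hC τ hτ (insert (a'.succ, i') S) g
      calc 1 / √(2 ^ ν) * |sd (HT (g a') i')| * |vv g a'.succ i'| *
            |dext φ (insert (a'.succ, i') S) (FT τ g)| ≤ 1 / √(2 ^ ν) * 1 * 1 * C := by
            gcongr
            linarith
        _ = 1 / √(2 ^ ν) * C := by ring
    have hΘb : ∀ g, |Θ g| ≤ c * C + c * (∑ _i : I ν, 1 / √(2 ^ ν) * C) := by
      intro g
      have : |Θ g| ≤ c * C := by
        rw [hΘ]
        simp only [abs_mul]
        exact mul_le_mul (hΨ g) (hC τ hτ S g) (abs_nonneg _) hc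
      have h2 : 0 ≤ c * (∑ _i : I ν, 1 / √(2 ^ ν) * C) := by positivity
      linarith
    have hΘ'b : ∀ g, |Θ' g| ≤ c * C + c * (∑ _i : I ν, 1 / √(2 ^ ν) * C) := by
      intro g
      have : |Θ' g| ≤ c * (∑ _i : I ν, 1 / √(2 ^ ν) * C) := by
        rw [hΘ']
        simp only [abs_mul]
        refine mul_le_mul (hΨ g) ?_ (abs_nonneg _) hc
        refine (Finset.abs_sum_le_sum_abs _ _).trans (Finset.sum_le_sum fun i' _ => hterm i' g)
      have h2 : 0 ≤ c * C := by positivity
      linarith
    have hIBP := Ex_ss v hvv Θ Θ' hΘc hΘ'c _ hΘb hΘ'b hd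
    -- rewrite the left side
    have hL : (fun g => Ψ g * vv g (blk n (k + 1)) i * dext φ S (FT τ g)) =
        fun g : GS n ν => ss (ip v g) * Θ g := by
      funext g
      rw [hb1, vv_castSucc, hip]
      simp only [hΘ]
      ring
    rw [hL, hIBP]
    set Ψ' : I ν → GS n ν → ℝ := fun i' g => Ψ g * SS (g a' i) * sd (HT (g a') i') with hΨ'
    have hR : (fun g => SS (ip v g) * Θ' g) = fun g : GS n ν => ∑ i', Hm i' i *
        (Ψ' i' g * vv g (blk n k) i' * dext φ (insert (blk n k, i') S) (FT τ g)) := by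
      funext g
      rw [hip, hb2]
      simp only [hΘ', hΨ', Finset.mul_sum]
      refine Finset.sum_congr rfl fun i' _ => ?_
      ring
    rw [hR]
    have hΨ'c : ∀ i', Continuous (Ψ' i') := by
      intro i'
      refine (hΨc.mul (continuous_SS.comp (by fun_prop))).mul
        (continuous_sd.comp (continuous_HT a' i'))
    have hΨ'b : ∀ i' g, |Ψ' i' g| ≤ c / 8 := by
      intro i' g
      rw [hΨ']
      simp only [abs_mul]
      have e1 := SS_nonneg_le (g a' i)
      have e2 := abs_sd_le (HT (g a') i')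
      rw [abs_of_nonneg e1.1]
      calc |Ψ g| * SS (g a' i) * |sd (HT (g a') i')| ≤ c * (1 / 4) * (1 / 2) := by
            have := hΨ g
            have := e1.1
            gcongr
            exact e1.2
        _ = c / 8 := by ring
    have hint : ∀ i', Integrable (fun g : GS n ν => gw g * (Hm i' i *
        (Ψ' i' g * vv g (blk n k) i' * dext φ (insert (blk n k, i') S) (FT τ g)))) := by
      intro i'
      refine int_of_bdd _ ?_ (1 / √(2 ^ ν) * (c / 8 * 1 * C)) ?_
      · exact continuous_const.mul (((hΨ'c i').mul (continuous_vv _ _)).mul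
          (continuous_dext_FT φ τ _))
      · intro g
        rw [abs_mul, abs_mul, abs_mul, abs_Hm]
        have e1 := hΨ'b i' g
        have e2 := abs_vv_le g (blk n k) i'
        have e3 := hC τ hτ (insert (blk n k, i') S) g
        gcongr
    rw [Ex_sum _ _ fun i' _ => hint i']
    refine (Finset.abs_sum_le_sum_abs _ _).trans ?_
    have hstep : ∀ i', |Ex (fun g : GS n ν => Hm i' i *
        (Ψ' i' g * vv g (blk n k) i' * dext φ (insert (blk n k, i') S) (FT τ g)))| ≤
        1 / √(2 ^ ν) * (c / 8 * (1 / 8 * (1 / √(2 ^ ν))) ^ k *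
          Ex (fun g => Tail φ k (insert (blk n k, i') S) (FT τ g))) := by
      intro i'
      rw [Ex_const_mul, abs_mul, abs_Hm]
      refine mul_le_mul_of_nonneg_left ?_ (by positivity)
      refine ih (by omega) (insert (blk n k, i') S) i' (Ψ' i') (c / 8) (by positivity) (hΨ'c i')
        (hΨ'b i') ?_ (Finset.mem_insert_self _ _) ?_
      · intro b hb g w
        have hne : b ≠ a' := by
          intro h
          rw [h] at hb
          simp only [ha'] at hb
          omega
        simp only [hΨ']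
        rw [hΨd b (by omega) g w]
        have : (g + (Pi.single b w : GS n ν)) a' = g a' := by
          rw [Pi.add_apply, Pi.single_eq_of_ne hne.symm, add_zero]
        rw [this]
      · intro p hp
        rcases Finset.mem_insert.mp hp with h | h
        · rw [h]; simp [blk]
        · have := hS2 p h
          omega
    refine (Finset.sum_le_sum fun i' _ => hstep i').trans ?_
    have hTsum : Ex (fun g => Tail φ (k + 1) S (FT τ g)) =
        ∑ i', Ex (fun g : GS n ν => Tail φ k (insert (blk n k, i') S) (FT τ g)) := by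
      simp only [Tail]
      refine Ex_sum _ _ fun i' _ => ?_
      refine int_of_bdd _ ?_ C' fun g => hC' τ hτ _ g
      exact (Tail_continuous φ k _).comp (continuous_FT τ)
    rw [hTsum, Finset.mul_sum]
    refine Finset.sum_le_sum fun i' _ => le_of_eq ?_
    ring

end

end GC

section
variable {n ν : ℕ}

open GC in
/-- T8e: the chain of integrations by parts. -/
theorem chain_bound (φ : ((Fin (n + 2) × I ν) → Bool) → ℝ) (L : ℝ)
    (hL : ∀ z : Fin (n + 2) × I ν → ℝ, (∀ i, |z i| ≤ 1 / 2) →
      ∑ i : Fin (n + 2) → I ν, |dext φ (Finset.univ.image fun a => (a, i a)) z| ≤ L)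
    (τ : Fin (n + 2) → ℝ) (h1 : ∀ a, a ≠ 0 → τ a = 1) (h0 : |τ 0| ≤ 1) :
    |∑ i, Ex (fun g => uu g 0 i * vv g 0 i * dext φ {(0, i)} (FT τ g))| ≤
      (1 / 8) ^ (n + 1) * (1 / √(2 ^ ν)) ^ (n + 1) * L := by
  have hτ : ∀ a, |τ a| ≤ 1 := by
    intro a
    by_cases h : a = 0
    · rw [h]; exact h0
    · rw [h1 a h]; simp
  have hb : blk n (n + 1) = 0 := by ext; simp [blk]
  obtain ⟨C', hC'0, hC'⟩ := Tail_FT_bound (n := n) φ (n + 1)
  refine (Finset.abs_sum_le_sum_abs _ _).trans ?_
  have hstep : ∀ i : I ν, |Ex (fun g => uu g 0 i * vv g 0 i * dext φ {(0, i)} (FT τ g))| ≤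
      1 * (1 / 8 * (1 / √(2 ^ ν))) ^ (n + 1) *
        Ex (fun g => Tail φ (n + 1) {(0, i)} (FT τ g)) := by
    intro i
    have := chain_aux φ τ h1 hτ (n + 1) le_rfl {(0, i)} i (fun _ => 1) 1 zero_le_one
      continuous_const (by simp) (by simp) (by rw [hb]; simp)
      (by intro p hp; simp at hp; rw [hp]; simp)
    rw [hb] at this
    simpa using this
  refine (Finset.sum_le_sum fun i _ => hstep i).trans ?_
  rw [← Finset.mul_sum, ← Ex_sum]
  · rw [one_mul, mul_pow]
    refine mul_le_mul_of_nonneg_left ?_ (by positivity)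
    have hpt : ∀ g : GS n ν, ∑ i, Tail φ (n + 1) {(0, i)} (FT τ g) ≤ L := by
      intro g
      have e := Tail_eq φ (n + 2) le_rfl ∅ (FT τ g)
      have e1 : Tail φ (n + 2) ∅ (FT τ g) = ∑ i, Tail φ (n + 1) {(0, i)} (FT τ g) := by
        simp only [Tail]
        rw [hb]
        simp
      rw [← e1, e]
      refine le_trans (le_of_eq ?_) (hL (FT τ g) fun p => GC.abs_FT_le τ hτ g p)
      refine Finset.sum_congr rfl fun j _ => ?_
      congr 2
      ext ⟨p, q⟩
      simp
    calc Ex (fun g => ∑ i, Tail φ (n + 1) {(0, i)} (FT τ g)) ≤ Ex (fun _ : GS n ν => L) := by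
          refine Ex_mono _ _ ?_ ?_ hpt
          · refine GC.int_of_bdd _ ?_ (∑ _i : I ν, C') ?_
            · exact continuous_finsetSum _ fun i _ =>
                (GC.Tail_continuous φ (n + 1) _).comp (GC.continuous_FT τ)
            · intro g
              exact (Finset.abs_sum_le_sum_abs _ _).trans
                (Finset.sum_le_sum fun i _ => hC' τ hτ _ g)
          · exact GC.int_of_bdd _ continuous_const |L| fun g => le_rfl
      _ = L := Ex_const L
  · intro i _
    refine GC.int_of_bdd _ ?_ C' fun g => hC' τ hτ _ g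
    exact (GC.Tail_continuous φ (n + 1) _).comp (GC.continuous_FT τ)

end

end Crest.Agent.S0554
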