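import Crest.Agent.S0554_Defs

/-!
S0554: definitions for the Gaussian construction of the forrelated distribution (tasks T8*).
Here `κ = n + 2` blocks; the Gaussian space has `n + 1` blocks of `2 ^ ν` coordinates.
-/

set_option autoImplicit false

namespace Crest.Agent.S0554

open MeasureTheory

/-- `s(x) = x e^{-x²/2} / 2`, odd, `|s| ≤ 1/2`. -/
noncomputable def ss (x : ℝ) : ℝ := x / 2 * Real.exp (-x ^ 2 / 2)

/-- `S(x) = e^{-x²/2} / 4`; `x S(x) - S'(x) = s(x)`. -/
noncomputable def SS (x : ℝ) : ℝ := 1 / 4 * Real.exp (-x ^ 2 / 2)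

/-- `s'(x) = (1 - x²) e^{-x²/2} / 2`, `|s'| ≤ 1/2`. -/
noncomputable def sd (x : ℝ) : ℝ := (1 - x ^ 2) / 2 * Real.exp (-x ^ 2 / 2)

/-- The Gaussian space: `n + 1` blocks of `2 ^ ν` real coordinates (with Lebesgue measure). -/
abbrev GS (n ν : ℕ) : Type := Fin (n + 1) → I ν → ℝ

variable {n ν : ℕ}

/-- `∑ g²`. -/
noncomputable def qq (g : GS n ν) : ℝ := ∑ a, ∑ i, g a i ^ 2

/-- Pairing. -/
noncomputable def ip (v g : GS n ν) : ℝ := ∑ a, ∑ i, v a i * g a i

/-- Gaussian weight. -/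
noncomputable def gw (g : GS n ν) : ℝ := Real.exp (-(qq g) / 2)

/-- Gaussian expectation. -/
noncomputable def Ex (Θ : GS n ν → ℝ) : ℝ := (∫ g, gw g * Θ g) / ∫ g : GS n ν, gw g

/-- Normalized Walsh–Hadamard matrix. -/
noncomputable def Hm (i l : I ν) : ℝ := chz i l / √(2 ^ ν)

/-- Normalized Walsh–Hadamard transform. -/
noncomputable def HT (u : I ν → ℝ) (j : I ν) : ℝ := ∑ i, Hm j i * u i

/-- Incoming factor of block `a`: `1` for `a = 0`, else `s((H g_{a-1})_i)`. -/
noncomputable def uu (g : GS n ν) (a : Fin (n + 2)) (i : I ν) : ℝ :=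
  Fin.cases (motive := fun _ => ℝ) 1 (fun a' => ss (HT (g a') i)) a

/-- Outgoing factor of block `a`: `1` for the last block, else `s(g_{a,i})`. -/
noncomputable def vv (g : GS n ν) (a : Fin (n + 2)) (i : I ν) : ℝ :=
  Fin.lastCases (motive := fun _ => ℝ) 1 (fun a' => ss (g a' i)) a

/-- The random point of the cube, block `a` scaled by `τ a`. -/
noncomputable def FT (τ : Fin (n + 2) → ℝ) (g : GS n ν) (p : Fin (n + 2) × I ν) : ℝ :=
  τ p.1 * (uu g p.1 p.2 * vv g p.1 p.2)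

@[simp] theorem uu_zero (g : GS n ν) (i : I ν) : uu g 0 i = 1 := rfl

@[simp] theorem uu_succ (g : GS n ν) (a : Fin (n + 1)) (i : I ν) :
    uu g a.succ i = ss (HT (g a) i) := rfl

@[simp] theorem vv_last (g : GS n ν) (i : I ν) : vv g (Fin.last (n + 1)) i = 1 := by
  simp [vv]

@[simp] theorem vv_castSucc (g : GS n ν) (a : Fin (n + 1)) (i : I ν) :
    vv g a.castSucc i = ss (g a i) := by
  simp [vv]

end Crest.Agent.S0554
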