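import Crest.Agent.S0554_GAlg
import Crest.Agent.S0554_Dext

/-!
S0554 T8c: chain rules for the multi-affine extension at the random point `FT`.
-/

set_option autoImplicit false

namespace Crest.Agent.S0554

open MeasureTheory

variable {n ν : ℕ}

theorem HT_add_smul_GD (u v : I ν → ℝ) (t : ℝ) (i : I ν) :
    HT (fun j => u j + t * v j) i = HT u i + t * HT v i := by
  unfold HT
  rw [Finset.mul_sum, ← Finset.sum_add_distrib]
  exact Finset.sum_congr rfl fun j _ => by ring

theorem HT_continuous_GD (i : I ν) : Continuous fun u : I ν → ℝ => HT u i := by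
  unfold HT
  fun_prop

theorem uu_continuous (a : Fin (n + 2)) (i : I ν) : Continuous fun g : GS n ν => uu g a i := by
  induction a using Fin.cases with
  | zero => simpa using continuous_const
  | succ a =>
    simp only [uu_succ]
    exact continuous_ss.comp ((HT_continuous_GD i).comp (continuous_apply a))

theorem vv_continuous (a : Fin (n + 2)) (i : I ν) : Continuous fun g : GS n ν => vv g a i := by
  induction a using Fin.lastCases with
  | last => simpa using continuous_const
  | cast a =>
    simp only [vv_castSucc]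
    exact continuous_ss.comp ((continuous_apply i).comp (continuous_apply a))

theorem abs_uu_le (g : GS n ν) (a : Fin (n + 2)) (i : I ν) : |uu g a i| ≤ 1 := by
  induction a using Fin.cases with
  | zero => simp
  | succ a =>
    rw [uu_succ]
    exact (abs_ss_le _).trans (by norm_num)

theorem abs_vv_le (g : GS n ν) (a : Fin (n + 2)) (i : I ν) : |vv g a i| ≤ 1 := by
  induction a using Fin.lastCases with
  | last => simp
  | cast a =>
    rw [vv_castSucc]
    exact (abs_ss_le _).trans (by norm_num)

theorem FT_continuous (τ : Fin (n + 2) → ℝ) : Continuous fun g : GS n ν => FT τ g := by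
  refine continuous_pi fun p => ?_
  unfold FT
  exact continuous_const.mul ((uu_continuous _ _).mul (vv_continuous _ _))

theorem abs_FT_le (τ : Fin (n + 2) → ℝ) (R : ℝ) (hR : ∀ a, |τ a| ≤ R) (g : GS n ν)
    (p : Fin (n + 2) × I ν) : |FT τ g p| ≤ R := by
  unfold FT
  rw [abs_mul, abs_mul]
  have h1 := abs_uu_le g p.1 p.2
  have h2 := abs_vv_le g p.1 p.2
  have h3 := hR p.1
  have h4 : |uu g p.1 p.2| * |vv g p.1 p.2| ≤ 1 := mul_le_one₀ h1 (abs_nonneg _) h2
  calc |τ p.1| * (|uu g p.1 p.2| * |vv g p.1 p.2|) ≤ |τ p.1| * 1 :=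
        mul_le_mul_of_nonneg_left h4 (abs_nonneg _)
    _ ≤ R := by rw [mul_one]; exact h3

theorem dext_FT_continuous (φ : ((Fin (n + 2) × I ν) → Bool) → ℝ) (τ : Fin (n + 2) → ℝ)
    (S : Finset (Fin (n + 2) × I ν)) : Continuous fun g : GS n ν => dext φ S (FT τ g) :=
  (dext_continuous φ S).comp (FT_continuous τ)

theorem qq_nonneg_GD (g : GS n ν) : 0 ≤ qq g :=
  Finset.sum_nonneg fun _ _ => Finset.sum_nonneg fun _ _ => sq_nonneg _

theorem gw_integrable_of_bounded (Θ : GS n ν → ℝ) (hc : Continuous Θ) (C : ℝ)
    (hb : ∀ g, |Θ g| ≤ C) : Integrable (fun g => gw g * Θ g) := by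
  refine gw_integrable Θ hc C fun g => (hb g).trans ?_
  have h0 : 0 ≤ C := (abs_nonneg _).trans (hb g)
  have h1 := qq_nonneg_GD g
  nlinarith [mul_nonneg h0 h1, mul_nonneg h0 (sq_nonneg (qq g))]

/-- T8c. -/
theorem hasDerivAt_Ex_FT (φ : ((Fin (n + 2) × I ν) → Bool) → ℝ) (τ : Fin (n + 2) → ℝ)
    (b : Fin (n + 2)) (t : ℝ) :
    HasDerivAt (fun t => Ex (fun g => dext φ ∅ (FT (Function.update τ b t) g)))
      (∑ i, Ex (fun g => uu g b i * vv g b i *
        dext φ {(b, i)} (FT (Function.update τ b t) g))) t := by
  set R : ℝ := (∑ a, |τ a|) + |t| + 1 with hR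
  have hR' : ∀ s ∈ Metric.ball t 1, ∀ a, |Function.update τ b s a| ≤ R := by
    intro s hs a
    have h0 : 0 ≤ ∑ a, |τ a| := Finset.sum_nonneg fun _ _ => abs_nonneg _
    by_cases ha : a = b
    · subst ha
      rw [Function.update_self]
      rw [Metric.mem_ball, Real.dist_eq] at hs
      have : |s| ≤ |s - t| + |t| := by
        calc |s| = |(s - t) + t| := by ring_nf
          _ ≤ _ := abs_add_le _ _
      linarith
    · rw [Function.update_of_ne ha]
      have := Finset.single_le_sum (f := fun a => |τ a|) (fun _ _ => abs_nonneg _)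
        (Finset.mem_univ a)
      have := abs_nonneg t
      linarith
  obtain ⟨C, hC0, hC⟩ := dext_bound φ R
  have hbd : ∀ s ∈ Metric.ball t 1, ∀ (g : GS n ν) S,
      |dext φ S (FT (Function.update τ b s) g)| ≤ C := fun s hs g S =>
    hC S _ fun p => abs_FT_le _ R (hR' s hs) g p
  have hbd2 : ∀ s ∈ Metric.ball t 1, ∀ (g : GS n ν) (i : I ν),
      |uu g b i * vv g b i * dext φ {(b, i)} (FT (Function.update τ b s) g)| ≤ C := by
    intro s hs g i
    rw [abs_mul, abs_mul]
    have h4 : |uu g b i| * |vv g b i| ≤ 1 :=
      mul_le_one₀ (abs_uu_le _ _ _) (abs_nonneg _) (abs_vv_le _ _ _)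
    calc _ ≤ 1 * |dext φ {(b, i)} (FT (Function.update τ b s) g)| :=
          mul_le_mul_of_nonneg_right h4 (abs_nonneg _)
      _ ≤ C := by rw [one_mul]; exact hbd s hs g _
  have hcont : ∀ (s : ℝ) (i : I ν), Continuous fun g : GS n ν =>
      uu g b i * vv g b i * dext φ {(b, i)} (FT (Function.update τ b s) g) := fun s i =>
    ((uu_continuous _ _).mul (vv_continuous _ _)).mul (dext_FT_continuous _ _ _)
  have key := hasDerivAt_Ex (n := n) (ν := ν)
    (fun s g => dext φ ∅ (FT (Function.update τ b s) g))
    (fun s g => ∑ i, uu g b i * vv g b i * dext φ {(b, i)} (FT (Function.update τ b s) g))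
    (C + ∑ _i : I ν, C) (fun s => dext_FT_continuous _ _ _)
    (fun s => continuous_finsetSum _ fun i _ => hcont s i) t
    (fun g => (hbd t (Metric.mem_ball_self one_pos) g ∅).trans
      (by have : 0 ≤ ∑ _i : I ν, C := Finset.sum_nonneg fun _ _ => hC0
          linarith))
    (fun s hs g => ?_) (fun s hs g => ?_)
  · rw [Ex_sum] at key
    · exact key
    · intro i _
      exact gw_integrable_of_bounded _ (hcont t i) C
        fun g => hbd2 t (Metric.mem_ball_self one_pos) g i
  · refine (Finset.abs_sum_le_sum_abs _ _).trans ?_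
    have : ∑ i, |uu g b i * vv g b i * dext φ {(b, i)} (FT (Function.update τ b s) g)| ≤
        ∑ _i : I ν, C := Finset.sum_le_sum fun i _ => hbd2 s hs g i
    linarith
  · have h1 := dext_hasDerivAt φ ∅ (fun s => FT (Function.update τ b s) g)
      (fun p => if p.1 = b then uu g b p.2 * vv g b p.2 else 0) s (fun p => ?_)
    · refine h1.congr_deriv ?_
      rw [Finset.compl_empty, Fintype.sum_prod_type, Finset.sum_eq_single b]
      · exact Finset.sum_congr rfl fun i _ => by simp
      · intro c _ hc
        exact Finset.sum_eq_zero fun i _ => by simp [hc]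
      · intro h; exact absurd (Finset.mem_univ _) h
    · obtain ⟨c, i⟩ := p
      by_cases hc : c = b
      · subst hc
        simp only [FT, Function.update_self, if_true]
        simpa using (hasDerivAt_id s).mul_const (uu g c i * vv g c i)
      · simp only [FT, Function.update_of_ne hc, if_neg hc]
        exact hasDerivAt_const _ _

/-- T8c: line derivative of `dext φ S (FT τ g)` in the direction of the vector `v` of block `a`. -/
theorem hasLineDerivAt_dext_FT (φ : ((Fin (n + 2) × I ν) → Bool) → ℝ) (τ : Fin (n + 2) → ℝ)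
    (S : Finset (Fin (n + 2) × I ν)) (a : Fin (n + 1)) (v : I ν → ℝ) (g : GS n ν) :
    HasLineDerivAt ℝ (fun g => dext φ S (FT τ g))
      ((∑ i, if (a.succ, i) ∈ S then 0 else τ a.succ * HT v i * sd (HT (g a) i) * vv g a.succ i *
          dext φ (insert (a.succ, i) S) (FT τ g)) +
        ∑ i, if (a.castSucc, i) ∈ S then 0 else τ a.castSucc * uu g a.castSucc i * v i *
          sd (g a i) * dext φ (insert (a.castSucc, i) S) (FT τ g))
      g (Pi.single a v) := by
  unfold HasLineDerivAt
  -- the curve
  have hself : ∀ t : ℝ, (g + t • (Pi.single a v : GS n ν)) a = fun j => g a j + t * v j := by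
    intro t
    funext j
    simp
  have hne : ∀ (t : ℝ) (c : Fin (n + 1)), c ≠ a → (g + t • (Pi.single a v : GS n ν)) c = g c := by
    intro t c hc
    simp [Pi.single_eq_of_ne hc]
  have huu : ∀ (c : Fin (n + 2)) (i : I ν),
      HasDerivAt (fun t : ℝ => uu (g + t • (Pi.single a v : GS n ν)) c i)
        (if c = a.succ then sd (HT (g a) i) * HT v i else 0) 0 := by
    intro c i
    induction c using Fin.cases with
    | zero =>
      simp only [uu_zero]
      rw [if_neg (Fin.succ_ne_zero a).symm]
      exact hasDerivAt_const _ _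
    | succ c =>
      simp only [uu_succ]
      by_cases hc : c = a
      · subst hc
        rw [if_pos rfl]
        simp only [hself, HT_add_smul_GD]
        have h1 : HasDerivAt (fun t : ℝ => HT (g c) i + t * HT v i) (HT v i) 0 := by
          simpa using ((hasDerivAt_id (0 : ℝ)).mul_const (HT v i)).const_add (HT (g c) i)
        have h2 := hasDerivAt_ss (HT (g c) i)
        have h3 : HasDerivAt ss (sd (HT (g c) i)) (HT (g c) i + 0 * HT v i) := by
          simpa using h2
        exact h3.comp (0 : ℝ) h1
      · rw [if_neg (fun h => hc (Fin.succ_injective _ h))]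
        simp only [hne _ c hc]
        exact hasDerivAt_const _ _
  have hvv : ∀ (c : Fin (n + 2)) (i : I ν),
      HasDerivAt (fun t : ℝ => vv (g + t • (Pi.single a v : GS n ν)) c i)
        (if c = a.castSucc then sd (g a i) * v i else 0) 0 := by
    intro c i
    induction c using Fin.lastCases with
    | last =>
      simp only [vv_last]
      rw [if_neg (Fin.castSucc_lt_last a).ne']
      exact hasDerivAt_const _ _
    | cast c =>
      simp only [vv_castSucc]
      by_cases hc : c = a
      · subst hc
        rw [if_pos rfl]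
        simp only [hself]
        have h1 : HasDerivAt (fun t : ℝ => g c i + t * v i) (v i) 0 := by
          simpa using ((hasDerivAt_id (0 : ℝ)).mul_const (v i)).const_add (g c i)
        have h2 := hasDerivAt_ss (g c i)
        have h3 : HasDerivAt ss (sd (g c i)) (g c i + 0 * v i) := by
          simpa using h2
        exact h3.comp (0 : ℝ) h1
      · rw [if_neg (fun h => hc (Fin.castSucc_injective _ h))]
        simp only [hne _ c hc]
        exact hasDerivAt_const _ _
  have h0 : g + (0 : ℝ) • (Pi.single a v : GS n ν) = g := by simp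
  have h1 := dext_hasDerivAt φ S (fun t : ℝ => FT τ (g + t • (Pi.single a v : GS n ν)))
    (fun p => τ p.1 * ((if p.1 = a.succ then sd (HT (g a) p.2) * HT v p.2 else 0) * vv g p.1 p.2 +
      uu g p.1 p.2 * (if p.1 = a.castSucc then sd (g a p.2) * v p.2 else 0))) 0 (fun p => ?_)
  · refine h1.congr_deriv ?_
    simp only [h0]
    have e1 : ∀ G : Fin (n + 2) × I ν → ℝ, ∑ p ∈ Sᶜ, G p = ∑ p, if p ∈ S then 0 else G p := by
      intro G
      have : Sᶜ = Finset.univ.filter (fun p => ¬ p ∈ S) := by ext p; simp
      rw [this, Finset.sum_filter]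
      exact Finset.sum_congr rfl fun p _ => by split_ifs <;> simp_all
    rw [e1]
    have e2 : ∀ p : Fin (n + 2) × I ν, (if p ∈ S then 0 else
        τ p.1 * ((if p.1 = a.succ then sd (HT (g a) p.2) * HT v p.2 else 0) * vv g p.1 p.2 +
          uu g p.1 p.2 * (if p.1 = a.castSucc then sd (g a p.2) * v p.2 else 0)) *
        dext φ (insert p S) (FT τ g)) =
        (if p.1 = a.succ then (if p ∈ S then 0 else τ p.1 * HT v p.2 * sd (HT (g a) p.2) *
          vv g p.1 p.2 * dext φ (insert p S) (FT τ g)) else 0) +
        (if p.1 = a.castSucc then (if p ∈ S then 0 else τ p.1 * uu g p.1 p.2 * v p.2 *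
          sd (g a p.2) * dext φ (insert p S) (FT τ g)) else 0) := by
      intro p
      split_ifs <;> ring
    rw [Finset.sum_congr rfl fun p _ => e2 p, Finset.sum_add_distrib]
    congr 1
    · rw [Fintype.sum_prod_type, Finset.sum_eq_single a.succ]
      · exact Finset.sum_congr rfl fun i _ => by rw [if_pos rfl]
      · intro c _ hc
        exact Finset.sum_eq_zero fun i _ => by rw [if_neg hc]
      · intro h; exact absurd (Finset.mem_univ _) h
    · rw [Fintype.sum_prod_type, Finset.sum_eq_single a.castSucc]
      · exact Finset.sum_congr rfl fun i _ => by rw [if_pos rfl]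
      · intro c _ hc
        exact Finset.sum_eq_zero fun i _ => by rw [if_neg hc]
      · intro h; exact absurd (Finset.mem_univ _) h
  · have h2 := ((huu p.1 p.2).mul (hvv p.1 p.2)).const_mul (τ p.1)
    simp only [h0] at h2
    exact h2

end Crest.Agent.S0554
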