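import Crest.Agent.S0554_GDefs
import Crest.Agent.S0554_GBasic
import Crest.Agent.S0554_GAlg

/-!
S0554, task T8f: the correlation and the mean of the forrelated distribution, `vec` as a sum
over paths.
-/

set_option autoImplicit false

namespace Crest.Agent.S0554

open MeasureTheory

namespace GMean

variable {n ν : ℕ}

theorem chz_pm {ν : ℕ} (i l : I ν) : chz i l = 1 ∨ chz i l = -1 := by
  unfold chz
  refine Finset.prod_induction _ (fun z : ℤ => z = 1 ∨ z = -1) ?_ (Or.inl rfl) ?_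
  · rintro a b (rfl | rfl) (rfl | rfl) <;> simp
  · intro t _
    unfold sgz
    split_ifs <;> simp

theorem chz_false' {ν : ℕ} (i : I ν) : chz (fun _ => false) i = 1 := by
  unfold chz sgz
  simp

theorem sgz_cast (b : Bool) : ((sgz b : ℤ) : ℝ) = sg b := by
  cases b <;> simp [sgz, sg]

theorem vec_paths_aux (Y : ℕ → I ν → Bool) (m : ℕ) : ∀ j : I ν,
    (vec Y (m + 1) j : ℝ) = ∑ i : Fin (m + 1) → I ν,
      (chz j (i (Fin.last m)) : ℝ) * ((∏ a : Fin m, (chz (i a.succ) (i a.castSucc) : ℝ)) *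
        ∏ a : Fin (m + 1), sg (Y a (i a))) := by
  induction m with
  | zero =>
    intro j
    simp only [vec]
    push_cast
    rw [← Fintype.sum_equiv (Equiv.funUnique (Fin 1) (I ν)).symm (fun i => (chz j i : ℝ) * (((sgz (Y 0 i) : ℤ) : ℝ) * 1))]
    intro i
    simp [sgz_cast, Equiv.funUnique]
  | succ m ih =>
    intro j
    rw [vec]
    push_cast
    simp_rw [ih]
    rw [← Fintype.sum_equiv (Fin.snocEquiv (fun _ : Fin (m + 2) => I ν))
      (fun p => (chz j p.1 : ℝ) * (((sgz (Y (m+1) p.1) : ℤ) : ℝ) *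
        ((chz p.1 (p.2 (Fin.last m)) : ℝ) * ((∏ a : Fin m, (chz (p.2 a.succ) (p.2 a.castSucc) : ℝ)) *
        ∏ a : Fin (m + 1), sg (Y a (p.2 a))))))]
    · rw [Fintype.sum_prod_type]
      refine Finset.sum_congr rfl fun i' _ => ?_
      rw [Finset.mul_sum, Finset.mul_sum]
    · rintro ⟨i', i⟩
      simp only [Fin.snocEquiv, Equiv.coe_fn_mk]
      have h1 : ∀ a : Fin m, (Fin.snoc i i' : Fin (m + 2) → I ν) a.castSucc.succ = i a.succ := by
        intro a
        rw [Fin.succ_castSucc, Fin.snoc_castSucc]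
      have h2 : ∀ a : Fin (m+1), (Fin.snoc i i' : Fin (m + 2) → I ν) a.castSucc = i a := by
        intro a
        rw [Fin.snoc_castSucc]
      have h3 : (Fin.snoc i i' : Fin (m + 2) → I ν) (Fin.last (m+1)) = i' := by
        rw [Fin.snoc_last]
      have h4 : (Fin.snoc i i' : Fin (m + 2) → I ν) (Fin.last m).succ = i' := by
        rw [Fin.succ_last, Fin.snoc_last]
      have e1 : (∏ a : Fin (m + 1), (chz ((Fin.snoc i i' : Fin (m + 2) → I ν) a.succ)
          ((Fin.snoc i i' : Fin (m + 2) → I ν) a.castSucc) : ℝ)) =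
          (∏ a : Fin m, (chz (i a.succ) (i a.castSucc) : ℝ)) * (chz i' (i (Fin.last m)) : ℝ) := by
        rw [Fin.prod_univ_castSucc]
        simp only [h1, h2, h4]
      have e2 : (∏ a : Fin (m + 2), sg (Y a ((Fin.snoc i i' : Fin (m + 2) → I ν) a))) =
          (∏ a : Fin (m + 1), sg (Y a (i a))) * sg (Y (m + 1) i') := by
        rw [Fin.prod_univ_castSucc]
        simp only [h2, h3, Fin.val_last, Fin.val_castSucc]
      rw [e1, e2, h3, sgz_cast]
      ring

/-! ### the one-block correlation -/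

theorem sum_chz_sq (j : I ν) : ∑ l : I ν, Hm j l ^ 2 = 1 := by
  have h : ∀ l : I ν, Hm j l ^ 2 = 1 / 2 ^ ν := by
    intro l
    unfold Hm
    rw [div_pow, Real.sq_sqrt (by positivity)]
    rcases chz_pm j l with h | h <;> simp [h]
  simp_rw [h]
  simp

theorem Hm_sq_le (j i : I ν) : Hm j i ^ 2 ≤ 1 := by
  rw [← sum_chz_sq j]
  exact Finset.single_le_sum (f := fun l => Hm j l ^ 2) (fun _ _ => sq_nonneg _)
    (Finset.mem_univ i)

theorem chz_mul_Hm (j i : I ν) : (chz j i : ℝ) * Hm j i = 1 / √(2 ^ ν) := by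
  unfold Hm
  rcases chz_pm j i with h | h <;> rw [h] <;> push_cast <;> ring

/-- The coordinate vector. -/
noncomputable def uvec (i : I ν) : GS 0 ν := fun _ => Pi.single i 1

/-- The Walsh vector. -/
noncomputable def wvec (j : I ν) : GS 0 ν := fun _ l => Hm j l

theorem ip_uvec (i : I ν) (g : GS 0 ν) : ip (uvec i) g = g 0 i := by
  simp [ip, uvec, Pi.single_apply]

theorem ip_wvec (j : I ν) (g : GS 0 ν) : ip (wvec j) g = HT (g 0) j := by
  simp [ip, wvec, HT]

theorem qq_zero (g : GS 0 ν) : qq g = ∑ i, g 0 i ^ 2 := by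
  unfold qq
  exact Fin.sum_univ_one _

theorem sq_le_qq_u (i : I ν) (g : GS 0 ν) : (g 0 i) ^ 2 ≤ qq g := by
  rw [qq_zero]
  exact Finset.single_le_sum (f := fun i => g 0 i ^ 2) (fun _ _ => sq_nonneg _)
    (Finset.mem_univ i)

theorem sq_le_qq_w (j : I ν) (g : GS 0 ν) : (HT (g 0) j) ^ 2 ≤ qq g := by
  rw [qq_zero]
  unfold HT
  have := Finset.sum_mul_sq_le_sq_mul_sq Finset.univ (fun l => Hm j l) (fun l => g 0 l)
  rw [sum_chz_sq, one_mul] at this
  exact this

theorem qq_nonneg (g : GS n ν) : 0 ≤ qq g :=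
  Finset.sum_nonneg fun _ _ => Finset.sum_nonneg fun _ _ => sq_nonneg _

theorem continuous_HT (j : I ν) : Continuous fun g : GS 0 ν => HT (g 0) j := by
  unfold HT
  fun_prop

theorem HT_add_smul (g v : GS 0 ν) (t : ℝ) (j : I ν) :
    HT ((g + t • v) 0) j = HT (g 0) j + t * HT (v 0) j := by
  simp only [HT, Pi.add_apply, Pi.smul_apply, smul_eq_mul, mul_add, Finset.sum_add_distrib,
    Finset.mul_sum]
  congr 1
  refine Finset.sum_congr rfl fun i _ => by ring

/-- line derivative of `F(X, Y)`-type functions: `X = g 0 i`, `Y = HT (g 0) j`. -/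
theorem lineDeriv_Yw (i j : I ν) (v g : GS 0 ν) :
    HasLineDerivAt ℝ (fun g : GS 0 ν => HT (g 0) j *
        Real.exp (-((g 0 i) ^ 2 + (HT (g 0) j) ^ 2) / 2))
      (HT (v 0) j * Real.exp (-((g 0 i) ^ 2 + (HT (g 0) j) ^ 2) / 2) -
        HT (g 0) j * ((g 0 i) * v 0 i + HT (g 0) j * HT (v 0) j) *
          Real.exp (-((g 0 i) ^ 2 + (HT (g 0) j) ^ 2) / 2)) g v := by
  unfold HasLineDerivAt
  simp_rw [HT_add_smul]
  simp only [Pi.add_apply, Pi.smul_apply, smul_eq_mul]
  have hX : HasDerivAt (fun t : ℝ => g 0 i + t * v 0 i) (v 0 i) 0 := by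
    simpa using ((hasDerivAt_id (0:ℝ)).mul_const (v 0 i)).const_add (g 0 i)
  have hY : HasDerivAt (fun t : ℝ => HT (g 0) j + t * HT (v 0) j) (HT (v 0) j) 0 := by
    simpa using ((hasDerivAt_id (0:ℝ)).mul_const (HT (v 0) j)).const_add (HT (g 0) j)
  have hE := ((((hX.pow 2).add (hY.pow 2)).neg).div_const 2).exp
  refine HasDerivAt.congr_deriv (hY.mul hE) ?_
  simp only [Pi.neg_apply, Pi.add_apply, Pi.pow_apply, zero_mul, add_zero]
  push_cast
  ring

/-- `w`. -/
noncomputable def ww (i j : I ν) (g : GS 0 ν) : ℝ :=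
  Real.exp (-((g 0 i) ^ 2 + (HT (g 0) j) ^ 2) / 2)

theorem ww_pos (i j : I ν) (g : GS 0 ν) : 0 < ww i j g := Real.exp_pos _

theorem ww_le_one (i j : I ν) (g : GS 0 ν) : ww i j g ≤ 1 := by
  unfold ww
  rw [Real.exp_le_one_iff]
  nlinarith [sq_nonneg (g 0 i), sq_nonneg (HT (g 0) j)]

theorem continuous_ww (i j : I ν) : Continuous (ww i j) := by
  unfold ww
  have := continuous_HT j
  fun_prop

theorem ss_mul_ss (i j : I ν) (g : GS 0 ν) :
    ss (g 0 i) * ss (HT (g 0) j) = 1 / 4 * (g 0 i * (HT (g 0) j * ww i j g)) := by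
  unfold ss ww
  have : Real.exp (-((g 0 i) ^ 2 + (HT (g 0) j) ^ 2) / 2) =
      Real.exp (-(g 0 i) ^ 2 / 2) * Real.exp (-(HT (g 0) j) ^ 2 / 2) := by
    rw [← Real.exp_add]; congr 1; ring
  rw [this]
  ring

theorem integrable_of_qq (Θ : GS 0 ν → ℝ) (hc : Continuous Θ) (C : ℝ)
    (hC : 0 ≤ C) (hb : ∀ g, |Θ g| ≤ C * (1 + qq g)) : Integrable (fun g => gw g * Θ g) := by
  refine gw_integrable Θ hc C fun g => (hb g).trans ?_
  have := qq_nonneg g
  have : 0 ≤ C * (qq g * (1 + qq g)) := by positivity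
  nlinarith

section
variable (i j : I ν) (g : GS 0 ν)

theorem b1 : |HT (g 0) j * ww i j g| ≤ 2 * (1 + qq g) := by
  have h1 := ww_le_one i j g
  have h2 := ww_pos i j g
  have h3 := sq_le_qq_w j g
  rw [abs_mul, abs_of_pos h2]
  have h4 : |HT (g 0) j| ≤ 1 + qq g := by
    have := sq_abs (HT (g 0) j)
    nlinarith [sq_nonneg (|HT (g 0) j| - 1), abs_nonneg (HT (g 0) j)]
  calc |HT (g 0) j| * ww i j g ≤ |HT (g 0) j| * 1 := by gcongr
    _ ≤ _ := by have := qq_nonneg g; linarith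

theorem b2 : |g 0 i * (HT (g 0) j * ww i j g)| ≤ 2 * (1 + qq g) := by
  have h1 := ww_le_one i j g
  have h2 := ww_pos i j g
  have h3 := sq_le_qq_w j g
  have h5 := sq_le_qq_u i g
  have h6 := qq_nonneg g
  rw [abs_mul, abs_mul, abs_of_pos h2, ← mul_assoc]
  calc |g 0 i| * |HT (g 0) j| * ww i j g ≤ |g 0 i| * |HT (g 0) j| * 1 := by gcongr
    _ ≤ _ := by
      have := sq_abs (HT (g 0) j)
      have := sq_abs (g 0 i)
      nlinarith [sq_nonneg (|g 0 i| - |HT (g 0) j|)]

theorem b3 : |HT (g 0) j * (HT (g 0) j * ww i j g)| ≤ 2 * (1 + qq g) := by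
  have h1 := ww_le_one i j g
  have h2 := ww_pos i j g
  have h3 := sq_le_qq_w j g
  have h6 := qq_nonneg g
  rw [abs_mul, abs_mul, abs_of_pos h2, ← mul_assoc]
  calc |HT (g 0) j| * |HT (g 0) j| * ww i j g ≤ |HT (g 0) j| * |HT (g 0) j| * 1 := by gcongr
    _ ≤ _ := by
      have := sq_abs (HT (g 0) j)
      nlinarith

theorem b4 : |ww i j g| ≤ 1 * (1 + qq g) := by
  have h1 := ww_le_one i j g
  have h2 := ww_pos i j g
  have h6 := qq_nonneg g
  rw [abs_of_pos h2]
  linarith

end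

theorem HT_uvec (i j : I ν) : HT ((uvec i) 0) j = Hm j i := by
  simp [HT, uvec, Pi.single_apply]

theorem HT_wvec (j : I ν) : HT ((wvec j) 0) j = 1 := by
  rw [← sum_chz_sq j]
  simp only [HT, wvec]
  refine Finset.sum_congr rfl fun i _ => by ring

/-- `E[w] ≥ e^{-1}` -/
theorem J0_ge (i j : I ν) : 1 / Real.exp 1 ≤ Ex (ww i j) := by
  -- E X^2 = 1, E Y^2 = 1
  have hcY := continuous_HT (ν := ν) j
  have hcX : Continuous fun g : GS 0 ν => g 0 i := by fun_prop
  have hbX : ∀ g : GS 0 ν, |g 0 i| ≤ 1 * (1 + qq g) := by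
    intro g
    have := sq_abs (g 0 i)
    have h3 := sq_le_qq_u i g
    nlinarith [sq_nonneg (|g 0 i| - 1), abs_nonneg (g 0 i)]
  have hbY : ∀ g : GS 0 ν, |HT (g 0) j| ≤ 1 * (1 + qq g) := by
    intro g
    have := sq_abs (HT (g 0) j)
    have h3 := sq_le_qq_w j g
    nlinarith [sq_nonneg (|HT (g 0) j| - 1), abs_nonneg (HT (g 0) j)]
  have hb1 : ∀ g : GS 0 ν, |(1:ℝ)| ≤ 1 * (1 + qq g) := by
    intro g
    have := qq_nonneg g
    rw [abs_one]; linarith
  have EX : Ex (fun g : GS 0 ν => g 0 i * g 0 i) = 1 := by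
    have h := Ex_ibp (uvec i) (fun g : GS 0 ν => g 0 i) (fun _ => 1) hcX continuous_const 1
      hbX hb1 (by
        intro g
        unfold HasLineDerivAt
        have : HasDerivAt (fun t : ℝ => g 0 i + t * (uvec i) 0 i) ((uvec i) 0 i) 0 := by
          simpa using ((hasDerivAt_id (0:ℝ)).mul_const ((uvec i) 0 i)).const_add (g 0 i)
        simpa [uvec] using this)
    rw [Ex_const] at h
    simp_rw [ip_uvec] at h
    exact h
  have EY : Ex (fun g : GS 0 ν => HT (g 0) j * HT (g 0) j) = 1 := by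
    have h := Ex_ibp (wvec j) (fun g : GS 0 ν => HT (g 0) j) (fun _ => 1) hcY continuous_const 1
      hbY hb1 (by
        intro g
        unfold HasLineDerivAt
        simp_rw [HT_add_smul, HT_wvec]
        have : HasDerivAt (fun t : ℝ => HT (g 0) j + t * 1) 1 0 := by
          simpa using ((hasDerivAt_id (0:ℝ)).mul_const (1:ℝ)).const_add (HT (g 0) j)
        exact this)
    rw [Ex_const] at h
    simp_rw [ip_wvec] at h
    exact h
  -- pointwise bound
  have hpt : ∀ g : GS 0 ν, Real.exp (-1) * 2 + (-(Real.exp (-1) / 2)) * (g 0 i * g 0 i) +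
      (-(Real.exp (-1) / 2)) * (HT (g 0) j * HT (g 0) j) ≤ ww i j g := by
    intro g
    unfold ww
    set x : ℝ := ((g 0 i) ^ 2 + (HT (g 0) j) ^ 2) / 2 with hx
    have h1 : -((g 0 i) ^ 2 + (HT (g 0) j) ^ 2) / 2 = -1 + (1 - x) := by rw [hx]; ring
    rw [h1, Real.exp_add]
    have h2 : 2 - x ≤ Real.exp (1 - x) := by
      have := Real.add_one_le_exp (1 - x)
      linarith
    have h3 : Real.exp (-1) * (2 - x) ≤ Real.exp (-1) * Real.exp (1 - x) :=
      mul_le_mul_of_nonneg_left h2 (Real.exp_pos _).le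
    calc _ = Real.exp (-1) * (2 - x) := by rw [hx]; ring
      _ ≤ _ := h3
  have iX : Integrable (fun g : GS 0 ν => gw g * (g 0 i * g 0 i)) := by
    refine integrable_of_qq _ (by fun_prop) 1 (by norm_num) fun g => ?_
    have h3 := sq_le_qq_u i g
    rw [abs_of_nonneg (mul_self_nonneg _)]
    have := qq_nonneg g
    nlinarith
  have iY : Integrable (fun g : GS 0 ν => gw g * (HT (g 0) j * HT (g 0) j)) := by
    refine integrable_of_qq _ (by fun_prop) 1 (by norm_num) fun g => ?_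
    have h3 := sq_le_qq_w j g
    rw [abs_of_nonneg (mul_self_nonneg _)]
    have := qq_nonneg g
    nlinarith
  have iw : Integrable (fun g : GS 0 ν => gw g * ww i j g) :=
    integrable_of_qq _ (continuous_ww i j) 1 (by norm_num) (b4 i j)
  have i1 : Integrable (fun g : GS 0 ν => gw g * (Real.exp (-1) * 2)) := by
    refine integrable_of_qq _ continuous_const |Real.exp (-1) * 2| (abs_nonneg _) fun g => ?_
    have := qq_nonneg g
    have h0 : 0 ≤ |Real.exp (-1) * 2| := abs_nonneg _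
    nlinarith
  have iX' : Integrable (fun g : GS 0 ν => gw g * (-(Real.exp (-1) / 2) * (g 0 i * g 0 i))) := by
    have := iX.const_mul (-(Real.exp (-1) / 2))
    refine this.congr (Filter.Eventually.of_forall fun g => ?_)
    simp only
    ring
  have iY' : Integrable (fun g : GS 0 ν => gw g * (-(Real.exp (-1) / 2) *
      (HT (g 0) j * HT (g 0) j))) := by
    have := iY.const_mul (-(Real.exp (-1) / 2))
    refine this.congr (Filter.Eventually.of_forall fun g => ?_)
    simp only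
    ring
  have i1X : Integrable (fun g : GS 0 ν => gw g * (Real.exp (-1) * 2 +
      (-(Real.exp (-1) / 2)) * (g 0 i * g 0 i))) := by
    refine (i1.add iX').congr (Filter.Eventually.of_forall fun g => ?_)
    simp only [Pi.add_apply]
    ring
  have i1XY : Integrable (fun g : GS 0 ν => gw g * (Real.exp (-1) * 2 +
      (-(Real.exp (-1) / 2)) * (g 0 i * g 0 i) +
      (-(Real.exp (-1) / 2)) * (HT (g 0) j * HT (g 0) j))) := by
    refine (i1X.add iY').congr (Filter.Eventually.of_forall fun g => ?_)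
    simp only [Pi.add_apply]
    ring
  have h := Ex_mono _ _ i1XY iw hpt
  have e1 := Ex_add _ _ i1X iY'
  have e2 := Ex_add _ _ i1 iX'
  rw [e1, e2, Ex_const, Ex_const_mul, Ex_const_mul, EX, EY] at h
  have h4 : 1 / Real.exp 1 = Real.exp (-1) := by rw [Real.exp_neg]; simp
  rw [h4]
  linarith

end GMean

open GMean

variable {n ν : ℕ}

/-- T8f (file S0554_GMean): one correlation. -/
theorem corr_bound (i j : I ν) :
    1 / (16 * Real.exp 1) * (1 / √(2 ^ ν)) ≤
      chz j i * Ex (fun g : GS 0 ν => ss (g 0 i) * ss (HT (g 0) j)) := by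
  set ρ : ℝ := Hm j i with hρ
  set J0 : ℝ := Ex (ww i j) with hJ0
  set B : ℝ := Ex (fun g : GS 0 ν => g 0 i * (HT (g 0) j * ww i j g)) with hB
  set A' : ℝ := Ex (fun g : GS 0 ν => HT (g 0) j * (HT (g 0) j * ww i j g)) with hA'
  have hρ2 : ρ ^ 2 ≤ 1 := Hm_sq_le j i
  have hρabs : |ρ| ≤ 1 := by
    rw [← sq_le_one_iff_abs_le_one]; exact hρ2
  have hcY := continuous_HT (ν := ν) j
  have hcw := continuous_ww (ν := ν) i j
  have iw : Integrable (fun g : GS 0 ν => gw g * ww i j g) :=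
    integrable_of_qq _ (continuous_ww i j) 1 (by norm_num) (b4 i j)
  have iB : Integrable (fun g : GS 0 ν => gw g * (g 0 i * (HT (g 0) j * ww i j g))) :=
    integrable_of_qq _ (by fun_prop) 2 (by norm_num) (b2 i j)
  have iA : Integrable (fun g : GS 0 ν => gw g * (HT (g 0) j * (HT (g 0) j * ww i j g))) :=
    integrable_of_qq _ (by fun_prop) 2 (by norm_num) (b3 i j)
  -- general computation of Ex of c1 w + c2 XYw + c3 YYw
  have hlin : ∀ c₁ c₂ c₃ : ℝ, Ex (fun g : GS 0 ν => c₁ * ww i j g +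
      c₂ * (g 0 i * (HT (g 0) j * ww i j g)) + c₃ * (HT (g 0) j * (HT (g 0) j * ww i j g))) =
      c₁ * J0 + c₂ * B + c₃ * A' := by
    intro c₁ c₂ c₃
    have k1 : Integrable (fun g : GS 0 ν => gw g * (c₁ * ww i j g)) := by
      refine (iw.const_mul c₁).congr (Filter.Eventually.of_forall fun g => ?_)
      simp only
      ring
    have k2 : Integrable (fun g : GS 0 ν => gw g * (c₂ * (g 0 i * (HT (g 0) j * ww i j g)))) := by
      refine (iB.const_mul c₂).congr (Filter.Eventually.of_forall fun g => ?_)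
      simp only
      ring
    have k3 : Integrable (fun g : GS 0 ν => gw g *
        (c₃ * (HT (g 0) j * (HT (g 0) j * ww i j g)))) := by
      refine (iA.const_mul c₃).congr (Filter.Eventually.of_forall fun g => ?_)
      simp only
      ring
    have k12 : Integrable (fun g : GS 0 ν => gw g * (c₁ * ww i j g +
        c₂ * (g 0 i * (HT (g 0) j * ww i j g)))) := by
      refine (k1.add k2).congr (Filter.Eventually.of_forall fun g => ?_)
      simp only [Pi.add_apply]
      ring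
    rw [Ex_add _ _ k12 k3, Ex_add _ _ k1 k2, Ex_const_mul, Ex_const_mul, Ex_const_mul]
  have hbound : ∀ (a b : ℝ), |a| ≤ 1 → |b| ≤ 1 → ∀ g : GS 0 ν,
      |b * ww i j g - HT (g 0) j * (g 0 i * a + HT (g 0) j * b) * ww i j g| ≤
        5 * (1 + qq g) := by
    intro a b ha hb g
    have e : b * ww i j g - HT (g 0) j * (g 0 i * a + HT (g 0) j * b) * ww i j g =
      b * ww i j g + (-a) * (g 0 i * (HT (g 0) j * ww i j g)) +
        (-b) * (HT (g 0) j * (HT (g 0) j * ww i j g)) := by ring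
    rw [e]
    have t1 : |b * ww i j g| ≤ 1 * (1 * (1 + qq g)) := by
      rw [abs_mul]
      exact mul_le_mul hb (b4 i j g) (abs_nonneg _) (by norm_num)
    have t2 : |(-a) * (g 0 i * (HT (g 0) j * ww i j g))| ≤ 1 * (2 * (1 + qq g)) := by
      rw [abs_mul, abs_neg]
      exact mul_le_mul ha (b2 i j g) (abs_nonneg _) (by norm_num)
    have t3 : |(-b) * (HT (g 0) j * (HT (g 0) j * ww i j g))| ≤ 1 * (2 * (1 + qq g)) := by
      rw [abs_mul, abs_neg]
      exact mul_le_mul hb (b3 i j g) (abs_nonneg _) (by norm_num)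
    have := abs_add_three (b * ww i j g) ((-a) * (g 0 i * (HT (g 0) j * ww i j g)))
      ((-b) * (HT (g 0) j * (HT (g 0) j * ww i j g)))
    linarith
  have hb1 : ∀ g : GS 0 ν, |HT (g 0) j * ww i j g| ≤ 5 * (1 + qq g) := by
    intro g
    have := b1 i j g
    have := qq_nonneg g
    linarith
  -- first relation
  have R1 : B = ρ * J0 - B - ρ * A' := by
    have h := Ex_ibp (uvec i) (fun g : GS 0 ν => HT (g 0) j * ww i j g)
      (fun g => HT ((uvec i) 0) j * ww i j g -
        HT (g 0) j * ((g 0 i) * (uvec i) 0 i + HT (g 0) j * HT ((uvec i) 0) j) * ww i j g)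
      (by fun_prop) (by fun_prop) 5 hb1
      (hbound _ _ (by simp [uvec]) (by rw [HT_uvec]; exact hρabs))
      (fun g => lineDeriv_Yw i j (uvec i) g)
    simp_rw [ip_uvec, HT_uvec] at h
    have e : (fun g : GS 0 ν => Hm j i * ww i j g -
        HT (g 0) j * ((g 0 i) * (uvec i) 0 i + HT (g 0) j * Hm j i) * ww i j g) =
        (fun g : GS 0 ν => ρ * ww i j g +
      (-1) * (g 0 i * (HT (g 0) j * ww i j g)) + (-ρ) * (HT (g 0) j * (HT (g 0) j * ww i j g))) := by
      funext g
      have : (uvec i : GS 0 ν) 0 i = 1 := by simp [uvec]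
      rw [this, hρ]
      ring
    rw [e, hlin] at h
    rw [← hB] at h
    linarith
  have R2 : A' = J0 - ρ * B - A' := by
    have h := Ex_ibp (wvec j) (fun g : GS 0 ν => HT (g 0) j * ww i j g)
      (fun g => HT ((wvec j) 0) j * ww i j g -
        HT (g 0) j * ((g 0 i) * (wvec j) 0 i + HT (g 0) j * HT ((wvec j) 0) j) * ww i j g)
      (by fun_prop) (by fun_prop) 5 hb1
      (hbound _ _ hρabs (by rw [HT_wvec]; simp))
      (fun g => lineDeriv_Yw i j (wvec j) g)
    simp_rw [ip_wvec, HT_wvec] at h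
    have e : (fun g : GS 0 ν => 1 * ww i j g -
        HT (g 0) j * ((g 0 i) * (wvec j) 0 i + HT (g 0) j * 1) * ww i j g) =
        (fun g : GS 0 ν => 1 * ww i j g +
      (-ρ) * (g 0 i * (HT (g 0) j * ww i j g)) + (-1) * (HT (g 0) j * (HT (g 0) j * ww i j g))) := by
      funext g
      have : (wvec j : GS 0 ν) 0 i = ρ := rfl
      rw [this]
      ring
    rw [e, hlin] at h
    rw [← hA'] at h
    linarith
  have hBval : B * (4 - ρ ^ 2) = ρ * J0 := by
    have hA2 : A' = (J0 - ρ * B) / 2 := by linarith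
    rw [hA2] at R1
    nlinarith
  have hJ := J0_ge (ν := ν) i j
  rw [← hJ0] at hJ
  have h4 : (0:ℝ) < 4 - ρ ^ 2 := by linarith
  have hBeq : B = ρ * J0 / (4 - ρ ^ 2) := by
    rw [eq_div_iff h4.ne']; exact hBval
  have hE : Ex (fun g : GS 0 ν => ss (g 0 i) * ss (HT (g 0) j)) = 1 / 4 * B := by
    simp_rw [ss_mul_ss]
    rw [Ex_const_mul]
  rw [hE, hBeq]
  have hs : (0:ℝ) < 1 / √(2 ^ ν) := by positivity
  have e : (chz j i : ℝ) * (1 / 4 * (ρ * J0 / (4 - ρ ^ 2))) =
      (1 / √(2 ^ ν)) * (J0 / (4 * (4 - ρ ^ 2))) := by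
    rw [← chz_mul_Hm j i, ← hρ]
    field_simp
  rw [e]
  have hexp : (0:ℝ) < Real.exp 1 := Real.exp_pos 1
  have hfin : 1 / (16 * Real.exp 1) ≤ J0 / (4 * (4 - ρ ^ 2)) := by
    have hJpos : 0 < J0 := lt_of_lt_of_le (by positivity) hJ
    calc 1 / (16 * Real.exp 1) = (1 / Real.exp 1) / 16 := by field_simp
      _ ≤ J0 / 16 := by gcongr
      _ ≤ J0 / (4 * (4 - ρ ^ 2)) := by
        apply div_le_div_of_nonneg_left hJpos.le (by positivity)
        nlinarith [sq_nonneg ρ]
  calc 1 / (16 * Real.exp 1) * (1 / √(2 ^ ν)) = (1 / √(2 ^ ν)) * (1 / (16 * Real.exp 1)) := by ring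
    _ ≤ _ := mul_le_mul_of_nonneg_left hfin hs.le

/-- T8f (file S0554_GMean): the mean. -/
theorem mean_bound :
    (1 / (16 * Real.exp 1)) ^ (n + 1) * √(2 ^ ν) ^ (n + 3) ≤
      Ex (fun g : GS n ν => ∑ i : Fin (n + 2) → I ν,
        (∏ a : Fin (n + 1), (chz (i a.succ) (i a.castSucc) : ℝ)) *
          ∏ a : Fin (n + 2), (uu g a (i a) * vv g a (i a))) := by
  -- rewrite the product
  have hprod : ∀ (g : GS n ν) (i : Fin (n + 2) → I ν),
      (∏ a : Fin (n + 1), (chz (i a.succ) (i a.castSucc) : ℝ)) *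
          ∏ a : Fin (n + 2), (uu g a (i a) * vv g a (i a)) =
      ∏ a : Fin (n + 1), (fun (a : Fin (n + 1)) (h : I ν → ℝ) =>
        (chz (i a.succ) (i a.castSucc) : ℝ) * (ss (h (i a.castSucc)) * ss (HT h (i a.succ))))
          a (g a) := by
    intro g i
    rw [Finset.prod_mul_distrib, Fin.prod_univ_succ (fun a => uu g a (i a)),
      Fin.prod_univ_castSucc (fun a => vv g a (i a))]
    simp only [uu_zero, uu_succ, vv_last, vv_castSucc, one_mul, mul_one]
    rw [← Finset.prod_mul_distrib, ← Finset.prod_mul_distrib]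
    refine Finset.prod_congr rfl fun a _ => by ring
  have hcss : Continuous ss := continuous_ss
  have hint : ∀ i : Fin (n + 2) → I ν, Integrable (fun g : GS n ν => gw g *
      ∏ a : Fin (n + 1), (fun (a : Fin (n + 1)) (h : I ν → ℝ) =>
        (chz (i a.succ) (i a.castSucc) : ℝ) * (ss (h (i a.castSucc)) * ss (HT h (i a.succ))))
          a (g a)) := by
    intro i
    refine gw_integrable _ ?_ 1 ?_
    · simp only
      refine continuous_finsetProd _ fun a _ => ?_
      refine continuous_const.mul ((hcss.comp (by fun_prop)).mul (hcss.comp ?_))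
      unfold HT
      fun_prop
    · intro g
      simp only
      rw [Finset.abs_prod]
      have : ∏ a : Fin (n + 1), |(chz (i a.succ) (i a.castSucc) : ℝ) *
          (ss (g a (i a.castSucc)) * ss (HT (g a) (i a.succ)))| ≤ 1 := by
        apply Finset.prod_le_one
        · intro a _; exact abs_nonneg _
        · intro a _
          have h1 : |(chz (i a.succ) (i a.castSucc) : ℝ)| = 1 := by
            rcases chz_pm (i a.succ) (i a.castSucc) with h | h <;> simp [h]
          rw [abs_mul, h1, one_mul, abs_mul]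
          have h2 := abs_ss_le (g a (i a.castSucc))
          have h3 := abs_ss_le (HT (g a) (i a.succ))
          nlinarith [abs_nonneg (ss (g a (i a.castSucc))), abs_nonneg (ss (HT (g a) (i a.succ)))]
      have hq := qq_nonneg g
      nlinarith
  simp_rw [hprod]
  rw [Ex_sum _ _ (fun i _ => hint i)]
  have hterm : ∀ i : Fin (n + 2) → I ν,
      (1 / (16 * Real.exp 1) * (1 / √(2 ^ ν))) ^ (n + 1) ≤
      Ex (fun g : GS n ν => ∏ a : Fin (n + 1), (fun (a : Fin (n + 1)) (h : I ν → ℝ) =>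
        (chz (i a.succ) (i a.castSucc) : ℝ) * (ss (h (i a.castSucc)) * ss (HT h (i a.succ))))
          a (g a)) := by
    intro i
    rw [Ex_prod_blocks (fun (a : Fin (n + 1)) (h : I ν → ℝ) =>
        (chz (i a.succ) (i a.castSucc) : ℝ) * (ss (h (i a.castSucc)) * ss (HT h (i a.succ))))]
    have hp : ∏ _a : Fin (n + 1), (1 / (16 * Real.exp 1) * (1 / √(2 ^ ν))) =
      (1 / (16 * Real.exp 1) * (1 / √(2 ^ ν))) ^ (n + 1) := by simp
    rw [← hp]
    apply Finset.prod_le_prod
    · intro a _; positivity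
    · intro a _
      rw [Ex_const_mul]
      exact corr_bound (i a.castSucc) (i a.succ)
  have hsum : ∑ _i : Fin (n + 2) → I ν, (1 / (16 * Real.exp 1) * (1 / √(2 ^ ν))) ^ (n + 1) =
      (1 / (16 * Real.exp 1)) ^ (n + 1) * √(2 ^ ν) ^ (n + 3) := by
    rw [Finset.sum_const, Finset.card_univ]
    simp only [Fintype.card_pi, Fintype.card_bool, Finset.prod_const, Finset.card_univ,
      Fintype.card_fin, nsmul_eq_mul]
    push_cast
    have hs : (0:ℝ) < √(2 ^ ν) := by positivity
    have hsq : ((2:ℝ) ^ ν) = √(2 ^ ν) ^ 2 := (Real.sq_sqrt (by positivity)).symm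
    have : ((2:ℝ) ^ ν) ^ (n + 2) = √(2 ^ ν) ^ (n + 3) * √(2 ^ ν) ^ (n + 1) := by
      conv_lhs => rw [hsq]
      rw [← pow_mul, ← pow_add]
      congr 1
      ring
    rw [this, mul_pow]
    have h1 : √(2 ^ ν) ^ (n + 1) * (1 / √((2:ℝ) ^ ν)) ^ (n + 1) = 1 := by
      rw [← mul_pow, mul_one_div_cancel hs.ne', one_pow]
    calc √(2 ^ ν) ^ (n + 3) * √(2 ^ ν) ^ (n + 1) *
          ((1 / (16 * Real.exp 1)) ^ (n + 1) * (1 / √((2:ℝ) ^ ν)) ^ (n + 1))
        = (1 / (16 * Real.exp 1)) ^ (n + 1) * √(2 ^ ν) ^ (n + 3) *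
          (√(2 ^ ν) ^ (n + 1) * (1 / √((2:ℝ) ^ ν)) ^ (n + 1)) := by ring
      _ = _ := by rw [h1, mul_one]
  rw [← hsum]
  exact Finset.sum_le_sum fun i _ => hterm i

/-- T8f (file S0554_GMean): `vec` as a sum over paths. -/
theorem vec_paths (Y : ℕ → I ν → Bool) :
    (vec Y (n + 2) (fun _ => false) : ℝ) = ∑ i : Fin (n + 2) → I ν,
      (∏ a : Fin (n + 1), (chz (i a.succ) (i a.castSucc) : ℝ)) *
        ∏ a : Fin (n + 2), sg (Y a (i a)) := by
  rw [vec_paths_aux Y (n + 1) (fun _ => false)]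
  refine Finset.sum_congr rfl fun i _ => ?_
  rw [chz_false']
  simp

end Crest.Agent.S0554
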