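import Crest.Agent.S0554_GDeriv
import Crest.Agent.S0554_Prep

/-!
S0554 T8d: with block `0` switched off the law averages to uniform.
-/

set_option autoImplicit false

namespace Crest.Agent.S0554

open MeasureTheory

namespace GZero

variable {n ν : ℕ}

theorem Hm_orth (i i' : I ν) : ∑ l, Hm i l * Hm i' l = if i = i' then 1 else 0 := by
  have h := Prep.chz_orth i i'
  have h2 : ∑ l, Hm i l * Hm i' l = ((∑ l : I ν, chz i l * chz i' l : ℤ) : ℝ) / 2 ^ ν := by
    push_cast
    rw [Finset.sum_div]
    refine Finset.sum_congr rfl fun l _ => ?_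
    unfold Hm
    have h3 : √((2:ℝ) ^ ν) * √((2:ℝ) ^ ν) = 2 ^ ν := Real.mul_self_sqrt (by positivity)
    rw [div_mul_div_comm, h3]
  rw [h2, h]
  split_ifs
  · push_cast
    exact div_self (by positivity)
  · simp

/-- the unit vector reading `(H g_a)_i` -/
noncomputable def vec1 (a : Fin (n + 1)) (i : I ν) : GS n ν := Pi.single a (fun l => Hm i l)

theorem ip_vec1 (a : Fin (n + 1)) (i : I ν) (g : GS n ν) : ip (vec1 a i) g = HT (g a) i := by
  unfold ip HT vec1
  rw [Finset.sum_eq_single a]
  · simp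
  · intro b _ hb
    simp [Pi.single_eq_of_ne hb]
  · simp

theorem ip_vec1_self (a : Fin (n + 1)) (i : I ν) : ip (vec1 a i) (vec1 a i : GS n ν) = 1 := by
  rw [ip_vec1]
  unfold HT vec1
  simp [Hm_orth]

theorem HT_row (i i' : I ν) : HT (fun l => Hm i l) i' = if i' = i then 1 else 0 := by
  unfold HT
  exact Hm_orth i' i

theorem continuous_HT (i : I ν) (a : Fin (n + 1)) : Continuous fun g : GS n ν => HT (g a) i := by
  unfold HT
  fun_prop

theorem continuous_uu (b : Fin (n + 2)) (i : I ν) : Continuous fun g : GS n ν => uu g b i := by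
  refine Fin.cases ?_ (fun a => ?_) b
  · simp only [uu_zero]
    exact continuous_const
  · simp only [uu_succ]
    exact continuous_ss.comp (continuous_HT i a)

theorem continuous_vv (b : Fin (n + 2)) (i : I ν) : Continuous fun g : GS n ν => vv g b i := by
  refine Fin.lastCases ?_ (fun a => ?_) b
  · simp only [vv_last]
    exact continuous_const
  · simp only [vv_castSucc]
    have : Continuous fun g : GS n ν => g a i := by fun_prop
    exact continuous_ss.comp this

theorem continuous_FT (τ : Fin (n + 2) → ℝ) : Continuous fun g : GS n ν => FT τ g := by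
  refine continuous_pi fun p => ?_
  unfold FT
  exact continuous_const.mul ((continuous_uu _ _).mul (continuous_vv _ _))

theorem abs_uu_le (g : GS n ν) (b : Fin (n + 2)) (i : I ν) : |uu g b i| ≤ 1 := by
  refine Fin.cases ?_ (fun a => ?_) b
  · simp
  · simp only [uu_succ]
    exact (abs_ss_le _).trans (by norm_num)

theorem abs_vv_le (g : GS n ν) (b : Fin (n + 2)) (i : I ν) : |vv g b i| ≤ 1 := by
  refine Fin.lastCases ?_ (fun a => ?_) b
  · simp
  · simp only [vv_castSucc]
    exact (abs_ss_le _).trans (by norm_num)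

theorem abs_FT_le (τ : Fin (n + 2) → ℝ) (R : ℝ) (hR : ∀ b, |τ b| ≤ R) (g : GS n ν)
    (p : Fin (n + 2) × I ν) : |FT τ g p| ≤ R := by
  unfold FT
  rw [abs_mul, abs_mul]
  have h1 := hR p.1
  have h2 := abs_uu_le g p.1 p.2
  have h3 := abs_vv_le g p.1 p.2
  have h4 : |uu g p.1 p.2| * |vv g p.1 p.2| ≤ 1 := by
    calc _ ≤ 1 * 1 := mul_le_mul h2 h3 (abs_nonneg _) zero_le_one
      _ = 1 := by norm_num
  calc _ ≤ |τ p.1| * 1 := mul_le_mul_of_nonneg_left h4 (abs_nonneg _)
    _ ≤ R := by rw [mul_one]; exact h1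

/-- moving block `a` does not change the outgoing factor of block `a + 1` -/
theorem vv_add_single (g : GS n ν) (a : Fin (n + 1)) (v : I ν → ℝ) (i : I ν) :
    vv (g + Pi.single a v) a.succ i = vv g a.succ i := by
  rcases Fin.eq_castSucc_or_eq_last a.succ with ⟨c, hc⟩ | hl
  · rw [hc, vv_castSucc, vv_castSucc]
    have hne : c ≠ a := by
      intro h
      subst h
      have := congrArg Fin.val hc
      simp at this
    simp [Pi.single_eq_of_ne hne]
  · rw [hl, vv_last, vv_last]

theorem line_deriv (φ : ((Fin (n + 2) × I ν) → Bool) → ℝ) (τ : Fin (n + 2) → ℝ)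
    (a : Fin (n + 1)) (h : τ a.castSucc = 0) (i : I ν) (g : GS n ν) :
    HasLineDerivAt ℝ (fun g => vv g a.succ i * dext φ {(a.succ, i)} (FT τ g)) 0 g
      (vec1 a i) := by
  have h1 := hasLineDerivAt_dext_FT φ τ {(a.succ, i)} a (fun l => Hm i l) g
  have h2 : ((∑ j, if (a.succ, j) ∈ ({(a.succ, i)} : Finset (Fin (n + 2) × I ν)) then 0 else
      τ a.succ * HT (fun l => Hm i l) j * sd (HT (g a) j) * vv g a.succ j *
          dext φ (insert (a.succ, j) {(a.succ, i)}) (FT τ g)) +
        ∑ j, if (a.castSucc, j) ∈ ({(a.succ, i)} : Finset (Fin (n + 2) × I ν)) then 0 else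
          τ a.castSucc * uu g a.castSucc j * (fun l => Hm i l) j *
          sd (g a j) * dext φ (insert (a.castSucc, j) {(a.succ, i)}) (FT τ g)) = 0 := by
    rw [Finset.sum_eq_zero, Finset.sum_eq_zero, add_zero]
    · intro j _
      simp [h]
    · intro j _
      by_cases hj : j = i
      · simp [hj]
      · simp [HT_row, hj]
  rw [h2] at h1
  unfold HasLineDerivAt at h1
  have h3 := h1.const_mul (vv g a.succ i)
  rw [mul_zero] at h3
  unfold HasLineDerivAt
  refine h3.congr_of_eventuallyEq (Filter.Eventually.of_forall fun t => ?_)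
  show vv (g + t • vec1 a i) a.succ i * _ = vv g a.succ i * _
  have h4 : t • (vec1 a i : GS n ν) = Pi.single a (t • fun l => Hm i l) := by
    unfold vec1
    rw [Pi.single_smul]
  have h5 : vv (g + t • vec1 a i) a.succ i = vv g a.succ i := by
    rw [h4, vv_add_single]
  rw [h5]
  rfl

theorem term_zero (φ : ((Fin (n + 2) × I ν) → Bool) → ℝ) (τ : Fin (n + 2) → ℝ)
    (a : Fin (n + 1)) (h : τ a.castSucc = 0) (i : I ν) :
    Ex (fun g : GS n ν => uu g a.succ i * vv g a.succ i * dext φ {(a.succ, i)} (FT τ g)) = 0 := by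
  obtain ⟨R, hR⟩ : ∃ R, ∀ b, |τ b| ≤ R :=
    ⟨∑ b, |τ b|, fun b => Finset.single_le_sum (f := fun b => |τ b|)
      (fun _ _ => abs_nonneg _) (Finset.mem_univ b)⟩
  obtain ⟨C, hC0, hC⟩ := dext_bound φ R
  have hEq : (fun g : GS n ν => uu g a.succ i * vv g a.succ i *
      dext φ {(a.succ, i)} (FT τ g)) =
      fun g => ss (ip (vec1 a i) g) * (vv g a.succ i * dext φ {(a.succ, i)} (FT τ g)) := by
    funext g
    rw [ip_vec1, uu_succ, mul_assoc]
  rw [hEq]
  have key := Ex_ss (vec1 a i) (ip_vec1_self a i)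
    (fun g : GS n ν => vv g a.succ i * dext φ {(a.succ, i)} (FT τ g)) (fun _ => 0)
    ((continuous_vv _ _).mul ((dext_continuous φ _).comp (continuous_FT τ))) continuous_const
    C ?_ ?_ ?_
  · rw [key]
    simp [Ex]
  · intro g
    rw [abs_mul]
    calc _ ≤ 1 * C := mul_le_mul (abs_vv_le _ _ _) (hC _ _ fun p => abs_FT_le τ R hR g p)
            (abs_nonneg _) zero_le_one
      _ = C := one_mul C
  · intro g
    simpa using hC0
  · intro g
    exact line_deriv φ τ a h i g

/-- switching off the block after a switched-off block -/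
theorem step (φ : ((Fin (n + 2) × I ν) → Bool) → ℝ) (τ : Fin (n + 2) → ℝ)
    (a : Fin (n + 1)) (h : τ a.castSucc = 0) :
    Ex (fun g : GS n ν => dext φ ∅ (FT τ g)) =
      Ex (fun g : GS n ν => dext φ ∅ (FT (Function.update τ a.succ 0) g)) := by
  have hne : a.castSucc ≠ a.succ := by
    intro h'
    have := congrArg Fin.val h'
    simp at this
  have hd : ∀ t : ℝ, HasDerivAt
      (fun t => Ex (fun g : GS n ν => dext φ ∅ (FT (Function.update τ a.succ t) g))) 0 t := by
    intro t
    have h1 := hasDerivAt_Ex_FT (n := n) (ν := ν) φ τ a.succ t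
    have h2 : (∑ i, Ex (fun g : GS n ν => uu g a.succ i * vv g a.succ i *
        dext φ {(a.succ, i)} (FT (Function.update τ a.succ t) g))) = 0 := by
      refine Finset.sum_eq_zero fun i _ => term_zero φ _ a ?_ i
      rw [Function.update_of_ne hne, h]
    rwa [h2] at h1
  have hconst := is_const_of_deriv_eq_zero (fun t => (hd t).differentiableAt)
    (fun t => (hd t).deriv) (τ a.succ) 0
  simpa using hconst

theorem steps (φ : ((Fin (n + 2) × I ν) → Bool) → ℝ) (τ : Fin (n + 2) → ℝ) (h : τ 0 = 0)
    (k : ℕ) (hk : k ≤ n + 1) :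
    Ex (fun g : GS n ν => dext φ ∅ (FT τ g)) =
      Ex (fun g : GS n ν => dext φ ∅ (FT (fun b => if b.val ≤ k then 0 else τ b) g)) := by
  induction k with
  | zero =>
    have : (fun b : Fin (n + 2) => if b.val ≤ 0 then 0 else τ b) = τ := by
      funext b
      split_ifs with hb
      · have : b = 0 := Fin.ext (by simpa using hb)
        rw [this, h]
      · rfl
    rw [this]
  | succ k ih =>
    rw [ih (by omega)]
    have hk' : k < n + 1 := by omega
    rw [step φ _ ⟨k, hk'⟩ (by simp)]
    congr 1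
    funext g
    congr 2
    funext b
    by_cases hb : b = (⟨k, hk'⟩ : Fin (n + 1)).succ
    · subst hb
      simp
    · rw [Function.update_of_ne hb]
      have hb' : b.val ≠ k + 1 := by
        intro h'
        exact hb (Fin.ext (by simpa using h'))
      by_cases hle : b.val ≤ k
      · rw [if_pos hle, if_pos (by omega)]
      · rw [if_neg hle, if_neg (by omega)]

end GZero

/-- T8d (file S0554_GZero): with block `0` switched off the law averages to uniform. -/
theorem Ex_FT_zero {n ν : ℕ} (φ : ((Fin (n + 2) × I ν) → Bool) → ℝ) (τ : Fin (n + 2) → ℝ)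
    (h : τ 0 = 0)
    (hτ : ∀ a, |τ a| ≤ 1) : Ex (fun g => dext φ ∅ (FT τ g)) = avg φ := by
  rw [GZero.steps φ τ h (n + 1) le_rfl]
  have h1 : (fun b : Fin (n + 2) => if b.val ≤ n + 1 then 0 else τ b) = fun _ => 0 := by
    funext b
    rw [if_pos (by have := b.isLt; omega)]
  rw [h1]
  have h2 : ∀ g : GS n ν, FT (fun _ => 0) g = 0 := by
    intro g
    funext p
    simp [FT]
  simp only [h2]
  rw [Ex_const, dext_zero]

end Crest.Agent.S0554
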