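import Crest.Agent.S0554_GChain
import Crest.Agent.S0554_GZero
import Crest.Agent.S0554_GMean

/-!
S0554, T8: the forrelated distribution.
-/

set_option autoImplicit false

namespace Crest.Agent.S0554

open MeasureTheory

theorem exists_forr_dist_aux (n ν : ℕ) (hint : ∀ (Θ : GS n ν → ℝ), Continuous Θ → ∀ C : ℝ,
      (∀ g, |Θ g| ≤ C) → Integrable (fun g => gw g * Θ g))
    (hFTc : ∀ τ : Fin (n + 2) → ℝ, Continuous fun g : GS n ν => FT τ g)
    (hFTb : ∀ τ : Fin (n + 2) → ℝ, (∀ a, |τ a| ≤ 1) → ∀ (g : GS n ν) (p : Fin (n + 2) × I ν),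
      |FT τ g p| ≤ 1 / 2) :
    ∃ D : ((Fin (n + 2) × I ν) → Bool) → ℝ, (∀ f, 0 ≤ D f) ∧ ∑ f, D f = 1 ∧
      (∀ (φ : ((Fin (n + 2) × I ν) → Bool) → ℝ) (L : ℝ),
        (∀ z : Fin (n + 2) × I ν → ℝ, (∀ i, |z i| ≤ 1 / 2) →
          ∑ i : Fin (n + 2) → I ν, |dext φ (Finset.univ.image fun a => (a, i a)) z| ≤ L) →
        |∑ f, D f * φ f - avg φ| ≤ (1 / 8) ^ (n + 1) * (1 / √(2 ^ ν)) ^ (n + 1) * L) ∧
      (1 / (16 * Real.exp 1)) ^ (n + 1) * √(2 ^ ν) ^ (n + 3) ≤
        ∑ f, D f * (vec (fun a i => if h : a < n + 2 then f (⟨a, h⟩, i) else false) (n + 2)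
          (fun _ => false) : ℝ) := by
  set one : Fin (n + 2) → ℝ := fun _ => 1 with hone
  have hone' : ∀ a, |one a| ≤ 1 := by intro a; simp [hone]
  set D : ((Fin (n + 2) × I ν) → Bool) → ℝ := fun f =>
    Ex (fun g : GS n ν => ∏ p, (1 + sg (f p) * FT one g p) / 2) with hD
  have hsg : ∀ b, |sg b| = 1 := by intro b; cases b <;> simp [sg]
  have hfac : ∀ (f : (Fin (n + 2) × I ν) → Bool) (g : GS n ν) (p : Fin (n + 2) × I ν),
      0 ≤ (1 + sg (f p) * FT one g p) / 2 ∧ (1 + sg (f p) * FT one g p) / 2 ≤ 1 := by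
    intro f g p
    have h1 := hFTb one hone' g p
    have h2 : |sg (f p) * FT one g p| ≤ 1 / 2 := by rw [abs_mul, hsg, one_mul]; exact h1
    have h3 := abs_le.mp h2
    constructor <;> linarith [h3.1, h3.2]
  have hprod0 : ∀ (f : (Fin (n + 2) × I ν) → Bool) (g : GS n ν),
      0 ≤ ∏ p, (1 + sg (f p) * FT one g p) / 2 := fun f g =>
    Finset.prod_nonneg fun p _ => (hfac f g p).1
  have hprod1 : ∀ (f : (Fin (n + 2) × I ν) → Bool) (g : GS n ν),
      ∏ p, (1 + sg (f p) * FT one g p) / 2 ≤ 1 := fun f g =>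
    Finset.prod_le_one (fun p _ => (hfac f g p).1) fun p _ => (hfac f g p).2
  have hprodc : ∀ (f : (Fin (n + 2) × I ν) → Bool),
      Continuous fun g : GS n ν => ∏ p, (1 + sg (f p) * FT one g p) / 2 := by
    intro f
    refine continuous_finsetProd _ fun p _ => ?_
    have := (continuous_apply p).comp (hFTc one)
    exact ((continuous_const.add (continuous_const.mul this))).div_const 2
  have hprodi : ∀ (f : (Fin (n + 2) × I ν) → Bool),
      Integrable fun g : GS n ν => gw g * ∏ p, (1 + sg (f p) * FT one g p) / 2 := by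
    intro f
    refine hint _ (hprodc f) 1 fun g => ?_
    rw [abs_of_nonneg (hprod0 f g)]
    exact hprod1 f g
  have hsum : ∀ φ : ((Fin (n + 2) × I ν) → Bool) → ℝ,
      ∑ f, D f * φ f = Ex (fun g : GS n ν => dext φ ∅ (FT one g)) := by
    intro φ
    have h1 : (fun g : GS n ν => dext φ ∅ (FT one g)) = fun g : GS n ν =>
        ∑ f, φ f * ∏ p, (1 + sg (f p) * FT one g p) / 2 := by
      funext g
      simp [dext]
    rw [h1, Ex_sum]
    · refine Finset.sum_congr rfl fun f _ => ?_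
      rw [Ex_const_mul, mul_comm]
    · intro f _
      refine hint _ (continuous_const.mul (hprodc f)) |φ f| fun g => ?_
      rw [abs_mul, abs_of_nonneg (hprod0 f g)]
      exact mul_le_of_le_one_right (abs_nonneg _) (hprod1 f g)
  refine ⟨D, ?_, ?_, ?_, ?_⟩
  · intro f
    have h0 : Ex (fun _ : GS n ν => (0 : ℝ)) = 0 := Ex_const 0
    rw [hD, ← h0]
    refine Ex_mono _ _ ?_ (hprodi f) fun g => hprod0 f g
    simp
  · have := hsum fun _ => 1
    simp only [mul_one] at this
    rw [this]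
    have h1 : (fun g : GS n ν => dext (fun _ => (1 : ℝ)) ∅ (FT one g)) = fun _ => 1 := by
      funext g
      have := dext_weights (FT one g)
      simpa [dext] using this
    rw [h1, Ex_const]
  · intro φ L hL
    rw [hsum φ]
    set E : ℝ → ℝ := fun t => Ex (fun g : GS n ν =>
      dext φ ∅ (FT (Function.update one 0 t) g)) with hE
    have hE1 : Ex (fun g : GS n ν => dext φ ∅ (FT one g)) = E 1 := by
      simp only [hE]
      congr 1
      funext g
      congr 2
      exact (Function.update_eq_self (0 : Fin (n + 2)) one).symm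
    have hE0 : avg φ = E 0 := by
      simp only [hE]
      refine (Ex_FT_zero φ _ (by simp) fun a => ?_).symm
      by_cases h : a = 0
      · rw [h]; simp
      · rw [Function.update_of_ne h]; exact hone' a
    rw [hE1, hE0]
    have hder : ∀ t ∈ Set.Icc (0 : ℝ) 1, HasDerivWithinAt E
        (∑ i, Ex (fun g : GS n ν => uu g 0 i * vv g 0 i *
          dext φ {(0, i)} (FT (Function.update one 0 t) g))) (Set.Icc 0 1) t := by
      intro t _
      exact (hasDerivAt_Ex_FT φ one 0 t).hasDerivWithinAt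
    have hbd : ∀ t ∈ Set.Icc (0 : ℝ) 1, ‖∑ i, Ex (fun g : GS n ν => uu g 0 i * vv g 0 i *
          dext φ {(0, i)} (FT (Function.update one 0 t) g))‖ ≤
        (1 / 8) ^ (n + 1) * (1 / √(2 ^ ν)) ^ (n + 1) * L := by
      intro t ht
      rw [Real.norm_eq_abs]
      refine chain_bound φ L hL _ (fun a ha => ?_) ?_
      · rw [Function.update_of_ne ha]
      · simp only [Function.update_self]
        rw [abs_of_nonneg ht.1]
        exact ht.2
    have := Convex.norm_image_sub_le_of_norm_hasDerivWithin_le hder hbd (convex_Icc 0 1)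
      (Set.left_mem_Icc.mpr zero_le_one) (Set.right_mem_Icc.mpr zero_le_one)
    simpa using this
  · have h1 : ∀ f : (Fin (n + 2) × I ν) → Bool,
        (vec (fun a i => if h : a < n + 2 then f (⟨a, h⟩, i) else false) (n + 2)
          (fun _ => false) : ℝ) = ∑ i : Fin (n + 2) → I ν,
            (∏ a : Fin (n + 1), (chz (i a.succ) (i a.castSucc) : ℝ)) *
              ∏ a : Fin (n + 2), sg (f (a, i a)) := by
      intro f
      rw [vec_paths]
      refine Finset.sum_congr rfl fun i _ => ?_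
      congr 1
      refine Finset.prod_congr rfl fun a _ => ?_
      rw [dif_pos a.isLt]
    simp only [h1]
    rw [hsum]
    refine mean_bound.trans (le_of_eq ?_)
    congr 1
    funext g
    have hlin : dext (fun f : (Fin (n + 2) × I ν) → Bool => ∑ i : Fin (n + 2) → I ν,
            (∏ a : Fin (n + 1), (chz (i a.succ) (i a.castSucc) : ℝ)) *
              ∏ a : Fin (n + 2), sg (f (a, i a))) ∅ (FT one g) =
        ∑ i : Fin (n + 2) → I ν, (∏ a : Fin (n + 1), (chz (i a.succ) (i a.castSucc) : ℝ)) *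
          dext (fun f : (Fin (n + 2) × I ν) → Bool => ∏ a : Fin (n + 2), sg (f (a, i a))) ∅
            (FT one g) := by
      unfold dext
      simp only [Finset.sum_mul, Finset.mul_sum]
      rw [Finset.sum_comm]
      refine Finset.sum_congr rfl fun i _ => Finset.sum_congr rfl fun f _ => ?_
      ring
    rw [hlin]
    refine Finset.sum_congr rfl fun i _ => ?_
    congr 1
    rw [dext_monomial (fun a : Fin (n + 2) => (a, i a))]
    · refine Finset.prod_congr rfl fun a _ => ?_
      simp [FT, hone]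
    · intro a b hab
      exact (Prod.mk.injEq _ _ _ _ ▸ hab).1

/-- T8: the forrelated distribution. -/
theorem exists_forr_dist (ν κ : ℕ) (hκ : 2 ≤ κ) :
    ∃ D : ((Fin κ × I ν) → Bool) → ℝ, (∀ f, 0 ≤ D f) ∧ ∑ f, D f = 1 ∧
      (∀ (φ : ((Fin κ × I ν) → Bool) → ℝ) (L : ℝ),
        (∀ z : Fin κ × I ν → ℝ, (∀ i, |z i| ≤ 1 / 2) →
          ∑ i : Fin κ → I ν, |dext φ (Finset.univ.image fun a => (a, i a)) z| ≤ L) →
        |∑ f, D f * φ f - avg φ| ≤ (1 / 8) ^ (κ - 1) * (1 / √(2 ^ ν)) ^ (κ - 1) * L) ∧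
      (1 / (16 * Real.exp 1)) ^ (κ - 1) * √(2 ^ ν) ^ (κ + 1) ≤
        ∑ f, D f * (vec (fun a i => if h : a < κ then f (⟨a, h⟩, i) else false) κ
          (fun _ => false) : ℝ) := by
  obtain ⟨n, rfl⟩ : ∃ n, κ = n + 2 := ⟨κ - 2, by omega⟩
  exact exists_forr_dist_aux n ν (fun Θ hc C hb => GC.int_of_bdd Θ hc C hb)
    (fun τ => GC.continuous_FT τ) (fun τ hτ g p => GC.abs_FT_le τ hτ g p)

end Crest.Agent.S0554
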