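import Crest.Agent.S0554_Defs

/-!
S0554, task T10: the randomized lower bound (Yao + adversary on the pointer function).
-/

set_option autoImplicit false

namespace Crest.Agent.S0554

open Crest.MathPhysics.Query

namespace Lower

/-! ### Programs: paths, truncation -/

section Prog

variable {ι α J : Type}

theorem eval_congr {x y : ι → Bool} : ∀ (T : Prog ι α), (∀ i ∈ T.path x, x i = y i) →
    T.eval x = T.eval y
  | .ret a, _ => rfl
  | .ask i k, h => by
    have hi : x i = y i := h i (by simp [Prog.path])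
    have h2 : ∀ i' ∈ (k (x i)).path x, x i' = y i' := fun i' hi' =>
      h i' (by simp only [Prog.path, List.mem_cons]; exact Or.inr hi')
    simp only [Prog.eval]
    rw [← hi]
    exact eval_congr (k (x i)) h2

theorem length_path_le (x : ι → Bool) : ∀ (T : Prog ι α), (T.path x).length ≤ T.depth
  | .ret a => by simp [Prog.path]
  | .ask i k => by
    simp only [Prog.path, List.length_cons, Prog.depth]
    have := length_path_le x (k (x i))
    have h2 : (k (x i)).depth ≤ max (k false).depth (k true).depth := by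
      cases x i
      · exact le_max_left _ _
      · exact le_max_right _ _
    omega

open Classical in
/-- Simulation of `T` by a program reading only the slot bits `J`; returns `true` as soon as a bad
cell is read or the budget of slot queries is exceeded. -/
noncomputable def sim (sl : ι → Option J) (bad : ι → Prop) (x : ι → Bool) :
    ℕ → Prog ι Bool → Prog J Bool
  | _, .ret a => .ret a
  | d, .ask i k =>
    if bad i then .ret true
    else
      match sl i with
      | none => sim sl bad x d (k (x i))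
      | some j =>
        match d with
        | 0 => .ret true
        | d + 1 => .ask j (fun b => sim sl bad x d (k b))

/-- The input with slot bits `f` plugged in. -/
def plug (sl : ι → Option J) (x : ι → Bool) (f : J → Bool) : ι → Bool :=
  fun i => match sl i with
    | none => x i
    | some j => f j

theorem sim_depth (sl : ι → Option J) (bad : ι → Prop) (x : ι → Bool) :
    ∀ (T : Prog ι Bool) (d : ℕ), (sim sl bad x d T).depth ≤ d
  | .ret a, d => by simp [sim, Prog.depth]
  | .ask i k, d => by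
    unfold sim
    by_cases hb : bad i
    · simp [hb, Prog.depth]
    · rw [if_neg hb]
      cases hsl : sl i with
      | none => exact sim_depth sl bad x (k (x i)) d
      | some j =>
        cases d with
        | zero => simp [Prog.depth]
        | succ d =>
          simp only [Prog.depth]
          have h1 := sim_depth sl bad x (k false) d
          have h2 := sim_depth sl bad x (k true) d
          omega

theorem sim_eval (sl : ι → Option J) (bad : ι → Prop) (x : ι → Bool) (f : J → Bool) :
    ∀ (T : Prog ι Bool) (d : ℕ), ((sim sl bad x d T).eval f = true ↔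
      (T.eval (plug sl x f) = true ∨ (∃ i ∈ T.path (plug sl x f), bad i) ∨
        d < (T.path (plug sl x f)).countP (fun i => (sl i).isSome)))
  | .ret a, d => by simp [sim, Prog.eval, Prog.path]
  | .ask i k, d => by
    unfold sim
    by_cases hb : bad i
    · rw [if_pos hb]
      simp [Prog.eval, Prog.path, hb]
    · rw [if_neg hb]
      cases hsl : sl i with
      | none =>
        have hx : plug sl x f i = x i := by simp [plug, hsl]
        have ih := sim_eval sl bad x f (k (x i)) d
        simp only [Prog.eval, Prog.path, hx]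
        rw [ih]
        simp [hb, hsl]
      | some j =>
        have hx : plug sl x f i = f j := by simp [plug, hsl]
        cases d with
        | zero =>
          simp [Prog.eval, Prog.path, hx, hsl]
        | succ d =>
          have ih := sim_eval sl bad x f (k (f j)) d
          simp only [Prog.eval, Prog.path, hx]
          rw [ih]
          simp [hb, hsl]

end Prog

/-! ### Counting lemmas -/

section Count

theorem sum_countP_le {ι γ : Type} [Fintype γ] [DecidableEq γ] (g : ι → Option γ) :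
    ∀ l : List ι, ∑ c : γ, l.countP (fun i => decide (g i = some c)) ≤ l.length
  | [] => by simp
  | i :: l => by
    have ih := sum_countP_le g l
    simp only [List.countP_cons, List.length_cons, Finset.sum_add_distrib]
    have : ∑ c : γ, (if decide (g i = some c) = true then 1 else 0) ≤ 1 := by
      cases hg : g i with
      | none => simp
      | some c =>
        simp only [Option.some.injEq, decide_eq_true_eq]
        rw [Finset.sum_ite_eq]
        simp
    omega

theorem resample {α β M : Type} [Fintype α] [DecidableEq α] [Fintype β]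
    [AddCommMonoid M] (a : α) (F : (α → β) → M) :
    ∑ z : α → β, ∑ v : β, F (Function.update z a v) = Fintype.card β • ∑ z, F z := by
  have h1 : ∑ z : α → β, ∑ v : β, F (Function.update z a v)
      = ∑ p : (α → β) × β, F (Function.update p.1 a p.2) := by
    rw [Fintype.sum_prod_type]
  have h2 : Fintype.card β • ∑ z, F z = ∑ p : (α → β) × β, F p.1 := by
    rw [Fintype.sum_prod_type]
    simp [Finset.sum_const, Finset.smul_sum]
  rw [h1, h2]
  refine Finset.sum_bij' (fun p _ => (Function.update p.1 a p.2, p.1 a))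
    (fun p _ => (Function.update p.1 a p.2, p.1 a)) (by simp) (by simp) ?_ ?_ ?_
  · rintro ⟨z, v⟩ _
    simp
  · rintro ⟨z, v⟩ _
    simp
  · rintro ⟨z, v⟩ _
    rfl

end Count

section ColHit

variable {ι β : Type} [Fintype β] [DecidableEq β]

open Classical in
/-- Column hits versus column queries. -/
theorem colhit (col : ι → Option β) (x : β → ι → Bool) (y : ι → Bool)
    (hx1 : ∀ v i r, col i = some r → x v i = decide (r ≠ v))
    (hx2 : ∀ v i, col i = none → x v i = y i) :
    ∀ (T : Prog ι Bool) (S : Finset β),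
      (Fintype.card β : ℤ) * ∑ v ∈ Sᶜ, (if ∃ i ∈ T.path (x v), col i = some v then 1 else 0) ≤
        2 * ∑ v ∈ Sᶜ, (((T.path (x v)).countP (fun i => (col i).isSome) : ℕ) : ℤ) +
          S.card * (Fintype.card β - S.card + 1)
  | .ret a, S => by
    have hS : (S.card : ℤ) ≤ Fintype.card β := by exact_mod_cast Finset.card_le_univ S
    simp only [Prog.path, List.not_mem_nil, false_and, exists_false, if_false,
      Finset.sum_const_zero, mul_zero, List.countP_nil, Nat.cast_zero, zero_add]
    have : (0 : ℤ) ≤ S.card := by positivity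
    nlinarith
  | .ask i k, S => by
    have hS : (S.card : ℤ) ≤ Fintype.card β := by exact_mod_cast Finset.card_le_univ S
    have hS0 : (0 : ℤ) ≤ S.card := by positivity
    cases hc : col i with
    | none =>
      have ih := colhit col x y hx1 hx2 (k (y i)) S
      have e1 : ∀ v, (Prog.ask i k).path (x v) = i :: (k (y i)).path (x v) := by
        intro v
        simp [Prog.path, hx2 v i hc]
      simp only [e1, List.mem_cons, List.countP_cons, hc]
      simpa [hc] using ih
    | some r =>
      by_cases hr : r ∈ S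
      · have ih := colhit col x y hx1 hx2 (k true) S
        have e1 : ∀ v ∈ Sᶜ, (Prog.ask i k).path (x v) = i :: (k true).path (x v) := by
          intro v hv
          have : r ≠ v := by
            rintro rfl
            exact (Finset.mem_compl.mp hv) hr
          simp [Prog.path, hx1 v i r hc, this]
        have e2 : ∑ v ∈ Sᶜ, (if ∃ i' ∈ (Prog.ask i k).path (x v), col i' = some v then (1:ℤ) else 0)
            = ∑ v ∈ Sᶜ, (if ∃ i' ∈ (k true).path (x v), col i' = some v then (1:ℤ) else 0) := by
          refine Finset.sum_congr rfl fun v hv => ?_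
          rw [e1 v hv]
          have : r ≠ v := by
            rintro rfl
            exact (Finset.mem_compl.mp hv) hr
          simp [hc, this]
        have e3 : ∑ v ∈ Sᶜ, ((((Prog.ask i k).path (x v)).countP (fun i => (col i).isSome) : ℕ) : ℤ)
            = ∑ v ∈ Sᶜ, ((((k true).path (x v)).countP (fun i => (col i).isSome) : ℕ) : ℤ)
              + Sᶜ.card := by
          rw [Finset.card_eq_sum_ones, Nat.cast_sum, ← Finset.sum_add_distrib]
          refine Finset.sum_congr rfl fun v hv => ?_
          rw [e1 v hv]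
          simp [hc]
        rw [e2, e3]
        have : (0:ℤ) ≤ (Sᶜ.card : ℤ) := by positivity
        linarith
      · have ih := colhit col x y hx1 hx2 (k true) (insert r S)
        have hcomp : Sᶜ = insert r (insert r S)ᶜ := by
          ext v
          simp only [Finset.mem_compl, Finset.mem_insert, not_or]
          constructor
          · intro hv
            by_cases h : v = r
            · exact Or.inl h
            · exact Or.inr ⟨h, hv⟩
          · rintro (rfl | h)
            · exact hr
            · exact h.2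
        have hnot : r ∉ (insert r S)ᶜ := by simp
        have hne : ∀ v ∈ (insert r S)ᶜ, r ≠ v := by
          rintro v hv rfl
          exact hnot hv
        have e1 : ∀ v ∈ (insert r S)ᶜ, (Prog.ask i k).path (x v) = i :: (k true).path (x v) := by
          intro v hv
          simp [Prog.path, hx1 v i r hc, hne v hv]
        have e2 : ∑ v ∈ Sᶜ, (if ∃ i' ∈ (Prog.ask i k).path (x v), col i' = some v then (1:ℤ) else 0)
            = 1 + ∑ v ∈ (insert r S)ᶜ,
              (if ∃ i' ∈ (k true).path (x v), col i' = some v then (1:ℤ) else 0) := by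
          rw [hcomp, Finset.sum_insert hnot]
          congr 1
          · rw [if_pos]
            exact ⟨i, by simp [Prog.path], hc⟩
          · refine Finset.sum_congr rfl fun v hv => ?_
            rw [e1 v hv]
            simp [hc, hne v hv]
        have e3 : 1 + (∑ v ∈ (insert r S)ᶜ,
              ((((k true).path (x v)).countP (fun i => (col i).isSome) : ℕ) : ℤ)
              + ((insert r S)ᶜ.card : ℤ)) ≤
            ∑ v ∈ Sᶜ, ((((Prog.ask i k).path (x v)).countP (fun i => (col i).isSome) : ℕ) : ℤ)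
             := by
          rw [hcomp, Finset.sum_insert hnot, Finset.card_eq_sum_ones (insert r S)ᶜ, Nat.cast_sum,
            ← Finset.sum_add_distrib]
          refine add_le_add ?_ (le_of_eq ?_)
          · have : 1 ≤ ((Prog.ask i k).path (x r)).countP (fun i => (col i).isSome) := by
              simp [Prog.path, hc]
            exact_mod_cast this
          · refine Finset.sum_congr rfl fun v hv => ?_
            rw [e1 v hv]
            simp [hc]
        have hcard : (((insert r S)ᶜ).card : ℤ) = Fintype.card β - (S.card + 1) := by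
          rw [Finset.card_compl, Finset.card_insert_of_notMem hr]
          have : S.card + 1 ≤ Fintype.card β := by
            rw [← Finset.card_insert_of_notMem hr]
            exact Finset.card_le_univ _
          push_cast [Nat.cast_sub this]
          ring
        have hcard2 : ((insert r S).card : ℤ) = S.card + 1 := by
          rw [Finset.card_insert_of_notMem hr]
          push_cast
          ring
        rw [e2]
        rw [hcard] at e3
        rw [hcard2] at ih
        nlinarith [ih, e3]

end ColHit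

/-! ### The hard inputs -/

section Inputs

variable {ν κ K B : ℕ}

/-- slot contents -/
abbrev Sl (ν κ K : ℕ) : Type := (Fin K × (Fin κ × I ν)) → Bool

/-- The negative inputs: column `j` has its zero in row `z j`, slot `s` holds `Y s`. -/
def x0 (z : I ν → I ν) (Y : I ν → Sl ν κ K) : Idx ν κ K B → Bool
  | .X j r => decide (r ≠ z j)
  | .Fl _ _ => false
  | .P _ _ _ _ => false
  | .A s c a i => Y s (c, (a, i))
  | .W _ _ _ _ _ _ _ => false

/-- The positive inputs. -/
def x1 (j s : I ν) (w : Fin K → Fin κ → Fin (ν + 1) → I ν → Fin B → Bool)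
    (z : I ν → I ν) (Y : I ν → Sl ν κ K) : Idx ν κ K B → Bool
  | .X j' r => decide (r ≠ z j') || decide (j' = j)
  | .Fl j' s' => decide (j' = j ∧ s' = s)
  | .P j' s' i t => decide (j' = j ∧ s' = s) && z i t
  | .A s c a i => Y s (c, (a, i))
  | .W j' s' c a t i b => decide (j' = j ∧ s' = s) && w c a t i b

theorem FF_x0 (dec : (Fin B → Bool) → ℤ) (θ : ℝ) (z : I ν → I ν) (Y : I ν → Sl ν κ K) :
    FF dec θ (x0 z Y) = false := by
  simp only [FF, decide_eq_false_iff_not]
  rintro ⟨j, s, h⟩
  have := h.col (z j)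
  simp [x0] at this

theorem FF_x1 (hκ : 0 < κ) (dec : (Fin B → Bool) → ℤ) (θ : ℝ) (j s : I ν)
    (w : Fin K → Fin κ → Fin (ν + 1) → I ν → Fin B → Bool)
    (z : I ν → I ν) (Y : I ν → Sl ν κ K)
    (h1 : ∀ c a i, dec (w c a 0 i) = sgz (Y s (c, (a, i))) *
        (if h : a.val = 0 then 1 else dec (w c ⟨a.val - 1, by omega⟩ (Fin.last ν) i)))
    (h2 : ∀ c a (t : Fin ν) i, dec (w c a t.succ i) =
        ∑ b : Bool, sgz (i t && b) * dec (w c a t.castSucc (Function.update i t b)))
    (h3 : ∑ c, dec (w c ⟨κ - 1, by omega⟩ (Fin.last ν) j) =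
        ∑ c, vec (fun a i => if h : a < κ then Y s (c, (⟨a, h⟩, i)) else false) κ j)
    (h4 : θ ≤ ∑ c, (vec (fun a i => if h : a < κ then Y s (c, (⟨a, h⟩, i)) else false) κ j : ℝ)) :
    FF dec θ (x1 j s w z Y) = true := by
  simp only [FF, decide_eq_true_eq]
  have hW : ∀ c a t i, Wv dec (x1 j s w z Y) j s c a t i = dec (w c a t i) := by
    intro c a t i
    simp only [Wv, x1, decide_true, Bool.true_and, and_self]
  refine ⟨j, s, ?_, ?_, ?_, ?_, ?_, ?_⟩
  · intro r
    simp [x1]
  · intro s'
    simp [x1]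
  · intro i hi
    have hP : Pv (x1 (B := B) j s w z Y) j s i = z i := by
      funext t
      simp [Pv, x1]
    simp only [hP]
    simp [x1, hi]
  · intro c a i
    rw [hW, h1]
    simp only [Wprev]
    congr 1
    split_ifs with h
    · rfl
    · rw [hW]
  · intro c a t i
    rw [hW, h2]
    simp only [hW]
  · intro _
    simp only [hW]
    rw [h3]
    push_cast
    exact h4

/-- root of a cell -/
def rootOf : Idx ν κ K B → Option (I ν × I ν)
  | .Fl j s => some (j, s)
  | .P j s _ _ => some (j, s)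
  | .W j s _ _ _ _ _ => some (j, s)
  | _ => none

/-- slot of a cell -/
def slotOf : Idx ν κ K B → Option (I ν)
  | .A s _ _ _ => some s
  | _ => none

/-- column of a cell -/
def colOf : Idx ν κ K B → Option (I ν)
  | .X j _ => some j
  | _ => none

/-- the slot-`s` bit read by a cell -/
def slotBit (s : I ν) : Idx ν κ K B → Option (Fin K × (Fin κ × I ν))
  | .A s' c a i => if s' = s then some (c, (a, i)) else none
  | _ => none

/-- the row read in column `j` -/
def rowIn (j : I ν) : Idx ν κ K B → Option (I ν)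
  | .X j' r => if j' = j then some r else none
  | _ => none

theorem slotBit_isSome (s : I ν) (i : Idx ν κ K B) :
    (slotBit s i).isSome = decide (slotOf i = some s) := by
  cases i <;> simp [slotBit, slotOf]
  split_ifs with h <;> simp [h]

theorem rowIn_isSome (j : I ν) (i : Idx ν κ K B) :
    (rowIn j i).isSome = decide (colOf i = some j) := by
  cases i <;> simp [rowIn, colOf]
  split_ifs with h <;> simp [h]

theorem plug_x0 (s : I ν) (z : I ν → I ν) (Y : I ν → Sl ν κ K) (f : Sl ν κ K) :
    plug (slotBit s) (x0 (B := B) z Y) f = x0 z (Function.update Y s f) := by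
  funext i
  cases i with
  | A s' c a i =>
    simp only [plug, slotBit, x0]
    by_cases h : s' = s
    · subst h; simp
    · simp [h]
  | _ => simp [plug, slotBit, x0]

/-- the bad cells -/
def bad (j s : I ν) (z : I ν → I ν) (i : Idx ν κ K B) : Prop :=
  rowIn j i = some (z j) ∨ rootOf i = some (j, s)

theorem x1_eq_x0 (j s : I ν) (w : Fin K → Fin κ → Fin (ν + 1) → I ν → Fin B → Bool)
    (z : I ν → I ν) (Y : I ν → Sl ν κ K) (i : Idx ν κ K B) (h : ¬ bad j s z i) :
    x0 z Y i = x1 j s w z Y i := by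
  cases i with
  | X j' r =>
    simp only [bad, rowIn, rootOf, not_or] at h
    simp only [x0, x1]
    by_cases hj : j' = j
    · subst hj
      simp at h
      simp [h]
    · simp [hj]
  | Fl j' s' =>
    simp [bad, rowIn, rootOf] at h
    simp [x0, x1]
    exact h
  | P j' s' i t =>
    simp [bad, rowIn, rootOf] at h
    simp [x0, x1]
    intro h1 h2
    exact absurd h2 (h h1)
  | A s' c a i => rfl
  | W j' s' c a t i b =>
    simp [bad, rowIn, rootOf] at h
    simp [x0, x1]
    intro h1 h2
    exact absurd h2 (h h1)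

end Inputs

section Main

variable {ν κ K B : ℕ}

open Classical in
/-- acceptance -/
noncomputable def a0 (T : Prog (Idx ν κ K B) Bool) (z : I ν → I ν) (Y : I ν → Sl ν κ K) : ℝ :=
  if T.eval (x0 z Y) = true then 1 else 0

open Classical in
/-- hit of the zero in column `j` -/
noncomputable def hX (T : Prog (Idx ν κ K B) Bool) (j : I ν) (z : I ν → I ν)
    (Y : I ν → Sl ν κ K) : ℝ :=
  if ∃ i ∈ T.path (x0 z Y), rowIn j i = some (z j) then 1 else 0

open Classical in
/-- hit of a root cell -/
noncomputable def hR (T : Prog (Idx ν κ K B) Bool) (j s : I ν) (z : I ν → I ν)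
    (Y : I ν → Sl ν κ K) : ℝ :=
  if ∃ i ∈ T.path (x0 z Y), rootOf i = some (j, s) then 1 else 0

open Classical in
/-- overflow in slot `s` -/
noncomputable def ov (T : Prog (Idx ν κ K B) Bool) (d : ℕ) (s : I ν) (z : I ν → I ν)
    (Y : I ν → Sl ν κ K) : ℝ :=
  if d < (T.path (x0 z Y)).countP (fun i => (slotBit s i).isSome) then 1 else 0

theorem sim_le (T : Prog (Idx ν κ K B) Bool) (d : ℕ) (j s : I ν) (z : I ν → I ν)
    (Y : I ν → Sl ν κ K) (f : Sl ν κ K) :
    ind (sim (slotBit s) (bad j s z) (x0 z Y) d T) f ≤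
      a0 T z (Function.update Y s f) + hX T j z (Function.update Y s f)
        + hR T j s z (Function.update Y s f) + ov T d s z (Function.update Y s f) := by
  have hA : 0 ≤ a0 T z (Function.update Y s f) := by unfold a0; split_ifs <;> norm_num
  have hB : 0 ≤ hX T j z (Function.update Y s f) := by unfold hX; split_ifs <;> norm_num
  have hC : 0 ≤ hR T j s z (Function.update Y s f) := by unfold hR; split_ifs <;> norm_num
  have hD : 0 ≤ ov T d s z (Function.update Y s f) := by unfold ov; split_ifs <;> norm_num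
  unfold ind
  split_ifs with h
  · rw [sim_eval, plug_x0] at h
    rcases h with h | ⟨i, hi, h | h⟩ | h
    · have : a0 T z (Function.update Y s f) = 1 := by unfold a0; rw [if_pos h]
      linarith
    · have : hX T j z (Function.update Y s f) = 1 := by
        unfold hX; rw [if_pos ⟨i, hi, h⟩]
      linarith
    · have : hR T j s z (Function.update Y s f) = 1 := by
        unfold hR; rw [if_pos ⟨i, hi, h⟩]
      linarith
    · have : ov T d s z (Function.update Y s f) = 1 := by unfold ov; rw [if_pos h]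
      linarith
  · linarith

open Classical in
theorem x1_le_sim (T : Prog (Idx ν κ K B) Bool) (d : ℕ) (j s : I ν)
    (w : Fin K → Fin κ → Fin (ν + 1) → I ν → Fin B → Bool) (z : I ν → I ν)
    (Y : I ν → Sl ν κ K) (f : Sl ν κ K) :
    (if T.eval (x1 j s w z (Function.update Y s f)) = true then (1:ℝ) else 0) ≤
      ind (sim (slotBit s) (bad j s z) (x0 z Y) d T) f := by
  unfold ind
  by_cases h : T.eval (x1 j s w z (Function.update Y s f)) = true
  · have : (sim (slotBit s) (bad j s z) (x0 z Y) d T).eval f = true := by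
      rw [sim_eval, plug_x0]
      by_cases hb : ∃ i ∈ T.path (x0 z (Function.update Y s f)), bad j s z i
      · exact Or.inr (Or.inl hb)
      · left
        push Not at hb
        rw [eval_congr T (fun i hi => x1_eq_x0 j s w z (Function.update Y s f) i (hb i hi))]
        exact h
    rw [if_pos h, if_pos this]
  · rw [if_neg h]
    split_ifs <;> norm_num

theorem avg_sim_le (T : Prog (Idx ν κ K B) Bool) (d : ℕ) (j s : I ν) (z : I ν → I ν) :
    ∑ Y : I ν → Sl ν κ K, avg (ind (sim (slotBit s) (bad j s z) (x0 z Y) d T)) ≤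
      ∑ Y : I ν → Sl ν κ K, (a0 T z Y + hX T j z Y + hR T j s z Y + ov T d s z Y) := by
  have h1 : ∀ Y : I ν → Sl ν κ K, avg (ind (sim (slotBit s) (bad j s z) (x0 z Y) d T)) ≤
      (∑ f : Sl ν κ K, (a0 T z (Function.update Y s f) + hX T j z (Function.update Y s f)
        + hR T j s z (Function.update Y s f) + ov T d s z (Function.update Y s f))) /
        2 ^ Fintype.card (Fin K × (Fin κ × I ν)) := by
    intro Y
    unfold avg
    gcongr
    exact sim_le T d j s z Y _
  refine (Finset.sum_le_sum fun Y _ => h1 Y).trans ?_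
  rw [← Finset.sum_div]
  rw [resample s (fun Y : I ν → Sl ν κ K => a0 T z Y + hX T j z Y + hR T j s z Y + ov T d s z Y)]
  have hc : Fintype.card (Sl ν κ K) = 2 ^ Fintype.card (Fin K × (Fin κ × I ν)) := by
    simp [Sl]
  rw [hc, nsmul_eq_mul]
  push_cast
  rw [mul_div_cancel_left₀ _ (by positivity)]

/-- Bound for one column/slot pair, summed over the slot contents. -/
theorem step_js (T : Prog (Idx ν κ K B) Bool) (d : ℕ) (δ : ℝ) (j s : I ν)
    (Dj : Sl ν κ K → ℝ) (hD0 : ∀ f, 0 ≤ Dj f)
    (hind : ∀ (T : Prog (Fin K × (Fin κ × I ν)) Bool), T.depth ≤ d →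
      |∑ f, Dj f * ind T f - avg (ind T)| ≤ δ)
    (w : Sl ν κ K → Fin K → Fin κ → Fin (ν + 1) → I ν → Fin B → Bool) (z : I ν → I ν) :
    ∑ Y : I ν → Sl ν κ K, ∑ f, Dj f * (open Classical in
      if T.eval (x1 j s (w f) z (Function.update Y s f)) = true then (1:ℝ) else 0) ≤
    ∑ Y : I ν → Sl ν κ K, (a0 T z Y + hX T j z Y + hR T j s z Y + ov T d s z Y) +
      Fintype.card (I ν → Sl ν κ K) * δ := by
  have h1 : ∀ Y : I ν → Sl ν κ K, ∑ f, Dj f * (open Classical in
      if T.eval (x1 j s (w f) z (Function.update Y s f)) = true then (1:ℝ) else 0) ≤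
      avg (ind (sim (slotBit s) (bad j s z) (x0 z Y) d T)) + δ := by
    intro Y
    have h2 : ∑ f, Dj f * (open Classical in
      if T.eval (x1 j s (w f) z (Function.update Y s f)) = true then (1:ℝ) else 0) ≤
      ∑ f, Dj f * ind (sim (slotBit s) (bad j s z) (x0 z Y) d T) f :=
      Finset.sum_le_sum fun f _ => mul_le_mul_of_nonneg_left (x1_le_sim T d j s (w f) z Y f) (hD0 f)
    have h3 := hind (sim (slotBit s) (bad j s z) (x0 z Y) d T) (sim_depth _ _ _ _ _)
    have h4 := (abs_le.mp h3).2
    linarith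
  calc _ ≤ ∑ Y : I ν → Sl ν κ K,
        (avg (ind (sim (slotBit s) (bad j s z) (x0 z Y) d T)) + δ) :=
        Finset.sum_le_sum fun Y _ => h1 Y
    _ = ∑ Y : I ν → Sl ν κ K, avg (ind (sim (slotBit s) (bad j s z) (x0 z Y) d T))
        + Fintype.card (I ν → Sl ν κ K) * δ := by
        rw [Finset.sum_add_distrib]
        simp
    _ ≤ _ := by
        have := avg_sim_le T d j s z
        linarith

theorem sum_hR_le (T : Prog (Idx ν κ K B) Bool) (r : ℕ) (hT : T.depth ≤ r) (z : I ν → I ν)
    (Y : I ν → Sl ν κ K) : ∑ j, ∑ s, hR T j s z Y ≤ r := by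
  classical
  have h1 : ∀ j s, hR T j s z Y ≤
      (((T.path (x0 z Y)).countP (fun i => decide (rootOf i = some (j, s))) : ℕ) : ℝ) := by
    intro j s
    unfold hR
    split_ifs with h
    · obtain ⟨i, hi, h⟩ := h
      have : 0 < (T.path (x0 z Y)).countP (fun i => decide (rootOf i = some (j, s))) := by
        rw [List.countP_pos_iff]
        exact ⟨i, hi, by simpa using h⟩
      exact_mod_cast this
    · positivity
  have h2 := sum_countP_le (rootOf (ν := ν) (κ := κ) (K := K) (B := B)) (T.path (x0 z Y))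
  have h3 := (length_path_le (x0 z Y) T).trans hT
  calc ∑ j, ∑ s, hR T j s z Y ≤ ∑ j, ∑ s,
      (((T.path (x0 z Y)).countP (fun i => decide (rootOf i = some (j, s))) : ℕ) : ℝ) :=
        Finset.sum_le_sum fun j _ => Finset.sum_le_sum fun s _ => h1 j s
    _ = ((∑ p : I ν × I ν, (T.path (x0 z Y)).countP (fun i => decide (rootOf i = some p)) : ℕ)
        : ℝ) := by
        rw [Fintype.sum_prod_type]
        push_cast
        rfl
    _ ≤ r := by exact_mod_cast h2.trans h3

theorem sum_ov_le (T : Prog (Idx ν κ K B) Bool) (r : ℕ) (hT : T.depth ≤ r) (d : ℕ)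
    (z : I ν → I ν) (Y : I ν → Sl ν κ K) : ∑ s, ov T d s z Y ≤ r / (d + 1) := by
  classical
  rw [le_div_iff₀ (by positivity), Finset.sum_mul]
  have h1 : ∀ s, ov T d s z Y * (d + 1) ≤
      (((T.path (x0 z Y)).countP (fun i => decide (slotOf i = some s)) : ℕ) : ℝ) := by
    intro s
    unfold ov
    simp only [slotBit_isSome]
    split_ifs with h
    · rw [one_mul]
      exact_mod_cast h
    · rw [zero_mul]
      positivity
  have h2 := sum_countP_le (slotOf (ν := ν) (κ := κ) (K := K) (B := B)) (T.path (x0 z Y))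
  have h3 := (length_path_le (x0 z Y) T).trans hT
  calc ∑ s, ov T d s z Y * (d + 1) ≤ ∑ s,
      (((T.path (x0 z Y)).countP (fun i => decide (slotOf i = some s)) : ℕ) : ℝ) :=
        Finset.sum_le_sum fun s _ => h1 s
    _ = ((∑ s, (T.path (x0 z Y)).countP (fun i => decide (slotOf i = some s)) : ℕ)
        : ℝ) := by
        push_cast
        rfl
    _ ≤ r := by exact_mod_cast h2.trans h3

/-- the number of column `j` queries -/
noncomputable def cX (T : Prog (Idx ν κ K B) Bool) (j : I ν) (z : I ν → I ν)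
    (Y : I ν → Sl ν κ K) : ℝ :=
  (((T.path (x0 z Y)).countP (fun i => (rowIn j i).isSome) : ℕ) : ℝ)

theorem hX_col (T : Prog (Idx ν κ K B) Bool) (j : I ν) (z : I ν → I ν) (Y : I ν → Sl ν κ K) :
    (2:ℝ) ^ ν * ∑ v, hX T j (Function.update z j v) Y ≤
      2 * ∑ v, cX T j (Function.update z j v) Y := by
  classical
  have h := colhit (rowIn (ν := ν) (κ := κ) (K := K) (B := B) j)
    (fun v => x0 (Function.update z j v) Y) (x0 z Y) ?_ ?_ T ∅
  · simp only [Finset.compl_empty, Finset.card_empty, Nat.cast_zero, zero_mul, add_zero] at h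
    have h' : (((Fintype.card (I ν) : ℤ) * ∑ v, (if ∃ i ∈ T.path (x0 (Function.update z j v) Y),
        rowIn j i = some v then 1 else 0) : ℤ) : ℝ) ≤ ((2 * ∑ v,
        (((T.path (x0 (Function.update z j v) Y)).countP (fun i => (rowIn j i).isSome) : ℕ) : ℤ)
        : ℤ) : ℝ) := by exact_mod_cast h
    have hc : (Fintype.card (I ν) : ℝ) = 2 ^ ν := by simp [I]
    push_cast at h'
    rw [hc] at h'
    simp only [hX, cX, Function.update_self]
    exact h'
  · intro v i r hi
    cases i with
    | X j' r' =>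
      simp only [rowIn] at hi
      split_ifs at hi with hj
      subst hj
      simp only [Option.some.injEq] at hi
      subst hi
      simp [x0]
    | _ => simp [rowIn] at hi
  · intro v i hi
    cases i with
    | X j' r' =>
      simp only [rowIn] at hi
      split_ifs at hi with hj
      simp [x0, Function.update_of_ne hj]
    | _ => simp [x0]

theorem sum_hX_le (T : Prog (Idx ν κ K B) Bool) (r : ℕ) (hT : T.depth ≤ r)
    (Y : I ν → Sl ν κ K) :
    (2:ℝ) ^ ν * ∑ z : I ν → I ν, ∑ j, hX T j z Y ≤ 2 * Fintype.card (I ν → I ν) * r := by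
  classical
  have hm : (0:ℝ) < 2 ^ ν := by positivity
  have hc : (Fintype.card (I ν) : ℝ) = 2 ^ ν := by simp [I]
  have key : ∀ j : I ν, (2:ℝ) ^ ν * ∑ z : I ν → I ν, hX T j z Y ≤
      2 * ∑ z : I ν → I ν, cX T j z Y := by
    intro j
    have e1 := resample j (fun z : I ν → I ν => hX T j z Y)
    have e2 := resample j (fun z : I ν → I ν => cX T j z Y)
    rw [nsmul_eq_mul, hc] at e1 e2
    rw [← e1]
    have e3 : ∑ z : I ν → I ν, ∑ v, hX T j (Function.update z j v) Y * 2 ^ ν ≤
        ∑ z : I ν → I ν, ∑ v, cX T j (Function.update z j v) Y * 2 := by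
      refine Finset.sum_le_sum fun z _ => ?_
      rw [← Finset.sum_mul, ← Finset.sum_mul, mul_comm, mul_comm (∑ v, cX _ _ _ _)]
      exact hX_col T j z Y
    have e4 : ∑ z : I ν → I ν, ∑ v, hX T j (Function.update z j v) Y * 2 ^ ν =
      (2:ℝ) ^ ν * ∑ z : I ν → I ν, ∑ v, hX T j (Function.update z j v) Y := by
      rw [Finset.mul_sum]
      refine Finset.sum_congr rfl fun z _ => ?_
      rw [← Finset.sum_mul, mul_comm]
    have e5 : ∑ z : I ν → I ν, ∑ v, cX T j (Function.update z j v) Y * 2 =
      2 * ∑ z : I ν → I ν, ∑ v, cX T j (Function.update z j v) Y := by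
      rw [Finset.mul_sum]
      refine Finset.sum_congr rfl fun z _ => ?_
      rw [← Finset.sum_mul, mul_comm]
    rw [e4, e5, e2, e1] at e3
    rw [e1]
    have : (2:ℝ) ^ ν * (2 ^ ν * ∑ z : I ν → I ν, hX T j z Y) ≤
        2 ^ ν * (2 * ∑ z : I ν → I ν, cX T j z Y) := by linarith
    exact le_of_mul_le_mul_left this hm
  have hcX : ∀ z : I ν → I ν, ∑ j, cX T j z Y ≤ r := by
    intro z
    have h2 := sum_countP_le (colOf (ν := ν) (κ := κ) (K := K) (B := B)) (T.path (x0 z Y))
    have h3 := (length_path_le (x0 z Y) T).trans hT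
    simp only [cX, rowIn_isSome]
    exact_mod_cast h2.trans h3
  calc (2:ℝ) ^ ν * ∑ z : I ν → I ν, ∑ j, hX T j z Y
      = ∑ j, (2:ℝ) ^ ν * ∑ z : I ν → I ν, hX T j z Y := by
        rw [Finset.sum_comm, Finset.mul_sum]
    _ ≤ ∑ j, 2 * ∑ z : I ν → I ν, cX T j z Y := Finset.sum_le_sum fun j _ => key j
    _ = 2 * ∑ z : I ν → I ν, ∑ j, cX T j z Y := by
        rw [← Finset.mul_sum, Finset.sum_comm]
    _ ≤ 2 * ∑ z : I ν → I ν, (r : ℝ) := by
        gcongr with z
        exact hcX z
    _ = 2 * Fintype.card (I ν → I ν) * r := by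
        simp only [Finset.sum_const, Finset.card_univ, nsmul_eq_mul]
        ring

/-- The adversary bound for one program. -/
theorem main_T (T : Prog (Idx ν κ K B) Bool) (r : ℕ) (hT : T.depth ≤ r) (d : ℕ) (δ : ℝ)
    (DD : I ν → Sl ν κ K → ℝ) (hD0 : ∀ j f, 0 ≤ DD j f)
    (hind : ∀ j (T : Prog (Fin K × (Fin κ × I ν)) Bool), T.depth ≤ d →
      |∑ f, DD j f * ind T f - avg (ind T)| ≤ δ)
    (w : I ν → Sl ν κ K → Fin K → Fin κ → Fin (ν + 1) → I ν → Fin B → Bool) :
    ∑ j, ∑ s, ∑ z : I ν → I ν, ∑ Y : I ν → Sl ν κ K, ∑ f, DD j f * (open Classical in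
      if T.eval (x1 j s (w j f) z (Function.update Y s f)) = true then (1:ℝ) else 0) ≤
    (2 ^ ν) ^ 2 * ∑ z : I ν → I ν, ∑ Y : I ν → Sl ν κ K, a0 T z Y +
      (2 ^ ν) ^ 2 * (Fintype.card (I ν → I ν) * Fintype.card (I ν → Sl ν κ K)) *
        (3 * r / (2 ^ ν) ^ 2 + r / (2 ^ ν * (d + 1)) + δ) := by
  classical
  have hm : (0:ℝ) < 2 ^ ν := by positivity
  have hc : (Fintype.card (I ν) : ℝ) = 2 ^ ν := by simp [I]
  set Z : ℝ := ((Fintype.card (I ν → I ν) : ℕ) : ℝ) with hZ
  set W : ℝ := ((Fintype.card (I ν → Sl ν κ K) : ℕ) : ℝ) with hW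
  have hZ0 : 0 ≤ Z := by positivity
  have hW0 : 0 ≤ W := by positivity
  have h1 : ∑ j, ∑ s, ∑ z : I ν → I ν, ∑ Y : I ν → Sl ν κ K, ∑ f, DD j f * (open Classical in
      if T.eval (x1 j s (w j f) z (Function.update Y s f)) = true then (1:ℝ) else 0) ≤
      ∑ j : I ν, ∑ s : I ν, ∑ z : I ν → I ν,
        (∑ Y : I ν → Sl ν κ K, (a0 T z Y + hX T j z Y + hR T j s z Y + ov T d s z Y) + W * δ) :=
    Finset.sum_le_sum fun j _ => Finset.sum_le_sum fun s _ => Finset.sum_le_sum fun z _ =>
      step_js T d δ j s (DD j) (hD0 j) (hind j) (w j) z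
  have h2 : ∑ j : I ν, ∑ s : I ν, ∑ z : I ν → I ν,
        (∑ Y : I ν → Sl ν κ K, (a0 T z Y + hX T j z Y + hR T j s z Y + ov T d s z Y) + W * δ) =
      (2 ^ ν) ^ 2 * ∑ z : I ν → I ν, ∑ Y : I ν → Sl ν κ K, a0 T z Y
      + ∑ Y : I ν → Sl ν κ K, 2 ^ ν * ∑ z : I ν → I ν, ∑ j, hX T j z Y
      + ∑ z : I ν → I ν, ∑ Y : I ν → Sl ν κ K, ∑ j, ∑ s, hR T j s z Y
      + 2 ^ ν * ∑ z : I ν → I ν, ∑ Y : I ν → Sl ν κ K, ∑ s, ov T d s z Y
      + (2 ^ ν) ^ 2 * (Z * (W * δ)) := by
    simp only [Finset.sum_add_distrib, Finset.sum_const, Finset.card_univ, nsmul_eq_mul, hc]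
    have e1 : ∑ j : I ν, 2 ^ ν * ∑ z : I ν → I ν, ∑ Y : I ν → Sl ν κ K, hX T j z Y =
        ∑ Y : I ν → Sl ν κ K, (2:ℝ) ^ ν * ∑ z : I ν → I ν, ∑ j, hX T j z Y := by
      rw [← Finset.mul_sum, ← Finset.mul_sum]
      congr 1
      rw [Finset.sum_comm]
      have : ∀ z : I ν → I ν, ∑ j : I ν, ∑ Y : I ν → Sl ν κ K, hX T j z Y =
          ∑ Y : I ν → Sl ν κ K, ∑ j : I ν, hX T j z Y := fun z => Finset.sum_comm
      simp only [this]
      rw [Finset.sum_comm]
    have e2 : ∑ j : I ν, ∑ s : I ν, ∑ z : I ν → I ν, ∑ Y : I ν → Sl ν κ K, hR T j s z Y =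
        ∑ z : I ν → I ν, ∑ Y : I ν → Sl ν κ K, ∑ j, ∑ s, hR T j s z Y := by
      have s1 : ∀ j : I ν, ∑ s : I ν, ∑ z : I ν → I ν, ∑ Y : I ν → Sl ν κ K, hR T j s z Y =
          ∑ z : I ν → I ν, ∑ Y : I ν → Sl ν κ K, ∑ s : I ν, hR T j s z Y := by
        intro j
        rw [Finset.sum_comm]
        refine Finset.sum_congr rfl fun z _ => ?_
        rw [Finset.sum_comm]
      simp only [s1]
      rw [Finset.sum_comm]
      refine Finset.sum_congr rfl fun z _ => ?_
      rw [Finset.sum_comm]
    have e3 : ∑ s : I ν, ∑ z : I ν → I ν, ∑ Y : I ν → Sl ν κ K, ov T d s z Y =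
        ∑ z : I ν → I ν, ∑ Y : I ν → Sl ν κ K, ∑ s, ov T d s z Y := by
      rw [Finset.sum_comm]
      refine Finset.sum_congr rfl fun z _ => ?_
      rw [Finset.sum_comm]
    simp only [← Finset.mul_sum] at e1 ⊢
    rw [e2, e3, e1, ← hZ]
    ring
  have h3 : ∑ Y : I ν → Sl ν κ K, (2:ℝ) ^ ν * ∑ z : I ν → I ν, ∑ j, hX T j z Y ≤
      W * (2 * Z * r) := by
    calc _ ≤ ∑ Y : I ν → Sl ν κ K, (2 * Z * r) :=
          Finset.sum_le_sum fun Y _ => sum_hX_le T r hT Y
      _ = _ := by simp [hW]
  have h4 : ∑ z : I ν → I ν, ∑ Y : I ν → Sl ν κ K, ∑ j, ∑ s, hR T j s z Y ≤ Z * (W * r) := by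
    calc _ ≤ ∑ z : I ν → I ν, ∑ Y : I ν → Sl ν κ K, (r:ℝ) :=
          Finset.sum_le_sum fun z _ => Finset.sum_le_sum fun Y _ => sum_hR_le T r hT z Y
      _ = _ := by simp [hW, hZ]
  have h5 : ∑ z : I ν → I ν, ∑ Y : I ν → Sl ν κ K, ∑ s, ov T d s z Y ≤
      Z * (W * (r / (d + 1))) := by
    calc _ ≤ ∑ z : I ν → I ν, ∑ Y : I ν → Sl ν κ K, ((r:ℝ) / (d + 1)) :=
          Finset.sum_le_sum fun z _ => Finset.sum_le_sum fun Y _ => sum_ov_le T r hT d z Y
      _ = _ := by simp [hW, hZ]
  have h6 : (2:ℝ) ^ ν * ∑ z : I ν → I ν, ∑ Y : I ν → Sl ν κ K, ∑ s, ov T d s z Y ≤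
      2 ^ ν * (Z * (W * (r / (d + 1)))) := mul_le_mul_of_nonneg_left h5 hm.le
  have h7 : ((2:ℝ) ^ ν) ^ 2 * (Z * W) * (3 * r / (2 ^ ν) ^ 2 + r / (2 ^ ν * (d + 1)) + δ) =
      3 * (Z * W * r) + 2 ^ ν * (Z * (W * (r / (d + 1)))) + (2 ^ ν) ^ 2 * (Z * (W * δ)) := by
    have hd : (0:ℝ) < d + 1 := by positivity
    field_simp
  rw [h7]
  rw [h2] at h1
  nlinarith [h1, h3, h4, h6]

end Main

section Tree

theorem ofDTree_eval {n : ℕ} (x : Fin n → Bool) : ∀ T : DTree n,
    (ofDTree T).eval x = T.eval x
  | .answer b => rfl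
  | .read i t₀ t₁ => by
    simp only [ofDTree, Prog.eval, DTree.eval]
    cases x i
    · simp [ofDTree_eval x t₀]
    · simp [ofDTree_eval x t₁]

theorem ofDTree_depth {n : ℕ} : ∀ T : DTree n, (ofDTree T).depth = T.depth
  | .answer b => rfl
  | .read i t₀ t₁ => by
    simp only [ofDTree, Prog.depth, DTree.depth]
    simp [ofDTree_depth t₀, ofDTree_depth t₁]

/-- renaming the indices of a program -/
def ren {ι ι' α : Type} (g : ι → ι') : Prog ι α → Prog ι' α
  | .ret a => .ret a
  | .ask i k => .ask (g i) (fun b => ren g (k b))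

theorem ren_eval {ι ι' α : Type} (g : ι → ι') (y : ι' → Bool) : ∀ T : Prog ι α,
    (ren g T).eval y = T.eval (fun i => y (g i))
  | .ret a => rfl
  | .ask i k => by
    simp only [ren, Prog.eval]
    exact ren_eval g y (k (y (g i)))

theorem ren_depth {ι ι' α : Type} (g : ι → ι') : ∀ T : Prog ι α,
    (ren g T).depth = T.depth
  | .ret a => rfl
  | .ask i k => by
    simp only [ren, Prog.depth]
    rw [ren_depth g (k false), ren_depth g (k true)]

end Tree

end Lower

open Lower in
/-- T10, with the existence of transcripts as a hypothesis: the randomized lower bound from a family of hard slot laws `DD j`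
(law of the slot content for column `j`): nonnegative, total mass one, indistinguishable from
uniform by depth-`d` programs, and decoding to `j` except with probability `ε`. -/
theorem lower_bound_core {ν κ K B : ℕ} (hκ : 0 < κ) (dec : (Fin B → Bool) → ℤ) (θ : ℝ)
    (DD : I ν → ((Fin K × (Fin κ × I ν)) → Bool) → ℝ)
    (hD0 : ∀ j f, 0 ≤ DD j f) (hD1 : ∀ j, ∑ f, DD j f = 1) (d : ℕ) (δ ε : ℝ)
    (hind : ∀ j (T : Prog (Fin K × (Fin κ × I ν)) Bool), T.depth ≤ d →
      |∑ f, DD j f * ind T f - avg (ind T)| ≤ δ)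
    (hdecode : ∀ j, (∑ f, (open Classical in
      if θ ≤ ∑ c, (vec (fun a i => if h : a < κ then f (c, (⟨a, h⟩, i)) else false) κ j : ℝ)
      then 0 else DD j f)) ≤ ε)
    (htr : ∀ (j : I ν) (f : (Fin K × (Fin κ × I ν)) → Bool),
      ∃ w : Fin K → Fin κ → Fin (ν + 1) → I ν → Fin B → Bool,
      (∀ c a i, dec (w c a 0 i) = sgz (f (c, (a, i))) *
        (if h : a.val = 0 then 1 else dec (w c ⟨a.val - 1, by omega⟩ (Fin.last ν) i))) ∧
      (∀ c a (t : Fin ν) i, dec (w c a t.succ i) =
        ∑ b : Bool, sgz (i t && b) * dec (w c a t.castSucc (Function.update i t b))) ∧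
      (∑ c, dec (w c ⟨κ - 1, by omega⟩ (Fin.last ν) j) =
        ∑ c, vec (fun a i => if h : a < κ then f (c, (⟨a, h⟩, i)) else false) κ j))
    {n : ℕ} (e : Idx ν κ K B ≃ Fin n) (r : ℕ)
    (hr : RandomizedComputes (fun x : Fin n → Bool => FF dec θ (fun i => x (e i))) r) :
    1 / 3 - ε ≤ 3 * r / (2 ^ ν) ^ 2 + r / (2 ^ ν * (d + 1)) + δ := by
  classical
  obtain ⟨N, p, T, hp0, hp1, hTd, hT⟩ := hr
  -- programs over `Idx`
  set T' : Fin N → Prog (Idx ν κ K B) Bool := fun k => ren e.symm (ofDTree (T k)) with hT'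
  have hT'd : ∀ k, (T' k).depth ≤ r := by
    intro k
    rw [hT', ren_depth, ofDTree_depth]
    exact hTd k
  have hT'e : ∀ k x, (T' k).eval x = (T k).eval (fun i => x (e.symm i)) := by
    intro k x
    rw [hT', ren_eval, ofDTree_eval]
  have hcor : ∀ x : Idx ν κ K B → Bool,
      2 / 3 ≤ ∑ k, if (T' k).eval x = FF dec θ x then p k else 0 := by
    intro x
    have := hT (fun i => x (e.symm i))
    simpa [hT'e] using this
  choose w hw1 hw2 hw3 using htr
  have hm : (0:ℝ) < 2 ^ ν := by positivity
  have hc : (Fintype.card (I ν) : ℝ) = 2 ^ ν := by simp [I]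
  set Z : ℝ := ((Fintype.card (I ν → I ν) : ℕ) : ℝ) with hZ
  set W : ℝ := ((Fintype.card (I ν → Sl ν κ K) : ℕ) : ℝ) with hW
  have hZ0 : 0 < Z := by
    rw [hZ]
    exact_mod_cast Fintype.card_pos
  have hW0 : 0 < W := by
    rw [hW]
    exact_mod_cast Fintype.card_pos
  -- upper side
  have hup : ∑ k, p k * ∑ z : I ν → I ν, ∑ Y : I ν → Sl ν κ K, a0 (T' k) z Y ≤ Z * W * (1 / 3) := by
    have e1 : ∑ k, p k * ∑ z : I ν → I ν, ∑ Y : I ν → Sl ν κ K, a0 (T' k) z Y =
        ∑ z : I ν → I ν, ∑ Y : I ν → Sl ν κ K, ∑ k, p k * a0 (T' k) z Y := by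
      simp only [Finset.mul_sum]
      rw [Finset.sum_comm]
      refine Finset.sum_congr rfl fun z _ => ?_
      rw [Finset.sum_comm]
    rw [e1]
    have e2 : ∀ (z : I ν → I ν) (Y : I ν → Sl ν κ K), ∑ k, p k * a0 (T' k) z Y ≤ 1 / 3 := by
      intro z Y
      have h1 := hcor (x0 z Y)
      rw [FF_x0] at h1
      have h2 : ∑ k, p k * a0 (T' k) z Y =
          ∑ k, p k - ∑ k, (if (T' k).eval (x0 z Y) = false then p k else 0) := by
        rw [← Finset.sum_sub_distrib]
        refine Finset.sum_congr rfl fun k _ => ?_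
        unfold a0
        cases (T' k).eval (x0 z Y) <;> simp
      rw [h2, hp1]
      linarith
    calc _ ≤ ∑ z : I ν → I ν, ∑ Y : I ν → Sl ν κ K, (1 / 3 : ℝ) :=
          Finset.sum_le_sum fun z _ => Finset.sum_le_sum fun Y _ => e2 z Y
      _ = _ := by
          simp only [Finset.sum_const, Finset.card_univ, nsmul_eq_mul]
          rw [← hZ, ← hW]
          ring
  -- lower side
  have hlow : (2 ^ ν) ^ 2 * (Z * W) * (2 / 3 * (1 - ε)) ≤
      ∑ k, p k * ∑ j, ∑ s, ∑ z : I ν → I ν, ∑ Y : I ν → Sl ν κ K, ∑ f, DD j f *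
      (if (T' k).eval (x1 j s (w j f) z (Function.update Y s f)) = true then (1:ℝ) else 0) := by
    have e1 : ∑ k, p k * ∑ j, ∑ s, ∑ z : I ν → I ν, ∑ Y : I ν → Sl ν κ K, ∑ f, DD j f *
      (if (T' k).eval (x1 j s (w j f) z (Function.update Y s f)) = true then (1:ℝ) else 0) =
      ∑ j, ∑ s, ∑ z : I ν → I ν, ∑ Y : I ν → Sl ν κ K, ∑ f, DD j f *
        ∑ k, p k * (if (T' k).eval (x1 j s (w j f) z (Function.update Y s f)) = true
          then (1:ℝ) else 0) := by
      simp only [Finset.mul_sum]
      rw [Finset.sum_comm]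
      refine Finset.sum_congr rfl fun j _ => ?_
      rw [Finset.sum_comm]
      refine Finset.sum_congr rfl fun s _ => ?_
      rw [Finset.sum_comm]
      refine Finset.sum_congr rfl fun z _ => ?_
      rw [Finset.sum_comm]
      refine Finset.sum_congr rfl fun Y _ => ?_
      rw [Finset.sum_comm]
      refine Finset.sum_congr rfl fun f _ => ?_
      refine Finset.sum_congr rfl fun k _ => ?_
      ring
    rw [e1]
    have e2 : ∀ (j s : I ν) (z : I ν → I ν) (Y : I ν → Sl ν κ K), 2 / 3 * (1 - ε) ≤
        ∑ f, DD j f * ∑ k, p k *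
          (if (T' k).eval (x1 j s (w j f) z (Function.update Y s f)) = true then (1:ℝ) else 0) := by
      intro j s z Y
      have h1 : ∀ f : Sl ν κ K, 2 / 3 * (DD j f - (if θ ≤ ∑ c, (vec (fun a i => if h : a < κ
          then f (c, (⟨a, h⟩, i)) else false) κ j : ℝ) then 0 else DD j f)) ≤
          DD j f * ∑ k, p k * (if (T' k).eval (x1 j s (w j f) z (Function.update Y s f)) = true
            then (1:ℝ) else 0) := by
        intro f
        split_ifs with hθ
        · have hF : FF dec θ (x1 j s (w j f) z (Function.update Y s f)) = true := by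
            refine FF_x1 hκ dec θ j s (w j f) z (Function.update Y s f) ?_ (hw2 j f) ?_ ?_
            · simpa using hw1 j f
            · simpa using hw3 j f
            · simpa using hθ
          have h2 := hcor (x1 j s (w j f) z (Function.update Y s f))
          rw [hF] at h2
          have h3 : ∑ k, p k * (if (T' k).eval (x1 j s (w j f) z (Function.update Y s f)) = true
              then (1:ℝ) else 0) = ∑ k, if (T' k).eval (x1 j s (w j f) z
              (Function.update Y s f)) = true then p k else 0 := by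
            refine Finset.sum_congr rfl fun k _ => ?_
            split_ifs <;> simp
          rw [h3]
          have := mul_le_mul_of_nonneg_left h2 (hD0 j f)
          linarith
        · rw [sub_self, mul_zero]
          refine mul_nonneg (hD0 j f) (Finset.sum_nonneg fun k _ => mul_nonneg (hp0 k) ?_)
          split_ifs <;> norm_num
      calc 2 / 3 * (1 - ε) ≤ 2 / 3 * (∑ f, DD j f - ∑ f, (if θ ≤ ∑ c, (vec (fun a i =>
          if h : a < κ then f (c, (⟨a, h⟩, i)) else false) κ j : ℝ) then 0 else DD j f)) := by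
            rw [hD1 j]
            have := hdecode j
            linarith
        _ = ∑ f, 2 / 3 * (DD j f - (if θ ≤ ∑ c, (vec (fun a i => if h : a < κ
          then f (c, (⟨a, h⟩, i)) else false) κ j : ℝ) then 0 else DD j f)) := by
            rw [← Finset.sum_sub_distrib, Finset.mul_sum]
        _ ≤ _ := Finset.sum_le_sum fun f _ => h1 f
    calc (2 ^ ν) ^ 2 * (Z * W) * (2 / 3 * (1 - ε)) =
        ∑ j : I ν, ∑ s : I ν, ∑ z : I ν → I ν, ∑ Y : I ν → Sl ν κ K, (2 / 3 * (1 - ε)) := by
          simp only [Finset.sum_const, Finset.card_univ, nsmul_eq_mul]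
          rw [← hZ, ← hW, hc]
          ring
      _ ≤ _ := Finset.sum_le_sum fun j _ => Finset.sum_le_sum fun s _ =>
          Finset.sum_le_sum fun z _ => Finset.sum_le_sum fun Y _ => e2 j s z Y
  have hmid : ∑ k, p k * ∑ j, ∑ s, ∑ z : I ν → I ν, ∑ Y : I ν → Sl ν κ K, ∑ f, DD j f *
      (if (T' k).eval (x1 j s (w j f) z (Function.update Y s f)) = true then (1:ℝ) else 0) ≤
      ∑ k, p k * ((2 ^ ν) ^ 2 * ∑ z : I ν → I ν, ∑ Y : I ν → Sl ν κ K, a0 (T' k) z Y +
      (2 ^ ν) ^ 2 * (Z * W) *
        (3 * r / (2 ^ ν) ^ 2 + r / (2 ^ ν * (d + 1)) + δ)) := by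
    refine Finset.sum_le_sum fun k _ => mul_le_mul_of_nonneg_left ?_ (hp0 k)
    exact main_T (T' k) r (hT'd k) d δ DD hD0 hind w
  have hsplit : ∑ k, p k * ((2 ^ ν) ^ 2 * ∑ z : I ν → I ν, ∑ Y : I ν → Sl ν κ K, a0 (T' k) z Y +
      (2 ^ ν) ^ 2 * (Z * W) *
        (3 * r / (2 ^ ν) ^ 2 + r / (2 ^ ν * (d + 1)) + δ)) =
      (2 ^ ν) ^ 2 * (∑ k, p k * ∑ z : I ν → I ν, ∑ Y : I ν → Sl ν κ K, a0 (T' k) z Y) +
      (2 ^ ν) ^ 2 * (Z * W) *
        (3 * r / (2 ^ ν) ^ 2 + r / (2 ^ ν * (d + 1)) + δ) := by
    simp only [mul_add, Finset.sum_add_distrib]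
    simp only [← Finset.sum_mul, hp1, one_mul]
    rw [Finset.mul_sum]
    congr 1
    refine Finset.sum_congr rfl fun k _ => ?_
    ring
  have hε : 0 ≤ ε := by
    refine le_trans ?_ (hdecode (fun _ => false))
    refine Finset.sum_nonneg fun f _ => ?_
    split_ifs
    · exact le_rfl
    · exact hD0 _ _
  have hfin : (2 ^ ν) ^ 2 * (Z * W) * (2 / 3 * (1 - ε)) ≤ (2 ^ ν) ^ 2 * (Z * W * (1 / 3)) +
      (2 ^ ν) ^ 2 * (Z * W) *
        (3 * r / (2 ^ ν) ^ 2 + r / (2 ^ ν * (d + 1)) + δ) := by
    refine hlow.trans (hmid.trans ?_)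
    rw [hsplit]
    have := mul_le_mul_of_nonneg_left hup (by positivity : (0:ℝ) ≤ (2 ^ ν) ^ 2)
    linarith
  have hpos : (0:ℝ) < (2 ^ ν) ^ 2 * (Z * W) := by positivity
  have hfin2 : (2 ^ ν) ^ 2 * (Z * W) * (2 / 3 * (1 - ε)) ≤ (2 ^ ν) ^ 2 * (Z * W) * (1 / 3 +
        (3 * r / (2 ^ ν) ^ 2 + r / (2 ^ ν * (d + 1)) + δ)) := by linarith
  have := le_of_mul_le_mul_left hfin2 hpos
  linarith

end Crest.Agent.S0554
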