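import Crest.Agent.SG_Defs

/-! # SG_A1 : conditional expectations on a finite leveled space (task SG-A1)
All elementary finite sums. -/

set_option autoImplicit false
noncomputable section
open scoped BigOperators
open Classical
namespace Crest.SG

variable {R : ℕ} {Ω : Type} [Fintype Ω] (S : Lev R Ω) {P : Ω → ℝ}

theorem rel_le {i j : ℕ} (h : i ≤ j) {ω ω' : Ω} (hr : S.rel j ω ω') : S.rel i ω ω' := by
  induction h with
  | refl => exact hr
  | step _ ih => exact ih (S.mono _ _ _ hr)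

private theorem rel_iff {j : ℕ} {ω ω' : Ω} (h : S.rel j ω ω') (x : Ω) :
    S.rel j ω x ↔ S.rel j ω' x :=
  ⟨fun hx => S.trans _ _ _ _ (S.symm _ _ _ h) hx, fun hx => S.trans _ _ _ _ h hx⟩

theorem cls_pos (hP : PathLaw P) (j : ℕ) (ω : Ω) : 0 < cls S P j ω := by
  unfold cls
  refine Finset.sum_pos' (fun x _ => ?_) ⟨ω, Finset.mem_univ _, ?_⟩
  · split_ifs
    · exact (hP.pos x).le
    · exact le_rfl
  · rw [if_pos (S.refl j ω)]
    exact hP.pos ω

theorem cls_congr (j : ℕ) {ω ω' : Ω} (h : S.rel j ω ω') : cls S P j ω = cls S P j ω' := by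
  unfold cls
  refine Finset.sum_congr rfl fun x _ => ?_
  simp only [rel_iff S h x]

theorem Kf_nonneg (hP : PathLaw P) (j : ℕ) (ω ω' : Ω) : 0 ≤ Kf S P j ω ω' := by
  unfold Kf
  split_ifs
  · exact div_nonneg (hP.pos _).le (cls_pos S hP j ω).le
  · exact le_rfl

private theorem Kf_eq_div (j : ℕ) (ω ω' : Ω) :
    Kf S P j ω ω' = (if S.rel j ω ω' then P ω' else 0) / cls S P j ω := by
  unfold Kf
  split_ifs
  · rfl
  · rw [zero_div]

theorem Kf_sum (hP : PathLaw P) (j : ℕ) (ω : Ω) : ∑ ω', Kf S P j ω ω' = 1 := by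
  simp only [Kf_eq_div]
  rw [← Finset.sum_div]
  exact div_self (cls_pos S hP j ω).ne'

theorem Kf_congr (j : ℕ) {ω ω' : Ω} (h : S.rel j ω ω') (x : Ω) :
    Kf S P j ω x = Kf S P j ω' x := by
  unfold Kf
  simp only [rel_iff S h x, cls_congr S j h]

theorem Kf_zero (hP : PathLaw P) (ω ω' : Ω) : Kf S P 0 ω ω' = P ω' := by
  unfold Kf
  rw [if_pos (S.zero ω ω')]
  have : cls S P 0 ω = 1 := by
    unfold cls
    simp only [S.zero, if_true]
    exact hP.sum
  rw [this, div_one]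

private theorem rel_top {j : ℕ} (hj : R ≤ j) (ω ω' : Ω) : S.rel j ω ω' ↔ ω = ω' :=
  ⟨fun h => S.top _ _ (rel_le S hj h), fun h => h ▸ S.refl j ω⟩

theorem Kf_top (hP : PathLaw P) {j : ℕ} (hj : R ≤ j) (ω ω' : Ω) :
    Kf S P j ω ω' = if ω = ω' then 1 else 0 := by
  unfold Kf
  have hc : cls S P j ω = P ω := by
    unfold cls
    simp only [rel_top S hj]
    simp
  by_cases h : ω = ω'
  · subst h
    rw [if_pos (S.refl j ω), if_pos rfl, hc, div_self (hP.pos ω).ne']
  · rw [if_neg (fun hr => h ((rel_top S hj _ _).1 hr)), if_neg h]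

theorem ce_congr {j : ℕ} {F G : Ω → ℝ} (h : ∀ ω, F ω = G ω) (ω : Ω) :
    ce S P j F ω = ce S P j G ω := by
  have : F = G := funext h
  rw [this]

/-- only the values on the class matter. -/
theorem ce_congr_rel {j : ℕ} {F G : Ω → ℝ} (ω : Ω) (h : ∀ ω', S.rel j ω ω' → F ω' = G ω') :
    ce S P j F ω = ce S P j G ω := by
  unfold ce
  refine Finset.sum_congr rfl fun x _ => ?_
  by_cases hr : S.rel j ω x
  · rw [h x hr]
  · unfold Kf
    rw [if_neg hr, zero_mul, zero_mul]

theorem ce_add (j : ℕ) (F G : Ω → ℝ) (ω : Ω) :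
    ce S P j (fun x => F x + G x) ω = ce S P j F ω + ce S P j G ω := by
  simp only [ce, mul_add, Finset.sum_add_distrib]

theorem ce_sub (j : ℕ) (F G : Ω → ℝ) (ω : Ω) :
    ce S P j (fun x => F x - G x) ω = ce S P j F ω - ce S P j G ω := by
  simp only [ce, mul_sub, Finset.sum_sub_distrib]

theorem ce_const_mul (j : ℕ) (c : ℝ) (F : Ω → ℝ) (ω : Ω) :
    ce S P j (fun x => c * F x) ω = c * ce S P j F ω := by
  simp only [ce, Finset.mul_sum]
  exact Finset.sum_congr rfl fun x _ => by ring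

theorem ce_sum {κ : Type} (s : Finset κ) (j : ℕ) (F : κ → Ω → ℝ) (ω : Ω) :
    ce S P j (fun x => ∑ a ∈ s, F a x) ω = ∑ a ∈ s, ce S P j (F a) ω := by
  simp only [ce, Finset.mul_sum]
  rw [Finset.sum_comm]

theorem ce_const (hP : PathLaw P) (j : ℕ) (c : ℝ) (ω : Ω) : ce S P j (fun _ => c) ω = c := by
  simp only [ce, ← Finset.sum_mul, Kf_sum S hP, one_mul]

theorem ce_mono (hP : PathLaw P) (j : ℕ) {F G : Ω → ℝ} (h : ∀ x, F x ≤ G x) (ω : Ω) :
    ce S P j F ω ≤ ce S P j G ω :=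
  Finset.sum_le_sum fun x _ => mul_le_mul_of_nonneg_left (h x) (Kf_nonneg S hP j ω x)

theorem ce_nonneg (hP : PathLaw P) (j : ℕ) {F : Ω → ℝ} (h : ∀ x, 0 ≤ F x) (ω : Ω) :
    0 ≤ ce S P j F ω :=
  Finset.sum_nonneg fun x _ => mul_nonneg (Kf_nonneg S hP j ω x) (h x)

theorem ce_pos (hP : PathLaw P) (j : ℕ) {F : Ω → ℝ} (h : ∀ x, 0 < F x) (ω : Ω) :
    0 < ce S P j F ω := by
  refine Finset.sum_pos' (fun x _ => mul_nonneg (Kf_nonneg S hP j ω x) (h x).le)
    ⟨ω, Finset.mem_univ _, mul_pos ?_ (h ω)⟩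
  unfold Kf
  rw [if_pos (S.refl j ω)]
  exact div_pos (hP.pos ω) (cls_pos S hP j ω)

theorem abs_ce_le (hP : PathLaw P) (j : ℕ) {F : Ω → ℝ} {B : ℝ} (h : ∀ x, |F x| ≤ B) (ω : Ω) :
    |ce S P j F ω| ≤ B := by
  rw [abs_le]
  constructor
  · have := ce_mono S hP j (F := fun _ => -B) (G := F) (fun x => (abs_le.1 (h x)).1) ω
    rwa [ce_const S hP] at this
  · have := ce_mono S hP j (F := F) (G := fun _ => B) (fun x => (abs_le.1 (h x)).2) ω
    rwa [ce_const S hP] at this

theorem ce_inv (j : ℕ) (F : Ω → ℝ) : Inv S j (ce S P j F) := by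
  intro ω ω' h
  unfold ce
  exact Finset.sum_congr rfl fun x _ => by rw [Kf_congr S j h x]

theorem Inv_mono {i j : ℕ} (h : i ≤ j) {F : Ω → ℝ} (hF : Inv S i F) : Inv S j F :=
  fun _ _ hr => hF _ _ (rel_le S h hr)

theorem ce_of_inv (hP : PathLaw P) {j : ℕ} {F : Ω → ℝ} (hF : Inv S j F) (ω : Ω) :
    ce S P j F ω = F ω := by
  rw [ce_congr_rel S (G := fun _ => F ω) ω (fun x hx => (hF _ _ hx).symm), ce_const S hP]

theorem ce_mul_inv (j : ℕ) {G : Ω → ℝ} (hG : Inv S j G) (F : Ω → ℝ) (ω : Ω) :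
    ce S P j (fun x => G x * F x) ω = G ω * ce S P j F ω := by
  rw [← ce_const_mul]
  exact ce_congr_rel S ω fun x hx => by rw [hG _ _ hx]

private theorem Kf_Kf (hP : PathLaw P) {i j : ℕ} (h : i ≤ j) (ω x : Ω) :
    ∑ ω', Kf S P i ω ω' * Kf S P j ω' x = Kf S P i ω x := by
  by_cases hx : S.rel i ω x
  · have hterm : ∀ ω', Kf S P i ω ω' * Kf S P j ω' x =
        (if S.rel j x ω' then P ω' else 0) * (P x / (cls S P i ω * cls S P j x)) := by
      intro ω'
      by_cases hr : S.rel j x ω'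
      · have h1 : S.rel i ω ω' := S.trans _ _ _ _ hx (rel_le S h hr)
        have h2 : S.rel j ω' x := S.symm _ _ _ hr
        unfold Kf
        rw [if_pos h1, if_pos h2, if_pos hr, cls_congr S j h2]
        have a := (cls_pos S hP i ω).ne'
        have b := (cls_pos S hP j x).ne'
        field_simp
      · have h2 : ¬ S.rel j ω' x := fun h' => hr (S.symm _ _ _ h')
        rw [if_neg hr, zero_mul]
        unfold Kf
        rw [if_neg h2, mul_zero]
    simp only [hterm]
    rw [← Finset.sum_mul]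
    change cls S P j x * _ = _
    unfold Kf
    rw [if_pos hx]
    have a := (cls_pos S hP i ω).ne'
    have b := (cls_pos S hP j x).ne'
    field_simp
  · have hterm : ∀ ω', Kf S P i ω ω' * Kf S P j ω' x = 0 := by
      intro ω'
      unfold Kf
      by_cases h1 : S.rel i ω ω'
      · have h2 : ¬ S.rel j ω' x := fun h' => hx (S.trans _ _ _ _ h1 (rel_le S h h'))
        rw [if_neg h2, mul_zero]
      · rw [if_neg h1, zero_mul]
    simp only [hterm, Finset.sum_const_zero]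
    unfold Kf
    rw [if_neg hx]

theorem ce_ce_of_le (hP : PathLaw P) {i j : ℕ} (h : i ≤ j) (F : Ω → ℝ) (ω : Ω) :
    ce S P i (ce S P j F) ω = ce S P i F ω := by
  have h1 : ce S P i (ce S P j F) ω = ∑ x, (∑ ω', Kf S P i ω ω' * Kf S P j ω' x) * F x := by
    simp only [ce, Finset.mul_sum, Finset.sum_mul]
    rw [Finset.sum_comm]
    exact Finset.sum_congr rfl fun x _ => Finset.sum_congr rfl fun y _ => by ring
  rw [h1]
  simp only [Kf_Kf S hP h]
  rfl

theorem ce_ce_of_ge (hP : PathLaw P) {i j : ℕ} (h : i ≤ j) (F : Ω → ℝ) (ω : Ω) :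
    ce S P j (ce S P i F) ω = ce S P i F ω :=
  ce_of_inv S hP (Inv_mono S h (ce_inv S i F)) ω

theorem ce_zero (hP : PathLaw P) (F : Ω → ℝ) (ω : Ω) : ce S P 0 F ω = ex P F := by
  simp only [ce, ex, Kf_zero S hP]

theorem ce_top (hP : PathLaw P) {j : ℕ} (hj : R ≤ j) (F : Ω → ℝ) (ω : Ω) :
    ce S P j F ω = F ω := by
  simp [ce, Kf_top S hP hj]

theorem ex_ce (hP : PathLaw P) (j : ℕ) (F : Ω → ℝ) : ex P (ce S P j F) = ex P F := by
  by_cases hne : Nonempty Ω
  · obtain ⟨ω⟩ := hne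
    rw [← ce_zero S hP _ ω, ← ce_zero S hP F ω]
    exact ce_ce_of_le S hP (Nat.zero_le j) F ω
  · rw [not_nonempty_iff] at hne
    simp [ex]

theorem ex_mul_ce (hP : PathLaw P) (j : ℕ) (F G : Ω → ℝ) :
    ex P (fun ω => G ω * ce S P j F ω) = ex P (fun ω => ce S P j G ω * ce S P j F ω) := by
  rw [← ex_ce S hP j (fun ω => G ω * ce S P j F ω)]
  congr 1
  funext ω
  have h := ce_mul_inv S (P := P) j (ce_inv S (P := P) j F) G ω
  rw [mul_comm (ce S P j G ω), ← h]
  exact ce_congr S (fun x => by ring) ω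

theorem ce_sq_le (hP : PathLaw P) (j : ℕ) (F : Ω → ℝ) (ω : Ω) :
    (ce S P j F ω) ^ 2 ≤ ce S P j (fun x => (F x) ^ 2) ω := by
  set c := ce S P j F ω with hc
  have h0 : 0 ≤ ce S P j (fun x => (F x - c) ^ 2) ω :=
    ce_nonneg S hP j (fun x => sq_nonneg _) ω
  have h1 : ce S P j (fun x => (F x - c) ^ 2) ω = ce S P j (fun x => (F x) ^ 2) ω - c ^ 2 := by
    have : (fun x => (F x - c) ^ 2) = fun x => ((F x) ^ 2 - (2 * c) * F x) + c ^ 2 := by
      funext x; ring
    rw [this, ce_add, ce_sub, ce_const_mul, ce_const S hP, ← hc]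
    ring
  linarith

private theorem ex_add' (F G : Ω → ℝ) : ex P (fun x => F x + G x) = ex P F + ex P G := by
  simp only [ex, mul_add, Finset.sum_add_distrib]

private theorem ex_sub' (F G : Ω → ℝ) : ex P (fun x => F x - G x) = ex P F - ex P G := by
  simp only [ex, mul_sub, Finset.sum_sub_distrib]

private theorem ex_const_mul' (c : ℝ) (F : Ω → ℝ) : ex P (fun x => c * F x) = c * ex P F := by
  simp only [ex, Finset.mul_sum]
  exact Finset.sum_congr rfl fun x _ => by ring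

/-- Pythagoras for martingale increments. -/
theorem ex_ce_sub_sq (hP : PathLaw P) {i j : ℕ} (h : i ≤ j) (F : Ω → ℝ) :
    ex P (fun ω => (ce S P j F ω - ce S P i F ω) ^ 2) =
      ex P (fun ω => (ce S P j F ω) ^ 2) - ex P (fun ω => (ce S P i F ω) ^ 2) := by
  have hcross : ex P (fun ω => ce S P j F ω * ce S P i F ω) =
      ex P (fun ω => (ce S P i F ω) ^ 2) := by
    rw [ex_mul_ce S hP i F (ce S P j F)]
    congr 1
    funext ω
    rw [ce_ce_of_le S hP h, sq]
  have hexp : (fun ω => (ce S P j F ω - ce S P i F ω) ^ 2) = fun ω =>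
      ((ce S P j F ω) ^ 2 - 2 * (ce S P j F ω * ce S P i F ω)) + (ce S P i F ω) ^ 2 := by
    funext ω; ring
  rw [hexp, ex_add', ex_sub', ex_const_mul', hcross]
  ring

/-- the conditional expectation of a positive multiple of `P` (Bayes). -/
theorem ce_bayes (hP : PathLaw P) {d : Ω → ℝ} (hd : ∀ ω, 0 < d ω) (j : ℕ) (F : Ω → ℝ) (ω : Ω) :
    ce S (fun x => P x * d x) j F ω = ce S P j (fun x => F x * d x) ω / ce S P j d ω := by
  have hc := cls_pos S hP j ω
  have hnum : ∀ G : Ω → ℝ, ce S P j G ω = (∑ x, (if S.rel j ω x then P x * G x else 0)) / cls S P j ω := by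
    intro G
    unfold ce
    simp only [Kf_eq_div]
    rw [Finset.sum_div]
    refine Finset.sum_congr rfl fun x _ => ?_
    split_ifs
    · ring
    · ring
  have hcls : cls S (fun x => P x * d x) j ω = cls S P j ω * ce S P j d ω := by
    rw [hnum d]
    unfold cls
    rw [mul_div_cancel₀]
    exact hc.ne'
  have hleft : ce S (fun x => P x * d x) j F ω =
      (∑ x, (if S.rel j ω x then P x * (F x * d x) else 0)) / cls S (fun x => P x * d x) j ω := by
    unfold ce
    simp only [Kf_eq_div]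
    rw [Finset.sum_div]
    refine Finset.sum_congr rfl fun x _ => ?_
    split_ifs
    · ring
    · ring
  rw [hleft, hcls, hnum (fun x => F x * d x), div_div]

end Crest.SG
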