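import Crest.Agent.SG_A1

/-! # SG_A2 : the power-mean recursion `T` (task SG-A2) -/

set_option autoImplicit false
noncomputable section
open scoped BigOperators
open Classical
namespace Crest.SG

variable {R : ℕ} {Ω : Type} [Fintype Ω] (S : Lev R Ω) {m : ℕ → ℝ} {P W V : Ω → ℝ}

/-- downward induction from `R`. -/
private theorem A2_down {R : ℕ} {p : ℕ → Prop} (hR : p R) (h : ∀ j, j < R → p (j + 1) → p j) :
    ∀ j, j ≤ R → p j := by
  intro j hj
  obtain ⟨k, hk⟩ := Nat.exists_eq_add_of_le hj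
  induction k generalizing j with
  | zero =>
    have : j = R := by omega
    rw [this]; exact hR
  | succ k ih =>
    have hlt : j < R := by omega
    exact h j hlt (ih (j + 1) hlt (by omega))

private theorem A2_rpow_inv {x a : ℝ} (hx : 0 ≤ x) (ha : 0 < a) : (x ^ a) ^ (1 / a) = x := by
  rw [← Real.rpow_mul hx, mul_one_div_cancel ha.ne', Real.rpow_one]

private theorem A2_inv_rpow {x a : ℝ} (hx : 0 ≤ x) (ha : 0 < a) : (x ^ (1 / a)) ^ a = x := by
  rw [← Real.rpow_mul hx, one_div_mul_cancel ha.ne', Real.rpow_one]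

theorem Expo.pos (E : Expo R m) {j : ℕ} (hj : 0 < j) (hjR : j ≤ R) : 0 < m j := by
  induction j with
  | zero => exact absurd hj (lt_irrefl _)
  | succ k ih =>
    have h1 := E.lt k (by omega)
    rcases Nat.eq_zero_or_pos k with rfl | hk
    · rw [E.zero] at h1
      exact h1
    · exact (ih hk (by omega)).trans h1

theorem Expo.Rpos (E : Expo R m) : 0 < R := by
  rcases Nat.eq_zero_or_pos R with h | h
  · have h0 := E.zero
    have h1 := E.one
    rw [h] at h1
    rw [h0] at h1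
    exact absurd h1 (by norm_num)
  · exact h

theorem Expo.del_pos (E : Expo R m) {j : ℕ} (hj : j < R) : 0 < Del m j :=
  sub_pos.2 (E.lt j hj)

/-- `∑_{j<a} Δ_j = m_a`. -/
theorem Expo.sum_del (E : Expo R m) {a : ℕ} (ha : a ≤ R) :
    ∑ j ∈ Finset.range a, Del m j = m a := by
  unfold Del
  rw [Finset.sum_range_sub, E.zero, sub_zero]

theorem Expo.sum_del_fin (E : Expo R m) : ∑ j : Fin R, Del m (j : ℕ) = 1 := by
  rw [← E.one, ← E.sum_del le_rfl, Finset.sum_range]

theorem T_R : T S m P W R = W := by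
  unfold T
  rw [Nat.sub_self]
  rfl

theorem T_step {j : ℕ} (hj : j < R) (ω : Ω) :
    T S m P W j ω = (ce S P j (fun ω' => (T S m P W (j + 1) ω') ^ (m (j + 1))) ω) ^
      (1 / m (j + 1)) := by
  unfold T
  have h1 : R - j = (R - (j + 1)) + 1 := by omega
  rw [h1]
  have h2 : R - (R - (j + 1) + 1) = j := by omega
  have h3 : R - (R - (j + 1)) = j + 1 := by omega
  show (ce S P (R - (R - (j + 1) + 1)) (fun ω' => (Tdown S m P W (R - (j + 1)) ω') ^
    (m (R - (R - (j + 1))))) ω) ^ (1 / m (R - (R - (j + 1)))) = _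
  rw [h2, h3]

theorem T_pos (hP : PathLaw P) (hW : ∀ ω, 0 < W ω) (j : ℕ) (ω : Ω) :
    0 < T S m P W j ω := by
  have key : ∀ i ω, 0 < Tdown S m P W i ω := by
    intro i
    induction i with
    | zero => exact hW
    | succ i ih =>
      intro ω
      exact Real.rpow_pos_of_pos (ce_pos S hP _ (fun x => Real.rpow_pos_of_pos (ih x) _) ω) _
  exact key _ ω

theorem T_rpow (E : Expo R m) (hP : PathLaw P) (hW : ∀ ω, 0 < W ω) {j : ℕ} (hj : j < R) (ω : Ω) :
    (T S m P W j ω) ^ (m (j + 1)) =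
      ce S P j (fun ω' => (T S m P W (j + 1) ω') ^ (m (j + 1))) ω := by
  rw [T_step S hj]
  exact A2_inv_rpow (ce_nonneg S hP j
    (fun x => (Real.rpow_pos_of_pos (T_pos S hP hW (j + 1) x) _).le) ω)
    (E.pos (Nat.succ_pos j) hj)

theorem T_inv (hP : PathLaw P) {j : ℕ} (hj : j ≤ R) : Inv S j (T S m P W j) := by
  rcases hj.eq_or_lt with rfl | hj
  · intro ω ω' h
    rw [S.top ω ω' h]
  · intro ω ω' h
    rw [T_step S hj, T_step S hj, ce_inv S (P := P) j _ ω ω' h]

theorem T_le_of_le (E : Expo R m) (hP : PathLaw P) (hW : ∀ ω, 0 < W ω)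
    (h : ∀ ω, W ω ≤ V ω) {j : ℕ} (hj : j ≤ R) (ω : Ω) : T S m P W j ω ≤ T S m P V j ω := by
  revert ω
  refine A2_down (p := fun j => ∀ ω, T S m P W j ω ≤ T S m P V j ω) ?_ ?_ j hj
  · intro ω
    rw [T_R, T_R]
    exact h ω
  · intro j hj ih ω
    have hm := E.pos (Nat.succ_pos j) hj
    rw [T_step S hj, T_step S hj]
    refine Real.rpow_le_rpow ?_ ?_ (by positivity)
    · exact ce_nonneg S hP j (fun x => (Real.rpow_pos_of_pos (T_pos S hP hW (j + 1) x) _).le) ω
    · exact ce_mono S hP j (fun x => Real.rpow_le_rpow (T_pos S hP hW (j + 1) x).le (ih x) hm.le) ω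

theorem T_const (E : Expo R m) (hP : PathLaw P) {c : ℝ} (hc : 0 < c) {j : ℕ} (hj : j ≤ R) (ω : Ω) :
    T S m P (fun _ => c) j ω = c := by
  revert ω
  refine A2_down (p := fun j => ∀ ω, T S m P (fun _ => c) j ω = c) ?_ ?_ j hj
  · intro ω
    rw [T_R]
  · intro j hj ih ω
    have hm := E.pos (Nat.succ_pos j) hj
    rw [T_step S hj, ce_congr S (G := fun _ => c ^ (m (j + 1))) (fun x => by rw [ih x]) ω,
      ce_const S hP, A2_rpow_inv hc.le hm]

/-- an `Inv i` positive factor can be pulled out of `T_j` for `j ≥ i`. -/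
theorem T_mul_inv (E : Expo R m) (hP : PathLaw P) (hW : ∀ ω, 0 < W ω) {i : ℕ} {G : Ω → ℝ}
    (hG : Inv S i G) (hGp : ∀ ω, 0 < G ω) {j : ℕ} (hij : i ≤ j) (hj : j ≤ R) (ω : Ω) :
    T S m P (fun x => G x * W x) j ω = G ω * T S m P W j ω := by
  revert ω
  refine A2_down (p := fun j => i ≤ j → ∀ ω, T S m P (fun x => G x * W x) j ω =
    G ω * T S m P W j ω) ?_ ?_ j hj hij
  · intro _ ω
    rw [T_R, T_R]
  · intro j hj ih hij ω
    have hm := E.pos (Nat.succ_pos j) hj
    have hGj : Inv S j (fun x => G x ^ (m (j + 1))) := by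
      intro x y hxy
      show G x ^ _ = G y ^ _
      rw [Inv_mono S hij hG x y hxy]
    rw [T_step S hj, T_step S hj,
      ce_congr S (G := fun x => G x ^ (m (j + 1)) * (T S m P W (j + 1) x) ^ (m (j + 1)))
        (fun x => by
          rw [ih (by omega) x, Real.mul_rpow (hGp x).le (T_pos S hP hW (j + 1) x).le]) ω,
      ce_mul_inv S j hGj, Real.mul_rpow (Real.rpow_nonneg (hGp ω).le _)
        (ce_nonneg S hP j
          (fun x => (Real.rpow_pos_of_pos (T_pos S hP hW (j + 1) x) _).le) ω),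
      A2_rpow_inv (hGp ω).le hm]

theorem T_const_mul (E : Expo R m) (hP : PathLaw P) (hW : ∀ ω, 0 < W ω) {c : ℝ} (hc : 0 < c)
    {j : ℕ} (hj : j ≤ R) (ω : Ω) :
    T S m P (fun x => c * W x) j ω = c * T S m P W j ω :=
  T_mul_inv S E hP hW (i := 0) (G := fun _ => c) (fun _ _ _ => rfl) (fun _ => hc)
    (Nat.zero_le j) hj ω

theorem le_T (E : Expo R m) (hP : PathLaw P) {lo : ℝ} (hlo : 0 < lo) (h : ∀ ω, lo ≤ W ω)
    {j : ℕ} (hj : j ≤ R) (ω : Ω) : lo ≤ T S m P W j ω := by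
  have := T_le_of_le S E hP (W := fun _ => lo) (V := W) (fun _ => hlo) h hj ω
  rwa [T_const S E hP hlo hj] at this

theorem T_le (E : Expo R m) (hP : PathLaw P) (hW : ∀ ω, 0 < W ω) {hi : ℝ} (h : ∀ ω, W ω ≤ hi)
    {j : ℕ} (hj : j ≤ R) (ω : Ω) : T S m P W j ω ≤ hi := by
  have hhi : 0 < hi := (hW ω).trans_le (h ω)
  have := T_le_of_le S E hP (W := W) (V := fun _ => hi) hW h hj ω
  rwa [T_const S E hP hhi hj] at this

/-- `LT0` is `log T_0(ω)` for any `ω`. -/
theorem LT0_eq (hP : PathLaw P) (ω : Ω) : LT0 S m P W = Real.log (T S m P W 0 ω) := by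
  unfold LT0
  have h : ∀ x, P x * Real.log (T S m P W 0 x) = P x * Real.log (T S m P W 0 ω) := by
    intro x
    rw [T_inv S hP (Nat.zero_le R) x ω (S.zero x ω)]
  rw [Finset.sum_congr rfl (fun x _ => h x), ← Finset.sum_mul, hP.sum, one_mul]

theorem LT0_const_mul (E : Expo R m) (hP : PathLaw P) (hW : ∀ ω, 0 < W ω) {c : ℝ} (hc : 0 < c) :
    LT0 S m P (fun x => c * W x) = Real.log c + LT0 S m P W := by
  unfold LT0
  have h : ∀ x, P x * Real.log (T S m P (fun x => c * W x) 0 x) =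
      P x * Real.log c + P x * Real.log (T S m P W 0 x) := by
    intro x
    rw [T_const_mul S E hP hW hc (Nat.zero_le R),
      Real.log_mul hc.ne' (T_pos S hP hW 0 x).ne']
    ring
  rw [Finset.sum_congr rfl (fun x _ => h x), Finset.sum_add_distrib, ← Finset.sum_mul, hP.sum,
    one_mul]

theorem LT0_mono (E : Expo R m) (hP : PathLaw P) (hW : ∀ ω, 0 < W ω) (h : ∀ ω, W ω ≤ V ω) :
    LT0 S m P W ≤ LT0 S m P V := by
  unfold LT0
  refine Finset.sum_le_sum fun x _ => ?_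
  exact mul_le_mul_of_nonneg_left
    (Real.log_le_log (T_pos S hP hW 0 x) (T_le_of_le S E hP hW h (Nat.zero_le R) x)) (hP.pos x).le

private theorem A2_lip_aux (E : Expo R m) (hP : PathLaw P) (hW : ∀ ω, 0 < W ω)
    (hV : ∀ ω, 0 < V ω) {δ : ℝ}
    (h : ∀ ω, |Real.log (W ω) - Real.log (V ω)| ≤ δ) :
    LT0 S m P W ≤ δ + LT0 S m P V := by
  have h1 : ∀ ω, W ω ≤ Real.exp δ * V ω := by
    intro ω
    have h2 := (abs_le.1 (h ω)).2
    have h3 : Real.log (W ω) ≤ δ + Real.log (V ω) := by linarith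
    calc W ω = Real.exp (Real.log (W ω)) := (Real.exp_log (hW ω)).symm
      _ ≤ Real.exp (δ + Real.log (V ω)) := Real.exp_le_exp.2 h3
      _ = Real.exp δ * V ω := by rw [Real.exp_add, Real.exp_log (hV ω)]
  have h4 := LT0_mono S E hP (m := m) hW h1
  rw [LT0_const_mul S E hP hV (Real.exp_pos δ), Real.log_exp] at h4
  exact h4

/-- Lipschitz in `log W`. -/
theorem LT0_lip (E : Expo R m) (hP : PathLaw P) (hW : ∀ ω, 0 < W ω) (hV : ∀ ω, 0 < V ω) {δ : ℝ}
    (h : ∀ ω, |Real.log (W ω) - Real.log (V ω)| ≤ δ) :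
    |LT0 S m P W - LT0 S m P V| ≤ δ := by
  have h1 := A2_lip_aux S E hP hW hV h
  have h2 := A2_lip_aux S E hP hV hW (fun ω => by rw [abs_sub_comm]; exact h ω)
  rw [abs_le]
  constructor <;> linarith

theorem LT0_one (E : Expo R m) (hP : PathLaw P) : LT0 S m P (fun _ => 1) = 0 := by
  unfold LT0
  refine Finset.sum_eq_zero fun x _ => ?_
  rw [T_const S E hP one_pos (Nat.zero_le R), Real.log_one, mul_zero]

/-- `|log T_0(W)| ≤ sup |log W|`. -/
theorem abs_LT0_le (E : Expo R m) (hP : PathLaw P) (hW : ∀ ω, 0 < W ω) {δ : ℝ}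
    (h : ∀ ω, |Real.log (W ω)| ≤ δ) : |LT0 S m P W| ≤ δ := by
  have := LT0_lip S E hP hW (V := fun _ => 1) (fun _ => one_pos) (δ := δ)
    (fun ω => by rw [Real.log_one, sub_zero]; exact h ω)
  rwa [LT0_one S E hP, sub_zero] at this

end Crest.SG
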