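import Crest.Agent.SG_A2

/-! # SG_A3 : the tilted path law (task SG-A3)

Key computation (downward induction on `j`): the density `d = tilt/P = W ∏_{i<R} T_i^{-Δ_i}`
satisfies `E_j d = T_j^{m_j} ∏_{i<j} T_i^{-Δ_i}`. -/

set_option autoImplicit false
noncomputable section
open scoped BigOperators
open Classical
namespace Crest.SG

variable {R : ℕ} {Ω : Type} [Fintype Ω] (S : Lev R Ω) {m : ℕ → ℝ} {P W V : Ω → ℝ}

/-- density of the tilt. -/
def dens (S : Lev R Ω) (m : ℕ → ℝ) (P W : Ω → ℝ) (ω : Ω) : ℝ :=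
  W ω * ∏ j ∈ Finset.range R, (T S m P W j ω) ^ (-(Del m j))

theorem tilt_eq (ω : Ω) : tilt S m P W ω = P ω * dens S m P W ω := by
  unfold tilt dens
  rw [mul_assoc]

theorem dens_pos (hP : PathLaw P) (hW : ∀ ω, 0 < W ω) (ω : Ω) : 0 < dens S m P W ω := by
  unfold dens
  exact mul_pos (hW ω) (Finset.prod_pos fun j _ => Real.rpow_pos_of_pos (T_pos S hP hW j ω) _)

theorem prodT_inv (hP : PathLaw P) {a j : ℕ} (ha : a ≤ j + 1) (hj : j ≤ R) :
    Inv S j (fun ω => ∏ i ∈ Finset.range a, (T S m P W i ω) ^ (-(Del m i))) := by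
  intro ω ω' h
  refine Finset.prod_congr rfl fun i hi => ?_
  have hi' := Finset.mem_range.mp hi
  rw [(Inv_mono S (by omega : i ≤ j) (T_inv S hP (by omega : i ≤ R))) ω ω' h]

theorem ce_dens (E : Expo R m) (hP : PathLaw P) (hW : ∀ ω, 0 < W ω) {j : ℕ} (hj : j ≤ R) (ω : Ω) :
    ce S P j (dens S m P W) ω =
      (T S m P W j ω) ^ (m j) * ∏ i ∈ Finset.range j, (T S m P W i ω) ^ (-(Del m i)) := by
  obtain ⟨k, rfl⟩ : ∃ k, j = R - k := ⟨R - j, by omega⟩
  have key : ∀ k, k ≤ R → ∀ ω, ce S P (R - k) (dens S m P W) ω =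
      (T S m P W (R - k) ω) ^ (m (R - k)) *
        ∏ i ∈ Finset.range (R - k), (T S m P W i ω) ^ (-(Del m i)) := by
    intro k
    induction k with
    | zero =>
      intro _ ω
      rw [Nat.sub_zero, ce_top S hP le_rfl, T_R, E.one, Real.rpow_one]
      rfl
    | succ k ih =>
      intro hk ω
      have ih' := ih (by omega)
      set j := R - (k + 1) with hjdef
      have hjk : R - k = j + 1 := by omega
      rw [hjk] at ih'
      have hjR : j < R := by omega
      rw [← ce_ce_of_le S hP (Nat.le_succ j) (dens S m P W) ω]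
      rw [ce_congr S (j := j) ih' ω]
      have h1 : ∀ x, (T S m P W (j + 1) x) ^ (m (j + 1)) *
          ∏ i ∈ Finset.range (j + 1), (T S m P W i x) ^ (-(Del m i)) =
          (∏ i ∈ Finset.range (j + 1), (T S m P W i x) ^ (-(Del m i))) *
            (T S m P W (j + 1) x) ^ (m (j + 1)) := fun x => mul_comm _ _
      rw [ce_congr S (j := j) h1 ω, ce_mul_inv S j (prodT_inv S hP le_rfl hjR.le),
        ← T_rpow S E hP hW hjR, Finset.prod_range_succ]
      have hT := T_pos S (m := m) hP hW j ω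
      have h2 : (T S m P W j ω) ^ (-(Del m j)) * (T S m P W j ω) ^ (m (j + 1)) =
          (T S m P W j ω) ^ (m j) := by
        rw [← Real.rpow_add hT]
        congr 1
        unfold Del; ring
      calc _ = (∏ x ∈ Finset.range j, T S m P W x ω ^ (-Del m x)) *
            ((T S m P W j ω) ^ (-(Del m j)) * (T S m P W j ω) ^ (m (j + 1))) := by ring
        _ = _ := by rw [h2]; ring
  have hk : k ≤ R ∨ R < k := le_or_gt k R
  rcases hk with hk | hk
  · exact key k hk ω
  · have : R - k = R - R := by omega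
    rw [this]
    exact key R le_rfl ω

theorem tilt_pathLaw (E : Expo R m) (hP : PathLaw P) (hW : ∀ ω, 0 < W ω) :
    PathLaw (tilt S m P W) := by
  refine ⟨fun ω => ?_, ?_⟩
  · rw [tilt_eq]; exact mul_pos (hP.pos ω) (dens_pos S hP hW ω)
  · have hne : Nonempty Ω := by
      by_contra h
      rw [not_nonempty_iff] at h
      have := hP.sum
      simp at this
    obtain ⟨ω⟩ := hne
    have h := ce_dens S E hP hW (Nat.zero_le R) ω
    rw [ce_zero S hP, E.zero, Real.rpow_zero] at h
    simp only [Finset.range_zero, Finset.prod_empty, mul_one] at h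
    simp only [tilt_eq]
    exact h

theorem ce_mul_dens (E : Expo R m) (hP : PathLaw P) (hW : ∀ ω, 0 < W ω) {j : ℕ} (hj : j < R)
    {F : Ω → ℝ} (hF : Inv S (j + 1) F) (ω : Ω) :
    ce S P j (fun x => F x * dens S m P W x) ω =
      (∏ i ∈ Finset.range (j + 1), (T S m P W i ω) ^ (-(Del m i))) *
        ce S P j (fun x => F x * (T S m P W (j + 1) x) ^ (m (j + 1))) ω := by
  rw [← ce_ce_of_le S hP (Nat.le_succ j) (fun x => F x * dens S m P W x) ω]
  have h1 : ∀ x, ce S P (j + 1) (fun x => F x * dens S m P W x) x =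
      (∏ i ∈ Finset.range (j + 1), (T S m P W i x) ^ (-(Del m i))) *
        (F x * (T S m P W (j + 1) x) ^ (m (j + 1))) := by
    intro x
    rw [ce_mul_inv S (j + 1) hF, ce_dens S E hP hW hj]
    ring
  rw [ce_congr S (j := j) h1 ω, ce_mul_inv S j (prodT_inv S hP le_rfl hj.le)]

/-- one-step formula for the tilted conditional expectation. -/
theorem ce_tilt_succ (E : Expo R m) (hP : PathLaw P) (hW : ∀ ω, 0 < W ω) {j : ℕ} (hj : j < R)
    {F : Ω → ℝ} (hF : Inv S (j + 1) F) (ω : Ω) :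
    ce S (tilt S m P W) j F ω =
      ce S P j (fun x => F x * (T S m P W (j + 1) x) ^ (m (j + 1))) ω /
        (T S m P W j ω) ^ (m (j + 1)) := by
  have h0 : tilt S m P W = fun x => P x * dens S m P W x := by
    funext x; exact tilt_eq S x
  rw [h0, ce_bayes S hP (dens_pos S hP hW) j F ω, ce_mul_dens S E hP hW hj hF,
    ce_dens S E hP hW hj.le, Finset.prod_range_succ]
  have hT := T_pos S (m := m) hP hW j ω
  have hA : 0 < ∏ i ∈ Finset.range j, (T S m P W i ω) ^ (-(Del m i)) :=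
    Finset.prod_pos fun i _ => Real.rpow_pos_of_pos (T_pos S hP hW i ω) _
  have h2 : (T S m P W j ω) ^ (m (j + 1)) =
      (T S m P W j ω) ^ (m j) * ((T S m P W j ω) ^ (-(Del m j)))⁻¹ := by
    rw [← Real.rpow_neg hT.le, ← Real.rpow_add hT]
    congr 1
    unfold Del; ring
  rw [h2]
  have hB := Real.rpow_pos_of_pos hT (m j)
  have hC := Real.rpow_pos_of_pos hT (-(Del m j))
  field_simp

/-- explicit density of the tilted kernel: `K^W_a(ω,ω')/K_a(ω,ω') = W ∏_{j<R} T_{max(j,a)}^{-Δ_j}`. -/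
theorem Kf_tilt (E : Expo R m) (hP : PathLaw P) (hW : ∀ ω, 0 < W ω) {a : ℕ} (ha : a < R)
    (ω ω' : Ω) :
    Kf S (tilt S m P W) a ω ω' = Kf S P a ω ω' *
      (W ω' * ∏ j ∈ Finset.range R, (T S m P W (max j a) ω') ^ (-(Del m j))) := by
  by_cases hr : S.rel a ω ω'
  · unfold Kf
    rw [if_pos hr, if_pos hr]
    have hcls : cls S (tilt S m P W) a ω = cls S P a ω * ce S P a (dens S m P W) ω := by
      have hc := cls_pos S hP a ω
      show (∑ x, if S.rel a ω x then tilt S m P W x else 0) =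
        cls S P a ω * ∑ x, Kf S P a ω x * dens S m P W x
      rw [Finset.mul_sum]
      refine Finset.sum_congr rfl fun x _ => ?_
      unfold Kf
      by_cases hx : S.rel a ω x
      · rw [if_pos hx, if_pos hx, tilt_eq]
        field_simp
      · rw [if_neg hx, if_neg hx]; ring
    rw [hcls, ce_dens S E hP hW ha.le, tilt_eq]
    have hcp := cls_pos S hP a ω
    have hTi : ∀ i, i ≤ a → T S m P W i ω = T S m P W i ω' := fun i hi =>
      (Inv_mono S hi (T_inv S hP (by omega : i ≤ R))) ω ω' hr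
    have hprod : ∏ i ∈ Finset.range a, (T S m P W i ω) ^ (-(Del m i)) =
        ∏ i ∈ Finset.range a, (T S m P W i ω') ^ (-(Del m i)) :=
      Finset.prod_congr rfl fun i hi => by
        rw [hTi i (Finset.mem_range.mp hi).le]
    rw [hprod, hTi a le_rfl]
    unfold dens
    have hsplit : ∀ f : ℕ → ℝ, ∏ i ∈ Finset.range R, f i =
        (∏ i ∈ Finset.range a, f i) * ∏ i ∈ Finset.Ico a R, f i := by
      intro f
      rw [Finset.prod_range_mul_prod_Ico f ha.le]
    rw [hsplit, hsplit (fun j => (T S m P W (max j a) ω') ^ (-(Del m j)))]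
    have h3 : ∏ i ∈ Finset.Ico a R, (T S m P W (max i a) ω') ^ (-(Del m i)) =
        ∏ i ∈ Finset.Ico a R, (T S m P W i ω') ^ (-(Del m i)) :=
      Finset.prod_congr rfl fun i hi => by
        rw [max_eq_left (Finset.mem_Ico.mp hi).1]
    have hT := T_pos S (m := m) hP hW a ω'
    have h4 : ∏ i ∈ Finset.range a, (T S m P W (max i a) ω') ^ (-(Del m i)) =
        ((T S m P W a ω') ^ (m a))⁻¹ := by
      rw [← Real.rpow_neg hT.le, ← E.sum_del ha.le, ← Finset.sum_neg_distrib,
        Real.rpow_sum_of_pos hT]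
      refine Finset.prod_congr rfl fun i hi => ?_
      rw [max_eq_right (Finset.mem_range.mp hi).le]
    rw [h3, h4]
    have hA : 0 < ∏ i ∈ Finset.range a, (T S m P W i ω') ^ (-(Del m i)) :=
      Finset.prod_pos fun i _ => Real.rpow_pos_of_pos (T_pos S hP hW i ω') _
    have hB := Real.rpow_pos_of_pos hT (m a)
    field_simp
  · unfold Kf
    rw [if_neg hr, if_neg hr, zero_mul]

theorem tilt_one (E : Expo R m) (hP : PathLaw P) (ω : Ω) :
    tilt S m P (fun _ => 1) ω = P ω := by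
  unfold tilt
  have : ∏ j ∈ Finset.range R, (T S m P (fun _ => 1) j ω) ^ (-(Del m j)) = 1 := by
    refine Finset.prod_eq_one fun j hj => ?_
    rw [T_const S E hP one_pos (Finset.mem_range.mp hj).le, Real.one_rpow]
  rw [this, mul_one, mul_one]

/-- composition of recursions. -/
theorem T_mul (E : Expo R m) (hP : PathLaw P) (hW : ∀ ω, 0 < W ω) (hV : ∀ ω, 0 < V ω)
    {j : ℕ} (hj : j ≤ R) (ω : Ω) :
    T S m P (fun x => W x * V x) j ω = T S m P W j ω * T S m (tilt S m P W) V j ω := by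
  have hQ := tilt_pathLaw S E hP hW
  have key : ∀ k, k ≤ R → ∀ ω, T S m P (fun x => W x * V x) (R - k) ω =
      T S m P W (R - k) ω * T S m (tilt S m P W) V (R - k) ω := by
    intro k
    induction k with
    | zero =>
      intro _ ω
      rw [Nat.sub_zero, T_R, T_R, T_R]
    | succ k ih =>
      intro hk ω
      have ih' := ih (by omega)
      set j := R - (k + 1) with hjdef
      have hjk : R - k = j + 1 := by omega
      rw [hjk] at ih'
      have hjR : j < R := by omega
      have hmp : 0 < m (j + 1) := E.pos (Nat.succ_pos j) hjR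
      rw [T_step S hjR]
      have h1 : ∀ x, (T S m P (fun x => W x * V x) (j + 1) x) ^ (m (j + 1)) =
          (T S m (tilt S m P W) V (j + 1) x) ^ (m (j + 1)) *
            (T S m P W (j + 1) x) ^ (m (j + 1)) := by
        intro x
        rw [ih' x, Real.mul_rpow (T_pos S hP hW _ _).le (T_pos S hQ hV _ _).le, mul_comm]
      rw [ce_congr S (j := j) h1 ω]
      have hF : Inv S (j + 1) (fun x => (T S m (tilt S m P W) V (j + 1) x) ^ (m (j + 1))) := by
        intro x y hxy
        show (T S m (tilt S m P W) V (j + 1) x) ^ (m (j + 1)) =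
          (T S m (tilt S m P W) V (j + 1) y) ^ (m (j + 1))
        rw [T_inv S hQ hjR x y hxy]
      have h2 := ce_tilt_succ S E hP hW hjR hF ω
      have hT := T_pos S (m := m) hP hW j ω
      have hTm := Real.rpow_pos_of_pos hT (m (j + 1))
      rw [eq_div_iff hTm.ne', ← T_rpow S E hQ hV hjR] at h2
      rw [← h2, ← Real.mul_rpow (T_pos S hQ hV _ _).le hT.le, ← Real.rpow_mul
        (mul_pos (T_pos S hQ hV _ _) hT).le, mul_one_div_cancel hmp.ne', Real.rpow_one, mul_comm]
  obtain ⟨k, hk, rfl⟩ : ∃ k, k ≤ R ∧ j = R - k := ⟨R - j, by omega, by omega⟩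
  exact key k hk ω

theorem tilt_mul (E : Expo R m) (hP : PathLaw P) (hW : ∀ ω, 0 < W ω) (hV : ∀ ω, 0 < V ω) (ω : Ω) :
    tilt S m P (fun x => W x * V x) ω = tilt S m (tilt S m P W) V ω := by
  have hQ := tilt_pathLaw S E hP hW
  have h1 : ∏ j ∈ Finset.range R, (T S m P (fun x => W x * V x) j ω) ^ (-(Del m j)) =
      (∏ j ∈ Finset.range R, (T S m P W j ω) ^ (-(Del m j))) *
        ∏ j ∈ Finset.range R, (T S m (tilt S m P W) V j ω) ^ (-(Del m j)) := by
    rw [← Finset.prod_mul_distrib]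
    refine Finset.prod_congr rfl fun j hj => ?_
    rw [T_mul S E hP hW hV (Finset.mem_range.mp hj).le,
      Real.mul_rpow (T_pos S hP hW _ _).le (T_pos S hQ hV _ _).le]
  have h2 : tilt S m (tilt S m P W) V ω = tilt S m P W ω * V ω *
      ∏ j ∈ Finset.range R, (T S m (tilt S m P W) V j ω) ^ (-(Del m j)) := rfl
  have h3 : tilt S m P W ω = P ω * W ω * ∏ j ∈ Finset.range R, (T S m P W j ω) ^ (-(Del m j)) :=
    rfl
  have h4 : tilt S m P (fun x => W x * V x) ω = P ω * (W ω * V ω) *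
      ∏ j ∈ Finset.range R, (T S m P (fun x => W x * V x) j ω) ^ (-(Del m j)) := rfl
  rw [h4, h1, h2, h3]
  ring

theorem LT0_mul (E : Expo R m) (hP : PathLaw P) (hW : ∀ ω, 0 < W ω) (hV : ∀ ω, 0 < V ω) :
    LT0 S m P (fun x => W x * V x) = LT0 S m P W + LT0 S m (tilt S m P W) V := by
  have hQ := tilt_pathLaw S E hP hW
  have hne : Nonempty Ω := by
    by_contra h
    rw [not_nonempty_iff] at h
    have := hP.sum
    simp at this
  obtain ⟨ω⟩ := hne
  rw [LT0_eq S hP ω, LT0_eq S hP ω, LT0_eq S hQ ω, T_mul S E hP hW hV (Nat.zero_le R),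
    Real.log_mul (T_pos S hP hW _ _).ne' (T_pos S hQ hV _ _).ne']

/-- two-sided bound on the kernel density when `lo ≤ W ≤ hi`. -/
theorem Kf_tilt_le (E : Expo R m) (hP : PathLaw P) {lo hi : ℝ} (hlo : 0 < lo)
    (h1 : ∀ ω, lo ≤ W ω) (h2 : ∀ ω, W ω ≤ hi) {a : ℕ} (ha : a < R) (ω ω' : Ω) :
    Kf S (tilt S m P W) a ω ω' ≤ (hi / lo) * Kf S P a ω ω' := by
  have hW : ∀ ω, 0 < W ω := fun ω => lt_of_lt_of_le hlo (h1 ω)
  rw [Kf_tilt S E hP hW ha, mul_comm]
  refine mul_le_mul_of_nonneg_right ?_ (Kf_nonneg S hP a ω ω')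
  have h3 : ∏ j ∈ Finset.range R, (T S m P W (max j a) ω') ^ (-(Del m j)) ≤ lo⁻¹ := by
    have h4 : lo⁻¹ = ∏ j ∈ Finset.range R, lo ^ (-(Del m j)) := by
      rw [← Real.rpow_sum_of_pos hlo, Finset.sum_neg_distrib, E.sum_del le_rfl, E.one,
        Real.rpow_neg_one]
    rw [h4]
    refine Finset.prod_le_prod (fun j _ => (Real.rpow_pos_of_pos (T_pos S hP hW _ _) _).le)
      fun j hj => ?_
    have hj' := Finset.mem_range.mp hj
    exact Real.rpow_le_rpow_of_nonpos hlo
      (le_T S E hP hlo h1 (by omega : max j a ≤ R) ω') (neg_nonpos.mpr (E.del_pos hj').le)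
  calc W ω' * ∏ j ∈ Finset.range R, (T S m P W (max j a) ω') ^ (-(Del m j)) ≤ hi * lo⁻¹ := by
        refine mul_le_mul (h2 ω') h3 ?_ ((hW ω').le.trans (h2 ω'))
        exact Finset.prod_nonneg fun j _ => (Real.rpow_pos_of_pos (T_pos S hP hW _ _) _).le
    _ = hi / lo := by rw [div_eq_mul_inv]

end Crest.SG
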