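import Crest.Agent.SG_A3

/-! # SG_A4 : derivatives of `T`, `LT0`, the tilted law and its conditional expectations
(task SG-A4).

`W y ω` depends on a real parameter `y`, differentiable at `x` with derivative `W' ω`;
`D ω = W' ω / W x ω` is the logarithmic derivative.
* `∂ log T_j = E_j^{W}[D]`: downward induction with `T_step`, `HasDerivAt.rpow_const`,
  `ce_tilt_succ`.
* `∂ log tilt = D - ∑_{i<R} Δ_i E_i^W[D]`.
* the kernel: `∂ (E_a^W F) = E_a^W(∂F) + E_a^W(F · S_a)`, `S_a(ω') = D(ω') - ∑_i Δ_i E_{max(i,a)}^W D (ω')`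
  (use `Kf_tilt`: the density is `W ∏ T_{max(j,a)}^{-Δ_j}`). -/

set_option autoImplicit false
noncomputable section
open scoped BigOperators
open Classical
namespace Crest.SG

variable {R : ℕ} {Ω : Type} [Fintype Ω] (S : Lev R Ω) {m : ℕ → ℝ} {P : Ω → ℝ}

theorem hasDerivAt_T (E : Expo R m) (hP : PathLaw P) {W : ℝ → Ω → ℝ} {W' : Ω → ℝ} {x : ℝ}
    (hW : ∀ ω, 0 < W x ω) (hd : ∀ ω, HasDerivAt (fun y => W y ω) (W' ω) x)
    {j : ℕ} (hj : j ≤ R) (ω : Ω) :
    HasDerivAt (fun y => T S m P (W y) j ω)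
      (T S m P (W x) j ω * ce S (tilt S m P (W x)) j (fun ω' => W' ω' / W x ω') ω) x := by
  have hQ := tilt_pathLaw S E hP hW
  have key : ∀ k, k ≤ R → ∀ ω, HasDerivAt (fun y => T S m P (W y) (R - k) ω)
      (T S m P (W x) (R - k) ω *
        ce S (tilt S m P (W x)) (R - k) (fun ω' => W' ω' / W x ω') ω) x := by
    intro k
    induction k with
    | zero =>
      intro _ ω
      rw [Nat.sub_zero, ce_top S hQ le_rfl]
      simp only [T_R]
      rw [mul_div_cancel₀ _ (hW ω).ne']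
      exact hd ω
    | succ k ih =>
      intro hk ω
      have ih' := ih (by omega)
      set j := R - (k + 1) with hjdef
      have hjk : R - k = j + 1 := by omega
      rw [hjk] at ih'
      have hjR : j < R := by omega
      have hmp : 0 < m (j + 1) := E.pos (Nat.succ_pos j) hjR
      set D : Ω → ℝ := fun ω' => W' ω' / W x ω' with hD
      have hfun : (fun y => T S m P (W y) j ω) = fun y =>
          (ce S P j (fun ω' => (T S m P (W y) (j + 1) ω') ^ (m (j + 1))) ω) ^ (1 / m (j + 1)) := by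
        funext y
        exact T_step S hjR ω
      rw [hfun]
      have hT := T_pos S (m := m) hP hW j ω
      have hTm := Real.rpow_pos_of_pos hT (m (j + 1))
      have hin : HasDerivAt
          (fun y => ce S P j (fun ω' => (T S m P (W y) (j + 1) ω') ^ (m (j + 1))) ω)
          (m (j + 1) * ((T S m P (W x) j ω) ^ (m (j + 1)) *
            ce S (tilt S m P (W x)) j D ω)) x := by
        have h1 : m (j + 1) * ((T S m P (W x) j ω) ^ (m (j + 1)) *
            ce S (tilt S m P (W x)) j D ω) = ∑ ω', Kf S P j ω ω' *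
              ((T S m P (W x) (j + 1) ω' * ce S (tilt S m P (W x)) (j + 1) D ω') * m (j + 1) *
                (T S m P (W x) (j + 1) ω') ^ (m (j + 1) - 1)) := by
          have h2 := ce_tilt_succ S E hP hW hjR
            (ce_inv S (P := tilt S m P (W x)) (j + 1) D) ω
          rw [ce_ce_of_le S hQ (Nat.le_succ j)] at h2
          rw [h2, mul_div_cancel₀ _ hTm.ne', ← ce_const_mul]
          refine Finset.sum_congr rfl fun ω' _ => ?_
          show Kf S P j ω ω' * (m (j + 1) * (ce S (tilt S m P (W x)) (j + 1) D ω' *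
            T S m P (W x) (j + 1) ω' ^ m (j + 1))) = _
          have hT' := T_pos S (m := m) hP hW (j + 1) ω'
          have h3 : (T S m P (W x) (j + 1) ω') ^ (m (j + 1)) =
              T S m P (W x) (j + 1) ω' * (T S m P (W x) (j + 1) ω') ^ (m (j + 1) - 1) := by
            rw [Real.rpow_sub_one hT'.ne']
            field_simp
          rw [h3]
          ring
        rw [h1]
        unfold ce
        refine HasDerivAt.fun_sum fun ω' _ => ?_
        refine HasDerivAt.const_mul _ ?_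
        exact (ih' ω').rpow_const (Or.inl (T_pos S (m := m) hP hW (j + 1) ω').ne')
      have hval : ce S P j (fun ω' => (T S m P (W x) (j + 1) ω') ^ (m (j + 1))) ω =
          (T S m P (W x) j ω) ^ (m (j + 1)) := (T_rpow S E hP hW hjR ω).symm
      have h4 := hin.rpow_const (p := 1 / m (j + 1)) (Or.inl (by rw [hval]; exact hTm.ne'))
      rw [hval] at h4
      refine h4.congr_deriv ?_
      rw [← Real.rpow_mul hT.le]
      have h5 : m (j + 1) * (1 / m (j + 1) - 1) = 1 - m (j + 1) := by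
        field_simp
      rw [h5]
      have h6 : (T S m P (W x) j ω) ^ (m (j + 1)) * (T S m P (W x) j ω) ^ (1 - m (j + 1)) =
          T S m P (W x) j ω := by
        rw [← Real.rpow_add hT]
        have : m (j + 1) + (1 - m (j + 1)) = 1 := by ring
        rw [this, Real.rpow_one]
      calc m (j + 1) * (T S m P (W x) j ω ^ m (j + 1) * ce S (tilt S m P (W x)) j D ω) *
            (1 / m (j + 1)) * T S m P (W x) j ω ^ (1 - m (j + 1))
          = (m (j + 1) * (1 / m (j + 1))) * (T S m P (W x) j ω ^ m (j + 1) *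
            T S m P (W x) j ω ^ (1 - m (j + 1))) * ce S (tilt S m P (W x)) j D ω := by ring
        _ = _ := by rw [h6, mul_one_div_cancel hmp.ne', one_mul]
  obtain ⟨k, hk, rfl⟩ : ∃ k, k ≤ R ∧ j = R - k := ⟨R - j, by omega, by omega⟩
  exact key k hk ω

theorem hasDerivAt_LT0 (E : Expo R m) (hP : PathLaw P) {W : ℝ → Ω → ℝ} {W' : Ω → ℝ} {x : ℝ}
    (hW : ∀ ω, 0 < W x ω) (hd : ∀ ω, HasDerivAt (fun y => W y ω) (W' ω) x) :
    HasDerivAt (fun y => LT0 S m P (W y)) (ex (tilt S m P (W x)) (fun ω => W' ω / W x ω)) x := by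
  have hQ := tilt_pathLaw S E hP hW
  have h1 : ex (tilt S m P (W x)) (fun ω => W' ω / W x ω) =
      ∑ ω, P ω * ex (tilt S m P (W x)) (fun ω => W' ω / W x ω) := by
    rw [← Finset.sum_mul, hP.sum, one_mul]
  rw [h1]
  unfold LT0
  refine HasDerivAt.fun_sum fun ω _ => ?_
  refine HasDerivAt.const_mul _ ?_
  have h2 := (hasDerivAt_T S E hP hW hd (Nat.zero_le R) ω).log (T_pos S hP hW 0 ω).ne'
  refine h2.congr_deriv ?_
  rw [mul_div_cancel_left₀ _ (T_pos S hP hW 0 ω).ne', ce_zero S hQ]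

theorem eventually_W_pos {W : ℝ → Ω → ℝ} {W' : Ω → ℝ} {x : ℝ}
    (hW : ∀ ω, 0 < W x ω) (hd : ∀ ω, HasDerivAt (fun y => W y ω) (W' ω) x) :
    ∀ᶠ y in nhds x, ∀ ω, 0 < W y ω := by
  rw [Filter.eventually_all]
  intro ω
  exact (hd ω).continuousAt.eventually (lt_mem_nhds (hW ω))

theorem prodT_eq_exp (hP : PathLaw P) {W : Ω → ℝ} (hW : ∀ ω, 0 < W ω) (a : ℕ) (ω' : Ω) :
    W ω' * ∏ j ∈ Finset.range R, (T S m P W (max j a) ω') ^ (-(Del m j)) =
      Real.exp (Real.log (W ω') - ∑ j ∈ Finset.range R,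
        Del m j * Real.log (T S m P W (max j a) ω')) := by
  rw [sub_eq_add_neg, Real.exp_add, Real.exp_log (hW ω'), ← Finset.sum_neg_distrib, Real.exp_sum]
  congr 1
  refine Finset.prod_congr rfl fun j _ => ?_
  rw [Real.rpow_def_of_pos (T_pos S hP hW _ _)]
  congr 1
  ring

theorem hasDerivAt_prodT (E : Expo R m) (hP : PathLaw P) {W : ℝ → Ω → ℝ} {W' : Ω → ℝ} {x : ℝ}
    (hW : ∀ ω, 0 < W x ω) (hd : ∀ ω, HasDerivAt (fun y => W y ω) (W' ω) x)
    {a : ℕ} (ha : a ≤ R) (ω' : Ω) :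
    HasDerivAt (fun y => W y ω' * ∏ j ∈ Finset.range R, (T S m P (W y) (max j a) ω') ^ (-(Del m j)))
      ((W x ω' * ∏ j ∈ Finset.range R, (T S m P (W x) (max j a) ω') ^ (-(Del m j))) *
        (W' ω' / W x ω' - ∑ i ∈ Finset.range R,
          Del m i * ce S (tilt S m P (W x)) (max i a) (fun y => W' y / W x y) ω')) x := by
  have h1 : HasDerivAt (fun y => Real.log (W y ω') - ∑ j ∈ Finset.range R,
        Del m j * Real.log (T S m P (W y) (max j a) ω'))
      (W' ω' / W x ω' - ∑ i ∈ Finset.range R,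
          Del m i * ce S (tilt S m P (W x)) (max i a) (fun y => W' y / W x y) ω') x := by
    refine HasDerivAt.fun_sub ((hd ω').log (hW ω').ne') ?_
    refine HasDerivAt.fun_sum fun j hj => ?_
    refine HasDerivAt.const_mul _ ?_
    have hj' := Finset.mem_range.mp hj
    have h2 := (hasDerivAt_T S E hP hW hd (by omega : max j a ≤ R) ω').log
      (T_pos S hP hW _ ω').ne'
    refine h2.congr_deriv ?_
    rw [mul_div_cancel_left₀ _ (T_pos S hP hW _ ω').ne']
  have h3 := h1.exp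
  rw [prodT_eq_exp S hP hW]
  refine h3.congr_of_eventuallyEq ?_
  filter_upwards [eventually_W_pos hW hd] with y hy
  exact prodT_eq_exp S hP hy a ω'

/-- derivative of the tilted kernel. -/
theorem hasDerivAt_Kf_tilt (E : Expo R m) (hP : PathLaw P) {W : ℝ → Ω → ℝ} {W' : Ω → ℝ} {x : ℝ}
    (hW : ∀ ω, 0 < W x ω) (hd : ∀ ω, HasDerivAt (fun y => W y ω) (W' ω) x)
    {a : ℕ} (ha : a < R) (ω ω' : Ω) :
    HasDerivAt (fun y => Kf S (tilt S m P (W y)) a ω ω')
      (Kf S (tilt S m P (W x)) a ω ω' *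
        (W' ω' / W x ω' - ∑ i ∈ Finset.range R,
          Del m i * ce S (tilt S m P (W x)) (max i a) (fun y => W' y / W x y) ω')) x := by
  have h1 := (hasDerivAt_prodT S E hP hW hd ha.le ω').const_mul (Kf S P a ω ω')
  rw [Kf_tilt S E hP hW ha, mul_assoc]
  refine h1.congr_of_eventuallyEq ?_
  filter_upwards [eventually_W_pos hW hd] with y hy
  exact Kf_tilt S E hP hy ha ω ω'

theorem hasDerivAt_tilt (E : Expo R m) (hP : PathLaw P) {W : ℝ → Ω → ℝ} {W' : Ω → ℝ} {x : ℝ}
    (hW : ∀ ω, 0 < W x ω) (hd : ∀ ω, HasDerivAt (fun y => W y ω) (W' ω) x) (ω : Ω) :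
    HasDerivAt (fun y => tilt S m P (W y) ω)
      (tilt S m P (W x) ω *
        (W' ω / W x ω - ∑ i ∈ Finset.range R,
          Del m i * ce S (tilt S m P (W x)) i (fun y => W' y / W x y) ω)) x := by
  have h1 := (hasDerivAt_prodT S E hP hW hd (Nat.zero_le R) ω).const_mul (P ω)
  simp only [Nat.max_zero] at h1
  simp only [← mul_assoc] at h1
  exact h1

theorem hasDerivAt_ce_tilt (E : Expo R m) (hP : PathLaw P) {W : ℝ → Ω → ℝ} {W' : Ω → ℝ} {x : ℝ}
    (hW : ∀ ω, 0 < W x ω) (hd : ∀ ω, HasDerivAt (fun y => W y ω) (W' ω) x)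
    {F : ℝ → Ω → ℝ} {F' : Ω → ℝ} (hF : ∀ ω, HasDerivAt (fun y => F y ω) (F' ω) x)
    {a : ℕ} (ha : a < R) (ω : Ω) :
    HasDerivAt (fun y => ce S (tilt S m P (W y)) a (F y) ω)
      (ce S (tilt S m P (W x)) a F' ω +
        ce S (tilt S m P (W x)) a (fun ω' => F x ω' *
          (W' ω' / W x ω' - ∑ i ∈ Finset.range R,
            Del m i * ce S (tilt S m P (W x)) (max i a) (fun y => W' y / W x y) ω')) ω) x := by
  rw [← ce_add]
  have h1 : ∀ F : Ω → ℝ, ∀ Q : Ω → ℝ, ce S Q a F ω = ∑ ω', Kf S Q a ω ω' * F ω' :=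
    fun F Q => rfl
  simp only [h1 (F _) _]
  rw [h1]
  refine HasDerivAt.fun_sum fun ω' _ => ?_
  refine ((hasDerivAt_Kf_tilt S E hP hW hd ha ω ω').mul (hF ω')).congr_deriv ?_
  ring

end Crest.SG
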