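import Crest.Agent.SG_A5T

/-! # SG_A5 : replica expectations, basic facts (task SG-A5)

All by induction on `n`, unfolding the definition of `Et`. -/

set_option autoImplicit false
noncomputable section
open scoped BigOperators
open Classical
namespace Crest.SG

variable {R : ℕ} {Ω : Type} [Fintype Ω] (S : Lev R Ω) {m : ℕ → ℝ} {P : Ω → ℝ}

private theorem Et_zero_eq (t : Tree R 0) (F : (Fin (0 + 1) → Ω) → ℝ) :
    Et S P 0 t F = ∑ ω, P ω * F (fun _ => ω) := rfl

private theorem Et_succ_eq {n : ℕ} (t : Tree R n) (par : Fin (n + 1)) (j : Fin R)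
    (F : (Fin (n + 2) → Ω) → ℝ) :
    Et S P (n + 1) (t, (par, j)) F =
      Et S P n t (fun ω => ∑ ω', Kf S P (max (j : ℕ) (age R n t par)) (ω par) ω' *
        F (Fin.snoc (α := fun _ => Ω) ω ω')) := rfl

theorem Et_congr {n : ℕ} (t : Tree R n) {F G : (Fin (n + 1) → Ω) → ℝ} (h : ∀ ω, F ω = G ω) :
    Et S P n t F = Et S P n t G := by
  rw [funext h]

theorem Et_add {n : ℕ} (t : Tree R n) (F G : (Fin (n + 1) → Ω) → ℝ) :
    Et S P n t (fun ω => F ω + G ω) = Et S P n t F + Et S P n t G := by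
  induction n with
  | zero =>
    rw [Et_zero_eq, Et_zero_eq, Et_zero_eq, ← Finset.sum_add_distrib]
    exact Finset.sum_congr rfl fun ω _ => by ring
  | succ n ih =>
    obtain ⟨t, par, j⟩ := t
    rw [Et_succ_eq, Et_succ_eq, Et_succ_eq, ← ih]
    refine Et_congr S t fun ω => ?_
    rw [← Finset.sum_add_distrib]
    exact Finset.sum_congr rfl fun ω _ => by ring

theorem Et_const_mul {n : ℕ} (t : Tree R n) (c : ℝ) (F : (Fin (n + 1) → Ω) → ℝ) :
    Et S P n t (fun ω => c * F ω) = c * Et S P n t F := by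
  induction n with
  | zero =>
    rw [Et_zero_eq, Et_zero_eq, Finset.mul_sum]
    exact Finset.sum_congr rfl fun ω _ => by ring
  | succ n ih =>
    obtain ⟨t, par, j⟩ := t
    rw [Et_succ_eq, Et_succ_eq, ← ih]
    refine Et_congr S t fun ω => ?_
    rw [Finset.mul_sum]
    exact Finset.sum_congr rfl fun ω _ => by ring

theorem Et_sub {n : ℕ} (t : Tree R n) (F G : (Fin (n + 1) → Ω) → ℝ) :
    Et S P n t (fun ω => F ω - G ω) = Et S P n t F - Et S P n t G := by
  have h : Et S P n t (fun ω => F ω - G ω) = Et S P n t (fun ω => F ω + (-1) * G ω) :=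
    Et_congr S t fun ω => by ring
  rw [h, Et_add, Et_const_mul]
  ring

theorem Et_sum {κ : Type} (s : Finset κ) {n : ℕ} (t : Tree R n) (F : κ → (Fin (n + 1) → Ω) → ℝ) :
    Et S P n t (fun ω => ∑ a ∈ s, F a ω) = ∑ a ∈ s, Et S P n t (F a) := by
  induction s using Finset.induction_on with
  | empty =>
    have h : Et S P n t (fun ω => ∑ a ∈ (∅ : Finset κ), F a ω) =
        Et S P n t (fun ω => (0 : ℝ) * 0) := Et_congr S t fun ω => by simp
    rw [h, Et_const_mul]
    simp
  | insert a s ha ih =>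
    rw [Finset.sum_insert ha, ← ih, ← Et_add]
    exact Et_congr S t fun ω => by rw [Finset.sum_insert ha]

theorem Et_const (hP : PathLaw P) {n : ℕ} (t : Tree R n) (c : ℝ) :
    Et S P n t (fun _ => c) = c := by
  induction n with
  | zero =>
    rw [Et_zero_eq, ← Finset.sum_mul, hP.sum, one_mul]
  | succ n ih =>
    obtain ⟨t, par, j⟩ := t
    rw [Et_succ_eq]
    have h : Et S P n t (fun ω => ∑ ω', Kf S P (max (j : ℕ) (age R n t par)) (ω par) ω' * c) =
        Et S P n t (fun _ => c) := by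
      refine Et_congr S t fun ω => ?_
      rw [← Finset.sum_mul, Kf_sum S hP, one_mul]
    rw [h]
    exact ih t

theorem Et_mono (hP : PathLaw P) {n : ℕ} (t : Tree R n) {F G : (Fin (n + 1) → Ω) → ℝ}
    (h : ∀ ω, F ω ≤ G ω) : Et S P n t F ≤ Et S P n t G := by
  induction n with
  | zero =>
    rw [Et_zero_eq, Et_zero_eq]
    exact Finset.sum_le_sum fun ω _ => mul_le_mul_of_nonneg_left (h _) (hP.pos ω).le
  | succ n ih =>
    obtain ⟨t, par, j⟩ := t
    rw [Et_succ_eq, Et_succ_eq]
    refine ih t fun ω => ?_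
    exact Finset.sum_le_sum fun ω' _ => mul_le_mul_of_nonneg_left (h _) (Kf_nonneg S hP _ _ _)

theorem Et_nonneg (hP : PathLaw P) {n : ℕ} (t : Tree R n) {F : (Fin (n + 1) → Ω) → ℝ}
    (h : ∀ ω, 0 ≤ F ω) : 0 ≤ Et S P n t F := by
  have h1 := Et_mono S hP t h
  rwa [Et_const S hP] at h1

theorem abs_Et_le (hP : PathLaw P) {n : ℕ} (t : Tree R n) (F : (Fin (n + 1) → Ω) → ℝ) :
    |Et S P n t F| ≤ Et S P n t (fun ω => |F ω|) := by
  rw [abs_le]
  constructor
  · have h1 : Et S P n t (fun ω => (-1) * |F ω|) ≤ Et S P n t F :=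
      Et_mono S hP t fun ω => by have := neg_abs_le (F ω); linarith
    rw [Et_const_mul] at h1
    linarith
  · exact Et_mono S hP t fun ω => le_abs_self _

theorem abs_Et_le_of_le (hP : PathLaw P) {n : ℕ} (t : Tree R n) {F : (Fin (n + 1) → Ω) → ℝ}
    {B : ℝ} (h : ∀ ω, |F ω| ≤ B) : |Et S P n t F| ≤ B := by
  refine (abs_Et_le S hP t F).trans ?_
  have h1 := Et_mono S hP t h
  rwa [Et_const S hP] at h1

/-- Cauchy-Schwarz / Jensen. -/
theorem Et_sq_le (hP : PathLaw P) {n : ℕ} (t : Tree R n) (F : (Fin (n + 1) → Ω) → ℝ) :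
    (Et S P n t F) ^ 2 ≤ Et S P n t (fun ω => (F ω) ^ 2) := by
  set c := Et S P n t F with hc
  have h0 : 0 ≤ Et S P n t (fun ω => (F ω - c) ^ 2) := Et_nonneg S hP t fun ω => sq_nonneg _
  have h1 : Et S P n t (fun ω => (F ω - c) ^ 2) =
      Et S P n t (fun ω => ((F ω) ^ 2 + (-(2 * c)) * F ω) + c ^ 2) :=
    Et_congr S t fun ω => by ring
  rw [h1, Et_add, Et_add, Et_const_mul, Et_const S hP, ← hc] at h0
  nlinarith [h0]

/-- the last replica, conditionally on the others, is a resampling of the parent. -/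
theorem Et_succ {n : ℕ} (t : Tree R n) (par : Fin (n + 1)) (j : Fin R)
    (F : (Fin (n + 2) → Ω) → ℝ) :
    Et S P (n + 1) (t, (par, j)) F =
      Et S P n t (fun ω => ce S P (max (j : ℕ) (age R n t par))
        (fun ω' => F (Fin.snoc (α := fun _ => Ω) ω ω')) (ω par)) := rfl

theorem Et_lift (hP : PathLaw P) {n : ℕ} (t : Tree R (n + 1)) (F : (Fin (n + 1) → Ω) → ℝ) :
    Et S P (n + 1) t (fun ω => F (fun i => ω i.castSucc)) = Et S P n t.1 F := by
  obtain ⟨t, par, j⟩ := t
  rw [Et_succ_eq]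
  refine Et_congr S t fun ω => ?_
  have h : ∀ ω' : Ω, (fun i : Fin (n + 1) =>
      (Fin.snoc (α := fun _ => Ω) ω ω' : Fin (n + 2) → Ω) i.castSucc) = ω := by
    intro ω'
    funext i
    simp
  simp only [h]
  rw [← Finset.sum_mul, Kf_sum S hP, one_mul]

/-- every replica has law `P`. -/
theorem Et_marg (hP : PathLaw P) {n : ℕ} (t : Tree R n) (i : Fin (n + 1)) (f : Ω → ℝ) :
    Et S P n t (fun ω => f (ω i)) = ex P f := by
  induction n generalizing f with
  | zero => rfl
  | succ n ih =>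
    obtain ⟨t, par, j⟩ := t
    rw [Et_succ]
    refine Fin.lastCases ?_ (fun i => ?_) i
    · simp only [Fin.snoc_last]
      rw [ih t par (fun x => ce S P (max (j : ℕ) (age R n t par)) (fun ω' => f ω') x)]
      exact ex_ce S hP _ f
    · simp only [Fin.snoc_castSucc]
      have h : ∀ ω : Fin (n + 1) → Ω, ce S P (max (j : ℕ) (age R n t par))
          (fun _ => f (ω i)) (ω par) = f (ω i) := fun ω => ce_const S hP _ _ _
      simp only [h]
      exact ih t i f

/-- the support: replicas agree up to their overlap level. -/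
theorem Et_supp (hP : PathLaw P) {n : ℕ} (t : Tree R n) {F G : (Fin (n + 1) → Ω) → ℝ}
    (h : ∀ ω : Fin (n + 1) → Ω, (∀ i i', S.rel (ov R n t i i') (ω i) (ω i')) → F ω = G ω) :
    Et S P n t F = Et S P n t G := by
  induction n with
  | zero =>
    rw [Et_zero_eq, Et_zero_eq]
    refine Finset.sum_congr rfl fun ω _ => ?_
    rw [h (fun _ => ω) fun i i' => S.refl _ _]
  | succ n ih =>
    obtain ⟨t, par, j⟩ := t
    rw [Et_succ, Et_succ]
    refine ih t fun ω hω => ?_
    refine ce_congr_rel S (ω par) fun ω' hω' => ?_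
    refine h _ ?_
    set T' : Tree R (n + 1) := (t, (par, j)) with hT'
    have hage : age R (n + 1) T' (Fin.last (n + 1)) = max (j : ℕ) (age R n t par) :=
      age_last T'
    have key : ∀ i : Fin (n + 1), S.rel (min (max (j : ℕ) (age R n t par)) (ov R n t i par))
        (ω i) ω' := by
      intro i
      refine S.trans _ _ (ω par) _ ?_ ?_
      · exact rel_le S (min_le_right _ _) (hω i par)
      · exact rel_le S (min_le_left _ _) hω'
    intro i i'
    refine Fin.lastCases ?_ (fun a => ?_) i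
    · refine Fin.lastCases ?_ (fun b => ?_) i'
      · exact S.refl _ _
      · rw [ov_last_castSucc, hage]
        simp only [Fin.snoc_last, Fin.snoc_castSucc]
        have h2 : ov R n T'.1 T'.2.1 b = ov R n t b par := ov_comm t par b
        rw [h2]
        exact S.symm _ _ _ (key b)
    · refine Fin.lastCases ?_ (fun b => ?_) i'
      · rw [ov_castSucc_last, hage]
        simp only [Fin.snoc_last, Fin.snoc_castSucc]
        exact key a
      · rw [ov_castSucc_castSucc]
        simp only [Fin.snoc_castSucc]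
        exact hω a b

theorem En_congr {n : ℕ} {F G : Tree R n → (Fin (n + 1) → Ω) → ℝ} (h : ∀ t ω, F t ω = G t ω) :
    En S m P n F = En S m P n G := by
  have : F = G := funext fun t => funext fun ω => h t ω
  rw [this]

theorem En_add {n : ℕ} (F G : Tree R n → (Fin (n + 1) → Ω) → ℝ) :
    En S m P n (fun t ω => F t ω + G t ω) = En S m P n F + En S m P n G := by
  unfold En
  rw [← Finset.sum_add_distrib]
  refine Finset.sum_congr rfl fun t _ => ?_
  rw [Et_add]
  ring

theorem En_const_mul {n : ℕ} (c : ℝ) (F : Tree R n → (Fin (n + 1) → Ω) → ℝ) :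
    En S m P n (fun t ω => c * F t ω) = c * En S m P n F := by
  unfold En
  rw [Finset.mul_sum]
  refine Finset.sum_congr rfl fun t _ => ?_
  rw [Et_const_mul]
  ring

theorem En_sub {n : ℕ} (F G : Tree R n → (Fin (n + 1) → Ω) → ℝ) :
    En S m P n (fun t ω => F t ω - G t ω) = En S m P n F - En S m P n G := by
  unfold En
  rw [← Finset.sum_sub_distrib]
  refine Finset.sum_congr rfl fun t _ => ?_
  rw [Et_sub]
  ring

theorem En_sum {κ : Type} (s : Finset κ) {n : ℕ} (F : κ → Tree R n → (Fin (n + 1) → Ω) → ℝ) :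
    En S m P n (fun t ω => ∑ a ∈ s, F a t ω) = ∑ a ∈ s, En S m P n (F a) := by
  unfold En
  rw [Finset.sum_comm]
  refine Finset.sum_congr rfl fun t _ => ?_
  rw [← Finset.mul_sum]
  congr 1
  exact Et_sum S s t (fun a => F a t)

theorem En_mono (E : Expo R m) (hP : PathLaw P) {n : ℕ} {F G : Tree R n → (Fin (n + 1) → Ω) → ℝ}
    (h : ∀ t ω, F t ω ≤ G t ω) : En S m P n F ≤ En S m P n G := by
  unfold En
  exact Finset.sum_le_sum fun t _ =>
    mul_le_mul_of_nonneg_left (Et_mono S hP t (h t)) (wt_nonneg E t)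

theorem En_const (E : Expo R m) (hP : PathLaw P) {n : ℕ} (c : ℝ) :
    En S m P n (fun _ _ => c) = c := by
  unfold En
  have h : ∀ t : Tree R n, Et S P n t (fun _ => c) = c := fun t => Et_const S hP t c
  simp only [h]
  rw [← Finset.sum_mul, wt_sum E n, one_mul]

theorem abs_En_le (E : Expo R m) (hP : PathLaw P) {n : ℕ} (F : Tree R n → (Fin (n + 1) → Ω) → ℝ) :
    |En S m P n F| ≤ En S m P n (fun t ω => |F t ω|) := by
  unfold En
  refine (Finset.abs_sum_le_sum_abs _ _).trans (Finset.sum_le_sum fun t _ => ?_)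
  rw [abs_mul, abs_of_nonneg (wt_nonneg E t)]
  exact mul_le_mul_of_nonneg_left (abs_Et_le S hP t (F t)) (wt_nonneg E t)

theorem abs_En_le_of_le (E : Expo R m) (hP : PathLaw P) {n : ℕ}
    {F : Tree R n → (Fin (n + 1) → Ω) → ℝ} {B : ℝ} (h : ∀ t ω, |F t ω| ≤ B) :
    |En S m P n F| ≤ B := by
  refine (abs_En_le S E hP F).trans ?_
  have h1 := En_mono S E hP h
  rwa [En_const S E hP] at h1

/-- unfolding the last replica of `En (n+1)`. -/
theorem En_succ {n : ℕ} (F : Tree R (n + 1) → (Fin (n + 2) → Ω) → ℝ) :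
    En S m P (n + 1) F = En S m P n (fun t ω => ∑ par : Fin (n + 1), ∑ j : Fin R,
      (1 / ((n : ℝ) + 1)) * Del m j * ce S P (max (j : ℕ) (age R n t par))
        (fun ω' => F (t, (par, j)) (Fin.snoc (α := fun _ => Ω) ω ω')) (ω par)) := by
  unfold En
  rw [sum_tree_succ]
  refine Finset.sum_congr rfl fun t _ => ?_
  rw [Et_sum, Finset.mul_sum]
  refine Finset.sum_congr rfl fun par _ => ?_
  rw [Et_sum, Finset.mul_sum]
  refine Finset.sum_congr rfl fun j _ => ?_
  rw [Et_const_mul, Et_succ]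
  have hw : wt m R (n + 1) (t, (par, j)) = wt m R n t * ((1 / ((n : ℝ) + 1)) * Del m j) := rfl
  rw [hw]
  ring

theorem En_lift (E : Expo R m) (hP : PathLaw P) {n : ℕ} (F : Tree R n → (Fin (n + 1) → Ω) → ℝ) :
    En S m P (n + 1) (lift1 F) = En S m P n F := by
  rw [En_succ]
  refine En_congr S fun t ω => ?_
  have h : ∀ (par : Fin (n + 1)) (j : Fin R),
      (1 / ((n : ℝ) + 1)) * Del m j * ce S P (max (j : ℕ) (age R n t par))
        (fun ω' => lift1 F (t, (par, j)) (Fin.snoc (α := fun _ => Ω) ω ω')) (ω par) =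
      (1 / ((n : ℝ) + 1)) * Del m j * F t ω := by
    intro par j
    congr 1
    have h2 : ∀ ω' : Ω, lift1 F (t, (par, j)) (Fin.snoc (α := fun _ => Ω) ω ω') = F t ω := by
      intro ω'
      unfold lift1
      congr 1
      funext i
      simp
    simp only [h2]
    exact ce_const S hP _ _ _
  simp only [h]
  have hD : ∑ j : Fin R, Del m (j : ℕ) = 1 := by
    rw [Fin.sum_univ_eq_sum_range (fun j => Del m j) R]
    unfold Del
    rw [Finset.sum_range_sub, E.one, E.zero, sub_zero]
  have hn : (n : ℝ) + 1 ≠ 0 := by positivity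
  simp only [← Finset.sum_mul, ← Finset.mul_sum]
  rw [hD]
  simp only [mul_one, Finset.sum_const, Finset.card_univ, Fintype.card_fin, nsmul_eq_mul]
  push_cast
  field_simp

end Crest.SG
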