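import Crest.Agent.SG_A2

/-! # SG_A5T : trees of replica choices (task SG-A5T)

All by induction on `n`, unfolding the definitions of `wt`, `age`, `ov` (`Fin.lastCases`, `Fin.snoc_castSucc`, `Fin.snoc_last`). -/

set_option autoImplicit false
noncomputable section
open scoped BigOperators
open Classical
namespace Crest.SG

variable {R : ℕ} {Ω : Type} [Fintype Ω] (S : Lev R Ω) {m : ℕ → ℝ} {P : Ω → ℝ}

theorem sum_tree_succ {n : ℕ} (f : Tree R (n + 1) → ℝ) :
    ∑ t, f t = ∑ t : Tree R n, ∑ par : Fin (n + 1), ∑ j : Fin R, f (t, (par, j)) := by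
  have h : (∑ t : Tree R (n + 1), f t)
      = ∑ q : Tree R n × (Fin (n + 1) × Fin R), (f q : ℝ) := rfl
  refine h.trans ((Fintype.sum_prod_type
    (fun q : Tree R n × (Fin (n + 1) × Fin R) => (f q : ℝ))).trans ?_)
  refine Finset.sum_congr rfl fun t _ => ?_
  exact Fintype.sum_prod_type (fun q : Fin (n + 1) × Fin R => (f (t, q) : ℝ))

@[simp] theorem age_zero (t : Tree R 0) (i : Fin 1) : age R 0 t i = 0 := by
  rfl

@[simp] theorem age_castSucc {n : ℕ} (t : Tree R (n + 1)) (i : Fin (n + 1)) :
    age R (n + 1) t i.castSucc = age R n t.1 i := by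
  obtain ⟨t, par, j⟩ := t
  simp only [age, Fin.snoc_castSucc]

@[simp] theorem age_last {n : ℕ} (t : Tree R (n + 1)) :
    age R (n + 1) t (Fin.last (n + 1)) = max (t.2.2 : ℕ) (age R n t.1 t.2.1) := by
  obtain ⟨t, par, j⟩ := t
  simp only [age, Fin.snoc_last]

@[simp] theorem ov_castSucc_castSucc {n : ℕ} (t : Tree R (n + 1)) (i i' : Fin (n + 1)) :
    ov R (n + 1) t i.castSucc i'.castSucc = ov R n t.1 i i' := by
  obtain ⟨t, par, j⟩ := t
  simp only [ov, Fin.snoc_castSucc]

@[simp] theorem ov_castSucc_last {n : ℕ} (t : Tree R (n + 1)) (i : Fin (n + 1)) :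
    ov R (n + 1) t i.castSucc (Fin.last (n + 1)) =
      min (age R (n + 1) t (Fin.last (n + 1))) (ov R n t.1 i t.2.1) := by
  rw [age_last]
  obtain ⟨t, par, j⟩ := t
  simp only [ov, Fin.snoc_castSucc, Fin.snoc_last]

@[simp] theorem ov_last_castSucc {n : ℕ} (t : Tree R (n + 1)) (i : Fin (n + 1)) :
    ov R (n + 1) t (Fin.last (n + 1)) i.castSucc =
      min (age R (n + 1) t (Fin.last (n + 1))) (ov R n t.1 t.2.1 i) := by
  rw [age_last]
  obtain ⟨t, par, j⟩ := t
  simp only [ov, Fin.snoc_castSucc, Fin.snoc_last]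

@[simp] theorem ov_self {n : ℕ} (t : Tree R n) (i : Fin (n + 1)) : ov R n t i i = R := by
  induction n with
  | zero => rfl
  | succ n ih =>
    refine Fin.lastCases ?_ (fun i => ?_) i
    · obtain ⟨t, par, j⟩ := t
      simp only [ov, Fin.snoc_last]
    · rw [ov_castSucc_castSucc]
      exact ih t.1 i

theorem ov_comm {n : ℕ} (t : Tree R n) (i i' : Fin (n + 1)) : ov R n t i i' = ov R n t i' i := by
  induction n with
  | zero => rfl
  | succ n ih =>
    refine Fin.lastCases ?_ (fun i => ?_) i
    · refine Fin.lastCases rfl (fun i' => ?_) i'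
      rw [ov_last_castSucc, ov_castSucc_last, ih]
    · refine Fin.lastCases ?_ (fun i' => ?_) i'
      · rw [ov_last_castSucc, ov_castSucc_last, ih]
      · rw [ov_castSucc_castSucc, ov_castSucc_castSucc, ih]

theorem ov_le {n : ℕ} (t : Tree R n) (i i' : Fin (n + 1)) : ov R n t i i' ≤ R := by
  induction n with
  | zero => exact le_of_eq rfl
  | succ n ih =>
    refine Fin.lastCases ?_ (fun i => ?_) i
    · refine Fin.lastCases (le_of_eq (ov_self _ _)) (fun i' => ?_) i'
      rw [ov_last_castSucc]
      exact (min_le_right _ _).trans (ih _ _ _)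
    · refine Fin.lastCases ?_ (fun i' => ?_) i'
      · rw [ov_castSucc_last]
        exact (min_le_right _ _).trans (ih _ _ _)
      · rw [ov_castSucc_castSucc]
        exact ih _ _ _

theorem age_lt {n : ℕ} (hR : 0 < R) (t : Tree R n) (i : Fin (n + 1)) : age R n t i < R := by
  induction n with
  | zero => exact hR
  | succ n ih =>
    refine Fin.lastCases ?_ (fun i => ?_) i
    · rw [age_last]
      exact max_lt t.2.2.2 (ih _ _)
    · rw [age_castSucc]
      exact ih _ _

/-- a later replica overlaps an earlier one at most at its own age. -/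
theorem ov_le_age {n : ℕ} (t : Tree R n) {i i' : Fin (n + 1)} (h : i < i') :
    ov R n t i i' ≤ age R n t i' := by
  induction n with
  | zero =>
    exfalso
    have h1 := i.2
    have h2 := i'.2
    have h3 : (i : ℕ) < i' := h
    omega
  | succ n ih =>
    revert h
    refine Fin.lastCases (fun h => ?_) (fun i => ?_) i
    · exact absurd h (not_lt.mpr (Fin.le_last _))
    · refine Fin.lastCases (fun _ => ?_) (fun i' h => ?_) i'
      · rw [ov_castSucc_last]
        exact min_le_left _ _
      · rw [ov_castSucc_castSucc, age_castSucc]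
        exact ih _ (Fin.castSucc_lt_castSucc_iff.mp h)

private theorem wt_pos' (E : Expo R m) {n : ℕ} (t : Tree R n) : 0 < wt m R n t := by
  induction n with
  | zero => exact one_pos
  | succ n ih =>
    obtain ⟨t, par, j⟩ := t
    show 0 < wt m R n t * ((1 / ((n : ℝ) + 1)) * Del m j)
    have := ih t
    have h2 := E.del_pos j.2
    positivity

theorem wt_nonneg (E : Expo R m) {n : ℕ} (t : Tree R n) : 0 ≤ wt m R n t := by
  exact (wt_pos' E t).le

theorem wt_pos (E : Expo R m) {n : ℕ} (t : Tree R n) : 0 < wt m R n t := by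
  exact wt_pos' E t

theorem wt_sum (E : Expo R m) (n : ℕ) : ∑ t, wt m R n t = 1 := by
  induction n with
  | zero =>
    have h : (∑ t : Tree R 0, wt m R 0 t) = ∑ t : Unit, (1:ℝ) := rfl
    rw [h]; simp
  | succ n ih =>
    rw [sum_tree_succ]
    have h : ∀ t : Tree R n, ∑ par : Fin (n + 1), ∑ j : Fin R, wt m R (n + 1) (t, (par, j))
        = wt m R n t := by
      intro t
      have h1 : ∀ par : Fin (n + 1), ∑ j : Fin R, wt m R (n + 1) (t, (par, j))
          = wt m R n t * (1 / ((n : ℝ) + 1)) := by
        intro par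
        have h2 : ∀ j : Fin R, wt m R (n + 1) (t, (par, j))
            = (wt m R n t * (1 / ((n : ℝ) + 1))) * Del m (j : ℕ) := by
          intro j
          show wt m R n t * ((1 / ((n : ℝ) + 1)) * Del m j) = _
          ring
        rw [Finset.sum_congr rfl (fun j _ => h2 j), ← Finset.mul_sum, E.sum_del_fin, mul_one]
      rw [Finset.sum_congr rfl (fun par _ => h1 par), Finset.sum_const, Finset.card_univ,
        Fintype.card_fin, nsmul_eq_mul]
      have : ((n : ℝ) + 1) ≠ 0 := by positivity
      push_cast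
      field_simp
    rw [Finset.sum_congr rfl (fun t _ => h t), ih]

end Crest.SG
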