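import Crest.Agent.SG_A4
import Crest.Agent.SG_A5

/-! # SG_A6 : derivative of replica expectations under a tilt (task SG-A6) -/

set_option autoImplicit false
noncomputable section
open scoped BigOperators
open Classical
namespace Crest.SG

variable {R : ℕ} {Ω : Type} [Fintype Ω] (S : Lev R Ω) {m : ℕ → ℝ} {P : Ω → ℝ}

theorem ce_mul_const' (j : ℕ) {Q : Ω → ℝ} (F : Ω → ℝ) (c : ℝ) (ω : Ω) :
    ce S Q j (fun x => F x * c) ω = ce S Q j F ω * c := by
  have h : ∀ x, F x * c = c * F x := fun x => mul_comm _ _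
  rw [ce_congr S h, ce_const_mul, mul_comm]

theorem Et_succ' {Q : Ω → ℝ} {n : ℕ} (t : Tree R (n + 1)) (F : (Fin (n + 2) → Ω) → ℝ) :
    Et S Q (n + 1) t F =
      Et S Q n t.1 (fun ω => ce S Q (age R (n + 1) t (Fin.last (n + 1)))
        (fun ω' => F (Fin.snoc (α := fun _ => Ω) ω ω')) (ω t.2.1)) := by
  rw [age_last]
  exact Et_succ S t.1 t.2.1 t.2.2 F

/-- derivative at fixed tree data (induction on `n` with `hasDerivAt_Kf_tilt`). -/
theorem hasDerivAt_Et (E : Expo R m) (hP : PathLaw P) {W : ℝ → Ω → ℝ} {W' : Ω → ℝ} {x : ℝ}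
    (hW : ∀ ω, 0 < W x ω) (hd : ∀ ω, HasDerivAt (fun y => W y ω) (W' ω) x) {n : ℕ} (t : Tree R n)
    {F : ℝ → (Fin (n + 1) → Ω) → ℝ} {F' : (Fin (n + 1) → Ω) → ℝ}
    (hF : ∀ ω, HasDerivAt (fun y => F y ω) (F' ω) x) :
    HasDerivAt (fun y => Et S (tilt S m P (W y)) n t (F y))
      (Et S (tilt S m P (W x)) n t F' +
        Et S (tilt S m P (W x)) n t (fun ω => F x ω * ∑ l : Fin (n + 1),
          (W' (ω l) / W x (ω l) - ∑ i ∈ Finset.range R, Del m i *
            ce S (tilt S m P (W x)) (max i (age R n t l)) (fun y => W' y / W x y) (ω l)))) x := by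
  induction n with
  | zero =>
    have h1 : ∀ (Q : Ω → ℝ) (G : (Fin (0 + 1) → Ω) → ℝ),
        Et S Q 0 t G = ∑ ω, Q ω * G (fun _ => ω) := fun Q G => rfl
    simp only [h1]
    rw [← Finset.sum_add_distrib]
    refine HasDerivAt.fun_sum fun ω _ => ?_
    refine ((hasDerivAt_tilt S E hP hW hd ω).mul (hF (fun _ => ω))).congr_deriv ?_
    simp only [Fin.sum_univ_castSucc, Finset.univ_eq_empty, Finset.sum_empty, zero_add,
      age_zero, Nat.max_zero]
    ring
  | succ n ih =>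
    set a := age R (n + 1) t (Fin.last (n + 1)) with ha
    have haR : a < R := age_lt E.Rpos t _
    simp only [Et_succ', ← ha]
    set D : Ω → ℝ := fun y => W' y / W x y with hD
    have hG : ∀ ω : Fin (n + 1) → Ω, HasDerivAt
        (fun y => ce S (tilt S m P (W y)) a
          (fun ω' => F y (Fin.snoc (α := fun _ => Ω) ω ω')) (ω t.2.1))
        (ce S (tilt S m P (W x)) a
          (fun ω' => F' (Fin.snoc (α := fun _ => Ω) ω ω')) (ω t.2.1) +
        ce S (tilt S m P (W x)) a (fun ω' => F x (Fin.snoc (α := fun _ => Ω) ω ω') *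
          (W' ω' / W x ω' - ∑ i ∈ Finset.range R,
            Del m i * ce S (tilt S m P (W x)) (max i a) D ω')) (ω t.2.1)) x := by
      intro ω
      exact hasDerivAt_ce_tilt S E hP hW hd
        (F := fun y ω' => F y (Fin.snoc (α := fun _ => Ω) ω ω'))
        (F' := fun ω' => F' (Fin.snoc (α := fun _ => Ω) ω ω')) (fun ω' => hF _) haR (ω t.2.1)
    have h2 := ih t.1 hG
    refine h2.congr_deriv ?_
    rw [Et_add, add_assoc]
    congr 1
    rw [← Et_add]
    refine Et_congr S t.1 fun ω => ?_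
    rw [← ce_mul_const' S a, ← ce_add]
    refine ce_congr S (fun ω' => ?_) _
    rw [Fin.sum_univ_castSucc (n := n + 1)]
    simp only [← ha, age_castSucc, Fin.snoc_castSucc, Fin.snoc_last]
    ring

/-- **(DER)**: `d/dx 𝔼^{W_x}_{n+1 replicas}[F] = 𝔼[∂F] + 𝔼[F ∑_l D(ω_l)] - (n+1) 𝔼_{n+2}[F D(ω_last)]`. -/
theorem hasDerivAt_En (E : Expo R m) (hP : PathLaw P) {W : ℝ → Ω → ℝ} {W' : Ω → ℝ} {x : ℝ}
    (hW : ∀ ω, 0 < W x ω) (hd : ∀ ω, HasDerivAt (fun y => W y ω) (W' ω) x) {n : ℕ}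
    {F : ℝ → Tree R n → (Fin (n + 1) → Ω) → ℝ} {F' : Tree R n → (Fin (n + 1) → Ω) → ℝ}
    (hF : ∀ t ω, HasDerivAt (fun y => F y t ω) (F' t ω) x) :
    HasDerivAt (fun y => En S m (tilt S m P (W y)) n (F y))
      (En S m (tilt S m P (W x)) n F' +
        En S m (tilt S m P (W x)) n (fun t ω => F x t ω * ∑ l : Fin (n + 1),
          (W' (ω l) / W x (ω l))) -
        ((n : ℝ) + 1) * En S m (tilt S m P (W x)) (n + 1)
          (fun t ω => lift1 (F x) t ω *
            (W' (ω (Fin.last (n + 1))) / W x (ω (Fin.last (n + 1)))))) x := by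
  set D : Ω → ℝ := fun y => W' y / W x y with hD
  have h1 : ((n : ℝ) + 1) * En S m (tilt S m P (W x)) (n + 1)
          (fun t ω => lift1 (F x) t ω *
            (W' (ω (Fin.last (n + 1))) / W x (ω (Fin.last (n + 1))))) =
      En S m (tilt S m P (W x)) n (fun t ω => F x t ω * ∑ l : Fin (n + 1),
        ∑ i ∈ Finset.range R, Del m i *
            ce S (tilt S m P (W x)) (max i (age R n t l)) D (ω l)) := by
    rw [En_succ, ← En_const_mul]
    refine En_congr S fun t ω => ?_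
    rw [Finset.mul_sum, Finset.mul_sum]
    refine Finset.sum_congr rfl fun par _ => ?_
    rw [Finset.mul_sum, Finset.sum_range, Finset.mul_sum]
    refine Finset.sum_congr rfl fun j _ => ?_
    have h2 : ∀ ω' : Ω, lift1 (F x) (t, (par, j)) (Fin.snoc (α := fun _ => Ω) ω ω') *
        (W' (Fin.snoc (α := fun _ => Ω) ω ω' (Fin.last (n + 1))) /
          W x (Fin.snoc (α := fun _ => Ω) ω ω' (Fin.last (n + 1)))) = F x t ω * D ω' := by
      intro ω'
      simp only [lift1, Fin.snoc_castSucc, Fin.snoc_last]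
      rfl
    rw [ce_congr S h2, ce_const_mul]
    have hn : (0 : ℝ) < (n : ℝ) + 1 := by positivity
    field_simp
  rw [h1]
  unfold En
  rw [← Finset.sum_add_distrib, ← Finset.sum_sub_distrib]
  refine HasDerivAt.fun_sum fun t _ => ?_
  refine ((hasDerivAt_Et S E hP hW hd t (hF t)).const_mul (wt m R n t)).congr_deriv ?_
  have h3 : Et S (tilt S m P (W x)) n t (fun ω => F x t ω * ∑ l : Fin (n + 1),
          (W' (ω l) / W x (ω l) - ∑ i ∈ Finset.range R, Del m i *
            ce S (tilt S m P (W x)) (max i (age R n t l)) D (ω l))) =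
      Et S (tilt S m P (W x)) n t (fun ω => F x t ω * ∑ l : Fin (n + 1),
          (W' (ω l) / W x (ω l))) -
      Et S (tilt S m P (W x)) n t (fun ω => F x t ω * ∑ l : Fin (n + 1),
        ∑ i ∈ Finset.range R, Del m i *
            ce S (tilt S m P (W x)) (max i (age R n t l)) D (ω l)) := by
    rw [← Et_sub]
    refine Et_congr S t fun ω => ?_
    rw [← mul_sub, ← Finset.sum_sub_distrib]
  rw [h3]
  ring

/-- expectations of nonnegative observables under a tilt with `lo ≤ W ≤ hi`. -/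
theorem Et_tilt_le (E : Expo R m) (hP : PathLaw P) {W : Ω → ℝ} {lo hi : ℝ} (hlo : 0 < lo)
    (h1 : ∀ ω, lo ≤ W ω) (h2 : ∀ ω, W ω ≤ hi) {n : ℕ} (t : Tree R n)
    {F : (Fin (n + 1) → Ω) → ℝ} (hF : ∀ ω, 0 ≤ F ω) :
    Et S (tilt S m P W) n t F ≤ (hi / lo) ^ (n + 1) * Et S P n t F := by
  have hW : ∀ ω, 0 < W ω := fun ω => lt_of_lt_of_le hlo (h1 ω)
  have hQ := tilt_pathLaw S E hP hW
  have hne : Nonempty Ω := by
    by_contra h
    rw [not_nonempty_iff] at h
    have := hP.sum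
    simp at this
  obtain ⟨ω0⟩ := hne
  have hhl : 0 ≤ hi / lo := div_nonneg ((hW ω0).le.trans (h2 ω0)) hlo.le
  induction n with
  | zero =>
    have e1 : ∀ (Q : Ω → ℝ) (G : (Fin (0 + 1) → Ω) → ℝ),
        Et S Q 0 t G = ∑ ω, Q ω * G (fun _ => ω) := fun Q G => rfl
    have e2 : (hi / lo) ^ (0 + 1) = hi / lo := by norm_num
    rw [e1, e1, e2, Finset.mul_sum]
    refine Finset.sum_le_sum fun ω _ => ?_
    have h3 := Kf_tilt_le S E hP hlo h1 h2 E.Rpos ω0 ω
    rw [Kf_zero S hQ, Kf_zero S hP] at h3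
    rw [← mul_assoc]
    exact mul_le_mul_of_nonneg_right h3 (hF _)
  | succ n ih =>
    set a := age R (n + 1) t (Fin.last (n + 1)) with ha
    have haR : a < R := age_lt E.Rpos t _
    rw [Et_succ', Et_succ', ← ha]
    calc Et S (tilt S m P W) n t.1 (fun ω => ce S (tilt S m P W) a
          (fun ω' => F (Fin.snoc (α := fun _ => Ω) ω ω')) (ω t.2.1))
        ≤ Et S (tilt S m P W) n t.1 (fun ω => (hi / lo) * ce S P a
          (fun ω' => F (Fin.snoc (α := fun _ => Ω) ω ω')) (ω t.2.1)) := by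
          refine Et_mono S hQ t.1 fun ω => ?_
          unfold ce
          rw [Finset.mul_sum]
          refine Finset.sum_le_sum fun ω' _ => ?_
          rw [← mul_assoc]
          exact mul_le_mul_of_nonneg_right (Kf_tilt_le S E hP hlo h1 h2 haR _ _) (hF _)
      _ = (hi / lo) * Et S (tilt S m P W) n t.1 (fun ω => ce S P a
          (fun ω' => F (Fin.snoc (α := fun _ => Ω) ω ω')) (ω t.2.1)) := Et_const_mul S t.1 _ _
      _ ≤ (hi / lo) * ((hi / lo) ^ (n + 1) * Et S P n t.1 (fun ω => ce S P a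
          (fun ω' => F (Fin.snoc (α := fun _ => Ω) ω ω')) (ω t.2.1))) := by
          refine mul_le_mul_of_nonneg_left ?_ hhl
          exact ih t.1 (fun ω => ce_nonneg S hP a (fun ω' => hF _) _)
      _ = _ := by ring

/-- Lipschitz dependence of the replica expectation on the tilt: if all weights are `≥ lo > 0`
and `|W - V| ≤ δ` then the expectations of `|F| ≤ B` differ by at most `2 (n+1) (δ/lo) B`
(integrate `hasDerivAt_En` along `W + y (V - W)`). -/
theorem En_tilt_lip (E : Expo R m) (hP : PathLaw P) {W V : Ω → ℝ} {lo δ : ℝ} (hlo : 0 < lo)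
    (h1 : ∀ ω, lo ≤ W ω) (h2 : ∀ ω, lo ≤ V ω) (h3 : ∀ ω, |W ω - V ω| ≤ δ) {n : ℕ}
    {F : Tree R n → (Fin (n + 1) → Ω) → ℝ} {B : ℝ} (hF : ∀ t ω, |F t ω| ≤ B) :
    |En S m (tilt S m P W) n F - En S m (tilt S m P V) n F| ≤ 2 * ((n : ℝ) + 1) * (δ / lo) * B := by
  have hne : Nonempty Ω := by
    by_contra h
    rw [not_nonempty_iff] at h
    have := hP.sum
    simp at this
  obtain ⟨ω0⟩ := hne
  have hδ : 0 ≤ δ := (abs_nonneg _).trans (h3 ω0)
  set Wf : ℝ → Ω → ℝ := fun y ω => W ω + y * (V ω - W ω) with hWf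
  have hWlo : ∀ y ∈ Set.Icc (0 : ℝ) 1, ∀ ω, lo ≤ Wf y ω := by
    intro y hy ω
    have e : Wf y ω = (1 - y) * W ω + y * V ω := by simp only [hWf]; ring
    rw [e]
    have a1 : (1 - y) * lo ≤ (1 - y) * W ω := mul_le_mul_of_nonneg_left (h1 ω) (by linarith [hy.2])
    have a2 : y * lo ≤ y * V ω := mul_le_mul_of_nonneg_left (h2 ω) hy.1
    nlinarith
  have hWpos : ∀ y ∈ Set.Icc (0 : ℝ) 1, ∀ ω, 0 < Wf y ω := fun y hy ω =>
    lt_of_lt_of_le hlo (hWlo y hy ω)
  have hderW : ∀ y, ∀ ω, HasDerivAt (fun y => Wf y ω) (V ω - W ω) y := by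
    intro y ω
    have := ((hasDerivAt_id y).mul_const (V ω - W ω)).const_add (W ω)
    simpa [hWf] using this
  have hder : ∀ y ∈ Set.Icc (0 : ℝ) 1, HasDerivWithinAt
      (fun y => En S m (tilt S m P (Wf y)) n F)
      (En S m (tilt S m P (Wf y)) n (fun _ _ => 0) +
        En S m (tilt S m P (Wf y)) n (fun t ω => F t ω * ∑ l : Fin (n + 1),
          ((V (ω l) - W (ω l)) / Wf y (ω l))) -
        ((n : ℝ) + 1) * En S m (tilt S m P (Wf y)) (n + 1)
          (fun t ω => lift1 F t ω *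
            ((V (ω (Fin.last (n + 1))) - W (ω (Fin.last (n + 1)))) /
              Wf y (ω (Fin.last (n + 1)))))) (Set.Icc 0 1) y := by
    intro y hy
    exact (hasDerivAt_En S E hP (hWpos y hy) (hderW y) (F := fun _ => F)
      (F' := fun _ _ => 0) (fun t ω => hasDerivAt_const y _)).hasDerivWithinAt
  have hbound : ∀ y ∈ Set.Icc (0 : ℝ) 1,
      ‖En S m (tilt S m P (Wf y)) n (fun _ _ => 0) +
        En S m (tilt S m P (Wf y)) n (fun t ω => F t ω * ∑ l : Fin (n + 1),
          ((V (ω l) - W (ω l)) / Wf y (ω l))) -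
        ((n : ℝ) + 1) * En S m (tilt S m P (Wf y)) (n + 1)
          (fun t ω => lift1 F t ω *
            ((V (ω (Fin.last (n + 1))) - W (ω (Fin.last (n + 1)))) /
              Wf y (ω (Fin.last (n + 1)))))‖ ≤ 2 * ((n : ℝ) + 1) * (δ / lo) * B := by
    intro y hy
    have hQ := tilt_pathLaw S E hP (hWpos y hy)
    have hDb : ∀ ω, |(V ω - W ω) / Wf y ω| ≤ δ / lo := by
      intro ω
      rw [abs_div, abs_of_pos (hWpos y hy ω)]
      refine div_le_div₀ hδ ?_ hlo (hWlo y hy ω)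
      rw [abs_sub_comm]; exact h3 ω
    have hdl : 0 ≤ δ / lo := div_nonneg hδ hlo.le
    have t1 : |En S m (tilt S m P (Wf y)) n (fun t ω => F t ω * ∑ l : Fin (n + 1),
          ((V (ω l) - W (ω l)) / Wf y (ω l)))| ≤ B * (((n : ℝ) + 1) * (δ / lo)) := by
      refine abs_En_le_of_le S E hQ fun t ω => ?_
      rw [abs_mul]
      have hB : 0 ≤ B := (abs_nonneg _).trans (hF t ω)
      refine mul_le_mul (hF t ω) ?_ (abs_nonneg _) hB
      refine (Finset.abs_sum_le_sum_abs _ _).trans ?_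
      calc ∑ l : Fin (n + 1), |(V (ω l) - W (ω l)) / Wf y (ω l)| ≤ ∑ l : Fin (n + 1), δ / lo :=
            Finset.sum_le_sum fun l _ => hDb _
        _ = _ := by simp
    have t2 : |En S m (tilt S m P (Wf y)) (n + 1)
          (fun t ω => lift1 F t ω *
            ((V (ω (Fin.last (n + 1))) - W (ω (Fin.last (n + 1)))) /
              Wf y (ω (Fin.last (n + 1)))))| ≤ B * (δ / lo) := by
      refine abs_En_le_of_le S E hQ fun t ω => ?_
      rw [abs_mul]
      have hB : 0 ≤ B := (abs_nonneg _).trans (hF t.1 (fun i => ω i.castSucc))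
      exact mul_le_mul (hF _ _) (hDb _) (abs_nonneg _) hB
    rw [En_const S E hQ, zero_add, Real.norm_eq_abs]
    have hn : (0 : ℝ) < (n : ℝ) + 1 := by positivity
    calc _ ≤ _ := abs_sub _ _
      _ ≤ B * (((n : ℝ) + 1) * (δ / lo)) + ((n : ℝ) + 1) * (B * (δ / lo)) := by
          refine add_le_add t1 ?_
          rw [abs_mul, abs_of_pos hn]
          exact mul_le_mul_of_nonneg_left t2 hn.le
      _ = _ := by ring
  have hmv := (convex_Icc (0 : ℝ) 1).norm_image_sub_le_of_norm_hasDerivWithin_le hder hbound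
    (Set.right_mem_Icc.mpr zero_le_one) (Set.left_mem_Icc.mpr zero_le_one)
  have hW0 : Wf 0 = W := by funext ω; simp [hWf]
  have hW1 : Wf 1 = V := by funext ω; simp [hWf]
  simp only [hW0, hW1, Real.norm_eq_abs] at hmv
  simpa using hmv

end Crest.SG
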