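import Crest.Agent.SG_A5

/-! # SG_A8 : products of leveled spaces (task SG-A8)

Given the tree data, replicas of a product system are independent across the factors. -/

set_option autoImplicit false
noncomputable section
open scoped BigOperators
open Classical
namespace Crest.SG

private theorem A8_sum_pi {Ω : Type} [Fintype Ω] {ι : Type} [Fintype ι] (f : ι → Ω → ℝ) :
    ∑ ω : ι → Ω, ∏ i, f i (ω i) = ∏ i, ∑ x, f i x := by
  rw [Finset.prod_univ_sum, Fintype.piFinset_univ]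

private theorem A8_nonempty {Ω : Type} [Fintype Ω] {P : Ω → ℝ} (hP : PathLaw P) : Nonempty Ω := by
  by_contra h
  rw [not_nonempty_iff] at h
  have := hP.sum
  simp at this

section pi
variable {R : ℕ} {Ω : Type} [Fintype Ω] (S : Lev R Ω) {ι : Type} [Fintype ι]

theorem pathLaw_pi {P : ι → Ω → ℝ} (hP : ∀ i, PathLaw (P i)) :
    PathLaw (fun ω : ι → Ω => ∏ i, P i (ω i)) := by
  refine ⟨fun ω => Finset.prod_pos fun i _ => (hP i).pos _, ?_⟩
  rw [A8_sum_pi]
  simp [fun i => (hP i).sum]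

private theorem A8_cls_pi (P : ι → Ω → ℝ) (j : ℕ) (ω : ι → Ω) :
    cls (S.pi ι) (fun ω : ι → Ω => ∏ i, P i (ω i)) j ω = ∏ i, cls S (P i) j (ω i) := by
  unfold cls
  rw [← A8_sum_pi (fun i x => if S.rel j (ω i) x then P i x else 0)]
  refine Finset.sum_congr rfl fun ω' _ => ?_
  rw [Finset.prod_ite_zero]
  simp only [Finset.mem_univ, forall_true_left]
  exact if_congr Iff.rfl rfl rfl

theorem Kf_pi {P : ι → Ω → ℝ} (hP : ∀ i, PathLaw (P i)) (j : ℕ) (ω ω' : ι → Ω) :
    Kf (S.pi ι) (fun ω : ι → Ω => ∏ i, P i (ω i)) j ω ω' = ∏ i, Kf S (P i) j (ω i) (ω' i) := by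
  unfold Kf
  rw [A8_cls_pi, Finset.prod_ite_zero, ← Finset.prod_div_distrib]
  simp only [Finset.mem_univ, forall_true_left]
  exact if_congr Iff.rfl rfl rfl

theorem ce_pi_prod {P : ι → Ω → ℝ} (hP : ∀ i, PathLaw (P i)) (j : ℕ) (f : ι → Ω → ℝ)
    (ω : ι → Ω) :
    ce (S.pi ι) (fun ω : ι → Ω => ∏ i, P i (ω i)) j (fun x => ∏ i, f i (x i)) ω =
      ∏ i, ce S (P i) j (f i) (ω i) := by
  unfold ce
  rw [← A8_sum_pi (fun i x => Kf S (P i) j (ω i) x * f i x)]
  refine Finset.sum_congr rfl fun ω' _ => ?_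
  rw [Kf_pi S hP, ← Finset.prod_mul_distrib]

private theorem A8_snoc {Ω ι : Type} {n : ℕ} (ω : Fin (n + 1) → (ι → Ω)) (ω' : ι → Ω) (i : ι) :
    (fun l => (Fin.snoc (α := fun _ => (ι → Ω)) ω ω' l) i) =
      Fin.snoc (α := fun _ => Ω) (fun l => ω l i) (ω' i) := by
  funext l
  refine Fin.lastCases ?_ (fun k => ?_) l
  · simp
  · simp

theorem Et_pi_prod {P : ι → Ω → ℝ} (hP : ∀ i, PathLaw (P i)) {n : ℕ} (t : Tree R n)
    (F : ι → (Fin (n + 1) → Ω) → ℝ) :
    Et (S.pi ι) (fun ω : ι → Ω => ∏ i, P i (ω i)) n t (fun ω => ∏ i, F i (fun l => ω l i)) =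
      ∏ i, Et S (P i) n t (F i) := by
  induction n with
  | zero =>
    show ∑ ω : ι → Ω, (∏ i, P i (ω i)) * (∏ i, F i (fun _ => ω i)) =
      ∏ i, ∑ x, P i x * F i (fun _ => x)
    rw [← A8_sum_pi (fun i x => P i x * F i (fun _ => x))]
    refine Finset.sum_congr rfl fun ω _ => ?_
    rw [← Finset.prod_mul_distrib]
  | succ n ih =>
    obtain ⟨t, par, j⟩ := t
    show Et (S.pi ι) (fun ω : ι → Ω => ∏ i, P i (ω i)) n t
        (fun ω => ∑ ω', Kf (S.pi ι) (fun ω : ι → Ω => ∏ i, P i (ω i))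
          (max (j : ℕ) (age R n t par)) (ω par) ω' *
          ∏ i, F i (fun l => (Fin.snoc (α := fun _ => (ι → Ω)) ω ω' l) i)) =
      ∏ i, Et S (P i) n t (fun ω => ∑ ω', Kf S (P i) (max (j : ℕ) (age R n t par)) (ω par) ω' *
        F i (Fin.snoc (α := fun _ => Ω) ω ω'))
    rw [← ih t (fun i ω => ∑ ω', Kf S (P i) (max (j : ℕ) (age R n t par)) (ω par) ω' *
        F i (Fin.snoc (α := fun _ => Ω) ω ω'))]
    congr 1
    funext ω
    rw [← A8_sum_pi (fun i x => Kf S (P i) (max (j : ℕ) (age R n t par)) (ω par i) x *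
      F i (Fin.snoc (α := fun _ => Ω) (fun l => ω l i) x))]
    refine Finset.sum_congr rfl fun ω' _ => ?_
    rw [Kf_pi S hP, ← Finset.prod_mul_distrib]
    refine Finset.prod_congr rfl fun i _ => ?_
    rw [A8_snoc]

end pi

section prod
variable {R : ℕ} {A B : Type} [Fintype A] [Fintype B] (S : Lev R A) (S' : Lev R B)
  {m : ℕ → ℝ} {P : A → ℝ} {Q : B → ℝ}

private theorem A8_sum_prod (f : A → ℝ) (g : B → ℝ) :
    ∑ ω : A × B, f ω.1 * g ω.2 = (∑ a, f a) * ∑ b, g b := by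
  rw [Fintype.sum_prod_type, Finset.sum_mul_sum]

theorem pathLaw_prod (hP : PathLaw P) (hQ : PathLaw Q) :
    PathLaw (fun ω : A × B => P ω.1 * Q ω.2) := by
  refine ⟨fun ω => mul_pos (hP.pos _) (hQ.pos _), ?_⟩
  rw [A8_sum_prod, hP.sum, hQ.sum, mul_one]

private theorem A8_cls_prod (P : A → ℝ) (Q : B → ℝ) (j : ℕ) (ω : A × B) :
    cls (S.prod S') (fun ω : A × B => P ω.1 * Q ω.2) j ω = cls S P j ω.1 * cls S' Q j ω.2 := by
  unfold cls
  rw [← A8_sum_prod (fun a => if S.rel j ω.1 a then P a else 0)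
    (fun b => if S'.rel j ω.2 b then Q b else 0)]
  refine Finset.sum_congr rfl fun ω' _ => ?_
  by_cases h1 : S.rel j ω.1 ω'.1 <;> by_cases h2 : S'.rel j ω.2 ω'.2
  · rw [if_pos h1, if_pos h2, if_pos (show (S.prod S').rel j ω ω' from ⟨h1, h2⟩)]
  · rw [if_pos h1, if_neg h2, if_neg (show ¬ (S.prod S').rel j ω ω' from fun h => h2 h.2),
      mul_zero]
  · rw [if_neg h1, if_neg (show ¬ (S.prod S').rel j ω ω' from fun h => h1 h.1), zero_mul]
  · rw [if_neg h1, if_neg (show ¬ (S.prod S').rel j ω ω' from fun h => h1 h.1), zero_mul]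

theorem Kf_prod (hP : PathLaw P) (hQ : PathLaw Q) (j : ℕ) (ω ω' : A × B) :
    Kf (S.prod S') (fun ω : A × B => P ω.1 * Q ω.2) j ω ω' =
      Kf S P j ω.1 ω'.1 * Kf S' Q j ω.2 ω'.2 := by
  unfold Kf
  rw [A8_cls_prod]
  by_cases h1 : S.rel j ω.1 ω'.1 <;> by_cases h2 : S'.rel j ω.2 ω'.2
  · rw [if_pos h1, if_pos h2, if_pos (show (S.prod S').rel j ω ω' from ⟨h1, h2⟩)]
    rw [mul_div_mul_comm]
  · rw [if_pos h1, if_neg h2, if_neg (show ¬ (S.prod S').rel j ω ω' from fun h => h2 h.2),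
      mul_zero]
  · rw [if_neg h1, if_neg (show ¬ (S.prod S').rel j ω ω' from fun h => h1 h.1), zero_mul]
  · rw [if_neg h1, if_neg (show ¬ (S.prod S').rel j ω ω' from fun h => h1 h.1), zero_mul]

theorem ce_prod_mul (hP : PathLaw P) (hQ : PathLaw Q) (j : ℕ) (f : A → ℝ) (g : B → ℝ)
    (ω : A × B) :
    ce (S.prod S') (fun ω : A × B => P ω.1 * Q ω.2) j (fun x => f x.1 * g x.2) ω =
      ce S P j f ω.1 * ce S' Q j g ω.2 := by
  unfold ce
  rw [← A8_sum_prod (fun a => Kf S P j ω.1 a * f a) (fun b => Kf S' Q j ω.2 b * g b)]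
  refine Finset.sum_congr rfl fun ω' _ => ?_
  rw [Kf_prod S S' hP hQ]
  ring

private theorem A8_snoc_fst {A B : Type} {n : ℕ} (ω : Fin (n + 1) → A × B) (ω' : A × B) :
    (fun l => (Fin.snoc (α := fun _ => A × B) ω ω' l).1) =
      Fin.snoc (α := fun _ => A) (fun l => (ω l).1) ω'.1 := by
  funext l
  refine Fin.lastCases ?_ (fun k => ?_) l
  · simp
  · simp

private theorem A8_snoc_snd {A B : Type} {n : ℕ} (ω : Fin (n + 1) → A × B) (ω' : A × B) :
    (fun l => (Fin.snoc (α := fun _ => A × B) ω ω' l).2) =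
      Fin.snoc (α := fun _ => B) (fun l => (ω l).2) ω'.2 := by
  funext l
  refine Fin.lastCases ?_ (fun k => ?_) l
  · simp
  · simp

theorem Et_prod_mul (hP : PathLaw P) (hQ : PathLaw Q) {n : ℕ} (t : Tree R n)
    (F : (Fin (n + 1) → A) → ℝ) (G : (Fin (n + 1) → B) → ℝ) :
    Et (S.prod S') (fun ω : A × B => P ω.1 * Q ω.2) n t
        (fun ω => F (fun l => (ω l).1) * G (fun l => (ω l).2)) =
      Et S P n t F * Et S' Q n t G := by
  induction n with
  | zero =>
    show ∑ ω : A × B, (P ω.1 * Q ω.2) * (F (fun _ => ω.1) * G (fun _ => ω.2)) =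
      (∑ x, P x * F (fun _ => x)) * ∑ x, Q x * G (fun _ => x)
    rw [← A8_sum_prod (fun a => P a * F (fun _ => a)) (fun b => Q b * G (fun _ => b))]
    refine Finset.sum_congr rfl fun ω _ => ?_
    ring
  | succ n ih =>
    obtain ⟨t, par, j⟩ := t
    show Et (S.prod S') (fun ω : A × B => P ω.1 * Q ω.2) n t
        (fun ω => ∑ ω', Kf (S.prod S') (fun ω : A × B => P ω.1 * Q ω.2)
          (max (j : ℕ) (age R n t par)) (ω par) ω' *
          (F (fun l => (Fin.snoc (α := fun _ => A × B) ω ω' l).1) *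
            G (fun l => (Fin.snoc (α := fun _ => A × B) ω ω' l).2))) =
      Et S P n t (fun ω => ∑ ω', Kf S P (max (j : ℕ) (age R n t par)) (ω par) ω' *
        F (Fin.snoc (α := fun _ => A) ω ω')) *
      Et S' Q n t (fun ω => ∑ ω', Kf S' Q (max (j : ℕ) (age R n t par)) (ω par) ω' *
        G (Fin.snoc (α := fun _ => B) ω ω'))
    rw [← ih t]
    congr 1
    funext ω
    rw [← A8_sum_prod (fun a => Kf S P (max (j : ℕ) (age R n t par)) (ω par).1 a *
        F (Fin.snoc (α := fun _ => A) (fun l => (ω l).1) a))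
      (fun b => Kf S' Q (max (j : ℕ) (age R n t par)) (ω par).2 b *
        G (Fin.snoc (α := fun _ => B) (fun l => (ω l).2) b))]
    refine Finset.sum_congr rfl fun ω' _ => ?_
    rw [Kf_prod S S' hP hQ, A8_snoc_fst, A8_snoc_snd]
    ring

/-- a weight depending on the first factor only. -/
theorem T_prod_fst (E : Expo R m) (hP : PathLaw P) (hQ : PathLaw Q) {W : A → ℝ}
    (hW : ∀ ω, 0 < W ω) {j : ℕ} (hj : j ≤ R) (ω : A × B) :
    T (S.prod S') m (fun ω : A × B => P ω.1 * Q ω.2) (fun x => W x.1) j ω = T S m P W j ω.1 := by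
  have key : ∀ i, i ≤ R → ∀ ω : A × B,
      T (S.prod S') m (fun ω : A × B => P ω.1 * Q ω.2) (fun x => W x.1) (R - i) ω =
        T S m P W (R - i) ω.1 := by
    intro i
    induction i with
    | zero =>
      intro _ ω
      rw [Nat.sub_zero, T_R, T_R]
    | succ i ih =>
      intro hi ω
      have hlt : R - (i + 1) < R := by omega
      have he : R - (i + 1) + 1 = R - i := by omega
      rw [T_step _ hlt, T_step _ hlt, he]
      congr 1
      have h1 : ∀ x : A × B, (T (S.prod S') m (fun ω : A × B => P ω.1 * Q ω.2)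
          (fun x => W x.1) (R - i) x) ^ (m (R - i)) =
          (T S m P W (R - i) x.1) ^ (m (R - i)) * 1 := by
        intro x
        rw [ih (by omega) x, mul_one]
      rw [ce_congr _ h1 ω, ce_prod_mul S S' hP hQ _
        (fun a => (T S m P W (R - i) a) ^ (m (R - i))) (fun _ => (1 : ℝ)), ce_const S' hQ, mul_one]
  have := key (R - j) (by omega) ω
  rwa [Nat.sub_sub_self hj] at this

private theorem A8_T_prod_snd (E : Expo R m) (hP : PathLaw P) (hQ : PathLaw Q) {W : B → ℝ}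
    (hW : ∀ ω, 0 < W ω) {j : ℕ} (hj : j ≤ R) (ω : A × B) :
    T (S.prod S') m (fun ω : A × B => P ω.1 * Q ω.2) (fun x => W x.2) j ω = T S' m Q W j ω.2 := by
  have key : ∀ i, i ≤ R → ∀ ω : A × B,
      T (S.prod S') m (fun ω : A × B => P ω.1 * Q ω.2) (fun x => W x.2) (R - i) ω =
        T S' m Q W (R - i) ω.2 := by
    intro i
    induction i with
    | zero =>
      intro _ ω
      rw [Nat.sub_zero, T_R, T_R]
    | succ i ih =>
      intro hi ω
      have hlt : R - (i + 1) < R := by omega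
      have he : R - (i + 1) + 1 = R - i := by omega
      rw [T_step _ hlt, T_step _ hlt, he]
      congr 1
      have h1 : ∀ x : A × B, (T (S.prod S') m (fun ω : A × B => P ω.1 * Q ω.2)
          (fun x => W x.2) (R - i) x) ^ (m (R - i)) =
          1 * (T S' m Q W (R - i) x.2) ^ (m (R - i)) := by
        intro x
        rw [ih (by omega) x, one_mul]
      rw [ce_congr _ h1 ω, ce_prod_mul S S' hP hQ _ (fun _ => (1 : ℝ))
        (fun a => (T S' m Q W (R - i) a) ^ (m (R - i))), ce_const S hP, one_mul]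
  have := key (R - j) (by omega) ω
  rwa [Nat.sub_sub_self hj] at this

theorem LT0_prod_fst (E : Expo R m) (hP : PathLaw P) (hQ : PathLaw Q) {W : A → ℝ}
    (hW : ∀ ω, 0 < W ω) :
    LT0 (S.prod S') m (fun ω : A × B => P ω.1 * Q ω.2) (fun x => W x.1) = LT0 S m P W := by
  obtain ⟨a⟩ := A8_nonempty hP
  obtain ⟨b⟩ := A8_nonempty hQ
  rw [LT0_eq (S.prod S') (pathLaw_prod hP hQ) (a, b), LT0_eq S hP a,
    T_prod_fst S S' E hP hQ hW (Nat.zero_le _)]

theorem LT0_prod_snd (E : Expo R m) (hP : PathLaw P) (hQ : PathLaw Q) {W : B → ℝ}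
    (hW : ∀ ω, 0 < W ω) :
    LT0 (S.prod S') m (fun ω : A × B => P ω.1 * Q ω.2) (fun x => W x.2) = LT0 S' m Q W := by
  obtain ⟨a⟩ := A8_nonempty hP
  obtain ⟨b⟩ := A8_nonempty hQ
  rw [LT0_eq (S.prod S') (pathLaw_prod hP hQ) (a, b), LT0_eq S' hQ b,
    A8_T_prod_snd S S' E hP hQ hW (Nat.zero_le _)]

/-- the tilt by a function of the first factor. -/
theorem tilt_prod_fst (E : Expo R m) (hP : PathLaw P) (hQ : PathLaw Q) {W : A → ℝ}
    (hW : ∀ ω, 0 < W ω) (ω : A × B) :
    tilt (S.prod S') m (fun ω : A × B => P ω.1 * Q ω.2) (fun x => W x.1) ω =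
      tilt S m P W ω.1 * Q ω.2 := by
  unfold tilt
  have h1 : ∏ j ∈ Finset.range R, (T (S.prod S') m (fun ω : A × B => P ω.1 * Q ω.2)
      (fun x => W x.1) j ω) ^ (-(Del m j)) =
      ∏ j ∈ Finset.range R, (T S m P W j ω.1) ^ (-(Del m j)) := by
    refine Finset.prod_congr rfl fun j hj => ?_
    rw [T_prod_fst S S' E hP hQ hW (Finset.mem_range.1 hj).le]
  rw [h1]
  ring

end prod

private theorem A8_T_pi_prod {R : ℕ} {Ω : Type} [Fintype Ω] (S : Lev R Ω) {ι : Type} [Fintype ι]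
    {m : ℕ → ℝ} {P : ι → Ω → ℝ} (hP : ∀ i, PathLaw (P i)) {W : ι → Ω → ℝ}
    (hW : ∀ i ω, 0 < W i ω) {j : ℕ} (hj : j ≤ R) (ω : ι → Ω) :
    T (S.pi ι) m (fun ω : ι → Ω => ∏ i, P i (ω i)) (fun ω => ∏ i, W i (ω i)) j ω =
      ∏ i, T S m (P i) (W i) j (ω i) := by
  have key : ∀ k, k ≤ R → ∀ ω : ι → Ω,
      T (S.pi ι) m (fun ω : ι → Ω => ∏ i, P i (ω i)) (fun ω => ∏ i, W i (ω i)) (R - k) ω =
      ∏ i, T S m (P i) (W i) (R - k) (ω i) := by
    intro k
    induction k with
    | zero =>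
      intro _ ω
      simp only [Nat.sub_zero, T_R]
    | succ k ih =>
      intro hk ω
      have hlt : R - (k + 1) < R := by omega
      have he : R - (k + 1) + 1 = R - k := by omega
      rw [T_step _ hlt, he]
      have h0 : ∀ i, T S m (P i) (W i) (R - (k + 1)) (ω i) =
          (ce S (P i) (R - (k + 1)) (fun ω' => (T S m (P i) (W i) (R - k) ω') ^ (m (R - k)))
            (ω i)) ^ (1 / m (R - k)) := by
        intro i
        rw [T_step _ hlt, he]
      simp only [h0]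
      rw [Real.finsetProd_rpow _ _ (fun i _ => (ce_pos S (hP i) _
        (fun x => Real.rpow_pos_of_pos (T_pos S (hP i) (hW i) _ _) _) _).le)]
      congr 1
      rw [← ce_pi_prod S hP _ (fun i ω' => (T S m (P i) (W i) (R - k) ω') ^ (m (R - k)))]
      refine ce_congr _ (fun x => ?_) ω
      rw [ih (by omega) x, Real.finsetProd_rpow _ _
        (fun i _ => (T_pos S (hP i) (hW i) _ _).le)]
  have := key (R - j) (by omega) ω
  rwa [Nat.sub_sub_self hj] at this

/-- `LT0` of a product weight on a product space splits (pi version). -/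
theorem LT0_pi_prod {R : ℕ} {Ω : Type} [Fintype Ω] (S : Lev R Ω) {ι : Type} [Fintype ι]
    {m : ℕ → ℝ} (E : Expo R m) {P : ι → Ω → ℝ} (hP : ∀ i, PathLaw (P i)) {W : ι → Ω → ℝ}
    (hW : ∀ i ω, 0 < W i ω) :
    LT0 (S.pi ι) m (fun ω : ι → Ω => ∏ i, P i (ω i)) (fun ω => ∏ i, W i (ω i)) =
      ∑ i, LT0 S m (P i) (W i) := by
  have hne : ∀ i, Nonempty Ω := fun i => A8_nonempty (hP i)
  obtain ⟨ω⟩ : Nonempty (ι → Ω) := ⟨fun i => (hne i).some⟩
  rw [LT0_eq (S.pi ι) (pathLaw_pi hP) ω, A8_T_pi_prod S hP hW (Nat.zero_le _),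
    Real.log_prod (fun i _ => (T_pos S (hP i) (hW i) _ _).ne')]
  refine Finset.sum_congr rfl fun i _ => ?_
  rw [LT0_eq S (hP i) (ω i)]

/-- transport along a bijection preserving the levels and the law. -/
theorem LT0_equiv {R : ℕ} {A B : Type} [Fintype A] [Fintype B] (S : Lev R A) (S' : Lev R B)
    {m : ℕ → ℝ} (e : A ≃ B) (he : ∀ j a a', S.rel j a a' ↔ S'.rel j (e a) (e a'))
    (P W : B → ℝ) :
    LT0 S m (fun a => P (e a)) (fun a => W (e a)) = LT0 S' m P W := by
  have hcls : ∀ j a, cls S (fun a => P (e a)) j a = cls S' P j (e a) := by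
    intro j a
    unfold cls
    rw [← e.sum_comp]
    refine Finset.sum_congr rfl fun a' _ => ?_
    by_cases h : S.rel j a a'
    · rw [if_pos h, if_pos ((he j a a').1 h)]
    · rw [if_neg h, if_neg (fun h' => h ((he j a a').2 h'))]
  have hKf : ∀ j a a', Kf S (fun a => P (e a)) j a a' = Kf S' P j (e a) (e a') := by
    intro j a a'
    unfold Kf
    rw [hcls]
    by_cases h : S.rel j a a'
    · rw [if_pos h, if_pos ((he j a a').1 h)]
    · rw [if_neg h, if_neg (fun h' => h ((he j a a').2 h'))]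
  have hce : ∀ j (F : B → ℝ) a, ce S (fun a => P (e a)) j (fun a => F (e a)) a =
      ce S' P j F (e a) := by
    intro j F a
    unfold ce
    rw [← e.sum_comp]
    refine Finset.sum_congr rfl fun a' _ => ?_
    rw [hKf]
  have hT : ∀ i a, Tdown S m (fun a => P (e a)) (fun a => W (e a)) i a =
      Tdown S' m P W i (e a) := by
    intro i
    induction i with
    | zero => intro a; rfl
    | succ i ih =>
      intro a
      show (ce S (fun a => P (e a)) (R - (i + 1)) (fun ω' =>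
        (Tdown S m (fun a => P (e a)) (fun a => W (e a)) i ω') ^ (m (R - i))) a) ^
          (1 / m (R - i)) = (ce S' P (R - (i + 1)) (fun ω' =>
            (Tdown S' m P W i ω') ^ (m (R - i))) (e a)) ^ (1 / m (R - i))
      rw [← hce]
      congr 2
      funext a'
      rw [ih]
  unfold LT0 T
  rw [← e.sum_comp]
  refine Finset.sum_congr rfl fun a _ => ?_
  rw [hT]

end Crest.SG
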