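import Crest.Agent.SG_A5
import Crest.Agent.SG_A3

/-! # SG_A9 : free sign bits (task SG-A9)

`τ` flips a sign bit `e` which sits at level `z` and on which neither the law `P` nor `F` depends.
Then `E_t[e(ω_i) e(ω_i') F] = 1(ov i i' ≥ z) E_t[F]`. Induction on `n` (last replica):
for `a < z`: `ce a (e · F) = 0` (antisymmetry under `τ`), for `a ≥ z`: `e` is `Inv a`. -/

set_option autoImplicit false
noncomputable section
open scoped BigOperators
open Classical
namespace Crest.SG

/-- A free sign bit of level `z` for the leveled space `S` and the law `P`. -/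
structure FreeBit {R : ℕ} {Ω : Type} [Fintype Ω] (S : Lev R Ω) (P : Ω → ℝ) (z : ℕ)
    (τ : Ω → Ω) (e : Ω → ℝ) : Prop where
  invol : ∀ ω, τ (τ ω) = ω
  sq : ∀ ω, e ω * e ω = 1
  flip : ∀ ω, e (τ ω) = -e ω
  law : ∀ ω, P (τ ω) = P ω
  relτ : ∀ j ω ω', S.rel j ω ω' → S.rel j (τ ω) (τ ω')
  below : ∀ j ω, j < z → S.rel j ω (τ ω)
  above : ∀ j ω ω', z ≤ j → S.rel j ω ω' → e ω = e ω'
  zle : z ≤ R

variable {R : ℕ} {Ω : Type} [Fintype Ω] (S : Lev R Ω) {m : ℕ → ℝ} {P : Ω → ℝ}

private theorem A9_sum_tau {τ : Ω → Ω} (h : ∀ ω, τ (τ ω) = ω) (f : Ω → ℝ) :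
    ∑ ω, f (τ ω) = ∑ ω, f ω :=
  Function.Involutive.bijective h |>.sum_comp f

private theorem A9_rel_iff {z : ℕ} {τ : Ω → Ω} {e : Ω → ℝ}
    (h : FreeBit S P z τ e) (a : ℕ) (ω ω' : Ω) : S.rel a (τ ω) (τ ω') ↔ S.rel a ω ω' := by
  constructor
  · intro hr
    have := h.relτ a _ _ hr
    rwa [h.invol, h.invol] at this
  · exact h.relτ a _ _

private theorem A9_cls {z : ℕ} {τ : Ω → Ω} {e : Ω → ℝ}
    (h : FreeBit S P z τ e) (a : ℕ) (ω : Ω) : cls S P a (τ ω) = cls S P a ω := by
  unfold cls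
  rw [← A9_sum_tau h.invol]
  refine Finset.sum_congr rfl fun x _ => ?_
  rw [h.law]
  simp only [A9_rel_iff S h a ω x]

private theorem A9_Kf {z : ℕ} {τ : Ω → Ω} {e : Ω → ℝ}
    (h : FreeBit S P z τ e) (a : ℕ) (ω ω' : Ω) : Kf S P a (τ ω) (τ ω') = Kf S P a ω ω' := by
  unfold Kf
  rw [A9_cls S h, h.law]
  simp only [A9_rel_iff S h a ω ω']

private theorem A9_Kf_lt {z : ℕ} {τ : Ω → Ω} {e : Ω → ℝ}
    (h : FreeBit S P z τ e) {a : ℕ} (ha : a < z) (ω ω' : Ω) :
    Kf S P a ω (τ ω') = Kf S P a ω ω' := by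
  unfold Kf
  rw [h.law]
  have : S.rel a ω (τ ω') ↔ S.rel a ω ω' := by
    constructor
    · intro hr
      exact S.trans a _ _ _ hr (S.symm a _ _ (h.below a ω' ha))
    · intro hr
      exact S.trans a _ _ _ hr (h.below a ω' ha)
  simp only [this]

theorem ce_free_of_lt {z : ℕ} {τ : Ω → Ω} {e : Ω → ℝ} (hP : PathLaw P)
    (h : FreeBit S P z τ e) {F : Ω → ℝ} (hF : ∀ ω, F (τ ω) = F ω) {a : ℕ} (ha : a < z) (ω : Ω) :
    ce S P a (fun x => e x * F x) ω = 0 := by
  have h1 : ce S P a (fun x => e x * F x) ω = -ce S P a (fun x => e x * F x) ω := by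
    conv_lhs => unfold ce
    rw [← A9_sum_tau h.invol]
    unfold ce
    rw [← Finset.sum_neg_distrib]
    refine Finset.sum_congr rfl fun x _ => ?_
    simp only []
    rw [A9_Kf_lt S h ha, h.flip, hF]
    ring
  linarith

theorem ce_free_inv {z : ℕ} {τ : Ω → Ω} {e : Ω → ℝ} (hP : PathLaw P)
    (h : FreeBit S P z τ e) {F : Ω → ℝ} (hF : ∀ ω, F (τ ω) = F ω) (a : ℕ) (ω : Ω) :
    ce S P a F (τ ω) = ce S P a F ω := by
  unfold ce
  rw [← A9_sum_tau h.invol]
  refine Finset.sum_congr rfl fun x _ => ?_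
  rw [A9_Kf S h, hF]

private theorem A9_G {z : ℕ} {τ : Ω → Ω} {e : Ω → ℝ} (hP : PathLaw P)
    (h : FreeBit S P z τ e) {n : ℕ} {F : (Fin (n + 2) → Ω) → ℝ}
    (hF : ∀ ω l, F (Function.update ω l (τ (ω l))) = F ω) (a : ℕ) (par : Fin (n + 1))
    (ω : Fin (n + 1) → Ω) (l : Fin (n + 1)) :
    ce S P a (fun ω' => F (Fin.snoc (α := fun _ => Ω) (Function.update ω l (τ (ω l))) ω'))
        (Function.update ω l (τ (ω l)) par) =
      ce S P a (fun ω' => F (Fin.snoc (α := fun _ => Ω) ω ω')) (ω par) := by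
  have h1 : ∀ ω', F (Fin.snoc (α := fun _ => Ω) (Function.update ω l (τ (ω l))) ω') =
      F (Fin.snoc (α := fun _ => Ω) ω ω') := by
    intro ω'
    have h2 := hF (Fin.snoc (α := fun _ => Ω) ω ω') l.castSucc
    rw [Fin.snoc_castSucc] at h2
    rw [← h2, Fin.snoc_update]
  have h3 : ∀ ω', F (Fin.snoc (α := fun _ => Ω) ω (τ ω')) =
      F (Fin.snoc (α := fun _ => Ω) ω ω') := by
    intro ω'
    have h2 := hF (Fin.snoc (α := fun _ => Ω) ω ω') (Fin.last (n + 1))
    rw [Fin.snoc_last] at h2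
    rw [← h2, Fin.update_snoc_last]
  rw [ce_congr S h1]
  by_cases hl : par = l
  · subst hl
    rw [Function.update_self]
    exact ce_free_inv S hP h h3 a _
  · rw [Function.update_of_ne hl]

private theorem A9_Et_succ {n : ℕ} (t : Tree R (n + 1)) (F : (Fin (n + 2) → Ω) → ℝ) :
    Et S P (n + 1) t F =
      Et S P n t.1 (fun ω => ce S P (max (t.2.2 : ℕ) (age R n t.1 t.2.1))
        (fun ω' => F (Fin.snoc (α := fun _ => Ω) ω ω')) (ω t.2.1)) :=
  Et_succ S t.1 t.2.1 t.2.2 F

theorem Et_free {z : ℕ} {τ : Ω → Ω} {e : Ω → ℝ} (hP : PathLaw P)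
    (h : FreeBit S P z τ e) {n : ℕ} (t : Tree R n) (i i' : Fin (n + 1))
    {F : (Fin (n + 1) → Ω) → ℝ}
    (hF : ∀ ω l, F (Function.update ω l (τ (ω l))) = F ω) :
    Et S P n t (fun ω => e (ω i) * e (ω i') * F ω) =
      (if z ≤ ov R n t i i' then 1 else 0) * Et S P n t F := by
  induction n with
  | zero =>
    have hi : i = i' := by
      apply Fin.ext
      have h1 := i.2
      have h2 := i'.2
      omega
    subst hi
    rw [ov_self, if_pos h.zle, one_mul]
    refine Et_congr S t fun ω => ?_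
    rw [h.sq, one_mul]
  | succ n ih =>
    -- the mixed case
    have key : ∀ i1 : Fin (n + 1),
        Et S P (n + 1) t (fun ω => e (ω i1.castSucc) * e (ω (Fin.last (n + 1))) * F ω) =
        (if z ≤ ov R (n + 1) t i1.castSucc (Fin.last (n + 1)) then 1 else 0) *
          Et S P (n + 1) t F := by
      intro i1
      rw [ov_castSucc_last, age_last, A9_Et_succ, A9_Et_succ]
      simp only [Fin.snoc_castSucc, Fin.snoc_last]
      have hce : ∀ (a : ℕ) (ω : Fin (n + 1) → Ω),
          ce S P a (fun ω' => e (ω i1) * e ω' * F (Fin.snoc (α := fun _ => Ω) ω ω')) (ω t.2.1) =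
          e (ω i1) * ce S P a (fun ω' => e ω' * F (Fin.snoc (α := fun _ => Ω) ω ω'))
            (ω t.2.1) := by
        intro a ω
        rw [← ce_const_mul]
        refine ce_congr S (fun ω' => by ring) _
      by_cases ha : max (t.2.2 : ℕ) (age R n t.1 t.2.1) < z
      · rw [if_neg (by
          intro hz
          exact absurd (lt_of_le_of_lt (le_trans hz (min_le_left _ _)) ha) (lt_irrefl _)), zero_mul]
        have h0 : ∀ ω : Fin (n + 1) → Ω,
            ce S P (max (t.2.2 : ℕ) (age R n t.1 t.2.1))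
              (fun ω' => e (ω i1) * e ω' * F (Fin.snoc (α := fun _ => Ω) ω ω')) (ω t.2.1) =
            (0 : ℝ) * (fun _ => 0) ω := by
          intro ω
          rw [hce, ce_free_of_lt S hP h _ ha]
          · ring
          · intro ω'
            have h2 := hF (Fin.snoc (α := fun _ => Ω) ω ω') (Fin.last (n + 1))
            rw [Fin.snoc_last] at h2
            rw [← h2, Fin.update_snoc_last]
        rw [Et_congr S t.1 h0, Et_const_mul, zero_mul]
      · have ha' : z ≤ max (t.2.2 : ℕ) (age R n t.1 t.2.1) := not_lt.mp ha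
        have h1 : ∀ ω : Fin (n + 1) → Ω,
            ce S P (max (t.2.2 : ℕ) (age R n t.1 t.2.1))
              (fun ω' => e (ω i1) * e ω' * F (Fin.snoc (α := fun _ => Ω) ω ω')) (ω t.2.1) =
            e (ω i1) * e (ω t.2.1) * ce S P (max (t.2.2 : ℕ) (age R n t.1 t.2.1))
              (fun ω' => F (Fin.snoc (α := fun _ => Ω) ω ω')) (ω t.2.1) := by
          intro ω
          rw [hce, mul_assoc]
          congr 1
          rw [← ce_const_mul]
          refine ce_congr_rel S (ω t.2.1) fun ω' hr => ?_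
          rw [h.above _ _ _ ha' hr]
        rw [Et_congr S t.1 h1]
        rw [ih t.1 i1 t.2.1 (F := fun ω => ce S P (max (t.2.2 : ℕ) (age R n t.1 t.2.1))
              (fun ω' => F (Fin.snoc (α := fun _ => Ω) ω ω')) (ω t.2.1))
            (fun ω l => A9_G S hP h hF _ t.2.1 ω l)]
        congr 1
        have : (z ≤ min (max (t.2.2 : ℕ) (age R n t.1 t.2.1)) (ov R n t.1 i1 t.2.1)) ↔
            (z ≤ ov R n t.1 i1 t.2.1) := by
          rw [le_min_iff]
          exact ⟨fun h => h.2, fun h => ⟨ha', h⟩⟩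
        simp only [this]
    induction i using Fin.lastCases with
    | last =>
      induction i' using Fin.lastCases with
      | last =>
        rw [ov_self, if_pos h.zle, one_mul]
        refine Et_congr S _ fun ω => ?_
        rw [h.sq, one_mul]
      | cast i1' =>
        rw [ov_comm]
        rw [← key i1']
        refine Et_congr S _ fun ω => ?_
        ring
    | cast i1 =>
      induction i' using Fin.lastCases with
      | last => exact key i1
      | cast i1' =>
        rw [ov_castSucc_castSucc, A9_Et_succ, A9_Et_succ]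
        simp only [Fin.snoc_castSucc]
        have h1 : ∀ ω : Fin (n + 1) → Ω,
            ce S P (max (t.2.2 : ℕ) (age R n t.1 t.2.1))
              (fun ω' => e (ω i1) * e (ω i1') * F (Fin.snoc (α := fun _ => Ω) ω ω')) (ω t.2.1) =
            e (ω i1) * e (ω i1') * ce S P (max (t.2.2 : ℕ) (age R n t.1 t.2.1))
              (fun ω' => F (Fin.snoc (α := fun _ => Ω) ω ω')) (ω t.2.1) := by
          intro ω
          rw [← ce_const_mul]
        rw [Et_congr S t.1 h1]
        exact ih t.1 i1 i1' (F := fun ω => ce S P (max (t.2.2 : ℕ) (age R n t.1 t.2.1))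
              (fun ω' => F (Fin.snoc (α := fun _ => Ω) ω ω')) (ω t.2.1))
            (fun ω l => A9_G S hP h hF _ t.2.1 ω l)

private theorem A9_Tdown {z : ℕ} {τ : Ω → Ω} {e : Ω → ℝ} (hP : PathLaw P)
    (h : FreeBit S P z τ e) {W : Ω → ℝ} (hWτ : ∀ ω, W (τ ω) = W ω) (i : ℕ) (ω : Ω) :
    Tdown S m P W i (τ ω) = Tdown S m P W i ω := by
  induction i generalizing ω with
  | zero => exact hWτ ω
  | succ i ih =>
    simp only [Tdown]
    rw [ce_free_inv S hP h (fun x => by rw [ih])]

/-- tilting by a `τ`-invariant weight keeps the bit free. -/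
theorem FreeBit.tilt {z : ℕ} {τ : Ω → Ω} {e : Ω → ℝ} (E : Expo R m) (hP : PathLaw P)
    (h : FreeBit S P z τ e) {W : Ω → ℝ} (hW : ∀ ω, 0 < W ω) (hWτ : ∀ ω, W (τ ω) = W ω) :
    FreeBit S (Crest.SG.tilt S m P W) z τ e where
  invol := h.invol
  sq := h.sq
  flip := h.flip
  law := by
    intro ω
    unfold Crest.SG.tilt
    rw [h.law, hWτ]
    congr 1
    refine Finset.prod_congr rfl fun j _ => ?_
    unfold T
    rw [A9_Tdown S hP h hWτ]
  relτ := h.relτ
  below := h.below
  above := h.above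
  zle := h.zle

end Crest.SG
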