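import Crest.Agent.SG_BDefs

/-! # SG_B1 : slot systems, probability basics (task SG-B1) -/

set_option autoImplicit false
noncomputable section
open scoped BigOperators
open Classical
open Crest.ProbabilityR.Diluted
namespace Crest.SG
namespace Sys

variable (S : Sys)

theorem expo : Expo S.R S.m := by
  have hR : (0 : ℝ) < S.R := by exact_mod_cast S.R_pos
  refine ⟨by simp [m], by simp [m, hR.ne'], fun j _ => ?_⟩
  unfold m
  push_cast
  gcongr
  linarith

theorem Del_m {j : ℕ} : Del S.m j = 1 / (S.R : ℝ) := by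
  unfold Del m
  push_cast
  ring

theorem p0_ge : 1 / 2 ≤ S.p0 := by
  have h : ∀ n : ℕ, ∑ b ∈ Finset.range n, (1 / 2 : ℝ) ^ (b + 2) = 1 / 2 - (1 / 2) ^ (n + 1) := by
    intro n
    induction n with
    | zero => norm_num
    | succ n ih => rw [Finset.sum_range_succ, ih]; ring
  unfold p0
  rw [h]
  have : (0 : ℝ) < (1 / 2) ^ (S.q + 1) := by positivity
  linarith

theorem p0_pos : 0 < S.p0 := by
  have := S.p0_ge
  linarith

theorem p0_le : S.p0 ≤ 1 := by
  unfold p0
  have : 0 ≤ ∑ b ∈ Finset.range S.q, (1 / 2 : ℝ) ^ (b + 2) :=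
    Finset.sum_nonneg fun b _ => by positivity
  linarith

theorem pm_nonneg (a : Option (Fin S.q)) : 0 ≤ S.pm a := by
  cases a with
  | none => exact S.p0_pos.le
  | some b => unfold pm; positivity

theorem pm_sum : ∑ a, S.pm a = 1 := by
  rw [Fintype.sum_option]
  have h : ∑ b : Fin S.q, S.pm (some b) = ∑ b ∈ Finset.range S.q, (1 / 2 : ℝ) ^ (b + 2) := by
    rw [Finset.sum_range]
    rfl
  rw [h]
  show (1 - ∑ b ∈ Finset.range S.q, (1 / 2 : ℝ) ^ (b + 2)) + _ = 1
  ring

/-- sum over the slots of a product. -/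
private theorem B1_prod_sum (g : Fin S.L → S.Slot → ℝ) :
    ∑ x : Fin S.L → S.Slot, ∏ c, g c (x c) = ∏ c, ∑ a : S.Slot, g c a := by
  rw [Finset.prod_univ_sum, Fintype.piFinset_univ]

private theorem B1_slot_sum : ∑ a : S.Slot, S.pm a.1 * (1 / (S.k : ℝ)) = 1 := by
  have hk : (0 : ℝ) < S.k := by exact_mod_cast S.k_pos
  rw [Fintype.sum_prod_type]
  simp only [Finset.sum_const, Finset.card_univ, Fintype.card_fin, nsmul_eq_mul]
  have : ∀ x : Option (Fin S.q), (S.k : ℝ) * (S.pm x * (1 / (S.k : ℝ))) = S.pm x := by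
    intro x; field_simp
  simp only [this]
  exact S.pm_sum

private theorem B1_slots_sum :
    ∑ x : Fin S.L → S.Slot, ∏ c, (S.pm (x c).1 * (1 / (S.k : ℝ))) = 1 := by
  rw [B1_prod_sum S (fun _ a => S.pm a.1 * (1 / (S.k : ℝ)))]
  simp only [B1_slot_sum, Finset.prod_const_one]

theorem prR_nonneg (r : S.Root) : 0 ≤ S.prR r := by
  unfold prR
  refine mul_nonneg (S.pr_nonneg _) (Finset.prod_nonneg fun c _ => ?_)
  exact mul_nonneg (S.pm_nonneg _) (by positivity)

theorem prR_sum : ∑ r, S.prR r = 1 := by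
  unfold prR
  rw [Fintype.sum_prod_type]
  simp only [← Finset.mul_sum]
  rw [← Finset.sum_mul, S.pr_sum, one_mul]
  exact B1_slots_sum S

/-- the mark of a given slot. -/
theorem prR_mark (c : Fin S.L) (a : Option (Fin S.q)) :
    ∑ r : S.Root, (if (r.2 c).1 = a then S.prR r else 0) = S.pm a := by
  unfold prR
  have h0 : ∀ r : S.Root, (if (r.2 c).1 = a then
      S.pr r.1 * ∏ c', (S.pm (r.2 c').1 * (1 / (S.k : ℝ))) else 0) =
      S.pr r.1 * ∏ c', (if c' = c then (if (r.2 c').1 = a then S.pm (r.2 c').1 * (1 / (S.k : ℝ)) else 0)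
        else S.pm (r.2 c').1 * (1 / (S.k : ℝ))) := by
    intro r
    by_cases h : (r.2 c).1 = a
    · rw [if_pos h]
      congr 1
      refine Finset.prod_congr rfl fun c' _ => ?_
      by_cases hc : c' = c
      · subst hc; simp [h]
      · simp [hc]
    · rw [if_neg h]
      symm
      rw [Finset.prod_eq_zero (Finset.mem_univ c) (by simp [h]), mul_zero]
  simp only [h0]
  rw [Fintype.sum_prod_type]
  simp only [← Finset.mul_sum]
  rw [← Finset.sum_mul, S.pr_sum, one_mul]
  rw [B1_prod_sum S (fun c' a' => if c' = c then (if a'.1 = a then S.pm a'.1 * (1 / (S.k : ℝ)) else 0)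
        else S.pm a'.1 * (1 / (S.k : ℝ)))]
  rw [Finset.prod_eq_single c]
  · simp only [if_true]
    have hk : (0 : ℝ) < S.k := by exact_mod_cast S.k_pos
    rw [Fintype.sum_prod_type]
    have h1 : ∀ x : Option (Fin S.q), (∑ _y : Fin S.k,
        if x = a then S.pm x * (1 / (S.k : ℝ)) else 0) = if x = a then S.pm x else 0 := by
      intro x
      by_cases hx : x = a
      · simp only [hx, if_true, Finset.sum_const, Finset.card_univ, Fintype.card_fin, nsmul_eq_mul]
        field_simp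
      · simp [hx]
    simp only [h1]
    rw [Finset.sum_ite_eq' Finset.univ a]
    simp
  · intro c' _ hc'
    simp only [if_neg hc']
    exact B1_slot_sum S
  · intro h
    exact absurd (Finset.mem_univ c) h

theorem sw_pos (r : S.Root) (ω : S.Om) : 0 < S.sw r ω := by
  unfold sw
  refine mul_pos (S.base_pos _ _) (Finset.prod_pos fun c _ => ?_)
  unfold slotW
  split
  · exact one_pos
  · exact lt_of_lt_of_le (by norm_num) (S.W_lo _ _ _)

theorem unif_law (Ω : Type) [Fintype Ω] [Nonempty Ω] : PathLaw (unif Ω) := by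
  have hc : (0 : ℝ) < Fintype.card Ω := by exact_mod_cast Fintype.card_pos
  refine ⟨fun ω => ?_, ?_⟩
  · unfold unif; positivity
  · unfold unif
    rw [Finset.sum_const, Finset.card_univ, nsmul_eq_mul]
    field_simp

theorem PL_law (r : S.Root) : PathLaw (S.PL r) := by
  exact tilt_pathLaw S.lv S.expo (unif_law S.Om) (S.sw_pos r)

theorem PLW_law (r : S.Root) (c : Fin S.L) {V : Bool → (ℕ → Bool) → ℝ} (hV : ∀ σ l, 0 < V σ l) :
    PathLaw (S.PLW r c V) := by
  exact tilt_pathLaw S.lv S.expo (S.PL_law r) fun ω => hV _ _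

theorem EE_add (n : ℕ) (F G : S.Obs n) :
    S.EE n (fun r t ω => F r t ω + G r t ω) = S.EE n F + S.EE n G := by
  unfold EE
  rw [← Finset.sum_add_distrib]
  refine Finset.sum_congr rfl fun r _ => ?_
  rw [← mul_add, ← En_add]

theorem EE_sub (n : ℕ) (F G : S.Obs n) :
    S.EE n (fun r t ω => F r t ω - G r t ω) = S.EE n F - S.EE n G := by
  unfold EE
  rw [← Finset.sum_sub_distrib]
  refine Finset.sum_congr rfl fun r _ => ?_
  rw [← mul_sub, ← En_sub]

theorem EE_const_mul (n : ℕ) (c : ℝ) (F : S.Obs n) :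
    S.EE n (fun r t ω => c * F r t ω) = c * S.EE n F := by
  unfold EE
  rw [Finset.mul_sum]
  refine Finset.sum_congr rfl fun r _ => ?_
  rw [En_const_mul]
  ring

theorem EE_const (n : ℕ) (c : ℝ) : S.EE n (fun _ _ _ => c) = c := by
  unfold EE
  have h : ∀ r : S.Root, En S.lv S.m (S.PL r) n (fun _ _ => c) = c := fun r =>
    En_const S.lv S.expo (S.PL_law r) c
  simp only [h]
  rw [← Finset.sum_mul, S.prR_sum, one_mul]

theorem EE_mono (n : ℕ) {F G : S.Obs n} (h : ∀ r t ω, F r t ω ≤ G r t ω) :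
    S.EE n F ≤ S.EE n G := by
  unfold EE
  exact Finset.sum_le_sum fun r _ => mul_le_mul_of_nonneg_left
    (En_mono S.lv S.expo (S.PL_law r) (h r)) (S.prR_nonneg r)

theorem EE_congr (n : ℕ) {F G : S.Obs n} (h : ∀ r t ω, F r t ω = G r t ω) :
    S.EE n F = S.EE n G := by
  have : F = G := funext fun r => funext fun t => funext fun ω => h r t ω
  rw [this]

theorem abs_EE_le (n : ℕ) (F : S.Obs n) : |S.EE n F| ≤ S.EE n (fun r t ω => |F r t ω|) := by
  unfold EE
  refine (Finset.abs_sum_le_sum_abs _ _).trans (Finset.sum_le_sum fun r _ => ?_)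
  rw [abs_mul, abs_of_nonneg (S.prR_nonneg r)]
  exact mul_le_mul_of_nonneg_left (abs_En_le S.lv S.expo (S.PL_law r) (F r)) (S.prR_nonneg r)

theorem abs_EE_le_of_le (n : ℕ) {F : S.Obs n} {B : ℝ} (h : ∀ r t ω, |F r t ω| ≤ B) :
    |S.EE n F| ≤ B := by
  refine (S.abs_EE_le n F).trans ?_
  have h1 := S.EE_mono n (F := fun r t ω => |F r t ω|) (G := fun _ _ _ => B) h
  rwa [S.EE_const] at h1

/-- Cauchy–Schwarz. -/
theorem EE_cs (n : ℕ) (F G : S.Obs n) :
    (S.EE n (fun r t ω => F r t ω * G r t ω)) ^ 2 ≤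
      S.EE n (fun r t ω => F r t ω ^ 2) * S.EE n (fun r t ω => G r t ω ^ 2) := by
  set a := S.EE n (fun r t ω => F r t ω ^ 2) with ha
  set b := S.EE n (fun r t ω => F r t ω * G r t ω) with hb
  set c := S.EE n (fun r t ω => G r t ω ^ 2) with hc
  have key : ∀ x : ℝ, 0 ≤ a * (x * x) + (2 * b) * x + c := by
    intro x
    have h0 : 0 ≤ S.EE n (fun r t ω => (x * F r t ω + G r t ω) ^ 2) := by
      have := S.EE_mono n (F := fun _ _ _ => (0 : ℝ))
        (G := fun r t ω => (x * F r t ω + G r t ω) ^ 2) (fun r t ω => sq_nonneg _)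
      rwa [S.EE_const] at this
    have h1 : S.EE n (fun r t ω => (x * F r t ω + G r t ω) ^ 2) =
        S.EE n (fun r t ω => (x * x) * F r t ω ^ 2 + ((2 * x) * (F r t ω * G r t ω) + G r t ω ^ 2)) :=
      S.EE_congr n fun r t ω => by ring
    rw [h1, S.EE_add n (fun r t ω => (x * x) * F r t ω ^ 2)
      (fun r t ω => (2 * x) * (F r t ω * G r t ω) + G r t ω ^ 2),
      S.EE_add n (fun r t ω => (2 * x) * (F r t ω * G r t ω)) (fun r t ω => G r t ω ^ 2),
      S.EE_const_mul n (x * x) (fun r t ω => F r t ω ^ 2),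
      S.EE_const_mul n (2 * x) (fun r t ω => F r t ω * G r t ω)] at h0
    rw [← ha, ← hb, ← hc] at h0
    nlinarith [h0]
  have := discrim_le_zero key
  unfold discrim at this
  nlinarith [this]

/-- Lift to one more replica. -/
theorem EE_lift (n : ℕ) (F : S.Obs n) :
    S.EE (n + 1) (fun r t ω => F r t.1 (fun l => ω l.castSucc)) = S.EE n F := by
  unfold EE
  refine Finset.sum_congr rfl fun r _ => ?_
  congr 1
  exact En_lift S.lv S.expo (S.PL_law r) (F r)

theorem EE_eq_ER (n : ℕ) (F : S.Obs n) :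
    S.EE n F = ∑ t, wt S.m S.R n t * S.ER n t (fun r ω => F r t ω) := by
  unfold EE ER En
  simp only [Finset.mul_sum]
  rw [Finset.sum_comm]
  refine Finset.sum_congr rfl fun t _ => Finset.sum_congr rfl fun r _ => ?_
  ring

end Sys
end Crest.SG
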