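import Crest.Agent.SG_B1v

/-! # SG_B1a : admissible observables (task SG-B1a) -/

set_option autoImplicit false
noncomputable section
open scoped BigOperators
open Classical
open Crest.ProbabilityR.Diluted
namespace Crest.SG

theorem B1a_abs_spinVal (b : Bool) : |spinVal b| = 1 := by
  cases b <;> simp [spinVal]

theorem abs_fval (g : Feat) (s : Bool) (l : ℕ → Bool) : |fval g s l| = 1 := by
  unfold fval
  rw [abs_mul, Finset.abs_prod]
  have h1 : |if g.1 then spinVal s else 1| = 1 := by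
    split_ifs
    · exact B1a_abs_spinVal s
    · simp
  rw [h1, one_mul]
  exact Finset.prod_eq_one fun n _ => B1a_abs_spinVal _

theorem abs_tval_le (c : TC) (s : Bool) (l : ℕ → Bool) : |tval c s l| ≤ (tnorm c : ℝ) := by
  induction c with
  | nil => simp [tval, tnorm]
  | cons x c ih =>
    have e1 : tval (x :: c) s l = (x.1 : ℝ) * fval x.2 s l + tval c s l := by simp [tval]
    have e2 : (tnorm (x :: c) : ℝ) = |(x.1 : ℝ)| + (tnorm c : ℝ) := by simp [tnorm]
    rw [e1, e2]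
    refine (abs_add_le _ _).trans (add_le_add (le_of_eq ?_) ih)
    rw [abs_mul, abs_fval, mul_one]

namespace Sys

variable (S : Sys)

theorem isM_some {b : ℕ} {a : Option (Fin S.q)} : S.isM a b ↔ ∃ h : b < S.q, a = some ⟨b, h⟩ := by
  unfold isM
  constructor
  · intro h
    cases a with
    | none => simp at h
    | some x =>
      have h' : (x : ℕ) = b := Option.some.inj h
      subst h'
      exact ⟨x.2, rfl⟩
  · rintro ⟨h, rfl⟩
    rfl

theorem B1a_L_pos : (0 : ℝ) < S.L := by exact_mod_cast S.L_pos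

/-- bound of the averaged kernel. -/
theorem abs_Khat_le (b : ℕ) {n : ℕ} {Φ : SK n} {M : ℝ} (hM : ∀ σ l, |Φ σ l| ≤ M) (r : S.Root)
    (ω : Fin (n + 1) → S.Om) : |S.Khat b Φ r ω| ≤ 2 ^ (b + 2) * M := by
  have hM0 : 0 ≤ M := (abs_nonneg _).trans (hM (fun _ => false) (fun _ _ => false))
  have hL := S.B1a_L_pos
  unfold Khat
  rw [abs_mul, abs_of_nonneg (by positivity)]
  have h1 : |∑ c, if S.isM (r.2 c).1 b then S.sl Φ r c ω else 0| ≤ (S.L : ℝ) * M := by
    refine (Finset.abs_sum_le_sum_abs _ _).trans ?_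
    calc ∑ c : Fin S.L, |if S.isM (r.2 c).1 b then S.sl Φ r c ω else 0|
        ≤ ∑ c : Fin S.L, M := by
          refine Finset.sum_le_sum fun c _ => ?_
          split_ifs
          · exact hM _ _
          · simpa using hM0
      _ = (S.L : ℝ) * M := by simp
  calc 2 ^ (b + 2) / (S.L : ℝ) * |∑ c, if S.isM (r.2 c).1 b then S.sl Φ r c ω else 0|
      ≤ 2 ^ (b + 2) / (S.L : ℝ) * ((S.L : ℝ) * M) :=
        mul_le_mul_of_nonneg_left h1 (by positivity)
    _ = 2 ^ (b + 2) * M := by field_simp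

/-- bound constant of `KK`. -/
def cK (b n : ℕ) : ℝ := 2 ^ (b + 2) * 2 ^ (n + 1)

theorem cK_pos (b n : ℕ) : 0 < cK b n := by
  unfold cK; positivity

theorem abs_PhiG_le {n : ℕ} (V : Bool → (ℕ → Bool) → ℝ) (hV : ∀ σ l, 1 / 2 ≤ V σ l)
    (G : Fin (n + 1) → Feat) (σ : Fin (n + 1) → Bool) (l : Fin (n + 1) → ℕ → Bool) :
    |PhiG V G σ l| ≤ 2 ^ (n + 1) := by
  unfold PhiG
  rw [Finset.abs_prod]
  have h1 : ∀ i ∈ (Finset.univ : Finset (Fin (n + 1))),
      |fval (G i) (σ i) (l i) / V (σ i) (l i)| ≤ 2 := by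
    intro i _
    have h2 : 0 < V (σ i) (l i) := lt_of_lt_of_le (by norm_num) (hV (σ i) (l i))
    rw [abs_div, abs_fval, abs_of_pos h2, div_le_iff₀ h2]
    have := hV (σ i) (l i)
    linarith
  refine (Finset.prod_le_prod (fun i _ => abs_nonneg _) h1).trans (le_of_eq ?_)
  simp

theorem abs_KK_le (b : ℕ) {n : ℕ} (G : Fin (n + 1) → Feat) (r : S.Root)
    (ω : Fin (n + 1) → S.Om) : |S.KK b G r ω| ≤ cK b n :=
  S.abs_Khat_le b (fun σ l => abs_PhiG_le (S.W b) (fun σ l => S.W_lo b σ l) G σ l) r ω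

theorem Adm.mono {n : ℕ} {B B' : ℝ} {F : S.Obs n} (h : S.Adm n B F) (hB : B ≤ B') :
    S.Adm n B' F := by
  have hL := S.B1a_L_pos
  refine ⟨fun r t ω => (h.bd r t ω).trans hB, fun r c t ω => (h.er r c t ω).trans ?_, h.fr⟩
  exact div_le_div_of_nonneg_right hB hL.le

theorem Adm_const (n : ℕ) (c : ℝ) : S.Adm n |c| (fun _ _ _ => c) := by
  have hL := S.B1a_L_pos
  refine ⟨fun r t ω => le_rfl, fun r c' t ω => ?_, fun r r' c' _ _ _ _ t ω ω' _ _ => rfl⟩
  rw [sub_self, abs_zero]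
  positivity

/-- functions of the tree. -/
theorem Adm_tree {n : ℕ} {B : ℝ} {φ : Tree S.R n → ℝ} (h : ∀ t, |φ t| ≤ B) (hB : 0 ≤ B) :
    S.Adm n B (fun _ t _ => φ t) := by
  have hL := S.B1a_L_pos
  refine ⟨fun r t ω => h t, fun r c' t ω => ?_, fun r r' c' _ _ _ _ t ω ω' _ _ => rfl⟩
  rw [sub_self, abs_zero]
  positivity

theorem Adm_add {n : ℕ} {B B' : ℝ} {F G : S.Obs n} (h : S.Adm n B F) (h' : S.Adm n B' G) :
    S.Adm n (B + B') (fun r t ω => F r t ω + G r t ω) := by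
  refine ⟨fun r t ω => ?_, fun r c t ω => ?_, fun r r' c h1 h2 h3 h4 t ω ω' h5 h6 => ?_⟩
  · exact (abs_add_le _ _).trans (add_le_add (h.bd r t ω) (h'.bd r t ω))
  · rw [add_div, show F r t ω + G r t ω - (F (S.erase r c) t ω + G (S.erase r c) t ω) =
      (F r t ω - F (S.erase r c) t ω) + (G r t ω - G (S.erase r c) t ω) by ring]
    exact (abs_add_le _ _).trans (add_le_add (h.er r c t ω) (h'.er r c t ω))
  · rw [h.fr r r' c h1 h2 h3 h4 t ω ω' h5 h6, h'.fr r r' c h1 h2 h3 h4 t ω ω' h5 h6]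

theorem B1a_Adm_neg {n : ℕ} {B : ℝ} {F : S.Obs n} (h : S.Adm n B F) :
    S.Adm n B (fun r t ω => - F r t ω) := by
  refine ⟨fun r t ω => ?_, fun r c t ω => ?_, fun r r' c h1 h2 h3 h4 t ω ω' h5 h6 => ?_⟩
  · rw [abs_neg]; exact h.bd r t ω
  · rw [show -F r t ω - -F (S.erase r c) t ω = -(F r t ω - F (S.erase r c) t ω) by ring, abs_neg]
    exact h.er r c t ω
  · rw [h.fr r r' c h1 h2 h3 h4 t ω ω' h5 h6]

theorem Adm_sub {n : ℕ} {B B' : ℝ} {F G : S.Obs n} (h : S.Adm n B F) (h' : S.Adm n B' G) :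
    S.Adm n (B + B') (fun r t ω => F r t ω - G r t ω) := by
  have := S.Adm_add h (S.B1a_Adm_neg h')
  simpa only [sub_eq_add_neg] using this

theorem Adm_mul {n : ℕ} {B B' : ℝ} {F G : S.Obs n} (h : S.Adm n B F) (h' : S.Adm n B' G) :
    S.Adm n (2 * B * B') (fun r t ω => F r t ω * G r t ω) := by
  refine ⟨fun r t ω => ?_, fun r c t ω => ?_, fun r r' c h1 h2 h3 h4 t ω ω' h5 h6 => ?_⟩
  · have hB : 0 ≤ B := (abs_nonneg _).trans (h.bd r t ω)
    have hB' : 0 ≤ B' := (abs_nonneg _).trans (h'.bd r t ω)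
    rw [abs_mul]
    have := mul_le_mul (h.bd r t ω) (h'.bd r t ω) (abs_nonneg _) hB
    nlinarith [mul_nonneg hB hB']
  · have hB : 0 ≤ B := (abs_nonneg _).trans (h.bd r t ω)
    have hB' : 0 ≤ B' := (abs_nonneg _).trans (h'.bd r t ω)
    rw [show F r t ω * G r t ω - F (S.erase r c) t ω * G (S.erase r c) t ω =
      F r t ω * (G r t ω - G (S.erase r c) t ω) +
        (F r t ω - F (S.erase r c) t ω) * G (S.erase r c) t ω by ring]
    refine (abs_add_le _ _).trans ?_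
    rw [abs_mul, abs_mul]
    have h1 := mul_le_mul (h.bd r t ω) (h'.er r c t ω) (abs_nonneg _) hB
    have h2 := mul_le_mul (h.er r c t ω) (h'.bd (S.erase r c) t ω) (abs_nonneg _)
      ((abs_nonneg _).trans (h.er r c t ω))
    calc _ ≤ B * (B' / S.L) + B / S.L * B' := add_le_add h1 h2
      _ = 2 * B * B' / S.L := by ring
  · rw [h.fr r r' c h1 h2 h3 h4 t ω ω' h5 h6, h'.fr r r' c h1 h2 h3 h4 t ω ω' h5 h6]

/-- multiplication by a bounded function of the tree does not need the factor 2. -/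
theorem Adm_tree_mul {n : ℕ} {B : ℝ} {φ : Tree S.R n → ℝ} (h : ∀ t, |φ t| ≤ 1) {F : S.Obs n}
    (hF : S.Adm n B F) : S.Adm n B (fun r t ω => φ t * F r t ω) := by
  refine ⟨fun r t ω => ?_, fun r c t ω => ?_, fun r r' c h1 h2 h3 h4 t ω ω' h5 h6 => ?_⟩
  · rw [abs_mul]
    exact (mul_le_of_le_one_left (abs_nonneg _) (h t)).trans (hF.bd r t ω)
  · rw [← mul_sub, abs_mul]
    exact (mul_le_of_le_one_left (abs_nonneg _) (h t)).trans (hF.er r c t ω)
  · rw [hF.fr r r' c h1 h2 h3 h4 t ω ω' h5 h6]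

theorem Adm_lift {n : ℕ} {B : ℝ} {F : S.Obs n} (h : S.Adm n B F) :
    S.Adm (n + 1) B (fun r t ω => F r t.1 (fun l => ω l.castSucc)) := by
  refine ⟨fun r t ω => h.bd _ _ _, fun r c t ω => h.er _ _ _ _,
    fun r r' c h1 h2 h3 h4 t ω ω' h5 h6 => ?_⟩
  exact h.fr r r' c h1 h2 h3 h4 t.1 _ _ (fun l => h5 _) (fun l => h6 _)

theorem Adm_Khat (b : ℕ) {n : ℕ} {Φ : SK n} {M : ℝ} (hM : ∀ σ l, |Φ σ l| ≤ M) :
    S.Adm n (2 ^ (b + 2) * M) (fun r _ ω => S.Khat b Φ r ω) := by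
  have hM0 : 0 ≤ M := (abs_nonneg _).trans (hM (fun _ => false) (fun _ _ => false))
  have hL := S.B1a_L_pos
  refine ⟨fun r t ω => S.abs_Khat_le b hM r ω, fun r c t ω => ?_,
    fun r r' c h1 h2 h3 h4 t ω ω' h5 h6 => ?_⟩
  · unfold Khat
    rw [← mul_sub, ← Finset.sum_sub_distrib, abs_mul, abs_of_nonneg (by positivity)]
    have hone : ∀ c', c' ≠ c → ((if S.isM (r.2 c').1 b then S.sl Φ r c' ω else 0) -
        (if S.isM ((S.erase r c).2 c').1 b then S.sl Φ (S.erase r c) c' ω else 0)) = 0 := by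
      intro c' hc'
      have e : (S.erase r c).2 c' = r.2 c' := by
        unfold erase; simp [Function.update_of_ne hc']
      unfold sl
      rw [e, sub_self]
    rw [Finset.sum_eq_single c (fun c' _ hc' => hone c' hc')
      (fun h => absurd (Finset.mem_univ c) h)]
    have e : ((S.erase r c).2 c).1 = none := by
      unfold erase; simp
    have e2 : ¬ S.isM ((S.erase r c).2 c).1 b := by
      rw [e]; simp [isM]
    rw [if_neg e2, sub_zero]
    have e3 : |if S.isM (r.2 c).1 b then S.sl Φ r c ω else 0| ≤ M := by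
      split_ifs
      · exact hM _ _
      · simpa using hM0
    calc 2 ^ (b + 2) / (S.L : ℝ) * |if S.isM (r.2 c).1 b then S.sl Φ r c ω else 0|
        ≤ 2 ^ (b + 2) / (S.L : ℝ) * M := mul_le_mul_of_nonneg_left e3 (by positivity)
      _ = 2 ^ (b + 2) * M / S.L := by ring
  · unfold Khat
    congr 1
    refine Finset.sum_congr rfl fun c' _ => ?_
    by_cases hc' : c' = c
    · subst hc'
      rw [h1, h2]
      simp [isM]
    · unfold sl
      rw [h4 c' hc']
      simp only [h5, h6 _ c' hc']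

theorem Adm_KK (b : ℕ) {n : ℕ} (G : Fin (n + 1) → Feat) :
    S.Adm n (cK b n) (fun r _ ω => S.KK b G r ω) :=
  S.Adm_Khat b (fun σ l => abs_PhiG_le (S.W b) (fun σ l => S.W_lo b σ l) G σ l)

/-- `R_C` is admissible (it does not see the slots). -/
theorem Adm_RC {n : ℕ} (C : Finset (Fin (n + 1))) : S.Adm n 1 (fun r _ ω => S.RC C r ω) := by
  have hL := S.B1a_L_pos
  have hk : (0 : ℝ) < S.k := by exact_mod_cast S.k_pos
  refine ⟨fun r t ω => ?_, fun r c t ω => ?_, fun r r' c h1 h2 h3 h4 t ω ω' h5 h6 => ?_⟩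
  · unfold RC
    rw [abs_mul, abs_of_nonneg (by positivity)]
    have e : |∑ v : Fin S.k, ∏ l ∈ C, spinVal ((ω l).2 v)| ≤ S.k := by
      refine (Finset.abs_sum_le_sum_abs _ _).trans (le_of_eq ?_)
      have : ∀ v : Fin S.k, |∏ l ∈ C, spinVal ((ω l).2 v)| = 1 := by
        intro v
        rw [Finset.abs_prod]
        exact Finset.prod_eq_one fun l _ => B1a_abs_spinVal _
      simp [this]
    calc 1 / (S.k : ℝ) * |∑ v : Fin S.k, ∏ l ∈ C, spinVal ((ω l).2 v)|
        ≤ 1 / (S.k : ℝ) * S.k := mul_le_mul_of_nonneg_left e (by positivity)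
      _ = 1 := by field_simp
  · have : S.RC C r ω - S.RC C (S.erase r c) ω = 0 := by unfold RC; ring
    rw [this, abs_zero]
    positivity
  · unfold RC
    simp only [h5]

end Sys
end Crest.SG
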