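import Crest.Agent.SG_B1

/-! # SG_B1v : slot systems, expectation given the tree, variance, covariance (task SG-B1v) -/

set_option autoImplicit false
noncomputable section
open scoped BigOperators
open Classical
open Crest.ProbabilityR.Diluted
namespace Crest.SG
namespace Sys

variable (S : Sys)

theorem ER_add (n : ℕ) (t : Tree S.R n) (X Y : S.Root → (Fin (n + 1) → S.Om) → ℝ) :
    S.ER n t (fun r ω => X r ω + Y r ω) = S.ER n t X + S.ER n t Y := by
  have h : ∀ r, Et S.lv (S.PL r) n t (fun ω => X r ω + Y r ω) =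
      Et S.lv (S.PL r) n t (X r) + Et S.lv (S.PL r) n t (Y r) :=
    fun r => Et_add S.lv t (X r) (Y r)
  simp only [ER, h, mul_add, Finset.sum_add_distrib]

theorem ER_sub (n : ℕ) (t : Tree S.R n) (X Y : S.Root → (Fin (n + 1) → S.Om) → ℝ) :
    S.ER n t (fun r ω => X r ω - Y r ω) = S.ER n t X - S.ER n t Y := by
  have h : ∀ r, Et S.lv (S.PL r) n t (fun ω => X r ω - Y r ω) =
      Et S.lv (S.PL r) n t (X r) - Et S.lv (S.PL r) n t (Y r) :=
    fun r => Et_sub S.lv t (X r) (Y r)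
  simp only [ER, h, mul_sub, Finset.sum_sub_distrib]

theorem ER_const_mul (n : ℕ) (t : Tree S.R n) (c : ℝ) (X : S.Root → (Fin (n + 1) → S.Om) → ℝ) :
    S.ER n t (fun r ω => c * X r ω) = c * S.ER n t X := by
  have h : ∀ r, Et S.lv (S.PL r) n t (fun ω => c * X r ω) =
      c * Et S.lv (S.PL r) n t (X r) :=
    fun r => Et_const_mul S.lv t c (X r)
  simp only [ER, h]
  rw [Finset.mul_sum]
  exact Finset.sum_congr rfl fun r _ => by ring

theorem ER_sum {κ : Type} (s : Finset κ) (n : ℕ) (t : Tree S.R n)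
    (X : κ → S.Root → (Fin (n + 1) → S.Om) → ℝ) :
    S.ER n t (fun r ω => ∑ a ∈ s, X a r ω) = ∑ a ∈ s, S.ER n t (X a) := by
  have h : ∀ r, Et S.lv (S.PL r) n t (fun ω => ∑ a ∈ s, X a r ω) =
      ∑ a ∈ s, Et S.lv (S.PL r) n t (X a r) :=
    fun r => Et_sum S.lv s t (fun a => X a r)
  simp only [ER, h]
  rw [Finset.sum_comm]
  exact Finset.sum_congr rfl fun r _ => by rw [Finset.mul_sum]

theorem ER_const (n : ℕ) (t : Tree S.R n) (c : ℝ) : S.ER n t (fun _ _ => c) = c := by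
  have h : ∀ r, Et S.lv (S.PL r) n t (fun _ => c) = c :=
    fun r => Et_const S.lv (S.PL_law r) t c
  simp only [ER, h]
  rw [← Finset.sum_mul, S.prR_sum, one_mul]

theorem ER_mono (n : ℕ) (t : Tree S.R n) {X Y : S.Root → (Fin (n + 1) → S.Om) → ℝ}
    (h : ∀ r ω, X r ω ≤ Y r ω) : S.ER n t X ≤ S.ER n t Y := by
  unfold ER
  exact Finset.sum_le_sum fun r _ =>
    mul_le_mul_of_nonneg_left (Et_mono S.lv (S.PL_law r) t (h r)) (S.prR_nonneg r)

theorem ER_congr (n : ℕ) (t : Tree S.R n) {X Y : S.Root → (Fin (n + 1) → S.Om) → ℝ}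
    (h : ∀ r ω, X r ω = Y r ω) : S.ER n t X = S.ER n t Y := by
  have : X = Y := funext fun r => funext fun ω => h r ω
  rw [this]

theorem ER_abs_le (n : ℕ) (t : Tree S.R n) {X : S.Root → (Fin (n + 1) → S.Om) → ℝ} {B : ℝ}
    (h : ∀ r ω, |X r ω| ≤ B) : |S.ER n t X| ≤ B := by
  rw [abs_le]
  constructor
  · have h1 := S.ER_mono n t (X := fun _ _ => -B) (Y := X) (fun r ω => (abs_le.1 (h r ω)).1)
    rwa [ER_const] at h1
  · have h1 := S.ER_mono n t (X := X) (Y := fun _ _ => B) (fun r ω => (abs_le.1 (h r ω)).2)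
    rwa [ER_const] at h1

theorem ER_lift (n : ℕ) (t : Tree S.R (n + 1)) (X : S.Root → (Fin (n + 1) → S.Om) → ℝ) :
    S.ER (n + 1) t (fun r ω => X r (fun l => ω l.castSucc)) = S.ER n t.1 X := by
  unfold ER
  refine Finset.sum_congr rfl fun r _ => ?_
  congr 1
  exact Et_lift S.lv (S.PL_law r) t (X r)

theorem ER_supp (n : ℕ) (t : Tree S.R n) {X Y : S.Root → (Fin (n + 1) → S.Om) → ℝ}
    (h : ∀ r (ω : Fin (n + 1) → S.Om),
      (∀ i i', S.lv.rel (ov S.R n t i i') (ω i) (ω i')) → X r ω = Y r ω) :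
    S.ER n t X = S.ER n t Y := by
  unfold ER
  refine Finset.sum_congr rfl fun r _ => ?_
  congr 1
  exact Et_supp S.lv (S.PL_law r) t (fun ω hω => h r ω hω)

theorem ER_quad (n : ℕ) (t : Tree S.R n) (a b : ℝ) (X Y : S.Root → (Fin (n + 1) → S.Om) → ℝ) :
    S.ER n t (fun r ω => (a * X r ω + b * Y r ω) ^ 2) =
      a ^ 2 * S.ER n t (fun r ω => X r ω ^ 2) + 2 * a * b * S.ER n t (fun r ω => X r ω * Y r ω) +
        b ^ 2 * S.ER n t (fun r ω => Y r ω ^ 2) := by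
  have h : S.ER n t (fun r ω => (a * X r ω + b * Y r ω) ^ 2) =
      S.ER n t (fun r ω => (a ^ 2 * X r ω ^ 2 + 2 * a * b * (X r ω * Y r ω)) +
        b ^ 2 * Y r ω ^ 2) := S.ER_congr n t fun r ω => by ring
  rw [h, ER_add, ER_add, ER_const_mul, ER_const_mul, ER_const_mul]

theorem ER_nonneg' (n : ℕ) (t : Tree S.R n) {X : S.Root → (Fin (n + 1) → S.Om) → ℝ}
    (h : ∀ r ω, 0 ≤ X r ω) : 0 ≤ S.ER n t X := by
  have h1 := S.ER_mono n t (X := fun _ _ => 0) (Y := X) h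
  rwa [ER_const] at h1

theorem ER_cs (n : ℕ) (t : Tree S.R n) (X Y : S.Root → (Fin (n + 1) → S.Om) → ℝ) :
    (S.ER n t (fun r ω => X r ω * Y r ω)) ^ 2 ≤
      S.ER n t (fun r ω => X r ω ^ 2) * S.ER n t (fun r ω => Y r ω ^ 2) := by
  have h : ∀ x : ℝ, 0 ≤ S.ER n t (fun r ω => X r ω ^ 2) * (x * x) +
      (2 * S.ER n t (fun r ω => X r ω * Y r ω)) * x + S.ER n t (fun r ω => Y r ω ^ 2) := by
    intro x
    have h0 : 0 ≤ S.ER n t (fun r ω => (x * X r ω + 1 * Y r ω) ^ 2) :=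
      S.ER_nonneg' n t fun r ω => sq_nonneg _
    rw [ER_quad] at h0
    nlinarith [h0]
  have h2 := discrim_le_zero h
  rw [discrim] at h2
  nlinarith [h2]

theorem Var_nonneg (n : ℕ) (t : Tree S.R n) (X : S.Root → (Fin (n + 1) → S.Om) → ℝ) :
    0 ≤ S.Var n t X :=
  S.ER_nonneg' n t fun r ω => sq_nonneg _

theorem ER_sq_sub (n : ℕ) (t : Tree S.R n) (X : S.Root → (Fin (n + 1) → S.Om) → ℝ) (c : ℝ) :
    S.ER n t (fun r ω => (X r ω - c) ^ 2) =
      S.ER n t (fun r ω => X r ω ^ 2) - 2 * c * S.ER n t X + c ^ 2 := by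
  have h : S.ER n t (fun r ω => (X r ω - c) ^ 2) =
      S.ER n t (fun r ω => (X r ω ^ 2 + (-(2 * c)) * X r ω) + c ^ 2) :=
    S.ER_congr n t fun r ω => by ring
  rw [h, ER_add, ER_add, ER_const_mul, ER_const]
  ring

theorem Var_eq (n : ℕ) (t : Tree S.R n) (X : S.Root → (Fin (n + 1) → S.Om) → ℝ) :
    S.Var n t X = S.ER n t (fun r ω => X r ω ^ 2) - (S.ER n t X) ^ 2 := by
  unfold Var
  rw [ER_sq_sub]
  ring

theorem Var_le_sq (n : ℕ) (t : Tree S.R n) (X : S.Root → (Fin (n + 1) → S.Om) → ℝ) (c : ℝ) :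
    S.Var n t X ≤ S.ER n t (fun r ω => (X r ω - c) ^ 2) := by
  rw [Var_eq, ER_sq_sub]
  nlinarith [sq_nonneg (S.ER n t X - c)]

theorem Var_add_le (n : ℕ) (t : Tree S.R n) (X Y : S.Root → (Fin (n + 1) → S.Om) → ℝ) :
    S.Var n t (fun r ω => X r ω + Y r ω) ≤ 2 * S.Var n t X + 2 * S.Var n t Y := by
  have h0 := S.Var_nonneg n t (fun r ω => X r ω - Y r ω)
  rw [Var_eq, ER_sub] at h0
  rw [Var_eq, Var_eq, Var_eq, ER_add]
  have e1 : S.ER n t (fun r ω => (X r ω + Y r ω) ^ 2) =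
      S.ER n t (fun r ω => (1 * X r ω + 1 * Y r ω) ^ 2) := S.ER_congr n t fun r ω => by ring
  have e2 : S.ER n t (fun r ω => (X r ω - Y r ω) ^ 2) =
      S.ER n t (fun r ω => (1 * X r ω + (-1) * Y r ω) ^ 2) := S.ER_congr n t fun r ω => by ring
  rw [e1, ER_quad]
  rw [e2, ER_quad] at h0
  nlinarith [h0]

theorem Var_const_mul (n : ℕ) (t : Tree S.R n) (c : ℝ) (X : S.Root → (Fin (n + 1) → S.Om) → ℝ) :
    S.Var n t (fun r ω => c * X r ω) = c ^ 2 * S.Var n t X := by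
  rw [Var_eq, Var_eq, ER_const_mul]
  have e1 : S.ER n t (fun r ω => (c * X r ω) ^ 2) =
      S.ER n t (fun r ω => c ^ 2 * X r ω ^ 2) := S.ER_congr n t fun r ω => by ring
  rw [e1, ER_const_mul]
  ring

theorem Cov_eq (n : ℕ) (t : Tree S.R n) (X Y : S.Root → (Fin (n + 1) → S.Om) → ℝ) :
    S.Cov n t X Y = S.ER n t (fun r ω => X r ω * Y r ω) - S.ER n t X * S.ER n t Y := by
  unfold Cov
  have h : S.ER n t (fun r ω => X r ω * (Y r ω - S.ER n t Y)) =
      S.ER n t (fun r ω => X r ω * Y r ω - S.ER n t Y * X r ω) :=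
    S.ER_congr n t fun r ω => by ring
  rw [h, ER_sub, ER_const_mul]
  ring

theorem Var_self_cov (n : ℕ) (t : Tree S.R n) (X : S.Root → (Fin (n + 1) → S.Om) → ℝ) :
    S.Var n t X = S.Cov n t X X := by
  rw [Var_eq, Cov_eq]
  have h : S.ER n t (fun r ω => X r ω ^ 2) = S.ER n t (fun r ω => X r ω * X r ω) :=
    S.ER_congr n t fun r ω => by ring
  rw [h]
  ring

theorem Cov_sub_right (n : ℕ) (t : Tree S.R n) (X Y Z : S.Root → (Fin (n + 1) → S.Om) → ℝ) :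
    S.Cov n t X (fun r ω => Y r ω - Z r ω) = S.Cov n t X Y - S.Cov n t X Z := by
  rw [Cov_eq, Cov_eq, Cov_eq, ER_sub]
  have h : S.ER n t (fun r ω => X r ω * (Y r ω - Z r ω)) =
      S.ER n t (fun r ω => X r ω * Y r ω - X r ω * Z r ω) :=
    S.ER_congr n t fun r ω => by ring
  rw [h, ER_sub]
  ring

theorem Cov_const_mul (n : ℕ) (t : Tree S.R n) (c d : ℝ)
    (X Y : S.Root → (Fin (n + 1) → S.Om) → ℝ) :
    S.Cov n t (fun r ω => c * X r ω) (fun r ω => d * Y r ω) = c * d * S.Cov n t X Y := by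
  rw [Cov_eq, Cov_eq, ER_const_mul, ER_const_mul]
  have h : S.ER n t (fun r ω => c * X r ω * (d * Y r ω)) =
      S.ER n t (fun r ω => (c * d) * (X r ω * Y r ω)) :=
    S.ER_congr n t fun r ω => by ring
  rw [h, ER_const_mul]
  ring

/-- `|Cov(X,Y)| ≤ B √E[Y²]` for `|X| ≤ B`. -/
theorem Cov_le (n : ℕ) (t : Tree S.R n) {X Y : S.Root → (Fin (n + 1) → S.Om) → ℝ} {B : ℝ}
    (hB : 0 ≤ B) (hX : ∀ r ω, |X r ω| ≤ B) :
    |S.Cov n t X Y| ≤ B * Real.sqrt (S.ER n t (fun r ω => Y r ω ^ 2)) := by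
  have h1 : (S.Cov n t X Y) ^ 2 ≤ B ^ 2 * S.ER n t (fun r ω => Y r ω ^ 2) := by
    have hc := S.ER_cs n t X (fun r ω => Y r ω - S.ER n t Y)
    have h2 : S.ER n t (fun r ω => X r ω ^ 2) ≤ B ^ 2 := by
      have h3 := S.ER_mono n t (X := fun r ω => X r ω ^ 2) (Y := fun _ _ => B ^ 2)
        (fun r ω => by
          have := hX r ω
          rw [← sq_abs (X r ω)]
          exact pow_le_pow_left₀ (abs_nonneg _) this 2)
      rwa [ER_const] at h3
    have h4 : S.ER n t (fun r ω => (Y r ω - S.ER n t Y) ^ 2) ≤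
        S.ER n t (fun r ω => Y r ω ^ 2) := by
      have := S.Var_eq n t Y
      unfold Var at this
      rw [this]
      nlinarith [sq_nonneg (S.ER n t Y)]
    have h5 : 0 ≤ S.ER n t (fun r ω => (Y r ω - S.ER n t Y) ^ 2) :=
      S.ER_nonneg' n t fun r ω => sq_nonneg _
    unfold Cov
    refine hc.trans ?_
    exact mul_le_mul h2 h4 h5 (by positivity)
  have h2 := Real.abs_le_sqrt h1
  rwa [Real.sqrt_mul (by positivity), Real.sqrt_sq hB] at h2

/-- convex combinations. -/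
theorem Var_convex {κ : Type} (s : Finset κ) (n : ℕ) (t : Tree S.R n) (w : κ → ℝ)
    (hw : ∀ a ∈ s, 0 ≤ w a) (hs : ∑ a ∈ s, w a = 1)
    (X : κ → S.Root → (Fin (n + 1) → S.Om) → ℝ) :
    S.Var n t (fun r ω => ∑ a ∈ s, w a * X a r ω) ≤ ∑ a ∈ s, w a * S.Var n t (X a) := by
  refine (S.Var_le_sq n t _ (∑ a ∈ s, w a * S.ER n t (X a))).trans ?_
  have h1 : S.ER n t (fun r ω => (∑ a ∈ s, w a * X a r ω - ∑ a ∈ s, w a * S.ER n t (X a)) ^ 2) ≤
      S.ER n t (fun r ω => ∑ a ∈ s, w a * (X a r ω - S.ER n t (X a)) ^ 2) := by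
    refine S.ER_mono n t fun r ω => ?_
    have h2 : ∑ a ∈ s, w a * X a r ω - ∑ a ∈ s, w a * S.ER n t (X a) =
        ∑ a ∈ s, w a * (X a r ω - S.ER n t (X a)) := by
      rw [← Finset.sum_sub_distrib]
      exact Finset.sum_congr rfl fun a _ => by ring
    rw [h2]
    exact Real.pow_arith_mean_le_arith_mean_pow_of_even s w
      (fun a => X a r ω - S.ER n t (X a)) hw hs (by norm_num)
  refine h1.trans (le_of_eq ?_)
  rw [ER_sum S s n t (fun a r ω => w a * (X a r ω - S.ER n t (X a)) ^ 2)]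
  refine Finset.sum_congr rfl fun a _ => ?_
  rw [ER_const_mul]
  rfl

end Sys
end Crest.SG
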