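import Crest.Agent.SG_B1a
import Crest.Agent.SG_A6

/-! # SG_B2 : the Mecke formula and Lipschitz bound for `Gam` (task SG-B2)

Mecke: group the roots by the mark of slot `c`: `r ↦ erase r c` maps the roots with mark `b` onto the
roots with mark `none`, `prR r = prR (erase r c) 2^{-(b+2)}/p0`, and
`PL r = PLW (erase r c) c (W b)` (by `tilt_mul`: `sw r = sw (erase r c) * at1 (W b)`). -/

set_option autoImplicit false
noncomputable section
open scoped BigOperators
open Classical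
open Crest.ProbabilityR.Diluted
namespace Crest.SG
namespace Sys

variable (S : Sys)

theorem B2_W_pos (b : ℕ) (s : Bool) (l : ℕ → Bool) : 0 < S.W b s l := by
  have := S.W_lo b s l
  linarith

theorem B2_sw_erase {b : ℕ} {r : S.Root} {c : Fin S.L} (h : S.isM (r.2 c).1 b) (ω : S.Om) :
    S.sw r ω = S.sw (S.erase r c) ω * S.at1 (S.W b) (S.erase r c) c ω := by
  obtain ⟨hb, hm⟩ := S.isM_some.1 h
  have e1 : ∏ c', S.slotW (r.2 c') (ω.1 c') ω.2 =
      S.W b (ω.2 (r.2 c).2) (S.ext (ω.1 c)) *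
        ∏ c' ∈ Finset.univ.erase c, S.slotW (r.2 c') (ω.1 c') ω.2 := by
    rw [← Finset.mul_prod_erase Finset.univ _ (Finset.mem_univ c)]
    congr 1
    unfold slotW
    rw [hm]
  have e2 : ∏ c', S.slotW ((S.erase r c).2 c') (ω.1 c') ω.2 =
      ∏ c' ∈ Finset.univ.erase c, S.slotW (r.2 c') (ω.1 c') ω.2 := by
    rw [← Finset.mul_prod_erase Finset.univ _ (Finset.mem_univ c)]
    have h1 : S.slotW ((S.erase r c).2 c) (ω.1 c) ω.2 = 1 := by
      simp [erase, slotW]
    rw [h1, one_mul]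
    refine Finset.prod_congr rfl fun c' hc' => ?_
    have hne : c' ≠ c := Finset.ne_of_mem_erase hc'
    have h2 : (S.erase r c).2 c' = r.2 c' := by
      simp [erase, Function.update_of_ne hne]
    rw [h2]
  have e3 : S.at1 (S.W b) (S.erase r c) c ω = S.W b (ω.2 (r.2 c).2) (S.ext (ω.1 c)) := by
    simp [at1, erase]
  unfold sw
  rw [e1, e2, e3]
  simp only [erase]
  ring

theorem PL_erase {b : ℕ} {r : S.Root} {c : Fin S.L} (h : S.isM (r.2 c).1 b) (ω : S.Om) :
    S.PL r ω = S.PLW (S.erase r c) c (S.W b) ω := by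
  have : Nonempty S.Om := ⟨(fun _ _ => true, fun _ => true)⟩
  unfold PL PLW
  have e : S.sw r = fun ω => S.sw (S.erase r c) ω * S.at1 (S.W b) (S.erase r c) c ω :=
    funext fun ω => S.B2_sw_erase h ω
  rw [e]
  exact tilt_mul S.lv S.expo (unif_law S.Om) (fun ω => S.sw_pos _ ω)
    (fun ω => S.B2_W_pos b _ _) ω

/-- set the mark of slot `c` to `b`. -/
def B2_setM {b : ℕ} (hb : b < S.q) (r : S.Root) (c : Fin S.L) : S.Root :=
  (r.1, Function.update r.2 c (some ⟨b, hb⟩, (r.2 c).2))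

theorem B2_isM_setM {b : ℕ} (hb : b < S.q) (r : S.Root) (c : Fin S.L) :
    S.isM ((S.B2_setM hb r c).2 c).1 b := by
  rw [isM_some]
  exact ⟨hb, by simp [B2_setM]⟩

theorem B2_erase_setM {b : ℕ} (hb : b < S.q) {r : S.Root} {c : Fin S.L} (h : (r.2 c).1 = none) :
    S.erase (S.B2_setM hb r c) c = r := by
  refine Prod.ext rfl ?_
  funext c'
  by_cases hc : c' = c
  · subst hc
    simp only [erase, B2_setM, Function.update_self]
    exact Prod.ext h.symm rfl
  · simp only [erase, B2_setM, Function.update_of_ne hc]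

theorem B2_setM_erase {b : ℕ} (hb : b < S.q) {r : S.Root} {c : Fin S.L}
    (h : S.isM (r.2 c).1 b) : S.B2_setM hb (S.erase r c) c = r := by
  obtain ⟨hb', hm⟩ := S.isM_some.1 h
  refine Prod.ext rfl ?_
  funext c'
  by_cases hc : c' = c
  · subst hc
    simp only [erase, B2_setM, Function.update_self]
    exact Prod.ext hm.symm rfl
  · simp only [erase, B2_setM, Function.update_of_ne hc]

theorem B2_sum_isM {b : ℕ} (hb : b < S.q) (c : Fin S.L) (G : S.Root → ℝ) :
    ∑ r : S.Root, (if S.isM (r.2 c).1 b then G r else 0) =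
      ∑ r : S.Root, if (r.2 c).1 = none then G (S.B2_setM hb r c) else 0 := by
  rw [← Finset.sum_filter, ← Finset.sum_filter]
  refine Finset.sum_nbij' (fun r => S.erase r c) (fun r => S.B2_setM hb r c) ?_ ?_ ?_ ?_ ?_
  · intro r _
    simp [erase]
  · intro r _
    simp only [Finset.mem_filter, Finset.mem_univ, true_and]
    exact S.B2_isM_setM hb r c
  · intro r hr
    exact S.B2_setM_erase hb (Finset.mem_filter.1 hr).2
  · intro r hr
    exact S.B2_erase_setM hb (Finset.mem_filter.1 hr).2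
  · intro r hr
    rw [S.B2_setM_erase hb (Finset.mem_filter.1 hr).2]

theorem B2_prR_setM {b : ℕ} (hb : b < S.q) {r : S.Root} {c : Fin S.L} (h : (r.2 c).1 = none) :
    S.prR (S.B2_setM hb r c) = S.prR r * ((1 / 2 : ℝ) ^ (b + 2) / S.p0) := by
  have hp := S.p0_pos
  unfold prR
  rw [← Finset.mul_prod_erase Finset.univ (fun c' => S.pm (r.2 c').1 * (1 / (S.k : ℝ)))
      (Finset.mem_univ c),
    ← Finset.mul_prod_erase Finset.univ
      (fun c' => S.pm ((S.B2_setM hb r c).2 c').1 * (1 / (S.k : ℝ))) (Finset.mem_univ c)]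
  have h1 : ∏ c' ∈ Finset.univ.erase c, (S.pm ((S.B2_setM hb r c).2 c').1 * (1 / (S.k : ℝ))) =
      ∏ c' ∈ Finset.univ.erase c, (S.pm (r.2 c').1 * (1 / (S.k : ℝ))) := by
    refine Finset.prod_congr rfl fun c' hc' => ?_
    have hne : c' ≠ c := Finset.ne_of_mem_erase hc'
    simp only [B2_setM, Function.update_of_ne hne]
  have h2 : S.pm ((S.B2_setM hb r c).2 c).1 = (1 / 2 : ℝ) ^ (b + 2) := by
    simp [B2_setM, pm]
  have h3 : S.pm (r.2 c).1 = S.p0 := by
    rw [h]; rfl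
  rw [h1, h2, h3]
  simp only [B2_setM]
  field_simp

theorem B2_sl_setM {b : ℕ} (hb : b < S.q) (r : S.Root) (c : Fin S.L) {n : ℕ} (Φ : SK n)
    (ω : Fin (n + 1) → S.Om) : S.sl Φ (S.B2_setM hb r c) c ω = S.sl Φ r c ω := by
  simp [sl, B2_setM]

/-- `EE` of `Khat * F` as a sum over inactive slots. -/
theorem B2_EE_Khat {b : ℕ} (hb : b < S.q) {n : ℕ} (Φ : SK n) (F : S.Obs n) :
    S.EE n (fun r t ω => S.Khat b Φ r ω * F r t ω) =
      (1 / (S.p0 * S.L)) * ∑ c, ∑ r : S.Root, if (r.2 c).1 = none then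
        S.prR r * En S.lv S.m (S.PLW r c (S.W b)) n
          (fun t ω => S.sl Φ r c ω * F (S.B2_setM hb r c) t ω) else 0 := by
  have hp := S.p0_pos
  have hL : (0 : ℝ) < S.L := by exact_mod_cast S.L_pos
  have h1 : S.EE n (fun r t ω => S.Khat b Φ r ω * F r t ω) =
      ∑ r, S.prR r * ((2 ^ (b + 2) / (S.L : ℝ)) * ∑ c, if S.isM (r.2 c).1 b then
        En S.lv S.m (S.PL r) n (fun t ω => S.sl Φ r c ω * F r t ω) else 0) := by
    unfold EE
    refine Finset.sum_congr rfl fun r _ => ?_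
    congr 1
    have h2 : En S.lv S.m (S.PL r) n (fun t ω => S.Khat b Φ r ω * F r t ω) =
        En S.lv S.m (S.PL r) n (fun t ω => (2 ^ (b + 2) / (S.L : ℝ)) *
          ∑ c, if S.isM (r.2 c).1 b then S.sl Φ r c ω * F r t ω else 0) := by
      refine En_congr S.lv fun t ω => ?_
      unfold Khat
      rw [mul_assoc, Finset.sum_mul]
      congr 1
      refine Finset.sum_congr rfl fun c _ => ?_
      split_ifs
      · rfl
      · rw [zero_mul]
    rw [h2, En_const_mul]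
    congr 1
    rw [En_sum S.lv Finset.univ (fun c t ω => if S.isM (r.2 c).1 b then
      S.sl Φ r c ω * F r t ω else 0)]
    refine Finset.sum_congr rfl fun c _ => ?_
    split_ifs with h
    · rfl
    · exact En_const S.lv S.expo (S.PL_law r) 0
  have h3 : S.EE n (fun r t ω => S.Khat b Φ r ω * F r t ω) =
      (2 ^ (b + 2) / (S.L : ℝ)) * ∑ c, ∑ r : S.Root, if S.isM (r.2 c).1 b then
        S.prR r * En S.lv S.m (S.PL r) n (fun t ω => S.sl Φ r c ω * F r t ω) else 0 := by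
    rw [h1, Finset.sum_comm, Finset.mul_sum]
    refine Finset.sum_congr rfl fun r _ => ?_
    rw [← mul_assoc, mul_comm (S.prR r), mul_assoc, Finset.mul_sum]
    congr 1
    refine Finset.sum_congr rfl fun c _ => ?_
    split_ifs
    · rfl
    · rw [mul_zero]
  rw [h3, Finset.mul_sum, Finset.mul_sum]
  refine Finset.sum_congr rfl fun c _ => ?_
  rw [S.B2_sum_isM hb c, Finset.mul_sum, Finset.mul_sum]
  refine Finset.sum_congr rfl fun r _ => ?_
  split_ifs with h
  · have e1 : S.PL (S.B2_setM hb r c) = S.PLW r c (S.W b) := by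
      funext ω
      rw [S.PL_erase (S.B2_isM_setM hb r c), S.B2_erase_setM hb h]
    have e2 : (fun (t : Tree S.R n) (ω : Fin (n + 1) → S.Om) =>
        S.sl Φ (S.B2_setM hb r c) c ω * F (S.B2_setM hb r c) t ω) =
        fun t ω => S.sl Φ r c ω * F (S.B2_setM hb r c) t ω := by
      funext t ω
      rw [S.B2_sl_setM hb r c Φ ω]
    rw [e1, e2, S.B2_prR_setM hb h]
    have e3 : (2 : ℝ) ^ (b + 2) * (1 / 2 : ℝ) ^ (b + 2) = 1 := by
      rw [← mul_pow]; norm_num
    field_simp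
    linear_combination (S.prR r * En S.lv S.m (S.PLW r c (S.W b)) n fun t ω =>
      S.sl Φ r c ω * F (S.B2_setM hb r c) t ω) * e3
  · rw [mul_zero, mul_zero]

/-- sums over inactive slots, bound. -/
theorem B2_sum_le {D : ℝ} {X : Fin S.L → S.Root → ℝ}
    (h : ∀ c r, (r.2 c).1 = none → |X c r| ≤ D) :
    |(1 / (S.p0 * S.L)) * ∑ c, ∑ r : S.Root, if (r.2 c).1 = none then S.prR r * X c r else 0| ≤
      D := by
  have hp := S.p0_pos
  have hL : (0 : ℝ) < S.L := by exact_mod_cast S.L_pos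
  have h1 : ∀ c, |∑ r : S.Root, if (r.2 c).1 = none then S.prR r * X c r else 0| ≤ S.p0 * D := by
    intro c
    have h2 := S.prR_mark c none
    have h3 : S.pm none = S.p0 := rfl
    rw [h3] at h2
    rw [← h2, Finset.sum_mul]
    refine (Finset.abs_sum_le_sum_abs _ _).trans (Finset.sum_le_sum fun r _ => ?_)
    split_ifs with hr
    · rw [abs_mul, abs_of_nonneg (S.prR_nonneg r)]
      exact mul_le_mul_of_nonneg_left (h c r hr) (S.prR_nonneg r)
    · simp
  rw [abs_mul, abs_of_pos (by positivity), one_div, inv_mul_le_iff₀ (by positivity)]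
  refine (Finset.abs_sum_le_sum_abs _ _).trans ((Finset.sum_le_sum fun c _ => h1 c).trans ?_)
  rw [Finset.sum_const, Finset.card_univ, Fintype.card_fin, nsmul_eq_mul]
  apply le_of_eq
  ring

theorem B2_abs_sl {n : ℕ} {Φ : SK n} {M : ℝ} (hM : ∀ σ l, |Φ σ l| ≤ M) (r : S.Root)
    (c : Fin S.L) (ω : Fin (n + 1) → S.Om) : |S.sl Φ r c ω| ≤ M := hM _ _

theorem mecke {b : ℕ} (hb : b < S.q) {n : ℕ} {Φ : SK n} {M B : ℝ} (hM : ∀ σ l, |Φ σ l| ≤ M)
    {F : S.Obs n} (hF : S.Adm n B F) :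
    |S.EE n (fun r t ω => S.Khat b Φ r ω * F r t ω) - S.Gam n (S.W b) Φ F| ≤ M * B / S.L := by
  have hM0 : 0 ≤ M := (abs_nonneg _).trans (hM (fun _ => true) (fun _ _ => true))
  rw [S.B2_EE_Khat hb]
  unfold Gam
  have e : (1 / (S.p0 * S.L)) * (∑ c, ∑ r : S.Root, if (r.2 c).1 = none then
        S.prR r * En S.lv S.m (S.PLW r c (S.W b)) n
          (fun t ω => S.sl Φ r c ω * F (S.B2_setM hb r c) t ω) else 0) -
      (1 / (S.p0 * S.L)) * (∑ c, ∑ r : S.Root, if (r.2 c).1 = none then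
        S.prR r * En S.lv S.m (S.PLW r c (S.W b)) n (fun t ω => S.sl Φ r c ω * F r t ω) else 0) =
      (1 / (S.p0 * S.L)) * ∑ c, ∑ r : S.Root, if (r.2 c).1 = none then
        S.prR r * En S.lv S.m (S.PLW r c (S.W b)) n
          (fun t ω => S.sl Φ r c ω * F (S.B2_setM hb r c) t ω - S.sl Φ r c ω * F r t ω) else 0 := by
    rw [← mul_sub, ← Finset.sum_sub_distrib]
    congr 1
    refine Finset.sum_congr rfl fun c _ => ?_
    rw [← Finset.sum_sub_distrib]
    refine Finset.sum_congr rfl fun r _ => ?_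
    split_ifs
    · rw [En_sub]; ring
    · ring
  rw [e]
  refine S.B2_sum_le fun c r hr => ?_
  refine abs_En_le_of_le S.lv S.expo (S.PLW_law r c fun σ l => S.B2_W_pos b σ l) fun t ω => ?_
  rw [← mul_sub, abs_mul, mul_div_assoc]
  refine mul_le_mul (S.B2_abs_sl hM r c ω) ?_ (abs_nonneg _) hM0
  have h1 := hF.er (S.B2_setM hb r c) c t ω
  rwa [S.B2_erase_setM hb hr] at h1

theorem abs_Gam_le {n : ℕ} {V : Bool → (ℕ → Bool) → ℝ} (hV : ∀ σ l, 0 < V σ l) {Φ : SK n}
    {M B : ℝ} (hM : ∀ σ l, |Φ σ l| ≤ M) {F : S.Obs n} (hF : ∀ r t ω, |F r t ω| ≤ B) :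
    |S.Gam n V Φ F| ≤ M * B := by
  have hM0 : 0 ≤ M := (abs_nonneg _).trans (hM (fun _ => true) (fun _ _ => true))
  unfold Gam
  refine S.B2_sum_le fun c r hr => ?_
  refine abs_En_le_of_le S.lv S.expo (S.PLW_law r c hV) fun t ω => ?_
  rw [abs_mul]
  exact mul_le_mul (S.B2_abs_sl hM r c ω) (hF _ _ _) (abs_nonneg _) hM0

theorem Gam_lip {n : ℕ} {V V' : Bool → (ℕ → Bool) → ℝ} {lo δ δ' : ℝ} (hlo : 0 < lo)
    (hV : ∀ σ l, lo ≤ V σ l) (hV' : ∀ σ l, lo ≤ V' σ l) (hd : ∀ σ l, |V σ l - V' σ l| ≤ δ)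
    {Φ Φ' : SK n} {M B : ℝ} (hM : ∀ σ l, |Φ σ l| ≤ M) (hd' : ∀ σ l, |Φ σ l - Φ' σ l| ≤ δ')
    {F : S.Obs n} (hF : ∀ r t ω, |F r t ω| ≤ B) :
    |S.Gam n V Φ F - S.Gam n V' Φ' F| ≤ (2 * ((n : ℝ) + 1) * (δ / lo) * M + δ') * B := by
  have hM0 : 0 ≤ M := (abs_nonneg _).trans (hM (fun _ => true) (fun _ _ => true))
  have hδ' : 0 ≤ δ' := (abs_nonneg _).trans (hd' (fun _ => true) (fun _ _ => true))
  have e : S.Gam n V Φ F - S.Gam n V' Φ' F =
      (1 / (S.p0 * S.L)) * ∑ c, ∑ r : S.Root, if (r.2 c).1 = none then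
        S.prR r * (En S.lv S.m (S.PLW r c V) n (fun t ω => S.sl Φ r c ω * F r t ω) -
          En S.lv S.m (S.PLW r c V') n (fun t ω => S.sl Φ' r c ω * F r t ω)) else 0 := by
    unfold Gam
    rw [← mul_sub, ← Finset.sum_sub_distrib]
    congr 1
    refine Finset.sum_congr rfl fun c _ => ?_
    rw [← Finset.sum_sub_distrib]
    refine Finset.sum_congr rfl fun r _ => ?_
    split_ifs
    · ring
    · ring
  rw [e]
  refine S.B2_sum_le fun c r hr => ?_
  have h1 : |En S.lv S.m (S.PLW r c V) n (fun t ω => S.sl Φ r c ω * F r t ω) -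
      En S.lv S.m (S.PLW r c V') n (fun t ω => S.sl Φ r c ω * F r t ω)| ≤
      2 * ((n : ℝ) + 1) * (δ / lo) * (M * B) := by
    unfold PLW
    refine En_tilt_lip S.lv S.expo (S.PL_law r) hlo (fun ω => hV _ _) (fun ω => hV' _ _)
      (fun ω => hd _ _) fun t ω => ?_
    rw [abs_mul]
    exact mul_le_mul (S.B2_abs_sl hM r c ω) (hF _ _ _) (abs_nonneg _) hM0
  have h2 : |En S.lv S.m (S.PLW r c V') n (fun t ω => S.sl Φ r c ω * F r t ω) -
      En S.lv S.m (S.PLW r c V') n (fun t ω => S.sl Φ' r c ω * F r t ω)| ≤ δ' * B := by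
    rw [← En_sub]
    refine abs_En_le_of_le S.lv S.expo
      (S.PLW_law r c fun σ l => lt_of_lt_of_le hlo (hV' σ l)) fun t ω => ?_
    rw [← sub_mul, abs_mul]
    exact mul_le_mul (hd' _ _) (hF _ _ _) (abs_nonneg _) hδ'
  calc _ ≤ |En S.lv S.m (S.PLW r c V) n (fun t ω => S.sl Φ r c ω * F r t ω) -
      En S.lv S.m (S.PLW r c V') n (fun t ω => S.sl Φ r c ω * F r t ω)| +
      |En S.lv S.m (S.PLW r c V') n (fun t ω => S.sl Φ r c ω * F r t ω) -
      En S.lv S.m (S.PLW r c V') n (fun t ω => S.sl Φ' r c ω * F r t ω)| := abs_sub_le _ _ _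
    _ ≤ 2 * ((n : ℝ) + 1) * (δ / lo) * (M * B) + δ' * B := add_le_add h1 h2
    _ = _ := by ring

theorem Gam_add_obs {n : ℕ} (V : Bool → (ℕ → Bool) → ℝ) (Φ : SK n) (F F' : S.Obs n) :
    S.Gam n V Φ (fun r t ω => F r t ω + F' r t ω) = S.Gam n V Φ F + S.Gam n V Φ F' := by
  unfold Gam
  rw [← mul_add, ← Finset.sum_add_distrib]
  congr 1
  refine Finset.sum_congr rfl fun c _ => ?_
  rw [← Finset.sum_add_distrib]
  refine Finset.sum_congr rfl fun r _ => ?_
  split_ifs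
  · rw [← mul_add, ← En_add]
    congr 1
    refine En_congr S.lv fun t ω => ?_
    ring
  · ring

theorem Gam_add_ker {n : ℕ} (V : Bool → (ℕ → Bool) → ℝ) (Φ Φ' : SK n) (F : S.Obs n) :
    S.Gam n V (fun σ l => Φ σ l + Φ' σ l) F = S.Gam n V Φ F + S.Gam n V Φ' F := by
  unfold Gam
  rw [← mul_add, ← Finset.sum_add_distrib]
  congr 1
  refine Finset.sum_congr rfl fun c _ => ?_
  rw [← Finset.sum_add_distrib]
  refine Finset.sum_congr rfl fun r _ => ?_
  split_ifs
  · rw [← mul_add, ← En_add]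
    congr 1
    refine En_congr S.lv fun t ω => ?_
    unfold sl
    ring
  · ring

end Sys
end Crest.SG
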