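import Crest.Agent.SG_A6

/-! # SG_B3 : second-order finite difference of replica expectations in the tilt (task SG-B3)

`h(δ) = En(tilt P (V+δg)) (∏_{l∈A} γ_l/(V+δg) · F)`; `h'(δ)` by `hasDerivAt_En`:
`h'(δ) = En_δ(∏_A γ/(V+δg) · ∑_{l∉A} g/(V+δg)(ω_l) · F) - (n+1) En_δ^{(n+2)}(∏_A γ/(V+δg) · g/(V+δg)(ω_last) · F)`
(the terms with `l ∈ A` cancel), and `|h'(δ) - h'(0)| ≤ C δ B` by `En_tilt_lip`. -/

set_option autoImplicit false
noncomputable section
open scoped BigOperators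
open Classical
namespace Crest.SG

/-! ### pointwise estimates -/

private theorem B3_lo {v g y : ℝ} (hv : 1 / 2 ≤ v) (hg : |g| ≤ 1) (hy0 : 0 ≤ y)
    (hy : y ≤ 1 / 8) : 1 / 4 ≤ v + y * g := by
  have h1 : -(1 / 8) ≤ y * g := by
    have h2 : |y * g| ≤ 1 / 8 := by
      rw [abs_mul, abs_of_nonneg hy0]
      calc y * |g| ≤ 1 / 8 * 1 := mul_le_mul hy hg (abs_nonneg _) (by norm_num)
        _ = 1 / 8 := by norm_num
    exact (abs_le.1 h2).1
  linarith

private theorem B3_frac {c v g y : ℝ} (hc : |c| ≤ 1) (hv : 1 / 2 ≤ v) (hg : |g| ≤ 1)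
    (hy0 : 0 ≤ y) (hy : y ≤ 1 / 8) : |c / (v + y * g)| ≤ 4 := by
  have h := B3_lo hv hg hy0 hy
  have hp : 0 < v + y * g := by linarith
  rw [abs_div, abs_of_pos hp, div_le_iff₀ hp]
  linarith

private theorem B3_frac_sub {c v g y : ℝ} (hc : |c| ≤ 1) (hv : 1 / 2 ≤ v) (hg : |g| ≤ 1)
    (hy0 : 0 ≤ y) (hy : y ≤ 1 / 8) : |c / (v + y * g) - c / v| ≤ 16 * y := by
  have h := B3_lo hv hg hy0 hy
  have hp : 0 < v + y * g := by linarith
  have hv0 : 0 < v := by linarith
  have e : c / (v + y * g) - c / v = -(c * (y * g)) / ((v + y * g) * v) := by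
    field_simp
    ring
  rw [e, abs_div, abs_neg, abs_mul, abs_mul, abs_of_nonneg hy0, abs_of_pos (mul_pos hp hv0),
    div_le_iff₀ (mul_pos hp hv0)]
  have h1 : |c| * (y * |g|) ≤ 1 * (y * 1) :=
    mul_le_mul hc (mul_le_mul_of_nonneg_left hg hy0) (mul_nonneg hy0 (abs_nonneg _)) zero_le_one
  have h2 : (1 : ℝ) / 16 ≤ (v + y * g) * v := by nlinarith
  nlinarith

section prods
variable {ι : Type} {v g c : ι → ℝ}

private theorem B3_prod_le (hv : ∀ l, 1 / 2 ≤ v l) (hg : ∀ l, |g l| ≤ 1) (hc : ∀ l, |c l| ≤ 1)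
    {y : ℝ} (hy0 : 0 ≤ y) (hy : y ≤ 1 / 8) (A : Finset ι) :
    |∏ l ∈ A, c l / (v l + y * g l)| ≤ 4 ^ A.card := by
  rw [Finset.abs_prod, ← Finset.prod_const]
  exact Finset.prod_le_prod (fun l _ => abs_nonneg _)
    (fun l _ => B3_frac (hc l) (hv l) (hg l) hy0 hy)

private theorem B3_prod_sub (hv : ∀ l, 1 / 2 ≤ v l) (hg : ∀ l, |g l| ≤ 1) (hc : ∀ l, |c l| ≤ 1)
    {y : ℝ} (hy0 : 0 ≤ y) (hy : y ≤ 1 / 8) (A : Finset ι) :
    |(∏ l ∈ A, c l / (v l + y * g l)) - ∏ l ∈ A, c l / v l| ≤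
      16 * (A.card : ℝ) * 4 ^ A.card * y := by
  induction A using Finset.induction_on with
  | empty => simp
  | insert a s ha ih =>
    rw [Finset.prod_insert ha, Finset.prod_insert ha, Finset.card_insert_of_notMem ha]
    have h1 := B3_frac_sub (hc a) (hv a) (hg a) hy0 hy
    have h2 := B3_prod_le hv hg hc hy0 hy s
    have h3 : |c a / v a| ≤ 4 := by
      have := B3_frac (y := 0) (hc a) (hv a) (hg a) le_rfl (by norm_num)
      simpa using this
    have e : c a / (v a + y * g a) * (∏ l ∈ s, c l / (v l + y * g l)) -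
        c a / v a * ∏ l ∈ s, c l / v l =
        (c a / (v a + y * g a) - c a / v a) * (∏ l ∈ s, c l / (v l + y * g l)) +
        c a / v a * ((∏ l ∈ s, c l / (v l + y * g l)) - ∏ l ∈ s, c l / v l) := by ring
    rw [e]
    refine (abs_add_le _ _).trans ?_
    rw [abs_mul, abs_mul]
    have h4 : |c a / (v a + y * g a) - c a / v a| * |∏ l ∈ s, c l / (v l + y * g l)| ≤
        16 * y * 4 ^ s.card :=
      mul_le_mul h1 h2 (abs_nonneg _) (by positivity)
    have h5 : |c a / v a| * |(∏ l ∈ s, c l / (v l + y * g l)) - ∏ l ∈ s, c l / v l| ≤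
        4 * (16 * (s.card : ℝ) * 4 ^ s.card * y) :=
      mul_le_mul h3 ih (abs_nonneg _) (by norm_num)
    have h6 : (0 : ℝ) ≤ 4 ^ s.card * y := by positivity
    push_cast
    rw [pow_succ]
    nlinarith

private theorem B3_prod_deriv (hv : ∀ l, 1 / 2 ≤ v l) (hg : ∀ l, |g l| ≤ 1)
    {y : ℝ} (hy0 : 0 ≤ y) (hy : y ≤ 1 / 8) (A : Finset ι) :
    HasDerivAt (fun y => ∏ l ∈ A, c l / (v l + y * g l))
      (-((∏ l ∈ A, c l / (v l + y * g l)) * ∑ l ∈ A, g l / (v l + y * g l))) y := by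
  induction A using Finset.induction_on with
  | empty => simpa using hasDerivAt_const y (1 : ℝ)
  | insert a s ha ih =>
    simp only [Finset.prod_insert ha, Finset.sum_insert ha]
    have hlo := B3_lo (hv a) (hg a) hy0 hy
    have hne : v a + y * g a ≠ 0 := by linarith
    have h1 : HasDerivAt (fun y => v a + y * g a) (g a) y := by
      have := ((hasDerivAt_id y).mul_const (g a)).const_add (v a)
      simpa using this
    have h2 : HasDerivAt (fun y => c a / (v a + y * g a))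
        (-(c a / (v a + y * g a) * (g a / (v a + y * g a)))) y := by
      refine ((hasDerivAt_const y (c a)).div h1 hne).congr_deriv ?_
      field_simp
      ring
    refine (h2.mul ih).congr_deriv ?_
    ring

private theorem B3_sum_le (hv : ∀ l, 1 / 2 ≤ v l) (hg : ∀ l, |g l| ≤ 1)
    {y : ℝ} (hy0 : 0 ≤ y) (hy : y ≤ 1 / 8) (A : Finset ι) :
    |∑ l ∈ A, g l / (v l + y * g l)| ≤ 4 * (A.card : ℝ) := by
  refine (Finset.abs_sum_le_sum_abs _ _).trans ?_
  calc ∑ l ∈ A, |g l / (v l + y * g l)| ≤ ∑ l ∈ A, (4 : ℝ) :=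
        Finset.sum_le_sum fun l _ => B3_frac (hg l) (hv l) (hg l) hy0 hy
    _ = 4 * (A.card : ℝ) := by rw [Finset.sum_const, nsmul_eq_mul, mul_comm]

private theorem B3_sum_sub (hv : ∀ l, 1 / 2 ≤ v l) (hg : ∀ l, |g l| ≤ 1)
    {y : ℝ} (hy0 : 0 ≤ y) (hy : y ≤ 1 / 8) (A : Finset ι) :
    |(∑ l ∈ A, g l / (v l + y * g l)) - ∑ l ∈ A, g l / v l| ≤ 16 * (A.card : ℝ) * y := by
  rw [← Finset.sum_sub_distrib]
  refine (Finset.abs_sum_le_sum_abs _ _).trans ?_
  calc ∑ l ∈ A, |g l / (v l + y * g l) - g l / v l| ≤ ∑ l ∈ A, (16 * y) :=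
        Finset.sum_le_sum fun l _ => B3_frac_sub (hg l) (hv l) (hg l) hy0 hy
    _ = 16 * (A.card : ℝ) * y := by rw [Finset.sum_const, nsmul_eq_mul]; ring

end prods

/-- pointwise bound of `φψ(y) - φψ(0)` -/
private theorem B3_mul_sub {a a0 b b0 x z x' z' : ℝ} (h1 : |a - a0| ≤ x) (h2 : |b| ≤ z)
    (h3 : |a0| ≤ z') (h4 : |b - b0| ≤ x') : |a * b - a0 * b0| ≤ x * z + z' * x' := by
  have e : a * b - a0 * b0 = (a - a0) * b + a0 * (b - b0) := by ring
  rw [e]
  refine (abs_add_le _ _).trans ?_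
  rw [abs_mul, abs_mul]
  exact add_le_add (mul_le_mul h1 h2 (abs_nonneg _) ((abs_nonneg _).trans h1))
    (mul_le_mul h3 h4 (abs_nonneg _) ((abs_nonneg _).trans h3))

/-! ### change of observable and of tilt -/

private theorem B3_two {R : ℕ} {Ω : Type} [Fintype Ω] (S : Lev R Ω) {m : ℕ → ℝ} {P : Ω → ℝ}
    (E : Expo R m) (hP : PathLaw P) {W V : Ω → ℝ} {δ : ℝ}
    (h1 : ∀ ω, 1 / 4 ≤ W ω) (h2 : ∀ ω, 1 / 4 ≤ V ω) (h3 : ∀ ω, |W ω - V ω| ≤ δ) {n : ℕ}
    {G G0 : Tree R n → (Fin (n + 1) → Ω) → ℝ} {K K' : ℝ} (hG : ∀ t ω, |G t ω - G0 t ω| ≤ K)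
    (hG0 : ∀ t ω, |G0 t ω| ≤ K') :
    |En S m (tilt S m P W) n G - En S m (tilt S m P V) n G0| ≤
      K + 8 * ((n : ℝ) + 1) * δ * K' := by
  have hW : ∀ ω, 0 < W ω := fun ω => lt_of_lt_of_le (by norm_num) (h1 ω)
  have hQ := tilt_pathLaw S E hP hW
  have e : En S m (tilt S m P W) n G - En S m (tilt S m P V) n G0 =
      En S m (tilt S m P W) n (fun t ω => G t ω - G0 t ω) +
      (En S m (tilt S m P W) n G0 - En S m (tilt S m P V) n G0) := by
    rw [En_sub]; ring
  rw [e]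
  refine (abs_add_le _ _).trans (add_le_add (abs_En_le_of_le S E hQ hG) ?_)
  refine (En_tilt_lip S E hP (by norm_num : (0:ℝ) < 1 / 4) h1 h2 h3 hG0).trans (le_of_eq ?_)
  ring

theorem En_second (n : ℕ) (A : Finset (Fin (n + 1))) : ∃ C : ℝ, 0 ≤ C ∧
    ∀ {R : ℕ} {Ω : Type} [Fintype Ω] (S : Lev R Ω) {m : ℕ → ℝ} {P : Ω → ℝ}, Expo R m → PathLaw P →
    ∀ (V g : Ω → ℝ) (γ : Fin (n + 1) → Ω → ℝ), (∀ ω, 1 / 2 ≤ V ω) → (∀ ω, V ω ≤ 3 / 2) →
    (∀ ω, |g ω| ≤ 1) → (∀ l ω, |γ l ω| ≤ 1) →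
    ∀ (F : Tree R n → (Fin (n + 1) → Ω) → ℝ) (B : ℝ), (∀ t ω, |F t ω| ≤ B) →
    ∀ δ : ℝ, 0 ≤ δ → δ ≤ 1 / 8 →
    |En S m (tilt S m P (fun ω => V ω + δ * g ω)) n
        (fun t ω => (∏ l ∈ A, γ l (ω l) / (V (ω l) + δ * g (ω l))) * F t ω)
      - En S m (tilt S m P V) n (fun t ω => (∏ l ∈ A, γ l (ω l) / V (ω l)) * F t ω)
      - δ * (En S m (tilt S m P V) n (fun t ω => (∏ l ∈ A, γ l (ω l) / V (ω l)) *
              (∑ l ∈ Finset.univ \ A, g (ω l) / V (ω l)) * F t ω)
          - ((n : ℝ) + 1) * En S m (tilt S m P V) (n + 1)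
              (fun t ω => (∏ l ∈ A, γ l (ω l.castSucc) / V (ω l.castSucc)) *
                (g (ω (Fin.last (n + 1))) / V (ω (Fin.last (n + 1)))) * lift1 F t ω))|
      ≤ C * δ ^ 2 * B := by
  set a : ℝ := (A.card : ℝ) with ha
  set b : ℝ := ((Finset.univ \ A).card : ℝ) with hb
  set p : ℝ := 4 ^ A.card with hp
  have ha0 : 0 ≤ a := Nat.cast_nonneg _
  have hb0 : 0 ≤ b := Nat.cast_nonneg _
  have hp0 : 0 ≤ p := by positivity
  refine ⟨(16 * a * p * (4 * b) + p * (16 * b)) + 8 * ((n : ℝ) + 1) * (p * (4 * b)) +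
    ((n : ℝ) + 1) * ((16 * a * p * 4 + p * 16) + 8 * (((n + 1 : ℕ) : ℝ) + 1) * (p * 4)),
    by positivity, ?_⟩
  intro R Ω _ S m P E hP V g γ hV1 hV2 hg hγ F B hF δ hδ0 hδ
  set Wf : ℝ → Ω → ℝ := fun y ω => V ω + y * g ω with hWf
  have hlo : ∀ y ∈ Set.Icc (0 : ℝ) δ, ∀ ω, 1 / 4 ≤ Wf y ω := fun y hy ω =>
    B3_lo (hV1 ω) (hg ω) hy.1 (hy.2.trans hδ)
  have hWpos : ∀ y ∈ Set.Icc (0 : ℝ) δ, ∀ ω, 0 < Wf y ω := fun y hy ω =>
    lt_of_lt_of_le (by norm_num) (hlo y hy ω)
  have hderW : ∀ y, ∀ ω, HasDerivAt (fun y => Wf y ω) (g ω) y := by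
    intro y ω
    have := ((hasDerivAt_id y).mul_const (g ω)).const_add (V ω)
    simpa [hWf] using this
  set FA : ℝ → Tree R n → (Fin (n + 1) → Ω) → ℝ := fun y t ω =>
    (∏ l ∈ A, γ l (ω l) / (V (ω l) + y * g (ω l))) * F t ω with hFA
  set FA' : ℝ → Tree R n → (Fin (n + 1) → Ω) → ℝ := fun y t ω =>
    -((∏ l ∈ A, γ l (ω l) / (V (ω l) + y * g (ω l))) *
      ∑ l ∈ A, g (ω l) / (V (ω l) + y * g (ω l))) * F t ω with hFA'
  set G : ℝ → Tree R n → (Fin (n + 1) → Ω) → ℝ := fun y t ω =>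
    (∏ l ∈ A, γ l (ω l) / (V (ω l) + y * g (ω l))) *
      (∑ l ∈ Finset.univ \ A, g (ω l) / (V (ω l) + y * g (ω l))) * F t ω with hG
  set H : ℝ → Tree R (n + 1) → (Fin (n + 2) → Ω) → ℝ := fun y t ω =>
    (∏ l ∈ A, γ l (ω l.castSucc) / (V (ω l.castSucc) + y * g (ω l.castSucc))) *
      (g (ω (Fin.last (n + 1))) / (V (ω (Fin.last (n + 1))) + y * g (ω (Fin.last (n + 1))))) *
        lift1 F t ω with hH
  set Df : ℝ → ℝ := fun y => En S m (tilt S m P (Wf y)) n (G y) -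
    ((n : ℝ) + 1) * En S m (tilt S m P (Wf y)) (n + 1) (H y) with hDf
  have hder : ∀ y ∈ Set.Icc (0 : ℝ) δ, HasDerivAt
      (fun y => En S m (tilt S m P (Wf y)) n (FA y)) (Df y) y := by
    intro y hy
    have h1 := hasDerivAt_En S E hP (hWpos y hy) (hderW y) (F := FA) (F' := FA' y)
      (fun t ω => (B3_prod_deriv (v := fun l => V (ω l)) (g := fun l => g (ω l))
        (c := fun l => γ l (ω l)) (fun l => hV1 _) (fun l => hg _) hy.1
        (hy.2.trans hδ) A).mul_const (F t ω))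
    refine h1.congr_deriv ?_
    rw [hDf]
    simp only
    rw [← En_add]
    congr 1
    · refine En_congr S fun t ω => ?_
      simp only [hFA, hFA', hG, hWf]
      rw [← Finset.sum_sdiff (Finset.subset_univ A)]
      ring
    · congr 1
      refine En_congr S fun t ω => ?_
      simp only [hFA, hH, hWf, lift1]
      ring
  have hW0 : Wf 0 = V := by funext ω; simp [hWf]
  have hB : ∀ y ∈ Set.Icc (0 : ℝ) δ, |Df y - Df 0| ≤
      ((16 * a * p * (4 * b) + p * (16 * b)) + 8 * ((n : ℝ) + 1) * (p * (4 * b)) +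
    ((n : ℝ) + 1) * ((16 * a * p * 4 + p * 16) + 8 * (((n + 1 : ℕ) : ℝ) + 1) * (p * 4))) *
      (δ * B) := by
    intro y hy
    have hy8 : y ≤ 1 / 8 := hy.2.trans hδ
    have h08 : (0 : ℝ) ≤ 1 / 8 := by norm_num
    have hWV : ∀ ω, |Wf y ω - Wf 0 ω| ≤ δ := by
      intro ω
      have e : Wf y ω - Wf 0 ω = y * g ω := by simp only [hWf]; ring
      rw [e, abs_mul, abs_of_nonneg hy.1]
      calc y * |g ω| ≤ δ * 1 := mul_le_mul hy.2 (hg ω) (abs_nonneg _) hδ0
        _ = δ := mul_one _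
    have hlo0 := hlo 0 ⟨le_rfl, hδ0⟩
    have b1 : |En S m (tilt S m P (Wf y)) n (G y) - En S m (tilt S m P (Wf 0)) n (G 0)| ≤
        (16 * a * p * (4 * b) + p * (16 * b)) * (δ * B) +
          8 * ((n : ℝ) + 1) * δ * (p * (4 * b) * B) := by
      refine B3_two S E hP (hlo y hy) hlo0 hWV (fun t ω => ?_) (fun t ω => ?_)
      · have hB0 : 0 ≤ B := (abs_nonneg _).trans (hF t ω)
        simp only [hG]
        rw [← sub_mul, abs_mul]
        have e1 := B3_prod_sub (v := fun l => V (ω l)) (g := fun l => g (ω l))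
          (c := fun l => γ l (ω l)) (fun l => hV1 _) (fun l => hg _) (fun l => hγ l _) hy.1 hy8 A
        have e2 := B3_sum_le (v := fun l => V (ω l)) (g := fun l => g (ω l))
          (fun l => hV1 _) (fun l => hg _) hy.1 hy8 (Finset.univ \ A)
        have e3 := B3_prod_le (v := fun l => V (ω l)) (g := fun l => g (ω l))
          (c := fun l => γ l (ω l)) (fun l => hV1 _) (fun l => hg _) (fun l => hγ l _)
          le_rfl h08 A
        have e4 := B3_sum_sub (v := fun l => V (ω l)) (g := fun l => g (ω l))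
          (fun l => hV1 _) (fun l => hg _) hy.1 hy8 (Finset.univ \ A)
        simp only [zero_mul, add_zero] at e1 e2 e3 e4 ⊢
        have e5 := B3_mul_sub e1 e2 e3 e4
        have e6 : 16 * a * p * y * (4 * b) + p * (16 * b * y) ≤
            (16 * a * p * (4 * b) + p * (16 * b)) * δ := by
          have : 16 * a * p * y * (4 * b) + p * (16 * b * y) =
            (16 * a * p * (4 * b) + p * (16 * b)) * y := by ring
          rw [this]
          exact mul_le_mul_of_nonneg_left hy.2 (by positivity)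
        calc _ ≤ ((16 * a * p * (4 * b) + p * (16 * b)) * δ) * B :=
              mul_le_mul (e5.trans e6) (hF t ω) (abs_nonneg _) (by positivity)
          _ = _ := by ring
      · have hB0 : 0 ≤ B := (abs_nonneg _).trans (hF t ω)
        simp only [hG]
        rw [abs_mul, abs_mul]
        have e3 := B3_prod_le (v := fun l => V (ω l)) (g := fun l => g (ω l))
          (c := fun l => γ l (ω l)) (fun l => hV1 _) (fun l => hg _) (fun l => hγ l _)
          le_rfl h08 A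
        have e2 := B3_sum_le (v := fun l => V (ω l)) (g := fun l => g (ω l))
          (fun l => hV1 _) (fun l => hg _) le_rfl h08 (Finset.univ \ A)
        exact mul_le_mul (mul_le_mul e3 e2 (abs_nonneg _) hp0) (hF t ω) (abs_nonneg _)
          (by positivity)
    have b2 : |En S m (tilt S m P (Wf y)) (n + 1) (H y) -
        En S m (tilt S m P (Wf 0)) (n + 1) (H 0)| ≤
        (16 * a * p * 4 + p * 16) * (δ * B) +
          8 * (((n + 1 : ℕ) : ℝ) + 1) * δ * (p * 4 * B) := by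
      refine B3_two S E hP (hlo y hy) hlo0 hWV (fun t ω => ?_) (fun t ω => ?_)
      · have hB0 : 0 ≤ B := (abs_nonneg _).trans (hF t.1 (fun i => ω i.castSucc))
        simp only [hH]
        rw [← sub_mul, abs_mul]
        have e1 := B3_prod_sub (v := fun l : Fin (n + 1) => V (ω l.castSucc))
          (g := fun l => g (ω l.castSucc))
          (c := fun l => γ l (ω l.castSucc)) (fun l => hV1 _) (fun l => hg _) (fun l => hγ l _)
          hy.1 hy8 A
        have e2 := B3_frac (hg (ω (Fin.last (n + 1)))) (hV1 (ω (Fin.last (n + 1))))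
          (hg (ω (Fin.last (n + 1)))) hy.1 hy8
        have e3 := B3_prod_le (v := fun l : Fin (n + 1) => V (ω l.castSucc))
          (g := fun l => g (ω l.castSucc))
          (c := fun l => γ l (ω l.castSucc)) (fun l => hV1 _) (fun l => hg _) (fun l => hγ l _)
          le_rfl h08 A
        have e4 := B3_frac_sub (hg (ω (Fin.last (n + 1)))) (hV1 (ω (Fin.last (n + 1))))
          (hg (ω (Fin.last (n + 1)))) hy.1 hy8
        simp only [zero_mul, add_zero] at e1 e2 e3 e4 ⊢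
        have e5 := B3_mul_sub e1 e2 e3 e4
        have e6 : 16 * a * p * y * 4 + p * (16 * y) ≤
            (16 * a * p * 4 + p * 16) * δ := by
          have : 16 * a * p * y * 4 + p * (16 * y) =
            (16 * a * p * 4 + p * 16) * y := by ring
          rw [this]
          exact mul_le_mul_of_nonneg_left hy.2 (by positivity)
        calc _ ≤ ((16 * a * p * 4 + p * 16) * δ) * B :=
              mul_le_mul (e5.trans e6) (hF _ _) (abs_nonneg _) (by positivity)
          _ = _ := by ring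
      · have hB0 : 0 ≤ B := (abs_nonneg _).trans (hF t.1 (fun i => ω i.castSucc))
        simp only [hH]
        rw [abs_mul, abs_mul]
        have e3 := B3_prod_le (v := fun l : Fin (n + 1) => V (ω l.castSucc))
          (g := fun l => g (ω l.castSucc))
          (c := fun l => γ l (ω l.castSucc)) (fun l => hV1 _) (fun l => hg _) (fun l => hγ l _)
          le_rfl h08 A
        have e2 := B3_frac (hg (ω (Fin.last (n + 1)))) (hV1 (ω (Fin.last (n + 1))))
          (hg (ω (Fin.last (n + 1)))) le_rfl h08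
        exact mul_le_mul (mul_le_mul e3 e2 (abs_nonneg _) hp0) (hF _ _) (abs_nonneg _)
          (by positivity)
    have e : Df y - Df 0 =
        (En S m (tilt S m P (Wf y)) n (G y) - En S m (tilt S m P (Wf 0)) n (G 0)) -
        ((n : ℝ) + 1) * (En S m (tilt S m P (Wf y)) (n + 1) (H y) -
          En S m (tilt S m P (Wf 0)) (n + 1) (H 0)) := by
      simp only [hDf]; ring
    rw [e]
    have hn : (0 : ℝ) < (n : ℝ) + 1 := by positivity
    refine (abs_sub _ _).trans ?_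
    rw [abs_mul, abs_of_pos hn]
    refine (add_le_add b1 (mul_le_mul_of_nonneg_left b2 hn.le)).trans (le_of_eq ?_)
    ring
  have hmv := (convex_Icc (0 : ℝ) δ).norm_image_sub_le_of_norm_hasDerivWithin_le
    (f := fun y => En S m (tilt S m P (Wf y)) n (FA y) - y * Df 0)
    (f' := fun y => Df y - Df 0)
    (fun y hy => ((hder y hy).sub (by
      simpa using (hasDerivAt_id y).mul_const (Df 0))).hasDerivWithinAt)
    (fun y hy => by rw [Real.norm_eq_abs]; exact hB y hy)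
    (Set.left_mem_Icc.mpr hδ0) (Set.right_mem_Icc.mpr hδ0)
  simp only [Real.norm_eq_abs, zero_mul, sub_zero] at hmv
  have hfin : En S m (tilt S m P (fun ω => V ω + δ * g ω)) n
        (fun t ω => (∏ l ∈ A, γ l (ω l) / (V (ω l) + δ * g (ω l))) * F t ω)
      - En S m (tilt S m P V) n (fun t ω => (∏ l ∈ A, γ l (ω l) / V (ω l)) * F t ω)
      - δ * (En S m (tilt S m P V) n (fun t ω => (∏ l ∈ A, γ l (ω l) / V (ω l)) *
              (∑ l ∈ Finset.univ \ A, g (ω l) / V (ω l)) * F t ω)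
          - ((n : ℝ) + 1) * En S m (tilt S m P V) (n + 1)
              (fun t ω => (∏ l ∈ A, γ l (ω l.castSucc) / V (ω l.castSucc)) *
                (g (ω (Fin.last (n + 1))) / V (ω (Fin.last (n + 1)))) * lift1 F t ω)) =
      En S m (tilt S m P (Wf δ)) n (FA δ) - δ * Df 0 - En S m (tilt S m P (Wf 0)) n (FA 0) := by
    simp only [hDf, hW0, hFA, hG, hH, zero_mul, add_zero]
    simp only [hWf]
    ring
  rw [hfin]
  refine hmv.trans (le_of_eq ?_)
  rw [abs_of_nonneg hδ0]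
  ring

end Crest.SG
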