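import Crest.Agent.SG_B1a
import Crest.Agent.SG_A9

/-! # SG_B4 : a fresh label bit in `Gam` (task SG-B4)

In `Gam` the slot `c` is inactive, so its label bits are free (`FreeBit`, flip bit `n0` of slot `c`):
base law uniform, `sw r` does not involve slot `c`, `V`, `Φ` do not involve bit `n0`, and `F` does
not involve the data of the inactive slot `c` (`Adm.fr`). Then apply `Et_free`. -/

set_option autoImplicit false
noncomputable section
open scoped BigOperators
open Classical
open Crest.ProbabilityR.Diluted
namespace Crest.SG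
namespace Sys

variable (S : Sys)

private theorem B4_ext_update {n0 : ℕ} (hn : n0 < S.N) (l : Fin S.N → Bool) (x : Bool) :
    S.ext (Function.update l ⟨n0, hn⟩ x) = Function.update (S.ext l) n0 x := by
  funext k
  unfold ext
  by_cases hk : k < S.N
  · rw [dif_pos hk]
    by_cases h : k = n0
    · subst h
      rw [Function.update_self, Function.update_self]
    · rw [Function.update_of_ne (by simpa [Fin.ext_iff] using h), Function.update_of_ne h,
        dif_pos hk]
  · have h : k ≠ n0 := by
      rintro rfl
      exact hk hn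
    rw [dif_neg hk, Function.update_of_ne h, dif_neg hk]

private theorem B4_spin_sq (b : Bool) : spinVal b * spinVal b = 1 := by
  cases b <;> simp [spinVal]

private theorem B4_spin_not (b : Bool) : spinVal (!b) = -spinVal b := by
  cases b <;> simp [spinVal]

private theorem B4_free_unif {n0 : ℕ} (hn : n0 < S.N) (c : Fin S.L) :
    FreeBit S.lv (unif S.Om) (S.lev n0)
      (fun ω => (Function.update ω.1 c (Function.update (ω.1 c) ⟨n0, hn⟩ (!(ω.1 c ⟨n0, hn⟩))), ω.2))
      (fun ω => spinVal (ω.1 c ⟨n0, hn⟩)) where
  invol ω := by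
    refine Prod.ext ?_ rfl
    funext c' n
    by_cases hc : c' = c
    · subst hc
      by_cases h : n = ⟨n0, hn⟩
      · subst h
        simp
      · simp
    · simp [Function.update_of_ne hc]
  sq ω := B4_spin_sq _
  flip ω := by
    simp [B4_spin_not]
  law ω := rfl
  relτ j ω ω' h := by
    refine ⟨fun c' n hnj => ?_, fun hj => h.2 hj⟩
    by_cases hc : c' = c
    · subst hc
      by_cases h' : n = ⟨n0, hn⟩
      · subst h'
        simp only [Function.update_self]
        rw [h.1 c' _ hnj]
      · simp only [Function.update_self]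
        rw [Function.update_of_ne h', Function.update_of_ne h']
        exact h.1 c' n hnj
    · simp only []
      rw [Function.update_of_ne hc, Function.update_of_ne hc]
      exact h.1 c' n hnj
  below j ω hj := by
    refine ⟨fun c' n hnj => ?_, fun _ => rfl⟩
    by_cases hc : c' = c
    · subst hc
      have h' : n ≠ ⟨n0, hn⟩ := by
        rintro rfl
        simp only [] at hnj
        omega
      simp only [Function.update_self]
      rw [Function.update_of_ne h']
    · simp only []
      rw [Function.update_of_ne hc]
  above j ω ω' hj h := by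
    have := h.1 c ⟨n0, hn⟩ hj
    simp only [this]
  zle := (S.lev_lt n0).le

theorem freeBit_slot {n0 : ℕ} (hn : n0 < S.N) (r : S.Root) (c : Fin S.L)
    (hr : (r.2 c).1 = none) {V : Bool → (ℕ → Bool) → ℝ} (hV : ∀ σ l, 0 < V σ l)
    (hV0 : ∀ σ l x, V σ (Function.update l n0 x) = V σ l) :
    FreeBit S.lv (S.PLW r c V) (S.lev n0)
      (fun ω => (Function.update ω.1 c (Function.update (ω.1 c) ⟨n0, hn⟩ (!(ω.1 c ⟨n0, hn⟩))), ω.2))
      (fun ω => spinVal (ω.1 c ⟨n0, hn⟩)) := by
  unfold PLW
  refine FreeBit.tilt S.lv S.expo (S.PL_law r) ?_ (fun ω => hV _ _) ?_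
  · unfold PL
    have : Nonempty (Fin S.k) := ⟨⟨0, S.k_pos⟩⟩
    refine FreeBit.tilt S.lv S.expo (unif_law S.Om) (S.B4_free_unif hn c) (fun ω => S.sw_pos r ω) ?_
    intro ω
    unfold sw
    simp only []
    congr 1
    refine Finset.prod_congr rfl fun c' _ => ?_
    by_cases hc : c' = c
    · subst hc
      unfold slotW
      rw [hr]
    · rw [Function.update_of_ne hc]
  · intro ω
    unfold at1
    simp only [Function.update_self]
    rw [B4_ext_update, hV0]

theorem Gam_free {n n0 : ℕ} (hn : n0 < S.N) {V : Bool → (ℕ → Bool) → ℝ} (hV : ∀ σ l, 0 < V σ l)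
    (hV0 : ∀ σ l x, V σ (Function.update l n0 x) = V σ l) {Φ : SK n}
    (hΦ0 : ∀ σ l i x, Φ σ (Function.update l i (Function.update (l i) n0 x)) = Φ σ l)
    (i i' : Fin (n + 1)) {B : ℝ} {F : S.Obs n} (hF : S.Adm n B F) :
    S.Gam n V (fun σ l => Φ σ l * (spinVal (l i n0) * spinVal (l i' n0))) F =
      S.Gam n V Φ (fun r t ω => (if S.lev n0 ≤ ov S.R n t i i' then 1 else 0) * F r t ω) := by
  unfold Gam
  congr 1
  refine Finset.sum_congr rfl fun c _ => Finset.sum_congr rfl fun r _ => ?_
  by_cases hr : (r.2 c).1 = none
  swap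
  · rw [if_neg hr, if_neg hr]
  rw [if_pos hr, if_pos hr]
  congr 1
  unfold En
  refine Finset.sum_congr rfl fun t _ => ?_
  congr 1
  have hfb := S.freeBit_slot hn r c hr hV hV0
  have hinv : ∀ (ω : Fin (n + 1) → S.Om) (l : Fin (n + 1)),
      (fun ω => S.sl Φ r c ω * F r t ω) (Function.update ω l
        ((fun ω : S.Om => (Function.update ω.1 c
          (Function.update (ω.1 c) ⟨n0, hn⟩ (!(ω.1 c ⟨n0, hn⟩))), ω.2)) (ω l))) =
      (fun ω => S.sl Φ r c ω * F r t ω) ω := by
    intro ω l
    simp only []
    congr 1
    · unfold sl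
      have h1 : (fun l' => (Function.update ω l (Function.update (ω l).1 c
          (Function.update ((ω l).1 c) ⟨n0, hn⟩ (!((ω l).1 c ⟨n0, hn⟩))), (ω l).2) l').2 (r.2 c).2) =
          fun l' => (ω l').2 (r.2 c).2 := by
        funext l'
        by_cases h : l' = l
        · subst h
          rw [Function.update_self]
        · rw [Function.update_of_ne h]
      have h2 : (fun l' => S.ext ((Function.update ω l (Function.update (ω l).1 c
          (Function.update ((ω l).1 c) ⟨n0, hn⟩ (!((ω l).1 c ⟨n0, hn⟩))), (ω l).2) l').1 c)) =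
          Function.update (fun l' => S.ext ((ω l').1 c)) l
            (Function.update ((fun l' => S.ext ((ω l').1 c)) l) n0 (!((ω l).1 c ⟨n0, hn⟩))) := by
        funext l'
        by_cases h : l' = l
        · subst h
          rw [Function.update_self, Function.update_self]
          simp only [Function.update_self]
          rw [B4_ext_update]
        · rw [Function.update_of_ne h, Function.update_of_ne h]
      rw [h1, h2, hΦ0]
    · refine hF.fr r r c hr hr rfl (fun _ _ => rfl) t _ _ (fun l' => ?_) (fun l' c' hc' => ?_)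
      · by_cases h : l' = l
        · subst h
          rw [Function.update_self]
        · rw [Function.update_of_ne h]
      · by_cases h : l' = l
        · subst h
          rw [Function.update_self]
          simp only []
          rw [Function.update_of_ne hc']
        · rw [Function.update_of_ne h]
  have key := Et_free S.lv (S.PLW_law r c hV) hfb t i i' (F := fun ω => S.sl Φ r c ω * F r t ω) hinv
  have hL : ∀ ω : Fin (n + 1) → S.Om,
      S.sl (fun σ l => Φ σ l * (spinVal (l i n0) * spinVal (l i' n0))) r c ω * F r t ω =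
      spinVal ((ω i).1 c ⟨n0, hn⟩) * spinVal ((ω i').1 c ⟨n0, hn⟩) *
        (S.sl Φ r c ω * F r t ω) := by
    intro ω
    unfold sl ext
    simp only [dif_pos hn]
    ring
  rw [Et_congr S.lv t hL]
  refine key.trans ?_
  rw [← Et_const_mul]
  refine Et_congr S.lv t fun ω => ?_
  ring

end Sys
end Crest.SG
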