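import Crest.Agent.SG_B2

/-! # SG_B5a : weak forms of Det (task SG-B5a)

`EE |K - kmean|·|F| ≤ B √(EE (K-kmean)²) = B √Dvar → 0`. -/

set_option autoImplicit false
noncomputable section
open scoped BigOperators
open Classical Filter
open Crest.ProbabilityR.Diluted
namespace Crest.SG

variable {Sy : ℕ → Sys} {code : ℕ → TC} {η : ℕ → ℝ}

/-- Det at level `n` for all species and features. -/
def DetAt (Sy : ℕ → Sys) (n : ℕ) : Prop :=
  ∀ (b : ℕ) (G : Fin (n + 1) → Feat), Tendsto (fun s => (Sy s).Dvar b n G) atTop (nhds 0)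

theorem Sys.Dvar_eq_EE (S : Sys) (b n : ℕ) (G : Fin (n + 1) → Feat) :
    S.Dvar b n G = S.EE n (fun r t ω => (S.KK b G r ω - S.ER n t (S.KK b G)) ^ 2) := by
  rw [Sys.EE_eq_ER]
  rfl

private theorem b5a_abs_le (S : Sys) (n : ℕ) (X F : S.Obs n) {B D ε : ℝ} (hB : 0 < B) (hε : 0 < ε)
    (hF : ∀ r t ω, |F r t ω| ≤ B) (hX : S.EE n (fun r t ω => X r t ω ^ 2) = D)
    (hD : D ≤ (ε / B) ^ 2) :
    |S.EE n (fun r t ω => X r t ω * F r t ω)| ≤ ε := by
  have h1 := S.EE_cs n X F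
  have h2 : S.EE n (fun r t ω => F r t ω ^ 2) ≤ B ^ 2 := by
    have := S.EE_mono n (F := fun r t ω => F r t ω ^ 2) (G := fun _ _ _ => B ^ 2)
      (fun r t ω => by
        have := hF r t ω
        calc F r t ω ^ 2 = |F r t ω| ^ 2 := (sq_abs _).symm
          _ ≤ B ^ 2 := by gcongr)
    rwa [S.EE_const] at this
  have h0 : 0 ≤ S.EE n (fun r t ω => X r t ω ^ 2) := by
    have := S.EE_mono n (F := fun _ _ _ => (0 : ℝ)) (G := fun r t ω => X r t ω ^ 2)
      (fun r t ω => sq_nonneg _)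
    rwa [S.EE_const] at this
  have h3 : (S.EE n (fun r t ω => X r t ω * F r t ω)) ^ 2 ≤ ε ^ 2 := by
    calc _ ≤ _ := h1
      _ ≤ (ε / B) ^ 2 * B ^ 2 := by
        apply mul_le_mul (hX ▸ hD) h2 _ (by positivity)
        have := S.EE_mono n (F := fun _ _ _ => (0 : ℝ)) (G := fun r t ω => F r t ω ^ 2)
          (fun r t ω => sq_nonneg _)
        rwa [S.EE_const] at this
      _ = ε ^ 2 := by field_simp
  exact abs_le_of_sq_le_sq h3 hε.le

/-- weak form, same number of replicas. -/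
theorem det_weak {n : ℕ} (hdet : DetAt Sy n) (b : ℕ) (G : Fin (n + 1) → Feat) :
    Negl Sy n (fun s F => (Sy s).EE n (fun r t ω => (Sy s).KK b G r ω * F r t ω) -
      (Sy s).EE n (fun r t ω => (Sy s).ER n t ((Sy s).KK b G) * F r t ω)) := by
  intro B hB ε hε
  have h1 : ∀ᶠ s in atTop, (Sy s).Dvar b n G ≤ (ε / B) ^ 2 :=
    (hdet b G).eventually_le_const (by positivity)
  filter_upwards [h1] with s hs F hF
  have h2 := b5a_abs_le (Sy s) n
    (fun r t ω => (Sy s).KK b G r ω - (Sy s).ER n t ((Sy s).KK b G)) F hB hε hF.bd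
    ((Sys.Dvar_eq_EE (Sy s) b n G).symm) hs
  rw [← Sys.EE_sub]
  rw [show (fun r t ω => (Sy s).KK b G r ω * F r t ω - (Sy s).ER n t ((Sy s).KK b G) * F r t ω) =
    (fun r t ω => ((Sy s).KK b G r ω - (Sy s).ER n t ((Sy s).KK b G)) * F r t ω) from by
      funext r t ω; ring]
  exact h2

/-- weak form, one more replica. -/
theorem det_weak1 {n : ℕ} (hdet : DetAt Sy n) (b : ℕ) (G : Fin (n + 1) → Feat) :
    Negl Sy (n + 1) (fun s F =>
      (Sy s).EE (n + 1) (fun r t ω => (Sy s).KK b G r (fun l => ω l.castSucc) * F r t ω) -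
      (Sy s).EE (n + 1) (fun r t ω => (Sy s).ER n t.1 ((Sy s).KK b G) * F r t ω)) := by
  intro B hB ε hε
  have h1 : ∀ᶠ s in atTop, (Sy s).Dvar b n G ≤ (ε / B) ^ 2 :=
    (hdet b G).eventually_le_const (by positivity)
  filter_upwards [h1] with s hs F hF
  have h2 := b5a_abs_le (Sy s) (n + 1)
    (fun r t ω => (Sy s).KK b G r (fun l => ω l.castSucc) - (Sy s).ER n t.1 ((Sy s).KK b G))
    F hB hε hF.bd (by
      have h3 := (Sy s).EE_lift n
        (fun r t ω => ((Sy s).KK b G r ω - (Sy s).ER n t ((Sy s).KK b G)) ^ 2)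
      rw [← Sys.Dvar_eq_EE] at h3
      exact h3) hs
  rw [← Sys.EE_sub]
  rw [show (fun r t ω => (Sy s).KK b G r (fun l => ω l.castSucc) * F r t ω -
      (Sy s).ER n t.1 ((Sy s).KK b G) * F r t ω) =
    (fun r t ω => ((Sy s).KK b G r (fun l => ω l.castSucc) -
      (Sy s).ER n t.1 ((Sy s).KK b G)) * F r t ω) from by
      funext r t ω; ring]
  exact h2

end Crest.SG
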