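import Crest.Agent.SG_B2
import Crest.Agent.SG_B3

/-! # SG_B5b : second-order finite difference for `Gam` (task SG-B5b)

Sum `En_second` (with `P = PL r`, functions `at1`) over slots and roots; the total mass
`(1/(p0 L)) ∑_c P(a_c = none) = 1` (`prR_mark`). Also the change of weight for kernels. -/

set_option autoImplicit false
noncomputable section
open scoped BigOperators
open Classical Filter
open Crest.ProbabilityR.Diluted
namespace Crest.SG

/-- kernel `∏_{l∈A} γ_l / V`. -/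
def PhiA {n : ℕ} (A : Finset (Fin (n + 1))) (V : Bool → (ℕ → Bool) → ℝ)
    (γ : Fin (n + 1) → Bool → (ℕ → Bool) → ℝ) : Sys.SK n :=
  fun σ l => ∏ i ∈ A, γ i (σ i) (l i) / V (σ i) (l i)

theorem Gam_second (n : ℕ) (A : Finset (Fin (n + 1))) : ∃ C : ℝ, 0 ≤ C ∧
    ∀ (S : Sys) (V g : Bool → (ℕ → Bool) → ℝ) (γ : Fin (n + 1) → Bool → (ℕ → Bool) → ℝ),
    (∀ σ l, 1 / 2 ≤ V σ l) → (∀ σ l, V σ l ≤ 3 / 2) → (∀ σ l, |g σ l| ≤ 1) →
    (∀ i σ l, |γ i σ l| ≤ 1) →
    ∀ (F : S.Obs n) (B : ℝ), (∀ r t ω, |F r t ω| ≤ B) → ∀ δ : ℝ, 0 ≤ δ → δ ≤ 1 / 8 →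
    |S.Gam n (fun σ l => V σ l + δ * g σ l) (PhiA A (fun σ l => V σ l + δ * g σ l) γ) F
      - S.Gam n V (PhiA A V γ) F
      - δ * (S.Gam n V (fun σ l => PhiA A V γ σ l * ∑ i ∈ Finset.univ \ A, g (σ i) (l i) / V (σ i) (l i)) F
        - ((n : ℝ) + 1) * S.Gam (n + 1) V
            (fun σ l => PhiA A V γ (fun i => σ i.castSucc) (fun i => l i.castSucc) *
              (g (σ (Fin.last (n + 1))) (l (Fin.last (n + 1))) /
                V (σ (Fin.last (n + 1))) (l (Fin.last (n + 1)))))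
            (fun r t ω => F r t.1 (fun l => ω l.castSucc)))|
      ≤ C * δ ^ 2 * B := by
  obtain ⟨C, hC0, hC⟩ := En_second n A
  refine ⟨C, hC0, ?_⟩
  intro S V g γ hV1 hV2 hg hγ F B hF δ hδ0 hδ1
  have hL : (0 : ℝ) < S.L := by exact_mod_cast S.L_pos
  have hp := S.p0_pos
  have key : ∀ (c : Fin S.L) (r : S.Root),
      |En S.lv S.m (S.PLW r c (fun σ l => V σ l + δ * g σ l)) n (fun t ω =>
          S.sl (PhiA A (fun σ l => V σ l + δ * g σ l) γ) r c ω * F r t ω)
        - En S.lv S.m (S.PLW r c V) n (fun t ω => S.sl (PhiA A V γ) r c ω * F r t ω)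
        - δ * (En S.lv S.m (S.PLW r c V) n (fun t ω =>
            S.sl (fun σ l => PhiA A V γ σ l *
              ∑ i ∈ Finset.univ \ A, g (σ i) (l i) / V (σ i) (l i)) r c ω * F r t ω)
          - ((n : ℝ) + 1) * En S.lv S.m (S.PLW r c V) (n + 1) (fun t ω =>
            S.sl (fun σ l => PhiA A V γ (fun i => σ i.castSucc) (fun i => l i.castSucc) *
              (g (σ (Fin.last (n + 1))) (l (Fin.last (n + 1))) /
                V (σ (Fin.last (n + 1))) (l (Fin.last (n + 1))))) r c ω *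
              F r t.1 (fun l => ω l.castSucc)))| ≤ C * δ ^ 2 * B := by
    intro c r
    exact hC S.lv S.expo (S.PL_law r) (S.at1 V r c) (S.at1 g r c) (fun i => S.at1 (γ i) r c)
      (fun ω => hV1 _ _) (fun ω => hV2 _ _) (fun ω => hg _ _) (fun i ω => hγ _ _ _) (F r) B
      (fun t ω => hF r t ω) δ hδ0 hδ1
  set X1 : Fin S.L → S.Root → ℝ := fun c r =>
    En S.lv S.m (S.PLW r c (fun σ l => V σ l + δ * g σ l)) n (fun t ω =>
      S.sl (PhiA A (fun σ l => V σ l + δ * g σ l) γ) r c ω * F r t ω) with hX1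
  set X2 : Fin S.L → S.Root → ℝ := fun c r =>
    En S.lv S.m (S.PLW r c V) n (fun t ω => S.sl (PhiA A V γ) r c ω * F r t ω) with hX2
  set Y1 : Fin S.L → S.Root → ℝ := fun c r =>
    En S.lv S.m (S.PLW r c V) n (fun t ω =>
      S.sl (fun σ l => PhiA A V γ σ l *
        ∑ i ∈ Finset.univ \ A, g (σ i) (l i) / V (σ i) (l i)) r c ω * F r t ω) with hY1
  set Y2 : Fin S.L → S.Root → ℝ := fun c r =>
    En S.lv S.m (S.PLW r c V) (n + 1) (fun t ω =>
      S.sl (fun σ l => PhiA A V γ (fun i => σ i.castSucc) (fun i => l i.castSucc) *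
        (g (σ (Fin.last (n + 1))) (l (Fin.last (n + 1))) /
          V (σ (Fin.last (n + 1))) (l (Fin.last (n + 1))))) r c ω *
        F r t.1 (fun l => ω l.castSucc)) with hY2
  have e : S.Gam n (fun σ l => V σ l + δ * g σ l) (PhiA A (fun σ l => V σ l + δ * g σ l) γ) F
      - S.Gam n V (PhiA A V γ) F
      - δ * (S.Gam n V (fun σ l => PhiA A V γ σ l *
          ∑ i ∈ Finset.univ \ A, g (σ i) (l i) / V (σ i) (l i)) F
        - ((n : ℝ) + 1) * S.Gam (n + 1) V
            (fun σ l => PhiA A V γ (fun i => σ i.castSucc) (fun i => l i.castSucc) *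
              (g (σ (Fin.last (n + 1))) (l (Fin.last (n + 1))) /
                V (σ (Fin.last (n + 1))) (l (Fin.last (n + 1)))))
            (fun r t ω => F r t.1 (fun l => ω l.castSucc))) =
      (1 / (S.p0 * S.L)) * ∑ c, ∑ r : S.Root, if (r.2 c).1 = none then
        S.prR r * (X1 c r - X2 c r - δ * (Y1 c r - ((n : ℝ) + 1) * Y2 c r)) else 0 := by
    have h : (∑ c, ∑ r : S.Root, if (r.2 c).1 = none then
        S.prR r * (X1 c r - X2 c r - δ * (Y1 c r - ((n : ℝ) + 1) * Y2 c r)) else 0) =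
        (∑ c, ∑ r : S.Root, if (r.2 c).1 = none then S.prR r * X1 c r else 0) -
        (∑ c, ∑ r : S.Root, if (r.2 c).1 = none then S.prR r * X2 c r else 0) -
        δ * ((∑ c, ∑ r : S.Root, if (r.2 c).1 = none then S.prR r * Y1 c r else 0) -
          ((n : ℝ) + 1) *
            (∑ c, ∑ r : S.Root, if (r.2 c).1 = none then S.prR r * Y2 c r else 0)) := by
      simp only [Finset.mul_sum, ← Finset.sum_sub_distrib]
      refine Finset.sum_congr rfl fun c _ => Finset.sum_congr rfl fun r _ => ?_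
      split_ifs <;> ring
    rw [h]
    unfold Sys.Gam
    ring
  rw [e]
  have h2 : |∑ c, ∑ r : S.Root, if (r.2 c).1 = none then
        S.prR r * (X1 c r - X2 c r - δ * (Y1 c r - ((n : ℝ) + 1) * Y2 c r)) else 0| ≤
      ∑ c : Fin S.L, ∑ r : S.Root,
        (if (r.2 c).1 = none then S.prR r else 0) * (C * δ ^ 2 * B) := by
    refine (Finset.abs_sum_le_sum_abs _ _).trans (Finset.sum_le_sum fun c _ => ?_)
    refine (Finset.abs_sum_le_sum_abs _ _).trans (Finset.sum_le_sum fun r _ => ?_)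
    split_ifs with hr
    · rw [abs_mul, abs_of_nonneg (S.prR_nonneg r)]
      exact mul_le_mul_of_nonneg_left (key c r) (S.prR_nonneg r)
    · simp
  have h3 : ∑ c : Fin S.L, ∑ r : S.Root,
        (if (r.2 c).1 = none then S.prR r else 0) * (C * δ ^ 2 * B) =
      S.L * (S.p0 * (C * δ ^ 2 * B)) := by
    have : ∀ c : Fin S.L, ∑ r : S.Root,
        (if (r.2 c).1 = none then S.prR r else 0) * (C * δ ^ 2 * B) =
        S.p0 * (C * δ ^ 2 * B) := by
      intro c
      rw [← Finset.sum_mul]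
      congr 1
      exact S.prR_mark c none
    rw [Finset.sum_congr rfl fun c _ => this c]
    simp
  rw [abs_mul, abs_of_nonneg (by positivity : (0 : ℝ) ≤ 1 / (S.p0 * S.L))]
  calc _ ≤ 1 / (S.p0 * S.L) * (S.L * (S.p0 * (C * δ ^ 2 * B))) :=
        mul_le_mul_of_nonneg_left (h2.trans h3.le) (by positivity)
    _ = C * δ ^ 2 * B := by field_simp

namespace Sys
variable (S : Sys)

/-- evaluating an averaged kernel on a sub-tuple of the replicas. -/
theorem Khat_comp (b : ℕ) {k n : ℕ} (Φ : SK k) (f : Fin (k + 1) → Fin (n + 1)) (r : S.Root)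
    (ω : Fin (n + 1) → S.Om) :
    S.Khat b Φ r (fun l => ω (f l)) =
      S.Khat b (fun σ l => Φ (fun i => σ (f i)) (fun i => l (f i))) r ω := by
  rfl

private theorem b5b_prod_lip {ι : Type} (s : Finset ι) (a b : ι → ℝ) {M d : ℝ} (hM : 0 ≤ M)
    (hd : 0 ≤ d) (ha : ∀ i, |a i| ≤ M) (hb : ∀ i, |b i| ≤ M) (hab : ∀ i, |a i - b i| ≤ d) :
    M * |∏ i ∈ s, a i - ∏ i ∈ s, b i| ≤ (s.card : ℝ) * M ^ s.card * d ∧
      |∏ i ∈ s, b i| ≤ M ^ s.card := by
  induction s using Finset.induction_on with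
  | empty => simp
  | insert x s hx ih =>
    obtain ⟨ih1, ih2⟩ := ih
    rw [Finset.prod_insert hx, Finset.prod_insert hx, Finset.card_insert_of_notMem hx]
    constructor
    · have e : a x * ∏ i ∈ s, a i - b x * ∏ i ∈ s, b i =
          a x * (∏ i ∈ s, a i - ∏ i ∈ s, b i) + (a x - b x) * ∏ i ∈ s, b i := by ring
      rw [e]
      have h1 : |a x * (∏ i ∈ s, a i - ∏ i ∈ s, b i) + (a x - b x) * ∏ i ∈ s, b i| ≤
          M * |∏ i ∈ s, a i - ∏ i ∈ s, b i| + d * M ^ s.card := by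
        refine (abs_add_le _ _).trans (add_le_add ?_ ?_)
        · rw [abs_mul]; exact mul_le_mul_of_nonneg_right (ha x) (abs_nonneg _)
        · rw [abs_mul]; exact mul_le_mul (hab x) ih2 (abs_nonneg _) hd
      calc _ ≤ M * (M * |∏ i ∈ s, a i - ∏ i ∈ s, b i| + d * M ^ s.card) :=
            mul_le_mul_of_nonneg_left h1 hM
        _ ≤ M * ((s.card : ℝ) * M ^ s.card * d + d * M ^ s.card) := by
            gcongr
        _ = _ := by push_cast; ring
    · rw [abs_mul, pow_succ']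
      exact mul_le_mul (hb x) ih2 (abs_nonneg _) hM

/-- Lipschitz bound of `1/V` products: replacing `V` by `V'` in `PhiG`. -/
theorem PhiG_lip {n : ℕ} {V V' : Bool → (ℕ → Bool) → ℝ} {δ : ℝ} (hV : ∀ σ l, 1 / 2 ≤ V σ l)
    (hV' : ∀ σ l, 1 / 2 ≤ V' σ l) (hd : ∀ σ l, |V σ l - V' σ l| ≤ δ) (G : Fin (n + 1) → Feat)
    (σ : Fin (n + 1) → Bool) (l : Fin (n + 1) → ℕ → Bool) :
    |PhiG V G σ l - PhiG V' G σ l| ≤ ((n : ℝ) + 1) * 4 ^ (n + 1) * δ := by
  have hδ : 0 ≤ δ := (abs_nonneg _).trans (hd (σ 0) (l 0))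
  have key := b5b_prod_lip (Finset.univ : Finset (Fin (n + 1)))
    (fun i => fval (G i) (σ i) (l i) / V (σ i) (l i))
    (fun i => fval (G i) (σ i) (l i) / V' (σ i) (l i)) (M := 2) (d := 4 * δ) (by norm_num)
    (by positivity) (fun i => by
      rw [abs_div, abs_fval, abs_of_pos (by linarith [hV (σ i) (l i)]),
        div_le_iff₀ (by linarith [hV (σ i) (l i)])]
      linarith [hV (σ i) (l i)])
    (fun i => by
      rw [abs_div, abs_fval, abs_of_pos (by linarith [hV' (σ i) (l i)]),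
        div_le_iff₀ (by linarith [hV' (σ i) (l i)])]
      linarith [hV' (σ i) (l i)])
    (fun i => by
      have h1 := hV (σ i) (l i)
      have h2 := hV' (σ i) (l i)
      have h3 := hd (σ i) (l i)
      have hp1 : 0 < V (σ i) (l i) := by linarith
      have hp2 : 0 < V' (σ i) (l i) := by linarith
      have e : fval (G i) (σ i) (l i) / V (σ i) (l i) - fval (G i) (σ i) (l i) / V' (σ i) (l i) =
          fval (G i) (σ i) (l i) * (-(V (σ i) (l i) - V' (σ i) (l i))) /
            (V (σ i) (l i) * V' (σ i) (l i)) := by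
        field_simp
        ring
      rw [e, abs_div, abs_mul, abs_fval, abs_neg, one_mul, abs_of_pos (mul_pos hp1 hp2),
        div_le_iff₀ (mul_pos hp1 hp2)]
      have h4 : 1 / 4 ≤ V (σ i) (l i) * V' (σ i) (l i) := by nlinarith
      nlinarith)
  have h1 := key.1
  simp only [Finset.card_univ, Fintype.card_fin] at h1
  have h2 : (2 : ℝ) ^ (n + 2) ≤ 4 ^ (n + 1) := by
    have : (4 : ℝ) = 2 ^ 2 := by norm_num
    rw [this, ← pow_mul]
    exact pow_le_pow_right₀ (by norm_num) (by omega)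
  have h3 : |PhiG V G σ l - PhiG V' G σ l| ≤ ((n : ℝ) + 1) * 2 ^ (n + 2) * δ := by
    have h4 : 2 * |PhiG V G σ l - PhiG V' G σ l| ≤ 2 * (((n : ℝ) + 1) * 2 ^ (n + 2) * δ) := by
      refine (show _ ≤ _ from h1).trans (le_of_eq ?_)
      push_cast
      ring
    linarith
  refine h3.trans ?_
  gcongr

end Sys

variable {Sy : ℕ → Sys} {code : ℕ → TC} {η : ℕ → ℝ}

/-- Mecke + change of weight: `EE[KK b G (ω ∘ f) F] ≈ Γ^{1+H_b}[∏ G/(1+H_b) ∘ f; F]`. -/
theorem KK_to_Gam (H : LTH Sy code η) (b : ℕ) {k n : ℕ} (G : Fin (k + 1) → Feat)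
    (f : Fin (k + 1) → Fin (n + 1)) :
    Negl Sy n (fun s F => (Sy s).EE n (fun r t ω => (Sy s).KK b G r (fun l => ω (f l)) * F r t ω) -
      (Sy s).Gam n (fun σ l => 1 + tval (code b) σ l)
        (fun σ l => PhiG (fun σ l => 1 + tval (code b) σ l) G (fun i => σ (f i)) (fun i => l (f i)))
        F) := by
  intro B hB ε hε
  have hlim1 : Tendsto (fun s => (2 : ℝ) ^ (k + 1) * B / (Sy s).L) atTop (nhds 0) :=
    Tendsto.div_atTop tendsto_const_nhds H.L_top
  have hlim2 : Tendsto (fun s => (2 * ((n : ℝ) + 1) * (η s / (1 / 2)) * 2 ^ (k + 1) +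
      ((k : ℝ) + 1) * 4 ^ (k + 1) * η s) * B) atTop (nhds 0) := by
    have h := H.η_zero
    have h2 : Tendsto (fun s => (2 * ((n : ℝ) + 1) * (η s / (1 / 2)) * 2 ^ (k + 1) +
      ((k : ℝ) + 1) * 4 ^ (k + 1) * η s) * B) atTop
        (nhds ((2 * ((n : ℝ) + 1) * (0 / (1 / 2)) * 2 ^ (k + 1) +
          ((k : ℝ) + 1) * 4 ^ (k + 1) * 0) * B)) := by
      refine Tendsto.mul_const B (Tendsto.add ?_ (Tendsto.const_mul _ h))
      exact Tendsto.mul_const _ (Tendsto.const_mul _ (Tendsto.div_const h _))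
    simpa using h2
  have e1 := hlim1.eventually_le_const (half_pos hε)
  have e2 := hlim2.eventually_le_const (half_pos hε)
  filter_upwards [e1, e2, H.q_top b] with s h1 h2 hq F hF
  have hV1 : ∀ σ l, 1 / 2 ≤ (Sy s).W b σ l := fun σ l => (Sy s).W_lo b σ l
  have hV2 : ∀ σ l, 1 / 2 ≤ 1 + tval (code b) σ l := by
    intro σ l
    have h3 := abs_tval_le (code b) σ l
    have h4 : (tnorm (code b) : ℝ) < 1 / 4 := by
      have := H.code_lt b
      have h5 : ((tnorm (code b) : ℚ) : ℝ) < ((1 / 4 : ℚ) : ℝ) := by exact_mod_cast this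
      simpa using h5
    have h6 := (abs_le.mp h3).1
    linarith
  have hM : ∀ (σ : Fin (n + 1) → Bool) (l : Fin (n + 1) → ℕ → Bool),
      |PhiG ((Sy s).W b) G (fun i => σ (f i)) (fun i => l (f i))| ≤ 2 ^ (k + 1) :=
    fun σ l => Sys.abs_PhiG_le _ hV1 G _ _
  have hm := (Sy s).mecke hq
    (Φ := fun σ l => PhiG ((Sy s).W b) G (fun i => σ (f i)) (fun i => l (f i))) hM hF
  have hl := (Sy s).Gam_lip (n := n) (V := (Sy s).W b) (V' := fun σ l => 1 + tval (code b) σ l)
    (lo := 1 / 2) (δ := η s) (δ' := ((k : ℝ) + 1) * 4 ^ (k + 1) * η s) (by norm_num) hV1 hV2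
    (fun σ l => H.W_close s b σ l)
    (Φ := fun σ l => PhiG ((Sy s).W b) G (fun i => σ (f i)) (fun i => l (f i)))
    (Φ' := fun σ l => PhiG (fun σ l => 1 + tval (code b) σ l) G (fun i => σ (f i))
      (fun i => l (f i))) hM
    (fun σ l => Sys.PhiG_lip hV1 hV2 (fun σ l => H.W_close s b σ l) G _ _) hF.bd
  have e3 : (fun r t ω => (Sy s).KK b G r (fun l => ω (f l)) * F r t ω) =
      (fun r t ω => (Sy s).Khat b
        (fun σ l => PhiG ((Sy s).W b) G (fun i => σ (f i)) (fun i => l (f i))) r ω * F r t ω) :=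
    rfl
  rw [e3]
  have h7 := abs_sub_le ((Sy s).EE n (fun r t ω => (Sy s).Khat b
        (fun σ l => PhiG ((Sy s).W b) G (fun i => σ (f i)) (fun i => l (f i))) r ω * F r t ω))
    ((Sy s).Gam n ((Sy s).W b)
      (fun σ l => PhiG ((Sy s).W b) G (fun i => σ (f i)) (fun i => l (f i))) F)
    ((Sy s).Gam n (fun σ l => 1 + tval (code b) σ l)
        (fun σ l => PhiG (fun σ l => 1 + tval (code b) σ l) G (fun i => σ (f i)) (fun i => l (f i)))
        F)
  linarith

end Crest.SG
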