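import Crest.Agent.SG_B5a
import Crest.Agent.SG_B5b

/-! # SG_B5c : (GG) without label (task SG-B5c)

Assume `DetAt Sy n`. Let `V = 1 + tval (code b)`, `g = fval G'` (`G' = G last`), `δ > 0` rational and
`b'` with `code b' = (δ, G') :: code b`.
`EE n' [KK b' (G_A) F] ≈ EE n' [kmean'(t_A) F]` (det_weak / det_weak1), `≈ Γ^{V+δg}[PhiG (V+δ g) G_A; F]`
(KK_to_Gam); same for `δ = 0`; subtract and use `Gam_second`:
`Γ'[F] = (1/δ) EE n'[(kmean' - kmean)(t_A) F] + O(δ) + o(1)/δ`.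
* `n' = n` (`A` = everything): `Γ'[F] = -(n+1) Γ_{n+1}^V[PhiG V G; lift F] ≈ -(n+1) EE(n+1)[KK b G · lift F]`,
  with `F = φ(t)`, `|φ| ≤ 1` a sign: `∑_t wt |(kmean'-kmean)/δ + (n+1) ER_t(KBz 0)| ≤ Cδ + o(1)/δ`.
* `n' = n+1` (`A` = all but the last): `Γ'[F] ≈ EE(n+1)[KK b G F] - (n+2) EE(n+2)[KK b G (skip) lift F]`.
Given `ε`, choose `δ` first, then `s` large. -/

set_option autoImplicit false
noncomputable section
open scoped BigOperators
open Classical Filter
open Crest.ProbabilityR.Diluted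
namespace Crest.SG

variable {Sy : ℕ → Sys} {code : ℕ → TC} {η : ℕ → ℝ}

/-! ### helpers -/

private theorem B5c_num {a a' m m' g g' x y e c δ e' : ℝ} (hδ : 0 ≤ δ) (h1 : |a - m| ≤ e)
    (h2 : |a' - m'| ≤ e) (h3 : |a - g| ≤ e) (h4 : |a' - g'| ≤ e) (h5 : |g' - g - δ * x| ≤ c)
    (h6 : |x - y| ≤ e') : |m' - m - δ * y| ≤ c + 4 * e + δ * e' := by
  have h7 : |δ * (x - y)| ≤ δ * e' := by
    rw [abs_mul, abs_of_nonneg hδ]
    exact mul_le_mul_of_nonneg_left h6 hδ
  rw [abs_le] at *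
  constructor <;> nlinarith

private theorem B5c_mulerr {k x y e : ℝ} (hk : 0 ≤ k) (h : |x - y| ≤ e) :
    |k * x - k * y| ≤ k * e := by
  rw [← mul_sub, abs_mul, abs_of_nonneg hk]
  exact mul_le_mul_of_nonneg_left h hk

/-- the map of indices of `skip`. -/
private def skf (n : ℕ) : Fin (n + 2) → Fin (n + 3) :=
  Fin.snoc (α := fun _ => Fin (n + 3)) (fun i : Fin (n + 1) => i.castSucc.castSucc) (Fin.last (n + 2))

private theorem skf_castSucc (n : ℕ) (i : Fin (n + 1)) : skf n i.castSucc = i.castSucc.castSucc := by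
  unfold skf
  rw [Fin.snoc_castSucc]

private theorem skf_last (n : ℕ) : skf n (Fin.last (n + 1)) = Fin.last (n + 2) := by
  unfold skf
  rw [Fin.snoc_last]

private theorem skip_eq {X : Type} {n : ℕ} (ω : Fin (n + 3) → X) :
    skip ω = fun l => ω (skf n l) := by
  funext l
  unfold skip
  refine Fin.lastCases ?_ (fun l => ?_) l
  · rw [skf_last, Fin.snoc_last]
  · rw [skf_castSucc, Fin.snoc_castSucc]

private theorem B5c_Phi_univ {n : ℕ} (V : Bool → (ℕ → Bool) → ℝ) (G : Fin (n + 1) → Feat) :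
    PhiA Finset.univ V (fun i => fval (G i)) = PhiG V G := rfl

private theorem B5c_Phi_last {n : ℕ} (V : Bool → (ℕ → Bool) → ℝ) (G : Fin (n + 2) → Feat)
    (σ : Fin (n + 2) → Bool) (l : Fin (n + 2) → ℕ → Bool) :
    PhiA Finset.univ V (fun i : Fin (n + 1) => fval (G i.castSucc)) (fun i => σ i.castSucc)
      (fun i => l i.castSucc) * (fval (G (Fin.last (n + 1))) (σ (Fin.last (n + 1)))
        (l (Fin.last (n + 1))) / V (σ (Fin.last (n + 1))) (l (Fin.last (n + 1)))) =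
      PhiG V G σ l := by
  unfold PhiG PhiA
  exact (Fin.prod_univ_castSucc (fun i : Fin (n + 2) => fval (G i) (σ i) (l i) / V (σ i) (l i))).symm

private theorem B5c_Phi_cs {n : ℕ} (V : Bool → (ℕ → Bool) → ℝ) (G : Fin (n + 2) → Feat)
    (σ : Fin (n + 2) → Bool) (l : Fin (n + 2) → ℕ → Bool) :
    PhiA (Finset.univ.map Fin.castSuccEmb) V (fun i => fval (G i)) σ l =
      PhiG V (fun i : Fin (n + 1) => G i.castSucc) (fun i => σ i.castSucc) (fun i => l i.castSucc) := by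
  unfold PhiG PhiA
  rw [Finset.prod_map]
  rfl

private theorem B5c_sdiff (n : ℕ) : (Finset.univ : Finset (Fin (n + 2))) \
    (Finset.univ.map Fin.castSuccEmb) = {Fin.last (n + 1)} := by
  ext x
  simp only [Finset.mem_sdiff, Finset.mem_univ, true_and, Finset.mem_map, Finset.mem_singleton,
    not_exists, Fin.coe_castSuccEmb]
  constructor
  · intro h
    refine Fin.lastCases ?_ (fun l => ?_) x h
    · intro _; rfl
    · intro h; exact absurd rfl (h l)
  · rintro rfl y hy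
    exact (Fin.castSucc_lt_last y).ne hy

namespace Sys
variable (S : Sys)

private theorem B5c_tree {n : ℕ} (X : Tree S.R n → S.Root → (Fin (n + 1) → S.Om) → ℝ)
    (φ : Tree S.R n → ℝ) :
    S.EE n (fun r t ω => X t r ω * φ t) = S.EE n (fun _ t _ => S.ER n t (X t) * φ t) := by
  rw [EE_eq_ER, EE_eq_ER]
  refine Finset.sum_congr rfl fun t _ => ?_
  congr 1
  rw [ER_const]
  have h : S.ER n t (fun r ω => X t r ω * φ t) = S.ER n t (fun r ω => φ t * X t r ω) :=
    S.ER_congr n t fun r ω => mul_comm _ _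
  rw [h, ER_const_mul, mul_comm]

private theorem B5c_mean (b : ℕ) {n : ℕ} (G : Fin (n + 2) → Feat) (i : Fin (n + 1))
    (φ : Tree S.R n → ℝ) :
    S.EE (n + 1) (fun r t ω => S.KK b G r ω * φ t.1) =
      S.EE n (fun _ t _ => S.ER n t (S.KBz b G 0 i t) * φ t) := by
  rw [← B5c_tree]
  unfold EE
  refine Finset.sum_congr rfl fun r _ => ?_
  congr 1
  rw [En_succ]
  refine En_congr S.lv fun t ω => ?_
  show _ = S.KBz b G 0 i t r ω * φ t
  unfold KBz krs
  rw [Finset.sum_mul]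
  refine Finset.sum_congr rfl fun par _ => ?_
  rw [Finset.sum_mul]
  refine Finset.sum_congr rfl fun j _ => ?_
  rw [Del_m]
  have h : ce S.lv (S.PL r) (max (j : ℕ) (age S.R n t par))
      (fun ω' => S.KK b G r (Fin.snoc (α := fun _ => S.Om) ω ω') * φ t) (ω par) =
      φ t * ce S.lv (S.PL r) (max (j : ℕ) (age S.R n t par))
      (fun ω' => S.KK b G r (Fin.snoc (α := fun _ => S.Om) ω ω')) (ω par) := by
    rw [← ce_const_mul]
    exact ce_congr S.lv (fun ω' => mul_comm _ _) _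
  have h2 : (if 0 ≤ min (max (j : ℕ) (age S.R n t par)) (ov S.R n t i par) then (1 : ℝ) else 0) = 1 :=
    if_pos (Nat.zero_le _)
  rw [h2]
  simp only at h ⊢
  rw [h]
  ring

private theorem B5c_Gam_zero {n : ℕ} (V : Bool → (ℕ → Bool) → ℝ) (F : S.Obs n) :
    S.Gam n V (fun _ _ => 0) F = 0 := by
  have h := S.Gam_add_ker V (fun _ _ => 0) (fun _ _ => 0) F
  simp only [add_zero] at h
  linarith

end Sys

/-- the one-system argument. -/
private theorem B5c_core (S : Sys) {n : ℕ} (b b' : ℕ) (G : Fin (n + 2) → Feat) (i : Fin (n + 1))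
    (V g : Bool → (ℕ → Bool) → ℝ) (GA : Fin (n + 1) → Feat) (hGA : GA = fun l => G l.castSucc)
    (hg : g = fun σ l => fval (G (Fin.last (n + 1))) σ l)
    {q B C1 C2 e0 ε : ℝ} (hC1 : 0 ≤ C1) (hC2 : 0 ≤ C2) (hB : 0 < B) (hq0 : 0 < q) (hq8 : q ≤ 1 / 8)
    (he0pos : 0 < e0) (hqe : q ≤ ε / (2 * ((C1 + C2) * B + 1)))
    (he0 : e0 = ε * q / (2 * (((n : ℝ) + 5) * B + n + 7)))
    (hVlo : ∀ σ l, 1 / 2 ≤ V σ l) (hVhi : ∀ σ l, V σ l ≤ 3 / 2) (hg1 : ∀ σ l, |g σ l| ≤ 1)
    (hsec1 : ∀ (S : Sys) (V g : Bool → (ℕ → Bool) → ℝ) (γ : Fin (n + 1) → Bool → (ℕ → Bool) → ℝ),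
      (∀ σ l, 1 / 2 ≤ V σ l) → (∀ σ l, V σ l ≤ 3 / 2) → (∀ σ l, |g σ l| ≤ 1) →
      (∀ i σ l, |γ i σ l| ≤ 1) →
      ∀ (F : S.Obs n) (B : ℝ), (∀ r t ω, |F r t ω| ≤ B) → ∀ δ : ℝ, 0 ≤ δ → δ ≤ 1 / 8 →
      |S.Gam n (fun σ l => V σ l + δ * g σ l) (PhiA Finset.univ (fun σ l => V σ l + δ * g σ l) γ) F
        - S.Gam n V (PhiA Finset.univ V γ) F
        - δ * (S.Gam n V (fun σ l => PhiA Finset.univ V γ σ l *
            ∑ i ∈ Finset.univ \ Finset.univ, g (σ i) (l i) / V (σ i) (l i)) F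
          - ((n : ℝ) + 1) * S.Gam (n + 1) V
              (fun σ l => PhiA Finset.univ V γ (fun i => σ i.castSucc) (fun i => l i.castSucc) *
                (g (σ (Fin.last (n + 1))) (l (Fin.last (n + 1))) /
                  V (σ (Fin.last (n + 1))) (l (Fin.last (n + 1)))))
              (fun r t ω => F r t.1 (fun l => ω l.castSucc)))|
        ≤ C1 * δ ^ 2 * B)
    (hsec2 : ∀ (S : Sys) (V g : Bool → (ℕ → Bool) → ℝ) (γ : Fin (n + 1 + 1) → Bool → (ℕ → Bool) → ℝ),
      (∀ σ l, 1 / 2 ≤ V σ l) → (∀ σ l, V σ l ≤ 3 / 2) → (∀ σ l, |g σ l| ≤ 1) →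
      (∀ i σ l, |γ i σ l| ≤ 1) →
      ∀ (F : S.Obs (n + 1)) (B : ℝ), (∀ r t ω, |F r t ω| ≤ B) → ∀ δ : ℝ, 0 ≤ δ → δ ≤ 1 / 8 →
      |S.Gam (n + 1) (fun σ l => V σ l + δ * g σ l)
          (PhiA (Finset.univ.map Fin.castSuccEmb) (fun σ l => V σ l + δ * g σ l) γ) F
        - S.Gam (n + 1) V (PhiA (Finset.univ.map Fin.castSuccEmb) V γ) F
        - δ * (S.Gam (n + 1) V (fun σ l => PhiA (Finset.univ.map Fin.castSuccEmb) V γ σ l *
            ∑ i ∈ Finset.univ \ (Finset.univ.map Fin.castSuccEmb), g (σ i) (l i) / V (σ i) (l i)) F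
          - (((n + 1 : ℕ) : ℝ) + 1) * S.Gam (n + 1 + 1) V
              (fun σ l => PhiA (Finset.univ.map Fin.castSuccEmb) V γ (fun i => σ i.castSucc)
                (fun i => l i.castSucc) *
                (g (σ (Fin.last (n + 1 + 1))) (l (Fin.last (n + 1 + 1))) /
                  V (σ (Fin.last (n + 1 + 1))) (l (Fin.last (n + 1 + 1)))))
              (fun r t ω => F r t.1 (fun l => ω l.castSucc)))|
        ≤ C2 * δ ^ 2 * B)
    (h1 : ∀ F : S.Obs n, S.Adm n 1 F → |S.EE n (fun r t ω => S.KK b GA r ω * F r t ω) -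
      S.EE n (fun r t ω => S.ER n t (S.KK b GA) * F r t ω)| ≤ e0)
    (h2 : ∀ F : S.Obs n, S.Adm n 1 F → |S.EE n (fun r t ω => S.KK b' GA r ω * F r t ω) -
      S.EE n (fun r t ω => S.ER n t (S.KK b' GA) * F r t ω)| ≤ e0)
    (h3 : ∀ F : S.Obs n, S.Adm n 1 F → |S.EE n (fun r t ω => S.KK b GA r ω * F r t ω) -
      S.Gam n V (PhiG V GA) F| ≤ e0)
    (h4 : ∀ F : S.Obs n, S.Adm n 1 F → |S.EE n (fun r t ω => S.KK b' GA r ω * F r t ω) -
      S.Gam n (fun σ l => V σ l + q * g σ l) (PhiG (fun σ l => V σ l + q * g σ l) GA) F| ≤ e0)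
    (h5 : ∀ F : S.Obs (n + 1), S.Adm (n + 1) 1 F →
      |S.EE (n + 1) (fun r t ω => S.KK b G r ω * F r t ω) - S.Gam (n + 1) V (PhiG V G) F| ≤ e0)
    (h6 : ∀ F : S.Obs (n + 1), S.Adm (n + 1) B F →
      |S.EE (n + 1) (fun r t ω => S.KK b GA r (fun l => ω l.castSucc) * F r t ω) -
        S.EE (n + 1) (fun r t ω => S.ER n t.1 (S.KK b GA) * F r t ω)| ≤ e0)
    (h7 : ∀ F : S.Obs (n + 1), S.Adm (n + 1) B F →
      |S.EE (n + 1) (fun r t ω => S.KK b' GA r (fun l => ω l.castSucc) * F r t ω) -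
        S.EE (n + 1) (fun r t ω => S.ER n t.1 (S.KK b' GA) * F r t ω)| ≤ e0)
    (h8 : ∀ F : S.Obs (n + 1), S.Adm (n + 1) B F →
      |S.EE (n + 1) (fun r t ω => S.KK b GA r (fun l => ω l.castSucc) * F r t ω) -
        S.Gam (n + 1) V (fun σ l => PhiG V GA (fun i => σ i.castSucc) (fun i => l i.castSucc)) F| ≤ e0)
    (h9 : ∀ F : S.Obs (n + 1), S.Adm (n + 1) B F →
      |S.EE (n + 1) (fun r t ω => S.KK b' GA r (fun l => ω l.castSucc) * F r t ω) -
        S.Gam (n + 1) (fun σ l => V σ l + q * g σ l) (fun σ l => PhiG (fun σ l => V σ l + q * g σ l) GA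
          (fun i => σ i.castSucc) (fun i => l i.castSucc)) F| ≤ e0)
    (h10 : ∀ F : S.Obs (n + 1), S.Adm (n + 1) B F →
      |S.EE (n + 1) (fun r t ω => S.KK b G r ω * F r t ω) - S.Gam (n + 1) V (PhiG V G) F| ≤ e0)
    (h11 : ∀ F : S.Obs (n + 2), S.Adm (n + 2) B F →
      |S.EE (n + 2) (fun r t ω => S.KK b G r (fun l => ω (skf n l)) * F r t ω) -
        S.Gam (n + 2) V (fun σ l => PhiG V G (fun i => σ (skf n i)) (fun i => l (skf n i))) F| ≤ e0)
    (F : S.Obs (n + 1)) (hF : S.Adm (n + 1) B F) : |S.GGz b G 0 i F| ≤ ε := by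
  subst hGA
  -- the two means
  set M : Tree S.R n → ℝ := fun t => S.ER n t (S.KK b (fun l : Fin (n + 1) => G l.castSucc)) with hM
  set M' : Tree S.R n → ℝ := fun t => S.ER n t (S.KK b' (fun l : Fin (n + 1) => G l.castSucc)) with hM'
  set Z : Tree S.R n → ℝ := fun t => S.ER n t (S.KBz b G 0 i t) with hZ
  -- Step A
  have stepA : ∀ φ : Tree S.R n → ℝ, (∀ t, |φ t| ≤ 1) →
      |S.EE n (fun _ t _ => (M' t - M t + q * (((n : ℝ) + 1) * Z t)) * φ t)| ≤
        C1 * q ^ 2 * 1 + 4 * e0 + q * (((n : ℝ) + 1) * e0) := by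
    intro φ hφ
    have hA := S.Adm_tree hφ zero_le_one
    have hA' := S.Adm_tree (n := n + 1) (φ := fun t => φ t.1) (fun t => hφ t.1) zero_le_one
    have a1 := h1 _ hA
    have a2 := h2 _ hA
    have a3 := h3 _ hA
    have a4 := h4 _ hA
    have a5 := h5 _ hA'
    have a6 := hsec1 S V g (fun i => fval (G i.castSucc)) hVlo hVhi hg1 (fun i σ l => (abs_fval _ σ l).le)
      (fun _ t _ => φ t) 1 (fun _ t _ => hφ t) q hq0.le hq8
    have z1 : (fun σ l => PhiA Finset.univ V (fun i => fval (G i.castSucc)) σ l *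
        ∑ i ∈ Finset.univ \ Finset.univ, g (σ i) (l i) / V (σ i) (l i)) =
        (fun (_ : Fin (n + 1) → Bool) (_ : Fin (n + 1) → ℕ → Bool) => (0 : ℝ)) := by
      funext σ l
      rw [Finset.sdiff_self, Finset.sum_empty, mul_zero]
    have z2 : (fun (σ : Fin (n + 2) → Bool) (l : Fin (n + 2) → ℕ → Bool) =>
        PhiA Finset.univ V (fun i => fval (G i.castSucc)) (fun i => σ i.castSucc)
          (fun i => l i.castSucc) * (g (σ (Fin.last (n + 1)))
        (l (Fin.last (n + 1))) / V (σ (Fin.last (n + 1))) (l (Fin.last (n + 1))))) =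
        PhiG V G := by
      funext σ l
      rw [hg]
      exact B5c_Phi_last V G σ l
    rw [z1, z2, S.B5c_Gam_zero, B5c_Phi_univ, B5c_Phi_univ] at a6
    have a7 := S.B5c_mean b G i φ
    have a8 : |(0 - ((n : ℝ) + 1) * S.Gam (n + 1) V (PhiG V G) (fun _ t _ => φ t.1)) -
        (-(((n : ℝ) + 1) * S.EE (n + 1) (fun r t ω => S.KK b G r ω * φ t.1)))| ≤
        ((n : ℝ) + 1) * e0 := by
      have := B5c_mulerr (k := (n : ℝ) + 1) (by positivity) a5
      convert this using 2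
      ring
    have a9 := B5c_num hq0.le a1 a2 a3 a4 a6 a8
    rw [a7] at a9
    convert a9 using 2
    have e1 : S.EE n (fun _ t _ => (M' t - M t + q * (((n : ℝ) + 1) * Z t)) * φ t) =
        S.EE n (fun _ t _ => M' t * φ t) - S.EE n (fun _ t _ => M t * φ t) +
          (q * ((n : ℝ) + 1)) * S.EE n (fun _ t _ => Z t * φ t) := by
      rw [← S.EE_const_mul, ← S.EE_sub, ← S.EE_add]
      exact S.EE_congr n fun _ t _ => by ring
    rw [e1]
    ring
  -- Step C
  set D : Tree S.R n → ℝ := fun t => M' t - M t + q * (((n : ℝ) + 1) * Z t) with hD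
  have stepC : S.EE n (fun _ t _ => |D t|) ≤ C1 * q ^ 2 * 1 + 4 * e0 + q * (((n : ℝ) + 1) * e0) := by
    have h := stepA (fun t => if 0 ≤ D t then 1 else -1) (fun t => by split_ifs <;> simp)
    have e1 : S.EE n (fun _ t _ => |D t|) = S.EE n (fun _ t _ => (M' t - M t + q * (((n : ℝ) + 1) * Z t)) *
        (if 0 ≤ D t then 1 else -1)) := by
      refine S.EE_congr n fun _ t _ => ?_
      show |D t| = D t * (if 0 ≤ D t then 1 else -1)
      split_ifs with hd
      · rw [abs_of_nonneg hd, mul_one]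
      · rw [abs_of_neg (not_le.1 hd)]
        ring
    rw [e1]
    exact (le_abs_self _).trans h
  -- Step D
  have stepD : |S.EE (n + 1) (fun r t ω => D t.1 * F r t ω)| ≤
      B * (C1 * q ^ 2 * 1 + 4 * e0 + q * (((n : ℝ) + 1) * e0)) := by
    refine (S.abs_EE_le _ _).trans ?_
    have e1 : S.EE (n + 1) (fun r t ω => |D t.1 * F r t ω|) ≤
        S.EE (n + 1) (fun _ t _ => B * |D t.1|) := by
      refine S.EE_mono _ fun r t ω => ?_
      rw [abs_mul, mul_comm]
      exact mul_le_mul_of_nonneg_right (hF.bd r t ω) (abs_nonneg _)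
    refine e1.trans ?_
    rw [S.EE_const_mul]
    have e2 := S.EE_lift n (fun _ t _ => |D t|)
    rw [e2]
    exact mul_le_mul_of_nonneg_left stepC hB.le
  -- Step E
  have stepE : |S.EE (n + 1) (fun r t ω => M' t.1 * F r t ω) -
      S.EE (n + 1) (fun r t ω => M t.1 * F r t ω) -
      q * (S.EE (n + 1) (fun r t ω => S.KK b G r ω * F r t ω) -
        ((n : ℝ) + 2) * S.EE (n + 2) (fun r t ω => S.KK b G r (fun l => ω (skf n l)) *
          F r t.1 (fun l => ω l.castSucc)))| ≤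
      C2 * q ^ 2 * B + 4 * e0 + q * (e0 + ((n : ℝ) + 2) * e0) := by
    have hA' := S.Adm_lift hF
    have a1 := h6 _ hF
    have a2 := h7 _ hF
    have a3 := h8 _ hF
    have a4 := h9 _ hF
    have a5 := h10 _ hF
    have a5' := h11 _ hA'
    have a6 := hsec2 S V g (fun i => fval (G i)) hVlo hVhi hg1 (fun i σ l => (abs_fval _ σ l).le)
      F B hF.bd q hq0.le hq8
    have z0 : ∀ U : Bool → (ℕ → Bool) → ℝ, PhiA (Finset.univ.map Fin.castSuccEmb) U (fun i => fval (G i)) =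
        fun σ l => PhiG U (fun l : Fin (n + 1) => G l.castSucc) (fun i => σ i.castSucc) (fun i => l i.castSucc) := by
      intro U
      funext σ l
      exact B5c_Phi_cs U G σ l
    have z1 : (fun σ l => PhiA (Finset.univ.map Fin.castSuccEmb) V (fun i => fval (G i)) σ l *
        ∑ i ∈ Finset.univ \ (Finset.univ.map Fin.castSuccEmb), g (σ i) (l i) / V (σ i) (l i)) =
        PhiG V G := by
      funext σ l
      rw [B5c_sdiff, Finset.sum_singleton, B5c_Phi_cs, hg]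
      exact B5c_Phi_last V G σ l
    have z2 : (fun (σ : Fin (n + 1 + 2) → Bool) (l : Fin (n + 1 + 2) → ℕ → Bool) =>
        PhiA (Finset.univ.map Fin.castSuccEmb) V (fun i => fval (G i)) (fun i => σ i.castSucc)
          (fun i => l i.castSucc) * (g (σ (Fin.last (n + 1 + 1)))
        (l (Fin.last (n + 1 + 1))) / V (σ (Fin.last (n + 1 + 1))) (l (Fin.last (n + 1 + 1))))) =
        fun σ l => PhiG V G (fun i => σ (skf n i)) (fun i => l (skf n i)) := by
      funext σ l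
      rw [B5c_Phi_cs, ← B5c_Phi_last V G (fun i => σ (skf n i)) (fun i => l (skf n i))]
      simp only [skf_castSucc, skf_last]
      rw [hg]
      rfl
    rw [z1, z2, z0, z0] at a6
    have a8 : |(S.Gam (n + 1) V (PhiG V G) F - (((n + 1 : ℕ) : ℝ) + 1) * S.Gam (n + 2) V
          (fun σ l => PhiG V G (fun i => σ (skf n i)) (fun i => l (skf n i)))
            (fun r t ω => F r t.1 (fun l => ω l.castSucc))) -
        (S.EE (n + 1) (fun r t ω => S.KK b G r ω * F r t ω) -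
        ((n : ℝ) + 2) * S.EE (n + 2) (fun r t ω => S.KK b G r (fun l => ω (skf n l)) *
          F r t.1 (fun l => ω l.castSucc)))| ≤ e0 + ((n : ℝ) + 2) * e0 := by
      have b1 := B5c_mulerr (k := (n : ℝ) + 2) (by positivity) a5'
      have b2 : ((n + 1 : ℕ) : ℝ) + 1 = (n : ℝ) + 2 := by push_cast; ring
      rw [b2]
      rw [abs_le] at b1 a5 ⊢
      constructor <;> linarith [b1.1, b1.2, a5.1, a5.2]
    exact B5c_num hq0.le a1 a2 a3 a4 a6 a8
  -- conclusion
  have hGG : S.GGz b G 0 i F = (S.EE (n + 1) (fun r t ω => S.KK b G r ω * F r t ω) -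
        ((n : ℝ) + 2) * S.EE (n + 2) (fun r t ω => S.KK b G r (fun l => ω (skf n l)) *
          F r t.1 (fun l => ω l.castSucc))) +
      ((n : ℝ) + 1) * S.EE (n + 1) (fun r t ω => Z t.1 * F r t ω) := by
    unfold Sys.GGz
    have e1 : S.EE (n + 1) (fun r t ω => F r t ω *
        (if 0 ≤ ov S.R (n + 1) t i.castSucc (Fin.last (n + 1)) then 1 else 0) * S.KK b G r ω) =
        S.EE (n + 1) (fun r t ω => S.KK b G r ω * F r t ω) :=
      S.EE_congr _ fun r t ω => by
        rw [if_pos (Nat.zero_le _)]; ring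
    have e2 : S.EE (n + 2) (fun r t ω => F r t.1 (fun l => ω l.castSucc) *
        (if 0 ≤ ov S.R (n + 2) t i.castSucc.castSucc (Fin.last (n + 2)) then 1 else 0) *
        S.KK b G r (skip ω)) =
        S.EE (n + 2) (fun r t ω => S.KK b G r (fun l => ω (skf n l)) *
          F r t.1 (fun l => ω l.castSucc)) :=
      S.EE_congr _ fun r t ω => by
        rw [if_pos (Nat.zero_le _), skip_eq]; ring
    have e3 : S.EE (n + 1) (fun r t ω => F r t ω * S.ER n t.1 (S.KBz b G 0 i t.1)) =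
        S.EE (n + 1) (fun r t ω => Z t.1 * F r t ω) :=
      S.EE_congr _ fun r t ω => by ring
    rw [e1, e2, e3]
  have hDF : S.EE (n + 1) (fun r t ω => D t.1 * F r t ω) =
      S.EE (n + 1) (fun r t ω => M' t.1 * F r t ω) -
      S.EE (n + 1) (fun r t ω => M t.1 * F r t ω) +
        (q * ((n : ℝ) + 1)) * S.EE (n + 1) (fun r t ω => Z t.1 * F r t ω) := by
    rw [← S.EE_const_mul, ← S.EE_sub, ← S.EE_add]
    exact S.EE_congr _ fun _ t _ => by
      show (M' t.1 - M t.1 + q * (((n : ℝ) + 1) * Z t.1)) * _ = _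
      ring
  show |S.GGz b G 0 i F| ≤ ε
  have hfin : |(q : ℝ) * S.GGz b G 0 i F| ≤ B * (C1 * q ^ 2 * 1 + 4 * e0 + q * (((n : ℝ) + 1) * e0)) +
      (C2 * q ^ 2 * B + 4 * e0 + q * (e0 + ((n : ℝ) + 2) * e0)) := by
    have e1 : (q : ℝ) * S.GGz b G 0 i F = S.EE (n + 1) (fun r t ω => D t.1 * F r t ω) -
      (S.EE (n + 1) (fun r t ω => M' t.1 * F r t ω) -
      S.EE (n + 1) (fun r t ω => M t.1 * F r t ω) -
      q * (S.EE (n + 1) (fun r t ω => S.KK b G r ω * F r t ω) -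
        ((n : ℝ) + 2) * S.EE (n + 2) (fun r t ω => S.KK b G r (fun l => ω (skf n l)) *
          F r t.1 (fun l => ω l.castSucc)))) := by
      rw [hGG, hDF]
      ring
    rw [e1]
    exact (abs_sub _ _).trans (add_le_add stepD stepE)
  rw [abs_mul, abs_of_pos hq0] at hfin
  have hq1' : (q : ℝ) ≤ 1 := hq8.trans (by norm_num)
  have hbound : B * (C1 * q ^ 2 * 1 + 4 * e0 + q * (((n : ℝ) + 1) * e0)) +
      (C2 * q ^ 2 * B + 4 * e0 + q * (e0 + ((n : ℝ) + 2) * e0)) ≤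
      (C1 + C2) * B * q ^ 2 + e0 * (((n : ℝ) + 5) * B + n + 7) := by
    have t1 : (q : ℝ) * (((n : ℝ) + 1) * e0) ≤ ((n : ℝ) + 1) * e0 :=
      mul_le_of_le_one_left (by positivity) hq1'
    have t2 : (q : ℝ) * (e0 + ((n : ℝ) + 2) * e0) ≤ e0 + ((n : ℝ) + 2) * e0 :=
      mul_le_of_le_one_left (by positivity) hq1'
    have t3 := mul_le_mul_of_nonneg_left t1 hB.le
    nlinarith
  have hb1 : (C1 + C2) * B * q ^ 2 ≤ (ε / 2) * q := by
    have t1 : (q : ℝ) * (2 * ((C1 + C2) * B + 1)) ≤ ε := by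
      rwa [le_div_iff₀ (by positivity)] at hqe
    have t2 : 0 ≤ (C1 + C2) * B := by positivity
    nlinarith [mul_nonneg t2 hq0.le]
  have hb2 : e0 * (((n : ℝ) + 5) * B + n + 7) = (ε / 2) * q := by
    have hden : 0 < 2 * (((n : ℝ) + 5) * B + n + 7) := by positivity
    rw [he0]
    field_simp
  have hfinal : (q : ℝ) * |S.GGz b G 0 i F| ≤ q * ε := by linarith
  exact le_of_mul_le_mul_left hfinal hq0


theorem GG_zero (H : LTH Sy code η) {n : ℕ} (hdet : DetAt Sy n) (b : ℕ) (G : Fin (n + 2) → Feat)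
    (i : Fin (n + 1)) :
    Negl Sy (n + 1) (fun s F => (Sy s).GGz b G 0 i F) := by
  intro B hB ε hε
  obtain ⟨C1, hC1, hsec1⟩ := Gam_second n Finset.univ
  obtain ⟨C2, hC2, hsec2⟩ := Gam_second (n + 1) (Finset.univ.map Fin.castSuccEmb)
  have hb : (tnorm (code b) : ℝ) < 1 / 4 := by
    have := H.code_lt b
    have h2 : ((tnorm (code b) : ℚ) : ℝ) < (((1 / 4 : ℚ)) : ℝ) := by exact_mod_cast this
    simpa using h2
  have hpos : 0 < min (1 / 8 : ℝ) (min (1 / 4 - (tnorm (code b) : ℝ))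
      (ε / (2 * ((C1 + C2) * B + 1)))) := by
    refine lt_min (by norm_num) (lt_min (by linarith) (by positivity))
  obtain ⟨q, hq0, hq1⟩ := exists_rat_btwn hpos
  have hq8 : (q : ℝ) ≤ 1 / 8 := hq1.le.trans (min_le_left _ _)
  have hqc : (q : ℝ) < 1 / 4 - (tnorm (code b) : ℝ) :=
    lt_of_lt_of_le hq1 ((min_le_right _ _).trans (min_le_left _ _))
  have hqe : (q : ℝ) ≤ ε / (2 * ((C1 + C2) * B + 1)) :=
    hq1.le.trans ((min_le_right _ _).trans (min_le_right _ _))
  have hq0' : (0 : ℚ) < q := by exact_mod_cast hq0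
  set G' := G (Fin.last (n + 1)) with hG'
  obtain ⟨b', hb'⟩ := H.code_surj ((q, G') :: code b) (by
    have h1 : tnorm ((q, G') :: code b) = q + tnorm (code b) := by
      unfold tnorm
      simp [abs_of_pos hq0']
    rw [h1]
    have h2 : ((q + tnorm (code b) : ℚ) : ℝ) < (((1 / 4 : ℚ)) : ℝ) := by
      push_cast
      linarith
    exact_mod_cast h2)
  set V : Bool → (ℕ → Bool) → ℝ := fun σ l => 1 + tval (code b) σ l with hV
  set g : Bool → (ℕ → Bool) → ℝ := fun σ l => fval G' σ l with hg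
  have hV' : (fun σ l => 1 + tval (code b') σ l) = fun σ l => V σ l + (q : ℝ) * g σ l := by
    funext σ l
    rw [hb']
    simp only [hV, hg]
    unfold tval
    simp
    ring
  have hVlo : ∀ σ l, 1 / 2 ≤ V σ l := by
    intro σ l
    have := abs_le.1 (abs_tval_le (code b) σ l)
    simp only [hV]
    linarith [this.1]
  have hVhi : ∀ σ l, V σ l ≤ 3 / 2 := by
    intro σ l
    have := abs_le.1 (abs_tval_le (code b) σ l)
    simp only [hV]
    linarith [this.2]
  have hg1 : ∀ σ l, |g σ l| ≤ 1 := fun σ l => (abs_fval G' σ l).le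
  set e0 : ℝ := ε * q / (2 * (((n : ℝ) + 5) * B + n + 7)) with he0
  have hden : 0 < 2 * (((n : ℝ) + 5) * B + n + 7) := by positivity
  have he0pos : 0 < e0 := by positivity
  set GA : Fin (n + 1) → Feat := fun l => G l.castSucc with hGA
  have N1 := det_weak hdet b GA 1 one_pos e0 he0pos
  have N2 := det_weak hdet b' GA 1 one_pos e0 he0pos
  have N3 := KK_to_Gam H b GA (fun l => l) 1 one_pos e0 he0pos
  have N4 := KK_to_Gam H b' GA (fun l => l) 1 one_pos e0 he0pos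
  have N5 := KK_to_Gam H b G (fun l => l) 1 one_pos e0 he0pos
  have N6 := det_weak1 hdet b GA B hB e0 he0pos
  have N7 := det_weak1 hdet b' GA B hB e0 he0pos
  have N8 := KK_to_Gam H b GA (n := n + 1) (fun l => l.castSucc) B hB e0 he0pos
  have N9 := KK_to_Gam H b' GA (n := n + 1) (fun l => l.castSucc) B hB e0 he0pos
  have N10 := KK_to_Gam H b G (fun l => l) B hB e0 he0pos
  have N11 := KK_to_Gam H b G (n := n + 2) (skf n) B hB e0 he0pos
  filter_upwards [N1, N2, N3, N4, N5, N6, N7, N8, N9, N10, N11] with s h1 h2 h3 h4 h5 h6 h7 h8 h9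
    h10 h11 F hF
  simp only [hV'] at h4 h9
  exact B5c_core (Sy s) b b' G i V g GA hGA hg hC1 hC2 hB hq0 hq8 he0pos hqe he0 hVlo hVhi hg1
    hsec1 hsec2 h1 h2 h3 h4 h5 h6 h7 h8 h9 h10 h11 F hF

end Crest.SG
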