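import Crest.Agent.SG_B5c
import Crest.Agent.SG_B4

/-! # SG_B5d : label bits in kernels, (GG) at the level of a fresh bit (task SG-B5d)

`GG_label` = `GG_zero` for the features with the bit `n0` added at replica `i` and at the last one,
plus `KK_label` three times (for `EE (n+1)`, for `EE (n+2)` with `skip`, and, with `F = φ(t)` a sign,
for the conditional mean given the tree). -/

set_option autoImplicit false
noncomputable section
open scoped BigOperators
open Classical Filter
open Crest.ProbabilityR.Diluted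
namespace Crest.SG

variable {Sy : ℕ → Sys} {code : ℕ → TC} {η : ℕ → ℝ}

/-- add the bit `n0` to the features of replicas `i`, `i'`. -/
def addBit {k : ℕ} (n0 : ℕ) (i i' : Fin (k + 1)) (G : Fin (k + 1) → Feat) : Fin (k + 1) → Feat :=
  fun l => if l = i ∨ l = i' then ((G l).1, insert n0 (G l).2) else G l

private theorem B5d_fval_update {n : ℕ} {g : Feat} (h : n ∉ g.2) (s : Bool) (l : ℕ → Bool)
    (x : Bool) : fval g s (Function.update l n x) = fval g s l := by
  unfold fval
  congr 1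
  refine Finset.prod_congr rfl fun m hm => ?_
  have : m ≠ n := by
    rintro rfl
    exact h hm
  rw [Function.update_of_ne this]

private theorem B5d_tval_update {n : ℕ} {c : TC} (h : freeTC n c) (s : Bool) (l : ℕ → Bool)
    (x : Bool) : tval c s (Function.update l n x) = tval c s l := by
  unfold tval
  congr 1
  refine List.map_congr_left fun y hy => ?_
  rw [B5d_fval_update (h y hy)]

private theorem B5d_fval_insert {n : ℕ} {g : Feat} (h : n ∉ g.2) (s : Bool) (l : ℕ → Bool) :
    fval (g.1, insert n g.2) s l = fval g s l * spinVal (l n) := by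
  unfold fval
  simp only []
  rw [Finset.prod_insert h]
  ring

private theorem B5d_PhiG_addBit {k n0 : ℕ} (V : Bool → (ℕ → Bool) → ℝ) {G : Fin (k + 1) → Feat}
    {i i' : Fin (k + 1)} (hii : i ≠ i') (hG : ∀ l, n0 ∉ (G l).2) (σ : Fin (k + 1) → Bool)
    (l : Fin (k + 1) → ℕ → Bool) :
    PhiG V (addBit n0 i i' G) σ l = PhiG V G σ l * (spinVal (l i n0) * spinVal (l i' n0)) := by
  unfold PhiG
  have h1 : ∀ j, fval (addBit n0 i i' G j) (σ j) (l j) / V (σ j) (l j) =
      fval (G j) (σ j) (l j) / V (σ j) (l j) *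
        (if j = i ∨ j = i' then spinVal (l j n0) else 1) := by
    intro j
    unfold addBit
    by_cases hj : j = i ∨ j = i'
    · rw [if_pos hj, if_pos hj, B5d_fval_insert (hG j)]
      ring
    · rw [if_neg hj, if_neg hj, mul_one]
  rw [Finset.prod_congr rfl fun j _ => h1 j, Finset.prod_mul_distrib]
  congr 1
  rw [Finset.prod_eq_mul i i' hii]
  · rw [if_pos (Or.inl rfl), if_pos (Or.inr rfl)]
  · rintro j _ ⟨h2, h3⟩
    rw [if_neg]
    rintro (h | h)
    · exact h2 h
    · exact h3 h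
  · intro h
    exact absurd (Finset.mem_univ _) h
  · intro h
    exact absurd (Finset.mem_univ _) h

theorem KK_label (H : LTH Sy code η) (b : ℕ) {k n n0 : ℕ} (G : Fin (k + 1) → Feat)
    (f : Fin (k + 1) → Fin (n + 1)) {i i' : Fin (k + 1)} (hii : i ≠ i')
    (hc : freeTC n0 (code b)) (hG : ∀ l, n0 ∉ (G l).2) :
    Negl Sy n (fun s F =>
      (Sy s).EE n (fun r t ω => (Sy s).KK b (addBit n0 i i' G) r (fun l => ω (f l)) * F r t ω) -
      (Sy s).EE n (fun r t ω =>
        (if (Sy s).lev n0 ≤ ov (Sy s).R n t (f i) (f i') then 1 else 0) *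
          (Sy s).KK b G r (fun l => ω (f l)) * F r t ω)) := by
  intro B hB ε hε
  have hV : ∀ σ l, 0 < 1 + tval (code b) σ l := by
    intro σ l
    have h1 := abs_tval_le (code b) σ l
    have h2 : ((tnorm (code b) : ℚ) : ℝ) < 1 / 4 := by
      have := H.code_lt b
      have h3 : ((tnorm (code b) : ℚ) : ℝ) < ((1 / 4 : ℚ) : ℝ) := by exact_mod_cast this
      simpa using h3
    have h3 := neg_abs_le (tval (code b) σ l)
    linarith
  have e1 := KK_to_Gam H b (addBit n0 i i' G) f B hB (ε / 2) (by positivity)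
  have e2 := KK_to_Gam H b G f B hB (ε / 2) (by positivity)
  filter_upwards [e1, e2, H.N_top n0] with s h1 h2 hN F hF
  have hF' : (Sy s).Adm n B (fun r t ω =>
      (if (Sy s).lev n0 ≤ ov (Sy s).R n t (f i) (f i') then 1 else 0) * F r t ω) :=
    (Sy s).Adm_tree_mul (φ := fun t =>
      (if (Sy s).lev n0 ≤ ov (Sy s).R n t (f i) (f i') then 1 else 0))
      (fun t => by split_ifs <;> simp) hF
  have h3 := h1 F hF
  have h4 := h2 _ hF'
  have h5 := (Sy s).Gam_free hN (V := fun σ l => 1 + tval (code b) σ l) hV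
    (fun σ l x => by rw [B5d_tval_update hc])
    (Φ := fun σ l => PhiG (fun σ l => 1 + tval (code b) σ l) G (fun i => σ (f i))
      (fun i => l (f i)))
    (fun σ l j x => by
      unfold PhiG
      refine Finset.prod_congr rfl fun a _ => ?_
      beta_reduce
      by_cases h : f a = j
      · rw [h, Function.update_self, B5d_fval_update (hG a), B5d_tval_update hc]
      · rw [Function.update_of_ne h]) (f i) (f i') hF
  have h6 : (fun (σ : Fin (n + 1) → Bool) (l : Fin (n + 1) → ℕ → Bool) =>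
      PhiG (fun σ l => 1 + tval (code b) σ l) (addBit n0 i i' G) (fun i => σ (f i))
        (fun i => l (f i))) =
      fun σ l => PhiG (fun σ l => 1 + tval (code b) σ l) G (fun i => σ (f i))
        (fun i => l (f i)) * (spinVal (l (f i) n0) * spinVal (l (f i') n0)) := by
    funext σ l
    exact B5d_PhiG_addBit _ hii hG _ _
  rw [h6, h5] at h3
  have h7 : (Sy s).EE n (fun r t ω =>
        (if (Sy s).lev n0 ≤ ov (Sy s).R n t (f i) (f i') then 1 else 0) *
          (Sy s).KK b G r (fun l => ω (f l)) * F r t ω) =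
      (Sy s).EE n (fun r t ω => (Sy s).KK b G r (fun l => ω (f l)) *
        ((if (Sy s).lev n0 ≤ ov (Sy s).R n t (f i) (f i') then 1 else 0) * F r t ω)) := by
    refine (Sy s).EE_congr n fun r t ω => ?_
    ring
  rw [h7]
  rw [abs_le] at *
  constructor <;> linarith [h3.1, h3.2, h4.1, h4.2]

private theorem B5d_ov {R n : ℕ} (t : Tree R (n + 1)) (i : Fin (n + 1)) :
    ov R (n + 1) t i.castSucc (Fin.last (n + 1)) =
      min (max (t.2.2 : ℕ) (age R n t.1 t.2.1)) (ov R n t.1 i t.2.1) := by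
  rw [ov_castSucc_last, age_last]

/-- the conditional mean given the tree. -/
private theorem B5d_EE_KBz (S : Sys) (b : ℕ) {n : ℕ} (G : Fin (n + 2) → Feat) (z : ℕ)
    (i : Fin (n + 1)) (φ : Tree S.R n → ℝ) :
    S.EE (n + 1) (fun r t ω => φ t.1 *
      ((if z ≤ ov S.R (n + 1) t i.castSucc (Fin.last (n + 1)) then 1 else 0) * S.KK b G r ω)) =
    ∑ t, wt S.m S.R n t * (φ t * S.ER n t (S.KBz b G z i t)) := by
  unfold Sys.EE Sys.ER
  simp_rw [En_succ]
  unfold En
  simp_rw [Finset.mul_sum]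
  rw [Finset.sum_comm]
  refine Finset.sum_congr rfl fun t _ => Finset.sum_congr rfl fun r _ => ?_
  have h1 : Et S.lv (S.PL r) n t (fun ω => ∑ par : Fin (n + 1), ∑ j : Fin S.R,
      (1 / ((n : ℝ) + 1)) * Del S.m j * ce S.lv (S.PL r) (max (j : ℕ) (age S.R n t par))
        (fun ω' => φ t *
      ((if z ≤ ov S.R (n + 1) ((t, (par, j)) : Tree S.R (n + 1)) i.castSucc (Fin.last (n + 1))
        then 1 else 0) * S.KK b G r (Fin.snoc (α := fun _ => S.Om) ω ω'))) (ω par)) =
      φ t * Et S.lv (S.PL r) n t (S.KBz b G z i t r) := by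
    rw [← Et_const_mul]
    refine Et_congr S.lv t fun ω => ?_
    unfold Sys.KBz
    rw [Finset.mul_sum]
    refine Finset.sum_congr rfl fun par _ => ?_
    rw [Finset.mul_sum]
    refine Finset.sum_congr rfl fun j _ => ?_
    have hov : ov S.R (n + 1) ((t, (par, j)) : Tree S.R (n + 1)) i.castSucc (Fin.last (n + 1)) =
        min (max (j : ℕ) (age S.R n t par)) (ov S.R n t i par) :=
      B5d_ov ((t, (par, j)) : Tree S.R (n + 1)) i
    have hce : ce S.lv (S.PL r) (max (j : ℕ) (age S.R n t par)) (fun ω' => φ t *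
        ((if z ≤ ov S.R (n + 1) ((t, (par, j)) : Tree S.R (n + 1)) i.castSucc (Fin.last (n + 1))
        then 1 else 0) * S.KK b G r (Fin.snoc (α := fun _ => S.Om) ω ω'))) (ω par) =
        (φ t * (if z ≤ min (max (j : ℕ) (age S.R n t par)) (ov S.R n t i par) then 1 else 0)) *
          S.krs b G (max (j : ℕ) (age S.R n t par)) r ω (ω par) := by
      have h2 : ∀ ω' : S.Om, φ t *
        ((if z ≤ ov S.R (n + 1) ((t, (par, j)) : Tree S.R (n + 1)) i.castSucc (Fin.last (n + 1))
        then 1 else 0) * S.KK b G r (Fin.snoc (α := fun _ => S.Om) ω ω')) =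
        (φ t * (if z ≤ min (max (j : ℕ) (age S.R n t par)) (ov S.R n t i par) then 1 else 0)) *
          S.KK b G r (Fin.snoc (α := fun _ => S.Om) ω ω') := by
        intro ω'
        rw [hov]
        ring
      refine (ce_congr S.lv h2 _).trans ?_
      rw [ce_const_mul]
      rfl
    refine (congrArg (fun x => (1 / ((n : ℝ) + 1)) * Del S.m (j : ℕ) * x) hce).trans ?_
    rw [S.Del_m]
    ring
  rw [h1]
  ring

/-- averages of functions of the tree of the first `n + 1` replicas. -/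
private theorem B5d_EE_tree (S : Sys) {n : ℕ} (g : Tree S.R n → ℝ) :
    S.EE (n + 1) (fun _ t _ => g t.1) = ∑ t, wt S.m S.R n t * g t := by
  refine (S.EE_lift n (fun _ t _ => g t)).trans ?_
  rw [S.EE_eq_ER]
  refine Finset.sum_congr rfl fun t _ => ?_
  rw [S.ER_const]

private theorem B5d_core (S : Sys) (b : ℕ) {n : ℕ} (G G' : Fin (n + 2) → Feat) (z : ℕ)
    (i : Fin (n + 1)) {B ε : ℝ} (hB : 0 < B) {F : S.Obs (n + 1)} (hF : S.Adm (n + 1) B F)
    (h0 : |S.GGz b G' 0 i F| ≤ ε / 4)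
    (h1 : |S.EE (n + 1) (fun r t ω => S.KK b G' r ω * F r t ω) -
      S.EE (n + 1) (fun r t ω =>
        (if z ≤ ov S.R (n + 1) t i.castSucc (Fin.last (n + 1)) then 1 else 0) *
          S.KK b G r ω * F r t ω)| ≤ ε / 4)
    (h2 : |S.EE (n + 2) (fun r t ω => S.KK b G' r (skip ω) * F r t.1 (fun l => ω l.castSucc)) -
      S.EE (n + 2) (fun r t ω =>
        (if z ≤ ov S.R (n + 2) t i.castSucc.castSucc (Fin.last (n + 2)) then 1 else 0) *
          S.KK b G r (skip ω) * F r t.1 (fun l => ω l.castSucc))| ≤ ε / (4 * ((n : ℝ) + 2)))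
    (h3 : ∀ φ : Tree S.R n → ℝ, (∀ t, |φ t| ≤ 1) →
      |S.EE (n + 1) (fun r t ω => S.KK b G' r ω * φ t.1) -
      S.EE (n + 1) (fun r t ω =>
        (if z ≤ ov S.R (n + 1) t i.castSucc (Fin.last (n + 1)) then 1 else 0) *
          S.KK b G r ω * φ t.1)| ≤ ε / (4 * (((n : ℝ) + 1) * B))) :
    |S.GGz b G z i F| ≤ ε := by
  have hn1 : (0 : ℝ) < (n : ℝ) + 1 := by positivity
  have hn2 : (0 : ℝ) < (n : ℝ) + 2 := by positivity
  -- the conditional means
  set Δ : Tree S.R n → ℝ := fun t => S.ER n t (S.KBz b G' 0 i t) - S.ER n t (S.KBz b G z i t)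
    with hΔ
  have hΔs : ∑ t, wt S.m S.R n t * |Δ t| ≤ ε / (4 * (((n : ℝ) + 1) * B)) := by
    set φ : Tree S.R n → ℝ := fun t => if 0 ≤ Δ t then 1 else -1 with hφ
    have hφ1 : ∀ t, |φ t| ≤ 1 := by
      intro t
      simp only [hφ]
      split_ifs <;> simp
    have h7 := h3 φ hφ1
    have h5 : S.EE (n + 1) (fun r t ω => S.KK b G' r ω * φ t.1) =
        ∑ t, wt S.m S.R n t * (φ t * S.ER n t (S.KBz b G' 0 i t)) := by
      rw [← B5d_EE_KBz]
      refine S.EE_congr (n + 1) fun r t ω => ?_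
      rw [if_pos (Nat.zero_le _)]
      ring
    have h6 : S.EE (n + 1) (fun r t ω =>
        (if z ≤ ov S.R (n + 1) t i.castSucc (Fin.last (n + 1)) then 1 else 0) *
          S.KK b G r ω * φ t.1) =
        ∑ t, wt S.m S.R n t * (φ t * S.ER n t (S.KBz b G z i t)) := by
      rw [← B5d_EE_KBz]
      refine S.EE_congr (n + 1) fun r t ω => ?_
      ring
    rw [h5, h6, ← Finset.sum_sub_distrib] at h7
    refine le_trans (le_of_eq ?_) ((le_abs_self _).trans h7)
    refine Finset.sum_congr rfl fun t _ => ?_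
    have h8 : |Δ t| = φ t * Δ t := by
      simp only [hφ]
      split_ifs with h
      · rw [abs_of_nonneg h, one_mul]
      · rw [abs_of_neg (not_le.1 h)]
        ring
    rw [h8, hΔ]
    ring
  -- term 3
  have t3 : |S.EE (n + 1) (fun r t ω => F r t ω * S.ER n t.1 (S.KBz b G' 0 i t.1)) -
      S.EE (n + 1) (fun r t ω => F r t ω * S.ER n t.1 (S.KBz b G z i t.1))| ≤
      ε / (4 * ((n : ℝ) + 1)) := by
    rw [← S.EE_sub]
    refine (S.abs_EE_le _ _).trans ?_
    have h4 : S.EE (n + 1) (fun r t ω => |F r t ω * S.ER n t.1 (S.KBz b G' 0 i t.1) -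
        F r t ω * S.ER n t.1 (S.KBz b G z i t.1)|) ≤
        S.EE (n + 1) (fun _ t _ => B * |Δ t.1|) := by
      refine S.EE_mono (n + 1) fun r t ω => ?_
      rw [← mul_sub, abs_mul]
      exact mul_le_mul_of_nonneg_right (hF.bd r t ω) (abs_nonneg _)
    refine h4.trans ?_
    rw [S.EE_const_mul, B5d_EE_tree S (fun t => |Δ t|)]
    calc B * ∑ t, wt S.m S.R n t * |Δ t| ≤ B * (ε / (4 * (((n : ℝ) + 1) * B))) :=
          mul_le_mul_of_nonneg_left hΔs hB.le
      _ = ε / (4 * ((n : ℝ) + 1)) := by field_simp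
  -- term 1
  have u1 : S.EE (n + 1) (fun r t ω => F r t ω *
      (if 0 ≤ ov S.R (n + 1) t i.castSucc (Fin.last (n + 1)) then 1 else 0) * S.KK b G' r ω) =
      S.EE (n + 1) (fun r t ω => S.KK b G' r ω * F r t ω) := by
    refine S.EE_congr (n + 1) fun r t ω => ?_
    rw [if_pos (Nat.zero_le _), mul_one, mul_comm]
  have v1 : S.EE (n + 1) (fun r t ω => F r t ω *
      (if z ≤ ov S.R (n + 1) t i.castSucc (Fin.last (n + 1)) then 1 else 0) * S.KK b G r ω) =
      S.EE (n + 1) (fun r t ω =>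
        (if z ≤ ov S.R (n + 1) t i.castSucc (Fin.last (n + 1)) then 1 else 0) *
          S.KK b G r ω * F r t ω) := by
    refine S.EE_congr (n + 1) fun r t ω => ?_
    rw [mul_assoc, mul_comm]
  -- term 2
  have u2 : S.EE (n + 2) (fun r t ω => F r t.1 (fun l => ω l.castSucc) *
      (if 0 ≤ ov S.R (n + 2) t i.castSucc.castSucc (Fin.last (n + 2)) then 1 else 0) *
        S.KK b G' r (skip ω)) =
      S.EE (n + 2) (fun r t ω => S.KK b G' r (skip ω) * F r t.1 (fun l => ω l.castSucc)) := by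
    refine S.EE_congr (n + 2) fun r t ω => ?_
    rw [if_pos (Nat.zero_le _), mul_one, mul_comm]
  have v2 : S.EE (n + 2) (fun r t ω => F r t.1 (fun l => ω l.castSucc) *
      (if z ≤ ov S.R (n + 2) t i.castSucc.castSucc (Fin.last (n + 2)) then 1 else 0) *
        S.KK b G r (skip ω)) =
      S.EE (n + 2) (fun r t ω =>
        (if z ≤ ov S.R (n + 2) t i.castSucc.castSucc (Fin.last (n + 2)) then 1 else 0) *
          S.KK b G r (skip ω) * F r t.1 (fun l => ω l.castSucc)) := by
    refine S.EE_congr (n + 2) fun r t ω => ?_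
    rw [mul_assoc, mul_comm]
  unfold Sys.GGz at h0 ⊢
  rw [u1, u2] at h0
  rw [v1, v2]
  have k2 : ((n : ℝ) + 2) * (ε / (4 * ((n : ℝ) + 2))) = ε / 4 := by field_simp
  have k3 : ((n : ℝ) + 1) * (ε / (4 * ((n : ℝ) + 1))) = ε / 4 := by field_simp
  have m2 := mul_le_mul_of_nonneg_left h2 hn2.le
  have m3 := mul_le_mul_of_nonneg_left t3 hn1.le
  rw [k2] at m2
  rw [k3] at m3
  have key : ∀ (a a' c c' d d' x y : ℝ), 0 < x → 0 < y → |a' - x * c' + y * d'| ≤ ε / 4 →
      |a' - a| ≤ ε / 4 → x * |c' - c| ≤ ε / 4 → y * |d' - d| ≤ ε / 4 →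
      |a - x * c + y * d| ≤ ε := by
    intro a a' c c' d d' x y hx hy q0 q1 q2 q3
    have p2 : |x * (c' - c)| ≤ ε / 4 := by rwa [abs_mul, abs_of_pos hx]
    have p3 : |y * (d' - d)| ≤ ε / 4 := by rwa [abs_mul, abs_of_pos hy]
    rw [abs_le] at *
    constructor <;> nlinarith [q0.1, q0.2, q1.1, q1.2, p2.1, p2.2, p3.1, p3.2]
  exact key _ _ _ _ _ _ _ _ hn2 hn1 h0 h1 m2 m3

/-- (GG) at the level of a fresh label bit. -/
theorem GG_label (H : LTH Sy code η) {n : ℕ} (hdet : DetAt Sy n) (b : ℕ) (G : Fin (n + 2) → Feat)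
    {n0 : ℕ} (hc : freeTC n0 (code b)) (hG : ∀ l, n0 ∉ (G l).2) (i : Fin (n + 1)) :
    Negl Sy (n + 1) (fun s F => (Sy s).GGz b G ((Sy s).lev n0) i F) := by
  intro B hB ε hε
  have hii : i.castSucc ≠ Fin.last (n + 1) := (Fin.castSucc_lt_last i).ne
  set f : Fin (n + 2) → Fin (n + 3) := Fin.snoc (α := fun _ => Fin (n + 3))
    (fun i : Fin (n + 1) => i.castSucc.castSucc) (Fin.last (n + 2)) with hf
  have hf1 : f i.castSucc = i.castSucc.castSucc := by simp [hf]
  have hf2 : f (Fin.last (n + 1)) = Fin.last (n + 2) := by simp [hf]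
  have hn1 : (0 : ℝ) < (n : ℝ) + 1 := by positivity
  have hn2 : (0 : ℝ) < (n : ℝ) + 2 := by positivity
  have e0 := GG_zero H hdet b (addBit n0 i.castSucc (Fin.last (n + 1)) G) i B hB (ε / 4)
    (by positivity)
  have e1 := KK_label H b G (fun l => l) hii hc hG B hB (ε / 4) (by positivity)
  have e2 := KK_label H b G f hii hc hG B hB (ε / (4 * ((n : ℝ) + 2))) (by positivity)
  have e3 := KK_label H b G (fun l => l) hii hc hG 1 one_pos
    (ε / (4 * (((n : ℝ) + 1) * B))) (by positivity)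
  filter_upwards [e0, e1, e2, e3] with s h0 h1 h2 h3 F hF
  refine B5d_core (Sy s) b G (addBit n0 i.castSucc (Fin.last (n + 1)) G) ((Sy s).lev n0) i hB hF
    (h0 F hF) (h1 F hF) ?_ ?_
  · have hskip : ∀ ω : Fin (n + 3) → (Sy s).Om, (fun l => ω (f l)) = skip ω := by
      intro ω
      funext l
      induction l using Fin.lastCases with
      | last => simp [skip, hf]
      | cast l => simp [skip, hf]
    have h4 := h2 _ ((Sy s).Adm_lift hF)
    beta_reduce at h4
    simp only [hskip, hf1, hf2] at h4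
    exact h4
  · intro φ hφ
    exact h3 _ ((Sy s).Adm_tree (φ := fun t : Tree (Sy s).R (n + 1) => φ t.1)
      (fun t => hφ t.1) zero_le_one)

end Crest.SG
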