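import Crest.Agent.SG_B5d

/-! # SG_B6 : (MI) = (GG), and (WN) (task SG-B6) -/

set_option autoImplicit false
noncomputable section
open scoped BigOperators
open Classical Filter
open Crest.ProbabilityR.Diluted
namespace Crest.SG

private theorem B6_EE_succ (S : Sys) {n : ℕ} (F : S.Obs (n + 1)) :
    S.EE (n + 1) F = S.EE n (fun r t ω => ∑ par : Fin (n + 1), ∑ j : Fin S.R,
      (1 / ((n : ℝ) + 1)) * (1 / (S.R : ℝ)) *
        ce S.lv (S.PL r) (max (j : ℕ) (age S.R n t par))
          (fun x => F r (t, (par, j)) (Fin.snoc (α := fun _ => S.Om) ω x)) (ω par)) := by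
  unfold Sys.EE
  refine Finset.sum_congr rfl fun r _ => ?_
  rw [En_succ]
  refine congrArg (fun y => S.prR r * y) ?_
  refine En_congr S.lv fun t ω => ?_
  refine Finset.sum_congr rfl fun par _ => Finset.sum_congr rfl fun j _ => ?_
  rw [S.Del_m]

private theorem B6_snoc_cast {X : Type} {n : ℕ} (ω : Fin (n + 1) → X) (x : X) :
    (fun l : Fin (n + 1) => (Fin.snoc (α := fun _ => X) ω x : Fin (n + 2) → X) l.castSucc) = ω := by
  funext l
  simp only [Fin.snoc_castSucc]

private theorem B6_skip_snoc {X : Type} {n : ℕ} (ω : Fin (n + 2) → X) (x : X) :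
    skip (Fin.snoc (α := fun _ => X) ω x : Fin (n + 3) → X) =
      (Fin.snoc (α := fun _ => X) (fun l : Fin (n + 1) => ω l.castSucc) x : Fin (n + 2) → X) := by
  unfold skip
  simp only [Fin.snoc_castSucc, Fin.snoc_last]

private theorem B6_ov_new {R n : ℕ} (t : Tree R n) (par : Fin (n + 1)) (j : Fin R)
    (i : Fin (n + 1)) :
    ov R (n + 1) ((t, (par, j)) : Tree R (n + 1)) i.castSucc (Fin.last (n + 1)) =
      min (max (j : ℕ) (age R n t par)) (ov R n t i par) := by
  simp only [ov, Fin.snoc_castSucc, Fin.snoc_last]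

private theorem B6_EE_zero (S : Sys) {n : ℕ} {F : S.Obs n} (h : ∀ r t ω, F r t ω = 0) :
    S.EE n F = 0 :=
  (S.EE_congr n (G := fun _ _ _ => 0) h).trans (S.EE_const n 0)

/-- the ratio of the second term of `GGz`. -/
private theorem B6_unfold (S : Sys) (b : ℕ) {n : ℕ} (G : Fin (n + 2) → Feat) (z : ℕ)
    (i : Fin (n + 1)) (F : S.Obs (n + 1)) :
    ((n : ℝ) + 2) * S.EE (n + 2) (fun r t ω => F r t.1 (fun l => ω l.castSucc) *
      (if z ≤ ov S.R (n + 2) t i.castSucc.castSucc (Fin.last (n + 2)) then 1 else 0) *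
        S.KK b G r (skip ω)) =
    S.EE (n + 1) (fun r t ω => F r t ω *
      (if z ≤ ov S.R (n + 1) t i.castSucc (Fin.last (n + 1)) then 1 else 0) *
      (∑ j : Fin S.R, (1 / (S.R : ℝ)) *
        S.krs b G (max (j : ℕ) (age S.R (n + 1) t (Fin.last (n + 1)))) r
          (fun l => ω l.castSucc) (ω (Fin.last (n + 1))))) +
    ((n : ℝ) + 1) * S.EE (n + 1) (fun r t ω => F r t ω *
      S.KBz b G z i t.1 r (fun l => ω l.castSucc)) := by
  rw [B6_EE_succ, ← Sys.EE_const_mul, ← Sys.EE_const_mul, ← Sys.EE_add]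
  refine S.EE_congr (n + 1) fun r t ω => ?_
  have hn : ((n : ℝ) + 1) ≠ 0 := by positivity
  have hn2 : ((n : ℝ) + 2) ≠ 0 := by positivity
  have hcast : (((n + 1 : ℕ) : ℝ) + 1) = (n : ℝ) + 2 := by push_cast; ring
  have hterm : ∀ (par : Fin (n + 2)) (j : Fin S.R),
      ce S.lv (S.PL r) (max (j : ℕ) (age S.R (n + 1) t par))
        (fun x => F r ((t, (par, j)) : Tree S.R (n + 2)).1
            (fun l => (Fin.snoc (α := fun _ => S.Om) ω x : Fin (n + 3) → S.Om) l.castSucc) *
          (if z ≤ ov S.R (n + 2) ((t, (par, j)) : Tree S.R (n + 2)) i.castSucc.castSucc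
            (Fin.last (n + 2)) then 1 else 0) *
          S.KK b G r (skip (Fin.snoc (α := fun _ => S.Om) ω x : Fin (n + 3) → S.Om))) (ω par) =
      F r t ω * ((if z ≤ min (max (j : ℕ) (age S.R (n + 1) t par))
          (ov S.R (n + 1) t i.castSucc par) then 1 else 0) *
        S.krs b G (max (j : ℕ) (age S.R (n + 1) t par)) r (fun l => ω l.castSucc) (ω par)) := by
    intro par j
    unfold Sys.krs
    rw [← ce_const_mul, ← ce_const_mul]
    refine ce_congr S.lv (fun x => ?_) _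
    rw [B6_snoc_cast, B6_skip_snoc]
    have h1 : ov S.R (n + 2) ((t, (par, j)) : Tree S.R (n + 2)) i.castSucc.castSucc
        (Fin.last (n + 2)) = min (max (j : ℕ) (age S.R (n + 1) t par))
          (ov S.R (n + 1) t i.castSucc par) := B6_ov_new t par j i.castSucc
    rw [h1]
    ring
  have hsum : (∑ par : Fin (n + 2), ∑ j : Fin S.R,
      (1 / (((n + 1 : ℕ) : ℝ) + 1)) * (1 / (S.R : ℝ)) *
        ce S.lv (S.PL r) (max (j : ℕ) (age S.R (n + 1) t par))
        (fun x => F r ((t, (par, j)) : Tree S.R (n + 2)).1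
            (fun l => (Fin.snoc (α := fun _ => S.Om) ω x : Fin (n + 3) → S.Om) l.castSucc) *
          (if z ≤ ov S.R (n + 2) ((t, (par, j)) : Tree S.R (n + 2)) i.castSucc.castSucc
            (Fin.last (n + 2)) then 1 else 0) *
          S.KK b G r (skip (Fin.snoc (α := fun _ => S.Om) ω x : Fin (n + 3) → S.Om))) (ω par)) =
      ∑ par : Fin (n + 2), ∑ j : Fin S.R, (1 / ((n : ℝ) + 2)) * (1 / (S.R : ℝ)) *
        (F r t ω * ((if z ≤ min (max (j : ℕ) (age S.R (n + 1) t par))
          (ov S.R (n + 1) t i.castSucc par) then 1 else 0) *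
        S.krs b G (max (j : ℕ) (age S.R (n + 1) t par)) r (fun l => ω l.castSucc) (ω par))) := by
    refine Finset.sum_congr rfl fun par _ => Finset.sum_congr rfl fun j _ => ?_
    rw [hterm, hcast]
  have hlast : ∀ j : Fin S.R, (if z ≤ min (max (j : ℕ) (age S.R (n + 1) t (Fin.last (n + 1))))
      (ov S.R (n + 1) t i.castSucc (Fin.last (n + 1))) then (1 : ℝ) else 0) =
      (if z ≤ ov S.R (n + 1) t i.castSucc (Fin.last (n + 1)) then 1 else 0) := by
    intro j
    have hle : ov S.R (n + 1) t i.castSucc (Fin.last (n + 1)) ≤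
        age S.R (n + 1) t (Fin.last (n + 1)) := ov_le_age t (Fin.castSucc_lt_last i)
    rw [min_eq_right (hle.trans (le_max_right _ _))]
  rw [hsum, Fin.sum_univ_castSucc]
  simp only [hlast, age_castSucc, ov_castSucc_castSucc]
  unfold Sys.KBz
  rw [mul_add, Finset.mul_sum, Finset.mul_sum, Finset.mul_sum, Finset.mul_sum, Finset.mul_sum,
    add_comm]
  congr 1
  · refine Finset.sum_congr rfl fun j _ => ?_
    field_simp
  · refine Finset.sum_congr rfl fun par _ => ?_
    rw [Finset.mul_sum, Finset.mul_sum, Finset.mul_sum]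
    refine Finset.sum_congr rfl fun j _ => ?_
    field_simp

/-- exact identity: unfold the last replica of `EE (n+2)` (`En_succ`): parent = last replica
(`ov i new = min a' (ov i last) = ov i last` because `a' ≥ age last ≥ ov i last`) or parent in `A`. -/
theorem Sys.MIz_eq_GGz (S : Sys) (b : ℕ) {n : ℕ} (G : Fin (n + 2) → Feat) (z : ℕ)
    (i : Fin (n + 1)) (F : S.Obs (n + 1)) : S.MIz b G z i F = S.GGz b G z i F := by
  unfold Sys.MIz Sys.GGz
  rw [B6_unfold]
  have h1 : S.EE (n + 1) (fun r t ω => F r t ω *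
      (if z ≤ ov S.R (n + 1) t i.castSucc (Fin.last (n + 1)) then 1 else 0) *
      (S.KK b G r ω - ∑ j : Fin S.R, (1 / (S.R : ℝ)) *
        S.krs b G (max (j : ℕ) (age S.R (n + 1) t (Fin.last (n + 1)))) r
          (fun l => ω l.castSucc) (ω (Fin.last (n + 1))))) =
      S.EE (n + 1) (fun r t ω => F r t ω *
      (if z ≤ ov S.R (n + 1) t i.castSucc (Fin.last (n + 1)) then 1 else 0) * S.KK b G r ω) -
      S.EE (n + 1) (fun r t ω => F r t ω *
      (if z ≤ ov S.R (n + 1) t i.castSucc (Fin.last (n + 1)) then 1 else 0) *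
      (∑ j : Fin S.R, (1 / (S.R : ℝ)) *
        S.krs b G (max (j : ℕ) (age S.R (n + 1) t (Fin.last (n + 1)))) r
          (fun l => ω l.castSucc) (ω (Fin.last (n + 1))))) := by
    rw [← Sys.EE_sub]
    exact S.EE_congr (n + 1) fun r t ω => by ring
  have h2 : S.EE (n + 1) (fun r t ω => F r t ω *
      (S.KBz b G z i t.1 r (fun l => ω l.castSucc) -
        S.ER n t.1 (S.KBz b G z i t.1))) =
      S.EE (n + 1) (fun r t ω => F r t ω * S.KBz b G z i t.1 r (fun l => ω l.castSucc)) -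
      S.EE (n + 1) (fun r t ω => F r t ω * S.ER n t.1 (S.KBz b G z i t.1)) := by
    rw [← Sys.EE_sub]
    exact S.EE_congr (n + 1) fun r t ω => by ring
  rw [h1, h2]
  ring

private theorem B6_KBz_top (S : Sys) (b : ℕ) {n : ℕ} (G : Fin (n + 2) → Feat) {z : ℕ}
    (hz : S.R ≤ z) (i : Fin (n + 1)) (t : Tree S.R n) (r : S.Root) (ω : Fin (n + 1) → S.Om) :
    S.KBz b G z i t r ω = 0 := by
  unfold Sys.KBz
  refine Finset.sum_eq_zero fun par _ => Finset.sum_eq_zero fun j _ => ?_
  have h1 : max (j : ℕ) (age S.R n t par) < S.R := max_lt j.2 (age_lt S.R_pos t par)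
  have h2 : ¬ z ≤ min (max (j : ℕ) (age S.R n t par)) (ov S.R n t i par) := by
    intro h
    have := h.trans (min_le_left _ _)
    omega
  rw [if_neg h2]
  ring

private theorem B6_ov_top (S : Sys) {n : ℕ} {z : ℕ} (hz : S.R ≤ z) (i : Fin (n + 1))
    (t : Tree S.R (n + 1)) :
    ¬ z ≤ ov S.R (n + 1) t i.castSucc (Fin.last (n + 1)) := by
  intro h
  have h1 := ov_le_age t (Fin.castSucc_lt_last i)
  have h2 := age_lt S.R_pos t (Fin.last (n + 1))
  omega

/-- at `z = R` everything vanishes (ages are `< R`). -/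
theorem Sys.GGz_top (S : Sys) (b : ℕ) {n : ℕ} (G : Fin (n + 2) → Feat) {z : ℕ} (hz : S.R ≤ z)
    (i : Fin (n + 1)) (F : S.Obs (n + 1)) : S.GGz b G z i F = 0 := by
  unfold Sys.GGz
  have h1 : S.EE (n + 1) (fun r t ω => F r t ω *
      (if z ≤ ov S.R (n + 1) t i.castSucc (Fin.last (n + 1)) then 1 else 0) * S.KK b G r ω) = 0 := by
    refine B6_EE_zero S fun r t ω => ?_
    rw [if_neg (B6_ov_top S hz i t)]
    ring
  have h2 : S.EE (n + 2) (fun r t ω => F r t.1 (fun l => ω l.castSucc) *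
      (if z ≤ ov S.R (n + 2) t i.castSucc.castSucc (Fin.last (n + 2)) then 1 else 0) *
        S.KK b G r (skip ω)) = 0 := by
    refine B6_EE_zero S fun r t ω => ?_
    rw [if_neg (B6_ov_top S hz i.castSucc t)]
    ring
  have h3 : S.EE (n + 1) (fun r t ω => F r t ω * S.ER n t.1 (S.KBz b G z i t.1)) = 0 := by
    refine B6_EE_zero S fun r t ω => ?_
    have : S.ER n t.1 (S.KBz b G z i t.1) = 0 := by
      rw [← S.ER_const n t.1 0]
      exact S.ER_congr n t.1 fun r ω => B6_KBz_top S b G hz i t.1 r ω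
    rw [this]
    ring
  rw [h1, h2, h3]
  ring

variable {Sy : ℕ → Sys} {code : ℕ → TC} {η : ℕ → ℝ}

/-- (MI) at all dyadic levels: choose a label bit not occurring in `code b` and `G` (`lev_ex`). -/
theorem MI_dyadic (H : LTH Sy code η) {n : ℕ} (hdet : DetAt Sy n) (b : ℕ) (G : Fin (n + 2) → Feat)
    (i : Fin (n + 1)) (d a : ℕ) (ha : a ≤ 2 ^ d) :
    Negl Sy (n + 1) (fun s F => (Sy s).MIz b G (a * 2 ^ (s + 1 - d)) i F) := by
  intro B hB ε hε
  rcases Nat.eq_zero_or_pos a with rfl | ha0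
  · filter_upwards [GG_zero H hdet b G i B hB ε hε] with s hs F hF
    have := hs F hF
    simp only [zero_mul]
    rw [Sys.MIz_eq_GGz]
    exact this
  rcases ha.eq_or_lt with rfl | halt
  · filter_upwards [eventually_ge_atTop d] with s hs F hF
    rw [Sys.MIz_eq_GGz]
    have hR : (Sy s).R ≤ 2 ^ d * 2 ^ (s + 1 - d) := by
      rw [H.R_eq s, ← pow_add]
      exact le_of_eq (by congr 1; omega)
    rw [Sys.GGz_top _ b G hR]
    simpa using hε.le
  · obtain ⟨n0, hn0, hlev⟩ := H.lev_ex d a ha0 halt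
      (((code b).toFinset.biUnion (fun x => x.2.2)) ∪ (Finset.univ.biUnion fun l => (G l).2))
    rw [Finset.mem_union, not_or] at hn0
    have hc : freeTC n0 (code b) := by
      intro x hx hmem
      exact hn0.1 (Finset.mem_biUnion.mpr ⟨x, List.mem_toFinset.mpr hx, hmem⟩)
    have hG : ∀ l, n0 ∉ (G l).2 := by
      intro l hmem
      exact hn0.2 (Finset.mem_biUnion.mpr ⟨l, Finset.mem_univ _, hmem⟩)
    filter_upwards [GG_label H hdet b G hc hG i B hB ε hε, hlev] with s hs hl F hF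
    rw [Sys.MIz_eq_GGz, ← hl]
    exact hs F hF

/-- integrate out the last replica. -/
theorem Sys.EE_last (S : Sys) (b : ℕ) {n : ℕ} (G : Fin (n + 2) → Feat) (z : ℕ) (i : Fin (n + 1))
    (φ : Tree S.R n → ℝ) (g : S.Root → Tree S.R n → (Fin (n + 1) → S.Om) → ℝ) :
    S.EE (n + 1) (fun r t ω => φ t.1 *
        (if z ≤ ov S.R (n + 1) t i.castSucc (Fin.last (n + 1)) then 1 else 0) * S.KK b G r ω *
        g r t.1 (fun l => ω l.castSucc)) =
      S.EE n (fun r t ω => φ t * S.KBz b G z i t r ω * g r t ω) := by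
  rw [B6_EE_succ]
  refine S.EE_congr n fun r t ω => ?_
  unfold Sys.KBz
  rw [Finset.mul_sum, Finset.sum_mul]
  refine Finset.sum_congr rfl fun par _ => ?_
  rw [Finset.mul_sum, Finset.sum_mul]
  refine Finset.sum_congr rfl fun j _ => ?_
  have h : ce S.lv (S.PL r) (max (j : ℕ) (age S.R n t par))
        (fun x => φ ((t, (par, j)) : Tree S.R (n + 1)).1 *
          (if z ≤ ov S.R (n + 1) ((t, (par, j)) : Tree S.R (n + 1)) i.castSucc
            (Fin.last (n + 1)) then 1 else 0) *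
          S.KK b G r (Fin.snoc (α := fun _ => S.Om) ω x : Fin (n + 2) → S.Om) *
          g r ((t, (par, j)) : Tree S.R (n + 1)).1
            (fun l => (Fin.snoc (α := fun _ => S.Om) ω x : Fin (n + 2) → S.Om) l.castSucc))
        (ω par) =
      φ t * ((if z ≤ min (max (j : ℕ) (age S.R n t par)) (ov S.R n t i par) then 1 else 0) *
      S.krs b G (max (j : ℕ) (age S.R n t par)) r ω (ω par)) * g r t ω := by
    unfold Sys.krs
    rw [mul_comm _ (g r t ω), ← ce_const_mul, ← ce_const_mul, ← ce_const_mul]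
    refine ce_congr S.lv (fun x => ?_) _
    rw [B6_snoc_cast]
    have h1 : ov S.R (n + 1) ((t, (par, j)) : Tree S.R (n + 1)) i.castSucc
        (Fin.last (n + 1)) = min (max (j : ℕ) (age S.R n t par)) (ov S.R n t i par) :=
      B6_ov_new t par j i
    rw [h1]
    ring
  rw [h]
  ring

/-- block increments of `KBz`. -/
def Sys.KBI (S : Sys) (b : ℕ) {n : ℕ} (G : Fin (n + 2) → Feat) (h β : ℕ) (i : Fin (n + 1))
    (t : Tree S.R n) (r : S.Root) (ω : Fin (n + 1) → S.Om) : ℝ :=
  S.KBz b G (β * h) i t r ω - S.KBz b G ((β + 1) * h) i t r ω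

/-- the indicator of a block. -/
private def blk (h β o : ℕ) : ℝ :=
  (if β * h ≤ o then 1 else 0) - (if (β + 1) * h ≤ o then 1 else 0)

private theorem blk_mul (h o : ℕ) {β β' : ℕ} (hne : β ≠ β') : blk h β' o * blk h β o = 0 := by
  have key : ∀ {β β' : ℕ}, β < β' → blk h β' o * blk h β o = 0 := by
    intro β β' hlt
    have h1 : (β + 1) * h ≤ β' * h := Nat.mul_le_mul_right h hlt
    have h2 : β * h ≤ (β + 1) * h := Nat.mul_le_mul_right h (Nat.le_succ β)
    have h3 : β' * h ≤ (β' + 1) * h := Nat.mul_le_mul_right h (Nat.le_succ β')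
    unfold blk
    by_cases hA : (β + 1) * h ≤ o
    · rw [if_pos hA, if_pos (h2.trans hA)]
      ring
    · have hB : ¬ β' * h ≤ o := fun hh => hA (h1.trans hh)
      have hC : ¬ (β' + 1) * h ≤ o := fun hh => hB (h3.trans hh)
      rw [if_neg hB, if_neg hC]
      ring
  rcases Nat.lt_or_gt_of_ne hne with hlt | hgt
  · exact key hlt
  · rw [mul_comm]; exact key hgt

private theorem abs_blk_le (h β o : ℕ) : |blk h β o| ≤ 1 := by
  unfold blk
  split_ifs <;> norm_num

/-- the exact formula behind (WN). -/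
private theorem B6_WN_exact (S : Sys) (b : ℕ) {n : ℕ} (G : Fin (n + 2) → Feat) (h : ℕ)
    (i : Fin (n + 1)) {β β' : ℕ} (hne : β ≠ β') (φ : Tree S.R n → ℝ) :
    S.MIz b G (β * h) i (fun r t ω => (φ t.1 *
        blk h β' (ov S.R (n + 1) t i.castSucc (Fin.last (n + 1)))) * S.KK b G r ω) -
      S.MIz b G ((β + 1) * h) i (fun r t ω => (φ t.1 *
        blk h β' (ov S.R (n + 1) t i.castSucc (Fin.last (n + 1)))) * S.KK b G r ω) =
      -(((n : ℝ) + 1) * ∑ t, wt S.m S.R n t *
        (φ t * S.Cov n t (S.KBI b G h β' i t) (S.KBI b G h β i t))) := by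
  unfold Sys.MIz
  set D : S.Obs (n + 1) := fun r t ω => S.KK b G r ω - ∑ j : Fin S.R, (1 / (S.R : ℝ)) *
        S.krs b G (max (j : ℕ) (age S.R (n + 1) t (Fin.last (n + 1)))) r
          (fun l => ω l.castSucc) (ω (Fin.last (n + 1))) with hD
  set Q : ℕ → S.Obs n := fun z r t ω => S.KBz b G z i t r ω - S.ER n t (S.KBz b G z i t) with hQ
  set Fo : S.Obs (n + 1) := fun r t ω => (φ t.1 *
        blk h β' (ov S.R (n + 1) t i.castSucc (Fin.last (n + 1)))) * S.KK b G r ω with hFo
  have hfirst : S.EE (n + 1) (fun r t ω => Fo r t ω *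
        (if β * h ≤ ov S.R (n + 1) t i.castSucc (Fin.last (n + 1)) then 1 else 0) * D r t ω) -
      S.EE (n + 1) (fun r t ω => Fo r t ω *
        (if (β + 1) * h ≤ ov S.R (n + 1) t i.castSucc (Fin.last (n + 1)) then 1 else 0) *
        D r t ω) = 0 := by
    rw [← Sys.EE_sub]
    refine B6_EE_zero S fun r t ω => ?_
    have hb := blk_mul h (ov S.R (n + 1) t i.castSucc (Fin.last (n + 1))) hne
    have e1 : Fo r t ω *
        (if β * h ≤ ov S.R (n + 1) t i.castSucc (Fin.last (n + 1)) then 1 else 0) * D r t ω -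
      Fo r t ω *
        (if (β + 1) * h ≤ ov S.R (n + 1) t i.castSucc (Fin.last (n + 1)) then 1 else 0) *
        D r t ω = φ t.1 * S.KK b G r ω * D r t ω *
        (blk h β' (ov S.R (n + 1) t i.castSucc (Fin.last (n + 1))) *
          blk h β (ov S.R (n + 1) t i.castSucc (Fin.last (n + 1)))) := by
      simp only [hFo]
      unfold blk
      ring
    rw [e1, hb, mul_zero]
  have hsecond : S.EE (n + 1) (fun r t ω => Fo r t ω * Q (β * h) r t.1 (fun l => ω l.castSucc)) -
      S.EE (n + 1) (fun r t ω => Fo r t ω * Q ((β + 1) * h) r t.1 (fun l => ω l.castSucc)) =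
      ∑ t, wt S.m S.R n t *
        (φ t * S.Cov n t (S.KBI b G h β' i t) (S.KBI b G h β i t)) := by
    set g : S.Obs n := fun r t ω => S.KBI b G h β i t r ω - S.ER n t (S.KBI b G h β i t) with hg
    have hgq : ∀ r t ω, Q (β * h) r t ω - Q ((β + 1) * h) r t ω = g r t ω := by
      intro r t ω
      have hER : S.ER n t (S.KBI b G h β i t) = S.ER n t (S.KBz b G (β * h) i t) -
          S.ER n t (S.KBz b G ((β + 1) * h) i t) := by
        rw [← Sys.ER_sub]
        rfl
      simp only [hQ, hg, hER, Sys.KBI]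
      ring
    have e2 : S.EE (n + 1) (fun r t ω => Fo r t ω * Q (β * h) r t.1 (fun l => ω l.castSucc)) -
        S.EE (n + 1) (fun r t ω => Fo r t ω * Q ((β + 1) * h) r t.1 (fun l => ω l.castSucc)) =
        S.EE (n + 1) (fun r t ω => φ t.1 *
          (if β' * h ≤ ov S.R (n + 1) t i.castSucc (Fin.last (n + 1)) then 1 else 0) *
          S.KK b G r ω * g r t.1 (fun l => ω l.castSucc)) -
        S.EE (n + 1) (fun r t ω => φ t.1 *
          (if (β' + 1) * h ≤ ov S.R (n + 1) t i.castSucc (Fin.last (n + 1)) then 1 else 0) *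
          S.KK b G r ω * g r t.1 (fun l => ω l.castSucc)) := by
      rw [← Sys.EE_sub, ← Sys.EE_sub]
      refine S.EE_congr (n + 1) fun r t ω => ?_
      rw [← hgq]
      simp only [hFo]
      unfold blk
      ring
    rw [e2, Sys.EE_last S b G (β' * h) i φ g, Sys.EE_last S b G ((β' + 1) * h) i φ g,
      ← Sys.EE_sub, Sys.EE_eq_ER]
    refine Finset.sum_congr rfl fun t _ => ?_
    congr 1
    unfold Sys.Cov
    rw [← Sys.ER_const_mul]
    refine S.ER_congr n t fun r ω => ?_
    simp only [hg, Sys.KBI]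
    ring
  have e3 : ∀ z, (fun (r : S.Root) (t : Tree S.R (n + 1)) (ω : Fin (n + 2) → S.Om) =>
      Fo r t ω * (S.KBz b G z i t.1 r (fun l => ω l.castSucc) -
        S.ER n t.1 (S.KBz b G z i t.1))) =
      fun r t ω => Fo r t ω * Q z r t.1 (fun l => ω l.castSucc) := fun z => rfl
  have e4 : ∀ z, (fun (r : S.Root) (t : Tree S.R (n + 1)) (ω : Fin (n + 2) → S.Om) =>
      Fo r t ω * (if z ≤ ov S.R (n + 1) t i.castSucc (Fin.last (n + 1)) then 1 else 0) *
      (S.KK b G r ω - ∑ j : Fin S.R, (1 / (S.R : ℝ)) *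
        S.krs b G (max (j : ℕ) (age S.R (n + 1) t (Fin.last (n + 1)))) r
          (fun l => ω l.castSucc) (ω (Fin.last (n + 1))))) =
      fun r t ω => Fo r t ω *
        (if z ≤ ov S.R (n + 1) t i.castSucc (Fin.last (n + 1)) then 1 else 0) * D r t ω :=
    fun z => rfl
  rw [e3, e3, e4, e4]
  linear_combination hfirst - ((n : ℝ) + 1) * hsecond

/-- (WN): covariances of increments over different blocks vanish. -/
theorem WN (H : LTH Sy code η) {n : ℕ} (hdet : DetAt Sy n) (b : ℕ) (G : Fin (n + 2) → Feat)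
    (i : Fin (n + 1)) (d β β' : ℕ) (hβ : β < 2 ^ d) (hβ' : β' < 2 ^ d) (hne : β ≠ β') :
    Tendsto (fun s => ∑ t, wt (Sy s).m (Sy s).R n t *
      |(Sy s).Cov n t ((Sy s).KBI b G (2 ^ (s + 1 - d)) β' i t)
        ((Sy s).KBI b G (2 ^ (s + 1 - d)) β i t)|) atTop (nhds 0) := by
  rw [Metric.tendsto_atTop']
  intro ε hε
  have hB : 0 < Sys.cK b (n + 1) := Sys.cK_pos b (n + 1)
  have h1 := MI_dyadic H hdet b G i d β hβ.le (Sys.cK b (n + 1)) hB (ε / 4) (by positivity)
  have h2 := MI_dyadic H hdet b G i d (β + 1) hβ (Sys.cK b (n + 1)) hB (ε / 4) (by positivity)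
  obtain ⟨N, hN⟩ := eventually_atTop.mp (h1.and h2)
  refine ⟨N, fun s hs => ?_⟩
  obtain ⟨g1, g2⟩ := hN s hs.le
  set S := Sy s
  set h := 2 ^ (s + 1 - d) with hh
  set φ : Tree S.R n → ℝ := fun t =>
    if 0 ≤ S.Cov n t (S.KBI b G h β' i t) (S.KBI b G h β i t) then 1 else -1 with hφ
  have hφ1 : ∀ t, |φ t| ≤ 1 := by
    intro t
    simp only [hφ]
    split_ifs <;> norm_num
  have hφC : ∀ t, φ t * S.Cov n t (S.KBI b G h β' i t) (S.KBI b G h β i t) =
      |S.Cov n t (S.KBI b G h β' i t) (S.KBI b G h β i t)| := by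
    intro t
    simp only [hφ]
    split_ifs with h0
    · rw [abs_of_nonneg h0, one_mul]
    · rw [abs_of_neg (not_le.mp h0)]; ring
  have hadm : S.Adm (n + 1) (Sys.cK b (n + 1)) (fun r t ω => (φ t.1 *
        blk h β' (ov S.R (n + 1) t i.castSucc (Fin.last (n + 1)))) * S.KK b G r ω) := by
    refine S.Adm_tree_mul (φ := fun t : Tree S.R (n + 1) => φ t.1 *
        blk h β' (ov S.R (n + 1) t i.castSucc (Fin.last (n + 1)))) (fun t => ?_) (S.Adm_KK b G)
    rw [abs_mul]
    exact mul_le_one₀ (hφ1 _) (abs_nonneg _) (abs_blk_le _ _ _)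
  have k1 := g1 _ hadm
  have k2 := g2 _ hadm
  have hex := B6_WN_exact S b G h i hne φ
  simp only [hφC] at hex
  set X := ∑ t, wt S.m S.R n t *
      |S.Cov n t (S.KBI b G h β' i t) (S.KBI b G h β i t)| with hX
  have hX0 : 0 ≤ X := Finset.sum_nonneg fun t _ =>
    mul_nonneg (wt_nonneg S.expo t) (abs_nonneg _)
  have hle : ((n : ℝ) + 1) * X ≤ ε / 4 + ε / 4 := by
    have e := abs_sub (S.MIz b G (β * h) i (fun r t ω => (φ t.1 *
        blk h β' (ov S.R (n + 1) t i.castSucc (Fin.last (n + 1)))) * S.KK b G r ω))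
      (S.MIz b G ((β + 1) * h) i (fun r t ω => (φ t.1 *
        blk h β' (ov S.R (n + 1) t i.castSucc (Fin.last (n + 1)))) * S.KK b G r ω))
    rw [hex, abs_neg, abs_of_nonneg (by positivity)] at e
    exact e.trans (add_le_add k1 k2)
  have hX1 : X ≤ ((n : ℝ) + 1) * X := by
    have : (0 : ℝ) ≤ n := Nat.cast_nonneg n
    nlinarith
  rw [Real.dist_eq, sub_zero, abs_of_nonneg hX0]
  linarith

end Crest.SG
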