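import Crest.Agent.SG_B1a

/-! # SG_B7a : martingale regularity (ADJ) (task SG-B7a)

`krs b G x r ωA ω0 = (2^(b+2)/L) ∑_{c active of species b} (∏_{l∈A} G_l/W)(c) · (ce_x d_c)(ω0)`,
Cauchy–Schwarz over the slots, `Et_marg` (each replica has law `PL r`) and `ex_ce_sub_sq`. -/

set_option autoImplicit false
noncomputable section
open scoped BigOperators
open Classical
open Crest.ProbabilityR.Diluted
namespace Crest.SG
namespace Sys

variable (S : Sys)

/-- `κ(x) = E (2^(b+2)/L) ∑_c (ce_x d_c)²`, `d_c = g/W_b` at slot `c`. -/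
def kap (b : ℕ) (g : Feat) (x : ℕ) : ℝ :=
  ∑ r, S.prR r * ex (S.PL r) (fun ω => (2 ^ (b + 2) / (S.L : ℝ)) *
    ∑ c, if S.isM (r.2 c).1 b then
      (ce S.lv (S.PL r) x (S.at1 (fun σ l => fval g σ l / S.W b σ l) r c) ω) ^ 2 else 0)

private theorem ex_slots {Ω : Type} [Fintype Ω] {L : ℕ} (P : Ω → ℝ) (C : ℝ) (M : Fin L → Prop)
    (g : Fin L → Ω → ℝ) :
    ex P (fun ω => C * ∑ c, if M c then g c ω else 0) =
      C * ∑ c, if M c then ex P (g c) else 0 := by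
  unfold ex
  simp only [Finset.mul_sum]
  rw [Finset.sum_comm]
  refine Finset.sum_congr rfl fun c _ => ?_
  split_ifs
  · rw [Finset.mul_sum]
    exact Finset.sum_congr rfl fun ω _ => by ring
  · simp

private theorem ex_nonneg' {Ω : Type} [Fintype Ω] {P : Ω → ℝ} (hP : PathLaw P) {f : Ω → ℝ}
    (h : ∀ ω, 0 ≤ f ω) : 0 ≤ ex P f :=
  Finset.sum_nonneg fun ω _ => mul_nonneg (hP.pos ω).le (h ω)

private theorem ex_le_const' {Ω : Type} [Fintype Ω] {P : Ω → ℝ} (hP : PathLaw P) {f : Ω → ℝ}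
    {B : ℝ} (h : ∀ ω, f ω ≤ B) : ex P f ≤ B := by
  have : ex P f ≤ ∑ ω, P ω * B :=
    Finset.sum_le_sum fun ω _ => mul_le_mul_of_nonneg_left (h ω) (hP.pos ω).le
  rwa [← Finset.sum_mul, hP.sum, one_mul] at this

private theorem coef_nonneg (b : ℕ) : 0 ≤ (2 : ℝ) ^ (b + 2) / (S.L : ℝ) := by positivity

private theorem slots_le (b : ℕ) {M : Fin S.L → Prop} {g : Fin S.L → ℝ} {B : ℝ}
    (hB : 0 ≤ B) (h : ∀ c, g c ≤ B) :
    (2 : ℝ) ^ (b + 2) / (S.L : ℝ) * ∑ c, (if M c then g c else 0) ≤ 2 ^ (b + 2) * B := by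
  have hL : (0 : ℝ) < S.L := by exact_mod_cast S.L_pos
  have h1 : ∑ c, (if M c then g c else 0) ≤ (S.L : ℝ) * B := by
    have : ∑ c : Fin S.L, (if M c then g c else 0) ≤ ∑ _c : Fin S.L, B :=
      Finset.sum_le_sum fun c _ => by
        split_ifs
        · exact h c
        · exact hB
    simpa using this
  calc (2 : ℝ) ^ (b + 2) / (S.L : ℝ) * ∑ c, (if M c then g c else 0)
      ≤ (2 : ℝ) ^ (b + 2) / (S.L : ℝ) * ((S.L : ℝ) * B) :=
        mul_le_mul_of_nonneg_left h1 (S.coef_nonneg b)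
    _ = 2 ^ (b + 2) * B := by field_simp

private theorem abs_at1_le (b : ℕ) (g : Feat) (r : S.Root) (c : Fin S.L) (ω : S.Om) :
    |S.at1 (fun σ l => fval g σ l / S.W b σ l) r c ω| ≤ 2 := by
  unfold at1
  simp only
  rw [abs_div, abs_fval]
  have hW := S.W_lo b (ω.2 (r.2 c).2) (S.ext (ω.1 c))
  rw [abs_of_pos (by linarith)]
  rw [div_le_iff₀ (by linarith)]
  linarith

theorem kap_mono (b : ℕ) (g : Feat) {x y : ℕ} (h : x ≤ y) : S.kap b g x ≤ S.kap b g y := by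
  unfold kap
  refine Finset.sum_le_sum fun r _ => mul_le_mul_of_nonneg_left ?_ (S.prR_nonneg r)
  rw [ex_slots, ex_slots]
  refine mul_le_mul_of_nonneg_left ?_ (S.coef_nonneg b)
  refine Finset.sum_le_sum fun c _ => ?_
  split_ifs
  · have h1 := ex_ce_sub_sq S.lv (S.PL_law r) h
      (S.at1 (fun σ l => fval g σ l / S.W b σ l) r c)
    have h2 : 0 ≤ ex (S.PL r) (fun ω =>
        (ce S.lv (S.PL r) y (S.at1 (fun σ l => fval g σ l / S.W b σ l) r c) ω -
          ce S.lv (S.PL r) x (S.at1 (fun σ l => fval g σ l / S.W b σ l) r c) ω) ^ 2) :=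
      ex_nonneg' (S.PL_law r) fun ω => sq_nonneg _
    rw [h1] at h2
    linarith
  · exact le_rfl

theorem kap_nonneg (b : ℕ) (g : Feat) (x : ℕ) : 0 ≤ S.kap b g x := by
  unfold kap
  refine Finset.sum_nonneg fun r _ => mul_nonneg (S.prR_nonneg r) ?_
  refine ex_nonneg' (S.PL_law r) fun ω => mul_nonneg (S.coef_nonneg b) ?_
  refine Finset.sum_nonneg fun c _ => ?_
  split_ifs
  · exact sq_nonneg _
  · exact le_rfl

theorem kap_le (b : ℕ) (g : Feat) (x : ℕ) : S.kap b g x ≤ 2 ^ (b + 2) * 4 := by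
  unfold kap
  have h1 : ∀ r : S.Root, ex (S.PL r) (fun ω => (2 ^ (b + 2) / (S.L : ℝ)) *
      ∑ c, if S.isM (r.2 c).1 b then
        (ce S.lv (S.PL r) x (S.at1 (fun σ l => fval g σ l / S.W b σ l) r c) ω) ^ 2 else 0)
      ≤ 2 ^ (b + 2) * 4 := by
    intro r
    refine ex_le_const' (S.PL_law r) fun ω => ?_
    refine S.slots_le b (by norm_num) fun c => ?_
    have h2 := abs_ce_le S.lv (S.PL_law r) x (S.abs_at1_le b g r c) ω
    rw [← sq_abs]
    nlinarith [abs_nonneg (ce S.lv (S.PL r) x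
      (S.at1 (fun σ l => fval g σ l / S.W b σ l) r c) ω)]
  calc ∑ r, S.prR r * ex (S.PL r) (fun ω => (2 ^ (b + 2) / (S.L : ℝ)) *
      ∑ c, if S.isM (r.2 c).1 b then
        (ce S.lv (S.PL r) x (S.at1 (fun σ l => fval g σ l / S.W b σ l) r c) ω) ^ 2 else 0)
      ≤ ∑ r, S.prR r * (2 ^ (b + 2) * 4) :=
        Finset.sum_le_sum fun r _ => mul_le_mul_of_nonneg_left (h1 r) (S.prR_nonneg r)
    _ = 2 ^ (b + 2) * 4 := by rw [← Finset.sum_mul, S.prR_sum, one_mul]

theorem krs_eq (b : ℕ) {n : ℕ} (G : Fin (n + 2) → Feat) (x : ℕ) (r : S.Root)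
    (ωA : Fin (n + 1) → S.Om) (ω0 : S.Om) :
    S.krs b G x r ωA ω0 = (2 ^ (b + 2) / (S.L : ℝ)) * ∑ c, if S.isM (r.2 c).1 b then
      (∏ l : Fin (n + 1), S.at1 (fun σ y => fval (G l.castSucc) σ y / S.W b σ y) r c (ωA l)) *
        ce S.lv (S.PL r) x (S.at1 (fun σ y => fval (G (Fin.last (n + 1))) σ y / S.W b σ y) r c) ω0
      else 0 := by
  have h1 : ∀ ω' : S.Om, S.KK b G r (Fin.snoc (α := fun _ => S.Om) ωA ω') =
      (2 ^ (b + 2) / (S.L : ℝ)) * ∑ c, if S.isM (r.2 c).1 b then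
      (∏ l : Fin (n + 1), S.at1 (fun σ y => fval (G l.castSucc) σ y / S.W b σ y) r c (ωA l)) *
        S.at1 (fun σ y => fval (G (Fin.last (n + 1))) σ y / S.W b σ y) r c ω' else 0 := by
    intro ω'
    unfold KK Khat
    congr 1
    refine Finset.sum_congr rfl fun c _ => ?_
    split_ifs
    · unfold sl PhiG at1
      rw [Fin.prod_univ_castSucc]
      simp only [Fin.snoc_castSucc, Fin.snoc_last]
    · rfl
  unfold krs
  rw [ce_congr S.lv h1 ω0, ce_const_mul, ce_sum]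
  congr 1
  refine Finset.sum_congr rfl fun c _ => ?_
  split_ifs
  · rw [ce_const_mul]
  · exact ce_const S.lv (S.PL_law r) x 0 ω0

theorem abs_krs_le (b : ℕ) {n : ℕ} (G : Fin (n + 2) → Feat) (x : ℕ) (r : S.Root)
    (ωA : Fin (n + 1) → S.Om) (ω0 : S.Om) : |S.krs b G x r ωA ω0| ≤ cK b (n + 1) := by
  unfold krs
  exact abs_ce_le S.lv (S.PL_law r) x (fun ω' => S.abs_KK_le b G r _) ω0

/-- only the class of `ω0` at level `x` matters. -/
theorem krs_congr (b : ℕ) {n : ℕ} (G : Fin (n + 2) → Feat) {x : ℕ} (r : S.Root)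
    (ωA : Fin (n + 1) → S.Om) {ω0 ω1 : S.Om} (h : S.lv.rel x ω0 ω1) :
    S.krs b G x r ωA ω0 = S.krs b G x r ωA ω1 := by
  unfold krs
  exact ce_inv S.lv x _ ω0 ω1 h

/-- (ADJ). -/
theorem adj (b : ℕ) {n : ℕ} (G : Fin (n + 2) → Feat) {x y : ℕ} (h : x ≤ y) (t : Tree S.R n)
    (o : Fin (n + 1)) :
    S.ER n t (fun r ω => (S.krs b G y r ω (ω o) - S.krs b G x r ω (ω o)) ^ 2) ≤
      2 ^ (b + 2) * 4 ^ (n + 1) *
        (S.kap b (G (Fin.last (n + 1))) y - S.kap b (G (Fin.last (n + 1))) x) := by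
  have hL : (0 : ℝ) < S.L := by exact_mod_cast S.L_pos
  set g := G (Fin.last (n + 1)) with hg
  -- the martingale increments
  set D : S.Root → Fin S.L → S.Om → ℝ := fun r c ω =>
    ce S.lv (S.PL r) y (S.at1 (fun σ l => fval g σ l / S.W b σ l) r c) ω -
      ce S.lv (S.PL r) x (S.at1 (fun σ l => fval g σ l / S.W b σ l) r c) ω with hD
  -- pointwise bound
  have hpt : ∀ (r : S.Root) (ω : Fin (n + 1) → S.Om),
      (S.krs b G y r ω (ω o) - S.krs b G x r ω (ω o)) ^ 2 ≤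
        (2 ^ (b + 2) * 4 ^ (n + 1)) * ((2 ^ (b + 2) / (S.L : ℝ)) *
          ∑ c, if S.isM (r.2 c).1 b then (D r c (ω o)) ^ 2 else 0) := by
    intro r ω
    set a : Fin S.L → ℝ := fun c =>
      ∏ l : Fin (n + 1), S.at1 (fun σ y => fval (G l.castSucc) σ y / S.W b σ y) r c (ω l) with ha
    have hdiff : S.krs b G y r ω (ω o) - S.krs b G x r ω (ω o) =
        (2 ^ (b + 2) / (S.L : ℝ)) * ∑ c, (if S.isM (r.2 c).1 b then a c * D r c (ω o) else 0) := by
      rw [krs_eq, krs_eq, ← mul_sub, ← Finset.sum_sub_distrib]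
      congr 1
      refine Finset.sum_congr rfl fun c _ => ?_
      split_ifs
      · rw [hD, ha]
        simp only [hg]
        ring
      · ring
    have hab : ∀ c, (a c) ^ 2 ≤ 4 ^ (n + 1) := by
      intro c
      have h1 : |a c| ≤ 2 ^ (n + 1) := by
        rw [ha]
        simp only
        rw [Finset.abs_prod]
        calc ∏ l : Fin (n + 1), |S.at1 (fun σ y => fval (G l.castSucc) σ y / S.W b σ y) r c (ω l)|
            ≤ ∏ _l : Fin (n + 1), (2 : ℝ) :=
              Finset.prod_le_prod (fun _ _ => abs_nonneg _)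
                (fun l _ => S.abs_at1_le b (G l.castSucc) r c (ω l))
          _ = 2 ^ (n + 1) := by simp
      rw [← sq_abs]
      calc |a c| ^ 2 ≤ (2 ^ (n + 1)) ^ 2 := pow_le_pow_left₀ (abs_nonneg _) h1 2
        _ = 4 ^ (n + 1) := by rw [← pow_mul, mul_comm, pow_mul]; norm_num
    have hcs : (∑ c, (if S.isM (r.2 c).1 b then a c * D r c (ω o) else 0)) ^ 2 ≤
        (S.L : ℝ) * ∑ c, (if S.isM (r.2 c).1 b then a c * D r c (ω o) else 0) ^ 2 := by
      have := sq_sum_le_card_mul_sum_sq (s := (Finset.univ : Finset (Fin S.L)))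
        (f := fun c => (if S.isM (r.2 c).1 b then a c * D r c (ω o) else 0))
      simpa using this
    have hterm : ∑ c, (if S.isM (r.2 c).1 b then a c * D r c (ω o) else 0) ^ 2 ≤
        4 ^ (n + 1) * ∑ c, (if S.isM (r.2 c).1 b then (D r c (ω o)) ^ 2 else 0) := by
      rw [Finset.mul_sum]
      refine Finset.sum_le_sum fun c _ => ?_
      split_ifs
      · rw [mul_pow]
        exact mul_le_mul_of_nonneg_right (hab c) (sq_nonneg _)
      · simp
    rw [hdiff, mul_pow]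
    have hC : (0 : ℝ) ≤ (2 ^ (b + 2) / (S.L : ℝ)) ^ 2 := sq_nonneg _
    calc (2 ^ (b + 2) / (S.L : ℝ)) ^ 2 *
        (∑ c, (if S.isM (r.2 c).1 b then a c * D r c (ω o) else 0)) ^ 2
        ≤ (2 ^ (b + 2) / (S.L : ℝ)) ^ 2 * ((S.L : ℝ) *
          (4 ^ (n + 1) * ∑ c, (if S.isM (r.2 c).1 b then (D r c (ω o)) ^ 2 else 0))) :=
          mul_le_mul_of_nonneg_left
            (hcs.trans (mul_le_mul_of_nonneg_left hterm hL.le)) hC
      _ = (2 ^ (b + 2) * 4 ^ (n + 1)) * ((2 ^ (b + 2) / (S.L : ℝ)) *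
          ∑ c, if S.isM (r.2 c).1 b then (D r c (ω o)) ^ 2 else 0) := by
        field_simp
  refine (S.ER_mono n t hpt).trans ?_
  rw [S.ER_const_mul n t]
  refine le_of_eq ?_
  congr 1
  unfold ER kap
  rw [← Finset.sum_sub_distrib]
  refine Finset.sum_congr rfl fun r _ => ?_
  rw [Et_marg S.lv (S.PL_law r) t o (fun ω' => (2 ^ (b + 2) / (S.L : ℝ)) *
          ∑ c, if S.isM (r.2 c).1 b then (D r c ω') ^ 2 else 0)]
  rw [← mul_sub, ex_slots, ex_slots, ex_slots, ← mul_sub, ← Finset.sum_sub_distrib]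
  congr 2
  refine Finset.sum_congr rfl fun c _ => ?_
  split_ifs
  · exact ex_ce_sub_sq S.lv (S.PL_law r) h _
  · simp

end Sys
end Crest.SG
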