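import Crest.Agent.SG_B7a
import Crest.Agent.SG_B6

/-! # SG_B7b : block identity and the variance bound at good positions (task SG-B7b) -/

set_option autoImplicit false
noncomputable section
open scoped BigOperators
open Classical
open Crest.ProbabilityR.Diluted
namespace Crest.SG
namespace Sys

variable (S : Sys)

/-- block `[βh, (β+1)h)` lies above the age of `o` and contains no overlap `ov o i'`. -/
def FreeBlock {R : ℕ} (n : ℕ) (t : Tree R n) (o : Fin (n + 1)) (h β : ℕ) : Prop :=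
  age R n t o < β * h ∧ ∀ i', i' ≠ o → ¬ (β * h ≤ ov R n t o i' ∧ ov R n t o i' < (β + 1) * h)

/-- parents different from `o` do not contribute. -/
private theorem fb_other {R : ℕ} {n : ℕ} {t : Tree R n} {o par : Fin (n + 1)} {h β : ℕ}
    (hf : FreeBlock n t o h β) (hne : par ≠ o) (a : ℕ) (ha : age R n t par ≤ a) :
    (β * h ≤ min a (ov R n t o par)) ↔ ((β + 1) * h ≤ min a (ov R n t o par)) := by
  have h2 := hf.2 par hne
  have hle : β * h ≤ (β + 1) * h := Nat.mul_le_mul_right _ (by omega)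
  rcases lt_or_gt_of_ne hne with hlt | hgt
  · have h3 := ov_le_age t hlt
    rw [ov_comm] at h3
    have h4 := hf.1
    constructor
    · intro h5
      exfalso
      have := h5.trans (min_le_right _ _)
      omega
    · intro h5
      exact hle.trans h5
  · have h3 := ov_le_age t hgt
    have h4 : min a (ov R n t o par) = ov R n t o par := min_eq_right (h3.trans ha)
    rw [h4]
    constructor
    · intro h5
      by_contra h6
      exact h2 ⟨h5, not_le.1 h6⟩
    · intro h5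
      exact hle.trans h5

private theorem fb_self {R : ℕ} {n : ℕ} {t : Tree R n} {o : Fin (n + 1)} {h β : ℕ}
    (hf : FreeBlock n t o h β) (hR : (β + 1) * h ≤ R) (j : Fin R) (f : ℕ → ℝ) :
    ((if β * h ≤ min (max (j : ℕ) (age R n t o)) (ov R n t o o) then (1 : ℝ) else 0) -
      (if (β + 1) * h ≤ min (max (j : ℕ) (age R n t o)) (ov R n t o o) then (1 : ℝ) else 0)) *
        f (max (j : ℕ) (age R n t o)) =
      if (j : ℕ) ∈ Finset.Ico (β * h) ((β + 1) * h) then f j else 0 := by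
  have hle : β * h ≤ (β + 1) * h := Nat.mul_le_mul_right _ (by omega)
  have hR0 : 0 < R := lt_of_le_of_lt (Nat.zero_le _) j.2
  have h1 : age R n t o < R := age_lt hR0 t o
  have h2 := hf.1
  have hj := j.2
  rw [ov_self]
  have h3 : min (max (j : ℕ) (age R n t o)) R = max (j : ℕ) (age R n t o) :=
    min_eq_left (by omega)
  rw [h3]
  have hmem : (j : ℕ) ∈ Finset.Ico (β * h) ((β + 1) * h) ↔
      β * h ≤ (j : ℕ) ∧ (j : ℕ) < (β + 1) * h := Finset.mem_Ico
  by_cases ha : β * h ≤ max (j : ℕ) (age R n t o)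
  · have hj1 : β * h ≤ (j : ℕ) := by omega
    have hj2 : max (j : ℕ) (age R n t o) = j := by omega
    rw [if_pos ha, hj2]
    by_cases hb : (β + 1) * h ≤ (j : ℕ)
    · rw [if_pos hb, if_neg (fun h9 => by have := (hmem.1 h9).2; omega)]
      ring
    · rw [if_neg hb, if_pos (hmem.2 ⟨hj1, not_le.1 hb⟩)]
      ring
  · rw [if_neg ha, if_neg (by omega), if_neg (fun h9 => by have := (hmem.1 h9).1; omega)]
    ring

private theorem sum_fin_Ico {R a b : ℕ} (hb : b ≤ R) (f : ℕ → ℝ) :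
    ∑ j : Fin R, (if (j : ℕ) ∈ Finset.Ico a b then f j else 0) = ∑ j ∈ Finset.Ico a b, f j := by
  rw [Fin.sum_univ_eq_sum_range (fun j => if j ∈ Finset.Ico a b then f j else 0) R,
    ← Finset.sum_filter]
  apply Finset.sum_congr _ fun _ _ => rfl
  ext j
  rw [Finset.mem_filter, Finset.mem_range]
  constructor
  · exact fun h => h.2
  · intro h
    refine ⟨?_, h⟩
    rw [Finset.mem_Ico] at h
    omega

/-- on a free block only `par = o` contributes to the increment of `KBz`. For `i' < o`: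
`ov o i' ≤ age o < βh`; for `i' > o`: `ov o i' ≤ age i'` (`ov_le_age`). -/
theorem KBI_eq (b : ℕ) {n : ℕ} (G : Fin (n + 2) → Feat) {h β : ℕ} (t : Tree S.R n)
    (o : Fin (n + 1)) (hf : FreeBlock n t o h β) (hR : (β + 1) * h ≤ S.R) (r : S.Root)
    (ω : Fin (n + 1) → S.Om) :
    S.KBI b G h β o t r ω = (1 / ((n : ℝ) + 1)) * (1 / (S.R : ℝ)) *
      ∑ j ∈ Finset.Ico (β * h) ((β + 1) * h), S.krs b G j r ω (ω o) := by
  unfold Sys.KBI KBz
  rw [← Finset.sum_sub_distrib, Finset.sum_eq_single o]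
  · rw [← Finset.sum_sub_distrib, ← sum_fin_Ico hR, Finset.mul_sum]
    apply Finset.sum_congr rfl
    intro j _
    rw [← fb_self hf hR j (fun x => S.krs b G x r ω (ω o))]
    ring
  · intro par _ hne
    rw [← Finset.sum_sub_distrib]
    apply Finset.sum_eq_zero
    intro j _
    have h1 := fb_other hf hne (max (j : ℕ) (age S.R n t par)) (le_max_right _ _)
    by_cases h2 : β * h ≤ min (max (j : ℕ) (age S.R n t par)) (ov S.R n t o par)
    · rw [if_pos h2, if_pos (h1.1 h2)]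
      ring
    · rw [if_neg h2, if_neg (fun h3 => h2 (h1.2 h3))]
      ring
  · intro h1
    exact absurd (Finset.mem_univ o) h1

/-- block average. -/
private def kb (b : ℕ) {n : ℕ} (G : Fin (n + 2) → Feat) (o : Fin (n + 1)) (h a : ℕ) (r : S.Root)
    (ω : Fin (n + 1) → S.Om) : ℝ :=
  (1 / (h : ℝ)) * ∑ i ∈ Finset.range h, S.krs b G (a * h + i) r ω (ω o)

private theorem KBI_kb (b : ℕ) {n : ℕ} (G : Fin (n + 2) → Feat) {h β : ℕ} (hh : 0 < h)
    (t : Tree S.R n) (o : Fin (n + 1)) (hf : FreeBlock n t o h β) (hR : (β + 1) * h ≤ S.R)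
    (r : S.Root) (ω : Fin (n + 1) → S.Om) :
    S.kb b G o h β r ω = (((n : ℝ) + 1) * S.R / h) * S.KBI b G h β o t r ω := by
  rw [S.KBI_eq b G t o hf hR, kb, Finset.sum_Ico_eq_sum_range]
  have e : (β + 1) * h - β * h = h := by
    rw [Nat.add_mul, one_mul, Nat.add_sub_cancel_left]
  rw [e]
  have hR0 : (0 : ℝ) < S.R := by exact_mod_cast S.R_pos
  have hh0 : (0 : ℝ) < h := by exact_mod_cast hh
  have hn0 : (0 : ℝ) < (n : ℝ) + 1 := by positivity
  field_simp

private theorem kb_abs (b : ℕ) {n : ℕ} (G : Fin (n + 2) → Feat) {h a : ℕ} (hh : 0 < h)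
    (o : Fin (n + 1)) (r : S.Root) (ω : Fin (n + 1) → S.Om) :
    |S.kb b G o h a r ω| ≤ cK b (n + 1) := by
  have hh0 : (0 : ℝ) < h := by exact_mod_cast hh
  unfold kb
  rw [abs_mul, abs_of_pos (by positivity : (0 : ℝ) < 1 / (h : ℝ))]
  have h1 : |∑ i ∈ Finset.range h, S.krs b G (a * h + i) r ω (ω o)| ≤ h * cK b (n + 1) := by
    refine (Finset.abs_sum_le_sum_abs _ _).trans ?_
    refine (Finset.sum_le_sum fun i _ => S.abs_krs_le b G (a * h + i) r ω (ω o)).trans ?_
    rw [Finset.sum_const, Finset.card_range, nsmul_eq_mul]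
  calc 1 / (h : ℝ) * |∑ i ∈ Finset.range h, S.krs b G (a * h + i) r ω (ω o)|
      ≤ 1 / (h : ℝ) * (h * cK b (n + 1)) := mul_le_mul_of_nonneg_left h1 (by positivity)
    _ = cK b (n + 1) := by field_simp

/-- average of increments. -/
private theorem inc_sq (b : ℕ) {n : ℕ} (G : Fin (n + 2) → Feat) {h z x : ℕ} (hh : 0 < h)
    (t : Tree S.R n) (o : Fin (n + 1)) (u v : ℕ → ℕ)
    (hu : ∀ i, i < h → z ≤ u i) (huv : ∀ i, i < h → u i ≤ v i) (hv : ∀ i, i < h → v i ≤ x) :
    S.ER n t (fun r ω => ((1 / (h : ℝ)) * ∑ i ∈ Finset.range h,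
      (S.krs b G (v i) r ω (ω o) - S.krs b G (u i) r ω (ω o))) ^ 2) ≤
      2 ^ (b + 2) * 4 ^ (n + 1) *
        (S.kap b (G (Fin.last (n + 1))) x - S.kap b (G (Fin.last (n + 1))) z) := by
  have hh0 : (0 : ℝ) < h := by exact_mod_cast hh
  have h1 : ∀ (r : S.Root) (ω : Fin (n + 1) → S.Om), ((1 / (h : ℝ)) * ∑ i ∈ Finset.range h,
      (S.krs b G (v i) r ω (ω o) - S.krs b G (u i) r ω (ω o))) ^ 2 ≤
      (1 / (h : ℝ)) * ∑ i ∈ Finset.range h,
        (S.krs b G (v i) r ω (ω o) - S.krs b G (u i) r ω (ω o)) ^ 2 := by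
    intro r ω
    have h2 := sq_sum_le_card_mul_sum_sq (s := Finset.range h)
      (f := fun i => S.krs b G (v i) r ω (ω o) - S.krs b G (u i) r ω (ω o))
    rw [Finset.card_range] at h2
    rw [mul_pow]
    calc (1 / (h : ℝ)) ^ 2 * (∑ i ∈ Finset.range h,
          (S.krs b G (v i) r ω (ω o) - S.krs b G (u i) r ω (ω o))) ^ 2
        ≤ (1 / (h : ℝ)) ^ 2 * (h * ∑ i ∈ Finset.range h,
          (S.krs b G (v i) r ω (ω o) - S.krs b G (u i) r ω (ω o)) ^ 2) :=
          mul_le_mul_of_nonneg_left h2 (by positivity)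
      _ = _ := by field_simp
  refine (S.ER_mono n t h1).trans ?_
  rw [S.ER_const_mul n t (1 / (h : ℝ)) (fun r ω => ∑ i ∈ Finset.range h,
        (S.krs b G (v i) r ω (ω o) - S.krs b G (u i) r ω (ω o)) ^ 2),
    S.ER_sum (Finset.range h) n t (fun i r ω =>
        (S.krs b G (v i) r ω (ω o) - S.krs b G (u i) r ω (ω o)) ^ 2)]
  have h3 : ∀ i ∈ Finset.range h, S.ER n t (fun r ω =>
      (S.krs b G (v i) r ω (ω o) - S.krs b G (u i) r ω (ω o)) ^ 2) ≤
      2 ^ (b + 2) * 4 ^ (n + 1) *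
        (S.kap b (G (Fin.last (n + 1))) x - S.kap b (G (Fin.last (n + 1))) z) := by
    intro i hi
    rw [Finset.mem_range] at hi
    refine (S.adj b G (huv i hi) t o).trans ?_
    apply mul_le_mul_of_nonneg_left _ (by positivity)
    have h4 := S.kap_mono b (G (Fin.last (n + 1))) (hu i hi)
    have h5 := S.kap_mono b (G (Fin.last (n + 1))) (hv i hi)
    linarith
  calc (1 / (h : ℝ)) * ∑ i ∈ Finset.range h, S.ER n t (fun r ω =>
      (S.krs b G (v i) r ω (ω o) - S.krs b G (u i) r ω (ω o)) ^ 2)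
      ≤ (1 / (h : ℝ)) * ∑ i ∈ Finset.range h, 2 ^ (b + 2) * 4 ^ (n + 1) *
        (S.kap b (G (Fin.last (n + 1))) x - S.kap b (G (Fin.last (n + 1))) z) :=
        mul_le_mul_of_nonneg_left (Finset.sum_le_sum h3) (by positivity)
    _ = _ := by
      rw [Finset.sum_const, Finset.card_range, nsmul_eq_mul]
      field_simp

private theorem var_good_real {V a C B Bs D Δ s : ℝ} (hB : 1 ≤ B) (hD : D ≤ B ^ 2) (hD0 : 0 ≤ D)
    (hΔ : 0 ≤ Δ) (hV : V ≤ 2 * (a * C + B * Real.sqrt (D * Δ)) + 2 * (D * Δ)) (hs : 1 ≤ s)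
    (hBs : Bs = 4 * B ^ 2 * s) :
    V ≤ 2 * a * C + Bs * (Real.sqrt Δ + Δ) := by
  have h1 : Real.sqrt (D * Δ) ≤ B * Real.sqrt Δ := by
    rw [Real.sqrt_mul hD0]
    apply mul_le_mul_of_nonneg_right _ (Real.sqrt_nonneg _)
    rw [Real.sqrt_le_left (by linarith)]
    exact hD
  have h2 : B * Real.sqrt (D * Δ) ≤ B ^ 2 * Real.sqrt Δ := by
    calc B * Real.sqrt (D * Δ) ≤ B * (B * Real.sqrt Δ) :=
          mul_le_mul_of_nonneg_left h1 (by linarith)
      _ = _ := by ring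
  have h3 : D * Δ ≤ B ^ 2 * Δ := mul_le_mul_of_nonneg_right hD hΔ
  have h4 : 2 * (B ^ 2 * (Real.sqrt Δ + Δ)) ≤ Bs * (Real.sqrt Δ + Δ) := by
    rw [hBs]
    have h5 : 0 ≤ B ^ 2 * (Real.sqrt Δ + Δ) := by positivity
    nlinarith
  linarith

/-- variance bound at a good position: `x` in block `β ≥ 2`, blocks `β-1`, `β-2` free.
`κ_I = avg_{j∈I} krs j`; `Var κ(x) ≤ 2 Var κ_{I1} + 2 E(κ(x)-κ_{I1})²`,
`Var κ_{I1} = Cov(κ_{I1},κ_{I2}) + Cov(κ_{I1}, κ_{I1}-κ_{I2})`, (ADJ). -/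
theorem var_good (b : ℕ) {n : ℕ} (G : Fin (n + 2) → Feat) {h β x : ℕ} (hh : 0 < h)
    (t : Tree S.R n) (o : Fin (n + 1)) (hx1 : (β + 2) * h ≤ x) (hx2 : x < (β + 3) * h)
    (hxR : x < S.R) (h1 : FreeBlock n t o h (β + 1)) (h2 : FreeBlock n t o h β) :
    S.Var n t (fun r ω => S.krs b G x r ω (ω o)) ≤
      2 * (((n : ℝ) + 1) * S.R / h) ^ 2 *
        |S.Cov n t (S.KBI b G h (β + 1) o t) (S.KBI b G h β o t)| +
      4 * cK b (n + 1) ^ 2 * 2 ^ (n + 1) *
        (Real.sqrt (S.kap b (G (Fin.last (n + 1))) x - S.kap b (G (Fin.last (n + 1))) (β * h)) +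
          (S.kap b (G (Fin.last (n + 1))) x - S.kap b (G (Fin.last (n + 1))) (β * h))) := by
  have hh0 : (0 : ℝ) < h := by exact_mod_cast hh
  have hR1 : (β + 1 + 1) * h ≤ S.R := by
    have : (β + 1 + 1) * h = (β + 2) * h := rfl
    rw [this]
    omega
  have hR2 : (β + 1) * h ≤ S.R := (Nat.mul_le_mul_right h (by omega)).trans hR1
  have eb1 : (β + 1) * h = β * h + h := by ring
  have eb2 : (β + 2) * h = β * h + h + h := by ring
  set A : ℝ := ((n : ℝ) + 1) * S.R / h with hA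
  have k1 : S.kb b G o h (β + 1) = fun r ω => A * S.KBI b G h (β + 1) o t r ω := by
    funext r ω
    exact S.KBI_kb b G hh t o h1 hR1 r ω
  have k2 : S.kb b G o h β = fun r ω => A * S.KBI b G h β o t r ω := by
    funext r ω
    exact S.KBI_kb b G hh t o h2 hR2 r ω
  -- first splitting
  have v1 : S.Var n t (fun r ω => S.krs b G x r ω (ω o)) ≤
      2 * S.Var n t (S.kb b G o h (β + 1)) +
        2 * S.ER n t (fun r ω => (S.krs b G x r ω (ω o) - S.kb b G o h (β + 1) r ω) ^ 2) := by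
    have e : (fun (r : S.Root) (ω : Fin (n + 1) → S.Om) => S.krs b G x r ω (ω o)) =
        fun r ω => S.kb b G o h (β + 1) r ω +
          (S.krs b G x r ω (ω o) - S.kb b G o h (β + 1) r ω) := by
      funext r ω; ring
    have w1 := S.Var_add_le n t (S.kb b G o h (β + 1))
      (fun r ω => S.krs b G x r ω (ω o) - S.kb b G o h (β + 1) r ω)
    rw [← e] at w1
    have w2 := S.Var_le_sq n t (fun r ω => S.krs b G x r ω (ω o) - S.kb b G o h (β + 1) r ω) 0
    simp only [sub_zero] at w2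
    linarith
  -- second splitting
  have v2 : S.Var n t (S.kb b G o h (β + 1)) =
      S.Cov n t (S.kb b G o h (β + 1)) (S.kb b G o h β) +
        S.Cov n t (S.kb b G o h (β + 1))
          (fun r ω => S.kb b G o h (β + 1) r ω - S.kb b G o h β r ω) := by
    rw [S.Cov_sub_right, ← S.Var_self_cov]
    ring
  have v3 : S.Cov n t (S.kb b G o h (β + 1)) (S.kb b G o h β) ≤
      A ^ 2 * |S.Cov n t (S.KBI b G h (β + 1) o t) (S.KBI b G h β o t)| := by
    rw [k1, k2, S.Cov_const_mul n t A A (S.KBI b G h (β + 1) o t) (S.KBI b G h β o t), ← sq]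
    exact mul_le_mul_of_nonneg_left (le_abs_self _) (sq_nonneg _)
  have v4 := (le_abs_self _).trans (S.Cov_le n t (X := S.kb b G o h (β + 1))
    (Y := fun r ω => S.kb b G o h (β + 1) r ω - S.kb b G o h β r ω)
    (cK_pos b (n + 1)).le (fun r ω => S.kb_abs b G hh o r ω))
  have v5 : S.ER n t (fun r ω => (S.kb b G o h (β + 1) r ω - S.kb b G o h β r ω) ^ 2) ≤
      2 ^ (b + 2) * 4 ^ (n + 1) *
        (S.kap b (G (Fin.last (n + 1))) x - S.kap b (G (Fin.last (n + 1))) (β * h)) := by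
    have e : (fun (r : S.Root) (ω : Fin (n + 1) → S.Om) =>
        (S.kb b G o h (β + 1) r ω - S.kb b G o h β r ω) ^ 2) =
        fun r ω => ((1 / (h : ℝ)) * ∑ i ∈ Finset.range h,
          (S.krs b G ((β + 1) * h + i) r ω (ω o) - S.krs b G (β * h + i) r ω (ω o))) ^ 2 := by
      funext r ω
      unfold kb
      rw [Finset.sum_sub_distrib]
      ring
    rw [e]
    exact S.inc_sq b G hh t o (fun i => β * h + i) (fun i => (β + 1) * h + i)
      (fun i _ => Nat.le_add_right _ _) (fun i _ => by omega)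
      (fun i hi => by omega)
  have v6 : S.ER n t (fun r ω => (S.krs b G x r ω (ω o) - S.kb b G o h (β + 1) r ω) ^ 2) ≤
      2 ^ (b + 2) * 4 ^ (n + 1) *
        (S.kap b (G (Fin.last (n + 1))) x - S.kap b (G (Fin.last (n + 1))) (β * h)) := by
    have e : (fun (r : S.Root) (ω : Fin (n + 1) → S.Om) =>
        (S.krs b G x r ω (ω o) - S.kb b G o h (β + 1) r ω) ^ 2) =
        fun r ω => ((1 / (h : ℝ)) * ∑ i ∈ Finset.range h,
          (S.krs b G x r ω (ω o) - S.krs b G ((β + 1) * h + i) r ω (ω o))) ^ 2 := by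
      funext r ω
      unfold kb
      rw [Finset.sum_sub_distrib, Finset.sum_const, Finset.card_range, nsmul_eq_mul, mul_sub,
        ← mul_assoc]
      have : 1 / (h : ℝ) * h = 1 := by field_simp
      rw [this, one_mul]
    rw [e]
    exact S.inc_sq b G hh t o (fun i => (β + 1) * h + i) (fun _ => x)
      (fun i _ => by omega) (fun i hi => by omega)
      (fun i hi => le_refl _)
  have hΔ : 0 ≤ S.kap b (G (Fin.last (n + 1))) x - S.kap b (G (Fin.last (n + 1))) (β * h) := by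
    have := S.kap_mono b (G (Fin.last (n + 1))) (by omega : β * h ≤ x)
    linarith
  set Δ := S.kap b (G (Fin.last (n + 1))) x - S.kap b (G (Fin.last (n + 1))) (β * h) with hΔd
  have hcK : cK b (n + 1) = 2 ^ (b + 2) * 2 ^ (n + 2) := rfl
  have hB1 : 1 ≤ cK b (n + 1) := by
    rw [hcK]
    have e1 : (1 : ℝ) ≤ 2 ^ (b + 2) := one_le_pow₀ (by norm_num)
    have e2 : (1 : ℝ) ≤ 2 ^ (n + 2) := one_le_pow₀ (by norm_num)
    nlinarith
  have hD : (2 : ℝ) ^ (b + 2) * 4 ^ (n + 1) ≤ cK b (n + 1) ^ 2 := by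
    rw [hcK, mul_pow]
    have e1 : (2 : ℝ) ^ (b + 2) ≤ (2 ^ (b + 2)) ^ 2 := by
      have e1 : (1 : ℝ) ≤ 2 ^ (b + 2) := one_le_pow₀ (by norm_num)
      nlinarith
    have e2 : (4 : ℝ) ^ (n + 1) ≤ (2 ^ (n + 2)) ^ 2 := by
      have : ((2 : ℝ) ^ (n + 2)) ^ 2 = 4 ^ (n + 2) := by
        rw [← pow_mul, mul_comm, pow_mul]; norm_num
      rw [this]
      exact pow_le_pow_right₀ (by norm_num) (by omega)
    exact mul_le_mul e1 e2 (by positivity) (by positivity)
  have hsq := Real.sqrt_le_sqrt v5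
  have v4' := v4.trans (mul_le_mul_of_nonneg_left hsq (cK_pos b (n + 1)).le)
  have := var_good_real (V := S.Var n t (fun r ω => S.krs b G x r ω (ω o))) (a := A ^ 2)
    (C := |S.Cov n t (S.KBI b G h (β + 1) o t) (S.KBI b G h β o t)|)
    (B := cK b (n + 1)) (D := 2 ^ (b + 2) * 4 ^ (n + 1)) (Δ := Δ) (s := 2 ^ (n + 1))
    hB1 hD (by positivity) hΔ (by linarith) (one_le_pow₀ (by norm_num)) rfl
  exact this

end Sys
end Crest.SG
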