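import Crest.Agent.SG_A5T

/-! # SG_B7c : combinatorics of node levels in random trees (task SG-B7c)

`raw t l` is the uniform level `j` chosen by replica `l` (0 for replica 0); ages are raw levels. -/

set_option autoImplicit false
noncomputable section
open scoped BigOperators
open Classical
namespace Crest.SG

/-- the raw level chosen by replica `l` (replica 0: 0). -/
def raw (R : ℕ) : ∀ n, Tree R n → Fin (n + 1) → ℕ
  | 0, _ => fun _ => 0
  | (n + 1), (t, (_, j)) => Fin.snoc (α := fun _ => ℕ) (raw R n t) (j : ℕ)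

private theorem raw_castSucc {R n : ℕ} (t : Tree R (n + 1)) (i : Fin (n + 1)) :
    raw R (n + 1) t i.castSucc = raw R n t.1 i := by
  obtain ⟨t, par, j⟩ := t
  simp only [raw, Fin.snoc_castSucc]

private theorem raw_last {R n : ℕ} (t : Tree R (n + 1)) :
    raw R (n + 1) t (Fin.last (n + 1)) = (t.2.2 : ℕ) := by
  obtain ⟨t, par, j⟩ := t
  simp only [raw, Fin.snoc_last]

private theorem raw_root {R n : ℕ} (t : Tree R n) : raw R n t 0 = 0 := by
  induction n with
  | zero => rfl
  | succ n ih =>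
    have h : (0 : Fin (n + 2)) = Fin.castSucc (0 : Fin (n + 1)) := rfl
    rw [h, raw_castSucc]
    exact ih t.1

theorem age_mem_raw {R n : ℕ} (t : Tree R n) (l : Fin (n + 1)) : ∃ l', age R n t l = raw R n t l' := by
  induction n with
  | zero => exact ⟨0, rfl⟩
  | succ n ih =>
    refine Fin.lastCases ?_ (fun i => ?_) l
    · rw [age_last]
      rcases le_total (age R n t.1 t.2.1) (t.2.2 : ℕ) with h | h
      · exact ⟨Fin.last _, by rw [raw_last, max_eq_left h]⟩
      · obtain ⟨l', hl'⟩ := ih t.1 t.2.1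
        exact ⟨l'.castSucc, by rw [raw_castSucc, max_eq_right h, hl']⟩
    · obtain ⟨l', hl'⟩ := ih t.1 i
      exact ⟨l'.castSucc, by rw [raw_castSucc, age_castSucc, hl']⟩

theorem ov_mem_age {R n : ℕ} (t : Tree R n) {i i' : Fin (n + 1)} (h : i ≠ i') :
    ∃ l, ov R n t i i' = age R n t l := by
  induction n with
  | zero => exact absurd (Fin.ext (by have := i.2; have := i'.2; omega)) h
  | succ n ih =>
    have hR : 0 < R := t.2.2.pos
    have key : ∀ i : Fin (n + 1), ∃ l, ov R (n + 1) t i.castSucc (Fin.last (n + 1))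
        = age R (n + 1) t l := by
      intro i
      rw [ov_castSucc_last]
      by_cases hi : i = t.2.1
      · refine ⟨Fin.last _, ?_⟩
        rw [hi, ov_self]
        exact min_eq_left (age_lt hR t _).le
      · obtain ⟨l, hl⟩ := ih t.1 hi
        rcases le_total (age R (n + 1) t (Fin.last (n + 1))) (ov R n t.1 i t.2.1) with h1 | h1
        · exact ⟨Fin.last _, min_eq_left h1⟩
        · exact ⟨l.castSucc, by rw [min_eq_right h1, age_castSucc, hl]⟩
    revert h
    refine Fin.lastCases ?_ (fun i => ?_) i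
    · refine Fin.lastCases (fun h => absurd rfl h) (fun i' _ => ?_) i'
      rw [ov_comm]
      exact key i'
    · refine Fin.lastCases (fun _ => key i) (fun i' h => ?_) i'
      obtain ⟨l, hl⟩ := ih t.1 (fun h' => h (by rw [h']) : i ≠ i')
      exact ⟨l.castSucc, by rw [ov_castSucc_castSucc, age_castSucc, hl]⟩

/-- owner of a node: a replica `o` of smaller age sharing the branch of `l` up to its age. -/
theorem exists_owner {R n : ℕ} (t : Tree R n) (l : Fin (n + 1)) (h : age R n t l ≠ 0) :
    ∃ o, age R n t o < age R n t l ∧ age R n t l ≤ ov R n t o l := by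
  induction n with
  | zero => exact absurd rfl h
  | succ n ih =>
    have hR : 0 < R := t.2.2.pos
    revert h
    refine Fin.lastCases (fun h => ?_) (fun i h => ?_) l
    · have hlt := age_lt hR t (Fin.last (n + 1))
      by_cases h1 : age R n t.1 t.2.1 < age R (n + 1) t (Fin.last (n + 1))
      · refine ⟨t.2.1.castSucc, ?_, ?_⟩
        · rw [age_castSucc]; exact h1
        · rw [ov_castSucc_last, ov_self, min_eq_left hlt.le]
      · have h2 : age R (n + 1) t (Fin.last (n + 1)) = age R n t.1 t.2.1 := by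
          have h3 : age R n t.1 t.2.1 ≤ age R (n + 1) t (Fin.last (n + 1)) := by
            rw [age_last]; exact le_max_right _ _
          omega
        obtain ⟨o, ho1, ho2⟩ := ih t.1 t.2.1 (by rw [← h2]; exact h)
        refine ⟨o.castSucc, ?_, ?_⟩
        · rw [age_castSucc, h2]; exact ho1
        · rw [ov_castSucc_last]
          exact le_min le_rfl (by rw [h2]; exact ho2)
    · rw [age_castSucc] at h ⊢
      obtain ⟨o, ho1, ho2⟩ := ih t.1 i h
      exact ⟨o.castSucc, by rw [age_castSucc]; exact ho1, by rw [ov_castSucc_castSucc]; exact ho2⟩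

variable {m : ℕ → ℝ} {R : ℕ}

private theorem wt_succ' {n : ℕ} (t : Tree R n) (par : Fin (n + 1)) (j : Fin R) :
    wt m R (n + 1) (t, (par, j)) = wt m R n t * ((1 / ((n : ℝ) + 1)) * Del m j) := rfl

private theorem wt_nonneg' (hm : ∀ j, j < R → Del m j = 1 / (R : ℝ)) {n : ℕ} (t : Tree R n) :
    0 ≤ wt m R n t := by
  induction n with
  | zero => exact zero_le_one
  | succ n ih =>
    obtain ⟨t, par, j⟩ := t
    rw [wt_succ', hm j j.2]
    have := ih t
    positivity

/-- summing over the last choice -/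
private theorem sum_last (hm : ∀ j, j < R → Del m j = 1 / (R : ℝ)) (n : ℕ)
    (g : Tree R n → Fin R → ℝ) :
    ∑ t : Tree R (n + 1), wt m R (n + 1) t * g t.1 t.2.2
      = ∑ t, wt m R n t * ((1 / (R : ℝ)) * ∑ j, g t j) := by
  rw [sum_tree_succ]
  refine Finset.sum_congr rfl fun t _ => ?_
  have h : ∀ par : Fin (n + 1), ∑ j : Fin R, wt m R (n + 1) (t, (par, j)) * g t j
      = (1 / ((n : ℝ) + 1)) * (wt m R n t * ((1 / (R : ℝ)) * ∑ j, g t j)) := by
    intro par
    rw [Finset.mul_sum, Finset.mul_sum, Finset.mul_sum]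
    refine Finset.sum_congr rfl fun j _ => ?_
    rw [wt_succ', hm j j.2]
    ring
  rw [Finset.sum_congr rfl fun par _ => h par, Finset.sum_const, Finset.card_univ,
    Fintype.card_fin, nsmul_eq_mul]
  push_cast
  have : ((n : ℝ) + 1) ≠ 0 := by positivity
  field_simp

private theorem wt_sum' (hm : ∀ j, j < R → Del m j = 1 / (R : ℝ)) (hR : 0 < R) (n : ℕ) :
    ∑ t, wt m R n t = 1 := by
  induction n with
  | zero =>
    have h : (∑ t : Tree R 0, wt m R 0 t) = ∑ t : Unit, (1:ℝ) := rfl
    rw [h]; simp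
  | succ n ih =>
    have h := sum_last hm n (fun _ _ => (1 : ℝ))
    simp only [mul_one, Finset.sum_const, Finset.card_univ, Fintype.card_fin, nsmul_eq_mul] at h
    rw [h]
    have : (1 / (R : ℝ)) * R = 1 := by
      have : (R : ℝ) ≠ 0 := by exact_mod_cast hR.ne'
      field_simp
    rw [this]
    simpa using ih

/-- averages of functions of the first replicas -/
private theorem sum_first (hm : ∀ j, j < R → Del m j = 1 / (R : ℝ)) (hR : 0 < R) (n : ℕ)
    (g : Tree R n → ℝ) :
    ∑ t : Tree R (n + 1), wt m R (n + 1) t * g t.1 = ∑ t, wt m R n t * g t := by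
  have h := sum_last hm n (fun t _ => g t)
  simp only [Finset.sum_const, Finset.card_univ, Fintype.card_fin, nsmul_eq_mul] at h
  rw [h]
  refine Finset.sum_congr rfl fun t _ => ?_
  have : (R : ℝ) ≠ 0 := by exact_mod_cast hR.ne'
  field_simp

/-- with `Δ_j = 1/R` the raw level of a replica `≠ 0` is uniform. -/
theorem raw_uniform (hm : ∀ j, j < R → Del m j = 1 / (R : ℝ)) (hR : 0 < R) (n : ℕ)
    {l : Fin (n + 1)} (hl : l ≠ 0) (f : ℕ → ℝ) :
    ∑ t, wt m R n t * f (raw R n t l) = (1 / (R : ℝ)) * ∑ x ∈ Finset.range R, f x := by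
  induction n with
  | zero => exact absurd (Fin.ext (by simp)) hl
  | succ n ih =>
    revert hl
    refine Fin.lastCases (fun _ => ?_) (fun i hi => ?_) l
    · simp only [raw_last]
      rw [sum_last hm n (fun _ j => f (j : ℕ))]
      rw [← Finset.sum_mul, wt_sum' hm hR n, one_mul, Fin.sum_univ_eq_sum_range (fun x => f x) R]
    · simp only [raw_castSucc]
      rw [sum_first hm hR n (fun t => f (raw R n t i))]
      exact ih (fun h => hi (by rw [h]; rfl))

/-- average of a nonnegative function of an age. -/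
theorem age_avg_le (hm : ∀ j, j < R → Del m j = 1 / (R : ℝ)) (hR : 0 < R) (n : ℕ)
    (l : Fin (n + 1)) {f : ℕ → ℝ} (hf : ∀ x, 0 ≤ f x) :
    ∑ t, wt m R n t * f (age R n t l) ≤
      f 0 + (n : ℝ) * ((1 / (R : ℝ)) * ∑ x ∈ Finset.range R, f x) := by
  have h1 : ∀ t : Tree R n, f (age R n t l) ≤
      f 0 + ∑ i : Fin n, f (raw R n t i.succ) := by
    intro t
    obtain ⟨l', hl'⟩ := age_mem_raw t l
    rw [hl']
    have hs : 0 ≤ ∑ i : Fin n, f (raw R n t i.succ) := Finset.sum_nonneg fun i _ => hf _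
    refine Fin.cases ?_ (fun i => ?_) l'
    · rw [raw_root]; linarith
    · have := Finset.single_le_sum (f := fun i : Fin n => f (raw R n t i.succ))
        (fun i _ => hf _) (Finset.mem_univ i)
      have h0 := hf 0
      linarith
  calc ∑ t, wt m R n t * f (age R n t l)
      ≤ ∑ t, wt m R n t * (f 0 + ∑ i : Fin n, f (raw R n t i.succ)) :=
        Finset.sum_le_sum fun t _ => mul_le_mul_of_nonneg_left (h1 t) (wt_nonneg' hm t)
    _ = f 0 + ∑ i : Fin n, ∑ t, wt m R n t * f (raw R n t i.succ) := by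
        simp only [mul_add, Finset.sum_add_distrib, Finset.mul_sum]
        rw [← Finset.sum_mul, wt_sum' hm hR n, one_mul, Finset.sum_comm]
    _ = f 0 + (n : ℝ) * ((1 / (R : ℝ)) * ∑ x ∈ Finset.range R, f x) := by
        rw [Finset.sum_congr rfl fun i _ => raw_uniform hm hR n (Fin.succ_ne_zero i) f,
          Finset.sum_const, Finset.card_univ, Fintype.card_fin, nsmul_eq_mul]

private theorem count_above (a D : ℕ) :
    ∑ j : Fin R, (if a < (j : ℕ) ∧ (j : ℕ) ≤ a + D then (1 : ℝ) else 0) ≤ D := by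
  rw [Fin.sum_univ_eq_sum_range (fun j => if a < j ∧ j ≤ a + D then (1 : ℝ) else 0) R,
    Finset.sum_boole]
  have h : ((Finset.range R).filter fun j => a < j ∧ j ≤ a + D) ⊆ Finset.Ioc a (a + D) := by
    intro j hj
    rw [Finset.mem_filter] at hj
    rw [Finset.mem_Ioc]
    exact hj.2
  have h2 := Finset.card_le_card h
  rw [Nat.card_Ioc] at h2
  have h3 : ((Finset.range R).filter fun j => a < j ∧ j ≤ a + D).card ≤ D := by omega
  exact_mod_cast h3

private theorem count_below (a D : ℕ) :
    ∑ j : Fin R, (if (j : ℕ) < a ∧ a ≤ (j : ℕ) + D then (1 : ℝ) else 0) ≤ D := by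
  rw [Fin.sum_univ_eq_sum_range (fun j => if j < a ∧ a ≤ j + D then (1 : ℝ) else 0) R,
    Finset.sum_boole]
  have h : ((Finset.range R).filter fun j => j < a ∧ a ≤ j + D) ⊆ Finset.Ico (a - D) a := by
    intro j hj
    rw [Finset.mem_filter] at hj
    rw [Finset.mem_Ico]
    omega
  have h2 := Finset.card_le_card h
  rw [Nat.card_Ico] at h2
  have h3 : ((Finset.range R).filter fun j => j < a ∧ a ≤ j + D).card ≤ D := by omega
  exact_mod_cast h3

private theorem near_raw_le (hm : ∀ j, j < R → Del m j = 1 / (R : ℝ)) (hR : 0 < R) (n D : ℕ)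
    {l1 l2 : Fin (n + 1)} (h12 : l1 ≠ l2) :
    ∑ t, wt m R n t * (if raw R n t l1 < raw R n t l2 ∧ raw R n t l2 ≤ raw R n t l1 + D
      then (1 : ℝ) else 0) ≤ (D : ℝ) / R := by
  induction n with
  | zero => exact absurd (Fin.ext (by have := l1.2; have := l2.2; omega)) h12
  | succ n ih =>
    have hb : ∀ g : Tree R n → ℝ, (∀ t, g t ≤ D) →
        ∑ t, wt m R n t * ((1 / (R : ℝ)) * g t) ≤ (D : ℝ) / R := by
      intro g hg
      calc ∑ t, wt m R n t * ((1 / (R : ℝ)) * g t) ≤ ∑ t, wt m R n t * ((1 / (R : ℝ)) * D) := by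
            refine Finset.sum_le_sum fun t _ => mul_le_mul_of_nonneg_left ?_ (wt_nonneg' hm t)
            exact mul_le_mul_of_nonneg_left (hg t) (by positivity)
        _ = (D : ℝ) / R := by rw [← Finset.sum_mul, wt_sum' hm hR n]; ring
    revert h12
    refine Fin.lastCases ?_ (fun i1 => ?_) l1
    · refine Fin.lastCases (fun h => absurd rfl h) (fun i2 _ => ?_) l2
      simp only [raw_last, raw_castSucc]
      rw [sum_last hm n (fun t j => if (j : ℕ) < raw R n t i2 ∧ raw R n t i2 ≤ (j : ℕ) + D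
        then (1 : ℝ) else 0)]
      exact hb _ fun t => count_below _ _
    · refine Fin.lastCases (fun _ => ?_) (fun i2 h => ?_) l2
      · simp only [raw_last, raw_castSucc]
        rw [sum_last hm n (fun t j => if raw R n t i1 < (j : ℕ) ∧ (j : ℕ) ≤ raw R n t i1 + D
          then (1 : ℝ) else 0)]
        exact hb _ fun t => count_above _ _
      · simp only [raw_castSucc]
        rw [sum_first hm hR n (fun t => if raw R n t i1 < raw R n t i2 ∧
          raw R n t i2 ≤ raw R n t i1 + D then (1 : ℝ) else 0)]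
        exact ih (fun h' => h (by rw [h']))

/-- probability that some age lies in `[age l - D, age l)`. -/
theorem near_ages_le (hm : ∀ j, j < R → Del m j = 1 / (R : ℝ)) (hR : 0 < R) (n D : ℕ)
    (l : Fin (n + 1)) :
    ∑ t, wt m R n t * (if ∃ l', age R n t l' < age R n t l ∧ age R n t l ≤ age R n t l' + D
      then 1 else 0) ≤ ((n : ℝ) + 1) ^ 2 * (D : ℝ) / R := by
  have h1 : ∀ t : Tree R n, (if ∃ l', age R n t l' < age R n t l ∧ age R n t l ≤ age R n t l' + D
      then (1 : ℝ) else 0) ≤ ∑ l1 : Fin (n + 1), ∑ l2 : Fin (n + 1), if l1 ≠ l2 then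
        (if raw R n t l1 < raw R n t l2 ∧ raw R n t l2 ≤ raw R n t l1 + D
          then (1 : ℝ) else 0) else 0 := by
    intro t
    have hnn : ∀ l1 l2 : Fin (n + 1), 0 ≤ (if l1 ≠ l2 then
        (if raw R n t l1 < raw R n t l2 ∧ raw R n t l2 ≤ raw R n t l1 + D
          then (1 : ℝ) else 0) else 0) := by
      intro l1 l2
      split_ifs <;> norm_num
    split_ifs with h
    · obtain ⟨l', h2, h3⟩ := h
      obtain ⟨l1, e1⟩ := age_mem_raw t l'
      obtain ⟨l2, e2⟩ := age_mem_raw t l
      rw [e1, e2] at h2 h3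
      have hne : l1 ≠ l2 := by
        rintro rfl
        exact lt_irrefl _ h2
      refine le_trans ?_ (Finset.single_le_sum (f := fun l1 => ∑ l2 : Fin (n + 1), if l1 ≠ l2 then
        (if raw R n t l1 < raw R n t l2 ∧ raw R n t l2 ≤ raw R n t l1 + D
          then (1 : ℝ) else 0) else 0) (fun i _ => Finset.sum_nonneg fun j _ => hnn i j)
          (Finset.mem_univ l1))
      refine le_trans ?_ (Finset.single_le_sum (f := fun l2 => if l1 ≠ l2 then
        (if raw R n t l1 < raw R n t l2 ∧ raw R n t l2 ≤ raw R n t l1 + D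
          then (1 : ℝ) else 0) else 0) (fun j _ => hnn l1 j) (Finset.mem_univ l2))
      rw [if_pos hne, if_pos ⟨h2, h3⟩]
    · exact Finset.sum_nonneg fun i _ => Finset.sum_nonneg fun j _ => hnn i j
  calc _ ≤ ∑ t, wt m R n t * (∑ l1 : Fin (n + 1), ∑ l2 : Fin (n + 1), if l1 ≠ l2 then
        (if raw R n t l1 < raw R n t l2 ∧ raw R n t l2 ≤ raw R n t l1 + D
          then (1 : ℝ) else 0) else 0) :=
        Finset.sum_le_sum fun t _ => mul_le_mul_of_nonneg_left (h1 t) (wt_nonneg' hm t)
    _ = ∑ l1 : Fin (n + 1), ∑ l2 : Fin (n + 1), ∑ t, wt m R n t * (if l1 ≠ l2 then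
        (if raw R n t l1 < raw R n t l2 ∧ raw R n t l2 ≤ raw R n t l1 + D
          then (1 : ℝ) else 0) else 0) := by
        simp only [Finset.mul_sum]
        rw [Finset.sum_comm]
        refine Finset.sum_congr rfl fun l1 _ => ?_
        rw [Finset.sum_comm]
    _ ≤ ∑ l1 : Fin (n + 1), ∑ l2 : Fin (n + 1), (D : ℝ) / R := by
        refine Finset.sum_le_sum fun l1 _ => Finset.sum_le_sum fun l2 _ => ?_
        by_cases h : l1 = l2
        · simp only [h, ne_eq, not_true_eq_false, if_false, mul_zero, Finset.sum_const_zero]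
          positivity
        · simp only [ne_eq, h, not_false_eq_true, if_true]
          exact near_raw_le hm hR n D h
    _ = ((n : ℝ) + 1) ^ 2 * (D : ℝ) / R := by
        simp only [Finset.sum_const, Finset.card_univ, Fintype.card_fin, nsmul_eq_mul]
        push_cast
        ring

/-- number of levels just above an age. -/
theorem near_level_le {n : ℕ} (D : ℕ) (t : Tree R n) (hR : 0 < R) :
    ∑ j : Fin R, (1 / (R : ℝ)) * (if ∃ l, age R n t l < (j : ℕ) ∧ (j : ℕ) ≤ age R n t l + D
      then 1 else 0) ≤ ((n : ℝ) + 1) * (D : ℝ) / R := by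
  have h1 : ∀ j : Fin R, (if ∃ l, age R n t l < (j : ℕ) ∧ (j : ℕ) ≤ age R n t l + D
      then (1 : ℝ) else 0) ≤ ∑ l : Fin (n + 1), if age R n t l < (j : ℕ) ∧
        (j : ℕ) ≤ age R n t l + D then (1 : ℝ) else 0 := by
    intro j
    have hnn : ∀ l : Fin (n + 1), 0 ≤ (if age R n t l < (j : ℕ) ∧
        (j : ℕ) ≤ age R n t l + D then (1 : ℝ) else 0) := by
      intro l
      split_ifs <;> norm_num
    split_ifs with h
    · obtain ⟨l, hl⟩ := h
      refine le_trans ?_ (Finset.single_le_sum (f := fun l => if age R n t l < (j : ℕ) ∧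
        (j : ℕ) ≤ age R n t l + D then (1 : ℝ) else 0) (fun i _ => hnn i) (Finset.mem_univ l))
      rw [if_pos hl]
    · exact Finset.sum_nonneg fun i _ => hnn i
  calc _ ≤ ∑ j : Fin R, (1 / (R : ℝ)) * ∑ l : Fin (n + 1), (if age R n t l < (j : ℕ) ∧
        (j : ℕ) ≤ age R n t l + D then (1 : ℝ) else 0) :=
        Finset.sum_le_sum fun j _ => mul_le_mul_of_nonneg_left (h1 j) (by positivity)
    _ = (1 / (R : ℝ)) * ∑ l : Fin (n + 1), ∑ j : Fin R, (if age R n t l < (j : ℕ) ∧
        (j : ℕ) ≤ age R n t l + D then (1 : ℝ) else 0) := by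
        rw [← Finset.mul_sum, Finset.sum_comm]
    _ ≤ (1 / (R : ℝ)) * ∑ l : Fin (n + 1), (D : ℝ) :=
        mul_le_mul_of_nonneg_left (Finset.sum_le_sum fun l _ => count_above _ _) (by positivity)
    _ = ((n : ℝ) + 1) * (D : ℝ) / R := by
        simp only [Finset.sum_const, Finset.card_univ, Fintype.card_fin, nsmul_eq_mul]
        push_cast
        ring

end Crest.SG
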