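import Crest.Agent.SG_B7b
import Crest.Agent.SG_B7c

/-! # SG_B7d : `V2 → 0` (task SG-B7d)

For fixed `d` (block length `h = 2^(s+1-d)`), each position `(par, j)`, `a = max j (age par)`:
* `j > age par`: owner `o = par`, `x = j`;
* `j ≤ age par ≠ 0`: owner `o` of `par` (`exists_owner`), `x = age par`, and
  `krs a r ω (ω par) = krs a r ω (ω o)` on the support (`ER_supp`, `krs_congr`);
* `j = age par = 0`: probability `≤ 1/R` for each `par` with... (`j = 0` has probability `1/R`).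
If no age lies in `[x - 3h, x)` and `x ≥ 3h` the two blocks below the block of `x` are free
(`ov_mem_age`), so `var_good` applies; otherwise use `Var ≤ cK²` and `near_*_le`.
Sum over blocks: `WN`; the `kap` terms: `∑_x (kap x - kap (x-3h)) ≤ 3h sup kap` and Jensen for `√`.
Then `limsup V2 ≤ C 2^{-d/2}` for every `d`. -/

set_option autoImplicit false
noncomputable section
open scoped BigOperators
open Classical Filter
open Crest.ProbabilityR.Diluted
namespace Crest.SG

variable {Sy : ℕ → Sys} {code : ℕ → TC} {η : ℕ → ℝ}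

private theorem age_zero' {R n : ℕ} (t : Tree R n) : age R n t 0 = 0 := by
  induction n with
  | zero => rfl
  | succ n ih =>
    have h : (0 : Fin (n + 2)) = Fin.castSucc (0 : Fin (n + 1)) := rfl
    rw [h, age_castSucc]
    exact ih _

/-- crude bound of the variance. -/
private theorem var_crude (S : Sys) (b : ℕ) {n : ℕ} (G : Fin (n + 2) → Feat) (x : ℕ)
    (t : Tree S.R n) (o : Fin (n + 1)) :
    S.Var n t (fun r ω => S.krs b G x r ω (ω o)) ≤ Sys.cK b (n + 1) ^ 2 := by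
  refine (S.Var_le_sq n t _ 0).trans ?_
  rw [← S.ER_const n t (Sys.cK b (n + 1) ^ 2)]
  refine S.ER_mono n t (fun r ω => ?_)
  have h := S.abs_krs_le b G x r ω (ω o)
  rw [sub_zero]
  exact sq_le_sq' (by linarith [abs_le.mp h]) (abs_le.mp h).2

/-- the `kap` increment over three blocks. -/
private def dk (S : Sys) (b : ℕ) (g : Feat) (h x : ℕ) : ℝ := S.kap b g x - S.kap b g (x - 3 * h)

private theorem dk_nonneg (S : Sys) (b : ℕ) (g : Feat) (h x : ℕ) : 0 ≤ dk S b g h x :=
  sub_nonneg.mpr (S.kap_mono b g (Nat.sub_le _ _))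

/-- the `kap` term. -/
private def ph (S : Sys) (b : ℕ) (g : Feat) (h x : ℕ) : ℝ :=
  Real.sqrt (dk S b g h x) + dk S b g h x

private theorem ph_nonneg (S : Sys) (b : ℕ) (g : Feat) (h x : ℕ) : 0 ≤ ph S b g h x :=
  add_nonneg (Real.sqrt_nonneg _) (dk_nonneg S b g h x)

private theorem ph_zero (S : Sys) (b : ℕ) (g : Feat) (h : ℕ) : ph S b g h 0 = 0 := by
  simp [ph, dk]

/-- the covariance sum. -/
private def cs (S : Sys) (b : ℕ) {n : ℕ} (G : Fin (n + 2) → Feat) (h D : ℕ) (t : Tree S.R n) : ℝ :=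
  ∑ β ∈ Finset.range D, ∑ o : Fin (n + 1),
    |S.Cov n t (S.KBI b G h (β + 1) o t) (S.KBI b G h β o t)|

private theorem cs_nonneg (S : Sys) (b : ℕ) {n : ℕ} (G : Fin (n + 2) → Feat) (h D : ℕ)
    (t : Tree S.R n) : 0 ≤ cs S b G h D t :=
  Finset.sum_nonneg fun _ _ => Finset.sum_nonneg fun _ _ => abs_nonneg _

/-- good positions. -/
private theorem var_good' (S : Sys) (b : ℕ) {n : ℕ} (G : Fin (n + 2) → Feat) {h D x : ℕ}
    (hh : 0 < h) (hD : D * h = S.R) (t : Tree S.R n) (o : Fin (n + 1)) (hxR : x < S.R)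
    (hox : age S.R n t o < x)
    (hno : ¬ ∃ l, age S.R n t l < x ∧ x ≤ age S.R n t l + 3 * h) :
    S.Var n t (fun r ω => S.krs b G x r ω (ω o)) ≤
      2 * (((n : ℝ) + 1) * D) ^ 2 * cs S b G h D t +
      4 * Sys.cK b (n + 1) ^ 2 * 2 ^ (n + 1) * ph S b (G (Fin.last (n + 1))) h x := by
  push Not at hno
  have hx3 : 3 * h < x := by
    have := hno 0 (by rw [age_zero']; omega)
    rw [age_zero'] at this
    omega
  have hxh : 3 ≤ x / h := by
    rw [Nat.le_div_iff_mul_le hh]; omega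
  obtain ⟨β, hβ⟩ : ∃ β, x / h = β + 2 := ⟨x / h - 2, by omega⟩
  have hx1 : (β + 2) * h ≤ x := by
    rw [← hβ]; exact Nat.div_mul_le_self x h
  have hx2 : x < (β + 3) * h := (Nat.div_lt_iff_lt_mul hh).mp (by omega)
  have hβx : x ≤ β * h + 3 * h := by
    have : (β + 3) * h = β * h + 3 * h := by ring
    omega
  have hage : ∀ l, age S.R n t l < x → age S.R n t l < β * h := by
    intro l hl
    have := hno l hl
    omega
  have hfree : ∀ γ, β ≤ γ → γ ≤ β + 1 → Sys.FreeBlock n t o h γ := by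
    intro γ h1 h2
    have h3 : β * h ≤ γ * h := Nat.mul_le_mul_right h h1
    have h4 : (γ + 1) * h ≤ (β + 2) * h := Nat.mul_le_mul_right h (by omega)
    refine ⟨(hage o hox).trans_le h3, fun i' hi' hc => ?_⟩
    obtain ⟨l, hl⟩ := ov_mem_age t hi'.symm
    rw [hl] at hc
    have := hage l (by omega)
    omega
  have hmain := S.var_good b G hh t o hx1 hx2 hxR (hfree (β + 1) (by omega) le_rfl)
    (hfree β le_rfl (by omega))
  refine hmain.trans (add_le_add ?_ ?_)
  · have hDh : (S.R : ℝ) / h = D := by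
      rw [← hD]; push_cast
      have : (h : ℝ) ≠ 0 := by exact_mod_cast hh.ne'
      field_simp
    rw [mul_div_assoc, hDh]
    refine mul_le_mul_of_nonneg_left ?_ (by positivity)
    have hβD : β < D := by
      by_contra hcon
      have : D * h ≤ β * h := Nat.mul_le_mul_right h (not_lt.mp hcon)
      have h5 : (β + 2) * h = β * h + 2 * h := by ring
      omega
    calc |S.Cov n t (S.KBI b G h (β + 1) o t) (S.KBI b G h β o t)|
        ≤ ∑ o : Fin (n + 1), |S.Cov n t (S.KBI b G h (β + 1) o t) (S.KBI b G h β o t)| :=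
          Finset.single_le_sum (f := fun o : Fin (n + 1) =>
            |S.Cov n t (S.KBI b G h (β + 1) o t) (S.KBI b G h β o t)|)
            (fun _ _ => abs_nonneg _) (Finset.mem_univ o)
      _ ≤ cs S b G h D t :=
          Finset.single_le_sum (f := fun β => ∑ o : Fin (n + 1),
            |S.Cov n t (S.KBI b G h (β + 1) o t) (S.KBI b G h β o t)|)
            (fun _ _ => Finset.sum_nonneg fun _ _ => abs_nonneg _) (Finset.mem_range.mpr hβD)
  · refine mul_le_mul_of_nonneg_left ?_ (by have := Sys.cK_pos b (n + 1); positivity)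
    have hle : S.kap b (G (Fin.last (n + 1))) x - S.kap b (G (Fin.last (n + 1))) (β * h) ≤
        dk S b (G (Fin.last (n + 1))) h x := by
      unfold dk
      have := S.kap_mono b (G (Fin.last (n + 1))) (show x - 3 * h ≤ β * h by omega)
      linarith
    exact add_le_add (Real.sqrt_le_sqrt hle) hle

/-- bound of one position. -/
private theorem var_pos (S : Sys) (b : ℕ) {n : ℕ} (G : Fin (n + 2) → Feat) {h D : ℕ}
    (hh : 0 < h) (hD : D * h = S.R) (t : Tree S.R n) (par : Fin (n + 1)) (j : Fin S.R) :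
    S.Var n t (fun r ω => S.krs b G (max (j : ℕ) (age S.R n t par)) r ω (ω par)) ≤
      2 * (((n : ℝ) + 1) * D) ^ 2 * cs S b G h D t +
      4 * Sys.cK b (n + 1) ^ 2 * 2 ^ (n + 1) *
        (ph S b (G (Fin.last (n + 1))) h j +
          ph S b (G (Fin.last (n + 1))) h (age S.R n t par)) +
      Sys.cK b (n + 1) ^ 2 *
        ((if ∃ l, age S.R n t l < (j : ℕ) ∧ (j : ℕ) ≤ age S.R n t l + 3 * h then (1 : ℝ) else 0) +
         (if ∃ l', age S.R n t l' < age S.R n t par ∧
            age S.R n t par ≤ age S.R n t l' + 3 * h then (1 : ℝ) else 0) +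
         (if (j : ℕ) = 0 then (1 : ℝ) else 0)) := by
  have hcK := Sys.cK_pos b (n + 1)
  set g := G (Fin.last (n + 1)) with hg
  have hcs := cs_nonneg S b G h D t
  have hp1 := ph_nonneg S b g h j
  have hp2 := ph_nonneg S b g h (age S.R n t par)
  have hA : 0 ≤ 2 * (((n : ℝ) + 1) * D) ^ 2 * cs S b G h D t := by positivity
  have hB : 0 ≤ 4 * Sys.cK b (n + 1) ^ 2 * 2 ^ (n + 1) * ph S b g h j := by positivity
  have hB' : 0 ≤ 4 * Sys.cK b (n + 1) ^ 2 * 2 ^ (n + 1) * ph S b g h (age S.R n t par) := by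
    positivity
  have hi1 : (0 : ℝ) ≤ (if ∃ l, age S.R n t l < (j : ℕ) ∧ (j : ℕ) ≤ age S.R n t l + 3 * h
      then (1 : ℝ) else 0) := by split_ifs <;> norm_num
  have hi2 : (0 : ℝ) ≤ (if ∃ l', age S.R n t l' < age S.R n t par ∧
            age S.R n t par ≤ age S.R n t l' + 3 * h then (1 : ℝ) else 0) := by
    split_ifs <;> norm_num
  have hi3 : (0 : ℝ) ≤ (if (j : ℕ) = 0 then (1 : ℝ) else 0) := by split_ifs <;> norm_num
  have hc2 : 0 ≤ Sys.cK b (n + 1) ^ 2 := by positivity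
  have hcrude := var_crude S b G (max (j : ℕ) (age S.R n t par)) t par
  have hm1 := mul_nonneg hc2 hi1
  have hm2 := mul_nonneg hc2 hi2
  have hm3 := mul_nonneg hc2 hi3
  rcases lt_or_ge (age S.R n t par) (j : ℕ) with hlt | hge
  · -- case A
    by_cases hbad : ∃ l, age S.R n t l < (j : ℕ) ∧ (j : ℕ) ≤ age S.R n t l + 3 * h
    · rw [if_pos hbad]
      nlinarith
    · have hmax : max (j : ℕ) (age S.R n t par) = j := max_eq_left hlt.le
      rw [hmax]
      have := var_good' S b G hh hD t par j.2 hlt hbad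
      nlinarith
  · have hmax : max (j : ℕ) (age S.R n t par) = age S.R n t par := max_eq_right hge
    by_cases h0 : age S.R n t par = 0
    · have hj0 : (j : ℕ) = 0 := by omega
      rw [if_pos hj0]
      rw [if_pos hj0] at hm3
      nlinarith
    · by_cases hbad : ∃ l', age S.R n t l' < age S.R n t par ∧
            age S.R n t par ≤ age S.R n t l' + 3 * h
      · rw [if_pos hbad]
        rw [if_pos hbad] at hm2
        nlinarith
      · obtain ⟨o, ho1, ho2⟩ := exists_owner t par h0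
        rw [hmax]
        have hEq : S.Var n t (fun r ω => S.krs b G (age S.R n t par) r ω (ω par)) =
            S.Var n t (fun r ω => S.krs b G (age S.R n t par) r ω (ω o)) := by
          have hsup : ∀ (r : S.Root) (ω : Fin (n + 1) → S.Om),
              (∀ i i', S.lv.rel (ov S.R n t i i') (ω i) (ω i')) →
              S.krs b G (age S.R n t par) r ω (ω par) = S.krs b G (age S.R n t par) r ω (ω o) := by
            intro r ω hrel
            refine S.krs_congr b G r ω ?_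
            exact S.lv.symm _ _ _ (rel_le S.lv ho2 (hrel o par))
          have hER : S.ER n t (fun r ω => S.krs b G (age S.R n t par) r ω (ω par)) =
              S.ER n t (fun r ω => S.krs b G (age S.R n t par) r ω (ω o)) :=
            S.ER_supp n t hsup
          unfold Sys.Var
          rw [hER]
          refine S.ER_supp n t (fun r ω hrel => ?_)
          show (S.krs b G (age S.R n t par) r ω (ω par) - _) ^ 2 =
            (S.krs b G (age S.R n t par) r ω (ω o) - _) ^ 2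
          rw [hsup r ω hrel]
        rw [hEq]
        have := var_good' S b G hh hD t o (age_lt S.R_pos t par) ho1 hbad
        nlinarith

/-- telescoping. -/
private theorem sum_dk_le (S : Sys) (b : ℕ) (g : Feat) (h : ℕ) (R : ℕ) :
    ∑ x ∈ Finset.range R, dk S b g h x ≤ 3 * h * (2 ^ (b + 2) * 4) := by
  -- `∑_{x<R} (kap x - kap (x-3h)) ≤ min(R,3h) * sup kap`
  have key : ∀ R : ℕ, ∑ x ∈ Finset.range R, dk S b g h x ≤
      ∑ i ∈ Finset.range (3 * h), S.kap b g (R + i - 3 * h) := by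
    intro R
    induction R with
    | zero =>
      rw [Finset.sum_range_zero]
      exact Finset.sum_nonneg fun _ _ => S.kap_nonneg b g _
    | succ R ih =>
      rw [Finset.sum_range_succ]
      have h1 : ∑ i ∈ Finset.range (3 * h), S.kap b g (R + 1 + i - 3 * h) =
          ∑ i ∈ Finset.range (3 * h), S.kap b g (R + i - 3 * h) +
            (S.kap b g R - S.kap b g (R - 3 * h)) := by
        have h2 := Finset.sum_range_succ (fun i => S.kap b g (R + i - 3 * h)) (3 * h)
        have h3 := Finset.sum_range_succ' (fun i => S.kap b g (R + i - 3 * h)) (3 * h)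
        have h4 : ∀ i, R + (i + 1) - 3 * h = R + 1 + i - 3 * h := fun i => by omega
        simp only [h4] at h3
        have h5 : R + 3 * h - 3 * h = R := by omega
        have h6 : R + 0 - 3 * h = R - 3 * h := by omega
        rw [h5] at h2
        rw [h6] at h3
        linarith
      rw [h1]
      unfold dk at ih ⊢
      linarith
  refine (key R).trans ?_
  calc ∑ i ∈ Finset.range (3 * h), S.kap b g (R + i - 3 * h)
      ≤ ∑ i ∈ Finset.range (3 * h), ((2 : ℝ) ^ (b + 2) * 4) :=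
        Finset.sum_le_sum fun _ _ => S.kap_le b g _
    _ = 3 * h * (2 ^ (b + 2) * 4) := by
        rw [Finset.sum_const, Finset.card_range, nsmul_eq_mul]
        push_cast; ring

/-- average of the `kap` terms. -/
private theorem avg_ph_le (S : Sys) (b : ℕ) (g : Feat) {h D : ℕ} (hh : 0 < h)
    (hD : D * h = S.R) :
    (1 / (S.R : ℝ)) * ∑ x ∈ Finset.range S.R, ph S b g h x ≤
      24 * 2 ^ (b + 2) * (1 / Real.sqrt D) := by
  have hR := S.R_pos
  have hRr : (0 : ℝ) < S.R := by exact_mod_cast hR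
  have hDpos : 0 < D := by
    rcases Nat.eq_zero_or_pos D with h0 | h0
    · subst h0; omega
    · exact h0
  have hDr : (1 : ℝ) ≤ D := by exact_mod_cast hDpos
  have hhr : (0 : ℝ) < h := by exact_mod_cast hh
  set M : ℝ := 12 * 2 ^ (b + 2) with hM
  have hpow : (1 : ℝ) ≤ 2 ^ (b + 2) := one_le_pow₀ (by norm_num)
  have hM1 : 1 ≤ M := by rw [hM]; linarith
  have h1 : (1 / (S.R : ℝ)) * ∑ x ∈ Finset.range S.R, dk S b g h x ≤ M / D := by
    have h2 := sum_dk_le S b g h S.R
    have h3 : (S.R : ℝ) = D * h := by rw [← hD]; push_cast; ring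
    calc (1 / (S.R : ℝ)) * ∑ x ∈ Finset.range S.R, dk S b g h x
        ≤ (1 / (S.R : ℝ)) * (3 * h * (2 ^ (b + 2) * 4)) :=
          mul_le_mul_of_nonneg_left h2 (by positivity)
      _ = M / D := by
          rw [h3, hM]
          field_simp
          ring
  -- Jensen
  have h2 : (1 / (S.R : ℝ)) * ∑ x ∈ Finset.range S.R, Real.sqrt (dk S b g h x) ≤
      Real.sqrt (M / D) := by
    apply Real.le_sqrt_of_sq_le
    have hcs := sq_sum_le_card_mul_sum_sq (s := Finset.range S.R)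
      (f := fun x => Real.sqrt (dk S b g h x))
    rw [Finset.card_range] at hcs
    have h4 : ∑ x ∈ Finset.range S.R, Real.sqrt (dk S b g h x) ^ 2 =
        ∑ x ∈ Finset.range S.R, dk S b g h x :=
      Finset.sum_congr rfl fun x _ => Real.sq_sqrt (dk_nonneg S b g h x)
    rw [h4] at hcs
    calc ((1 / (S.R : ℝ)) * ∑ x ∈ Finset.range S.R, Real.sqrt (dk S b g h x)) ^ 2
        = (1 / (S.R : ℝ)) ^ 2 * (∑ x ∈ Finset.range S.R, Real.sqrt (dk S b g h x)) ^ 2 := by ring
      _ ≤ (1 / (S.R : ℝ)) ^ 2 * ((S.R : ℝ) * ∑ x ∈ Finset.range S.R, dk S b g h x) :=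
          mul_le_mul_of_nonneg_left hcs (by positivity)
      _ = (1 / (S.R : ℝ)) * ∑ x ∈ Finset.range S.R, dk S b g h x := by
          field_simp
      _ ≤ M / D := h1
  have hsD : 0 < Real.sqrt D := Real.sqrt_pos.mpr (by linarith)
  have hsD1 : 1 ≤ Real.sqrt D := by
    rw [show (1 : ℝ) = Real.sqrt 1 by simp]; exact Real.sqrt_le_sqrt hDr
  have h5 : Real.sqrt (M / D) ≤ M * (1 / Real.sqrt D) := by
    rw [Real.sqrt_div (by linarith)]
    rw [mul_one_div]
    refine div_le_div_of_nonneg_right ?_ hsD.le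
    rw [Real.sqrt_le_left (by linarith)]
    nlinarith
  have h6 : M / D ≤ M * (1 / Real.sqrt D) := by
    rw [mul_one_div]
    refine div_le_div_of_nonneg_left (by linarith) hsD ?_
    have := Real.mul_self_sqrt (show (0 : ℝ) ≤ D by linarith)
    nlinarith
  have h7 : (1 / (S.R : ℝ)) * ∑ x ∈ Finset.range S.R, ph S b g h x =
      (1 / (S.R : ℝ)) * ∑ x ∈ Finset.range S.R, Real.sqrt (dk S b g h x) +
      (1 / (S.R : ℝ)) * ∑ x ∈ Finset.range S.R, dk S b g h x := by
    unfold ph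
    rw [Finset.sum_add_distrib, mul_add]
  rw [h7]
  have h8 : 24 * 2 ^ (b + 2) * (1 / Real.sqrt D) = M * (1 / Real.sqrt D) + M * (1 / Real.sqrt D) := by
    rw [hM]; ring
  rw [h8]
  linarith

/-- the sum over the tree of the covariance sums. -/
private theorem sum_cs (S : Sys) (b : ℕ) {n : ℕ} (G : Fin (n + 2) → Feat) (h D : ℕ) :
    ∑ t, wt S.m S.R n t * cs S b G h D t =
      ∑ β ∈ Finset.range D, ∑ o : Fin (n + 1),
        ∑ t, wt S.m S.R n t * |S.Cov n t (S.KBI b G h (β + 1) o t) (S.KBI b G h β o t)| := by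
  unfold cs
  simp only [Finset.mul_sum]
  rw [Finset.sum_comm]
  refine Finset.sum_congr rfl fun β _ => ?_
  rw [Finset.sum_comm]

/-- the inner double average for a fixed tree. -/
private theorem inner_le (S : Sys) (b : ℕ) {n : ℕ} (G : Fin (n + 2) → Feat) {h D : ℕ}
    (hh : 0 < h) (hD : D * h = S.R) (t : Tree S.R n) :
    ∑ par : Fin (n + 1), ∑ j : Fin S.R, (1 / ((n : ℝ) + 1)) * (1 / (S.R : ℝ)) *
      S.Var n t (fun r ω => S.krs b G (max (j : ℕ) (age S.R n t par)) r ω (ω par)) ≤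
    2 * (((n : ℝ) + 1) * D) ^ 2 * cs S b G h D t +
      4 * Sys.cK b (n + 1) ^ 2 * 2 ^ (n + 1) *
        (24 * 2 ^ (b + 2) * (1 / Real.sqrt D) +
          ∑ par : Fin (n + 1), (1 / ((n : ℝ) + 1)) *
            ph S b (G (Fin.last (n + 1))) h (age S.R n t par)) +
      Sys.cK b (n + 1) ^ 2 *
        (3 * ((n : ℝ) + 1) / D +
         ∑ par : Fin (n + 1), (1 / ((n : ℝ) + 1)) *
          (if ∃ l', age S.R n t l' < age S.R n t par ∧
            age S.R n t par ≤ age S.R n t l' + 3 * h then (1 : ℝ) else 0) +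
         1 / D) := by
  have hR := S.R_pos
  have hRr : (0 : ℝ) < S.R := by exact_mod_cast hR
  have hDpos : 0 < D := by
    rcases Nat.eq_zero_or_pos D with h0 | h0
    · subst h0; omega
    · exact h0
  have hDr : (1 : ℝ) ≤ D := by exact_mod_cast hDpos
  have hhr : (1 : ℝ) ≤ h := by exact_mod_cast hh
  have hRDh : (S.R : ℝ) = D * h := by rw [← hD]; push_cast; ring
  have hn : (0 : ℝ) < (n : ℝ) + 1 := by positivity
  set A := 2 * (((n : ℝ) + 1) * D) ^ 2 * cs S b G h D t with hA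
  set B := 4 * Sys.cK b (n + 1) ^ 2 * 2 ^ (n + 1) with hB
  set C := Sys.cK b (n + 1) ^ 2 with hC
  set g := G (Fin.last (n + 1)) with hg
  set I1 : Fin S.R → ℝ := fun j => if ∃ l, age S.R n t l < (j : ℕ) ∧
    (j : ℕ) ≤ age S.R n t l + 3 * h then (1 : ℝ) else 0 with hI1
  set I2 : Fin (n + 1) → ℝ := fun par => if ∃ l', age S.R n t l' < age S.R n t par ∧
            age S.R n t par ≤ age S.R n t l' + 3 * h then (1 : ℝ) else 0 with hI2
  set I3 : Fin S.R → ℝ := fun j => if (j : ℕ) = 0 then (1 : ℝ) else 0 with hI3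
  have hC0 : 0 ≤ C := by positivity
  have hB0 : 0 ≤ B := by
    have := Sys.cK_pos b (n + 1)
    positivity
  have step1 : ∑ par : Fin (n + 1), ∑ j : Fin S.R, (1 / ((n : ℝ) + 1)) * (1 / (S.R : ℝ)) *
      S.Var n t (fun r ω => S.krs b G (max (j : ℕ) (age S.R n t par)) r ω (ω par)) ≤
      ∑ par : Fin (n + 1), ∑ j : Fin S.R, (1 / ((n : ℝ) + 1)) * (1 / (S.R : ℝ)) *
        (A + B * (ph S b g h j + ph S b g h (age S.R n t par)) + C * (I1 j + I2 par + I3 j)) := by
    refine Finset.sum_le_sum fun par _ => Finset.sum_le_sum fun j _ => ?_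
    exact mul_le_mul_of_nonneg_left (var_pos S b G hh hD t par j) (by positivity)
  refine step1.trans ?_
  have hcardR : ∑ j : Fin S.R, (1 / (S.R : ℝ)) = 1 := by
    rw [Finset.sum_const, Finset.card_univ, Fintype.card_fin, nsmul_eq_mul]
    field_simp
  have step2 : ∀ par : Fin (n + 1), ∑ j : Fin S.R, (1 / ((n : ℝ) + 1)) * (1 / (S.R : ℝ)) *
        (A + B * (ph S b g h j + ph S b g h (age S.R n t par)) + C * (I1 j + I2 par + I3 j)) =
      (1 / ((n : ℝ) + 1)) * (A + B * ((∑ j : Fin S.R, (1 / (S.R : ℝ)) * ph S b g h j) +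
        ph S b g h (age S.R n t par)) + C * ((∑ j : Fin S.R, (1 / (S.R : ℝ)) * I1 j) + I2 par +
          (∑ j : Fin S.R, (1 / (S.R : ℝ)) * I3 j))) := by
    intro par
    have e1 : ∀ j : Fin S.R, (1 / ((n : ℝ) + 1)) * (1 / (S.R : ℝ)) *
        (A + B * (ph S b g h j + ph S b g h (age S.R n t par)) + C * (I1 j + I2 par + I3 j)) =
        (1 / ((n : ℝ) + 1)) * ((A + B * ph S b g h (age S.R n t par) + C * I2 par) *
            (1 / (S.R : ℝ))) +
          (1 / ((n : ℝ) + 1)) * (B * ((1 / (S.R : ℝ)) * ph S b g h j)) +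
          (1 / ((n : ℝ) + 1)) * (C * ((1 / (S.R : ℝ)) * I1 j)) +
          (1 / ((n : ℝ) + 1)) * (C * ((1 / (S.R : ℝ)) * I3 j)) := fun j => by ring
    rw [Finset.sum_congr rfl fun j _ => e1 j]
    rw [Finset.sum_add_distrib, Finset.sum_add_distrib, Finset.sum_add_distrib]
    simp only [← Finset.mul_sum]
    have : (1 : ℝ) / S.R * ∑ j : Fin S.R, (1 : ℝ) = 1 := by
      rw [Finset.mul_sum]; simpa using hcardR
    rw [hcardR]
    ring
  rw [Finset.sum_congr rfl fun par _ => step2 par]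
  have hb1 : (∑ j : Fin S.R, (1 / (S.R : ℝ)) * ph S b g h j) ≤
      24 * 2 ^ (b + 2) * (1 / Real.sqrt D) := by
    have h1 := avg_ph_le S b g hh hD
    rw [← Finset.mul_sum]
    rw [← Fin.sum_univ_eq_sum_range (fun x => ph S b g h x) S.R] at h1
    exact h1
  have hb2 : (∑ j : Fin S.R, (1 / (S.R : ℝ)) * I1 j) ≤ 3 * ((n : ℝ) + 1) / D := by
    have h1 := near_level_le (R := S.R) (3 * h) t hR
    refine h1.trans (le_of_eq ?_)
    rw [hRDh]
    push_cast
    field_simp
  have hb3 : (∑ j : Fin S.R, (1 / (S.R : ℝ)) * I3 j) ≤ 1 / D := by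
    rw [← Finset.mul_sum]
    have h1 : ∑ j : Fin S.R, I3 j = 1 := by
      rw [hI3]
      rw [Finset.sum_eq_single (⟨0, hR⟩ : Fin S.R)]
      · simp
      · intro j _ hj
        have : (j : ℕ) ≠ 0 := fun h0 => hj (Fin.ext h0)
        simp [this]
      · intro h0; exact absurd (Finset.mem_univ _) h0
    rw [h1, mul_one, hRDh]
    refine one_div_le_one_div_of_le (by linarith) ?_
    nlinarith
  calc ∑ par : Fin (n + 1), (1 / ((n : ℝ) + 1)) *
        (A + B * ((∑ j : Fin S.R, (1 / (S.R : ℝ)) * ph S b g h j) +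
        ph S b g h (age S.R n t par)) + C * ((∑ j : Fin S.R, (1 / (S.R : ℝ)) * I1 j) + I2 par +
          (∑ j : Fin S.R, (1 / (S.R : ℝ)) * I3 j)))
      ≤ ∑ par : Fin (n + 1), (1 / ((n : ℝ) + 1)) *
        (A + B * (24 * 2 ^ (b + 2) * (1 / Real.sqrt D) +
        ph S b g h (age S.R n t par)) + C * (3 * ((n : ℝ) + 1) / D + I2 par + 1 / D)) := by
        refine Finset.sum_le_sum fun par _ => mul_le_mul_of_nonneg_left ?_ (by positivity)
        have h1 := mul_le_mul_of_nonneg_left hb1 hB0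
        have h2 := mul_le_mul_of_nonneg_left hb2 hC0
        have h3 := mul_le_mul_of_nonneg_left hb3 hC0
        linarith
    _ = A + B * (24 * 2 ^ (b + 2) * (1 / Real.sqrt D) +
          ∑ par : Fin (n + 1), (1 / ((n : ℝ) + 1)) * ph S b g h (age S.R n t par)) +
        C * (3 * ((n : ℝ) + 1) / D + ∑ par : Fin (n + 1), (1 / ((n : ℝ) + 1)) * I2 par +
          1 / D) := by
        have e1 : ∀ par : Fin (n + 1), (1 / ((n : ℝ) + 1)) *
          (A + B * (24 * 2 ^ (b + 2) * (1 / Real.sqrt D) +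
            ph S b g h (age S.R n t par)) + C * (3 * ((n : ℝ) + 1) / D + I2 par + 1 / D)) =
          (A + B * (24 * 2 ^ (b + 2) * (1 / Real.sqrt D)) + C * (3 * ((n : ℝ) + 1) / D + 1 / D)) *
            (1 / ((n : ℝ) + 1)) + B * ((1 / ((n : ℝ) + 1)) * ph S b g h (age S.R n t par)) +
            C * ((1 / ((n : ℝ) + 1)) * I2 par) := fun par => by ring
        rw [Finset.sum_congr rfl fun par _ => e1 par]
        rw [Finset.sum_add_distrib, Finset.sum_add_distrib]
        simp only [← Finset.mul_sum]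
        have hcn : ∑ par : Fin (n + 1), (1 / ((n : ℝ) + 1)) = 1 := by
          rw [Finset.sum_const, Finset.card_univ, Fintype.card_fin, nsmul_eq_mul]
          push_cast
          field_simp
        rw [hcn]
        ring

/-- one-system bound. -/
theorem Sys.V2_le (S : Sys) (b : ℕ) {n : ℕ} (G : Fin (n + 2) → Feat) {h D : ℕ} (hh : 0 < h)
    (hD : D * h = S.R) :
    S.V2 b G ≤
      2 * (((n : ℝ) + 1) * D) ^ 2 * ((n : ℝ) + 2) * ∑ β ∈ Finset.range D, ∑ o : Fin (n + 1),
        ∑ t, wt S.m S.R n t * |S.Cov n t (S.KBI b G h (β + 1) o t) (S.KBI b G h β o t)| +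
      100 * ((n : ℝ) + 2) ^ 3 * cK b (n + 1) ^ 4 * (1 / Real.sqrt D) := by
  have hR := S.R_pos
  have hRr : (0 : ℝ) < S.R := by exact_mod_cast hR
  have hDpos : 0 < D := by
    rcases Nat.eq_zero_or_pos D with h0 | h0
    · subst h0; omega
    · exact h0
  have hDr : (1 : ℝ) ≤ D := by exact_mod_cast hDpos
  have hhr : (1 : ℝ) ≤ h := by exact_mod_cast hh
  have hRDh : (S.R : ℝ) = D * h := by rw [← hD]; push_cast; ring
  have hn : (0 : ℝ) < (n : ℝ) + 1 := by positivity
  have E := S.expo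
  have hm : ∀ j, j < S.R → Del S.m j = 1 / (S.R : ℝ) := fun j _ => S.Del_m
  set B := 4 * cK b (n + 1) ^ 2 * 2 ^ (n + 1) with hB
  set C := cK b (n + 1) ^ 2 with hC
  set g := G (Fin.last (n + 1)) with hg
  set Q := 24 * 2 ^ (b + 2) * (1 / Real.sqrt D) with hQ
  have hC0 : 0 ≤ C := by positivity
  have hB0 : 0 ≤ B := by
    have := cK_pos b (n + 1)
    positivity
  set I2 : Tree S.R n → Fin (n + 1) → ℝ := fun t par => if ∃ l', age S.R n t l' < age S.R n t par ∧
            age S.R n t par ≤ age S.R n t l' + 3 * h then (1 : ℝ) else 0 with hI2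
  have step1 : S.V2 b G ≤ ∑ t, wt S.m S.R n t *
      (2 * (((n : ℝ) + 1) * D) ^ 2 * cs S b G h D t +
      B * (Q + ∑ par : Fin (n + 1), (1 / ((n : ℝ) + 1)) * ph S b g h (age S.R n t par)) +
      C * (3 * ((n : ℝ) + 1) / D + ∑ par : Fin (n + 1), (1 / ((n : ℝ) + 1)) * I2 t par +
         1 / D)) := by
    unfold Sys.V2
    exact Finset.sum_le_sum fun t _ => mul_le_mul_of_nonneg_left (inner_le S b G hh hD t)
      (wt_nonneg E t)
  refine step1.trans ?_
  have e1 : ∀ t, wt S.m S.R n t *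
      (2 * (((n : ℝ) + 1) * D) ^ 2 * cs S b G h D t +
      B * (Q + ∑ par : Fin (n + 1), (1 / ((n : ℝ) + 1)) * ph S b g h (age S.R n t par)) +
      C * (3 * ((n : ℝ) + 1) / D + ∑ par : Fin (n + 1), (1 / ((n : ℝ) + 1)) * I2 t par +
         1 / D)) =
      2 * (((n : ℝ) + 1) * D) ^ 2 * (wt S.m S.R n t * cs S b G h D t) +
      (B * Q + C * (3 * ((n : ℝ) + 1) / D + 1 / D)) * wt S.m S.R n t +
      B * (1 / ((n : ℝ) + 1)) * (∑ par : Fin (n + 1), wt S.m S.R n t *
        ph S b g h (age S.R n t par)) +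
      C * (1 / ((n : ℝ) + 1)) * (∑ par : Fin (n + 1), wt S.m S.R n t * I2 t par) := by
    intro t
    simp only [← Finset.mul_sum]
    ring
  rw [Finset.sum_congr rfl fun t _ => e1 t]
  rw [Finset.sum_add_distrib, Finset.sum_add_distrib, Finset.sum_add_distrib]
  rw [← Finset.mul_sum, ← Finset.mul_sum, ← Finset.mul_sum, ← Finset.mul_sum, sum_cs,
    wt_sum E]
  have sw1 : ∑ t, ∑ par : Fin (n + 1), wt S.m S.R n t * ph S b g h (age S.R n t par) =
      ∑ par : Fin (n + 1), ∑ t, wt S.m S.R n t * ph S b g h (age S.R n t par) := Finset.sum_comm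
  have sw2 : ∑ t, ∑ par : Fin (n + 1), wt S.m S.R n t * I2 t par =
      ∑ par : Fin (n + 1), ∑ t, wt S.m S.R n t * I2 t par := Finset.sum_comm
  rw [sw1, sw2]
  set Z := ∑ β ∈ Finset.range D, ∑ o : Fin (n + 1),
        ∑ t, wt S.m S.R n t * |S.Cov n t (S.KBI b G h (β + 1) o t) (S.KBI b G h β o t)| with hZ
  have hZ0 : 0 ≤ Z := Finset.sum_nonneg fun _ _ => Finset.sum_nonneg fun _ _ =>
    Finset.sum_nonneg fun t _ => mul_nonneg (wt_nonneg E t) (abs_nonneg _)
  have hb1 : ∑ par : Fin (n + 1), ∑ t, wt S.m S.R n t * ph S b g h (age S.R n t par) ≤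
      ((n : ℝ) + 1) * (n * Q) := by
    have : ∀ par : Fin (n + 1), ∑ t, wt S.m S.R n t * ph S b g h (age S.R n t par) ≤ n * Q := by
      intro par
      have h1 := age_avg_le hm hR n par (f := fun x => ph S b g h x) (fun x => ph_nonneg S b g h x)
      refine h1.trans ?_
      rw [ph_zero, zero_add]
      exact mul_le_mul_of_nonneg_left (avg_ph_le S b g hh hD) (Nat.cast_nonneg n)
    calc _ ≤ ∑ par : Fin (n + 1), (n : ℝ) * Q := Finset.sum_le_sum fun par _ => this par
      _ = ((n : ℝ) + 1) * (n * Q) := by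
        rw [Finset.sum_const, Finset.card_univ, Fintype.card_fin, nsmul_eq_mul]
        push_cast
        ring
  have hb2 : ∑ par : Fin (n + 1), ∑ t, wt S.m S.R n t * I2 t par ≤
      ((n : ℝ) + 1) * (3 * ((n : ℝ) + 1) ^ 2 / D) := by
    have : ∀ par : Fin (n + 1), ∑ t, wt S.m S.R n t * I2 t par ≤ 3 * ((n : ℝ) + 1) ^ 2 / D := by
      intro par
      have h1 := near_ages_le hm hR n (3 * h) par
      refine h1.trans (le_of_eq ?_)
      rw [hRDh]
      push_cast
      field_simp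
    calc _ ≤ ∑ par : Fin (n + 1), (3 * ((n : ℝ) + 1) ^ 2 / D) :=
          Finset.sum_le_sum fun par _ => this par
      _ = ((n : ℝ) + 1) * (3 * ((n : ℝ) + 1) ^ 2 / D) := by
        rw [Finset.sum_const, Finset.card_univ, Fintype.card_fin, nsmul_eq_mul]
        push_cast
        ring
  have hq1 : B * (1 / ((n : ℝ) + 1)) * (∑ par : Fin (n + 1), ∑ t, wt S.m S.R n t *
        ph S b g h (age S.R n t par)) ≤ B * (n * Q) := by
    calc _ ≤ B * (1 / ((n : ℝ) + 1)) * (((n : ℝ) + 1) * (n * Q)) :=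
          mul_le_mul_of_nonneg_left hb1 (by positivity)
      _ = B * (n * Q) := by field_simp
  have hq2 : C * (1 / ((n : ℝ) + 1)) * (∑ par : Fin (n + 1), ∑ t, wt S.m S.R n t * I2 t par) ≤
      C * (3 * ((n : ℝ) + 1) ^ 2 / D) := by
    calc _ ≤ C * (1 / ((n : ℝ) + 1)) * (((n : ℝ) + 1) * (3 * ((n : ℝ) + 1) ^ 2 / D)) :=
          mul_le_mul_of_nonneg_left hb2 (by positivity)
      _ = C * (3 * ((n : ℝ) + 1) ^ 2 / D) := by field_simp
  -- numeric part
  have hsD : 0 < Real.sqrt D := Real.sqrt_pos.mpr (by linarith)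
  have hDs : 1 / (D : ℝ) ≤ 1 / Real.sqrt D := by
    refine one_div_le_one_div_of_le hsD ?_
    rw [Real.sqrt_le_left (by linarith)]
    nlinarith
  set u := 1 / Real.sqrt (D : ℝ) with hu
  have hu0 : 0 < u := by positivity
  have hcKv : cK b (n + 1) = 2 ^ (b + 2) * 2 ^ (n + 2) := rfl
  have hcK1 : 1 ≤ cK b (n + 1) := by
    rw [hcKv]
    have h1 : (1 : ℝ) ≤ 2 ^ (b + 2) := one_le_pow₀ (by norm_num)
    have h2 : (1 : ℝ) ≤ 2 ^ (n + 2) := one_le_pow₀ (by norm_num)
    nlinarith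
  have hBQ : B * Q = 48 * cK b (n + 1) ^ 3 * u := by
    rw [hB, hQ]
    have : (2 : ℝ) ^ (n + 1) * (24 * 2 ^ (b + 2)) = 12 * cK b (n + 1) := by
      rw [hcKv]; ring
    calc 4 * cK b (n + 1) ^ 2 * 2 ^ (n + 1) * (24 * 2 ^ (b + 2) * u)
        = 4 * cK b (n + 1) ^ 2 * ((2 : ℝ) ^ (n + 1) * (24 * 2 ^ (b + 2))) * u := by ring
      _ = _ := by rw [this]; ring
  set κ := cK b (n + 1) with hκ
  have hκ2 : κ ^ 2 ≤ κ ^ 4 := pow_le_pow_right₀ hcK1 (by norm_num)
  have hκ3 : κ ^ 3 ≤ κ ^ 4 := pow_le_pow_right₀ hcK1 (by norm_num)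
  have hκ4 : 0 ≤ κ ^ 4 := by positivity
  have hn0 : (0 : ℝ) ≤ n := Nat.cast_nonneg n
  have hfin1 : B * Q + B * (n * Q) ≤ 48 * ((n : ℝ) + 1) * (κ ^ 4 * u) := by
    have : B * Q + B * (n * Q) = 48 * ((n : ℝ) + 1) * (κ ^ 3 * u) := by
      have : B * Q + B * (n * Q) = ((n : ℝ) + 1) * (B * Q) := by ring
      rw [this, hBQ]; ring
    rw [this]
    refine mul_le_mul_of_nonneg_left ?_ (by positivity)
    exact mul_le_mul_of_nonneg_right hκ3 hu0.le
  have hfin2 : C * (3 * ((n : ℝ) + 1) / D + 1 / D) + C * (3 * ((n : ℝ) + 1) ^ 2 / D) ≤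
      (3 * ((n : ℝ) + 1) + 1 + 3 * ((n : ℝ) + 1) ^ 2) * (κ ^ 4 * u) := by
    have e2 : C * (3 * ((n : ℝ) + 1) / D + 1 / D) + C * (3 * ((n : ℝ) + 1) ^ 2 / D) =
        (3 * ((n : ℝ) + 1) + 1 + 3 * ((n : ℝ) + 1) ^ 2) * (C * (1 / D)) := by ring
    rw [e2]
    refine mul_le_mul_of_nonneg_left ?_ (by positivity)
    exact mul_le_mul hκ2 hDs (by positivity) hκ4
  have hpoly : 48 * ((n : ℝ) + 1) + (3 * ((n : ℝ) + 1) + 1 + 3 * ((n : ℝ) + 1) ^ 2) ≤
      100 * ((n : ℝ) + 2) ^ 3 := by nlinarith [mul_nonneg hn0 hn0, mul_nonneg (mul_nonneg hn0 hn0) hn0]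
  have hlast := mul_le_mul_of_nonneg_right hpoly (show 0 ≤ κ ^ 4 * u by positivity)
  have hA : 2 * (((n : ℝ) + 1) * D) ^ 2 * Z ≤
      2 * (((n : ℝ) + 1) * D) ^ 2 * ((n : ℝ) + 2) * Z := by
    refine mul_le_mul_of_nonneg_right ?_ hZ0
    have : 0 ≤ 2 * (((n : ℝ) + 1) * D) ^ 2 := by positivity
    nlinarith
  have e3 : 100 * ((n : ℝ) + 2) ^ 3 * κ ^ 4 * u = 100 * ((n : ℝ) + 2) ^ 3 * (κ ^ 4 * u) := by ring
  rw [e3]
  linarith

private theorem KBz_top (S : Sys) (b : ℕ) {n : ℕ} (G : Fin (n + 2) → Feat) {z : ℕ}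
    (hz : S.R ≤ z) (i : Fin (n + 1)) (t : Tree S.R n) (r : S.Root) (ω : Fin (n + 1) → S.Om) :
    S.KBz b G z i t r ω = 0 := by
  unfold Sys.KBz
  refine Finset.sum_eq_zero fun par _ => Finset.sum_eq_zero fun j _ => ?_
  have h1 : max (j : ℕ) (age S.R n t par) < S.R := max_lt j.2 (age_lt S.R_pos t par)
  rw [if_neg (by
    intro hc
    have := hc.trans (min_le_left _ _)
    omega)]
  ring

theorem V2_tendsto (H : LTH Sy code η) {n : ℕ} (hdet : DetAt Sy n) (b : ℕ)
    (G : Fin (n + 2) → Feat) : Tendsto (fun s => (Sy s).V2 b G) atTop (nhds 0) := by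
  have hnonneg : ∀ s, 0 ≤ (Sy s).V2 b G := by
    intro s
    unfold Sys.V2
    refine Finset.sum_nonneg fun t _ => mul_nonneg (wt_nonneg (Sy s).expo t) ?_
    refine Finset.sum_nonneg fun par _ => Finset.sum_nonneg fun j _ => ?_
    exact mul_nonneg (by positivity) ((Sy s).Var_nonneg n t _)
  rw [Metric.tendsto_atTop]
  intro ε hε
  -- choose the dyadic precision
  obtain ⟨d, hd⟩ : ∃ d : ℕ, 100 * ((n : ℝ) + 2) ^ 3 * Sys.cK b (n + 1) ^ 4 *
      (1 / Real.sqrt ((2 ^ d : ℕ) : ℝ)) < ε / 2 := by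
    have h1 : Tendsto (fun d : ℕ => 100 * ((n : ℝ) + 2) ^ 3 * Sys.cK b (n + 1) ^ 4 *
      (1 / Real.sqrt ((2 ^ d : ℕ) : ℝ))) atTop (nhds (100 * ((n : ℝ) + 2) ^ 3 *
        Sys.cK b (n + 1) ^ 4 * 0)) := by
      refine Tendsto.const_mul _ ?_
      have h2 : Tendsto (fun d : ℕ => ((2 ^ d : ℕ) : ℝ)) atTop atTop :=
        tendsto_natCast_atTop_atTop.comp (tendsto_pow_atTop_atTop_of_one_lt (by norm_num))
      have h3 := Real.tendsto_sqrt_atTop.comp h2
      have h4 := h3.inv_tendsto_atTop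
      refine h4.congr fun d => ?_
      simp [one_div]
    rw [mul_zero] at h1
    exact ((h1.eventually_lt_const (by linarith : (0 : ℝ) < ε / 2))).exists
  have hWN : Tendsto (fun s => 2 * (((n : ℝ) + 1) * ((2 ^ d : ℕ) : ℝ)) ^ 2 * ((n : ℝ) + 2) *
      ∑ β ∈ Finset.range (2 ^ d), ∑ o : Fin (n + 1),
        ∑ t, wt (Sy s).m (Sy s).R n t * |(Sy s).Cov n t
          ((Sy s).KBI b G (2 ^ (s + 1 - d)) (β + 1) o t)
          ((Sy s).KBI b G (2 ^ (s + 1 - d)) β o t)|) atTop (nhds 0) := by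
    rw [show (0 : ℝ) = 2 * (((n : ℝ) + 1) * ((2 ^ d : ℕ) : ℝ)) ^ 2 * ((n : ℝ) + 2) *
      ∑ β ∈ Finset.range (2 ^ d), ∑ o : Fin (n + 1), (0 : ℝ) by simp]
    refine Tendsto.const_mul _ ?_
    refine tendsto_finsetSum _ fun β hβ => tendsto_finsetSum _ fun o _ => ?_
    rw [Finset.mem_range] at hβ
    rcases Nat.lt_or_ge (β + 1) (2 ^ d) with hlt | hge
    · exact WN H hdet b G o d β (β + 1) hβ hlt (by omega)
    · -- the top block is empty
      refine tendsto_const_nhds.congr' ?_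
      filter_upwards [eventually_ge_atTop d] with s hs
      symm
      refine Finset.sum_eq_zero fun t _ => ?_
      have hR : (Sy s).R = 2 ^ d * 2 ^ (s + 1 - d) := by
        rw [H.R_eq, ← pow_add]
        congr 1
        omega
      have hz : ∀ r ω, (Sy s).KBI b G (2 ^ (s + 1 - d)) (β + 1) o t r ω = 0 := by
        intro r ω
        unfold Sys.KBI
        have h1 : (Sy s).R ≤ (β + 1) * 2 ^ (s + 1 - d) := by
          rw [hR]; exact Nat.mul_le_mul_right _ hge
        have h2 : (Sy s).R ≤ (β + 1 + 1) * 2 ^ (s + 1 - d) :=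
          h1.trans (Nat.mul_le_mul_right _ (by omega))
        rw [KBz_top _ b G h1, KBz_top _ b G h2, sub_zero]
      have hcov : (Sy s).Cov n t ((Sy s).KBI b G (2 ^ (s + 1 - d)) (β + 1) o t)
          ((Sy s).KBI b G (2 ^ (s + 1 - d)) β o t) = 0 := by
        unfold Sys.Cov
        rw [(Sy s).ER_congr n t (Y := fun _ _ => 0) (fun r ω => by rw [hz r ω, zero_mul])]
        exact (Sy s).ER_const n t 0
      rw [hcov, abs_zero, mul_zero]
  rw [Metric.tendsto_atTop] at hWN
  obtain ⟨N, hN⟩ := hWN (ε / 2) (by linarith)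
  refine ⟨max N d, fun s hs => ?_⟩
  have hsN := hN s ((le_max_left _ _).trans hs)
  have hsd : d ≤ s := (le_max_right _ _).trans hs
  have hR : 2 ^ d * 2 ^ (s + 1 - d) = (Sy s).R := by
    rw [H.R_eq, ← pow_add]
    congr 1
    omega
  have hle := (Sy s).V2_le b G (h := 2 ^ (s + 1 - d)) (D := 2 ^ d) (by positivity) hR
  rw [Real.dist_eq, sub_zero] at hsN ⊢
  rw [abs_of_nonneg (hnonneg s)]
  have h1 := lt_of_le_of_lt (le_abs_self _) hsN
  linarith

end Crest.SG
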