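import Crest.Agent.SG_B7d

/-! # SG_B8 : the induction `Det n → Det (n+1)` and the limit theorem (task SG-B8) -/

set_option autoImplicit false
noncomputable section
open scoped BigOperators
open Classical Filter
open Crest.ProbabilityR.Diluted
namespace Crest.SG

/-! ### conditional expectation lemmas -/

section ce
variable {R : ℕ} {Ω : Type} [Fintype Ω] (S : Lev R Ω) {P : Ω → ℝ}

private theorem B8_ce_mul (hP : PathLaw P) {a x : ℕ} (h : a ≤ x) (f : Ω → ℝ) (ω₀ : Ω) :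
    ce S P a (fun ω' => f ω' * ce S P x f ω') ω₀ = ce S P a (fun ω' => (ce S P x f ω') ^ 2) ω₀ := by
  rw [← ce_ce_of_le S hP h (fun ω' => f ω' * ce S P x f ω')]
  refine ce_congr S (fun ω => ?_) _
  have h1 := ce_mul_inv S (P := P) x (ce_inv S (P := P) x f) f ω
  rw [sq, ← h1]
  exact ce_congr S (fun y => mul_comm _ _) _

private theorem B8_ce_sq_le (hP : PathLaw P) {a x : ℕ} (h : a ≤ x) (f : Ω → ℝ) (ω₀ : Ω) :
    ce S P a (fun ω' => (ce S P x f ω') ^ 2) ω₀ ≤ ce S P a (fun ω' => (f ω') ^ 2) ω₀ := by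
  rw [← ce_ce_of_le S hP h (fun ω' => (f ω') ^ 2)]
  exact ce_mono S hP a (fun ω => ce_sq_le S hP x f ω) ω₀

private theorem B8_ce_self (hP : PathLaw P) (a : ℕ) (f : Ω → ℝ) (ω₀ : Ω) :
    ce S P a (fun ω' => (ce S P a f ω') ^ 2) ω₀ = (ce S P a f ω₀) ^ 2 :=
  ce_of_inv S hP (fun ω ω' h => by
    show (ce S P a f ω) ^ 2 = (ce S P a f ω') ^ 2
    rw [ce_inv S a f ω ω' h]) ω₀

private theorem B8_ce_var (hP : PathLaw P) (a : ℕ) (f : Ω → ℝ) (ω₀ : Ω) :
    ce S P a (fun ω' => (f ω' - ce S P a f ω') ^ 2) ω₀ =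
      ce S P a (fun ω' => (f ω') ^ 2) ω₀ - (ce S P a f ω₀) ^ 2 := by
  set c := ce S P a f ω₀ with hc
  have h1 : ce S P a (fun ω' => (f ω' - ce S P a f ω') ^ 2) ω₀ =
      ce S P a (fun ω' => ((f ω') ^ 2 - (2 * c) * f ω') + c ^ 2) ω₀ := by
    refine ce_congr_rel S ω₀ fun ω' h => ?_
    rw [← ce_inv S a f ω₀ ω' h, ← hc]
    ring
  rw [h1, ce_add, ce_sub, ce_const_mul, ce_const S hP, ← hc]
  ring

private theorem B8_count {R a : ℕ} (ha : a < R) :
    ∑ j : Fin R, (if (j : ℕ) ≤ a then (1 : ℝ) else 0) = (a : ℝ) + 1 := by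
  rw [Fin.sum_univ_eq_sum_range (fun j => if j ≤ a then (1 : ℝ) else 0) R, ← Finset.sum_filter]
  have : (Finset.range R).filter (fun j => j ≤ a) = Finset.range (a + 1) := by
    ext j
    simp only [Finset.mem_filter, Finset.mem_range]
    omega
  rw [this]
  simp

private theorem B8_count_lt {R : ℕ} (c : ℕ) (hR : 0 < R) {κ : ℝ} (hκ : 0 < κ) :
    ∑ j : Fin R, (1 / (R : ℝ)) * (if (((max (j : ℕ) c + 1 : ℕ) : ℝ) / R) < κ then (1 : ℝ) else 0) ≤ κ := by
  have hR' : (0 : ℝ) < R := by exact_mod_cast hR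
  have h1 : ∀ j : Fin R, (1 / (R : ℝ)) *
      (if (((max (j : ℕ) c + 1 : ℕ) : ℝ) / R) < κ then (1 : ℝ) else 0) ≤
      (1 / (R : ℝ)) * (if (j : ℕ) ∈ Finset.range ⌊κ * R⌋₊ then (1 : ℝ) else 0) := by
    intro j
    refine mul_le_mul_of_nonneg_left ?_ (by positivity)
    by_cases h : (((max (j : ℕ) c + 1 : ℕ) : ℝ) / R) < κ
    · have h2 : (j : ℕ) ∈ Finset.range ⌊κ * R⌋₊ := by
        rw [Finset.mem_range]
        rw [div_lt_iff₀ hR'] at h
        have h3 : (((j : ℕ) + 1 : ℕ) : ℝ) ≤ κ * R := by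
          refine le_trans ?_ h.le
          exact_mod_cast Nat.succ_le_succ (le_max_left _ _)
        exact Nat.lt_of_succ_le (Nat.le_floor h3)
      rw [if_pos h, if_pos h2]
    · rw [if_neg h]
      split_ifs <;> simp
  refine (Finset.sum_le_sum fun j _ => h1 j).trans ?_
  rw [← Finset.mul_sum, Fin.sum_univ_eq_sum_range
    (fun j => if j ∈ Finset.range ⌊κ * R⌋₊ then (1 : ℝ) else 0) R, ← Finset.sum_filter,
    Finset.sum_const, nsmul_eq_mul, mul_one]
  have h2 : (((Finset.range R).filter (fun j => j ∈ Finset.range ⌊κ * R⌋₊)).card : ℝ) ≤ κ * R := by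
    have h3 : ((Finset.range R).filter (fun j => j ∈ Finset.range ⌊κ * R⌋₊)).card ≤ ⌊κ * R⌋₊ := by
      calc _ ≤ (Finset.range ⌊κ * R⌋₊).card := Finset.card_le_card (by
              intro x hx
              exact (Finset.mem_filter.1 hx).2)
        _ = _ := Finset.card_range _
    calc (((Finset.range R).filter (fun j => j ∈ Finset.range ⌊κ * R⌋₊)).card : ℝ) ≤ (⌊κ * R⌋₊ : ℝ) := by
            exact_mod_cast h3
      _ ≤ κ * R := Nat.floor_le (by positivity)
  calc (1 / (R : ℝ)) * (((Finset.range R).filter (fun j => j ∈ Finset.range ⌊κ * R⌋₊)).card : ℝ)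
      ≤ (1 / (R : ℝ)) * (κ * R) := mul_le_mul_of_nonneg_left h2 (by positivity)
    _ = κ := by field_simp

/-- the pointwise (V_1) inequality. -/
private theorem B8_V1_point (hP : PathLaw P) {a : ℕ} (ha : a < R) (f : Ω → ℝ) (ω₀ : Ω) :
    (((a + 1 : ℕ) : ℝ) / R) * ce S P a (fun ω' => (f ω' - ce S P a f ω') ^ 2) ω₀ ≤
      ce S P a (fun ω' => f ω' * (f ω' - ∑ j : Fin R, (1 / (R : ℝ)) *
        ce S P (max (j : ℕ) a) f ω')) ω₀ := by
  have hR' : (0 : ℝ) < R := by exact_mod_cast (Nat.zero_le a).trans_lt ha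
  rw [B8_ce_var S hP]
  set e := ce S P a (fun ω' => (f ω') ^ 2) ω₀ with he
  set u := (ce S P a f ω₀) ^ 2 with hu
  have h1 : ce S P a (fun ω' => f ω' * (f ω' - ∑ j : Fin R, (1 / (R : ℝ)) *
        ce S P (max (j : ℕ) a) f ω')) ω₀ =
      e - ∑ j : Fin R, (1 / (R : ℝ)) * ce S P a (fun ω' => (ce S P (max (j : ℕ) a) f ω') ^ 2) ω₀ := by
    have e1 : ce S P a (fun ω' => f ω' * (f ω' - ∑ j : Fin R, (1 / (R : ℝ)) *
        ce S P (max (j : ℕ) a) f ω')) ω₀ =
        ce S P a (fun ω' => (f ω') ^ 2 - ∑ j : Fin R, (1 / (R : ℝ)) *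
          (f ω' * ce S P (max (j : ℕ) a) f ω')) ω₀ := by
      refine ce_congr S (fun ω' => ?_) _
      rw [mul_sub, Finset.mul_sum]
      congr 1
      · ring
      · exact Finset.sum_congr rfl fun j _ => by ring
    rw [e1, ce_sub, ce_sum]
    congr 1
    refine Finset.sum_congr rfl fun j _ => ?_
    rw [ce_const_mul, B8_ce_mul S hP (le_max_right _ _)]
  rw [h1]
  have h2 : ∑ j : Fin R, (1 / (R : ℝ)) * ce S P a (fun ω' => (ce S P (max (j : ℕ) a) f ω') ^ 2) ω₀ ≤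
      ∑ j : Fin R, ((1 / (R : ℝ)) * e + ((1 / (R : ℝ)) * (u - e)) * (if (j : ℕ) ≤ a then (1 : ℝ) else 0)) := by
    refine Finset.sum_le_sum fun j _ => ?_
    by_cases hj : (j : ℕ) ≤ a
    · rw [if_pos hj, max_eq_right hj, B8_ce_self S hP]
      exact le_of_eq (by ring)
    · rw [if_neg hj, mul_zero, add_zero]
      exact mul_le_mul_of_nonneg_left (B8_ce_sq_le S hP (le_max_right _ _) f ω₀) (by positivity)
  have h3 : ∑ j : Fin R, ((1 / (R : ℝ)) * e + ((1 / (R : ℝ)) * (u - e)) *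
      (if (j : ℕ) ≤ a then (1 : ℝ) else 0)) = e + (1 / (R : ℝ)) * (u - e) * ((a : ℝ) + 1) := by
    rw [Finset.sum_add_distrib, Finset.sum_const, ← Finset.mul_sum, B8_count ha, Finset.card_univ,
      Fintype.card_fin, nsmul_eq_mul]
    field_simp
  rw [h3] at h2
  have h4 : (((a + 1 : ℕ) : ℝ) / R) * (e - u) = -((1 / (R : ℝ)) * (u - e) * ((a : ℝ) + 1)) := by
    push_cast
    ring
  rw [h4]
  linarith

end ce

private theorem B8_age {R n : ℕ} (t : Tree R n) (par : Fin (n + 1)) (j : Fin R) :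
    age R (n + 1) (t, (par, j)) (Fin.last (n + 1)) = max (j : ℕ) (age R n t par) :=
  age_last (R := R) (n := n) (t, (par, j))

namespace Sys
variable (S : Sys)

/-- the conditional mean of `K` given the branch point of the last replica. -/
def kau (b : ℕ) {n : ℕ} (G : Fin (n + 2) → Feat) (r : S.Root) (t : Tree S.R (n + 1))
    (ω : Fin (n + 2) → S.Om) : ℝ :=
  S.krs b G (age S.R (n + 1) t (Fin.last (n + 1))) r (fun l => ω l.castSucc) (ω (Fin.last (n + 1)))

private theorem B8_EE_succ {n : ℕ} (F : S.Obs (n + 1)) :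
    S.EE (n + 1) F = S.EE n (fun r t ω => ∑ par : Fin (n + 1), ∑ j : Fin S.R,
      (1 / ((n : ℝ) + 1)) * (1 / (S.R : ℝ)) * ce S.lv (S.PL r) (max (j : ℕ) (age S.R n t par))
        (fun ω' => F r (t, (par, j)) (Fin.snoc (α := fun _ => S.Om) ω ω')) (ω par)) := by
  unfold EE
  refine Finset.sum_congr rfl fun r _ => ?_
  congr 1
  rw [En_succ]
  refine En_congr S.lv fun t ω => ?_
  refine Finset.sum_congr rfl fun par _ => Finset.sum_congr rfl fun j _ => ?_
  rw [Del_m]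

private theorem B8_ER_succ {n : ℕ} (t : Tree S.R n) (par : Fin (n + 1)) (j : Fin S.R)
    (X : S.Root → (Fin (n + 2) → S.Om) → ℝ) :
    S.ER (n + 1) (t, (par, j)) X = S.ER n t (fun r ω => ce S.lv (S.PL r)
      (max (j : ℕ) (age S.R n t par))
        (fun ω' => X r (Fin.snoc (α := fun _ => S.Om) ω ω')) (ω par)) := rfl

private theorem B8_krs_snoc (b : ℕ) {n : ℕ} (G : Fin (n + 2) → Feat) (x : ℕ) (r : S.Root)
    (ω : Fin (n + 1) → S.Om) (ω' : S.Om) :
    S.krs b G x r (fun l => (Fin.snoc (α := fun _ => S.Om) ω ω' : Fin (n + 2) → S.Om) l.castSucc)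
      ((Fin.snoc (α := fun _ => S.Om) ω ω' : Fin (n + 2) → S.Om) (Fin.last (n + 1))) =
    ce S.lv (S.PL r) x (fun ω'' => S.KK b G r (Fin.snoc (α := fun _ => S.Om) ω ω'')) ω' := by
  have h1 : (fun l : Fin (n + 1) => (Fin.snoc (α := fun _ => S.Om) ω ω' : Fin (n + 2) → S.Om)
      l.castSucc) = ω := by
    funext l
    rw [Fin.snoc_castSucc]
  rw [h1, Fin.snoc_last]
  rfl

private theorem B8_kau_snoc (b : ℕ) {n : ℕ} (G : Fin (n + 2) → Feat) (r : S.Root) (t : Tree S.R n)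
    (par : Fin (n + 1)) (j : Fin S.R) (ω : Fin (n + 1) → S.Om) (ω' : S.Om) :
    S.kau b G r (t, (par, j)) (Fin.snoc (α := fun _ => S.Om) ω ω') =
    ce S.lv (S.PL r) (max (j : ℕ) (age S.R n t par))
      (fun ω'' => S.KK b G r (Fin.snoc (α := fun _ => S.Om) ω ω'')) ω' := by
  unfold kau
  rw [B8_krs_snoc, B8_age]

/-- (V_1) inequality: martingale in the levels of the last replica,
`E[K² - K ∑_j Δ_j Y_{max(j,a)}] = ∑_{i>a} m_i E(Y_i - Y_{i-1})² ≥ m_{a+1} E (Y_R - Y_a)²`. -/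
theorem V1_ineq (b : ℕ) {n : ℕ} (G : Fin (n + 2) → Feat) :
    S.EE (n + 1) (fun r t ω => S.m (age S.R (n + 1) t (Fin.last (n + 1)) + 1) *
        (S.KK b G r ω - S.kau b G r t ω) ^ 2) ≤
      S.EE (n + 1) (fun r t ω => S.KK b G r ω *
        (S.KK b G r ω - ∑ j : Fin S.R, (1 / (S.R : ℝ)) *
          S.krs b G (max (j : ℕ) (age S.R (n + 1) t (Fin.last (n + 1)))) r
            (fun l => ω l.castSucc) (ω (Fin.last (n + 1))))) := by
  rw [B8_EE_succ, B8_EE_succ]
  refine S.EE_mono n fun r t ω => ?_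
  refine Finset.sum_le_sum fun par _ => Finset.sum_le_sum fun j _ => ?_
  refine mul_le_mul_of_nonneg_left ?_ (by positivity)
  have ha : max (j : ℕ) (age S.R n t par) < S.R := max_lt j.2 (age_lt S.R_pos t par)
  have key := B8_V1_point S.lv (S.PL_law r) ha
    (fun ω'' => S.KK b G r (Fin.snoc (α := fun _ => S.Om) ω ω'')) (ω par)
  rw [← ce_const_mul] at key
  have e1 : ∀ ω' : S.Om, S.m (age S.R (n + 1) ((t, (par, j)) : Tree S.R (n + 1)) (Fin.last (n + 1)) + 1) *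
      (S.KK b G r (Fin.snoc (α := fun _ => S.Om) ω ω') -
        S.kau b G r (t, (par, j)) (Fin.snoc (α := fun _ => S.Om) ω ω')) ^ 2 =
      (((max (j : ℕ) (age S.R n t par) + 1 : ℕ) : ℝ) / S.R) *
        ((fun ω'' => S.KK b G r (Fin.snoc (α := fun _ => S.Om) ω ω'')) ω' -
          ce S.lv (S.PL r) (max (j : ℕ) (age S.R n t par))
            (fun ω'' => S.KK b G r (Fin.snoc (α := fun _ => S.Om) ω ω'')) ω') ^ 2 := by
    intro ω'
    rw [B8_kau_snoc, B8_age]
    rfl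
  have e2 : ∀ ω' : S.Om, S.KK b G r (Fin.snoc (α := fun _ => S.Om) ω ω') *
      (S.KK b G r (Fin.snoc (α := fun _ => S.Om) ω ω') - ∑ j' : Fin S.R, (1 / (S.R : ℝ)) *
        S.krs b G (max (j' : ℕ) (age S.R (n + 1) ((t, (par, j)) : Tree S.R (n + 1)) (Fin.last (n + 1)))) r
          (fun l => (Fin.snoc (α := fun _ => S.Om) ω ω' : Fin (n + 2) → S.Om) l.castSucc)
          ((Fin.snoc (α := fun _ => S.Om) ω ω' : Fin (n + 2) → S.Om) (Fin.last (n + 1)))) =
      (fun ω'' => S.KK b G r (Fin.snoc (α := fun _ => S.Om) ω ω'')) ω' *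
        ((fun ω'' => S.KK b G r (Fin.snoc (α := fun _ => S.Om) ω ω'')) ω' -
          ∑ j' : Fin S.R, (1 / (S.R : ℝ)) *
            ce S.lv (S.PL r) (max (j' : ℕ) (max (j : ℕ) (age S.R n t par)))
              (fun ω'' => S.KK b G r (Fin.snoc (α := fun _ => S.Om) ω ω'')) ω') := by
    intro ω'
    simp only [B8_krs_snoc, B8_age]
  rw [ce_congr S.lv e1, ce_congr S.lv e2]
  exact key

private theorem B8_KBz_eq (b : ℕ) {n : ℕ} (G : Fin (n + 2) → Feat) (i : Fin (n + 1))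
    (t : Tree S.R n) (r : S.Root) (ω : Fin (n + 1) → S.Om) :
    S.KBz b G 0 i t r ω = ∑ q : Fin (n + 1) × Fin S.R, ((1 / ((n : ℝ) + 1)) * (1 / (S.R : ℝ))) *
      S.krs b G (max (q.2 : ℕ) (age S.R n t q.1)) r ω (ω q.1) := by
  unfold KBz
  rw [Fintype.sum_prod_type]
  refine Finset.sum_congr rfl fun par _ => Finset.sum_congr rfl fun j _ => ?_
  rw [if_pos (Nat.zero_le _), one_mul]

private theorem B8_R_pos' : (0 : ℝ) < S.R := by exact_mod_cast S.R_pos

private theorem B8_w_sum (n : ℕ) :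
    ∑ _q : Fin (n + 1) × Fin S.R, ((1 / ((n : ℝ) + 1)) * (1 / (S.R : ℝ))) = 1 := by
  rw [Finset.sum_const, Finset.card_univ, Fintype.card_prod, Fintype.card_fin, Fintype.card_fin,
    nsmul_eq_mul]
  have := S.B8_R_pos'
  push_cast
  field_simp

private theorem B8_EE_last (b : ℕ) {n : ℕ} (G : Fin (n + 2) → Feat) (i : Fin (n + 1))
    (g : S.Obs n) :
    S.EE (n + 1) (fun r t ω => S.KK b G r ω * g r t.1 (fun l => ω l.castSucc)) =
      S.EE n (fun r t ω => S.KBz b G 0 i t r ω * g r t ω) := by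
  rw [B8_EE_succ]
  refine S.EE_congr n fun r t ω => ?_
  rw [B8_KBz_eq, Fintype.sum_prod_type, Finset.sum_mul]
  refine Finset.sum_congr rfl fun par _ => ?_
  rw [Finset.sum_mul]
  refine Finset.sum_congr rfl fun j _ => ?_
  have h : ce S.lv (S.PL r) (max (j : ℕ) (age S.R n t par))
      (fun ω' => S.KK b G r (Fin.snoc (α := fun _ => S.Om) ω ω') *
        g r ((t, (par, j)) : Tree S.R (n + 1)).1
          (fun l => (Fin.snoc (α := fun _ => S.Om) ω ω' : Fin (n + 2) → S.Om) l.castSucc)) (ω par) =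
      g r t ω * S.krs b G (max (j : ℕ) (age S.R n t par)) r ω (ω par) := by
    unfold krs
    rw [← ce_const_mul]
    refine ce_congr S.lv (fun ω' => ?_) _
    have h1 : (fun l : Fin (n + 1) => (Fin.snoc (α := fun _ => S.Om) ω ω' : Fin (n + 2) → S.Om)
        l.castSucc) = ω := by
      funext l
      rw [Fin.snoc_castSucc]
    rw [h1, mul_comm]
  rw [h]
  ring

/-- the right-hand side of (MI) for `F = K`, `z = 0`. -/
theorem MI_KK (b : ℕ) {n : ℕ} (G : Fin (n + 2) → Feat) :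
    S.EE (n + 1) (fun r t ω => S.KK b G r ω *
        (S.KK b G r ω - ∑ j : Fin S.R, (1 / (S.R : ℝ)) *
          S.krs b G (max (j : ℕ) (age S.R (n + 1) t (Fin.last (n + 1)))) r
            (fun l => ω l.castSucc) (ω (Fin.last (n + 1))))) ≤
      S.MIz b G 0 0 (fun r _ ω => S.KK b G r ω) + ((n : ℝ) + 1) * S.V2 b G := by
  have h1 : S.MIz b G 0 0 (fun r _ ω => S.KK b G r ω) =
      S.EE (n + 1) (fun r t ω => S.KK b G r ω *
        (S.KK b G r ω - ∑ j : Fin S.R, (1 / (S.R : ℝ)) *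
          S.krs b G (max (j : ℕ) (age S.R (n + 1) t (Fin.last (n + 1)))) r
            (fun l => ω l.castSucc) (ω (Fin.last (n + 1))))) -
      ((n : ℝ) + 1) * S.EE (n + 1) (fun r t ω => S.KK b G r ω *
        (S.KBz b G 0 0 t.1 r (fun l => ω l.castSucc) - S.ER n t.1 (S.KBz b G 0 0 t.1))) := by
    unfold MIz
    congr 1
    refine S.EE_congr _ fun r t ω => ?_
    rw [if_pos (Nat.zero_le _), mul_one]
  have h2 : S.EE (n + 1) (fun r t ω => S.KK b G r ω *
        (S.KBz b G 0 0 t.1 r (fun l => ω l.castSucc) - S.ER n t.1 (S.KBz b G 0 0 t.1))) ≤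
      S.V2 b G := by
    rw [S.B8_EE_last b G 0 (fun r t ω => S.KBz b G 0 0 t r ω - S.ER n t (S.KBz b G 0 0 t)),
      EE_eq_ER]
    unfold V2
    refine Finset.sum_le_sum fun t _ => mul_le_mul_of_nonneg_left ?_ (wt_nonneg S.expo t)
    have h3 : S.ER n t (fun r ω => S.KBz b G 0 0 t r ω *
        (S.KBz b G 0 0 t r ω - S.ER n t (S.KBz b G 0 0 t))) = S.Var n t (S.KBz b G 0 0 t) :=
      (S.Var_self_cov n t _).symm
    rw [h3]
    have h4 : S.KBz b G 0 0 t = fun r ω => ∑ q ∈ (Finset.univ : Finset (Fin (n + 1) × Fin S.R)),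
        ((1 / ((n : ℝ) + 1)) * (1 / (S.R : ℝ))) *
          S.krs b G (max (q.2 : ℕ) (age S.R n t q.1)) r ω (ω q.1) := by
      funext r ω
      exact S.B8_KBz_eq b G 0 t r ω
    rw [h4]
    refine (S.Var_convex Finset.univ n t (fun _ => (1 / ((n : ℝ) + 1)) * (1 / (S.R : ℝ)))
      (fun _ _ => by positivity) (S.B8_w_sum n)
      (fun q r ω => S.krs b G (max (q.2 : ℕ) (age S.R n t q.1)) r ω (ω q.1))).trans ?_
    rw [Fintype.sum_prod_type]
  have h5 : ((n : ℝ) + 1) * S.EE (n + 1) (fun r t ω => S.KK b G r ω *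
        (S.KBz b G 0 0 t.1 r (fun l => ω l.castSucc) - S.ER n t.1 (S.KBz b G 0 0 t.1))) ≤
      ((n : ℝ) + 1) * S.V2 b G := mul_le_mul_of_nonneg_left h2 (by positivity)
  rw [h1]
  linarith

/-- decomposition of the conditional variance. -/
theorem Dvar_eq (b : ℕ) {n : ℕ} (G : Fin (n + 2) → Feat) :
    S.Dvar b (n + 1) G =
      S.EE (n + 1) (fun r t ω => (S.KK b G r ω - S.kau b G r t ω) ^ 2) + S.V2 b G := by
  unfold Dvar V2
  rw [EE_eq_ER, sum_tree_succ, sum_tree_succ, ← Finset.sum_add_distrib]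
  refine Finset.sum_congr rfl fun t _ => ?_
  rw [Finset.mul_sum, ← Finset.sum_add_distrib]
  refine Finset.sum_congr rfl fun par _ => ?_
  rw [Finset.mul_sum, ← Finset.sum_add_distrib]
  refine Finset.sum_congr rfl fun j _ => ?_
  have hw : wt S.m S.R (n + 1) (t, (par, j)) = wt S.m S.R n t * ((1 / ((n : ℝ) + 1)) * Del S.m j) := rfl
  rw [hw, Del_m]
  have key : S.Var (n + 1) (t, (par, j)) (S.KK b G) =
      S.ER (n + 1) (t, (par, j)) (fun r ω => (S.KK b G r ω - S.kau b G r (t, (par, j)) ω) ^ 2) +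
      S.Var n t (fun r ω => S.krs b G (max (j : ℕ) (age S.R n t par)) r ω (ω par)) := by
    have hv : S.Var (n + 1) (t, (par, j)) (S.KK b G) =
        S.ER (n + 1) (t, (par, j)) (fun r ω => S.KK b G r ω ^ 2) -
          (S.ER (n + 1) (t, (par, j)) (S.KK b G)) ^ 2 := S.Var_eq (n + 1) _ _
    rw [hv, Var_eq, B8_ER_succ, B8_ER_succ, B8_ER_succ]
    have e1 : S.ER n t (fun r ω => ce S.lv (S.PL r) (max (j : ℕ) (age S.R n t par))
        (fun ω' => (S.KK b G r (Fin.snoc (α := fun _ => S.Om) ω ω') -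
          S.kau b G r (t, (par, j)) (Fin.snoc (α := fun _ => S.Om) ω ω')) ^ 2) (ω par)) =
        S.ER n t (fun r ω => ce S.lv (S.PL r) (max (j : ℕ) (age S.R n t par))
          (fun ω' => (S.KK b G r (Fin.snoc (α := fun _ => S.Om) ω ω')) ^ 2) (ω par)) -
        S.ER n t (fun r ω => (S.krs b G (max (j : ℕ) (age S.R n t par)) r ω (ω par)) ^ 2) := by
      rw [← ER_sub]
      refine S.ER_congr n t fun r ω => ?_
      have h := B8_ce_var S.lv (S.PL_law r) (max (j : ℕ) (age S.R n t par))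
        (fun ω'' => S.KK b G r (Fin.snoc (α := fun _ => S.Om) ω ω'')) (ω par)
      rw [ce_congr S.lv (fun ω' => by rw [B8_kau_snoc])]
      exact h
    rw [e1]
    have e2 : S.ER n t (fun r ω => ce S.lv (S.PL r) (max (j : ℕ) (age S.R n t par))
        (fun ω' => S.KK b G r (Fin.snoc (α := fun _ => S.Om) ω ω')) (ω par)) =
        S.ER n t (fun r ω => S.krs b G (max (j : ℕ) (age S.R n t par)) r ω (ω par)) := rfl
    rw [e2]
    ring
  rw [key]
  ring

private theorem B8_prob (n : ℕ) {κ : ℝ} (hκ : 0 < κ) :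
    S.EE (n + 1) (fun _ t _ => if S.m (age S.R (n + 1) t (Fin.last (n + 1)) + 1) < κ then 1 else 0) ≤ κ := by
  rw [B8_EE_succ]
  have h : ∀ (r : S.Root) (t : Tree S.R n) (ω : Fin (n + 1) → S.Om), (∑ par : Fin (n + 1), ∑ j : Fin S.R,
      (1 / ((n : ℝ) + 1)) * (1 / (S.R : ℝ)) * ce S.lv (S.PL r) (max (j : ℕ) (age S.R n t par))
        (fun _ => (if S.m (age S.R (n + 1) ((t, (par, j)) : Tree S.R (n + 1)) (Fin.last (n + 1)) + 1) < κ
          then (1 : ℝ) else 0)) (ω par)) ≤ κ := by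
    intro r t ω
    have h1 : ∀ par : Fin (n + 1), (∑ j : Fin S.R,
      (1 / ((n : ℝ) + 1)) * (1 / (S.R : ℝ)) * ce S.lv (S.PL r) (max (j : ℕ) (age S.R n t par))
        (fun _ => (if S.m (age S.R (n + 1) ((t, (par, j)) : Tree S.R (n + 1)) (Fin.last (n + 1)) + 1) < κ
          then (1 : ℝ) else 0)) (ω par)) ≤ (1 / ((n : ℝ) + 1)) * κ := by
      intro par
      have h2 := B8_count_lt (age S.R n t par) S.R_pos hκ
      refine le_trans (le_of_eq ?_) (mul_le_mul_of_nonneg_left h2 (by positivity))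
      rw [Finset.mul_sum]
      refine Finset.sum_congr rfl fun j _ => ?_
      rw [ce_const S.lv (S.PL_law r), B8_age, mul_assoc]
      rfl
    refine (Finset.sum_le_sum fun par _ => h1 par).trans ?_
    rw [Finset.sum_const, Finset.card_univ, Fintype.card_fin, nsmul_eq_mul]
    push_cast
    have : ((n : ℝ) + 1) * (1 / ((n : ℝ) + 1) * κ) = κ := by field_simp
    rw [this]
  refine (S.EE_mono n h).trans ?_
  rw [EE_const]

/-- small exponents are rare: `P(m_{a+1} < κ) ≤ κ`. -/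
theorem Dvar_le (b : ℕ) {n : ℕ} (G : Fin (n + 2) → Feat) {κ : ℝ} (hκ : 0 < κ) :
    S.Dvar b (n + 1) G ≤ (1 / κ) * (|S.MIz b G 0 0 (fun r _ ω => S.KK b G r ω)| +
      ((n : ℝ) + 1) * S.V2 b G) + 4 * cK b (n + 1) ^ 2 * κ + S.V2 b G := by
  rw [Dvar_eq]
  have h1 := (S.V1_ineq b G).trans (S.MI_KK b G)
  have h2 : S.EE (n + 1) (fun r t ω => (S.KK b G r ω - S.kau b G r t ω) ^ 2) ≤
      S.EE (n + 1) (fun r t ω => (1 / κ) * (S.m (age S.R (n + 1) t (Fin.last (n + 1)) + 1) *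
        (S.KK b G r ω - S.kau b G r t ω) ^ 2) +
        (4 * cK b (n + 1) ^ 2) *
          (if S.m (age S.R (n + 1) t (Fin.last (n + 1)) + 1) < κ then 1 else 0)) := by
    refine S.EE_mono _ fun r t ω => ?_
    have hm0 : 0 ≤ S.m (age S.R (n + 1) t (Fin.last (n + 1)) + 1) := by
      unfold m; positivity
    by_cases hlt : S.m (age S.R (n + 1) t (Fin.last (n + 1)) + 1) < κ
    · rw [if_pos hlt, mul_one]
      have h3 : |S.KK b G r ω| ≤ cK b (n + 1) := S.abs_KK_le b G r ω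
      have h4 : |S.kau b G r t ω| ≤ cK b (n + 1) := S.abs_krs_le b G _ r _ _
      have h5 : (S.KK b G r ω - S.kau b G r t ω) ^ 2 ≤ 4 * cK b (n + 1) ^ 2 := by
        rw [abs_le] at h3 h4
        nlinarith [h3.1, h3.2, h4.1, h4.2]
      have h6 : 0 ≤ (1 / κ) * (S.m (age S.R (n + 1) t (Fin.last (n + 1)) + 1) *
        (S.KK b G r ω - S.kau b G r t ω) ^ 2) := by positivity
      linarith
    · rw [if_neg hlt, mul_zero, add_zero]
      rw [not_lt] at hlt
      have h3 : (1 : ℝ) ≤ (1 / κ) * S.m (age S.R (n + 1) t (Fin.last (n + 1)) + 1) := by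
        rw [one_div, ← div_eq_inv_mul, le_div_iff₀ hκ, one_mul]
        exact hlt
      have h4 := mul_le_mul_of_nonneg_right h3 (sq_nonneg (S.KK b G r ω - S.kau b G r t ω))
      linarith
  rw [EE_add, EE_const_mul, EE_const_mul] at h2
  have h3 := S.B8_prob n hκ
  have h4 := mul_le_mul_of_nonneg_left h3 (show 0 ≤ 4 * cK b (n + 1) ^ 2 by positivity)
  have h5 : (1 / κ) * S.EE (n + 1) (fun r t ω => S.m (age S.R (n + 1) t (Fin.last (n + 1)) + 1) *
        (S.KK b G r ω - S.kau b G r t ω) ^ 2) ≤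
      (1 / κ) * (|S.MIz b G 0 0 (fun r _ ω => S.KK b G r ω)| + ((n : ℝ) + 1) * S.V2 b G) := by
    refine mul_le_mul_of_nonneg_left (h1.trans ?_) (by positivity)
    have := le_abs_self (S.MIz b G 0 0 (fun r _ ω => S.KK b G r ω))
    linarith
  linarith

private theorem B8_Dvar_nonneg (b n : ℕ) (G : Fin (n + 1) → Feat) : 0 ≤ S.Dvar b n G :=
  Finset.sum_nonneg fun t _ => mul_nonneg (wt_nonneg S.expo t) (S.Var_nonneg n t _)

end Sys

variable {Sy : ℕ → Sys} {code : ℕ → TC} {η : ℕ → ℝ}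

theorem det_succ (H : LTH Sy code η) {n : ℕ} (hdet : DetAt Sy n) : DetAt Sy (n + 1) := by
  intro b G
  have hV2 := V2_tendsto H hdet b G
  have hMI := MI_dyadic H hdet b G 0 0 0 (Nat.zero_le _)
  have hMIt : Tendsto (fun s => |(Sy s).MIz b G 0 0 (fun r _ ω => (Sy s).KK b G r ω)|) atTop (nhds 0) := by
    rw [Metric.tendsto_atTop]
    intro ε hε
    have h1 := hMI (Sys.cK b (n + 1)) (Sys.cK_pos b (n + 1)) (ε / 2) (by positivity)
    obtain ⟨N, hN⟩ := eventually_atTop.1 h1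
    refine ⟨N, fun s hs => ?_⟩
    have h2 : |(Sy s).MIz b G (0 * 2 ^ (s + 1 - 0)) 0 (fun r _ ω => (Sy s).KK b G r ω)| ≤ ε / 2 :=
      hN s hs _ ((Sy s).Adm_KK b G)
    rw [zero_mul] at h2
    rw [Real.dist_eq, sub_zero, abs_abs]
    linarith
  rw [Metric.tendsto_atTop]
  intro ε hε
  set c : ℝ := 4 * Sys.cK b (n + 1) ^ 2 with hc
  have hc0 : 0 < c := by
    have := Sys.cK_pos b (n + 1)
    positivity
  set κ : ℝ := ε / (2 * c) with hκ
  have hκ0 : 0 < κ := by positivity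
  have hlim : Tendsto (fun s => (1 / κ) * (|(Sy s).MIz b G 0 0 (fun r _ ω => (Sy s).KK b G r ω)| +
      ((n : ℝ) + 1) * (Sy s).V2 b G) + c * κ + (Sy s).V2 b G) atTop (nhds (ε / 2)) := by
    have h1 := ((((hMIt.add (hV2.const_mul ((n : ℝ) + 1))).const_mul (1 / κ)).add_const (c * κ)).add hV2)
    convert h1 using 2
    rw [hκ]
    field_simp
    ring
  have hev := hlim.eventually (gt_mem_nhds (show ε / 2 < ε by linarith))
  obtain ⟨N, hN⟩ := eventually_atTop.1 hev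
  refine ⟨N, fun s hs => ?_⟩
  rw [Real.dist_eq, sub_zero, abs_of_nonneg ((Sy s).B8_Dvar_nonneg b (n + 1) G)]
  exact ((Sy s).Dvar_le b G hκ0).trans_lt (hN s hs)

/-- **limit theorem**. -/
theorem det_all (H : LTH Sy code η) (n : ℕ) : DetAt Sy n := by
  induction n with
  | zero =>
    intro b G
    have h := H.det1 b (G 0)
    have e : G = fun _ => G 0 := by
      funext i
      have hi : i = 0 := Fin.ext (by omega)
      rw [hi]
    rw [e]
    exact h
  | succ n ih => exact det_succ H ih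

end Crest.SG
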