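import Crest.Agent.SG_A3
import Crest.Agent.SG_A5

/-! # SG_BDefs : slot systems (definitions for part B), see note rid=S0192.

A slot system has `k` spins (last level `R`), `L` slots; each slot has a mark (`none` = inactive, or
a species `b < q`) and a site; every slot carries `N` label bits, bit `n` at level `lev n`.
Root = (base root, slots). Weight = base × ∏_{active slots} W_b(spin at the site, labels of the slot).
-/

set_option autoImplicit false
set_option linter.unusedVariables false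

noncomputable section
open scoped BigOperators
open Classical
open Crest.ProbabilityR.Diluted
namespace Crest.SG

/-- features: (uses the spin?, finite set of label bits). -/
abbrev Feat := Bool × Finset ℕ

/-- value of a feature: `±1`. -/
def fval (g : Feat) (s : Bool) (l : ℕ → Bool) : ℝ :=
  (if g.1 then spinVal s else 1) * ∏ n ∈ g.2, spinVal (l n)

/-- codes of tilts: rational combinations of features. -/
abbrev TC := List (ℚ × Feat)

def tval (c : TC) (s : Bool) (l : ℕ → Bool) : ℝ := (c.map fun x => (x.1 : ℝ) * fval x.2 s l).sum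

def tnorm (c : TC) : ℚ := (c.map fun x => |x.1|).sum

/-- label bit `n` does not occur in the code. -/
def freeTC (n : ℕ) (c : TC) : Prop := ∀ x ∈ c, n ∉ x.2.2

/-- A slot system. -/
structure Sys where
  R : ℕ
  k : ℕ
  L : ℕ
  N : ℕ
  q : ℕ
  k_pos : 0 < k
  L_pos : 0 < L
  lev : ℕ → ℕ
  lev_pos : ∀ n, 1 ≤ lev n
  lev_lt : ∀ n, lev n < R
  /-- species weights -/
  W : ℕ → Bool → (ℕ → Bool) → ℝ
  W_lo : ∀ b s l, 1 / 2 ≤ W b s l
  W_hi : ∀ b s l, W b s l ≤ 3 / 2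
  /-- base root -/
  ρ : Type
  fρ : Fintype ρ
  pr : ρ → ℝ
  pr_nonneg : ∀ r, 0 ≤ pr r
  pr_sum : ∑ r, pr r = 1
  base : ρ → (Fin k → Bool) → ℝ
  base_pos : ∀ r σ, 0 < base r σ

attribute [instance] Sys.fρ

namespace Sys

variable (S : Sys)

/-- path space: label bits of all slots, spins. -/
abbrev Om : Type := (Fin S.L → Fin S.N → Bool) × (Fin S.k → Bool)

/-- marks and sites. -/
abbrev Slot : Type := Option (Fin S.q) × Fin S.k

abbrev Root : Type := S.ρ × (Fin S.L → S.Slot)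

theorem R_pos : 0 < S.R := lt_of_le_of_lt (Nat.zero_le _) (S.lev_lt 0)

/-- levels: label bit `n` is revealed at level `lev n`, the spins at level `R`. -/
def lv : Lev S.R S.Om where
  rel j ω ω' := (∀ c (n : Fin S.N), S.lev n ≤ j → ω.1 c n = ω'.1 c n) ∧ (S.R ≤ j → ω.2 = ω'.2)
  refl j ω := ⟨fun _ _ _ => rfl, fun _ => rfl⟩
  symm j ω ω' h := ⟨fun c n hn => (h.1 c n hn).symm, fun hj => (h.2 hj).symm⟩
  trans j ω ω' ω'' h h' :=
    ⟨fun c n hn => (h.1 c n hn).trans (h'.1 c n hn), fun hj => (h.2 hj).trans (h'.2 hj)⟩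
  zero ω ω' := by
    refine ⟨fun c n hn => ?_, fun h => ?_⟩
    · have := S.lev_pos n; omega
    · have := S.R_pos; omega
  mono j ω ω' h := ⟨fun c n hn => h.1 c n (by omega), fun hj => h.2 (by omega)⟩
  top ω ω' h := by
    refine Prod.ext ?_ (h.2 le_rfl)
    funext c n
    exact h.1 c n (S.lev_lt n).le

/-- exponents `m_j = j / R`. -/
def m (j : ℕ) : ℝ := (j : ℝ) / S.R

/-- extension of label bits to all of `ℕ`. -/
def ext (l : Fin S.N → Bool) : ℕ → Bool := fun n => if h : n < S.N then l ⟨n, h⟩ else false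

/-- mark probabilities: species `b` has probability `2^{-(b+2)}`. -/
def pm : Option (Fin S.q) → ℝ
  | none => 1 - ∑ b ∈ Finset.range S.q, (1 / 2 : ℝ) ^ (b + 2)
  | some b => (1 / 2 : ℝ) ^ ((b : ℕ) + 2)

/-- probability of being inactive (`≥ 1/2`). -/
def p0 : ℝ := 1 - ∑ b ∈ Finset.range S.q, (1 / 2 : ℝ) ^ (b + 2)

def prR (r : S.Root) : ℝ := S.pr r.1 * ∏ c, (S.pm (r.2 c).1 * (1 / (S.k : ℝ)))

/-- the factor of a slot. -/
def slotW (a : S.Slot) (l : Fin S.N → Bool) (σ : Fin S.k → Bool) : ℝ :=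
  match a.1 with
  | none => 1
  | some b => S.W b (σ a.2) (S.ext l)

/-- total weight. -/
def sw (r : S.Root) (ω : S.Om) : ℝ := S.base r.1 ω.2 * ∏ c, S.slotW (r.2 c) (ω.1 c) ω.2

/-- path law given the root. -/
def PL (r : S.Root) : S.Om → ℝ := tilt S.lv S.m (unif S.Om) (S.sw r)

/-- `log T_0` of the system given the root. -/
def lT (r : S.Root) : ℝ := LT0 S.lv S.m (unif S.Om) (S.sw r)

/-- mark test. -/
def isM (a : Option (Fin S.q)) (b : ℕ) : Prop := a.map (fun x => (x : ℕ)) = some b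

/-- a slot function evaluated at slot `c` on one path. -/
def at1 (V : Bool → (ℕ → Bool) → ℝ) (r : S.Root) (c : Fin S.L) (ω : S.Om) : ℝ :=
  V (ω.2 (r.2 c).2) (S.ext (ω.1 c))

/-- path law with an additional weight `V` at slot `c`. -/
def PLW (r : S.Root) (c : Fin S.L) (V : Bool → (ℕ → Bool) → ℝ) : S.Om → ℝ :=
  tilt S.lv S.m (S.PL r) (S.at1 V r c)

/-- observables of `n+1` replicas. -/
abbrev Obs (n : ℕ) : Type := S.Root → Tree S.R n → (Fin (n + 1) → S.Om) → ℝ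

/-- replica slot kernels. -/
abbrev SK (n : ℕ) : Type := (Fin (n + 1) → Bool) → (Fin (n + 1) → ℕ → Bool) → ℝ

/-- evaluation of a slot kernel at slot `c`. -/
def sl {n : ℕ} (Φ : SK n) (r : S.Root) (c : Fin S.L) (ω : Fin (n + 1) → S.Om) : ℝ :=
  Φ (fun l => (ω l).2 (r.2 c).2) (fun l => S.ext ((ω l).1 c))

/-- total expectation (root, tree, replicas). -/
def EE (n : ℕ) (F : S.Obs n) : ℝ := ∑ r, S.prR r * En S.lv S.m (S.PL r) n (F r)

/-- expectation given the tree. -/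
def ER (n : ℕ) (t : Tree S.R n) (X : S.Root → (Fin (n + 1) → S.Om) → ℝ) : ℝ :=
  ∑ r, S.prR r * Et S.lv (S.PL r) n t (X r)

def Var (n : ℕ) (t : Tree S.R n) (X : S.Root → (Fin (n + 1) → S.Om) → ℝ) : ℝ :=
  S.ER n t (fun r ω => (X r ω - S.ER n t X) ^ 2)

def Cov (n : ℕ) (t : Tree S.R n) (X Y : S.Root → (Fin (n + 1) → S.Om) → ℝ) : ℝ :=
  S.ER n t (fun r ω => X r ω * (Y r ω - S.ER n t Y))

/-- the averaged kernel over the slots of species `b`. -/
def Khat (b : ℕ) {n : ℕ} (Φ : SK n) (r : S.Root) (ω : Fin (n + 1) → S.Om) : ℝ :=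
  (2 ^ (b + 2) / (S.L : ℝ)) * ∑ c, if S.isM (r.2 c).1 b then S.sl Φ r c ω else 0

/-- `Γ^V[Φ; F]`. -/
def Gam (n : ℕ) (V : Bool → (ℕ → Bool) → ℝ) (Φ : SK n) (F : S.Obs n) : ℝ :=
  (1 / (S.p0 * S.L)) * ∑ c, ∑ r : S.Root, if (r.2 c).1 = none then
    S.prR r * En S.lv S.m (S.PLW r c V) n (fun t ω => S.sl Φ r c ω * F r t ω) else 0

/-- root with slot `c` replaced by an inactive slot (same site). -/
def erase (r : S.Root) (c : Fin S.L) : S.Root := (r.1, Function.update r.2 c (none, (r.2 c).2))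

/-- admissible observables: bounded, slowly varying under erasing one slot, and not depending
on the data of an inactive slot. -/
structure Adm (n : ℕ) (B : ℝ) (F : S.Obs n) : Prop where
  bd : ∀ r t ω, |F r t ω| ≤ B
  er : ∀ r c t ω, |F r t ω - F (S.erase r c) t ω| ≤ B / S.L
  fr : ∀ (r r' : S.Root) (c : Fin S.L), (r.2 c).1 = none → (r'.2 c).1 = none → r.1 = r'.1 →
    (∀ c', c' ≠ c → r.2 c' = r'.2 c') → ∀ t (ω ω' : Fin (n + 1) → S.Om),
    (∀ l, (ω l).2 = (ω' l).2) → (∀ l c', c' ≠ c → (ω l).1 c' = (ω' l).1 c') →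
    F r t ω = F r' t ω'

/-- kernel `∏ G_l / V`. -/
def _root_.Crest.SG.PhiG {n : ℕ} (V : Bool → (ℕ → Bool) → ℝ) (G : Fin (n + 1) → Feat) : SK n :=
  fun σ l => ∏ i, fval (G i) (σ i) (l i) / V (σ i) (l i)

/-- `K_b(G)` : the averaged kernel `∏ G_l / W_b`. -/
def KK (b : ℕ) {n : ℕ} (G : Fin (n + 1) → Feat) (r : S.Root) (ω : Fin (n + 1) → S.Om) : ℝ :=
  S.Khat b (PhiG (S.W b) G) r ω

/-- conditional variance of `K_b(G)` given the tree, averaged. -/
def Dvar (b : ℕ) (n : ℕ) (G : Fin (n + 1) → Feat) : ℝ :=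
  ∑ t, wt S.m S.R n t * S.Var n t (S.KK b G)

/-- `E[K(A, ω')]` with `ω'` resampled from `ω0` beyond level `x`. -/
def krs (b : ℕ) {n : ℕ} (G : Fin (n + 2) → Feat) (x : ℕ) (r : S.Root) (ωA : Fin (n + 1) → S.Om)
    (ω0 : S.Om) : ℝ :=
  ce S.lv (S.PL r) x (fun ω' => S.KK b G r (Fin.snoc (α := fun _ => S.Om) ωA ω')) ω0

/-- conditional mean, given the replicas `A`, of `K(A, new) 1(z ≤ ov i new)`. -/
def KBz (b : ℕ) {n : ℕ} (G : Fin (n + 2) → Feat) (z : ℕ) (i : Fin (n + 1)) (t : Tree S.R n)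
    (r : S.Root) (ω : Fin (n + 1) → S.Om) : ℝ :=
  ∑ par : Fin (n + 1), ∑ j : Fin S.R, (1 / ((n : ℝ) + 1)) * (1 / (S.R : ℝ)) *
    ((if z ≤ min (max (j : ℕ) (age S.R n t par)) (ov S.R n t i par) then 1 else 0) *
      S.krs b G (max (j : ℕ) (age S.R n t par)) r ω (ω par))

/-- the functional of (MI) at level `z`, replica `i`. -/
def MIz (b : ℕ) {n : ℕ} (G : Fin (n + 2) → Feat) (z : ℕ) (i : Fin (n + 1)) (F : S.Obs (n + 1)) : ℝ :=
  S.EE (n + 1) (fun r t ω => F r t ω *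
      (if z ≤ ov S.R (n + 1) t i.castSucc (Fin.last (n + 1)) then 1 else 0) *
      (S.KK b G r ω - ∑ j : Fin S.R, (1 / (S.R : ℝ)) *
        S.krs b G (max (j : ℕ) (age S.R (n + 1) t (Fin.last (n + 1)))) r
          (fun l => ω l.castSucc) (ω (Fin.last (n + 1))))) -
  ((n : ℝ) + 1) * S.EE (n + 1) (fun r t ω => F r t ω *
      (S.KBz b G z i t.1 r (fun l => ω l.castSucc) -
        S.ER n t.1 (S.KBz b G z i t.1)))

/-- replicas `A` and the last one of `n+3` replicas (skip replica `n+1`). -/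
def _root_.Crest.SG.skip {X : Type} {n : ℕ} (ω : Fin (n + 3) → X) : Fin (n + 2) → X :=
  Fin.snoc (α := fun _ => X) (fun i : Fin (n + 1) => ω i.castSucc.castSucc) (ω (Fin.last (n + 2)))

/-- the functional of (GG) at level `z`, replica `i`. -/
def GGz (b : ℕ) {n : ℕ} (G : Fin (n + 2) → Feat) (z : ℕ) (i : Fin (n + 1)) (F : S.Obs (n + 1)) : ℝ :=
  S.EE (n + 1) (fun r t ω => F r t ω *
      (if z ≤ ov S.R (n + 1) t i.castSucc (Fin.last (n + 1)) then 1 else 0) * S.KK b G r ω) -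
  ((n : ℝ) + 2) * S.EE (n + 2) (fun r t ω => F r t.1 (fun l => ω l.castSucc) *
      (if z ≤ ov S.R (n + 2) t i.castSucc.castSucc (Fin.last (n + 2)) then 1 else 0) *
        S.KK b G r (skip ω)) +
  ((n : ℝ) + 1) * S.EE (n + 1) (fun r t ω => F r t ω * S.ER n t.1 (S.KBz b G z i t.1))

/-- average over tree and new position of the variance of the conditional mean. -/
def V2 (b : ℕ) {n : ℕ} (G : Fin (n + 2) → Feat) : ℝ :=
  ∑ t : Tree S.R n, wt S.m S.R n t * ∑ par : Fin (n + 1), ∑ j : Fin S.R,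
    (1 / ((n : ℝ) + 1)) * (1 / (S.R : ℝ)) *
      S.Var n t (fun r ω => S.krs b G (max (j : ℕ) (age S.R n t par)) r ω (ω par))

/-- overlap-type average `R_C = (1/k) ∑_v ∏_{l∈C} σ_v^l`. -/
def RC {n : ℕ} (C : Finset (Fin (n + 1))) (r : S.Root) (ω : Fin (n + 1) → S.Om) : ℝ :=
  (1 / (S.k : ℝ)) * ∑ v : Fin S.k, ∏ l ∈ C, spinVal ((ω l).2 v)

end Sys

/-- Hypotheses on a sequence of slot systems. -/
structure LTH (Sy : ℕ → Sys) (code : ℕ → TC) (η : ℕ → ℝ) : Prop where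
  code_lt : ∀ b, tnorm (code b) < 1 / 4
  code_surj : ∀ c, tnorm c < 1 / 4 → ∃ b, code b = c
  R_eq : ∀ s, (Sy s).R = 2 ^ (s + 1)
  L_top : Filter.Tendsto (fun s => ((Sy s).L : ℝ)) Filter.atTop Filter.atTop
  N_top : ∀ n, ∀ᶠ s in Filter.atTop, n < (Sy s).N
  q_top : ∀ b, ∀ᶠ s in Filter.atTop, b < (Sy s).q
  lev_ex : ∀ (d i : ℕ), 0 < i → i < 2 ^ d → ∀ A : Finset ℕ, ∃ n, n ∉ A ∧
    ∀ᶠ s in Filter.atTop, (Sy s).lev n = i * 2 ^ (s + 1 - d)
  W_close : ∀ s b σ l, |(Sy s).W b σ l - (1 + tval (code b) σ l)| ≤ η s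
  η_zero : Filter.Tendsto η Filter.atTop (nhds 0)
  det1 : ∀ b (g : Feat), Filter.Tendsto (fun s => (Sy s).Dvar b 0 (fun _ => g)) Filter.atTop (nhds 0)

/-- uniformly negligible functionals of admissible observables. -/
def Negl (Sy : ℕ → Sys) (n : ℕ) (Θ : ∀ s, (Sy s).Obs n → ℝ) : Prop :=
  ∀ B : ℝ, 0 < B → ∀ ε : ℝ, 0 < ε → ∀ᶠ s in Filter.atTop, ∀ F : (Sy s).Obs n,
    (Sy s).Adm n B F → |Θ s F| ≤ ε

end Crest.SG
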