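import Crest.Agent.SG_CDefs
import Crest.Agent.SG_A6

/-! # SG_C1 : calculus of `log T_0` along a perturbation of one species (task SG-C1)

`W_b` is replaced by `W_b + y g` (`g` a feature) for the species `b`. `φ_r(y) = lTy`.
`φ' = E_{PL_y}[U_y]`, `U_y = ∑_{c of species b} g/(W_b + y g)` (hasDerivAt_LT0);
`φ'' = En_0[∂U] + En_0[U U] - En_1[U(ω_0)U(ω_1)]` (hasDerivAt_En, n = 0), and
`En_0[U²] - En_1[U(ω_0) U(ω_1)] = ∑_{j=1}^R m_j E(Y_j - Y_{j-1})²`, `Y_j = E_j U`, which is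
`≥ 0` and `≥ (1/R) Var(U)` at `y = 0`; `|∂U| ≤ 16 L` for `|y| ≤ 1/4`, `≤ 4 L` at `y = 0`. -/

set_option autoImplicit false
noncomputable section
open scoped BigOperators
open Classical
open Crest.ProbabilityR.Diluted
namespace Crest.SG

/-! ### general facts -/

section C1gen
variable {R : ℕ} {Ω : Type} [Fintype Ω] (S : Lev R Ω) {m : ℕ → ℝ} {P : Ω → ℝ}

private def C1t0 (R : ℕ) : Tree R 0 := ()

private theorem C1_En_zero (F : Tree R 0 → (Fin (0 + 1) → Ω) → ℝ) :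
    En S m P 0 F = ∑ ω, P ω * F (C1t0 R) (fun _ => ω) := by
  have h1 : En S m P 0 F = ∑ t : Unit, (1 : ℝ) * ∑ ω, P ω * F t (fun _ => ω) := rfl
  rw [h1]
  simp
  rfl

private theorem C1_Del_sum (E : Expo R m) : ∑ j : Fin R, Del m j = 1 := by
  rw [← Finset.sum_range (fun j => Del m j)]
  unfold Del
  rw [Finset.sum_range_sub, E.one, E.zero, sub_zero]

private theorem C1_Del_nonneg (E : Expo R m) (j : Fin R) : 0 ≤ Del m j :=
  sub_nonneg.2 (E.lt j j.2).le

/-- two replicas -/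
private theorem C1_En_one (hP : PathLaw P) (U : Ω → ℝ) :
    En S m P 1 (fun _ ω => U (ω 0) * U (ω (Fin.last 1))) =
      ∑ j : Fin R, Del m j * ex P (fun ω => (ce S P j U ω) ^ 2) := by
  rw [En_succ, C1_En_zero]
  have h1 : ∀ j : Fin R, ex P (fun ω => (ce S P j U ω) ^ 2) =
      ∑ ω, P ω * (U ω * ce S P j U ω) := by
    intro j
    have h2 := ex_mul_ce S hP j U U
    unfold ex at h2 ⊢
    rw [h2]
    exact Finset.sum_congr rfl fun ω _ => by ring
  have h5 : ∀ (t : Tree R 0) (i : Fin (0 + 1)) (j : Fin R),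
      max (j : ℕ) (age R 0 t i) = (j : ℕ) := by
    intro t i j
    exact max_eq_left (Nat.zero_le _)
  have h7 : ∀ ω : Ω, (∑ par : Fin (0 + 1), ∑ j : Fin R,
      (1 / (((0 : ℕ) : ℝ) + 1)) * Del m j * ce S P (max (j : ℕ) (age R 0 (C1t0 R) par))
        (fun ω' => U (Fin.snoc (α := fun _ => Ω) (fun _ : Fin (0 + 1) => ω) ω' 0) *
          U (Fin.snoc (α := fun _ => Ω) (fun _ : Fin (0 + 1) => ω) ω' (Fin.last 1))) ω) =
      ∑ j : Fin R, Del m j * (U ω * ce S P j U ω) := by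
    intro ω
    rw [Fin.sum_univ_castSucc]
    simp only [Finset.univ_eq_empty, Finset.sum_empty, zero_add]
    refine Finset.sum_congr rfl fun j _ => ?_
    have h3 : ∀ ω' : Ω, U (Fin.snoc (α := fun _ => Ω) (fun _ : Fin (0 + 1) => ω) ω' 0) *
        U (Fin.snoc (α := fun _ => Ω) (fun _ : Fin (0 + 1) => ω) ω' (Fin.last 1)) =
        U ω * U ω' := by
      intro ω'
      rw [Fin.snoc_last]
      rfl
    rw [h5, ce_congr S h3, ce_const_mul]
    norm_num
  have h8 : ∀ ω : Ω, P ω * (∑ par : Fin (0 + 1), ∑ j : Fin R,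
      (1 / (((0 : ℕ) : ℝ) + 1)) * Del m j * ce S P (max (j : ℕ) (age R 0 (C1t0 R) par))
        (fun ω' => U (Fin.snoc (α := fun _ => Ω) (fun _ : Fin (0 + 1) => ω) ω' 0) *
          U (Fin.snoc (α := fun _ => Ω) (fun _ : Fin (0 + 1) => ω) ω' (Fin.last 1))) ω) =
      ∑ j : Fin R, Del m j * (P ω * (U ω * ce S P j U ω)) := by
    intro ω
    rw [h7, Finset.mul_sum]
    exact Finset.sum_congr rfl fun j _ => by ring
  refine (Finset.sum_congr rfl fun ω _ => h8 ω).trans ?_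
  rw [Finset.sum_comm]
  refine Finset.sum_congr rfl fun j _ => ?_
  rw [h1, Finset.mul_sum]

private theorem C1_ce_sq_le (hP : PathLaw P) (j : ℕ) (U : Ω → ℝ) :
    ex P (fun ω => (ce S P j U ω) ^ 2) ≤ ex P (fun ω => (U ω) ^ 2) := by
  rw [← ex_ce S hP j (fun ω => (U ω) ^ 2)]
  unfold ex
  exact Finset.sum_le_sum fun ω _ =>
    mul_le_mul_of_nonneg_left (ce_sq_le S hP j U ω) (hP.pos ω).le

private theorem C1_var_le (E : Expo R m) (hP : PathLaw P) (U : Ω → ℝ) :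
    En S m P 1 (fun _ ω => U (ω 0) * U (ω (Fin.last 1))) ≤ ex P (fun ω => (U ω) ^ 2) := by
  rw [C1_En_one S hP]
  calc ∑ j : Fin R, Del m j * ex P (fun ω => (ce S P j U ω) ^ 2)
      ≤ ∑ j : Fin R, Del m j * ex P (fun ω => (U ω) ^ 2) :=
        Finset.sum_le_sum fun j _ => mul_le_mul_of_nonneg_left (C1_ce_sq_le S hP j U)
          (C1_Del_nonneg E j)
    _ = _ := by rw [← Finset.sum_mul, C1_Del_sum E, one_mul]

private theorem C1_var_le' (E : Expo R m) (hP : PathLaw P) (U : Ω → ℝ) (hR : 0 < R) :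
    En S m P 1 (fun _ ω => U (ω 0) * U (ω (Fin.last 1))) ≤
      ex P (fun ω => (U ω) ^ 2) - Del m 0 * (ex P (fun ω => (U ω) ^ 2) - (ex P U) ^ 2) := by
  rw [C1_En_one S hP]
  set j0 : Fin R := ⟨0, hR⟩ with hj0
  have h0 : ex P (fun ω => (ce S P (j0 : ℕ) U ω) ^ 2) = (ex P U) ^ 2 := by
    have h1 : ∀ ω, ce S P (j0 : ℕ) U ω = ex P U := fun ω => ce_zero S hP U ω
    simp only [h1]
    unfold ex
    rw [← Finset.sum_mul, hP.sum, one_mul]
  have h2 := C1_Del_sum E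
  rw [← Finset.add_sum_erase _ _ (Finset.mem_univ j0)] at h2 ⊢
  rw [h0]
  have h3 : ∑ j ∈ Finset.univ.erase j0, Del m j * ex P (fun ω => (ce S P j U ω) ^ 2) ≤
      (∑ j ∈ Finset.univ.erase j0, Del m (j : ℕ)) * ex P (fun ω => (U ω) ^ 2) := by
    rw [Finset.sum_mul]
    exact Finset.sum_le_sum fun j _ => mul_le_mul_of_nonneg_left (C1_ce_sq_le S hP j U)
          (C1_Del_nonneg E j)
  have h4 : (∑ j ∈ Finset.univ.erase j0, Del m (j : ℕ)) = 1 - Del m 0 := by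
    have h5 : Del m (j0 : ℕ) = Del m 0 := rfl
    rw [h5] at h2
    linarith
  rw [h4] at h3
  have h6 : Del m (j0 : ℕ) = Del m 0 := rfl
  rw [h6]
  linarith

variable {κ : Type} [Fintype κ]

/-- the family of weights -/
private def C1W (W0 : Ω → ℝ) (x : κ → Ω → ℝ) (y : ℝ) (ω : Ω) : ℝ :=
  W0 ω * ∏ c, (1 + y * x c ω)

private def C1U (x : κ → Ω → ℝ) (y : ℝ) (ω : Ω) : ℝ := ∑ c, x c ω / (1 + y * x c ω)

private theorem C1_fac {x y : ℝ} (hx : |x| ≤ 2) (hy : |y| ≤ 1 / 4) : 1 / 2 ≤ 1 + y * x := by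
  have h : |y * x| ≤ 1 / 4 * 2 := by
    rw [abs_mul]
    exact mul_le_mul hy hx (abs_nonneg _) (by norm_num)
  have := (abs_le.1 h).1
  linarith

private theorem C1W_pos {W0 : Ω → ℝ} {x : κ → Ω → ℝ} (hW : ∀ ω, 0 < W0 ω)
    (hx : ∀ c ω, |x c ω| ≤ 2) {y : ℝ} (hy : |y| ≤ 1 / 4) (ω : Ω) : 0 < C1W W0 x y ω :=
  mul_pos (hW ω) (Finset.prod_pos fun c _ => by
    have := C1_fac (hx c ω) hy
    linarith)

private theorem C1_prod_deriv (s : Finset κ) (x : κ → ℝ) (y : ℝ)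
    (h : ∀ c, 1 + y * x c ≠ 0) :
    HasDerivAt (fun y => ∏ c ∈ s, (1 + y * x c))
      ((∏ c ∈ s, (1 + y * x c)) * ∑ c ∈ s, x c / (1 + y * x c)) y := by
  induction s using Finset.induction_on with
  | empty => simpa using hasDerivAt_const y (1 : ℝ)
  | insert a s ha ih =>
    simp only [Finset.prod_insert ha, Finset.sum_insert ha]
    have h1 : HasDerivAt (fun y => 1 + y * x a) (x a) y := by
      have := ((hasDerivAt_id y).mul_const (x a)).const_add 1
      simpa using this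
    refine (h1.mul ih).congr_deriv ?_
    have h2 := h a
    have h3 : x a = (1 + y * x a) * (x a / (1 + y * x a)) := by
      rw [mul_div_cancel₀ _ h2]
    calc x a * (∏ c ∈ s, (1 + y * x c)) + (1 + y * x a) *
          ((∏ c ∈ s, (1 + y * x c)) * ∑ c ∈ s, x c / (1 + y * x c)) =
        ((1 + y * x a) * (x a / (1 + y * x a))) * (∏ c ∈ s, (1 + y * x c)) + (1 + y * x a) *
          ((∏ c ∈ s, (1 + y * x c)) * ∑ c ∈ s, x c / (1 + y * x c)) := by rw [← h3]
      _ = _ := by ring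

private theorem C1W_deriv {W0 : Ω → ℝ} {x : κ → Ω → ℝ}
    (hx : ∀ c ω, |x c ω| ≤ 2) {y : ℝ} (hy : |y| ≤ 1 / 4) (ω : Ω) :
    HasDerivAt (fun y => C1W W0 x y ω) (C1W W0 x y ω * C1U x y ω) y := by
  have h := (C1_prod_deriv Finset.univ (fun c => x c ω) y (fun c => by
    have := C1_fac (hx c ω) hy
    linarith)).const_mul (W0 ω)
  refine h.congr_deriv ?_
  unfold C1W C1U
  ring

private theorem C1U_deriv {x : κ → Ω → ℝ}
    (hx : ∀ c ω, |x c ω| ≤ 2) {y : ℝ} (hy : |y| ≤ 1 / 4) (ω : Ω) :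
    HasDerivAt (fun y => C1U x y ω) (-∑ c, (x c ω / (1 + y * x c ω)) ^ 2) y := by
  unfold C1U
  rw [← Finset.sum_neg_distrib]
  refine HasDerivAt.fun_sum fun c _ => ?_
  have h0 := C1_fac (hx c ω) hy
  have hne : 1 + y * x c ω ≠ 0 := by linarith
  have h1 : HasDerivAt (fun y => 1 + y * x c ω) (x c ω) y := by
    have := ((hasDerivAt_id y).mul_const (x c ω)).const_add 1
    simpa using this
  refine ((hasDerivAt_const y (x c ω)).div h1 hne).congr_deriv ?_
  field_simp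
  ring

private theorem C1_first (E : Expo R m) (hP : PathLaw P) {W0 : Ω → ℝ} {x : κ → Ω → ℝ}
    (hW : ∀ ω, 0 < W0 ω) (hx : ∀ c ω, |x c ω| ≤ 2) {y : ℝ} (hy : |y| ≤ 1 / 4) :
    HasDerivAt (fun y => LT0 S m P (C1W W0 x y))
      (ex (tilt S m P (C1W W0 x y)) (C1U x y)) y := by
  refine (hasDerivAt_LT0 S E hP (C1W_pos hW hx hy) (C1W_deriv hx hy)).congr_deriv ?_
  congr 1
  funext ω
  rw [mul_div_cancel_left₀ _ (C1W_pos hW hx hy ω).ne']

/-- second derivative -/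
private def C1d2 (S : Lev R Ω) (m : ℕ → ℝ) (P W0 : Ω → ℝ) (x : κ → Ω → ℝ) (y : ℝ) : ℝ :=
  ex (tilt S m P (C1W W0 x y)) (fun ω => -∑ c, (x c ω / (1 + y * x c ω)) ^ 2) +
    (ex (tilt S m P (C1W W0 x y)) (fun ω => (C1U x y ω) ^ 2) -
      En S m (tilt S m P (C1W W0 x y)) 1
        (fun _ ω => C1U x y (ω 0) * C1U x y (ω (Fin.last 1))))

private theorem C1_second (E : Expo R m) (hP : PathLaw P) {W0 : Ω → ℝ} {x : κ → Ω → ℝ}
    (hW : ∀ ω, 0 < W0 ω) (hx : ∀ c ω, |x c ω| ≤ 2) {y : ℝ} (hy : |y| ≤ 1 / 4) :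
    HasDerivAt (fun y => ex (tilt S m P (C1W W0 x y)) (C1U x y))
      (C1d2 S m P W0 x y) y := by
  have hfun : (fun y => ex (tilt S m P (C1W W0 x y)) (C1U x y)) =
      fun y => En S m (tilt S m P (C1W W0 x y)) 0 (fun _ ω => C1U x y (ω 0)) := by
    funext y
    rw [C1_En_zero]
    rfl
  rw [hfun]
  have h := hasDerivAt_En S E hP (C1W_pos hW hx hy) (C1W_deriv hx hy) (n := 0)
    (F := fun y _ ω => C1U x y (ω 0))
    (F' := fun _ ω => -∑ c, (x c (ω 0) / (1 + y * x c (ω 0))) ^ 2)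
    (fun _ ω => C1U_deriv hx hy (ω 0))
  refine h.congr_deriv ?_
  have hc : ∀ ω, C1W W0 x y ω * C1U x y ω / C1W W0 x y ω = C1U x y ω := fun ω =>
    mul_div_cancel_left₀ _ (C1W_pos hW hx hy ω).ne'
  simp only [hc]
  unfold C1d2
  rw [C1_En_zero, C1_En_zero]
  have e1 : ∀ ω : Ω, C1U x y ω * ∑ l : Fin (0 + 1), C1U x y ω = (C1U x y ω) ^ 2 := by
    intro ω
    simp
    ring
  simp only [e1]
  have e2 : En S m (tilt S m P (C1W W0 x y)) (0 + 1)
      (fun t ω => lift1 (fun (_ : Tree R 0) (ω : Fin (0 + 1) → Ω) => C1U x y (ω 0)) t ω *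
        C1U x y (ω (Fin.last (0 + 1)))) =
      En S m (tilt S m P (C1W W0 x y)) 1
        (fun _ ω => C1U x y (ω 0) * C1U x y (ω (Fin.last 1))) := rfl
  rw [e2]
  simp only [ex]
  push_cast
  ring

private theorem C1_d2_ge (E : Expo R m) (hP : PathLaw P) {W0 : Ω → ℝ} {x : κ → Ω → ℝ}
    (hW : ∀ ω, 0 < W0 ω) (hx : ∀ c ω, |x c ω| ≤ 2) {y : ℝ} (hy : |y| ≤ 1 / 4) :
    -(16 * (Fintype.card κ : ℝ)) ≤ C1d2 S m P W0 x y := by
  have hQ := tilt_pathLaw S E hP (C1W_pos hW hx hy)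
  have h1 := C1_var_le S E hQ (C1U x y)
  have h2 : -(16 * (Fintype.card κ : ℝ)) ≤
      ex (tilt S m P (C1W W0 x y)) (fun ω => -∑ c, (x c ω / (1 + y * x c ω)) ^ 2) := by
    have h3 : ∀ ω, -(16 * (Fintype.card κ : ℝ)) ≤ -∑ c, (x c ω / (1 + y * x c ω)) ^ 2 := by
      intro ω
      rw [neg_le_neg_iff]
      calc ∑ c, (x c ω / (1 + y * x c ω)) ^ 2 ≤ ∑ c : κ, (16 : ℝ) := by
            refine Finset.sum_le_sum fun c _ => ?_
            have h0 := C1_fac (hx c ω) hy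
            have hp : 0 < 1 + y * x c ω := by linarith
            have h4 : |x c ω / (1 + y * x c ω)| ≤ 4 := by
              rw [abs_div, abs_of_pos hp, div_le_iff₀ hp]
              have := hx c ω
              linarith
            rw [← sq_abs]
            nlinarith [abs_nonneg (x c ω / (1 + y * x c ω))]
        _ = 16 * (Fintype.card κ : ℝ) := by
            rw [Finset.sum_const, Finset.card_univ, nsmul_eq_mul, mul_comm]
    unfold ex
    calc -(16 * (Fintype.card κ : ℝ)) =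
        ∑ ω, tilt S m P (C1W W0 x y) ω * -(16 * (Fintype.card κ : ℝ)) := by
          rw [← Finset.sum_mul, hQ.sum, one_mul]
      _ ≤ _ := Finset.sum_le_sum fun ω _ => mul_le_mul_of_nonneg_left (h3 ω) (hQ.pos ω).le
  unfold C1d2
  linarith

private theorem C1_d2_zero (E : Expo R m) (hP : PathLaw P) {W0 : Ω → ℝ} {x : κ → Ω → ℝ}
    (hW : ∀ ω, 0 < W0 ω) (hx : ∀ c ω, |x c ω| ≤ 2) (hR : 0 < R) :
    Del m 0 * (ex (tilt S m P W0) (fun ω => (∑ c, x c ω) ^ 2) -
      (ex (tilt S m P W0) (fun ω => ∑ c, x c ω)) ^ 2) - 4 * (Fintype.card κ : ℝ) ≤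
      C1d2 S m P W0 x 0 := by
  have hQ := tilt_pathLaw S E hP hW
  have hW0 : C1W W0 x 0 = W0 := by funext ω; simp [C1W]
  have hU0 : C1U x 0 = fun ω => ∑ c, x c ω := by funext ω; simp [C1U]
  unfold C1d2
  rw [hW0, hU0]
  have h1 := C1_var_le' S E hQ (fun ω => ∑ c, x c ω) hR
  have h2 : -(4 * (Fintype.card κ : ℝ)) ≤
      ex (tilt S m P W0) (fun ω => -∑ c, (x c ω / (1 + 0 * x c ω)) ^ 2) := by
    have h3 : ∀ ω, -(4 * (Fintype.card κ : ℝ)) ≤ -∑ c, (x c ω / (1 + 0 * x c ω)) ^ 2 := by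
      intro ω
      rw [neg_le_neg_iff]
      calc ∑ c, (x c ω / (1 + 0 * x c ω)) ^ 2 ≤ ∑ c : κ, (4 : ℝ) := by
            refine Finset.sum_le_sum fun c _ => ?_
            rw [zero_mul, add_zero, div_one, ← sq_abs]
            nlinarith [abs_nonneg (x c ω), hx c ω]
        _ = 4 * (Fintype.card κ : ℝ) := by
            rw [Finset.sum_const, Finset.card_univ, nsmul_eq_mul, mul_comm]
    unfold ex
    calc -(4 * (Fintype.card κ : ℝ)) =
        ∑ ω, tilt S m P W0 ω * -(4 * (Fintype.card κ : ℝ)) := by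
          rw [← Finset.sum_mul, hQ.sum, one_mul]
      _ ≤ _ := Finset.sum_le_sum fun ω _ => mul_le_mul_of_nonneg_left (h3 ω) (hQ.pos ω).le
  linarith

end C1gen

/-- symmetric second difference quotient -/
private theorem C1_symm {f p : ℝ → ℝ} {d : ℝ} (hf : ∀ y, |y| ≤ 1 / 4 → HasDerivAt f (p y) y)
    (hp : HasDerivAt p d 0) :
    Filter.Tendsto (fun δ : ℝ => (f δ + f (-δ) - 2 * f 0) / δ ^ 2)
      (nhdsWithin 0 (Set.Ioi 0)) (nhds d) := by
  have hev : ∀ᶠ y in nhdsWithin (0 : ℝ) (Set.Ioi 0), |y| ≤ 1 / 4 ∧ 0 < y := by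
    have h1 : ∀ᶠ y in nhdsWithin (0 : ℝ) (Set.Ioi 0), y ∈ Set.Ioi (0 : ℝ) :=
      eventually_mem_nhdsWithin
    have h2 : ∀ᶠ y in nhdsWithin (0 : ℝ) (Set.Ioi 0), y < 1 / 4 :=
      nhdsWithin_le_nhds (gt_mem_nhds (by norm_num))
    filter_upwards [h1, h2] with y hy1 hy2
    have hy1' : 0 < y := hy1
    exact ⟨by rw [abs_of_pos hy1']; exact hy2.le, hy1'⟩
  refine HasDerivAt.lhopital_zero_nhdsGT (f' := fun δ => p δ - p (-δ)) (g' := fun δ => 2 * δ)
    ?_ ?_ ?_ ?_ ?_ ?_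
  · filter_upwards [hev] with y hy
    have h1 := hf y hy.1
    have h2 : HasDerivAt (fun y => f (-y)) (-p (-y)) y := by
      have := (hf (-y) (by rw [abs_neg]; exact hy.1)).comp y (hasDerivAt_neg y)
      rw [mul_neg_one] at this
      exact this
    have h3 := (h1.add h2).sub_const (2 * f 0)
    simpa [sub_eq_add_neg] using h3
  · refine Filter.Eventually.of_forall fun y => ?_
    have := hasDerivAt_pow 2 y
    simpa using this
  · filter_upwards [hev] with y hy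
    have := hy.2
    positivity
  · have hc : ContinuousAt (fun δ => f δ + f (-δ) - 2 * f 0) 0 := by
      have h0 : ContinuousAt f 0 := (hf 0 (by norm_num)).continuousAt
      have h1 : ContinuousAt (fun δ => f (-δ)) 0 := by
        have h2 : ContinuousAt f (-0) := by rw [neg_zero]; exact h0
        exact ContinuousAt.comp (g := f) (f := fun δ : ℝ => -δ) h2 continuousAt_neg
      exact (h0.add h1).sub continuousAt_const
    have h3 := hc.tendsto
    simp only [neg_zero] at h3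
    have h4 : f 0 + f 0 - 2 * f 0 = 0 := by ring
    rw [h4] at h3
    exact h3.mono_left nhdsWithin_le_nhds
  · have hc : ContinuousAt (fun δ : ℝ => δ ^ 2) 0 := by fun_prop
    have h3 := hc.tendsto
    have h4 : (0 : ℝ) ^ 2 = 0 := by norm_num
    rw [h4] at h3
    exact h3.mono_left nhdsWithin_le_nhds
  · have hs := hasDerivAt_iff_tendsto_slope.1 hp
    have ha : Filter.Tendsto (fun δ => slope p 0 δ) (nhdsWithin (0 : ℝ) (Set.Ioi 0)) (nhds d) :=
      hs.mono_left (nhdsWithin_mono _ fun y hy => (ne_of_gt hy))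
    have hb : Filter.Tendsto (fun δ => slope p 0 (-δ)) (nhdsWithin (0 : ℝ) (Set.Ioi 0))
        (nhds d) := by
      refine hs.comp ?_
      refine tendsto_nhdsWithin_iff.2 ⟨?_, ?_⟩
      · have : Filter.Tendsto (fun δ : ℝ => -δ) (nhds 0) (nhds (-0)) := continuousAt_neg
        rw [neg_zero] at this
        exact this.mono_left nhdsWithin_le_nhds
      · filter_upwards [hev] with y hy
        have := hy.2
        simp only [Set.mem_compl_iff, Set.mem_singleton_iff, neg_eq_zero]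
        exact this.ne'
    have hab := (ha.add hb).div_const 2
    have h2 : (d + d) / 2 = d := by ring
    rw [h2] at hab
    refine hab.congr' ?_
    filter_upwards [hev] with y hy
    have hy0 : y ≠ 0 := hy.2.ne'
    simp only [slope_def_field, sub_zero]
    rw [div_neg]
    field_simp
    ring

namespace Sys

variable (S : Sys)

/-- weight with `W_b` replaced by `W_b + y g`. -/
def swy (b : ℕ) (g : Feat) (y : ℝ) (r : S.Root) (ω : S.Om) : ℝ :=
  S.sw r ω * ∏ c, if S.isM (r.2 c).1 b then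
    1 + y * (S.at1 (fun σ l => fval g σ l / S.W b σ l) r c ω) else 1

/-- `log T_0` with the perturbed weight. -/
def lTy (b : ℕ) (g : Feat) (y : ℝ) (r : S.Root) : ℝ := LT0 S.lv S.m (unif S.Om) (S.swy b g y r)

/-- `U = ∑_{c of species b} g/W_b`. -/
def UU (b : ℕ) (g : Feat) (r : S.Root) (ω : S.Om) : ℝ :=
  ∑ c, if S.isM (r.2 c).1 b then S.at1 (fun σ l => fval g σ l / S.W b σ l) r c ω else 0

/-- the slot functions -/
private def C1x (b : ℕ) (g : Feat) (r : S.Root) (c : Fin S.L) (ω : S.Om) : ℝ :=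
  if S.isM (r.2 c).1 b then S.at1 (fun σ l => fval g σ l / S.W b σ l) r c ω else 0

private theorem C1x_le (b : ℕ) (g : Feat) (r : S.Root) (c : Fin S.L) (ω : S.Om) :
    |S.C1x b g r c ω| ≤ 2 := by
  unfold C1x
  split_ifs
  · unfold at1
    have h := S.W_lo b (ω.2 (r.2 c).2) (S.ext (ω.1 c))
    have hp : 0 < S.W b (ω.2 (r.2 c).2) (S.ext (ω.1 c)) := by linarith
    rw [abs_div, abs_fval, abs_of_pos hp, div_le_iff₀ hp]
    linarith
  · simp

private theorem swy_eq (b : ℕ) (g : Feat) (y : ℝ) (r : S.Root) :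
    S.swy b g y r = C1W (S.sw r) (S.C1x b g r) y := by
  funext ω
  unfold swy C1W
  congr 1
  refine Finset.prod_congr rfl fun c _ => ?_
  unfold C1x
  split_ifs
  · rfl
  · ring

private theorem lTy_fun_eq (b : ℕ) (g : Feat) (r : S.Root) :
    (fun y => S.lTy b g y r) =
      fun y => LT0 S.lv S.m (unif S.Om) (C1W (S.sw r) (S.C1x b g r) y) := by
  funext y
  unfold lTy
  rw [swy_eq]

private theorem C1_card : (Fintype.card (Fin S.L) : ℝ) = S.L := by
  rw [Fintype.card_fin]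

theorem lTy_zero (b : ℕ) (g : Feat) (r : S.Root) : S.lTy b g 0 r = S.lT r := by
  unfold lTy lT
  congr 1
  funext ω
  simp [swy]

/-- `φ_r + 8 L y²` is convex on `[-1/4, 1/4]`. -/
theorem lTy_convex (b : ℕ) (g : Feat) (r : S.Root) :
    ConvexOn ℝ (Set.Icc (-1 / 4 : ℝ) (1 / 4)) (fun y => S.lTy b g y r + 8 * S.L * y ^ 2) := by
  have hU : PathLaw (unif S.Om) := unif_law S.Om
  have hIcc : ∀ y ∈ Set.Icc (-1 / 4 : ℝ) (1 / 4), |y| ≤ 1 / 4 := by
    intro y hy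
    rw [abs_le]
    exact ⟨by linarith [hy.1], hy.2⟩
  have hfun : (fun y => S.lTy b g y r + 8 * S.L * y ^ 2) = fun y =>
      LT0 S.lv S.m (unif S.Om) (C1W (S.sw r) (S.C1x b g r) y) + 8 * S.L * y ^ 2 := by
    funext y
    rw [congrFun (S.lTy_fun_eq b g r) y]
  rw [hfun]
  have hd1 : ∀ y ∈ Set.Icc (-1 / 4 : ℝ) (1 / 4), HasDerivAt (fun y =>
      LT0 S.lv S.m (unif S.Om) (C1W (S.sw r) (S.C1x b g r) y) + 8 * S.L * y ^ 2)
      (ex (tilt S.lv S.m (unif S.Om) (C1W (S.sw r) (S.C1x b g r) y)) (C1U (S.C1x b g r) y) +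
        16 * S.L * y) y := by
    intro y hy
    have h1 := C1_first S.lv S.expo hU (S.sw_pos r) (S.C1x_le b g r) (hIcc y hy)
    have h2 := (hasDerivAt_pow 2 y).const_mul (8 * (S.L : ℝ))
    refine (h1.add h2).congr_deriv ?_
    push_cast
    ring
  have hd2 : ∀ y ∈ Set.Icc (-1 / 4 : ℝ) (1 / 4), HasDerivAt (fun y =>
      ex (tilt S.lv S.m (unif S.Om) (C1W (S.sw r) (S.C1x b g r) y)) (C1U (S.C1x b g r) y) +
        16 * S.L * y)
      (C1d2 S.lv S.m (unif S.Om) (S.sw r) (S.C1x b g r) y + 16 * S.L) y := by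
    intro y hy
    have h1 := C1_second S.lv S.expo hU (S.sw_pos r) (S.C1x_le b g r) (hIcc y hy)
    have h2 := (hasDerivAt_id y).const_mul (16 * (S.L : ℝ))
    refine (h1.add h2).congr_deriv ?_
    ring
  refine convexOn_of_hasDerivWithinAt2_nonneg (convex_Icc _ _)
    (fun y hy => (hd1 y hy).continuousAt.continuousWithinAt)
    (f' := fun y => ex (tilt S.lv S.m (unif S.Om) (C1W (S.sw r) (S.C1x b g r) y))
      (C1U (S.C1x b g r) y) + 16 * S.L * y)
    (f'' := fun y => C1d2 S.lv S.m (unif S.Om) (S.sw r) (S.C1x b g r) y + 16 * S.L)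
    (fun y hy => (hd1 y (interior_subset hy)).hasDerivWithinAt)
    (fun y hy => (hd2 y (interior_subset hy)).hasDerivWithinAt) ?_
  intro y hy
  have h3 := C1_d2_ge S.lv S.expo hU (S.sw_pos r) (S.C1x_le b g r)
    (hIcc y (interior_subset hy))
  rw [C1_card] at h3
  linarith

theorem lTy_deriv (b : ℕ) (g : Feat) (r : S.Root) :
    HasDerivAt (fun y => S.lTy b g y r) (ex (S.PL r) (S.UU b g r)) 0 := by
  have hU : PathLaw (unif S.Om) := unif_law S.Om
  rw [lTy_fun_eq]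
  refine (C1_first S.lv S.expo hU (S.sw_pos r) (S.C1x_le b g r)
    (by norm_num : |(0 : ℝ)| ≤ 1 / 4)).congr_deriv ?_
  have hW0 : C1W (S.sw r) (S.C1x b g r) 0 = S.sw r := by funext ω; simp [C1W]
  have hU0 : C1U (S.C1x b g r) 0 = S.UU b g r := by
    funext ω
    simp [C1U, UU, C1x]
  rw [hW0, hU0]
  rfl

/-- second derivative at `0`. -/
theorem lTy_second (b : ℕ) (g : Feat) (r : S.Root) : ∃ d2 : ℝ,
    (1 / (S.R : ℝ)) * (ex (S.PL r) (fun ω => (S.UU b g r ω) ^ 2) - (ex (S.PL r) (S.UU b g r)) ^ 2) -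
      4 * S.L ≤ d2 ∧
    Filter.Tendsto (fun δ : ℝ => (S.lTy b g δ r + S.lTy b g (-δ) r - 2 * S.lTy b g 0 r) / δ ^ 2)
      (nhdsWithin 0 (Set.Ioi 0)) (nhds d2) := by
  have hU : PathLaw (unif S.Om) := unif_law S.Om
  refine ⟨C1d2 S.lv S.m (unif S.Om) (S.sw r) (S.C1x b g r) 0, ?_, ?_⟩
  · have h1 := C1_d2_zero S.lv S.expo hU (S.sw_pos r) (S.C1x_le b g r) S.R_pos
    rw [C1_card, S.Del_m] at h1
    exact h1
  · have h2 := C1_symm (f := fun y => S.lTy b g y r)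
      (p := fun y => ex (tilt S.lv S.m (unif S.Om) (C1W (S.sw r) (S.C1x b g r) y))
        (C1U (S.C1x b g r) y)) (fun y hy => by
          rw [lTy_fun_eq]
          exact C1_first S.lv S.expo hU (S.sw_pos r) (S.C1x_le b g r) hy)
      (C1_second S.lv S.expo hU (S.sw_pos r) (S.C1x_le b g r)
        (by norm_num : |(0 : ℝ)| ≤ 1 / 4))
    exact h2

theorem KK_eq_UU (b : ℕ) (g : Feat) (r : S.Root) (ω : Fin 1 → S.Om) :
    S.KK b (fun _ : Fin 1 => g) r ω = (2 ^ (b + 2) / (S.L : ℝ)) * S.UU b g r (ω 0) := by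
  unfold KK Khat UU
  congr 1
  refine Finset.sum_congr rfl fun c _ => ?_
  split_ifs
  · unfold sl PhiG at1
    simp
  · rfl

theorem abs_UU_le (b : ℕ) (g : Feat) (r : S.Root) (ω : S.Om) : |S.UU b g r ω| ≤ 2 * S.L := by
  have h : S.UU b g r ω = ∑ c, S.C1x b g r c ω := rfl
  rw [h]
  refine (Finset.abs_sum_le_sum_abs _ _).trans ?_
  calc ∑ c, |S.C1x b g r c ω| ≤ ∑ c : Fin S.L, (2 : ℝ) :=
        Finset.sum_le_sum fun c _ => S.C1x_le b g r c ω
    _ = 2 * S.L := by simp [mul_comm]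

end Sys
end Crest.SG
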