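import Crest.Agent.SG_CFam
import Crest.Agent.SG_C1

/-! # SG_C2 : variance over the root (tasks SG-C2a Efron–Stein, SG-C2b the core system) -/

set_option autoImplicit false
noncomputable section
open scoped BigOperators
open Classical
open Crest.ProbabilityR.Diluted Crest.Agent.SGG
namespace Crest.SG

/-- finite probability vector. -/
structure PV {A : Type} [Fintype A] (w : A → ℝ) : Prop where
  nonneg : ∀ a, 0 ≤ w a
  sum : ∑ a, w a = 1

/-- variance under a finite weight. -/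
def vr {A : Type} [Fintype A] (w : A → ℝ) (f : A → ℝ) : ℝ := ∑ a, w a * (f a - ∑ a', w a' * f a') ^ 2

theorem C2_nonempty {A : Type} [Fintype A] {w : A → ℝ} (hw : PV w) : Nonempty A := by
  by_contra h
  rw [not_nonempty_iff] at h
  have := hw.sum
  simp at this

theorem C2_PV_prod {A B : Type} [Fintype A] [Fintype B] {w : A → ℝ} {u : B → ℝ} (hw : PV w)
    (hu : PV u) : PV (fun x : A × B => w x.1 * u x.2) := by
  refine ⟨fun x => mul_nonneg (hw.nonneg _) (hu.nonneg _), ?_⟩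
  rw [Fintype.sum_prod_type]
  simp only [← Finset.mul_sum, hu.sum, mul_one, hw.sum]

theorem C2_PV_pi {A : Type} [Fintype A] {n : ℕ} {w : A → ℝ} (hw : PV w) :
    PV (fun x : Fin n → A => ∏ i, w (x i)) := by
  refine ⟨fun x => Finset.prod_nonneg fun i _ => hw.nonneg _, ?_⟩
  rw [← Fintype.piFinset_univ, ← Finset.prod_univ_sum]
  simp [hw.sum]

/-- bias-variance identity. -/
theorem C2_sq_eq {A : Type} [Fintype A] {w : A → ℝ} (hw : PV w) (f : A → ℝ) (c : ℝ) :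
    ∑ a, w a * (f a - c) ^ 2 = vr w f + (∑ a, w a * f a - c) ^ 2 := by
  unfold vr
  set m := ∑ a', w a' * f a' with hm
  have h1 : ∀ a, w a * (f a - c) ^ 2 = w a * (f a - m) ^ 2 + (2 * (m - c)) * (w a * f a)
      + (c ^ 2 - m ^ 2) * w a := by
    intro a; ring
  rw [Finset.sum_congr rfl fun a _ => h1 a, Finset.sum_add_distrib, Finset.sum_add_distrib,
    ← Finset.mul_sum, ← Finset.mul_sum, hw.sum, ← hm]
  ring

theorem C2_vr_nonneg {A : Type} [Fintype A] {w : A → ℝ} (hw : PV w) (f : A → ℝ) : 0 ≤ vr w f :=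
  Finset.sum_nonneg fun a _ => mul_nonneg (hw.nonneg a) (sq_nonneg _)

theorem vr_le_sq {A : Type} [Fintype A] {w : A → ℝ} (hw : PV w) (f : A → ℝ) (c : ℝ) :
    vr w f ≤ ∑ a, w a * (f a - c) ^ 2 := by
  rw [C2_sq_eq hw]
  nlinarith [sq_nonneg (∑ a, w a * f a - c)]

theorem C2_jensen {A : Type} [Fintype A] {w : A → ℝ} (hw : PV w) (f : A → ℝ) :
    (∑ a, w a * f a) ^ 2 ≤ ∑ a, w a * f a ^ 2 := by
  have h := C2_sq_eq hw f 0
  simp only [sub_zero] at h
  rw [h]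
  linarith [C2_vr_nonneg hw f]

/-- two factors. -/
theorem vr_prod {A B : Type} [Fintype A] [Fintype B] {w : A → ℝ} {u : B → ℝ} (hw : PV w)
    (hu : PV u) (f : A × B → ℝ) :
    vr (fun x : A × B => w x.1 * u x.2) f ≤
      ∑ b, u b * vr w (fun a => f (a, b)) + ∑ a, w a * vr u (fun b => f (a, b)) := by
  set mA : B → ℝ := fun b => ∑ a, w a * f (a, b) with hmA
  set mB : A → ℝ := fun a => ∑ b, u b * f (a, b) with hmB
  have hm1 : ∑ x : A × B, w x.1 * u x.2 * f x = ∑ a, w a * mB a := by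
    rw [Fintype.sum_prod_type]
    refine Finset.sum_congr rfl fun a _ => ?_
    rw [hmB]; simp only [Finset.mul_sum]
    exact Finset.sum_congr rfl fun b _ => by ring
  set m := ∑ a, w a * mB a with hm
  have e1 : vr (fun x : A × B => w x.1 * u x.2) f = ∑ b, u b * ∑ a, w a * (f (a, b) - m) ^ 2 := by
    unfold vr
    rw [hm1, Fintype.sum_prod_type_right]
    refine Finset.sum_congr rfl fun b _ => ?_
    rw [Finset.mul_sum]
    exact Finset.sum_congr rfl fun a _ => by ring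
  have e2 : ∀ b, ∑ a, w a * (f (a, b) - m) ^ 2 = vr w (fun a => f (a, b)) + (mA b - m) ^ 2 :=
    fun b => C2_sq_eq hw (fun a => f (a, b)) m
  have e3 : ∀ b, (mA b - m) ^ 2 ≤ ∑ a, w a * (f (a, b) - mB a) ^ 2 := by
    intro b
    have : mA b - m = ∑ a, w a * (f (a, b) - mB a) := by
      rw [hmA, hm, ← Finset.sum_sub_distrib]
      exact Finset.sum_congr rfl fun a _ => by ring
    rw [this]
    exact C2_jensen hw _
  have e4 : ∑ b, u b * ∑ a, w a * (f (a, b) - mB a) ^ 2 =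
      ∑ a, w a * vr u (fun b => f (a, b)) := by
    simp only [Finset.mul_sum, vr]
    rw [Finset.sum_comm]
    refine Finset.sum_congr rfl fun a _ => Finset.sum_congr rfl fun b _ => ?_
    rw [hmB]; ring
  rw [e1]
  calc ∑ b, u b * ∑ a, w a * (f (a, b) - m) ^ 2
      ≤ ∑ b, (u b * vr w (fun a => f (a, b)) + u b * ∑ a, w a * (f (a, b) - mB a) ^ 2) := by
        refine Finset.sum_le_sum fun b _ => ?_
        rw [e2 b, ← mul_add]
        exact mul_le_mul_of_nonneg_left (by linarith [e3 b]) (hu.nonneg b)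
    _ = _ := by rw [Finset.sum_add_distrib, e4]

theorem C2_vr_equiv {A B : Type} [Fintype A] [Fintype B] (e : A ≃ B) (w f : B → ℝ) :
    vr (fun a => w (e a)) (fun a => f (e a)) = vr w f := by
  unfold vr
  rw [← e.sum_comp, ← e.sum_comp (fun b => w b * f b)]

/-- oscillation bound. -/
theorem C2_vr_osc {A : Type} [Fintype A] {w : A → ℝ} (hw : PV w) (f : A → ℝ) {c : ℝ} (a0 : A)
    (h : ∀ a, |f a - f a0| ≤ c) : vr w f ≤ c ^ 2 := by
  refine (vr_le_sq hw f (f a0)).trans ?_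
  calc ∑ a, w a * (f a - f a0) ^ 2 ≤ ∑ a, w a * c ^ 2 := by
        refine Finset.sum_le_sum fun a _ => mul_le_mul_of_nonneg_left ?_ (hw.nonneg a)
        rw [← sq_abs (f a - f a0)]
        exact pow_le_pow_left₀ (abs_nonneg _) (h a) 2
    _ = c ^ 2 := by rw [← Finset.sum_mul, hw.sum, one_mul]

theorem C2_avg_le {A : Type} [Fintype A] {w : A → ℝ} (hw : PV w) {f : A → ℝ} {c : ℝ}
    (h : ∀ a, f a ≤ c) : ∑ a, w a * f a ≤ c := by
  calc ∑ a, w a * f a ≤ ∑ a, w a * c :=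
        Finset.sum_le_sum fun a _ => mul_le_mul_of_nonneg_left (h a) (hw.nonneg a)
    _ = c := by rw [← Finset.sum_mul, hw.sum, one_mul]

/-- Efron–Stein with deterministic oscillation bounds for independent coordinates. -/
theorem vr_pi {A : Type} [Fintype A] {w : A → ℝ} (hw : PV w) {n : ℕ} (f : (Fin n → A) → ℝ)
    (c : Fin n → ℝ) (hc : ∀ i x a, |f (Function.update x i a) - f x| ≤ c i) :
    vr (fun x : Fin n → A => ∏ i, w (x i)) f ≤ ∑ i, (c i) ^ 2 := by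
  induction n with
  | zero =>
    unfold vr
    simp
  | succ n ih =>
    obtain ⟨a0⟩ := C2_nonempty hw
    have hu : PV (fun x : Fin n → A => ∏ i, w (x i)) := C2_PV_pi hw
    have e := C2_vr_equiv (Fin.consEquiv (fun _ : Fin (n + 1) => A)) (fun x => ∏ i, w (x i)) f
    rw [← e]
    have e' : (fun a : A × (Fin n → A) =>
        ∏ i, w ((Fin.consEquiv (fun _ : Fin (n + 1) => A)) a i)) =
        fun a : A × (Fin n → A) => w a.1 * ∏ i, w (a.2 i) := by
      funext a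
      rw [Fin.prod_univ_succ]
      simp [Fin.consEquiv]
    rw [e']
    refine (vr_prod hw hu _).trans ?_
    rw [Fin.sum_univ_succ]
    refine add_le_add (C2_avg_le hu fun x => ?_) (C2_avg_le hw fun a => ?_)
    · refine C2_vr_osc hw _ a0 fun a => ?_
      have := hc 0 (Fin.cons a0 x) a
      rw [Fin.update_cons_zero] at this
      exact this
    · refine ih _ (fun i => c i.succ) fun i x a' => ?_
      have := hc i.succ (Fin.cons a x) a'
      rw [← Fin.cons_update] at this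
      exact this

/-- Lipschitz comparison of variances. -/
theorem C2_vr_lip {A : Type} [Fintype A] {w : A → ℝ} (hw : PV w) (f g : A → ℝ) {c : ℝ}
    (h : ∀ a a', |f a - f a'| ≤ c * |g a - g a'|) : vr w f ≤ c ^ 2 * vr w g := by
  have key : ∀ f : A → ℝ, ∑ a, w a * ∑ a', w a' * (f a - f a') ^ 2 = 2 * vr w f := by
    intro f
    have h1 : ∀ a, ∑ a', w a' * (f a - f a') ^ 2 = vr w f + (∑ a', w a' * f a' - f a) ^ 2 := by
      intro a
      rw [← C2_sq_eq hw f (f a)]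
      exact Finset.sum_congr rfl fun a' _ => by ring
    have h2 : ∀ a, w a * ∑ a', w a' * (f a - f a') ^ 2 =
        w a * vr w f + w a * (f a - ∑ a', w a' * f a') ^ 2 := by
      intro a; rw [h1 a]; ring
    rw [Finset.sum_congr rfl fun a _ => h2 a, Finset.sum_add_distrib, ← Finset.sum_mul, hw.sum,
      one_mul]
    change vr w f + vr w f = _
    ring
  have h3 : ∑ a, w a * ∑ a', w a' * (f a - f a') ^ 2 ≤
      c ^ 2 * ∑ a, w a * ∑ a', w a' * (g a - g a') ^ 2 := by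
    rw [Finset.mul_sum]
    refine Finset.sum_le_sum fun a _ => ?_
    have : c ^ 2 * (w a * ∑ a', w a' * (g a - g a') ^ 2) =
        w a * ∑ a', w a' * (c ^ 2 * (g a - g a') ^ 2) := by
      rw [mul_left_comm, Finset.mul_sum]
      congr 1
      exact Finset.sum_congr rfl fun a' _ => by ring
    rw [this]
    refine mul_le_mul_of_nonneg_left (Finset.sum_le_sum fun a' _ =>
      mul_le_mul_of_nonneg_left ?_ (hw.nonneg a')) (hw.nonneg a)
    rw [← sq_abs (f a - f a'), ← sq_abs (g a - g a'), ← mul_pow]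
    exact pow_le_pow_left₀ (abs_nonneg _) (h a a') 2
  rw [key, key] at h3
  linarith


/-! ### root variance of a slot system -/

theorem C2_PV_pr (S : Sys) : PV S.pr := ⟨S.pr_nonneg, S.pr_sum⟩

theorem C2_PV_slot (S : Sys) : PV (fun a : S.Slot => S.pm a.1 * (1 / (S.k : ℝ))) := by
  refine ⟨fun a => mul_nonneg (S.pm_nonneg _) (by positivity), ?_⟩
  have hk : (0 : ℝ) < S.k := by exact_mod_cast S.k_pos
  rw [Fintype.sum_prod_type]
  simp only [Finset.sum_const, Finset.card_univ, Fintype.card_fin, nsmul_eq_mul]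
  have : ∀ x : Option (Fin S.q), (S.k : ℝ) * (S.pm x * (1 / (S.k : ℝ))) = S.pm x := by
    intro x; field_simp
  simp only [this]
  exact S.pm_sum

theorem C2_slots (S : Sys) (f : S.Root → ℝ) {c V : ℝ}
    (h : ∀ ρ s i a, |f (ρ, Function.update s i a) - f (ρ, s)| ≤ c)
    (hV : ∀ s, vr S.pr (fun ρ => f (ρ, s)) ≤ V) : vr S.prR f ≤ V + S.L * c ^ 2 := by
  have hu : PV (fun s : Fin S.L → S.Slot => ∏ i, (S.pm (s i).1 * (1 / (S.k : ℝ)))) :=
    C2_PV_pi (C2_PV_slot S)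
  refine (vr_prod (C2_PV_pr S) hu f).trans ?_
  refine add_le_add (C2_avg_le hu hV) (C2_avg_le (C2_PV_pr S) fun ρ => ?_)
  refine (vr_pi (C2_PV_slot S) (fun s => f (ρ, s)) (fun _ => c) fun i s a => h ρ s i a).trans ?_
  simp

namespace Sys
variable (S : Sys)

/-- full factor of a slot in the perturbed weight. -/
def C2_sf (b : ℕ) (g : Feat) (y : ℝ) (a : S.Slot) (l : Fin S.N → Bool) (σ : Fin S.k → Bool) : ℝ :=
  S.slotW a l σ * (if S.isM a.1 b then
    1 + y * (fval g (σ a.2) (S.ext l) / S.W b (σ a.2) (S.ext l)) else 1)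

theorem C2_swy_eq (b : ℕ) (g : Feat) (y : ℝ) (r : S.Root) (ω : S.Om) :
    S.swy b g y r ω = S.base r.1 ω.2 * ∏ c, S.C2_sf b g y (r.2 c) (ω.1 c) ω.2 := by
  unfold swy sw C2_sf at1
  rw [Finset.prod_mul_distrib, mul_assoc]

theorem C2_sf_bd (b : ℕ) (g : Feat) {y : ℝ} (hy : |y| ≤ 1 / 4) (a : S.Slot) (l : Fin S.N → Bool)
    (σ : Fin S.k → Bool) : 1 / 4 ≤ S.C2_sf b g y a l σ ∧ S.C2_sf b g y a l σ ≤ 9 / 4 := by
  have h1 : 1 / 2 ≤ S.slotW a l σ ∧ S.slotW a l σ ≤ 3 / 2 := by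
    unfold slotW
    split
    · norm_num
    · exact ⟨S.W_lo _ _ _, S.W_hi _ _ _⟩
  have h2 : 1 / 2 ≤ (if S.isM a.1 b then
      1 + y * (fval g (σ a.2) (S.ext l) / S.W b (σ a.2) (S.ext l)) else 1) ∧
      (if S.isM a.1 b then
      1 + y * (fval g (σ a.2) (S.ext l) / S.W b (σ a.2) (S.ext l)) else 1) ≤ 3 / 2 := by
    split_ifs
    · have hW := S.W_lo b (σ a.2) (S.ext l)
      have h3 : |y * (fval g (σ a.2) (S.ext l) / S.W b (σ a.2) (S.ext l))| ≤ 1 / 2 := by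
        rw [abs_mul, abs_div, abs_fval, abs_of_pos (by linarith : (0 : ℝ) < S.W b (σ a.2) (S.ext l))]
        have h4 : 1 / S.W b (σ a.2) (S.ext l) ≤ 2 := by
          rw [div_le_iff₀ (by linarith)]; linarith
        have h5 : 0 ≤ 1 / S.W b (σ a.2) (S.ext l) := by positivity
        nlinarith [abs_nonneg y]
      have h6 := abs_le.1 h3
      constructor <;> linarith [h6.1, h6.2]
    · norm_num
  unfold C2_sf
  constructor
  · nlinarith [h1.1, h2.1]
  · nlinarith [h1.1, h1.2, h2.1, h2.2]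

theorem C2_sf_pos (b : ℕ) (g : Feat) {y : ℝ} (hy : |y| ≤ 1 / 4) (a : S.Slot) (l : Fin S.N → Bool)
    (σ : Fin S.k → Bool) : 0 < S.C2_sf b g y a l σ := by
  linarith [(S.C2_sf_bd b g hy a l σ).1]

theorem C2_log_sf (b : ℕ) (g : Feat) {y : ℝ} (hy : |y| ≤ 1 / 4) (a : S.Slot) (l : Fin S.N → Bool)
    (σ : Fin S.k → Bool) : |Real.log (S.C2_sf b g y a l σ)| ≤ 3 := by
  obtain ⟨h1, h2⟩ := S.C2_sf_bd b g hy a l σ
  have hpos := S.C2_sf_pos b g hy a l σ
  rw [abs_le]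
  constructor
  · have := Real.one_sub_inv_le_log_of_pos hpos
    have h3 : (S.C2_sf b g y a l σ)⁻¹ ≤ 4 := by
      rw [inv_le_comm₀ hpos (by norm_num)]; linarith
    linarith
  · have := Real.log_le_sub_one_of_pos hpos
    linarith

theorem C2_swy_pos (b : ℕ) (g : Feat) {y : ℝ} (hy : |y| ≤ 1 / 4) (r : S.Root) (ω : S.Om) :
    0 < S.swy b g y r ω := by
  rw [C2_swy_eq]
  exact mul_pos (S.base_pos _ _) (Finset.prod_pos fun c _ => S.C2_sf_pos b g hy _ _ _)

theorem C2_log_swy (b : ℕ) (g : Feat) {y : ℝ} (hy : |y| ≤ 1 / 4) (r : S.Root) (ω : S.Om) :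
    Real.log (S.swy b g y r ω) = Real.log (S.base r.1 ω.2) +
      ∑ c, Real.log (S.C2_sf b g y (r.2 c) (ω.1 c) ω.2) := by
  rw [C2_swy_eq, Real.log_mul (S.base_pos _ _).ne'
    (Finset.prod_pos fun c _ => S.C2_sf_pos b g hy _ _ _).ne', Real.log_prod]
  exact fun c _ => (S.C2_sf_pos b g hy _ _ _).ne'

theorem C2_lTy_lip (b : ℕ) (g : Feat) {y : ℝ} (hy : |y| ≤ 1 / 4) (r r' : S.Root) {δ : ℝ}
    (h : ∀ ω, |Real.log (S.swy b g y r ω) - Real.log (S.swy b g y r' ω)| ≤ δ) :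
    |S.lTy b g y r - S.lTy b g y r'| ≤ δ :=
  LT0_lip S.lv S.expo (unif_law S.Om) (S.C2_swy_pos b g hy r) (S.C2_swy_pos b g hy r') h

theorem C2_lTy_slot (b : ℕ) (g : Feat) {y : ℝ} (hy : |y| ≤ 1 / 4) (ρ : S.ρ)
    (s : Fin S.L → S.Slot) (i : Fin S.L) (a : S.Slot) :
    |S.lTy b g y (ρ, Function.update s i a) - S.lTy b g y (ρ, s)| ≤ 6 := by
  refine S.C2_lTy_lip b g hy _ _ fun ω => ?_
  rw [S.C2_log_swy b g hy, S.C2_log_swy b g hy, add_sub_add_left_eq_sub, ← Finset.sum_sub_distrib,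
    Finset.sum_eq_single i]
  · have h1 := S.C2_log_sf b g hy (Function.update s i a i) (ω.1 i) ω.2
    have h2 := S.C2_log_sf b g hy (s i) (ω.1 i) ω.2
    exact (abs_sub _ _).trans (by linarith)
  · intro c _ hc
    simp [Function.update_of_ne hc]
  · intro h; exact absurd (Finset.mem_univ i) h

theorem C2_lTy_base (b : ℕ) (g : Feat) {y : ℝ} (hy : |y| ≤ 1 / 4) (ρ ρ' : S.ρ)
    (s : Fin S.L → S.Slot) {δ : ℝ}
    (h : ∀ σ, |Real.log (S.base ρ σ) - Real.log (S.base ρ' σ)| ≤ δ) :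
    |S.lTy b g y (ρ, s) - S.lTy b g y (ρ', s)| ≤ δ := by
  refine S.C2_lTy_lip b g hy _ _ fun ω => ?_
  rw [S.C2_log_swy b g hy, S.C2_log_swy b g hy, add_sub_add_right_eq_sub]
  exact h ω.2

end Sys

/-! ### the base root of the core system -/

section core
variable {p : ℕ} (C : Core p)

theorem C2_count {M n : ℕ} (hn : n ≤ M) :
    ∑ i : Fin M, (if (i : ℕ) < n then (1 : ℝ) else 0) = n := by
  rw [Fin.sum_univ_eq_sum_range (fun i => if i < n then (1 : ℝ) else 0) M, Finset.sum_boole]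
  congr 1
  have : (Finset.range M).filter (fun i => i < n) = Finset.range n := by
    ext i; simp only [Finset.mem_filter, Finset.mem_range]; omega
  rw [this, Finset.card_range]

theorem C2_base {k M : ℕ} (hk : 0 < k) {lam : ℝ} (h : 0 ≤ lam) (F : CRoot C k M → ℝ)
    {Ke Kh : ℝ}
    (h1 : ∀ n n' x, |F (n, x) - F (n', x)| ≤ Ke * |((n : ℕ) : ℝ) - ((n' : ℕ) : ℝ)|)
    (h2 : ∀ n e y i x, |F (n, Function.update e i x, y) - F (n, e, y)| ≤
      if (i : ℕ) < (n : ℕ) then 2 * Ke else 0)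
    (h3 : ∀ n e y i x, |F (n, e, Function.update y i x) - F (n, e, y)| ≤ 2 * Kh) :
    vr (prC C k M lam) F ≤ Ke ^ 2 * ∑ n : Fin (M + 1), qp lam M n * (((n : ℕ) : ℝ) - lam) ^ 2 +
      ((∑ n : Fin (M + 1), qp lam M n * ((n : ℕ) : ℝ)) * (2 * Ke) ^ 2 + k * (2 * Kh) ^ 2) := by
  have hq : PV (qp lam M) := ⟨qp_nonneg h M, qp_sum lam M⟩
  have hE : PV (piE C k) := ⟨piE_nonneg C k, piE_sum C hk⟩
  have hH : PV C.wH := ⟨C.wH_nonneg, C.wH_sum⟩
  have hE' : PV (fun e : Fin M → Edg C k => ∏ i, piE C k (e i)) := C2_PV_pi hE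
  have hH' : PV (prF C k) := C2_PV_pi hH
  have hu : PV (fun x : (Fin M → Edg C k) × (Fin k → Fin C.nH) =>
      (∏ i, piE C k (x.1 i)) * prF C k x.2) := C2_PV_prod hE' hH'
  refine (vr_prod hq hu F).trans ?_
  refine add_le_add (C2_avg_le hu fun x => ?_) ?_
  · refine (C2_vr_lip hq _ (fun n : Fin (M + 1) => ((n : ℕ) : ℝ)) (fun n n' => h1 n n' x)).trans ?_
    exact mul_le_mul_of_nonneg_left (vr_le_sq hq _ lam) (sq_nonneg _)
  · have h4 : ∀ n : Fin (M + 1), vr (fun x : (Fin M → Edg C k) × (Fin k → Fin C.nH) =>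
        (∏ i, piE C k (x.1 i)) * prF C k x.2) (fun x => F (n, x)) ≤
        ((n : ℕ) : ℝ) * (2 * Ke) ^ 2 + k * (2 * Kh) ^ 2 := by
      intro n
      refine (vr_prod hE' hH' (fun x => F (n, x))).trans ?_
      refine add_le_add (C2_avg_le hH' fun y => ?_) (C2_avg_le hE' fun e => ?_)
      · refine (vr_pi hE (fun e => F (n, e, y)) (fun i => if (i : ℕ) < (n : ℕ) then 2 * Ke else 0)
          fun i e x => h2 n e y i x).trans ?_
        have h5 : ∀ i : Fin M, (if (i : ℕ) < (n : ℕ) then 2 * Ke else 0) ^ 2 =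
            (if (i : ℕ) < (n : ℕ) then (1 : ℝ) else 0) * (2 * Ke) ^ 2 := by
          intro i; split_ifs <;> simp
        rw [Finset.sum_congr rfl fun i _ => h5 i, ← Finset.sum_mul,
          C2_count (Nat.lt_succ_iff.1 n.2)]
      · refine (vr_pi hH (fun y => F (n, e, y)) (fun _ => 2 * Kh)
          fun i y x => h3 n e y i x).trans ?_
        simp
    calc ∑ n, qp lam M n * vr (fun x : (Fin M → Edg C k) × (Fin k → Fin C.nH) =>
          (∏ i, piE C k (x.1 i)) * prF C k x.2) (fun x => F (n, x))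
        ≤ ∑ n : Fin (M + 1), qp lam M n * (((n : ℕ) : ℝ) * (2 * Ke) ^ 2 + k * (2 * Kh) ^ 2) :=
          Finset.sum_le_sum fun n _ => mul_le_mul_of_nonneg_left (h4 n) (hq.nonneg n)
      _ = _ := by
          simp only [mul_add, Finset.sum_add_distrib, ← Finset.sum_mul, hq.sum, one_mul, ← mul_assoc]

theorem C2_coe_prod {k : ℕ} {ι : Type} (s : Finset ι) (F : ι → Uk k) (σ : Fin k → Bool) :
    ((((∏ i ∈ s, F i : Uk k) σ) : {x : ℝ // 0 < x}) : ℝ) = ∏ i ∈ s, ((F i σ : {x : ℝ // 0 < x}) : ℝ) := by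
  induction s using Finset.induction_on with
  | empty => simp
  | insert a s ha ih =>
    rw [Finset.prod_insert ha, Finset.prod_insert ha, ← ih]
    rfl

theorem C2_log_wC {k M : ℕ} (ρ : CRoot C k M) (σ : Fin k → Bool) :
    Real.log ((wC C k M ρ σ : {x : ℝ // 0 < x}) : ℝ) = (∑ i : Fin M, if (i : ℕ) < (ρ.1 : ℕ) then
      Real.log ((fac C (ρ.2.1 i).1 (fun l => σ ((ρ.2.1 i).2 l)) : {x : ℝ // 0 < x}) : ℝ) else 0) +
      ∑ i, C.h (ρ.2.2 i) * spinVal (σ i) := by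
  have e1 : ((wC C k M ρ σ : {x : ℝ // 0 < x}) : ℝ) =
      (∏ i : Fin M, (((if (i : ℕ) < (ρ.1 : ℕ) then wEdg C k (ρ.2.1 i) else 1 : Uk k) σ :
        {x : ℝ // 0 < x}) : ℝ)) * Real.exp (∑ i, C.h (ρ.2.2 i) * spinVal (σ i)) := by
    rw [← C2_coe_prod]
    rfl
  rw [e1, Real.log_mul _ (Real.exp_pos _).ne', Real.log_exp, Real.log_prod]
  · congr 1
    refine Finset.sum_congr rfl fun i _ => ?_
    split_ifs
    · rfl
    · exact Real.log_one
  · intro i _
    have hz : ∀ z : {x : ℝ // 0 < x}, (z : ℝ) ≠ 0 := fun z => ne_of_gt z.2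
    exact hz _
  · have hz : ∀ z : {x : ℝ // 0 < x}, 0 < (z : ℝ) := fun z => z.2
    exact ne_of_gt (Finset.prod_pos fun i _ => hz _)

/-- bound of `log fac`. -/
def C2_Ke : ℝ := ∑ e : C.E, ∑ s : Fin p → Bool, |Real.log ((fac C e s : {x : ℝ // 0 < x}) : ℝ)|

def C2_Kh : ℝ := ∑ j, |C.h j|

theorem C2_log_fac_le (e : C.E) (s : Fin p → Bool) :
    |Real.log ((fac C e s : {x : ℝ // 0 < x}) : ℝ)| ≤ C2_Ke C := by
  refine (Finset.single_le_sum (f := fun s => |Real.log ((fac C e s : {x : ℝ // 0 < x}) : ℝ)|)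
    (fun s _ => abs_nonneg _) (Finset.mem_univ s)).trans ?_
  exact Finset.single_le_sum
    (f := fun e => ∑ s : Fin p → Bool, |Real.log ((fac C e s : {x : ℝ // 0 < x}) : ℝ)|)
    (fun e _ => Finset.sum_nonneg fun s _ => abs_nonneg _) (Finset.mem_univ e)

theorem C2_Ke_nonneg : 0 ≤ C2_Ke C :=
  Finset.sum_nonneg fun e _ => Finset.sum_nonneg fun s _ => abs_nonneg _

theorem C2_h_le (j : Fin C.nH) : |C.h j| ≤ C2_Kh C :=
  Finset.single_le_sum (f := fun j => |C.h j|) (fun s _ => abs_nonneg _) (Finset.mem_univ j)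

theorem C2_wC_n_aux {k M : ℕ} (n n' : Fin (M + 1)) (hn : (n : ℕ) ≤ (n' : ℕ))
    (x : (Fin M → Edg C k) × (Fin k → Fin C.nH))
    (σ : Fin k → Bool) :
    |Real.log ((wC C k M (n, x) σ : {x : ℝ // 0 < x}) : ℝ) -
      Real.log ((wC C k M (n', x) σ : {x : ℝ // 0 < x}) : ℝ)| ≤
      C2_Ke C * (((n' : ℕ) : ℝ) - ((n : ℕ) : ℝ)) := by
  rw [C2_log_wC, C2_log_wC, add_sub_add_right_eq_sub, ← Finset.sum_sub_distrib]
  refine (Finset.abs_sum_le_sum_abs _ _).trans ?_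
  rw [← C2_count (Nat.lt_succ_iff.1 n.2), ← C2_count (Nat.lt_succ_iff.1 n'.2),
    ← Finset.sum_sub_distrib, Finset.mul_sum]
  refine Finset.sum_le_sum fun i _ => ?_
  have hK := C2_log_fac_le C (x.1 i).1 (fun l => σ ((x.1 i).2 l))
  by_cases h1 : (i : ℕ) < (n : ℕ)
  · have h2 : (i : ℕ) < (n' : ℕ) := by omega
    simp [h1, h2]
  · by_cases h2 : (i : ℕ) < (n' : ℕ)
    · simp only [h1, h2, if_false, if_true, zero_sub, abs_neg, sub_zero, mul_one]
      exact hK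
    · simp [h1, h2]

theorem C2_wC_n {k M : ℕ} (n n' : Fin (M + 1)) (x : (Fin M → Edg C k) × (Fin k → Fin C.nH))
    (σ : Fin k → Bool) :
    |Real.log ((wC C k M (n, x) σ : {x : ℝ // 0 < x}) : ℝ) -
      Real.log ((wC C k M (n', x) σ : {x : ℝ // 0 < x}) : ℝ)| ≤
      C2_Ke C * |((n : ℕ) : ℝ) - ((n' : ℕ) : ℝ)| := by
  rcases le_total (n : ℕ) (n' : ℕ) with h | h
  · refine (C2_wC_n_aux C n n' h x σ).trans (mul_le_mul_of_nonneg_left ?_ (C2_Ke_nonneg C))
    rw [abs_sub_comm]; exact le_abs_self _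
  · rw [abs_sub_comm]
    refine (C2_wC_n_aux C n' n h x σ).trans (mul_le_mul_of_nonneg_left ?_ (C2_Ke_nonneg C))
    exact le_abs_self _

theorem C2_wC_e {k M : ℕ} (n : Fin (M + 1)) (e : Fin M → Edg C k) (y : Fin k → Fin C.nH)
    (i : Fin M) (x : Edg C k) (σ : Fin k → Bool) :
    |Real.log ((wC C k M (n, Function.update e i x, y) σ : {x : ℝ // 0 < x}) : ℝ) -
      Real.log ((wC C k M (n, e, y) σ : {x : ℝ // 0 < x}) : ℝ)| ≤
      if (i : ℕ) < (n : ℕ) then 2 * C2_Ke C else 0 := by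
  rw [C2_log_wC, C2_log_wC, add_sub_add_right_eq_sub, ← Finset.sum_sub_distrib,
    Finset.sum_eq_single i]
  · by_cases h : (i : ℕ) < (n : ℕ)
    · simp only [h, if_true, Function.update_self]
      have h1 := C2_log_fac_le C x.1 (fun l => σ (x.2 l))
      have h2 := C2_log_fac_le C (e i).1 (fun l => σ ((e i).2 l))
      exact (abs_sub _ _).trans (by linarith)
    · simp [h]
  · intro j _ hj
    simp [Function.update_of_ne hj]
  · intro h; exact absurd (Finset.mem_univ i) h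

theorem C2_wC_y {k M : ℕ} (n : Fin (M + 1)) (e : Fin M → Edg C k) (y : Fin k → Fin C.nH)
    (i : Fin k) (x : Fin C.nH) (σ : Fin k → Bool) :
    |Real.log ((wC C k M (n, e, Function.update y i x) σ : {x : ℝ // 0 < x}) : ℝ) -
      Real.log ((wC C k M (n, e, y) σ : {x : ℝ // 0 < x}) : ℝ)| ≤ 2 * C2_Kh C := by
  rw [C2_log_wC, C2_log_wC, add_sub_add_left_eq_sub, ← Finset.sum_sub_distrib,
    Finset.sum_eq_single i]
  · simp only [Function.update_self]
    rw [← sub_mul, abs_mul, B1a_abs_spinVal, mul_one]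
    have h1 := C2_h_le C x
    have h2 := C2_h_le C (y i)
    exact (abs_sub _ _).trans (by linarith)
  · intro j _ hj
    simp [Function.update_of_ne hj]
  · intro h; exact absurd (Finset.mem_univ i) h

end core

/-- **C2b**: the root variance of `log T_0` (perturbed by `y`) in the core system is `≤ Cv · k`.
Changing one present edge changes `log T_0` by `≤ 2 log(1/(1-q0))`, `n ↦ n'` by
`≤ |n-n'| log(1/(1-q0))`, one field by `≤ 2 max|h|·…`, one slot by `≤ log 7 + …`; `L ≤ k + 1`. -/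
theorem core_var {p : ℕ} (C : Core p) {α : ℝ} (hα : 0 < α) {Mt : ℕ → ℕ} (hM : TruncOK α Mt) :
    ∃ Cv : ℝ, 0 ≤ Cv ∧ ∀ (fr : Fr) (k L : ℕ) (hk : 0 < k) (hL : 0 < L) (hLk : L ≤ k + 1) (b : ℕ)
      (g : Feat) (y : ℝ), |y| ≤ 1 / 4 →
      vr (coreSys C fr k L (Mt k) hk hL (α * k) (by positivity)).prR
        ((coreSys C fr k L (Mt k) hk hL (α * k) (by positivity)).lTy b g y) ≤ Cv * k := by
  set Ke := C2_Ke C with hKe
  set Kh := C2_Kh C with hKh
  refine ⟨Ke ^ 2 * (α + 1) + ((3 / 2 * α + 1) * (2 * Ke) ^ 2 + (2 * Kh) ^ 2) + 72, by positivity,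
    ?_⟩
  intro fr k L hk hL hLk b g y hy
  have hlam : 0 ≤ α * (k : ℝ) := by positivity
  have hk1 : (1 : ℝ) ≤ (k : ℝ) := by exact_mod_cast hk
  set S := coreSys C fr k L (Mt k) hk hL (α * k) (by positivity) with hS
  have hL' : (S.L : ℝ) ≤ 2 * k := by
    have : (L : ℝ) ≤ (k : ℝ) + 1 := by exact_mod_cast hLk
    change (L : ℝ) ≤ 2 * k
    linarith
  obtain ⟨-, hM2⟩ := hM k
  have hq : PV (qp (α * k) (Mt k)) := ⟨qp_nonneg hlam _, qp_sum _ _⟩
  have hmean : ∑ n : Fin (Mt k + 1), qp (α * k) (Mt k) n * ((n : ℕ) : ℝ) ≤ (3 / 2 * α + 1) * k := by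
    calc ∑ n : Fin (Mt k + 1), qp (α * k) (Mt k) n * ((n : ℕ) : ℝ)
        ≤ ∑ n : Fin (Mt k + 1), (qp (α * k) (Mt k) n * (α * k + 1 / 2) +
            1 / 2 * (qp (α * k) (Mt k) n * (((n : ℕ) : ℝ) - α * k) ^ 2)) := by
          refine Finset.sum_le_sum fun n _ => ?_
          have h1 : ((n : ℕ) : ℝ) ≤ (α * k + 1 / 2) + 1 / 2 * (((n : ℕ) : ℝ) - α * k) ^ 2 := by
            nlinarith [sq_nonneg (((n : ℕ) : ℝ) - α * k - 1)]
          have := mul_le_mul_of_nonneg_left h1 (hq.nonneg n)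
          linarith
      _ = (α * k + 1 / 2) + 1 / 2 * ∑ n : Fin (Mt k + 1),
            qp (α * k) (Mt k) n * (((n : ℕ) : ℝ) - α * k) ^ 2 := by
          rw [Finset.sum_add_distrib, ← Finset.sum_mul, hq.sum, one_mul, ← Finset.mul_sum]
      _ ≤ (α * k + 1 / 2) + 1 / 2 * (α * k + 1) := by linarith
      _ ≤ (3 / 2 * α + 1) * k := by nlinarith
  have hbase : ∀ s : Fin S.L → S.Slot, vr S.pr (fun ρ => S.lTy b g y (ρ, s)) ≤
      Ke ^ 2 * ∑ n : Fin (Mt k + 1), qp (α * k) (Mt k) n * (((n : ℕ) : ℝ) - α * k) ^ 2 +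
      ((∑ n : Fin (Mt k + 1), qp (α * k) (Mt k) n * ((n : ℕ) : ℝ)) * (2 * Ke) ^ 2 +
        k * (2 * Kh) ^ 2) := by
    intro s
    refine C2_base C hk hlam (fun ρ : CRoot C k (Mt k) => S.lTy b g y (ρ, s)) ?_ ?_ ?_
    · intro n n' x
      exact S.C2_lTy_base b g hy _ _ s fun σ => C2_wC_n C n n' x σ
    · intro n e y' i x
      exact S.C2_lTy_base b g hy _ _ s fun σ => C2_wC_e C n e y' i x σ
    · intro n e y' i x
      exact S.C2_lTy_base b g hy _ _ s fun σ => C2_wC_y C n e y' i x σ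
  refine (C2_slots S (S.lTy b g y) (fun ρ s i a => S.C2_lTy_slot b g hy ρ s i a) hbase).trans ?_
  have hA : Ke ^ 2 * ∑ n : Fin (Mt k + 1), qp (α * k) (Mt k) n * (((n : ℕ) : ℝ) - α * k) ^ 2 ≤
      Ke ^ 2 * ((α + 1) * k) := by
    refine mul_le_mul_of_nonneg_left (hM2.trans ?_) (sq_nonneg _)
    nlinarith
  have hB : (∑ n : Fin (Mt k + 1), qp (α * k) (Mt k) n * ((n : ℕ) : ℝ)) * (2 * Ke) ^ 2 ≤
      ((3 / 2 * α + 1) * k) * (2 * Ke) ^ 2 := mul_le_mul_of_nonneg_right hmean (sq_nonneg _)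
  have hC : (S.L : ℝ) * 6 ^ 2 ≤ 72 * k := by linarith
  calc _ ≤ Ke ^ 2 * ((α + 1) * k) + (((3 / 2 * α + 1) * k) * (2 * Ke) ^ 2 + k * (2 * Kh) ^ 2) +
        72 * k := by linarith
    _ = _ := by ring

end Crest.SG
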