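import Crest.Agent.SG_C1
import Crest.Agent.SG_C2

/-! # SG_C3 : single-system bound for `Dvar b 0` (task SG-C3)

`Dvar = (4^{b+2}/L²) [E Var_P(U) + Var_root(E_P U)]`; thermal part by `lTy_second` (limit of the
averaged second differences); root part: with `Φ_r(y) = φ_r(y) + 8 L y²` convex,
`|φ'_r(0) - ψ'(0)| ≤ (1/δ)(|φ_r-ψ|(δ) + |φ_r-ψ|(-δ) + 2|φ_r-ψ|(0)) + (s2 + 16Lδ²)/δ + 16 L δ`,
`s2 = ψ(δ)+ψ(-δ)-2ψ(0)`, and `|E_P U| ≤ 2L`. -/

set_option autoImplicit false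
noncomputable section
open scoped BigOperators
open Classical
open Crest.ProbabilityR.Diluted
namespace Crest.SG

/-- averaged second difference. -/
def Sys.sd (S : Sys) (b : ℕ) (g : Feat) (δ : ℝ) : ℝ :=
  ∑ r, S.prR r * (S.lTy b g δ r + S.lTy b g (-δ) r - 2 * S.lTy b g 0 r)

/-- the limit of `sd/δ²` (mean second derivative). -/
def Sys.d2 (S : Sys) (b : ℕ) (g : Feat) : ℝ :=
  ∑ r, S.prR r * Classical.choose (S.lTy_second b g r)

theorem Sys.sd_tendsto (S : Sys) (b : ℕ) (g : Feat) :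
    Filter.Tendsto (fun δ : ℝ => S.sd b g δ / δ ^ 2) (nhdsWithin 0 (Set.Ioi 0))
      (nhds (S.d2 b g)) := by
  have h : ∀ r ∈ (Finset.univ : Finset S.Root), Filter.Tendsto (fun δ : ℝ => S.prR r *
      ((S.lTy b g δ r + S.lTy b g (-δ) r - 2 * S.lTy b g 0 r) / δ ^ 2))
      (nhdsWithin 0 (Set.Ioi 0)) (nhds (S.prR r * Classical.choose (S.lTy_second b g r))) :=
    fun r _ => (Classical.choose_spec (S.lTy_second b g r)).2.const_mul _
  have h2 := tendsto_finsetSum Finset.univ h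
  refine h2.congr fun δ => ?_
  unfold Sys.sd
  rw [Finset.sum_div]
  exact Finset.sum_congr rfl fun r _ => by ring

/-- `ER 0` as a plain double expectation -/
theorem C3_ER_zero (S : Sys) (t : Tree S.R 0) (X : S.Root → (Fin (0 + 1) → S.Om) → ℝ) :
    S.ER 0 t X = ∑ r, S.prR r * ex (S.PL r) (fun ω => X r (fun _ => ω)) := rfl

/-- the tree of one replica -/
def C3_t0 (R : ℕ) : Tree R 0 := (show Unit from ())

theorem C3_tree_zero_sum {R : ℕ} (f : Tree R 0 → ℝ) : ∑ t, f t = f (C3_t0 R) := by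
  have : Subsingleton (Tree R 0) := inferInstanceAs (Subsingleton Unit)
  exact Fintype.sum_subsingleton f (C3_t0 R)

theorem C3_Dvar_zero (S : Sys) (b : ℕ) (G : Fin (0 + 1) → Feat) :
    S.Dvar b 0 G = S.Var 0 (C3_t0 S.R) (S.KK b G) := by
  unfold Sys.Dvar
  rw [C3_tree_zero_sum]
  exact one_mul _

theorem C3_ex_law {Ω : Type} [Fintype Ω] {P : Ω → ℝ} (hP : PathLaw P) (U : Ω → ℝ) (c a : ℝ) :
    ex P (fun ω => (c * U ω - c * a) ^ 2) =
      c ^ 2 * ((ex P (fun ω => (U ω) ^ 2) - (ex P U) ^ 2) + (ex P U - a) ^ 2) := by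
  have h1 : ex P (fun ω => (c * U ω - c * a) ^ 2) =
      c ^ 2 * (ex P (fun ω => (U ω) ^ 2) - 2 * a * ex P U + a ^ 2 * ∑ ω, P ω) := by
    unfold ex
    rw [Finset.mul_sum, Finset.mul_sum, ← Finset.sum_sub_distrib, ← Finset.sum_add_distrib,
      Finset.mul_sum]
    exact Finset.sum_congr rfl fun ω _ => by ring
  rw [h1, hP.sum]
  ring

theorem C3_Dvar_eq (S : Sys) (b : ℕ) (g : Feat) :
    S.Dvar b 0 (fun _ => g) = (2 ^ (b + 2) / (S.L : ℝ)) ^ 2 *
      ((∑ r, S.prR r * (ex (S.PL r) (fun ω => (S.UU b g r ω) ^ 2) - (ex (S.PL r) (S.UU b g r)) ^ 2)) +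
        vr S.prR (fun r => ex (S.PL r) (S.UU b g r))) := by
  rw [C3_Dvar_zero]
  unfold Sys.Var
  rw [C3_ER_zero, C3_ER_zero]
  set c : ℝ := 2 ^ (b + 2) / (S.L : ℝ) with hc
  have hKK : ∀ r ω, S.KK b (fun _ : Fin (0 + 1) => g) r (fun _ => ω) = c * S.UU b g r ω :=
    fun r ω => S.KK_eq_UU b g r (fun _ => ω)
  have h1 : (∑ r, S.prR r * ex (S.PL r) (fun ω => S.KK b (fun _ : Fin (0 + 1) => g) r (fun _ => ω))) =
      c * ∑ r, S.prR r * ex (S.PL r) (S.UU b g r) := by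
    rw [Finset.mul_sum]
    refine Finset.sum_congr rfl fun r _ => ?_
    have : ex (S.PL r) (fun ω => S.KK b (fun _ : Fin (0 + 1) => g) r (fun _ => ω)) =
        c * ex (S.PL r) (S.UU b g r) := by
      unfold ex
      rw [Finset.mul_sum]
      exact Finset.sum_congr rfl fun ω _ => by simp only [hKK]; ring
    rw [this]
    ring
  rw [h1]
  set a : ℝ := ∑ r, S.prR r * ex (S.PL r) (S.UU b g r) with ha
  have h2 : ∀ r, ex (S.PL r) (fun ω => (S.KK b (fun _ : Fin (0 + 1) => g) r (fun _ => ω) - c * a) ^ 2) =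
      c ^ 2 * ((ex (S.PL r) (fun ω => (S.UU b g r ω) ^ 2) - (ex (S.PL r) (S.UU b g r)) ^ 2) +
        (ex (S.PL r) (S.UU b g r) - a) ^ 2) := by
    intro r
    rw [← C3_ex_law (S.PL_law r)]
    unfold ex
    exact Finset.sum_congr rfl fun ω _ => by simp only [hKK]
  have h3 : vr S.prR (fun r => ex (S.PL r) (S.UU b g r)) =
      ∑ r, S.prR r * (ex (S.PL r) (S.UU b g r) - a) ^ 2 := rfl
  rw [h3, ← Finset.sum_add_distrib]
  have h4 : ∀ r ∈ (Finset.univ : Finset S.Root), S.prR r * ex (S.PL r)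
      (fun ω => (S.KK b (fun _ : Fin (0 + 1) => g) r (fun _ => ω) - c * a) ^ 2) =
      c ^ 2 * (S.prR r * (ex (S.PL r) (fun ω => (S.UU b g r ω) ^ 2) -
        (ex (S.PL r) (S.UU b g r)) ^ 2) + S.prR r * (ex (S.PL r) (S.UU b g r) - a) ^ 2) := by
    intro r _
    rw [h2 r]
    ring
  rw [Finset.sum_congr rfl h4, ← Finset.mul_sum]

/-- `∑ w |f - mean| ≤ √vr`. -/
theorem C3_abs_le_sqrt {A : Type} [Fintype A] {w : A → ℝ} (hw0 : ∀ a, 0 ≤ w a) (hw1 : ∑ a, w a = 1)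
    (f : A → ℝ) {v : ℝ} (hv : vr w f ≤ v) :
    ∑ a, w a * |f a - ∑ a', w a' * f a'| ≤ Real.sqrt v := by
  refine Real.le_sqrt_of_sq_le (le_trans ?_ hv)
  unfold vr
  set c := ∑ a', w a' * f a'
  have h := Finset.sum_mul_sq_le_sq_mul_sq Finset.univ (fun a => Real.sqrt (w a))
    (fun a => Real.sqrt (w a) * |f a - c|)
  have e1 : ∑ a, Real.sqrt (w a) * (Real.sqrt (w a) * |f a - c|) = ∑ a, w a * |f a - c| :=
    Finset.sum_congr rfl fun a _ => by rw [← mul_assoc, Real.mul_self_sqrt (hw0 a)]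
  have e2 : ∑ a, Real.sqrt (w a) ^ 2 = 1 := by
    rw [← hw1]
    exact Finset.sum_congr rfl fun a _ => Real.sq_sqrt (hw0 a)
  have e3 : ∑ a, (Real.sqrt (w a) * |f a - c|) ^ 2 = ∑ a, w a * (f a - c) ^ 2 :=
    Finset.sum_congr rfl fun a _ => by rw [mul_pow, Real.sq_sqrt (hw0 a), sq_abs]
  rw [e1, e2, e3, one_mul] at h
  exact h

/-- slopes of a convex function at an interior point bound the derivative -/
theorem C3_slope {f : ℝ → ℝ} {L A δ : ℝ} (hδ : 0 < δ) (hδ4 : δ ≤ 1 / 4)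
    (hc : ConvexOn ℝ (Set.Icc (-1 / 4 : ℝ) (1 / 4)) (fun y => f y + 8 * L * y ^ 2))
    (hd : HasDerivAt f A 0) :
    A ≤ (f δ - f 0) / δ + 8 * L * δ ∧ (f 0 - f (-δ)) / δ - 8 * L * δ ≤ A := by
  have hd' : HasDerivAt (fun y => f y + 8 * L * y ^ 2) A 0 := by
    have h1 : HasDerivAt (fun y : ℝ => 8 * L * y ^ 2) (8 * L * (2 * 0)) 0 := by
      have := (hasDerivAt_pow 2 (0 : ℝ)).const_mul (8 * L)
      simpa using this
    have h2 := hd.fun_add h1
    rw [mul_zero, mul_zero, add_zero] at h2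
    exact h2
  have m0 : (0 : ℝ) ∈ Set.Icc (-1 / 4 : ℝ) (1 / 4) := by constructor <;> norm_num
  have m1 : δ ∈ Set.Icc (-1 / 4 : ℝ) (1 / 4) := ⟨by linarith, hδ4⟩
  have m2 : -δ ∈ Set.Icc (-1 / 4 : ℝ) (1 / 4) := ⟨by linarith, by linarith⟩
  have k1 := hc.le_slope_of_hasDerivAt m0 m1 hδ hd'
  have k2 := hc.slope_le_of_hasDerivAt m2 m0 (neg_lt_zero.2 hδ) hd'
  rw [slope_def_field] at k1 k2
  constructor
  · refine k1.trans (le_of_eq ?_)
    have e : ((f δ + 8 * L * δ ^ 2) - (f 0 + 8 * L * 0 ^ 2)) / (δ - 0) =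
        (f δ - f 0) / δ + 8 * L * δ := by
      rw [sub_zero]
      field_simp
      ring
    exact e
  · refine le_trans (le_of_eq ?_) k2
    have e : (f 0 - f (-δ)) / δ - 8 * L * δ =
        ((f 0 + 8 * L * 0 ^ 2) - (f (-δ) + 8 * L * (-δ) ^ 2)) / (0 - -δ) := by
      rw [sub_neg_eq_add, zero_add]
      field_simp
      ring
    exact e

theorem C3_root (S : Sys) (b : ℕ) (g : Feat) {v δ : ℝ} (hδ : 0 < δ) (hδ4 : δ ≤ 1 / 4)
    (hv : ∀ y : ℝ, |y| ≤ 1 / 4 → vr S.prR (S.lTy b g y) ≤ v) :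
    ∑ r, S.prR r * |ex (S.PL r) (S.UU b g r) - ∑ r', S.prR r' * ex (S.PL r') (S.UU b g r')| ≤
      3 * Real.sqrt v / δ + S.sd b g δ / δ + 16 * S.L * δ := by
  have hL : (0 : ℝ) ≤ S.L := Nat.cast_nonneg _
  set A : S.Root → ℝ := fun r => ex (S.PL r) (S.UU b g r) with hA
  set Ab : ℝ := ∑ r', S.prR r' * A r' with hAb
  set ps : ℝ → ℝ := fun y => ∑ r, S.prR r * S.lTy b g y r with hps
  have hsl : ∀ r, A r ≤ (S.lTy b g δ r - S.lTy b g 0 r) / δ + 8 * S.L * δ ∧
      (S.lTy b g 0 r - S.lTy b g (-δ) r) / δ - 8 * S.L * δ ≤ A r := fun r =>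
    C3_slope hδ hδ4 (S.lTy_convex b g r) (S.lTy_deriv b g r)
  have hsum1 : ∑ r, S.prR r = 1 := S.prR_sum
  have hB1 : Ab ≤ (ps δ - ps 0) / δ + 8 * S.L * δ := by
    have h1 : Ab ≤ ∑ r, S.prR r * ((S.lTy b g δ r - S.lTy b g 0 r) / δ + 8 * S.L * δ) :=
      Finset.sum_le_sum fun r _ => mul_le_mul_of_nonneg_left (hsl r).1 (S.prR_nonneg r)
    have h2 : ∑ r, S.prR r * ((S.lTy b g δ r - S.lTy b g 0 r) / δ + 8 * S.L * δ) =
        (ps δ - ps 0) / δ + 8 * S.L * δ * ∑ r, S.prR r := by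
      rw [hps]
      simp only
      rw [← Finset.sum_sub_distrib, Finset.sum_div, Finset.mul_sum, ← Finset.sum_add_distrib]
      exact Finset.sum_congr rfl fun r _ => by ring
    rw [h2, hsum1, mul_one] at h1
    exact h1
  have hB2 : (ps 0 - ps (-δ)) / δ - 8 * S.L * δ ≤ Ab := by
    have h1 : ∑ r, S.prR r * ((S.lTy b g 0 r - S.lTy b g (-δ) r) / δ - 8 * S.L * δ) ≤ Ab :=
      Finset.sum_le_sum fun r _ => mul_le_mul_of_nonneg_left (hsl r).2 (S.prR_nonneg r)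
    have h2 : ∑ r, S.prR r * ((S.lTy b g 0 r - S.lTy b g (-δ) r) / δ - 8 * S.L * δ) =
        (ps 0 - ps (-δ)) / δ - 8 * S.L * δ * ∑ r, S.prR r := by
      rw [hps]
      simp only
      rw [← Finset.sum_sub_distrib, Finset.sum_div, Finset.mul_sum, ← Finset.sum_sub_distrib]
      exact Finset.sum_congr rfl fun r _ => by ring
    rw [h2, hsum1, mul_one] at h1
    exact h1
  have hsd : S.sd b g δ = ps δ + ps (-δ) - 2 * ps 0 := by
    unfold Sys.sd
    rw [hps]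
    simp only
    rw [Finset.mul_sum, ← Finset.sum_add_distrib, ← Finset.sum_sub_distrib]
    exact Finset.sum_congr rfl fun r _ => by ring
  have hpt : ∀ r, |A r - Ab| ≤ (|S.lTy b g δ r - ps δ| + |S.lTy b g (-δ) r - ps (-δ)| +
      |S.lTy b g 0 r - ps 0|) / δ + S.sd b g δ / δ + 16 * S.L * δ := by
    intro r
    have a1 := le_abs_self (S.lTy b g δ r - ps δ)
    have a2 := abs_nonneg (S.lTy b g δ r - ps δ)
    have b1 := le_abs_self (S.lTy b g (-δ) r - ps (-δ))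
    have b2 := abs_nonneg (S.lTy b g (-δ) r - ps (-δ))
    have c1 := neg_abs_le (S.lTy b g 0 r - ps 0)
    rw [hsd, abs_sub_le_iff]
    constructor
    · have h1 : A r - Ab ≤ ((S.lTy b g δ r - S.lTy b g 0 r) - (ps 0 - ps (-δ))) / δ + 16 * S.L * δ := by
        have := (hsl r).1
        rw [sub_div]
        linarith
      have h2 : ((S.lTy b g δ r - S.lTy b g 0 r) - (ps 0 - ps (-δ))) / δ ≤
          ((|S.lTy b g δ r - ps δ| + |S.lTy b g (-δ) r - ps (-δ)| +
      |S.lTy b g 0 r - ps 0|) + (ps δ + ps (-δ) - 2 * ps 0)) / δ :=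
        div_le_div_of_nonneg_right (by linarith) hδ.le
      rw [add_div] at h2
      linarith
    · have h1 : Ab - A r ≤ ((ps δ - ps 0) - (S.lTy b g 0 r - S.lTy b g (-δ) r)) / δ + 16 * S.L * δ := by
        have := (hsl r).2
        rw [sub_div]
        linarith
      have h2 : ((ps δ - ps 0) - (S.lTy b g 0 r - S.lTy b g (-δ) r)) / δ ≤
          ((|S.lTy b g δ r - ps δ| + |S.lTy b g (-δ) r - ps (-δ)| +
      |S.lTy b g 0 r - ps 0|) + (ps δ + ps (-δ) - 2 * ps 0)) / δ :=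
        div_le_div_of_nonneg_right (by linarith) hδ.le
      rw [add_div] at h2
      linarith
  have hle : ∀ y : ℝ, |y| ≤ 1 / 4 → ∑ r, S.prR r * |S.lTy b g y r - ps y| ≤ Real.sqrt v :=
    fun y hy => C3_abs_le_sqrt S.prR_nonneg hsum1 (S.lTy b g y) (hv y hy)
  have s1 := hle δ (by rw [abs_of_pos hδ]; exact hδ4)
  have s2 := hle (-δ) (by rw [abs_neg, abs_of_pos hδ]; exact hδ4)
  have s3 := hle 0 (by norm_num)
  calc ∑ r, S.prR r * |A r - Ab| ≤ ∑ r, S.prR r * ((|S.lTy b g δ r - ps δ| +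
        |S.lTy b g (-δ) r - ps (-δ)| + |S.lTy b g 0 r - ps 0|) / δ + S.sd b g δ / δ +
          16 * S.L * δ) :=
        Finset.sum_le_sum fun r _ => mul_le_mul_of_nonneg_left (hpt r) (S.prR_nonneg r)
    _ = (∑ r, S.prR r * |S.lTy b g δ r - ps δ| + ∑ r, S.prR r * |S.lTy b g (-δ) r - ps (-δ)| +
          ∑ r, S.prR r * |S.lTy b g 0 r - ps 0|) / δ + (S.sd b g δ / δ +
          16 * S.L * δ) * ∑ r, S.prR r := by
        rw [← Finset.sum_add_distrib, ← Finset.sum_add_distrib, Finset.sum_div, Finset.mul_sum,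
          ← Finset.sum_add_distrib]
        exact Finset.sum_congr rfl fun r _ => by ring
    _ ≤ 3 * Real.sqrt v / δ + S.sd b g δ / δ + 16 * S.L * δ := by
        rw [hsum1, mul_one]
        have : (∑ r, S.prR r * |S.lTy b g δ r - ps δ| + ∑ r, S.prR r * |S.lTy b g (-δ) r - ps (-δ)| +
          ∑ r, S.prR r * |S.lTy b g 0 r - ps 0|) / δ ≤ 3 * Real.sqrt v / δ :=
          div_le_div_of_nonneg_right (by linarith) hδ.le
        linarith

theorem Sys.Dvar_bound (S : Sys) (b : ℕ) (g : Feat) {v δ : ℝ} (hδ : 0 < δ) (hδ4 : δ ≤ 1 / 4)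
    (hv : ∀ y : ℝ, |y| ≤ 1 / 4 → vr S.prR (S.lTy b g y) ≤ v) :
    S.Dvar b 0 (fun _ => g) ≤ 4 ^ (b + 2) *
      ((S.R / S.L) * (S.d2 b g / S.L + 4) +
        4 * (4 * Real.sqrt v / (S.L * δ) + (S.sd b g δ / S.L) / δ + 48 * δ)) := by
  have hL : (0 : ℝ) < S.L := S.B1a_L_pos
  have hR : (0 : ℝ) < S.R := by exact_mod_cast S.R_pos
  rw [C3_Dvar_eq]
  have hpow : (2 ^ (b + 2) / (S.L : ℝ)) ^ 2 = 4 ^ (b + 2) * (1 / (S.L : ℝ) ^ 2) := by
    rw [div_pow, ← pow_mul, mul_comm (b + 2) 2, pow_mul]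
    norm_num
    ring
  rw [hpow, mul_assoc]
  refine mul_le_mul_of_nonneg_left ?_ (by positivity)
  -- thermal part
  have hth : (∑ r, S.prR r * (ex (S.PL r) (fun ω => (S.UU b g r ω) ^ 2) -
      (ex (S.PL r) (S.UU b g r)) ^ 2)) ≤ S.R * (S.d2 b g + 4 * S.L) := by
    have h1 : ∀ r, ex (S.PL r) (fun ω => (S.UU b g r ω) ^ 2) - (ex (S.PL r) (S.UU b g r)) ^ 2 ≤
        S.R * (Classical.choose (S.lTy_second b g r) + 4 * S.L) := by
      intro r
      have := (Classical.choose_spec (S.lTy_second b g r)).1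
      have h2 : (1 / (S.R : ℝ)) * (ex (S.PL r) (fun ω => (S.UU b g r ω) ^ 2) -
          (ex (S.PL r) (S.UU b g r)) ^ 2) ≤ Classical.choose (S.lTy_second b g r) + 4 * S.L := by
        linarith
      generalize Classical.choose (S.lTy_second b g r) = z at h2 ⊢
      rw [one_div, inv_mul_le_iff₀ hR] at h2
      exact h2
    refine (Finset.sum_le_sum fun r _ =>
      mul_le_mul_of_nonneg_left (h1 r) (S.prR_nonneg r)).trans (le_of_eq ?_)
    have h3 : ∀ (z : S.Root → ℝ) (a : ℝ), ∑ r, S.prR r * (S.R * (z r + a)) =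
        S.R * (∑ r, S.prR r * z r + a) := by
      intro z a
      have h4 : a = ∑ r, S.prR r * a := by
        rw [← Finset.sum_mul, S.prR_sum, one_mul]
      conv_rhs => rw [h4]
      rw [← Finset.sum_add_distrib, Finset.mul_sum]
      exact Finset.sum_congr rfl fun r _ => by ring
    exact h3 (fun r => Classical.choose (S.lTy_second b g r)) _
  -- root part
  have hroot : vr S.prR (fun r => ex (S.PL r) (S.UU b g r)) ≤
      4 * S.L * (3 * Real.sqrt v / δ + S.sd b g δ / δ + 16 * S.L * δ) := by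
    have hA : ∀ r, |ex (S.PL r) (S.UU b g r)| ≤ 2 * S.L := by
      intro r
      have hP := S.PL_law r
      unfold ex
      calc |∑ ω, S.PL r ω * S.UU b g r ω| ≤ ∑ ω, |S.PL r ω * S.UU b g r ω| :=
            Finset.abs_sum_le_sum_abs _ _
        _ ≤ ∑ ω, S.PL r ω * (2 * S.L) := by
            refine Finset.sum_le_sum fun ω _ => ?_
            rw [abs_mul, abs_of_pos (hP.pos ω)]
            exact mul_le_mul_of_nonneg_left (S.abs_UU_le b g r ω) (hP.pos ω).le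
        _ = 2 * S.L := by rw [← Finset.sum_mul, hP.sum, one_mul]
    have hAb : |∑ r', S.prR r' * ex (S.PL r') (S.UU b g r')| ≤ 2 * S.L := by
      calc |∑ r', S.prR r' * ex (S.PL r') (S.UU b g r')| ≤
            ∑ r', |S.prR r' * ex (S.PL r') (S.UU b g r')| := Finset.abs_sum_le_sum_abs _ _
        _ ≤ ∑ r', S.prR r' * (2 * S.L) := by
            refine Finset.sum_le_sum fun r _ => ?_
            rw [abs_mul, abs_of_nonneg (S.prR_nonneg r)]
            exact mul_le_mul_of_nonneg_left (hA r) (S.prR_nonneg r)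
        _ = 2 * S.L := by rw [← Finset.sum_mul, S.prR_sum, one_mul]
    have h1 := C3_root S b g hδ hδ4 hv
    unfold vr
    calc ∑ r, S.prR r * (ex (S.PL r) (S.UU b g r) -
          ∑ r', S.prR r' * ex (S.PL r') (S.UU b g r')) ^ 2 ≤
        ∑ r, 4 * S.L * (S.prR r * |ex (S.PL r) (S.UU b g r) -
          ∑ r', S.prR r' * ex (S.PL r') (S.UU b g r')|) := by
          refine Finset.sum_le_sum fun r _ => ?_
          have h2 : |ex (S.PL r) (S.UU b g r) - ∑ r', S.prR r' * ex (S.PL r') (S.UU b g r')| ≤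
              4 * S.L := by
            have := abs_sub (ex (S.PL r) (S.UU b g r)) (∑ r', S.prR r' * ex (S.PL r') (S.UU b g r'))
            linarith [hA r, hAb]
          rw [← sq_abs]
          have h3 := abs_nonneg (ex (S.PL r) (S.UU b g r) -
            ∑ r', S.prR r' * ex (S.PL r') (S.UU b g r'))
          have h4 := S.prR_nonneg r
          have h5 := mul_le_mul_of_nonneg_right h2 h3
          have h6 := mul_le_mul_of_nonneg_left h5 h4
          calc _ = S.prR r * (|ex (S.PL r) (S.UU b g r) - ∑ r', S.prR r' * ex (S.PL r') (S.UU b g r')| *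
              |ex (S.PL r) (S.UU b g r) - ∑ r', S.prR r' * ex (S.PL r') (S.UU b g r')|) := by ring
            _ ≤ _ := h6
            _ = _ := by ring
      _ = 4 * S.L * ∑ r, S.prR r * |ex (S.PL r) (S.UU b g r) -
          ∑ r', S.prR r' * ex (S.PL r') (S.UU b g r')| := by rw [Finset.mul_sum]
      _ ≤ _ := mul_le_mul_of_nonneg_left h1 (by positivity)
  have hsq : 0 ≤ Real.sqrt v := Real.sqrt_nonneg v
  have hfin : (1 / (S.L : ℝ) ^ 2) * (S.R * (S.d2 b g + 4 * S.L) +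
      4 * S.L * (3 * Real.sqrt v / δ + S.sd b g δ / δ + 16 * S.L * δ)) =
      (S.R / S.L) * (S.d2 b g / S.L + 4) +
        4 * (3 * Real.sqrt v / (S.L * δ) + (S.sd b g δ / S.L) / δ + 16 * δ) := by
    field_simp
  have hmono : 3 * Real.sqrt v / (S.L * δ) ≤ 4 * Real.sqrt v / (S.L * δ) :=
    div_le_div_of_nonneg_right (by linarith) (by positivity)
  calc _ ≤ (1 / (S.L : ℝ) ^ 2) * (S.R * (S.d2 b g + 4 * S.L) +
      4 * S.L * (3 * Real.sqrt v / δ + S.sd b g δ / δ + 16 * S.L * δ)) :=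
        mul_le_mul_of_nonneg_left (add_le_add hth hroot) (by positivity)
    _ = _ := hfin
    _ ≤ _ := by linarith

end Crest.SG
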