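import Mathlib

/-! # SG_C4 : variational choice of the parameters (task SG-C4); pure analysis

`x` maximises `Θ(x) - (A/2) ∑ x_i²` on the compact cube `[-1,1]^ι`; comparing with `x` where the
coordinate `i` is set to `0` gives `|x_i| ≤ 2c/A ≤ 1/2`; maximality at `x ± δ e_i` gives the
second-difference bound. -/

set_option autoImplicit false
open scoped BigOperators
namespace Crest.SG

theorem exists_good {ι : Type} [Fintype ι] [DecidableEq ι] (Θ : (ι → ℝ) → ℝ) {c A : ℝ}
    (hc : 0 ≤ c) (hA : 4 * c ≤ A) (hApos : 0 < A)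
    (hcont : ContinuousOn Θ {x | ∀ i, |x i| ≤ 1})
    (hlip : ∀ x, (∀ i, |x i| ≤ 1) → ∀ i t, |t| ≤ 1 → |Θ (Function.update x i t) - Θ x| ≤ c * |t - x i|) :
    ∃ x : ι → ℝ, (∀ i, |x i| ≤ 1 / 2) ∧ ∀ i δ, |δ| ≤ 1 / 2 →
      Θ (Function.update x i (x i + δ)) + Θ (Function.update x i (x i - δ)) - 2 * Θ x ≤ A * δ ^ 2 := by
  have hcomp : IsCompact {x : ι → ℝ | ∀ i, |x i| ≤ 1} := by
    have h1 : {x : ι → ℝ | ∀ i, |x i| ≤ 1} = Set.pi Set.univ (fun _ : ι => Set.Icc (-1 : ℝ) 1) := by
      ext x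
      simp only [Set.mem_ofPred_eq, Set.mem_pi, Set.mem_univ, forall_true_left, Set.mem_Icc, abs_le]
    rw [h1]
    exact isCompact_univ_pi fun _ => isCompact_Icc
  have hne : ({x : ι → ℝ | ∀ i, |x i| ≤ 1}).Nonempty := ⟨0, fun i => by simp⟩
  have hcont2 : ContinuousOn (fun x : ι → ℝ => Θ x - A / 2 * ∑ i, x i ^ 2) {x | ∀ i, |x i| ≤ 1} := by
    apply hcont.sub
    apply Continuous.continuousOn
    fun_prop
  obtain ⟨x, hx, hmax⟩ := hcomp.exists_isMaxOn hne hcont2
  have hx' : ∀ i, |x i| ≤ 1 := hx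
  have hsum : ∀ i t, ∑ j, (Function.update x i t) j ^ 2 = ∑ j, x j ^ 2 + (t ^ 2 - x i ^ 2) := by
    intro i t
    rw [← Finset.add_sum_erase _ _ (Finset.mem_univ i), ← Finset.add_sum_erase Finset.univ (fun j => x j ^ 2) (Finset.mem_univ i)]
    have : ∑ j ∈ Finset.univ.erase i, (Function.update x i t) j ^ 2 = ∑ j ∈ Finset.univ.erase i, x j ^ 2 := by
      apply Finset.sum_congr rfl
      intro j hj
      rw [Function.update_of_ne (Finset.ne_of_mem_erase hj)]
    rw [this, Function.update_self]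
    ring
  have hcmp : ∀ i t, |t| ≤ 1 → Θ (Function.update x i t) - Θ x ≤ A / 2 * (t ^ 2 - x i ^ 2) := by
    intro i t ht
    have hmem : Function.update x i t ∈ {x : ι → ℝ | ∀ i, |x i| ≤ 1} := by
      intro j
      by_cases hj : j = i
      · subst hj; rw [Function.update_self]; exact ht
      · rw [Function.update_of_ne hj]; exact hx' j
    have h1 := hmax hmem
    simp only [Set.mem_ofPred_eq] at h1
    rw [hsum i t] at h1
    linarith
  have hhalf : ∀ i, |x i| ≤ 1 / 2 := by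
    intro i
    by_cases h0 : x i = 0
    · rw [h0]; norm_num
    · have h1 := hcmp i 0 (by norm_num)
      have h2 := hlip x hx' i 0 (by norm_num)
      have h3 := (abs_le.1 h2).1
      rw [zero_sub, abs_neg] at h3
      have hpos : 0 < |x i| := abs_pos.2 h0
      have h4 : A / 2 * |x i| ^ 2 ≤ c * |x i| := by
        rw [sq_abs]; nlinarith
      have h5 : A / 2 * |x i| ≤ c := by
        by_contra hcon
        push Not at hcon
        nlinarith
      by_contra hcon
      push Not at hcon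
      nlinarith
  refine ⟨x, hhalf, fun i δ hδ => ?_⟩
  have b1 := abs_le.1 (hhalf i)
  have b2 := abs_le.1 hδ
  have h1 := hcmp i (x i + δ) (abs_le.2 ⟨by linarith [b1.1, b2.1], by linarith [b1.2, b2.2]⟩)
  have h2 := hcmp i (x i - δ) (abs_le.2 ⟨by linarith [b1.1, b2.2], by linarith [b1.2, b2.1]⟩)
  nlinarith

end Crest.SG
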