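import Crest.Agent.SG_C3
import Crest.Agent.SG_C4

/-! # SG_C5 : dependence of the family `SS s k x` on `x` (task SG-C5)

All systems `SS s k x` (for different `x`) have the same root type, path space, levels, root law;
only `W` differs, and `swy b (toFeat g) (eps s * δ)` of the system at `x` is `sw` of the system at
`x + δ e_(b,g)`. -/

set_option autoImplicit false
noncomputable section
open scoped BigOperators
open Classical
open Crest.ProbabilityR.Diluted Crest.Agent.SGG
namespace Crest.SG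

/-! ### replacing the species weights of a slot system -/

/-- slot system with other species weights. -/
private def c5W (S : Sys) (W : ℕ → Bool → (ℕ → Bool) → ℝ) (lo : ∀ b s l, 1 / 2 ≤ W b s l)
    (hi : ∀ b s l, W b s l ≤ 3 / 2) : Sys :=
  { S with W := W, W_lo := lo, W_hi := hi }

private theorem c5_pm (S : Sys) (W : ℕ → Bool → (ℕ → Bool) → ℝ) (lo : ∀ b s l, 1 / 2 ≤ W b s l)
    (hi : ∀ b s l, W b s l ≤ 3 / 2) (a : Option (Fin S.q)) :
    (c5W S W lo hi).pm a = S.pm a := by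
  cases a <;> rfl

private theorem c5_prR (S : Sys) (W : ℕ → Bool → (ℕ → Bool) → ℝ)
    (lo : ∀ b s l, 1 / 2 ≤ W b s l) (hi : ∀ b s l, W b s l ≤ 3 / 2) (r : S.Root) :
    (c5W S W lo hi).prR r = S.prR r := by
  show S.pr r.1 * ∏ c, ((c5W S W lo hi).pm (r.2 c).1 * (1 / (S.k : ℝ))) =
    S.pr r.1 * ∏ c, (S.pm (r.2 c).1 * (1 / (S.k : ℝ)))
  congr 1
  exact Finset.prod_congr rfl fun c _ => by rw [c5_pm]

private theorem c5_psi0 (S : Sys) (W : ℕ → Bool → (ℕ → Bool) → ℝ)
    (lo : ∀ b s l, 1 / 2 ≤ W b s l) (hi : ∀ b s l, W b s l ≤ 3 / 2) :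
    (c5W S W lo hi).psi =
      ∑ r : S.Root, S.prR r * LT0 S.lv S.m (unif S.Om) ((c5W S W lo hi).sw r) := by
  have e : (c5W S W lo hi).psi = ∑ r : S.Root, (c5W S W lo hi).prR r * (c5W S W lo hi).lT r := rfl
  rw [e]
  exact Finset.sum_congr rfl fun r _ => by
    rw [c5_prR]
    rfl

private theorem c5_log {a b : ℝ} (ha : 1 / 2 ≤ a) (hb : 1 / 2 ≤ b) :
    |Real.log a - Real.log b| ≤ 2 * |a - b| := by
  have key : ∀ a b : ℝ, 1 / 2 ≤ a → 1 / 2 ≤ b → Real.log a - Real.log b ≤ 2 * |a - b| := by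
    intro a b ha hb
    have ha0 : 0 < a := by linarith
    have hb0 : 0 < b := by linarith
    rw [← Real.log_div ha0.ne' hb0.ne']
    have h1 := Real.log_le_sub_one_of_pos (div_pos ha0 hb0)
    have h2 : a / b - 1 = (a - b) / b := by field_simp
    rw [h2] at h1
    refine h1.trans ?_
    rw [div_le_iff₀ hb0]
    have h3 := le_abs_self (a - b)
    have h4 := abs_nonneg (a - b)
    nlinarith
  rw [abs_le]
  constructor
  · have := key b a hb ha
    rw [abs_sub_comm] at this
    linarith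
  · exact key a b ha hb

private theorem c5_slot (S : Sys) {W : ℕ → Bool → (ℕ → Bool) → ℝ} {lo : ∀ b s l, 1 / 2 ≤ W b s l}
    {hi : ∀ b s l, W b s l ≤ 3 / 2} {D : ℝ} (hD0 : 0 ≤ D)
    (hD : ∀ b σ l, |W b σ l - S.W b σ l| ≤ D) (a : S.Slot) (l : Fin S.N → Bool)
    (σ : Fin S.k → Bool) :
    0 < (c5W S W lo hi).slotW a l σ ∧ 0 < S.slotW a l σ ∧
      |Real.log ((c5W S W lo hi).slotW a l σ) - Real.log (S.slotW a l σ)| ≤ 2 * D := by
  obtain ⟨a1, a2⟩ := a
  cases a1 with
  | none =>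
    refine ⟨one_pos, one_pos, ?_⟩
    show |Real.log 1 - Real.log 1| ≤ 2 * D
    simp
    exact hD0
  | some b =>
    have h1 : 1 / 2 ≤ W b (σ a2) (S.ext l) := lo _ _ _
    have h2 : 1 / 2 ≤ S.W b (σ a2) (S.ext l) := S.W_lo _ _ _
    refine ⟨show 0 < W b (σ a2) (S.ext l) by linarith,
      show 0 < S.W b (σ a2) (S.ext l) by linarith, ?_⟩
    refine (c5_log h1 h2).trans ?_
    exact mul_le_mul_of_nonneg_left (hD _ _ _) (by norm_num)

private theorem c5_psi (S : Sys) {W : ℕ → Bool → (ℕ → Bool) → ℝ} {lo : ∀ b s l, 1 / 2 ≤ W b s l}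
    {hi : ∀ b s l, W b s l ≤ 3 / 2} {D : ℝ} (hD0 : 0 ≤ D)
    (hD : ∀ b σ l, |W b σ l - S.W b σ l| ≤ D) :
    |(c5W S W lo hi).psi - S.psi| ≤ S.L * (2 * D) := by
  have e : (c5W S W lo hi).psi - S.psi = ∑ r : S.Root, S.prR r *
      (LT0 S.lv S.m (unif S.Om) ((c5W S W lo hi).sw r) - LT0 S.lv S.m (unif S.Om) (S.sw r)) := by
    have e1 := c5_psi0 S W lo hi
    have e2 : S.psi = ∑ r : S.Root, S.prR r * LT0 S.lv S.m (unif S.Om) (S.sw r) := rfl
    rw [e1, e2, ← Finset.sum_sub_distrib]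
    exact Finset.sum_congr rfl fun r _ => by ring
  rw [e]
  have hb : ∀ r : S.Root, |LT0 S.lv S.m (unif S.Om) ((c5W S W lo hi).sw r) -
      LT0 S.lv S.m (unif S.Om) (S.sw r)| ≤ S.L * (2 * D) := by
    intro r
    refine LT0_lip S.lv S.expo (Sys.unif_law _) ((c5W S W lo hi).sw_pos r) (S.sw_pos r) ?_
    intro ω
    have h1 : (c5W S W lo hi).sw r ω =
      S.base r.1 ω.2 * ∏ c, (c5W S W lo hi).slotW (r.2 c) (ω.1 c) ω.2 := rfl
    have h2 : S.sw r ω = S.base r.1 ω.2 * ∏ c, S.slotW (r.2 c) (ω.1 c) ω.2 := rfl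
    rw [h1, h2]
    have hs := fun c => c5_slot S (W := W) (lo := lo) (hi := hi) hD0 hD (r.2 c) (ω.1 c) ω.2
    rw [Real.log_mul (S.base_pos _ _).ne' (Finset.prod_pos fun c _ => (hs c).1).ne',
      Real.log_mul (S.base_pos _ _).ne' (Finset.prod_pos fun c _ => (hs c).2.1).ne',
      Real.log_prod (fun c _ => (hs c).1.ne'),
      Real.log_prod (fun c _ => (hs c).2.1.ne')]
    rw [add_sub_add_left_eq_sub, ← Finset.sum_sub_distrib]
    refine (Finset.abs_sum_le_sum_abs _ _).trans ?_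
    refine (Finset.sum_le_sum fun c _ => (hs c).2.2).trans ?_
    simp
  refine (Finset.abs_sum_le_sum_abs _ _).trans ?_
  calc _ ≤ ∑ r : S.Root, S.prR r * (S.L * (2 * D)) := by
        refine Finset.sum_le_sum fun r _ => ?_
        rw [abs_mul, abs_of_nonneg (S.prR_nonneg r)]
        exact mul_le_mul_of_nonneg_left (hb r) (S.prR_nonneg r)
    _ = S.L * (2 * D) := by rw [← Finset.sum_mul, S.prR_sum, one_mul]

private theorem c5_sw (S : Sys) {W : ℕ → Bool → (ℕ → Bool) → ℝ} {lo : ∀ b s l, 1 / 2 ≤ W b s l}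
    {hi : ∀ b s l, W b s l ≤ 3 / 2} (b : ℕ) (g : Feat) (y : ℝ)
    (h : ∀ b' σ l, W b' σ l = S.W b' σ l + if b' = b then y * fval g σ l else 0) (r : S.Root)
    (ω : S.Om) : (c5W S W lo hi).sw r ω = S.swy b g y r ω := by
  have h1 : (c5W S W lo hi).sw r ω =
      S.base r.1 ω.2 * ∏ c, (c5W S W lo hi).slotW (r.2 c) (ω.1 c) ω.2 := rfl
  have h2 : S.swy b g y r ω = (S.base r.1 ω.2 * ∏ c, S.slotW (r.2 c) (ω.1 c) ω.2) *
      ∏ c, if S.isM (r.2 c).1 b then
        1 + y * (S.at1 (fun σ l => fval g σ l / S.W b σ l) r c ω) else 1 := rfl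
  rw [h1, h2, mul_assoc, ← Finset.prod_mul_distrib]
  congr 1
  refine Finset.prod_congr rfl fun c _ => ?_
  rcases hrc : r.2 c with ⟨a1, a2⟩
  cases a1 with
  | none =>
    have h3 : ¬ S.isM (none : Option (Fin S.q)) b := by simp [Sys.isM]
    rw [if_neg h3, mul_one]
    rfl
  | some b' =>
    show W b' (ω.2 a2) (S.ext (ω.1 c)) = S.W b' (ω.2 a2) (S.ext (ω.1 c)) *
      (if S.isM (some b' : Option (Fin S.q)) b then
        1 + y * (S.at1 (fun σ l => fval g σ l / S.W b σ l) r c ω) else 1)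
    rw [h]
    have hpos : 0 < S.W b' (ω.2 a2) (S.ext (ω.1 c)) := by
      have := S.W_lo b' (ω.2 a2) (S.ext (ω.1 c))
      linarith
    by_cases hb : (b' : ℕ) = b
    · have h3 : S.isM (some b' : Option (Fin S.q)) b := by simp [Sys.isM, hb]
      rw [if_pos h3, if_pos hb]
      have e3 : S.at1 (fun σ l => fval g σ l / S.W b σ l) r c ω =
          fval g (ω.2 a2) (S.ext (ω.1 c)) / S.W b (ω.2 a2) (S.ext (ω.1 c)) := by
        unfold Sys.at1
        rw [hrc]
      rw [e3, ← hb]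
      field_simp
    · have h3 : ¬ S.isM (some b' : Option (Fin S.q)) b := by simp [Sys.isM, hb]
      rw [if_neg h3, if_neg hb, add_zero, mul_one]

private theorem c5_psi_eq (S : Sys) {W : ℕ → Bool → (ℕ → Bool) → ℝ}
    {lo : ∀ b s l, 1 / 2 ≤ W b s l} {hi : ∀ b s l, W b s l ≤ 3 / 2} (b : ℕ) (g : Feat) (y : ℝ)
    (h : ∀ b' σ l, W b' σ l = S.W b' σ l + if b' = b then y * fval g σ l else 0) :
    (c5W S W lo hi).psi = ∑ r, S.prR r * S.lTy b g y r := by
  rw [c5_psi0 S W lo hi]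
  refine Finset.sum_congr rfl fun r _ => ?_
  have : (c5W S W lo hi).sw r = S.swy b g y r := funext fun ω => c5_sw S b g y h r ω
  unfold Sys.lTy
  rw [← this]

/-! ### the weights `Wx` -/

private theorem c5_Wx_lip (s : ℕ) (code : ℕ → TC) (x x' : PIdx s → ℝ) (b : ℕ) (σ : Bool)
    (l : ℕ → Bool) :
    |Wx s code x' b σ l - Wx s code x b σ l| ≤ eps s * ∑ j, |x' j - x j| := by
  unfold Wx
  rw [add_sub_add_left_eq_sub]
  have hS : 0 ≤ ∑ j, |x' j - x j| := Finset.sum_nonneg fun j _ => abs_nonneg _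
  split_ifs with hb
  · rw [← mul_sub, ← Finset.sum_sub_distrib, abs_mul, abs_of_pos (eps_pos s)]
    refine mul_le_mul_of_nonneg_left ?_ (eps_pos s).le
    refine (Finset.abs_sum_le_sum_abs _ _).trans ?_
    calc ∑ g, |x' (⟨b, hb⟩, g) * fval (toFeat g) σ l - x (⟨b, hb⟩, g) * fval (toFeat g) σ l| =
          ∑ g, |x' (⟨b, hb⟩, g) - x (⟨b, hb⟩, g)| := by
          refine Finset.sum_congr rfl fun g _ => ?_
          rw [← sub_mul, abs_mul, abs_fval, mul_one]
      _ ≤ ∑ j, |x' j - x j| := by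
          rw [show ∑ j : PIdx s, |x' j - x j| =
            ∑ b' : Fin s, ∑ g : FIdx s, |x' (b', g) - x (b', g)| from Fintype.sum_prod_type _]
          exact Finset.single_le_sum
            (f := fun b' => ∑ g, |x' (b', g) - x (b', g)|)
            (fun b' _ => Finset.sum_nonneg fun g _ => abs_nonneg _) (Finset.mem_univ _)
  · simp only [sub_self, abs_zero]
    exact mul_nonneg (eps_pos s).le hS

private theorem c5_Wx_update (s : ℕ) (code : ℕ → TC) (x : PIdx s → ℝ) (i : PIdx s) (t : ℝ)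
    (b : ℕ) (σ : Bool) (l : ℕ → Bool) :
    Wx s code (Function.update x i t) b σ l = Wx s code x b σ l +
      if b = i.1 then eps s * (t - x i) * fval (toFeat i.2) σ l else 0 := by
  obtain ⟨b0, g0⟩ := i
  unfold Wx
  rw [add_assoc (1 + tval (code b) σ l)]
  congr 1
  by_cases hb : b < s
  · rw [dif_pos hb, dif_pos hb]
    by_cases hbb : b = b0
    · rw [if_pos (show b = ((b0, g0) : PIdx s).1 from hbb)]
      have hb0 : (⟨b, hb⟩ : Fin s) = b0 := Fin.ext hbb
      rw [hb0, mul_assoc, ← mul_add]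
      congr 1
      have h1 : ∀ g, Function.update x (b0, g0) t (b0, g) * fval (toFeat g) σ l =
          x (b0, g) * fval (toFeat g) σ l +
            if g = g0 then (t - x (b0, g0)) * fval (toFeat g0) σ l else 0 := by
        intro g
        by_cases hg : g = g0
        · subst hg
          rw [Function.update_self, if_pos rfl]
          ring
        · rw [Function.update_of_ne (fun h => hg (Prod.ext_iff.mp h).2), if_neg hg, add_zero]
      rw [Finset.sum_congr rfl fun g _ => h1 g, Finset.sum_add_distrib]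
      simp
    · rw [if_neg (show ¬ b = ((b0, g0) : PIdx s).1 from hbb), add_zero]
      congr 1
      refine Finset.sum_congr rfl fun g _ => ?_
      rw [Function.update_of_ne (fun h => hbb (by
        have := (Prod.ext_iff.mp h).1
        exact congrArg Fin.val this))]
  · rw [dif_neg hb, dif_neg hb]
    have : ¬ b = ((b0, g0) : PIdx s).1 := fun h => hb (h ▸ b0.2)
    rw [if_neg this, add_zero]

variable {p : ℕ} (C : Core p) {α : ℝ} (hα : 0 < α) (Mt : ℕ → ℕ) {code : ℕ → TC}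
  (hcode : ∀ b, tnorm (code b) < 1 / 4)

/-- `ψ` of the family, as a function of `x` (0 outside the cube). -/
def psx (s k : ℕ) (x : PIdx s → ℝ) : ℝ :=
  if hx : ∀ i, |x i| ≤ 1 then (SS C hα Mt hcode s k x hx).psi else 0

private theorem c5_psx_gen (s k : ℕ) {x x' : PIdx s → ℝ} (hx : ∀ i, |x i| ≤ 1)
    (hx' : ∀ i, |x' i| ≤ 1) :
    |psx C hα Mt hcode s k x' - psx C hα Mt hcode s k x| ≤
      2 * eps s * (Lf s (k + 1) : ℝ) * ∑ j, |x' j - x j| := by
  have e1 : psx C hα Mt hcode s k x = (SS C hα Mt hcode s k x hx).psi := by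
    unfold psx
    rw [dif_pos hx]
  have e2 : psx C hα Mt hcode s k x' =
      (c5W (SS C hα Mt hcode s k x hx) (Wx s code x') (Wx_lo s hcode hx')
        (Wx_hi s hcode hx')).psi := by
    unfold psx
    rw [dif_pos hx']
    rfl
  rw [e1, e2]
  refine (c5_psi (SS C hα Mt hcode s k x hx) (D := eps s * ∑ j, |x' j - x j|)
    (mul_nonneg (eps_pos s).le (Finset.sum_nonneg fun j _ => abs_nonneg _))
    (fun b σ l => c5_Wx_lip s code x x' b σ l)).trans (le_of_eq ?_)
  have : ((SS C hα Mt hcode s k x hx).L : ℝ) = (Lf s (k + 1) : ℝ) := rfl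
  rw [this]
  ring

theorem psx_cont (s k : ℕ) : ContinuousOn (psx C hα Mt hcode s k) {x | ∀ i, |x i| ≤ 1} := by
  have hε := (eps_pos s).le
  have hK : 0 ≤ 2 * eps s * (Lf s (k + 1) : ℝ) * Fintype.card (PIdx s) := by positivity
  refine LipschitzOnWith.continuousOn (K := ⟨2 * eps s * (Lf s (k + 1) : ℝ) *
    Fintype.card (PIdx s), hK⟩) ?_
  refine LipschitzOnWith.of_dist_le_mul fun x' hx' x hx => ?_
  rw [Real.dist_eq]
  refine (c5_psx_gen C hα Mt hcode s k hx hx').trans ?_
  show _ ≤ 2 * eps s * (Lf s (k + 1) : ℝ) * Fintype.card (PIdx s) * dist x' x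
  rw [mul_assoc (2 * eps s * (Lf s (k + 1) : ℝ)) (Fintype.card (PIdx s) : ℝ)]
  refine mul_le_mul_of_nonneg_left ?_ (by positivity)
  calc ∑ j, |x' j - x j| ≤ ∑ j : PIdx s, dist x' x := by
        refine Finset.sum_le_sum fun j _ => ?_
        rw [← Real.dist_eq]
        exact dist_le_pi_dist x' x j
    _ = _ := by simp

theorem psx_lip (s k : ℕ) {x : PIdx s → ℝ} (hx : ∀ i, |x i| ≤ 1) (i : PIdx s) {t : ℝ}
    (ht : |t| ≤ 1) :
    |psx C hα Mt hcode s k (Function.update x i t) - psx C hα Mt hcode s k x| ≤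
      2 * eps s * (Lf s (k + 1) : ℝ) * |t - x i| := by
  have hx' : ∀ j, |Function.update x i t j| ≤ 1 := by
    intro j
    by_cases hj : j = i
    · subst hj; rw [Function.update_self]; exact ht
    · rw [Function.update_of_ne hj]; exact hx j
  refine (c5_psx_gen C hα Mt hcode s k hx hx').trans (le_of_eq ?_)
  congr 1
  rw [Finset.sum_eq_single i]
  · rw [Function.update_self]
  · intro j _ hj
    rw [Function.update_of_ne hj, sub_self, abs_zero]
  · intro h
    exact absurd (Finset.mem_univ _) h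

/-- second differences in the coordinate `i = (b, g)` are `sd` of the system. -/
theorem psx_sd (s k : ℕ) {x : PIdx s → ℝ} (hx : ∀ i, |x i| ≤ 1 / 2) (i : PIdx s) {δ : ℝ}
    (hδ : |δ| ≤ 1 / 2) :
    psx C hα Mt hcode s k (Function.update x i (x i + δ)) +
        psx C hα Mt hcode s k (Function.update x i (x i - δ)) - 2 * psx C hα Mt hcode s k x =
      (SS C hα Mt hcode s k x (fun j => (hx j).trans (by norm_num))).sd i.1 (toFeat i.2)
        (eps s * δ) := by
  have hx1 : ∀ j, |x j| ≤ 1 := fun j => (hx j).trans (by norm_num)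
  have hup : ∀ t : ℝ, |t| ≤ 1 → ∀ j, |Function.update x i t j| ≤ 1 := by
    intro t ht j
    by_cases hj : j = i
    · subst hj; rw [Function.update_self]; exact ht
    · rw [Function.update_of_ne hj]; exact hx1 j
  have key : ∀ y : ℝ, |y| ≤ 1 / 2 → psx C hα Mt hcode s k (Function.update x i (x i + y)) =
      ∑ r, (SS C hα Mt hcode s k x hx1).prR r *
        (SS C hα Mt hcode s k x hx1).lTy i.1 (toFeat i.2) (eps s * y) r := by
    intro y hy
    have ht : |x i + y| ≤ 1 := (abs_add_le _ _).trans (by linarith [hx i])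
    have hx' := hup _ ht
    have e2 : psx C hα Mt hcode s k (Function.update x i (x i + y)) =
        (c5W (SS C hα Mt hcode s k x hx1) (Wx s code (Function.update x i (x i + y)))
          (Wx_lo s hcode hx') (Wx_hi s hcode hx')).psi := by
      unfold psx
      rw [dif_pos hx']
      rfl
    rw [e2]
    refine c5_psi_eq (SS C hα Mt hcode s k x hx1) i.1 (toFeat i.2) (eps s * y) ?_
    intro b' σ l
    rw [c5_Wx_update, add_sub_cancel_left]
    rfl
  have k1 := key δ hδ
  have k2 := key (-δ) (by rw [abs_neg]; exact hδ)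
  have k0 : psx C hα Mt hcode s k x = ∑ r, (SS C hα Mt hcode s k x hx1).prR r *
        (SS C hα Mt hcode s k x hx1).lTy i.1 (toFeat i.2) 0 r := by
    have := key 0 (by norm_num)
    rwa [add_zero, Function.update_eq_self, mul_zero] at this
  rw [← sub_eq_add_neg] at k2
  rw [k1, k2, k0, mul_neg]
  show _ = ∑ r, (SS C hα Mt hcode s k x hx1).prR r *
    ((SS C hα Mt hcode s k x hx1).lTy i.1 (toFeat i.2) (eps s * δ) r +
      (SS C hα Mt hcode s k x hx1).lTy i.1 (toFeat i.2) (-(eps s * δ)) r -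
      2 * (SS C hα Mt hcode s k x hx1).lTy i.1 (toFeat i.2) 0 r)
  rw [← Finset.sum_add_distrib, Finset.mul_sum, ← Finset.sum_sub_distrib]
  exact Finset.sum_congr rfl fun r _ => by ring

end Crest.SG
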