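import Crest.Agent.SG_C5

/-! # SG_C6 : averaged determinism `Dvar b 0` over a window of sizes (task SG-C6)

For the window `k ∈ [K0, K)` take `Θ(x) = ∑_k psx_k(x)/Lf`, `c = 2 eps (K-K0)`, `A = 8 eps (K-K0)` in
`exists_good`. Then `∑_k sd_k(eps δ)/Lf ≤ 8 eps δ² (K-K0)` for `δ ≤ 1/2`, hence
`∑_k d2_k/Lf ≤ (8/eps)(K-K0)` (limit), and sum `Dvar_bound` over `k` (with `v = Cv (k+1)`,
`Lf s (k+1) ≥ (k+1)/(s+1)`): choose the increment small first, then `K0` large. -/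

set_option autoImplicit false
noncomputable section
open scoped BigOperators
open Classical
open Crest.ProbabilityR.Diluted Crest.Agent.SGG
namespace Crest.SG

/-- Jensen. -/
theorem C6_ex_sq_le {Ω : Type} [Fintype Ω] {P : Ω → ℝ} (hP : PathLaw P) (f : Ω → ℝ) :
    (ex P f) ^ 2 ≤ ex P (fun ω => f ω ^ 2) := by
  set c := ex P f with hc
  have h0 : 0 ≤ ∑ ω, P ω * (f ω - c) ^ 2 :=
    Finset.sum_nonneg fun ω _ => mul_nonneg (hP.pos ω).le (sq_nonneg _)
  have h1 : ∑ ω, P ω * (f ω - c) ^ 2 = ex P (fun ω => f ω ^ 2) - 2 * c * ex P f + c ^ 2 := by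
    unfold ex
    have h2 : ∀ ω, P ω * (f ω - c) ^ 2 = P ω * f ω ^ 2 - 2 * c * (P ω * f ω) + c ^ 2 * P ω := by
      intro ω; ring
    simp only [h2]
    rw [Finset.sum_add_distrib, Finset.sum_sub_distrib, ← Finset.mul_sum, ← Finset.mul_sum, hP.sum,
      mul_one]
  rw [h1, ← hc] at h0
  nlinarith

theorem C6_d2_ge (S : Sys) (b : ℕ) (g : Feat) : -4 * (S.L : ℝ) ≤ S.d2 b g := by
  unfold Sys.d2
  have hR : (0 : ℝ) < S.R := by exact_mod_cast S.R_pos
  have h1 : ∀ r : S.Root, S.prR r * (-4 * (S.L : ℝ)) ≤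
      S.prR r * Classical.choose (S.lTy_second b g r) := by
    intro r
    refine mul_le_mul_of_nonneg_left ?_ (S.prR_nonneg r)
    have h2 := (Classical.choose_spec (S.lTy_second b g r)).1
    have h3 := C6_ex_sq_le (S.PL_law r) (S.UU b g r)
    have h4 : 0 ≤ (1 / (S.R : ℝ)) * (ex (S.PL r) (fun ω => (S.UU b g r ω) ^ 2) -
        (ex (S.PL r) (S.UU b g r)) ^ 2) :=
      mul_nonneg (by positivity) (by linarith)
    linarith
  calc -4 * (S.L : ℝ) = ∑ r : S.Root, S.prR r * (-4 * (S.L : ℝ)) := by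
        rw [← Finset.sum_mul, S.prR_sum, one_mul]
    _ ≤ _ := Finset.sum_le_sum fun r _ => h1 r

theorem det1_window {p : ℕ} (C : Core p) {α : ℝ} (hα : 0 < α) {Mt : ℕ → ℕ} (hM : TruncOK α Mt)
    {code : ℕ → TC} (hcode : ∀ b, tnorm (code b) < 1 / 4) (s : ℕ) {γ : ℝ} (hγ : 0 < γ) :
    ∃ K0 : ℕ, ∀ K : ℕ, K0 < K → ∃ (x : PIdx s → ℝ) (hx : ∀ i, |x i| ≤ 1), ∀ i : PIdx s,
      ∑ k ∈ Finset.Ico K0 K, (SS C hα Mt hcode s k x hx).Dvar i.1 0 (fun _ => toFeat i.2) ≤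
        γ * ((K : ℝ) - K0) := by
  obtain ⟨Cv, hCv0, hCv⟩ := core_var C hα hM
  have hepos : 0 < eps s := eps_pos s
  have heps4 : eps s ≤ 1 / 4 := by
    unfold eps
    have hc : (1 : ℝ) ≤ Fintype.card (FIdx s) := by
      exact_mod_cast Fintype.card_pos
    have hs0 : (0 : ℝ) ≤ s := Nat.cast_nonneg s
    apply one_div_le_one_div_of_le (by norm_num)
    nlinarith
  set e := eps s with he
  set B : ℝ := (4 : ℝ) ^ (s + 2) with hB
  have hBpos : 0 < B := by positivity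
  set η : ℝ := min (e / 2) (γ / (2 * B * (32 / e + 192))) with hη
  have hηpos : 0 < η := lt_min (by positivity) (by positivity)
  have hη1 : η ≤ e / 2 := min_le_left _ _
  have hη2 : B * (32 / e + 192) * η ≤ γ / 2 := by
    have h := min_le_right (e / 2) (γ / (2 * B * (32 / e + 192)))
    rw [← hη, le_div_iff₀ (by positivity)] at h
    linarith
  have hη4 : η ≤ 1 / 4 := by linarith
  set M : ℝ := (2 : ℝ) ^ (s + 1) * (s + 1) * (8 / e + 4) + 16 * Real.sqrt Cv * (s + 1) / η with hMdef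
  have hM0 : 0 ≤ M := by positivity
  obtain ⟨K0, hK0⟩ := exists_nat_ge ((2 * B * M / γ) ^ 2)
  have hK0pos : (0 : ℝ) < (K0 : ℝ) + 1 := by positivity
  have hsq : 2 * B * M / γ ≤ Real.sqrt ((K0 : ℝ) + 1) := by
    apply Real.le_sqrt_of_sq_le
    linarith
  have hsqpos : 0 < Real.sqrt ((K0 : ℝ) + 1) := Real.sqrt_pos.mpr hK0pos
  have hMB : B * (M / Real.sqrt ((K0 : ℝ) + 1)) ≤ γ / 2 := by
    rw [div_le_iff₀ hγ] at hsq
    rw [← mul_div_assoc, div_le_iff₀ hsqpos]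
    linarith
  refine ⟨K0, fun K hK => ?_⟩
  have hKK : (0 : ℝ) < (K : ℝ) - K0 := by
    have : (K0 : ℝ) < K := by exact_mod_cast hK
    linarith
  -- number of slots
  have hLpos : ∀ k : ℕ, (0 : ℝ) < (Lf s (k + 1) : ℝ) := fun k => by
    unfold Lf; positivity
  have hLge : ∀ k : ℕ, ((k : ℝ) + 1) / (s + 1) ≤ (Lf s (k + 1) : ℝ) := by
    intro k
    unfold Lf
    rw [div_le_iff₀ (by positivity)]
    have h1 := Nat.lt_div_mul_add (a := k + 1) (b := s + 1) (Nat.succ_pos s)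
    have h2 : k + 1 ≤ ((k + 1) / (s + 1) + 1) * (s + 1) := by
      have : ((k + 1) / (s + 1) + 1) * (s + 1) = (k + 1) / (s + 1) * (s + 1) + (s + 1) := by ring
      omega
    exact_mod_cast h2
  set Θ : (PIdx s → ℝ) → ℝ := fun x =>
    ∑ k ∈ Finset.Ico K0 K, psx C hα Mt hcode s k x / (Lf s (k + 1) : ℝ) with hΘ
  have hcard : ∑ _k ∈ Finset.Ico K0 K, (1 : ℝ) = (K : ℝ) - K0 := by
    rw [Finset.sum_const, Nat.card_Ico, nsmul_eq_mul, mul_one, Nat.cast_sub hK.le]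
  obtain ⟨x, hx, hgood⟩ := exists_good Θ (c := 2 * e * ((K : ℝ) - K0)) (A := 8 * e * ((K : ℝ) - K0))
    (by positivity) (by linarith) (by positivity)
    (by
      refine continuousOn_finsetSum _ fun k _ => ?_
      exact (psx_cont C hα Mt hcode s k).div_const _)
    (by
      intro x hx i t ht
      have h1 : Θ (Function.update x i t) - Θ x =
          ∑ k ∈ Finset.Ico K0 K, (psx C hα Mt hcode s k (Function.update x i t) -
            psx C hα Mt hcode s k x) / (Lf s (k + 1) : ℝ) := by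
        rw [hΘ]
        simp only
        rw [← Finset.sum_sub_distrib]
        refine Finset.sum_congr rfl fun k _ => ?_
        ring
      rw [h1]
      refine (Finset.abs_sum_le_sum_abs _ _).trans ?_
      calc ∑ k ∈ Finset.Ico K0 K, |(psx C hα Mt hcode s k (Function.update x i t) -
            psx C hα Mt hcode s k x) / (Lf s (k + 1) : ℝ)| ≤
            ∑ _k ∈ Finset.Ico K0 K, (2 * e * |t - x i|) * 1 := by
            refine Finset.sum_le_sum fun k _ => ?_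
            rw [abs_div, abs_of_pos (hLpos k), div_le_iff₀ (hLpos k)]
            have := psx_lip C hα Mt hcode s k hx i ht
            rw [← he] at this
            linarith
        _ = 2 * e * ((K : ℝ) - K0) * |t - x i| := by
            rw [← Finset.mul_sum, hcard]; ring)
  have hx1 : ∀ i, |x i| ≤ 1 := fun i => (hx i).trans (by norm_num)
  refine ⟨x, hx1, fun i => ?_⟩
  -- averaged second differences
  have hsd : ∀ δ : ℝ, 0 < δ → δ ≤ e / 2 →
      ∑ k ∈ Finset.Ico K0 K, (SS C hα Mt hcode s k x hx1).sd i.1 (toFeat i.2) δ /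
        (Lf s (k + 1) : ℝ) ≤ 8 / e * ((K : ℝ) - K0) * δ ^ 2 := by
    intro δ hδ hδe
    have hδ2 : |δ / e| ≤ 1 / 2 := by
      rw [abs_of_pos (by positivity), div_le_iff₀ hepos]
      linarith
    have h1 := hgood i (δ / e) hδ2
    have h2 : Θ (Function.update x i (x i + δ / e)) + Θ (Function.update x i (x i - δ / e)) -
        2 * Θ x = ∑ k ∈ Finset.Ico K0 K, (SS C hα Mt hcode s k x hx1).sd i.1 (toFeat i.2) δ /
        (Lf s (k + 1) : ℝ) := by
      rw [hΘ]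
      simp only
      rw [Finset.mul_sum, ← Finset.sum_add_distrib, ← Finset.sum_sub_distrib]
      refine Finset.sum_congr rfl fun k _ => ?_
      have h3 := psx_sd C hα Mt hcode s k hx i hδ2
      rw [← he, mul_div_cancel₀ δ hepos.ne'] at h3
      rw [← h3]
      ring
    rw [h2] at h1
    refine h1.trans (le_of_eq ?_)
    field_simp
  have hd2 : ∑ k ∈ Finset.Ico K0 K, (SS C hα Mt hcode s k x hx1).d2 i.1 (toFeat i.2) /
      (Lf s (k + 1) : ℝ) ≤ 8 / e * ((K : ℝ) - K0) := by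
    have ht : Filter.Tendsto (fun δ : ℝ => ∑ k ∈ Finset.Ico K0 K,
        ((SS C hα Mt hcode s k x hx1).sd i.1 (toFeat i.2) δ / δ ^ 2) / (Lf s (k + 1) : ℝ))
        (nhdsWithin 0 (Set.Ioi 0)) (nhds (∑ k ∈ Finset.Ico K0 K,
          (SS C hα Mt hcode s k x hx1).d2 i.1 (toFeat i.2) / (Lf s (k + 1) : ℝ))) := by
      refine tendsto_finsetSum _ fun k _ => ?_
      exact ((SS C hα Mt hcode s k x hx1).sd_tendsto i.1 (toFeat i.2)).div_const _
    refine le_of_tendsto ht ?_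
    have hmem : Set.Ioc (0 : ℝ) (e / 2) ∈ nhdsWithin (0 : ℝ) (Set.Ioi 0) :=
      Ioc_mem_nhdsGT (by positivity)
    filter_upwards [hmem] with δ hδ
    have h1 := hsd δ hδ.1 hδ.2
    have hδ2 : 0 < δ ^ 2 := by have := hδ.1; positivity
    have h2 : ∑ k ∈ Finset.Ico K0 K,
        ((SS C hα Mt hcode s k x hx1).sd i.1 (toFeat i.2) δ / δ ^ 2) / (Lf s (k + 1) : ℝ) =
        (∑ k ∈ Finset.Ico K0 K, (SS C hα Mt hcode s k x hx1).sd i.1 (toFeat i.2) δ /
          (Lf s (k + 1) : ℝ)) / δ ^ 2 := by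
      rw [Finset.sum_div]
      refine Finset.sum_congr rfl fun k _ => ?_
      rw [div_right_comm]
    rw [h2, div_le_iff₀ hδ2]
    exact h1
  -- one term
  have hterm : ∀ k ∈ Finset.Ico K0 K,
      (SS C hα Mt hcode s k x hx1).Dvar i.1 0 (fun _ => toFeat i.2) ≤
      4 ^ ((i.1 : ℕ) + 2) * (((2 : ℝ) ^ (s + 1) * (s + 1) / ((K0 : ℝ) + 1)) *
        ((SS C hα Mt hcode s k x hx1).d2 i.1 (toFeat i.2) / (Lf s (k + 1) : ℝ) + 4) +
        4 * (4 * (Real.sqrt Cv * (s + 1) / (Real.sqrt ((K0 : ℝ) + 1) * η)) +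
          ((SS C hα Mt hcode s k x hx1).sd i.1 (toFeat i.2) η / (Lf s (k + 1) : ℝ)) / η +
          48 * η)) := by
    intro k hk
    have hk0 : (K0 : ℝ) ≤ k := by exact_mod_cast (Finset.mem_Ico.mp hk).1
    have hb := (SS C hα Mt hcode s k x hx1).Dvar_bound i.1 (toFeat i.2)
      (v := Cv * ((k + 1 : ℕ) : ℝ)) hηpos hη4 (fun y hy =>
        hCv (frx s code hcode x hx1) (k + 1) (Lf s (k + 1)) (Nat.succ_pos k) (Nat.succ_pos _)
          (by
            unfold Lf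
            have := Nat.div_le_self (k + 1) (s + 1)
            omega) i.1 (toFeat i.2) y hy)
    refine hb.trans (mul_le_mul_of_nonneg_left ?_ (by positivity))
    have eR : ((SS C hα Mt hcode s k x hx1).R : ℝ) = (2 : ℝ) ^ (s + 1) := by
      show ((2 ^ (s + 1) : ℕ) : ℝ) = _
      push_cast; ring
    have eL : ((SS C hα Mt hcode s k x hx1).L : ℝ) = (Lf s (k + 1) : ℝ) := rfl
    rw [eR, eL]
    have hL := hLpos k
    have hLg := hLge k
    have hs1 : (0 : ℝ) < (s : ℝ) + 1 := by positivity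
    have hLK : ((K0 : ℝ) + 1) / (s + 1) ≤ (Lf s (k + 1) : ℝ) :=
      le_trans (by gcongr) hLg
    have h1 : (2 : ℝ) ^ (s + 1) / (Lf s (k + 1) : ℝ) ≤
        (2 : ℝ) ^ (s + 1) * (s + 1) / ((K0 : ℝ) + 1) := by
      rw [div_le_div_iff₀ hL hK0pos]
      rw [div_le_iff₀ hs1] at hLK
      have : (0 : ℝ) < 2 ^ (s + 1) := by positivity
      nlinarith
    have h2 : 0 ≤ (SS C hα Mt hcode s k x hx1).d2 i.1 (toFeat i.2) / (Lf s (k + 1) : ℝ) + 4 := by
      have h3 := C6_d2_ge (SS C hα Mt hcode s k x hx1) i.1 (toFeat i.2)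
      rw [eL] at h3
      have h4 : -4 ≤ (SS C hα Mt hcode s k x hx1).d2 i.1 (toFeat i.2) / (Lf s (k + 1) : ℝ) := by
        rw [le_div_iff₀ hL]; exact h3
      linarith
    have h5 : Real.sqrt (Cv * ((k + 1 : ℕ) : ℝ)) / ((Lf s (k + 1) : ℝ) * η) ≤
        Real.sqrt Cv * (s + 1) / (Real.sqrt ((K0 : ℝ) + 1) * η) := by
      rw [Real.sqrt_mul hCv0]
      have hk1 : (0 : ℝ) < (k : ℝ) + 1 := by positivity
      have hsk : 0 < Real.sqrt ((k : ℝ) + 1) := Real.sqrt_pos.mpr hk1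
      have h6 : Real.sqrt ((K0 : ℝ) + 1) ≤ Real.sqrt ((k : ℝ) + 1) := Real.sqrt_le_sqrt (by linarith)
      have h7 : Real.sqrt ((k : ℝ) + 1) * Real.sqrt ((K0 : ℝ) + 1) ≤ (s + 1) * (Lf s (k + 1) : ℝ) := by
        rw [div_le_iff₀ hs1] at hLg
        have h8 : Real.sqrt ((k : ℝ) + 1) * Real.sqrt ((k : ℝ) + 1) = (k : ℝ) + 1 :=
          Real.mul_self_sqrt hk1.le
        nlinarith
      push_cast
      rw [div_le_div_iff₀ (by positivity) (by positivity)]
      have hC := Real.sqrt_nonneg Cv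
      calc Real.sqrt Cv * Real.sqrt ((k : ℝ) + 1) * (Real.sqrt ((K0 : ℝ) + 1) * η) =
          (Real.sqrt Cv * η) * (Real.sqrt ((k : ℝ) + 1) * Real.sqrt ((K0 : ℝ) + 1)) := by ring
        _ ≤ (Real.sqrt Cv * η) * ((s + 1) * (Lf s (k + 1) : ℝ)) :=
          mul_le_mul_of_nonneg_left h7 (by positivity)
        _ = Real.sqrt Cv * (s + 1) * ((Lf s (k + 1) : ℝ) * η) := by ring
    have h9 := mul_le_mul_of_nonneg_right h1 h2
    have h10 : 4 * Real.sqrt (Cv * ((k + 1 : ℕ) : ℝ)) / ((Lf s (k + 1) : ℝ) * η) ≤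
        4 * (Real.sqrt Cv * (s + 1) / (Real.sqrt ((K0 : ℝ) + 1) * η)) := by
      rw [mul_div_assoc]
      linarith
    linarith
  refine (Finset.sum_le_sum hterm).trans ?_
  rw [← Finset.mul_sum]
  have hsum : ∑ k ∈ Finset.Ico K0 K, (((2 : ℝ) ^ (s + 1) * (s + 1) / ((K0 : ℝ) + 1)) *
        ((SS C hα Mt hcode s k x hx1).d2 i.1 (toFeat i.2) / (Lf s (k + 1) : ℝ) + 4) +
        4 * (4 * (Real.sqrt Cv * (s + 1) / (Real.sqrt ((K0 : ℝ) + 1) * η)) +
          ((SS C hα Mt hcode s k x hx1).sd i.1 (toFeat i.2) η / (Lf s (k + 1) : ℝ)) / η +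
          48 * η)) ≤
      ((K : ℝ) - K0) * (M / Real.sqrt ((K0 : ℝ) + 1) + (32 / e + 192) * η) := by
    have e1 : ∑ k ∈ Finset.Ico K0 K, (((2 : ℝ) ^ (s + 1) * (s + 1) / ((K0 : ℝ) + 1)) *
        ((SS C hα Mt hcode s k x hx1).d2 i.1 (toFeat i.2) / (Lf s (k + 1) : ℝ) + 4) +
        4 * (4 * (Real.sqrt Cv * (s + 1) / (Real.sqrt ((K0 : ℝ) + 1) * η)) +
          ((SS C hα Mt hcode s k x hx1).sd i.1 (toFeat i.2) η / (Lf s (k + 1) : ℝ)) / η +
          48 * η)) =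
        ((2 : ℝ) ^ (s + 1) * (s + 1) / ((K0 : ℝ) + 1)) *
          ((∑ k ∈ Finset.Ico K0 K, (SS C hα Mt hcode s k x hx1).d2 i.1 (toFeat i.2) /
            (Lf s (k + 1) : ℝ)) + 4 * ((K : ℝ) - K0)) +
        (16 * (Real.sqrt Cv * (s + 1) / (Real.sqrt ((K0 : ℝ) + 1) * η)) + 192 * η) *
          ((K : ℝ) - K0) +
        4 / η * ∑ k ∈ Finset.Ico K0 K, (SS C hα Mt hcode s k x hx1).sd i.1 (toFeat i.2) η /
          (Lf s (k + 1) : ℝ) := by
      rw [← hcard, Finset.mul_sum, Finset.mul_sum, Finset.mul_sum, ← Finset.sum_add_distrib,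
        Finset.mul_sum, ← Finset.sum_add_distrib, ← Finset.sum_add_distrib]
      refine Finset.sum_congr rfl fun k _ => ?_
      ring
    rw [e1]
    have h1 := hsd η hηpos hη1
    have h2 : 4 / η * ∑ k ∈ Finset.Ico K0 K, (SS C hα Mt hcode s k x hx1).sd i.1 (toFeat i.2) η /
          (Lf s (k + 1) : ℝ) ≤ 4 / η * (8 / e * ((K : ℝ) - K0) * η ^ 2) :=
      mul_le_mul_of_nonneg_left h1 (by positivity)
    have h3 : 4 / η * (8 / e * ((K : ℝ) - K0) * η ^ 2) = 32 / e * η * ((K : ℝ) - K0) := by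
      field_simp
      ring
    have h4 : ((2 : ℝ) ^ (s + 1) * (s + 1) / ((K0 : ℝ) + 1)) *
          ((∑ k ∈ Finset.Ico K0 K, (SS C hα Mt hcode s k x hx1).d2 i.1 (toFeat i.2) /
            (Lf s (k + 1) : ℝ)) + 4 * ((K : ℝ) - K0)) ≤
        ((2 : ℝ) ^ (s + 1) * (s + 1) / Real.sqrt ((K0 : ℝ) + 1)) *
          ((8 / e + 4) * ((K : ℝ) - K0)) := by
      have h5 : (∑ k ∈ Finset.Ico K0 K, (SS C hα Mt hcode s k x hx1).d2 i.1 (toFeat i.2) /
            (Lf s (k + 1) : ℝ)) + 4 * ((K : ℝ) - K0) ≤ (8 / e + 4) * ((K : ℝ) - K0) := by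
        linarith
      have h6 : (2 : ℝ) ^ (s + 1) * (s + 1) / ((K0 : ℝ) + 1) ≤
          (2 : ℝ) ^ (s + 1) * (s + 1) / Real.sqrt ((K0 : ℝ) + 1) := by
        apply div_le_div_of_nonneg_left (by positivity) hsqpos
        rw [Real.sqrt_le_left (by positivity)]
        have : (0 : ℝ) ≤ K0 := Nat.cast_nonneg K0
        nlinarith
      refine (mul_le_mul_of_nonneg_left h5 (by positivity)).trans ?_
      exact mul_le_mul_of_nonneg_right h6 (by positivity)
    have h7 : M / Real.sqrt ((K0 : ℝ) + 1) =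
        (2 : ℝ) ^ (s + 1) * (s + 1) / Real.sqrt ((K0 : ℝ) + 1) * (8 / e + 4) +
          16 * (Real.sqrt Cv * (s + 1) / (Real.sqrt ((K0 : ℝ) + 1) * η)) := by
      rw [hMdef]
      field_simp
    rw [h7]
    linarith
  have hBi : (4 : ℝ) ^ ((i.1 : ℕ) + 2) ≤ B := by
    rw [hB]
    apply pow_le_pow_right₀ (by norm_num)
    have := i.1.2
    omega
  have hfin0 : 0 ≤ ((K : ℝ) - K0) * (M / Real.sqrt ((K0 : ℝ) + 1) + (32 / e + 192) * η) := by
    positivity
  calc 4 ^ ((i.1 : ℕ) + 2) * _ ≤ 4 ^ ((i.1 : ℕ) + 2) *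
        (((K : ℝ) - K0) * (M / Real.sqrt ((K0 : ℝ) + 1) + (32 / e + 192) * η)) :=
        mul_le_mul_of_nonneg_left hsum (by positivity)
    _ ≤ B * (((K : ℝ) - K0) * (M / Real.sqrt ((K0 : ℝ) + 1) + (32 / e + 192) * η)) :=
        mul_le_mul_of_nonneg_right hBi hfin0
    _ ≤ γ * ((K : ℝ) - K0) := by
        have h1 : B * (M / Real.sqrt ((K0 : ℝ) + 1)) + B * (32 / e + 192) * η ≤ γ := by linarith
        calc B * (((K : ℝ) - K0) * (M / Real.sqrt ((K0 : ℝ) + 1) + (32 / e + 192) * η)) =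
            (B * (M / Real.sqrt ((K0 : ℝ) + 1)) + B * (32 / e + 192) * η) * ((K : ℝ) - K0) := by ring
          _ ≤ γ * ((K : ℝ) - K0) := mul_le_mul_of_nonneg_right h1 hKK.le

end Crest.SG
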