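import Crest.Agent.SG_CDefs

/-! # SG_CFam : truncation, core system, perturbed frames, the family of systems `SS s k x`
(task SG-CFam: the few sorried facts). -/

set_option autoImplicit false
set_option linter.unusedVariables false

noncomputable section
open scoped BigOperators
open Classical Filter
open Crest.ProbabilityR.Diluted Crest.Agent.SGG
namespace Crest.SG

theorem CFam_partial_le {lam : ℝ} (h : 0 ≤ lam) (M : ℕ) :
    ∑ i ∈ Finset.range M, poissonWeight lam i ≤ 1 :=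
  sum_le_hasSum _ (fun n _ => poissonWeight_nonneg h n) (hasSum_poissonWeight lam)

theorem qp_nonneg {lam : ℝ} (h : 0 ≤ lam) (M : ℕ) (n : Fin (M + 1)) : 0 ≤ qp lam M n := by
  unfold qp
  split_ifs with h0
  · have h1 := CFam_partial_le h (M + 1)
    rw [Finset.sum_range_succ'] at h1
    have := poissonWeight_nonneg h 0
    linarith
  · exact poissonWeight_nonneg h _

/-- general sum against `qp`. -/
theorem CFam_qp_sum_mul (lam : ℝ) (M : ℕ) (a : ℕ → ℝ) :
    ∑ n : Fin (M + 1), qp lam M n * a n =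
      ∑ i ∈ Finset.range (M + 1), poissonWeight lam i * a i +
        (1 - ∑ i ∈ Finset.range (M + 1), poissonWeight lam i) * a 0 := by
  rw [Fin.sum_univ_succ, Finset.sum_range_succ' (fun i => poissonWeight lam i * a i),
    Finset.sum_range_succ' (fun i => poissonWeight lam i)]
  have e1 : ∑ i : Fin M, qp lam M i.succ * a (i.succ : ℕ) =
      ∑ i ∈ Finset.range M, poissonWeight lam (i + 1) * a (i + 1) := by
    rw [Finset.sum_range]
    refine Finset.sum_congr rfl fun i _ => ?_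
    unfold qp
    rw [if_neg (by simp)]
    simp
  rw [e1]
  unfold qp
  rw [if_pos (by simp)]
  simp only [Fin.val_zero]
  ring

theorem qp_sum (lam : ℝ) (M : ℕ) : ∑ n, qp lam M n = 1 := by
  have := CFam_qp_sum_mul lam M (fun _ => 1)
  simp only [mul_one] at this
  rw [this]
  ring

section core
variable {p : ℕ} (C : Core p)

theorem CFam_wE_nonneg (e : C.E) : 0 ≤ C.wE e :=
  mul_nonneg (C.wB_nonneg _) (Finset.prod_nonneg fun _ _ => C.wF_nonneg _)

theorem CFam_wE_sum : ∑ e : C.E, C.wE e = 1 := by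
  rw [Fintype.sum_prod_type]
  unfold Core.wE
  simp only
  have h1 : ∑ x : Fin p → Fin C.nF, ∏ l, C.wF (x l) = 1 := by
    rw [← Fintype.piFinset_univ, ← Finset.prod_univ_sum]
    simp [C.wF_sum]
  simp only [← Finset.mul_sum, h1, mul_one, C.wB_sum]

theorem piE_nonneg (k : ℕ) (e : Edg C k) : 0 ≤ piE C k e := by
  unfold piE
  exact mul_nonneg (CFam_wE_nonneg C _) (by positivity)

theorem piE_sum {k : ℕ} (hk : 0 < k) : ∑ e, piE C k e = 1 := by
  rw [Fintype.sum_prod_type]
  unfold piE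
  simp only [Finset.sum_const, Finset.card_univ, Fintype.card_fun, Fintype.card_fin, nsmul_eq_mul]
  have hk' : (k : ℝ) ≠ 0 := by exact_mod_cast hk.ne'
  have h1 : ∀ w : ℝ, ((k ^ p : ℕ) : ℝ) * (w * (1 / (k : ℝ)) ^ p) = w := by
    intro w
    push_cast
    have : (k : ℝ) ^ p * (1 / (k : ℝ)) ^ p = 1 := by
      rw [← mul_pow, mul_one_div_cancel hk', one_pow]
    linear_combination w * this
  simp only [h1]
  exact CFam_wE_sum C

theorem prC_nonneg (k M : ℕ) {lam : ℝ} (h : 0 ≤ lam) (r : CRoot C k M) : 0 ≤ prC C k M lam r := by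
  unfold prC
  exact mul_nonneg (qp_nonneg h M _)
    (mul_nonneg (Finset.prod_nonneg fun i _ => piE_nonneg C k _) (prF_nonneg C k _))

theorem prC_sum {k : ℕ} (hk : 0 < k) (M : ℕ) (lam : ℝ) : ∑ r, prC C k M lam r = 1 := by
  rw [Fintype.sum_prod_type]
  have h2 : ∑ e : Fin M → Edg C k, ∏ i, piE C k (e i) = 1 := by
    rw [← Fintype.piFinset_univ, ← Finset.prod_univ_sum]
    simp [piE_sum C hk]
  have h3 : ∀ n : Fin (M + 1), ∑ y : (Fin M → Edg C k) × (Fin k → Fin C.nH),
      prC C k M lam (n, y) = qp lam M n := by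
    intro n
    rw [Fintype.sum_prod_type]
    unfold prC
    simp only [← Finset.mul_sum, prF_sum, mul_one, h2]
  simp only [h3]
  exact qp_sum lam M

/-- the core system. -/
def coreSys (fr : Fr) (k L M : ℕ) (hk : 0 < k) (hL : 0 < L) (lam : ℝ) (h : 0 ≤ lam) : Sys :=
  fr.sys k L hk hL (CRoot C k M) (prC C k M lam) (prC_nonneg C k M h) (prC_sum C hk M lam)
    (wC C k M)

end core

/-- truncation levels of the Poisson law with mean `α k`. -/
def TruncOK (α : ℝ) (Mt : ℕ → ℕ) : Prop :=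
  ∀ k : ℕ, (∀ a : ℕ → ℝ, LinG 1 a →
      |Poi (α * k) a - ∑ n : Fin (Mt k + 1), qp (α * k) (Mt k) n * a n| ≤ 1 / ((k : ℝ) + 1)) ∧
    ∑ n : Fin (Mt k + 1), qp (α * k) (Mt k) n * ((n : ℝ) - α * k) ^ 2 ≤ α * k + 1

theorem CFam_hasSum_sq (lam : ℝ) :
    HasSum (fun n : ℕ => poissonWeight lam n * ((n : ℝ) - lam) ^ 2) lam := by
  have h1 := hasSum_poissonWeight lam
  have h2 := hasSum_poissonWeight_mul lam
  have h3 : HasSum (fun n : ℕ => poissonWeight lam (n + 1) * (((n + 1 : ℕ) : ℝ)) ^ 2)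
      (lam * (lam + 1)) := by
    have e : (fun n : ℕ => poissonWeight lam (n + 1) * (((n + 1 : ℕ) : ℝ)) ^ 2) =
        fun n : ℕ => lam * (poissonWeight lam n * (n : ℝ) + poissonWeight lam n) := by
      funext n
      have := poissonWeight_succ_mul lam n
      rw [pow_two, ← mul_assoc, this]
      push_cast
      ring
    rw [e]
    exact (h2.add h1).mul_left lam
  have h4 := (hasSum_nat_add_iff (f := fun n : ℕ => poissonWeight lam n * (n : ℝ) ^ 2) 1).1 h3
  simp only [Finset.range_one, Finset.sum_singleton, Nat.cast_zero, ne_eq, OfNat.ofNat_ne_zero,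
    not_false_eq_true, zero_pow, mul_zero, add_zero] at h4
  have h5 := (h4.add (h1.mul_right (lam ^ 2))).sub (h2.mul_right (2 * lam))
  have e1 : lam * (lam + 1) + 1 * lam ^ 2 - lam * (2 * lam) = lam := by ring
  rw [e1] at h5
  have e2 : (fun n : ℕ => poissonWeight lam n * ((n : ℝ) - lam) ^ 2) = fun n : ℕ =>
      poissonWeight lam n * (n : ℝ) ^ 2 + poissonWeight lam n * lam ^ 2 -
        poissonWeight lam n * (n : ℝ) * (2 * lam) := by
    funext n; ring
  rw [e2]
  exact h5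

/-- one truncation level. -/
theorem CFam_trunc1 {lam : ℝ} (h : 0 ≤ lam) {ε : ℝ} (hε : 0 < ε) : ∃ M : ℕ,
    (∀ a : ℕ → ℝ, LinG 1 a → |Poi lam a - ∑ n : Fin (M + 1), qp lam M n * a n| ≤ ε) ∧
    ∑ n : Fin (M + 1), qp lam M n * ((n : ℝ) - lam) ^ 2 ≤ lam + 1 := by
  have h1 := hasSum_poissonWeight lam
  have h2 : HasSum (fun n : ℕ => poissonWeight lam n * ((n : ℝ) + 1)) (lam + 1) := by
    have := (hasSum_poissonWeight_mul lam).add h1
    have e2 : (fun n : ℕ => poissonWeight lam n * ((n : ℝ) + 1)) = fun n : ℕ =>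
        poissonWeight lam n * (n : ℝ) + poissonWeight lam n := by
      funext n; ring
    rw [e2]
    exact this
  -- tails
  have t1 : Tendsto (fun M : ℕ => 1 - ∑ i ∈ Finset.range (M + 1), poissonWeight lam i) atTop
      (nhds 0) := by
    have := (h1.tendsto_sum_nat.comp (tendsto_add_atTop_nat 1)).const_sub 1
    simpa using this
  have t2 : Tendsto (fun M : ℕ => (lam + 1) -
      ∑ i ∈ Finset.range (M + 1), poissonWeight lam i * ((i : ℝ) + 1)) atTop (nhds 0) := by
    have := (h2.tendsto_sum_nat.comp (tendsto_add_atTop_nat 1)).const_sub (lam + 1)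
    simpa using this
  have t3 := t1.add t2
  have t4 := t1.mul_const (lam ^ 2)
  rw [add_zero] at t3
  rw [zero_mul] at t4
  have ev3 := t3.eventually (eventually_lt_nhds hε)
  have ev4 := t4.eventually (eventually_lt_nhds (one_pos))
  obtain ⟨M, hM3, hM4⟩ := (ev3.and ev4).exists
  refine ⟨M, fun a ha => ?_, ?_⟩
  · rw [CFam_qp_sum_mul]
    have hs := Poi_summable h ha
    have e1 : Poi lam a = ∑ i ∈ Finset.range (M + 1), poissonWeight lam i * a i +
        ∑' i, poissonWeight lam (i + (M + 1)) * a (i + (M + 1)) :=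
      (hs.sum_add_tsum_nat_add (M + 1)).symm
    have e2 : lam + 1 = ∑ i ∈ Finset.range (M + 1), poissonWeight lam i * ((i : ℝ) + 1) +
        ∑' i, poissonWeight lam (i + (M + 1)) * (((i + (M + 1) : ℕ) : ℝ) + 1) := by
      rw [← h2.tsum_eq]
      exact (h2.summable.sum_add_tsum_nat_add (M + 1)).symm
    have hs1 : Summable fun i => poissonWeight lam (i + (M + 1)) * a (i + (M + 1)) :=
      (summable_nat_add_iff (f := fun i => poissonWeight lam i * a i) (M + 1)).2 hs
    have hs2 : Summable fun i : ℕ => poissonWeight lam (i + (M + 1)) *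
        (((i + (M + 1) : ℕ) : ℝ) + 1) :=
      (summable_nat_add_iff (f := fun i : ℕ => poissonWeight lam i * ((i : ℝ) + 1)) (M + 1)).2
        h2.summable
    have hb : |∑' i, poissonWeight lam (i + (M + 1)) * a (i + (M + 1))| ≤
        ∑' i : ℕ, poissonWeight lam (i + (M + 1)) * (((i + (M + 1) : ℕ) : ℝ) + 1) := by
      have hle : ∀ i : ℕ, ‖poissonWeight lam (i + (M + 1)) * a (i + (M + 1))‖ ≤
          poissonWeight lam (i + (M + 1)) * (((i + (M + 1) : ℕ) : ℝ) + 1) := by
        intro i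
        rw [Real.norm_eq_abs, abs_mul, abs_of_nonneg (poissonWeight_nonneg h _)]
        have := ha (i + (M + 1))
        rw [one_mul] at this
        exact mul_le_mul_of_nonneg_left this (poissonWeight_nonneg h _)
      rw [← Real.norm_eq_abs]
      exact tsum_of_norm_bounded hs2.hasSum hle
    have ht := CFam_partial_le h (M + 1)
    have ha0 := ha 0
    simp only [Nat.cast_zero, zero_add, mul_one] at ha0
    rw [e1]
    have e3 : ∀ A B t : ℝ, A + B - (A + t * a 0) = B - t * a 0 := fun A B t => by ring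
    rw [e3]
    refine (abs_sub _ _).trans ?_
    rw [abs_mul, abs_of_nonneg (sub_nonneg.2 ht)]
    have h7 : (1 - ∑ i ∈ Finset.range (M + 1), poissonWeight lam i) * |a 0| ≤
        (1 - ∑ i ∈ Finset.range (M + 1), poissonWeight lam i) * 1 :=
      mul_le_mul_of_nonneg_left ha0 (sub_nonneg.2 ht)
    linarith
  · have e := CFam_qp_sum_mul lam M (fun n => ((n : ℝ) - lam) ^ 2)
    rw [e]
    have h8 : ∑ i ∈ Finset.range (M + 1), poissonWeight lam i * ((i : ℝ) - lam) ^ 2 ≤ lam :=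
      sum_le_hasSum _ (fun n _ => mul_nonneg (poissonWeight_nonneg h n) (sq_nonneg _))
        (CFam_hasSum_sq lam)
    simp only [Nat.cast_zero, zero_sub, even_two, Even.neg_pow]
    linarith

theorem exists_trunc {α : ℝ} (hα : 0 < α) : ∃ Mt : ℕ → ℕ, TruncOK α Mt := by
  have h := fun k : ℕ => CFam_trunc1 (lam := α * k) (by positivity)
    (ε := 1 / ((k : ℝ) + 1)) (by positivity)
  choose Mt hMt using h
  exact ⟨Mt, hMt⟩

/-! ### perturbed frames -/

/-- features with label bits `< s`. -/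
abbrev FIdx (s : ℕ) : Type := Bool × Finset (Fin s)

/-- index set of the perturbation parameters: species `b < s` and feature. -/
abbrev PIdx (s : ℕ) : Type := Fin s × FIdx s

def toFeat {s : ℕ} (g : FIdx s) : Feat := (g.1, g.2.map Fin.valEmbedding)

/-- scale of the perturbation. -/
def eps (s : ℕ) : ℝ := 1 / (4 * ((s : ℝ) + 1) * Fintype.card (FIdx s))

theorem eps_pos (s : ℕ) : 0 < eps s := by
  unfold eps
  have : (0 : ℝ) < Fintype.card (FIdx s) := by exact_mod_cast Fintype.card_pos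
  positivity

/-- the perturbed species weights. -/
def Wx (s : ℕ) (code : ℕ → TC) (x : PIdx s → ℝ) (b : ℕ) (σ : Bool) (l : ℕ → Bool) : ℝ :=
  1 + tval (code b) σ l +
    (if h : b < s then eps s * ∑ g : FIdx s, x (⟨b, h⟩, g) * fval (toFeat g) σ l else 0)

theorem Wx_close (s : ℕ) (code : ℕ → TC) {x : PIdx s → ℝ} (hx : ∀ i, |x i| ≤ 1) (b : ℕ)
    (σ : Bool) (l : ℕ → Bool) :
    |Wx s code x b σ l - (1 + tval (code b) σ l)| ≤ 1 / (4 * ((s : ℝ) + 1)) := by
  unfold Wx
  rw [add_sub_cancel_left]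
  split_ifs with h
  · rw [abs_mul, abs_of_pos (eps_pos s)]
    have hc : (0 : ℝ) < Fintype.card (FIdx s) := by exact_mod_cast Fintype.card_pos
    have h1 : |∑ g : FIdx s, x (⟨b, h⟩, g) * fval (toFeat g) σ l| ≤ Fintype.card (FIdx s) := by
      refine (Finset.abs_sum_le_sum_abs _ _).trans ?_
      calc ∑ g : FIdx s, |x (⟨b, h⟩, g) * fval (toFeat g) σ l| ≤ ∑ g : FIdx s, (1 : ℝ) := by
            refine Finset.sum_le_sum fun g _ => ?_
            rw [abs_mul, abs_fval, mul_one]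
            exact hx _
        _ = _ := by simp
    calc eps s * |∑ g : FIdx s, x (⟨b, h⟩, g) * fval (toFeat g) σ l|
        ≤ eps s * Fintype.card (FIdx s) := mul_le_mul_of_nonneg_left h1 (eps_pos s).le
      _ = 1 / (4 * ((s : ℝ) + 1)) := by
          unfold eps
          have h4 : (4 * ((s : ℝ) + 1)) ≠ 0 := by positivity
          rw [div_mul_eq_mul_div, one_mul, mul_comm (4 * ((s : ℝ) + 1)), ← div_div, div_self hc.ne']
  · rw [abs_zero]; positivity

theorem CFam_bd (s : ℕ) {code : ℕ → TC} (hcode : ∀ b, tnorm (code b) < 1 / 4) {x : PIdx s → ℝ}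
    (hx : ∀ i, |x i| ≤ 1) (b : ℕ) (σ : Bool) (l : ℕ → Bool) : |Wx s code x b σ l - 1| ≤ 1 / 2 := by
  have h1 := Wx_close s code hx b σ l
  have h2 := abs_tval_le (code b) σ l
  have h3 : (tnorm (code b) : ℝ) < 1 / 4 := by
    have := hcode b
    have h4 : ((tnorm (code b) : ℚ) : ℝ) < ((1 / 4 : ℚ) : ℝ) := by exact_mod_cast this
    push_cast at h4
    exact h4
  have h5 : 1 / (4 * ((s : ℝ) + 1)) ≤ 1 / 4 := by
    have : (0 : ℝ) ≤ s := Nat.cast_nonneg s
    apply one_div_le_one_div_of_le (by norm_num)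
    linarith
  rw [abs_le] at h1 h2 ⊢
  constructor <;> linarith [h1.1, h1.2, h2.1, h2.2]

theorem Wx_lo (s : ℕ) {code : ℕ → TC} (hcode : ∀ b, tnorm (code b) < 1 / 4) {x : PIdx s → ℝ}
    (hx : ∀ i, |x i| ≤ 1) (b : ℕ) (σ : Bool) (l : ℕ → Bool) : 1 / 2 ≤ Wx s code x b σ l := by
  have h1 := CFam_bd s hcode hx b σ l
  have := (abs_le.1 h1).1
  linarith

theorem Wx_hi (s : ℕ) {code : ℕ → TC} (hcode : ∀ b, tnorm (code b) < 1 / 4) {x : PIdx s → ℝ}
    (hx : ∀ i, |x i| ≤ 1) (b : ℕ) (σ : Bool) (l : ℕ → Bool) : Wx s code x b σ l ≤ 3 / 2 := by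
  have h1 := CFam_bd s hcode hx b σ l
  have := (abs_le.1 h1).2
  linarith

/-- dyadic level of label bit `n` in the system with `2^(s+1)` levels. -/
def levf (s n : ℕ) : ℕ :=
  let d := (Nat.unpair (Nat.unpair n).1).1 + 1
  let i := (Nat.unpair (Nat.unpair n).1).2 % (2 ^ d - 1) + 1
  max 1 (min (i * 2 ^ (s + 1) / 2 ^ d) (2 ^ (s + 1) - 1))

theorem levf_pos (s n : ℕ) : 1 ≤ levf s n := le_max_left _ _

theorem levf_lt (s n : ℕ) : levf s n < 2 ^ (s + 1) := by
  have h1 : 2 ≤ 2 ^ (s + 1) := by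
    calc 2 = 2 ^ 1 := rfl
      _ ≤ 2 ^ (s + 1) := Nat.pow_le_pow_right (by norm_num) (by omega)
  unfold levf
  simp only
  rw [max_lt_iff]
  exact ⟨by omega, lt_of_le_of_lt (min_le_right _ _) (by omega)⟩

theorem levf_ex (d i : ℕ) (h0 : 0 < i) (h1 : i < 2 ^ d) (A : Finset ℕ) :
    ∃ n, n ∉ A ∧ ∀ᶠ s in atTop, levf s n = i * 2 ^ (s + 1 - d) := by
  have hd : d ≠ 0 := by
    rintro rfl
    simp at h1
    omega
  obtain ⟨n, hn, hnA⟩ : ∃ n ∈ Set.range (fun j => Nat.pair (Nat.pair (d - 1) (i - 1)) j), n ∉ A := by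
    have hinf : (Set.range (fun j => Nat.pair (Nat.pair (d - 1) (i - 1)) j)).Infinite := by
      refine Set.infinite_range_of_injective fun a b hab => ?_
      have := congrArg Nat.unpair hab
      simp only [Nat.unpair_pair, Prod.mk.injEq] at this
      exact this.2
    exact hinf.exists_notMem_finset A
  obtain ⟨j, rfl⟩ := hn
  refine ⟨_, hnA, ?_⟩
  filter_upwards [eventually_ge_atTop d] with s hs
  unfold levf
  simp only [Nat.unpair_pair]
  have e1 : d - 1 + 1 = d := by omega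
  have e2 : (i - 1) % (2 ^ d - 1) + 1 = i := by
    rw [Nat.mod_eq_of_lt (by omega)]; omega
  rw [e1, e2]
  have e3 : 2 ^ (s + 1) = 2 ^ (s + 1 - d) * 2 ^ d := by
    rw [← pow_add]; congr 1; omega
  have e4 : i * 2 ^ (s + 1) / 2 ^ d = i * 2 ^ (s + 1 - d) := by
    rw [e3, ← mul_assoc, Nat.mul_div_cancel _ (by positivity)]
  rw [e4]
  have h5 : 1 ≤ 2 ^ (s + 1 - d) := Nat.one_le_two_pow
  have h6 : i * 2 ^ (s + 1 - d) ≤ 2 ^ (s + 1) - 1 := by
    have h7 : (i + 1) * 2 ^ (s + 1 - d) ≤ 2 ^ d * 2 ^ (s + 1 - d) := Nat.mul_le_mul_right _ h1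
    rw [mul_comm (2 ^ d), ← e3, Nat.add_mul, one_mul] at h7
    omega
  rw [min_eq_left h6, max_eq_right]
  exact Nat.mul_pos h0 (by omega)

/-- the frame at stage `s` with parameters `x`. -/
def frx (s : ℕ) (code : ℕ → TC) (hcode : ∀ b, tnorm (code b) < 1 / 4) (x : PIdx s → ℝ)
    (hx : ∀ i, |x i| ≤ 1) : Fr where
  R := 2 ^ (s + 1)
  N := s
  q := s
  lev := levf s
  lev_pos := levf_pos s
  lev_lt := levf_lt s
  W := Wx s code x
  W_lo := Wx_lo s hcode hx
  W_hi := Wx_hi s hcode hx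

/-- number of slots for `k` spins. -/
def Lf (s k : ℕ) : ℕ := k / (s + 1) + 1

/-- an enumeration of the admissible tilt codes. -/
theorem exists_code : ∃ code : ℕ → TC, (∀ b, tnorm (code b) < 1 / 4) ∧
    ∀ c, tnorm c < 1 / 4 → ∃ b, code b = c := by
  have hne : Nonempty {c : TC // tnorm c < 1 / 4} := ⟨⟨[], by simp [tnorm]⟩⟩
  obtain ⟨f, hf⟩ := exists_surjective_nat {c : TC // tnorm c < 1 / 4}
  refine ⟨fun b => (f b).1, fun b => (f b).2, fun c hc => ?_⟩
  obtain ⟨b, hb⟩ := hf ⟨c, hc⟩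
  exact ⟨b, congrArg Subtype.val hb⟩

section fam
variable {p : ℕ} (C : Core p) {α : ℝ} (hα : 0 < α) (Mt : ℕ → ℕ) {code : ℕ → TC}
  (hcode : ∀ b, tnorm (code b) < 1 / 4)

/-- the system at stage `s` with `k+1` spins and parameters `x`. -/
def SS (s k : ℕ) (x : PIdx s → ℝ) (hx : ∀ i, |x i| ≤ 1) : Sys :=
  coreSys C (frx s code hcode x hx) (k + 1) (Lf s (k + 1)) (Mt (k + 1)) (Nat.succ_pos k)
    (Nat.succ_pos _) (α * ((k + 1 : ℕ) : ℝ)) (by positivity)

end fam

end Crest.SG
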