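import Crest.Agent.SG_CFam

/-! # SG_D1 : the core system as a Poisson average of deterministic-weight systems (task SG-D1) -/

set_option autoImplicit false
noncomputable section
open scoped BigOperators
open Classical Filter
open Crest.ProbabilityR.Diluted Crest.Agent.SGG
namespace Crest.SG

variable {p : ℕ} (C : Core p)

/-- `|log fac| ≤ cF`. -/
def cF : ℝ := -Real.log (1 - C.q0)

theorem cF_nonneg : 0 ≤ cF C := by
  unfold cF
  have h0 := C.q0_nonneg
  have h1 := C.q0_lt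
  have := Real.log_nonpos (x := 1 - C.q0) (by linarith) (by linarith)
  linarith

theorem abs_log_fac_le (e : C.E) (s : Fin p → Bool) : |Real.log (fac C e s : ℝ)| ≤ cF C := by
  have h0 := C.q0_nonneg
  have h1 := C.q0_lt
  have hb := abs_le.1 (C.bound e.1 e.2 s)
  have hval : (fac C e s : ℝ) = 1 + C.b e.1 * ∏ l, C.f (e.2 l) (s l) := rfl
  have hpos : 0 < (fac C e s : ℝ) := (fac C e s).2
  have hq : 0 < 1 - C.q0 := by linarith
  unfold cF
  rw [abs_le]
  constructor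
  · rw [neg_neg]
    exact Real.log_le_log hq (by rw [hval]; linarith [hb.1])
  · rw [← Real.log_inv]
    refine Real.log_le_log hpos ?_
    rw [hval, le_inv_comm₀ (by rw [← hval]; exact hpos) hq, inv_eq_one_div, le_div_iff₀ (by rw [← hval]; exact hpos)]
    nlinarith [hb.1, hb.2]

/-- `ψ` and `Q` of the deterministic-weight systems as functions of the weight. -/
def psu (fr : Fr) (k L : ℕ) (hk : 0 < k) (hL : 0 < L) (u : Uk k) : ℝ :=
  (uSys C fr k L hk hL u).psi

def qsu (fr : Fr) (k L : ℕ) (hk : 0 < k) (hL : 0 < L) (ι : Type) [Fintype ι]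
    (V : (ι → Bool) → ℝ) (u : Uk k) : ℝ := (uSys C fr k L hk hL u).QS ι V

/-- system with a single base root. -/
def D1_one (fr : Fr) (k L : ℕ) (hk : 0 < k) (hL : 0 < L) (u : Uk k) : Sys :=
  fr.sys k L hk hL Unit (fun _ => 1) (fun _ => zero_le_one) (by simp) (fun _ => u)

theorem D1_psi_gen (S : Sys) : S.psi = ∑ r : S.ρ, S.pr r * ∑ x : Fin S.L → S.Slot,
    (∏ c, (S.pm (x c).1 * (1 / (S.k : ℝ)))) * S.lT (r, x) := by
  unfold Sys.psi Sys.prR
  rw [Fintype.sum_prod_type]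
  refine Finset.sum_congr rfl fun r _ => ?_
  rw [Finset.mul_sum]
  refine Finset.sum_congr rfl fun x _ => ?_
  ring

theorem D1_QS_gen (S : Sys) (ι : Type) [Fintype ι] (V : (ι → Bool) → ℝ) :
    S.QS ι V = ∑ r : S.ρ, S.pr r * ∑ x : Fin S.L → S.Slot,
    (∏ c, (S.pm (x c).1 * (1 / (S.k : ℝ)))) *
      ∑ v : ι → Fin S.k, (1 / (S.k : ℝ)) ^ (Fintype.card ι) *
    LT0 S.lv S.m (S.PL (r, x)) (fun ω => V (fun i => ω.2 (v i))) := by
  unfold Sys.QS Sys.prR
  rw [Fintype.sum_prod_type]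
  refine Finset.sum_congr rfl fun r _ => ?_
  rw [Finset.mul_sum]
  refine Finset.sum_congr rfl fun x _ => ?_
  ring

def D1_psi (fr : Fr) (k L : ℕ) (hk : 0 < k) (hL : 0 < L) (u : Uk k) : ℝ :=
  let S := D1_one fr k L hk hL u
  ∑ x : Fin S.L → S.Slot, (∏ c, (S.pm (x c).1 * (1 / (S.k : ℝ)))) * S.lT ((), x)

def D1_QS (fr : Fr) (k L : ℕ) (hk : 0 < k) (hL : 0 < L) (ι : Type) [Fintype ι]
    (V : (ι → Bool) → ℝ) (u : Uk k) : ℝ :=
  let S := D1_one fr k L hk hL u
  ∑ x : Fin S.L → S.Slot, (∏ c, (S.pm (x c).1 * (1 / (S.k : ℝ)))) *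
      ∑ v : ι → Fin S.k, (1 / (S.k : ℝ)) ^ (Fintype.card ι) *
    LT0 S.lv S.m (S.PL ((), x)) (fun ω => V (fun i => ω.2 (v i)))

theorem D1_pm_eq (fr : Fr) (k L : ℕ) (hk : 0 < k) (hL : 0 < L) (ρ : Type) [Fintype ρ] (pr : ρ → ℝ)
    (h0 : ∀ r, 0 ≤ pr r) (h1 : ∑ r, pr r = 1) (base : ρ → Uk k) (u : Uk k)
    (a : Option (Fin fr.q)) :
    (fr.sys k L hk hL ρ pr h0 h1 base).pm a = (D1_one fr k L hk hL u).pm a := by
  cases a <;> rfl

theorem D1_sw_eq (fr : Fr) (k L : ℕ) (hk : 0 < k) (hL : 0 < L) (ρ : Type) [Fintype ρ] (pr : ρ → ℝ)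
    (h0 : ∀ r, 0 ≤ pr r) (h1 : ∑ r, pr r = 1) (base : ρ → Uk k) (r : ρ)
    (x : Fin L → Option (Fin fr.q) × Fin k) :
    (fr.sys k L hk hL ρ pr h0 h1 base).sw (r, x) = (D1_one fr k L hk hL (base r)).sw ((), x) := by
  funext ω
  show (base r ω.2 : ℝ) * _ = (base r ω.2 : ℝ) * _
  congr 1
  refine Finset.prod_congr rfl fun c _ => ?_
  show (fr.sys k L hk hL ρ pr h0 h1 base).slotW (x c) (ω.1 c) ω.2 =
    (D1_one fr k L hk hL (base r)).slotW (x c) (ω.1 c) ω.2
  rcases x c with ⟨_ | b, i⟩ <;> rfl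

theorem D1_psi_sys (fr : Fr) (k L : ℕ) (hk : 0 < k) (hL : 0 < L) (ρ : Type) [Fintype ρ] (pr : ρ → ℝ)
    (h0 : ∀ r, 0 ≤ pr r) (h1 : ∑ r, pr r = 1) (base : ρ → Uk k) :
    (fr.sys k L hk hL ρ pr h0 h1 base).psi = ∑ r, pr r * D1_psi fr k L hk hL (base r) := by
  rw [D1_psi_gen]
  refine Finset.sum_congr rfl fun r _ => ?_
  show pr r * _ = pr r * _
  congr 1
  refine Finset.sum_congr rfl fun x _ => ?_
  refine congrArg₂ _ ?_ ?_
  · exact Finset.prod_congr rfl fun c _ => congrArg₂ _ (D1_pm_eq fr k L hk hL ρ pr h0 h1 base _ _) rfl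
  · exact congrArg (fun s => LT0 (D1_one fr k L hk hL (base r)).lv (D1_one fr k L hk hL (base r)).m
      (unif (D1_one fr k L hk hL (base r)).Om) s) (D1_sw_eq fr k L hk hL ρ pr h0 h1 base r x)

theorem D1_QS_sys (fr : Fr) (k L : ℕ) (hk : 0 < k) (hL : 0 < L) (ρ : Type) [Fintype ρ] (pr : ρ → ℝ)
    (h0 : ∀ r, 0 ≤ pr r) (h1 : ∑ r, pr r = 1) (base : ρ → Uk k) (ι : Type) [Fintype ι]
    (V : (ι → Bool) → ℝ) :
    (fr.sys k L hk hL ρ pr h0 h1 base).QS ι V =
      ∑ r, pr r * D1_QS fr k L hk hL ι V (base r) := by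
  rw [D1_QS_gen]
  refine Finset.sum_congr rfl fun r _ => ?_
  show pr r * _ = pr r * _
  congr 1
  refine Finset.sum_congr rfl fun x _ => ?_
  refine congrArg₂ _ ?_ ?_
  · exact Finset.prod_congr rfl fun c _ => congrArg₂ _ (D1_pm_eq fr k L hk hL ρ pr h0 h1 base _ _) rfl
  · exact congrArg (fun s => ∑ v : ι → Fin k, (1 / (k : ℝ)) ^ (Fintype.card ι) *
      LT0 (D1_one fr k L hk hL (base r)).lv (D1_one fr k L hk hL (base r)).m
      (tilt (D1_one fr k L hk hL (base r)).lv (D1_one fr k L hk hL (base r)).m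
        (unif (D1_one fr k L hk hL (base r)).Om) s) (fun ω => V (fun i => ω.2 (v i))))
      (D1_sw_eq fr k L hk hL ρ pr h0 h1 base r x)

/-- unused coordinates are summed out. -/
theorem D1_unused {E U : Type} [Fintype E] [CommMonoid U] {π : E → ℝ} (h1 : ∑ e, π e = 1)
    (w : E → U) (G : U → ℝ) (n d : ℕ) :
    ∑ e : Fin (n + d) → E, (∏ i, π (e i)) * G (∏ i : Fin (n + d), if (i : ℕ) < n then w (e i) else 1)
      = ∑ e : Fin n → E, (∏ i, π (e i)) * G (∏ i, w (e i)) := by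
  induction d with
  | zero =>
    refine Finset.sum_congr rfl fun e _ => ?_
    congr 2
    refine Finset.prod_congr rfl fun i _ => ?_
    exact if_pos i.2
  | succ d ih =>
    rw [← ih]
    show ∑ e : Fin ((n + d) + 1) → E, (∏ i, π (e i)) *
      G (∏ i : Fin ((n + d) + 1), if (i : ℕ) < n then w (e i) else 1) = _
    rw [← (Fin.snocEquiv (fun _ : Fin ((n + d) + 1) => E)).sum_comp, Fintype.sum_prod_type,
      Finset.sum_comm]
    refine Finset.sum_congr rfl fun f _ => ?_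
    have hstep : ∀ x : E, (∏ i, π ((Fin.snocEquiv (fun _ : Fin ((n + d) + 1) => E)) (x, f) i)) *
        G (∏ i : Fin ((n + d) + 1), if (i : ℕ) < n then
          w ((Fin.snocEquiv (fun _ : Fin ((n + d) + 1) => E)) (x, f) i) else 1) =
        π x * ((∏ i, π (f i)) * G (∏ i : Fin (n + d), if (i : ℕ) < n then w (f i) else 1)) := by
      intro x
      rw [Fin.prod_univ_castSucc, Fin.prod_univ_castSucc]
      simp only [Fin.snocEquiv, Equiv.coe_fn_mk, Fin.snoc_castSucc, Fin.snoc_last, Fin.val_castSucc,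
        Fin.val_last]
      rw [if_neg (by omega), mul_one]
      ring
    rw [Finset.sum_congr rfl fun x _ => hstep x, ← Finset.sum_mul, h1, one_mul]

theorem D1_core {k : ℕ} (hk : 0 < k) (M : ℕ) (lam : ℝ) (Θ : Uk k → ℝ) :
    ∑ r : CRoot C k M, prC C k M lam r * Θ (wC C k M r) =
      ∑ n : Fin (M + 1), qp lam M n *
        AvN (piE C k) (wEdg C k) (fun u => ∑ y, prF C k y * Θ (u * wFld C k y)) n 1 := by
  rw [Fintype.sum_prod_type]
  refine Finset.sum_congr rfl fun n _ => ?_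
  obtain ⟨d, hd⟩ : ∃ d, M = n + d := ⟨M - n, by have := n.2; omega⟩
  have h := D1_unused (π := piE C k) (piE_sum C hk) (wEdg C k)
    (fun u => ∑ y, prF C k y * Θ (u * wFld C k y)) n d
  have h2 : ∀ (n' M' : ℕ), M' = n' + d → 
      ∑ e : Fin M' → Edg C k, (∏ i, piE C k (e i)) *
        (fun u => ∑ y, prF C k y * Θ (u * wFld C k y))
          (∏ i : Fin M', if (i : ℕ) < n' then wEdg C k (e i) else 1) =
      ∑ e : Fin n' → Edg C k, (∏ i, piE C k (e i)) *
        (fun u => ∑ y, prF C k y * Θ (u * wFld C k y)) (∏ i, wEdg C k (e i)) := by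
    intro n' M' h
    subst h
    exact D1_unused (π := piE C k) (piE_sum C hk) (wEdg C k)
      (fun u => ∑ y, prF C k y * Θ (u * wFld C k y)) n' d
  have h3 := h2 n M hd
  unfold AvN
  simp only [one_mul]
  rw [← h3, Fintype.sum_prod_type, Finset.mul_sum]
  refine Finset.sum_congr rfl fun e _ => ?_
  simp only [Finset.mul_sum]
  refine Finset.sum_congr rfl fun y _ => ?_
  unfold prC wC
  simp only
  ring

theorem D1_psu_eq (fr : Fr) (k L : ℕ) (hk : 0 < k) (hL : 0 < L) (u : Uk k) :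
    psu C fr k L hk hL u = ∑ y, prF C k y * D1_psi fr k L hk hL (u * wFld C k y) := by
  unfold psu uSys
  rw [D1_psi_sys]

theorem D1_qsu_eq (fr : Fr) (k L : ℕ) (hk : 0 < k) (hL : 0 < L) (ι : Type) [Fintype ι]
    (V : (ι → Bool) → ℝ) (u : Uk k) :
    qsu C fr k L hk hL ι V u = ∑ y, prF C k y * D1_QS fr k L hk hL ι V (u * wFld C k y) := by
  unfold qsu uSys
  rw [D1_QS_sys]

theorem core_psi (fr : Fr) {k L M : ℕ} (hk : 0 < k) (hL : 0 < L) {lam : ℝ} (h : 0 ≤ lam) :
    (coreSys C fr k L M hk hL lam h).psi =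
      ∑ n : Fin (M + 1), qp lam M n * AvN (piE C k) (wEdg C k) (psu C fr k L hk hL) n 1 := by
  unfold coreSys
  rw [D1_psi_sys, D1_core C hk]
  have : psu C fr k L hk hL = fun u => ∑ y, prF C k y * D1_psi fr k L hk hL (u * wFld C k y) :=
    funext fun u => D1_psu_eq C fr k L hk hL u
  rw [this]

theorem core_QS (fr : Fr) {k L M : ℕ} (hk : 0 < k) (hL : 0 < L) {lam : ℝ} (h : 0 ≤ lam)
    (ι : Type) [Fintype ι] (V : (ι → Bool) → ℝ) :
    (coreSys C fr k L M hk hL lam h).QS ι V =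
      ∑ n : Fin (M + 1), qp lam M n * AvN (piE C k) (wEdg C k) (qsu C fr k L hk hL ι V) n 1 := by
  unfold coreSys
  rw [D1_QS_sys, D1_core C hk]
  have : qsu C fr k L hk hL ι V =
      fun u => ∑ y, prF C k y * D1_QS fr k L hk hL ι V (u * wFld C k y) :=
    funext fun u => D1_qsu_eq C fr k L hk hL ι V u
  rw [this]


theorem D1_psu_term (fr : Fr) {k L : ℕ} (hk : 0 < k) (hL : 0 < L) (u : Uk k) (e : Edg C k)
    (r : (Fin k → Fin C.nH) × (Fin L → Option (Fin fr.q) × Fin k)) (ω : (uSys C fr k L hk hL u).Om) :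
    (uSys C fr k L hk hL (u * wEdg C k e)).sw r ω =
      (uSys C fr k L hk hL u).sw r ω * Vedge C e.1 (fun i => ω.2 (e.2 i)) := by
  show ((u ω.2 : ℝ) * (fac C e.1 (fun l => ω.2 (e.2 l)) : ℝ)) * (wFld C k r.1 ω.2 : ℝ) * _ =
    ((u ω.2 : ℝ) * (wFld C k r.1 ω.2 : ℝ)) * _ * (fac C e.1 (fun l => ω.2 (e.2 l)) : ℝ)
  have h : ∏ c, (uSys C fr k L hk hL (u * wEdg C k e)).slotW (r.2 c) (ω.1 c) ω.2 =
    ∏ c, (uSys C fr k L hk hL u).slotW (r.2 c) (ω.1 c) ω.2 := by
    refine Finset.prod_congr rfl fun c _ => ?_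
    rcases r.2 c with ⟨_ | b, i⟩ <;> rfl
  have h' := congrArg (fun t : ℝ => ((u ω.2 : ℝ) * (fac C e.1 (fun l => ω.2 (e.2 l)) : ℝ)) *
    (wFld C k r.1 ω.2 : ℝ) * t) h
  have h3 : ∀ a b c t : ℝ, a * b * c * t = (a * c) * t * b := fun a b c t => by ring
  exact h'.trans (h3 _ _ _ _)

theorem D1_prR_eq (fr : Fr) {k L : ℕ} (hk : 0 < k) (hL : 0 < L) (u u' : Uk k)
    (r : (Fin k → Fin C.nH) × (Fin L → Option (Fin fr.q) × Fin k)) :
    (uSys C fr k L hk hL u').prR r = (uSys C fr k L hk hL u).prR r := by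
  show prF C k r.1 * _ = prF C k r.1 * _
  congr 1
  refine Finset.prod_congr rfl fun c _ => ?_
  refine congrArg₂ _ ?_ rfl
  show (uSys C fr k L hk hL u').pm (r.2 c).1 = (uSys C fr k L hk hL u).pm (r.2 c).1
  rcases (r.2 c).1 with _ | b <;> rfl

theorem D1_lT_edge (fr : Fr) {k L : ℕ} (hk : 0 < k) (hL : 0 < L) (u : Uk k) (e : Edg C k)
    (r : (Fin k → Fin C.nH) × (Fin L → Option (Fin fr.q) × Fin k)) :
    (uSys C fr k L hk hL (u * wEdg C k e)).lT r =
      LT0 (uSys C fr k L hk hL u).lv (uSys C fr k L hk hL u).m (unif (uSys C fr k L hk hL u).Om)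
        (fun ω => (uSys C fr k L hk hL u).sw r ω * Vedge C e.1 (fun i => ω.2 (e.2 i))) := by
  have h : (uSys C fr k L hk hL (u * wEdg C k e)).sw r =
      fun ω => (uSys C fr k L hk hL u).sw r ω * Vedge C e.1 (fun i => ω.2 (e.2 i)) :=
    funext fun ω => D1_psu_term C fr hk hL u e r ω
  exact congrArg (fun s => LT0 (uSys C fr k L hk hL u).lv (uSys C fr k L hk hL u).m
    (unif (uSys C fr k L hk hL u).Om) s) h

theorem D1_psu_mul (fr : Fr) {k L : ℕ} (hk : 0 < k) (hL : 0 < L) (u : Uk k) (e : Edg C k) :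
    psu C fr k L hk hL (u * wEdg C k e) - psu C fr k L hk hL u =
      ∑ r, (uSys C fr k L hk hL u).prR r *
        (LT0 (uSys C fr k L hk hL u).lv (uSys C fr k L hk hL u).m
          (unif (uSys C fr k L hk hL u).Om)
          (fun ω => (uSys C fr k L hk hL u).sw r ω * Vedge C e.1 (fun i => ω.2 (e.2 i))) -
          (uSys C fr k L hk hL u).lT r) := by
  have h : psu C fr k L hk hL (u * wEdg C k e) = ∑ r, (uSys C fr k L hk hL u).prR r *
        LT0 (uSys C fr k L hk hL u).lv (uSys C fr k L hk hL u).m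
          (unif (uSys C fr k L hk hL u).Om)
          (fun ω => (uSys C fr k L hk hL u).sw r ω * Vedge C e.1 (fun i => ω.2 (e.2 i))) := by
    refine Finset.sum_congr rfl fun r _ => ?_
    exact congrArg₂ _ (D1_prR_eq C fr hk hL u (u * wEdg C k e) r) (D1_lT_edge C fr hk hL u e r)
  rw [h]
  unfold psu Sys.psi
  rw [← Finset.sum_sub_distrib]
  exact Finset.sum_congr rfl fun r _ => by ring

theorem D1_Vedge_pos (e : C.E) (τ : Fin p → Bool) : 0 < Vedge C e τ := (fac C e τ).2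

theorem psu_lip (fr : Fr) {k L : ℕ} (hk : 0 < k) (hL : 0 < L) :
    LipF (wEdg C k) (cF C) (psu C fr k L hk hL) := by
  intro u e
  rw [D1_psu_mul]
  set S := uSys C fr k L hk hL u with hS
  refine (Finset.abs_sum_le_sum_abs _ _).trans ?_
  calc ∑ r, |S.prR r * (LT0 S.lv S.m (unif S.Om)
          (fun ω => S.sw r ω * Vedge C e.1 (fun i => ω.2 (e.2 i))) - S.lT r)|
      ≤ ∑ r, S.prR r * cF C := by
        refine Finset.sum_le_sum fun r _ => ?_
        rw [abs_mul, abs_of_nonneg (S.prR_nonneg r)]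
        refine mul_le_mul_of_nonneg_left ?_ (S.prR_nonneg r)
        refine LT0_lip S.lv S.expo (Sys.unif_law S.Om)
          (fun ω => mul_pos (S.sw_pos r ω) (D1_Vedge_pos C _ _)) (S.sw_pos r) fun ω => ?_
        rw [Real.log_mul (S.sw_pos r ω).ne' (D1_Vedge_pos C _ _).ne', add_sub_cancel_left]
        exact abs_log_fac_le C _ _
    _ = cF C := by rw [← Finset.sum_mul, S.prR_sum, one_mul]

theorem D1_site_sum {k : ℕ} (hk : 0 < k) (ι : Type) [Fintype ι] :
    ∑ _v : ι → Fin k, (1 / (k : ℝ)) ^ (Fintype.card ι) = 1 := by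
  have hk' : (k : ℝ) ≠ 0 := by exact_mod_cast hk.ne'
  rw [Finset.sum_const, Finset.card_univ, Fintype.card_fun, Fintype.card_fin, nsmul_eq_mul]
  push_cast
  rw [← mul_pow, mul_one_div_cancel hk', one_pow]

/-- bound of the message functional, for every slot system. -/
theorem abs_QS_le (S : Sys) (ι : Type) [Fintype ι] {V : (ι → Bool) → ℝ} (hV : ∀ τ, 0 < V τ) {δ : ℝ}
    (h : ∀ τ, |Real.log (V τ)| ≤ δ) : |S.QS ι V| ≤ δ := by
  unfold Sys.QS
  refine (Finset.abs_sum_le_sum_abs _ _).trans ?_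
  calc ∑ r, |S.prR r * ∑ v : ι → Fin S.k, (1 / (S.k : ℝ)) ^ (Fintype.card ι) *
        LT0 S.lv S.m (S.PL r) (fun ω => V (fun i => ω.2 (v i)))|
      ≤ ∑ r, S.prR r * δ := by
        refine Finset.sum_le_sum fun r _ => ?_
        rw [abs_mul, abs_of_nonneg (S.prR_nonneg r)]
        refine mul_le_mul_of_nonneg_left ?_ (S.prR_nonneg r)
        refine (Finset.abs_sum_le_sum_abs _ _).trans ?_
        calc ∑ v : ι → Fin S.k, |(1 / (S.k : ℝ)) ^ (Fintype.card ι) *
              LT0 S.lv S.m (S.PL r) (fun ω => V (fun i => ω.2 (v i)))|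
            ≤ ∑ _v : ι → Fin S.k, (1 / (S.k : ℝ)) ^ (Fintype.card ι) * δ := by
              refine Finset.sum_le_sum fun v _ => ?_
              rw [abs_mul, abs_of_nonneg (by positivity)]
              refine mul_le_mul_of_nonneg_left ?_ (by positivity)
              exact abs_LT0_le S.lv S.expo (S.PL_law r) (fun ω => hV _) (fun ω => h _)
          _ = δ := by rw [← Finset.sum_mul, D1_site_sum S.k_pos, one_mul]
    _ = δ := by rw [← Finset.sum_mul, S.prR_sum, one_mul]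

/-- adding one edge. -/
theorem psu_edge (fr : Fr) {k L : ℕ} (hk : 0 < k) (hL : 0 < L) (u : Uk k) :
    (∑ e, piE C k e * psu C fr k L hk hL (u * wEdg C k e)) - psu C fr k L hk hL u =
      ∑ e : C.E, C.wE e * qsu C fr k L hk hL (Fin p) (Vedge C e) u := by
  have h1 : (∑ e, piE C k e * psu C fr k L hk hL (u * wEdg C k e)) - psu C fr k L hk hL u =
      ∑ e, piE C k e * (psu C fr k L hk hL (u * wEdg C k e) - psu C fr k L hk hL u) := by
    simp only [mul_sub, Finset.sum_sub_distrib]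
    rw [← Finset.sum_mul, piE_sum C hk, one_mul]
  rw [h1, Fintype.sum_prod_type]
  refine Finset.sum_congr rfl fun e _ => ?_
  unfold qsu Sys.QS
  set S := uSys C fr k L hk hL u with hS
  have h2 : ∀ v : Fin p → Fin k, piE C k (e, v) *
      (psu C fr k L hk hL (u * wEdg C k (e, v)) - psu C fr k L hk hL u) =
      ∑ r, C.wE e * (S.prR r * ((1 / (k : ℝ)) ^ (Fintype.card (Fin p)) *
        LT0 S.lv S.m (S.PL r) (fun ω => Vedge C e (fun i => ω.2 (v i))))) := by
    intro v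
    rw [D1_psu_mul, Finset.mul_sum]
    refine Finset.sum_congr rfl fun r _ => ?_
    have h3 : LT0 S.lv S.m (unif S.Om) (fun ω => S.sw r ω * Vedge C e (fun i => ω.2 (v i))) =
        S.lT r + LT0 S.lv S.m (S.PL r) (fun ω => Vedge C e (fun i => ω.2 (v i))) :=
      LT0_mul S.lv S.expo (Sys.unif_law S.Om) (S.sw_pos r) (fun ω => D1_Vedge_pos C _ _)
    show piE C k (e, v) * (S.prR r * (LT0 S.lv S.m (unif S.Om)
      (fun ω => S.sw r ω * Vedge C e (fun i => ω.2 (v i))) - S.lT r)) = _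
    rw [h3, add_sub_cancel_left, Fintype.card_fin]
    unfold piE
    ring
  rw [Finset.sum_congr rfl fun v _ => h2 v, Finset.sum_comm, Finset.mul_sum]
  refine Finset.sum_congr rfl fun r _ => ?_
  rw [Finset.mul_sum, Finset.mul_sum]
  refine Finset.sum_congr ?_ fun v _ => rfl
  exact congrArg (fun i => @Finset.univ (Fin p → Fin k) i) (Subsingleton.elim _ _)

theorem D1_trunc {α : ℝ} (hα : 0 < α) {Mt : ℕ → ℕ} (hM : TruncOK α Mt) (k : ℕ) {a : ℕ → ℝ} {c : ℝ}
    (hc : 0 ≤ c) (ha : ∀ n : ℕ, |a n - a 0| ≤ c * ((n : ℝ) + 1)) :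
    |(∑ n : Fin (Mt k + 1), qp (α * k) (Mt k) n * a n) - Poi (α * k) a| ≤ c / ((k : ℝ) + 1) := by
  have hl : 0 ≤ α * k := by positivity
  rcases hc.eq_or_lt with h0 | h0
  · have hconst : a = fun _ => a 0 := by
      funext n
      have := ha n
      rw [← h0, zero_mul] at this
      have := abs_nonpos_iff.1 this
      linarith
    rw [hconst, Poi_const hl]
    simp only
    rw [← Finset.sum_mul, qp_sum, one_mul, sub_self, abs_zero]
    positivity
  · set b : ℕ → ℝ := fun n => (a n - a 0) / c with hb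
    have hbG : LinG 1 b := by
      intro n
      rw [hb]
      simp only
      rw [abs_div, abs_of_pos h0, div_le_iff₀ h0]
      linarith [ha n]
    have hab : a = fun n => a 0 + c * b n := by
      funext n
      rw [hb]
      simp only
      field_simp
      ring
    have h1 := (hM k).1 b hbG
    have hcb : LinG c (fun n => c * b n) := by
      intro n
      rw [abs_mul, abs_of_pos h0]
      have := hbG n
      rw [one_mul] at this
      exact mul_le_mul_of_nonneg_left this h0.le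
    have hca : LinG |a 0| (fun _ => a 0) := by
      intro n
      have : (0 : ℝ) ≤ n := Nat.cast_nonneg n
      nlinarith [abs_nonneg (a 0)]
    have h2 : Poi (α * k) a = a 0 + c * Poi (α * k) b := by
      conv_lhs => rw [hab]
      rw [Poi_add hl hca hcb, Poi_const hl, Poi_const_mul]
    have h3 : (∑ n : Fin (Mt k + 1), qp (α * k) (Mt k) n * a n) =
        a 0 + c * ∑ n : Fin (Mt k + 1), qp (α * k) (Mt k) n * b n := by
      have h4 : ∀ n : Fin (Mt k + 1), qp (α * k) (Mt k) n * a n =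
          qp (α * k) (Mt k) n * a 0 + c * (qp (α * k) (Mt k) n * b n) := by
        intro n
        have : a n = a 0 + c * b n := congrFun hab n
        rw [this]
        ring
      rw [Finset.sum_congr rfl fun n _ => h4 n, Finset.sum_add_distrib, ← Finset.sum_mul, qp_sum,
        one_mul, ← Finset.mul_sum]
    rw [h2, h3]
    have h5 : a 0 + c * ∑ n : Fin (Mt k + 1), qp (α * k) (Mt k) n * b n -
        (a 0 + c * Poi (α * k) b) =
        c * (∑ n : Fin (Mt k + 1), qp (α * k) (Mt k) n * b n - Poi (α * k) b) := by ring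
    rw [h5, abs_mul, abs_of_pos h0, abs_sub_comm, div_eq_mul_one_div]
    exact mul_le_mul_of_nonneg_left h1 h0.le

theorem core_psi_poi {α : ℝ} (hα : 0 < α) {Mt : ℕ → ℕ} (hM : TruncOK α Mt) (fr : Fr) {k L : ℕ}
    (hk : 0 < k) (hL : 0 < L) :
    |(coreSys C fr k L (Mt k) hk hL (α * k) (by positivity)).psi -
      PoiF (α * k) (piE C k) (wEdg C k) (psu C fr k L hk hL) 1| ≤ cF C / ((k : ℝ) + 1) := by
  rw [core_psi]
  refine D1_trunc hα hM k (a := fun n => AvN (piE C k) (wEdg C k) (psu C fr k L hk hL) n 1)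
    (cF_nonneg C) fun n => ?_
  simp only [AvN_zero]
  refine (AvN_growth (piE_nonneg C k) (piE_sum C hk) (cF_nonneg C) (psu_lip C fr hk hL) n 1).trans ?_
  exact mul_le_mul_of_nonneg_left (by linarith) (cF_nonneg C)

theorem D1_AvN_bd {E U : Type} [Fintype E] [CommMonoid U] {π : E → ℝ} (h0 : ∀ e, 0 ≤ π e)
    (h1 : ∑ e, π e = 1) (w : E → U) {Θ : U → ℝ} {δ : ℝ} (h : ∀ u, |Θ u| ≤ δ) (n : ℕ) (u : U) :
    |AvN π w Θ n u| ≤ δ := by
  unfold AvN
  have hs : ∑ e : Fin n → E, ∏ i, π (e i) = 1 := by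
    rw [← Fintype.piFinset_univ, ← Finset.prod_univ_sum]
    simp [h1]
  refine (Finset.abs_sum_le_sum_abs _ _).trans ?_
  calc ∑ e : Fin n → E, |(∏ i, π (e i)) * Θ (u * ∏ i, w (e i))|
      ≤ ∑ e : Fin n → E, (∏ i, π (e i)) * δ := by
        refine Finset.sum_le_sum fun e _ => ?_
        have hp : 0 ≤ ∏ i, π (e i) := Finset.prod_nonneg fun i _ => h0 _
        rw [abs_mul, abs_of_nonneg hp]
        exact mul_le_mul_of_nonneg_left (h _) hp
    _ = δ := by rw [← Finset.sum_mul, hs, one_mul]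

theorem core_QS_poi {α : ℝ} (hα : 0 < α) {Mt : ℕ → ℕ} (hM : TruncOK α Mt) (fr : Fr) {k L : ℕ}
    (hk : 0 < k) (hL : 0 < L) (ι : Type) [Fintype ι] {V : (ι → Bool) → ℝ} (hV : ∀ τ, 0 < V τ)
    {δ : ℝ} (h : ∀ τ, |Real.log (V τ)| ≤ δ) :
    |(coreSys C fr k L (Mt k) hk hL (α * k) (by positivity)).QS ι V -
      PoiF (α * k) (piE C k) (wEdg C k) (qsu C fr k L hk hL ι V) 1| ≤ δ / ((k : ℝ) + 1) := by
  have hδ : 0 ≤ δ := (abs_nonneg _).trans (h fun _ => true)
  have hq : ∀ u, |qsu C fr k L hk hL ι V u| ≤ δ := fun u => abs_QS_le _ ι hV h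
  rw [core_QS]
  refine D1_trunc hα hM k (a := fun n => AvN (piE C k) (wEdg C k) (qsu C fr k L hk hL ι V) n 1)
    hδ fun n => ?_
  rcases Nat.eq_zero_or_pos n with h0 | h0
  · subst h0
    simp only [sub_self, abs_zero]
    positivity
  · have ha := D1_AvN_bd (piE_nonneg C k) (piE_sum C hk) (wEdg C k) hq n 1
    have hb := D1_AvN_bd (piE_nonneg C k) (piE_sum C hk) (wEdg C k) hq 0 1
    have h1 : (1 : ℝ) ≤ n := by exact_mod_cast h0
    have h2 : δ * (1 + 1) ≤ δ * ((n : ℝ) + 1) := mul_le_mul_of_nonneg_left (by linarith) hδ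
    refine (abs_sub _ _).trans ?_
    linarith

end Crest.SG
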