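import Crest.Agent.SG_D1
import Crest.Agent.SG_A8

/-! # SG_D2 : moving the slots off the new spin (task SG-D2)

`psR` = mean of `log T_0` on `k+1` spins with `L` slots whose sites are uniform in the first `k`
spins. One slot changes `log T_0` by at most `log 3` (weights in `[1/2,3/2]`), is attached to the new
spin with probability `1/(k+1)`; extra slots cost at most `log 2` each. -/

set_option autoImplicit false
noncomputable section
open scoped BigOperators
open Classical Filter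
open Crest.ProbabilityR.Diluted Crest.Agent.SGG
namespace Crest.SG

/-! ### generic averages over slots -/

private theorem D2_sum_cons {A : Type} [Fintype A] {L : ℕ} (μ : A → ℝ)
    (Φ : (Fin (L + 1) → A) → ℝ) :
    ∑ a : Fin (L + 1) → A, (∏ i, μ (a i)) * Φ a =
      ∑ a0, μ a0 * ∑ a : Fin L → A, (∏ i, μ (a i)) * Φ (Fin.cons (α := fun _ => A) a0 a) := by
  rw [← (Fin.consEquiv (fun _ => A)).sum_comp, Fintype.sum_prod_type]
  refine Finset.sum_congr rfl fun a0 _ => ?_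
  rw [Finset.mul_sum]
  refine Finset.sum_congr rfl fun a _ => ?_
  have e : (Fin.consEquiv (fun _ => A)) (a0, a) = Fin.cons (α := fun _ => A) a0 a := rfl
  rw [e, Fin.prod_univ_succ]
  simp only [Fin.cons_zero, Fin.cons_succ]
  ring

private theorem D2_total {A : Type} [Fintype A] {μ : A → ℝ} (h1 : ∑ a, μ a = 1) (L : ℕ) :
    ∑ a : Fin L → A, (∏ i, μ (a i)) = 1 := by
  rw [← Fintype.piFinset_univ, ← Finset.prod_univ_sum]
  simp [h1]

/-- a weighted average of numbers bounded by `c`. -/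
private theorem D2_avg_le {A : Type} [Fintype A] {μ : A → ℝ} (h0 : ∀ a, 0 ≤ μ a)
    (h1 : ∑ a, μ a = 1) {F : A → ℝ} {c : ℝ} (h : ∀ a, |F a| ≤ c) : |∑ a, μ a * F a| ≤ c := by
  refine (Finset.abs_sum_le_sum_abs _ _).trans ?_
  calc ∑ a, |μ a * F a| ≤ ∑ a, μ a * c := by
        refine Finset.sum_le_sum fun a _ => ?_
        rw [abs_mul, abs_of_nonneg (h0 a)]
        exact mul_le_mul_of_nonneg_left (h a) (h0 a)
    _ = c := by rw [← Finset.sum_mul, h1, one_mul]

private theorem D2_avg_sub_le {A : Type} [Fintype A] {μ : A → ℝ} (h0 : ∀ a, 0 ≤ μ a)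
    (h1 : ∑ a, μ a = 1) {F G : A → ℝ} {c : ℝ} (h : ∀ a, |F a - G a| ≤ c) :
    |∑ a, μ a * F a - ∑ a, μ a * G a| ≤ c := by
  rw [← Finset.sum_sub_distrib]
  have e : ∀ a, μ a * F a - μ a * G a = μ a * (F a - G a) := fun a => by ring
  simp only [e]
  exact D2_avg_le h0 h1 h

private theorem D2_hybrid {A B : Type} [Fintype A] [Fintype B] {μ : A → ℝ} {ρ : B → ℝ}
    (lift : B → A) (hμ : ∀ a, 0 ≤ μ a) (hμ1 : ∑ a, μ a = 1) (hρ : ∀ b, 0 ≤ ρ b)
    (hρ1 : ∑ b, ρ b = 1) {c t : ℝ}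
    (h1 : ∀ g : A → ℝ, (∀ a a', |g a - g a'| ≤ c) →
      |∑ a, μ a * g a - ∑ b, ρ b * g (lift b)| ≤ t) :
    ∀ (L : ℕ) (Φ : (Fin L → A) → ℝ),
      (∀ a i x, |Φ (Function.update a i x) - Φ a| ≤ c) →
      |∑ a : Fin L → A, (∏ i, μ (a i)) * Φ a -
        ∑ b : Fin L → B, (∏ i, ρ (b i)) * Φ (fun i => lift (b i))| ≤ L * t := by
  intro L
  induction L with
  | zero =>
    intro Φ _
    simp only [Finset.univ_unique, Finset.sum_singleton, Finset.univ_eq_empty, Finset.prod_empty,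
      one_mul, Nat.cast_zero, zero_mul]
    rw [show (default : Fin 0 → A) = fun i => lift ((default : Fin 0 → B) i) from
      Subsingleton.elim _ _, sub_self, abs_zero]
  | succ L ih =>
    intro Φ hΦ
    rw [D2_sum_cons μ Φ, D2_sum_cons ρ (fun b => Φ (fun i => lift (b i)))]
    have hcons : ∀ (b0 : B) (b : Fin L → B),
        (fun i => lift ((Fin.cons (α := fun _ => B) b0 b : Fin (L + 1) → B) i)) =
          Fin.cons (α := fun _ => A) (lift b0) (fun i => lift (b i)) := by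
      intro b0 b
      funext i
      refine Fin.cases ?_ (fun j => ?_) i
      · simp
      · simp
    simp only [hcons]
    -- first step
    have hA : |∑ a0, μ a0 * ∑ a : Fin L → A, (∏ i, μ (a i)) * Φ (Fin.cons (α := fun _ => A) a0 a) -
        ∑ a0, μ a0 * ∑ b : Fin L → B, (∏ i, ρ (b i)) *
          Φ (Fin.cons (α := fun _ => A) a0 (fun i => lift (b i)))| ≤ L * t := by
      refine D2_avg_sub_le hμ hμ1 fun a0 => ?_
      refine ih (fun a => Φ (Fin.cons (α := fun _ => A) a0 a)) fun a i x => ?_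
      have := hΦ (Fin.cons (α := fun _ => A) a0 a) i.succ x
      rwa [← Fin.cons_update] at this
    have hB : |∑ a0, μ a0 * ∑ b : Fin L → B, (∏ i, ρ (b i)) *
          Φ (Fin.cons (α := fun _ => A) a0 (fun i => lift (b i))) -
        ∑ b0, ρ b0 * ∑ b : Fin L → B, (∏ i, ρ (b i)) *
          Φ (Fin.cons (α := fun _ => A) (lift b0) (fun i => lift (b i)))| ≤ t := by
      have e1 : ∑ a0, μ a0 * ∑ b : Fin L → B, (∏ i, ρ (b i)) *
          Φ (Fin.cons (α := fun _ => A) a0 (fun i => lift (b i))) =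
          ∑ b : Fin L → B, (∏ i, ρ (b i)) * ∑ a0, μ a0 *
            Φ (Fin.cons (α := fun _ => A) a0 (fun i => lift (b i))) := by
        simp only [Finset.mul_sum]
        rw [Finset.sum_comm]
        refine Finset.sum_congr rfl fun b _ => Finset.sum_congr rfl fun a0 _ => ?_
        ring
      have e2 : ∑ b0, ρ b0 * ∑ b : Fin L → B, (∏ i, ρ (b i)) *
          Φ (Fin.cons (α := fun _ => A) (lift b0) (fun i => lift (b i))) =
          ∑ b : Fin L → B, (∏ i, ρ (b i)) * ∑ b0, ρ b0 *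
            Φ (Fin.cons (α := fun _ => A) (lift b0) (fun i => lift (b i))) := by
        simp only [Finset.mul_sum]
        rw [Finset.sum_comm]
        refine Finset.sum_congr rfl fun b _ => Finset.sum_congr rfl fun a0 _ => ?_
        ring
      rw [e1, e2]
      refine D2_avg_sub_le (fun b => Finset.prod_nonneg fun i _ => hρ _) (D2_total hρ1 L)
        fun b => ?_
      refine h1 (fun a0 => Φ (Fin.cons (α := fun _ => A) a0 (fun i => lift (b i)))) fun a a' => ?_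
      have := hΦ (Fin.cons (α := fun _ => A) a' (fun i => lift (b i))) 0 a
      rwa [Fin.update_cons_zero] at this
    have := abs_sub_le (∑ a0, μ a0 * ∑ a : Fin L → A, (∏ i, μ (a i)) *
        Φ (Fin.cons (α := fun _ => A) a0 a))
      (∑ a0, μ a0 * ∑ b : Fin L → B, (∏ i, ρ (b i)) *
          Φ (Fin.cons (α := fun _ => A) a0 (fun i => lift (b i))))
      (∑ b0, ρ b0 * ∑ b : Fin L → B, (∏ i, ρ (b i)) *
          Φ (Fin.cons (α := fun _ => A) (lift b0) (fun i => lift (b i))))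
    push_cast
    linarith

/-- one slot: site on `k+1` spins against site on the first `k`. -/
private theorem D2_one {O : Type} [Fintype O] {pm : O → ℝ} (h0 : ∀ o, 0 ≤ pm o)
    (h1 : ∑ o, pm o = 1) {k : ℕ} (hk : 0 < k) {c : ℝ} (g : O × Fin (k + 1) → ℝ)
    (hg : ∀ a a', |g a - g a'| ≤ c) :
    |∑ a : O × Fin (k + 1), (pm a.1 * (1 / (((k + 1 : ℕ) : ℝ)))) * g a -
      ∑ b : O × Fin k, (pm b.1 * (1 / (k : ℝ))) * g (b.1, b.2.castSucc)| ≤ c / ((k : ℝ) + 1) := by
  have hk' : (0 : ℝ) < k := by exact_mod_cast hk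
  have e : ∑ a : O × Fin (k + 1), (pm a.1 * (1 / (((k + 1 : ℕ) : ℝ)))) * g a -
      ∑ b : O × Fin k, (pm b.1 * (1 / (k : ℝ))) * g (b.1, b.2.castSucc) =
      ∑ o, pm o * ((1 / ((k : ℝ) + 1)) * ((1 / (k : ℝ)) *
        ∑ i : Fin k, (g (o, Fin.last k) - g (o, i.castSucc)))) := by
    rw [Fintype.sum_prod_type, Fintype.sum_prod_type, ← Finset.sum_sub_distrib]
    refine Finset.sum_congr rfl fun o _ => ?_
    simp only
    rw [Fin.sum_univ_castSucc, Finset.sum_sub_distrib, Finset.sum_const, Finset.card_univ,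
      Fintype.card_fin, nsmul_eq_mul, ← Finset.mul_sum, ← Finset.mul_sum]
    push_cast
    field_simp
    ring
  rw [e]
  refine D2_avg_le h0 h1 fun o => ?_
  rw [abs_mul, abs_of_pos (show (0 : ℝ) < 1 / ((k : ℝ) + 1) by positivity), one_div_mul_eq_div]
  refine div_le_div_of_nonneg_right ?_ (by positivity)
  rw [Finset.mul_sum]
  refine D2_avg_le (μ := fun _ : Fin k => 1 / (k : ℝ)) (fun _ => by positivity) ?_ fun i => hg _ _
  rw [Finset.sum_const, Finset.card_univ, Fintype.card_fin, nsmul_eq_mul]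
  field_simp

/-! ### the factor of a slot -/

/-- the factor of a slot. -/
private def D2_sw (fr : Fr) {k : ℕ} (a : Option (Fin fr.q) × Fin k) (l : Fin fr.N → Bool)
    (σ : Fin k → Bool) : ℝ :=
  match a.1 with
  | none => 1
  | some b => fr.W b (σ a.2) (fun n => if h : n < fr.N then l ⟨n, h⟩ else false)

private theorem D2_sw_pos (fr : Fr) {k : ℕ} (a : Option (Fin fr.q) × Fin k) (l : Fin fr.N → Bool)
    (σ : Fin k → Bool) : 0 < D2_sw fr a l σ := by
  unfold D2_sw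
  split
  · exact one_pos
  · exact lt_of_lt_of_le (by norm_num) (fr.W_lo _ _ _)

private theorem D2_log_sw (fr : Fr) {k : ℕ} (a : Option (Fin fr.q) × Fin k) (l : Fin fr.N → Bool)
    (σ : Fin k → Bool) : |Real.log (D2_sw fr a l σ)| ≤ 1 := by
  unfold D2_sw
  split
  · simp
  · rename_i b _
    have h1 := fr.W_lo b (σ a.2) (fun n => if h : n < fr.N then l ⟨n, h⟩ else false)
    have h2 := fr.W_hi b (σ a.2) (fun n => if h : n < fr.N then l ⟨n, h⟩ else false)
    rw [abs_le]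
    constructor
    · have h3 : Real.log (1 / 2) ≤ Real.log (fr.W b (σ a.2)
          (fun n => if h : n < fr.N then l ⟨n, h⟩ else false)) :=
        Real.log_le_log (by norm_num) h1
      have h4 : Real.log (1 / 2) = -Real.log 2 := by
        rw [one_div, Real.log_inv]
      have h5 := Real.log_two_lt_d9
      linarith
    · have h3 := Real.log_le_sub_one_of_pos (lt_of_lt_of_le (by norm_num) h1)
      linarith

/-- levels of the path space (same as `Sys.lv`). -/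
private def D2_lv (fr : Fr) (k L : ℕ) :
    Lev fr.R ((Fin L → Fin fr.N → Bool) × (Fin k → Bool)) where
  rel j ω ω' := (∀ c (n : Fin fr.N), fr.lev n ≤ j → ω.1 c n = ω'.1 c n) ∧ (fr.R ≤ j → ω.2 = ω'.2)
  refl j ω := ⟨fun _ _ _ => rfl, fun _ => rfl⟩
  symm j ω ω' h := ⟨fun c n hn => (h.1 c n hn).symm, fun hj => (h.2 hj).symm⟩
  trans j ω ω' ω'' h h' :=
    ⟨fun c n hn => (h.1 c n hn).trans (h'.1 c n hn), fun hj => (h.2 hj).trans (h'.2 hj)⟩
  zero ω ω' := by
    refine ⟨fun c n hn => ?_, fun h => ?_⟩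
    · have := fr.lev_pos n; omega
    · have := fr.lev_pos 0; have := fr.lev_lt 0; omega
  mono j ω ω' h := ⟨fun c n hn => h.1 c n (by omega), fun hj => h.2 (by omega)⟩
  top ω ω' h := by
    refine Prod.ext ?_ (h.2 le_rfl)
    funext c n
    exact h.1 c n (fr.lev_lt n).le

/-- levels of one slot. -/
private def D2_lv1 (fr : Fr) : Lev fr.R (Fin fr.N → Bool) where
  rel j l l' := ∀ n : Fin fr.N, fr.lev n ≤ j → l n = l' n
  refl j ω := fun _ _ => rfl
  symm j ω ω' h := fun n hn => (h n hn).symm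
  trans j ω ω' ω'' h h' := fun n hn => (h n hn).trans (h' n hn)
  zero ω ω' := fun n hn => by have := fr.lev_pos n; omega
  mono j ω ω' h := fun n hn => h n (by omega)
  top ω ω' h := by
    funext n
    exact h n (fr.lev_lt n).le

private theorem D2_expo (fr : Fr) : Expo fr.R (fun j : ℕ => (j : ℝ) / fr.R) := by
  have hR' : 0 < fr.R := lt_of_le_of_lt (Nat.zero_le _) (fr.lev_lt 0)
  have hR : (0 : ℝ) < fr.R := by exact_mod_cast hR'
  refine ⟨by simp, by simp [hR.ne'], fun j _ => ?_⟩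
  push_cast
  gcongr
  linarith

/-- `log T_0` with base weight `B` and slots `a`. -/
private def D2_G (fr : Fr) {k L : ℕ} (B : (Fin k → Bool) → ℝ)
    (a : Fin L → Option (Fin fr.q) × Fin k) : ℝ :=
  LT0 (D2_lv fr k L) (fun j : ℕ => (j : ℝ) / fr.R)
    (unif ((Fin L → Fin fr.N → Bool) × (Fin k → Bool)))
    (fun ω => B ω.2 * ∏ c, D2_sw fr (a c) (ω.1 c) ω.2)

private theorem D2_w_pos (fr : Fr) {k L : ℕ} {B : (Fin k → Bool) → ℝ} (hB : ∀ σ, 0 < B σ)
    (a : Fin L → Option (Fin fr.q) × Fin k) (ω : (Fin L → Fin fr.N → Bool) × (Fin k → Bool)) :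
    0 < B ω.2 * ∏ c, D2_sw fr (a c) (ω.1 c) ω.2 :=
  mul_pos (hB _) (Finset.prod_pos fun _ _ => D2_sw_pos _ _ _ _)

private theorem D2_log_w (fr : Fr) {k L : ℕ} {B : (Fin k → Bool) → ℝ} (hB : ∀ σ, 0 < B σ)
    (a : Fin L → Option (Fin fr.q) × Fin k) (ω : (Fin L → Fin fr.N → Bool) × (Fin k → Bool)) :
    Real.log (B ω.2 * ∏ c, D2_sw fr (a c) (ω.1 c) ω.2) =
      Real.log (B ω.2) + ∑ c, Real.log (D2_sw fr (a c) (ω.1 c) ω.2) := by
  rw [Real.log_mul (hB _).ne' (Finset.prod_pos fun _ _ => D2_sw_pos _ _ _ _).ne',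
    Real.log_prod (fun _ _ => (D2_sw_pos _ _ _ _).ne')]

private theorem D2_G_osc (fr : Fr) {k L : ℕ} {B : (Fin k → Bool) → ℝ} (hB : ∀ σ, 0 < B σ)
    (a : Fin L → Option (Fin fr.q) × Fin k) (i : Fin L) (x : Option (Fin fr.q) × Fin k) :
    |D2_G fr B (Function.update a i x) - D2_G fr B a| ≤ 2 := by
  unfold D2_G
  refine LT0_lip _ (D2_expo fr) (Sys.unif_law _) (D2_w_pos fr hB _) (D2_w_pos fr hB _) fun ω => ?_
  rw [D2_log_w fr hB, D2_log_w fr hB, add_sub_add_left_eq_sub, ← Finset.sum_sub_distrib,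
    Finset.sum_eq_single i]
  · rw [Function.update_self]
    have h1 := abs_le.1 (D2_log_sw fr x (ω.1 i) ω.2)
    have h2 := abs_le.1 (D2_log_sw fr (a i) (ω.1 i) ω.2)
    rw [abs_le]
    constructor <;> linarith [h1.1, h1.2, h2.1, h2.2]
  · intro j _ hj
    rw [Function.update_of_ne hj, sub_self]
  · intro h
    exact absurd (Finset.mem_univ i) h

private theorem D2_G_base (fr : Fr) {k L : ℕ} {B B' : (Fin k → Bool) → ℝ} (hB : ∀ σ, 0 < B σ)
    (hB' : ∀ σ, 0 < B' σ) {δ : ℝ} (h : ∀ σ, |Real.log (B σ) - Real.log (B' σ)| ≤ δ)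
    (a : Fin L → Option (Fin fr.q) × Fin k) :
    |D2_G fr B a - D2_G fr B' a| ≤ δ := by
  unfold D2_G
  refine LT0_lip _ (D2_expo fr) (Sys.unif_law _) (D2_w_pos fr hB _) (D2_w_pos fr hB' _) fun ω => ?_
  rw [D2_log_w fr hB, D2_log_w fr hB', add_sub_add_right_eq_sub]
  exact h ω.2

/-- splitting off the first slot. -/
private def D2_eq (N k L : ℕ) : ((Fin (L + 1) → Fin N → Bool) × (Fin k → Bool)) ≃
    (Fin N → Bool) × ((Fin L → Fin N → Bool) × (Fin k → Bool)) where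
  toFun ω := (ω.1 0, (fun c => ω.1 c.succ, ω.2))
  invFun x := (Fin.cons (α := fun _ => Fin N → Bool) x.1 x.2.1, x.2.2)
  left_inv ω := by
    refine Prod.ext ?_ rfl
    funext c
    refine Fin.cases ?_ (fun j => ?_) c
    · simp
    · simp
  right_inv x := by
    refine Prod.ext ?_ (Prod.ext ?_ rfl)
    · simp
    · funext c
      simp

private theorem D2_G_drop (fr : Fr) {k L : ℕ} {B : (Fin k → Bool) → ℝ} (hB : ∀ σ, 0 < B σ)
    (x : Option (Fin fr.q) × Fin k) (a : Fin L → Option (Fin fr.q) × Fin k) :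
    |D2_G fr B (Fin.cons (α := fun _ => Option (Fin fr.q) × Fin k) x a) - D2_G fr B a| ≤ 1 := by
  have hpos : ∀ ω : (Fin (L + 1) → Fin fr.N → Bool) × (Fin k → Bool),
      0 < B ω.2 * ∏ c : Fin L, D2_sw fr (a c) (ω.1 c.succ) ω.2 := fun ω =>
    mul_pos (hB _) (Finset.prod_pos fun _ _ => D2_sw_pos _ _ _ _)
  have e : D2_G fr B a = LT0 (D2_lv fr k (L + 1)) (fun j : ℕ => (j : ℝ) / fr.R)
      (unif ((Fin (L + 1) → Fin fr.N → Bool) × (Fin k → Bool)))
      (fun ω => B ω.2 * ∏ c : Fin L, D2_sw fr (a c) (ω.1 c.succ) ω.2) := by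
    have h1 := LT0_prod_snd (D2_lv1 fr) (D2_lv fr k L) (D2_expo fr)
      (Sys.unif_law (Fin fr.N → Bool))
      (Sys.unif_law ((Fin L → Fin fr.N → Bool) × (Fin k → Bool)))
      (W := fun ω => B ω.2 * ∏ c, D2_sw fr (a c) (ω.1 c) ω.2) (D2_w_pos fr hB a)
    unfold D2_G
    rw [← h1]
    have h2 := LT0_equiv (D2_lv fr k (L + 1)) ((D2_lv1 fr).prod (D2_lv fr k L))
      (m := fun j : ℕ => (j : ℝ) / fr.R) (D2_eq fr.N k L) (fun j ω ω' => ?_)
      (fun ω => unif (Fin fr.N → Bool) ω.1 *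
        unif ((Fin L → Fin fr.N → Bool) × (Fin k → Bool)) ω.2)
      (fun x => B x.2.2 * ∏ c, D2_sw fr (a c) (x.2.1 c) x.2.2)
    · rw [← h2]
      congr 1
      funext ω
      unfold unif
      rw [div_mul_div_comm, one_mul, ← Nat.cast_mul, ← Fintype.card_prod,
        Fintype.card_congr (D2_eq fr.N k L)]
    · constructor
      · intro h
        exact ⟨fun n hn => h.1 0 n hn, fun c n hn => h.1 c.succ n hn, h.2⟩
      · intro h
        refine ⟨fun c => ?_, h.2.2⟩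
        refine Fin.cases ?_ (fun j => ?_) c
        · exact h.1
        · exact h.2.1 j
  rw [e]
  unfold D2_G
  refine LT0_lip _ (D2_expo fr) (Sys.unif_law _) (D2_w_pos fr hB _) hpos fun ω => ?_
  rw [D2_log_w fr hB, Fin.sum_univ_succ,
    Real.log_mul (hB _).ne' (Finset.prod_pos fun _ _ => D2_sw_pos _ _ _ _).ne',
    Real.log_prod (fun _ _ => (D2_sw_pos _ _ _ _).ne')]
  simp only [Fin.cons_zero, Fin.cons_succ]
  have h1 := D2_log_sw fr x (ω.1 0) ω.2
  have e2 : ∀ u v w : ℝ, u + (v + w) - (u + w) = v := fun u v w => by ring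
  rw [e2]
  exact h1

/-- mark probabilities. -/
private def D2_pm (fr : Fr) : Option (Fin fr.q) → ℝ
  | none => 1 - ∑ b ∈ Finset.range fr.q, (1 / 2 : ℝ) ^ (b + 2)
  | some b => (1 / 2 : ℝ) ^ ((b : ℕ) + 2)

variable {p : ℕ} (C : Core p)

private theorem D2_pm_eq (fr : Fr) {k L : ℕ} (hk : 0 < k) (hL : 0 < L) (u : Uk k)
    (o : Option (Fin fr.q)) : (uSys C fr k L hk hL u).pm o = D2_pm fr o := by
  cases o <;> rfl

private theorem D2_slotW_eq (fr : Fr) {k L : ℕ} (hk : 0 < k) (hL : 0 < L) (u : Uk k)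
    (a : Option (Fin fr.q) × Fin k) (l : Fin fr.N → Bool) (σ : Fin k → Bool) :
    (uSys C fr k L hk hL u).slotW a l σ = D2_sw fr a l σ := by
  obtain ⟨o, i⟩ := a
  cases o <;> rfl

/-- weight on `k+1` spins with slots on the first `k`. -/
def swR (fr : Fr) (k L : ℕ) (hk : 0 < k) (hL : 0 < L) (U : Uk (k + 1))
    (y : Fin (k + 1) → Fin C.nH) (a : Fin L → (uSys C fr k L hk hL 1).Slot)
    (ω : (Fin L → Fin fr.N → Bool) × (Fin (k + 1) → Bool)) : ℝ :=
  (U ω.2 : ℝ) * (wFld C (k + 1) y ω.2 : ℝ) *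
    ∏ c, (uSys C fr k L hk hL 1).slotW (a c) (ω.1 c) (fun i => ω.2 i.castSucc)

def psR (fr : Fr) (k L : ℕ) (hk : 0 < k) (hL : 0 < L) (U : Uk (k + 1)) : ℝ :=
  ∑ y : Fin (k + 1) → Fin C.nH, prF C (k + 1) y *
    ∑ a : Fin L → (uSys C fr k L hk hL 1).Slot,
      (∏ c, ((uSys C fr k L hk hL 1).pm (a c).1 * (1 / (k : ℝ)))) *
      LT0 (uSys C fr (k + 1) L (Nat.succ_pos k) hL U).lv (uSys C fr (k + 1) L (Nat.succ_pos k) hL U).m
        (unif _) (swR C fr k L hk hL U y a)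

/-- the base weight. -/
private def D2_B {k : ℕ} (U : Uk (k + 1)) (y : Fin (k + 1) → Fin C.nH)
    (σ : Fin (k + 1) → Bool) : ℝ := (U σ : ℝ) * (wFld C (k + 1) y σ : ℝ)

private theorem D2_B_pos {k : ℕ} (U : Uk (k + 1)) (y : Fin (k + 1) → Fin C.nH)
    (σ : Fin (k + 1) → Bool) : 0 < D2_B C U y σ := mul_pos (U σ).2 (wFld C (k + 1) y σ).2

private theorem D2_psR (fr : Fr) {k L : ℕ} (hk : 0 < k) (hL : 0 < L) (U : Uk (k + 1)) :
    psR C fr k L hk hL U = ∑ y : Fin (k + 1) → Fin C.nH, prF C (k + 1) y *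
      ∑ a : Fin L → Option (Fin fr.q) × Fin k, (∏ c, (D2_pm fr (a c).1 * (1 / (k : ℝ)))) *
        D2_G fr (D2_B C U y) (fun c => ((a c).1, (a c).2.castSucc)) := by
  unfold psR
  refine Finset.sum_congr rfl fun y _ => ?_
  congr 1
  refine Finset.sum_congr rfl fun a _ => ?_
  congr 1
  · exact Finset.prod_congr rfl fun c _ => by rw [D2_pm_eq C fr hk hL 1 (a c).1]
  · unfold D2_G
    have hw : swR C fr k L hk hL U y a = fun ω => D2_B C U y ω.2 *
        ∏ c, D2_sw fr ((a c).1, (a c).2.castSucc) (ω.1 c) ω.2 := by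
      funext ω
      unfold swR D2_B
      congr 1
      refine Finset.prod_congr rfl fun c _ => ?_
      refine (D2_slotW_eq C fr hk hL 1 (a c) (ω.1 c) _).trans ?_
      generalize a c = x
      obtain ⟨o, i⟩ := x
      cases o <;> rfl
    rw [hw]
    rfl

private theorem D2_psu (fr : Fr) {k L : ℕ} (hL : 0 < L) (U : Uk (k + 1)) :
    psu C fr (k + 1) L (Nat.succ_pos k) hL U = ∑ y : Fin (k + 1) → Fin C.nH, prF C (k + 1) y *
      ∑ a : Fin L → Option (Fin fr.q) × Fin (k + 1),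
        (∏ c, (D2_pm fr (a c).1 * (1 / (((k + 1 : ℕ) : ℝ))))) * D2_G fr (D2_B C U y) a := by
  unfold psu Sys.psi
  have h1 : ∑ r, (uSys C fr (k + 1) L (Nat.succ_pos k) hL U).prR r *
      (uSys C fr (k + 1) L (Nat.succ_pos k) hL U).lT r =
      ∑ y : Fin (k + 1) → Fin C.nH, ∑ a : Fin L → Option (Fin fr.q) × Fin (k + 1),
        (uSys C fr (k + 1) L (Nat.succ_pos k) hL U).prR (y, a) *
        (uSys C fr (k + 1) L (Nat.succ_pos k) hL U).lT (y, a) := by
    exact Fintype.sum_prod_type (fun r : (Fin (k + 1) → Fin C.nH) ×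
      (Fin L → Option (Fin fr.q) × Fin (k + 1)) =>
      (uSys C fr (k + 1) L (Nat.succ_pos k) hL U).prR r *
      (uSys C fr (k + 1) L (Nat.succ_pos k) hL U).lT r)
  rw [h1]
  refine Finset.sum_congr rfl fun y _ => ?_
  rw [Finset.mul_sum]
  refine Finset.sum_congr rfl fun a _ => ?_
  have h2 : (uSys C fr (k + 1) L (Nat.succ_pos k) hL U).prR (y, a) =
      prF C (k + 1) y * ∏ c, (D2_pm fr (a c).1 * (1 / (((k + 1 : ℕ) : ℝ)))) := by
    unfold Sys.prR
    congr 1
    exact Finset.prod_congr rfl fun c _ => by rw [← D2_pm_eq C fr (Nat.succ_pos k) hL U (a c).1]; rfl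
  have h3 : (uSys C fr (k + 1) L (Nat.succ_pos k) hL U).lT (y, a) = D2_G fr (D2_B C U y) a := by
    unfold Sys.lT D2_G
    have hw : (uSys C fr (k + 1) L (Nat.succ_pos k) hL U).sw (y, a) = fun ω => D2_B C U y ω.2 *
        ∏ c, D2_sw fr (a c) (ω.1 c) ω.2 := by
      funext ω
      unfold Sys.sw
      have h4 : ∀ c, (uSys C fr (k + 1) L (Nat.succ_pos k) hL U).slotW (a c) (ω.1 c) ω.2 =
        D2_sw fr (a c) (ω.1 c) ω.2 := fun c => D2_slotW_eq C fr _ hL U _ _ _
      exact congrArg₂ (· * ·) rfl (Finset.prod_congr rfl fun c _ => h4 c)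
    rw [hw]
    rfl
  rw [h2, h3]
  ring

include C in
private theorem D2_mu_nonneg (fr : Fr) {k L : ℕ} (hk : 0 < k) (hL : 0 < L)
    (o : Option (Fin fr.q)) : 0 ≤ D2_pm fr o := by
  rw [← D2_pm_eq C fr hk hL 1 o]
  exact Sys.pm_nonneg _ _

include C in
private theorem D2_pm_sum (fr : Fr) {k L : ℕ} (hk : 0 < k) (hL : 0 < L) :
    ∑ o, D2_pm fr o = 1 := by
  have := (uSys C fr k L hk hL 1).pm_sum
  rw [← this]
  exact Finset.sum_congr rfl fun o _ => (D2_pm_eq C fr hk hL 1 o).symm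

private theorem D2_slot_sum {O : Type} [Fintype O] {pm : O → ℝ} (h1 : ∑ o, pm o = 1) {k : ℕ}
    (hk : 0 < k) : ∑ a : O × Fin k, pm a.1 * (1 / (k : ℝ)) = 1 := by
  have hk : (0 : ℝ) < k := by exact_mod_cast hk
  rw [Fintype.sum_prod_type]
  simp only [Finset.sum_const, Finset.card_univ, Fintype.card_fin, nsmul_eq_mul]
  have : ∀ x : O, (k : ℝ) * (pm x * (1 / (k : ℝ))) = pm x := by
    intro x; field_simp
  simp only [this]
  exact h1

/-- dropping slots. -/
private theorem D2_drop (fr : Fr) {k L L' : ℕ} (hL : 0 < L) (hL' : 0 < L') (hLL : L ≤ L')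
    (U : Uk (k + 1)) :
    |psu C fr (k + 1) L' (Nat.succ_pos k) hL' U - psu C fr (k + 1) L (Nat.succ_pos k) hL U| ≤
      (L' : ℝ) - L := by
  obtain ⟨d, rfl⟩ := Nat.exists_eq_add_of_le hLL
  induction d with
  | zero => simp
  | succ d ih =>
    have hLd : 0 < L + d := by omega
    have h1 := ih hLd (Nat.le_add_right _ _)
    have h2 : |psu C fr (k + 1) (L + (d + 1)) (Nat.succ_pos k) hL' U -
        psu C fr (k + 1) (L + d) (Nat.succ_pos k) hLd U| ≤ 1 := by
      rw [D2_psu, D2_psu]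
      refine D2_avg_sub_le (prF_nonneg C (k + 1)) (prF_sum C (k + 1)) fun y => ?_
      have h0 : ∀ a : Option (Fin fr.q) × Fin (k + 1),
          0 ≤ D2_pm fr a.1 * (1 / (((k + 1 : ℕ) : ℝ))) := fun a =>
        mul_nonneg (D2_mu_nonneg C fr (Nat.succ_pos k) hL a.1) (by positivity)
      have hs : ∑ a : Option (Fin fr.q) × Fin (k + 1),
          D2_pm fr a.1 * (1 / (((k + 1 : ℕ) : ℝ))) = 1 :=
        D2_slot_sum (D2_pm_sum C fr (Nat.succ_pos k) hL) (Nat.succ_pos k)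
      have e1 := D2_sum_cons (L := L + d) (fun a : Option (Fin fr.q) × Fin (k + 1) =>
        D2_pm fr a.1 * (1 / (((k + 1 : ℕ) : ℝ)))) (fun a => D2_G fr (D2_B C U y) a)
      have e2 : ∑ a : Fin (L + d) → Option (Fin fr.q) × Fin (k + 1),
          (∏ c, (D2_pm fr (a c).1 * (1 / (((k + 1 : ℕ) : ℝ))))) * D2_G fr (D2_B C U y) a =
          ∑ a0 : Option (Fin fr.q) × Fin (k + 1), (D2_pm fr a0.1 * (1 / (((k + 1 : ℕ) : ℝ)))) *
            ∑ a : Fin (L + d) → Option (Fin fr.q) × Fin (k + 1),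
          (∏ c, (D2_pm fr (a c).1 * (1 / (((k + 1 : ℕ) : ℝ))))) * D2_G fr (D2_B C U y) a := by
        rw [← Finset.sum_mul, hs, one_mul]
      rw [e2]
      change |∑ a : Fin (L + d + 1) → Option (Fin fr.q) × Fin (k + 1),
        (∏ c, (D2_pm fr (a c).1 * (1 / (((k + 1 : ℕ) : ℝ))))) * D2_G fr (D2_B C U y) a - _| ≤ 1
      rw [e1]
      refine D2_avg_sub_le h0 hs fun a0 => ?_
      refine D2_avg_sub_le (fun a => Finset.prod_nonneg fun i _ => h0 (a i)) (D2_total hs _)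
        fun a => ?_
      exact D2_G_drop fr (D2_B_pos C U y) a0 a
    have h3 := abs_sub_le (psu C fr (k + 1) (L + (d + 1)) (Nat.succ_pos k) hL' U)
      (psu C fr (k + 1) (L + d) (Nat.succ_pos k) hLd U)
      (psu C fr (k + 1) L (Nat.succ_pos k) hL U)
    push_cast at h1 ⊢
    linarith

/-- moving the sites. -/
private theorem D2_move (fr : Fr) {k L : ℕ} (hk : 0 < k) (hL : 0 < L) (U : Uk (k + 1)) :
    |psu C fr (k + 1) L (Nat.succ_pos k) hL U - psR C fr k L hk hL U| ≤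
      L * (2 / ((k : ℝ) + 1)) := by
  rw [D2_psu, D2_psR]
  refine D2_avg_sub_le (prF_nonneg C (k + 1)) (prF_sum C (k + 1)) fun y => ?_
  refine D2_hybrid (μ := fun a : Option (Fin fr.q) × Fin (k + 1) =>
      D2_pm fr a.1 * (1 / (((k + 1 : ℕ) : ℝ))))
    (ρ := fun b : Option (Fin fr.q) × Fin k => D2_pm fr b.1 * (1 / (k : ℝ)))
    (c := 2) (t := 2 / ((k : ℝ) + 1))
    (fun b => (b.1, b.2.castSucc)) (fun a => ?_) ?_ (fun b => ?_) ?_ ?_ L
    (D2_G fr (D2_B C U y)) ?_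
  · exact mul_nonneg (D2_mu_nonneg C fr (Nat.succ_pos k) hL a.1) (by positivity)
  · exact D2_slot_sum (D2_pm_sum C fr (Nat.succ_pos k) hL) (Nat.succ_pos k)
  · exact mul_nonneg (D2_mu_nonneg C fr (Nat.succ_pos k) hL b.1) (by positivity)
  · exact D2_slot_sum (D2_pm_sum C fr (Nat.succ_pos k) hL) hk
  · intro g hg
    exact D2_one (D2_mu_nonneg C fr (Nat.succ_pos k) hL)
      (D2_pm_sum C fr (Nat.succ_pos k) hL) hk g hg
  · intro a i x
    exact D2_G_osc fr (D2_B_pos C U y) a i x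

theorem reroute (fr : Fr) {k L L' : ℕ} (hk : 0 < k) (hL : 0 < L) (hL' : 0 < L') (hLL : L ≤ L')
    (U : Uk (k + 1)) :
    |psu C fr (k + 1) L' (Nat.succ_pos k) hL' U - psR C fr k L hk hL U| ≤
      2 * ((L' : ℝ) / ((k : ℝ) + 1) + ((L' : ℝ) - L)) := by
  have h1 := D2_drop C fr hL hL' hLL U
  have h2 := D2_move C fr hk hL U
  have h3 := abs_sub_le (psu C fr (k + 1) L' (Nat.succ_pos k) hL' U)
    (psu C fr (k + 1) L (Nat.succ_pos k) hL U) (psR C fr k L hk hL U)
  have h4 : (L : ℝ) ≤ L' := by exact_mod_cast hLL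
  have h5 : (L : ℝ) * (2 / ((k : ℝ) + 1)) ≤ 2 * ((L' : ℝ) / ((k : ℝ) + 1)) := by
    rw [mul_div_assoc', mul_comm (L : ℝ) 2, mul_div_assoc]
    have : (L : ℝ) / ((k : ℝ) + 1) ≤ (L' : ℝ) / ((k : ℝ) + 1) :=
      div_le_div_of_nonneg_right h4 (by positivity)
    linarith
  linarith

theorem psR_lip (fr : Fr) {k L : ℕ} (hk : 0 < k) (hL : 0 < L) :
    LipF (wEdg C (k + 1)) (cF C) (psR C fr k L hk hL) := by
  intro U e
  rw [D2_psR, D2_psR]
  refine D2_avg_sub_le (prF_nonneg C (k + 1)) (prF_sum C (k + 1)) fun y => ?_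
  refine D2_avg_sub_le (fun a => Finset.prod_nonneg fun i _ =>
    mul_nonneg (D2_mu_nonneg C fr (Nat.succ_pos k) hL _) (by positivity)) ?_ fun a => ?_
  · exact D2_total (μ := fun b : Option (Fin fr.q) × Fin k => D2_pm fr b.1 * (1 / (k : ℝ)))
      (D2_slot_sum (D2_pm_sum C fr (Nat.succ_pos k) hL) hk) L
  · refine D2_G_base fr (D2_B_pos C _ y) (D2_B_pos C U y) (fun σ => ?_) _
    have e1 : D2_B C (U * wEdg C (k + 1) e) y σ =
        (fac C e.1 (fun l => σ (e.2 l)) : ℝ) * D2_B C U y σ := by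
      show ((U σ : ℝ) * (fac C e.1 (fun l => σ (e.2 l)) : ℝ)) * (wFld C (k + 1) y σ : ℝ) =
        (fac C e.1 (fun l => σ (e.2 l)) : ℝ) * ((U σ : ℝ) * (wFld C (k + 1) y σ : ℝ))
      ring
    rw [e1, Real.log_mul (fac C e.1 _).2.ne' (D2_B_pos C U y σ).ne', add_sub_cancel_right]
    exact abs_log_fac_le C e.1 _

end Crest.SG
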