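import Crest.Agent.SG_CDefs

/-! # SG_D3 : classification of the edges on `k+1` spins by the number of new spins (task SG-D3) -/

set_option autoImplicit false
noncomputable section
open scoped BigOperators
open Classical Filter
open Crest.ProbabilityR.Diluted Crest.Agent.SGG
namespace Crest.SG

/-- number of coordinates equal to the new spin. -/
def nnew {p k : ℕ} (idx : Fin p → Fin (k + 1)) : ℕ := (Finset.univ.filter fun l => idx l = Fin.last k).card

/-- intensities. -/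
def lam0 (p : ℕ) (α : ℝ) (k : ℕ) : ℝ := α * ((k : ℝ) + 1) * ((k : ℝ) / ((k : ℝ) + 1)) ^ p
def lam1 (p : ℕ) (α : ℝ) (k : ℕ) : ℝ := α * p * ((k : ℝ) / ((k : ℝ) + 1)) ^ (p - 1)
def lam2 (p : ℕ) (α : ℝ) (k : ℕ) : ℝ := α * ((k : ℝ) + 1) - lam0 p α k - lam1 p α k

/-- `(k+1)^p ≥ k^p + p k^{p-1} + 1`. -/
theorem D3_pow (n : ℕ) (k : ℕ) :
    (k : ℝ) ^ (n + 2) + ((n : ℝ) + 2) * (k : ℝ) ^ (n + 1) + 1 ≤ ((k : ℝ) + 1) ^ (n + 2) := by
  have hk : (0 : ℝ) ≤ k := Nat.cast_nonneg k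
  induction n with
  | zero => norm_num; nlinarith
  | succ n ih =>
    have h1 : ((k : ℝ) + 1) ^ (n + 1 + 2) = ((k : ℝ) + 1) ^ (n + 2) * ((k : ℝ) + 1) := by ring
    have h2 : ((k : ℝ) ^ (n + 2) + ((n : ℝ) + 2) * (k : ℝ) ^ (n + 1) + 1) * ((k : ℝ) + 1) ≤
        ((k : ℝ) + 1) ^ (n + 2) * ((k : ℝ) + 1) :=
      mul_le_mul_of_nonneg_right ih (by linarith)
    have h3 : (0 : ℝ) ≤ (k : ℝ) ^ (n + 1) := pow_nonneg hk _
    rw [h1]
    refine le_trans ?_ h2
    push_cast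
    have e1 : (k : ℝ) ^ (n + 1 + 2) = (k : ℝ) ^ (n + 1) * k * k := by ring
    have e2 : (k : ℝ) ^ (n + 1 + 1) = (k : ℝ) ^ (n + 1) * k := by ring
    have e3 : (k : ℝ) ^ (n + 2) = (k : ℝ) ^ (n + 1) * k := by ring
    rw [e1, e2]
    nlinarith [mul_nonneg h3 (Nat.cast_nonneg n : (0 : ℝ) ≤ n), mul_nonneg h3 hk]

theorem D3_pos {p : ℕ} (hp : 2 ≤ p) (k : ℕ) :
    1 ≤ ((k : ℝ) + 1) ^ p - (k : ℝ) ^ p - p * (k : ℝ) ^ (p - 1) := by
  obtain ⟨n, rfl⟩ : ∃ n, p = n + 2 := ⟨p - 2, by omega⟩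
  have h := D3_pow n k
  have e : n + 2 - 1 = n + 1 := rfl
  rw [e]
  push_cast
  linarith

theorem D3_lam2_eq {p : ℕ} (hp : 2 ≤ p) (α : ℝ) {k : ℕ} (hk : 0 < k) :
    lam2 p α k * ((k : ℝ) + 1) ^ p =
      α * ((k : ℝ) + 1) * (((k : ℝ) + 1) ^ p - (k : ℝ) ^ p - p * (k : ℝ) ^ (p - 1)) := by
  obtain ⟨n, rfl⟩ : ∃ n, p = n + 1 := ⟨p - 1, by omega⟩
  have hk1 : ((k : ℝ) + 1) ≠ 0 := by positivity
  unfold lam2 lam0 lam1
  have e : n + 1 - 1 = n := rfl
  rw [e, div_pow, div_pow]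
  field_simp
  ring

/-- Bernoulli from above. -/
theorem D3_bern (n : ℕ) {x : ℝ} (h0 : 0 ≤ x) (h1 : x ≤ 1) :
    (1 - x) ^ n ≤ 1 - n * x + (n : ℝ) ^ 2 * x ^ 2 := by
  induction n with
  | zero => simp
  | succ n ih =>
    have h2 : (1 - x) ^ (n + 1) = (1 - x) ^ n * (1 - x) := pow_succ _ _
    have h3 := mul_le_mul_of_nonneg_right ih (by linarith : (0 : ℝ) ≤ 1 - x)
    rw [h2]
    refine h3.trans ?_
    push_cast
    have hn : (0 : ℝ) ≤ n := Nat.cast_nonneg n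
    nlinarith [mul_nonneg hn (sq_nonneg x), mul_nonneg (mul_nonneg hn hn) (mul_nonneg h0 (sq_nonneg x)),
      sq_nonneg x]

theorem D3_bern_lo (n : ℕ) {x : ℝ} (_h0 : 0 ≤ x) (h1 : x ≤ 1) : 1 - n * x ≤ (1 - x) ^ n := by
  have := one_add_mul_le_pow (a := -x) (by linarith) n
  have e : (1 + -x) = 1 - x := by ring
  rw [e] at this
  linarith

theorem lam_est {p : ℕ} (hp : 2 ≤ p) {α : ℝ} (hα : 0 < α) : ∃ Cl : ℝ, 0 ≤ Cl ∧ ∀ k : ℕ, 0 < k →
    |α * k - α * (p - 1 : ℝ) - lam0 p α k| ≤ Cl / k ∧ |α * p - lam1 p α k| ≤ Cl / k ∧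
    0 ≤ lam2 p α k ∧ lam2 p α k ≤ Cl / k ∧ 0 ≤ lam0 p α k ∧ lam0 p α k ≤ α * k ∧
    0 ≤ lam1 p α k ∧ α * k / 2 ^ (p - 1) ≤ lam0 p α k := by
  obtain ⟨n, rfl⟩ : ∃ n, p = n + 1 := ⟨p - 1, by omega⟩
  refine ⟨2 * α * ((n : ℝ) + 1) ^ 2, by positivity, fun k hk => ?_⟩
  have hk0 : (0 : ℝ) < k := by exact_mod_cast hk
  have hk1 : (1 : ℝ) ≤ k := by exact_mod_cast hk
  have hn0 : (0 : ℝ) ≤ n := Nat.cast_nonneg n
  set x : ℝ := 1 / ((k : ℝ) + 1) with hx
  have hx0 : 0 ≤ x := by positivity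
  have hx1 : x ≤ 1 := by rw [hx, div_le_one (by positivity)]; linarith
  have hxk : x * ((k : ℝ) + 1) = 1 := by rw [hx]; field_simp
  have hfr : (k : ℝ) / ((k : ℝ) + 1) = 1 - x := by rw [hx]; field_simp; ring
  have hxle : x ≤ 1 / k := one_div_le_one_div_of_le hk0 (by linarith)
  have e1 : n + 1 - 1 = n := rfl
  have hl0 : lam0 (n + 1) α k = α * ((k : ℝ) + 1) * (1 - x) ^ (n + 1) := by
    unfold lam0; rw [hfr]
  have hl1 : lam1 (n + 1) α k = α * ((n : ℝ) + 1) * (1 - x) ^ n := by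
    unfold lam1; rw [hfr, e1]; push_cast; ring
  have hα0 : 0 ≤ α := hα.le
  have hA : |α * k - α * (((n + 1 : ℕ) : ℝ) - 1) - lam0 (n + 1) α k| ≤
      α * ((n : ℝ) + 1) ^ 2 * x := by
    rw [hl0]
    have b1 := D3_bern (n + 1) hx0 hx1
    have b2 := D3_bern_lo (n + 1) hx0 hx1
    push_cast at b1 b2 ⊢
    have hc : 0 ≤ α * ((k : ℝ) + 1) := by positivity
    have c1 := mul_le_mul_of_nonneg_left b1 hc
    have c2 := mul_le_mul_of_nonneg_left b2 hc
    have r1 : α * ((k : ℝ) + 1) * (1 - ((n : ℝ) + 1) * x + ((n : ℝ) + 1) ^ 2 * x ^ 2) =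
        α * ((k : ℝ) + 1) - α * ((n : ℝ) + 1) * (x * ((k : ℝ) + 1)) +
          α * ((n : ℝ) + 1) ^ 2 * x * (x * ((k : ℝ) + 1)) := by ring
    have r2 : α * ((k : ℝ) + 1) * (1 - ((n : ℝ) + 1) * x) =
        α * ((k : ℝ) + 1) - α * ((n : ℝ) + 1) * (x * ((k : ℝ) + 1)) := by ring
    rw [r1, hxk] at c1
    rw [r2, hxk] at c2
    rw [abs_le]
    constructor <;> linarith
  have hB : |α * ((n + 1 : ℕ) : ℝ) - lam1 (n + 1) α k| ≤ α * ((n : ℝ) + 1) ^ 2 * x := by
    rw [hl1]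
    have b2 := D3_bern_lo n hx0 hx1
    have b3 : (1 - x) ^ n ≤ 1 := pow_le_one₀ (by linarith) (by linarith)
    have hc : 0 ≤ α * ((n : ℝ) + 1) := by positivity
    have c2 := mul_le_mul_of_nonneg_left b2 hc
    have c3 := mul_le_mul_of_nonneg_left b3 hc
    push_cast
    rw [abs_le]
    constructor
    · have : 0 ≤ α * ((n : ℝ) + 1) ^ 2 * x := by positivity
      linarith
    · have : 0 ≤ α * ((n : ℝ) + 1) * x := by positivity
      nlinarith
  have hfin : α * ((n : ℝ) + 1) ^ 2 * x ≤ 2 * α * ((n : ℝ) + 1) ^ 2 / k := by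
    have h1 : α * ((n : ℝ) + 1) ^ 2 * x ≤ α * ((n : ℝ) + 1) ^ 2 * (1 / k) :=
      mul_le_mul_of_nonneg_left hxle (by positivity)
    have h2 : 0 ≤ α * ((n : ℝ) + 1) ^ 2 * (1 / k) := by positivity
    have h3 : 2 * α * ((n : ℝ) + 1) ^ 2 / k = 2 * (α * ((n : ℝ) + 1) ^ 2 * (1 / k)) := by ring
    linarith
  refine ⟨hA.trans hfin, hB.trans hfin, ?_, ?_, ?_, ?_, ?_, ?_⟩
  · have h1 := D3_lam2_eq hp α hk
    have h2 := D3_pos hp k
    have h3 : 0 < ((k : ℝ) + 1) ^ (n + 1) := by positivity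
    have h4 : 0 ≤ lam2 (n + 1) α k * ((k : ℝ) + 1) ^ (n + 1) := by
      rw [h1]
      exact mul_nonneg (by positivity) (by linarith)
    exact nonneg_of_mul_nonneg_left h4 h3
  · have h1 := le_trans (le_abs_self _) hA
    have h2 := le_trans (le_abs_self _) hB
    have h3 : lam2 (n + 1) α k = (α * k - α * (((n + 1 : ℕ) : ℝ) - 1) - lam0 (n + 1) α k) +
        (α * ((n + 1 : ℕ) : ℝ) - lam1 (n + 1) α k) := by
      unfold lam2; ring
    have h4 : α * ((n : ℝ) + 1) ^ 2 * x ≤ α * ((n : ℝ) + 1) ^ 2 * (1 / k) :=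
      mul_le_mul_of_nonneg_left hxle (by positivity)
    have h5 : 2 * α * ((n : ℝ) + 1) ^ 2 / k = 2 * (α * ((n : ℝ) + 1) ^ 2 * (1 / k)) := by ring
    rw [h3, h5]
    linarith
  · rw [hl0]
    exact mul_nonneg (by positivity) (pow_nonneg (by linarith) _)
  · rw [hl0]
    have b3 : (1 - x) ^ n ≤ 1 := pow_le_one₀ (by linarith) (by linarith)
    have h1 : α * ((k : ℝ) + 1) * (1 - x) ^ (n + 1) = α * k * (1 - x) ^ n := by
      have : ((k : ℝ) + 1) * (1 - x) = k := by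
        have : ((k : ℝ) + 1) * (1 - x) = ((k : ℝ) + 1) - x * ((k : ℝ) + 1) := by ring
        rw [this, hxk]; ring
      rw [pow_succ]
      calc α * ((k : ℝ) + 1) * ((1 - x) ^ n * (1 - x)) = α * (((k : ℝ) + 1) * (1 - x)) * (1 - x) ^ n := by ring
        _ = _ := by rw [this]
    rw [h1]
    have := mul_le_mul_of_nonneg_left b3 (by positivity : 0 ≤ α * (k : ℝ))
    linarith
  · rw [hl1]
    exact mul_nonneg (by positivity) (pow_nonneg (by linarith) _)
  · rw [hl0]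
    have h1 : α * ((k : ℝ) + 1) * (1 - x) ^ (n + 1) = α * k * (1 - x) ^ n := by
      have : ((k : ℝ) + 1) * (1 - x) = k := by
        have : ((k : ℝ) + 1) * (1 - x) = ((k : ℝ) + 1) - x * ((k : ℝ) + 1) := by ring
        rw [this, hxk]; ring
      rw [pow_succ]
      calc α * ((k : ℝ) + 1) * ((1 - x) ^ n * (1 - x)) = α * (((k : ℝ) + 1) * (1 - x)) * (1 - x) ^ n := by ring
        _ = _ := by rw [this]
    rw [h1, e1]
    have h2 : (1 / 2 : ℝ) ≤ 1 - x := by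
      rw [← hfr, div_le_div_iff₀ (by norm_num) (by positivity)]
      linarith
    have h3 : (1 / 2 : ℝ) ^ n ≤ (1 - x) ^ n := pow_le_pow_left₀ (by norm_num) h2 n
    have h4 : α * k / 2 ^ n = α * k * (1 / 2 : ℝ) ^ n := by rw [one_div, inv_pow]; rfl
    rw [h4]
    exact mul_le_mul_of_nonneg_left h3 (by positivity)


/-- configurations avoiding the new spin. -/
theorem D3_sum0 {p k : ℕ} (F : (Fin p → Fin (k + 1)) → ℝ) :
    ∑ idx, (if nnew idx = 0 then F idx else 0) = ∑ v : Fin p → Fin k, F (fun l => (v l).castSucc) := by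
  rw [← Finset.sum_filter]
  symm
  refine Finset.sum_bij (fun v _ => fun l => (v l).castSucc) ?_ ?_ ?_ ?_
  · intro v _
    simp only [Finset.mem_filter, Finset.mem_univ, true_and, nnew, Finset.card_eq_zero]
    refine Finset.filter_eq_empty_iff.2 fun l _ => ?_
    exact (Fin.castSucc_lt_last _).ne
  · intro v _ v' _ h
    funext l
    exact Fin.castSucc_injective _ (congrFun h l)
  · intro idx h
    simp only [Finset.mem_filter, Finset.mem_univ, true_and, nnew, Finset.card_eq_zero] at h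
    have h' : ∀ l, idx l ≠ Fin.last k := fun l => (Finset.filter_eq_empty_iff.1 h) (Finset.mem_univ l)
    exact ⟨fun l => (idx l).castPred (h' l), Finset.mem_univ _, funext fun l => Fin.castSucc_castPred _ _⟩
  · intro v _
    rfl

theorem D3_nnew_ins {n k : ℕ} (l0 : Fin (n + 1)) (w : Fin n → Fin (k + 1)) :
    nnew (Fin.insertNth (α := fun _ => Fin (k + 1)) l0 (Fin.last k) w) = nnew w + 1 := by
  unfold nnew
  rw [Finset.card_filter, Finset.card_filter, Fin.sum_univ_succAbove _ l0]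
  simp [add_comm]

theorem D3_sum1_l {n k : ℕ} (F : (Fin (n + 1) → Fin (k + 1)) → ℝ) (l0 : Fin (n + 1)) :
    ∑ idx, (if nnew idx = 1 ∧ idx l0 = Fin.last k then F idx else 0) =
      ∑ v : Fin n → Fin k, F (Fin.insertNth (α := fun _ => Fin (k + 1)) l0 (Fin.last k)
        (fun l => (v l).castSucc)) := by
  rw [← (Fin.insertNthEquiv (fun _ : Fin (n + 1) => Fin (k + 1)) l0).sum_comp,
    Fintype.sum_prod_type]
  rw [Finset.sum_eq_single (Fin.last k)]
  · rw [← D3_sum0 (fun w => F (Fin.insertNth (α := fun _ => Fin (k + 1)) l0 (Fin.last k) w))]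
    refine Finset.sum_congr rfl fun w _ => ?_
    simp only [Fin.insertNthEquiv, Equiv.coe_fn_mk, D3_nnew_ins, Fin.insertNth_apply_same, and_true,
      Nat.add_eq_right]
  · intro x _ hx
    refine Finset.sum_eq_zero fun w _ => ?_
    simp only [Fin.insertNthEquiv, Equiv.coe_fn_mk, Fin.insertNth_apply_same]
    rw [if_neg]
    exact fun h => hx h.2
  · intro h
    exact absurd (Finset.mem_univ _) h

theorem D3_sum1 {n k : ℕ} (F : (Fin (n + 1) → Fin (k + 1)) → ℝ)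
    (hF : ∀ (π : Equiv.Perm (Fin (n + 1))) idx, F (fun l => idx (π l)) = F idx) :
    ∑ idx, (if nnew idx = 1 then F idx else 0) =
      ((n : ℝ) + 1) * ∑ v : Fin n → Fin k, F (Fin.snoc (α := fun _ => Fin (k + 1))
        (fun l => (v l).castSucc) (Fin.last k)) := by
  have h1 : ∀ idx : Fin (n + 1) → Fin (k + 1), (if nnew idx = 1 then F idx else 0) =
      ∑ l0 : Fin (n + 1), (if nnew idx = 1 ∧ idx l0 = Fin.last k then F idx else 0) := by
    intro idx
    by_cases h : nnew idx = 1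
    · simp only [h, if_true, true_and]
      rw [← Finset.sum_filter, Finset.sum_const]
      have : (Finset.univ.filter fun l => idx l = Fin.last k).card = 1 := h
      rw [this, one_smul]
    · simp [h]
  simp_rw [h1]
  rw [Finset.sum_comm]
  simp_rw [D3_sum1_l]
  have h2 : ∀ (l0 : Fin (n + 1)) (w : Fin n → Fin (k + 1)),
      F (Fin.insertNth (α := fun _ => Fin (k + 1)) l0 (Fin.last k) w) =
        F (Fin.cons (α := fun _ => Fin (k + 1)) (Fin.last k) w) := by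
    intro l0 w
    rw [← hF (l0.cycleRange.symm)]
    congr 1
    funext j
    exact Fin.insertNth_apply_cycleRange_symm l0 (Fin.last k) w j
  have h3 : ∀ w : Fin n → Fin (k + 1), F (Fin.snoc (α := fun _ => Fin (k + 1)) w (Fin.last k)) =
      F (Fin.cons (α := fun _ => Fin (k + 1)) (Fin.last k) w) := by
    intro w
    rw [← h2 (Fin.last n) w, Fin.insertNth_last']
  simp_rw [h2, h3]
  rw [Finset.sum_const, Finset.card_univ, Fintype.card_fin, nsmul_eq_mul]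
  push_cast
  rfl


section core
variable {p : ℕ} (C : Core p)

def pi0 (k : ℕ) (e : Edg C (k + 1)) : ℝ :=
  if nnew e.2 = 0 then C.wE e.1 * (1 / (k : ℝ)) ^ p else 0

def pi1 (k : ℕ) (e : Edg C (k + 1)) : ℝ :=
  if nnew e.2 = 1 then C.wE e.1 * ((1 / (p : ℝ)) * (1 / (k : ℝ)) ^ (p - 1)) else 0

def pi2 (k : ℕ) (e : Edg C (k + 1)) : ℝ :=
  if 2 ≤ nnew e.2 then C.wE e.1 / (((k : ℝ) + 1) ^ p - (k : ℝ) ^ p - p * (k : ℝ) ^ (p - 1)) else 0

theorem D3_wE_nonneg (e : C.E) : 0 ≤ C.wE e :=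
  mul_nonneg (C.wB_nonneg _) (Finset.prod_nonneg fun _ _ => C.wF_nonneg _)

theorem D3_wE_sum : ∑ e : C.E, C.wE e = 1 := by
  have h : ∀ e : C.E, C.wE e = C.wB e.1 * ∏ l, C.wF (e.2 l) := fun e => rfl
  simp_rw [h]
  rw [Fintype.sum_prod_type]
  simp_rw [← Finset.mul_sum]
  rw [← Finset.sum_mul, C.wB_sum, one_mul]
  rw [← Fintype.piFinset_univ, ← Finset.prod_univ_sum]
  simp [C.wF_sum]

theorem pi_nonneg (hp : 2 ≤ p) {k : ℕ} (hk : 0 < k) (e : Edg C (k + 1)) :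
    0 ≤ pi0 C k e ∧ 0 ≤ pi1 C k e ∧ 0 ≤ pi2 C k e := by
  have hw := D3_wE_nonneg C e.1
  refine ⟨?_, ?_, ?_⟩
  · unfold pi0
    split_ifs
    · positivity
    · exact le_rfl
  · unfold pi1
    split_ifs
    · positivity
    · exact le_rfl
  · unfold pi2
    split_ifs
    · exact div_nonneg hw (by linarith [D3_pos hp k])
    · exact le_rfl

theorem pi_mix (hp : 2 ≤ p) {α : ℝ} (hα : 0 < α) {k : ℕ} (hk : 0 < k) (e : Edg C (k + 1)) :
    α * ((k : ℝ) + 1) * piE C (k + 1) e =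
      lam0 p α k * pi0 C k e + lam1 p α k * pi1 C k e + lam2 p α k * pi2 C k e := by
  have hk0 : (k : ℝ) ≠ 0 := by positivity
  have hk1 : ((k : ℝ) + 1) ≠ 0 := by positivity
  have hD := D3_pos hp k
  have hl2 := D3_lam2_eq hp α hk
  have hpp : (p : ℝ) ≠ 0 := by positivity
  unfold piE pi0 pi1 pi2
  push_cast
  rcases Nat.lt_or_ge (nnew e.2) 1 with h | h
  · have h0 : nnew e.2 = 0 := by omega
    simp only [h0, if_true, zero_ne_one, if_false, mul_zero, add_zero, nonpos_iff_eq_zero,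
      OfNat.ofNat_ne_zero]
    unfold lam0
    simp only [div_pow, one_pow]
    field_simp
  · rcases Nat.lt_or_ge (nnew e.2) 2 with h' | h'
    · have h0 : nnew e.2 = 1 := by omega
      simp only [h0, if_true, one_ne_zero, if_false, mul_zero, zero_add]
      rw [if_neg (by omega)]
      unfold lam1
      obtain ⟨n, rfl⟩ : ∃ n, p = n + 1 := ⟨p - 1, by omega⟩
      have e1 : n + 1 - 1 = n := rfl
      simp only [e1, div_pow, one_pow]
      field_simp
      ring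
    · rw [if_neg (by omega), if_neg (by omega), if_pos h', mul_zero, mul_zero, zero_add, zero_add]
      have hne : ((k : ℝ) + 1) ^ p - (k : ℝ) ^ p - p * (k : ℝ) ^ (p - 1) ≠ 0 := by linarith
      have hP : ((k : ℝ) + 1) ^ p ≠ 0 := pow_ne_zero _ hk1
      have h3 : lam2 p α k = α * ((k : ℝ) + 1) * (((k : ℝ) + 1) ^ p - (k : ℝ) ^ p - p * (k : ℝ) ^ (p - 1)) / ((k : ℝ) + 1) ^ p := by
        rw [eq_div_iff hP, hl2]
      rw [h3, one_div, inv_pow]
      field_simp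

/-- lift of a weight on `k` spins. -/
def up {k : ℕ} (u : Uk k) : Uk (k + 1) := fun σ => u (fun i => σ i.castSucc)

theorem up_mul {k : ℕ} (u u' : Uk k) : up (u * u') = up u * up u' := rfl

/-- weight of a touching edge: the last coordinate is the new spin. -/
def wNew {k : ℕ} (e : C.E) (v : Fin (p - 1) → Fin k) : Uk (k + 1) :=
  fun σ => fac C e (fun l => if h : l.val < p - 1 then σ (v ⟨l.val, h⟩).castSucc else σ (Fin.last k))

/-- edges avoiding the new spin. -/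
theorem avg_pi0 {k : ℕ} (hk : 0 < k) (Ψ : Uk (k + 1) → ℝ) (U : Uk (k + 1)) :
    ∑ e, pi0 C k e * Ψ (U * wEdg C (k + 1) e) = ∑ e, piE C k e * Ψ (U * up (wEdg C k e)) := by
  refine (Fintype.sum_prod_type (α₁ := C.E) (α₂ := Fin p → Fin (k + 1)) _).trans
    (Eq.trans ?_ (Fintype.sum_prod_type (α₁ := C.E) (α₂ := Fin p → Fin k) _).symm)
  refine Finset.sum_congr rfl fun e _ => ?_
  have h := D3_sum0 (p := p) (k := k)
    (fun idx => C.wE e * (1 / (k : ℝ)) ^ p * Ψ (U * wEdg C (k + 1) (e, idx)))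
  have h1 : ∀ idx : Fin p → Fin (k + 1), pi0 C k (e, idx) * Ψ (U * wEdg C (k + 1) (e, idx)) =
      if nnew idx = 0 then C.wE e * (1 / (k : ℝ)) ^ p * Ψ (U * wEdg C (k + 1) (e, idx)) else 0 := by
    intro idx
    unfold pi0
    split_ifs <;> simp
  simp_rw [h1]
  rw [h]
  rfl

theorem D3_fac_perm (π : Equiv.Perm (Fin p)) (e : C.E) (s : Fin p → Bool) :
    fac C e (fun l => s (π l)) = fac C (e.1, fun l => e.2 (π.symm l)) s := by
  unfold fac
  refine Subtype.ext ?_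
  change 1 + C.b e.1 * ∏ l, C.f (e.2 l) (s (π l)) = 1 + C.b e.1 * ∏ l, C.f (e.2 (π.symm l)) (s l)
  rw [← Equiv.prod_comp π (fun l => C.f (e.2 (π.symm l)) (s l))]
  simp

theorem D3_wE_perm (π : Equiv.Perm (Fin p)) (e : C.E) :
    C.wE (e.1, fun l => e.2 (π.symm l)) = C.wE e := by
  unfold Core.wE
  change C.wB e.1 * ∏ l, C.wF (e.2 (π.symm l)) = C.wB e.1 * ∏ l, C.wF (e.2 l)
  rw [Equiv.prod_comp π.symm (fun l => C.wF (e.2 l))]

theorem D3_avg_perm {k : ℕ} (Ψ : Uk k → ℝ) (U : Uk k) (π : Equiv.Perm (Fin p)) (idx : Fin p → Fin k) :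
    ∑ e : C.E, C.wE e * Ψ (U * wEdg C k (e, fun l => idx (π l))) =
      ∑ e : C.E, C.wE e * Ψ (U * wEdg C k (e, idx)) := by
  let σ : C.E ≃ C.E := Equiv.prodCongr (Equiv.refl _) (Equiv.arrowCongr π (Equiv.refl _))
  rw [← Equiv.sum_comp σ (fun e : C.E => C.wE e * Ψ (U * wEdg C k (e, idx)))]
  refine Finset.sum_congr rfl fun e _ => ?_
  have hσ : σ e = (e.1, fun l => e.2 (π.symm l)) := rfl
  rw [hσ, D3_wE_perm]
  congr 3
  funext s
  exact D3_fac_perm C π e (fun l => s (idx l))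

end core

theorem D3_avg_pi1' {n : ℕ} (C : Core (n + 1)) {k : ℕ} (hk : 0 < k) (Ψ : Uk (k + 1) → ℝ)
    (U : Uk (k + 1)) :
    ∑ e, pi1 C k e * Ψ (U * wEdg C (k + 1) e) =
      ∑ e : C.E, C.wE e * ∑ v : Fin n → Fin k, (1 / (k : ℝ)) ^ n * Ψ (U * wNew C e v) := by
  have h1 : ∀ (e : C.E) (idx : Fin (n + 1) → Fin (k + 1)),
      pi1 C k (e, idx) * Ψ (U * wEdg C (k + 1) (e, idx)) =
      if nnew idx = 1 then ((1 / ((n : ℝ) + 1)) * (1 / (k : ℝ)) ^ n) *
        (C.wE e * Ψ (U * wEdg C (k + 1) (e, idx))) else 0 := by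
    intro e idx
    unfold pi1
    have e1 : n + 1 - 1 = n := rfl
    split_ifs
    · rw [e1]; push_cast; ring
    · simp
  rw [Fintype.sum_prod_type]
  simp_rw [h1]
  rw [Finset.sum_comm]
  have h2 : ∀ idx : Fin (n + 1) → Fin (k + 1),
      (∑ e : C.E, if nnew idx = 1 then ((1 / ((n : ℝ) + 1)) * (1 / (k : ℝ)) ^ n) *
        (C.wE e * Ψ (U * wEdg C (k + 1) (e, idx))) else 0) =
      if nnew idx = 1 then ((1 / ((n : ℝ) + 1)) * (1 / (k : ℝ)) ^ n) *
        ∑ e : C.E, C.wE e * Ψ (U * wEdg C (k + 1) (e, idx)) else 0 := by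
    intro idx
    split_ifs
    · rw [Finset.mul_sum]
    · simp
  simp_rw [h2]
  have h3 := D3_sum1 (n := n) (k := k) (fun idx => ((1 / ((n : ℝ) + 1)) * (1 / (k : ℝ)) ^ n) *
        ∑ e : C.E, C.wE e * Ψ (U * wEdg C (k + 1) (e, idx))) (fun π idx => by
          rw [D3_avg_perm C Ψ U π idx])
  rw [h3]
  simp_rw [Finset.mul_sum]
  rw [Finset.sum_comm]
  refine Finset.sum_congr rfl fun e _ => ?_
  refine Finset.sum_congr rfl fun v _ => ?_
  have h4 : wEdg C (k + 1) (e, Fin.snoc (α := fun _ => Fin (k + 1)) (fun l => (v l).castSucc) (Fin.last k)) =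
      wNew C e v := by
    funext s
    unfold wEdg wNew
    refine congrArg (fac C e) ?_
    funext l
    refine Fin.lastCases ?_ (fun l => ?_) l
    · simp
    · simp
  rw [h4]
  have hn : ((n : ℝ) + 1) ≠ 0 := by positivity
  field_simp

section core
variable {p : ℕ} (C : Core p)

/-- edges touching the new spin once (permute the coordinates: `wE` and `fac` are symmetric). -/
theorem avg_pi1 (hp : 2 ≤ p) {k : ℕ} (hk : 0 < k) (Ψ : Uk (k + 1) → ℝ) (U : Uk (k + 1)) :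
    ∑ e, pi1 C k e * Ψ (U * wEdg C (k + 1) e) =
      ∑ e : C.E, C.wE e * ∑ v : Fin (p - 1) → Fin k, (1 / (k : ℝ)) ^ (p - 1) * Ψ (U * wNew C e v) := by
  obtain ⟨n, rfl⟩ : ∃ n, p = n + 1 := ⟨p - 1, by omega⟩
  exact D3_avg_pi1' C hk Ψ U

theorem pi_sum (hp : 2 ≤ p) {k : ℕ} (hk : 0 < k) :
    ∑ e, pi0 C k e = 1 ∧ ∑ e, pi1 C k e = 1 ∧ ∑ e, pi2 C k e = 1 := by
  have hk0 : (k : ℝ) ≠ 0 := by positivity
  have hE : ∀ k : ℕ, 0 < k → ∑ e, piE C k e = 1 := by
    intro k hk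
    have hk0 : (k : ℝ) ≠ 0 := by positivity
    unfold piE
    rw [Fintype.sum_prod_type]
    simp only [Finset.sum_const, Finset.card_univ, Fintype.card_fun, Fintype.card_fin, nsmul_eq_mul]
    rw [← Finset.mul_sum, ← Finset.sum_mul, D3_wE_sum]
    push_cast
    rw [one_mul, one_div, inv_pow]
    exact mul_inv_cancel₀ (pow_ne_zero _ hk0)
  have h0 : ∑ e, pi0 C k e = 1 := by
    have := avg_pi0 C hk (fun _ => 1) 1
    simp only [mul_one] at this
    rw [this, hE k hk]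
  have h1 : ∑ e, pi1 C k e = 1 := by
    have := avg_pi1 C hp hk (fun _ => 1) 1
    simp only [mul_one] at this
    rw [this]
    simp only [Finset.sum_const, Finset.card_univ, Fintype.card_fun, Fintype.card_fin, nsmul_eq_mul]
    rw [← Finset.sum_mul, D3_wE_sum]
    push_cast
    rw [one_mul, one_div, inv_pow]
    exact mul_inv_cancel₀ (pow_ne_zero _ hk0)
  refine ⟨h0, h1, ?_⟩
  have hm : ∑ e, (1 : ℝ) * ((k : ℝ) + 1) * piE C (k + 1) e = ∑ e, (lam0 p 1 k * pi0 C k e +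
      lam1 p 1 k * pi1 C k e + lam2 p 1 k * pi2 C k e) :=
    Finset.sum_congr rfl fun e _ => pi_mix C hp one_pos hk e
  rw [Finset.sum_add_distrib, Finset.sum_add_distrib, ← Finset.mul_sum, ← Finset.mul_sum,
    ← Finset.mul_sum, ← Finset.mul_sum, h0, h1, hE (k + 1) (by omega)] at hm
  have hl : lam2 p 1 k = 1 * ((k : ℝ) + 1) - lam0 p 1 k - lam1 p 1 k := rfl
  have hl2 := D3_lam2_eq hp 1 hk
  have hD := D3_pos hp k
  have hpos : lam2 p 1 k ≠ 0 := by
    intro h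
    rw [h, zero_mul] at hl2
    have : 0 < (1 : ℝ) * ((k : ℝ) + 1) * (((k : ℝ) + 1) ^ p - (k : ℝ) ^ p - p * (k : ℝ) ^ (p - 1)) := by
      have : (0 : ℝ) < ((k : ℝ) + 1) ^ p - (k : ℝ) ^ p - p * (k : ℝ) ^ (p - 1) := by linarith
      positivity
    linarith
  have : lam2 p 1 k * ∑ e, pi2 C k e = lam2 p 1 k * 1 := by
    rw [mul_one]
    linarith
  exact mul_left_cancel₀ hpos this

theorem AvN_pi0 {k : ℕ} (hk : 0 < k) (Ψ : Uk (k + 1) → ℝ) (n : ℕ) (u : Uk k) (g : Uk (k + 1)) :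
    AvN (pi0 C k) (wEdg C (k + 1)) Ψ n (up u * g) =
      AvN (piE C k) (wEdg C k) (fun u' => Ψ (up u' * g)) n u := by
  induction n generalizing u with
  | zero => rw [AvN_zero, AvN_zero]
  | succ n ih =>
    rw [AvN_succ, AvN_succ, avg_pi0 C hk (fun U => AvN (pi0 C k) (wEdg C (k + 1)) Ψ n U)]
    refine Finset.sum_congr rfl fun e _ => ?_
    rw [← ih, up_mul, mul_right_comm]

theorem AvN_pi1 (hp : 2 ≤ p) {k : ℕ} (hk : 0 < k) (Ψ : Uk (k + 1) → ℝ) (κ : ℕ) (U : Uk (k + 1)) :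
    AvN (pi1 C k) (wEdg C (k + 1)) Ψ κ U =
      ∑ e : Fin κ → C.E, (∏ j, C.wE (e j)) * ∑ v : Fin κ × Fin (p - 1) → Fin k,
        (1 / (k : ℝ)) ^ (Fintype.card (Fin κ × Fin (p - 1))) *
          Ψ (U * ∏ j, wNew C (e j) (fun l => v (j, l))) := by
  induction κ generalizing U with
  | zero =>
    rw [AvN_zero]
    have hc : Fintype.card (Fin 0 × Fin (p - 1)) = 0 := by simp
    rw [hc]
    simp
  | succ κ ih =>
    rw [AvN_succ, avg_pi1 C hp hk (fun U => AvN (pi1 C k) (wEdg C (k + 1)) Ψ κ U)]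
    simp_rw [ih]
    rw [← (Fin.consEquiv (fun _ : Fin (κ + 1) => C.E)).sum_comp]
    refine Eq.trans ?_ (Fintype.sum_prod_type (α₁ := C.E) (α₂ := Fin κ → C.E) _).symm
    refine Finset.sum_congr rfl fun e0 _ => ?_
    rw [Finset.mul_sum]
    simp only [Fin.consEquiv, Equiv.coe_fn_mk, Fin.prod_univ_succ, Fin.cons_zero, Fin.cons_succ]
    let Φ : ((Fin (p - 1) → Fin k) × (Fin κ × Fin (p - 1) → Fin k)) ≃
        (Fin (κ + 1) × Fin (p - 1) → Fin k) :=
      { toFun := fun w jl => Fin.cons (α := fun _ => Fin k) (w.1 jl.2) (fun j => w.2 (j, jl.2)) jl.1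
        invFun := fun v => (fun l => v (0, l), fun jl => v (jl.1.succ, jl.2))
        left_inv := fun w => by simp
        right_inv := fun v => by
          funext jl
          obtain ⟨j, l⟩ := jl
          refine Fin.cases ?_ (fun j => ?_) j <;> simp }
    have hΦ0 : ∀ w l, Φ w (0, l) = w.1 l := fun w l => rfl
    have hΦs : ∀ w j l, Φ w (Fin.succ j, l) = w.2 (j, l) := fun w j l => rfl
    simp_rw [Finset.mul_sum]
    rw [Finset.sum_comm]
    refine Finset.sum_congr rfl fun e _ => ?_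
    rw [← Φ.sum_comp, Fintype.sum_prod_type]
    refine Finset.sum_congr rfl fun v0 _ => ?_
    refine Finset.sum_congr rfl fun v _ => ?_
    have hc : Fintype.card (Fin (κ + 1) × Fin (p - 1)) = (p - 1) + Fintype.card (Fin κ × Fin (p - 1)) := by
      simp only [Fintype.card_prod, Fintype.card_fin]; ring
    rw [hc, pow_add]
    simp only [hΦ0, hΦs]
    rw [mul_assoc U]
    ring

end core

end Crest.SG
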