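import Crest.Agent.SG_D2
import Crest.Agent.SG_D3
import Crest.Agent.SG_A8

/-! # SG_D4 : summing out the new spin (task SG-D4)

The last level `R` has exponent 1, so the new spin can be summed first:
`LT0` on `k+1` spins of `W(λ, σ)` equals `LT0` on `k` spins of `½ ∑_ε W(λ, (σ, ε))`
(`T_{R-1}` is a plain average over the spins). Then `LT0_mul`. -/

set_option autoImplicit false
noncomputable section
open scoped BigOperators
open Classical Filter
open Crest.ProbabilityR.Diluted Crest.Agent.SGG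
namespace Crest.SG

/-! ### marginalization of one bit at the last level -/

section marg
variable {R : ℕ} {A B : Type} [Fintype A] [Fintype B] (S : Lev R A) (S' : Lev R B) {m : ℕ → ℝ}
  (f : A × Bool ≃ B) {P : A → ℝ} {P' : B → ℝ}

private theorem D4_cls (hP' : ∀ x, P' (f x) = P x.1 * (1 / 2)) {j : ℕ}
    (hrel : ∀ x y, S'.rel j (f x) (f y) ↔ S.rel j x.1 y.1) (x : A × Bool) :
    cls S' P' j (f x) = cls S P j x.1 := by
  unfold cls
  rw [← f.sum_comp, Fintype.sum_prod_type]
  refine Finset.sum_congr rfl fun a _ => ?_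
  rw [Fintype.sum_bool]
  simp only [hrel, hP']
  split_ifs <;> ring

private theorem D4_ce (hP' : ∀ x, P' (f x) = P x.1 * (1 / 2)) {j : ℕ}
    (hrel : ∀ x y, S'.rel j (f x) (f y) ↔ S.rel j x.1 y.1) (F : B → ℝ) (x : A × Bool) :
    ce S' P' j F (f x) = ce S P j (fun a => (1 / 2) * ∑ ε : Bool, F (f (a, ε))) x.1 := by
  unfold ce
  rw [← f.sum_comp, Fintype.sum_prod_type]
  refine Finset.sum_congr rfl fun a _ => ?_
  simp only [Fintype.sum_bool]
  unfold Kf
  simp only [hrel, hP', D4_cls S S' f hP' hrel]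
  split_ifs <;> ring

private theorem D4_T (hm : m R = 1) (hP' : ∀ x, P' (f x) = P x.1 * (1 / 2))
    (hrel : ∀ j, j < R → ∀ x y, S'.rel j (f x) (f y) ↔ S.rel j x.1 y.1) (W : B → ℝ) :
    ∀ i j : ℕ, i + j + 1 = R → ∀ x : A × Bool,
      T S' m P' W j (f x) = T S m P (fun a => (1 / 2) * ∑ ε : Bool, W (f (a, ε))) j x.1 := by
  intro i
  induction i with
  | zero =>
    intro j hj x
    have hjR : j < R := by omega
    have hj1 : j + 1 = R := by omega
    rw [T_step S' hjR, T_step S hjR, hj1, hm, T_R, T_R]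
    simp only [Real.rpow_one, div_one]
    exact D4_ce S S' f hP' (hrel j hjR) W x
  | succ i ih =>
    intro j hj x
    have hjR : j < R := by omega
    rw [T_step S' hjR, T_step S hjR, D4_ce S S' f hP' (hrel j hjR)]
    congr 1
    refine ce_congr S (fun a => ?_) x.1
    rw [Fintype.sum_bool, ih (j + 1) (by omega), ih (j + 1) (by omega)]
    ring

theorem D4_LT0_marg (hR : 0 < R) (hm : m R = 1) (hPl : PathLaw P) (hPl' : PathLaw P')
    (hP' : ∀ x, P' (f x) = P x.1 * (1 / 2))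
    (hrel : ∀ j, j < R → ∀ x y, S'.rel j (f x) (f y) ↔ S.rel j x.1 y.1) (W : B → ℝ)
    (x : A × Bool) :
    LT0 S' m P' W = LT0 S m P (fun a => (1 / 2) * ∑ ε : Bool, W (f (a, ε))) := by
  rw [LT0_eq S' hPl' (f x), LT0_eq S hPl x.1,
    D4_T S S' f hm hP' hrel W (R - 1) 0 (by omega) x]

end marg

/-- splitting off the last coordinate. -/
def D4_snocE (Y : Type) (k : ℕ) : (Fin k → Y) × Y ≃ (Fin (k + 1) → Y) where
  toFun x := Fin.snoc (α := fun _ => Y) x.1 x.2
  invFun z := (fun i => z i.castSucc, z (Fin.last k))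
  left_inv x := by
    refine Prod.ext ?_ ?_
    · funext i; simp
    · simp
  right_inv z := by
    funext i
    refine Fin.lastCases ?_ (fun i => ?_) i <;> simp

/-- splitting off the last spin. -/
def D4_spinE (A : Type) (k : ℕ) :
    (A × (Fin k → Bool)) × Bool ≃ A × (Fin (k + 1) → Bool) :=
  (Equiv.prodAssoc A (Fin k → Bool) Bool).trans
    (Equiv.prodCongr (Equiv.refl A) (D4_snocE Bool k))

theorem D4_spinE_apply (A : Type) (k : ℕ) (x : (A × (Fin k → Bool)) × Bool) :
    D4_spinE A k x = (x.1.1, Fin.snoc (α := fun _ => Bool) x.1.2 x.2) := rfl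

/-- marginalization of the last spin (uniform base law), for systems `S1` on `k+1` and `S` on `k`
spins with the same frame and number of slots. -/
theorem LT0_last_spin (fr : Fr) {k L : ℕ} (hk : 0 < k) (hL : 0 < L) {p : ℕ} (C : Core p) (U : Uk (k + 1))
    (u : Uk k) (W : (Fin L → Fin fr.N → Bool) × (Fin (k + 1) → Bool) → ℝ) (hW : ∀ ω, 0 < W ω) :
    LT0 (uSys C fr (k + 1) L (Nat.succ_pos k) hL U).lv
        (uSys C fr (k + 1) L (Nat.succ_pos k) hL U).m (unif _) W =
      LT0 (uSys C fr k L hk hL u).lv (uSys C fr k L hk hL u).m (unif _)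
        (fun ω => (1 / 2) * ∑ ε : Bool, W (ω.1, Fin.snoc (α := fun _ => Bool) ω.2 ε)) := by
  have hR : 0 < fr.R := lt_of_le_of_lt (Nat.zero_le _) (fr.lev_lt 0)
  let f := D4_spinE (Fin L → Fin fr.N → Bool) k
  refine D4_LT0_marg (uSys C fr k L hk hL u).lv (uSys C fr (k + 1) L (Nat.succ_pos k) hL U).lv
    (m := (uSys C fr k L hk hL u).m) f hR (uSys C fr k L hk hL u).expo.one (Sys.unif_law _)
    (Sys.unif_law _) ?_ ?_ W ((fun _ _ => false, fun _ => false), false)
  · intro x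
    have h1 : (Fintype.card ((Fin L → Fin fr.N → Bool) × (Fin (k + 1) → Bool)) : ℝ) =
        (Fintype.card ((Fin L → Fin fr.N → Bool) × (Fin k → Bool)) : ℝ) * 2 := by
      have := Fintype.card_congr f
      rw [Fintype.card_prod (_ × _) Bool, Fintype.card_bool] at this
      exact_mod_cast this.symm
    show 1 / (Fintype.card ((Fin L → Fin fr.N → Bool) × (Fin (k + 1) → Bool)) : ℝ) =
      1 / (Fintype.card ((Fin L → Fin fr.N → Bool) × (Fin k → Bool)) : ℝ) * (1 / 2)
    rw [h1]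
    ring
  · intro j hj x y
    have hj' : ¬ fr.R ≤ j := Nat.not_le.2 hj
    show ((∀ c (n : Fin fr.N), fr.lev n ≤ j → x.1.1 c n = y.1.1 c n) ∧ (fr.R ≤ j → _)) ↔
      ((∀ c (n : Fin fr.N), fr.lev n ≤ j → x.1.1 c n = y.1.1 c n) ∧ (fr.R ≤ j → _))
    simp only [hj', false_imp_iff, and_true]

variable {p : ℕ} (C : Core p)

theorem D4_Vsite_pos {κ : ℕ} (e : Fin κ → C.E) (y : Fin C.nH) (τ : Fin κ × Fin (p - 1) → Bool) :
    0 < Vsite C e y τ := by
  unfold Vsite
  refine mul_pos (by norm_num) (Finset.sum_pos (fun ε _ => ?_) Finset.univ_nonempty)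
  exact mul_pos (Real.exp_pos _) (Finset.prod_pos fun j _ => (fac C (e j) _).2)

theorem D4_swR_pos (fr : Fr) {k L : ℕ} (hk : 0 < k) (hL : 0 < L) (U : Uk (k + 1))
    (z : Fin (k + 1) → Fin C.nH) (a : Fin L → (uSys C fr k L hk hL 1).Slot)
    (ω : (Fin L → Fin fr.N → Bool) × (Fin (k + 1) → Bool)) : 0 < swR C fr k L hk hL U z a ω := by
  unfold swR
  refine mul_pos (mul_pos (U ω.2).2 (wFld C (k + 1) z ω.2).2) (Finset.prod_pos fun c _ => ?_)
  unfold Sys.slotW
  split
  · exact one_pos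
  · exact lt_of_lt_of_le (by norm_num) ((uSys C fr k L hk hL 1).W_lo _ _ _)

theorem D4_coe_prod {k κ : ℕ} (g : Fin κ → Uk k) (σ : Fin k → Bool) :
    (((∏ j, g j) σ : {x : ℝ // 0 < x}) : ℝ) = ∏ j, (g j σ : ℝ) := by
  rw [Finset.prod_apply]
  induction (Finset.univ : Finset (Fin κ)) using Finset.induction_on with
  | empty => simp
  | insert a s ha ih => rw [Finset.prod_insert ha, Finset.prod_insert ha, Positive.val_mul, ih]

theorem D4_pm (fr : Fr) {k L : ℕ} (hk : 0 < k) (hL : 0 < L) (u : Uk k)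
    (a : Option (Fin fr.q)) :
    (uSys C fr k L hk hL u).pm a = (uSys C fr k L hk hL 1).pm a := by
  cases a <;> rfl

theorem D4_slotW (fr : Fr) {k L : ℕ} (hk : 0 < k) (hL : 0 < L) (u : Uk k)
    (a : Option (Fin fr.q) × Fin k) (l : Fin fr.N → Bool) (σ : Fin k → Bool) :
    (uSys C fr k L hk hL u).slotW a l σ = (uSys C fr k L hk hL 1).slotW a l σ := by
  rcases a with ⟨_ | _, _⟩ <;> rfl

/-- the marginalized weight. -/
theorem D4_sw_marg (fr : Fr) {k L : ℕ} (hk : 0 < k) (hL : 0 < L) (u : Uk k) {κ : ℕ}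
    (e : Fin κ → C.E) (v : Fin κ × Fin (p - 1) → Fin k) (z : Fin (k + 1) → Fin C.nH)
    (a : Fin L → (uSys C fr k L hk hL 1).Slot)
    (ω : (Fin L → Fin fr.N → Bool) × (Fin k → Bool)) :
    (1 / 2) * ∑ ε : Bool, swR C fr k L hk hL (up u * ∏ j, wNew C (e j) (fun l => v (j, l))) z a
        (ω.1, Fin.snoc (α := fun _ => Bool) ω.2 ε) =
      (uSys C fr k L hk hL u).sw (fun i => z i.castSucc, a) ω *
        Vsite C e (z (Fin.last k)) (fun i => ω.2 (v i)) := by
  have h1 : ∀ ε : Bool, swR C fr k L hk hL (up u * ∏ j, wNew C (e j) (fun l => v (j, l))) z a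
        (ω.1, Fin.snoc (α := fun _ => Bool) ω.2 ε) =
      (uSys C fr k L hk hL u).sw (fun i => z i.castSucc, a) ω *
        (Real.exp (C.h (z (Fin.last k)) * spinVal ε) *
    ∏ j, (fac C (e j) (fun l => if h : l.val < p - 1 then ω.2 (v (j, ⟨l.val, h⟩)) else ε) : ℝ)) := by
    intro ε
    have hs : (fun i : Fin k => Fin.snoc (α := fun _ => Bool) ω.2 ε i.castSucc) = ω.2 := by
      funext i; simp
    have hfld : ((wFld C (k + 1) z (Fin.snoc (α := fun _ => Bool) ω.2 ε) : {x : ℝ // 0 < x}) : ℝ) =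
        (wFld C k (fun i => z i.castSucc) ω.2 : ℝ) *
          Real.exp (C.h (z (Fin.last k)) * spinVal ε) := by
      show Real.exp (∑ i : Fin (k + 1), C.h (z i) *
          spinVal (Fin.snoc (α := fun _ => Bool) ω.2 ε i)) =
        Real.exp (∑ i : Fin k, C.h (z i.castSucc) * spinVal (ω.2 i)) * _
      rw [Fin.sum_univ_castSucc, Real.exp_add]
      simp
    have hU : (((up u * ∏ j, wNew C (e j) (fun l => v (j, l)))
          (Fin.snoc (α := fun _ => Bool) ω.2 ε) : {x : ℝ // 0 < x}) : ℝ) =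
        (u ω.2 : ℝ) * ∏ j, (fac C (e j)
          (fun l => if h : l.val < p - 1 then ω.2 (v (j, ⟨l.val, h⟩)) else ε) : ℝ) := by
      rw [Pi.mul_apply, Positive.val_mul, D4_coe_prod]
      congr 1
      · show ((u (fun i => Fin.snoc (α := fun _ => Bool) ω.2 ε i.castSucc) : {x : ℝ // 0 < x}) : ℝ)
          = _
        rw [hs]
      · refine Finset.prod_congr rfl fun j _ => ?_
        unfold wNew
        congr 2
        funext l
        by_cases h : l.val < p - 1
        · rw [dif_pos h, dif_pos h]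
          simp
        · rw [dif_neg h, dif_neg h]
          simp
    unfold swR
    show (((up u * ∏ j, wNew C (e j) (fun l => v (j, l)))
          (Fin.snoc (α := fun _ => Bool) ω.2 ε) : {x : ℝ // 0 < x}) : ℝ) *
        ((wFld C (k + 1) z (Fin.snoc (α := fun _ => Bool) ω.2 ε) : {x : ℝ // 0 < x}) : ℝ) *
        (∏ c, (uSys C fr k L hk hL 1).slotW (a c) (ω.1 c)
          (fun i : Fin k => Fin.snoc (α := fun _ => Bool) ω.2 ε i.castSucc)) = _
    rw [hU, hfld, hs]
    have hsw : (uSys C fr k L hk hL u).sw (fun i => z i.castSucc, a) ω =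
        ((u ω.2 : ℝ) * (wFld C k (fun i => z i.castSucc) ω.2 : ℝ)) *
        (∏ c, (uSys C fr k L hk hL 1).slotW (a c) (ω.1 c) ω.2) := by
      show (uSys C fr k L hk hL u).base (fun i => z i.castSucc) ω.2 *
        ∏ c, (uSys C fr k L hk hL u).slotW (a c) (ω.1 c) ω.2 = _
      congr 1
      exact Finset.prod_congr rfl fun c _ => D4_slotW C fr hk hL u (a c) (ω.1 c) ω.2
    rw [hsw]
    ring
  simp only [h1]
  rw [← Finset.mul_sum]
  unfold Vsite
  ring

/-- the site term. -/
theorem psR_new (fr : Fr) {k L : ℕ} (hk : 0 < k) (hL : 0 < L) (u : Uk k) {κ : ℕ}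
    (e : Fin κ → C.E) (v : Fin κ × Fin (p - 1) → Fin k) :
    psR C fr k L hk hL (up u * ∏ j, wNew C (e j) (fun l => v (j, l))) =
      psu C fr k L hk hL u + ∑ y : Fin C.nH, C.wH y * ∑ r, (uSys C fr k L hk hL u).prR r *
        LT0 (uSys C fr k L hk hL u).lv (uSys C fr k L hk hL u).m ((uSys C fr k L hk hL u).PL r)
          (fun ω => Vsite C e y (fun i => ω.2 (v i))) := by
  set S := uSys C fr k L hk hL u with hS
  have hroot : ∀ (z : Fin (k + 1) → Fin C.nH) (a : Fin L → S.Slot),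
      LT0 (uSys C fr (k + 1) L (Nat.succ_pos k) hL
          (up u * ∏ j, wNew C (e j) (fun l => v (j, l)))).lv
        (uSys C fr (k + 1) L (Nat.succ_pos k) hL
          (up u * ∏ j, wNew C (e j) (fun l => v (j, l)))).m (unif _)
        (swR C fr k L hk hL (up u * ∏ j, wNew C (e j) (fun l => v (j, l))) z a) =
      S.lT (fun i => z i.castSucc, a) +
        LT0 S.lv S.m (S.PL (fun i => z i.castSucc, a))
          (fun ω => Vsite C e (z (Fin.last k)) (fun i => ω.2 (v i))) := by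
    intro z a
    rw [LT0_last_spin fr hk hL C _ u _ (D4_swR_pos C fr hk hL _ z a)]
    have hW : (fun ω : (Fin L → Fin fr.N → Bool) × (Fin k → Bool) =>
        (1 / 2) * ∑ ε : Bool, swR C fr k L hk hL (up u * ∏ j, wNew C (e j) (fun l => v (j, l))) z a
          (ω.1, Fin.snoc (α := fun _ => Bool) ω.2 ε)) =
        fun ω => S.sw (fun i => z i.castSucc, a) ω *
          Vsite C e (z (Fin.last k)) (fun i => ω.2 (v i)) := by
      funext ω
      exact D4_sw_marg C fr hk hL u e v z a ω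
    refine (congrArg (LT0 S.lv S.m (unif S.Om)) hW).trans ?_
    exact LT0_mul S.lv S.expo (Sys.unif_law _) (S.sw_pos _) (fun ω => D4_Vsite_pos C e _ _)
  unfold psR
  rw [← (D4_snocE (Fin C.nH) k).sum_comp, Fintype.sum_prod_type]
  have hz : ∀ (y : Fin k → Fin C.nH) (y' : Fin C.nH),
      prF C (k + 1) (D4_snocE (Fin C.nH) k (y, y')) *
        (∑ a : Fin L → (uSys C fr k L hk hL 1).Slot,
          (∏ c, ((uSys C fr k L hk hL 1).pm (a c).1 * (1 / (k : ℝ)))) *
          LT0 (uSys C fr (k + 1) L (Nat.succ_pos k) hL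
              (up u * ∏ j, wNew C (e j) (fun l => v (j, l)))).lv
            (uSys C fr (k + 1) L (Nat.succ_pos k) hL
              (up u * ∏ j, wNew C (e j) (fun l => v (j, l)))).m (unif _)
            (swR C fr k L hk hL (up u * ∏ j, wNew C (e j) (fun l => v (j, l)))
              (D4_snocE (Fin C.nH) k (y, y')) a)) =
      C.wH y' * (∑ a : Fin L → S.Slot, S.prR (y, a) * S.lT (y, a)) +
        C.wH y' * (∑ a : Fin L → S.Slot, S.prR (y, a) * LT0 S.lv S.m (S.PL (y, a))
          (fun ω => Vsite C e y' (fun i => ω.2 (v i)))) := by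
    intro y y'
    have hprF : prF C (k + 1) (D4_snocE (Fin C.nH) k (y, y')) = prF C k y * C.wH y' := by
      unfold prF
      rw [Fin.prod_univ_castSucc]
      simp [D4_snocE]
    have hy1 : (fun i : Fin k => D4_snocE (Fin C.nH) k (y, y') i.castSucc) = y := by
      funext i
      simp [D4_snocE]
    have hy2 : D4_snocE (Fin C.nH) k (y, y') (Fin.last k) = y' := by
      simp [D4_snocE]
    rw [hprF, Finset.mul_sum, Finset.mul_sum, Finset.mul_sum, ← Finset.sum_add_distrib]
    refine Finset.sum_congr rfl fun a _ => ?_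
    have h1 := hroot (D4_snocE (Fin C.nH) k (y, y')) a
    rw [hy1, hy2] at h1
    rw [h1]
    have h2 : S.prR (y, a) = prF C k y *
        ∏ c, ((uSys C fr k L hk hL 1).pm (a c).1 * (1 / (k : ℝ))) := by
      show prF C k y * ∏ c, (S.pm (a c).1 * (1 / (k : ℝ))) = _
      congr 1
      refine Finset.prod_congr rfl fun c _ => ?_
      exact congrArg (fun x : ℝ => x * (1 / (k : ℝ))) (D4_pm C fr hk hL u (a c).1)
    rw [h2]
    ring
  simp only [hz]
  simp only [Finset.sum_add_distrib]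
  congr 1
  · have h3 : psu C fr k L hk hL u =
        ∑ y : Fin k → Fin C.nH, ∑ a : Fin L → S.Slot, S.prR (y, a) * S.lT (y, a) := by
      unfold psu Sys.psi
      exact Fintype.sum_prod_type _
    rw [h3]
    refine Finset.sum_congr rfl fun y _ => ?_
    rw [← Finset.sum_mul, C.wH_sum, one_mul]
  · rw [Finset.sum_comm]
    refine Finset.sum_congr rfl fun y' _ => ?_
    rw [← Finset.mul_sum]
    congr 1
    exact (Fintype.sum_prod_type (f := fun r : S.Root => S.prR r * LT0 S.lv S.m (S.PL r)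
          (fun ω => Vsite C e y' (fun i => ω.2 (v i))))).symm

private theorem D4_univ {α : Type} (i j : Fintype α) :
    @Finset.univ α i = @Finset.univ α j := by
  rw [Subsingleton.elim i j]

/-- averaged over the touching edges. -/
theorem psR_avg (fr : Fr) {k L : ℕ} (hk : 0 < k) (hL : 0 < L) (u : Uk k) (κ : ℕ) :
    ∑ e : Fin κ → C.E, (∏ j, C.wE (e j)) * ∑ v : Fin κ × Fin (p - 1) → Fin k,
        (1 / (k : ℝ)) ^ (Fintype.card (Fin κ × Fin (p - 1))) *
          psR C fr k L hk hL (up u * ∏ j, wNew C (e j) (fun l => v (j, l))) =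
      psu C fr k L hk hL u + ∑ e : Fin κ → C.E, (∏ j, C.wE (e j)) * ∑ y : Fin C.nH, C.wH y *
        qsu C fr k L hk hL (Fin κ × Fin (p - 1)) (Vsite C e y) u := by
  have hwE : ∑ e : Fin κ → C.E, ∏ j, C.wE (e j) = 1 := by
    rw [← Fintype.piFinset_univ, ← Finset.prod_univ_sum]
    simp [CFam_wE_sum C]
  have hk' : (k : ℝ) ≠ 0 := by exact_mod_cast hk.ne'
  have hv : ∀ w : ℝ, ∑ _v : Fin κ × Fin (p - 1) → Fin k,
      (1 / (k : ℝ)) ^ (Fintype.card (Fin κ × Fin (p - 1))) * w = w := by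
    intro w
    rw [Finset.sum_const, Finset.card_univ, Fintype.card_fun, Fintype.card_fin, nsmul_eq_mul]
    push_cast
    rw [← mul_assoc, ← mul_pow, mul_one_div_cancel hk', one_pow, one_mul]
  have h1 : ∀ e : Fin κ → C.E, (∏ j, C.wE (e j)) * ∑ v : Fin κ × Fin (p - 1) → Fin k,
        (1 / (k : ℝ)) ^ (Fintype.card (Fin κ × Fin (p - 1))) *
          psR C fr k L hk hL (up u * ∏ j, wNew C (e j) (fun l => v (j, l))) =
      (∏ j, C.wE (e j)) * psu C fr k L hk hL u + (∏ j, C.wE (e j)) * ∑ y : Fin C.nH, C.wH y *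
        qsu C fr k L hk hL (Fin κ × Fin (p - 1)) (Vsite C e y) u := by
    intro e
    simp only [psR_new, mul_add, Finset.sum_add_distrib]
    rw [hv]
    congr 2
    unfold qsu Sys.QS
    simp only [Finset.mul_sum]
    rw [Finset.sum_comm]
    refine Finset.sum_congr rfl fun y _ => ?_
    rw [Finset.sum_comm]
    refine Finset.sum_congr rfl fun r _ => ?_
    refine Finset.sum_congr (D4_univ _ _) fun v _ => ?_
    show (1 / (k : ℝ)) ^ (Fintype.card (Fin κ × Fin (p - 1))) * _ =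
      C.wH y * (_ * ((1 / (k : ℝ)) ^ (Fintype.card (Fin κ × Fin (p - 1))) * _))
    ring
  simp only [h1, Finset.sum_add_distrib]
  rw [← Finset.sum_mul, hwE, one_mul]

private theorem D4_log_prod {κ : ℕ} (g : Fin κ → ℝ) (hg : ∀ j, 0 < g j) {c : ℝ}
    (h : ∀ j, |Real.log (g j)| ≤ c) : |Real.log (∏ j, g j)| ≤ c * κ := by
  rw [Real.log_prod (fun j _ => (hg j).ne')]
  refine (Finset.abs_sum_le_sum_abs _ _).trans ((Finset.sum_le_sum fun j _ => h j).trans ?_)
  rw [Finset.sum_const, Finset.card_univ, Fintype.card_fin, nsmul_eq_mul, mul_comm]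

private theorem D4_log_avg {x y c : ℝ} (hx : 0 < x) (hy : 0 < y) (h1 : |Real.log x| ≤ c)
    (h2 : |Real.log y| ≤ c) : |Real.log ((1 / 2) * (x + y))| ≤ c := by
  have key : ∀ z : ℝ, 0 < z → |Real.log z| ≤ c → Real.exp (-c) ≤ z ∧ z ≤ Real.exp c := by
    intro z hz h
    have := abs_le.1 h
    exact ⟨(Real.le_log_iff_exp_le hz).1 this.1, (Real.log_le_iff_le_exp hz).1 this.2⟩
  have hx' := key x hx h1
  have hy' := key y hy h2
  have hp : 0 < (1 / 2) * (x + y) := by positivity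
  rw [abs_le]
  exact ⟨(Real.le_log_iff_exp_le hp).2 (by linarith [hx'.1, hy'.1]),
    (Real.log_le_iff_le_exp hp).2 (by linarith [hx'.2, hy'.2])⟩

/-- bounds of the test functions. -/
theorem Vsite_bd : ∃ ch : ℝ, 0 ≤ ch ∧ ∀ {κ : ℕ} (e : Fin κ → C.E) (y : Fin C.nH)
    (τ : Fin κ × Fin (p - 1) → Bool), 0 < Vsite C e y τ ∧ |Real.log (Vsite C e y τ)| ≤ ch * ((κ : ℝ) + 1) := by
  refine ⟨cF C + ∑ y, |C.h y|, add_nonneg (cF_nonneg C) (Finset.sum_nonneg fun _ _ => abs_nonneg _),
    fun {κ} e y τ => ⟨D4_Vsite_pos C e y τ, ?_⟩⟩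
  have hc := cF_nonneg C
  have hH : |C.h y| ≤ ∑ y, |C.h y| :=
    Finset.single_le_sum (f := fun y => |C.h y|) (fun _ _ => abs_nonneg _) (Finset.mem_univ y)
  have hH0 : 0 ≤ ∑ y, |C.h y| := Finset.sum_nonneg fun _ _ => abs_nonneg _
  have hterm : ∀ ε : Bool, 0 < Real.exp (C.h y * spinVal ε) *
      ∏ j, (fac C (e j) (fun l => if h : l.val < p - 1 then τ (j, ⟨l.val, h⟩) else ε) : ℝ) ∧
      |Real.log (Real.exp (C.h y * spinVal ε) *
      ∏ j, (fac C (e j) (fun l => if h : l.val < p - 1 then τ (j, ⟨l.val, h⟩) else ε) : ℝ))| ≤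
      (cF C + ∑ y, |C.h y|) * ((κ : ℝ) + 1) := by
    intro ε
    have hp : 0 < ∏ j, (fac C (e j)
        (fun l => if h : l.val < p - 1 then τ (j, ⟨l.val, h⟩) else ε) : ℝ) :=
      Finset.prod_pos fun j _ => (fac C (e j) _).2
    refine ⟨mul_pos (Real.exp_pos _) hp, ?_⟩
    rw [Real.log_mul (Real.exp_pos _).ne' hp.ne', Real.log_exp]
    refine (abs_add_le _ _).trans ?_
    have h1 : |C.h y * spinVal ε| ≤ ∑ y, |C.h y| := by
      rw [abs_mul]
      have : |spinVal ε| = 1 := by cases ε <;> simp [spinVal]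
      rw [this, mul_one]
      exact hH
    have h2 := D4_log_prod (fun j => (fac C (e j)
        (fun l => if h : l.val < p - 1 then τ (j, ⟨l.val, h⟩) else ε) : ℝ))
      (fun j => (fac C (e j) _).2) (fun j => abs_log_fac_le C (e j) _)
    have h3 : (0 : ℝ) ≤ κ := Nat.cast_nonneg κ
    nlinarith [mul_nonneg hH0 h3]
  unfold Vsite
  rw [Fintype.sum_bool]
  exact D4_log_avg (hterm true).1 (hterm false).1 (hterm true).2 (hterm false).2

theorem Vedge_bd (e : C.E) (τ : Fin p → Bool) :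
    0 < Vedge C e τ ∧ |Real.log (Vedge C e τ)| ≤ cF C :=
  ⟨(fac C e τ).2, abs_log_fac_le C e τ⟩

end Crest.SG
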