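import Crest.Agent.SG_D4

/-! # SG_D5 : the cavity inequality (task SG-D5)

`ψ_{k+1} ≈ PoiF(α(k+1)) piE psu_{k+1,L'} (1)` (core_psi_poi) `≈ PoiF(α(k+1)) piE psR (1)` (reroute)
`= PoiF lam2 pi2 (PoiF lam1 pi1 (PoiF lam0 pi0 psR)) (1)` (PoiF_superpose twice, pi_mix)
`≈ PoiF lam1 pi1 (PoiF lam0 pi0 psR) (1)` (`lam2 ≤ Cl/k`) `≈ PoiF (αp) pi1 (…)` (`Poi_lip`)
`= Poi(αp)(κ ↦ ∑∑ … PoiF lam0 piE_k (u ↦ psR (up u · ∏ wNew)) 1)` (AvN_pi1, AvN_pi0)
`= PoiF lam0 psu (1) + Poi(αp)(κ ↦ ∑ wE ∑ wH PoiF lam0 (qsu Vsite) (1))` (psR_avg);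
`PoiF lam0 psu - PoiF(αk) psu = -∫_{lam0}^{αk} PoiF_t(∑ wE qsu Vedge) dt` (hasDerivAt_PoiF, psu_edge),
and all bounded functionals are moved from intensity `t ∈ [lam0, αk]` to `αk` by `Poi_tv`
(error `δ (αk - lam0)/√lam0 = O(δ/√k)`), finally to the core system by `core_QS_poi`. -/

set_option autoImplicit false
noncomputable section
open scoped BigOperators
open Classical Filter
open Crest.ProbabilityR.Diluted Crest.Agent.SGG
namespace Crest.SG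

section D5ops
variable {E U : Type} [Fintype E] [CommMonoid U]

theorem D5_AvN_sub (π : E → ℝ) (w : E → U) (Θ Θ' : U → ℝ) (n : ℕ) (u : U) :
    AvN π w Θ n u - AvN π w Θ' n u = AvN π w (fun u => Θ u - Θ' u) n u := by
  unfold AvN
  rw [← Finset.sum_sub_distrib]
  exact Finset.sum_congr rfl fun e _ => by ring

theorem D5_AvN_add (π : E → ℝ) (w : E → U) (Θ Θ' : U → ℝ) (n : ℕ) (u : U) :
    AvN π w (fun u => Θ u + Θ' u) n u = AvN π w Θ n u + AvN π w Θ' n u := by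
  unfold AvN
  rw [← Finset.sum_add_distrib]
  exact Finset.sum_congr rfl fun e _ => by ring

theorem D5_AvN_sum_mul (π : E → ℝ) (w : E → U) {ι : Type} (s : Finset ι) (c : ι → ℝ) (Θ : ι → U → ℝ)
    (n : ℕ) (u : U) :
    AvN π w (fun u => ∑ i ∈ s, c i * Θ i u) n u = ∑ i ∈ s, c i * AvN π w (Θ i) n u := by
  unfold AvN
  simp only [Finset.mul_sum]
  rw [Finset.sum_comm]
  exact Finset.sum_congr rfl fun i _ => Finset.sum_congr rfl fun e _ => by ring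

theorem D5_prod_sum_one {π : E → ℝ} (h1 : ∑ e, π e = 1) (n : ℕ) :
    ∑ e : Fin n → E, ∏ i, π (e i) = 1 := by
  rw [← Fintype.piFinset_univ, ← Finset.prod_univ_sum]
  simp [h1]

theorem D5_AvN_abs_le {π : E → ℝ} (h0 : ∀ e, 0 ≤ π e) (h1 : ∑ e, π e = 1) (w : E → U) {B : ℝ}
    {Θ : U → ℝ} (hB : ∀ u, |Θ u| ≤ B) (n : ℕ) (u : U) : |AvN π w Θ n u| ≤ B := by
  unfold AvN
  calc |∑ e : Fin n → E, (∏ i, π (e i)) * Θ (u * ∏ i, w (e i))|
      ≤ ∑ e : Fin n → E, |(∏ i, π (e i)) * Θ (u * ∏ i, w (e i))| := Finset.abs_sum_le_sum_abs _ _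
    _ ≤ ∑ e : Fin n → E, (∏ i, π (e i)) * B := by
        refine Finset.sum_le_sum fun e _ => ?_
        have h2 : 0 ≤ ∏ i, π (e i) := Finset.prod_nonneg fun i _ => h0 _
        rw [abs_mul, abs_of_nonneg h2]
        exact mul_le_mul_of_nonneg_left (hB _) h2
    _ = B := by rw [← Finset.sum_mul, D5_prod_sum_one h1, one_mul]

theorem D5_LinG_of_bd {B : ℝ} {a : ℕ → ℝ} (h : ∀ n, |a n| ≤ B) : LinG B a := by
  intro n
  have hB : 0 ≤ B := (abs_nonneg _).trans (h 0)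
  refine (h n).trans ?_
  have : (0 : ℝ) ≤ n := Nat.cast_nonneg n
  nlinarith

theorem D5_linG_bd {π : E → ℝ} (h0 : ∀ e, 0 ≤ π e) (h1 : ∑ e, π e = 1) (w : E → U) {B : ℝ}
    {Θ : U → ℝ} (hB : ∀ u, |Θ u| ≤ B) (u : U) : LinG B (fun n => AvN π w Θ n u) :=
  D5_LinG_of_bd fun n => D5_AvN_abs_le h0 h1 w hB n u

/-- increments of `AvN`. -/
theorem D5_AvN_incr {π : E → ℝ} (h0 : ∀ e, 0 ≤ π e) (h1 : ∑ e, π e = 1) {w : E → U} {C : ℝ}
    {Θ : U → ℝ} (hΘ : LipF w C Θ) (n : ℕ) (u : U) :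
    |AvN π w Θ (n + 1) u - AvN π w Θ n u| ≤ C := by
  rw [AvN_succ', D5_AvN_sub]
  refine D5_AvN_abs_le h0 h1 w (fun u' => ?_) n u
  have e1 : (∑ e, π e * Θ (u' * w e)) - Θ u' = ∑ e, π e * (Θ (u' * w e) - Θ u') := by
    simp only [mul_sub, Finset.sum_sub_distrib, ← Finset.sum_mul, h1, one_mul]
  rw [e1]
  calc |∑ e, π e * (Θ (u' * w e) - Θ u')| ≤ ∑ e, |π e * (Θ (u' * w e) - Θ u')| :=
        Finset.abs_sum_le_sum_abs _ _
    _ ≤ ∑ e, π e * C := by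
        refine Finset.sum_le_sum fun e _ => ?_
        rw [abs_mul, abs_of_nonneg (h0 e)]
        exact mul_le_mul_of_nonneg_left (hΘ u' e) (h0 e)
    _ = C := by rw [← Finset.sum_mul, h1, one_mul]

/-- Lipschitz in the intensity. -/
theorem D5_PoiF_lip {π : E → ℝ} (h0 : ∀ e, 0 ≤ π e) (h1 : ∑ e, π e = 1) {w : E → U} {C : ℝ}
    {Θ : U → ℝ} (hΘ : LipF w C Θ) {x y : ℝ} (hx : 0 ≤ x) (hy : 0 ≤ y) (u : U) :
    |PoiF x π w Θ u - PoiF y π w Θ u| ≤ C * |x - y| :=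
  Poi_lip (fun n => D5_AvN_incr h0 h1 hΘ n u) hx hy

theorem D5_PoiF_zero (π : E → ℝ) (w : E → U) (Θ : U → ℝ) (u : U) : PoiF 0 π w Θ u = Θ u := by
  unfold PoiF
  rw [Poi_zero, AvN_zero]

/-- `PoiF` of Lipschitz functions is Lipschitz. -/
theorem D5_PoiF_LipF {π : E → ℝ} (h0 : ∀ e, 0 ≤ π e) (h1 : ∑ e, π e = 1) {w : E → U} {C : ℝ}
    (hC : 0 ≤ C) {Θ : U → ℝ} (hΘ : LipF w C Θ) {lam : ℝ} (hl : 0 ≤ lam) :
    LipF w C (fun u => PoiF lam π w Θ u) := by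
  intro u e
  show |PoiF lam π w Θ (u * w e) - PoiF lam π w Θ u| ≤ C
  unfold PoiF
  rw [← Poi_sub hl (P2_linG h0 h1 hC hΘ (u * w e)) (P2_linG h0 h1 hC hΘ u)]
  exact abs_Poi_le (C := C) hl fun n => P2_LipF_AvN h0 h1 hΘ n u e

/-- comparison of two functions. -/
theorem D5_PoiF_compare {π : E → ℝ} (h0 : ∀ e, 0 ≤ π e) (h1 : ∑ e, π e = 1) {w : E → U}
    {Θ Θ' : U → ℝ} {u : U} {C C' : ℝ} (hΘ : LinG C (fun n => AvN π w Θ n u))
    (hΘ' : LinG C' (fun n => AvN π w Θ' n u)) {D : ℝ} (hD : ∀ u, |Θ u - Θ' u| ≤ D) {lam : ℝ}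
    (hl : 0 ≤ lam) : |PoiF lam π w Θ u - PoiF lam π w Θ' u| ≤ D := by
  unfold PoiF
  rw [← Poi_sub hl hΘ hΘ']
  refine abs_Poi_le (C := D) hl fun n => ?_
  rw [D5_AvN_sub]
  exact D5_AvN_abs_le h0 h1 w hD n u

theorem D5_PoiF_abs_le {π : E → ℝ} (h0 : ∀ e, 0 ≤ π e) (h1 : ∑ e, π e = 1) (w : E → U) {B : ℝ}
    {Θ : U → ℝ} (hB : ∀ u, |Θ u| ≤ B) {lam : ℝ} (hl : 0 ≤ lam) (u : U) :
    |PoiF lam π w Θ u| ≤ B :=
  abs_Poi_le (C := B) hl fun n => D5_AvN_abs_le h0 h1 w hB n u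

theorem D5_Poi_sum_mul {lam : ℝ} (hl : 0 ≤ lam) {ι : Type} (s : Finset ι) (c : ι → ℝ)
    (a : ι → ℕ → ℝ) (ha : ∀ i, ∃ C, LinG C (a i)) :
    Poi lam (fun n => ∑ i ∈ s, c i * a i n) = ∑ i ∈ s, c i * Poi lam (a i) := by
  unfold Poi
  have h1 : ∀ i, Summable (fun n : ℕ => poissonWeight lam n * (c i * a i n)) := by
    intro i
    obtain ⟨C, hC⟩ := ha i
    have := (Poi_summable hl hC).mul_left (c i)
    refine this.congr fun n => by ring
  have h2 : ∀ n : ℕ, poissonWeight lam n * ∑ i ∈ s, c i * a i n =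
      ∑ i ∈ s, poissonWeight lam n * (c i * a i n) := fun n => Finset.mul_sum _ _ _
  simp only [h2]
  rw [Summable.tsum_finsetSum fun i _ => h1 i]
  refine Finset.sum_congr rfl fun i _ => ?_
  rw [← tsum_mul_left]
  exact tsum_congr fun n => by ring

theorem D5_PoiF_sum_mul {lam : ℝ} (hl : 0 ≤ lam) (π : E → ℝ) (w : E → U) {ι : Type} (s : Finset ι)
    (c : ι → ℝ) (Θ : ι → U → ℝ) (u : U) (h : ∀ i, ∃ C, LinG C (fun n => AvN π w (Θ i) n u)) :
    PoiF lam π w (fun u => ∑ i ∈ s, c i * Θ i u) u = ∑ i ∈ s, c i * PoiF lam π w (Θ i) u := by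
  unfold PoiF
  simp only [D5_AvN_sum_mul]
  exact D5_Poi_sum_mul hl s c _ h

theorem D5_PoiF_add {lam : ℝ} (hl : 0 ≤ lam) (π : E → ℝ) (w : E → U) (Θ Θ' : U → ℝ) (u : U)
    {C C' : ℝ} (h : LinG C (fun n => AvN π w Θ n u)) (h' : LinG C' (fun n => AvN π w Θ' n u)) :
    PoiF lam π w (fun u => Θ u + Θ' u) u = PoiF lam π w Θ u + PoiF lam π w Θ' u := by
  unfold PoiF
  simp only [D5_AvN_add]
  exact Poi_add hl h h'

end D5ops


section D5core
variable {p : ℕ} (C : Core p)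

theorem D5_up_wEdg {k : ℕ} (e : Edg C k) :
    up (wEdg C k e) = wEdg C (k + 1) (e.1, fun l => (e.2 l).castSucc) := rfl

theorem D5_up_one {k : ℕ} : up (1 : Uk k) = 1 := rfl

theorem D5_lip_up {k : ℕ} {c : ℝ} {Ψ : Uk (k + 1) → ℝ} (h : LipF (wEdg C (k + 1)) c Ψ)
    (g : Uk (k + 1)) : LipF (wEdg C k) c (fun u => Ψ (up u * g)) := by
  intro u e
  show |Ψ (up (u * wEdg C k e) * g) - Ψ (up u * g)| ≤ c
  rw [up_mul, D5_up_wEdg, mul_right_comm]
  exact h _ _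

/-- the first reduction: `H (g)` as a Poisson average on `k` spins. -/
theorem D5_H {k : ℕ} (hk : 0 < k) (Ψ : Uk (k + 1) → ℝ) (lam : ℝ) (g : Uk (k + 1)) :
    PoiF lam (pi0 C k) (wEdg C (k + 1)) Ψ (1 * g) =
      PoiF lam (piE C k) (wEdg C k) (fun u => Ψ (up u * g)) 1 := by
  unfold PoiF
  congr 1
  funext n
  have := AvN_pi0 C hk Ψ n (1 : Uk k) g
  rw [D5_up_one] at this
  exact this

theorem D5_qsu_bd (fr : Fr) {k L : ℕ} (hk : 0 < k) (hL : 0 < L) (ι : Type) [Fintype ι]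
    {V : (ι → Bool) → ℝ} (hV : ∀ τ, 0 < V τ) {δ : ℝ} (h : ∀ τ, |Real.log (V τ)| ≤ δ) (u : Uk k) :
    |qsu C fr k L hk hL ι V u| ≤ δ := abs_QS_le _ ι hV h


theorem D5_linG_sum {E U ι : Type} [Fintype E] [CommMonoid U] (π : E → ℝ) (w : E → U)
    (s : Finset ι) (c : ι → ℝ) (Θ : ι → U → ℝ) (u : U)
    (h : ∀ i, ∃ A, LinG A (fun n => AvN π w (Θ i) n u)) :
    ∃ A, LinG A (fun n => AvN π w (fun u => ∑ i ∈ s, c i * Θ i u) n u) := by
  choose A hA using h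
  refine ⟨∑ i ∈ s, |c i| * A i, fun n => ?_⟩
  show |AvN π w (fun u => ∑ i ∈ s, c i * Θ i u) n u| ≤ _
  rw [D5_AvN_sum_mul, Finset.sum_mul]
  refine (Finset.abs_sum_le_sum_abs _ _).trans (Finset.sum_le_sum fun v _ => ?_)
  rw [abs_mul, mul_assoc]
  exact mul_le_mul_of_nonneg_left (hA _ n) (abs_nonneg _)

/-- abstract form of the expansion: a double average of `PoiF`s. -/
theorem D5_combine {E U ι ι' ι'' : Type} [Fintype E] [Fintype ι] [Fintype ι'] [Fintype ι'']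
    [CommMonoid U] {lam : ℝ} (hl : 0 ≤ lam)
    (π : E → ℝ) (w : E → U) (a : ι → ℝ) (b : ι' → ℝ) (c : ι'' → ℝ)
    (Θ : ι → ι' → U → ℝ) (Φ : U → ℝ) (Ψ : ι → ι'' → U → ℝ) (u : U)
    (hΘ : ∀ i i', ∃ A, LinG A (fun n => AvN π w (Θ i i') n u))
    (hΦ : ∃ A, LinG A (fun n => AvN π w Φ n u))
    (hΨ : ∀ i i', ∃ A, LinG A (fun n => AvN π w (Ψ i i') n u))
    (heq : ∀ u, ∑ i, a i * ∑ i', b i' * Θ i i' u = Φ u + ∑ i, a i * ∑ i'', c i'' * Ψ i i'' u) :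
    ∑ i, a i * ∑ i', b i' * PoiF lam π w (Θ i i') u =
      PoiF lam π w Φ u + ∑ i, a i * ∑ i'', c i'' * PoiF lam π w (Ψ i i'') u := by
  have h1 : ∀ i, ∑ i', b i' * PoiF lam π w (Θ i i') u =
      PoiF lam π w (fun u => ∑ i', b i' * Θ i i' u) u := fun i =>
    (D5_PoiF_sum_mul hl π w Finset.univ b (Θ i) u (hΘ i)).symm
  have h2 : ∀ i, ∑ i'', c i'' * PoiF lam π w (Ψ i i'') u =
      PoiF lam π w (fun u => ∑ i'', c i'' * Ψ i i'' u) u := fun i =>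
    (D5_PoiF_sum_mul hl π w Finset.univ c (Ψ i) u (hΨ i)).symm
  simp only [h1, h2]
  rw [← D5_PoiF_sum_mul hl π w Finset.univ a (fun i u => ∑ i', b i' * Θ i i' u) u
    (fun i => D5_linG_sum π w Finset.univ b (Θ i) u (hΘ i)),
    ← D5_PoiF_sum_mul hl π w Finset.univ a (fun i u => ∑ i'', c i'' * Ψ i i'' u) u
    (fun i => D5_linG_sum π w Finset.univ c (Ψ i) u (hΨ i))]
  obtain ⟨A, hA⟩ := hΦ
  obtain ⟨A', hA'⟩ := D5_linG_sum π w Finset.univ a (fun i u => ∑ i'', c i'' * Ψ i i'' u) u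
    (fun i => D5_linG_sum π w Finset.univ c (Ψ i) u (hΨ i))
  rw [← D5_PoiF_add hl π w Φ _ u hA hA']
  congr 1
  funext u'
  exact heq u'

/-- expansion of the term with `κ` touching edges. -/
theorem D5_expand (hp : 2 ≤ p) (fr : Fr) {k L : ℕ} (hk : 0 < k) (hL : 0 < L) {lam : ℝ}
    (hl : 0 ≤ lam) (κ : ℕ) :
    AvN (pi1 C k) (wEdg C (k + 1))
      (fun U => PoiF lam (pi0 C k) (wEdg C (k + 1)) (psR C fr k L hk hL) U) κ 1 =
      PoiF lam (piE C k) (wEdg C k) (psu C fr k L hk hL) 1 +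
        ∑ e : Fin κ → C.E, (∏ j, C.wE (e j)) * ∑ y : Fin C.nH, C.wH y *
          PoiF lam (piE C k) (wEdg C k) (qsu C fr k L hk hL (Fin κ × Fin (p - 1)) (Vsite C e y)) 1 := by
  obtain ⟨ch, hch0, hch⟩ := Vsite_bd C
  have hπ0 := piE_nonneg C k
  have hπ1 := piE_sum C hk
  rw [AvN_pi1 C hp hk]
  refine Eq.trans ?_ (D5_combine hl (piE C k) (wEdg C k) (fun e : Fin κ → C.E => ∏ j, C.wE (e j))
    (fun _ : Fin κ × Fin (p - 1) → Fin k => (1 / (k : ℝ)) ^ (Fintype.card (Fin κ × Fin (p - 1))))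
    C.wH (fun e v u => psR C fr k L hk hL (up u * ∏ j, wNew C (e j) (fun l => v (j, l))))
    (psu C fr k L hk hL)
    (fun e y => qsu C fr k L hk hL (Fin κ × Fin (p - 1)) (Vsite C e y)) 1
    (fun e v => ⟨_, P2_linG hπ0 hπ1 (cF_nonneg C) (D5_lip_up C (psR_lip C fr hk hL) _) 1⟩)
    ⟨_, P2_linG hπ0 hπ1 (cF_nonneg C) (psu_lip C fr hk hL) 1⟩
    (fun e y => ⟨_, D5_linG_bd hπ0 hπ1 _ (fun u => D5_qsu_bd C fr hk hL _ (fun τ => (hch e y τ).1)
      (fun τ => (hch e y τ).2) u) 1⟩)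
    (fun u => psR_avg C fr hk hL u κ))
  refine Finset.sum_congr rfl fun e _ => ?_
  congr 1
  refine Finset.sum_congr rfl fun v _ => ?_
  congr 1
  exact D5_H C hk _ lam _

end D5core

section D5steps
variable {p : ℕ} (C : Core p)

/-- `1 / k ≤ 1 / √k`. -/
theorem D5_inv_le {k : ℕ} (hk : 0 < k) : 1 / (k : ℝ) ≤ 1 / Real.sqrt k := by
  have h1 : (1 : ℝ) ≤ k := by exact_mod_cast hk
  have h2 : 0 < Real.sqrt k := Real.sqrt_pos.mpr (by linarith)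
  refine one_div_le_one_div_of_le h2 ?_
  rw [Real.sqrt_le_left (by linarith)]
  nlinarith

theorem D5_inv_succ_le {k : ℕ} (hk : 0 < k) : 1 / ((k : ℝ) + 1) ≤ 1 / Real.sqrt k := by
  refine le_trans ?_ (D5_inv_le hk)
  have h1 : (1 : ℝ) ≤ k := by exact_mod_cast hk
  exact one_div_le_one_div_of_le (by linarith) (by linarith)

theorem D5_div_le {k : ℕ} (hk : 0 < k) {a : ℝ} (ha : 0 ≤ a) : a / (k : ℝ) ≤ a / Real.sqrt k := by
  rw [div_eq_mul_one_div, div_eq_mul_one_div a]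
  exact mul_le_mul_of_nonneg_left (D5_inv_le hk) ha

theorem D5_div_succ_le {k : ℕ} (hk : 0 < k) {a : ℝ} (ha : 0 ≤ a) :
    a / ((k : ℝ) + 1) ≤ a / Real.sqrt k := by
  rw [div_eq_mul_one_div, div_eq_mul_one_div a]
  exact mul_le_mul_of_nonneg_left (D5_inv_succ_le hk) ha

/-- step 2 -/
theorem D5_s2 (fr : Fr) {k L L' : ℕ} (hk : 0 < k) (hL : 0 < L) (hL' : 0 < L') (hLL : L ≤ L')
    {lam : ℝ} (hl : 0 ≤ lam) :
    |PoiF lam (piE C (k + 1)) (wEdg C (k + 1)) (psu C fr (k + 1) L' (Nat.succ_pos k) hL') 1 -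
      PoiF lam (piE C (k + 1)) (wEdg C (k + 1)) (psR C fr k L hk hL) 1| ≤
      2 * ((L' : ℝ) / ((k : ℝ) + 1) + ((L' : ℝ) - L)) := by
  have h0 := piE_nonneg C (k + 1)
  have h1 := piE_sum C (Nat.succ_pos k)
  exact D5_PoiF_compare h0 h1 (P2_linG h0 h1 (cF_nonneg C) (psu_lip C fr _ hL') 1)
    (P2_linG h0 h1 (cF_nonneg C) (psR_lip C fr hk hL) 1)
    (fun U => reroute C fr hk hL hL' hLL U) hl

/-- step 3 -/
theorem D5_s3 (hp : 2 ≤ p) {α : ℝ} (hα : 0 < α) {k : ℕ} (hk : 0 < k)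
    (h0 : 0 < lam0 p α k) (h1 : 0 ≤ lam1 p α k) (h2 : 0 ≤ lam2 p α k) {Θ : Uk (k + 1) → ℝ}
    (hΘ : LipF (wEdg C (k + 1)) (cF C) Θ) :
    PoiF (α * ((k : ℝ) + 1)) (piE C (k + 1)) (wEdg C (k + 1)) Θ 1 =
      PoiF (lam2 p α k) (pi2 C k) (wEdg C (k + 1)) (fun U => PoiF (lam1 p α k) (pi1 C k)
        (wEdg C (k + 1)) (fun U' => PoiF (lam0 p α k) (pi0 C k) (wEdg C (k + 1)) Θ U') U) 1 := by
  have hs := pi_sum C hp hk
  have hn := pi_nonneg C hp hk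
  have hm := pi_mix C hp hα hk
  set l01 : ℝ := lam0 p α k + lam1 p α k with hl01
  have hl01p : 0 < l01 := by linarith
  set π01 : Edg C (k + 1) → ℝ := fun e =>
    (lam0 p α k * pi0 C k e + lam1 p α k * pi1 C k e) / l01 with hπ
  have hπm : ∀ e, l01 * π01 e = lam0 p α k * pi0 C k e + lam1 p α k * pi1 C k e := by
    intro e
    rw [hπ]
    field_simp
  have hπ0 : ∀ e, 0 ≤ π01 e := by
    intro e
    exact div_nonneg (add_nonneg (mul_nonneg h0.le (hn e).1) (mul_nonneg h1 (hn e).2.1)) hl01p.le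
  have hπ1 : ∑ e, π01 e = 1 := by
    rw [hπ, ← Finset.sum_div, Finset.sum_add_distrib, ← Finset.mul_sum, ← Finset.mul_sum, hs.1,
      hs.2.1, mul_one, mul_one]
    exact div_self hl01p.ne'
  rw [PoiF_superpose (π := piE C (k + 1)) (π0 := π01) (π1 := pi2 C k) (lam0 := l01)
    (lam1 := lam2 p α k) hl01p.le h2 (by rw [hl01]; unfold lam2; ring)
    (fun e => by rw [hm e, hπm e]) hπ0 hπ1 (fun e => (hn e).2.2) hs.2.2 (cF_nonneg C) hΘ 1]
  congr 1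
  funext U
  exact PoiF_superpose h0.le h1 rfl hπm (fun e => (hn e).1) hs.1 (fun e => (hn e).2.1) hs.2.1
    (cF_nonneg C) hΘ U

/-- steps 4, 5 -/
theorem D5_s45 (hp : 2 ≤ p) {α : ℝ} (hα : 0 < α) {k : ℕ} (hk : 0 < k)
    (h0 : 0 < lam0 p α k) (h1 : 0 ≤ lam1 p α k) (h2 : 0 ≤ lam2 p α k) {Θ : Uk (k + 1) → ℝ}
    (hΘ : LipF (wEdg C (k + 1)) (cF C) Θ) {ε : ℝ} (he2 : lam2 p α k ≤ ε)
    (he1 : |α * p - lam1 p α k| ≤ ε) :
    |PoiF (α * ((k : ℝ) + 1)) (piE C (k + 1)) (wEdg C (k + 1)) Θ 1 -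
      PoiF (α * p) (pi1 C k)
        (wEdg C (k + 1)) (fun U' => PoiF (lam0 p α k) (pi0 C k) (wEdg C (k + 1)) Θ U') 1| ≤
      2 * (cF C * ε) := by
  have hs := pi_sum C hp hk
  have hn := pi_nonneg C hp hk
  have hc := cF_nonneg C
  rw [D5_s3 C hp hα hk h0 h1 h2 hΘ]
  have hH : LipF (wEdg C (k + 1)) (cF C)
      (fun U' => PoiF (lam0 p α k) (pi0 C k) (wEdg C (k + 1)) Θ U') :=
    D5_PoiF_LipF (fun e => (hn e).1) hs.1 hc hΘ h0.le
  have hG := D5_PoiF_LipF (fun e => (hn e).2.1) hs.2.1 hc hH h1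
  have e1 := D5_PoiF_lip (fun e => (hn e).2.2) hs.2.2 hG h2 (le_refl 0) (1 : Uk (k + 1))
  rw [D5_PoiF_zero, sub_zero, abs_of_nonneg h2] at e1
  have hαp : 0 ≤ α * p := by positivity
  have e2 := D5_PoiF_lip (fun e => (hn e).2.1) hs.2.1 hH h1 hαp (1 : Uk (k + 1))
  rw [abs_sub_comm (lam1 p α k)] at e2
  have e3 := mul_le_mul_of_nonneg_left he2 hc
  have e4 := mul_le_mul_of_nonneg_left he1 hc
  have e5 := abs_le.mp (e1.trans e3)
  have e6 := abs_le.mp (e2.trans e4)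
  rw [abs_le]
  constructor <;> linarith [e5.1, e5.2, e6.1, e6.2]

/-- averages over the touching edges and the field. -/
theorem D5_avg_le {κ : ℕ} {B : ℝ} {a : (Fin κ → C.E) → Fin C.nH → ℝ} (h : ∀ e y, |a e y| ≤ B) :
    |∑ e : Fin κ → C.E, (∏ j, C.wE (e j)) * ∑ y : Fin C.nH, C.wH y * a e y| ≤ B := by
  have hw : ∀ e : Fin κ → C.E, 0 ≤ ∏ j, C.wE (e j) := fun e =>
    Finset.prod_nonneg fun j _ => CFam_wE_nonneg C _
  have h1 : ∀ e : Fin κ → C.E, |∑ y : Fin C.nH, C.wH y * a e y| ≤ B := by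
    intro e
    refine (Finset.abs_sum_le_sum_abs _ _).trans ?_
    calc ∑ y : Fin C.nH, |C.wH y * a e y| ≤ ∑ y : Fin C.nH, C.wH y * B := by
          refine Finset.sum_le_sum fun y _ => ?_
          rw [abs_mul, abs_of_nonneg (C.wH_nonneg y)]
          exact mul_le_mul_of_nonneg_left (h e y) (C.wH_nonneg y)
      _ = B := by rw [← Finset.sum_mul, C.wH_sum, one_mul]
  refine (Finset.abs_sum_le_sum_abs _ _).trans ?_
  calc ∑ e : Fin κ → C.E, |(∏ j, C.wE (e j)) * ∑ y : Fin C.nH, C.wH y * a e y|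
      ≤ ∑ e : Fin κ → C.E, (∏ j, C.wE (e j)) * B := by
        refine Finset.sum_le_sum fun e _ => ?_
        rw [abs_mul, abs_of_nonneg (hw e)]
        exact mul_le_mul_of_nonneg_left (h1 e) (hw e)
    _ = B := by rw [← Finset.sum_mul, D5_prod_sum_one (CFam_wE_sum C), one_mul]

theorem D5_avg_sub {κ : ℕ} (a b : (Fin κ → C.E) → Fin C.nH → ℝ) :
    (∑ e : Fin κ → C.E, (∏ j, C.wE (e j)) * ∑ y : Fin C.nH, C.wH y * a e y) -
      (∑ e : Fin κ → C.E, (∏ j, C.wE (e j)) * ∑ y : Fin C.nH, C.wH y * b e y) =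
      ∑ e : Fin κ → C.E, (∏ j, C.wE (e j)) * ∑ y : Fin C.nH, C.wH y * (a e y - b e y) := by
  rw [← Finset.sum_sub_distrib]
  refine Finset.sum_congr rfl fun e _ => ?_
  rw [← mul_sub, ← Finset.sum_sub_distrib]
  congr 1
  exact Finset.sum_congr rfl fun y _ => by ring

/-- step 6 -/
theorem D5_s6 (hp : 2 ≤ p) (fr : Fr) {k L : ℕ} (hk : 0 < k) (hL : 0 < L) {lam : ℝ}
    (hl : 0 ≤ lam) {β : ℝ} (hβ : 0 ≤ β) {ch : ℝ} (hch : ∀ {κ : ℕ} (e : Fin κ → C.E) (y : Fin C.nH)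
    (τ : Fin κ × Fin (p - 1) → Bool), 0 < Vsite C e y τ ∧
      |Real.log (Vsite C e y τ)| ≤ ch * ((κ : ℝ) + 1)) :
    PoiF β (pi1 C k) (wEdg C (k + 1))
      (fun U => PoiF lam (pi0 C k) (wEdg C (k + 1)) (psR C fr k L hk hL) U) 1 =
      PoiF lam (piE C k) (wEdg C k) (psu C fr k L hk hL) 1 +
        Poi β (fun κ => ∑ e : Fin κ → C.E, (∏ j, C.wE (e j)) * ∑ y : Fin C.nH, C.wH y *
          PoiF lam (piE C k) (wEdg C k)
            (qsu C fr k L hk hL (Fin κ × Fin (p - 1)) (Vsite C e y)) 1) := by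
  conv_lhs => unfold PoiF
  have e1 : (fun n => AvN (pi1 C k) (wEdg C (k + 1))
      (fun U => Poi lam (fun n => AvN (pi0 C k) (wEdg C (k + 1)) (psR C fr k L hk hL) n U)) n 1) =
      fun κ => PoiF lam (piE C k) (wEdg C k) (psu C fr k L hk hL) 1 +
        ∑ e : Fin κ → C.E, (∏ j, C.wE (e j)) * ∑ y : Fin C.nH, C.wH y *
          PoiF lam (piE C k) (wEdg C k)
            (qsu C fr k L hk hL (Fin κ × Fin (p - 1)) (Vsite C e y)) 1 := by
    funext κ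
    exact D5_expand C hp fr hk hL hl κ
  rw [e1]
  have h1 : LinG (|PoiF lam (piE C k) (wEdg C k) (psu C fr k L hk hL) 1|)
      (fun _ : ℕ => PoiF lam (piE C k) (wEdg C k) (psu C fr k L hk hL) 1) :=
    D5_LinG_of_bd fun n => le_rfl
  have h2 : LinG ch (fun κ => ∑ e : Fin κ → C.E, (∏ j, C.wE (e j)) * ∑ y : Fin C.nH, C.wH y *
          PoiF lam (piE C k) (wEdg C k)
            (qsu C fr k L hk hL (Fin κ × Fin (p - 1)) (Vsite C e y)) 1) := by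
    intro κ
    refine D5_avg_le C fun e y => ?_
    exact D5_PoiF_abs_le (piE_nonneg C k) (piE_sum C hk) _ (fun u => D5_qsu_bd C fr hk hL _
      (fun τ => (hch e y τ).1) (fun τ => (hch e y τ).2) u) hl 1
  rw [Poi_add hβ h1 h2, Poi_const hβ]

/-- a bounded functional at intensity `t ∈ [lam0, αk]` is close to the core one. -/
theorem D5_s7a {α : ℝ} (hα : 0 < α) {Mt : ℕ → ℕ} (hM : TruncOK α Mt) (fr : Fr) {k L : ℕ}
    (hk : 0 < k) (hL : 0 < L) (ι : Type) [Fintype ι] {V : (ι → Bool) → ℝ} (hV : ∀ τ, 0 < V τ)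
    {δ : ℝ} (hδ : 0 ≤ δ) (h : ∀ τ, |Real.log (V τ)| ≤ δ) {s D t : ℝ} (hs : 0 < s)
    (ht : s * k ≤ t) (ht2 : t ≤ α * k) (hD : α * k - t ≤ D) :
    |PoiF t (piE C k) (wEdg C k) (qsu C fr k L hk hL ι V) 1 -
      (coreSys C fr k L (Mt k) hk hL (α * k) (by positivity)).QS ι V| ≤
      δ * (D / Real.sqrt s + 1) / Real.sqrt k := by
  have h0 := piE_nonneg C k
  have h1 := piE_sum C hk
  have hk1 : (1 : ℝ) ≤ k := by exact_mod_cast hk
  have hk0 : (0 : ℝ) < k := by linarith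
  have hsk : 0 < s * k := by positivity
  have ht0 : 0 < t := hsk.trans_le ht
  have e1 := core_QS_poi C hα hM fr hk hL ι hV h
  have e2 : |PoiF t (piE C k) (wEdg C k) (qsu C fr k L hk hL ι V) 1 -
      PoiF (α * k) (piE C k) (wEdg C k) (qsu C fr k L hk hL ι V) 1| ≤
      δ * (α * k - t) / Real.sqrt t := by
    unfold PoiF
    exact Poi_tv (fun n => D5_AvN_abs_le h0 h1 _ (fun u => D5_qsu_bd C fr hk hL ι hV h u) n 1)
      ht0 ht2
  have hsq : 0 < Real.sqrt (s * k) := Real.sqrt_pos.mpr hsk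
  have hsk2 : Real.sqrt (s * k) = Real.sqrt s * Real.sqrt k := Real.sqrt_mul hs.le _
  have hss : 0 < Real.sqrt s := Real.sqrt_pos.mpr hs
  have hkk : 0 < Real.sqrt k := Real.sqrt_pos.mpr hk0
  have e3 : δ * (α * k - t) / Real.sqrt t ≤ δ * D / (Real.sqrt s * Real.sqrt k) := by
    rw [← hsk2]
    have hD0 : 0 ≤ D := le_trans (by linarith) hD
    exact div_le_div₀ (mul_nonneg hδ hD0) (mul_le_mul_of_nonneg_left hD hδ) hsq
      (Real.sqrt_le_sqrt ht)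
  have e4 := D5_div_succ_le hk hδ
  have e5 : δ * (D / Real.sqrt s + 1) / Real.sqrt k =
      δ * D / (Real.sqrt s * Real.sqrt k) + δ / Real.sqrt k := by
    field_simp
  rw [e5]
  have e6 := abs_le.mp (e1.trans e4)
  have e7 := abs_le.mp (e2.trans e3)
  rw [abs_le]
  constructor <;> linarith [e6.1, e6.2, e7.1, e7.2]

/-- step 7: the site terms. -/
theorem D5_s7 {α : ℝ} (hα : 0 < α) {Mt : ℕ → ℕ} (hM : TruncOK α Mt) (fr : Fr) {k L : ℕ}
    (hk : 0 < k) (hL : 0 < L) {s D t : ℝ} (hs : 0 < s)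
    (ht : s * k ≤ t) (ht2 : t ≤ α * k) (hD : α * k - t ≤ D) {β : ℝ} (hβ : 0 ≤ β) {ch : ℝ}
    (hch0 : 0 ≤ ch) (hch : ∀ {κ : ℕ} (e : Fin κ → C.E) (y : Fin C.nH)
    (τ : Fin κ × Fin (p - 1) → Bool), 0 < Vsite C e y τ ∧
      |Real.log (Vsite C e y τ)| ≤ ch * ((κ : ℝ) + 1)) :
    |Poi β (fun κ => ∑ e : Fin κ → C.E, (∏ j, C.wE (e j)) * ∑ y : Fin C.nH, C.wH y *
          PoiF t (piE C k) (wEdg C k)
            (qsu C fr k L hk hL (Fin κ × Fin (p - 1)) (Vsite C e y)) 1) -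
      Poi β (fun κ => ∑ e : Fin κ → C.E, (∏ j, C.wE (e j)) * ∑ y : Fin C.nH, C.wH y *
          (coreSys C fr k L (Mt k) hk hL (α * k) (by positivity)).QS
            (Fin κ × Fin (p - 1)) (Vsite C e y))| ≤
      ch * (D / Real.sqrt s + 1) / Real.sqrt k * (β + 1) := by
  have hk1 : (1 : ℝ) ≤ k := by exact_mod_cast hk
  have hk0 : (0 : ℝ) < k := by linarith
  have ht0 : 0 ≤ t := le_trans (by positivity) ht
  have h1 : LinG ch (fun κ => ∑ e : Fin κ → C.E, (∏ j, C.wE (e j)) * ∑ y : Fin C.nH, C.wH y *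
          PoiF t (piE C k) (wEdg C k)
            (qsu C fr k L hk hL (Fin κ × Fin (p - 1)) (Vsite C e y)) 1) := by
    intro κ
    refine D5_avg_le C fun e y => ?_
    exact D5_PoiF_abs_le (piE_nonneg C k) (piE_sum C hk) _ (fun u => D5_qsu_bd C fr hk hL _
      (fun τ => (hch e y τ).1) (fun τ => (hch e y τ).2) u) ht0 1
  have h2 : LinG ch (fun κ => ∑ e : Fin κ → C.E, (∏ j, C.wE (e j)) * ∑ y : Fin C.nH, C.wH y *
          (coreSys C fr k L (Mt k) hk hL (α * k) (by positivity)).QS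
            (Fin κ × Fin (p - 1)) (Vsite C e y)) := by
    intro κ
    exact D5_avg_le C fun e y => abs_QS_le _ _ (fun τ => (hch e y τ).1) (fun τ => (hch e y τ).2)
  rw [← Poi_sub hβ h1 h2]
  refine Poi_linG hβ fun κ => ?_
  rw [D5_avg_sub]
  refine D5_avg_le C fun e y => ?_
  have hk' : (0 : ℝ) ≤ ch * ((κ : ℝ) + 1) := by positivity
  have := D5_s7a C hα hM fr hk hL (Fin κ × Fin (p - 1)) (fun τ => (hch e y τ).1) hk'
    (fun τ => (hch e y τ).2) hs ht ht2 hD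
  refine this.trans (le_of_eq ?_)
  ring

/-- step 8: the edge terms. -/
theorem D5_s8 {α : ℝ} (hα : 0 < α) {Mt : ℕ → ℕ} (hM : TruncOK α Mt) (fr : Fr) {k L : ℕ}
    (hk : 0 < k) (hL : 0 < L) {s D t ε : ℝ} (hs : 0 < s)
    (ht : s * k ≤ t) (ht2 : t ≤ α * k) (hD : α * k - t ≤ D)
    (hε : |α * k - α * (p - 1 : ℝ) - t| ≤ ε) :
    |PoiF t (piE C k) (wEdg C k) (psu C fr k L hk hL) 1 -
      PoiF (α * k) (piE C k) (wEdg C k) (psu C fr k L hk hL) 1 +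
      α * (p - 1 : ℝ) * ∑ e : C.E, C.wE e *
        (coreSys C fr k L (Mt k) hk hL (α * k) (by positivity)).QS (Fin p) (Vedge C e)| ≤
      cF C * (D / Real.sqrt s + 1) / Real.sqrt k * D + cF C * ε := by
  have h0 := piE_nonneg C k
  have h1 := piE_sum C hk
  have hc := cF_nonneg C
  have hk1 : (1 : ℝ) ≤ k := by exact_mod_cast hk
  have hk0 : (0 : ℝ) < k := by linarith
  have hss : 0 < Real.sqrt s := Real.sqrt_pos.mpr hs
  have hD0 : 0 ≤ D := le_trans (by linarith) hD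
  set c : ℝ := ∑ e : C.E, C.wE e *
        (coreSys C fr k L (Mt k) hk hL (α * k) (by positivity)).QS (Fin p) (Vedge C e) with hcdef
  have hcb : |c| ≤ cF C := by
    rw [hcdef]
    refine (Finset.abs_sum_le_sum_abs _ _).trans ?_
    calc ∑ e : C.E, |C.wE e *
          (coreSys C fr k L (Mt k) hk hL (α * k) (by positivity)).QS (Fin p) (Vedge C e)|
        ≤ ∑ e : C.E, C.wE e * cF C := by
          refine Finset.sum_le_sum fun e _ => ?_
          rw [abs_mul, abs_of_nonneg (CFam_wE_nonneg C e)]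
          exact mul_le_mul_of_nonneg_left (abs_QS_le _ _ (fun τ => (Vedge_bd C e τ).1)
            (fun τ => (Vedge_bd C e τ).2)) (CFam_wE_nonneg C e)
      _ = cF C := by rw [← Finset.sum_mul, CFam_wE_sum, one_mul]
  -- derivative
  have hd : ∀ x : ℝ, HasDerivAt (fun y => PoiF y (piE C k) (wEdg C k) (psu C fr k L hk hL) 1 - c * y)
      (PoiF x (piE C k) (wEdg C k) (fun u' => ∑ e : C.E, C.wE e *
        qsu C fr k L hk hL (Fin p) (Vedge C e) u') 1 - c) x := by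
    intro x
    have := hasDerivAt_PoiF h0 h1 hc (psu_lip C fr hk hL) (1 : Uk k) x
    have e1 : (fun u' => (∑ e, piE C k e * psu C fr k L hk hL (u' * wEdg C k e)) -
        psu C fr k L hk hL u') = fun u' => ∑ e : C.E, C.wE e *
        qsu C fr k L hk hL (Fin p) (Vedge C e) u' := by
      funext u'
      exact psu_edge C fr hk hL u'
    rw [e1] at this
    have h2 := this.sub ((hasDerivAt_id x).const_mul c)
    rw [mul_one] at h2
    exact h2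
  have hb : ∀ x ∈ Set.Icc t (α * k), ‖PoiF x (piE C k) (wEdg C k) (fun u' => ∑ e : C.E, C.wE e *
        qsu C fr k L hk hL (Fin p) (Vedge C e) u') 1 - c‖ ≤
        cF C * (D / Real.sqrt s + 1) / Real.sqrt k := by
    intro x hx
    have hx0 : 0 ≤ x := le_trans (le_trans (by positivity) ht) hx.1
    rw [Real.norm_eq_abs, D5_PoiF_sum_mul hx0 (piE C k) (wEdg C k) Finset.univ C.wE
      (fun e => qsu C fr k L hk hL (Fin p) (Vedge C e)) 1 (fun e => ⟨_, D5_linG_bd h0 h1 _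
        (fun u => D5_qsu_bd C fr hk hL _ (fun τ => (Vedge_bd C e τ).1)
          (fun τ => (Vedge_bd C e τ).2) u) 1⟩), hcdef, ← Finset.sum_sub_distrib]
    refine (Finset.abs_sum_le_sum_abs _ _).trans ?_
    calc ∑ e : C.E, |C.wE e * PoiF x (piE C k) (wEdg C k) (qsu C fr k L hk hL (Fin p) (Vedge C e)) 1 -
          C.wE e * (coreSys C fr k L (Mt k) hk hL (α * k) (by positivity)).QS (Fin p) (Vedge C e)|
        ≤ ∑ e : C.E, C.wE e * (cF C * (D / Real.sqrt s + 1) / Real.sqrt k) := by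
          refine Finset.sum_le_sum fun e _ => ?_
          rw [← mul_sub, abs_mul, abs_of_nonneg (CFam_wE_nonneg C e)]
          refine mul_le_mul_of_nonneg_left ?_ (CFam_wE_nonneg C e)
          exact D5_s7a C hα hM fr hk hL (Fin p) (fun τ => (Vedge_bd C e τ).1) hc
            (fun τ => (Vedge_bd C e τ).2) hs (ht.trans hx.1) hx.2 (by linarith [hx.1])
      _ = _ := by rw [← Finset.sum_mul, CFam_wE_sum, one_mul]
  have hmv := Convex.norm_image_sub_le_of_norm_hasDerivWithin_le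
    (f := fun y => PoiF y (piE C k) (wEdg C k) (psu C fr k L hk hL) 1 - c * y)
    (f' := fun x => PoiF x (piE C k) (wEdg C k) (fun u' => ∑ e : C.E, C.wE e *
        qsu C fr k L hk hL (Fin p) (Vedge C e) u') 1 - c) (s := Set.Icc t (α * k))
    (C := cF C * (D / Real.sqrt s + 1) / Real.sqrt k) (x := α * k) (y := t)
    (fun x _ => (hd x).hasDerivWithinAt) hb (convex_Icc _ _) (Set.right_mem_Icc.mpr ht2)
    (Set.left_mem_Icc.mpr ht2)
  simp only [Real.norm_eq_abs] at hmv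
  rw [abs_sub_comm t, abs_of_nonneg (by linarith : 0 ≤ α * k - t)] at hmv
  have hKn : 0 ≤ cF C * (D / Real.sqrt s + 1) / Real.sqrt k := by positivity
  have hmv2 := abs_le.mp (hmv.trans (mul_le_mul_of_nonneg_left hD hKn))
  have e8 : |c * (α * k - α * (p - 1 : ℝ) - t)| ≤ cF C * ε := by
    rw [abs_mul]
    exact mul_le_mul hcb hε (abs_nonneg _) hc
  have e9 := abs_le.mp e8
  rw [abs_le]
  constructor <;> nlinarith [hmv2.1, hmv2.2, e9.1, e9.2]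

end D5steps

theorem cavity {p : ℕ} (hp : 2 ≤ p) (C : Core p) {α : ℝ} (hα : 0 < α) {Mt : ℕ → ℕ}
    (hM : TruncOK α Mt) : ∃ Cc : ℝ, 0 ≤ Cc ∧ ∀ (fr : Fr) (k L L' : ℕ) (hk : 0 < k)
      (hL : 0 < L) (hL' : 0 < L'), L ≤ L' →
      |(coreSys C fr (k + 1) L' (Mt (k + 1)) (Nat.succ_pos k) hL' (α * ((k + 1 : ℕ) : ℝ)) (by positivity)).psi -
        (coreSys C fr k L (Mt k) hk hL (α * k) (by positivity)).psi -
        (fcav C α (fun ι _ V => (coreSys C fr k L (Mt k) hk hL (α * k) (by positivity)).QS ι V) -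
          Real.log 2)| ≤
      Cc * ((L' : ℝ) / ((k : ℝ) + 1) + ((L' : ℝ) - L)) + Cc / Real.sqrt k := by
  obtain ⟨Cl, hCl, hlam⟩ := lam_est hp hα
  obtain ⟨ch, hch0, hch⟩ := Vsite_bd C
  have hc := cF_nonneg C
  have hp1 : (1 : ℝ) ≤ (p : ℝ) - 1 := by
    have : (2 : ℝ) ≤ p := by exact_mod_cast hp
    linarith
  set s : ℝ := α / 2 ^ (p - 1) with hs
  have hs0 : 0 < s := by positivity
  have hss : 0 < Real.sqrt s := Real.sqrt_pos.mpr hs0
  set D : ℝ := α * (p - 1 : ℝ) + Cl with hD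
  have hD0 : 0 ≤ D := by positivity
  set K : ℝ := D / Real.sqrt s + 1 with hK
  have hK0 : 0 ≤ K := by positivity
  have hαp : 0 ≤ α * p := by positivity
  refine ⟨2 + (2 * cF C + 2 * (cF C * Cl) + ch * K * (α * p + 1) + cF C * K * D + cF C * Cl), by
    positivity, ?_⟩
  intro fr k L L' hk hL hL' hLL
  obtain ⟨a1, a2, a3, a4, a5, a6, a7, a8⟩ := hlam k hk
  have hk1 : (1 : ℝ) ≤ k := by exact_mod_cast hk
  have hk0 : (0 : ℝ) < k := by linarith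
  have hkk : 0 < Real.sqrt k := Real.sqrt_pos.mpr hk0
  have hsk : s * k ≤ lam0 p α k := by
    rw [hs]
    refine le_trans (le_of_eq ?_) a8
    ring
  have hl0 : 0 < lam0 p α k := lt_of_lt_of_le (by positivity) hsk
  have hClk : Cl / (k : ℝ) ≤ Cl := div_le_self hCl hk1
  have hDk : α * k - lam0 p α k ≤ D := by
    have := (abs_le.mp a1).2
    rw [hD]
    linarith
  have b1 := core_psi_poi C hα hM fr (Nat.succ_pos k) hL'
  have b2 := D5_s2 C fr hk hL hL' hLL (lam := α * ((k + 1 : ℕ) : ℝ)) (by positivity)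
  have b3 := D5_s45 C hp hα hk hl0 a7 a3 (psR_lip C fr hk hL) a4 a2
  rw [D5_s6 C hp fr hk hL hl0.le hαp hch] at b3
  have b4 := D5_s7 C hα hM fr hk hL hs0 hsk a6 hDk hαp hch0 hch
  have b5 := D5_s8 C hα hM fr hk hL hs0 hsk a6 hDk a1
  have b6 := core_psi_poi C hα hM fr hk hL
  have hcast : α * ((k + 1 : ℕ) : ℝ) = α * ((k : ℝ) + 1) := by push_cast; ring
  -- normalise the error terms
  have c1 : cF C / (((k + 1 : ℕ) : ℝ) + 1) ≤ cF C / Real.sqrt k := by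
    refine le_trans ?_ (D5_div_succ_le hk hc)
    push_cast
    exact div_le_div_of_nonneg_left hc (by linarith) (by linarith)
  have c6 : cF C / ((k : ℝ) + 1) ≤ cF C / Real.sqrt k := D5_div_succ_le hk hc
  have c3 : 2 * (cF C * (Cl / (k : ℝ))) ≤ 2 * (cF C * Cl) / Real.sqrt k := by
    have := D5_div_le hk (mul_nonneg hc hCl)
    calc 2 * (cF C * (Cl / (k : ℝ))) = 2 * (cF C * Cl / (k : ℝ)) := by ring
      _ ≤ 2 * (cF C * Cl / Real.sqrt k) := by linarith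
      _ = _ := by ring
  have c5 : cF C * (Cl / (k : ℝ)) ≤ cF C * Cl / Real.sqrt k := by
    have := D5_div_le hk (mul_nonneg hc hCl)
    calc cF C * (Cl / (k : ℝ)) = cF C * Cl / (k : ℝ) := by ring
      _ ≤ _ := this
  have hZ : 0 ≤ (L' : ℝ) / ((k : ℝ) + 1) + ((L' : ℝ) - L) := by
    have h1 : (L : ℝ) ≤ L' := by exact_mod_cast hLL
    have h2 : 0 ≤ (L' : ℝ) / ((k : ℝ) + 1) := by positivity
    linarith
  set Z : ℝ := (L' : ℝ) / ((k : ℝ) + 1) + ((L' : ℝ) - L) with hZdef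
  set K2 : ℝ := 2 * cF C + 2 * (cF C * Cl) + ch * K * (α * p + 1) + cF C * K * D + cF C * Cl with hK2
  have hK20 : 0 ≤ K2 := by positivity
  have hfin : 2 * Z + K2 / Real.sqrt k ≤ (2 + K2) * Z + (2 + K2) / Real.sqrt k := by
    have h1 : 0 ≤ K2 * Z := mul_nonneg hK20 hZ
    have h2 : 0 ≤ 2 / Real.sqrt k := by positivity
    have h3 : (2 + K2) / Real.sqrt k = 2 / Real.sqrt k + K2 / Real.sqrt k := by ring
    rw [h3]
    linarith
  refine le_trans ?_ hfin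
  have hK2' : K2 / Real.sqrt k = cF C / Real.sqrt k + cF C / Real.sqrt k +
      2 * (cF C * Cl) / Real.sqrt k + ch * K / Real.sqrt k * (α * p + 1) +
      cF C * K / Real.sqrt k * D + cF C * Cl / Real.sqrt k := by
    rw [hK2]
    ring
  rw [hK2']
  unfold fcav
  rw [hcast] at b2
  have b1' := b1.trans c1
  have b3' := b3.trans c3
  have b6' := b6.trans c6
  have b5' := b5.trans (add_le_add_right c5 _)
  have hcast2 : PoiF (α * ((k + 1 : ℕ) : ℝ)) (piE C (k + 1)) (wEdg C (k + 1))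
      (psu C fr (k + 1) L' (Nat.succ_pos k) hL') 1 = PoiF (α * ((k : ℝ) + 1)) (piE C (k + 1))
      (wEdg C (k + 1)) (psu C fr (k + 1) L' (Nat.succ_pos k) hL') 1 := by rw [hcast]
  rw [hcast2] at b1'
  have f1 := abs_le.mp b1'
  have f2 := abs_le.mp b2
  have f3 := abs_le.mp b3'
  have f4 := abs_le.mp b4
  have f5 := abs_le.mp b5'
  have f6 := abs_le.mp b6'
  clear b1' b2 b3' b4 b5' b6' b1 b3 b5 b6
  rw [abs_le]
  constructor
  · linarith [f1.1, f2.1, f3.1, f4.1, f5.1, f6.2]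
  · linarith [f1.2, f2.2, f3.2, f4.2, f5.2, f6.1]

end Crest.SG
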