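import Crest.Agent.SG_D1
import Crest.Agent.SG_A8

/-! # SG_D6 : link with the pressure (task SG-D6)

Without slots: `LT0` of a weight depending on the spins only is `log` of its plain average
(level `R` has exponent 1 and the lower levels see a constant). So
`K·pressure = K log 2 + PoiF(αK) piE Θ (1)` with `Θ(u) = ∑_y prF log(2^{-K} ∑_σ u wFld)`, and
`|Θ(u) - psu(u)| ≤ L log 2`. -/

set_option autoImplicit false
noncomputable section
open scoped BigOperators
open Classical Filter
open Crest.ProbabilityR.Diluted Crest.Agent.SGG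
namespace Crest.SG

variable {p : ℕ} (C : Core p)

/-- free energy (with uniform average) for a deterministic weight, no slots. -/
def thU (k : ℕ) (u : Uk k) : ℝ :=
  ∑ y : Fin k → Fin C.nH, prF C k y *
    Real.log ((1 / 2 : ℝ) ^ k * ∑ σ : Fin k → Bool, (u σ : ℝ) * (wFld C k y σ : ℝ))

/-! ### helpers -/

theorem D6_coe_prod {k : ℕ} {ι : Type} (s : Finset ι) (g : ι → Uk k) (σ : Fin k → Bool) :
    (((∏ i ∈ s, g i) σ : {x : ℝ // 0 < x}) : ℝ) = ∏ i ∈ s, (g i σ : ℝ) := by
  induction s using Finset.induction_on with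
  | empty => simp
  | insert a s ha ih =>
    rw [Finset.prod_insert ha, Finset.prod_insert ha, ← ih]
    rfl

/-- partition function average with log, without the `2^{-k}`. -/
def D6z (k : ℕ) (u : Uk k) : ℝ :=
  ∑ y : Fin k → Fin C.nH, prF C k y *
    Real.log (∑ σ : Fin k → Bool, (u σ : ℝ) * (wFld C k y σ : ℝ))

theorem D6_Z_pos {k : ℕ} (u : Uk k) (y : Fin k → Fin C.nH) :
    0 < ∑ σ : Fin k → Bool, (u σ : ℝ) * (wFld C k y σ : ℝ) :=
  Finset.sum_pos (fun σ _ => mul_pos (u σ).2 (wFld C k y σ).2) Finset.univ_nonempty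

theorem D6_thU_eq (k : ℕ) (u : Uk k) : thU C k u = D6z C k u - k * Real.log 2 := by
  unfold thU D6z
  have h1 : ∀ y : Fin k → Fin C.nH, prF C k y *
      Real.log ((1 / 2 : ℝ) ^ k * ∑ σ : Fin k → Bool, (u σ : ℝ) * (wFld C k y σ : ℝ)) =
      prF C k y * Real.log (∑ σ : Fin k → Bool, (u σ : ℝ) * (wFld C k y σ : ℝ)) -
        prF C k y * (k * Real.log 2) := by
    intro y
    rw [Real.log_mul (by positivity) (D6_Z_pos C u y).ne', Real.log_pow, one_div, Real.log_inv]
    ring
  rw [Finset.sum_congr rfl fun y _ => h1 y, Finset.sum_sub_distrib, ← Finset.sum_mul, prF_sum,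
    one_mul]

theorem D6_thU_lip (k : ℕ) : LipF (wEdg C k) (cF C) (thU C k) := by
  intro u e
  rw [D6_thU_eq, D6_thU_eq, sub_sub_sub_cancel_right]
  unfold D6z
  rw [← Finset.sum_sub_distrib]
  refine (Finset.abs_sum_le_sum_abs _ _).trans ?_
  calc ∑ y : Fin k → Fin C.nH, |prF C k y * Real.log (∑ σ : Fin k → Bool,
          ((u * wEdg C k e) σ : ℝ) * (wFld C k y σ : ℝ)) -
        prF C k y * Real.log (∑ σ : Fin k → Bool, (u σ : ℝ) * (wFld C k y σ : ℝ))|
      ≤ ∑ y : Fin k → Fin C.nH, prF C k y * cF C := by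
        refine Finset.sum_le_sum fun y _ => ?_
        rw [← mul_sub, abs_mul, abs_of_nonneg (prF_nonneg C k y)]
        refine mul_le_mul_of_nonneg_left ?_ (prF_nonneg C k y)
        have hf : ∀ σ, Real.exp (-cF C) ≤ (wEdg C k e σ : ℝ) ∧
            (wEdg C k e σ : ℝ) ≤ Real.exp (cF C) := by
          intro σ
          have h := abs_le.1 (abs_log_fac_le C e.1 (fun l => σ (e.2 l)))
          have h0 : (0 : ℝ) < (wEdg C k e σ : ℝ) := (wEdg C k e σ).2
          constructor
          · rw [← Real.le_log_iff_exp_le h0]; exact h.1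
          · rw [← Real.log_le_iff_le_exp h0]; exact h.2
        have hZ1 := D6_Z_pos C (u * wEdg C k e) y
        have hZ := D6_Z_pos C u y
        rw [abs_le]
        constructor
        · have h3 : Real.exp (-cF C) * ∑ σ : Fin k → Bool, (u σ : ℝ) * (wFld C k y σ : ℝ) ≤
              ∑ σ : Fin k → Bool, ((u * wEdg C k e) σ : ℝ) * (wFld C k y σ : ℝ) := by
            rw [Finset.mul_sum]
            refine Finset.sum_le_sum fun σ _ => ?_
            have h4 : (((u * wEdg C k e) σ : {x : ℝ // 0 < x}) : ℝ) = u σ * wEdg C k e σ := rfl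
            rw [h4]
            have h5 : (0 : ℝ) < (u σ : ℝ) * (wFld C k y σ : ℝ) := mul_pos (u σ).2 (wFld C k y σ).2
            nlinarith [mul_le_mul_of_nonneg_right (hf σ).1 h5.le]
          have h6 := Real.log_le_log (by positivity) h3
          rw [Real.log_mul (Real.exp_pos _).ne' hZ.ne', Real.log_exp] at h6
          linarith
        · have h3 : ∑ σ : Fin k → Bool, ((u * wEdg C k e) σ : ℝ) * (wFld C k y σ : ℝ) ≤
              Real.exp (cF C) * ∑ σ : Fin k → Bool, (u σ : ℝ) * (wFld C k y σ : ℝ) := by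
            rw [Finset.mul_sum]
            refine Finset.sum_le_sum fun σ _ => ?_
            have h4 : (((u * wEdg C k e) σ : {x : ℝ // 0 < x}) : ℝ) = u σ * wEdg C k e σ := rfl
            rw [h4]
            have h5 : (0 : ℝ) < (u σ : ℝ) * (wFld C k y σ : ℝ) := mul_pos (u σ).2 (wFld C k y σ).2
            nlinarith [mul_le_mul_of_nonneg_right (hf σ).2 h5.le]
          have h6 := Real.log_le_log hZ1 h3
          rw [Real.log_mul (Real.exp_pos _).ne' hZ.ne', Real.log_exp] at h6
          linarith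
    _ = cF C := by rw [← Finset.sum_mul, prF_sum, one_mul]

theorem D6_prod_piE_sum {k : ℕ} (hk : 0 < k) (n : ℕ) :
    ∑ e : Fin n → Edg C k, ∏ i, piE C k (e i) = 1 := by
  rw [← Fintype.piFinset_univ, ← Finset.prod_univ_sum]
  simp [piE_sum C hk]

/-- average of the logarithm of the partition function with `n` edges. -/
def D6a (k n : ℕ) : ℝ :=
  ∑ e : Fin n → C.E, (∏ i, C.wE (e i)) *
      ∑ y : Fin k → Fin C.nH, (∏ i, C.wH (y i)) *
        ((Fintype.card (Fin n → Fin p → Fin k) : ℝ)⁻¹ *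
          ∑ idx : Fin n → Fin p → Fin k,
            logPartition k (fun l => C.theta (e l)) idx (fun i => C.h (y i)))

theorem D6_logPart (k n : ℕ) (e : Fin n → C.E) (idx : Fin n → Fin p → Fin k)
    (y : Fin k → Fin C.nH) :
    logPartition k (fun l => C.theta (e l)) idx (fun i => C.h (y i)) =
      Real.log (∑ σ : Fin k → Bool,
        (((1 : Uk k) * ∏ i, wEdg C k (e i, idx i)) σ : ℝ) * (wFld C k y σ : ℝ)) := by
  unfold logPartition
  congr 1
  refine Finset.sum_congr rfl fun σ _ => ?_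
  rw [Real.exp_add, Real.exp_sum, one_mul, D6_coe_prod]
  congr 1
  refine Finset.prod_congr rfl fun i _ => ?_
  exact Real.exp_log (fac C (e i) (fun l => σ (idx i l))).2

theorem D6_AvN_z {k : ℕ} (hk : 0 < k) (n : ℕ) :
    AvN (piE C k) (wEdg C k) (D6z C k) n 1 = D6a C k n := by
  unfold AvN
  rw [← (Equiv.arrowProdEquivProdArrow (Fin n) (fun _ => C.E) (fun _ => Fin p → Fin k)).symm.sum_comp,
    Fintype.sum_prod_type]
  unfold D6a
  refine Finset.sum_congr rfl fun e _ => ?_
  have hk' : (k : ℝ) ≠ 0 := by exact_mod_cast hk.ne'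
  have hcard : (Fintype.card (Fin n → Fin p → Fin k) : ℝ)⁻¹ = ((1 / (k : ℝ)) ^ p) ^ n := by
    rw [Fintype.card_fun, Fintype.card_fun, Fintype.card_fin, Fintype.card_fin, Fintype.card_fin]
    push_cast
    rw [one_div, inv_pow, inv_pow]
  have h1 : ∀ idx : Fin n → Fin p → Fin k,
      (∏ i, piE C k ((Equiv.arrowProdEquivProdArrow (Fin n) (fun _ => C.E)
        (fun _ => Fin p → Fin k)).symm (e, idx) i)) = (∏ i, C.wE (e i)) * ((1 / (k : ℝ)) ^ p) ^ n := by
    intro idx
    have : ∀ i, piE C k ((Equiv.arrowProdEquivProdArrow (Fin n) (fun _ => C.E)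
        (fun _ => Fin p → Fin k)).symm (e, idx) i) = C.wE (e i) * (1 / (k : ℝ)) ^ p := fun i => rfl
    rw [Finset.prod_congr rfl fun i _ => this i, Finset.prod_mul_distrib, Finset.prod_const,
      Finset.card_univ, Fintype.card_fin]
  have h2 : ∀ idx : Fin n → Fin p → Fin k,
      D6z C k (1 * ∏ i, wEdg C k ((Equiv.arrowProdEquivProdArrow (Fin n) (fun _ => C.E)
        (fun _ => Fin p → Fin k)).symm (e, idx) i)) = ∑ y : Fin k → Fin C.nH, prF C k y *
          logPartition k (fun l => C.theta (e l)) idx (fun i => C.h (y i)) := by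
    intro idx
    unfold D6z
    refine Finset.sum_congr rfl fun y _ => ?_
    rw [D6_logPart]
    rfl
  rw [Finset.sum_congr rfl fun idx _ => by rw [h1 idx, h2 idx]]
  rw [← Finset.mul_sum, hcard, mul_assoc]
  congr 1
  rw [Finset.sum_comm, Finset.mul_sum]
  refine Finset.sum_congr rfl fun y _ => ?_
  rw [← Finset.mul_sum]
  unfold prF
  ring

theorem D6_AvN_sub_const {k : ℕ} (hk : 0 < k) (n : ℕ) :
    AvN (piE C k) (wEdg C k) (thU C k) n 1 = D6a C k n - k * Real.log 2 := by
  rw [← D6_AvN_z C hk]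
  unfold AvN
  simp only [D6_thU_eq, mul_sub, Finset.sum_sub_distrib, ← Finset.sum_mul,
    D6_prod_piE_sum C hk, one_mul]

theorem pressure_eq {α : ℝ} (hα : 0 < α) {K : ℕ} (hK : 0 < K) :
    (K : ℝ) * C.pressure α K = K * Real.log 2 + PoiF (α * K) (piE C K) (wEdg C K) (thU C K) 1 := by
  have hK' : (K : ℝ) ≠ 0 := by exact_mod_cast hK.ne'
  have hlam : 0 ≤ α * K := by positivity
  have e1 : (K : ℝ) * C.pressure α K = Poi (α * K) (D6a C K) := by
    unfold Core.pressure Poi D6a
    rw [← mul_assoc, mul_one_div_cancel hK', one_mul]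
  have hlin := P2_linG (piE_nonneg C K) (piE_sum C hK) (cF_nonneg C) (D6_thU_lip C K) (1 : Uk K)
  have e2 : Poi (α * K) (D6a C K) = Poi (α * K) (fun n => (K * Real.log 2) +
      AvN (piE C K) (wEdg C K) (thU C K) n 1) := by
    congr 1
    funext n
    rw [D6_AvN_sub_const C hK]; ring
  have hc : LinG |K * Real.log 2| (fun _ => K * Real.log 2) := by
    intro n
    have : (0 : ℝ) ≤ n := Nat.cast_nonneg n
    nlinarith [abs_nonneg ((K : ℝ) * Real.log 2)]
  rw [e1, e2, Poi_add hlam hc hlin, Poi_const hlam]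
  rfl

/-- if `T` is constant at one level then it is constant below. -/
theorem D6_T_const {R : ℕ} {Ω : Type} [Fintype Ω] {S : Lev R Ω} {m : ℕ → ℝ} {P W : Ω → ℝ}
    (E : Expo R m) (hP : PathLaw P) {c : ℝ} (hc : 0 < c) {j0 : ℕ} (hj0 : j0 ≤ R)
    (h : ∀ ω, T S m P W j0 ω = c) (i : ℕ) (hi : i ≤ j0) (ω : Ω) : T S m P W (j0 - i) ω = c := by
  induction i generalizing ω with
  | zero => exact h ω
  | succ i ih =>
    have hlt : j0 - (i + 1) < R := by omega
    have he : j0 - (i + 1) + 1 = j0 - i := by omega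
    rw [T_step _ hlt, he]
    have h1 : ∀ x, (T S m P W (j0 - i) x) ^ (m (j0 - i)) = c ^ (m (j0 - i)) := by
      intro x; rw [ih (by omega)]
    rw [ce_congr S h1 ω, ce_const S hP, ← Real.rpow_mul hc.le, mul_one_div_cancel, Real.rpow_one]
    exact (E.pos (by omega) (by omega)).ne'

/-- `LT0` of a weight depending on the spins only. -/
theorem D6_LT0_spin (S : Sys) (W : (Fin S.k → Bool) → ℝ) (hW : ∀ σ, 0 < W σ) :
    LT0 S.lv S.m (unif S.Om) (fun ω => W ω.2) =
      Real.log ((1 / 2 : ℝ) ^ S.k * ∑ σ : Fin S.k → Bool, W σ) := by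
  have hR := S.R_pos
  have hP := Sys.unif_law S.Om
  have hc : 0 < (1 / 2 : ℝ) ^ S.k * ∑ σ : Fin S.k → Bool, W σ :=
    mul_pos (by positivity) (Finset.sum_pos (fun σ _ => hW σ) Finset.univ_nonempty)
  obtain ⟨ω0⟩ : Nonempty S.Om := inferInstance
  have hrel : ∀ ω ω' : S.Om, S.lv.rel (S.R - 1) ω ω' ↔ ω.1 = ω'.1 := by
    intro ω ω'
    constructor
    · intro h
      funext c n
      exact h.1 c n (by have := S.lev_lt n; omega)
    · intro h
      refine ⟨fun c n _ => by rw [h], fun hh => by omega⟩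
  have hce : ∀ F : S.Om → ℝ, ∀ ω : S.Om, ce S.lv (unif S.Om) (S.R - 1) F ω =
      (1 / 2 : ℝ) ^ S.k * ∑ σ : Fin S.k → Bool, F (ω.1, σ) := by
    intro F ω
    have hsum : ∀ G : S.Om → ℝ, (∑ ω' : S.Om, if S.lv.rel (S.R - 1) ω ω' then G ω' else 0) =
        ∑ σ : Fin S.k → Bool, G (ω.1, σ) := by
      intro G
      rw [Fintype.sum_prod_type, Finset.sum_eq_single ω.1]
      · refine Finset.sum_congr rfl fun σ _ => ?_
        exact if_pos ((hrel ω (ω.1, σ)).2 rfl)
      · intro b _ hb
        refine Finset.sum_eq_zero fun σ _ => ?_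
        rw [if_neg]
        intro h
        exact hb ((hrel _ _).1 h).symm
      · intro h; exact absurd (Finset.mem_univ _) h
    have hcls : cls S.lv (unif S.Om) (S.R - 1) ω = 2 ^ S.k * (1 / (Fintype.card S.Om : ℝ)) := by
      unfold cls
      rw [hsum]
      unfold unif
      rw [Finset.sum_const, Finset.card_univ, Fintype.card_fun, Fintype.card_fin,
        Fintype.card_bool, nsmul_eq_mul]
      push_cast
      rfl
    have hne : (1 / (Fintype.card S.Om : ℝ)) ≠ 0 := by
      have : (0 : ℝ) < Fintype.card S.Om := by exact_mod_cast Fintype.card_pos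
      positivity
    unfold ce Kf
    have h2 : ∀ ω' : S.Om, (if S.lv.rel (S.R - 1) ω ω' then unif S.Om ω' /
        cls S.lv (unif S.Om) (S.R - 1) ω else 0) * F ω' =
        if S.lv.rel (S.R - 1) ω ω' then (1 / 2 : ℝ) ^ S.k * F ω' else 0 := by
      intro ω'
      rw [hcls]
      split_ifs
      · unfold unif
        rw [mul_comm ((2 : ℝ) ^ S.k), ← div_div, div_self hne, one_div, one_div, inv_pow]
      · rw [zero_mul]
    rw [Finset.sum_congr rfl fun ω' _ => h2 ω', hsum, Finset.mul_sum]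
  have hT : ∀ ω, T S.lv S.m (unif S.Om) (fun ω => W ω.2) (S.R - 1) ω =
      (1 / 2 : ℝ) ^ S.k * ∑ σ : Fin S.k → Bool, W σ := by
    intro ω
    rw [T_step _ (by omega), Nat.sub_add_cancel hR, S.expo.one, T_R, hce]
    simp only [Real.rpow_one, div_one]
  have h0 := D6_T_const S.expo hP hc (by omega : S.R - 1 ≤ S.R) hT (S.R - 1) le_rfl ω0
  rw [Nat.sub_self] at h0
  rw [LT0_eq S.lv hP ω0, h0]

theorem D6_marg (S : Sys) (f : S.ρ → ℝ) : ∑ r : S.Root, S.prR r * f r.1 = ∑ y, S.pr y * f y := by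
  unfold Sys.prR
  rw [Fintype.sum_prod_type]
  refine Finset.sum_congr rfl fun y _ => ?_
  have h1 : ∀ s : Fin S.L → S.Slot, S.pr y * (∏ c, (S.pm (s c).1 * (1 / (S.k : ℝ)))) * f y =
      (S.pr y * f y) * ∏ c, (S.pm (s c).1 * (1 / (S.k : ℝ))) := fun s => by ring
  rw [Finset.sum_congr rfl fun s _ => h1 s, ← Finset.mul_sum]
  have h2 : ∑ s : Fin S.L → S.Slot, ∏ c, (S.pm (s c).1 * (1 / (S.k : ℝ))) = 1 := by
    rw [← Fintype.piFinset_univ, ← Finset.prod_univ_sum
      (f := fun _ (a : S.Slot) => S.pm a.1 * (1 / (S.k : ℝ)))]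
    have hk : (0 : ℝ) < S.k := by exact_mod_cast S.k_pos
    have h3 : ∑ a : S.Slot, S.pm a.1 * (1 / (S.k : ℝ)) = 1 := by
      rw [Fintype.sum_prod_type]
      simp only [Finset.sum_const, Finset.card_univ, Fintype.card_fin, nsmul_eq_mul]
      have h4 : ∀ x, (S.k : ℝ) * (S.pm x * (1 / (S.k : ℝ))) = S.pm x := by
        intro x; field_simp
      simp only [h4]
      exact S.pm_sum
    simp only [h3, Finset.prod_const_one]
  rw [h2, mul_one]

theorem D6_slot_log (S : Sys) (a : S.Slot) (l : Fin S.N → Bool) (σ : Fin S.k → Bool) :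
    0 < S.slotW a l σ ∧ |Real.log (S.slotW a l σ)| ≤ Real.log 2 := by
  unfold Sys.slotW
  split
  · exact ⟨one_pos, by rw [Real.log_one, abs_zero]; exact Real.log_nonneg (by norm_num)⟩
  · rename_i b _
    have h1 := S.W_lo b (σ a.2) (S.ext l)
    have h2 := S.W_hi b (σ a.2) (S.ext l)
    have h0 : 0 < S.W b (σ a.2) (S.ext l) := by linarith
    refine ⟨h0, ?_⟩
    rw [abs_le]
    constructor
    · rw [← Real.log_inv]
      exact Real.log_le_log (by norm_num) (by linarith)
    · exact Real.log_le_log h0 (by linarith)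

theorem D6_lT (S : Sys) (r : S.Root) :
    |S.lT r - Real.log ((1 / 2 : ℝ) ^ S.k * ∑ σ : Fin S.k → Bool, S.base r.1 σ)| ≤
      S.L * Real.log 2 := by
  rw [← D6_LT0_spin S (S.base r.1) (S.base_pos r.1)]
  refine LT0_lip S.lv S.expo (Sys.unif_law S.Om) (S.sw_pos r) (fun ω => S.base_pos _ _) fun ω => ?_
  unfold Sys.sw
  rw [Real.log_mul (S.base_pos _ _).ne' (Finset.prod_pos fun c _ => (D6_slot_log S _ _ _).1).ne',
    add_sub_cancel_left, Real.log_prod fun c _ => (D6_slot_log S _ _ _).1.ne']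
  refine (Finset.abs_sum_le_sum_abs _ _).trans ?_
  calc ∑ c, |Real.log (S.slotW (r.2 c) (ω.1 c) ω.2)| ≤ ∑ c : Fin S.L, Real.log 2 :=
        Finset.sum_le_sum fun c _ => (D6_slot_log S _ _ _).2
    _ = _ := by simp

theorem psu_thU (fr : Fr) {k L : ℕ} (hk : 0 < k) (hL : 0 < L) (u : Uk k) :
    |psu C fr k L hk hL u - thU C k u| ≤ L * Real.log 2 := by
  have h1 : thU C k u = ∑ r : (uSys C fr k L hk hL u).Root, (uSys C fr k L hk hL u).prR r *
      Real.log ((1 / 2 : ℝ) ^ k * ∑ σ : Fin k → Bool, (uSys C fr k L hk hL u).base r.1 σ) := by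
    rw [D6_marg (uSys C fr k L hk hL u) (fun y => Real.log ((1 / 2 : ℝ) ^ k *
      ∑ σ : Fin k → Bool, (uSys C fr k L hk hL u).base y σ))]
    rfl
  rw [h1]
  unfold psu Sys.psi
  rw [← Finset.sum_sub_distrib]
  refine (Finset.abs_sum_le_sum_abs _ _).trans ?_
  calc ∑ r : (uSys C fr k L hk hL u).Root, |(uSys C fr k L hk hL u).prR r *
          (uSys C fr k L hk hL u).lT r - (uSys C fr k L hk hL u).prR r *
            Real.log ((1 / 2 : ℝ) ^ k * ∑ σ : Fin k → Bool, (uSys C fr k L hk hL u).base r.1 σ)|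
      ≤ ∑ r : (uSys C fr k L hk hL u).Root, (uSys C fr k L hk hL u).prR r * (L * Real.log 2) := by
        refine Finset.sum_le_sum fun r _ => ?_
        rw [← mul_sub, abs_mul, abs_of_nonneg ((uSys C fr k L hk hL u).prR_nonneg r)]
        exact mul_le_mul_of_nonneg_left (D6_lT (uSys C fr k L hk hL u) r)
          ((uSys C fr k L hk hL u).prR_nonneg r)
    _ = L * Real.log 2 := by rw [← Finset.sum_mul, Sys.prR_sum, one_mul]

theorem psi_pressure {α : ℝ} (hα : 0 < α) {Mt : ℕ → ℕ} (hM : TruncOK α Mt) (fr : Fr) {k L : ℕ}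
    (hk : 0 < k) (hL : 0 < L) :
    |(coreSys C fr k L (Mt k) hk hL (α * k) (by positivity)).psi -
      k * (C.pressure α k - Real.log 2)| ≤ L * Real.log 2 + cF C / ((k : ℝ) + 1) := by
  have hlam : 0 ≤ α * k := by positivity
  have h1 := core_psi_poi C hα hM fr hk hL
  have h2 : (k : ℝ) * (C.pressure α k - Real.log 2) =
      PoiF (α * k) (piE C k) (wEdg C k) (thU C k) 1 := by
    rw [mul_sub, pressure_eq C hα hk]; ring
  have g1 := P2_linG (piE_nonneg C k) (piE_sum C hk) (cF_nonneg C) (psu_lip C fr hk hL) (1 : Uk k)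
  have g2 := P2_linG (piE_nonneg C k) (piE_sum C hk) (cF_nonneg C) (D6_thU_lip C k) (1 : Uk k)
  have h3 : |PoiF (α * k) (piE C k) (wEdg C k) (psu C fr k L hk hL) 1 -
      PoiF (α * k) (piE C k) (wEdg C k) (thU C k) 1| ≤ L * Real.log 2 := by
    unfold PoiF
    rw [← Poi_sub hlam g1 g2]
    refine abs_Poi_le (C := 0) hlam fun n => ?_
    unfold AvN
    rw [← Finset.sum_sub_distrib]
    refine (Finset.abs_sum_le_sum_abs _ _).trans ?_
    calc _ ≤ ∑ e : Fin n → Edg C k, (∏ i, piE C k (e i)) * (L * Real.log 2) := by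
          refine Finset.sum_le_sum fun e _ => ?_
          have h0 : 0 ≤ ∏ i, piE C k (e i) := Finset.prod_nonneg fun i _ => piE_nonneg C k _
          rw [← mul_sub, abs_mul, abs_of_nonneg h0]
          exact mul_le_mul_of_nonneg_left (psu_thU C fr hk hL _) h0
      _ = L * Real.log 2 := by rw [← Finset.sum_mul, D6_prod_piE_sum C hk, one_mul]
  rw [h2]
  have h4 := abs_sub_le ((coreSys C fr k L (Mt k) hk hL (α * k) (by positivity)).psi)
    (PoiF (α * k) (piE C k) (wEdg C k) (psu C fr k L hk hL) 1)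
    (PoiF (α * k) (piE C k) (wEdg C k) (thU C k) 1)
  linarith

/-- bound on the field weights. -/
theorem D6_thU_one (k : ℕ) : |thU C k 1| ≤ (∑ y, |C.h y|) * k := by
  set H := ∑ y, |C.h y| with hH
  have hH1 : ∀ y, |C.h y| ≤ H := fun y =>
    Finset.single_le_sum (f := fun y => |C.h y|) (fun y _ => abs_nonneg _) (Finset.mem_univ y)
  unfold thU
  refine (Finset.abs_sum_le_sum_abs _ _).trans ?_
  calc _ ≤ ∑ y : Fin k → Fin C.nH, prF C k y * (H * k) := by
        refine Finset.sum_le_sum fun y _ => ?_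
        rw [abs_mul, abs_of_nonneg (prF_nonneg C k y)]
        refine mul_le_mul_of_nonneg_left ?_ (prF_nonneg C k y)
        have hb : ∀ σ : Fin k → Bool, |∑ i, C.h (y i) * spinVal (σ i)| ≤ H * k := by
          intro σ
          refine (Finset.abs_sum_le_sum_abs _ _).trans ?_
          calc ∑ i, |C.h (y i) * spinVal (σ i)| ≤ ∑ i : Fin k, H := by
                refine Finset.sum_le_sum fun i _ => ?_
                rw [abs_mul, B1a_abs_spinVal, mul_one]
                exact hH1 _
            _ = H * k := by simp [mul_comm]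
        have hone : ∀ σ : Fin k → Bool, (((1 : Uk k) σ : {x : ℝ // 0 < x}) : ℝ) = 1 := fun σ => rfl
        simp only [hone, one_mul]
        have hpos : 0 < (1 / 2 : ℝ) ^ k * ∑ σ : Fin k → Bool, (wFld C k y σ : ℝ) :=
          mul_pos (by positivity) (Finset.sum_pos (fun σ _ => (wFld C k y σ).2)
            Finset.univ_nonempty)
        have hcst : ∀ c : ℝ, (1 / 2 : ℝ) ^ k * ∑ _σ : Fin k → Bool, c = c := by
          intro c
          rw [Finset.sum_const, Finset.card_univ, Fintype.card_fun, Fintype.card_fin,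
            Fintype.card_bool, nsmul_eq_mul]
          push_cast
          rw [← mul_assoc, ← mul_pow]
          norm_num
        rw [abs_le]
        constructor
        · have h3 : Real.exp (-(H * k)) ≤ (1 / 2 : ℝ) ^ k * ∑ σ : Fin k → Bool, (wFld C k y σ : ℝ) := by
            rw [← hcst (Real.exp (-(H * k)))]
            refine mul_le_mul_of_nonneg_left (Finset.sum_le_sum fun σ _ => ?_) (by positivity)
            exact Real.exp_le_exp.2 (abs_le.1 (hb σ)).1
          rw [Real.le_log_iff_exp_le hpos]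
          exact h3
        · have h3 : (1 / 2 : ℝ) ^ k * ∑ σ : Fin k → Bool, (wFld C k y σ : ℝ) ≤ Real.exp (H * k) := by
            rw [← hcst (Real.exp (H * k))]
            refine mul_le_mul_of_nonneg_left (Finset.sum_le_sum fun σ _ => ?_) (by positivity)
            exact Real.exp_le_exp.2 (abs_le.1 (hb σ)).2
          rw [Real.log_le_iff_le_exp hpos]
          exact h3
    _ = H * k := by rw [← Finset.sum_mul, prF_sum, one_mul]

/-- `|pressure| ≤ const`, uniformly in `K`. -/
theorem pressure_bd {α : ℝ} (hα : 0 < α) : ∃ B : ℝ, 0 ≤ B ∧ ∀ K : ℕ, 0 < K → |C.pressure α K| ≤ B := by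
  have hH : 0 ≤ ∑ y, |C.h y| := Finset.sum_nonneg fun y _ => abs_nonneg _
  have hl2 : 0 ≤ Real.log 2 := Real.log_nonneg (by norm_num)
  refine ⟨Real.log 2 + ((∑ y, |C.h y|) + cF C * α), by
    have := mul_nonneg (cF_nonneg C) hα.le; positivity, fun K hK => ?_⟩
  have hK' : (0 : ℝ) < K := by exact_mod_cast hK
  have hlam : 0 ≤ α * K := by positivity
  have h1 := pressure_eq C hα hK
  have h2 : |PoiF (α * K) (piE C K) (wEdg C K) (thU C K) 1| ≤
      |thU C K 1| + cF C * (α * K) := by
    unfold PoiF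
    exact sgp_abs_le_lin hlam fun n => P2_abs_AvN (piE_nonneg C K) (piE_sum C hK) (cF_nonneg C)
      (D6_thU_lip C K) n 1
  have h3 := D6_thU_one C K
  have h4 : (K : ℝ) * |C.pressure α K| ≤ K * (Real.log 2 + ((∑ y, |C.h y|) + cF C * α)) := by
    rw [← abs_of_pos hK', ← abs_mul, abs_of_pos hK', h1]
    refine (abs_add_le _ _).trans ?_
    rw [abs_mul, abs_of_pos hK', abs_of_nonneg hl2]
    nlinarith
  exact le_of_mul_le_mul_left h4 hK'

end Crest.SG
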