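import Mathlib
import Crest.Agent.SGG_Defs

/-!
# SG_Defs : shared definitions for S0192 (Mezard-Parisi formula), see note rid=S0192.

Part A definitions: finite leveled spaces, conditional expectations, the power-mean recursion `T`,
the tilted path law, trees of replica choices, replica expectations `Et` / `En`.

`En n` is the expectation over `n+1` replicas (indexed by `Fin (n+1)`).
-/

set_option autoImplicit false
set_option linter.unusedVariables false

noncomputable section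

open scoped BigOperators
open Classical

namespace Crest.SG

/-! ### A. leveled spaces -/

/-- A leveled structure with `R` levels on `Ω`: decreasing equivalence relations
`rel 0 = everything`, …, `rel R = equality` (think: the first `j` levels of the two paths agree). -/
structure Lev (R : ℕ) (Ω : Type) where
  rel : ℕ → Ω → Ω → Prop
  refl : ∀ j ω, rel j ω ω
  symm : ∀ j ω ω', rel j ω ω' → rel j ω' ω
  trans : ∀ j ω ω' ω'', rel j ω ω' → rel j ω' ω'' → rel j ω ω''
  zero : ∀ ω ω', rel 0 ω ω'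
  mono : ∀ j ω ω', rel (j + 1) ω ω' → rel j ω ω'
  top : ∀ ω ω', rel R ω ω' → ω = ω'

/-- Exponents `0 = m 0 < m 1 < … < m R = 1` (so `0 < R`). -/
structure Expo (R : ℕ) (m : ℕ → ℝ) : Prop where
  zero : m 0 = 0
  one : m R = 1
  lt : ∀ j, j < R → m j < m (j + 1)

/-- The increments of the exponents (a probability vector on `j < R`). -/
def Del (m : ℕ → ℝ) (j : ℕ) : ℝ := m (j + 1) - m j

/-- A strictly positive probability on the finite type `Ω`. -/
structure PathLaw {Ω : Type} [Fintype Ω] (P : Ω → ℝ) : Prop where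
  pos : ∀ ω, 0 < P ω
  sum : ∑ ω, P ω = 1

variable {R : ℕ} {Ω : Type} [Fintype Ω]

/-- mass of the `rel j`-class of `ω`. -/
def cls (S : Lev R Ω) (P : Ω → ℝ) (j : ℕ) (ω : Ω) : ℝ := ∑ ω', if S.rel j ω ω' then P ω' else 0

/-- the kernel `K_j(ω, ω')`: resample everything beyond level `j`. -/
def Kf (S : Lev R Ω) (P : Ω → ℝ) (j : ℕ) (ω ω' : Ω) : ℝ :=
  if S.rel j ω ω' then P ω' / cls S P j ω else 0

/-- conditional expectation given level `j`. -/
def ce (S : Lev R Ω) (P : Ω → ℝ) (j : ℕ) (F : Ω → ℝ) (ω : Ω) : ℝ := ∑ ω', Kf S P j ω ω' * F ω'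

/-- plain expectation. -/
def ex (P : Ω → ℝ) (F : Ω → ℝ) : ℝ := ∑ ω, P ω * F ω

/-- `F` depends only on the `rel j` class. -/
def Inv (S : Lev R Ω) (j : ℕ) (F : Ω → ℝ) : Prop := ∀ ω ω', S.rel j ω ω' → F ω = F ω'

/-- downward recursion: `Tdown i = T_{R-i}`. -/
def Tdown (S : Lev R Ω) (m : ℕ → ℝ) (P W : Ω → ℝ) : ℕ → Ω → ℝ
  | 0 => W
  | (i + 1) => fun ω =>
      (ce S P (R - (i + 1)) (fun ω' => (Tdown S m P W i ω') ^ (m (R - i))) ω) ^ (1 / m (R - i))

/-- `T_j` for `j ≤ R`: `T_R = W`, `T_j = (E_j[T_{j+1}^{m_{j+1}}])^{1/m_{j+1}}`. -/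
def T (S : Lev R Ω) (m : ℕ → ℝ) (P W : Ω → ℝ) (j : ℕ) : Ω → ℝ := Tdown S m P W (R - j)

/-- `log T_0` (`T_0` is constant; we average its logarithm to have a number). -/
def LT0 (S : Lev R Ω) (m : ℕ → ℝ) (P W : Ω → ℝ) : ℝ := ∑ ω, P ω * Real.log (T S m P W 0 ω)

/-- The tilted path law `P^W = P W ∏_{j<R} T_j^{-Δ_j}`. -/
def tilt (S : Lev R Ω) (m : ℕ → ℝ) (P W : Ω → ℝ) (ω : Ω) : ℝ :=
  P ω * W ω * ∏ j ∈ Finset.range R, (T S m P W j ω) ^ (-(Del m j))

/-! ### trees of replica choices -/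

/-- Tree data for `n+1` replicas: for each new replica its parent and a level `j < R`. -/
def Tree (R : ℕ) : ℕ → Type
  | 0 => Unit
  | (n + 1) => Tree R n × (Fin (n + 1) × Fin R)

instance instFintypeTree (R : ℕ) : ∀ n, Fintype (Tree R n)
  | 0 => inferInstanceAs (Fintype Unit)
  | (n + 1) => by
      haveI := instFintypeTree R n
      exact inferInstanceAs (Fintype (Tree R n × (Fin (n + 1) × Fin R)))

/-- age (branching level from the parent) of each replica. -/
def age (R : ℕ) : ∀ n, Tree R n → Fin (n + 1) → ℕ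
  | 0, _ => fun _ => 0
  | (n + 1), (t, (par, j)) => Fin.snoc (α := fun _ => ℕ) (age R n t) (max (j : ℕ) (age R n t par))

/-- genealogical overlap level of two replicas (`ov i i = R`,
`ov i new = min (age new) (ov i parent)`). -/
def ov (R : ℕ) : ∀ n, Tree R n → Fin (n + 1) → Fin (n + 1) → ℕ
  | 0, _ => fun _ _ => R
  | (n + 1), (t, (par, j)) =>
      Fin.snoc (α := fun _ => Fin (n + 2) → ℕ)
        (fun i => Fin.snoc (α := fun _ => ℕ) (ov R n t i)
          (min (max (j : ℕ) (age R n t par)) (ov R n t i par)))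
        (Fin.snoc (α := fun _ => ℕ)
          (fun i => min (max (j : ℕ) (age R n t par)) (ov R n t par i)) R)

/-- weight of the tree data. -/
def wt (m : ℕ → ℝ) (R : ℕ) : ∀ n, Tree R n → ℝ
  | 0, _ => 1
  | (n + 1), (t, (_, j)) => wt m R n t * ((1 / ((n : ℝ) + 1)) * Del m j)

/-- path expectation of `n+1` replicas given the tree data. -/
def Et (S : Lev R Ω) (P : Ω → ℝ) : ∀ n, Tree R n → ((Fin (n + 1) → Ω) → ℝ) → ℝ
  | 0, _, F => ∑ ω, P ω * F (fun _ => ω)
  | (n + 1), (t, (par, j)), F =>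
      Et S P n t (fun ω => ∑ ω', Kf S P (max (j : ℕ) (age R n t par)) (ω par) ω' *
        F (Fin.snoc (α := fun _ => Ω) ω ω'))

/-- replica expectation (`n+1` replicas). -/
def En (S : Lev R Ω) (m : ℕ → ℝ) (P : Ω → ℝ) (n : ℕ)
    (F : Tree R n → (Fin (n + 1) → Ω) → ℝ) : ℝ :=
  ∑ t, wt m R n t * Et S P n t (F t)

/-- lift an observable of `n+1` replicas to `n+2` replicas (the last one is ignored). -/
def lift1 {R : ℕ} {Ω : Type} {n : ℕ} (F : Tree R n → (Fin (n + 1) → Ω) → ℝ) :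
    Tree R (n + 1) → (Fin (n + 2) → Ω) → ℝ :=
  fun t ω => F t.1 (fun i => ω i.castSucc)

/-! ### products of leveled spaces -/

/-- product over an index type of the same leveled space. -/
def Lev.pi {R : ℕ} {Ω : Type} (S : Lev R Ω) (ι : Type) : Lev R (ι → Ω) where
  rel j ω ω' := ∀ i, S.rel j (ω i) (ω' i)
  refl j ω i := S.refl j (ω i)
  symm j ω ω' h i := S.symm j _ _ (h i)
  trans j ω ω' ω'' h h' i := S.trans j _ _ _ (h i) (h' i)
  zero ω ω' i := S.zero _ _
  mono j ω ω' h i := S.mono j _ _ (h i)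
  top ω ω' h := funext fun i => S.top _ _ (h i)

/-- product of two leveled spaces with the same number of levels. -/
def Lev.prod {R : ℕ} {A B : Type} (S : Lev R A) (S' : Lev R B) : Lev R (A × B) where
  rel j ω ω' := S.rel j ω.1 ω'.1 ∧ S'.rel j ω.2 ω'.2
  refl j ω := ⟨S.refl j _, S'.refl j _⟩
  symm j ω ω' h := ⟨S.symm j _ _ h.1, S'.symm j _ _ h.2⟩
  trans j ω ω' ω'' h h' := ⟨S.trans j _ _ _ h.1 h'.1, S'.trans j _ _ _ h.2 h'.2⟩
  zero ω ω' := ⟨S.zero _ _, S'.zero _ _⟩
  mono j ω ω' h := ⟨S.mono j _ _ h.1, S'.mono j _ _ h.2⟩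
  top ω ω' h' := Prod.ext (S.top _ _ h'.1) (S'.top _ _ h'.2)

/-- the uniform path law. -/
def unif (Ω : Type) [Fintype Ω] : Ω → ℝ := fun _ => 1 / (Fintype.card Ω : ℝ)

end Crest.SG
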