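import Crest.Agent.SG_CDefs
import Crest.Agent.SGG_Site

/-! # SG_E1 : expansion of the site and edge terms over spin values (task SG-E1, easy)

`siteTerm = ½ ∑_ε e^{hε} ∏_j exp (siteMessage_j)`, `exp (siteMessage_j) = ∑_{s'} e^{θ_j(s',ε)} ∏ tilt`
(the argument of the logarithm is positive: `SGG.sum_exp_pos`/`prod_tilt_pos`), `e^{θ} = fac`
(`Real.exp_log (fac_pos ..)`); then expand the product over `j` of sums over `s'`
(`Finset.prod_univ_sum`, `Fintype.piFinset_univ`, curry `Fin κ × Fin (p-1) → Bool`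
≃ `Fin κ → Fin (p-1) → Bool`). -/

set_option autoImplicit false
noncomputable section
open scoped BigOperators
open Classical
open Crest.ProbabilityR.Diluted Crest.Agent.SGG
namespace Crest.SG

/-- the one-spin law `e^{xs}/(2 cosh x)` (frozen definition; `tilt` alone is the path tilt) -/
local notation "qt" => Crest.ProbabilityR.Diluted.tilt

variable {p : ℕ} (C : Core p)

theorem E1_exp_theta (e : C.E) (s : Fin p → Bool) : Real.exp (C.theta e s) = (fac C e s : ℝ) := by
  unfold Core.theta fac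
  exact Real.exp_log (fac_pos C e s)

theorem edgeTerm_expand (e : C.E) (x : Fin p → ℝ) :
    edgeTerm (C.theta e) x = ∑ τ : Fin p → Bool, Vedge C e τ * ∏ l, qt (x l) (τ l) := by
  unfold edgeTerm Vedge
  simp_rw [E1_exp_theta]

theorem siteTerm_expand {κ : ℕ} (e : Fin κ → C.E) (y : Fin C.nH)
    (x : Fin κ → Fin (p - 1) → ℝ) :
    siteTerm (C.h y) (fun j => C.theta (e j)) x =
      ∑ τ : Fin κ × Fin (p - 1) → Bool, Vsite C e y τ * ∏ i, qt (x i.1 i.2) (τ i) := by
  have hmsg : ∀ (j : Fin κ) (ε : Bool),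
      Real.exp (siteMessage (C.theta (e j)) (x j) ε) = ∑ s' : Fin (p - 1) → Bool,
        (fac C (e j) (fun ℓ => if h : ℓ.val < p - 1 then s' ⟨ℓ.val, h⟩ else ε) : ℝ) *
          ∏ ℓ, qt (x j ℓ) (s' ℓ) := by
    intro j ε
    unfold siteMessage
    rw [Real.exp_log (sum_exp_pos (S := Fin (p - 1) → Bool) (fun s' => ∏ ℓ, qt (x j ℓ) (s' ℓ))
      (fun s' => (prod_tilt_pos (x j) s').le) (by rw [sum_prod_tilt]; exact one_pos) _)]
    simp_rw [E1_exp_theta]
  have hexp : ∀ ε : Bool, Real.exp (C.h y * spinVal ε + ∑ j : Fin κ,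
        siteMessage (C.theta (e j)) (x j) ε) = ∑ τ : Fin κ × Fin (p - 1) → Bool,
      Real.exp (C.h y * spinVal ε) *
        ((∏ j, (fac C (e j) (fun l => if h : l.val < p - 1 then τ (j, ⟨l.val, h⟩) else ε) : ℝ)) *
          ∏ i, qt (x i.1 i.2) (τ i)) := by
    intro ε
    rw [Real.exp_add, Real.exp_sum, ← Finset.mul_sum]
    congr 1
    rw [Finset.prod_congr rfl fun j _ => hmsg j ε, Finset.prod_univ_sum, Fintype.piFinset_univ]
    symm
    refine Fintype.sum_equiv (Equiv.curry (Fin κ) (Fin (p - 1)) Bool) _ _ fun τ => ?_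
    rw [Finset.prod_mul_distrib, Fintype.prod_prod_type]
    rfl
  unfold siteTerm Vsite
  simp_rw [hexp]
  rw [Finset.sum_comm, Finset.mul_sum]
  refine Finset.sum_congr rfl fun τ _ => ?_
  rw [mul_assoc, Finset.sum_mul]
  congr 1
  refine Finset.sum_congr rfl fun ε _ => ?_
  rw [mul_assoc]

theorem Vedge_pos (e : C.E) (τ : Fin p → Bool) : 0 < Vedge C e τ := (fac C e τ).2

theorem Vsite_pos {κ : ℕ} (e : Fin κ → C.E) (y : Fin C.nH) (τ : Fin κ × Fin (p - 1) → Bool) :
    0 < Vsite C e y τ := by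
  unfold Vsite
  have h : ∀ ε : Bool, 0 < Real.exp (C.h y * spinVal ε) *
      ∏ j, (fac C (e j) (fun l => if h : l.val < p - 1 then τ (j, ⟨l.val, h⟩) else ε) : ℝ) :=
    fun ε => mul_pos (Real.exp_pos _) (Finset.prod_pos fun j _ => (fac C (e j) _).2)
  exact mul_pos (by norm_num) (Finset.sum_pos (fun ε _ => h ε) Finset.univ_nonempty)

/-- bound for the logarithm of the site function, linear in the number of interactions
(`A = ∑_y |h y|`, `B = ∑_e supNorm (theta e)`). -/
theorem abs_log_Vsite : ∃ A B : ℝ, 0 ≤ A ∧ 0 ≤ B ∧ ∀ (κ : ℕ) (e : Fin κ → C.E) (y : Fin C.nH)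
    (τ : Fin κ × Fin (p - 1) → Bool), |Real.log (Vsite C e y τ)| ≤ A + B * κ := by
  have hsn : ∀ e : C.E, 0 ≤ supNorm (C.theta e) := fun e =>
    (abs_nonneg _).trans (abs_le_supNorm (C.theta e) (fun _ => true))
  refine ⟨∑ y, |C.h y|, ∑ e, supNorm (C.theta e), Finset.sum_nonneg fun _ _ => abs_nonneg _,
    Finset.sum_nonneg fun e _ => hsn e, ?_⟩
  intro κ e y τ
  obtain ⟨A, hA⟩ : ∃ A : ℝ, A = ∑ y, |C.h y| := ⟨_, rfl⟩
  obtain ⟨B, hB⟩ : ∃ B : ℝ, B = ∑ e, supNorm (C.theta e) := ⟨_, rfl⟩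
  rw [← hA, ← hB]
  have hAy : |C.h y| ≤ A := by
    rw [hA]
    exact Finset.single_le_sum (f := fun y => |C.h y|) (fun _ _ => abs_nonneg _)
      (Finset.mem_univ y)
  have hBe : ∀ (e : C.E) (s : Fin p → Bool), |C.theta e s| ≤ B := by
    intro e s
    refine (abs_le_supNorm (C.theta e) s).trans ?_
    rw [hB]
    exact Finset.single_le_sum (f := fun e => supNorm (C.theta e)) (fun e _ => hsn e)
      (Finset.mem_univ e)
  have hterm : ∀ ε : Bool, ∃ w : ℝ, |w| ≤ A + B * κ ∧ Real.exp (C.h y * spinVal ε) *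
      ∏ j, (fac C (e j) (fun l => if h : l.val < p - 1 then τ (j, ⟨l.val, h⟩) else ε) : ℝ) =
      Real.exp w := by
    intro ε
    refine ⟨C.h y * spinVal ε + ∑ j : Fin κ, C.theta (e j)
      (fun l => if h : l.val < p - 1 then τ (j, ⟨l.val, h⟩) else ε), ?_, ?_⟩
    · refine (abs_add_le _ _).trans (add_le_add ?_ ?_)
      · rw [abs_mul, abs_spinVal, mul_one]
        exact hAy
      · refine (Finset.abs_sum_le_sum_abs _ _).trans ?_
        refine (Finset.sum_le_sum fun j _ => hBe (e j) _).trans ?_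
        simp [mul_comm]
    · rw [Real.exp_add, Real.exp_sum]
      simp_rw [E1_exp_theta]
  choose w hw hwe using hterm
  have hV : Vsite C e y τ = (1 / 2) * (Real.exp (w true) + Real.exp (w false)) := by
    unfold Vsite
    rw [Fintype.sum_bool, hwe, hwe]
  have hub : Vsite C e y τ ≤ Real.exp (A + B * κ) := by
    rw [hV]
    have h1 := Real.exp_le_exp.2 (abs_le.1 (hw true)).2
    have h2 := Real.exp_le_exp.2 (abs_le.1 (hw false)).2
    linarith
  have hlb : Real.exp (-(A + B * κ)) ≤ Vsite C e y τ := by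
    rw [hV]
    have h1 := Real.exp_le_exp.2 (abs_le.1 (hw true)).1
    have h2 := Real.exp_le_exp.2 (abs_le.1 (hw false)).1
    linarith
  have hp := Vsite_pos C e y τ
  rw [abs_le]
  exact ⟨(Real.le_log_iff_exp_le hp).2 hlb, (Real.log_le_iff_le_exp hp).2 hub⟩

end Crest.SG
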