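import Crest.Agent.SG_CDefs
import Crest.Agent.SG_A8
import Crest.Agent.SGG_Site
import Crest.Agent.SG_B1

/-! # SG_E2 : messages (task SG-E2, easy/medium)

`mag r v ω` = conditional mean of the spin `v` given level `R-1`; `msg a` = the real message with
mean `a`. -/

set_option autoImplicit false
noncomputable section
open scoped BigOperators
open Classical
open Crest.ProbabilityR.Diluted Crest.Agent.SGG
namespace Crest.SG

/-- the one-spin law `e^{xs}/(2 cosh x)` (frozen definition; `tilt` alone is the path tilt) -/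
local notation "qt" => Crest.ProbabilityR.Diluted.tilt

/-- the real message with mean `a` (artanh). -/
def msg (a : ℝ) : ℝ := (1 / 2) * Real.log ((1 + a) / (1 - a))

/-- `e^{±x} / (2 cosh x) = 1 / (1 + e^{∓2x})`, `e^{2x} = (1+a)/(1-a)`. -/
theorem tilt_msg {a : ℝ} (h : |a| < 1) (s : Bool)   : qt (msg a) s = (1 + a * spinVal s) / 2 := by
  obtain ⟨h1, h2⟩ := abs_lt.mp h
  have p1 : 0 < 1 + a := by linarith
  have p2 : 0 < 1 - a := by linarith
  set X := Real.exp (msg a) with hX
  have hXp : 0 < X := Real.exp_pos _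
  have hX2 : X ^ 2 = (1 + a) / (1 - a) := by
    rw [hX, ← Real.exp_nat_mul, msg]
    push_cast
    have : (2 : ℝ) * (1 / 2 * Real.log ((1 + a) / (1 - a))) = Real.log ((1 + a) / (1 - a)) := by
      ring
    rw [this, Real.exp_log (by positivity)]
  have hX2' : X ^ 2 * (1 - a) = 1 + a := by
    rw [hX2]; field_simp
  unfold Crest.ProbabilityR.Diluted.tilt
  rw [Real.cosh_eq, Real.exp_neg, ← hX]
  cases s
  · have e1 : msg a * spinVal false = -msg a := by simp [spinVal]
    have e2 : a * spinVal false = -a := by simp [spinVal]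
    rw [e1, e2, Real.exp_neg, ← hX]
    rw [div_eq_div_iff (by positivity) (by norm_num)]
    field_simp
    nlinarith
  · have e1 : msg a * spinVal true = msg a := by simp [spinVal]
    have e2 : a * spinVal true = a := by simp [spinVal]
    rw [e1, e2, ← hX]
    rw [div_eq_div_iff (by positivity) (by norm_num)]
    field_simp
    nlinarith

namespace Sys
variable (S : Sys)

theorem two_le_R : 2 ≤ S.R := by
  have h1 := S.lev_pos 0
  have h2 := S.lev_lt 0
  omega

/-- conditional spin mean given level `R-1`. -/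
def mag (r : S.Root) (v : Fin S.k) (ω : S.Om) : ℝ :=
  ce S.lv (S.PL r) (S.R - 1) (fun ω' => spinVal (ω'.2 v)) ω

theorem ce_ind_eq (r : S.Root) (v : Fin S.k) (ω : S.Om) (s : Bool) :
    ce S.lv (S.PL r) (S.R - 1) (fun ω' => if ω'.2 v = s then 1 else 0) ω =
      (1 + S.mag r v ω * spinVal s) / 2 := by
  have h1 : ∀ ω' : S.Om, (if ω'.2 v = s then (1 : ℝ) else 0) =
      1 / 2 + (spinVal s / 2) * spinVal (ω'.2 v) := by
    intro ω'
    cases h : ω'.2 v <;> cases s <;> norm_num [spinVal]
  rw [ce_congr S.lv h1, ce_add, ce_const_mul, ce_const S.lv (S.PL_law r)]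
  unfold mag
  ring

theorem ce_ind_pos (r : S.Root) (v : Fin S.k) (ω : S.Om) (s : Bool) :
    0 < ce S.lv (S.PL r) (S.R - 1) (fun ω' => if ω'.2 v = s then 1 else 0) ω := by
  have hP := S.PL_law r
  set ω2 : S.Om := (ω.1, Function.update ω.2 v s) with hω2
  have hrel : S.lv.rel (S.R - 1) ω ω2 := by
    refine ⟨fun c n _ => rfl, fun hR => ?_⟩
    have := S.R_pos
    omega
  unfold ce
  have h1 : 0 < Kf S.lv (S.PL r) (S.R - 1) ω ω2 := by
    unfold Kf
    rw [if_pos hrel]
    exact div_pos (hP.pos _) (cls_pos S.lv hP _ _)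
  have h2 := Finset.single_le_sum (s := (Finset.univ : Finset S.Om))
    (f := fun ω' => Kf S.lv (S.PL r) (S.R - 1) ω ω' * (if ω'.2 v = s then (1 : ℝ) else 0))
    (fun ω' _ => mul_nonneg (Kf_nonneg S.lv hP _ _ _) (by split_ifs <;> norm_num))
    (Finset.mem_univ ω2)
  have h3 : ω2.2 v = s := by simp [hω2]
  simp only [h3, if_true, mul_one] at h2
  exact lt_of_lt_of_le h1 h2

/-- all spin configurations with the labels of `ω` are in the `rel (R-1)` class of `ω`
(`lev n ≤ R-1`), and `PL` is strictly positive. -/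
theorem abs_mag_lt (r : S.Root) (v : Fin S.k) (ω : S.Om) : |S.mag r v ω| < 1 := by
  have h1 := S.ce_ind_pos r v ω true
  have h2 := S.ce_ind_pos r v ω false
  rw [S.ce_ind_eq] at h1 h2
  have e1 : spinVal true = 1 := by simp [spinVal]
  have e2 : spinVal false = -1 := by simp [spinVal]
  rw [e1] at h1
  rw [e2] at h2
  rw [abs_lt]
  constructor <;> linarith

theorem ce_ind (r : S.Root) (v : Fin S.k) (ω : S.Om) (s : Bool) :
    ce S.lv (S.PL r) (S.R - 1) (fun ω' => if ω'.2 v = s then 1 else 0) ω =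
      qt (msg (S.mag r v ω)) s := by
  rw [S.ce_ind_eq, tilt_msg (S.abs_mag_lt r v ω)]

/-- the last step of the recursion: `m_R = 1` (`T_step`, `Real.rpow_one`), expand
`V (fun i => (ω i).2 (v i)) = ∑ τ, V τ * ∏ i, (if (ω i).2 (v i) = τ i then 1 else 0)` and use
`ce_sum`, `ce_const_mul`, `ce_pi_prod`, `ce_ind`. -/
theorem T_pred {ι : Type} [Fintype ι] (V : (ι → Bool) → ℝ) (r : ι → S.Root)
    (v : ι → Fin S.k) (ω : ι → S.Om) :
    T (S.lv.pi ι) S.m (fun ω => ∏ i, S.PL (r i) (ω i)) (fun ω => V (fun i => (ω i).2 (v i)))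
      (S.R - 1) ω = ∑ τ : ι → Bool, V τ * ∏ i, qt (msg (S.mag (r i) (v i) (ω i))) (τ i) := by
  have hR := S.R_pos
  have hR1 : S.R - 1 < S.R := by omega
  have hR2 : S.R - 1 + 1 = S.R := by omega
  have hm : S.m S.R = 1 := S.expo.one
  rw [T_step _ hR1, hR2, T_R, hm]
  simp only [Real.rpow_one, div_one]
  have h1 : ∀ ω' : ι → S.Om, V (fun i => (ω' i).2 (v i)) =
      ∑ τ : ι → Bool, V τ * ∏ i, (if (ω' i).2 (v i) = τ i then (1 : ℝ) else 0) := by
    intro ω'
    rw [Finset.sum_eq_single (fun i => (ω' i).2 (v i))]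
    · simp
    · intro τ _ hτ
      have : ∃ i, (ω' i).2 (v i) ≠ τ i := by
        by_contra hcon
        push Not at hcon
        exact hτ (funext fun i => (hcon i).symm)
      obtain ⟨i, hi⟩ := this
      rw [Finset.prod_eq_zero (Finset.mem_univ i) (by rw [if_neg hi]), mul_zero]
    · intro h
      exact absurd (Finset.mem_univ _) h
  rw [ce_congr _ h1, ce_sum]
  refine Finset.sum_congr rfl fun τ _ => ?_
  rw [ce_const_mul, ce_pi_prod S.lv (fun i => S.PL_law (r i)) (S.R - 1)
    (fun i ω' => if ω'.2 (v i) = τ i then (1 : ℝ) else 0)]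
  congr 1
  exact Finset.prod_congr rfl fun i _ => S.ce_ind (r i) (v i) (ω i) (τ i)

end Sys

end Crest.SG
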