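import Crest.Agent.SG_CDefs
import Crest.Agent.SG_A8

/-! # SG_E5 : expansion in spin monomials (task SG-E5, medium)

`wc N B` = Walsh coefficient. `QS_term`: expand `∏_l N(σ^l_{v})` = `∑_B (∏_l wc N (B l)) ∏_i
∏_{l : i ∈ B l} σ^l_{v_i}` and average over the sites `v : ι → Fin k` (product over `i` of the
averages, `Finset.prod_univ_sum`): `∏_i RC {l | i ∈ B l}`. `QM_term`: the same with
`Et_pi_prod` and independent roots and sites. -/

set_option autoImplicit false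
set_option linter.unusedVariables false
noncomputable section
open scoped BigOperators
open Classical
open Crest.ProbabilityR.Diluted Crest.Agent.SGG
namespace Crest.SG

section walsh
variable {ι : Type} [Fintype ι]

/-- Walsh coefficient. -/
def wc (N : (ι → Bool) → ℝ) (B : Finset ι) : ℝ :=
  (1 / 2 : ℝ) ^ (Fintype.card ι) * ∑ τ : ι → Bool, N τ * ∏ i ∈ B, spinVal (τ i)

theorem E5_delta (τ τ' : ι → Bool) :
    ∑ B : Finset ι, (∏ i ∈ B, spinVal (τ' i)) * ∏ i ∈ B, spinVal (τ i) =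
      if τ' = τ then (2 : ℝ) ^ (Fintype.card ι) else 0 := by
  have h1 : ∑ B : Finset ι, (∏ i ∈ B, spinVal (τ' i)) * ∏ i ∈ B, spinVal (τ i) =
      ∏ i, (1 + spinVal (τ' i) * spinVal (τ i)) := by
    rw [Finset.prod_one_add, Finset.powerset_univ]
    exact Finset.sum_congr rfl fun B _ => Finset.prod_mul_distrib.symm
  rw [h1]
  split_ifs with h
  · subst h
    have h2 : ∀ i, 1 + spinVal (τ' i) * spinVal (τ' i) = 2 := by
      intro i
      cases τ' i <;> simp [spinVal] <;> norm_num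
    simp only [h2, Finset.prod_const, Finset.card_univ]
  · obtain ⟨i, hi⟩ : ∃ i, τ' i ≠ τ i := by
      by_contra hc
      push Not at hc
      exact h (funext hc)
    refine Finset.prod_eq_zero (Finset.mem_univ i) ?_
    revert hi
    cases τ' i <;> cases τ i <;> simp [spinVal]

theorem walsh (N : (ι → Bool) → ℝ) (τ : ι → Bool) :
    N τ = ∑ B : Finset ι, wc N B * ∏ i ∈ B, spinVal (τ i) := by
  unfold wc
  have h1 : ∀ B : Finset ι, (1 / 2 : ℝ) ^ (Fintype.card ι) *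
      (∑ τ' : ι → Bool, N τ' * ∏ i ∈ B, spinVal (τ' i)) * ∏ i ∈ B, spinVal (τ i) =
      (1 / 2 : ℝ) ^ (Fintype.card ι) * ∑ τ' : ι → Bool, N τ' *
        ((∏ i ∈ B, spinVal (τ' i)) * ∏ i ∈ B, spinVal (τ i)) := by
    intro B
    rw [mul_assoc, Finset.sum_mul]
    congr 1
    exact Finset.sum_congr rfl fun τ' _ => by ring
  rw [Finset.sum_congr rfl fun B _ => h1 B, ← Finset.mul_sum, Finset.sum_comm]
  have h2 : ∀ τ' : ι → Bool, ∑ B : Finset ι, N τ' *
      ((∏ i ∈ B, spinVal (τ' i)) * ∏ i ∈ B, spinVal (τ i)) =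
      if τ' = τ then N τ' * (2 : ℝ) ^ (Fintype.card ι) else 0 := by
    intro τ'
    rw [← Finset.mul_sum, E5_delta, mul_ite, mul_zero]
  rw [Finset.sum_congr rfl fun τ' _ => h2 τ', Finset.sum_ite_eq' Finset.univ τ,
    if_pos (Finset.mem_univ _), mul_left_comm, ← mul_pow]
  norm_num

/-- replicas whose monomial contains `i`. -/
def Cof {n : ℕ} (B : Fin (n + 1) → Finset ι) (i : ι) : Finset (Fin (n + 1)) :=
  Finset.univ.filter (fun l => i ∈ B l)

theorem prod_walsh (N : (ι → Bool) → ℝ) {n : ℕ} (τ : Fin (n + 1) → ι → Bool) :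
    ∏ l, N (τ l) = ∑ B : Fin (n + 1) → Finset ι, (∏ l, wc N (B l)) *
      ∏ i, ∏ l ∈ Cof B i, spinVal (τ l i) := by
  have h1 : ∏ l, N (τ l) = ∏ l, ∑ B : Finset ι, wc N B * ∏ i ∈ B, spinVal (τ l i) :=
    Finset.prod_congr rfl fun l _ => walsh N (τ l)
  rw [h1, Finset.prod_univ_sum, Fintype.piFinset_univ]
  refine Finset.sum_congr rfl fun B _ => ?_
  rw [Finset.prod_mul_distrib]
  congr 1
  refine Finset.prod_comm' fun l i => ?_
  simp [Cof]

end walsh

theorem E5_sum4 {A B C D : Type} [Fintype A] [Fintype B] [Fintype C] [Fintype D]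
    (F : A → B → C → D → ℝ) :
    ∑ a, ∑ b, ∑ c, ∑ d, F a b c d = ∑ d, ∑ c, ∑ a, ∑ b, F a b c d := by
  calc ∑ a, ∑ b, ∑ c, ∑ d, F a b c d = ∑ a, ∑ b, ∑ d, ∑ c, F a b c d :=
        Finset.sum_congr rfl fun a _ => Finset.sum_congr rfl fun b _ => Finset.sum_comm
    _ = ∑ a, ∑ d, ∑ b, ∑ c, F a b c d := Finset.sum_congr rfl fun a _ => Finset.sum_comm
    _ = ∑ d, ∑ a, ∑ b, ∑ c, F a b c d := Finset.sum_comm
    _ = ∑ d, ∑ a, ∑ c, ∑ b, F a b c d :=
        Finset.sum_congr rfl fun d _ => Finset.sum_congr rfl fun a _ => Finset.sum_comm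
    _ = _ := Finset.sum_congr rfl fun d _ => Finset.sum_comm

namespace Sys
variable (S : Sys)

theorem QS_term (ι : Type) [Fintype ι] (N : (ι → Bool) → ℝ) (n : ℕ) :
    ∑ r, S.prR r * ∑ v : ι → Fin S.k, (1 / (S.k : ℝ)) ^ (Fintype.card ι) *
      En S.lv S.m (S.PL r) n (fun _ ω => ∏ l, N (fun i => (ω l).2 (v i))) =
    ∑ B : Fin (n + 1) → Finset ι, (∏ l, wc N (B l)) *
      S.EE n (fun r _ ω => ∏ i, S.RC (Cof B i) r ω) := by
  unfold EE
  have h0 : ∀ B : Fin (n + 1) → Finset ι, (∏ l, wc N (B l)) *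
      ∑ r, S.prR r * En S.lv S.m (S.PL r) n (fun _ ω => ∏ i, S.RC (Cof B i) r ω) =
      ∑ r, S.prR r * ((∏ l, wc N (B l)) *
        En S.lv S.m (S.PL r) n (fun _ ω => ∏ i, S.RC (Cof B i) r ω)) := by
    intro B
    rw [Finset.mul_sum]
    exact Finset.sum_congr rfl fun r _ => by ring
  rw [Finset.sum_congr rfl fun B _ => h0 B, Finset.sum_comm]
  refine Finset.sum_congr rfl fun r _ => ?_
  rw [← Finset.mul_sum]
  -- expand the product of the `RC`
  have h1 : ∀ (B : Fin (n + 1) → Finset ι) (ω : Fin (n + 1) → S.Om), ∏ i, S.RC (Cof B i) r ω =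
      ∑ v : ι → Fin S.k, (1 / (S.k : ℝ)) ^ (Fintype.card ι) *
        ∏ i, ∏ l ∈ Cof B i, spinVal ((ω l).2 (v i)) := by
    intro B ω
    unfold RC
    rw [Finset.prod_mul_distrib, Finset.prod_const, Finset.card_univ, Finset.prod_univ_sum,
      Fintype.piFinset_univ, Finset.mul_sum]
  have h2 : ∀ B : Fin (n + 1) → Finset ι,
      En S.lv S.m (S.PL r) n (fun _ ω => ∏ i, S.RC (Cof B i) r ω) =
      ∑ v : ι → Fin S.k, (1 / (S.k : ℝ)) ^ (Fintype.card ι) *
        En S.lv S.m (S.PL r) n (fun _ ω => ∏ i, ∏ l ∈ Cof B i, spinVal ((ω l).2 (v i))) := by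
    intro B
    rw [En_congr S.lv (fun t ω => h1 B ω), En_sum]
    exact Finset.sum_congr rfl fun v _ => En_const_mul _ _ _
  have h3 : ∀ v : ι → Fin S.k,
      En S.lv S.m (S.PL r) n (fun _ ω => ∏ l, N (fun i => (ω l).2 (v i))) =
      ∑ B : Fin (n + 1) → Finset ι, (∏ l, wc N (B l)) *
        En S.lv S.m (S.PL r) n (fun _ ω => ∏ i, ∏ l ∈ Cof B i, spinVal ((ω l).2 (v i))) := by
    intro v
    rw [En_congr S.lv (fun t ω => prod_walsh N (fun l i => (ω l).2 (v i))), En_sum]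
    exact Finset.sum_congr rfl fun B _ => En_const_mul _ _ _
  simp only [h2, h3, Finset.mul_sum]
  rw [Finset.sum_comm]
  exact Finset.sum_congr rfl fun B _ => Finset.sum_congr rfl fun v _ => by ring

theorem QM_term (ι : Type) [Fintype ι] (N : (ι → Bool) → ℝ) (n : ℕ) :
    ∑ r : ι → S.Root, (∏ i, S.prR (r i)) * ∑ v : ι → Fin S.k,
      (1 / (S.k : ℝ)) ^ (Fintype.card ι) *
      En (S.lv.pi ι) S.m (fun ω => ∏ i, S.PL (r i) (ω i)) n
        (fun _ ω => ∏ l, N (fun i => (ω l i).2 (v i))) =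
    ∑ B : Fin (n + 1) → Finset ι, (∏ l, wc N (B l)) *
      ∑ t, wt S.m S.R n t * ∏ i, S.ER n t (S.RC (Cof B i)) := by
  -- one factor
  have h1 : ∀ (r : ι → S.Root) (v : ι → Fin S.k) (t : Tree S.R n),
      Et (S.lv.pi ι) (fun ω => ∏ i, S.PL (r i) (ω i)) n t
        (fun ω => ∏ l, N (fun i => (ω l i).2 (v i))) =
      ∑ B : Fin (n + 1) → Finset ι, (∏ l, wc N (B l)) *
        ∏ i, Et S.lv (S.PL (r i)) n t (fun ω => ∏ l ∈ Cof B i, spinVal ((ω l).2 (v i))) := by
    intro r v t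
    rw [Et_congr (S.lv.pi ι) t (fun ω => prod_walsh N (fun l i => (ω l i).2 (v i))), Et_sum]
    refine Finset.sum_congr rfl fun B _ => ?_
    rw [Et_const_mul, ← Et_pi_prod S.lv (fun i => S.PL_law (r i)) t
      (fun i ω => ∏ l ∈ Cof B i, spinVal ((ω l).2 (v i)))]
  have h2 : ∀ (B : Fin (n + 1) → Finset ι) (t : Tree S.R n) (i : ι),
      S.ER n t (S.RC (Cof B i)) = ∑ r : S.Root, ∑ v : Fin S.k, S.prR r * ((1 / (S.k : ℝ)) *
        Et S.lv (S.PL r) n t (fun ω => ∏ l ∈ Cof B i, spinVal ((ω l).2 v))) := by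
    intro B t i
    unfold ER RC
    refine Finset.sum_congr rfl fun r _ => ?_
    rw [Et_const_mul, Et_sum, Finset.mul_sum, Finset.mul_sum]
  have h3 : ∀ (B : Fin (n + 1) → Finset ι) (t : Tree S.R n),
      ∏ i, S.ER n t (S.RC (Cof B i)) = ∑ r : ι → S.Root, ∑ v : ι → Fin S.k,
        (∏ i, S.prR (r i)) * ((1 / (S.k : ℝ)) ^ (Fintype.card ι) *
          ∏ i, Et S.lv (S.PL (r i)) n t (fun ω => ∏ l ∈ Cof B i, spinVal ((ω l).2 (v i)))) := by
    intro B t
    rw [Finset.prod_congr rfl fun i _ => h2 B t i, Finset.prod_univ_sum, Fintype.piFinset_univ]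
    refine Finset.sum_congr rfl fun r _ => ?_
    rw [Finset.prod_univ_sum, Fintype.piFinset_univ]
    refine Finset.sum_congr rfl fun v _ => ?_
    rw [Finset.prod_mul_distrib, Finset.prod_mul_distrib, Finset.prod_const, Finset.card_univ]
  unfold En
  simp only [h1, h3, Finset.mul_sum]
  rw [E5_sum4]
  exact Finset.sum_congr rfl fun B _ => Finset.sum_congr rfl fun t _ =>
    Finset.sum_congr rfl fun r _ => Finset.sum_congr rfl fun v _ => by ring

end Sys

end Crest.SG
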