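import Crest.Agent.SG_P

/-! # SG_P3 : two-parameter interpolation and thinning (task SG-P3) -/

set_option autoImplicit false
noncomputable section
open scoped BigOperators
open Classical
open Crest.ProbabilityR.Diluted Crest.Agent.SGG
namespace Crest.SG

/-- two-parameter interpolation (used for the upper bound). -/
theorem poi_interp {a b c C : ℝ} (ha : 0 ≤ a) (hb : 0 ≤ b) (Φ : ℕ → ℕ → ℝ)
    (hg : ∀ M K, |Φ M K| ≤ C * ((M : ℝ) + K + 1))
    (hd : ∀ M K, a * (Φ (M + 1) K - Φ M K) - b * (Φ M (K + 1) - Φ M K) ≤ -c) :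
    Poi a (fun M => Φ M 0) + c ≤ Poi b (fun K => Φ 0 K) := by
  have hC : 0 ≤ C := by
    have := (abs_nonneg _).trans (hg 0 0)
    simpa using this
  have hL : ∀ M : ℕ, LinG (C * ((M : ℝ) + 1)) (Φ M) := by
    intro M K
    refine (hg M K).trans ?_
    have h1 : (0 : ℝ) ≤ M := Nat.cast_nonneg M
    have h2 : (0 : ℝ) ≤ K := Nat.cast_nonneg K
    rw [mul_assoc]
    apply mul_le_mul_of_nonneg_left _ hC
    nlinarith [mul_nonneg h1 h2]
  have hD : ∀ M : ℕ, LinG (3 * C * ((M : ℝ) + 1)) (fun K => Φ M (K + 1) - Φ M K) := by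
    intro M K
    have h1 := hg M (K + 1)
    have h2 := hg M K
    have h3 : (0 : ℝ) ≤ M := Nat.cast_nonneg M
    have h4 : (0 : ℝ) ≤ K := Nat.cast_nonneg K
    push_cast at h1
    calc |Φ M (K + 1) - Φ M K| ≤ |Φ M (K + 1)| + |Φ M K| := abs_sub _ _
      _ ≤ C * ((M : ℝ) + (K + 1) + 1) + C * ((M : ℝ) + K + 1) := add_le_add h1 h2
      _ = C * (2 * M + 2 * K + 3) := by ring
      _ ≤ C * (3 * (((M : ℝ) + 1) * ((K : ℝ) + 1))) := by
        apply mul_le_mul_of_nonneg_left _ hC
        nlinarith [mul_nonneg h3 h4]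
      _ = 3 * C * ((M : ℝ) + 1) * ((K : ℝ) + 1) := by ring
  -- inner averages
  obtain ⟨P, hP⟩ : ∃ P : ℕ → ℝ → ℝ, P = fun M t => Poi ((1 - t) * b) (Φ M) := ⟨_, rfl⟩
  obtain ⟨D, hDD⟩ : ∃ D : ℕ → ℝ → ℝ,
    D = fun M t => Poi ((1 - t) * b) (fun K => Φ M (K + 1) - Φ M K) := ⟨_, rfl⟩
  have hPd : ∀ M t, HasDerivAt (P M) (-b * D M t) t := by
    intro M t
    have h1 : HasDerivAt (fun s : ℝ => (1 - s) * b) (-b) t := by
      have := ((hasDerivAt_id t).const_sub 1).mul_const b
      simpa using this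
    have h2 := (hasDerivAt_Poi (hL M) ((1 - t) * b)).comp t h1
    rw [hP, hDD]
    refine h2.congr_deriv ?_
    ring
  have hPb : ∀ M : ℕ, ∀ t ∈ Set.Icc (0 : ℝ) 1, |P M t| ≤ C * ((M : ℝ) + 1) * (b + 1) := by
    intro M t ht
    rw [hP]
    have h0 : 0 ≤ (1 - t) * b := mul_nonneg (by linarith [ht.2]) hb
    refine (Poi_linG h0 (hL M)).trans ?_
    apply mul_le_mul_of_nonneg_left _ (by positivity)
    nlinarith [ht.1, ht.2]
  have hDb : ∀ M : ℕ, ∀ t ∈ Set.Icc (0 : ℝ) 1, |D M t| ≤ 3 * C * ((M : ℝ) + 1) * (b + 1) := by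
    intro M t ht
    rw [hDD]
    have h0 : 0 ≤ (1 - t) * b := mul_nonneg (by linarith [ht.2]) hb
    refine (Poi_linG h0 (hD M)).trans ?_
    apply mul_le_mul_of_nonneg_left _ (by positivity)
    nlinarith [ht.1, ht.2]
  -- the series
  obtain ⟨S, hS⟩ : ∃ S : ℝ → ℝ,
    S = fun t => ∑' M : ℕ, (t * a) ^ M / (M.factorial : ℝ) * P M t := ⟨_, rfl⟩
  have hpow : ∀ t ∈ Set.Icc (0 : ℝ) 1, ∀ M : ℕ, |(t * a) ^ M| ≤ a ^ M := by
    intro t ht M
    rw [abs_pow, abs_of_nonneg (mul_nonneg ht.1 ha)]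
    exact pow_le_pow_left₀ (mul_nonneg ht.1 ha) (by nlinarith [ht.1, ht.2]) M
  have hu1 : Summable (fun M : ℕ => a ^ M / (M.factorial : ℝ) * (C * ((M : ℝ) + 1) * (b + 1))) := by
    refine (sgp_summable_pow_lin a (C * (b + 1)) (C * (b + 1)) ha).congr fun M => ?_
    ring
  have hu2 : Summable (fun M : ℕ =>
      a ^ M / (M.factorial : ℝ) * (b * (3 * C * ((M : ℝ) + 1) * (b + 1)))) := by
    refine (sgp_summable_pow_lin a (b * (3 * C) * (b + 1)) (b * (3 * C) * (b + 1)) ha).congr
      fun M => ?_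
    ring
  have hu3 : Summable (fun M : ℕ =>
      (M : ℝ) * a ^ (M - 1) * a / (M.factorial : ℝ) * (C * ((M : ℝ) + 1) * (b + 1))) := by
    rw [← summable_nat_add_iff 1]
    refine (sgp_summable_pow_lin a (a * (C * (b + 1)) * 2) (a * (C * (b + 1))) ha).congr fun n => ?_
    have h1 : ((n.factorial : ℕ) : ℝ) ≠ 0 := by positivity
    rw [Nat.factorial_succ, Nat.add_sub_cancel]
    push_cast
    have h2 : (n : ℝ) + 1 ≠ 0 := by positivity
    field_simp
    ring
  have hfac : ∀ M : ℕ, (0 : ℝ) < (M.factorial : ℝ) := fun M => by positivity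
  have hbd1 : ∀ M : ℕ, ∀ t ∈ Set.Icc (0 : ℝ) 1, ‖(t * a) ^ M / (M.factorial : ℝ) * P M t‖ ≤
      a ^ M / (M.factorial : ℝ) * (C * ((M : ℝ) + 1) * (b + 1)) := by
    intro M t ht
    rw [Real.norm_eq_abs, abs_mul, abs_div, Nat.abs_cast]
    have h1 := hpow t ht M
    have h2 := hPb M t ht
    have h3 := hfac M
    exact mul_le_mul (div_le_div_of_nonneg_right h1 h3.le) h2 (abs_nonneg _) (by positivity)
  have hcont : ContinuousOn S (Set.Icc 0 1) := by
    rw [hS]
    refine continuousOn_tsum (fun M => ?_) hu1 hbd1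
    have hc : Continuous (P M) := continuous_iff_continuousAt.mpr
      fun t => (hPd M t).continuousAt
    fun_prop
  have hSd : ∀ t ∈ Set.Ioo (0 : ℝ) 1, HasDerivAt S
      (∑' M : ℕ, ((M : ℝ) * (t * a) ^ (M - 1) * a / (M.factorial : ℝ) * P M t +
        (t * a) ^ M / (M.factorial : ℝ) * (-b * D M t))) t := by
    intro t ht
    rw [hS]
    refine hasDerivAt_tsum_of_isPreconnected (t := Set.Ioo (0 : ℝ) 1)
      (g := fun (M : ℕ) t => (t * a) ^ M / (M.factorial : ℝ) * P M t)
      (g' := fun (M : ℕ) t => ((M : ℝ) * (t * a) ^ (M - 1) * a / (M.factorial : ℝ) * P M t +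
        (t * a) ^ M / (M.factorial : ℝ) * (-b * D M t)))
      (y₀ := t) (y := t) (hu3.add hu2) isOpen_Ioo isPreconnected_Ioo ?_ ?_ ht ?_ ht
    · intro M s _
      have h1 : HasDerivAt (fun s : ℝ => (s * a) ^ M / (M.factorial : ℝ))
          ((M : ℝ) * (s * a) ^ (M - 1) * a / (M.factorial : ℝ)) s := by
        have := (((hasDerivAt_id s).mul_const a).pow M).div_const (M.factorial : ℝ)
        simpa using this
      exact h1.mul (hPd M s)
    · intro M s hs
      have hs' : s ∈ Set.Icc (0 : ℝ) 1 := ⟨hs.1.le, hs.2.le⟩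
      refine (norm_add_le _ _).trans (add_le_add ?_ ?_)
      · rw [Real.norm_eq_abs, abs_mul, abs_div, abs_mul, abs_mul, Nat.abs_cast, Nat.abs_cast,
          abs_of_nonneg ha]
        have h1 := hpow s hs' (M - 1)
        have h2 := hPb M s hs'
        have h3 := hfac M
        refine mul_le_mul (div_le_div_of_nonneg_right ?_ h3.le) h2 (abs_nonneg _) (by positivity)
        exact mul_le_mul_of_nonneg_right (mul_le_mul_of_nonneg_left h1 (Nat.cast_nonneg M)) ha
      · rw [Real.norm_eq_abs, abs_mul, abs_div, abs_mul, abs_neg, abs_of_nonneg hb, Nat.abs_cast]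
        have h1 := hpow s hs' M
        have h2 := hDb M s hs'
        have h3 := hfac M
        refine mul_le_mul (div_le_div_of_nonneg_right h1 h3.le)
          (mul_le_mul_of_nonneg_left h2 hb) (by positivity) (by positivity)
    · exact Summable.of_norm_bounded hu1 fun M => hbd1 M t ⟨ht.1.le, ht.2.le⟩
  -- the interpolation
  obtain ⟨F, hF⟩ : ∃ F : ℝ → ℝ, F = fun t => Real.exp (-(t * a)) * S t := ⟨_, rfl⟩
  have hFP : ∀ t, F t = Poi (t * a) (fun M => P M t) := by
    intro t
    rw [hF, sgp_Poi_eq_series]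
    simp only [hS]
  have hFcont : ContinuousOn F (Set.Icc 0 1) := by
    rw [hF]
    exact (by fun_prop : Continuous fun t : ℝ => Real.exp (-(t * a))).continuousOn.mul hcont
  have hLP : ∀ t ∈ Set.Icc (0 : ℝ) 1, LinG (C * (b + 1)) (fun M => P M t) := by
    intro t ht M
    refine (hPb M t ht).trans (le_of_eq ?_)
    ring
  have hLD : ∀ t ∈ Set.Icc (0 : ℝ) 1, LinG (3 * C * (b + 1)) (fun M => D M t) := by
    intro t ht M
    refine (hDb M t ht).trans (le_of_eq ?_)
    ring
  have hFd : ∀ t ∈ Set.Ioo (0 : ℝ) 1, ∃ F' : ℝ, HasDerivAt F F' t ∧ F' ≤ -c := by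
    intro t ht
    have ht' : t ∈ Set.Icc (0 : ℝ) 1 := ⟨ht.1.le, ht.2.le⟩
    have hta : 0 ≤ t * a := mul_nonneg ht.1.le ha
    have htb : 0 ≤ (1 - t) * b := mul_nonneg (by linarith [ht.2]) hb
    have hE : HasDerivAt (fun s : ℝ => Real.exp (-(s * a))) (Real.exp (-(t * a)) * (-a)) t := by
      have := (((hasDerivAt_id t).mul_const a).neg).exp
      simpa using this
    have hFd0 := hE.mul (hSd t ht)
    refine ⟨_, by rw [hF]; exact hFd0, ?_⟩
    -- split the series
    have s1 : Summable (fun M : ℕ => (t * a) ^ M / (M.factorial : ℝ) * P (M + 1) t) :=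
      sgp_summable_pow_mul (hLP t ht').sgp_succ (t * a)
    have s2 : Summable (fun M : ℕ => (t * a) ^ M / (M.factorial : ℝ) * P M t) :=
      sgp_summable_pow_mul (hLP t ht') (t * a)
    have s3 : Summable (fun M : ℕ => (t * a) ^ M / (M.factorial : ℝ) * D M t) :=
      sgp_summable_pow_mul (hLD t ht') (t * a)
    have hshift : ∀ n : ℕ, ((n + 1 : ℕ) : ℝ) * (t * a) ^ (n + 1 - 1) * a /
        ((n + 1).factorial : ℝ) * P (n + 1) t = a * ((t * a) ^ n / (n.factorial : ℝ) * P (n + 1) t) := by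
      intro n
      have h1 : ((n.factorial : ℕ) : ℝ) ≠ 0 := by positivity
      rw [Nat.factorial_succ, Nat.add_sub_cancel]
      push_cast
      have h2 : (n : ℝ) + 1 ≠ 0 := by positivity
      field_simp
    have s4 : Summable (fun M : ℕ => (M : ℝ) * (t * a) ^ (M - 1) * a / (M.factorial : ℝ) * P M t) := by
      rw [← summable_nat_add_iff 1]
      refine (s1.mul_left a).congr fun n => ?_
      exact (hshift n).symm
    have e1 : ∑' M : ℕ, ((M : ℝ) * (t * a) ^ (M - 1) * a / (M.factorial : ℝ) * P M t +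
        (t * a) ^ M / (M.factorial : ℝ) * (-b * D M t)) =
        a * ∑' M : ℕ, (t * a) ^ M / (M.factorial : ℝ) * P (M + 1) t -
        b * ∑' M : ℕ, (t * a) ^ M / (M.factorial : ℝ) * D M t := by
      have s5 : Summable (fun M : ℕ => (t * a) ^ M / (M.factorial : ℝ) * (-b * D M t)) := by
        refine (s3.mul_left (-b)).congr fun n => ?_
        ring
      rw [s4.tsum_add s5, s4.tsum_eq_zero_add, ← tsum_mul_left, ← tsum_mul_left, sub_eq_add_neg,
        ← tsum_neg]
      congr 1
      · rw [tsum_congr hshift]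
        simp
      · refine tsum_congr fun n => ?_
        ring
    have e2 : Real.exp (-(t * a)) * (-a) * S t + Real.exp (-(t * a)) *
        (∑' M : ℕ, ((M : ℝ) * (t * a) ^ (M - 1) * a / (M.factorial : ℝ) * P M t +
        (t * a) ^ M / (M.factorial : ℝ) * (-b * D M t))) =
        Poi (t * a) (fun M => a * (P (M + 1) t - P M t) - b * D M t) := by
      rw [e1, sgp_Poi_eq_series]
      have e3 : ∑' M : ℕ, (t * a) ^ M / (M.factorial : ℝ) * (a * (P (M + 1) t - P M t) - b * D M t) =
          a * ∑' M : ℕ, (t * a) ^ M / (M.factorial : ℝ) * P (M + 1) t -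
          a * ∑' M : ℕ, (t * a) ^ M / (M.factorial : ℝ) * P M t -
          b * ∑' M : ℕ, (t * a) ^ M / (M.factorial : ℝ) * D M t := by
        rw [← tsum_mul_left, ← tsum_mul_left, ← tsum_mul_left,
          ← (s1.mul_left a).tsum_sub (s2.mul_left a),
          ← ((s1.mul_left a).sub (s2.mul_left a)).tsum_sub (s3.mul_left b)]
        refine tsum_congr fun n => ?_
        ring
      rw [e3, hS]
      ring
    rw [e2]
    have hin : ∀ M : ℕ, a * (P (M + 1) t - P M t) - b * D M t ≤ -c := by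
      intro M
      have l1 : LinG (a * (C * (((M + 1 : ℕ) : ℝ) + 1))) (fun K => a * Φ (M + 1) K) := by
        intro K
        rw [abs_mul, abs_of_nonneg ha, mul_assoc]
        exact mul_le_mul_of_nonneg_left (hL (M + 1) K) ha
      have l2 : LinG (a * (C * ((M : ℝ) + 1))) (fun K => a * Φ M K) := by
        intro K
        rw [abs_mul, abs_of_nonneg ha, mul_assoc]
        exact mul_le_mul_of_nonneg_left (hL M K) ha
      have l3 : LinG (b * (3 * C * ((M : ℝ) + 1))) (fun K => b * (Φ M (K + 1) - Φ M K)) := by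
        intro K
        rw [abs_mul, abs_of_nonneg hb, mul_assoc]
        exact mul_le_mul_of_nonneg_left (hD M K) hb
      have l4 : ∀ {C1 C2 : ℝ} {f g : ℕ → ℝ}, LinG C1 f → LinG C2 g →
          LinG (C1 + C2) (fun K => f K - g K) := by
        intro C1 C2 f g h1 h2 K
        refine (abs_sub _ _).trans ?_
        have := add_le_add (h1 K) (h2 K)
        linarith
      have l5 : LinG |c| (fun _ => -c) := by
        intro K
        rw [abs_neg]
        have : (0 : ℝ) ≤ K := Nat.cast_nonneg K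
        nlinarith [abs_nonneg c]
      have h1 := Poi_mono htb (l4 (l4 l1 l2) l3) l5 (fun K => by
        have := hd M K
        linarith)
      rw [Poi_const htb, Poi_sub htb (l4 l1 l2) l3, Poi_sub htb l1 l2, Poi_const_mul,
        Poi_const_mul, Poi_const_mul] at h1
      rw [hP, hDD]
      simp only
      linarith
    have l6 : LinG |c| (fun _ : ℕ => -c) := by
      intro K
      rw [abs_neg]
      have : (0 : ℝ) ≤ K := Nat.cast_nonneg K
      nlinarith [abs_nonneg c]
    have l7 : LinG (a * (2 * (C * (b + 1)) + C * (b + 1)) + b * (3 * C * (b + 1)))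
        (fun M => a * (P (M + 1) t - P M t) - b * D M t) := by
      intro M
      have h1 := (hLP t ht').sgp_succ M
      have h2 := hLP t ht' M
      have h3 := hLD t ht' M
      simp only at h1 h2 h3
      have h4 : |P (M + 1) t - P M t| ≤ (2 * (C * (b + 1)) + C * (b + 1)) * ((M : ℝ) + 1) := by
        refine (abs_sub _ _).trans ?_
        linarith
      calc |a * (P (M + 1) t - P M t) - b * D M t|
          ≤ |a * (P (M + 1) t - P M t)| + |b * D M t| := abs_sub _ _
        _ = a * |P (M + 1) t - P M t| + b * |D M t| := by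
            rw [abs_mul, abs_mul, abs_of_nonneg ha, abs_of_nonneg hb]
        _ ≤ a * ((2 * (C * (b + 1)) + C * (b + 1)) * ((M : ℝ) + 1)) +
            b * (3 * C * (b + 1) * ((M : ℝ) + 1)) :=
            add_le_add (mul_le_mul_of_nonneg_left h4 ha) (mul_le_mul_of_nonneg_left h3 hb)
        _ = _ := by ring
    have h1 := Poi_mono hta l7 l6 hin
    rwa [Poi_const hta] at h1
  have hfin := Convex.image_sub_le_mul_sub_of_deriv_le (convex_Icc (0 : ℝ) 1) hFcont
    (by
      rw [interior_Icc]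
      intro t ht
      obtain ⟨F', h1, _⟩ := hFd t ht
      exact h1.differentiableAt.differentiableWithinAt)
    (C := -c)
    (by
      rw [interior_Icc]
      intro t ht
      obtain ⟨F', h1, h2⟩ := hFd t ht
      rw [h1.deriv]
      exact h2) 0 (by simp) 1 (by simp) zero_le_one
  have hF1 : F 1 = Poi a (fun M => Φ M 0) := by
    rw [hFP, one_mul, hP]
    congr 1
    funext M
    simp only
    rw [sub_self, zero_mul, Poi_zero]
  have hF0 : F 0 = Poi b (fun K => Φ 0 K) := by
    rw [hFP, zero_mul, Poi_zero, hP]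
    simp only
    rw [sub_zero, one_mul]
  rw [hF1, hF0] at hfin
  linarith

private theorem cnt_cons {N K : ℕ} (j x : Fin N) (w : Fin K → Fin N) :
    Fintype.card {i : Fin (K + 1) // (Fin.cons x w : Fin (K + 1) → Fin N) i = j} =
      (if x = j then 1 else 0) + Fintype.card {i : Fin K // w i = j} := by
  rw [Fintype.card_subtype, Fintype.card_subtype, Finset.card_filter, Finset.card_filter,
    Fin.sum_univ_succ]
  simp

/-- the average over the sites -/
private def thinA (N : ℕ) (j : Fin N) (g : ℕ → ℝ) (K : ℕ) : ℝ :=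
  ((N : ℝ) ^ K)⁻¹ * ∑ v : Fin K → Fin N, g (Fintype.card {i : Fin K // v i = j})

private theorem thinA_zero {N : ℕ} (j : Fin N) (g : ℕ → ℝ) : thinA N j g 0 = g 0 := by
  unfold thinA
  simp

private theorem thinA_succ {N : ℕ} (hN : 1 ≤ N) (j : Fin N) (g : ℕ → ℝ) (K : ℕ) :
    thinA N j g (K + 1) = (1 / (N : ℝ)) * thinA N j (fun n => g (n + 1)) K +
      (1 - 1 / (N : ℝ)) * thinA N j g K := by
  have hN0 : (N : ℝ) ≠ 0 := by
    have : 0 < N := hN
    positivity
  have h1 : ∑ v : Fin (K + 1) → Fin N, g (Fintype.card {i : Fin (K + 1) // v i = j}) =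
      ∑ w : Fin K → Fin N, ∑ x : Fin N,
        g ((if x = j then 1 else 0) + Fintype.card {i : Fin K // w i = j}) := by
    rw [← (Fin.consEquiv (fun _ : Fin (K + 1) => Fin N)).sum_comp, Fintype.sum_prod_type,
      Finset.sum_comm]
    refine Finset.sum_congr rfl fun w _ => Finset.sum_congr rfl fun x _ => ?_
    rw [← cnt_cons]
    rfl
  have h2 : ∀ c : ℕ, ∑ x : Fin N, g ((if x = j then 1 else 0) + c) =
      g (c + 1) + ((N : ℝ) - 1) * g c := by
    intro c
    have h3 : ∀ x : Fin N, g ((if x = j then 1 else 0) + c) =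
        g c + if x = j then (g (c + 1) - g c) else 0 := by
      intro x
      split_ifs
      · rw [add_comm 1 c]; ring
      · rw [zero_add, add_zero]
    simp only [h3]
    rw [Finset.sum_add_distrib, Finset.sum_ite_eq' Finset.univ j]
    simp
    ring
  unfold thinA
  rw [h1]
  simp only [h2]
  rw [Finset.sum_add_distrib, ← Finset.mul_sum, pow_succ]
  field_simp

private theorem thinA_eq {N : ℕ} (hN : 1 ≤ N) (j : Fin N) (K : ℕ) : ∀ g : ℕ → ℝ,
    thinA N j g K = ∑ ij ∈ Finset.HasAntidiagonal.antidiagonal K, (K.choose ij.1 : ℝ) *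
      ((1 / (N : ℝ)) ^ ij.1 * (1 - 1 / (N : ℝ)) ^ ij.2 * g ij.1) := by
  induction K with
  | zero => intro g; simp [thinA_zero]
  | succ K ih =>
    intro g
    have h := Finset.sum_antidiagonal_choose_succ_mul (R := ℝ)
      (fun m n => (1 / (N : ℝ)) ^ m * (1 - 1 / (N : ℝ)) ^ n * g m) K
    rw [h, thinA_succ hN, ih, ih, Finset.mul_sum, Finset.mul_sum, add_comm]
    congr 1
    · refine Finset.sum_congr rfl fun ij _ => ?_
      ring
    · refine Finset.sum_congr rfl fun ij hij => ?_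
      rw [Finset.HasAntidiagonal.mem_antidiagonal] at hij
      have h2 : K.choose ij.2 = K.choose ij.1 := by
        rw [← hij]
        exact (Nat.choose_symm_add).symm
      rw [h2]
      ring

/-- marginal thinning: with a Poisson(`lam N`) number of uniform sites, the number at a given
site is Poisson(`lam`). -/
theorem poi_thin {N : ℕ} (hN : 1 ≤ N) (j : Fin N) {lam : ℝ} (hlam : 0 ≤ lam) {g : ℕ → ℝ} {C : ℝ}
    (hg : LinG C g) :
    Poi (lam * N) (fun K => ((N : ℝ) ^ K)⁻¹ *
      ∑ v : Fin K → Fin N, g (Fintype.card {i : Fin K // v i = j})) = Poi lam g := by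
  have hN0 : (N : ℝ) ≠ 0 := by
    have : 0 < N := hN
    positivity
  have h1 : (fun K : ℕ => ((N : ℝ) ^ K)⁻¹ *
      ∑ v : Fin K → Fin N, g (Fintype.card {i : Fin K // v i = j})) = fun K => thinA N j g K := rfl
  rw [h1, sgp_Poi_eq_series, sgp_Poi_eq_series]
  have sf : Summable (fun n : ℕ => ‖lam ^ n / (n.factorial : ℝ) * g n‖) :=
    (sgp_summable_pow_mul hg lam).norm
  have sg : Summable (fun n : ℕ => ‖(lam * ((N : ℝ) - 1)) ^ n / (n.factorial : ℝ)‖) := by
    have := Real.summable_pow_div_factorial (lam * ((N : ℝ) - 1))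
    exact this.norm
  have hc := tsum_mul_tsum_eq_tsum_sum_antidiagonal_of_summable_norm sf sg
  have h2 : ∀ K : ℕ, (lam * N) ^ K / (K.factorial : ℝ) * thinA N j g K =
      ∑ kl ∈ Finset.HasAntidiagonal.antidiagonal K, lam ^ kl.1 / (kl.1.factorial : ℝ) * g kl.1 *
        ((lam * ((N : ℝ) - 1)) ^ kl.2 / (kl.2.factorial : ℝ)) := by
    intro K
    rw [thinA_eq hN, Finset.mul_sum]
    refine Finset.sum_congr rfl fun ij hij => ?_
    rw [Finset.HasAntidiagonal.mem_antidiagonal] at hij
    obtain ⟨m, n⟩ := ij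
    simp only at hij ⊢
    have h3 : ((K.choose m : ℕ) : ℝ) * (m.factorial : ℝ) * (n.factorial : ℝ) =
        (K.factorial : ℝ) := by
      rw [← hij, Nat.choose_symm_add]
      exact_mod_cast Nat.add_choose_mul_factorial_mul_factorial m n
    have hK : (K.factorial : ℝ) ≠ 0 := by positivity
    have hm : (m.factorial : ℝ) ≠ 0 := by positivity
    have hn : (n.factorial : ℝ) ≠ 0 := by positivity
    have h4 : ((K.choose m : ℕ) : ℝ) = (K.factorial : ℝ) / ((m.factorial : ℝ) * (n.factorial : ℝ)) := by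
      rw [eq_div_iff (by positivity), ← h3]; ring
    have h5 : (1 - 1 / (N : ℝ)) = ((N : ℝ) - 1) / N := by field_simp
    rw [h4, h5, ← hij, mul_pow, pow_add, pow_add, div_pow, div_pow, mul_pow, one_pow]
    field_simp
  have h6 : ∑' n : ℕ, (lam * ((N : ℝ) - 1)) ^ n / (n.factorial : ℝ) =
      Real.exp (lam * ((N : ℝ) - 1)) := by
    rw [Real.exp_eq_exp_ℝ, NormedSpace.exp_eq_tsum_div]
  rw [tsum_congr h2, ← hc, h6]
  have h7 : Real.exp (-(lam * N)) * ((∑' n : ℕ, lam ^ n / (n.factorial : ℝ) * g n) *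
      Real.exp (lam * ((N : ℝ) - 1))) = (Real.exp (-(lam * N)) * Real.exp (lam * ((N : ℝ) - 1))) *
        ∑' n : ℕ, lam ^ n / (n.factorial : ℝ) * g n := by ring
  rw [h7, ← Real.exp_add]
  congr 2
  ring

end Crest.SG
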