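import Crest.Agent.SG_Defs
import Crest.Agent.SG_A1
import Crest.Agent.SG_A2
import Crest.Agent.SG_A3
import Crest.Agent.SG_A5
import Crest.Agent.SG_A7
import Crest.Agent.SG_A8
import Crest.Agent.SG_P3

/-! # SG_F0 : definitions for the upper bound (part F of S0192)

* one label: path space `Fin r → Fin nS` (levels `1 … r`), leveled structure `labLev`, law `lawP`
  given the level-0 state `v`;
* `topLev` : spins are revealed at the last level `R = r + 1`;
* `Wsys`, `Phi` : the interpolating system with `M` edges and `K` trial fields on `N` spins. -/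

set_option autoImplicit false
set_option linter.unusedVariables false
noncomputable section
open scoped BigOperators
open Classical
open Crest.ProbabilityR.Diluted Crest.Agent.SGG
namespace Crest.SG

/-- exponents `0, m_1, …, m_r, 1` on the levels `0 … r+1`. -/
def mmF {r : ℕ} (m : Fin r → ℝ) (j : ℕ) : ℝ :=
  if j = 0 then 0 else if h : j - 1 < r then m ⟨j - 1, h⟩ else 1

theorem mmF_zero {r : ℕ} (m : Fin r → ℝ) : mmF m 0 = 0 := by simp [mmF]

theorem mmF_succ {r : ℕ} (m : Fin r → ℝ) {j : ℕ} (h : j < r) : mmF m (j + 1) = m ⟨j, h⟩ := by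
  simp [mmF, h]

theorem mmF_last {r : ℕ} (m : Fin r → ℝ) : mmF m (r + 1) = 1 := by
  simp [mmF]

theorem expo_mmF {r : ℕ} {m : Fin r → ℝ} (hm : AdmissibleExponents m) : Expo (r + 1) (mmF m) where
  zero := mmF_zero m
  one := mmF_last m
  lt := by
    intro j hj
    rcases Nat.lt_or_ge j r with h | h
    · rw [mmF_succ m h]
      rcases j with _ | j
      · rw [mmF_zero]; exact (hm.2 _).1
      · rw [mmF_succ m (by omega)]
        exact hm.1 (by simp [Fin.lt_def])
    · have hjr : j = r := by omega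
      subst hjr
      rw [mmF_last]
      rcases j with _ | j
      · rw [mmF_zero]; norm_num
      · rw [mmF_succ m (by omega)]
        exact (hm.2 _).2

/-- the leveled space of the paths (levels `1 … r`) of one label. -/
def labLev (r nS : ℕ) : Lev (r + 1) (Fin r → Fin nS) where
  rel j x y := ∀ i : Fin r, (i : ℕ) < j → x i = y i
  refl j x i _ := rfl
  symm j x y h i hi := (h i hi).symm
  trans j x y z h h' i hi := (h i hi).trans (h' i hi)
  zero x y i hi := absurd hi (Nat.not_lt_zero _)
  mono j x y h i hi := h i (Nat.lt_succ_of_lt hi)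
  top x y h := funext fun i => h i (Nat.lt_succ_of_lt i.2)

/-- everything is revealed at the last level `r + 1` only (used for the spins). -/
def topLev (r : ℕ) (B : Type) : Lev (r + 1) B where
  rel j x y := j ≤ r ∨ x = y
  refl j x := Or.inr rfl
  symm j x y h := h.imp id Eq.symm
  trans j x y z h h' := by
    rcases h with h | h
    · exact Or.inl h
    · rw [h]; exact h'
  zero x y := Or.inl (Nat.zero_le _)
  mono j x y h := h.imp (fun h => by omega) id
  top x y h := h.resolve_left (by omega)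

/-- history of a label before level `i + 1` (most recent state first). -/
def hst {r nS : ℕ} (v : Fin nS) (x : Fin r → Fin nS) : ℕ → List (Fin nS)
  | 0 => [v]
  | (i + 1) => if h : i < r then x ⟨i, h⟩ :: hst v x i else hst v x i

theorem hst_zero {r nS : ℕ} (v : Fin nS) (x : Fin r → Fin nS) : hst v x 0 = [v] := rfl

theorem hst_succ {r nS : ℕ} (v : Fin nS) (x : Fin r → Fin nS) {i : ℕ} (h : i < r) :
    hst v x (i + 1) = x ⟨i, h⟩ :: hst v x i := by
  rw [hst, dif_pos h]

/-- path law of a label given its level-0 state `v`. -/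
def lawP {r nS : ℕ} (κ : List (Fin nS) → Fin nS → ℝ) (v : Fin nS) (x : Fin r → Fin nS) : ℝ :=
  ∏ i : Fin r, κ (hst v x i) (x i)

/-- product law of the paths of the labels `L`. -/
def lawL {L : Type} [Fintype L] {r nS : ℕ} (κ : List (Fin nS) → Fin nS → ℝ) (v : L → Fin nS)
    (x : L → Fin r → Fin nS) : ℝ :=
  ∏ l, lawP κ (v l) (x l)

/-! ### factors -/

section factors
variable {p : ℕ} (C : Core p)

/-- average of `f` under the one-spin law of message `x`. -/
def fbar (i : Fin C.nF) (x : ℝ) : ℝ := ∑ s : Bool, C.f i s * Crest.ProbabilityR.Diluted.tilt x s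

/-- edge types: interaction type and index tuple. -/
abbrev E1 (C : Core p) (N : ℕ) : Type := C.E × (Fin p → Fin N)

/-- field types: interaction type and site. -/
abbrev E2 (C : Core p) (N : ℕ) : Type := C.E × Fin N

def w1 {N : ℕ} (a : E1 C N) : ℝ := C.wE a.1 * ((N : ℝ) ^ p)⁻¹

def w2 {N : ℕ} (a : E2 C N) : ℝ := C.wE a.1 * (N : ℝ)⁻¹

/-- `b ∏ f_l(s_l)`. -/
def gE (e : C.E) (s : Fin p → Bool) : ℝ := C.b e.1 * ∏ l, C.f (e.2 l) (s l)

/-- `b f_p(ε) ∏_{l<p} f̄_l(x_l)` (the last coordinate carries the spin `ε`). -/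
def gF (e : C.E) (ε : Bool) (x : Fin (p - 1) → ℝ) : ℝ :=
  C.b e.1 * ∏ l : Fin p,
    (if h : l.val < p - 1 then fbar C (e.2 l) (x ⟨l.val, h⟩) else C.f (e.2 l) ε)

/-- `b ∏ f̄_l(x_l)`. -/
def gM (e : C.E) (x : Fin p → ℝ) : ℝ := C.b e.1 * ∏ l, fbar C (e.2 l) (x l)

/-- the Boltzmann factor of the interpolating system. -/
def Wsys {N M K : ℕ} (a : Fin M → E1 C N) (b : Fin K → E2 C N) (y : Fin N → Fin C.nH)
    (xs : Fin K → Fin (p - 1) → ℝ) (σ : Fin N → Bool) : ℝ :=
  (∏ k, (1 + gE C (a k).1 (fun l => σ ((a k).2 l)))) *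
    (∏ k, (1 + gF C (b k).1 (σ (b k).2) (xs k))) *
      ∏ i, Real.exp (C.h (y i) * spinVal (σ i))

/-- the interpolating function `Φ(M,K)`. -/
def Phi (t : Trial) (N M K : ℕ) : ℝ :=
  ∑ a : Fin M → E1 C N, (∏ k, w1 C (a k)) *
    ∑ b : Fin K → E2 C N, (∏ k, w2 C (b k)) *
      ∑ y : Fin N → Fin C.nH, (∏ i, C.wH (y i)) *
        t.logT0 (L := Fin K × Fin (p - 1)) (fun H =>
          ∑ σ : Fin N → Bool, unif (Fin N → Bool) σ *
            Wsys C a b y (fun k l => t.X (H (k, l))) σ)

/-- the edge part of the functional. -/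
def eM (t : Trial) : ℝ :=
  ∑ e : C.E, C.wE e * t.logT0 (L := Fin p) (fun H => edgeTerm (C.theta e) (fun l => t.X (H l)))

/-- the site part of the functional for `k` fields. -/
def gS (t : Trial) (k : ℕ) : ℝ :=
  ∑ e : Fin k → C.E, (∏ j, C.wE (e j)) * ∑ y : Fin C.nH, C.wH y *
    t.logT0 (L := Fin k × Fin (p - 1))
      (fun H => siteTerm (C.h y) (fun j => C.theta (e j)) (fun j l => t.X (H (j, l))))

theorem functional_eq (α : ℝ) (t : Trial) :
    C.functional α t = Real.log 2 + Poi (α * p) (gS C t) - α * (p - 1 : ℝ) * eM C t := rfl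

end factors

end Crest.SG
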