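import Crest.Agent.SG_F0

/-! # SG_F1 : the path space of the labels (part F of S0192)

Hints: `cls (labLev r nS) (lawP κ v) j x = ∏_{i<j} κ (hst v x i) (x i)` for `j ≤ r` (downward
induction on `j`; for `j = r` the class is a singleton; the class of `x` at level `j` is the
disjoint union over `u` of the classes of `Function.update x ⟨j,_⟩ u` at level `j+1`, and
`hst v x i` only depends on `x 0, …, x (i-1)`).  For `j = 0` this gives the total mass 1. -/

set_option autoImplicit false
set_option linter.unusedVariables false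
noncomputable section
open scoped BigOperators
open Classical
open Crest.ProbabilityR.Diluted Crest.Agent.SGG
namespace Crest.SG

/-- `hst v x i` depends only on the coordinates `< i`. -/
theorem hst_congr {r nS : ℕ} (v : Fin nS) {x y : Fin r → Fin nS} {i : ℕ}
    (h : ∀ k : Fin r, (k : ℕ) < i → x k = y k) : hst v x i = hst v y i := by
  induction i with
  | zero => rfl
  | succ i ih =>
    have ih' := ih (fun k hk => h k (Nat.lt_succ_of_lt hk))
    by_cases hi : i < r
    · rw [hst_succ v x hi, hst_succ v y hi, ih', h ⟨i, hi⟩ (Nat.lt_succ_self i)]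
    · simp only [hst, dif_neg hi]
      exact ih'

private def F1_pr {r nS : ℕ} (κ : List (Fin nS) → Fin nS → ℝ) (v : Fin nS) (j : ℕ)
    (x : Fin r → Fin nS) : ℝ :=
  ∏ i : Fin r, if (i : ℕ) < j then κ (hst v x i) (x i) else 1

private theorem F1_pr_pos {r nS : ℕ} {κ : List (Fin nS) → Fin nS → ℝ} (hκ : ∀ H s, 0 < κ H s)
    (v : Fin nS) (j : ℕ) (x : Fin r → Fin nS) : 0 < F1_pr κ v j x := by
  refine Finset.prod_pos fun i _ => ?_
  split_ifs
  · exact hκ _ _
  · exact one_pos

private theorem F1_pr_upd {r nS : ℕ} (κ : List (Fin nS) → Fin nS → ℝ) (v : Fin nS) {j : ℕ}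
    (hj : j < r) (x : Fin r → Fin nS) (u : Fin nS) :
    F1_pr κ v (j + 1) (Function.update x ⟨j, hj⟩ u) = κ (hst v x j) u * F1_pr κ v j x := by
  unfold F1_pr
  rw [← Finset.mul_prod_erase Finset.univ _ (Finset.mem_univ (⟨j, hj⟩ : Fin r)),
    ← Finset.mul_prod_erase Finset.univ (fun i : Fin r => if (i : ℕ) < j then _ else _)
      (Finset.mem_univ (⟨j, hj⟩ : Fin r))]
  have hne : ∀ i : ℕ, i ≤ j → hst v (Function.update x ⟨j, hj⟩ u) i = hst v x i := by
    intro i hi
    refine hst_congr v fun k hk => ?_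
    rw [Function.update_of_ne]
    intro h
    rw [h] at hk
    exact absurd hk (not_lt.mpr hi)
  have h1 : (if ((⟨j, hj⟩ : Fin r) : ℕ) < j + 1 then
      κ (hst v (Function.update x ⟨j, hj⟩ u) ((⟨j, hj⟩ : Fin r) : ℕ))
        (Function.update x ⟨j, hj⟩ u ⟨j, hj⟩) else 1) = κ (hst v x j) u := by
    rw [if_pos (Nat.lt_succ_self j), Function.update_self]
    rw [hne j le_rfl]
  have h2 : (if ((⟨j, hj⟩ : Fin r) : ℕ) < j then
      κ (hst v x ((⟨j, hj⟩ : Fin r) : ℕ)) (x ⟨j, hj⟩) else (1 : ℝ)) = 1 := by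
    rw [if_neg (lt_irrefl j)]
  rw [h1, h2, one_mul]
  congr 1
  refine Finset.prod_congr rfl fun i hi => ?_
  have hij : i ≠ ⟨j, hj⟩ := (Finset.mem_erase.mp hi).1
  have hij' : (i : ℕ) ≠ j := fun h => hij (Fin.ext h)
  by_cases hlt : (i : ℕ) < j
  · rw [if_pos hlt, if_pos (Nat.lt_succ_of_lt hlt), hne _ hlt.le, Function.update_of_ne hij]
  · rw [if_neg hlt, if_neg (by omega)]

private theorem F1_split {r nS : ℕ} {j : ℕ} (hj : j < r) (x x' : Fin r → Fin nS) (u : Fin nS) :
    (labLev r nS).rel (j + 1) (Function.update x ⟨j, hj⟩ u) x' ↔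
      (labLev r nS).rel j x x' ∧ x' ⟨j, hj⟩ = u := by
  constructor
  · intro h
    refine ⟨fun i hi => ?_, ?_⟩
    · have := h i (Nat.lt_succ_of_lt hi)
      rwa [Function.update_of_ne (fun e => by rw [e] at hi; exact lt_irrefl _ hi)] at this
    · have := h ⟨j, hj⟩ (Nat.lt_succ_self j)
      rw [Function.update_self] at this
      exact this.symm
  · rintro ⟨h, h'⟩ i hi
    by_cases e : i = ⟨j, hj⟩
    · rw [e, Function.update_self, h']
    · rw [Function.update_of_ne e]
      have hij' : (i : ℕ) ≠ j := fun h => e (Fin.ext h)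
      exact h i (by omega)

private theorem F1_sum_u {r nS : ℕ} (P : (Fin r → Fin nS) → ℝ) {j : ℕ} (hj : j < r)
    (x : Fin r → Fin nS) (u : Fin nS) :
    cls (labLev r nS) P (j + 1) (Function.update x ⟨j, hj⟩ u) =
      ∑ x', (if x' ⟨j, hj⟩ = u then (if (labLev r nS).rel j x x' then P x' else 0) else 0) := by
  unfold cls
  refine Finset.sum_congr rfl fun x' _ => ?_
  by_cases h1 : x' ⟨j, hj⟩ = u
  · by_cases h2 : (labLev r nS).rel j x x'
    · rw [if_pos h1, if_pos h2, if_pos ((F1_split hj x x' u).mpr ⟨h2, h1⟩)]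
    · rw [if_pos h1, if_neg h2, if_neg (fun h => h2 ((F1_split hj x x' u).mp h).1)]
  · rw [if_neg h1, if_neg (fun h => h1 ((F1_split hj x x' u).mp h).2)]

private theorem F1_cls_step {r nS : ℕ} (P : (Fin r → Fin nS) → ℝ) {j : ℕ} (hj : j < r)
    (x : Fin r → Fin nS) :
    cls (labLev r nS) P j x =
      ∑ u, cls (labLev r nS) P (j + 1) (Function.update x ⟨j, hj⟩ u) := by
  simp only [F1_sum_u P hj x]
  rw [Finset.sum_comm]
  unfold cls
  refine Finset.sum_congr rfl fun x' _ => ?_
  rw [Finset.sum_ite_eq]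
  simp

private theorem F1_cls {r nS : ℕ} {κ : List (Fin nS) → Fin nS → ℝ}
    (h1 : ∀ H, ∑ s, κ H s = 1) (v : Fin nS) :
    ∀ d j : ℕ, j + d = r → ∀ x : Fin r → Fin nS,
      cls (labLev r nS) (lawP κ v) j x = F1_pr κ v j x := by
  intro d
  induction d with
  | zero =>
    intro j hj x
    have hjr : j = r := by omega
    subst hjr
    unfold cls F1_pr
    rw [Finset.sum_eq_single x]
    · rw [if_pos ((labLev j nS).refl j x)]
      unfold lawP
      refine Finset.prod_congr rfl fun i _ => ?_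
      rw [if_pos i.2]
    · intro y _ hy
      rw [if_neg]
      intro h
      exact hy (funext fun i => (h i i.2).symm)
    · intro h
      exact absurd (Finset.mem_univ x) h
  | succ d ih =>
    intro j hj x
    have hjr : j < r := by omega
    rw [F1_cls_step _ hjr x]
    simp only [ih (j + 1) (by omega), F1_pr_upd κ v hjr x]
    rw [← Finset.sum_mul, h1, one_mul]

theorem lawP_pathLaw {r nS : ℕ} {κ : List (Fin nS) → Fin nS → ℝ} (hκ : ∀ H s, 0 < κ H s)
    (h1 : ∀ H, ∑ s, κ H s = 1) (v : Fin nS) : PathLaw (lawP (r := r) κ v) := by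
  refine ⟨fun x => Finset.prod_pos fun i _ => hκ _ _, ?_⟩
  have h := F1_cls (r := r) h1 v r 0 (by omega) (fun _ => v)
  have e : F1_pr (r := r) κ v 0 (fun _ => v) = 1 := by simp [F1_pr]
  rw [e] at h
  rw [← h]
  unfold cls
  refine Finset.sum_congr rfl fun x' _ => ?_
  rw [if_pos ((labLev r nS).zero _ _)]

/-- the law of the next state given the levels `≤ j`. -/
theorem Kf_lab_next {r nS : ℕ} {κ : List (Fin nS) → Fin nS → ℝ} (hκ : ∀ H s, 0 < κ H s)
    (h1 : ∀ H, ∑ s, κ H s = 1) (v : Fin nS) {j : ℕ} (hj : j < r) (x : Fin r → Fin nS)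
    (u : Fin nS) :
    ∑ x', (if x' ⟨j, hj⟩ = u then Kf (labLev r nS) (lawP κ v) j x x' else 0) =
      κ (hst v x j) u := by
  have hc : cls (labLev r nS) (lawP κ v) j x = F1_pr κ v j x :=
    F1_cls h1 v (r - j) j (by omega) x
  have hc' : cls (labLev r nS) (lawP κ v) (j + 1) (Function.update x ⟨j, hj⟩ u) =
      κ (hst v x j) u * F1_pr κ v j x := by
    rw [F1_cls h1 v (r - (j + 1)) (j + 1) (by omega), F1_pr_upd κ v hj x u]
  have hpos := F1_pr_pos (r := r) hκ v j x
  have e : ∑ x', (if x' ⟨j, hj⟩ = u then Kf (labLev r nS) (lawP κ v) j x x' else 0) =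
      cls (labLev r nS) (lawP κ v) (j + 1) (Function.update x ⟨j, hj⟩ u) / F1_pr κ v j x := by
    rw [F1_sum_u _ hj x u, Finset.sum_div]
    refine Finset.sum_congr rfl fun x' _ => ?_
    unfold Kf
    rw [hc]
    split_ifs <;> simp
  rw [e, hc', mul_div_assoc, div_self hpos.ne', mul_one]

theorem lawL_pathLaw {L : Type} [Fintype L] [DecidableEq L] {r nS : ℕ}
    {κ : List (Fin nS) → Fin nS → ℝ} (hκ : ∀ H s, 0 < κ H s)
    (h1 : ∀ H, ∑ s, κ H s = 1) (v : L → Fin nS) : PathLaw (lawL (r := r) κ v) := by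
  have h := pathLaw_pi (P := fun l => lawP (r := r) κ (v l)) (fun l => lawP_pathLaw hκ h1 (v l))
  unfold lawL
  convert h

/-- conditional expectation of a function of the next states of all labels. -/
theorem ce_lab_pi_next {L : Type} [Fintype L] [DecidableEq L] {r nS : ℕ}
    {κ : List (Fin nS) → Fin nS → ℝ} (hκ : ∀ H s, 0 < κ H s)
    (h1 : ∀ H, ∑ s, κ H s = 1) (v : L → Fin nS) {j : ℕ} (hj : j < r)
    (G : (L → Fin nS) → ℝ) (x : L → Fin r → Fin nS) :
    ce ((labLev r nS).pi L) (lawL κ v) j (fun x' => G (fun l => x' l ⟨j, hj⟩)) x =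
      ∑ u : L → Fin nS, (∏ l, κ (hst (v l) (x l) j) (u l)) * G u := by
  have hK : ∀ x' : L → Fin r → Fin nS, Kf ((labLev r nS).pi L) (lawL κ v) j x x' =
      ∏ l, Kf (labLev r nS) (lawP κ (v l)) j (x l) (x' l) := by
    intro x'
    have h := Kf_pi (labLev r nS) (P := fun l => lawP (r := r) κ (v l))
      (fun l => lawP_pathLaw hκ h1 (v l)) j x x'
    rw [← h]
    unfold lawL
    congr!
  have hsum : ∀ u : L → Fin nS, ∏ l, κ (hst (v l) (x l) j) (u l) =
      ∑ x' : L → Fin r → Fin nS, if (fun l => x' l ⟨j, hj⟩) = u then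
        ∏ l, Kf (labLev r nS) (lawP κ (v l)) j (x l) (x' l) else 0 := by
    intro u
    have h2 : ∏ l, κ (hst (v l) (x l) j) (u l) =
        ∏ l, ∑ z, (if z ⟨j, hj⟩ = u l then Kf (labLev r nS) (lawP κ (v l)) j (x l) z else 0) :=
      Finset.prod_congr rfl fun l _ => (Kf_lab_next hκ h1 (v l) hj (x l) (u l)).symm
    rw [h2, Finset.prod_univ_sum, Fintype.piFinset_univ]
    refine Finset.sum_congr rfl fun x' _ => ?_
    by_cases h : (fun l => x' l ⟨j, hj⟩) = u
    · rw [if_pos h]
      refine Finset.prod_congr rfl fun l _ => ?_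
      rw [if_pos (congrFun h l)]
    · rw [if_neg h]
      have : ∃ l, x' l ⟨j, hj⟩ ≠ u l := by
        by_contra hcon
        push Not at hcon
        exact h (funext hcon)
      obtain ⟨l, hl⟩ := this
      exact Finset.prod_eq_zero (Finset.mem_univ l) (if_neg hl)
  unfold ce
  simp only [hK]
  simp only [hsum, Finset.sum_mul]
  rw [Finset.sum_comm]
  refine Finset.sum_congr rfl fun x' _ => ?_
  rw [Finset.sum_eq_single (fun l => x' l ⟨j, hj⟩)]
  · rw [if_pos rfl]
  · intro u _ hu
    rw [if_neg (fun h => hu h.symm), zero_mul]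
  · intro h
    exact absurd (Finset.mem_univ _) h

end Crest.SG
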