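import Crest.Agent.SG_F4
import Crest.Agent.SG_F5

/-! # SG_F10b : endpoint of the interpolation, fields only (part F of S0192) -/

set_option autoImplicit false
set_option linter.unusedVariables false
noncomputable section
open scoped BigOperators
open Classical
open Crest.ProbabilityR.Diluted Crest.Agent.SGG
namespace Crest.SG

variable {p : ℕ} (C : Core p) (t : Trial)

/-- the spin average of the fields attached to the site `i`. -/
private def Usite {K N : ℕ} (e : Fin K → C.E) (u : Fin K → Fin N) (h : ℝ) (i : Fin N)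
    (xs : Fin K → Fin (p - 1) → ℝ) : ℝ :=
  ∑ ε : Bool, (1 / 2) * (Real.exp (h * spinVal ε) *
    ∏ k ∈ Finset.univ.filter (fun k => u k = i), (1 + gF C (e k) ε (xs k)))

private theorem F10b_pos (hp : 1 ≤ p) (e : C.E) (ε : Bool) (x : Fin (p - 1) → ℝ) :
    0 < 1 + gF C e ε x := by
  have h1 := (abs_le.1 (abs_gF_le C hp e ε x)).1
  have h2 := C.q0_lt
  linarith

private theorem Usite_pos (hp : 1 ≤ p) {K N : ℕ} (e : Fin K → C.E) (u : Fin K → Fin N) (h : ℝ)
    (i : Fin N) (xs : Fin K → Fin (p - 1) → ℝ) : 0 < Usite C e u h i xs := by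
  unfold Usite
  refine Finset.sum_pos (fun ε _ => ?_) Finset.univ_nonempty
  have h1 : 0 < ∏ k ∈ Finset.univ.filter (fun k => u k = i), (1 + gF C (e k) ε (xs k)) :=
    Finset.prod_pos fun k _ => F10b_pos C hp _ _ _
  have h2 := Real.exp_pos (h * spinVal ε)
  positivity

private theorem Usite_congr {K N : ℕ} (e : Fin K → C.E) (u : Fin K → Fin N) (h : ℝ)
    (i : Fin N) {xs xs' : Fin K → Fin (p - 1) → ℝ} (hx : ∀ k, u k = i → xs k = xs' k) :
    Usite C e u h i xs = Usite C e u h i xs' := by
  unfold Usite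
  refine Finset.sum_congr rfl fun ε _ => ?_
  congr 2
  refine Finset.prod_congr rfl fun k hk => ?_
  rw [hx k (Finset.mem_filter.1 hk).2]

private theorem spin_sum {K N : ℕ} (a : Fin 0 → E1 C N) (b : Fin K → E2 C N)
    (y : Fin N → Fin C.nH) (xs : Fin K → Fin (p - 1) → ℝ) :
    ∑ σ : Fin N → Bool, unif (Fin N → Bool) σ * Wsys C a b y xs σ =
      ∏ i, Usite C (fun k => (b k).1) (fun k => (b k).2) (C.h (y i)) i xs := by
  unfold Usite
  rw [Fintype.prod_sum]
  refine Finset.sum_congr rfl fun σ _ => ?_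
  rw [Finset.prod_mul_distrib, Finset.prod_mul_distrib]
  have h1 : unif (Fin N → Bool) σ = ∏ _i : Fin N, (1 / 2 : ℝ) := by
    unfold unif
    simp
  rw [h1]
  congr 1
  unfold Wsys
  rw [Fin.prod_univ_zero, one_mul, mul_comm]
  congr 1
  rw [← Finset.prod_fiberwise Finset.univ (fun k => (b k).2)]
  refine Finset.prod_congr rfl fun i _ => Finset.prod_congr rfl fun k hk => ?_
  have h2 : (b k).2 = i := (Finset.mem_filter.1 hk).2
  rw [h2]

private theorem logT0_sites (hp : 1 ≤ p) {K N : ℕ} (a : Fin 0 → E1 C N) (b : Fin K → E2 C N)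
    (y : Fin N → Fin C.nH) :
    t.logT0 (L := Fin K × Fin (p - 1)) (fun H =>
          ∑ σ : Fin N → Bool, unif (Fin N → Bool) σ *
            Wsys C a b y (fun k l => t.X (H (k, l))) σ) =
      ∑ i, t.logT0 (L := Fin K × Fin (p - 1)) (fun H =>
        Usite C (fun k => (b k).1) (fun k => (b k).2) (C.h (y i)) i
          (fun k l => t.X (H (k, l)))) := by
  simp only [spin_sum]
  have h1 := logT0_marg t (L := Fin N × (Fin K × Fin (p - 1))) (L' := Fin K × Fin (p - 1))
    (fun l => ((b l.1).2, l)) (fun l l' h => (Prod.mk.inj h).2)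
    (fun H => ∏ i, Usite C (fun k => (b k).1) (fun k => (b k).2) (C.h (y i)) i
      (fun k l => t.X (H (k, l))))
  rw [← h1]
  have h2 := logT0_prod t (ι := Fin N) (L := Fin K × Fin (p - 1))
    (fun i H => Usite C (fun k => (b k).1) (fun k => (b k).2) (C.h (y i)) i
      (fun k l => t.X (H (k, l)))) (fun i H => Usite_pos C hp _ _ _ _ _)
  rw [← h2]
  congr 1
  funext H
  refine Finset.prod_congr rfl fun i _ => ?_
  refine Usite_congr C _ _ _ _ fun k hk => ?_
  funext l
  simp only
  rw [hk]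

/-- the term of the site `i` after relabelling the fields attached to it. -/
private theorem logT0_relabel {K N : ℕ} (hp : 1 ≤ p) (e : Fin K → C.E) (u : Fin K → Fin N) (h : ℝ)
    (i : Fin N) {c : ℕ} (φ : Fin c ≃ {k : Fin K // u k = i}) :
    t.logT0 (L := Fin K × Fin (p - 1)) (fun H => Usite C e u h i (fun k l => t.X (H (k, l)))) =
      t.logT0 (L := Fin c × Fin (p - 1)) (fun H =>
        siteTerm h (fun j => C.theta (e (φ j).1)) (fun j l => t.X (H (j, l)))) := by
  have hinj : Function.Injective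
      (fun l : Fin c × Fin (p - 1) => (((φ l.1).1, l.2) : Fin K × Fin (p - 1))) := by
    intro l l' hl
    have h1 := Prod.mk.inj hl
    have h2 : φ l.1 = φ l'.1 := Subtype.ext h1.1
    exact Prod.ext (φ.injective h2) h1.2
  rw [← logT0_marg t _ hinj]
  congr 1
  funext H
  rw [siteTerm_eq_gF C hp h (fun j => e (φ j).1)]
  unfold Usite
  refine Finset.sum_congr rfl fun ε _ => ?_
  congr 2
  rw [Finset.prod_subtype (p := fun k => u k = i) _ (fun k => by simp)
    (fun k => 1 + gF C (e k) ε (fun l => t.X (H (k, l)))), ← φ.prod_comp]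

private theorem sum_marg_one {S : Type} [Fintype S] {w : S → ℝ} (hw : ∑ s, w s = 1) {N : ℕ}
    (i : Fin N) (F : S → ℝ) :
    ∑ y : Fin N → S, (∏ i, w (y i)) * F (y i) = ∑ s, w s * F s := by
  have h := sum_marg (A := Fin N) (A' := Unit) (S := S) (fun _ => i) (fun _ _ _ => rfl)
    (fun _ => w) (fun _ => hw) (fun v => F (v ()))
  rw [h]
  rw [← (Equiv.funUnique Unit S).symm.sum_comp]
  refine Finset.sum_congr rfl fun s _ => ?_
  simp

private theorem site_avg (hp : 1 ≤ p) {K N : ℕ} (u : Fin K → Fin N) (i : Fin N) :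
    ∑ e : Fin K → C.E, (∏ k, C.wE (e k)) * ∑ y : Fin C.nH, C.wH y *
        t.logT0 (L := Fin K × Fin (p - 1)) (fun H =>
          Usite C e u (C.h y) i (fun k l => t.X (H (k, l)))) =
      gS C t (Fintype.card {k : Fin K // u k = i}) := by
  have φ : Fin (Fintype.card {k : Fin K // u k = i}) ≃ {k : Fin K // u k = i} :=
    (Fintype.equivFin _).symm
  unfold gS
  have h := sum_marg (A := Fin K) (A' := Fin (Fintype.card {k : Fin K // u k = i})) (S := C.E)
    (fun j => (φ j).1) (fun j j' hj => φ.injective (Subtype.ext hj)) (fun _ => C.wE)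
    (fun _ => wE_sum C) (fun e' => ∑ y : Fin C.nH, C.wH y *
      t.logT0 (L := Fin (Fintype.card {k : Fin K // u k = i}) × Fin (p - 1))
        (fun H => siteTerm (C.h y) (fun j => C.theta (e' j)) (fun j l => t.X (H (j, l)))))
  rw [← h]
  refine Finset.sum_congr rfl fun e _ => ?_
  congr 1
  refine Finset.sum_congr rfl fun y _ => ?_
  congr 1
  exact logT0_relabel C t hp e u (C.h y) i φ

/-- no edges: the sites decouple.  Hint: fix `u : Fin K → Fin N` (the sites of the fields); the spin
average is `∏ i, V i` where `V i` involves the labels of the fields `k` with `u k = i`; with the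
injection `(k,l) ↦ (u k, (k,l))` into `Fin N × (Fin K × Fin (p-1))`: `logT0_marg`, `logT0_prod`;
then `logT0_marg`, `sum_marg` with an equivalence `Fin c ≃ {k // u k = i}`. -/
theorem Phi_fields (hp : 1 ≤ p) {N : ℕ} (hN : 1 ≤ N) (K : ℕ) :
    Phi C t N 0 K = ∑ i : Fin N, ((N : ℝ) ^ K)⁻¹ * ∑ u : Fin K → Fin N,
      gS C t (Fintype.card {k : Fin K // u k = i}) := by
  unfold Phi
  simp only [Finset.univ_unique, Finset.sum_singleton, Fin.prod_univ_zero, one_mul,
    logT0_sites C t hp]
  have h1 : ∀ b : Fin K → E2 C N, ∑ y : Fin N → Fin C.nH, (∏ i, C.wH (y i)) *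
      ∑ i, t.logT0 (L := Fin K × Fin (p - 1)) (fun H =>
        Usite C (fun k => (b k).1) (fun k => (b k).2) (C.h (y i)) i
          (fun k l => t.X (H (k, l)))) =
      ∑ i, ∑ y : Fin C.nH, C.wH y * t.logT0 (L := Fin K × Fin (p - 1)) (fun H =>
        Usite C (fun k => (b k).1) (fun k => (b k).2) (C.h y) i
          (fun k l => t.X (H (k, l)))) := by
    intro b
    simp only [Finset.mul_sum]
    rw [Finset.sum_comm]
    refine Finset.sum_congr rfl fun i _ => ?_
    exact sum_marg_one C.wH_sum i (fun s => t.logT0 (L := Fin K × Fin (p - 1)) (fun H =>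
        Usite C (fun k => (b k).1) (fun k => (b k).2) (C.h s) i
          (fun k l => t.X (H (k, l)))))
  simp only [h1]
  rw [← (Equiv.arrowProdEquivProdArrow (Fin K) (fun _ => C.E) (fun _ => Fin N)).symm.sum_comp,
    Fintype.sum_prod_type, Finset.sum_comm]
  simp only [Equiv.arrowProdEquivProdArrow, Equiv.coe_fn_symm_mk, w2, Finset.prod_mul_distrib,
    Finset.prod_const, Finset.card_univ, Fintype.card_fin]
  have h2 : ∀ u : Fin K → Fin N, ∑ e : Fin K → C.E, (∏ k, C.wE (e k)) * ((N : ℝ)⁻¹) ^ K *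
      ∑ i, ∑ y : Fin C.nH, C.wH y * t.logT0 (L := Fin K × Fin (p - 1)) (fun H =>
        Usite C e u (C.h y) i (fun k l => t.X (H (k, l)))) =
      ∑ i, ((N : ℝ) ^ K)⁻¹ * gS C t (Fintype.card {k : Fin K // u k = i}) := by
    intro u
    have h3 : ∀ i, ((N : ℝ) ^ K)⁻¹ * gS C t (Fintype.card {k : Fin K // u k = i}) =
        ∑ e : Fin K → C.E, (∏ k, C.wE (e k)) * ((N : ℝ)⁻¹) ^ K *
          ∑ y : Fin C.nH, C.wH y * t.logT0 (L := Fin K × Fin (p - 1)) (fun H =>
            Usite C e u (C.h y) i (fun k l => t.X (H (k, l)))) := by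
      intro i
      rw [← site_avg C t hp u i, Finset.mul_sum]
      refine Finset.sum_congr rfl fun e _ => ?_
      rw [inv_pow]
      ring
    simp only [h3]
    rw [Finset.sum_comm]
    refine Finset.sum_congr rfl fun e _ => ?_
    rw [Finset.mul_sum]
  have h4 := Finset.sum_congr (rfl : (Finset.univ : Finset (Fin K → Fin N)) = Finset.univ)
    (fun u _ => h2 u)
  refine h4.trans ?_
  rw [Finset.sum_comm]
  refine Finset.sum_congr rfl fun i _ => ?_
  rw [Finset.mul_sum]

end Crest.SG
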