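import Crest.Agent.SG_F1

/-! # SG_F2 : nested power means of the chain trial = `LT0` (part F of S0192)

Hint for `link0`: show by downward induction on `j ≤ r` that
`T S m P W j x = chainT κ ((List.ofFn m).drop j) V (fun l => hst (v l) (x l) j)`
(use `T_step`, `ce_congr_rel`, `ce_lab_pi_next`, `Lev.pi`, `hst_congr`); at `j = r`:
`T_step` with `m (r+1) = 1` and `ce … r` = identity (the class of level `r` is a singleton). -/

set_option autoImplicit false
set_option linter.unusedVariables false
noncomputable section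
open scoped BigOperators
open Classical
open Crest.ProbabilityR.Diluted Crest.Agent.SGG
namespace Crest.SG

private theorem f2_key {L : Type} [Fintype L] [DecidableEq L] {r nS : ℕ} {m : Fin r → ℝ}
    {κ : List (Fin nS) → Fin nS → ℝ} (hκ : ∀ H s, 0 < κ H s)
    (h1 : ∀ H, ∑ s, κ H s = 1) {V : (L → List (Fin nS)) → ℝ}
    (v : L → Fin nS) : ∀ i : ℕ, ∀ j : ℕ, j + i = r → ∀ x : L → Fin r → Fin nS,
      T ((labLev r nS).pi L) (mmF m) (lawL κ v) (fun x => V (fun l => hst (v l) (x l) r)) j x =
        chainT κ ((List.ofFn m).drop j) V (fun l => hst (v l) (x l) j) := by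
  have hP : PathLaw (lawL (r := r) κ v) := lawL_pathLaw hκ h1 v
  intro i
  induction i with
  | zero =>
    intro j hj x
    have hj' : j = r := by omega
    subst hj'
    rw [T_step _ (Nat.lt_succ_self j)]
    have hinv : Inv ((labLev j nS).pi L) j (fun x : L → Fin j → Fin nS =>
        (T ((labLev j nS).pi L) (mmF m) (lawL κ v)
          (fun x => V (fun l => hst (v l) (x l) j)) (j + 1) x) ^ (mmF m (j + 1))) := by
      intro a b hab
      have hab' : a = b := by
        funext l
        funext q
        exact hab l q q.2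
      rw [hab']
    rw [ce_of_inv _ hP hinv]
    rw [mmF_last, T_R, List.drop_of_length_le (by simp), chainT_nil]
    simp
  | succ i ih =>
    intro j hj x
    have hjr : j < r := by omega
    have hne : j < (List.ofFn m).length := by simpa using hjr
    have hdrop : (List.ofFn m).drop j = m ⟨j, hjr⟩ :: (List.ofFn m).drop (j + 1) := by
      rw [List.drop_eq_getElem_cons hne]
      congr 1
      simp
    rw [T_step _ (by omega), hdrop, chainT_cons, mmF_succ m hjr]
    congr 1
    rw [ce_congr_rel (G := fun x' : L → Fin r → Fin nS =>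
      (fun u : L → Fin nS => (chainT κ ((List.ofFn m).drop (j + 1)) V
        (fun l => u l :: hst (v l) (x l) j)) ^ (m ⟨j, hjr⟩)) (fun l => x' l ⟨j, hjr⟩)) _ x]
    · exact ce_lab_pi_next hκ h1 v hjr (fun u : L → Fin nS =>
        (chainT κ ((List.ofFn m).drop (j + 1)) V
          (fun l => u l :: hst (v l) (x l) j)) ^ (m ⟨j, hjr⟩)) x
    · intro x' hx'
      show (T ((labLev r nS).pi L) (mmF m) (lawL κ v)
        (fun x => V (fun l => hst (v l) (x l) r)) (j + 1) x') ^ (m ⟨j, hjr⟩) =
        (chainT κ ((List.ofFn m).drop (j + 1)) V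
        (fun l => x' l ⟨j, hjr⟩ :: hst (v l) (x l) j)) ^ (m ⟨j, hjr⟩)
      rw [ih (j + 1) (by omega) x']
      congr 2
      funext l
      rw [hst_succ _ _ hjr]
      congr 1
      exact (hst_congr (v l) (fun k hk => hx' l k hk)).symm

theorem link0 {L : Type} [Fintype L] [DecidableEq L] {r nS : ℕ} {m : Fin r → ℝ}
    (hm : AdmissibleExponents m) {κ : List (Fin nS) → Fin nS → ℝ} (hκ : ∀ H s, 0 < κ H s)
    (h1 : ∀ H, ∑ s, κ H s = 1) {V : (L → List (Fin nS)) → ℝ} (hV : ∀ H, 0 < V H)
    (v : L → Fin nS) :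
    Real.log (chainT κ (List.ofFn m) V (fun l => [v l])) =
      LT0 ((labLev r nS).pi L) (mmF m) (lawL κ v) (fun x => V (fun l => hst (v l) (x l) r)) := by
  have hP : PathLaw (lawL (r := r) κ v) := lawL_pathLaw hκ h1 v
  rw [LT0_eq _ hP (fun l _ => v l), f2_key hκ h1 v r 0 (by omega)]
  rfl

end Crest.SG
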