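import Crest.Agent.SG_F1

/-! # SG_F3 : the spins at the last level; increments (part F of S0192)

Hint for `LT0_topLev`: `T (S.prod (topLev r B)) … W j (a,b) = T S … V j a` for `j ≤ r`, by downward
induction (`Kf_prod`; `Kf (topLev r B) Q j b b' = Q b'` for `j ≤ r`).
Hint for `LT0_add_field`: `LT0_mul` with `W x = W₀ x.1` on `Ω × A`, `tilt_prod_fst`, `LT0_prod_fst`. -/

set_option autoImplicit false
set_option linter.unusedVariables false
noncomputable section
open scoped BigOperators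
open Classical
open Crest.ProbabilityR.Diluted Crest.Agent.SGG
namespace Crest.SG

theorem pathLaw_unif (B : Type) [Fintype B] [Nonempty B] : PathLaw (unif B) := by
  have hc : (0 : ℝ) < (Fintype.card B : ℝ) := by exact_mod_cast Fintype.card_pos
  refine ⟨fun ω => by unfold unif; positivity, ?_⟩
  unfold unif
  rw [Finset.sum_const, Finset.card_univ, nsmul_eq_mul]
  field_simp

theorem f3_nonempty {Ω : Type} [Fintype Ω] {P : Ω → ℝ} (hP : PathLaw P) : Nonempty Ω := by
  by_contra h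
  rw [not_nonempty_iff] at h
  have := hP.sum
  simp at this

theorem f3_Kf_eq {R : ℕ} {A : Type} [Fintype A] (S : Lev R A) {j : ℕ}
    (hS : ∀ a a', S.rel j a a' → a = a') {P : A → ℝ} (hP : PathLaw P) (a a' : A) :
    Kf S P j a a' = if a = a' then 1 else 0 := by
  unfold Kf cls
  by_cases h : a = a'
  · subst h
    rw [if_pos (S.refl j a), if_pos rfl]
    have h1 : ∑ ω', (if S.rel j a ω' then P ω' else 0) = P a := by
      rw [Finset.sum_eq_single a]
      · rw [if_pos (S.refl j a)]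
      · intro b _ hb
        rw [if_neg fun h => hb (hS a b h).symm]
      · intro h; exact absurd (Finset.mem_univ _) h
    rw [h1]
    exact div_self (hP.pos a).ne'
  · rw [if_neg fun hr => h (hS a a' hr), if_neg h]

theorem f3_Kf_top {r : ℕ} {B : Type} [Fintype B] {Q : B → ℝ} (hQ : PathLaw Q) {j : ℕ}
    (hj : j ≤ r) (b b' : B) : Kf (topLev r B) Q j b b' = Q b' := by
  have hr : ∀ x y : B, (topLev r B).rel j x y := fun x y => Or.inl hj
  unfold Kf cls
  simp only [hr, if_true]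
  rw [hQ.sum, div_one]

theorem f3_ce_r {r : ℕ} {A B : Type} [Fintype A] [Fintype B] (S : Lev (r + 1) A)
    (hS : ∀ a a', S.rel r a a' → a = a') {P : A → ℝ} {Q : B → ℝ}
    (hP : PathLaw P) (hQ : PathLaw Q) (W : A × B → ℝ) (ω : A × B) :
    ce (S.prod (topLev r B)) (fun x => P x.1 * Q x.2) r W ω = ∑ b, Q b * W (ω.1, b) := by
  unfold ce
  rw [Fintype.sum_prod_type, Finset.sum_eq_single ω.1]
  · refine Finset.sum_congr rfl fun b _ => ?_
    rw [Kf_prod S (topLev r B) hP hQ, f3_Kf_eq S hS hP, f3_Kf_top hQ le_rfl, if_pos rfl, one_mul]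
  · intro a _ ha
    refine Finset.sum_eq_zero fun b _ => ?_
    rw [Kf_prod S (topLev r B) hP hQ, f3_Kf_eq S hS hP, if_neg (fun h => ha h.symm), zero_mul,
      zero_mul]
  · intro h; exact absurd (Finset.mem_univ _) h

theorem f3_ce_S {R : ℕ} {A : Type} [Fintype A] (S : Lev R A) {j : ℕ}
    (hS : ∀ a a', S.rel j a a' → a = a') {P : A → ℝ} (hP : PathLaw P) (F : A → ℝ) (a : A) :
    ce S P j F a = F a := by
  unfold ce
  rw [Finset.sum_eq_single a]
  · rw [f3_Kf_eq S hS hP, if_pos rfl, one_mul]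
  · intro b _ hb
    rw [f3_Kf_eq S hS hP, if_neg (fun h => hb h.symm), zero_mul]
  · intro h; exact absurd (Finset.mem_univ _) h

theorem f3_T {r : ℕ} {A B : Type} [Fintype A] [Fintype B] (S : Lev (r + 1) A)
    (hS : ∀ a a', S.rel r a a' → a = a') {m : ℕ → ℝ} (E : Expo (r + 1) m) {P : A → ℝ} {Q : B → ℝ}
    (hP : PathLaw P) (hQ : PathLaw Q) (W : A × B → ℝ) :
    ∀ i, i ≤ r → ∀ ω : A × B,
      T (S.prod (topLev r B)) m (fun x => P x.1 * Q x.2) W (r - i) ω =
        T S m P (fun a => ∑ b, Q b * W (a, b)) (r - i) ω.1 := by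
  intro i
  induction i with
  | zero =>
    intro _ ω
    rw [Nat.sub_zero, T_step _ (Nat.lt_succ_self r), T_step _ (Nat.lt_succ_self r), T_R, T_R,
      E.one]
    simp only [Real.rpow_one, div_one]
    rw [f3_ce_r S hS hP hQ, f3_ce_S S hS hP]
  | succ i ih =>
    intro hi ω
    have hlt : r - (i + 1) < r + 1 := by omega
    have he : r - (i + 1) + 1 = r - i := by omega
    rw [T_step _ hlt, T_step _ hlt, he]
    congr 1
    have h1 : ∀ x : A × B, (T (S.prod (topLev r B)) m (fun ω : A × B => P ω.1 * Q ω.2)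
        W (r - i) x) ^ (m (r - i)) =
        (T S m P (fun a => ∑ b, Q b * W (a, b)) (r - i) x.1) ^ (m (r - i)) * 1 := by
      intro x
      rw [ih (by omega) x, mul_one]
    rw [ce_congr _ h1 ω, ce_prod_mul S (topLev r B) hP hQ _
      (fun a => (T S m P (fun a => ∑ b, Q b * W (a, b)) (r - i) a) ^ (m (r - i)))
      (fun _ => (1 : ℝ)), ce_const (topLev r B) hQ, mul_one]

/-- integrate out the last level. -/
theorem LT0_topLev {r : ℕ} {A B : Type} [Fintype A] [Fintype B] (S : Lev (r + 1) A)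
    (hS : ∀ a a', S.rel r a a' → a = a') {m : ℕ → ℝ} (E : Expo (r + 1) m) {P : A → ℝ} {Q : B → ℝ}
    (hP : PathLaw P) (hQ : PathLaw Q) {W : A × B → ℝ} (hW : ∀ x, 0 < W x) :
    LT0 (S.prod (topLev r B)) m (fun x => P x.1 * Q x.2) W =
      LT0 S m P (fun a => ∑ b, Q b * W (a, b)) := by
  obtain ⟨a⟩ := f3_nonempty hP
  obtain ⟨b⟩ := f3_nonempty hQ
  rw [LT0_eq (S.prod (topLev r B)) (pathLaw_prod hP hQ) (a, b), LT0_eq S hP a]
  have h := f3_T S hS E hP hQ W r le_rfl (a, b)
  rw [Nat.sub_self] at h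
  rw [h]

/-- add an independent family of labels and a new factor. -/
theorem LT0_add_field {R : ℕ} {Ω A : Type} [Fintype Ω] [Fintype A] (S : Lev R Ω) (S0 : Lev R A)
    {m : ℕ → ℝ} (E : Expo R m) {P : Ω → ℝ} {P0 : A → ℝ} (hP : PathLaw P) (hP0 : PathLaw P0)
    {W : Ω → ℝ} (hW : ∀ ω, 0 < W ω) {g : Ω × A → ℝ} (hg : ∀ x, 0 < g x) :
    LT0 (S.prod S0) m (fun x => P x.1 * P0 x.2) (fun x => W x.1 * g x) =
      LT0 S m P W + LT0 (S.prod S0) m (fun x => tilt S m P W x.1 * P0 x.2) g := by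
  have h1 := LT0_mul (S.prod S0) E (pathLaw_prod hP hP0) (W := fun x => W x.1) (V := g)
    (fun x => hW x.1) hg
  have h2 : tilt (S.prod S0) m (fun x : Ω × A => P x.1 * P0 x.2) (fun x => W x.1) =
      fun x => tilt S m P W x.1 * P0 x.2 :=
    funext fun x => tilt_prod_fst S S0 E hP hP0 hW x
  rw [h1, LT0_prod_fst S S0 E hP hP0 hW, h2]

end Crest.SG
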