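import Crest.Agent.SG_F0

/-! # SG_F4 : marginalisation and factorisation of `chainT`, `logT0` (part F of S0192)

Hint for `sum_marg`: write the indicator of `fun a' => v (g a') = v'` as a product over `a : A` of
`c a (v a)`, `Finset.prod_univ_sum`, and `∏_a (if ∃ a', g a' = a then w a (v' a') else 1)`. -/

set_option autoImplicit false
set_option linter.unusedVariables false
noncomputable section
open scoped BigOperators
open Classical
open Crest.ProbabilityR.Diluted Crest.Agent.SGG
namespace Crest.SG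

/-! ### private helpers -/

/-- a sum over all functions of a product is a product of sums. -/
private theorem sgF4_sum_prod {A S : Type} [Fintype A] [DecidableEq A] [Fintype S]
    (u : A → S → ℝ) : ∑ v : A → S, ∏ a, u a (v a) = ∏ a, ∑ s, u a s := by
  rw [Finset.prod_univ_sum, Fintype.piFinset_univ]

private theorem sgF4_sum_one {A S : Type} [Fintype A] [DecidableEq A] [Fintype S]
    (w : A → S → ℝ) (hw : ∀ a, ∑ s, w a s = 1) : ∑ v : A → S, ∏ a, w a (v a) = 1 := by
  rw [sgF4_sum_prod]
  exact Finset.prod_eq_one fun a _ => hw a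

private theorem sgF4_wsum_pos {V : Type} [Fintype V] (p f : V → ℝ) (hp : ∀ v, 0 ≤ p v)
    (h1 : ∑ v, p v = 1) (hf : ∀ v, 0 < f v) : 0 < ∑ v, p v * f v := by
  have h0 : ∀ v ∈ Finset.univ, 0 ≤ p v * f v := fun v _ => mul_nonneg (hp v) (hf v).le
  rcases (Finset.sum_nonneg h0).lt_or_eq with h | h
  · exact h
  · exfalso
    have h2 := (Finset.sum_eq_zero_iff_of_nonneg h0).1 h.symm
    have h3 : ∑ v, p v = 0 := Finset.sum_eq_zero fun v hv => by
      have := h2 v hv
      rcases mul_eq_zero.1 this with h4 | h4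
      · exact h4
      · exact absurd h4 (hf v).ne'
    rw [h1] at h3
    exact one_ne_zero h3

/-- marginalisation of a product law along an injection. -/
theorem sum_marg {A A' S : Type} [Fintype A] [DecidableEq A] [Fintype A'] [DecidableEq A']
    [Fintype S] (g : A' → A) (hg : Function.Injective g) (w : A → S → ℝ)
    (hw : ∀ a, ∑ s, w a s = 1) (F : (A' → S) → ℝ) :
    ∑ v : A → S, (∏ a, w a (v a)) * F (fun a' => v (g a')) =
      ∑ v' : A' → S, (∏ a', w (g a') (v' a')) * F v' := by
  have key : ∀ v' : A' → S,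
      ∑ v : A → S, (if (fun a' => v (g a')) = v' then ∏ a, w a (v a) else 0) =
        ∏ a', w (g a') (v' a') := by
    intro v'
    have h1 : ∀ v : A → S, (if (fun a' => v (g a')) = v' then ∏ a, w a (v a) else 0) =
        ∏ a, (if ∀ a', g a' = a → v' a' = v a then w a (v a) else 0) := by
      intro v
      by_cases h : (fun a' => v (g a')) = v'
      · rw [if_pos h]
        refine Finset.prod_congr rfl fun a _ => ?_
        rw [if_pos]
        intro a' ha
        rw [← h]
        simp only [ha]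
      · rw [if_neg h]
        have : ∃ a', v (g a') ≠ v' a' := by
          by_contra hc
          push Not at hc
          exact h (funext hc)
        obtain ⟨a', ha'⟩ := this
        symm
        apply Finset.prod_eq_zero (Finset.mem_univ (g a'))
        rw [if_neg]
        intro hc
        exact ha' (hc a' rfl).symm
    rw [Finset.sum_congr rfl fun v _ => h1 v,
      sgF4_sum_prod (fun a s => if ∀ a', g a' = a → v' a' = s then w a s else 0)]
    have h2 : ∀ a', ∑ s, (if ∀ a'', g a'' = g a' → v' a'' = s then w (g a') s else 0) =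
        w (g a') (v' a') := by
      intro a'
      rw [Finset.sum_eq_single (v' a')]
      · rw [if_pos]
        intro a'' h
        rw [hg h]
      · intro s _ hs
        rw [if_neg]
        intro hc
        exact hs (hc a' rfl).symm
      · intro h
        exact absurd (Finset.mem_univ _) h
    have h3 : ∀ a, a ∉ Finset.univ.image g →
        ∑ s, (if ∀ a'', g a'' = a → v' a'' = s then w a s else 0) = 1 := by
      intro a ha
      rw [← hw a]
      refine Finset.sum_congr rfl fun s _ => ?_
      rw [if_pos]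
      intro a'' h
      exact absurd (Finset.mem_image.2 ⟨a'', Finset.mem_univ _, h⟩) ha
    rw [← Finset.prod_subset (Finset.subset_univ (Finset.univ.image g)) fun a _ ha => h3 a ha,
      Finset.prod_image fun x _ y _ h => hg h]
    exact Finset.prod_congr rfl fun a' _ => h2 a'
  calc ∑ v : A → S, (∏ a, w a (v a)) * F (fun a' => v (g a'))
      = ∑ v : A → S, ∑ v' : A' → S,
          (if (fun a' => v (g a')) = v' then ∏ a, w a (v a) else 0) * F v' := by
        refine Finset.sum_congr rfl fun v _ => ?_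
        rw [Finset.sum_eq_single (fun a' => v (g a'))]
        · rw [if_pos rfl]
        · intro v' _ h
          rw [if_neg (Ne.symm h), zero_mul]
        · intro h
          exact absurd (Finset.mem_univ _) h
    _ = ∑ v' : A' → S, ∑ v : A → S,
          (if (fun a' => v (g a')) = v' then ∏ a, w a (v a) else 0) * F v' :=
        Finset.sum_comm
    _ = _ := by
        refine Finset.sum_congr rfl fun v' _ => ?_
        rw [← Finset.sum_mul, key v']

theorem chainT_pos {L : Type} [Fintype L] [DecidableEq L] {nS : ℕ}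
    {κ : List (Fin nS) → Fin nS → ℝ} (hκ : ∀ H s, 0 ≤ κ H s) (h1 : ∀ H, ∑ s, κ H s = 1)
    {ms : List ℝ} {W : (L → List (Fin nS)) → ℝ} (hW : ∀ H, 0 < W H)
    (H : L → List (Fin nS)) : 0 < chainT κ ms W H := by
  induction ms generalizing H with
  | nil => rw [chainT_nil]; exact hW H
  | cons m ms ih =>
    rw [chainT_cons]
    apply Real.rpow_pos_of_pos
    apply sgF4_wsum_pos
    · intro v
      exact Finset.prod_nonneg fun ω _ => hκ _ _
    · exact sgF4_sum_one (fun ω => κ (H ω)) fun ω => h1 _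
    · intro v
      exact Real.rpow_pos_of_pos (ih _) _

theorem chainT_marg {L L' : Type} [Fintype L] [DecidableEq L] [Fintype L'] [DecidableEq L']
    {nS : ℕ} {κ : List (Fin nS) → Fin nS → ℝ} (h1 : ∀ H, ∑ s, κ H s = 1)
    (g : L' → L) (hg : Function.Injective g) (ms : List ℝ) (W : (L' → List (Fin nS)) → ℝ)
    (H : L → List (Fin nS)) :
    chainT κ ms (fun H : L → List (Fin nS) => W (fun l => H (g l))) H =
      chainT κ ms W (fun l => H (g l)) := by
  induction ms generalizing H with
  | nil => rw [chainT_nil, chainT_nil]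
  | cons m ms ih =>
    rw [chainT_cons, chainT_cons]
    congr 1
    rw [← sum_marg g hg (fun l => κ (H l)) (fun l => h1 _)
      (fun v' => (chainT κ ms W (fun ω => v' ω :: H (g ω))) ^ m)]
    refine Finset.sum_congr rfl fun v _ => ?_
    rw [ih]

theorem logT0_marg (t : Trial) {L L' : Type} [Fintype L] [DecidableEq L] [Fintype L']
    [DecidableEq L'] (g : L' → L) (hg : Function.Injective g)
    (W : (L' → List (Fin t.nS)) → ℝ) :
    t.logT0 (fun H : L → List (Fin t.nS) => W (fun l => H (g l))) = t.logT0 W := by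
  unfold Trial.logT0
  rw [← sum_marg g hg (fun _ => t.κ []) (fun _ => t.κ_sum _)
    (fun v' => Real.log (chainT t.κ (List.ofFn t.m) W (fun ω => [v' ω])))]
  refine Finset.sum_congr rfl fun v _ => ?_
  rw [chainT_marg t.κ_sum g hg]

theorem chainT_prod {ι L : Type} [Fintype ι] [DecidableEq ι] [Fintype L] [DecidableEq L]
    {nS : ℕ} {κ : List (Fin nS) → Fin nS → ℝ} (hκ : ∀ H s, 0 ≤ κ H s)
    (h1 : ∀ H, ∑ s, κ H s = 1) {ms : List ℝ} (hms : ∀ m ∈ ms, 0 < m)
    (W : ι → (L → List (Fin nS)) → ℝ) (hW : ∀ i H, 0 < W i H) (H : ι × L → List (Fin nS)) :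
    chainT κ ms (fun H : ι × L → List (Fin nS) => ∏ i, W i (fun l => H (i, l))) H =
      ∏ i, chainT κ ms (W i) (fun l => H (i, l)) := by
  induction ms generalizing H with
  | nil =>
    rw [chainT_nil]
    exact Finset.prod_congr rfl fun i _ => (chainT_nil _ _ _).symm
  | cons m ms ih =>
    have hm : 0 < m := hms m (by simp)
    have ih' := ih (fun m' hm' => hms m' (List.mem_cons_of_mem _ hm'))
    have hpos : ∀ i (H' : L → List (Fin nS)), 0 < chainT κ ms (W i) H' := fun i H' =>
      chainT_pos hκ h1 (hW i) H'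
    rw [chainT_cons]
    have e1 : ∀ i, chainT κ (m :: ms) (W i) (fun l => H (i, l)) =
        (∑ u : L → Fin nS, (∏ l, κ (H (i, l)) (u l)) *
          (chainT κ ms (W i) (fun l => u l :: H (i, l))) ^ m) ^ (1 / m) := fun i => chainT_cons _ _ _ _ _
    rw [Finset.prod_congr rfl fun i _ => e1 i,
      Real.finsetProd_rpow _ _ (fun i _ => Finset.sum_nonneg fun u _ => mul_nonneg
        (Finset.prod_nonneg fun l _ => hκ _ _) (Real.rpow_nonneg (hpos _ _).le _))]
    congr 1
    rw [← sgF4_sum_prod (fun i (u : L → Fin nS) => (∏ l, κ (H (i, l)) (u l)) *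
          (chainT κ ms (W i) (fun l => u l :: H (i, l))) ^ m)]
    refine Fintype.sum_equiv (Equiv.curry ι L (Fin nS)) _ _ fun v => ?_
    rw [ih', Finset.prod_mul_distrib, Fintype.prod_prod_type,
      ← Real.finsetProd_rpow _ _ (fun i _ => (hpos _ _).le)]
    rfl

/-- additivity over independent families of labels. -/
theorem logT0_prod (t : Trial) {ι L : Type} [Fintype ι] [DecidableEq ι] [Fintype L]
    [DecidableEq L] (W : ι → (L → List (Fin t.nS)) → ℝ) (hW : ∀ i H, 0 < W i H) :
    t.logT0 (fun H : ι × L → List (Fin t.nS) => ∏ i, W i (fun l => H (i, l))) =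
      ∑ i, t.logT0 (W i) := by
  have hms : ∀ m ∈ List.ofFn t.m, 0 < m := by
    intro m hm
    obtain ⟨i, rfl⟩ := (List.mem_ofFn' _ _).1 hm
    exact (t.adm.2 i).1
  unfold Trial.logT0
  have e : ∀ v : ι × L → Fin t.nS,
      (∏ ω, t.κ [] (v ω)) * Real.log (chainT t.κ (List.ofFn t.m)
        (fun H : ι × L → List (Fin t.nS) => ∏ i, W i (fun l => H (i, l))) (fun ω => [v ω])) =
      ∑ i, (∏ ω, t.κ [] (v ω)) *
        Real.log (chainT t.κ (List.ofFn t.m) (W i) (fun l => [v (i, l)])) := by
    intro v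
    rw [chainT_prod t.κ_nonneg t.κ_sum hms W hW, Real.log_prod, Finset.mul_sum]
    intro i _
    exact (chainT_pos t.κ_nonneg t.κ_sum (hW i) _).ne'
  rw [Finset.sum_congr rfl fun v _ => e v, Finset.sum_comm]
  refine Finset.sum_congr rfl fun i _ => ?_
  exact sum_marg (fun l : L => (i, l)) (fun a b h => (Prod.mk.inj h).2) (fun _ => t.κ [])
    (fun _ => t.κ_sum _)
    (fun v' => Real.log (chainT t.κ (List.ofFn t.m) (W i) (fun ω => [v' ω])))

private theorem sgF4_ms (t : Trial) : ∀ m ∈ List.ofFn t.m, 0 < m := by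
  intro m hm
  obtain ⟨i, rfl⟩ := (List.mem_ofFn' _ _).1 hm
  exact (t.adm.2 i).1

private theorem sgF4_const_mul {L : Type} [Fintype L] [DecidableEq L] {nS : ℕ}
    {κ : List (Fin nS) → Fin nS → ℝ} (hκ : ∀ H s, 0 ≤ κ H s) (h1 : ∀ H, ∑ s, κ H s = 1)
    {ms : List ℝ} (hms : ∀ m ∈ ms, 0 < m) {c : ℝ} (hc : 0 < c)
    {W : (L → List (Fin nS)) → ℝ} (hW : ∀ H, 0 < W H) (H : L → List (Fin nS)) :
    chainT κ ms (fun H => c * W H) H = c * chainT κ ms W H := by
  induction ms generalizing H with
  | nil => rw [chainT_nil, chainT_nil]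
  | cons m ms ih =>
    have hm : 0 < m := hms m (by simp)
    have ih' := ih (fun m' hm' => hms m' (List.mem_cons_of_mem _ hm'))
    have hpos : ∀ (H' : L → List (Fin nS)), 0 < chainT κ ms W H' := fun H' =>
      chainT_pos hκ h1 hW H'
    rw [chainT_cons, chainT_cons]
    have e : ∑ v : L → Fin nS, (∏ ω, κ (H ω) (v ω)) *
        (chainT κ ms (fun H => c * W H) (fun ω => v ω :: H ω)) ^ m =
        c ^ m * ∑ v : L → Fin nS, (∏ ω, κ (H ω) (v ω)) *
        (chainT κ ms W (fun ω => v ω :: H ω)) ^ m := by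
      rw [Finset.mul_sum]
      refine Finset.sum_congr rfl fun v _ => ?_
      rw [ih', Real.mul_rpow hc.le (hpos _).le]
      ring
    rw [e, Real.mul_rpow (Real.rpow_nonneg hc.le _) (Finset.sum_nonneg fun u _ => mul_nonneg
        (Finset.prod_nonneg fun l _ => hκ _ _) (Real.rpow_nonneg (hpos _).le _)),
      ← Real.rpow_mul hc.le, mul_one_div_cancel hm.ne', Real.rpow_one]

private theorem sgF4_const {L : Type} [Fintype L] [DecidableEq L] {nS : ℕ}
    {κ : List (Fin nS) → Fin nS → ℝ} (h1 : ∀ H, ∑ s, κ H s = 1)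
    {ms : List ℝ} (hms : ∀ m ∈ ms, 0 < m) {c : ℝ} (hc : 0 < c) (H : L → List (Fin nS)) :
    chainT κ ms (fun _ => c) H = c := by
  induction ms generalizing H with
  | nil => rw [chainT_nil]
  | cons m ms ih =>
    have hm : 0 < m := hms m (by simp)
    have ih' := ih (fun m' hm' => hms m' (List.mem_cons_of_mem _ hm'))
    rw [chainT_cons]
    simp only [ih']
    rw [← Finset.sum_mul, sgF4_sum_one (fun ω => κ (H ω)) fun ω => h1 _, one_mul,
      ← Real.rpow_mul hc.le, mul_one_div_cancel hm.ne', Real.rpow_one]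

private theorem sgF4_mono {L : Type} [Fintype L] [DecidableEq L] {nS : ℕ}
    {κ : List (Fin nS) → Fin nS → ℝ} (hκ : ∀ H s, 0 ≤ κ H s) (h1 : ∀ H, ∑ s, κ H s = 1)
    {ms : List ℝ} (hms : ∀ m ∈ ms, 0 < m)
    {W W' : (L → List (Fin nS)) → ℝ} (hW : ∀ H, 0 < W H) (h : ∀ H, W H ≤ W' H)
    (H : L → List (Fin nS)) :
    chainT κ ms W H ≤ chainT κ ms W' H := by
  induction ms generalizing H with
  | nil => rw [chainT_nil, chainT_nil]; exact h H
  | cons m ms ih =>
    have hm : 0 < m := hms m (by simp)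
    have ih' := ih (fun m' hm' => hms m' (List.mem_cons_of_mem _ hm'))
    have hpos : ∀ (H' : L → List (Fin nS)), 0 < chainT κ ms W H' := fun H' =>
      chainT_pos hκ h1 hW H'
    rw [chainT_cons, chainT_cons]
    apply Real.rpow_le_rpow
    · exact Finset.sum_nonneg fun u _ => mul_nonneg
        (Finset.prod_nonneg fun l _ => hκ _ _) (Real.rpow_nonneg (hpos _).le _)
    · refine Finset.sum_le_sum fun v _ => ?_
      apply mul_le_mul_of_nonneg_left _ (Finset.prod_nonneg fun l _ => hκ _ _)
      exact Real.rpow_le_rpow (hpos _).le (ih' _) hm.le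
    · positivity

/-- a factor which does not depend on the labels. -/
theorem logT0_const_mul (t : Trial) {L : Type} [Fintype L] [DecidableEq L] {c : ℝ} (hc : 0 < c)
    {W : (L → List (Fin t.nS)) → ℝ} (hW : ∀ H, 0 < W H) :
    t.logT0 (fun H => c * W H) = Real.log c + t.logT0 W := by
  unfold Trial.logT0
  have e : ∀ v : L → Fin t.nS,
      (∏ ω, t.κ [] (v ω)) * Real.log (chainT t.κ (List.ofFn t.m)
        (fun H => c * W H) (fun ω => [v ω])) =
      (∏ ω, t.κ [] (v ω)) * Real.log c + (∏ ω, t.κ [] (v ω)) *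
        Real.log (chainT t.κ (List.ofFn t.m) W (fun l => [v l])) := by
    intro v
    rw [sgF4_const_mul t.κ_nonneg t.κ_sum (sgF4_ms t) hc hW,
      Real.log_mul hc.ne' (chainT_pos t.κ_nonneg t.κ_sum hW _).ne', mul_add]
  rw [Finset.sum_congr rfl fun v _ => e v, Finset.sum_add_distrib, ← Finset.sum_mul,
    sgF4_sum_one (fun _ => t.κ []) fun ω => t.κ_sum _, one_mul]

theorem logT0_const (t : Trial) {L : Type} [Fintype L] [DecidableEq L] {c : ℝ} (hc : 0 < c) :
    t.logT0 (L := L) (fun _ => c) = Real.log c := by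
  unfold Trial.logT0
  simp only [sgF4_const t.κ_sum (sgF4_ms t) hc]
  rw [← Finset.sum_mul, sgF4_sum_one (fun _ => t.κ []) fun ω => t.κ_sum _, one_mul]

/-- uniform bound. -/
theorem abs_logT0_le (t : Trial) {L : Type} [Fintype L] [DecidableEq L] {c : ℝ}
    {W : (L → List (Fin t.nS)) → ℝ} (hW : ∀ H, 0 < W H) (h : ∀ H, |Real.log (W H)| ≤ c) :
    |t.logT0 W| ≤ c := by
  unfold Trial.logT0
  have hb : ∀ H, |Real.log (chainT t.κ (List.ofFn t.m) W H)| ≤ c := by
    intro H
    have h1 : chainT t.κ (List.ofFn t.m) W H ≤ Real.exp c := by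
      have := sgF4_mono (W' := fun _ => Real.exp c) t.κ_nonneg t.κ_sum (sgF4_ms t) hW
        (fun H => by
          rw [← Real.exp_log (hW H)]
          exact Real.exp_le_exp.2 (abs_le.1 (h H)).2) H
      rwa [sgF4_const t.κ_sum (sgF4_ms t) (Real.exp_pos c)] at this
    have h2 : Real.exp (-c) ≤ chainT t.κ (List.ofFn t.m) W H := by
      have := sgF4_mono (W := fun _ => Real.exp (-c)) (W' := W) t.κ_nonneg t.κ_sum (sgF4_ms t)
        (fun _ => Real.exp_pos _)
        (fun H => by
          rw [← Real.exp_log (hW H)]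
          exact Real.exp_le_exp.2 (abs_le.1 (h H)).1) H
      rwa [sgF4_const t.κ_sum (sgF4_ms t) (Real.exp_pos (-c))] at this
    have hp := chainT_pos t.κ_nonneg t.κ_sum hW (ms := List.ofFn t.m) H
    rw [abs_le]
    constructor
    · exact (Real.le_log_iff_exp_le hp).2 h2
    · exact (Real.log_le_iff_le_exp hp).2 h1
  calc |∑ v : L → Fin t.nS, (∏ ω, t.κ [] (v ω)) *
        Real.log (chainT t.κ (List.ofFn t.m) W (fun ω => [v ω]))|
      ≤ ∑ v : L → Fin t.nS, |(∏ ω, t.κ [] (v ω)) *
        Real.log (chainT t.κ (List.ofFn t.m) W (fun ω => [v ω]))| := Finset.abs_sum_le_sum_abs _ _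
    _ ≤ ∑ v : L → Fin t.nS, (∏ ω, t.κ [] (v ω)) * c := by
        refine Finset.sum_le_sum fun v _ => ?_
        rw [abs_mul, abs_of_nonneg (Finset.prod_nonneg fun ω _ => t.κ_nonneg _ _)]
        exact mul_le_mul_of_nonneg_left (hb _) (Finset.prod_nonneg fun ω _ => t.κ_nonneg _ _)
    _ = c := by
        rw [← Finset.sum_mul, sgF4_sum_one (fun _ => t.κ []) fun ω => t.κ_sum _, one_mul]

end Crest.SG
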