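import Crest.Agent.SG_F5

/-! # SG_F6a : replica formulas (part F of S0192)

`Ω` = the (tilted) system with spins `sp`, `A` = paths of one label (law `law v` given the level-0
state `v` of law `κ0`), message `X v x`.  Hints: expand `∏ k, (b ∏_l …)` as `b^(n+1) ∏_l ∏_k …`;
`Et_sum`, `Et_const_mul`, `Et_pi_prod`, `Et_prod_mul`; sums over `e.2 : Fin p → Fin nF` and over
the index tuple factorise (`Finset.prod_univ_sum`).  For `rep_field` split the product over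
`l : Fin p` into `l < p - 1` and `l = p - 1` (e.g. after `obtain ⟨q, rfl⟩ : ∃ q, p = q + 1`,
`Fin.prod_univ_castSucc`). -/

set_option autoImplicit false
set_option linter.unusedVariables false
noncomputable section
open scoped BigOperators
open Classical
open Crest.ProbabilityR.Diluted Crest.Agent.SGG
namespace Crest.SG

variable {p : ℕ} (C : Core p) {R : ℕ} {Ω A V : Type} [Fintype Ω] [Fintype A] [Fintype V]

/-- `E_f avg_j ∏_k f (σ^k_j)`. -/
def Rsite (N : ℕ) (sp : Ω → Fin N → Bool) {n : ℕ} (ω : Fin (n + 1) → Ω) : ℝ :=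
  ∑ i, C.wF i * ((N : ℝ)⁻¹ * ∑ j : Fin N, ∏ k, C.f i (sp (ω k) j))

/-- `E_f E_v E_t ∏_k f̄ (x^k)`. -/
def Amsg (S0 : Lev R A) (κ0 : V → ℝ) (law : V → A → ℝ) (X : V → A → ℝ) (n : ℕ)
    (t : Tree R n) : ℝ :=
  ∑ i, C.wF i * ∑ v, κ0 v * Et S0 (law v) n t (fun x => ∏ k, fbar C i (X v (x k)))

/-- the `(n+1)`-st moment of `b`. -/
def Bmom (n : ℕ) : ℝ := ∑ i, C.wB i * C.b i ^ (n + 1)

theorem Bmom_sign (n : ℕ) : (-1 : ℝ) ^ n * Bmom C n ≤ 0 := by
  have h := C.mom (n + 1) (by omega)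
  have e : (-1 : ℝ) ^ n * Bmom C n = -∑ i, C.wB i * (-C.b i) ^ (n + 1) := by
    unfold Bmom
    rw [Finset.mul_sum, ← Finset.sum_neg_distrib]
    refine Finset.sum_congr rfl fun i _ => ?_
    rw [neg_pow (C.b i) (n + 1), pow_succ (-1 : ℝ) n]
    ring
  rw [e]
  linarith

private theorem F6a_point {N : ℕ} (sp : Ω → Fin N → Bool) {n : ℕ} (ω : Fin (n + 1) → Ω) :
    ∑ a : E1 C N, w1 C a * ∏ k, gE C a.1 (fun l => sp (ω k) (a.2 l)) =
      Bmom C n * (Rsite C N sp ω) ^ p := by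
  set g : Fin C.nF → Fin N → ℝ := fun i j => ∏ k, C.f i (sp (ω k) j) with hg
  have h1 : (Rsite C N sp ω) ^ p = ∑ φ : Fin p → Fin C.nF, ∑ idx : Fin p → Fin N,
      (∏ l, C.wF (φ l)) * (((N : ℝ) ^ p)⁻¹ * ∏ l, g (φ l) (idx l)) := by
    unfold Rsite
    rw [Fintype.sum_pow]
    refine Finset.sum_congr rfl fun φ _ => ?_
    rw [Finset.prod_mul_distrib, Finset.prod_mul_distrib, Finset.prod_const, Finset.card_univ,
      Fintype.card_fin, inv_pow, Finset.prod_univ_sum, Fintype.piFinset_univ, Finset.mul_sum,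
      Finset.mul_sum]
  rw [h1]
  have h2 : ∀ a : E1 C N, w1 C a * ∏ k, gE C a.1 (fun l => sp (ω k) (a.2 l)) =
      (C.wB a.1.1 * C.b a.1.1 ^ (n + 1)) * ((∏ l, C.wF (a.1.2 l)) * (((N : ℝ) ^ p)⁻¹ *
        ∏ l, g (a.1.2 l) (a.2 l))) := by
    intro a
    unfold w1 gE Core.wE
    rw [Finset.prod_mul_distrib, Finset.prod_const, Finset.card_univ, Fintype.card_fin,
      Finset.prod_comm]
    ring
  simp only [h2]
  rw [Fintype.sum_prod_type, Fintype.sum_prod_type]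
  unfold Bmom
  rw [Finset.sum_mul]
  refine Finset.sum_congr rfl fun i _ => ?_
  rw [Finset.mul_sum]
  refine Finset.sum_congr rfl fun φ _ => ?_
  rw [Finset.mul_sum]

theorem rep_edge {N : ℕ} (hN : 1 ≤ N) (S : Lev R Ω) (Q : Ω → ℝ) (sp : Ω → Fin N → Bool)
    {n : ℕ} (t : Tree R n) :
    ∑ a : E1 C N, w1 C a *
        Et S Q n t (fun ω => ∏ k, gE C a.1 (fun l => sp (ω k) (a.2 l))) =
      Bmom C n * Et S Q n t (fun ω => (Rsite C N sp ω) ^ p) := by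
  simp only [← Et_const_mul]
  rw [← Et_sum]
  exact Et_congr S t fun ω => F6a_point C sp ω

private theorem F6a_Rsite_nonneg {N : ℕ} (sp : Ω → Fin N → Bool) {n : ℕ} (ω : Fin (n + 1) → Ω)
    (hf : ∀ φ s, 0 ≤ C.f φ s) : 0 ≤ Rsite C N sp ω :=
  Finset.sum_nonneg fun i _ => mul_nonneg (C.wF_nonneg i) (mul_nonneg (by positivity)
    (Finset.sum_nonneg fun j _ => Finset.prod_nonneg fun k _ => hf _ _))

private theorem F6a_Amsg_nonneg (S0 : Lev R A) {κ0 : V → ℝ} (h0 : ∀ v, 0 ≤ κ0 v)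
    {law : V → A → ℝ} (hlaw : ∀ v, PathLaw (law v)) (X : V → A → ℝ) {n : ℕ} (t : Tree R n)
    (hf : ∀ φ s, 0 ≤ C.f φ s) : 0 ≤ Amsg C S0 κ0 law X n t :=
  Finset.sum_nonneg fun i _ => mul_nonneg (C.wF_nonneg i) (Finset.sum_nonneg fun v _ =>
    mul_nonneg (h0 v) (Et_nonneg S0 (hlaw v) t fun x => Finset.prod_nonneg fun k _ =>
      fbar_nonneg C hf _ _))

/-- the sign of each term of the series. -/
theorem rep_sign (hp : 2 ≤ p) {N : ℕ} (hN : 1 ≤ N) (S : Lev R Ω) {Q : Ω → ℝ} (hQ : PathLaw Q)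
    (sp : Ω → Fin N → Bool) (S0 : Lev R A) {κ0 : V → ℝ} (h0 : ∀ v, 0 ≤ κ0 v)
    {law : V → A → ℝ} (hlaw : ∀ v, PathLaw (law v)) (X : V → A → ℝ)
    (hpos : Even p ∨ ∀ φ s, 0 ≤ C.f φ s) {n : ℕ} (t : Tree R n) :
    (-1 : ℝ) ^ n * (Bmom C n * Et S Q n t (fun ω => (Rsite C N sp ω) ^ p) -
      p * (Bmom C n * (Et S Q n t (fun ω => Rsite C N sp ω) *
        (Amsg C S0 κ0 law X n t) ^ (p - 1))) +
      ((p : ℝ) - 1) * (Bmom C n * (Amsg C S0 κ0 law X n t) ^ p)) ≤ 0 := by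
  set y := Amsg C S0 κ0 law X n t with hy
  have h1 : 0 ≤ Et S Q n t (fun ω => (Rsite C N sp ω) ^ p - p * (Rsite C N sp ω * y ^ (p - 1)) +
      ((p : ℝ) - 1) * y ^ p) := by
    refine Et_nonneg S hQ t fun ω => convex_ineq hp ?_
    rcases hpos with h | h
    · exact Or.inl h
    · exact Or.inr ⟨F6a_Rsite_nonneg C sp ω h, F6a_Amsg_nonneg C S0 h0 hlaw X t h⟩
  have h2 : Et S Q n t (fun ω => (Rsite C N sp ω) ^ p - p * (Rsite C N sp ω * y ^ (p - 1)) +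
      ((p : ℝ) - 1) * y ^ p) = Et S Q n t (fun ω => (Rsite C N sp ω) ^ p) -
        p * (Et S Q n t (fun ω => Rsite C N sp ω) * y ^ (p - 1)) + ((p : ℝ) - 1) * y ^ p := by
    rw [Et_add, Et_sub, Et_const S hQ]
    congr 2
    have : Et S Q n t (fun ω => (p : ℝ) * (Rsite C N sp ω * y ^ (p - 1))) =
        Et S Q n t (fun ω => ((p : ℝ) * y ^ (p - 1)) * Rsite C N sp ω) :=
      Et_congr S t fun ω => by ring
    rw [this, Et_const_mul]
    ring
  rw [h2] at h1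
  have h3 := Bmom_sign C n
  have h4 := mul_nonneg_of_nonpos_of_nonpos h3 (neg_nonpos.2 h1)
  nlinarith

end Crest.SG
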