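import Crest.Agent.SG_F6a

/-! # SG_F6b : replica formulas (part F of S0192)

`Ω` = the (tilted) system with spins `sp`, `A` = paths of one label (law `law v` given the level-0
state `v` of law `κ0`), message `X v x`.  Hints: expand `∏ k, (b ∏_l …)` as `b^(n+1) ∏_l ∏_k …`;
`Et_sum`, `Et_const_mul`, `Et_pi_prod`, `Et_prod_mul`; sums over `e.2 : Fin p → Fin nF` and over
the index tuple factorise (`Finset.prod_univ_sum`).  For `rep_field` split the product over
`l : Fin p` into `l < p - 1` and `l = p - 1` (e.g. after `obtain ⟨q, rfl⟩ : ∃ q, p = q + 1`,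
`Fin.prod_univ_castSucc`). -/

set_option autoImplicit false
set_option linter.unusedVariables false
noncomputable section
open scoped BigOperators
open Classical
open Crest.ProbabilityR.Diluted Crest.Agent.SGG
namespace Crest.SG

variable {p : ℕ} (C : Core p) {R : ℕ} {Ω A V : Type} [Fintype Ω] [Fintype A] [Fintype V]

theorem F6b_sum_pi {B : Type} [Fintype B] {q : ℕ} (g : Fin q → B → ℝ) :
    ∑ v : Fin q → B, ∏ l, g l (v l) = ∏ l, ∑ b, g l b := by
  rw [Finset.prod_univ_sum, Fintype.piFinset_univ]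

theorem F6b_Et_pi (S0 : Lev R A) {q : ℕ} {P : Fin q → A → ℝ} (hP : ∀ i, PathLaw (P i)) {n : ℕ}
    (t : Tree R n) (F : Fin q → (Fin (n + 1) → A) → ℝ) :
    Et (S0.pi (Fin q)) (fun ω : Fin q → A => ∏ i, P i (ω i)) n t
      (fun ω => ∏ i, F i (fun l => ω l i)) = ∏ i, Et S0 (P i) n t (F i) := by
  have h := Et_pi_prod S0 hP t F
  convert h

theorem F6b_inner (S0 : Lev R A) {law : V → A → ℝ} (hlaw : ∀ v, PathLaw (law v))
    (X : V → A → ℝ) {n : ℕ} (t : Tree R n) (e : C.E) (v : Fin p → V) :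
    Et (S0.pi (Fin p)) (fun x => ∏ l, law (v l) (x l)) n t
          (fun x => ∏ k, gM C e (fun l => X (v l) (x k l))) =
      C.b e.1 ^ (n + 1) * ∏ l, Et S0 (law (v l)) n t
        (fun x => ∏ k, fbar C (e.2 l) (X (v l) (x k))) := by
  rw [← F6b_Et_pi S0 (P := fun l => law (v l)) (fun l => hlaw (v l)) t
    (fun l x => ∏ k, fbar C (e.2 l) (X (v l) (x k))), ← Et_const_mul]
  refine Et_congr _ t fun x => ?_
  unfold gM
  rw [Finset.prod_mul_distrib, Finset.prod_const, Finset.card_univ, Fintype.card_fin,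
    Finset.prod_comm]

theorem rep_msg (S0 : Lev R A) {κ0 : V → ℝ} {law : V → A → ℝ} (hlaw : ∀ v, PathLaw (law v))
    (X : V → A → ℝ) {n : ℕ} (t : Tree R n) :
    ∑ e : C.E, C.wE e * ∑ v : Fin p → V, (∏ l, κ0 (v l)) *
        Et (S0.pi (Fin p)) (fun x => ∏ l, law (v l) (x l)) n t
          (fun x => ∏ k, gM C e (fun l => X (v l) (x k l))) =
      Bmom C n * (Amsg C S0 κ0 law X n t) ^ p := by
  set T : Fin C.nF → V → ℝ := fun i v => Et S0 (law v) n t (fun x => ∏ k, fbar C i (X v (x k)))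
    with hT
  have h1 : ∀ e : C.E, C.wE e * ∑ v : Fin p → V, (∏ l, κ0 (v l)) *
        Et (S0.pi (Fin p)) (fun x => ∏ l, law (v l) (x l)) n t
          (fun x => ∏ k, gM C e (fun l => X (v l) (x k l))) =
      (C.wB e.1 * C.b e.1 ^ (n + 1)) * ∏ l, (C.wF (e.2 l) * ∑ v, κ0 v * T (e.2 l) v) := by
    intro e
    have h2 : ∑ v : Fin p → V, (∏ l, κ0 (v l)) *
        Et (S0.pi (Fin p)) (fun x => ∏ l, law (v l) (x l)) n t
          (fun x => ∏ k, gM C e (fun l => X (v l) (x k l))) =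
        C.b e.1 ^ (n + 1) * ∏ l, ∑ v, κ0 v * T (e.2 l) v := by
      rw [← F6b_sum_pi (fun l v => κ0 v * T (e.2 l) v), Finset.mul_sum]
      refine Finset.sum_congr rfl fun v _ => ?_
      rw [F6b_inner C S0 hlaw X t e v, Finset.prod_mul_distrib]
      ring
    rw [h2]
    unfold Crest.Agent.SGG.Core.wE
    rw [Finset.prod_mul_distrib]
    ring
  rw [Finset.sum_congr rfl fun e _ => h1 e, Fintype.sum_prod_type]
  simp only
  have h3 : ∀ i : Fin C.nB, ∑ x : Fin p → Fin C.nF, (C.wB i * C.b i ^ (n + 1)) *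
      ∏ l, (C.wF (x l) * ∑ v, κ0 v * T (x l) v) =
      (C.wB i * C.b i ^ (n + 1)) * (Amsg C S0 κ0 law X n t) ^ p := by
    intro i
    rw [← Finset.mul_sum, F6b_sum_pi (fun _ j => C.wF j * ∑ v, κ0 v * T j v), Finset.prod_const,
      Finset.card_univ, Fintype.card_fin]
    rfl
  rw [Finset.sum_congr rfl fun i _ => h3 i, ← Finset.sum_mul]
  rfl

end Crest.SG
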