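import Crest.Agent.SG_F6a

/-! # SG_F6c : replica formulas (part F of S0192)

`Ω` = the (tilted) system with spins `sp`, `A` = paths of one label (law `law v` given the level-0
state `v` of law `κ0`), message `X v x`.  Hints: expand `∏ k, (b ∏_l …)` as `b^(n+1) ∏_l ∏_k …`;
`Et_sum`, `Et_const_mul`, `Et_pi_prod`, `Et_prod_mul`; sums over `e.2 : Fin p → Fin nF` and over
the index tuple factorise (`Finset.prod_univ_sum`).  For `rep_field` split the product over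
`l : Fin p` into `l < p - 1` and `l = p - 1` (e.g. after `obtain ⟨q, rfl⟩ : ∃ q, p = q + 1`,
`Fin.prod_univ_castSucc`). -/

set_option autoImplicit false
set_option linter.unusedVariables false
noncomputable section
open scoped BigOperators
open Classical
open Crest.ProbabilityR.Diluted Crest.Agent.SGG
namespace Crest.SG

private theorem F6c_sum_pi {ι κ : Type} [Fintype ι] [DecidableEq ι] [Fintype κ] (f : ι → κ → ℝ) :
    ∑ x : ι → κ, ∏ i, f i (x i) = ∏ i, ∑ k, f i k := by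
  rw [Finset.prod_univ_sum, Fintype.piFinset_univ]

private theorem F6c_Et_inst {R : ℕ} {Ω : Type} (i1 i2 : Fintype Ω) (S : Lev R Ω) (P : Ω → ℝ) {n : ℕ}
    (t : Tree R n) (F : (Fin (n + 1) → Ω) → ℝ) : @Et R Ω i1 S P n t F = @Et R Ω i2 S P n t F := by
  rw [Subsingleton.elim i1 i2]

private theorem F6c_Et_pi_prod {R : ℕ} {Ω : Type} [Fintype Ω] (S : Lev R Ω) {q : ℕ}
    {P : Fin q → Ω → ℝ} (hP : ∀ i, PathLaw (P i)) {n : ℕ} (t : Tree R n)
    (F : Fin q → (Fin (n + 1) → Ω) → ℝ) :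
    Et (S.pi (Fin q)) (fun ω : Fin q → Ω => ∏ i, P i (ω i)) n t
      (fun ω => ∏ i, F i (fun l => ω l i)) = ∏ i, Et S (P i) n t (F i) := by
  rw [← Et_pi_prod S hP t F]
  exact F6c_Et_inst _ _ _ _ _ _

private theorem F6c_gF {q : ℕ} (C : Core (q + 1)) (e : C.E) (ε : Bool) (y : Fin q → ℝ) :
    gF C e ε y = C.b e.1 * ((∏ l : Fin q, fbar C (e.2 l.castSucc) (y l)) *
      C.f (e.2 (Fin.last q)) ε) := by
  unfold gF
  rw [Fin.prod_univ_castSucc]
  congr 2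
  · refine Finset.prod_congr rfl fun l _ => ?_
    rw [dif_pos (show (l.castSucc : Fin (q + 1)).val < q + 1 - 1 from l.2)]
    rfl
  · rw [dif_neg (show ¬ (Fin.last q).val < q + 1 - 1 from lt_irrefl q)]

private theorem F6c_prod {q n : ℕ} (C : Core (q + 1)) (e : C.E) {Ω A : Type}
    (s : Fin (n + 1) → Bool) (y : Fin (n + 1) → Fin q → ℝ) :
    ∏ k, gF C e (s k) (y k) = C.b e.1 ^ (n + 1) *
      ((∏ k, C.f (e.2 (Fin.last q)) (s k)) * ∏ l : Fin q, ∏ k, fbar C (e.2 l.castSucc) (y k l)) := by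
  rw [Finset.prod_congr rfl fun k _ => F6c_gF C e (s k) (y k), Finset.prod_mul_distrib,
    Finset.prod_const, Finset.card_univ, Fintype.card_fin, Finset.prod_mul_distrib,
    Finset.prod_comm]
  ring

variable {R : ℕ} {Ω A V : Type} [Fintype Ω] [Fintype A] [Fintype V]

/-- the spin factor. -/
private def F6c_a {p : ℕ} (C : Core p) {N : ℕ} (S : Lev R Ω) (Q : Ω → ℝ) (sp : Ω → Fin N → Bool)
    {n : ℕ} (t : Tree R n) (i : Fin C.nF) (j : Fin N) : ℝ :=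
  Et S Q n t (fun ω => ∏ k, C.f i (sp (ω k) j))

/-- the message factor. -/
private def F6c_m {p : ℕ} (C : Core p) (S0 : Lev R A) (law : V → A → ℝ) (X : V → A → ℝ)
    {n : ℕ} (t : Tree R n) (i : Fin C.nF) (v : V) : ℝ :=
  Et S0 (law v) n t (fun x => ∏ k, fbar C i (X v (x k)))

private theorem F6c_Et {q : ℕ} (C : Core (q + 1)) {N : ℕ} (S : Lev R Ω) {Q : Ω → ℝ}
    (hQ : PathLaw Q) (sp : Ω → Fin N → Bool) (S0 : Lev R A) {law : V → A → ℝ}
    (hlaw : ∀ v, PathLaw (law v)) (X : V → A → ℝ) {n : ℕ} (t : Tree R n) (e : C.E) (j : Fin N)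
    (v : Fin q → V) :
    Et (S.prod (S0.pi (Fin q))) (fun x => Q x.1 * ∏ l, law (v l) (x.2 l)) n t
        (fun ω => ∏ k, gF C e (sp (ω k).1 j) (fun l => X (v l) ((ω k).2 l))) =
      C.b e.1 ^ (n + 1) * (F6c_a C S Q sp t (e.2 (Fin.last q)) j *
        ∏ l : Fin q, F6c_m C S0 law X t (e.2 l.castSucc) (v l)) := by
  have hL : PathLaw (fun x : Fin q → A => ∏ l, law (v l) (x l)) := by
    constructor
    · intro x
      exact Finset.prod_pos fun l _ => (hlaw (v l)).pos _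
    · rw [F6c_sum_pi (fun (l : Fin q) x => law (v l) x)]
      exact Finset.prod_eq_one fun l _ => (hlaw (v l)).sum
  have h1 : (fun ω : Fin (n + 1) → Ω × (Fin q → A) =>
      ∏ k, gF C e (sp (ω k).1 j) (fun l => X (v l) ((ω k).2 l))) =
      fun ω => C.b e.1 ^ (n + 1) * ((∏ k, C.f (e.2 (Fin.last q)) (sp (ω k).1 j)) *
        ∏ l : Fin q, ∏ k, fbar C (e.2 l.castSucc) (X (v l) ((ω k).2 l))) := by
    funext ω
    exact F6c_prod (Ω := Ω) (A := A) C e (fun k => sp (ω k).1 j)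
      (fun k l => X (v l) ((ω k).2 l))
  rw [h1, Et_const_mul]
  congr 1
  rw [Et_prod_mul S (S0.pi (Fin q)) hQ hL t
    (fun ω => ∏ k, C.f (e.2 (Fin.last q)) (sp (ω k) j))
    (fun x => ∏ l : Fin q, ∏ k, fbar C (e.2 l.castSucc) (X (v l) (x k l)))]
  rw [F6c_Et_pi_prod S0 (fun l => hlaw (v l)) t
    (fun l x => ∏ k, fbar C (e.2 l.castSucc) (X (v l) (x k)))]
  rfl

private theorem F6c_sum {q : ℕ} (C : Core (q + 1)) (a : Fin C.nF → ℝ) (M : Fin C.nF → ℝ) :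
    ∑ x : Fin (q + 1) → Fin C.nF, (∏ l, C.wF (x l)) * (a (x (Fin.last q)) *
      ∏ l : Fin q, M (x l.castSucc)) = (∑ i, C.wF i * a i) * (∑ i, C.wF i * M i) ^ q := by
  have h1 := F6c_sum_pi (fun (l : Fin (q + 1)) (i : Fin C.nF) =>
    (Fin.snoc (α := fun _ => Fin C.nF → ℝ) (fun (_ : Fin q) i => C.wF i * M i)
      (fun i => C.wF i * a i) : Fin (q + 1) → Fin C.nF → ℝ) l i)
  rw [Fin.prod_univ_castSucc] at h1
  simp only [Fin.snoc_castSucc, Fin.snoc_last] at h1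
  rw [Finset.prod_const, Finset.card_univ, Fintype.card_fin] at h1
  rw [mul_comm (∑ i, C.wF i * a i), ← h1]
  refine Finset.sum_congr rfl fun x _ => ?_
  rw [Fin.prod_univ_castSucc, Fin.prod_univ_castSucc]
  simp only [Fin.snoc_castSucc, Fin.snoc_last]
  rw [Finset.prod_mul_distrib]
  ring

private theorem F6c_main {q : ℕ} (C : Core (q + 1)) {N : ℕ} (S : Lev R Ω) {Q : Ω → ℝ}
    (hQ : PathLaw Q) (sp : Ω → Fin N → Bool) (S0 : Lev R A) {κ0 : V → ℝ} {law : V → A → ℝ}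
    (hlaw : ∀ v, PathLaw (law v)) (X : V → A → ℝ) {n : ℕ} (t : Tree R n) :
    ∑ b : E2 C N, w2 C b * ∑ v : Fin q → V, (∏ l, κ0 (v l)) *
        Et (S.prod (S0.pi (Fin q))) (fun x => Q x.1 * ∏ l, law (v l) (x.2 l)) n t
          (fun ω => ∏ k, gF C b.1 (sp (ω k).1 b.2) (fun l => X (v l) ((ω k).2 l))) =
      Bmom C n * (Et S Q n t (fun ω => Rsite C N sp ω) * (Amsg C S0 κ0 law X n t) ^ q) := by
  set M : Fin C.nF → ℝ := fun i => ∑ v, κ0 v * F6c_m C S0 law X t i v with hM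
  have hA : Amsg C S0 κ0 law X n t = ∑ i, C.wF i * M i := rfl
  have hR : Et S Q n t (fun ω => Rsite C N sp ω) =
      ∑ i, C.wF i * ((N : ℝ)⁻¹ * ∑ j : Fin N, F6c_a C S Q sp t i j) := by
    unfold Rsite F6c_a
    rw [Et_sum S Finset.univ t (fun (i : Fin C.nF) (ω : Fin (n + 1) → Ω) =>
      C.wF i * ((N : ℝ)⁻¹ * ∑ j : Fin N, ∏ k, C.f i (sp (ω k) j)))]
    refine Finset.sum_congr rfl fun i _ => ?_
    rw [Et_const_mul, Et_const_mul,
      Et_sum S Finset.univ t (fun (j : Fin N) (ω : Fin (n + 1) → Ω) => ∏ k, C.f i (sp (ω k) j))]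
  have h1 : ∀ b : E2 C N, w2 C b * ∑ v : Fin q → V, (∏ l, κ0 (v l)) *
        Et (S.prod (S0.pi (Fin q))) (fun x => Q x.1 * ∏ l, law (v l) (x.2 l)) n t
          (fun ω => ∏ k, gF C b.1 (sp (ω k).1 b.2) (fun l => X (v l) ((ω k).2 l))) =
      (C.wB b.1.1 * C.b b.1.1 ^ (n + 1)) * ((N : ℝ)⁻¹ * ((∏ l, C.wF (b.1.2 l)) *
        (F6c_a C S Q sp t (b.1.2 (Fin.last q)) b.2 * ∏ l : Fin q, M (b.1.2 l.castSucc)))) := by
    intro b
    have h2 : ∑ v : Fin q → V, (∏ l, κ0 (v l)) *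
        Et (S.prod (S0.pi (Fin q))) (fun x => Q x.1 * ∏ l, law (v l) (x.2 l)) n t
          (fun ω => ∏ k, gF C b.1 (sp (ω k).1 b.2) (fun l => X (v l) ((ω k).2 l))) =
        C.b b.1.1 ^ (n + 1) * (F6c_a C S Q sp t (b.1.2 (Fin.last q)) b.2 *
          ∏ l : Fin q, M (b.1.2 l.castSucc)) := by
      rw [hM, ← F6c_sum_pi (fun (l : Fin q) (v : V) => κ0 v * F6c_m C S0 law X t (b.1.2 l.castSucc) v),
        Finset.mul_sum, Finset.mul_sum]
      refine Finset.sum_congr rfl fun v _ => ?_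
      rw [F6c_Et C S hQ sp S0 hlaw X t b.1 b.2 v, Finset.prod_mul_distrib]
      ring
    rw [h2]
    unfold w2 Core.wE
    ring
  rw [Finset.sum_congr rfl fun b _ => h1 b, Fintype.sum_prod_type, Fintype.sum_prod_type]
  unfold Bmom
  rw [Finset.sum_mul]
  refine Finset.sum_congr rfl fun ib _ => ?_
  simp only
  rw [Finset.sum_comm]
  have h3 : ∀ j : Fin N, ∑ x : Fin (q + 1) → Fin C.nF,
      (C.wB ib * C.b ib ^ (n + 1)) * ((N : ℝ)⁻¹ * ((∏ l, C.wF (x l)) *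
        (F6c_a C S Q sp t (x (Fin.last q)) j * ∏ l : Fin q, M (x l.castSucc)))) =
      (C.wB ib * C.b ib ^ (n + 1)) * ((N : ℝ)⁻¹ * ((∑ i, C.wF i * F6c_a C S Q sp t i j) *
        (∑ i, C.wF i * M i) ^ q)) := by
    intro j
    rw [← Finset.mul_sum, ← Finset.mul_sum, F6c_sum C (fun i => F6c_a C S Q sp t i j) M]
  rw [Finset.sum_congr rfl fun j _ => h3 j, ← Finset.mul_sum, ← Finset.mul_sum, ← Finset.sum_mul,
    hA, hR]
  congr 1
  rw [← mul_assoc]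
  congr 1
  rw [Finset.sum_comm, Finset.mul_sum]
  refine Finset.sum_congr rfl fun i _ => ?_
  rw [← Finset.mul_sum]
  ring

variable {p : ℕ} (C : Core p)

theorem rep_field (hp : 1 ≤ p) {N : ℕ} (hN : 1 ≤ N) (S : Lev R Ω) {Q : Ω → ℝ} (hQ : PathLaw Q)
    (sp : Ω → Fin N → Bool) (S0 : Lev R A) {κ0 : V → ℝ} {law : V → A → ℝ}
    (hlaw : ∀ v, PathLaw (law v)) (X : V → A → ℝ) {n : ℕ} (t : Tree R n) :
    ∑ b : E2 C N, w2 C b * ∑ v : Fin (p - 1) → V, (∏ l, κ0 (v l)) *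
        Et (S.prod (S0.pi (Fin (p - 1)))) (fun x => Q x.1 * ∏ l, law (v l) (x.2 l)) n t
          (fun ω => ∏ k, gF C b.1 (sp (ω k).1 b.2) (fun l => X (v l) ((ω k).2 l))) =
      Bmom C n * (Et S Q n t (fun ω => Rsite C N sp ω) * (Amsg C S0 κ0 law X n t) ^ (p - 1)) := by
  obtain ⟨q, rfl⟩ : ∃ q, p = q + 1 := ⟨p - 1, by omega⟩
  exact F6c_main C S hQ sp S0 hlaw X t

end Crest.SG
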