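import Crest.Agent.SG_F6a
import Crest.Agent.SG_F6b
import Crest.Agent.SG_F6c

/-! # SG_F7 : the core inequality between the three increments (part F of S0192)

Hint: apply `LE_series` with `K` terms to the three `LT0`; by `rep_edge`, `rep_field`, `rep_msg`,
`rep_sign` (and `wt_nonneg`) the truncated sum is `≤ 0`; the error is
`≤ (1 + p + (p - 1)) q0^(K+1)/(1-q0) → 0` (`ge_of_tendsto`/`le_of_forall_pos_le_add`). -/

set_option autoImplicit false
set_option linter.unusedVariables false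
noncomputable section
open scoped BigOperators
open Classical
open Crest.ProbabilityR.Diluted Crest.Agent.SGG
namespace Crest.SG

/-- averages of truncated expansions. -/
private theorem F7_avg {ι : Type} [Fintype ι] {w x : ι → ℝ} {y : ℕ → ι → ℝ} {u : ℕ → ℝ}
    (hw : ∀ i, 0 ≤ w i) (h1 : ∑ i, w i = 1) {ε : ℝ} {K : ℕ}
    (h : ∀ i, |x i - ∑ n ∈ Finset.range K, u n * y n i| ≤ ε) :
    |∑ i, w i * x i - ∑ n ∈ Finset.range K, u n * ∑ i, w i * y n i| ≤ ε := by
  have e : ∑ i, w i * x i - ∑ n ∈ Finset.range K, u n * ∑ i, w i * y n i =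
      ∑ i, w i * (x i - ∑ n ∈ Finset.range K, u n * y n i) := by
    simp only [mul_sub, Finset.sum_sub_distrib, Finset.mul_sum]
    congr 1
    rw [Finset.sum_comm]
    refine Finset.sum_congr rfl fun i _ => Finset.sum_congr rfl fun n _ => ?_
    ring
  rw [e]
  calc |∑ i, w i * (x i - ∑ n ∈ Finset.range K, u n * y n i)|
      ≤ ∑ i, |w i * (x i - ∑ n ∈ Finset.range K, u n * y n i)| := Finset.abs_sum_le_sum_abs _ _
    _ ≤ ∑ i, w i * ε := by
        refine Finset.sum_le_sum fun i _ => ?_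
        rw [abs_mul, abs_of_nonneg (hw i)]
        exact mul_le_mul_of_nonneg_left (h i) (hw i)
    _ = ε := by rw [← Finset.sum_mul, h1, one_mul]

/-- exchange of a finite average and the tree sum. -/
private theorem F7_swap {ι τ : Type} [Fintype ι] [Fintype τ] (w : ι → ℝ) (v : τ → ℝ)
    (G : ι → τ → ℝ) :
    ∑ i, w i * ∑ t, v t * G i t = ∑ t, v t * ∑ i, w i * G i t := by
  simp only [Finset.mul_sum]
  rw [Finset.sum_comm]
  refine Finset.sum_congr rfl fun t _ => Finset.sum_congr rfl fun i _ => ?_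
  ring

/-- product law over `Fin k` (with the standard `Fintype` instance). -/
private theorem F7_pathLaw_pi {A : Type} [Fintype A] {k : ℕ} {P : Fin k → A → ℝ}
    (hP : ∀ i, PathLaw (P i)) : PathLaw (fun ω : Fin k → A => ∏ i, P i (ω i)) := by
  refine ⟨fun ω => Finset.prod_pos fun i _ => (hP i).pos _, ?_⟩
  have h := Finset.prod_univ_sum (fun _ : Fin k => (Finset.univ : Finset A)) (fun i x => P i x)
  rw [Fintype.piFinset_univ] at h
  rw [← h]
  simp [fun i => (hP i).sum]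

variable {p : ℕ} (C : Core p) {R : ℕ} {Ω A V : Type} [Fintype Ω] [Fintype A] [Fintype V]

theorem core_ineq (hp : 2 ≤ p) {N : ℕ} (hN : 1 ≤ N) {m : ℕ → ℝ} (E : Expo R m) (S : Lev R Ω)
    {Q : Ω → ℝ} (hQ : PathLaw Q) (sp : Ω → Fin N → Bool) (S0 : Lev R A) {κ0 : V → ℝ}
    (h0 : ∀ v, 0 ≤ κ0 v) (h1 : ∑ v, κ0 v = 1) {law : V → A → ℝ} (hlaw : ∀ v, PathLaw (law v))
    (X : V → A → ℝ) (hpos : Even p ∨ ∀ φ s, 0 ≤ C.f φ s) :
    (∑ a : E1 C N, w1 C a * LT0 S m Q (fun ω => 1 + gE C a.1 (fun l => sp ω (a.2 l)))) -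
      p * (∑ b : E2 C N, w2 C b * ∑ v : Fin (p - 1) → V, (∏ l, κ0 (v l)) *
        LT0 (S.prod (S0.pi (Fin (p - 1)))) m (fun x => Q x.1 * ∏ l, law (v l) (x.2 l))
          (fun x => 1 + gF C b.1 (sp x.1 b.2) (fun l => X (v l) (x.2 l)))) +
      ((p : ℝ) - 1) * (∑ e : C.E, C.wE e * ∑ v : Fin p → V, (∏ l, κ0 (v l)) *
        LT0 (S0.pi (Fin p)) m (fun x => ∏ l, law (v l) (x l))
          (fun x => 1 + gM C e (fun l => X (v l) (x l)))) ≤ 0 := by
  have hp1 : 1 ≤ p := by omega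
  have hq := C.q0_lt
  have hq0 := C.q0_nonneg
  have hpR : (2 : ℝ) ≤ p := by exact_mod_cast hp
  set u : ℕ → ℝ := fun n => (-1 : ℝ) ^ n / ((n : ℝ) + 1) with hu
  -- truncated coefficients
  set T1 : ℕ → ℝ := fun n => ∑ a : E1 C N, w1 C a *
    En S m Q n (fun _ ω => ∏ l, gE C a.1 (fun l' => sp (ω l) (a.2 l'))) with hT1
  set T2 : ℕ → ℝ := fun n => ∑ b : E2 C N, w2 C b * ∑ v : Fin (p - 1) → V, (∏ l, κ0 (v l)) *
    En (S.prod (S0.pi (Fin (p - 1)))) m (fun x => Q x.1 * ∏ l, law (v l) (x.2 l)) n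
      (fun _ ω => ∏ k, gF C b.1 (sp (ω k).1 b.2) (fun l => X (v l) ((ω k).2 l))) with hT2
  set T3 : ℕ → ℝ := fun n => ∑ e : C.E, C.wE e * ∑ v : Fin p → V, (∏ l, κ0 (v l)) *
    En (S0.pi (Fin p)) m (fun x => ∏ l, law (v l) (x l)) n
      (fun _ ω => ∏ k, gM C e (fun l => X (v l) (ω k l))) with hT3
  have hsign : ∀ n, u n * (T1 n - p * T2 n + ((p : ℝ) - 1) * T3 n) ≤ 0 := by
    intro n
    have e1 : T1 n = ∑ t, wt m R n t * (Bmom C n * Et S Q n t (fun ω => (Rsite C N sp ω) ^ p)) := by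
      simp only [hT1, En]
      rw [F7_swap]
      exact Finset.sum_congr rfl fun t _ => by rw [rep_edge C hN S Q sp t]
    have e2 : T2 n = ∑ t, wt m R n t * (Bmom C n * (Et S Q n t (fun ω => Rsite C N sp ω) *
        (Amsg C S0 κ0 law X n t) ^ (p - 1))) := by
      simp only [hT2, En]
      have : ∀ b : E2 C N, (∑ v : Fin (p - 1) → V, (∏ l, κ0 (v l)) *
          ∑ t, wt m R n t * Et (S.prod (S0.pi (Fin (p - 1))))
            (fun x => Q x.1 * ∏ l, law (v l) (x.2 l)) n t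
            (fun ω => ∏ k, gF C b.1 (sp (ω k).1 b.2) (fun l => X (v l) ((ω k).2 l)))) =
          ∑ t, wt m R n t * ∑ v : Fin (p - 1) → V, (∏ l, κ0 (v l)) *
            Et (S.prod (S0.pi (Fin (p - 1))))
            (fun x => Q x.1 * ∏ l, law (v l) (x.2 l)) n t
            (fun ω => ∏ k, gF C b.1 (sp (ω k).1 b.2) (fun l => X (v l) ((ω k).2 l))) :=
        fun b => F7_swap _ _ _
      simp only [this]
      rw [F7_swap]
      exact Finset.sum_congr rfl fun t _ => by rw [rep_field C hp1 hN S hQ sp S0 hlaw X t]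
    have e3 : T3 n = ∑ t, wt m R n t * (Bmom C n * (Amsg C S0 κ0 law X n t) ^ p) := by
      simp only [hT3, En]
      have : ∀ e : C.E, (∑ v : Fin p → V, (∏ l, κ0 (v l)) *
          ∑ t, wt m R n t * Et (S0.pi (Fin p)) (fun x => ∏ l, law (v l) (x l)) n t
            (fun ω => ∏ k, gM C e (fun l => X (v l) (ω k l)))) =
          ∑ t, wt m R n t * ∑ v : Fin p → V, (∏ l, κ0 (v l)) *
            Et (S0.pi (Fin p)) (fun x => ∏ l, law (v l) (x l)) n t
            (fun ω => ∏ k, gM C e (fun l => X (v l) (ω k l))) :=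
        fun b => F7_swap _ _ _
      simp only [this]
      rw [F7_swap]
      exact Finset.sum_congr rfl fun t _ => by rw [rep_msg C S0 hlaw X t]
    have e4 : u n * (T1 n - p * T2 n + ((p : ℝ) - 1) * T3 n) =
        ∑ t, wt m R n t * ((1 / ((n : ℝ) + 1)) * ((-1 : ℝ) ^ n * (Bmom C n * Et S Q n t (fun ω => (Rsite C N sp ω) ^ p) -
      p * (Bmom C n * (Et S Q n t (fun ω => Rsite C N sp ω) *
        (Amsg C S0 κ0 law X n t) ^ (p - 1))) +
      ((p : ℝ) - 1) * (Bmom C n * (Amsg C S0 κ0 law X n t) ^ p)))) := by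
      rw [e1, e2, e3, hu]
      simp only [Finset.mul_sum]
      rw [← Finset.sum_sub_distrib, ← Finset.sum_add_distrib, Finset.mul_sum]
      refine Finset.sum_congr rfl fun t _ => ?_
      ring
    rw [e4]
    refine Finset.sum_nonpos fun t _ => ?_
    have hs := rep_sign C hp hN S hQ sp S0 h0 hlaw X hpos t
    have hw := wt_nonneg E t
    have hn : (0 : ℝ) ≤ 1 / ((n : ℝ) + 1) := by positivity
    exact mul_nonpos_of_nonneg_of_nonpos hw (mul_nonpos_of_nonneg_of_nonpos hn hs)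
  have hκ : ∀ k : ℕ, ∀ v : Fin k → V, 0 ≤ ∏ l, κ0 (v l) := fun k v =>
    Finset.prod_nonneg fun l _ => h0 _
  -- the three expansions
  have key : ∀ K : ℕ,
      (∑ a : E1 C N, w1 C a * LT0 S m Q (fun ω => 1 + gE C a.1 (fun l => sp ω (a.2 l)))) -
      p * (∑ b : E2 C N, w2 C b * ∑ v : Fin (p - 1) → V, (∏ l, κ0 (v l)) *
        LT0 (S.prod (S0.pi (Fin (p - 1)))) m (fun x => Q x.1 * ∏ l, law (v l) (x.2 l))
          (fun x => 1 + gF C b.1 (sp x.1 b.2) (fun l => X (v l) (x.2 l)))) +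
      ((p : ℝ) - 1) * (∑ e : C.E, C.wE e * ∑ v : Fin p → V, (∏ l, κ0 (v l)) *
        LT0 (S0.pi (Fin p)) m (fun x => ∏ l, law (v l) (x l))
          (fun x => 1 + gM C e (fun l => X (v l) (x l)))) ≤
      (2 * (p : ℝ)) * (C.q0 ^ (K + 1) / (1 - C.q0)) := by
    intro K
    set ε : ℝ := C.q0 ^ (K + 1) / (1 - C.q0) with hε
    have b1 : |(∑ a : E1 C N, w1 C a * LT0 S m Q (fun ω => 1 + gE C a.1 (fun l => sp ω (a.2 l)))) -
        ∑ n ∈ Finset.range K, u n * T1 n| ≤ ε := by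
      refine F7_avg (w1_nonneg C) (w1_sum C hN) fun a => ?_
      exact LE_series S E hQ hq (fun ω => abs_gE_le C _ _) K
    have b2 : |(∑ b : E2 C N, w2 C b * ∑ v : Fin (p - 1) → V, (∏ l, κ0 (v l)) *
        LT0 (S.prod (S0.pi (Fin (p - 1)))) m (fun x => Q x.1 * ∏ l, law (v l) (x.2 l))
          (fun x => 1 + gF C b.1 (sp x.1 b.2) (fun l => X (v l) (x.2 l)))) -
        ∑ n ∈ Finset.range K, u n * T2 n| ≤ ε := by
      refine F7_avg (w2_nonneg C) (w2_sum C hN) fun b => ?_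
      refine F7_avg (hκ _) (sum_prod_weights h1 _) fun v => ?_
      exact LE_series _ E (pathLaw_prod hQ (F7_pathLaw_pi fun l => hlaw (v l))) hq
        (fun x => abs_gF_le C hp1 _ _ _) K
    have b3 : |(∑ e : C.E, C.wE e * ∑ v : Fin p → V, (∏ l, κ0 (v l)) *
        LT0 (S0.pi (Fin p)) m (fun x => ∏ l, law (v l) (x l))
          (fun x => 1 + gM C e (fun l => X (v l) (x l)))) -
        ∑ n ∈ Finset.range K, u n * T3 n| ≤ ε := by
      refine F7_avg (wE_nonneg C) (wE_sum C) fun e => ?_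
      refine F7_avg (hκ _) (sum_prod_weights h1 _) fun v => ?_
      exact LE_series _ E (F7_pathLaw_pi fun l => hlaw (v l)) hq
        (fun x => abs_gM_le C _ _) K
    have hs : ∑ n ∈ Finset.range K, u n * T1 n - p * ∑ n ∈ Finset.range K, u n * T2 n +
        ((p : ℝ) - 1) * ∑ n ∈ Finset.range K, u n * T3 n ≤ 0 := by
      have e : ∑ n ∈ Finset.range K, u n * T1 n - p * ∑ n ∈ Finset.range K, u n * T2 n +
        ((p : ℝ) - 1) * ∑ n ∈ Finset.range K, u n * T3 n =
        ∑ n ∈ Finset.range K, u n * (T1 n - p * T2 n + ((p : ℝ) - 1) * T3 n) := by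
        simp only [Finset.mul_sum]
        rw [← Finset.sum_sub_distrib, ← Finset.sum_add_distrib]
        refine Finset.sum_congr rfl fun t _ => ?_
        ring
      rw [e]
      exact Finset.sum_nonpos fun n _ => hsign n
    have c1 := (abs_le.1 b1).2
    have c2 := (abs_le.1 b2).1
    have c3 := (abs_le.1 b3).2
    have c2' := mul_le_mul_of_nonneg_left c2 (by linarith : (0 : ℝ) ≤ p)
    have c3' := mul_le_mul_of_nonneg_left c3 (by linarith : (0 : ℝ) ≤ (p : ℝ) - 1)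
    linarith
  have hlim : Filter.Tendsto (fun K : ℕ => (2 * (p : ℝ)) * (C.q0 ^ (K + 1) / (1 - C.q0)))
      Filter.atTop (nhds 0) := by
    have h2 := ((tendsto_pow_atTop_nhds_zero_of_lt_one hq0 hq).comp
      (Filter.tendsto_add_atTop_nat 1)).div_const (1 - C.q0)
    have h3 := h2.const_mul (2 * (p : ℝ))
    simpa using h3
  exact ge_of_tendsto' hlim key

end Crest.SG
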