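import Crest.Agent.SG_F2
import Crest.Agent.SG_F3
import Crest.Agent.SG_F4
import Crest.Agent.SG_F5

/-! # SG_F8a : the interpolating system as `LT0`, adding an edge (part F of S0192)

`sysLev`, `sysLaw`, `sysW` : the leveled space, the law and the Boltzmann factor of the system with
labels `Fin K × Fin (p-1)` (level-0 states `v`) and `N` spins. -/

set_option autoImplicit false
set_option linter.unusedVariables false
noncomputable section
open scoped BigOperators
open Classical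
open Crest.ProbabilityR.Diluted Crest.Agent.SGG
namespace Crest.SG

variable {p : ℕ} (C : Core p) (t : Trial)

/-- sample space of the system : label paths and spins. -/
abbrev SysΩ (p : ℕ) (t : Trial) (N K : ℕ) : Type :=
  (Fin K × Fin (p - 1) → Fin t.r → Fin t.nS) × (Fin N → Bool)

def sysLev (p : ℕ) (N K : ℕ) : Lev (t.r + 1) (SysΩ p t N K) :=
  ((labLev t.r t.nS).pi (Fin K × Fin (p - 1))).prod (topLev t.r (Fin N → Bool))

def sysLaw {N K : ℕ} (v : Fin K × Fin (p - 1) → Fin t.nS) (x : SysΩ p t N K) : ℝ :=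
  lawL t.κ v x.1 * unif (Fin N → Bool) x.2

def sysW {N M K : ℕ} (a : Fin M → E1 C N) (b : Fin K → E2 C N) (y : Fin N → Fin C.nH)
    (v : Fin K × Fin (p - 1) → Fin t.nS) (x : SysΩ p t N K) : ℝ :=
  Wsys C a b y (fun k l => t.X (hst (v (k, l)) (x.1 (k, l)) t.r)) x.2

theorem F8a_gE_pos (e : C.E) (s : Fin p → Bool) : 0 < 1 + gE C e s := by
  have h := (abs_le.1 (abs_gE_le C e s)).1
  have := C.q0_lt
  linarith

theorem F8a_gF_pos (hp : 1 ≤ p) (e : C.E) (ε : Bool) (x : Fin (p - 1) → ℝ) :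
    0 < 1 + gF C e ε x := by
  have h := (abs_le.1 (abs_gF_le C hp e ε x)).1
  have := C.q0_lt
  linarith

theorem Wsys_pos (hp : 1 ≤ p) {N M K : ℕ} (a : Fin M → E1 C N) (b : Fin K → E2 C N)
    (y : Fin N → Fin C.nH) (xs : Fin K → Fin (p - 1) → ℝ) (σ : Fin N → Bool) :
    0 < Wsys C a b y xs σ := by
  unfold Wsys
  refine mul_pos (mul_pos ?_ ?_) ?_
  · exact Finset.prod_pos fun k _ => F8a_gE_pos C _ _
  · exact Finset.prod_pos fun k _ => F8a_gF_pos C hp _ _ _
  · exact Finset.prod_pos fun i _ => Real.exp_pos _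

theorem sysLaw_pathLaw (ht : ∀ H s, 0 < t.κ H s) {N K : ℕ}
    (v : Fin K × Fin (p - 1) → Fin t.nS) : PathLaw (sysLaw (N := N) t v) :=
  pathLaw_prod (lawL_pathLaw ht t.κ_sum v) (pathLaw_unif (Fin N → Bool))

/-- the inner term of `Phi` is an average of `LT0`. -/
theorem logT0_sys (hp : 1 ≤ p) (ht : ∀ H s, 0 < t.κ H s) {N M K : ℕ} (a : Fin M → E1 C N)
    (b : Fin K → E2 C N) (y : Fin N → Fin C.nH) :
    t.logT0 (L := Fin K × Fin (p - 1)) (fun H => ∑ σ : Fin N → Bool, unif (Fin N → Bool) σ *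
        Wsys C a b y (fun k l => t.X (H (k, l))) σ) =
      ∑ v : Fin K × Fin (p - 1) → Fin t.nS, (∏ l, t.κ [] (v l)) *
        LT0 (sysLev t p N K) (mmF t.m) (sysLaw t v) (sysW C t a b y v) := by
  have hu := pathLaw_unif (Fin N → Bool)
  have hV : ∀ H : Fin K × Fin (p - 1) → List (Fin t.nS),
      0 < ∑ σ : Fin N → Bool, unif (Fin N → Bool) σ *
        Wsys C a b y (fun k l => t.X (H (k, l))) σ := fun H =>
    Finset.sum_pos (fun σ _ => mul_pos (hu.pos σ) (Wsys_pos C hp a b y _ σ))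
      Finset.univ_nonempty
  unfold Trial.logT0
  refine Finset.sum_congr rfl fun v _ => ?_
  rw [link0 t.adm ht t.κ_sum hV v]
  congr 1
  have hS : ∀ a a' : Fin K × Fin (p - 1) → Fin t.r → Fin t.nS,
      ((labLev t.r t.nS).pi (Fin K × Fin (p - 1))).rel t.r a a' → a = a' := by
    intro a a' h
    funext l i
    exact h l i i.2
  exact (LT0_topLev ((labLev t.r t.nS).pi (Fin K × Fin (p - 1))) hS (expo_mmF t.adm)
    (lawL_pathLaw ht t.κ_sum v) hu (W := sysW C t a b y v)
    (fun x => Wsys_pos C hp a b y _ x.2)).symm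

/-- adding one edge. -/
theorem incr_edge (hp : 1 ≤ p) (ht : ∀ H s, 0 < t.κ H s) {N M K : ℕ} (a : Fin M → E1 C N)
    (a' : E1 C N) (b : Fin K → E2 C N) (y : Fin N → Fin C.nH)
    (v : Fin K × Fin (p - 1) → Fin t.nS) :
    LT0 (sysLev t p N K) (mmF t.m) (sysLaw t v)
        (sysW C t (Fin.cons (α := fun _ => E1 C N) a' a) b y v) =
      LT0 (sysLev t p N K) (mmF t.m) (sysLaw t v) (sysW C t a b y v) +
        LT0 (sysLev t p N K) (mmF t.m)
          (tilt (sysLev t p N K) (mmF t.m) (sysLaw t v) (sysW C t a b y v))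
          (fun x => 1 + gE C a'.1 (fun l => x.2 (a'.2 l))) := by
  rw [← LT0_mul (sysLev t p N K) (W := sysW C t a b y v)
    (V := fun x => 1 + gE C a'.1 (fun l => x.2 (a'.2 l))) (expo_mmF t.adm)
    (sysLaw_pathLaw t ht v) (fun x => Wsys_pos C hp a b y _ x.2) (fun x => F8a_gE_pos C a'.1 _)]
  congr 1
  funext x
  unfold sysW Wsys
  rw [Fin.prod_univ_succ]
  simp only [Fin.cons_zero, Fin.cons_succ]
  ring

end Crest.SG
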