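import Crest.Agent.SG_C6
import Crest.Agent.SG_D5
import Crest.Agent.SG_D6

/-! # SG_H1 : choice of the size `k` and the parameters `x` (task SG-H1)

Fix `s`. `det1_window` with small `γ` gives `K0` (enlarge: `K0 ≥ s`) and, for each `K`, one `x` for the
whole window `k ∈ [K0, K-1)` (systems `SS s k x` with `k+1` spins). Telescoping `cavity`:
`∑_k (fcav_k - log 2) ≤ ψ(K-1) - ψ(K0) + ∑_k Cc (L'/(k+2) + (L'-L)) + Cc/√(k+1)`, and
`ψ(K-1) ≤ K (pressure K - log 2) + L log 2 + cF` (psi_pressure), `pressure` bounded (pressure_bd); divide by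
the length `n` of the window: `avg fcav ≤ pressure K + c/(s+1)` for `K` large. `fcav ≥ -Cf`
(abs_QS_le, Vsite_bd, Vedge_bd). Pigeonhole: the `k` with some `Dvar > 1/(s+1)` are a fraction `≤ ρ`. -/

set_option autoImplicit false
noncomputable section
open scoped BigOperators
open Classical Filter
open Crest.ProbabilityR.Diluted Crest.Agent.SGG
namespace Crest.SG

/-- averages of bounded quantities. -/
private theorem h1_avg_le {ι : Type} [Fintype ι] (w : ι → ℝ) (hw : ∀ i, 0 ≤ w i) (hs : ∑ i, w i = 1)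
    (a : ι → ℝ) {D : ℝ} (ha : ∀ i, |a i| ≤ D) : |∑ i, w i * a i| ≤ D := by
  calc |∑ i, w i * a i| ≤ ∑ i, |w i * a i| := Finset.abs_sum_le_sum_abs _ _
    _ ≤ ∑ i, w i * D := by
        refine Finset.sum_le_sum fun i _ => ?_
        rw [abs_mul, abs_of_nonneg (hw i)]
        exact mul_le_mul_of_nonneg_left (ha i) (hw i)
    _ = D := by rw [← Finset.sum_mul, hs, one_mul]

private theorem h1_wE_prod {p : ℕ} (C : Core p) (κ : ℕ) :
    ∑ e : Fin κ → C.E, ∏ j, C.wE (e j) = 1 := by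
  rw [← Fintype.piFinset_univ, ← Finset.prod_univ_sum]
  simp [CFam_wE_sum C]

/-- uniform bound of the cavity functional. -/
theorem fcav_bd {p : ℕ} (hp : 2 ≤ p) (C : Core p) {α : ℝ} (hα : 0 < α) :
    ∃ Cf : ℝ, 0 ≤ Cf ∧ ∀ S : Sys, |fcav C α (fun ι _ V => S.QS ι V)| ≤ Cf := by
  obtain ⟨ch, hch, hV⟩ := Vsite_bd C
  have hp1 : (0 : ℝ) ≤ (p : ℝ) - 1 := by
    have : (2 : ℝ) ≤ p := by exact_mod_cast hp
    linarith
  have hl2 : 0 ≤ Real.log 2 := Real.log_nonneg (by norm_num)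
  have hcF := cF_nonneg C
  refine ⟨Real.log 2 + ch * (α * p + 1) + α * (p - 1 : ℝ) * cF C, by positivity, fun S => ?_⟩
  unfold fcav
  have h1 : |Poi (α * p) (fun κ => ∑ e : Fin κ → C.E, (∏ j, C.wE (e j)) * ∑ y : Fin C.nH, C.wH y *
      S.QS (Fin κ × Fin (p - 1)) (Vsite C e y))| ≤ ch * (α * p + 1) := by
    refine Poi_linG (by positivity) fun κ => ?_
    refine h1_avg_le _ (fun e => Finset.prod_nonneg fun j _ => CFam_wE_nonneg C _)
      (h1_wE_prod C κ) _ fun e => ?_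
    refine h1_avg_le _ C.wH_nonneg C.wH_sum _ fun y => ?_
    exact abs_QS_le S _ (fun τ => (hV e y τ).1) fun τ => (hV e y τ).2
  have h2 : |∑ e : C.E, C.wE e * S.QS (Fin p) (Vedge C e)| ≤ cF C := by
    refine h1_avg_le _ (CFam_wE_nonneg C) (CFam_wE_sum C) _ fun e => ?_
    exact abs_QS_le S _ (fun τ => (Vedge_bd C e τ).1) fun τ => (Vedge_bd C e τ).2
  have h3 : |α * (p - 1 : ℝ) * ∑ e : C.E, C.wE e * S.QS (Fin p) (Vedge C e)| ≤
      α * (p - 1 : ℝ) * cF C := by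
    rw [abs_mul, abs_of_nonneg (mul_nonneg hα.le hp1)]
    exact mul_le_mul_of_nonneg_left h2 (mul_nonneg hα.le hp1)
  have h4 := abs_sub (Real.log 2 + Poi (α * p) (fun κ => ∑ e : Fin κ → C.E, (∏ j, C.wE (e j)) *
    ∑ y : Fin C.nH, C.wH y * S.QS (Fin κ × Fin (p - 1)) (Vsite C e y)))
    (α * (p - 1 : ℝ) * ∑ e : C.E, C.wE e * S.QS (Fin p) (Vedge C e))
  have h5 := abs_add_le (Real.log 2) (Poi (α * p) (fun κ => ∑ e : Fin κ → C.E, (∏ j, C.wE (e j)) *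
    ∑ y : Fin C.nH, C.wH y * S.QS (Fin κ × Fin (p - 1)) (Vsite C e y)))
  rw [abs_of_nonneg hl2] at h5
  linarith

private theorem h1_inv_sqrt_sum (a b : ℕ) :
    ∑ k ∈ Finset.Ico a b, 1 / Real.sqrt ((k : ℝ) + 1) ≤ 2 * Real.sqrt b := by
  induction b with
  | zero => simp
  | succ b ih =>
    by_cases hab : a ≤ b
    · rw [Finset.sum_Ico_succ_top hab]
      have h0 : (0 : ℝ) ≤ b := Nat.cast_nonneg b
      have h1 : 1 / Real.sqrt ((b : ℝ) + 1) ≤ 2 * (Real.sqrt ((b : ℝ) + 1) - Real.sqrt b) := by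
        have hs1 : 0 < Real.sqrt ((b : ℝ) + 1) := Real.sqrt_pos.2 (by positivity)
        rw [div_le_iff₀ hs1]
        have h2 := Real.sq_sqrt (show (0 : ℝ) ≤ (b : ℝ) + 1 by positivity)
        have h3 := Real.sq_sqrt h0
        nlinarith [sq_nonneg (Real.sqrt ((b : ℝ) + 1) - Real.sqrt b)]
      push_cast
      linarith
    · rw [Finset.Ico_eq_empty (by omega)]
      simp only [Finset.sum_empty]
      positivity

private theorem h1_Lf_le (s k : ℕ) : (Lf s k : ℝ) ≤ (k : ℝ) / ((s : ℝ) + 1) + 1 := by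
  unfold Lf
  push_cast
  have := @Nat.cast_div_le ℝ _ _ _ k (s + 1)
  push_cast at this
  linarith

private theorem h1_Lf_mono (s : ℕ) {k l : ℕ} (h : k ≤ l) : Lf s k ≤ Lf s l := by
  unfold Lf
  have := Nat.div_le_div_right (c := s + 1) h
  omega

private theorem h1_rem {A B4 c T k0 b : ℝ} (hA0 : 0 ≤ A) (hB40 : 0 ≤ B4) (hc0 : 0 < c)
    (hk0 : 0 ≤ k0) (hb0 : 0 ≤ b) (hT : T = (A + B4 + c * (k0 + 1)) / c + 1) (hbT : T ^ 2 ≤ b) :
    A + B4 * Real.sqrt b + c * k0 ≤ c * b := by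
  have hT1 : 1 ≤ T := by
    have : 0 ≤ (A + B4 + c * (k0 + 1)) / c := by positivity
    linarith
  have hr0 : T ≤ Real.sqrt b := Real.le_sqrt_of_sq_le hbT
  have hr1 : (1 : ℝ) ≤ Real.sqrt b := hT1.trans hr0
  have hr2 : Real.sqrt b * Real.sqrt b = b := Real.mul_self_sqrt hb0
  have hr3 : c * T = (A + B4 + c * (k0 + 1)) + c := by
    rw [hT]; field_simp
  have t1 : A ≤ A * Real.sqrt b := le_mul_of_one_le_right hA0 hr1
  have t2 : c * (k0 + 1) ≤ c * (k0 + 1) * Real.sqrt b :=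
    le_mul_of_one_le_right (by positivity) hr1
  have t3 : 0 ≤ c * Real.sqrt b := by positivity
  have t4 : c * T * Real.sqrt b ≤ c * Real.sqrt b * Real.sqrt b :=
    mul_le_mul_of_nonneg_right (mul_le_mul_of_nonneg_left hr0 hc0.le) (by positivity)
  rw [hr3, mul_assoc c, hr2] at t4
  linarith

private theorem h1_final {SG Fb FK Lb LK SQ sq P PK B l2 cf Cc c k0 b : ℝ}
    (hl2 : 0 ≤ l2) (hCc : 0 ≤ Cc) (hc0 : 0 < c) (hk0 : 0 ≤ k0)
    (hS : SG ≤ (b - k0) * (l2 + Cc * c) + (Fb - FK) + Cc * (Lb - LK) + 2 * Cc * SQ)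
    (hsq : SQ ≤ 2 * sq)
    (u1 : Fb - (b + 1) * (P - l2) ≤ Lb * l2 + cf)
    (u2 : -(LK * l2 + cf) ≤ FK - (k0 + 1) * (PK - l2))
    (hP : P ≤ B) (hPK : -B ≤ PK)
    (v1 : Lb ≤ (b - k0) * c + ((k0 + 1) * c + 1)) (v2 : LK ≤ (k0 + 1) * c + 1) (v3 : 0 ≤ LK)
    (hr : 2 * (k0 + 1) * (B + l2) + 2 * l2 * (1 + (k0 + 1) * c) +
      2 * cf + 2 * Cc * (1 + (k0 + 1) * c) + 4 * Cc * sq + c * k0 ≤ c * b) :
    SG ≤ (b - k0) * (P + (l2 + 2 * Cc + 1) * c) := by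
  have w1 := mul_le_mul_of_nonneg_right v1 hl2
  have w2 := mul_le_mul_of_nonneg_right v2 hl2
  have w3 := mul_le_mul_of_nonneg_left v1 hCc
  have w4 := mul_nonneg hCc v3
  have w5 : (k0 + 1) * (P - l2) ≤ (k0 + 1) * (B + l2) :=
    mul_le_mul_of_nonneg_left (by linarith) (by positivity)
  have w6 : (k0 + 1) * (-(B + l2)) ≤ (k0 + 1) * (PK - l2) :=
    mul_le_mul_of_nonneg_left (by linarith) (by positivity)
  have w7 : 2 * Cc * SQ ≤ 2 * Cc * (2 * sq) := mul_le_mul_of_nonneg_left hsq (by positivity)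
  have hCcc : 0 ≤ Cc * (1 + (k0 + 1) * c) := by positivity
  nlinarith [hS, w1, w2, w3, w4, w5, w6, w7, hr, u1, u2, hCcc]

/-- the average of the cavity functionals over the window. -/
theorem window_avg {p : ℕ} (hp : 2 ≤ p) (C : Core p) {α : ℝ} (hα : 0 < α) {Mt : ℕ → ℕ}
    (hM : TruncOK α Mt) {code : ℕ → TC} (hcode : ∀ b, tnorm (code b) < 1 / 4) :
    ∃ cH : ℝ, 0 ≤ cH ∧ ∀ s K0 : ℕ, ∃ K1 : ℕ, K0 + 1 < K1 ∧ ∀ K : ℕ, K1 ≤ K →
      ∀ (x : PIdx s → ℝ) (hx : ∀ i, |x i| ≤ 1),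
      ∑ k ∈ Finset.Ico K0 (K - 1), fcav C α (fun ι _ V => (SS C hα Mt hcode s k x hx).QS ι V) ≤
        ((K - 1 : ℕ) - (K0 : ℝ)) * (C.pressure α K + cH / ((s : ℝ) + 1)) := by
  obtain ⟨Cc, hCc, hcav⟩ := cavity hp C hα hM
  obtain ⟨B, hB, hP⟩ := pressure_bd C hα
  have hl2 : 0 ≤ Real.log 2 := Real.log_nonneg (by norm_num)
  have hcF := cF_nonneg C
  refine ⟨Real.log 2 + 2 * Cc + 1, by positivity, fun s K0 => ?_⟩
  -- constants
  set σ : ℝ := (s : ℝ) + 1 with hσ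
  have hσ0 : 0 < σ := by positivity
  set c : ℝ := 1 / σ with hc
  have hc0 : 0 < c := by positivity
  set A : ℝ := 2 * ((K0 : ℝ) + 1) * (B + Real.log 2) + 2 * Real.log 2 * (1 + ((K0 : ℝ) + 1) * c) +
    2 * cF C + 2 * Cc * (1 + ((K0 : ℝ) + 1) * c) with hA
  have hA0 : 0 ≤ A := by positivity
  set B4 : ℝ := 4 * Cc with hB4
  set T : ℝ := (A + B4 + c * ((K0 : ℝ) + 1)) / c + 1 with hT
  refine ⟨⌈T ^ 2⌉₊ + K0 + 2, by omega, fun K hK x hx => ?_⟩
  obtain ⟨b, rfl⟩ : ∃ b, K = b + 1 := ⟨K - 1, by omega⟩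
  have hb : K0 ≤ b := by omega
  have hbT : T ^ 2 ≤ (b : ℝ) := by
    have h1 : T ^ 2 ≤ (⌈T ^ 2⌉₊ : ℝ) := Nat.le_ceil _
    have h2 : (⌈T ^ 2⌉₊ : ℝ) ≤ (b : ℝ) := by
      have : ⌈T ^ 2⌉₊ ≤ b := by omega
      exact_mod_cast this
    linarith
  rw [Nat.add_sub_cancel]
  -- one step
  have hstep : ∀ k : ℕ, fcav C α (fun ι _ V => (SS C hα Mt hcode s k x hx).QS ι V) ≤
      Real.log 2 + ((SS C hα Mt hcode s (k + 1) x hx).psi - (SS C hα Mt hcode s k x hx).psi) +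
        Cc * c + 2 * Cc * (1 / Real.sqrt ((k : ℝ) + 1)) +
          Cc * ((Lf s (k + 2) : ℝ) - Lf s (k + 1)) := by
    intro k
    have h := hcav (frx s code hcode x hx) (k + 1) (Lf s (k + 1)) (Lf s (k + 1 + 1))
      (Nat.succ_pos k) (Nat.succ_pos _) (Nat.succ_pos _) (h1_Lf_mono s (Nat.le_succ _))
    have h' : |(SS C hα Mt hcode s (k + 1) x hx).psi - (SS C hα Mt hcode s k x hx).psi -
        (fcav C α (fun ι _ V => (SS C hα Mt hcode s k x hx).QS ι V) - Real.log 2)| ≤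
      Cc * ((Lf s (k + 1 + 1) : ℝ) / (((k + 1 : ℕ) : ℝ) + 1) +
        ((Lf s (k + 1 + 1) : ℝ) - Lf s (k + 1))) + Cc / Real.sqrt ((k + 1 : ℕ) : ℝ) := h
    have h1 := (abs_le.1 h').1
    have hk0 : (0 : ℝ) ≤ k := Nat.cast_nonneg k
    have hs0 : 0 < Real.sqrt ((k : ℝ) + 1) := Real.sqrt_pos.2 (by positivity)
    have h2 : (Lf s (k + 1 + 1) : ℝ) / (((k + 1 : ℕ) : ℝ) + 1) ≤
        c + 1 / Real.sqrt ((k : ℝ) + 1) := by
      have h3 := h1_Lf_le s (k + 1 + 1)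
      push_cast at h3 ⊢
      have h4 : 1 / ((k : ℝ) + 1 + 1) ≤ 1 / Real.sqrt ((k : ℝ) + 1) := by
        apply one_div_le_one_div_of_le hs0
        rw [Real.sqrt_le_left (by positivity)]
        nlinarith
      rw [div_le_iff₀ (by positivity)]
      have h5 : (1 / ((k : ℝ) + 1 + 1)) * ((k : ℝ) + 1 + 1) = 1 := by field_simp
      have h6 : (c + 1 / ((k : ℝ) + 1 + 1)) * ((k : ℝ) + 1 + 1) ≤
          (c + 1 / Real.sqrt ((k : ℝ) + 1)) * ((k : ℝ) + 1 + 1) :=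
        mul_le_mul_of_nonneg_right (by linarith) (by positivity)
      have h7 : ((k : ℝ) + 1 + 1) / ((s : ℝ) + 1) = c * ((k : ℝ) + 1 + 1) := by
        rw [hc, hσ]; ring
      rw [h7] at h3
      linarith [add_mul c (1 / ((k : ℝ) + 1 + 1)) ((k : ℝ) + 1 + 1)]
    have h8 := mul_le_mul_of_nonneg_left h2 hCc
    have h9 : Cc / Real.sqrt ((k + 1 : ℕ) : ℝ) = Cc * (1 / Real.sqrt ((k : ℝ) + 1)) := by
      push_cast; ring
    rw [h9] at h1
    have e1 : (Lf s (k + 1 + 1) : ℝ) = (Lf s (k + 2) : ℝ) := rfl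
    rw [e1] at h1 h8
    rw [mul_add] at h1 h8
    linarith
  -- telescoping
  have hsum : ∀ b' : ℕ, K0 ≤ b' →
      ∑ k ∈ Finset.Ico K0 b', fcav C α (fun ι _ V => (SS C hα Mt hcode s k x hx).QS ι V) ≤
      ((b' : ℝ) - K0) * (Real.log 2 + Cc * c) +
        ((SS C hα Mt hcode s b' x hx).psi - (SS C hα Mt hcode s K0 x hx).psi) +
        Cc * ((Lf s (b' + 1) : ℝ) - Lf s (K0 + 1)) +
        2 * Cc * ∑ k ∈ Finset.Ico K0 b', 1 / Real.sqrt ((k : ℝ) + 1) := by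
    intro b' hb'
    induction b', hb' using Nat.le_induction with
    | base => simp
    | succ n hn ih =>
      rw [Finset.sum_Ico_succ_top hn, Finset.sum_Ico_succ_top hn]
      have := hstep n
      push_cast
      linarith
  have hS := hsum b hb
  have hsq := h1_inv_sqrt_sum K0 b
  -- the two ends
  have hpb := psi_pressure C hα hM (frx s code hcode x hx) (k := b + 1) (L := Lf s (b + 1))
    (Nat.succ_pos b) (Nat.succ_pos _)
  have hpK := psi_pressure C hα hM (frx s code hcode x hx) (k := K0 + 1) (L := Lf s (K0 + 1))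
    (Nat.succ_pos K0) (Nat.succ_pos _)
  have hpb' : |(SS C hα Mt hcode s b x hx).psi -
      ((b + 1 : ℕ) : ℝ) * (C.pressure α (b + 1) - Real.log 2)| ≤
      Lf s (b + 1) * Real.log 2 + cF C / (((b + 1 : ℕ) : ℝ) + 1) := hpb
  have hpK' : |(SS C hα Mt hcode s K0 x hx).psi -
      ((K0 + 1 : ℕ) : ℝ) * (C.pressure α (K0 + 1) - Real.log 2)| ≤
      Lf s (K0 + 1) * Real.log 2 + cF C / (((K0 + 1 : ℕ) : ℝ) + 1) := hpK
  have u1 := (abs_le.1 hpb').2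
  have u2 := (abs_le.1 hpK').1
  have hcd : ∀ n : ℕ, cF C / (((n + 1 : ℕ) : ℝ) + 1) ≤ cF C := by
    intro n
    apply div_le_self hcF
    have : (0 : ℝ) ≤ ((n + 1 : ℕ) : ℝ) := Nat.cast_nonneg _
    linarith
  have u3 := hcd b
  have u4 := hcd K0
  have hK0' : (0 : ℝ) ≤ K0 := Nat.cast_nonneg K0
  have v1 : (Lf s (b + 1) : ℝ) ≤ ((b : ℝ) - K0) * c + (((K0 : ℝ) + 1) * c + 1) := by
    have := h1_Lf_le s (b + 1)
    have e : ((b + 1 : ℕ) : ℝ) / ((s : ℝ) + 1) = ((b : ℝ) - K0) * c + ((K0 : ℝ) + 1) * c := by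
      rw [hc, hσ]; push_cast; ring
    rw [e] at this
    linarith
  have v2 : (Lf s (K0 + 1) : ℝ) ≤ ((K0 : ℝ) + 1) * c + 1 := by
    have := h1_Lf_le s (K0 + 1)
    have e : ((K0 + 1 : ℕ) : ℝ) / ((s : ℝ) + 1) = ((K0 : ℝ) + 1) * c := by
      rw [hc, hσ]; push_cast; ring
    rw [e] at this
    linarith
  have hr := h1_rem (A := A) (B4 := B4) hA0 (by positivity) hc0 hK0' (Nat.cast_nonneg b) hT hbT
  have hfin : (Real.log 2 + 2 * Cc + 1) / σ = (Real.log 2 + 2 * Cc + 1) * c := by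
    rw [hc]; ring
  rw [hfin]
  refine h1_final (cf := cF C) hl2 hCc hc0 hK0' hS hsq ?_ ?_ (abs_le.1 (hP (b + 1) (Nat.succ_pos b))).2
    (abs_le.1 (hP (K0 + 1) (Nat.succ_pos K0))).1 v1 v2 (Nat.cast_nonneg _) ?_
  · have u1' := u1.trans (add_le_add_right u3 _)
    rw [Nat.cast_add_one] at u1'
    exact u1'
  · have u2' := (neg_le_neg (add_le_add_right u4 (Lf s (K0 + 1) * Real.log 2))).trans u2
    rw [Nat.cast_add_one] at u2'
    exact u2'
  · exact hr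

/-- elementary pigeonhole. -/
theorem pigeon {a b : ℕ} (hab : a < b) (f g : ℕ → ℝ) {A Cf η ρ : ℝ} (hCf : 0 ≤ Cf)
    (hη : 0 < η) (hρ : 0 < ρ) (hρ2 : ρ ≤ 1 / 2) (hf : ∀ k, |f k| ≤ Cf) (hg : ∀ k, 0 ≤ g k)
    (hfa : ∑ k ∈ Finset.Ico a b, f k ≤ ((b : ℝ) - a) * A)
    (hga : ∑ k ∈ Finset.Ico a b, g k ≤ ρ * η * ((b : ℝ) - a)) :
    ∃ k ∈ Finset.Ico a b, g k ≤ η ∧ f k ≤ A + 4 * ρ * Cf := by
  by_contra hcon
  push Not at hcon
  set I := Finset.Ico a b with hI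
  set G := I.filter (fun k => g k ≤ η) with hG
  set Bd := I.filter (fun k => ¬ g k ≤ η) with hBd
  have hcard : (G.card : ℝ) + Bd.card = (b : ℝ) - a := by
    have h1 := Finset.card_filter_add_card_filter_not (s := I) (fun k => g k ≤ η)
    have h2 : I.card = b - a := Nat.card_Ico a b
    have h3 : ((G.card + Bd.card : ℕ) : ℝ) = ((b - a : ℕ) : ℝ) := by
      rw [← h2, ← h1]
    rw [Nat.cast_sub hab.le] at h3
    push_cast at h3
    exact h3
  have hba : (0 : ℝ) < (b : ℝ) - a := by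
    have : (a : ℝ) < b := by exact_mod_cast hab
    linarith
  have hbad : (Bd.card : ℝ) ≤ ρ * ((b : ℝ) - a) := by
    have h1 : (Bd.card : ℝ) * η ≤ ∑ k ∈ Bd, g k := by
      rw [← nsmul_eq_mul]
      refine Finset.card_nsmul_le_sum _ _ _ fun k hk => ?_
      have := (Finset.mem_filter.1 hk).2
      linarith
    have h2 : ∑ k ∈ Bd, g k ≤ ∑ k ∈ I, g k :=
      Finset.sum_le_sum_of_subset_of_nonneg (Finset.filter_subset _ _) fun k _ _ => hg k
    have h3 : (Bd.card : ℝ) * η ≤ ρ * ((b : ℝ) - a) * η := by linarith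
    exact le_of_mul_le_mul_right h3 hη
  have hgood : ((b : ℝ) - a) / 2 ≤ G.card := by nlinarith
  have hGne : G.Nonempty := by
    rw [← Finset.card_pos]
    have : (0 : ℝ) < G.card := by linarith
    exact_mod_cast this
  have hAf : A + 4 * ρ * Cf < Cf := by
    obtain ⟨k, hk⟩ := hGne
    obtain ⟨hk1, hk2⟩ := Finset.mem_filter.1 hk
    have := hcon k hk1 hk2
    exact this.trans_le ((le_abs_self _).trans (hf k))
  have hsum : ∑ k ∈ I, f k = ∑ k ∈ G, f k + ∑ k ∈ Bd, f k :=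
    (Finset.sum_filter_add_sum_filter_not I (fun k => g k ≤ η) f).symm
  have h4 : (G.card : ℝ) * (A + 4 * ρ * Cf) < ∑ k ∈ G, f k := by
    rw [← nsmul_eq_mul, ← Finset.sum_const]
    refine Finset.sum_lt_sum_of_nonempty hGne fun k hk => ?_
    obtain ⟨hk1, hk2⟩ := Finset.mem_filter.1 hk
    exact hcon k hk1 hk2
  have h5 : -((Bd.card : ℝ) * Cf) ≤ ∑ k ∈ Bd, f k := by
    have : ∑ k ∈ Bd, (-Cf) ≤ ∑ k ∈ Bd, f k :=
      Finset.sum_le_sum fun k _ => (abs_le.1 (hf k)).1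
    rw [Finset.sum_const, nsmul_eq_mul] at this
    linarith
  have h6 : (0 : ℝ) ≤ Bd.card := Nat.cast_nonneg _
  -- |G| 4ρCf ≥ |Bd| 2 Cf ≥ |Bd| (A + Cf)
  have h7 : (Bd.card : ℝ) * (A + Cf) ≤ (Bd.card : ℝ) * (2 * Cf) := by
    apply mul_le_mul_of_nonneg_left _ h6
    have : 0 ≤ 4 * ρ * Cf := by positivity
    linarith
  have h8 : (Bd.card : ℝ) * (2 * Cf) ≤ (ρ * ((b : ℝ) - a)) * (2 * Cf) :=
    mul_le_mul_of_nonneg_right hbad (by positivity)
  have h9 : (ρ * ((b : ℝ) - a)) * (2 * Cf) ≤ (G.card : ℝ) * (4 * ρ * Cf) := by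
    have : ((b : ℝ) - a) / 2 * (4 * ρ * Cf) ≤ (G.card : ℝ) * (4 * ρ * Cf) :=
      mul_le_mul_of_nonneg_right hgood (by positivity)
    linarith
  have h10 : ((b : ℝ) - a) * A = (G.card : ℝ) * A + (Bd.card : ℝ) * A := by
    rw [← hcard]; ring
  rw [hsum, h10] at hfa
  linarith

theorem select {p : ℕ} (hp : 2 ≤ p) (C : Core p) {α : ℝ} (hα : 0 < α) {Mt : ℕ → ℕ}
    (hM : TruncOK α Mt) {code : ℕ → TC} (hcode : ∀ b, tnorm (code b) < 1 / 4) :
    ∃ cH : ℝ, 0 ≤ cH ∧ ∀ s : ℕ, ∃ K1 : ℕ, ∀ K : ℕ, K1 ≤ K →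
      ∃ (k : ℕ) (x : PIdx s → ℝ) (hx : ∀ i, |x i| ≤ 1), (s + 1) ^ 2 ≤ k ∧
        (∀ i : PIdx s, (SS C hα Mt hcode s k x hx).Dvar i.1 0 (fun _ => toFeat i.2) ≤
          1 / ((s : ℝ) + 1)) ∧
        fcav C α (fun ι _ V => (SS C hα Mt hcode s k x hx).QS ι V) ≤
          C.pressure α K + cH / ((s : ℝ) + 1) := by
  obtain ⟨Cf, hCf, hfc⟩ := fcav_bd hp C hα
  obtain ⟨cH, hcH, hwin⟩ := window_avg hp C hα hM hcode
  refine ⟨cH + 2 * Cf, by positivity, fun s => ?_⟩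
  have hDn : ∀ (S : Sys) (b : ℕ) (G : Fin (0 + 1) → Feat), 0 ≤ S.Dvar b 0 G := by
    intro S b G
    unfold Sys.Dvar
    exact Finset.sum_nonneg fun t _ => mul_nonneg (wt_nonneg S.expo t) (S.Var_nonneg 0 t _)
  set σ : ℝ := (s : ℝ) + 1 with hσ
  have hσ0 : 0 < σ := by positivity
  have hσ1 : 1 ≤ σ := by
    have : (0 : ℝ) ≤ s := Nat.cast_nonneg s
    linarith
  set η : ℝ := 1 / σ with hη
  set ρ : ℝ := 1 / (2 * σ) with hρ
  have hη0 : 0 < η := by positivity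
  have hρ0 : 0 < ρ := by positivity
  have hρ2 : ρ ≤ 1 / 2 := by
    rw [hρ]
    apply one_div_le_one_div_of_le (by norm_num)
    linarith
  set N : ℝ := (Fintype.card (PIdx s) : ℝ) with hN
  have hN0 : 0 ≤ N := Nat.cast_nonneg _
  set γ : ℝ := ρ * η / (2 * (N + 1)) with hγ
  have hγ0 : 0 < γ := by positivity
  obtain ⟨K0, hK0⟩ := det1_window C hα hM hcode s hγ0
  set K0' : ℕ := max K0 ((s + 1) ^ 2) with hK0'
  obtain ⟨K1, hK1, hwin1⟩ := hwin s K0'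
  refine ⟨max K1 (2 * K0' + 2), fun K hK => ?_⟩
  have hKK1 : K1 ≤ K := (le_max_left _ _).trans hK
  have hK2 : 2 * K0' + 2 ≤ K := (le_max_right _ _).trans hK
  have hle : K0 ≤ K0' := le_max_left _ _
  have hlt : K0' < K - 1 := by omega
  obtain ⟨x, hx, hdet⟩ := hK0 (K - 1) (by omega)
  have hcast : ((K - 1 : ℕ) : ℝ) - K0 ≤ 2 * (((K - 1 : ℕ) : ℝ) - K0') := by
    have h1 : 2 * K0' ≤ (K - 1) + K0 := by omega
    have h2 : (2 * (K0' : ℝ)) ≤ ((K - 1 : ℕ) : ℝ) + K0 := by exact_mod_cast h1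
    linarith
  have hpos : (0 : ℝ) < ((K - 1 : ℕ) : ℝ) - K0' := by
    have : (K0' : ℝ) < ((K - 1 : ℕ) : ℝ) := by exact_mod_cast hlt
    linarith
  have hga : ∑ k ∈ Finset.Ico K0' (K - 1), (∑ i : PIdx s,
      (SS C hα Mt hcode s k x hx).Dvar i.1 0 (fun _ => toFeat i.2)) ≤
      ρ * η * (((K - 1 : ℕ) : ℝ) - K0') := by
    rw [Finset.sum_comm]
    have h1 : ∀ i : PIdx s, ∑ k ∈ Finset.Ico K0' (K - 1),
        (SS C hα Mt hcode s k x hx).Dvar i.1 0 (fun _ => toFeat i.2) ≤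
        γ * (2 * (((K - 1 : ℕ) : ℝ) - K0')) := by
      intro i
      have h2 : ∑ k ∈ Finset.Ico K0' (K - 1),
          (SS C hα Mt hcode s k x hx).Dvar i.1 0 (fun _ => toFeat i.2) ≤
          ∑ k ∈ Finset.Ico K0 (K - 1),
          (SS C hα Mt hcode s k x hx).Dvar i.1 0 (fun _ => toFeat i.2) := by
        refine Finset.sum_le_sum_of_subset_of_nonneg (Finset.Ico_subset_Ico_left hle) ?_
        intro k _ _
        exact hDn _ _ _
      exact h2.trans ((hdet i).trans (mul_le_mul_of_nonneg_left hcast hγ0.le))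
    calc ∑ i : PIdx s, ∑ k ∈ Finset.Ico K0' (K - 1),
          (SS C hα Mt hcode s k x hx).Dvar i.1 0 (fun _ => toFeat i.2)
        ≤ ∑ i : PIdx s, γ * (2 * (((K - 1 : ℕ) : ℝ) - K0')) := Finset.sum_le_sum fun i _ => h1 i
      _ = N * (γ * (2 * (((K - 1 : ℕ) : ℝ) - K0'))) := by
          rw [Finset.sum_const, nsmul_eq_mul, Finset.card_univ]
      _ ≤ (N + 1) * (γ * (2 * (((K - 1 : ℕ) : ℝ) - K0'))) := by
          apply mul_le_mul_of_nonneg_right (by linarith) (by positivity)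
      _ = ρ * η * (((K - 1 : ℕ) : ℝ) - K0') := by
          rw [hγ]; field_simp
  obtain ⟨k, hk, hk1, hk2⟩ := pigeon hlt
    (fun k => fcav C α (fun ι _ V => (SS C hα Mt hcode s k x hx).QS ι V))
    (fun k => ∑ i : PIdx s, (SS C hα Mt hcode s k x hx).Dvar i.1 0 (fun _ => toFeat i.2))
    (A := C.pressure α K + cH / σ) hCf hη0 hρ0 hρ2 (fun k => hfc _)
    (fun k => Finset.sum_nonneg fun i _ => hDn _ _ _) (hwin1 K hKK1 x hx) hga
  refine ⟨k, x, hx, ?_, ?_, ?_⟩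
  · exact (le_max_right _ _).trans (Finset.mem_Ico.1 hk).1
  · intro i
    refine le_trans ?_ hk1
    exact Finset.single_le_sum (f := fun i : PIdx s =>
      (SS C hα Mt hcode s k x hx).Dvar i.1 0 (fun _ => toFeat i.2)) (fun i _ => hDn _ _ _)
      (Finset.mem_univ i)
  · have e : 4 * ρ * Cf = 2 * Cf / σ := by rw [hρ]; field_simp; ring
    rw [e] at hk2
    rw [add_div]
    linarith

end Crest.SG
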