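import Crest.Agent.SG_Defs
import Crest.Agent.SGG_Pois

/-! # SG_P : Poisson toolkit for parts D and F (task SG-P)

`poissonWeight lam n = e^{-lam} lam^n/n!`. Useful facts already proved in `SGG_Pois`. -/

set_option autoImplicit false
noncomputable section
open scoped BigOperators
open Classical
open Crest.ProbabilityR.Diluted Crest.Agent.SGG
namespace Crest.SG

/-- Poisson average of a sequence. -/
def Poi (lam : ℝ) (a : ℕ → ℝ) : ℝ := ∑' n : ℕ, poissonWeight lam n * a n

/-- linear growth. -/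
def LinG (C : ℝ) (a : ℕ → ℝ) : Prop := ∀ n : ℕ, |a n| ≤ C * ((n : ℝ) + 1)

theorem Poi_summable {lam C : ℝ} (h : 0 ≤ lam) {a : ℕ → ℝ} (ha : LinG C a) :
    Summable (fun n : ℕ => poissonWeight lam n * a n) := by
  refine summable_linear h (A := C) (B := C) fun n => ?_
  have := ha n
  linarith

theorem Poi_zero (a : ℕ → ℝ) : Poi 0 a = a 0 := by
  unfold Poi
  rw [tsum_eq_single 0]
  · simp [poissonWeight]
  · intro n hn
    simp [poissonWeight, hn]

theorem Poi_const {lam : ℝ} (h : 0 ≤ lam) (c : ℝ) : Poi lam (fun _ => c) = c := by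
  unfold Poi
  rw [((hasSum_poissonWeight lam).mul_right c).tsum_eq, one_mul]

theorem Poi_add {lam C C' : ℝ} (h : 0 ≤ lam) {a a' : ℕ → ℝ} (ha : LinG C a) (ha' : LinG C' a') :
    Poi lam (fun n => a n + a' n) = Poi lam a + Poi lam a' := by
  unfold Poi
  rw [← (Poi_summable h ha).tsum_add (Poi_summable h ha')]
  exact tsum_congr fun n => mul_add _ _ _

theorem Poi_sub {lam C C' : ℝ} (h : 0 ≤ lam) {a a' : ℕ → ℝ} (ha : LinG C a) (ha' : LinG C' a') :
    Poi lam (fun n => a n - a' n) = Poi lam a - Poi lam a' := by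
  unfold Poi
  rw [← (Poi_summable h ha).tsum_sub (Poi_summable h ha')]
  exact tsum_congr fun n => mul_sub _ _ _

theorem Poi_const_mul {lam : ℝ} (c : ℝ) (a : ℕ → ℝ) :
    Poi lam (fun n => c * a n) = c * Poi lam a := by
  unfold Poi
  rw [← tsum_mul_left]
  exact tsum_congr fun n => by ring

theorem Poi_mono {lam C C' : ℝ} (h : 0 ≤ lam) {a a' : ℕ → ℝ} (ha : LinG C a) (ha' : LinG C' a')
    (hle : ∀ n, a n ≤ a' n) : Poi lam a ≤ Poi lam a' := by
  unfold Poi
  exact (Poi_summable h ha).tsum_le_tsum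
    (fun n => mul_le_mul_of_nonneg_left (hle n) (poissonWeight_nonneg h n)) (Poi_summable h ha')

theorem sgp_abs_le_lin {lam A B : ℝ} (h : 0 ≤ lam) {a : ℕ → ℝ}
    (ha : ∀ n : ℕ, |a n| ≤ A + B * n) : |Poi lam a| ≤ A + B * lam := by
  have hz : ∀ n : ℕ, |(0 : ℝ)| ≤ 0 + 0 * (n : ℝ) := by intro n; simp
  have := tsum_sub_le h ha hz (a' := fun _ => 0) (D := A) (E := B) (by simpa using ha)
  simpa [Poi] using this

theorem abs_Poi_le {lam C B : ℝ} (h : 0 ≤ lam) {a : ℕ → ℝ} (hB : ∀ n, |a n| ≤ B) :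
    |Poi lam a| ≤ B := by
  have := sgp_abs_le_lin h (a := a) (A := B) (B := 0) (by simpa using hB)
  simpa using this

theorem Poi_linG {lam C : ℝ} (h : 0 ≤ lam) {a : ℕ → ℝ} (ha : LinG C a) :
    |Poi lam a| ≤ C * (lam + 1) := by
  have := sgp_abs_le_lin h (a := a) (A := C) (B := C) (fun n => by have := ha n; linarith)
  linarith

theorem sgp_pow_eq_pw (x : ℝ) (n : ℕ) :
    x ^ n / (n.factorial : ℝ) = Real.exp x * poissonWeight x n := by
  unfold poissonWeight
  rw [← mul_div_assoc, ← mul_assoc, ← Real.exp_add, add_neg_cancel, Real.exp_zero, one_mul]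

theorem sgp_summable_pow_lin (R A B : ℝ) (hR : 0 ≤ R) :
    Summable (fun n : ℕ => R ^ n / (n.factorial : ℝ) * (A + B * n)) := by
  have h1 : Summable (fun n : ℕ => poissonWeight R n * (A + B * n)) := by
    refine summable_linear hR (A := |A|) (B := |B|) fun n => ?_
    calc |A + B * n| ≤ |A| + |B * n| := abs_add_le _ _
      _ = |A| + |B| * n := by rw [abs_mul, Nat.abs_cast]
  refine (h1.mul_left (Real.exp R)).congr fun n => ?_
  rw [sgp_pow_eq_pw]
  ring

theorem sgp_summable_pow_mul {C : ℝ} {a : ℕ → ℝ} (ha : LinG C a) (x : ℝ) :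
    Summable (fun n : ℕ => x ^ n / (n.factorial : ℝ) * a n) := by
  refine Summable.of_norm_bounded (sgp_summable_pow_lin |x| C C (abs_nonneg x)) fun n => ?_
  rw [Real.norm_eq_abs, abs_mul, abs_div, abs_pow, Nat.abs_cast]
  have h1 := ha n
  have h2 : |a n| ≤ C + C * n := by linarith
  exact mul_le_mul_of_nonneg_left h2 (by positivity)

theorem LinG.sgp_succ {C : ℝ} {a : ℕ → ℝ} (ha : LinG C a) :
    LinG (2 * C) (fun n => a (n + 1)) := by
  intro n
  have h := ha (n + 1)
  have h0 := ha 0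
  have hC : 0 ≤ C := by
    have := (abs_nonneg _).trans h0
    simpa using this
  push_cast at h
  have : (0 : ℝ) ≤ n := Nat.cast_nonneg n
  calc |a (n + 1)| ≤ C * ((n : ℝ) + 1 + 1) := h
    _ ≤ 2 * C * ((n : ℝ) + 1) := by nlinarith

theorem sgp_hasDerivAt_pow_series {C : ℝ} {a : ℕ → ℝ} (ha : LinG C a) (x : ℝ) :
    HasDerivAt (fun y => ∑' n : ℕ, y ^ n / (n.factorial : ℝ) * a n)
      (∑' n : ℕ, x ^ n / (n.factorial : ℝ) * a (n + 1)) x := by
  obtain ⟨R, hRdef⟩ : ∃ R : ℝ, R = |x| + 1 := ⟨_, rfl⟩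
  have hR : 0 ≤ R := by rw [hRdef]; positivity
  have hC : 0 ≤ C := by
    have := (abs_nonneg _).trans (ha 0)
    simpa using this
  have hu : Summable (fun n : ℕ => (n : ℝ) * R ^ (n - 1) / (n.factorial : ℝ) * (C + C * n)) := by
    rw [← summable_nat_add_iff 1]
    refine (sgp_summable_pow_lin R (2 * C) C hR).congr fun n => ?_
    have h1 : ((n.factorial : ℕ) : ℝ) ≠ 0 := by positivity
    rw [Nat.factorial_succ, Nat.add_sub_cancel]
    push_cast
    have h2 : (n : ℝ) + 1 ≠ 0 := by positivity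
    field_simp
    ring
  have key := hasDerivAt_tsum_of_isPreconnected (t := Metric.ball (0 : ℝ) R)
    (g := fun (n : ℕ) y => y ^ n / (n.factorial : ℝ) * a n)
    (g' := fun (n : ℕ) y => (n : ℝ) * y ^ (n - 1) / (n.factorial : ℝ) * a n)
    (y₀ := 0) (y := x) hu Metric.isOpen_ball
    (convex_ball (0 : ℝ) R).isPreconnected
    (fun n y _ => ((hasDerivAt_pow n y).div_const _).mul_const _)
    (fun n y hy => by
      rw [Real.norm_eq_abs, abs_mul, abs_div, abs_mul, abs_pow, Nat.abs_cast, Nat.abs_cast]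
      rw [Metric.mem_ball, dist_zero_right, Real.norm_eq_abs] at hy
      have h1 : |a n| ≤ C + C * n := by have := ha n; linarith
      gcongr)
    (by rw [Metric.mem_ball, dist_self, hRdef]; positivity)
    (sgp_summable_pow_mul ha 0)
    (by rw [Metric.mem_ball, dist_zero_right, Real.norm_eq_abs, hRdef]; linarith)
  refine key.congr_deriv ?_
  have hs : Summable (fun n : ℕ => (n : ℝ) * x ^ (n - 1) / (n.factorial : ℝ) * a n) := by
    rw [← summable_nat_add_iff 1]
    refine (sgp_summable_pow_mul ha.sgp_succ x).congr fun n => ?_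
    have h1 : ((n.factorial : ℕ) : ℝ) ≠ 0 := by positivity
    rw [Nat.factorial_succ, Nat.add_sub_cancel]
    push_cast
    have h2 : (n : ℝ) + 1 ≠ 0 := by positivity
    field_simp
  rw [hs.tsum_eq_zero_add]
  simp only [Nat.cast_zero, zero_mul, zero_div, zero_add]
  refine tsum_congr fun n => ?_
  have h1 : ((n.factorial : ℕ) : ℝ) ≠ 0 := by positivity
  rw [Nat.factorial_succ, Nat.add_sub_cancel]
  push_cast
  have h2 : (n : ℝ) + 1 ≠ 0 := by positivity
  field_simp

theorem sgp_Poi_eq_series (y : ℝ) (a : ℕ → ℝ) :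
    Poi y a = Real.exp (-y) * ∑' n : ℕ, y ^ n / (n.factorial : ℝ) * a n := by
  unfold Poi
  rw [← tsum_mul_left]
  refine tsum_congr fun n => ?_
  unfold poissonWeight
  ring

/-- derivative in the intensity. -/
theorem hasDerivAt_Poi {C : ℝ} {a : ℕ → ℝ} (ha : LinG C a) (x : ℝ) :
    HasDerivAt (fun y => Poi y a) (Poi x (fun n => a (n + 1) - a n)) x := by
  have h1 : (fun y => Poi y a) =
      fun y => Real.exp (-y) * ∑' n : ℕ, y ^ n / (n.factorial : ℝ) * a n := by
    funext y; exact sgp_Poi_eq_series y a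
  rw [h1]
  have h2 : HasDerivAt (fun y : ℝ => Real.exp (-y)) (-Real.exp (-x)) x := by
    have := (hasDerivAt_id x).neg.exp
    simpa using this
  refine (h2.mul (sgp_hasDerivAt_pow_series ha x)).congr_deriv ?_
  rw [sgp_Poi_eq_series]
  have h3 : ∑' n : ℕ, x ^ n / (n.factorial : ℝ) * (a (n + 1) - a n) =
      ∑' n : ℕ, x ^ n / (n.factorial : ℝ) * a (n + 1) -
        ∑' n : ℕ, x ^ n / (n.factorial : ℝ) * a n := by
    rw [← (sgp_summable_pow_mul ha.sgp_succ x).tsum_sub (sgp_summable_pow_mul ha x)]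
    exact tsum_congr fun n => mul_sub _ _ _
  rw [h3]
  ring

theorem sgp_LinG_of_incr {C : ℝ} {a : ℕ → ℝ} (ha : ∀ n, |a (n + 1) - a n| ≤ C) :
    LinG (|a 0| + C) a := by
  have hC : 0 ≤ C := (abs_nonneg _).trans (ha 0)
  have h1 : ∀ n : ℕ, |a n| ≤ |a 0| + C * n := by
    intro n
    induction n with
    | zero => simp
    | succ n ih =>
      have h2 : a (n + 1) = a n + (a (n + 1) - a n) := by ring
      rw [h2]
      refine (abs_add_le _ _).trans ?_
      push_cast
      linarith [ha n]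
  intro n
  refine (h1 n).trans ?_
  have : (0 : ℝ) ≤ n := Nat.cast_nonneg n
  nlinarith [abs_nonneg (a 0)]

/-- Lipschitz in the intensity if the increments are bounded. -/
theorem Poi_lip {C : ℝ} {a : ℕ → ℝ} (ha : ∀ n, |a (n + 1) - a n| ≤ C) {x y : ℝ}
    (hx : 0 ≤ x) (hy : 0 ≤ y) : |Poi x a - Poi y a| ≤ C * |x - y| := by
  have h := Convex.norm_image_sub_le_of_norm_hasDerivWithin_le (f := fun z => Poi z a)
    (f' := fun z => Poi z (fun n => a (n + 1) - a n)) (s := Set.Ici (0 : ℝ)) (C := C)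
    (x := y) (y := x)
    (fun z _ => (hasDerivAt_Poi (sgp_LinG_of_incr ha) z).hasDerivWithinAt)
    (fun z hz => by
      rw [Real.norm_eq_abs]
      exact abs_Poi_le (C := 0) hz ha) (convex_Ici 0) hy hx
  simpa [Real.norm_eq_abs] using h

theorem sgp_hasSum_pw_sq (lam : ℝ) :
    HasSum (fun n : ℕ => poissonWeight lam n * (n : ℝ) ^ 2) (lam * (lam + 1)) := by
  have h := ((hasSum_poissonWeight_mul lam).add (hasSum_poissonWeight lam)).mul_left lam
  have h3 : HasSum (fun n : ℕ => poissonWeight lam (n + 1) * ((n + 1 : ℕ) : ℝ) ^ 2)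
      (lam * (lam + 1)) := by
    have e : (fun n : ℕ => poissonWeight lam (n + 1) * ((n + 1 : ℕ) : ℝ) ^ 2) =
        fun n : ℕ => lam * (poissonWeight lam n * (n : ℝ) + poissonWeight lam n) := by
      funext n
      have := poissonWeight_succ_mul lam n
      calc poissonWeight lam (n + 1) * ((n + 1 : ℕ) : ℝ) ^ 2
          = (poissonWeight lam (n + 1) * ((n + 1 : ℕ) : ℝ)) * ((n + 1 : ℕ) : ℝ) := by ring
        _ = _ := by rw [this]; push_cast; ring
    rw [e]
    exact h
  have := (hasSum_nat_add_iff (f := fun n : ℕ => poissonWeight lam n * (n : ℝ) ^ 2) 1).1 h3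
  simpa using this

/-- mean absolute deviation of a Poisson variable -/
theorem sgp_mad {z : ℝ} (hz : 0 < z) :
    ∃ S : ℝ, HasSum (fun n : ℕ => poissonWeight z n * |(n : ℝ) / z - 1|) S ∧ S ≤ 1 / Real.sqrt z := by
  have h1 : HasSum (fun n : ℕ => poissonWeight z n *
      ((Real.sqrt z * ((n : ℝ) / z - 1) ^ 2 + 1 / Real.sqrt z) / 2)) (1 / Real.sqrt z) := by
    have e : (fun n : ℕ => poissonWeight z n *
      ((Real.sqrt z * ((n : ℝ) / z - 1) ^ 2 + 1 / Real.sqrt z) / 2)) = fun n : ℕ =>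
        (Real.sqrt z / (2 * z ^ 2)) * (poissonWeight z n * (n : ℝ) ^ 2) +
        (-(Real.sqrt z / z)) * (poissonWeight z n * (n : ℝ)) +
        (Real.sqrt z / 2 + 1 / (2 * Real.sqrt z)) * poissonWeight z n := by
      funext n
      have : Real.sqrt z ≠ 0 := (Real.sqrt_pos.mpr hz).ne'
      field_simp
      ring
    rw [e]
    have h2 := (((sgp_hasSum_pw_sq z).mul_left (Real.sqrt z / (2 * z ^ 2))).add
      ((hasSum_poissonWeight_mul z).mul_left (-(Real.sqrt z / z)))).add
      ((hasSum_poissonWeight z).mul_left (Real.sqrt z / 2 + 1 / (2 * Real.sqrt z)))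
    have hval : 1 / Real.sqrt z = Real.sqrt z / (2 * z ^ 2) * (z * (z + 1)) +
        -(Real.sqrt z / z) * z + (Real.sqrt z / 2 + 1 / (2 * Real.sqrt z)) * 1 := by
      have hs : Real.sqrt z ^ 2 = z := Real.sq_sqrt hz.le
      have hs0 : Real.sqrt z ≠ 0 := (Real.sqrt_pos.mpr hz).ne'
      obtain ⟨w, hw⟩ : ∃ w, w = Real.sqrt z := ⟨_, rfl⟩
      rw [← hw] at hs hs0 ⊢
      rw [← hs]
      field_simp
      ring
    rw [← hval] at h2
    exact h2
  have hpt : ∀ n : ℕ, poissonWeight z n * |(n : ℝ) / z - 1| ≤ poissonWeight z n *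
      ((Real.sqrt z * ((n : ℝ) / z - 1) ^ 2 + 1 / Real.sqrt z) / 2) := by
    intro n
    refine mul_le_mul_of_nonneg_left ?_ (poissonWeight_nonneg hz.le n)
    have hs0 : 0 < Real.sqrt z := Real.sqrt_pos.mpr hz
    obtain ⟨w, hw⟩ : ∃ w, w = Real.sqrt z := ⟨_, rfl⟩
    rw [← hw] at hs0 ⊢
    obtain ⟨t, ht⟩ : ∃ t, t = |(n : ℝ) / z - 1| := ⟨_, rfl⟩
    have ht2 : ((n : ℝ) / z - 1) ^ 2 = t ^ 2 := by rw [ht, sq_abs]
    rw [ht2, ← ht]
    have : w * (w * t ^ 2 + 1 / w - 2 * t) = (w * t - 1) ^ 2 := by field_simp; ring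
    have h4 : 0 ≤ w * (w * t ^ 2 + 1 / w - 2 * t) := by rw [this]; positivity
    have h5 : 0 ≤ w * t ^ 2 + 1 / w - 2 * t := nonneg_of_mul_nonneg_right h4 hs0
    linarith
  have hsum : Summable (fun n : ℕ => poissonWeight z n * |(n : ℝ) / z - 1|) :=
    Summable.of_nonneg_of_le (fun n => mul_nonneg (poissonWeight_nonneg hz.le n) (abs_nonneg _))
      hpt h1.summable
  exact ⟨_, hsum.hasSum, hasSum_le hpt hsum.hasSum h1⟩

/-- Chen-Stein -/
theorem sgp_chen_stein {z B : ℝ} (hz : 0 < z) {a : ℕ → ℝ} (ha : ∀ n, |a n| ≤ B) :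
    |Poi z (fun n => a (n + 1) - a n)| ≤ B / Real.sqrt z := by
  have hB : 0 ≤ B := (abs_nonneg _).trans (ha 0)
  have hL : LinG B a := by
    intro n
    refine (ha n).trans ?_
    have : (0 : ℝ) ≤ n := Nat.cast_nonneg n
    nlinarith
  have hL1 : LinG B (fun n => a (n + 1)) := by
    intro n
    refine (ha (n + 1)).trans ?_
    have : (0 : ℝ) ≤ n := Nat.cast_nonneg n
    nlinarith
  have h1 : Poi z (fun n => a (n + 1)) = ∑' n : ℕ, poissonWeight z n * (a n * ((n : ℝ) / z)) := by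
    have hs : Summable (fun n : ℕ => poissonWeight z n * (a n * ((n : ℝ) / z))) := by
      refine summable_linear hz.le (A := 0) (B := B / z) fun n => ?_
      rw [abs_mul, abs_div, Nat.abs_cast, abs_of_pos hz]
      have := mul_le_mul_of_nonneg_right (ha n) (show (0 : ℝ) ≤ (n : ℝ) / z by positivity)
      calc |a n| * ((n : ℝ) / z) ≤ B * ((n : ℝ) / z) := this
        _ = 0 + B / z * n := by ring
    rw [hs.tsum_eq_zero_add]
    simp only [Nat.cast_zero, zero_div, mul_zero, zero_add]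
    unfold Poi
    refine tsum_congr fun n => ?_
    have := poissonWeight_succ_mul z n
    calc poissonWeight z n * a (n + 1) = (z * poissonWeight z n) * (a (n + 1) / z) := by
          field_simp
      _ = (poissonWeight z (n + 1) * ((n + 1 : ℕ) : ℝ)) * (a (n + 1) / z) := by rw [this]
      _ = _ := by ring
  have h2 : Poi z (fun n => a (n + 1) - a n) =
      ∑' n : ℕ, poissonWeight z n * (a n * ((n : ℝ) / z - 1)) := by
    rw [Poi_sub hz.le hL1 hL, h1]
    unfold Poi
    have hs : Summable (fun n : ℕ => poissonWeight z n * (a n * ((n : ℝ) / z))) := by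
      refine summable_linear hz.le (A := 0) (B := B / z) fun n => ?_
      rw [abs_mul, abs_div, Nat.abs_cast, abs_of_pos hz]
      have := mul_le_mul_of_nonneg_right (ha n) (show (0 : ℝ) ≤ (n : ℝ) / z by positivity)
      calc |a n| * ((n : ℝ) / z) ≤ B * ((n : ℝ) / z) := this
        _ = 0 + B / z * n := by ring
    rw [← hs.tsum_sub (Poi_summable hz.le hL)]
    refine tsum_congr fun n => ?_
    ring
  obtain ⟨S, hS, hS2⟩ := sgp_mad hz
  rw [h2]
  have h3 := tsum_of_norm_bounded (hS.mul_left B)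
    (f := fun n : ℕ => poissonWeight z n * (a n * ((n : ℝ) / z - 1))) (fun n => by
      rw [Real.norm_eq_abs, abs_mul, abs_mul, abs_of_nonneg (poissonWeight_nonneg hz.le n)]
      calc poissonWeight z n * (|a n| * |(n : ℝ) / z - 1|)
          = |a n| * (poissonWeight z n * |(n : ℝ) / z - 1|) := by ring
        _ ≤ B * (poissonWeight z n * |(n : ℝ) / z - 1|) :=
          mul_le_mul_of_nonneg_right (ha n)
            (mul_nonneg (poissonWeight_nonneg hz.le n) (abs_nonneg _)))
  rw [Real.norm_eq_abs] at h3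
  refine h3.trans ?_
  calc B * S ≤ B * (1 / Real.sqrt z) := mul_le_mul_of_nonneg_left hS2 hB
    _ = B / Real.sqrt z := by ring

/-- total variation bound: `|d/dx Poi x a| = |E[a(n)(n/x-1)]| ≤ B/√x`. -/
theorem Poi_tv {B : ℝ} {a : ℕ → ℝ} (ha : ∀ n, |a n| ≤ B) {x y : ℝ} (hx : 0 < x) (hxy : x ≤ y) :
    |Poi x a - Poi y a| ≤ B * (y - x) / Real.sqrt x := by
  have hB : 0 ≤ B := (abs_nonneg _).trans (ha 0)
  have hL : LinG B a := by
    intro n
    refine (ha n).trans ?_
    have : (0 : ℝ) ≤ n := Nat.cast_nonneg n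
    nlinarith
  have h := Convex.norm_image_sub_le_of_norm_hasDerivWithin_le (f := fun z => Poi z a)
    (f' := fun z => Poi z (fun n => a (n + 1) - a n)) (s := Set.Ici x) (C := B / Real.sqrt x)
    (x := y) (y := x)
    (fun z _ => (hasDerivAt_Poi hL z).hasDerivWithinAt)
    (fun z hz => by
      rw [Real.norm_eq_abs]
      have hz' : x ≤ z := hz
      refine (sgp_chen_stein (hx.trans_le hz') ha).trans ?_
      have h1 : 0 < Real.sqrt x := Real.sqrt_pos.mpr hx
      have h2 : Real.sqrt x ≤ Real.sqrt z := Real.sqrt_le_sqrt hz'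
      exact div_le_div_of_nonneg_left hB h1 h2) (convex_Ici x) hxy (le_refl x)
  rw [Real.norm_eq_abs, Real.norm_eq_abs, abs_sub_comm x y, abs_of_nonneg (by linarith : 0 ≤ y - x)]
    at h
  calc |Poi x a - Poi y a| ≤ B / Real.sqrt x * (y - x) := h
    _ = _ := by ring

/-- tails: truncating a Poisson average of a linearly growing sequence. -/
theorem Poi_trunc {lam : ℝ} (h : 0 ≤ lam) {ε : ℝ} (hε : 0 < ε) :
    ∃ M : ℕ, ∀ a : ℕ → ℝ, LinG 1 a →
      |Poi lam a - ∑ n ∈ Finset.range M, poissonWeight lam n * a n| ≤ ε := by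
  have hs : Summable (fun n : ℕ => poissonWeight lam n * ((n : ℝ) + 1)) := by
    refine summable_linear h (A := 1) (B := 1) fun n => ?_
    rw [abs_of_nonneg (by positivity)]
    linarith
  have ht := tendsto_sum_nat_add (fun n : ℕ => poissonWeight lam n * ((n : ℝ) + 1))
  rw [Metric.tendsto_atTop] at ht
  obtain ⟨M, hM⟩ := ht ε hε
  refine ⟨M, fun a ha => ?_⟩
  have hM' := hM M le_rfl
  rw [dist_zero_right, Real.norm_eq_abs] at hM'
  have hsa := Poi_summable h ha
  have h1 : Poi lam a - ∑ n ∈ Finset.range M, poissonWeight lam n * a n =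
      ∑' n : ℕ, poissonWeight lam (n + M) * a (n + M) := by
    unfold Poi
    rw [← hsa.sum_add_tsum_nat_add M]
    ring
  rw [h1]
  have hs' : Summable (fun n : ℕ => poissonWeight lam (n + M) * (((n + M : ℕ) : ℝ) + 1)) :=
    (summable_nat_add_iff M).mpr hs
  have h2 := tsum_of_norm_bounded hs'.hasSum
    (f := fun n : ℕ => poissonWeight lam (n + M) * a (n + M)) (fun n => by
      rw [Real.norm_eq_abs, abs_mul, abs_of_nonneg (poissonWeight_nonneg h _)]
      refine mul_le_mul_of_nonneg_left ?_ (poissonWeight_nonneg h _)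
      have := ha (n + M)
      linarith)
  rw [Real.norm_eq_abs] at h2
  exact h2.trans ((le_abs_self _).trans hM'.le)

end Crest.SG
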