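import Mathlib

/-!
# S0298: the combinatorial interface (owner: helper90)

A shape is a list of column heights, in any order, zeros allowed. `rc h i` is the length of row `i`
(number of columns of height `> i`), `tr h` the list of row lengths (the conjugate shape), `SameSh`
says that two lists describe the same diagram.

`Cv t g d h`: "the Specht module of shape `h` is (2-adically) good in the tensor product of the
isotypic spaces of types `g` and `d` inside the staircase of level `t`". The rules are

* `core`: in the staircase module of level `w` everything is good (Saxl, S0297);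
* `skip`: a level all of whose letters are spectators;
* `strip`: one column of height `t + 1` on top in both factors: horizontal strip;
* `path`: two columns of heights `t + 2, t + 1` in both factors: skew piece with at most four cells
  in each column;
* `twist`: the sign twist in the second factor;
* `swap`: exchange the two factors;
* `congr`: the lists only matter up to order and zeros.
-/

set_option autoImplicit false

namespace Crest.Agent.SYC

/-- Length of row `i`. -/
def rc (h : List ℕ) (i : ℕ) : ℕ := h.countP (fun x => decide (i < x))

/-- The maximal entry. -/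
def mx (h : List ℕ) : ℕ := h.foldr max 0

/-- The conjugate shape: the list of row lengths. -/
def tr (h : List ℕ) : List ℕ := (List.range (mx h)).map (rc h)

/-- The staircase (columns of heights `1, …, w`). -/
def stairL (w : ℕ) : List ℕ := (List.range w).map (· + 1)

/-- The same diagram. -/
def SameSh (g g' : List ℕ) : Prop := ∀ i, rc g i = rc g' i

/-- Remove `s` cells, at most `m` of them in each column (same positions of the columns). -/
def Rem (m s : ℕ) (h h' : List ℕ) : Prop :=
  List.Forall₂ (fun a b => b ≤ a ∧ a ≤ b + m) h h' ∧ h.sum = h'.sum + s

/-- See the header. -/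
inductive Cv : ℕ → List ℕ → List ℕ → List ℕ → Prop
  | core (w : ℕ) (h : List ℕ) (hh : 2 * h.sum = w * (w + 1)) : Cv w (stairL w) (stairL w) h
  | skip {t : ℕ} {g d h : List ℕ} : Cv t g d h → Cv (t + 1) g d h
  | strip {t : ℕ} {g d h h' : List ℕ} : Cv t g d h' → Rem 1 (t + 1) h h' →
      Cv (t + 1) ((t + 1) :: g) ((t + 1) :: d) h
  | path {t : ℕ} {g d h h' : List ℕ} : Cv t g d h' → Rem 4 (2 * t + 3) h h' →
      Cv (t + 2) ((t + 2) :: (t + 1) :: g) ((t + 2) :: (t + 1) :: d) h
  | twist {t : ℕ} {g d h : List ℕ} : Cv t g d h → Cv t g (tr d) (tr h)
  | swap {t : ℕ} {g d h : List ℕ} : Cv t g d h → Cv t d g h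
  | congr {t : ℕ} {g g' d d' h h' : List ℕ} : Cv t g d h → SameSh g g' → SameSh d d' →
      SameSh h h' → Cv t g' d' h'

/-- Some self-conjugate type is complete at level `t` (for shapes with `n` cells). -/
def Full (n t : ℕ) : Prop :=
  ∃ g : List ℕ, SameSh (tr g) g ∧ ∀ h : List ℕ, h.sum = n → Cv t g g h

end Crest.Agent.SYC
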