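import Crest.Agent.SY_E14

/-!
# S0298, bases (15): kernel computations
-/

set_option autoImplicit false
set_option maxRecDepth 100000

namespace Crest.Agent.SY

open Ck

/-- templates -/
def Ts62 : List Tm := [⟨[11,2], [0,0,1], 1, 2⟩, ⟨[2,2,1,1,1,1,1,1,1,1,1], [2,1,2], 2, 1⟩, ⟨[12,1], [0,0,1], 1, 2⟩, ⟨[2,1,1,1,1,1,1,1,1,1,1,1], [1,0,0], 1, 0⟩]

theorem node62 : node (5 + 2) (2 * 5 + 3) 62 13 16 37 Ts62 [] 62 = true := by decide +kernel

theorem y62_1 : checkY (5 + 2) (2 * 5 + 3) 62 13 16 37 Ts62 1 = true := by decide +kernel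

theorem y62_2 : checkY (5 + 2) (2 * 5 + 3) 62 13 16 37 Ts62 2 = true := by decide +kernel

theorem y62_3_0 : node (5 + 2) (2 * 5 + 3) 62 13 16 37 Ts62 [3] 59 = true := by decide +kernel

theorem y62_3_1 : enum (5 + 2) (2 * 5 + 3) 62 13 16 37 Ts62 61 [3, 1] 1 58 = true := by decide +kernel

theorem y62_3_2 : enum (5 + 2) (2 * 5 + 3) 62 13 16 37 Ts62 61 [3, 2] 2 57 = true := by decide +kernel

theorem y62_3_3 : enum (5 + 2) (2 * 5 + 3) 62 13 16 37 Ts62 61 [3, 3] 3 56 = true := by decide +kernel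

theorem y62_3 : checkY (5 + 2) (2 * 5 + 3) 62 13 16 37 Ts62 3 = true := by
  refine checkY_split (5 + 2) (2 * 5 + 3) 13 16 37 Ts62 61 3 3 59 (by omega) (by decide +kernel) y62_3_0
    fun z h1 h2 => ?_
  interval_cases z
  · exact y62_3_1
  · exact y62_3_2
  · exact y62_3_3

theorem y62_4_0 : node (5 + 2) (2 * 5 + 3) 62 13 16 37 Ts62 [4] 58 = true := by decide +kernel

theorem y62_4_1 : enum (5 + 2) (2 * 5 + 3) 62 13 16 37 Ts62 61 [4, 1] 1 57 = true := by decide +kernel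

theorem y62_4_2 : enum (5 + 2) (2 * 5 + 3) 62 13 16 37 Ts62 61 [4, 2] 2 56 = true := by decide +kernel

theorem y62_4_3 : enum (5 + 2) (2 * 5 + 3) 62 13 16 37 Ts62 61 [4, 3] 3 55 = true := by decide +kernel

theorem y62_4_4 : enum (5 + 2) (2 * 5 + 3) 62 13 16 37 Ts62 61 [4, 4] 4 54 = true := by decide +kernel

theorem y62_4 : checkY (5 + 2) (2 * 5 + 3) 62 13 16 37 Ts62 4 = true := by
  refine checkY_split (5 + 2) (2 * 5 + 3) 13 16 37 Ts62 61 4 4 58 (by omega) (by decide +kernel) y62_4_0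
    fun z h1 h2 => ?_
  interval_cases z
  · exact y62_4_1
  · exact y62_4_2
  · exact y62_4_3
  · exact y62_4_4

theorem y62_5_0 : node (5 + 2) (2 * 5 + 3) 62 13 16 37 Ts62 [5] 57 = true := by decide +kernel

theorem y62_5_1 : enum (5 + 2) (2 * 5 + 3) 62 13 16 37 Ts62 61 [5, 1] 1 56 = true := by decide +kernel

theorem y62_5_2 : enum (5 + 2) (2 * 5 + 3) 62 13 16 37 Ts62 61 [5, 2] 2 55 = true := by decide +kernel

theorem y62_5_3 : enum (5 + 2) (2 * 5 + 3) 62 13 16 37 Ts62 61 [5, 3] 3 54 = true := by decide +kernel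

theorem y62_5_4 : enum (5 + 2) (2 * 5 + 3) 62 13 16 37 Ts62 61 [5, 4] 4 53 = true := by decide +kernel

theorem y62_5_5 : enum (5 + 2) (2 * 5 + 3) 62 13 16 37 Ts62 61 [5, 5] 5 52 = true := by decide +kernel

theorem y62_5 : checkY (5 + 2) (2 * 5 + 3) 62 13 16 37 Ts62 5 = true := by
  refine checkY_split (5 + 2) (2 * 5 + 3) 13 16 37 Ts62 61 5 5 57 (by omega) (by decide +kernel) y62_5_0
    fun z h1 h2 => ?_
  interval_cases z
  · exact y62_5_1
  · exact y62_5_2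
  · exact y62_5_3
  · exact y62_5_4
  · exact y62_5_5

theorem y62_6_0 : node (5 + 2) (2 * 5 + 3) 62 13 16 37 Ts62 [6] 56 = true := by decide +kernel

theorem y62_6_1 : enum (5 + 2) (2 * 5 + 3) 62 13 16 37 Ts62 61 [6, 1] 1 55 = true := by decide +kernel

theorem y62_6_2 : enum (5 + 2) (2 * 5 + 3) 62 13 16 37 Ts62 61 [6, 2] 2 54 = true := by decide +kernel

theorem y62_6_3 : enum (5 + 2) (2 * 5 + 3) 62 13 16 37 Ts62 61 [6, 3] 3 53 = true := by decide +kernel

theorem y62_6_4 : enum (5 + 2) (2 * 5 + 3) 62 13 16 37 Ts62 61 [6, 4] 4 52 = true := by decide +kernel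

theorem y62_6_5 : enum (5 + 2) (2 * 5 + 3) 62 13 16 37 Ts62 61 [6, 5] 5 51 = true := by decide +kernel

theorem y62_6_6 : enum (5 + 2) (2 * 5 + 3) 62 13 16 37 Ts62 61 [6, 6] 6 50 = true := by decide +kernel

theorem y62_6 : checkY (5 + 2) (2 * 5 + 3) 62 13 16 37 Ts62 6 = true := by
  refine checkY_split (5 + 2) (2 * 5 + 3) 13 16 37 Ts62 61 6 6 56 (by omega) (by decide +kernel) y62_6_0
    fun z h1 h2 => ?_
  interval_cases z
  · exact y62_6_1
  · exact y62_6_2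
  · exact y62_6_3
  · exact y62_6_4
  · exact y62_6_5
  · exact y62_6_6

theorem y62_7_0 : node (5 + 2) (2 * 5 + 3) 62 13 16 37 Ts62 [7] 55 = true := by decide +kernel

theorem y62_7_1 : enum (5 + 2) (2 * 5 + 3) 62 13 16 37 Ts62 61 [7, 1] 1 54 = true := by decide +kernel

theorem y62_7_2 : enum (5 + 2) (2 * 5 + 3) 62 13 16 37 Ts62 61 [7, 2] 2 53 = true := by decide +kernel

theorem y62_7_3 : enum (5 + 2) (2 * 5 + 3) 62 13 16 37 Ts62 61 [7, 3] 3 52 = true := by decide +kernel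

theorem y62_7_4 : enum (5 + 2) (2 * 5 + 3) 62 13 16 37 Ts62 61 [7, 4] 4 51 = true := by decide +kernel

theorem y62_7_5 : enum (5 + 2) (2 * 5 + 3) 62 13 16 37 Ts62 61 [7, 5] 5 50 = true := by decide +kernel

theorem y62_7_6 : enum (5 + 2) (2 * 5 + 3) 62 13 16 37 Ts62 61 [7, 6] 6 49 = true := by decide +kernel

theorem y62_7_7 : enum (5 + 2) (2 * 5 + 3) 62 13 16 37 Ts62 61 [7, 7] 7 48 = true := by decide +kernel

theorem y62_7 : checkY (5 + 2) (2 * 5 + 3) 62 13 16 37 Ts62 7 = true := by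
  refine checkY_split (5 + 2) (2 * 5 + 3) 13 16 37 Ts62 61 7 7 55 (by omega) (by decide +kernel) y62_7_0
    fun z h1 h2 => ?_
  interval_cases z
  · exact y62_7_1
  · exact y62_7_2
  · exact y62_7_3
  · exact y62_7_4
  · exact y62_7_5
  · exact y62_7_6
  · exact y62_7_7

theorem y62_8_0 : node (5 + 2) (2 * 5 + 3) 62 13 16 37 Ts62 [8] 54 = true := by decide +kernel

theorem y62_8_1 : enum (5 + 2) (2 * 5 + 3) 62 13 16 37 Ts62 61 [8, 1] 1 53 = true := by decide +kernel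

theorem y62_8_2 : enum (5 + 2) (2 * 5 + 3) 62 13 16 37 Ts62 61 [8, 2] 2 52 = true := by decide +kernel

theorem y62_8_3 : enum (5 + 2) (2 * 5 + 3) 62 13 16 37 Ts62 61 [8, 3] 3 51 = true := by decide +kernel

theorem y62_8_4 : enum (5 + 2) (2 * 5 + 3) 62 13 16 37 Ts62 61 [8, 4] 4 50 = true := by decide +kernel

theorem y62_8_5 : enum (5 + 2) (2 * 5 + 3) 62 13 16 37 Ts62 61 [8, 5] 5 49 = true := by decide +kernel

theorem y62_8_6 : enum (5 + 2) (2 * 5 + 3) 62 13 16 37 Ts62 61 [8, 6] 6 48 = true := by decide +kernel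

theorem y62_8_7 : enum (5 + 2) (2 * 5 + 3) 62 13 16 37 Ts62 61 [8, 7] 7 47 = true := by decide +kernel

theorem y62_8_8 : enum (5 + 2) (2 * 5 + 3) 62 13 16 37 Ts62 61 [8, 8] 8 46 = true := by decide +kernel

theorem y62_8 : checkY (5 + 2) (2 * 5 + 3) 62 13 16 37 Ts62 8 = true := by
  refine checkY_split (5 + 2) (2 * 5 + 3) 13 16 37 Ts62 61 8 8 54 (by omega) (by decide +kernel) y62_8_0
    fun z h1 h2 => ?_
  interval_cases z
  · exact y62_8_1
  · exact y62_8_2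
  · exact y62_8_3
  · exact y62_8_4
  · exact y62_8_5
  · exact y62_8_6
  · exact y62_8_7
  · exact y62_8_8

theorem y62_9_0 : node (5 + 2) (2 * 5 + 3) 62 13 16 37 Ts62 [9] 53 = true := by decide +kernel

theorem y62_9_1 : enum (5 + 2) (2 * 5 + 3) 62 13 16 37 Ts62 61 [9, 1] 1 52 = true := by decide +kernel

theorem y62_9_2 : enum (5 + 2) (2 * 5 + 3) 62 13 16 37 Ts62 61 [9, 2] 2 51 = true := by decide +kernel

theorem y62_9_3 : enum (5 + 2) (2 * 5 + 3) 62 13 16 37 Ts62 61 [9, 3] 3 50 = true := by decide +kernel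

theorem y62_9_4 : enum (5 + 2) (2 * 5 + 3) 62 13 16 37 Ts62 61 [9, 4] 4 49 = true := by decide +kernel

theorem y62_9_5 : enum (5 + 2) (2 * 5 + 3) 62 13 16 37 Ts62 61 [9, 5] 5 48 = true := by decide +kernel

theorem y62_9_6 : enum (5 + 2) (2 * 5 + 3) 62 13 16 37 Ts62 61 [9, 6] 6 47 = true := by decide +kernel

theorem y62_9_7 : enum (5 + 2) (2 * 5 + 3) 62 13 16 37 Ts62 61 [9, 7] 7 46 = true := by decide +kernel

theorem y62_9_8 : enum (5 + 2) (2 * 5 + 3) 62 13 16 37 Ts62 61 [9, 8] 8 45 = true := by decide +kernel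

theorem y62_9_9 : enum (5 + 2) (2 * 5 + 3) 62 13 16 37 Ts62 61 [9, 9] 9 44 = true := by decide +kernel

theorem y62_9 : checkY (5 + 2) (2 * 5 + 3) 62 13 16 37 Ts62 9 = true := by
  refine checkY_split (5 + 2) (2 * 5 + 3) 13 16 37 Ts62 61 9 9 53 (by omega) (by decide +kernel) y62_9_0
    fun z h1 h2 => ?_
  interval_cases z
  · exact y62_9_1
  · exact y62_9_2
  · exact y62_9_3
  · exact y62_9_4
  · exact y62_9_5
  · exact y62_9_6
  · exact y62_9_7
  · exact y62_9_8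
  · exact y62_9_9

theorem y62_10_0 : node (5 + 2) (2 * 5 + 3) 62 13 16 37 Ts62 [10] 52 = true := by decide +kernel

theorem y62_10_1 : enum (5 + 2) (2 * 5 + 3) 62 13 16 37 Ts62 61 [10, 1] 1 51 = true := by decide +kernel

theorem y62_10_2 : enum (5 + 2) (2 * 5 + 3) 62 13 16 37 Ts62 61 [10, 2] 2 50 = true := by decide +kernel

theorem y62_10_3 : enum (5 + 2) (2 * 5 + 3) 62 13 16 37 Ts62 61 [10, 3] 3 49 = true := by decide +kernel

theorem y62_10_4 : enum (5 + 2) (2 * 5 + 3) 62 13 16 37 Ts62 61 [10, 4] 4 48 = true := by decide +kernel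

theorem y62_10_5 : enum (5 + 2) (2 * 5 + 3) 62 13 16 37 Ts62 61 [10, 5] 5 47 = true := by decide +kernel

theorem y62_10_6 : enum (5 + 2) (2 * 5 + 3) 62 13 16 37 Ts62 61 [10, 6] 6 46 = true := by decide +kernel

theorem y62_10_7 : enum (5 + 2) (2 * 5 + 3) 62 13 16 37 Ts62 61 [10, 7] 7 45 = true := by decide +kernel

theorem y62_10_8 : enum (5 + 2) (2 * 5 + 3) 62 13 16 37 Ts62 61 [10, 8] 8 44 = true := by decide +kernel

theorem y62_10_9 : enum (5 + 2) (2 * 5 + 3) 62 13 16 37 Ts62 61 [10, 9] 9 43 = true := by decide +kernel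

theorem y62_10_10 : enum (5 + 2) (2 * 5 + 3) 62 13 16 37 Ts62 61 [10, 10] 10 42 = true := by decide +kernel

theorem y62_10 : checkY (5 + 2) (2 * 5 + 3) 62 13 16 37 Ts62 10 = true := by
  refine checkY_split (5 + 2) (2 * 5 + 3) 13 16 37 Ts62 61 10 10 52 (by omega) (by decide +kernel) y62_10_0
    fun z h1 h2 => ?_
  interval_cases z
  · exact y62_10_1
  · exact y62_10_2
  · exact y62_10_3
  · exact y62_10_4
  · exact y62_10_5
  · exact y62_10_6
  · exact y62_10_7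
  · exact y62_10_8
  · exact y62_10_9
  · exact y62_10_10

theorem y62_11_0 : node (5 + 2) (2 * 5 + 3) 62 13 16 37 Ts62 [11] 51 = true := by decide +kernel

theorem y62_11_1 : enum (5 + 2) (2 * 5 + 3) 62 13 16 37 Ts62 61 [11, 1] 1 50 = true := by decide +kernel

theorem y62_11_2 : enum (5 + 2) (2 * 5 + 3) 62 13 16 37 Ts62 61 [11, 2] 2 49 = true := by decide +kernel

theorem y62_11_3 : enum (5 + 2) (2 * 5 + 3) 62 13 16 37 Ts62 61 [11, 3] 3 48 = true := by decide +kernel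

theorem y62_11_4 : enum (5 + 2) (2 * 5 + 3) 62 13 16 37 Ts62 61 [11, 4] 4 47 = true := by decide +kernel

theorem y62_11_5 : enum (5 + 2) (2 * 5 + 3) 62 13 16 37 Ts62 61 [11, 5] 5 46 = true := by decide +kernel

theorem y62_11_6 : enum (5 + 2) (2 * 5 + 3) 62 13 16 37 Ts62 61 [11, 6] 6 45 = true := by decide +kernel

theorem y62_11_7 : enum (5 + 2) (2 * 5 + 3) 62 13 16 37 Ts62 61 [11, 7] 7 44 = true := by decide +kernel

theorem y62_11 : checkY (5 + 2) (2 * 5 + 3) 62 13 16 37 Ts62 11 = true := by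
  refine checkY_split (5 + 2) (2 * 5 + 3) 13 16 37 Ts62 61 11 7 51 (by omega) (by decide +kernel) y62_11_0
    fun z h1 h2 => ?_
  interval_cases z
  · exact y62_11_1
  · exact y62_11_2
  · exact y62_11_3
  · exact y62_11_4
  · exact y62_11_5
  · exact y62_11_6
  · exact y62_11_7

theorem y62_12 : checkY (5 + 2) (2 * 5 + 3) 62 13 16 37 Ts62 12 = true := by decide +kernel

theorem ys62 : ∀ y, 1 ≤ y → y ≤ 62 / 5 → checkY (5 + 2) (2 * 5 + 3) 62 13 16 37 Ts62 y = true := by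
  intro y h1 h2
  have h3 : y < 13 := by omega
  interval_cases y
  · exact y62_1
  · exact y62_2
  · exact y62_3
  · exact y62_4
  · exact y62_5
  · exact y62_6
  · exact y62_7
  · exact y62_8
  · exact y62_9
  · exact y62_10
  · exact y62_11
  · exact y62_12

/-- `n = 62` -/
theorem full62 : Full 62 13 :=
  full_of_check 2 5 9 62 16 37 Ts62 (by omega) (by omega) (by omega) ⟨by omega, by omega⟩ node62
    ys62

end Crest.Agent.SY
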