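import Crest.Agent.SY_E16
import Crest.Agent.SY_M1
import Crest.Agent.SY_M2

/-!
# S0298 for `n = 47`
-/

set_option autoImplicit false

namespace Crest.Agent.SY

open Finset Ck

theorem g47_a : (four 7 (gP 0 3)).a = fun c => l47.getD c 0 := by
  have hgt : (four 7 (gP 0 3)).tr = four 7 (gP 0 3) :=
    four_tr 7 _ (by rw [gP_a_zero]; omega) (gP_tr 0 3 (by omega))
  have h0 : (four 7 (gP 0 3)).a 0 = 11 := four_a_zero 7 _
  have hb : (four 7 (gP 0 3)).b 0 = 11 := by
    rw [← hgt]
    exact h0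
  funext c
  by_cases hc : c < 11
  · interval_cases c <;> rfl
  · rw [Shp.a_eq_zero _ (by omega), List.getD_eq_default]
    show 11 ≤ c
    omega

theorem x47_a (S : Shp) (h : ∀ r, S.b r = exc47.getD r 0) : S.a = fun c => x47.getD c 0 := by
  have h1 : IsR S exc47 := h
  have hb : S.b 0 = 18 := h 0
  funext c
  by_cases hc : c < 18
  · rw [← h1.cnt c]
    interval_cases c <;> rfl
  · rw [Shp.a_eq_zero _ (by omega), List.getD_eq_default]
    show 18 ≤ c
    omega

/-- `n = 47` -/
theorem concl47 : Concl 47 := by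
  have hs : (four 7 (gP 0 3)).size = 47 := by
    have hb : (four 7 (gP 0 3)).b 0 ≤ 11 := by
      have hgt : (four 7 (gP 0 3)).tr = four 7 (gP 0 3) :=
        four_tr 7 _ (by rw [gP_a_zero]; omega) (gP_tr 0 3 (by omega))
      have h0 : (four 7 (gP 0 3)).a 0 = 11 := four_a_zero 7 _
      rw [← hgt]
      exact h0.le
    rw [Shp.size_eq_sum _ 11 hb, g47_a]
    decide
  refine Concl_mixed 47 11 (JPQ 0 3 7) (four 7 (gP 0 3)) hs (by decide) fun lam hlam => ?_
  rcases der47 lam hlam with h | h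
  · exact Or.inl h
  · exact Or.inr (kr47 _ _ g47_a (x47_a lam h))

end Crest.Agent.SY
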