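import Crest.Agent.SZ_Cert
import Crest.Agent.SZ_KernOk

/-!
# S0298 small `n`: the library of direct certificates
-/

set_option autoImplicit false

namespace Crest.Agent.SZ

theorem lib0 : KL [2, 2] [2, 2] [2, 2] :=
  KL_of_dfs [2, 2] [2, 2] [2, 2]
    [((0, 0), (1, 1), (1, 1)), ((0, 1), (0, 1), (1, 0)), ((1, 0), (0, 0), (0, 0)), ((1, 1), (1, 0), (0, 1))]
    [(0, 0, 1), (1, 1, 0)]
    (by decide) (by decide) (by decide) (by decide) (by decide +kernel)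

theorem lib1 : KL [2, 2, 2, 1] [4, 1, 1, 1] [4, 1, 1, 1] :=
  KL_of_dfs [2, 2, 2, 1] [4, 1, 1, 1] [4, 1, 1, 1]
    [((0, 0), (3, 0), (2, 0)), ((0, 1), (0, 3), (1, 0)), ((1, 0), (0, 0), (3, 0)), ((1, 1), (2, 0), (0, 3)), ((2, 0), (1, 0), (0, 0)), ((2, 1), (0, 2), (0, 2)), ((3, 0), (0, 1), (0, 1))]
    [(0, 0, 0), (0, 3, 3), (1, 0, 2), (1, 1, 1), (1, 2, 0)]
    (by decide) (by decide) (by decide) (by decide) (by decide +kernel)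

theorem lib2 : KL [3, 3, 2] [4, 2, 1, 1] [4, 2, 1, 1] :=
  KL_of_dfs [3, 3, 2] [4, 2, 1, 1] [4, 2, 1, 1]
    [((0, 0), (3, 0), (2, 0)), ((0, 1), (2, 0), (0, 0)), ((0, 2), (1, 1), (0, 2)), ((1, 0), (1, 0), (0, 1)), ((1, 1), (0, 3), (0, 3)), ((1, 2), (0, 0), (1, 0)), ((2, 0), (0, 2), (3, 0)), ((2, 1), (0, 1), (1, 1))]
    [(0, 0, 0), (0, 0, 1), (1, 0, 1), (1, 1, 3), (1, 2, 0), (2, 1, 2), (2, 3, 0)]
    (by decide) (by decide) (by decide) (by decide) (by decide +kernel)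

theorem lib3 : KL [3, 3, 2, 1, 1, 1] [4, 3, 3, 1] [4, 3, 3, 1] :=
  KL_of_dfs [3, 3, 2, 1, 1, 1] [4, 3, 3, 1] [4, 3, 3, 1]
    [((0, 0), (2, 0), (3, 0)), ((0, 1), (0, 1), (2, 1)), ((0, 2), (2, 2), (1, 1)), ((1, 0), (1, 2), (1, 2)), ((1, 1), (1, 0), (0, 0)), ((1, 2), (1, 1), (2, 0)), ((2, 0), (3, 0), (0, 2)), ((2, 1), (2, 1), (0, 1)), ((3, 0), (0, 2), (0, 3)), ((4, 0), (0, 3), (2, 2)), ((5, 0), (0, 0), (1, 0))]
    [(0, 0, 0), (0, 1, 2), (0, 2, 1), (1, 1, 2), (1, 2, 1), (2, 1, 3), (2, 3, 2)]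
    (by decide) (by decide) (by decide) (by decide) (by decide +kernel)

theorem lib4 : KL [3, 3, 3, 1, 1] [4, 3, 3, 1] [4, 3, 3, 1] :=
  KL_of_dfs [3, 3, 3, 1, 1] [4, 3, 3, 1] [4, 3, 3, 1]
    [((0, 0), (1, 0), (3, 0)), ((0, 1), (0, 2), (1, 1)), ((0, 2), (3, 0), (2, 0)), ((1, 0), (2, 0), (1, 0)), ((1, 1), (1, 2), (0, 1)), ((1, 2), (2, 2), (2, 1)), ((2, 0), (0, 0), (1, 2)), ((2, 1), (0, 1), (0, 0)), ((2, 2), (1, 1), (0, 2)), ((3, 0), (0, 3), (0, 3)), ((4, 0), (2, 1), (2, 2))]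
    [(0, 0, 2), (0, 1, 2), (0, 2, 1), (0, 3, 0), (1, 0, 0), (2, 1, 3), (2, 2, 1)]
    (by decide) (by decide) (by decide) (by decide) (by decide +kernel)

theorem lib5 : KL [3, 3, 3, 2] [4, 3, 3, 1] [4, 3, 3, 1] :=
  KL_of_dfs [3, 3, 3, 2] [4, 3, 3, 1] [4, 3, 3, 1]
    [((0, 0), (1, 0), (3, 0)), ((0, 1), (0, 0), (0, 2)), ((0, 2), (2, 1), (1, 2)), ((1, 0), (0, 1), (0, 0)), ((1, 1), (0, 2), (2, 0)), ((1, 2), (3, 0), (1, 1)), ((2, 0), (0, 3), (1, 0)), ((2, 1), (2, 2), (2, 1)), ((2, 2), (1, 1), (2, 2)), ((3, 0), (1, 2), (0, 1)), ((3, 1), (2, 0), (0, 3))]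
    [(0, 0, 3), (0, 1, 0), (1, 0, 1), (1, 0, 2), (1, 2, 2), (2, 2, 1), (2, 3, 0)]
    (by decide) (by decide) (by decide) (by decide) (by decide +kernel)

theorem lib6 : KL [4, 4, 3, 2] [5, 3, 3, 1, 1] [5, 3, 3, 1, 1] :=
  KL_of_dfs [4, 4, 3, 2] [5, 3, 3, 1, 1] [5, 3, 3, 1, 1]
    [((0, 0), (3, 0), (1, 2)), ((0, 1), (2, 0), (1, 0)), ((0, 2), (0, 4), (1, 1)), ((0, 3), (1, 2), (3, 0)), ((1, 0), (1, 0), (2, 0)), ((1, 1), (1, 1), (0, 2)), ((1, 2), (0, 3), (2, 2)), ((1, 3), (2, 1), (2, 1)), ((2, 0), (2, 2), (0, 4)), ((2, 1), (4, 0), (0, 0)), ((2, 2), (0, 1), (0, 3)), ((3, 0), (0, 0), (0, 1)), ((3, 1), (0, 2), (4, 0))]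
    [(0, 0, 3), (0, 1, 2), (0, 2, 0), (1, 0, 1), (1, 1, 0), (1, 1, 2), (2, 0, 0), (2, 0, 2), (2, 4, 1), (3, 2, 4), (3, 3, 0)]
    (by decide) (by decide) (by decide) (by decide) (by decide +kernel)

theorem lib7 : KL [4, 3, 3, 3] [5, 3, 3, 1, 1] [5, 3, 3, 1, 1] :=
  KL_of_dfs [4, 3, 3, 3] [5, 3, 3, 1, 1] [5, 3, 3, 1, 1]
    [((0, 0), (3, 0), (1, 0)), ((0, 1), (1, 0), (0, 2)), ((0, 2), (2, 0), (2, 0)), ((0, 3), (2, 1), (3, 0)), ((1, 0), (1, 1), (0, 1)), ((1, 1), (4, 0), (1, 1)), ((1, 2), (2, 2), (0, 4)), ((2, 0), (1, 2), (4, 0)), ((2, 1), (0, 2), (2, 1)), ((2, 2), (0, 3), (0, 0)), ((3, 0), (0, 1), (1, 2)), ((3, 1), (0, 0), (0, 3)), ((3, 2), (0, 4), (2, 2))]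
    [(0, 0, 1), (0, 2, 4), (0, 3, 0), (1, 0, 0), (1, 2, 2), (2, 1, 1), (2, 1, 2), (2, 4, 0), (3, 2, 3)]
    (by decide) (by decide) (by decide) (by decide) (by decide +kernel)

/-- the library -/
def lib : List KF := [⟨4, 128, 128, 128⟩,
  ⟨7, 193, 262147, 262147⟩,
  ⟨8, 8256, 262210, 262210⟩,
  ⟨11, 8259, 270337, 270337⟩,
  ⟨11, 12290, 270337, 270337⟩,
  ⟨11, 12352, 270337, 270337⟩,
  ⟨13, 528448, 16785410, 16785410⟩,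
  ⟨13, 274432, 16785410, 16785410⟩]

theorem lib_ok : ∀ x ∈ lib, x.ok := by
  intro x hx
  simp only [lib, List.mem_cons, List.not_mem_nil, or_false] at hx
  rcases hx with rfl | rfl | rfl | rfl | rfl | rfl | rfl | rfl
  all_goals intro _
  · exact KN_of_KL (a := [2, 2]) (b := [2, 2]) (c := [2, 2]) (by decide) (by decide) (by decide) lib0
  · exact KN_of_KL (a := [2, 2, 2, 1]) (b := [4, 1, 1, 1]) (c := [4, 1, 1, 1]) (by decide) (by decide) (by decide) lib1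
  · exact KN_of_KL (a := [3, 3, 2]) (b := [4, 2, 1, 1]) (c := [4, 2, 1, 1]) (by decide) (by decide) (by decide) lib2
  · exact KN_of_KL (a := [3, 3, 2, 1, 1, 1]) (b := [4, 3, 3, 1]) (c := [4, 3, 3, 1]) (by decide) (by decide) (by decide) lib3
  · exact KN_of_KL (a := [3, 3, 3, 1, 1]) (b := [4, 3, 3, 1]) (c := [4, 3, 3, 1]) (by decide) (by decide) (by decide) lib4
  · exact KN_of_KL (a := [3, 3, 3, 2]) (b := [4, 3, 3, 1]) (c := [4, 3, 3, 1]) (by decide) (by decide) (by decide) lib5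
  · exact KN_of_KL (a := [4, 4, 3, 2]) (b := [5, 3, 3, 1, 1]) (c := [5, 3, 3, 1, 1]) (by decide) (by decide) (by decide) lib6
  · exact KN_of_KL (a := [4, 3, 3, 3]) (b := [5, 3, 3, 1, 1]) (c := [5, 3, 3, 1, 1]) (by decide) (by decide) (by decide) lib7

end Crest.Agent.SZ
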