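import Crest.Agent.SwC_Basic
import Crest.Agent.SwC_M3
import Crest.Prelude.Def_SwitchChain

/-!
BLUEPRINT of S0453 (statements with `sorry`; do NOT import this file in a final proof).
Each task = one theorem, to be proved in its own file `Crest/Agent/SwC_<Name>.lean` with exactly
this statement and name.
-/

set_option autoImplicit false

open Finset

namespace Crest.Agent.SwC

section Coupling

/-- TASK 1 (file SwC_Coupling.lean). Finset-level coupling.

Proof. Put `q = |Z|-p+1 ≥ 1` and `a = p+1 ≥ 1`.  Split `powersetCard (p+1) (Z ∪ {c,c'})` according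
to the intersection of `A` with `{c,c'}`:
 `∑_A h A = ∑_B h(B+c) + ∑_B h(B+c') + ∑_{E ∈ powersetCard (p-1) Z} h(E+c+c')
            + ∑_{D ∈ powersetCard (p+1) Z} h(D)`  (third sum empty if p = 0).
Double counting: `q * ∑_E h(E+c+c') = ∑_E ∑_{z ∈ Z\E} h(E+c+c') = ∑_B ∑_{z ∈ B} h(B-z+c+c')` and
`(p+1) * ∑_D h D = ∑_D ∑_{z∈D} h D = ∑_B ∑_{z ∈ Z\B} h(B+z)`.
So `∑_A h A = ∑_B [h(B+c)+h(B+c') + (1/q) ∑_{z∈B} h(B-z+c+c') + (1/(p+1)) ∑_{z∈Z\B} h(B+z)]`.
With `κ = 2 + p/q + (|Z|-p)/(p+1)`: each bracket is within `κ K` of `κ g B`; the same identity for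
`h ≡ 1` gives `#A's = κ #B's`. Divide. (`K ≥ 0` because powersetCard p Z is nonempty.) -/
theorem coupling {C : Type*} [DecidableEq C] (Z : Finset C) (c c' : C) (hc : c ∉ Z) (hc' : c' ∉ Z)
    (hcc : c ≠ c') (p : ℕ) (hp : p ≤ Z.card) (h g : Finset C → ℝ) (K : ℝ)
    (h1 : ∀ B ∈ Z.powersetCard p, |h (insert c B) - g B| ≤ K)
    (h2 : ∀ B ∈ Z.powersetCard p, |h (insert c' B) - g B| ≤ K)
    (h3 : ∀ B ∈ Z.powersetCard p, ∀ z ∈ B, |h (insert c (insert c' (B.erase z))) - g B| ≤ K)
    (h4 : ∀ B ∈ Z.powersetCard p, ∀ z ∈ Z \ B, |h (insert z B) - g B| ≤ K) :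
    |(∑ A ∈ (insert c (insert c' Z)).powersetCard (p + 1), h A) /
        (((insert c (insert c' Z)).powersetCard (p + 1)).card : ℝ) -
      (∑ B ∈ Z.powersetCard p, g B) / ((Z.powersetCard p).card : ℝ)| ≤ K := by
  sorry

end Coupling

section B3

variable {C : Type*} [Fintype C] {R : Fin 3 → ℤ} {S : C → ℤ}

/-- TASK 2 (file SwC_B3.lean, uses TASK 1). The three-row inequality.

Proof. `T = D_0 + D_1 + D_2` (`D_i = dif (rowRel i)`) is symmetric; as `∑ (D_i f)^2 = ∑ f D_i f`, the
claim is `∑ f T f ≤ ∑ (T f)^2`, so by `eig_sq` (c = 1) it suffices: if `T f = s f`, `f ≠ 0` then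
`s ≤ s²`. Now `s ≥ 0`. Suppose `s < 1`; let `λ = 3 - s > 2`, `E_0 f + E_1 f + E_2 f = λ f`
(`E_i = avg (rowRel i)`). We show `f` is `rowRel i`-invariant for each `i`, so `T f = 0`, `s = 0`.
 Step 1 (same type). For `c ≠ c'` with `S c = S c'` let `σ` be the swap of columns `c,c'`
   (a permutation of `M3 R S` preserving all `rowRel i`). `g = f - f∘σ` satisfies `∑ E_i g = λ g`.
   Take `M` maximising `|g|`, suppose `g M ≠ 0`. Then columns `c,c'` of `M` differ, have the same sum,
   so they agree in exactly one row `k`; the `rowRel k` class of `M` is `σ`-invariant and `g∘σ = -g`,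
   so `E_k g M = 0`; `|E_i g M| ≤ |g M|` for the other two, so `λ |g M| ≤ 2 |g M|`, contradiction.
   Hence `f∘σ = f`.
 Step 2 (different type). `S c = 1`, `S c' = 2`, `i ≠ j`; `M` with column `c = e_i`,
   column `c' = 1 - e_i`; `M'` = same with column `c = e_j`, `c' = 1 - e_j` (an "unequal switch", in
   `M3 R S`). Let `K` = max of `|f M - f M'|` over all such (c,c',i,j,M), attained at `(M,M')`.
   `λ K = |∑_l (E_l f M - E_l f M')|`; for the third row `k`: `M,M'` are in the same `rowRel k` class.
   For `l = i` and `l = j` the difference is `≤ K` (coupling below). So `λ K ≤ 2 K`, `K = 0`.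
   Coupling: let `P` have column `c = e_l`, `c' = 1 - e_l` ("small") and `Q c l = 0, Q c' l = 1`,
   `Q x l = P x l` for other `x` ("big"), in the same background (Q = unequal switch of P). Let
   `j,k` be the two other rows, `Z = {x | S x - P x l = 1}` (then `c, c' ∉ Z`); the class of
   `P` under `rowRel l` is parametrised by `B = {x ∈ Z | N x j = 1}`, `B ∈ powersetCard p Z`; the class of
   `Q` by `A = {x | N x j = 1, S x - Q x l = 1} ∈ powersetCard (p+1) (Z ∪ {c,c'})`.
   Hypotheses of `coupling`: `A = B+c` (column c = e_j, c' = 1-e_j) and `A = B+c'` (c = e_k,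
   c' = 1 - e_k) are unequal switches of `B`: within `K`. `A = B - z + c + c'` (z ∈ B): row j has c,c';
   row k has z: if `S z = 1` swap columns z,c (same type) to get `A = B + c'`(z back to row j, c to
   row k); if `S z = 2` swap columns z,c' to get `A = B + c`. `A = B + z` (z ∈ Z \ B): rows j has z and
   neither c nor c': if `S z = 1` swap z,c: get `A = B + c`; if `S z = 2` swap z,c': get `A = B + c'`.
 Step 3. Two matrices in the same `rowRel k` class are connected by such moves
   (induction on the number of columns where they differ), so `f` is constant on classes. -/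
theorem b3 (f : M3 R S → ℝ) :
    0 ≤ ∑ M, (dif (rowRel 0) f M * dif (rowRel 1) f M + dif (rowRel 0) f M * dif (rowRel 2) f M +
      dif (rowRel 1) f M * dif (rowRel 2) f M) := by
  sorry

end B3

section Graph

variable {V : Type*} [Fintype V] {d : V → ℤ}

/-- TASK 3 (file SwC_Share.lean, uses `b3`). Transfer of the three-row inequality to a triple of
vertices `i,j,k` of the graph.

Proof. Let `relT G H`: `G,H` agree at slots `x y` with `x,y ∉ T = {i,j,k}`; for `x ∉ T`
`G i x + G j x + G k x = H i x + ...`; `G i j + G i k + G j k = H ...`. It is an equivalence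
coarser than the three block relations. By `sum_nonneg_of_class` enough: sum over `blk relT G₀` ≥ 0.
Columns `C = Option V`, rows 0,1,2 = i,j,k. For `G` put `mat G (some x) = (G i x, G j x, G k x)` for
`x ∉ T`, `= 0` for `x ∈ T`, and the VIRTUAL column `mat G none = (1 - G j k, 1 - G i k, 1 - G i j)`.
With `e = G i j + G i k + G j k` constant on the class, the row sum of row `i` is
`(d i - G i j - G i k) + (1 - G j k) = d i - e + 1`: constant. So `mat` maps `blk relT G₀` to
`M3 R S`; it is injective on the class, and onto: from `M : M3 R S` build `φ M : Rz d` by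
`(φ M) i x = M (some x) 0` etc. for x ∉ T, `(φ M) j k = 1 - M none 0` etc., other slots those of `G₀`.
`φ : M3 R S → Rz d` injective with range the class; and `rel j k (φ M) z ↔ ∃ N, z = φ N ∧ rowRel 0 M N`
(row `i` = row 0 is frozen exactly when the block `{j,k}` moves), similarly `rel i k` ↔ rowRel 1,
`rel i j` ↔ rowRel 2. Use `avg_comp_inj` and `b3 (f ∘ φ)`. -/
theorem share_nonneg {i j k : V} (hij : i ≠ j) (hik : i ≠ k) (hjk : j ≠ k) (f : Rz d → ℝ) :
    0 ≤ ∑ G, (dif (rel j k) f G * dif (rel i k) f G + dif (rel j k) f G * dif (rel i j) f G +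
      dif (rel i k) f G * dif (rel i j) f G) := by
  sorry

/-- TASK 4a (file SwC_Comm.lean). Commutation of averages over relations supported on disjoint slots.
Use `avg_comm_of_rect`: the completion of the rectangle `G, H, K` is `L = H + K - G` (entrywise): at
each slot either `H = G` or `K = G`, so `L` is 0/1; row sums `d + d - d`. -/
theorem comm_FF {u w x y : V} (h : Dist4 u w x y) (f : Rz d → ℝ) :
    avg (relF u w x y) (avg (relF x y u w) f) = avg (relF x y u w) (avg (relF u w x y) f) := by
  sorry

/-- TASK 4b. Same with the full block `{u,w}` and the restricted block `{x,y}` (slots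
`{x,y} × {u,w}` frozen). -/
theorem comm_RF {u w x y : V} (h : Dist4 u w x y) (f : Rz d → ℝ) :
    avg (rel u w) (avg (relF x y u w) f) = avg (relF x y u w) (avg (rel u w) f) := by
  sorry

/-- TASK 4c. If the number of edges between `{u,w}` and `{x,y}` is not 2, the two full blocks commute.
Rectangle completion of `G,H,K` (H in the `{u,w}`-block of G, K in the `{x,y}`-block): off the four
slots `{u,w}×{x,y}` take `L = H + K - G`; on the four slots: if `H` agrees with `G` there take `K`, if `K`
agrees with `G` there take `H`; otherwise all slots of the 2x2 square get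
`L = 1 - (G+H+K)` when the number of edges is 1 and `L = 3 - (G+H+K)` when it is 3.
Uniqueness: `L - L'` is supported on the square with zero row and column sums, so it is `± [1,-1;-1,1]`
or 0; the first would force number of edges 2. The hypothesis number ≠ 2 is invariant under
both relations. -/
theorem comm_RR {u w x y : V} (h : Dist4 u w x y) (f : Rz d → ℝ) (G : Rz d)
    (hG : G u x + G u y + G w x + G w y ≠ 2) :
    avg (rel u w) (avg (rel x y) f) G = avg (rel x y) (avg (rel u w) f) G := by
  sorry

/-- TASK 5 (file SwC_Disj.lean, uses 4a,4b,4c). The inequality for disjoint pairs `b={u,w}, b'={x,y}`.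

Proof. `E = avg (rel u w)`, `E' = avg (rel x y)`, `A = avg (relF u w x y)`, `A' = avg (relF x y u w)`.
`EA = AE = E`, `E'A' = A'E' = E'`, `AA' = A'A`, `EA' = A'E`, `E'A = AE'`. With `P₁ = 1-A`, `P₂ = A-E`,
`D = P₁+P₂`: `⟨Df,D'f⟩ = ‖P₁P₁'f‖² + ‖P₁P₂'f‖² + ‖P₂P₁'f‖² + ⟨P₂f,P₂'f⟩` and, with `fh = AA'f`,
`⟨P₂f,P₂'f⟩ = ⟨D fh, D' fh⟩`.
Let `T g = 1_split (g - g∘swt)`. `T` commutes with `A`, `A'`; `T E = T E' = 0` (swt stays in both blocks);
`∑ (T g)² ≤ 4 ∑ g²`. So `∑ (Tf)² = ∑ (T P₁P₁'f)² + ∑(T P₁A'f)² + ∑ (T A P₁' f)² + ∑ (T fh)²` and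
`T P₁ A' f = T P₁ P₂' f`. Therefore `⟨Df,D'f⟩ ≥ (1/4)(∑(Tf)² - ∑(T fh)²) + ⟨D fh, D' fh⟩`.
For `fh` (invariant under relF u w x y and relF x y u w):
 * on states with number of edges of the square ≠ 2: `∑ D fh * D' fh = ∑ (D D' fh)² ≥ 0` by `comm_RR`
   (multiply by the invariant indicator);
 * states with number = 2 which are not split: either both columns of the square are constant in
   `u,w` (then rel u w class = relF u w x y class, `D fh = 0`) or both rows constant (then `D' fh = 0`);
 * split states: `m = E fh`, `m' = E' fh` are swt-invariant, `fb = (fh + fh∘swt)/2`: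
   `∑_split (fh-m)(fh-m') = (1/4) ∑ (T fh)² + ∑_split (fb - m)(fb - m')
      ≥ (1/4)∑(T fh)² - (1/2)∑_split ((fb-m)² + (fb-m')²)`.
 Finally on split states `fb - m = A' (tt u w x y f)` (since `avg (relS u w x y) f = (Af + (Af)∘swt)/2`
 on split states: the split part of the rel-class of G is the disjoint union of the relF-classes of G and
 of swt G, which are in bijection by swt), and split is A'-invariant, so by Jensen
 `∑_split (fb-m)² ≤ ∑_split tt²`. Same for the other one with `tt x y u w`. -/
theorem disj_lower {u w x y : V} (h : Dist4 u w x y) (f : Rz d → ℝ) :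
    (1 / 4 : ℝ) * ∑ G, (open scoped Classical in
        if split u w x y G then (f G - f (swt u w x y G)) ^ 2 else 0)
      - (1 / 2 : ℝ) * ∑ G, (open scoped Classical in
        if split u w x y G then (tt u w x y f G) ^ 2 + (tt x y u w f G) ^ 2 else 0)
      ≤ ∑ G, dif (rel u w) f G * dif (rel x y) f G := by
  sorry

/-- TASK 6 (file SwC_John.lean). The Johnson inequality for one block `{u,w}`.

Proof. Replacing `f` by `D f` changes nothing (tt, differences along swt, ⟨f,Df⟩), so apply the spectral
lemma `eig_psd` to the symmetric operator `T = D ∘ (L - τ - 2) ∘ D` where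
 `L g G = (1/2) ∑_{x,y} [split u w x y G] (g G - g (swt u w x y G))`,
 `τ g G = ∑_{x,y} [split u w x y G] (avg (relS u w x y) g) G`
 (`⟨g,L g⟩ = (1/4)∑∑∑_{split} (..)²`, `⟨g,τ g⟩ = ∑∑∑_{split} (avg (relS) g)²`).
Eigenfunction `T f = θ f`, `θ < 0`, f ≠ 0: then `D f = f`, `E f = 0`. Let `K = max |f G - f G'|` over
`G' = swt u w x y G`, `split u w x y G`. If `K = 0`, `f` is constant on blocks (connectivity of a block
by switches: induction on the number of differing columns), so `D f = 0 = f`, contradiction.
Otherwise take `(G,G',x,y)` attaining it, `f G - f G' = K`, say `x` attached to `u`, `y` attached to `w`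
in G. Let `A` = columns attached to u (x∈A), `B` = attached to w (y ∈ B), `m = |A|+|B|`.
(D h G - D h G' = h G - h G' as G,G' are in the same block.)
 (L f)(G) - (L f)(G') ≥ m K:  writing L g G = ∑_{a∈A,b∈B} (g G - g G^{ab}): the pair (x,y) at G and (y,x) at
   G' give 2K; common pairs (a,b) (a≠x, b≠y) give K - (f G^{ab} - f G'^{ab}) ≥ 0 [G'^{ab} = (G^{ab})^{xy}];
   (x,b) at G and (y,b) at G' lead to the same graph: K each (|B|-1 of them); (a,y) at G and (a,x) at G'
   lead to the same graph: K each (|A|-1).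
 |(τ f)(G) - (τ f)(G')| ≤ (m-2) K: with t_{ab} = value of avg relS f on the part of the class where {a,b} is
   split, τ f G = 2∑_{a∈A,b∈B} t_{ab}; difference = 2 ∑_{z ≠ x,y ambiguous} ± (t_{xz} - t_{yz}), and
   |t_{xz} - t_{yz}| ≤ K/2: ∑_{xz split} f - ∑_{yz split} f = ∑_{x | y z} (f G - f (swt u w x y G)), the number
   of `x | y z` configurations (x on one side, y,z on the other) is half the number of configurations with
   x,z split (bijection swt u w x z between (x|yz) and (z|xy)), and #(xz split) = #(yz split).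
 So θ K = (T f)(G) - (T f)(G') ≥ (m - (m-2) - 2) K = 0, contradiction with θ < 0 < K. -/
theorem johnson {u w : V} (huw : u ≠ w) (f : Rz d → ℝ) :
    2 * ∑ G, f G * dif (rel u w) f G
      + ∑ x, ∑ y, ∑ G, (open scoped Classical in
          if split u w x y G then (tt u w x y f G) ^ 2 else 0)
      ≤ (1 / 4 : ℝ) * ∑ x, ∑ y, ∑ G, (open scoped Classical in
          if split u w x y G then (f G - f (swt u w x y G)) ^ 2 else 0) := by
  sorry

/-- TASK 7 (file SwC_Conn.lean). Connectivity by switches.

Proof. Claim: for all finsets `P` (processed) and `G,H` agreeing on all slots meeting `P`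
(`G p x = H p x` for p ∈ P): f G = f H. Induction on `|V \ P|`; if P = univ then G = H. Otherwise choose
`v ∉ P`, and do an inner induction on `|{x | G v x ≠ H v x}|`. If 0, use the outer hypothesis with
`insert v P`. Otherwise there are `x` with `G v x = 1, H v x = 0` and `y` with `H v y = 1, G v y = 0`
(degrees equal), x,y ∉ P ∪ {v}. If there is z ∉ P∪{v,x,y} with `G z y = 1, G z x = 0`: switch G along
`v x , z y → v y, z x` (`swt v z x y G`): agrees with H on P-slots, and fewer disagreements at v.
If there is z with `H z x = 1, H z y = 0`: switch H. Otherwise, comparing the degrees of x and y inside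
`V \ P` (equal for G and H, since the P-slots agree) gives a contradiction:
`∑_{z∉P} G x z > ∑_{z∉P} G y z` and `∑_{z∉P} H y z > ∑_{z∉P} H x z`. -/
theorem connected (f : Rz d → ℝ) (h : ∀ (u w x y : V) (G : Rz d), f (swt u w x y G) = f G)
    (G H : Rz d) : f G = f H := by
  sorry

/-- TASK 8 (file SwC_Main.lean, uses share_nonneg, disj_lower, johnson, connected). -/
theorem poincare_switch (f : Rz d → ℝ) :
    (Fintype.card (Rz d) : ℝ) * ∑ G, f G ^ 2 - (∑ G, f G) ^ 2 ≤
      (1 / 32 : ℝ) * (Fintype.card (Rz d) : ℝ) *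
        ∑ u, ∑ w, ∑ x, ∑ y, ∑ G, (open scoped Classical in
          if split u w x y G then (f G - f (swt u w x y G)) ^ 2 else 0) := by
  sorry

end Graph

section Kernel

open Crest.SwitchChain

variable {n : ℕ}

/-- the 0/1 matrix of an edge set -/
noncomputable def matOf (E : Finset (Edge n)) : Fin n → Fin n → ℤ :=
  fun x y => open scoped Classical in if ∃ e ∈ E, e.1 = s(x, y) then 1 else 0

/-- TASK 9 (file SwC_Kern.lean). Bijection realizations ≃ Rz. -/
theorem exists_equiv (d : Fin n → ℕ) :
    ∃ e : {E : Finset (Edge n) // E ∈ realizations d} ≃ Rz (fun v => (d v : ℤ)),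
      ∀ E x y, (e E) x y = matOf E.1 x y := by
  sorry

/-- TASK 10 (file SwC_Kern2.lean). The Dirichlet form of the kernel dominates (in fact equals) the
switch form. Each alternating 4-cycle of `G` is counted 8 times in the sum over `u w x y`
(`swt` is invariant under the 8 relabelings), and corresponds to exactly one proposal `(S,F,F')`
(S = {u,w,x,y}, F = the two present edges, F' = the two absent ones). Proof sketch:
 LHS... `∑_G f G (f G - ∑_{G'} kernel G G' f G') = (1/(24 C(n,4))) ∑_G ∑_{(S,F,F')} (f G - f (switchResult G F F'))²`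
 (the number of proposals is 6 C(n,4), the chain stays in `realizations d`, and reversing a
 proposal `(F,F') ↦ (F',F)` gives symmetry). -/
theorem kernel_form (hn : 4 ≤ n) (d : Fin n → ℕ)
    (e : {E : Finset (Edge n) // E ∈ realizations d} ≃ Rz (fun v => (d v : ℤ)))
    (he : ∀ E x y, (e E) x y = matOf E.1 x y) (f : Finset (Edge n) → ℝ) :
    (1 / (192 * (n.choose 4 : ℝ))) *
        ∑ u, ∑ w, ∑ x, ∑ y, ∑ G : Rz (fun v => (d v : ℤ)), (open scoped Classical in
          if split u w x y G then (f (e.symm G).1 - f (e.symm (swt u w x y G)).1) ^ 2 else 0)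
      ≤ ∑ G ∈ realizations d, f G * (f G - ∑ G' ∈ realizations d, kernel n G G' * f G') := by
  sorry

/-- TASK 11 (file SwC_TV.lean). The total variation statement from the Poincaré inequality.

Proof. `P = kernel` restricted to X = realizations: symmetric, rows sum to 1 (6 C(n,4) proposals,
degrees preserved), entries ≥ 0, `P = (1+Q)/2` with Q doubly stochastic symmetric: so
`‖Pg‖² = (1/4)(‖g‖² + 2⟨g,Qg⟩ + ‖Qg‖²) ≤ (1/2)(‖g‖²+⟨g,Qg⟩) = ⟨g,Pg⟩`; for mean-zero g,
`⟨g,Pg⟩ ≤ (1-γ)‖g‖²`, γ = 1/(24 n² C(n,4)) by `hP`. So `‖P^t(δ_G - π)‖² ≤ (1-γ)^t`,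
`tvDist ≤ (1/2) sqrt(|X| (1-γ)^t)`, with t = 2n^8: γ t ≥ 2 n² and |X| ≤ 2^{n(n-1)/2} ≤ e^{n²/2}, so
`|X| (1-γ)^t ≤ e^{-1.5 n²} ≤ 1/4`. -/
theorem tv_of_poincare (hn : 4 ≤ n) (d : Fin n → ℕ) (hd : (realizations d).Nonempty)
    (hP : ∀ f : Finset (Edge n) → ℝ,
        ((realizations d).card : ℝ) * (∑ G ∈ realizations d, f G ^ 2) -
            (∑ G ∈ realizations d, f G) ^ 2 ≤
          24 * (n : ℝ) ^ 2 * (n.choose 4 : ℝ) * (realizations d).card *
            ∑ G ∈ realizations d,
              f G * (f G - ∑ G' ∈ realizations d, kernel n G G' * f G')) :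
    ∃ t : ℕ, t ≤ 2 * n ^ 8 ∧ ∀ G ∈ realizations d,
        tvDist (fun G' => (kernel n ^ t) G G') (unifOn (realizations d)) ≤ 1 / 4 := by
  sorry

end Kernel

end Crest.Agent.SwC
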