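import Mathlib

set_option autoImplicit false

namespace Crest.Agent.T71

open Finset

theorem lp_dual {α : Type*} [Fintype α] [DecidableEq α] (F : Finset (Finset α)) (w : ℝ)
    (hw : 0 ≤ w)
    (h : ¬ ∃ g : Finset α → ℝ, (∀ S, 0 ≤ g S ∧ g S ≤ 1) ∧
      (∀ H ∈ F, 1 ≤ ∑ S ∈ H.powerset, g S) ∧ ∑ S : Finset α, g S * w ^ S.card ≤ 1 / 2) :
    ∃ ν : Finset α → ℝ, (∀ H, 0 ≤ ν H) ∧ (∀ H, H ∉ F → ν H = 0) ∧ ∑ H, ν H = 1 ∧
      ∀ S, ∑ H ∈ Finset.univ.filter (fun H => S ⊆ H), ν H ≤ 2 * w ^ S.card := by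
  classical
  by_contra hcon
  -- the compact convex set of laws
  let P : Set (Finset α → ℝ) := {ν | (∀ H, 0 ≤ ν H) ∧ (∀ H, H ∉ F → ν H = 0) ∧ ∑ H, ν H = 1}
  let T : (Finset α → ℝ) →L[ℝ] (Finset α → ℝ) :=
    ContinuousLinearMap.pi fun S =>
      ∑ H ∈ Finset.univ.filter (fun H : Finset α => S ⊆ H),
        (ContinuousLinearMap.proj (R := ℝ) (φ := fun _ : Finset α => ℝ) H)
  have hT : ∀ ν S, T ν S = ∑ H ∈ Finset.univ.filter (fun H : Finset α => S ⊆ H), ν H := by
    intro ν S
    simp [T]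
  have hPconv : Convex ℝ P := by
    intro x hx y hy a b ha hb hab
    refine ⟨fun H => ?_, fun H hH => ?_, ?_⟩
    · have := hx.1 H; have := hy.1 H
      simp only [Pi.add_apply, Pi.smul_apply, smul_eq_mul]; positivity
    · simp [hx.2.1 H hH, hy.2.1 H hH]
    · simp only [Pi.add_apply, Pi.smul_apply, smul_eq_mul, Finset.sum_add_distrib,
        ← Finset.mul_sum, hx.2.2, hy.2.2]
      linarith
  have hPcomp : IsCompact P := by
    have hsub : P = (stdSimplex ℝ (Finset α)) ∩ {ν | ∀ H, H ∉ F → ν H = 0} := by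
      ext ν
      constructor
      · rintro ⟨h1, h2, h3⟩
        exact ⟨⟨h1, h3⟩, h2⟩
      · rintro ⟨⟨h1, h3⟩, h2⟩
        exact ⟨h1, h2, h3⟩
    rw [hsub]
    refine (isCompact_stdSimplex ℝ (Finset α)).inter_right ?_
    have : {ν : Finset α → ℝ | ∀ H, H ∉ F → ν H = 0} = ⋂ H, ⋂ (_ : H ∉ F), {ν | ν H = 0} := by
      ext ν; simp
    rw [this]
    refine isClosed_iInter fun H => isClosed_iInter fun _ => ?_
    exact isClosed_eq (continuous_apply H) continuous_const
  let b : Finset α → ℝ := fun S => 2 * w ^ S.card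
  let B : Set (Finset α → ℝ) := {v | ∀ S, v S ≤ b S}
  have hBconv : Convex ℝ B := by
    intro x hx y hy a c ha hc hac S
    simp only [Pi.add_apply, Pi.smul_apply, smul_eq_mul]
    have h1 := mul_le_mul_of_nonneg_left (hx S) ha
    have h2 := mul_le_mul_of_nonneg_left (hy S) hc
    have h3 : a * b S + c * b S = b S := by rw [← add_mul, hac, one_mul]
    linarith
  have hBcl : IsClosed B := by
    have : B = ⋂ S, {v | v S ≤ b S} := by ext v; simp [B]
    rw [this]
    exact isClosed_iInter fun S => isClosed_le (continuous_apply S) continuous_const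
  have hdisj : Disjoint (T '' P) B := by
    rw [Set.disjoint_left]
    rintro _ ⟨ν, hν, rfl⟩ hb
    exact hcon ⟨ν, hν.1, hν.2.1, hν.2.2, fun S => by have := hb S; rwa [hT] at this⟩
  obtain ⟨f, u, v, hu, huv, hv⟩ := geometric_hahn_banach_compact_closed
    (hPconv.linear_image T.toLinearMap) (hPcomp.image T.continuous) hBconv hBcl hdisj
  -- F nonempty
  have hFne : F.Nonempty := by
    rw [Finset.nonempty_iff_ne_empty]
    rintro rfl
    apply h
    refine ⟨fun _ => 0, fun S => ⟨le_refl _, zero_le_one⟩, ?_, ?_⟩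
    · intro H hH; simp at hH
    · simp
  let e : Finset α → (Finset α → ℝ) := fun S => Pi.single S 1
  have hfsum : ∀ x : Finset α → ℝ, f x = ∑ S, x S * f (e S) := by
    intro x
    have hx : x = ∑ S, x S • e S := by
      ext S'
      simp [e, Finset.sum_apply, Pi.single_apply]
    conv_lhs => rw [hx]
    simp [map_sum]
  have hneg : ∀ S, f (e S) ≤ 0 := by
    intro S
    by_contra hpos
    push Not at hpos
    -- take b - n e_S
    obtain ⟨n, hn⟩ := exists_nat_gt ((f b - v) / f (e S))
    have hmem : b - (n : ℝ) • e S ∈ B := by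
      intro S'
      simp only [Pi.sub_apply, Pi.smul_apply, smul_eq_mul, e, Pi.single_apply]
      split_ifs
      · have : (0 : ℝ) ≤ n := Nat.cast_nonneg n
        linarith
      · simp
    have h1 := hv _ hmem
    rw [map_sub, map_smul, smul_eq_mul] at h1
    rw [div_lt_iff₀ hpos] at hn
    linarith
  let g₀ : Finset α → ℝ := fun S => - f (e S)
  have hg₀ : ∀ S, 0 ≤ g₀ S := fun S => by have := hneg S; simp only [g₀]; linarith
  have hb : ∑ S, b S * g₀ S < -v := by
    have h1 := hv b (fun S => le_refl _)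
    rw [hfsum] at h1
    have : ∑ S, b S * g₀ S = - ∑ S, b S * f (e S) := by
      rw [← Finset.sum_neg_distrib]
      refine Finset.sum_congr rfl fun S _ => ?_
      simp only [g₀]; ring
    linarith
  have hcov : ∀ H ∈ F, -u < ∑ S ∈ H.powerset, g₀ S := by
    intro H hH
    have hmem : (Pi.single H 1 : Finset α → ℝ) ∈ P := by
      refine ⟨fun H' => ?_, fun H' hH' => ?_, ?_⟩
      · simp only [Pi.single_apply]; split_ifs <;> norm_num
      · have : H' ≠ H := fun heq => hH' (heq ▸ hH)
        simp [Pi.single_apply, this]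
      · simp
    have h1 := hu _ ⟨_, hmem, rfl⟩
    rw [hfsum] at h1
    have h2 : ∀ S, (T (Pi.single H 1)) S = if S ∈ H.powerset then 1 else 0 := by
      intro S
      rw [hT]
      simp [Pi.single_apply, Finset.sum_ite_eq', Finset.mem_powerset]
    have h3 : ∑ S, (T.toLinearMap (Pi.single H 1)) S * f (e S) = ∑ S ∈ H.powerset, f (e S) := by
      have : ∀ S, (T.toLinearMap (Pi.single H 1)) S * f (e S)
          = if S ∈ H.powerset then f (e S) else 0 := by
        intro S
        have := h2 S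
        change T (Pi.single H 1) S * f (e S) = _
        rw [this]; split_ifs <;> simp
      simp_rw [this]
      rw [Finset.sum_ite_mem, Finset.univ_inter]
    rw [h3] at h1
    have h4 : ∑ S ∈ H.powerset, g₀ S = - ∑ S ∈ H.powerset, f (e S) := by
      rw [← Finset.sum_neg_distrib]
    linarith
  have hvneg : 0 < -v := by
    have : 0 ≤ ∑ S, b S * g₀ S :=
      Finset.sum_nonneg fun S _ => mul_nonneg (by simp only [b]; positivity) (hg₀ S)
    linarith
  -- normalise and truncate
  apply h
  refine ⟨fun S => min (g₀ S / (-v)) 1, fun S => ⟨le_min (div_nonneg (hg₀ S) hvneg.le) zero_le_one,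
    min_le_right _ _⟩, ?_, ?_⟩
  · intro H hH
    by_cases hbig : ∃ S ∈ H.powerset, 1 ≤ g₀ S / (-v)
    · obtain ⟨S, hS, hS1⟩ := hbig
      calc (1 : ℝ) = min (g₀ S / (-v)) 1 := by rw [min_eq_right hS1]
        _ ≤ ∑ S ∈ H.powerset, min (g₀ S / (-v)) 1 :=
          Finset.single_le_sum (f := fun S => min (g₀ S / (-v)) 1)
            (fun S _ => le_min (div_nonneg (hg₀ S) hvneg.le) zero_le_one) hS
    · push Not at hbig
      have : ∑ S ∈ H.powerset, min (g₀ S / (-v)) 1 = (∑ S ∈ H.powerset, g₀ S) / (-v) := by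
        rw [Finset.sum_div]
        refine Finset.sum_congr rfl fun S hS => ?_
        rw [min_eq_left (hbig S hS).le]
      rw [this, le_div_iff₀ hvneg, one_mul]
      have := hcov H hH
      linarith
  · have h1 : ∑ S : Finset α, min (g₀ S / (-v)) 1 * w ^ S.card
        ≤ ∑ S : Finset α, (g₀ S / (-v)) * w ^ S.card :=
      Finset.sum_le_sum fun S _ => mul_le_mul_of_nonneg_right (min_le_left _ _) (by positivity)
    have h2 : ∑ S : Finset α, (g₀ S / (-v)) * w ^ S.card = (∑ S, b S * g₀ S) / (-v) / 2 := by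
      rw [Finset.sum_div, Finset.sum_div]
      refine Finset.sum_congr rfl fun S _ => ?_
      change g₀ S / (-v) * w ^ S.card = (2 * w ^ S.card) * g₀ S / (-v) / 2
      ring
    have h3 : (∑ S, b S * g₀ S) / (-v) < 1 := by
      rw [div_lt_one hvneg]; exact hb
    linarith

end Crest.Agent.T71
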