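import Crest.Agent.TG69_FM
import Crest.Agent.TG63_Num

/-! S0073 dense range: spread of the hub neighbourhoods. -/

set_option autoImplicit false

namespace Crest.TG13
open Finset

/-- `D ≤ log n` from `n^(-1/4) ≤ q^D` and `q ≤ 1/2` -/
theorem D_le_log (n D : ℕ) (hn : 1 ≤ n) (q : ℝ) (hq : 0 < q) (hq2 : q ≤ 1 / 2)
    (hD : (n : ℝ) ^ (-(1 / 4 : ℝ)) ≤ q ^ D) : (D : ℝ) ≤ Real.log n := by
  have hnR : (0 : ℝ) < n := by exact_mod_cast hn
  have hlogn : 0 ≤ Real.log n := Real.log_nonneg (by exact_mod_cast hn)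
  have h1 : (n : ℝ) ^ (-(1 / 4 : ℝ)) ≤ (1 / 2 : ℝ) ^ D :=
    hD.trans (pow_le_pow_left₀ hq.le hq2 D)
  have h2 := Real.log_le_log (Real.rpow_pos_of_pos hnR _) h1
  rw [Real.log_rpow hnR, Real.log_pow] at h2
  have h3 : Real.log (1 / 2 : ℝ) = - Real.log 2 := by rw [one_div, Real.log_inv]
  rw [h3] at h2
  have h4 : (0.6931471803 : ℝ) < Real.log 2 := Real.log_two_gt_d9
  have h5 : (D : ℝ) * Real.log 2 ≤ 1 / 4 * Real.log n := by linarith
  have h6 : (D : ℝ) * 0.6931471803 ≤ (D : ℝ) * Real.log 2 :=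
    mul_le_mul_of_nonneg_left h4.le (Nat.cast_nonneg D)
  have h7 : (0 : ℝ) ≤ D := Nat.cast_nonneg D
  nlinarith

theorem hub_spread : ∃ n0 : ℕ, ∀ n : ℕ, n0 ≤ n → ∀ {W : Type} [Fintype W] [DecidableEq W]
    (H : SimpleGraph W) [DecidableRel H.Adj] (_ : W ↪ Fin n) (q : ℝ) (_ : 0 < q)
    (_ : q ≤ 1 / 2) (_ : Crest.TG69.FM H n q) (D : ℕ) (_ : (n : ℝ) ^ (-(1 / 4 : ℝ)) ≤ q ^ D)
    (Y : W → Finset W) (_ : ∀ v, ∀ u ∈ Y v, H.Adj v u) (_ : ∀ v, (Y v).card ≤ D)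
    (V S : Finset W) (_ : S.Nonempty),
    ((V.filter (fun v => S ⊆ Y v)).card : ℝ) ≤ 20 * n * q ^ S.card := by
  obtain ⟨n1, hn1⟩ := Crest.TG63.ev_log' 1 2 (3 / 4) (by norm_num)
  refine ⟨max n1 1, fun n hn W _ _ H _ ι q hq hq2 hFM D hD Y hY hYD V S hS => ?_⟩
  have hn1' : 1 ≤ n := (le_max_right _ _).trans hn
  have hnR : (0 : ℝ) < n := by exact_mod_cast hn1'
  have hlog2 := hn1 n ((le_max_left _ _).trans hn)
  by_cases hSD : S.card ≤ D
  swap
  · have : V.filter (fun v => S ⊆ Y v) = ∅ := by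
      rw [filter_eq_empty_iff]
      intro v _ hv
      exact hSD ((card_le_card hv).trans (hYD v))
    rw [this]
    simp only [card_empty, Nat.cast_zero]
    positivity
  have hdis : Disjoint S (V.filter (fun v => S ⊆ Y v)) := by
    rw [disjoint_left]
    intro v hv1 hv2
    have h1 := hY v v ((mem_filter.1 hv2).2 hv1)
    exact H.loopless.irrefl v h1
  have hadj : ∀ s ∈ S, ∀ t ∈ V.filter (fun v => S ⊆ Y v), H.Adj s t := by
    intro s hs t ht
    exact (hY t s ((mem_filter.1 ht).2 hs)).symm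
  rcases Crest.TG69.biclique_bound H q hq hn1' ι hFM S _ hdis hadj with h | h
  · refine h.trans ?_
    have he : 2 * Real.exp 2 ≤ 20 := by
      have h1 : Real.exp 2 = Real.exp 1 * Real.exp 1 := by rw [← Real.exp_add]; norm_num
      have h2 := Real.exp_one_lt_d9
      have h3 := Real.exp_pos 1
      rw [h1]
      nlinarith
    have : 0 ≤ (n : ℝ) * q ^ S.card := by positivity
    nlinarith
  · refine h.trans ?_
    have hlogn : 0 ≤ Real.log n := Real.log_nonneg (by exact_mod_cast hn1')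
    have hDl := D_le_log n D hn1' q hq hq2 hD
    have h1 : (S.card : ℝ) * Real.log n ≤ (n : ℝ) ^ (3 / 4 : ℝ) := by
      have : (S.card : ℝ) ≤ Real.log n := le_trans (by exact_mod_cast hSD) hDl
      calc (S.card : ℝ) * Real.log n ≤ Real.log n * Real.log n :=
            mul_le_mul_of_nonneg_right this hlogn
        _ = 1 * (Real.log n) ^ 2 := by ring
        _ ≤ _ := hlog2
    have h2 : (n : ℝ) ^ (3 / 4 : ℝ) = n * (n : ℝ) ^ (-(1 / 4 : ℝ)) := by
      rw [show (n : ℝ) * (n : ℝ) ^ (-(1 / 4 : ℝ)) = (n : ℝ) ^ (1 : ℝ) * (n : ℝ) ^ (-(1 / 4 : ℝ)) by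
        rw [Real.rpow_one], ← Real.rpow_add hnR]
      norm_num
    have h3 : q ^ D ≤ q ^ S.card := pow_le_pow_of_le_one hq.le (by linarith) hSD
    have h4 : (n : ℝ) * (n : ℝ) ^ (-(1 / 4 : ℝ)) ≤ n * q ^ S.card :=
      mul_le_mul_of_nonneg_left (hD.trans h3) hnR.le
    have h5 : 0 ≤ (n : ℝ) * q ^ S.card := by positivity
    linarith

end Crest.TG13
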