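import Mathlib
import Crest.Agent.TG94_Num

/-!
# S0073, gamma part: numeric inequalities for `n ≥ n0` (helper55's scheme, step T5j)
-/

set_option autoImplicit false

namespace Crest.TG15

open Filter Real

/-- the raw eventual facts -/
theorem ev_facts (m : ℕ) : ∀ᶠ n : ℕ in atTop,
    (1 : ℝ) ≤ Real.log n ∧ (3 : ℝ) ≤ n ∧
    4 * (n : ℝ) ^ (1/10 : ℝ) ≤ (n : ℝ) ∧
    32 * (n : ℝ) ^ (1/2 : ℝ) * (Real.log n) ^ 2 ≤ (n : ℝ) ^ (99/100 : ℝ) ∧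
    2 * (n : ℝ) ^ (1/100 : ℝ) ≤ (n : ℝ) ^ (1/2 : ℝ) ∧
    16 * (n : ℝ) ^ (3/4 : ℝ) ≤ (n : ℝ) ^ (99/100 : ℝ) ∧
    Real.exp (3 * (n : ℝ) ^ (1/2 : ℝ) * Real.log n - Real.log 2 * (n : ℝ) ^ (3/4 : ℝ))
      ≤ 1 / (4 * ((m : ℝ) + 1)) ∧
    2 * (Real.log n) ^ 2 ≤ (n : ℝ) ^ (99/100 : ℝ) := by
  have h1 : ∀ᶠ n : ℕ in atTop, (1 : ℝ) ≤ Real.log n :=
    (Real.tendsto_log_atTop.comp tendsto_natCast_atTop_atTop).eventually_ge_atTop 1
  have h2 : ∀ᶠ n : ℕ in atTop, (3 : ℝ) ≤ n :=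
    tendsto_natCast_atTop_atTop.eventually_ge_atTop 3
  have h3 := Crest.TG94.ev_rpow_log_le (a := 1/10) (b := 1) (by norm_num) 4 0
  have h4 := Crest.TG94.ev_rpow_log_le (a := 1/2) (b := 99/100) (by norm_num) 32 2
  have h5 := Crest.TG94.ev_rpow_log_le (a := 1/100) (b := 1/2) (by norm_num) 2 0
  have h6 := Crest.TG94.ev_rpow_log_le (a := 3/4) (b := 99/100) (by norm_num) 16 0
  have h7 := Crest.TG94.ev_exp_le (a := 1/2) (b := 3/4) (by norm_num) (by norm_num) 3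
    (c := Real.log 2) (Real.log_pos (by norm_num)) (ε := 1 / (4 * ((m : ℝ) + 1))) (by positivity)
  have h8 := Crest.TG94.ev_rpow_log_le (a := 0) (b := 99/100) (by norm_num) 2 2
  filter_upwards [h1, h2, h3, h4, h5, h6, h7, h8] with n a1 a2 a3 a4 a5 a6 a7 a8
  refine ⟨a1, a2, ?_, a4, ?_, ?_, a7, ?_⟩
  · simpa using a3
  · simpa using a5
  · simpa using a6
  · simpa using a8

/-- `D ≤ log n` and the lower bound for powers -/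
theorem D_le {n : ℕ} (hn : (3 : ℝ) ≤ n) {L q : ℝ} {D : ℕ} (hL : 4 ≤ L) (hq : 0 < q)
    (hLq : L * q < 1) (hD : (n : ℝ) ^ (-(1/100 : ℝ)) ≤ q ^ D) :
    (D : ℝ) ≤ Real.log n ∧ (2 : ℝ) ^ D ≤ n := by
  have hn0 : (0 : ℝ) < n := by linarith
  have hq4 : q ≤ 1 / 4 := by
    rw [le_div_iff₀ (by norm_num)]
    nlinarith
  have h1 : q ^ D ≤ (1 / 4 : ℝ) ^ D := pow_le_pow_left₀ hq.le hq4 D
  have h2 : (n : ℝ) ^ (-(1/100 : ℝ)) ≤ (1 / 4 : ℝ) ^ D := hD.trans h1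
  have h3 := Real.log_le_log (Real.rpow_pos_of_pos hn0 _) h2
  rw [Real.log_rpow hn0, Real.log_pow] at h3
  have h4 : Real.log (1 / 4 : ℝ) = - (2 * Real.log 2) := by
    rw [show (1 / 4 : ℝ) = (2 ^ 2)⁻¹ by norm_num, Real.log_inv, Real.log_pow]; push_cast; ring
  rw [h4] at h3
  have hl2 : (0.69 : ℝ) < Real.log 2 := by
    have := Real.log_two_gt_d9; linarith
  have hl : 0 ≤ Real.log n := Real.log_nonneg (by linarith)
  have hD0 : (0 : ℝ) ≤ D := Nat.cast_nonneg D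
  have hDl : (D : ℝ) * Real.log 2 ≤ Real.log n := by nlinarith
  refine ⟨by nlinarith, ?_⟩
  have : Real.log ((2 : ℝ) ^ D) ≤ Real.log n := by rw [Real.log_pow]; exact hDl
  exact (Real.log_le_log_iff (by positivity) hn0).1 this

/-- **T5j**: the numeric package -/
theorem num (m : ℕ) : ∃ n0 : ℕ, ∀ n : ℕ, n0 ≤ n → ∀ (L q : ℝ) (D cJ : ℕ), 4 ≤ L → 0 < q →
    L * q < 1 → (n : ℝ) ^ (-(1/100 : ℝ)) ≤ q ^ D → (cJ : ℝ) ≤ (n : ℝ) ^ (1/10 : ℝ) →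
    4 * cJ ≤ n ∧
    (D : ℝ) ≤ Real.log n ∧
    (∀ P : ℝ, q ≤ P → (((cJ : ℝ) + 1) ^ (D * ⌊(n : ℝ) ^ (1/2 : ℝ)⌋₊)) *
        Real.exp (-((3/32) * n * P ^ D)) ≤ 1 / 2) ∧
    2 * (n : ℝ) ^ (-(1/2 : ℝ)) ≤ q ^ D ∧
    (∀ μ : ℝ, q ^ D ≤ μ → (⌊(n : ℝ) ^ (1/2 : ℝ)⌋₊ : ℝ) + (n : ℝ) ^ (3/4 : ℝ) + 4 * (n / 64) * μ
        ≤ (3/8) * n * μ) ∧
    (m : ℝ) * ((n : ℝ) * 2 ^ D + 1) ^ ⌊(n : ℝ) ^ (1/2 : ℝ)⌋₊ * (2 : ℝ) ^ (-(n : ℝ) ^ (3/4 : ℝ))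
        ≤ 1 / 4 ∧
    (∀ s : ℕ, s ≤ D → (s : ℝ) * Real.log n + 1 ≤ n * q ^ s) := by
  obtain ⟨n0, -, h0⟩ := Crest.TG94.exists_threshold (ev_facts m) 0
  refine ⟨n0, fun n hn L q D cJ hL hq hLq hD hcJ => ?_⟩
  obtain ⟨hl1, hn3, e3, e4, e5, e6, e7, e8⟩ := h0 n hn
  have hn0 : (0 : ℝ) < n := by linarith
  have hn1 : (1 : ℝ) ≤ n := by linarith
  obtain ⟨hDl, h2D⟩ := D_le hn3 hL hq hLq hD
  have hq1 : q ≤ 1 := by nlinarith
  have hx99 : (n : ℝ) * (n : ℝ) ^ (-(1/100 : ℝ)) = (n : ℝ) ^ (99/100 : ℝ) := by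
    conv_lhs => rw [← Real.rpow_one (n : ℝ)]
    rw [← Real.rpow_mul hn0.le, ← Real.rpow_add hn0]
    norm_num
  have hhalf : (1 : ℝ) ≤ (n : ℝ) ^ (1/2 : ℝ) := Real.one_le_rpow hn1 (by norm_num)
  set M := ⌊(n : ℝ) ^ (1/2 : ℝ)⌋₊ with hM
  have hMle : (M : ℝ) ≤ (n : ℝ) ^ (1/2 : ℝ) := Nat.floor_le (by positivity)
  have hcJn : (cJ : ℝ) + 1 ≤ n := by
    have : (1 : ℝ) ≤ (n : ℝ) ^ (1/10 : ℝ) := Real.one_le_rpow hn1 (by norm_num)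
    linarith
  refine ⟨?_, hDl, ?_, ?_, ?_, ?_, ?_⟩
  · have : (4 : ℝ) * cJ ≤ n := by linarith
    exact_mod_cast this
  · intro P hP
    have hPD : q ^ D ≤ P ^ D := pow_le_pow_left₀ hq.le hP D
    have h1 : (n : ℝ) ^ (99/100 : ℝ) ≤ n * P ^ D := by
      rw [← hx99]; exact mul_le_mul_of_nonneg_left (hD.trans hPD) hn0.le
    have h2 : ((cJ : ℝ) + 1) ^ (D * M) ≤ Real.exp ((n : ℝ) ^ (1/2 : ℝ) * (Real.log n) ^ 2) := by
      calc ((cJ : ℝ) + 1) ^ (D * M) ≤ (n : ℝ) ^ (D * M) :=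
            pow_le_pow_left₀ (by positivity) hcJn _
        _ = Real.exp (((D * M : ℕ) : ℝ) * Real.log n) := by
            rw [← Real.log_pow, Real.exp_log (by positivity)]
        _ ≤ _ := by
            apply Real.exp_le_exp.2
            push_cast
            have h3 : (D : ℝ) * M ≤ Real.log n * (n : ℝ) ^ (1/2 : ℝ) :=
              mul_le_mul hDl hMle (Nat.cast_nonneg M) (by linarith)
            have h4 := mul_le_mul_of_nonneg_right h3 (show (0 : ℝ) ≤ Real.log n by linarith)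
            linarith [h4, sq (Real.log n)]
    have h5 : Real.exp (-((3/32) * n * P ^ D)) ≤ Real.exp (-((3/32) * (n : ℝ) ^ (99/100 : ℝ))) := by
      apply Real.exp_le_exp.2
      nlinarith
    have h6 : ((cJ : ℝ) + 1) ^ (D * M) * Real.exp (-((3/32) * n * P ^ D))
        ≤ Real.exp ((n : ℝ) ^ (1/2 : ℝ) * (Real.log n) ^ 2) *
          Real.exp (-((3/32) * (n : ℝ) ^ (99/100 : ℝ))) :=
      mul_le_mul h2 h5 (Real.exp_pos _).le (Real.exp_pos _).le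
    refine h6.trans ?_
    rw [← Real.exp_add]
    have hsq : (1 : ℝ) ≤ (Real.log n) ^ 2 := by nlinarith
    have hprod : (1 : ℝ) ≤ (n : ℝ) ^ (1/2 : ℝ) * (Real.log n) ^ 2 := by nlinarith
    have h7 : (n : ℝ) ^ (1/2 : ℝ) * (Real.log n) ^ 2 + -((3/32) * (n : ℝ) ^ (99/100 : ℝ)) ≤ -1 := by
      nlinarith
    calc Real.exp _ ≤ Real.exp (-1) := Real.exp_le_exp.2 h7
      _ ≤ 1 / 2 := by
        have := Real.exp_one_gt_d9
        rw [Real.exp_neg, inv_eq_one_div]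
        apply one_div_le_one_div_of_le (by norm_num) (by linarith)
  · refine le_trans ?_ hD
    have h1 : (n : ℝ) ^ (-(1/100 : ℝ)) = (n : ℝ) ^ (-(1/2 : ℝ)) *
        ((n : ℝ) ^ (1/2 : ℝ) * (n : ℝ) ^ (-(1/100 : ℝ))) := by
      rw [← Real.rpow_add hn0, ← Real.rpow_add hn0]; norm_num
    have h2 : (2 : ℝ) ≤ (n : ℝ) ^ (1/2 : ℝ) * (n : ℝ) ^ (-(1/100 : ℝ)) := by
      have h3 : (n : ℝ) ^ (1/100 : ℝ) * (n : ℝ) ^ (-(1/100 : ℝ)) = 1 := by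
        rw [← Real.rpow_add hn0]; norm_num
      have h4 := mul_le_mul_of_nonneg_right e5
        (Real.rpow_nonneg hn0.le (-(1/100 : ℝ)))
      nlinarith
    rw [h1]
    have h5 : (0 : ℝ) ≤ (n : ℝ) ^ (-(1/2 : ℝ)) := Real.rpow_nonneg hn0.le _
    nlinarith
  · intro μ hμ
    have h1 : (n : ℝ) ^ (99/100 : ℝ) ≤ n * μ := by
      rw [← hx99]; exact mul_le_mul_of_nonneg_left (hD.trans hμ) hn0.le
    have h2 : (n : ℝ) ^ (1/2 : ℝ) ≤ (n : ℝ) ^ (3/4 : ℝ) :=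
      Real.rpow_le_rpow_of_exponent_le hn1 (by norm_num)
    nlinarith
  · have h1 : (n : ℝ) * 2 ^ D + 1 ≤ (n : ℝ) ^ 3 := by
      have h2 : (n : ℝ) * 2 ^ D ≤ n * n := mul_le_mul_of_nonneg_left h2D hn0.le
      nlinarith
    have h2 : ((n : ℝ) * 2 ^ D + 1) ^ M ≤ Real.exp (3 * (n : ℝ) ^ (1/2 : ℝ) * Real.log n) := by
      calc ((n : ℝ) * 2 ^ D + 1) ^ M ≤ ((n : ℝ) ^ 3) ^ M :=
            pow_le_pow_left₀ (by positivity) h1 _
        _ = Real.exp (((3 * M : ℕ) : ℝ) * Real.log n) := by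
            rw [← pow_mul, ← Real.log_pow, Real.exp_log (by positivity)]
        _ ≤ _ := by
            apply Real.exp_le_exp.2
            push_cast
            have h3 := mul_le_mul_of_nonneg_right hMle (show (0 : ℝ) ≤ Real.log n by linarith)
            nlinarith
    have h3 : (2 : ℝ) ^ (-(n : ℝ) ^ (3/4 : ℝ)) = Real.exp (-(Real.log 2 * (n : ℝ) ^ (3/4 : ℝ))) := by
      rw [Real.rpow_def_of_pos (by norm_num)]
      congr 1; ring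
    rw [h3, mul_assoc]
    have h4 : ((n : ℝ) * 2 ^ D + 1) ^ M * Real.exp (-(Real.log 2 * (n : ℝ) ^ (3/4 : ℝ)))
        ≤ 1 / (4 * ((m : ℝ) + 1)) := by
      refine le_trans (mul_le_mul_of_nonneg_right h2 (Real.exp_pos _).le) ?_
      rw [← Real.exp_add, ← sub_eq_add_neg]
      exact e7
    have hm0 : (0 : ℝ) ≤ m := Nat.cast_nonneg m
    calc (m : ℝ) * _ ≤ m * (1 / (4 * ((m : ℝ) + 1))) := mul_le_mul_of_nonneg_left h4 hm0
      _ ≤ 1 / 4 := by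
        rw [mul_one_div, div_le_div_iff₀ (by positivity) (by norm_num)]
        nlinarith
  · intro s hs
    have h1 : q ^ D ≤ q ^ s := pow_le_pow_of_le_one hq.le hq1 hs
    have h2 : (n : ℝ) ^ (99/100 : ℝ) ≤ n * q ^ s := by
      rw [← hx99]; exact mul_le_mul_of_nonneg_left (hD.trans h1) hn0.le
    have h3 : (s : ℝ) ≤ Real.log n := le_trans (by exact_mod_cast hs) hDl
    have h4 : (s : ℝ) * Real.log n ≤ Real.log n ^ 2 := by nlinarith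
    nlinarith

end Crest.TG15
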