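import Crest.Agent.KK_Pr

/-!
Chernoff bounds for independent rows (row S0073): `ω : X → L` with iid weights `w`, events
`E x : L → Prop` depending on the position.
-/

set_option autoImplicit false

namespace TGC
open Finset KK

variable {X L : Type} [Fintype X] [DecidableEq X] [Fintype L]

theorem sum_wt_prod (w : L → ℝ) (g : X → L → ℝ) :
    ∑ ω : X → L, wt w ω * ∏ x, g x (ω x) = ∏ x, ∑ l, w l * g x l := by
  unfold wt
  simp_rw [← prod_mul_distrib]
  rw [Finset.prod_univ_sum, Fintype.piFinset_univ]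

open Classical in
/-- mass of an event on one row -/
noncomputable def mass (w : L → ℝ) (E : L → Prop) : ℝ := ∑ l ∈ univ.filter E, w l

open Classical in
/-- number of positions of `S` where the event holds -/
noncomputable def cnt (S : Finset X) (E : X → L → Prop) (ω : X → L) : ℕ :=
  (S.filter (fun x => E x (ω x))).card

theorem mass_nonneg (w : L → ℝ) (hw : ∀ l, 0 ≤ w l) (E : L → Prop) : 0 ≤ mass w E :=
  sum_nonneg fun l _ => hw l

theorem mass_le_one (w : L → ℝ) (hw : ∀ l, 0 ≤ w l) (hw1 : ∑ l, w l = 1) (E : L → Prop) :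
    mass w E ≤ 1 := by
  rw [← hw1]
  exact sum_le_sum_of_subset_of_nonneg (subset_univ _) fun l _ _ => hw l

theorem mgf (w : L → ℝ) (hw1 : ∑ l, w l = 1) (S : Finset X) (E : X → L → Prop) (c : ℝ) :
    ∑ ω : X → L, wt w ω * c ^ (cnt S E ω) = ∏ x ∈ S, (1 + (c - 1) * mass w (E x)) := by
  classical
  have h1 : ∀ ω : X → L, c ^ (cnt S E ω) =
      ∏ x, (if x ∈ S then (if E x (ω x) then c else 1) else 1) := by
    intro ω
    rw [prod_ite_mem, univ_inter]
    unfold cnt
    rw [prod_ite, prod_const, prod_const_one, mul_one]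
  rw [sum_congr rfl fun ω _ => by rw [h1 ω]]
  rw [sum_wt_prod w (fun x l => if x ∈ S then (if E x l then c else 1) else 1)]
  have h2 : ∀ x : X, (∑ l, w l * (if x ∈ S then (if E x l then c else 1) else 1)) =
      if x ∈ S then (1 + (c - 1) * mass w (E x)) else 1 := by
    intro x
    split_ifs with hx
    · have h3 : ∀ l, w l * (if E x l then c else 1) = w l + (c - 1) * (if E x l then w l else 0) := by
        intro l
        split_ifs <;> ring
      rw [sum_congr rfl fun l _ => h3 l, sum_add_distrib, hw1, ← mul_sum]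
      unfold mass
      rw [sum_filter]
    · simp [hw1]
  rw [prod_congr rfl fun x _ => h2 x, prod_ite_mem, univ_inter]

theorem prod_le_exp (w : L → ℝ) (hw : ∀ l, 0 ≤ w l) (hw1 : ∑ l, w l = 1) (S : Finset X)
    (E : X → L → Prop) (c : ℝ) (hc : 0 ≤ c) :
    ∏ x ∈ S, (1 + (c - 1) * mass w (E x)) ≤ Real.exp ((c - 1) * ∑ x ∈ S, mass w (E x)) := by
  rw [mul_sum, Real.exp_sum]
  apply prod_le_prod
  · intro x _
    have h0 := mass_nonneg w hw (E x)
    have h1 := mass_le_one w hw hw1 (E x)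
    nlinarith
  · intro x _
    have := Real.add_one_le_exp ((c - 1) * mass w (E x))
    linarith

/-- general upper tail -/
theorem chern_up_gen (w : L → ℝ) (hw : ∀ l, 0 ≤ w l) (hw1 : ∑ l, w l = 1) (S : Finset X)
    (E : X → L → Prop) (M a θ : ℝ) (hθ : 0 ≤ θ) (hM : ∑ x ∈ S, mass w (E x) ≤ M) :
    Pr w (fun ω : X → L => a ≤ (cnt S E ω : ℝ)) ≤ Real.exp ((Real.exp θ - 1) * M - θ * a) := by
  have h1 := KK.markov w hw (fun ω : X → L => (Real.exp θ) ^ (cnt S E ω))
    (fun ω => pow_nonneg (Real.exp_pos θ).le _)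
    (fun ω : X → L => a ≤ (cnt S E ω : ℝ)) (Real.exp (θ * a)) (by
      intro ω h
      rw [← Real.exp_nat_mul]
      apply Real.exp_le_exp.mpr
      rw [mul_comm]
      exact mul_le_mul_of_nonneg_right h hθ)
  rw [mgf w hw1] at h1
  have h2 := prod_le_exp w hw hw1 S E (Real.exp θ) (Real.exp_pos θ).le
  have h3 : Real.exp ((Real.exp θ - 1) * ∑ x ∈ S, mass w (E x)) ≤
      Real.exp ((Real.exp θ - 1) * M) := by
    apply Real.exp_le_exp.mpr
    apply mul_le_mul_of_nonneg_left hM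
    have := Real.add_one_le_exp θ
    linarith
  have h4 : Real.exp (θ * a) * Pr w (fun ω : X → L => a ≤ (cnt S E ω : ℝ)) ≤
      Real.exp ((Real.exp θ - 1) * M) := h1.trans (h2.trans h3)
  rw [Real.exp_sub, le_div_iff₀ (Real.exp_pos _), mul_comm]
  exact h4

/-- upper tail, `θ = 1` -/
theorem chern_up (w : L → ℝ) (hw : ∀ l, 0 ≤ w l) (hw1 : ∑ l, w l = 1) (S : Finset X)
    (E : X → L → Prop) (M a : ℝ) (hM : ∑ x ∈ S, mass w (E x) ≤ M) :
    Pr w (fun ω : X → L => a ≤ (cnt S E ω : ℝ)) ≤ Real.exp ((Real.exp 1 - 1) * M - a) := by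
  have := chern_up_gen w hw hw1 S E M a 1 zero_le_one hM
  simpa using this

/-- upper tail at twice the mean -/
theorem chern_up_two (w : L → ℝ) (hw : ∀ l, 0 ≤ w l) (hw1 : ∑ l, w l = 1) (S : Finset X)
    (E : X → L → Prop) (M : ℝ) (hM0 : 0 ≤ M) (hM : ∑ x ∈ S, mass w (E x) ≤ M) :
    Pr w (fun ω : X → L => 2 * M ≤ (cnt S E ω : ℝ)) ≤ Real.exp (-(M / 4)) := by
  refine (chern_up w hw hw1 S E M (2 * M) hM).trans ?_
  apply Real.exp_le_exp.mpr
  have h := Real.exp_one_lt_d9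
  nlinarith

/-- general lower tail (`θ = - log 2`) -/
theorem chern_low (w : L → ℝ) (hw : ∀ l, 0 ≤ w l) (hw1 : ∑ l, w l = 1) (S : Finset X)
    (E : X → L → Prop) (M a : ℝ) (hM : M ≤ ∑ x ∈ S, mass w (E x)) :
    Pr w (fun ω : X → L => (cnt S E ω : ℝ) ≤ a) ≤ Real.exp (Real.log 2 * a - M / 2) := by
  have h2e : (1 / 2 : ℝ) = Real.exp (-Real.log 2) := by
    rw [Real.exp_neg, Real.exp_log (by norm_num)]; norm_num
  have h1 := KK.markov w hw (fun ω : X → L => (1 / 2 : ℝ) ^ (cnt S E ω))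
    (fun ω => by positivity)
    (fun ω : X → L => (cnt S E ω : ℝ) ≤ a) (Real.exp (-(Real.log 2 * a))) (by
      intro ω h
      show Real.exp (-(Real.log 2 * a)) ≤ (1 / 2 : ℝ) ^ (cnt S E ω)
      rw [h2e, ← Real.exp_nat_mul]
      apply Real.exp_le_exp.mpr
      have hl : 0 < Real.log 2 := Real.log_pos (by norm_num)
      nlinarith)
  rw [mgf w hw1] at h1
  have h2 := prod_le_exp w hw hw1 S E (1 / 2) (by norm_num)
  have h3 : Real.exp ((1 / 2 - 1) * ∑ x ∈ S, mass w (E x)) ≤ Real.exp (-(M / 2)) := by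
    apply Real.exp_le_exp.mpr
    linarith
  have h4 : Real.exp (-(Real.log 2 * a)) * Pr w (fun ω : X → L => (cnt S E ω : ℝ) ≤ a) ≤
      Real.exp (-(M / 2)) := h1.trans (h2.trans h3)
  have h5 : Real.exp (Real.log 2 * a - M / 2) =
      Real.exp (-(M / 2)) / Real.exp (-(Real.log 2 * a)) := by
    rw [← Real.exp_sub]; congr 1; ring
  rw [h5, le_div_iff₀ (Real.exp_pos _), mul_comm]
  exact h4

/-- lower tail at half the mean -/
theorem chern_low_half (w : L → ℝ) (hw : ∀ l, 0 ≤ w l) (hw1 : ∑ l, w l = 1) (S : Finset X)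
    (E : X → L → Prop) (M : ℝ) (hM0 : 0 ≤ M) (hM : M ≤ ∑ x ∈ S, mass w (E x)) :
    Pr w (fun ω : X → L => (cnt S E ω : ℝ) ≤ M / 2) ≤ Real.exp (-(M / 8)) := by
  refine (chern_low w hw hw1 S E M (M / 2) hM).trans ?_
  apply Real.exp_le_exp.mpr
  have h := Real.log_two_lt_d9
  nlinarith

/-- lower tail with a uniform lower bound of the row masses -/
theorem chern_low_card (w : L → ℝ) (hw : ∀ l, 0 ≤ w l) (hw1 : ∑ l, w l = 1) (S : Finset X)
    (E : X → L → Prop) (π0 : ℝ) (h0 : 0 ≤ π0) (hM : ∀ x ∈ S, π0 ≤ mass w (E x)) :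
    Pr w (fun ω : X → L => (cnt S E ω : ℝ) ≤ π0 * S.card / 2) ≤
      Real.exp (-(π0 * S.card / 8)) := by
  apply chern_low_half w hw hw1 S E (π0 * S.card) (by positivity)
  rw [mul_comm, ← nsmul_eq_mul]
  exact card_nsmul_le_sum S _ π0 hM

end TGC
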