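import Crest.Agent.TG_Degen

/-! Degeneracy from the density bound, without logarithms (S0073, dense range, step (1)). -/

set_option autoImplicit false

namespace Crest.TG1
open Finset Crest.CombinatoricsR.RandomGraph

theorem exists_D0 (n : ℕ) (hn : 1 ≤ n) (q : ℝ) (hq0 : 0 < q) (hq1 : q < 1) :
    ∃ D0 : ℕ, 1 ≤ (n : ℝ) ^ 3 * q ^ D0 ∧ (n : ℝ) ^ 3 * q ^ (D0 + 1) < 1 := by
  classical
  have hn' : (1 : ℝ) ≤ n := by exact_mod_cast hn
  have hpos : (0 : ℝ) < (n : ℝ) ^ 3 := by positivity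
  have hex : ∃ m : ℕ, (n : ℝ) ^ 3 * q ^ m < 1 := by
    obtain ⟨m, hm⟩ := exists_pow_lt_of_lt_one (show (0 : ℝ) < 1 / (n : ℝ) ^ 3 by positivity) hq1
    refine ⟨m, ?_⟩
    rw [lt_div_iff₀ hpos] at hm
    linarith
  have h0 : Nat.find hex ≠ 0 := by
    intro h
    have h1 := Nat.find_spec hex
    rw [h, pow_zero, mul_one] at h1
    have h2 : (1 : ℝ) ≤ (n : ℝ) ^ 3 := one_le_pow₀ hn'
    linarith
  obtain ⟨D0, hD0⟩ := Nat.exists_eq_succ_of_ne_zero h0
  refine ⟨D0, ?_, ?_⟩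
  · have h1 := Nat.find_min hex (m := D0) (by omega)
    push Not at h1
    exact h1
  · have h1 := Nat.find_spec hex
    rw [hD0] at h1
    exact h1

theorem low_degree {W : Type} [Fintype W] [DecidableEq W] (H : SimpleGraph W)
    [DecidableRel H.Adj] (n : ℕ) (hn : 5 ≤ n) (q : ℝ) (hq0 : 0 < q) (hq1 : q < 1)
    (D0 : ℕ) (hD0 : (n : ℝ) ^ 3 * q ^ (D0 + 1) < 1)
    (hden : ∀ U : Finset W, (1 : ℝ) / 2 ≤
      (n : ℝ) ^ U.card * q ^ (H.edgeFinset.filter (fun e => ∀ x ∈ e, x ∈ U)).card) :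
    ∀ U : Finset W, U.Nonempty → ∃ v ∈ U, (U.filter (fun u => H.Adj v u)).card ≤ D0 := by
  intro U hU
  have hn' : (5 : ℝ) ≤ n := by exact_mod_cast hn
  by_contra hcon
  push Not at hcon
  set e := (H.edgeFinset.filter (fun e => ∀ x ∈ e, x ∈ U)).card with he
  -- number of inside edges
  have h2e : (D0 + 1) * U.card ≤ 2 * e := by
    by_contra hlt
    push Not at hlt
    -- use a real density argument through the low degree lemma restricted to `U`
    have key : ∑ v ∈ U, (U.filter (fun u => H.Adj v u)).card = 2 * e := by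
      have h1 : ∀ v ∈ U, (U.filter (fun u => H.Adj v u)).card =
          ((H.edgeFinset.filter (fun e => ∀ x ∈ e, x ∈ U)).filter (fun e => v ∈ e)).card := by
        intro v hv
        refine Finset.card_bij (fun u _ => s(v, u)) ?_ ?_ ?_
        · intro u hu
          rw [Finset.mem_filter] at hu
          rw [Finset.mem_filter, Finset.mem_filter]
          refine ⟨⟨?_, ?_⟩, Sym2.mem_mk_left _ _⟩
          · rw [SimpleGraph.mem_edgeFinset, SimpleGraph.mem_edgeSet]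
            exact hu.2
          · intro x hx
            rw [Sym2.mem_iff] at hx
            rcases hx with rfl | rfl
            · exact hv
            · exact hu.1
        · intro u _ u' _ h
          exact Sym2.congr_right.1 h
        · intro z hz
          rw [Finset.mem_filter, Finset.mem_filter] at hz
          obtain ⟨⟨hz1, hz2⟩, hz3⟩ := hz
          obtain ⟨u, rfl⟩ := Sym2.mem_iff_exists.1 hz3
          rw [SimpleGraph.mem_edgeFinset, SimpleGraph.mem_edgeSet] at hz1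
          exact ⟨u, by rw [Finset.mem_filter]; exact ⟨hz2 u (Sym2.mem_mk_right _ _), hz1⟩, rfl⟩
      rw [Finset.sum_congr rfl h1]
      have h2 : ∑ v ∈ U, ((H.edgeFinset.filter (fun e => ∀ x ∈ e, x ∈ U)).filter
          (fun e => v ∈ e)).card =
          ∑ z ∈ H.edgeFinset.filter (fun e => ∀ x ∈ e, x ∈ U), (U.filter (fun v => v ∈ z)).card := by
        simp only [Finset.card_filter]
        rw [Finset.sum_comm]
      rw [h2, he, Finset.card_eq_sum_ones, Finset.mul_sum]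
      apply Finset.sum_congr rfl
      intro z hz
      rw [Finset.mem_filter] at hz
      obtain ⟨hz1, hz2⟩ := hz
      induction z using Sym2.ind with
      | _ a b =>
        rw [SimpleGraph.mem_edgeFinset, SimpleGraph.mem_edgeSet] at hz1
        have h3 : U.filter (fun v => v ∈ s(a, b)) = {a, b} := by
          ext v
          rw [Finset.mem_filter, Sym2.mem_iff, Finset.mem_insert, Finset.mem_singleton]
          constructor
          · exact fun h => h.2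
          · intro h
            refine ⟨hz2 v ?_, h⟩
            rw [Sym2.mem_iff]
            exact h
        rw [h3, Finset.card_pair hz1.ne]
        rfl
    have hsum : ∑ v ∈ U, (D0 + 1) ≤ ∑ v ∈ U, (U.filter (fun u => H.Adj v u)).card :=
      Finset.sum_le_sum (fun v hv => hcon v hv)
    rw [key, Finset.sum_const, smul_eq_mul, Nat.mul_comm] at hsum
    omega
  have h1 := hden U
  rw [← he] at h1
  have hUc : 1 ≤ U.card := Finset.card_pos.2 hU
  -- square
  have h2 : (1 : ℝ) / 4 ≤ ((n : ℝ) ^ U.card) ^ 2 * (q ^ e) ^ 2 := by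
    calc (1 : ℝ) / 4 = (1 / 2) * (1 / 2) := by norm_num
      _ ≤ ((n : ℝ) ^ U.card * q ^ e) * ((n : ℝ) ^ U.card * q ^ e) :=
          mul_le_mul h1 h1 (by norm_num) (by positivity)
      _ = _ := by ring
  have h3 : (q ^ e) ^ 2 ≤ (q ^ (D0 + 1)) ^ U.card := by
    rw [← pow_mul, ← pow_mul]
    apply pow_le_pow_of_le_one hq0.le hq1.le
    rw [Nat.mul_comm e 2]
    exact h2e
  have h4 : ((n : ℝ) ^ U.card) ^ 2 * (q ^ e) ^ 2 ≤
      ((n : ℝ) ^ 3 * q ^ (D0 + 1)) ^ U.card * ((n : ℝ)⁻¹) ^ U.card := by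
    calc ((n : ℝ) ^ U.card) ^ 2 * (q ^ e) ^ 2 ≤
        ((n : ℝ) ^ U.card) ^ 2 * (q ^ (D0 + 1)) ^ U.card :=
          mul_le_mul_of_nonneg_left h3 (by positivity)
      _ = ((n : ℝ) ^ 3 * q ^ (D0 + 1)) ^ U.card * ((n : ℝ)⁻¹) ^ U.card := by
          rw [← mul_pow, ← pow_mul, Nat.mul_comm U.card 2, pow_mul, ← mul_pow]
          congr 1
          have : (n : ℝ) ≠ 0 := by positivity
          field_simp
  have h5 : ((n : ℝ) ^ 3 * q ^ (D0 + 1)) ^ U.card ≤ 1 :=
    pow_le_one₀ (by positivity) hD0.le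
  have h6 : ((n : ℝ)⁻¹) ^ U.card ≤ 1 / 5 := by
    have h7 : (n : ℝ)⁻¹ ≤ 1 / 5 := by
      rw [inv_eq_one_div]
      exact one_div_le_one_div_of_le (by norm_num) hn'
    calc ((n : ℝ)⁻¹) ^ U.card ≤ ((n : ℝ)⁻¹) ^ 1 :=
          pow_le_pow_of_le_one (by positivity) (by linarith) hUc
      _ ≤ 1 / 5 := by rw [pow_one]; exact h7
  have h8 : ((n : ℝ) ^ 3 * q ^ (D0 + 1)) ^ U.card * ((n : ℝ)⁻¹) ^ U.card ≤ 1 * (1 / 5) :=
    mul_le_mul h5 h6 (by positivity) (by norm_num)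
  linarith

theorem pow_back (n : ℕ) (hn : 1 ≤ n) (q : ℝ) (hq0 : 0 < q) (hq1 : q < 1) (b0 : ℝ)
    (hq : (n : ℝ) ^ (-(1 / b0)) ≤ q) (D0 k1 D : ℕ) (hk1 : 1 ≤ k1)
    (hD0 : 1 ≤ (n : ℝ) ^ 3 * q ^ D0) (hD : D ≤ D0 / k1 + 1) :
    (n : ℝ) ^ (-(3 / (k1 : ℝ) + 1 / b0)) ≤ q ^ D := by
  have hn' : (0 : ℝ) < n := by exact_mod_cast hn
  have hk' : (0 : ℝ) < k1 := by exact_mod_cast hk1
  have h1 : q ^ (D0 / k1 + 1) ≤ q ^ D := pow_le_pow_of_le_one hq0.le hq1.le hD
  have h2 : (n : ℝ) ^ (-(3 / (k1 : ℝ))) ≤ q ^ (D0 / k1) := by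
    -- q^(D0/k1) ≥ (q^D0)^(1/k1)
    have h3 : ((n : ℝ) ^ (-(3 / (k1 : ℝ)))) ^ k1 ≤ (q ^ (D0 / k1)) ^ k1 := by
      rw [← Real.rpow_natCast ((n : ℝ) ^ (-(3 / (k1 : ℝ)))) k1, ← Real.rpow_mul hn'.le, ← pow_mul]
      have h4 : -(3 / (k1 : ℝ)) * (k1 : ℝ) = -3 := by field_simp
      rw [h4]
      have h5 : q ^ D0 ≤ q ^ (D0 / k1 * k1) :=
        pow_le_pow_of_le_one hq0.le hq1.le (Nat.div_mul_le_self D0 k1)
      refine le_trans ?_ h5
      rw [Real.rpow_neg hn'.le, show (3 : ℝ) = ((3 : ℕ) : ℝ) by norm_num, Real.rpow_natCast,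
        inv_le_iff_one_le_mul₀ (by positivity)]
      rw [mul_comm]
      exact hD0
    exact le_of_pow_le_pow_left₀ (by omega) (by positivity) h3
  calc (n : ℝ) ^ (-(3 / (k1 : ℝ) + 1 / b0))
      = (n : ℝ) ^ (-(3 / (k1 : ℝ))) * (n : ℝ) ^ (-(1 / b0)) := by
        rw [← Real.rpow_add hn']
        congr 1
        ring
    _ ≤ q ^ (D0 / k1) * q := mul_le_mul h2 hq (by positivity) (by positivity)
    _ = q ^ (D0 / k1 + 1) := (pow_succ _ _).symm
    _ ≤ q ^ D := h1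

end Crest.TG1
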