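import Mathlib
import Crest.Prelude.Def_FinProb
import Crest.Agent.TG_Expo

set_option autoImplicit false

namespace Crest.TG66

open Crest.FinProb Crest.TG.Expo

variable {V : Type} [Fintype V] [DecidableEq V]

/-- Moment generating function of the number of hits outside `U`. -/
theorem mgf (p z : ℝ) (U : Finset V) :
    ∑ ω : V → Bool, bernoulliWeight p ω * (∏ v, if v ∉ U ∧ ω v = true then z else 1) =
      (1 - p + p * z) ^ (Uᶜ).card := by
  have h := Finset.prod_univ_sum (fun _ : V => (Finset.univ : Finset Bool))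
    (fun v (b : Bool) => (if b then p else 1 - p) * (if v ∉ U ∧ b = true then z else 1))
  rw [Fintype.piFinset_univ] at h
  have e : ∀ ω : V → Bool, bernoulliWeight p ω * (∏ v, if v ∉ U ∧ ω v = true then z else 1)
      = ∏ v, ((if ω v then p else 1 - p) * (if v ∉ U ∧ ω v = true then z else 1)) := by
    intro ω
    unfold bernoulliWeight
    rw [Finset.prod_mul_distrib]
  rw [Finset.sum_congr rfl fun ω _ => e ω, ← h]
  have e2 : ∀ v : V, ∑ b : Bool, ((if b then p else 1 - p) * (if v ∉ U ∧ b = true then z else 1))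
      = if v ∈ Uᶜ then (1 - p + p * z) else 1 := by
    intro v
    by_cases hv : v ∈ U <;> simp [hv] <;> ring
  rw [Finset.prod_congr rfl fun v _ => e2 v, Finset.prod_ite_mem]
  simp

theorem prod_ite_eq_pow (z : ℝ) (U : Finset V) (ω : V → Bool) :
    (∏ v, if v ∉ U ∧ ω v = true then z else 1) =
      z ^ (Finset.univ.filter (fun v => v ∉ U ∧ ω v = true)).card := by
  rw [Finset.prod_ite]
  simp

/-- Large mean. -/
theorem tail_large (p : ℝ) (h0 : 0 ≤ p) (h1 : p ≤ 1) (U : Finset V) (d : ℕ) (hd : 1 ≤ d)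
    (h : 8 * (d : ℝ) ≤ (Uᶜ).card * p) :
    1 / 2 ≤ bernoulliProb p {ω : V → Bool | d ≤ (Finset.univ.filter
      (fun v => v ∉ U ∧ ω v = true)).card} := by
  classical
  have hle : 1 - bernoulliProb p {ω : V → Bool | d ≤ (Finset.univ.filter
      (fun v => v ∉ U ∧ ω v = true)).card} ≤ 2 ^ d * (1 - p / 2) ^ (Uᶜ).card := by
    unfold bernoulliProb
    have e : ∑ ω : V → Bool, bernoulliWeight p ω - ∑ ω ∈ Finset.univ.filter
        (· ∈ {ω : V → Bool | d ≤ (Finset.univ.filter (fun v => v ∉ U ∧ ω v = true)).card}),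
        bernoulliWeight p ω = ∑ ω : V → Bool, bernoulliWeight p ω *
        (if d ≤ (Finset.univ.filter (fun v => v ∉ U ∧ ω v = true)).card then 0 else 1) := by
      rw [Finset.sum_filter, ← Finset.sum_sub_distrib]
      apply Finset.sum_congr rfl
      intro ω _
      simp only [Set.mem_setOf_eq]
      split_ifs <;> simp
    have e3 : ∑ ω : V → Bool, bernoulliWeight p ω *
        (if d ≤ (Finset.univ.filter (fun v => v ∉ U ∧ ω v = true)).card then (0 : ℝ) else 1) ≤
        ∑ ω : V → Bool, 2 ^ d * (bernoulliWeight p ω *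
        (∏ v, if v ∉ U ∧ ω v = true then (1/2 : ℝ) else 1)) := by
      apply Finset.sum_le_sum
      intro ω _
      have hw := bw_nonneg p h0 h1 ω
      rw [prod_ite_eq_pow]
      set c := (Finset.univ.filter (fun v => v ∉ U ∧ ω v = true)).card
      have : (if d ≤ c then (0 : ℝ) else 1) ≤ 2 ^ d * (1 / 2) ^ c := by
        split_ifs with hc
        · positivity
        · push Not at hc
          have h3 : (2 : ℝ) ^ c ≤ 2 ^ d := pow_le_pow_right₀ (by norm_num) hc.le
          have h4 : (0 : ℝ) < 2 ^ c := by positivity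
          rw [one_div, inv_pow, ← div_eq_mul_inv, le_div_iff₀ h4]
          linarith
      calc bernoulliWeight p ω * (if d ≤ c then (0 : ℝ) else 1)
          ≤ bernoulliWeight p ω * (2 ^ d * (1 / 2) ^ c) := mul_le_mul_of_nonneg_left this hw
        _ = _ := by ring
    rw [← Finset.mul_sum, mgf] at e3
    have e4 : (1 - p + p * (1 / 2) : ℝ) = 1 - p / 2 := by ring
    rw [e4] at e3
    rw [sum_bw] at e
    refine le_trans (le_of_eq ?_) e3
    convert e using 2
    apply Finset.sum_congr _ fun _ _ => rfl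
    ext ω
    simp
  have h2 : (1 - p / 2) ^ (Uᶜ).card ≤ Real.exp (-(4 * d)) := by
    calc (1 - p / 2) ^ (Uᶜ).card ≤ (Real.exp (-(p / 2))) ^ (Uᶜ).card := by
          apply pow_le_pow_left₀ (by linarith)
          have := Real.add_one_le_exp (-(p / 2))
          linarith
      _ = Real.exp (-((Uᶜ).card * (p / 2))) := by
          rw [← Real.exp_nat_mul]
          congr 1
          ring
      _ ≤ _ := by
          apply Real.exp_le_exp.2
          linarith
  have h3 : (2 : ℝ) ^ d * Real.exp (-(4 * d)) ≤ 1 / 2 := by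
    have e1 : Real.exp (-(4 * (d : ℝ))) = (Real.exp (-4)) ^ d := by
      rw [← Real.exp_nat_mul]; congr 1; ring
    rw [e1, ← mul_pow]
    have e2 : (2 : ℝ) * Real.exp (-4) ≤ 1 / 2 := by
      have h4 : (4 : ℝ) + 1 ≤ Real.exp 4 := Real.add_one_le_exp 4
      rw [Real.exp_neg]
      have h5 : (0 : ℝ) < Real.exp 4 := Real.exp_pos 4
      rw [← div_eq_mul_inv, div_le_iff₀ h5]
      linarith
    calc (2 * Real.exp (-4)) ^ d ≤ (1 / 2 : ℝ) ^ d := pow_le_pow_left₀ (by positivity) e2 d
      _ ≤ (1 / 2 : ℝ) ^ 1 := pow_le_pow_of_le_one (by norm_num) (by norm_num) hd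
      _ = 1 / 2 := by norm_num
  have h4 : (2 : ℝ) ^ d * (1 - p / 2) ^ (Uᶜ).card ≤ 2 ^ d * Real.exp (-(4 * d)) :=
    mul_le_mul_of_nonneg_left h2 (by positivity)
  linarith

/-- Exactly the leaf set `T`. -/
theorem exact_mass (p : ℝ) (U T : Finset V) (hT : T ⊆ Uᶜ) :
    ∑ ω ∈ Finset.univ.filter (fun ω : V → Bool => ∀ v, v ∉ U → (ω v = true ↔ v ∈ T)),
      bernoulliWeight p ω = p ^ T.card * (1 - p) ^ ((Uᶜ).card - T.card) := by
  classical
  have h := Finset.prod_univ_sum
    (fun v : V => (Finset.univ.filter (fun b : Bool => v ∉ U → (b = true ↔ v ∈ T))))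
    (fun _ (b : Bool) => if b then p else 1 - p)
  have e : Finset.univ.filter (fun ω : V → Bool => ∀ v, v ∉ U → (ω v = true ↔ v ∈ T)) =
      Fintype.piFinset
        (fun v : V => (Finset.univ.filter (fun b : Bool => v ∉ U → (b = true ↔ v ∈ T)))) := by
    ext ω
    simp [Fintype.mem_piFinset]
  unfold bernoulliWeight
  rw [e, ← h]
  have e2 : ∀ v : V, ∑ b ∈ Finset.univ.filter (fun b : Bool => v ∉ U → (b = true ↔ v ∈ T)),
      (if b then p else 1 - p) = (if v ∈ T then p else 1) * (if v ∈ Uᶜ \ T then 1 - p else 1) := by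
    intro v
    rw [Finset.sum_filter]
    by_cases hv : v ∈ U
    · have : v ∉ T := fun h' => by
        have := hT h'
        simp [hv] at this
      simp [hv, this]
    · by_cases hvT : v ∈ T
      · simp [hv, hvT]
      · simp [hv, hvT]
  rw [Finset.prod_congr rfl fun v _ => e2 v, Finset.prod_mul_distrib, Finset.prod_ite_mem,
    Finset.prod_ite_mem]
  simp only [Finset.univ_inter, Finset.prod_const]
  rw [Finset.card_sdiff_of_subset hT]

/-- Small mean. -/
theorem tail_small (p : ℝ) (h0 : 0 ≤ p) (h1 : p ≤ 1) (U : Finset V) (d : ℕ) :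
    ((Uᶜ).card.choose d : ℝ) * (p ^ d * (1 - p) ^ ((Uᶜ).card - d)) ≤
     bernoulliProb p {ω : V → Bool | d ≤ (Finset.univ.filter
      (fun v => v ∉ U ∧ ω v = true)).card} := by
  classical
  have h := Finset.sum_le_sum_of_subset_of_nonneg (s := (Finset.powersetCard d Uᶜ).biUnion
    (fun T => Finset.univ.filter (fun ω : V → Bool => ∀ v, v ∉ U → (ω v = true ↔ v ∈ T))))
    (t := Finset.univ.filter (· ∈ {ω : V → Bool | d ≤ (Finset.univ.filter
      (fun v => v ∉ U ∧ ω v = true)).card})) (f := fun ω => bernoulliWeight p ω) ?_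
      (fun ω _ _ => bw_nonneg p h0 h1 ω)
  · unfold bernoulliProb
    refine le_trans (le_of_eq ?_) (h.trans (le_of_eq ?_))
    · rw [Finset.sum_biUnion]
      · rw [Finset.sum_congr rfl (g := fun _ => p ^ d * (1 - p) ^ ((Uᶜ).card - d))]
        · rw [Finset.sum_const, Finset.card_powersetCard, nsmul_eq_mul]
        · intro T hT
          rw [Finset.mem_powersetCard] at hT
          rw [exact_mass p U T hT.1, hT.2]
      · intro T hT T' hT' hne
        rw [Function.onFun, Finset.disjoint_left]
        intro ω hω hω'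
        apply hne
        simp only [Finset.mem_coe, Finset.mem_powersetCard] at hT hT'
        simp only [Finset.mem_filter, Finset.mem_univ, true_and] at hω hω'
        ext v
        constructor
        · intro hv
          have hvU : v ∉ U := by have := hT.1 hv; simpa using this
          exact (hω' v hvU).1 ((hω v hvU).2 hv)
        · intro hv
          have hvU : v ∉ U := by have := hT'.1 hv; simpa using this
          exact (hω v hvU).1 ((hω' v hvU).2 hv)
    · apply Finset.sum_congr _ fun _ _ => rfl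
      ext ω
      simp
  · intro ω hω
    simp only [Finset.mem_biUnion, Finset.mem_powersetCard, Finset.mem_filter, Finset.mem_univ,
      true_and] at hω
    obtain ⟨T, ⟨hTU, hTc⟩, hT⟩ := hω
    simp only [Finset.mem_filter, Finset.mem_univ, true_and]
    change d ≤ _
    rw [← hTc]
    apply Finset.card_le_card
    intro v hv
    have hvU : v ∉ U := by have := hTU hv; simpa using this
    simp only [Finset.mem_filter, Finset.mem_univ, true_and]
    exact ⟨hvU, (hT v hvU).2 hv⟩

theorem choose_ge (n N d : ℕ) (hd : 64 * d ≤ n) (hN : n ≤ 4 * N) :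
    (n.choose d : ℝ) ≤ 8 ^ d * (N.choose d : ℝ) := by
  have h1 : n.descFactorial d ≤ 8 ^ d * N.descFactorial d := by
    calc n.descFactorial d ≤ n ^ d := Nat.descFactorial_le_pow n d
      _ ≤ (8 * (N + 1 - d)) ^ d := Nat.pow_le_pow_left (by omega) d
      _ = 8 ^ d * (N + 1 - d) ^ d := by rw [mul_pow]
      _ ≤ _ := Nat.mul_le_mul_left _ (Nat.pow_sub_le_descFactorial N d)
  rw [Nat.descFactorial_eq_factorial_mul_choose, Nat.descFactorial_eq_factorial_mul_choose] at h1
  have h2 : (d.factorial * n.choose d : ℝ) ≤ 8 ^ d * (d.factorial * N.choose d) := by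
    exact_mod_cast h1
  have h3 : (0 : ℝ) < d.factorial := by exact_mod_cast d.factorial_pos
  have h4 : (d.factorial : ℝ) * n.choose d ≤ d.factorial * (8 ^ d * N.choose d) := by linarith
  exact le_of_mul_le_mul_left h4 h3

/-- **Binomial tail.** -/
theorem tail (p : ℝ) (h0 : 0 ≤ p) (h1 : p ≤ 1) (U : Finset V) (n d : ℕ) (hd1 : 1 ≤ d)
    (hd : 64 * d ≤ n) (hN : n ≤ 4 * (Uᶜ).card) :
    min (1 / 2) ((n.choose d : ℝ) * (p / (8 * 3 ^ 16)) ^ d) ≤
     bernoulliProb p {ω : V → Bool | d ≤ (Finset.univ.filter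
      (fun v => v ∉ U ∧ ω v = true)).card} := by
  set N := (Uᶜ).card with hNdef
  rcases le_or_gt (8 * (d : ℝ)) (N * p) with h | h
  · exact (min_le_left _ _).trans (tail_large p h0 h1 U d hd1 h)
  · refine (min_le_right _ _).trans (le_trans ?_ (tail_small p h0 h1 U d))
    rw [← hNdef]
    have hNd : (16 : ℝ) * d ≤ N := by
      have : 16 * d ≤ N := by omega
      exact_mod_cast this
    have hd0 : (1 : ℝ) ≤ d := by exact_mod_cast hd1
    have hp2 : p < 1 / 2 := by
      by_contra hp
      push Not at hp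
      nlinarith
    have hexp : Real.exp (-(2 * p)) ≤ 1 - p := by
      have h2 : 1 + p / (1 - p) ≤ Real.exp (p / (1 - p)) := by
        have := Real.add_one_le_exp (p / (1 - p)); linarith
      have h3 : 1 + p / (1 - p) = (1 - p)⁻¹ := by
        have : (1 : ℝ) - p ≠ 0 := by linarith
        field_simp
        ring
      have h4 : p / (1 - p) ≤ 2 * p := by
        rw [div_le_iff₀ (by linarith)]
        nlinarith
      have h5 : (1 - p)⁻¹ ≤ Real.exp (2 * p) := by
        rw [← h3]
        exact h2.trans (Real.exp_le_exp.2 h4)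
      rw [Real.exp_neg]
      have h6 : (0 : ℝ) < 1 - p := by linarith
      exact inv_le_of_inv_le₀ h6 h5
    have h7 : ((1 : ℝ) / 3 ^ 16) ^ d ≤ (1 - p) ^ (N - d) := by
      calc ((1 : ℝ) / 3 ^ 16) ^ d ≤ (Real.exp (-16)) ^ d := by
            apply pow_le_pow_left₀ (by positivity)
            rw [Real.exp_neg, one_div]
            apply inv_anti₀ (Real.exp_pos _)
            have : Real.exp 16 = Real.exp 1 ^ 16 := by
              rw [← Real.exp_nat_mul]; norm_num
            rw [this]
            apply pow_le_pow_left₀ (Real.exp_pos _).le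
            have := Real.exp_one_lt_d9
            linarith
        _ = Real.exp (-(16 * d)) := by rw [← Real.exp_nat_mul]; congr 1; ring
        _ ≤ Real.exp (-(2 * p) * N) := by
            apply Real.exp_le_exp.2
            nlinarith
        _ = (Real.exp (-(2 * p))) ^ N := by rw [← Real.exp_nat_mul]; congr 1; ring
        _ ≤ (1 - p) ^ N := pow_le_pow_left₀ (Real.exp_pos _).le hexp N
        _ ≤ (1 - p) ^ (N - d) := pow_le_pow_of_le_one (by linarith) (by linarith) (Nat.sub_le _ _)
    calc (n.choose d : ℝ) * (p / (8 * 3 ^ 16)) ^ d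
        ≤ (8 ^ d * (N.choose d : ℝ)) * (p / (8 * 3 ^ 16)) ^ d :=
          mul_le_mul_of_nonneg_right (choose_ge n N d hd hN) (by positivity)
      _ = (N.choose d : ℝ) * (p ^ d * (1 / 3 ^ 16) ^ d) := by
          have : (p / (8 * 3 ^ 16)) ^ d = p ^ d * (1 / 3 ^ 16) ^ d * (1 / 8) ^ d := by
            rw [← mul_pow, ← mul_pow]; congr 1; ring
          rw [this]
          have h8 : (8 : ℝ) ^ d * (1 / 8) ^ d = 1 := by rw [← mul_pow]; norm_num
          calc _ = (N.choose d : ℝ) * (p ^ d * (1 / 3 ^ 16) ^ d) * (8 ^ d * (1 / 8) ^ d) := by ring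
            _ = _ := by rw [h8, mul_one]
      _ ≤ _ := by
          apply mul_le_mul_of_nonneg_left _ (by positivity)
          exact mul_le_mul_of_nonneg_left h7 (by positivity)

end Crest.TG66
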