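import Mathlib
import Crest.Prelude.Def_FinProb
import Crest.Agent.TG_Expo
import Crest.Agent.TG66_Tail

set_option autoImplicit false

namespace Crest.TG66

open Crest.FinProb Crest.TG.Expo

/-- The star sum. -/
theorem star_sum (ds : List ℕ) (x : ℝ) (hx0 : 0 ≤ x) (hx : x ≤ 1 / 2) (hd : ∀ d ∈ ds, 1 ≤ d) :
    (ds.map fun d => x ^ d / ((ds.countP (fun e => decide (d ≤ e)) : ℕ) : ℝ)).sum ≤ 2 * x := by
  classical
  rw [Finset.sum_list_map_count]
  have h1 : ∀ d ∈ ds.toFinset, ds.count d • (x ^ d / ((ds.countP (fun e => decide (d ≤ e)) : ℕ) : ℝ))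
      ≤ x ^ d := by
    intro d hdm
    rw [List.mem_toFinset] at hdm
    have hc : 0 < ds.count d := List.count_pos_iff.2 hdm
    have hle : ds.count d ≤ ds.countP (fun e => decide (d ≤ e)) := by
      unfold List.count
      apply List.countP_mono_left
      intro e _ he
      simp only [beq_iff_eq] at he
      simp [he]
    have hcp : (0 : ℝ) < ((ds.countP (fun e => decide (d ≤ e)) : ℕ) : ℝ) := by
      exact_mod_cast lt_of_lt_of_le hc hle
    rw [nsmul_eq_mul, ← mul_div_assoc, div_le_iff₀ hcp, mul_comm]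
    apply mul_le_mul_of_nonneg_left _ (pow_nonneg hx0 d)
    exact_mod_cast hle
  refine (Finset.sum_le_sum h1).trans ?_
  set D := ds.toFinset.sup id with hD
  have hsub : ds.toFinset ⊆ (Finset.range D).image Nat.succ := by
    intro d hdm
    have h2 : d ≤ D := Finset.le_sup (f := id) hdm
    rw [List.mem_toFinset] at hdm
    have h3 := hd d hdm
    rw [Finset.mem_image]
    exact ⟨d - 1, Finset.mem_range.2 (by omega), by omega⟩
  refine (Finset.sum_le_sum_of_subset_of_nonneg hsub (fun i _ _ => pow_nonneg hx0 i)).trans ?_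
  rw [Finset.sum_image (fun a _ b _ h => Nat.succ_injective h)]
  have h4 : ∀ i ∈ Finset.range D, x ^ (Nat.succ i) ≤ x * (1 / 2) ^ i := by
    intro i _
    rw [Nat.succ_eq_add_one, pow_succ, mul_comm]
    exact mul_le_mul_of_nonneg_left (pow_le_pow_left₀ hx0 hx i) hx0
  refine (Finset.sum_le_sum h4).trans ?_
  rw [← Finset.mul_sum, mul_comm]
  exact mul_le_mul_of_nonneg_right (sum_geometric_two_le D) hx0

/-- **Rows lemma.** -/
theorem star_rows {V : Type} [Fintype V] [DecidableEq V] (n m : ℕ) (q L : ℝ) (ds : List ℕ)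
    (hV : n ≤ 3 * Fintype.card V) (hm : n ≤ 3 * m) (hn : 1 ≤ n)
    (hd : ∀ d ∈ ds, 1 ≤ d) (hsum : 64 * ds.sum ≤ n)
    (hstar : ∀ d ∈ ds, ((ds.countP (fun e => decide (d ≤ e)) : ℕ) : ℝ) ≤
      6 * n * (n.choose d) * q ^ d)
    (hq : 0 < q) (hL : 1000 * (8 * 3 ^ 16) ≤ L) (hLq : L * q ≤ 1) :
    fail (V := V) (L * q) m ds ∅ ≤ 1 / 2 := by
  classical
  obtain ⟨K, hK⟩ : ∃ K : ℝ, K = 8 * 3 ^ 16 := ⟨_, rfl⟩
  have hK0 : 0 < K := by rw [hK]; positivity
  rw [← hK] at hL
  have hL0 : 0 < L := by linarith
  have hLq0 : 0 < L * q := mul_pos hL0 hq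
  set s : ℕ → ℝ := fun d => if 1 ≤ d ∧ 64 * d ≤ n then
    min (1 / 2) ((n.choose d : ℝ) * (L * q / K) ^ d) else 1 with hs
  have hpos : ∀ d, 64 * d ≤ n → 0 < (n.choose d : ℝ) := by
    intro d hdn
    exact_mod_cast Nat.choose_pos (by omega)
  have hs0 : ∀ d, 0 < s d := by
    intro d
    simp only [hs]
    split_ifs with h
    · apply lt_min (by norm_num)
      have := hpos d h.2
      positivity
    · norm_num
  have hs1 : ∀ d, s d ≤ 1 := by
    intro d
    simp only [hs]
    split_ifs with h
    · exact (min_le_left _ _).trans (by norm_num)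
    · exact le_refl 1
  have hsP : ∀ d, ∀ U : Finset V, U.card + d ≤ ds.sum → s d ≤ bernoulliProb (L * q)
      {ω : V → Bool | d ≤ (Finset.univ.filter (fun v => v ∉ U ∧ ω v = true)).card} := by
    intro d U hU
    simp only [hs]
    split_ifs with h
    · have hcard : (Uᶜ).card = Fintype.card V - U.card := Finset.card_compl U
      have := tail (V := V) (L * q) hLq0.le hLq U n d h.1 h.2 (by rw [hcard]; omega)
      rwa [← hK] at this
    · have hd0 : d = 0 := by
        by_contra hne
        exact h ⟨by omega, by omega⟩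
      subst hd0
      have : bernoulliProb (L * q) {ω : V → Bool | 0 ≤ (Finset.univ.filter
          (fun v => v ∉ U ∧ ω v = true)).card} = 1 := by
        unfold bernoulliProb
        rw [← sum_bw (V := V) (L * q)]
        apply Finset.sum_congr _ fun _ _ => rfl
        ext ω
        simp
      rw [this]
  have hmain := fail_le (V := V) (L * q) hLq0.le hLq ds.sum s hs0 hs1 hsP m ds ∅ (by simp)
  set c : ℕ → ℝ := fun d => ((ds.countP (fun e => decide (d ≤ e)) : ℕ) : ℝ) with hc
  have hle : ∀ d ∈ ds, d ≤ ds.sum := fun d hdm => List.single_le_sum (by simp) d hdm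
  have hterm : ∀ d ∈ ds, 1 / s d ≤ 2 + 6 * n * ((K / L) ^ d / c d) := by
    intro d hdm
    have h1 := hd d hdm
    have h2 : 64 * d ≤ n := by have := hle d hdm; omega
    have hC := hpos d h2
    have hcp : 0 < c d := by
      simp only [hc]
      have : 0 < ds.countP (fun e => decide (d ≤ e)) := List.countP_pos_iff.2 ⟨d, hdm, by simp⟩
      exact_mod_cast this
    have hst : c d ≤ 6 * n * (n.choose d) * q ^ d := hstar d hdm
    have hsd : s d = min (1 / 2) ((n.choose d : ℝ) * (L * q / K) ^ d) := by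
      simp only [hs]
      rw [if_pos ⟨h1, h2⟩]
    have hA : 0 < (n.choose d : ℝ) * (L * q / K) ^ d := by positivity
    have hnn : (0 : ℝ) ≤ 6 * n * ((K / L) ^ d / c d) := by positivity
    have hkey : 1 / ((n.choose d : ℝ) * (L * q / K) ^ d) ≤ 6 * n * ((K / L) ^ d / c d) := by
      have e1 : (K / L) ^ d * (L * q / K) ^ d = q ^ d := by
        rw [← mul_pow]
        congr 1
        field_simp
      rw [div_le_iff₀ hA]
      have e2 : 6 * n * ((K / L) ^ d / c d) * ((n.choose d : ℝ) * (L * q / K) ^ d) =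
          (6 * n * (n.choose d) * q ^ d) / c d := by
        rw [← e1]
        field_simp
      rw [e2, le_div_iff₀ hcp]
      linarith
    rw [hsd]
    rcases min_choice (1 / 2 : ℝ) ((n.choose d : ℝ) * (L * q / K) ^ d) with h | h
    · rw [h]
      norm_num
      exact hnn
    · rw [h]
      linarith
  have hsum1 : (ds.map fun d => 1 / s d).sum ≤
      (ds.map fun d => 2 + 6 * n * ((K / L) ^ d / c d)).sum := by
    apply List.sum_le_sum
    exact hterm
  have hsum2 : (ds.map fun d => 2 + 6 * n * ((K / L) ^ d / c d)).sum =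
      2 * ds.length + 6 * n * (ds.map fun d => (K / L) ^ d / c d).sum := by
    rw [List.sum_map_add, List.sum_map_mul_left]
    simp
    ring
  have hx : K / L ≤ 1 / 1000 := by
    rw [div_le_div_iff₀ hL0 (by norm_num)]
    linarith
  have hsum3 := star_sum ds (K / L) (by positivity) (by linarith) hd
  have hlen : ds.length ≤ ds.sum := by
    have : ∀ l : List ℕ, (∀ d ∈ l, 1 ≤ d) → l.length ≤ l.sum := by
      intro l
      induction l with
      | nil => simp
      | cons a l ih =>
        intro h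
        have h1 := h a (by simp)
        have h2 := ih (fun d hd => h d (by simp [hd]))
        simp only [List.length_cons, List.sum_cons]
        omega
    exact this ds hd
  have hlenR : 64 * (ds.length : ℝ) ≤ n := by
    have : 64 * ds.length ≤ n := by omega
    exact_mod_cast this
  have hmR : (n : ℝ) ≤ 3 * m := by exact_mod_cast hm
  have hnR : (1 : ℝ) ≤ n := by exact_mod_cast hn
  have hm0 : (0 : ℝ) < m := by linarith
  have hfin : (m : ℝ) * fail (V := V) (L * q) m ds ∅ ≤ m * (1 / 2) := by
    have h6 : 6 * n * (ds.map fun d => (K / L) ^ d / c d).sum ≤ 6 * n * (2 * (K / L)) :=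
      mul_le_mul_of_nonneg_left hsum3 (by positivity)
    have h7 : (6 : ℝ) * n * (2 * (K / L)) ≤ 6 * n * (2 * (1 / 1000)) :=
      mul_le_mul_of_nonneg_left (by linarith) (by positivity)
    linarith
  exact le_of_mul_le_mul_left hfin hm0

end Crest.TG66
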