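import Crest.Agent.TG76_Sparse
import Crest.Agent.TG66_Rows
import Crest.Agent.TG31_Star

/-! S0073: the sparse range, final glue (helper76 assembly, helper66 rows, helper31 transfer). -/

set_option autoImplicit false

namespace Crest.TG1

theorem sparse_core : TG73.SparseCore 1000 := by
  refine Crest.TG76.sparse_core 1000 (by norm_num) (1000 * (8 * 3 ^ 16)) (by norm_num) 1 ?_ ?_
  · intro n m N hn hm hN q hq hLq ds hd hsum hstar
    exact Crest.TG66.star_rows (V := Fin N) n m q (1000 * (8 * 3 ^ 16)) ds (by simpa using hN)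
      hm hn hd hsum (fun d h => hstar d (hd d h)) hq le_rfl hLq.le
  · intro n m hm P h0 h1 W _ _ F hW par hpar hadj cs hnd hcs
    exact Crest.TG.Expo.piece_prob n m hm P h0 h1 F hW par hpar hadj cs hnd hcs

end Crest.TG1
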