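import Crest.Agent.TG_OD

/-! Sprinkling / monotonicity lemmas for the product measure on `Finset α` (S0073). -/

set_option autoImplicit false

namespace Crest.TG.Spr

open Finset

variable {α : Type*} [Fintype α] [DecidableEq α]

/-- weight of `X` under the product measure with density `p` -/
noncomputable def wP (p : ℝ) (X : Finset α) : ℝ :=
  p ^ X.card * (1 - p) ^ (Fintype.card α - X.card)

/-- the measure of a family -/
noncomputable def muP (p : ℝ) (U : Finset (Finset α)) : ℝ := ∑ X ∈ U, wP p X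

theorem wP_nonneg {p : ℝ} (h0 : 0 ≤ p) (h1 : p ≤ 1) (X : Finset α) : 0 ≤ wP p X := by
  unfold wP
  have : 0 ≤ 1 - p := by linarith
  positivity

theorem sum_wP (p : ℝ) : ∑ X : Finset α, wP p X = 1 := by
  have h := Finset.sum_pow_mul_eq_add_pow p (1 - p) (univ : Finset α)
  rw [Finset.powerset_univ, card_univ] at h
  unfold wP
  rw [h]
  simp

theorem muP_nonneg {p : ℝ} (h0 : 0 ≤ p) (h1 : p ≤ 1) (U : Finset (Finset α)) : 0 ≤ muP p U :=
  Finset.sum_nonneg fun X _ => wP_nonneg h0 h1 X

theorem muP_le_one {p : ℝ} (h0 : 0 ≤ p) (h1 : p ≤ 1) (U : Finset (Finset α)) : muP p U ≤ 1 := by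
  rw [← sum_wP (α := α) p]
  exact Finset.sum_le_sum_of_subset_of_nonneg (subset_univ _) fun X _ _ => wP_nonneg h0 h1 X

theorem muP_mono_set {p : ℝ} (h0 : 0 ≤ p) (h1 : p ≤ 1) {U V : Finset (Finset α)} (h : U ⊆ V) :
    muP p U ≤ muP p V :=
  Finset.sum_le_sum_of_subset_of_nonneg h fun X _ _ => wP_nonneg h0 h1 X

theorem muP_eq_sum_ite (p : ℝ) (U : Finset (Finset α)) :
    muP p U = ∑ X : Finset α, wP p X * (if X ∈ U then 1 else 0) := by
  unfold muP
  simp only [mul_ite, mul_one, mul_zero]
  rw [Finset.sum_ite_mem, Finset.univ_inter]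

/-- the fibre of `R ↦ X ∪ R` over `Z ⊇ X` -/
theorem fiber (q : ℝ) (X Z : Finset α) (h : X ⊆ Z) :
    ∑ R : Finset α, (if X ∪ R = Z then wP q R else 0) =
      q ^ (Z.card - X.card) * (1 - q) ^ (Fintype.card α - Z.card) := by
  classical
  rw [← Finset.sum_filter]
  have hcard : X.card ≤ Z.card := card_le_card h
  have hZ : Z.card ≤ Fintype.card α := card_le_univ Z
  have h1 : ∑ R ∈ univ.filter (fun R : Finset α => X ∪ R = Z), wP q R =
      ∑ T ∈ X.powerset, q ^ (Z.card - X.card) * (1 - q) ^ (Fintype.card α - Z.card) *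
        (q ^ T.card * (1 - q) ^ (X.card - T.card)) := by
    refine Finset.sum_bij' (fun R _ => R ∩ X) (fun T _ => (Z \ X) ∪ T) ?_ ?_ ?_ ?_ ?_
    · intro R _
      exact mem_powerset.2 inter_subset_right
    · intro T hT
      rw [mem_powerset] at hT
      rw [mem_filter]
      refine ⟨mem_univ _, ?_⟩
      ext x
      simp only [mem_union, mem_sdiff]
      constructor
      · rintro (hx | ⟨hx, _⟩ | hx)
        · exact h hx
        · exact hx
        · exact h (hT hx)
      · intro hx
        by_cases hxX : x ∈ X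
        · exact Or.inl hxX
        · exact Or.inr (Or.inl ⟨hx, hxX⟩)
    · intro R hR
      rw [mem_filter] at hR
      have hR2 := hR.2
      ext x
      simp only [mem_union, mem_sdiff, mem_inter]
      constructor
      · rintro (⟨hx, hxX⟩ | ⟨hx, _⟩)
        · rw [← hR2, mem_union] at hx
          rcases hx with hx | hx
          · exact absurd hx hxX
          · exact hx
        · exact hx
      · intro hx
        by_cases hxX : x ∈ X
        · exact Or.inr ⟨hx, hxX⟩
        · refine Or.inl ⟨?_, hxX⟩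
          rw [← hR2]
          exact mem_union_right _ hx
    · intro T hT
      rw [mem_powerset] at hT
      ext x
      simp only [mem_union, mem_sdiff, mem_inter]
      constructor
      · rintro ⟨⟨_, hx⟩ | hx, hxX⟩
        · exact absurd hxX hx
        · exact hx
      · intro hx
        exact ⟨Or.inr hx, hT hx⟩
    · intro R hR
      rw [mem_filter] at hR
      have hR2 := hR.2
      have hRc : R.card = (Z.card - X.card) + (R ∩ X).card := by
        have h2 : R = (Z \ X) ∪ (R ∩ X) := by
          ext x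
          simp only [mem_union, mem_sdiff, mem_inter]
          constructor
          · intro hx
            by_cases hxX : x ∈ X
            · exact Or.inr ⟨hx, hxX⟩
            · refine Or.inl ⟨?_, hxX⟩
              rw [← hR2]
              exact mem_union_right _ hx
          · rintro (⟨hx, hxX⟩ | ⟨hx, _⟩)
            · rw [← hR2, mem_union] at hx
              rcases hx with hx | hx
              · exact absurd hx hxX
              · exact hx
            · exact hx
        have h3 : Disjoint (Z \ X) (R ∩ X) := by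
          rw [Finset.disjoint_left]
          intro x hx hx2
          exact (mem_sdiff.1 hx).2 (mem_inter.1 hx2).2
        calc R.card = ((Z \ X) ∪ (R ∩ X)).card := by rw [← h2]
          _ = (Z \ X).card + (R ∩ X).card := card_union_of_disjoint h3
          _ = _ := by rw [card_sdiff_of_subset h]
      have hle : (R ∩ X).card ≤ X.card := card_le_card inter_subset_right
      unfold wP
      rw [hRc, pow_add]
      have h4 : Fintype.card α - (Z.card - X.card + (R ∩ X).card) =
          (Fintype.card α - Z.card) + (X.card - (R ∩ X).card) := by omega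
      rw [h4, pow_add]
      ring
  rw [h1, ← Finset.mul_sum, Finset.sum_pow_mul_eq_add_pow]
  simp

theorem fiber_not (q : ℝ) (X Z : Finset α) (h : ¬ X ⊆ Z) :
    ∑ R : Finset α, (if X ∪ R = Z then wP q R else 0) = 0 := by
  apply Finset.sum_eq_zero
  intro R _
  rw [if_neg]
  intro h2
  exact h (h2 ▸ subset_union_left)

/-- **Union law.** -/
theorem union_law (p q : ℝ) (f : Finset α → ℝ) :
    ∑ X : Finset α, ∑ R : Finset α, wP p X * wP q R * f (X ∪ R) =
      ∑ Z : Finset α, wP (p + q - p * q) Z * f Z := by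
  have key : ∀ Z : Finset α, ∑ X : Finset α, wP p X *
      ∑ R : Finset α, (if X ∪ R = Z then wP q R else 0) = wP (p + q - p * q) Z := by
    intro Z
    have h1 : ∀ X : Finset α, wP p X * ∑ R : Finset α, (if X ∪ R = Z then wP q R else 0) =
        if X ∈ Z.powerset then
          ((1 - p) * (1 - q)) ^ (Fintype.card α - Z.card) *
            (p ^ X.card * ((1 - p) * q) ^ (Z.card - X.card)) else 0 := by
      intro X
      by_cases h : X ⊆ Z
      · rw [if_pos (mem_powerset.2 h), fiber q X Z h]
        have hcard : X.card ≤ Z.card := card_le_card h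
        have hZ : Z.card ≤ Fintype.card α := card_le_univ Z
        unfold wP
        have h4 : Fintype.card α - X.card = (Fintype.card α - Z.card) + (Z.card - X.card) := by
          omega
        rw [h4, pow_add, mul_pow, mul_pow]
        ring
      · rw [if_neg (fun h2 => h (mem_powerset.1 h2)), fiber_not q X Z h, mul_zero]
    rw [Finset.sum_congr rfl fun X _ => h1 X, Finset.sum_ite_mem, Finset.univ_inter,
      ← Finset.mul_sum, Finset.sum_pow_mul_eq_add_pow]
    unfold wP
    rw [mul_comm]
    congr 1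
    · congr 1; ring
    · congr 1; ring
  calc ∑ X : Finset α, ∑ R : Finset α, wP p X * wP q R * f (X ∪ R)
      = ∑ X : Finset α, ∑ R : Finset α, ∑ Z : Finset α,
          wP p X * (if X ∪ R = Z then wP q R else 0) * f Z := by
        refine Finset.sum_congr rfl fun X _ => Finset.sum_congr rfl fun R _ => ?_
        rw [Finset.sum_eq_single (X ∪ R)]
        · rw [if_pos rfl]
        · intro Z _ hZ
          rw [if_neg (Ne.symm hZ)]
          ring
        · intro h
          exact absurd (mem_univ _) h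
    _ = ∑ Z : Finset α, (∑ X : Finset α, wP p X *
          ∑ R : Finset α, (if X ∪ R = Z then wP q R else 0)) * f Z := by
        rw [Finset.sum_congr rfl fun X _ => Finset.sum_comm, Finset.sum_comm]
        refine Finset.sum_congr rfl fun Z _ => ?_
        rw [Finset.sum_mul]
        refine Finset.sum_congr rfl fun X _ => ?_
        rw [Finset.mul_sum, Finset.sum_mul]
    _ = _ := Finset.sum_congr rfl fun Z _ => by rw [key Z]

/-- conditioning on `A ⊆ R` -/
theorem cond_law (p : ℝ) (A : Finset α) (g : Finset α → ℝ) :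
    ∑ R : Finset α, wP p R * (if A ⊆ R then g R else 0) =
      p ^ A.card * ∑ R : Finset α, wP p R * g (A ∪ R) := by
  have h1 : ∑ R : Finset α, wP p R * g (A ∪ R) =
      ∑ Z : Finset α, (∑ R : Finset α, (if A ∪ R = Z then wP p R else 0)) * g Z := by
    calc ∑ R : Finset α, wP p R * g (A ∪ R)
        = ∑ R : Finset α, ∑ Z : Finset α, (if A ∪ R = Z then wP p R else 0) * g Z := by
          refine Finset.sum_congr rfl fun R _ => ?_
          rw [Finset.sum_eq_single (A ∪ R)]
          · rw [if_pos rfl]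
          · intro Z _ hZ
            rw [if_neg (Ne.symm hZ), zero_mul]
          · intro h
            exact absurd (mem_univ _) h
      _ = _ := by
          rw [Finset.sum_comm]
          refine Finset.sum_congr rfl fun Z _ => ?_
          rw [Finset.sum_mul]
  rw [h1, Finset.mul_sum]
  refine Finset.sum_congr rfl fun Z _ => ?_
  by_cases h : A ⊆ Z
  · rw [if_pos h, fiber p A Z h]
    unfold wP
    have hcard : A.card ≤ Z.card := card_le_card h
    have h2 : Z.card = A.card + (Z.card - A.card) := by omega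
    calc p ^ Z.card * (1 - p) ^ (Fintype.card α - Z.card) * g Z
        = p ^ (A.card + (Z.card - A.card)) * (1 - p) ^ (Fintype.card α - Z.card) * g Z := by
          rw [← h2]
      _ = _ := by rw [pow_add]; ring
  · rw [if_neg h, fiber_not p A Z h]
    ring

theorem prob_superset (p : ℝ) (A : Finset α) :
    ∑ R : Finset α, wP p R * (if A ⊆ R then 1 else 0) = p ^ A.card := by
  rw [cond_law p A (fun _ => 1)]
  simp [sum_wP]

theorem muP_mono {p q : ℝ} (h0 : 0 ≤ p) (hpq : p ≤ q) (h1 : q ≤ 1) (U : Finset (Finset α))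
    (hU : ∀ A ∈ U, ∀ B, A ⊆ B → B ∈ U) : muP p U ≤ muP q U := by
  rcases (hpq.trans h1).lt_or_eq with hp | hp
  · have hp' : 0 < 1 - p := by linarith
    obtain ⟨s, hs⟩ : ∃ s, s = (q - p) / (1 - p) := ⟨_, rfl⟩
    have hs0 : 0 ≤ s := by rw [hs]; exact div_nonneg (by linarith) hp'.le
    have hs1 : s ≤ 1 := by rw [hs, div_le_one hp']; linarith
    have hq : q = p + s - p * s := by
      rw [hs]; field_simp; ring
    rw [muP_eq_sum_ite q, hq, ← union_law p s]
    unfold muP
    calc ∑ X ∈ U, wP p X = ∑ X ∈ U, ∑ R : Finset α, wP p X * wP s R * 1 := by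
          refine Finset.sum_congr rfl fun X _ => ?_
          simp only [mul_one]
          rw [← Finset.mul_sum, sum_wP, mul_one]
      _ ≤ ∑ X ∈ U, ∑ R : Finset α, wP p X * wP s R * (if X ∪ R ∈ U then 1 else 0) := by
          refine Finset.sum_le_sum fun X hX => Finset.sum_le_sum fun R _ => ?_
          rw [if_pos (hU X hX _ subset_union_left)]
      _ ≤ _ := by
          refine Finset.sum_le_sum_of_subset_of_nonneg (subset_univ _) fun X _ _ => ?_
          refine Finset.sum_nonneg fun R _ => ?_
          have := wP_nonneg (α := α) h0 hp.le X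
          have := wP_nonneg (α := α) hs0 hs1 R
          split_ifs <;> positivity
  · have hq : q = p := le_antisymm (by linarith) hpq
    rw [hq]

theorem one_sub_muP (p : ℝ) (U : Finset (Finset α)) :
    1 - muP p U = ∑ X : Finset α, wP p X * (if X ∈ U then 0 else 1) := by
  have h : muP p U + ∑ X : Finset α, wP p X * (if X ∈ U then 0 else 1) = 1 := by
    rw [muP_eq_sum_ite, ← Finset.sum_add_distrib]
    refine Eq.trans ?_ (sum_wP (α := α) p)
    refine Finset.sum_congr rfl fun X _ => ?_
    by_cases hX : X ∈ U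
    · simp [hX]
    · simp [hX]
  linarith

theorem one_sub_union {p q : ℝ} (h0 : 0 ≤ p) (h1 : p ≤ 1) (k0 : 0 ≤ q) (k1 : q ≤ 1)
    (U : Finset (Finset α)) (hU : ∀ A ∈ U, ∀ B, A ⊆ B → B ∈ U) :
    1 - muP (p + q - p * q) U ≤ (1 - muP p U) * (1 - muP q U) := by
  rw [one_sub_muP, one_sub_muP p, one_sub_muP q, ← union_law p q, Finset.sum_mul_sum]
  refine Finset.sum_le_sum fun X _ => Finset.sum_le_sum fun R _ => ?_
  have ha := wP_nonneg (α := α) h0 h1 X
  have hb := wP_nonneg (α := α) k0 k1 R
  by_cases hX : X ∈ U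
  · rw [if_pos (hU X hX _ subset_union_left), if_pos hX]
    simp
  · by_cases hR : R ∈ U
    · rw [if_pos (hU R hR _ subset_union_right), if_pos hR]
      simp
    · rw [if_neg hX, if_neg hR]
      split_ifs
      · nlinarith [mul_nonneg ha hb]
      · nlinarith [mul_nonneg ha hb]

theorem one_sub_pow {p : ℝ} (h0 : 0 ≤ p) (h1 : p ≤ 1) (U : Finset (Finset α))
    (hU : ∀ A ∈ U, ∀ B, A ⊆ B → B ∈ U) (m : ℕ) :
    1 - muP (1 - (1 - p) ^ m) U ≤ (1 - muP p U) ^ m := by
  induction m with
  | zero =>
    simp only [pow_zero, sub_self]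
    have := muP_nonneg (α := α) le_rfl zero_le_one U
    linarith
  | succ m ih =>
    have hb0 : 0 ≤ 1 - p := by linarith
    have hb1 : 1 - p ≤ 1 := by linarith
    have hp0 : 0 ≤ (1 - p) ^ m := pow_nonneg hb0 m
    have hp1 : (1 - p) ^ m ≤ 1 := pow_le_one₀ hb0 hb1
    have h := one_sub_union (α := α) (p := 1 - (1 - p) ^ m) (q := p) (by linarith) (by linarith)
      h0 h1 U hU
    have he : 1 - (1 - p) ^ m + p - (1 - (1 - p) ^ m) * p = 1 - (1 - p) ^ (m + 1) := by
      rw [pow_succ]; ring
    rw [he] at h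
    refine h.trans ?_
    rw [pow_succ]
    exact mul_le_mul_of_nonneg_right ih (by have := muP_le_one (α := α) h0 h1 U; linarith)

/-- **Sprinkling.** -/
theorem sprinkle {p P : ℝ} (h0 : 0 ≤ p) (h1 : p ≤ 1) (m : ℕ) (hP : m * p ≤ P) (hP1 : P ≤ 1)
    (U : Finset (Finset α)) (hU : ∀ A ∈ U, ∀ B, A ⊆ B → B ∈ U) :
    1 - muP P U ≤ (1 - muP p U) ^ m := by
  have hb0 : 0 ≤ 1 - p := by linarith
  have hb1 : 1 - p ≤ 1 := by linarith
  have hp0 : 0 ≤ (1 - p) ^ m := pow_nonneg hb0 m
  have hp1 : (1 - p) ^ m ≤ 1 := pow_le_one₀ hb0 hb1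
  have hB : 1 - m * p ≤ (1 - p) ^ m := by
    have := one_add_mul_le_pow (a := -p) (by linarith) m
    have h2 : 1 + (m : ℝ) * -p = 1 - m * p := by ring
    have h3 : (1 + -p) = 1 - p := by ring
    rw [h2, h3] at this
    exact this
  have hm := muP_mono (α := α) (p := 1 - (1 - p) ^ m) (q := P) (by linarith) (by linarith) hP1 U hU
  have := one_sub_pow (α := α) h0 h1 U hU m
  linarith

theorem one_sub_pow_le_inv {x : ℝ} (h1 : x ≤ 1) (hx : 0 ≤ x) (m : ℕ) :
    (1 - x) ^ m ≤ 1 / (1 + m * x) := by
  have h2 : 1 - x ≤ Real.exp (-x) := by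
    have := Real.add_one_le_exp (-x)
    linarith
  have h3 : (1 - x) ^ m ≤ Real.exp (-(m * x)) := by
    calc (1 - x) ^ m ≤ (Real.exp (-x)) ^ m := pow_le_pow_left₀ (by linarith) h2 m
      _ = Real.exp (-(m * x)) := by rw [← Real.exp_nat_mul]; congr 1; ring
  have h4 : (0 : ℝ) < 1 + m * x := by positivity
  refine h3.trans ?_
  rw [Real.exp_neg, one_div]
  apply inv_anti₀ h4
  have := Real.add_one_le_exp ((m : ℝ) * x)
  linarith

theorem sprinkle_min {p P : ℝ} (h0 : 0 ≤ p) (h1 : p ≤ 1) (m : ℕ) (hP : m * p ≤ P) (hP1 : P ≤ 1)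
    (U : Finset (Finset α)) (hU : ∀ A ∈ U, ∀ B, A ⊆ B → B ∈ U) :
    min (1 / 2) (m * muP p U / 2) ≤ muP P U := by
  have hs := sprinkle (α := α) h0 h1 m hP hP1 U hU
  have hx0 := muP_nonneg (α := α) h0 h1 U
  have hx1 := muP_le_one (α := α) h0 h1 U
  have h2 := one_sub_pow_le_inv hx1 hx0 m
  set x := muP p U with hx
  have hmx : 0 ≤ (m : ℝ) * x := by positivity
  rcases le_total 1 ((m : ℝ) * x) with h | h
  · have h3 : 1 / (1 + (m : ℝ) * x) ≤ 1 / 2 := by
      apply one_div_le_one_div_of_le (by norm_num)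
      linarith
    have := min_le_left (1 / 2 : ℝ) (m * x / 2)
    linarith
  · have h3 : 1 / (1 + (m : ℝ) * x) ≤ 1 - m * x / 2 := by
      rw [div_le_iff₀ (by linarith)]
      nlinarith
    have := min_le_right (1 / 2 : ℝ) (m * x / 2)
    linarith

/-- `U'`: sets which are in `U` with probability at least `1/2` after adding noise -/
noncomputable def noisy (p : ℝ) (U : Finset (Finset α)) : Finset (Finset α) := by
  classical
  exact univ.filter fun A => 1 / 2 ≤ ∑ R : Finset α, wP p R * (if A ∪ R ∈ U then 1 else 0)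

theorem mem_noisy (p : ℝ) (U : Finset (Finset α)) (A : Finset α) :
    A ∈ noisy p U ↔ 1 / 2 ≤ ∑ R : Finset α, wP p R * (if A ∪ R ∈ U then 1 else 0) := by
  classical
  unfold noisy
  simp

theorem noisy_up {p : ℝ} (h0 : 0 ≤ p) (h1 : p ≤ 1) (U : Finset (Finset α))
    (hU : ∀ A ∈ U, ∀ B, A ⊆ B → B ∈ U) : ∀ A ∈ noisy p U, ∀ B, A ⊆ B → B ∈ noisy p U := by
  intro A hA B hAB
  rw [mem_noisy] at hA ⊢
  refine hA.trans (Finset.sum_le_sum fun R _ => ?_)
  have := wP_nonneg (α := α) h0 h1 R
  by_cases h : A ∪ R ∈ U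
  · rw [if_pos h, if_pos (hU _ h _ (union_subset_union_left hAB))]
  · rw [if_neg h]
    split_ifs <;> nlinarith

theorem subset_noisy {p : ℝ} (U : Finset (Finset α))
    (hU : ∀ A ∈ U, ∀ B, A ⊆ B → B ∈ U) : U ⊆ noisy p U := by
  intro A hA
  rw [mem_noisy]
  have h : ∑ R : Finset α, wP p R * (if A ∪ R ∈ U then (1 : ℝ) else 0) = 1 := by
    refine Eq.trans ?_ (sum_wP (α := α) p)
    refine Finset.sum_congr rfl fun R _ => ?_
    rw [if_pos (hU A hA _ subset_union_left), mul_one]
  rw [h]; norm_num

theorem muP_noisy {p q : ℝ} (h0 : 0 ≤ p) (h1 : p ≤ 1) (k0 : 0 ≤ q) (k1 : q ≤ 1)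
    (U : Finset (Finset α)) : muP q (noisy p U) ≤ 2 * muP (q + p - q * p) U := by
  rw [muP_eq_sum_ite (q + p - q * p), ← union_law q p, Finset.mul_sum]
  unfold muP
  calc ∑ X ∈ noisy p U, wP q X ≤ ∑ X ∈ noisy p U,
        2 * ∑ R : Finset α, wP q X * wP p R * (if X ∪ R ∈ U then 1 else 0) := by
        refine Finset.sum_le_sum fun X hX => ?_
        rw [mem_noisy] at hX
        have := wP_nonneg (α := α) k0 k1 X
        have h2 : ∑ R : Finset α, wP q X * wP p R * (if X ∪ R ∈ U then (1 : ℝ) else 0) =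
            wP q X * ∑ R : Finset α, wP p R * (if X ∪ R ∈ U then (1 : ℝ) else 0) := by
          rw [Finset.mul_sum]
          refine Finset.sum_congr rfl fun R _ => by ring
        rw [h2]
        nlinarith
    _ ≤ _ := by
        refine Finset.sum_le_sum_of_subset_of_nonneg (subset_univ _) fun X _ _ => ?_
        apply mul_nonneg (by norm_num)
        refine Finset.sum_nonneg fun R _ => ?_
        have := wP_nonneg (α := α) k0 k1 X
        have := wP_nonneg (α := α) h0 h1 R
        split_ifs <;> positivity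

/-- odds form: link with `Crest.TG.pr` of `od_dom` -/
theorem wP_eq_pr {p : ℝ} (h1 : p < 1) (X : Finset α) :
    wP p X = Crest.TG.pr (fun _ => p / (1 - p)) X := by
  unfold wP Crest.TG.pr
  have hp : (1 - p) ≠ 0 := by linarith
  have h2 : 1 + p / (1 - p) = 1 / (1 - p) := by field_simp; ring
  rw [Finset.prod_const, Finset.prod_const, h2, card_univ]
  have hc : X.card ≤ Fintype.card α := card_le_univ X
  have h3 : (1 - p) ^ (Fintype.card α) = (1 - p) ^ X.card * (1 - p) ^ (Fintype.card α - X.card) := by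
    rw [← pow_add]; congr 1; omega
  rw [div_pow, div_pow, one_pow, h3]
  field_simp

theorem muP_eq_pr {p : ℝ} (h1 : p < 1) (U : Finset (Finset α)) :
    muP p U = ∑ X ∈ U, Crest.TG.pr (fun _ => p / (1 - p)) X :=
  Finset.sum_congr rfl fun X _ => wP_eq_pr h1 X

end Crest.TG.Spr
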