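import Mathlib

/-!
S0073, dense range: quenched step + Hall (helper99).
-/

set_option autoImplicit false

namespace Crest.TG

open Finset

/-- Hall's theorem from a fractional matching. -/
theorem hall_frac {V W : Type*} [Fintype V] [Fintype W] [DecidableEq V] [DecidableEq W]
    (F : V → W → ℝ) (hF : ∀ v w, 0 ≤ F v w) (c : ℝ) (hc : 0 < c)
    (hrow : ∀ v, c ≤ ∑ w, F v w) (hcol : ∀ w, ∑ v, F v w ≤ c) :
    ∃ g : V → W, Function.Injective g ∧ ∀ v, 0 < F v (g v) := by
  classical
  have key := (Finset.all_card_le_biUnion_card_iff_exists_injective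
    (fun v : V => (Finset.univ : Finset W).filter (fun w => 0 < F v w))).1 ?_
  · obtain ⟨g, hg, hg'⟩ := key
    exact ⟨g, hg, fun v => by simpa using hg' v⟩
  · intro A
    set N := A.biUnion (fun v => (Finset.univ : Finset W).filter (fun w => 0 < F v w)) with hN
    have h1 : c * A.card ≤ ∑ v ∈ A, ∑ w, F v w := by
      calc c * A.card = ∑ v ∈ A, c := by simp [mul_comm]
        _ ≤ _ := Finset.sum_le_sum (fun v _ => hrow v)
    have h2 : ∑ v ∈ A, ∑ w, F v w = ∑ v ∈ A, ∑ w ∈ N, F v w := by
      refine Finset.sum_congr rfl (fun v hv => ?_)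
      symm
      apply Finset.sum_subset (Finset.subset_univ _)
      intro w _ hw
      by_contra h
      apply hw
      rw [hN, Finset.mem_biUnion]
      refine ⟨v, hv, ?_⟩
      rw [Finset.mem_filter]
      exact ⟨Finset.mem_univ _, lt_of_le_of_ne (hF v w) (Ne.symm h)⟩
    have h3 : ∑ v ∈ A, ∑ w ∈ N, F v w ≤ c * N.card := by
      rw [Finset.sum_comm]
      calc ∑ w ∈ N, ∑ v ∈ A, F v w ≤ ∑ w ∈ N, c := by
            refine Finset.sum_le_sum (fun w _ => le_trans ?_ (hcol w))
            exact Finset.sum_le_sum_of_subset_of_nonneg (Finset.subset_univ _)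
              (fun v _ _ => hF v w)
        _ = c * N.card := by simp [mul_comm]
    have h4 : c * A.card ≤ c * N.card := by linarith
    exact_mod_cast le_of_mul_le_mul_left h4 hc

theorem exp_neg_le_chord (u : ℝ) (h0 : 0 ≤ u) (h1 : u ≤ 1) :
    Real.exp (-u) ≤ 1 - (1 - Real.exp (-1)) * u := by
  have h := convexOn_exp.2 (Set.mem_univ (-1 : ℝ)) (Set.mem_univ (0 : ℝ)) h0
    (by linarith : (0 : ℝ) ≤ 1 - u) (by ring)
  simp only [smul_eq_mul, mul_zero, add_zero, Real.exp_zero, mul_one] at h
  have e : u * -1 = -u := by ring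
  rw [e] at h
  linarith

theorem exp_le_chord (u : ℝ) (h0 : 0 ≤ u) (h1 : u ≤ 1) :
    Real.exp u ≤ 1 + (Real.exp 1 - 1) * u := by
  have h := convexOn_exp.2 (Set.mem_univ (1 : ℝ)) (Set.mem_univ (0 : ℝ)) h0
    (by linarith : (0 : ℝ) ≤ 1 - u) (by ring)
  simp only [smul_eq_mul, mul_zero, add_zero, Real.exp_zero, mul_one] at h
  linarith

theorem exp_neg_one_le : Real.exp (-1) ≤ 3 / 8 := by
  rw [Real.exp_neg]
  have h := Real.exp_one_gt_d9
  rw [inv_le_comm₀ (Real.exp_pos 1) (by norm_num)]
  linarith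

theorem exp_one_le_three : Real.exp 1 ≤ 3 := by
  have h := Real.exp_one_lt_d9
  linarith

/-- The quenched step: with independent labels `τ v ~ lam v` and independent rows `ρ w ~ mu`,
a kernel `f ≤ M` with unit rows and small columns gives, with high probability, an injection
`g` with `f v (τ v) (ρ (g v)) > 0` for all `v`. -/
theorem quenched {V W T R : Type*} [Fintype V] [Fintype W] [DecidableEq V] [DecidableEq W]
    [Fintype T] [Fintype R] (M : ℝ) (hM : 0 < M)
    (hW : 0 < Fintype.card W)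
    (lam : V → T → ℝ) (hlam : ∀ v t, 0 ≤ lam v t) (hlam1 : ∀ v, ∑ t, lam v t = 1)
    (mu : R → ℝ) (hmu : ∀ r, 0 ≤ mu r) (hmu1 : ∑ r, mu r = 1)
    (f : V → T → R → ℝ) (hf : ∀ v t r, 0 ≤ f v t r) (hfM : ∀ v t r, f v t r ≤ M)
    (hrow : ∀ v t, lam v t ≠ 0 → 1 ≤ ∑ r, mu r * f v t r)
    (hcol : ∀ r, ∑ v, ∑ t, lam v t * f v t r ≤ (Fintype.card W : ℝ) / 8)
    (Q : (V → T) → (W → R) → Prop) [∀ τ ρ, Decidable (Q τ ρ)]
    (hQ : ∀ τ ρ, (∃ g : V → W, Function.Injective g ∧ ∀ v, 0 < f v (τ v) (ρ (g v))) → Q τ ρ) :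
    1 - ((Fintype.card V : ℝ) + Fintype.card W) *
        Real.exp (-((Fintype.card W : ℝ) / (8 * M))) ≤
      ∑ τ : V → T, ∑ ρ : W → R, (∏ v, lam v (τ v)) * (∏ w, mu (ρ w)) *
        (if Q τ ρ then 1 else 0) := by
  classical
  set b : ℝ := (Fintype.card W : ℝ) with hb
  have hb0 : 0 < b := by rw [hb]; exact_mod_cast hW
  set s : ℝ := 1 / M with hs
  have hs0 : 0 < s := by rw [hs]; positivity
  set E1 : V → (V → T) → (W → R) → ℝ := fun v τ ρ =>
    Real.exp (s * (b / 2 - ∑ w, f v (τ v) (ρ w))) with hE1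
  set E2 : W → (V → T) → (W → R) → ℝ := fun w τ ρ =>
    Real.exp (s * (∑ v, f v (τ v) (ρ w) - b / 2)) with hE2
  have hP0 : ∀ (τ : V → T) (ρ : W → R), 0 ≤ (∏ v, lam v (τ v)) * (∏ w, mu (ρ w)) := fun τ ρ =>
    mul_nonneg (Finset.prod_nonneg fun v _ => hlam v _) (Finset.prod_nonneg fun w _ => hmu _)
  have htot : ∑ τ : V → T, ∑ ρ : W → R, (∏ v, lam v (τ v)) * (∏ w, mu (ρ w)) = 1 := by
    have h1 : ∑ τ : V → T, ∏ v, lam v (τ v) = 1 := by
      rw [← Fintype.piFinset_univ, ← Finset.prod_univ_sum]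
      exact Finset.prod_eq_one fun v _ => hlam1 v
    have h2 : ∑ ρ : W → R, ∏ w, mu (ρ w) = 1 := by
      rw [← Fintype.piFinset_univ, ← Finset.prod_univ_sum (fun _ => Finset.univ) (fun _ r => mu r)]
      exact Finset.prod_eq_one fun v _ => hmu1
    simp_rw [← Finset.mul_sum, h2, mul_one]
    exact h1
  -- pointwise bound
  have hpt : ∀ (τ : V → T) (ρ : W → R),
      1 - (∑ v, E1 v τ ρ + ∑ w, E2 w τ ρ) ≤ (if Q τ ρ then (1 : ℝ) else 0) := by
    intro τ ρ
    have hE1n : ∀ v, 0 ≤ E1 v τ ρ := fun v => (Real.exp_pos _).le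
    have hE2n : ∀ w, 0 ≤ E2 w τ ρ := fun w => (Real.exp_pos _).le
    have hS1 : 0 ≤ ∑ v, E1 v τ ρ := Finset.sum_nonneg fun v _ => hE1n v
    have hS2 : 0 ≤ ∑ w, E2 w τ ρ := Finset.sum_nonneg fun w _ => hE2n w
    by_cases h : Q τ ρ
    · rw [if_pos h]; linarith
    · rw [if_neg h]
      by_cases h1 : ∃ v, ∑ w, f v (τ v) (ρ w) < b / 2
      · obtain ⟨v, hv⟩ := h1
        have : 1 ≤ E1 v τ ρ := by
          rw [hE1]
          apply Real.one_le_exp
          have : 0 < b / 2 - ∑ w, f v (τ v) (ρ w) := by linarith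
          positivity
        have h3 : E1 v τ ρ ≤ ∑ v, E1 v τ ρ :=
          Finset.single_le_sum (f := fun v => E1 v τ ρ) (fun v _ => hE1n v) (Finset.mem_univ v)
        linarith
      · by_cases h2 : ∃ w, b / 2 < ∑ v, f v (τ v) (ρ w)
        · obtain ⟨w, hw⟩ := h2
          have : 1 ≤ E2 w τ ρ := by
            rw [hE2]
            apply Real.one_le_exp
            have : 0 < ∑ v, f v (τ v) (ρ w) - b / 2 := by linarith
            positivity
          have h3 : E2 w τ ρ ≤ ∑ w, E2 w τ ρ :=
            Finset.single_le_sum (f := fun w => E2 w τ ρ) (fun w _ => hE2n w) (Finset.mem_univ w)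
          linarith
        · exfalso
          push Not at h1 h2
          apply h
          apply hQ
          exact hall_frac (fun v w => f v (τ v) (ρ w)) (fun v w => hf _ _ _) (b / 2)
            (by positivity) h1 h2
  -- expectation of E1
  have hexp1 : ∀ v, ∑ τ : V → T, ∑ ρ : W → R, (∏ v, lam v (τ v)) * (∏ w, mu (ρ w)) * E1 v τ ρ ≤
      Real.exp (-(b / (8 * M))) := by
    intro v
    have inner : ∀ τ : V → T, ∑ ρ : W → R, (∏ v, lam v (τ v)) * (∏ w, mu (ρ w)) * E1 v τ ρ ≤
        (∏ v, lam v (τ v)) * Real.exp (-(b / (8 * M))) := by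
      intro τ
      have hL0 : 0 ≤ ∏ v, lam v (τ v) := Finset.prod_nonneg fun v _ => hlam v _
      by_cases hz : lam v (τ v) = 0
      · have : ∏ v, lam v (τ v) = 0 := Finset.prod_eq_zero (Finset.mem_univ v) hz
        simp [this]
      · have e1 : ∑ ρ : W → R, (∏ v, lam v (τ v)) * (∏ w, mu (ρ w)) * E1 v τ ρ =
            (∏ v, lam v (τ v)) * (Real.exp (s * (b / 2)) *
              ∏ _w : W, ∑ r, mu r * Real.exp (-(s * f v (τ v) r))) := by
          rw [Finset.prod_univ_sum (fun _ => Finset.univ)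
            (fun _ r => mu r * Real.exp (-(s * f v (τ v) r))), Fintype.piFinset_univ,
            Finset.mul_sum, Finset.mul_sum]
          refine Finset.sum_congr rfl fun ρ _ => ?_
          have : E1 v τ ρ = Real.exp (s * (b / 2)) * ∏ w, Real.exp (-(s * f v (τ v) (ρ w))) := by
            rw [hE1, ← Real.exp_sum, ← Real.exp_add]
            congr 1
            rw [Finset.sum_neg_distrib, ← Finset.mul_sum]
            ring
          rw [this, Finset.prod_mul_distrib]
          ring
        rw [e1]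
        apply mul_le_mul_of_nonneg_left _ hL0
        have e2 : ∑ r, mu r * Real.exp (-(s * f v (τ v) r)) ≤
            1 - (1 - Real.exp (-1)) * s := by
          calc ∑ r, mu r * Real.exp (-(s * f v (τ v) r))
              ≤ ∑ r, mu r * (1 - (1 - Real.exp (-1)) * (s * f v (τ v) r)) := by
                refine Finset.sum_le_sum fun r _ => mul_le_mul_of_nonneg_left ?_ (hmu r)
                apply exp_neg_le_chord
                · exact mul_nonneg hs0.le (hf _ _ _)
                · rw [hs, one_div, inv_mul_le_one₀ hM]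
                  exact hfM _ _ _
            _ = (∑ r, mu r) - (1 - Real.exp (-1)) * s * ∑ r, mu r * f v (τ v) r := by
                rw [Finset.mul_sum, ← Finset.sum_sub_distrib]
                refine Finset.sum_congr rfl fun r _ => by ring
            _ ≤ 1 - (1 - Real.exp (-1)) * s * 1 := by
                rw [hmu1]
                have h5 : 0 ≤ (1 - Real.exp (-1)) * s := by
                  have := exp_neg_one_le
                  apply mul_nonneg _ hs0.le
                  linarith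
                have h6 := mul_le_mul_of_nonneg_left (hrow v (τ v) hz) h5
                linarith
            _ = _ := by ring
        have e3 : 0 ≤ ∑ r, mu r * Real.exp (-(s * f v (τ v) r)) :=
          Finset.sum_nonneg fun r _ => mul_nonneg (hmu r) (Real.exp_pos _).le
        rw [Finset.prod_const, Finset.card_univ]
        have e4 : ∑ r, mu r * Real.exp (-(s * f v (τ v) r)) ≤
            Real.exp (-((1 - Real.exp (-1)) * s)) := by
          refine le_trans e2 ?_
          have := Real.add_one_le_exp (-((1 - Real.exp (-1)) * s))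
          linarith
        calc Real.exp (s * (b / 2)) *
              (∑ r, mu r * Real.exp (-(s * f v (τ v) r))) ^ Fintype.card W
            ≤ Real.exp (s * (b / 2)) *
              (Real.exp (-((1 - Real.exp (-1)) * s))) ^ Fintype.card W := by
              apply mul_le_mul_of_nonneg_left _ (Real.exp_pos _).le
              exact pow_le_pow_left₀ e3 e4 _
          _ = Real.exp (s * (b / 2) - b * ((1 - Real.exp (-1)) * s)) := by
              rw [← Real.exp_nat_mul, ← Real.exp_add]
              congr 1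
              rw [hb]; ring
          _ ≤ Real.exp (-(b / (8 * M))) := by
              apply Real.exp_le_exp.2
              have h7 := exp_neg_one_le
              have h8 : s * (b / 2) - b * ((1 - Real.exp (-1)) * s) =
                  -((b * s) * (1 / 2 - Real.exp (-1))) := by ring
              have h9 : b / (8 * M) = (b * s) * (1 / 8) := by
                rw [hs]; field_simp
              rw [h8, h9]
              have h10 : 0 ≤ b * s := by positivity
              have h11 : (b * s) * (1 / 8) ≤ (b * s) * (1 / 2 - Real.exp (-1)) :=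
                mul_le_mul_of_nonneg_left (by linarith) h10
              linarith
    calc ∑ τ : V → T, ∑ ρ : W → R, (∏ v, lam v (τ v)) * (∏ w, mu (ρ w)) * E1 v τ ρ
        ≤ ∑ τ : V → T, (∏ v, lam v (τ v)) * Real.exp (-(b / (8 * M))) :=
          Finset.sum_le_sum fun τ _ => inner τ
      _ = Real.exp (-(b / (8 * M))) := by
          rw [← Finset.sum_mul]
          have h1 : ∑ τ : V → T, ∏ v, lam v (τ v) = 1 := by
            rw [← Fintype.piFinset_univ, ← Finset.prod_univ_sum]
            exact Finset.prod_eq_one fun v _ => hlam1 v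
          rw [h1, one_mul]
  have hexp2 : ∀ w, ∑ τ : V → T, ∑ ρ : W → R, (∏ v, lam v (τ v)) * (∏ w, mu (ρ w)) * E2 w τ ρ ≤
      Real.exp (-(b / (8 * M))) := by
    intro w
    rw [Finset.sum_comm]
    have inner : ∀ ρ : W → R, ∑ τ : V → T, (∏ v, lam v (τ v)) * (∏ w, mu (ρ w)) * E2 w τ ρ ≤
        (∏ w, mu (ρ w)) * Real.exp (-(b / (8 * M))) := by
      intro ρ
      have hL0 : 0 ≤ ∏ w, mu (ρ w) := Finset.prod_nonneg fun w _ => hmu _
      have e1 : ∑ τ : V → T, (∏ v, lam v (τ v)) * (∏ w, mu (ρ w)) * E2 w τ ρ =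
          (∏ w, mu (ρ w)) * (Real.exp (-(s * (b / 2))) *
            ∏ v : V, ∑ t, lam v t * Real.exp (s * f v t (ρ w))) := by
        rw [Finset.prod_univ_sum (fun _ => Finset.univ)
          (fun v t => lam v t * Real.exp (s * f v t (ρ w))), Fintype.piFinset_univ,
          Finset.mul_sum, Finset.mul_sum]
        refine Finset.sum_congr rfl fun τ _ => ?_
        have : E2 w τ ρ = Real.exp (-(s * (b / 2))) * ∏ v, Real.exp (s * f v (τ v) (ρ w)) := by
          rw [hE2, ← Real.exp_sum, ← Real.exp_add]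
          congr 1
          rw [← Finset.mul_sum]
          ring
        rw [this, Finset.prod_mul_distrib]
        ring
      rw [e1]
      apply mul_le_mul_of_nonneg_left _ hL0
      have e2 : ∀ v : V, ∑ t, lam v t * Real.exp (s * f v t (ρ w)) ≤
          Real.exp ((Real.exp 1 - 1) * s * ∑ t, lam v t * f v t (ρ w)) := by
        intro v
        calc ∑ t, lam v t * Real.exp (s * f v t (ρ w))
            ≤ ∑ t, lam v t * (1 + (Real.exp 1 - 1) * (s * f v t (ρ w))) := by
              refine Finset.sum_le_sum fun t _ => mul_le_mul_of_nonneg_left ?_ (hlam v t)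
              apply exp_le_chord
              · exact mul_nonneg hs0.le (hf _ _ _)
              · rw [hs, one_div, inv_mul_le_one₀ hM]
                exact hfM _ _ _
          _ = (∑ t, lam v t) + (Real.exp 1 - 1) * s * ∑ t, lam v t * f v t (ρ w) := by
              rw [Finset.mul_sum, ← Finset.sum_add_distrib]
              refine Finset.sum_congr rfl fun r _ => by ring
          _ ≤ _ := by
              rw [hlam1]
              have := Real.add_one_le_exp ((Real.exp 1 - 1) * s * ∑ t, lam v t * f v t (ρ w))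
              linarith
      calc Real.exp (-(s * (b / 2))) * ∏ v : V, ∑ t, lam v t * Real.exp (s * f v t (ρ w))
          ≤ Real.exp (-(s * (b / 2))) *
            ∏ v : V, Real.exp ((Real.exp 1 - 1) * s * ∑ t, lam v t * f v t (ρ w)) := by
            apply mul_le_mul_of_nonneg_left _ (Real.exp_pos _).le
            refine Finset.prod_le_prod (fun v _ => ?_) (fun v _ => e2 v)
            exact Finset.sum_nonneg fun t _ => mul_nonneg (hlam v t) (Real.exp_pos _).le
        _ = Real.exp (-(s * (b / 2)) + (Real.exp 1 - 1) * s *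
              ∑ v, ∑ t, lam v t * f v t (ρ w)) := by
            rw [← Real.exp_sum, ← Real.exp_add, Finset.mul_sum]
        _ ≤ Real.exp (-(b / (8 * M))) := by
            apply Real.exp_le_exp.2
            have h7 := exp_one_le_three
            have h7' := Real.exp_one_gt_d9
            have h9 : b / (8 * M) = (b * s) * (1 / 8) := by
              rw [hs]; field_simp
            rw [h9]
            have h12 : (Real.exp 1 - 1) * s * ∑ v, ∑ t, lam v t * f v t (ρ w) ≤
                2 * s * (b / 8) := by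
              apply mul_le_mul
              · exact mul_le_mul_of_nonneg_right (by linarith) hs0.le
              · exact hcol _
              · exact Finset.sum_nonneg fun v _ => Finset.sum_nonneg fun t _ =>
                  mul_nonneg (hlam v t) (hf _ _ _)
              · positivity
            nlinarith [mul_pos hb0 hs0]
    calc ∑ ρ : W → R, ∑ τ : V → T, (∏ v, lam v (τ v)) * (∏ w, mu (ρ w)) * E2 w τ ρ
        ≤ ∑ ρ : W → R, (∏ w, mu (ρ w)) * Real.exp (-(b / (8 * M))) :=
          Finset.sum_le_sum fun ρ _ => inner ρ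
      _ = Real.exp (-(b / (8 * M))) := by
          rw [← Finset.sum_mul]
          have h2 : ∑ ρ : W → R, ∏ w, mu (ρ w) = 1 := by
            rw [← Fintype.piFinset_univ,
              ← Finset.prod_univ_sum (fun _ => Finset.univ) (fun _ r => mu r)]
            exact Finset.prod_eq_one fun v _ => hmu1
          rw [h2, one_mul]
  -- combine
  have hsum : ∑ τ : V → T, ∑ ρ : W → R, (∏ v, lam v (τ v)) * (∏ w, mu (ρ w)) *
        (1 - (∑ v, E1 v τ ρ + ∑ w, E2 w τ ρ)) ≤
      ∑ τ : V → T, ∑ ρ : W → R, (∏ v, lam v (τ v)) * (∏ w, mu (ρ w)) *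
        (if Q τ ρ then 1 else 0) :=
    Finset.sum_le_sum fun τ _ => Finset.sum_le_sum fun ρ _ =>
      mul_le_mul_of_nonneg_left (hpt τ ρ) (hP0 τ ρ)
  refine le_trans ?_ hsum
  have hexpand : ∑ τ : V → T, ∑ ρ : W → R, (∏ v, lam v (τ v)) * (∏ w, mu (ρ w)) *
        (1 - (∑ v, E1 v τ ρ + ∑ w, E2 w τ ρ)) =
      1 - (∑ v, (∑ τ : V → T, ∑ ρ : W → R, (∏ v, lam v (τ v)) * (∏ w, mu (ρ w)) * E1 v τ ρ) +
        ∑ w, (∑ τ : V → T, ∑ ρ : W → R, (∏ v, lam v (τ v)) * (∏ w, mu (ρ w)) * E2 w τ ρ)) := by
    have c1 : ∑ v, (∑ τ : V → T, ∑ ρ : W → R, (∏ v, lam v (τ v)) * (∏ w, mu (ρ w)) * E1 v τ ρ) =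
        ∑ τ : V → T, ∑ ρ : W → R, (∏ v, lam v (τ v)) * (∏ w, mu (ρ w)) * ∑ v, E1 v τ ρ := by
      rw [Finset.sum_comm]
      refine Finset.sum_congr rfl fun τ _ => ?_
      rw [Finset.sum_comm]
      refine Finset.sum_congr rfl fun ρ _ => ?_
      rw [Finset.mul_sum]
    have c2 : ∑ w, (∑ τ : V → T, ∑ ρ : W → R, (∏ v, lam v (τ v)) * (∏ w, mu (ρ w)) * E2 w τ ρ) =
        ∑ τ : V → T, ∑ ρ : W → R, (∏ v, lam v (τ v)) * (∏ w, mu (ρ w)) * ∑ w, E2 w τ ρ := by
      rw [Finset.sum_comm]
      refine Finset.sum_congr rfl fun τ _ => ?_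
      rw [Finset.sum_comm]
      refine Finset.sum_congr rfl fun ρ _ => ?_
      rw [Finset.mul_sum]
    have c3 : ∑ τ : V → T, ∑ ρ : W → R, (∏ v, lam v (τ v)) * (∏ w, mu (ρ w)) *
        (1 - (∑ v, E1 v τ ρ + ∑ w, E2 w τ ρ)) =
        (∑ τ : V → T, ∑ ρ : W → R, (∏ v, lam v (τ v)) * (∏ w, mu (ρ w))) -
        ((∑ τ : V → T, ∑ ρ : W → R, (∏ v, lam v (τ v)) * (∏ w, mu (ρ w)) * ∑ v, E1 v τ ρ) +
        ∑ τ : V → T, ∑ ρ : W → R, (∏ v, lam v (τ v)) * (∏ w, mu (ρ w)) * ∑ w, E2 w τ ρ) := by
      rw [← Finset.sum_add_distrib, ← Finset.sum_sub_distrib]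
      refine Finset.sum_congr rfl fun τ _ => ?_
      rw [← Finset.sum_add_distrib, ← Finset.sum_sub_distrib]
      refine Finset.sum_congr rfl fun ρ _ => ?_
      ring
    rw [c1, c2, c3, htot]
  rw [hexpand]
  have f1 : ∑ v, (∑ τ : V → T, ∑ ρ : W → R, (∏ v, lam v (τ v)) * (∏ w, mu (ρ w)) * E1 v τ ρ) ≤
      (Fintype.card V : ℝ) * Real.exp (-(b / (8 * M))) := by
    calc _ ≤ ∑ _v : V, Real.exp (-(b / (8 * M))) := Finset.sum_le_sum fun v _ => hexp1 v
      _ = _ := by rw [Finset.sum_const, Finset.card_univ, nsmul_eq_mul]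
  have f2 : ∑ w, (∑ τ : V → T, ∑ ρ : W → R, (∏ v, lam v (τ v)) * (∏ w, mu (ρ w)) * E2 w τ ρ) ≤
      (Fintype.card W : ℝ) * Real.exp (-(b / (8 * M))) := by
    calc _ ≤ ∑ _w : W, Real.exp (-(b / (8 * M))) := Finset.sum_le_sum fun w _ => hexp2 w
      _ = _ := by rw [Finset.sum_const, Finset.card_univ, nsmul_eq_mul]
  have f3 : ((Fintype.card V : ℝ) + b) * Real.exp (-(b / (8 * M))) =
      (Fintype.card V : ℝ) * Real.exp (-(b / (8 * M))) + b * Real.exp (-(b / (8 * M))) := by ring
  rw [f3]
  rw [← hb] at f2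
  linarith [f1, f2]

end Crest.TG
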