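import Crest.Agent.TG_Flow
import Crest.Agent.TG98_Spr
import Crest.Agent.TG_Quench
import Crest.Agent.TG65_Labels

/-! S0073, hub classes: the abstract depth-one matching (helper33), following helper40's
capacity lemma, with the landed pieces od_dom, flow, quenched, exists_labels_rows. -/

set_option autoImplicit false

namespace Crest.TG33

open Finset Crest.TG Crest.TG.Spr Crest.TG65

set_option linter.unusedSectionVars false

variable {V J : Type*} [Fintype V] [DecidableEq V] [Fintype J] [DecidableEq J]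

theorem lam_eq_pr (Y : V → Finset J) (v : V) (X : Finset J) :
    lam 2 Y v X = pr (fun i => if i ∈ Y v then 1 else 0) X := by
  unfold lam pr
  have h1 : ∏ i : J, (1 + (if i ∈ Y v then (1:ℝ) else 0)) = 2 ^ (Y v).card := by
    have : ∀ i : J, (1 + (if i ∈ Y v then (1:ℝ) else 0)) = if i ∈ Y v then 2 else 1 := by
      intro i; split_ifs <;> norm_num
    rw [Finset.prod_congr rfl (fun i _ => this i), Finset.prod_ite, Finset.prod_const,
      Finset.prod_const_one, mul_one]
    congr 2
    ext i; simp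
  rw [h1]
  by_cases h : X ⊆ Y v
  · rw [if_pos h]
    have h2 : ∏ i ∈ X, (if i ∈ Y v then (1:ℝ) else 0) = 1 :=
      Finset.prod_eq_one (fun i hi => if_pos (h hi))
    rw [h2]
    have h3 : (1:ℝ) - 1 / ((2:ℕ):ℝ) = 1 / ((2:ℕ):ℝ) := by norm_num
    rw [h3, ← pow_add, Nat.add_sub_cancel' (card_le_card h)]
    push_cast
    rw [one_div, inv_pow, one_div]
  · rw [if_neg h]
    obtain ⟨i, hi, hi'⟩ := Finset.not_subset.1 h
    rw [Finset.prod_eq_zero hi (if_neg hi'), zero_div]

theorem sum_pr_univ (t : J → ℝ) (ht : ∀ i, 0 ≤ t i) : ∑ X : Finset J, pr t X = 1 := by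
  unfold pr
  rw [← Finset.sum_div, div_eq_one_iff_eq]
  · rw [← Finset.powerset_univ, ← Finset.prod_one_add]
  · exact (Finset.prod_pos (fun i _ => by have := ht i; linarith)).ne'

/-- domination for the half-thinned sets -/
theorem dom (Y : V → Finset J) (M0 : ℕ) (hM0 : 0 < M0) (hV : Fintype.card V ≤ M0)
    (τ : ℝ) (hτ : 0 ≤ τ)
    (hspread : ∀ S : Finset J, S.Nonempty →
      ((univ.filter (fun v => S ⊆ Y v)).card : ℝ) ≤ M0 * τ ^ S.card)
    (U : Finset (Finset J)) (hU : ∀ A ∈ U, ∀ B, A ⊆ B → B ∈ U) :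
    ∑ v, ∑ T : Finset J, lam 2 Y v T * (if T ∈ U then 1 else 0) ≤
      M0 * ∑ X : Finset J, wP (τ / (1 + τ)) X * (if X ∈ U then 1 else 0) := by
  classical
  have hM : (0:ℝ) < M0 := by exact_mod_cast hM0
  have hτ1 : 0 < 1 + τ := by linarith
  have hw : ∀ X : Finset J, wP (τ / (1 + τ)) X = pr (fun _ => τ) X := by
    intro X
    rw [wP_eq_pr]
    · congr 1
      funext _
      field_simp
      ring_nf
    · rw [div_lt_one hτ1]; linarith
  have key := od_dom (α := J) Uᶜ (by
      intro R hR X hX
      rw [mem_compl] at hR ⊢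
      exact fun h => hR (hU X h R hX)) (univ : Finset (Option V))
    (fun o => match o with | none => 1 - (Fintype.card V : ℝ) / M0 | some _ => 1 / M0)
    (by
      intro o _
      cases o with
      | none =>
        simp only
        rw [sub_nonneg, div_le_one hM]
        exact_mod_cast hV
      | some v => positivity)
    (by
      rw [Fintype.sum_option]
      simp only [Finset.sum_const, card_univ, nsmul_eq_mul]
      field_simp
      ring)
    (fun o => match o with | none => fun _ => 0 | some v => fun i => if i ∈ Y v then 1 else 0)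
    (by
      intro o _ i
      cases o with
      | none => simp
      | some v => simp only; split_ifs <;> norm_num)
    (fun _ => τ) (fun _ => hτ)
    (by
      intro S
      rw [Fintype.sum_option]
      rcases S.eq_empty_or_nonempty with rfl | hS
      · simp only [Finset.prod_empty, mul_one, Finset.sum_const, card_univ, nsmul_eq_mul]
        apply le_of_eq
        field_simp
        ring
      · simp only
        have h0 : ∏ i ∈ S, (0:ℝ) = 0 := by
          rw [Finset.prod_const, zero_pow (Finset.card_pos.2 hS).ne']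
        rw [h0, mul_zero, zero_add, ← Finset.mul_sum, Finset.prod_const]
        have h1 : ∀ v : V, ∏ i ∈ S, (if i ∈ Y v then (1:ℝ) else 0) =
            if S ⊆ Y v then 1 else 0 := by
          intro v
          by_cases h : S ⊆ Y v
          · rw [if_pos h]; exact Finset.prod_eq_one (fun i hi => if_pos (h hi))
          · rw [if_neg h]
            obtain ⟨i, hi, hi'⟩ := Finset.not_subset.1 h
            exact Finset.prod_eq_zero hi (if_neg hi')
        rw [Finset.sum_congr rfl (fun v _ => h1 v), Finset.sum_boole, one_div,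
          inv_mul_le_iff₀ hM]
        exact hspread S hS)
  rw [Fintype.sum_option] at key
  simp only at key
  have hc : ∀ (t : J → ℝ), (∀ i, 0 ≤ t i) →
      ∑ X ∈ Uᶜ, pr t X = 1 - ∑ X : Finset J, pr t X * (if X ∈ U then 1 else 0) := by
    intro t ht
    have e1 := sum_pr_univ t ht
    have e2 : ∑ X : Finset J, pr t X * (if X ∈ U then 1 else 0) = ∑ X ∈ U, pr t X := by
      simp only [mul_ite, mul_one, mul_zero]
      rw [Finset.sum_ite_mem, Finset.univ_inter]
    have e3 := Finset.sum_add_sum_compl U (fun X => pr t X)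
    rw [e2]
    linarith
  rw [hc _ (fun _ => hτ)] at key
  have h0 := hc (fun _ : J => (0:ℝ)) (fun _ => le_rfl)
  have hle1 : 1 - ∑ X : Finset J, pr (fun _ : J => (0:ℝ)) X * (if X ∈ U then 1 else 0) ≤ 1 := by
    have : 0 ≤ ∑ X : Finset J, pr (fun _ : J => (0:ℝ)) X * (if X ∈ U then 1 else 0) :=
      Finset.sum_nonneg (fun X _ => mul_nonneg (pr_nonneg _ (fun _ => le_rfl) X)
        (by split_ifs <;> norm_num))
    linarith
  rw [h0] at key
  have h1 : ∑ v : V, 1 / (M0:ℝ) * ∑ X ∈ Uᶜ, pr (fun i => if i ∈ Y v then 1 else 0) X =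
      (Fintype.card V : ℝ) / M0 - 1 / M0 *
        ∑ v, ∑ T : Finset J, lam 2 Y v T * (if T ∈ U then 1 else 0) := by
    have : ∀ v : V, 1 / (M0:ℝ) * ∑ X ∈ Uᶜ, pr (fun i => if i ∈ Y v then 1 else 0) X =
        1 / M0 - 1 / M0 * ∑ T : Finset J, lam 2 Y v T * (if T ∈ U then 1 else 0) := by
      intro v
      rw [hc (fun i => if i ∈ Y v then 1 else 0) (fun i => by split_ifs <;> norm_num)]
      simp_rw [lam_eq_pr]
      ring
    rw [Finset.sum_congr rfl (fun v _ => this v), Finset.sum_sub_distrib, ← Finset.mul_sum,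
      Finset.sum_const, card_univ, nsmul_eq_mul]
    ring
  rw [h1] at key
  have hfr : 0 ≤ 1 - (Fintype.card V : ℝ) / M0 := by
    rw [sub_nonneg, div_le_one hM]
    exact_mod_cast hV
  have h2 : (1 - (Fintype.card V : ℝ) / M0) *
      (1 - ∑ X : Finset J, pr (fun _ : J => (0:ℝ)) X * (if X ∈ U then 1 else 0)) ≤
      1 - (Fintype.card V : ℝ) / M0 := by
    nlinarith
  simp_rw [hw]
  have h3 : 1 / (M0:ℝ) * ∑ v, ∑ T : Finset J, lam 2 Y v T * (if T ∈ U then 1 else 0) ≤
      ∑ X : Finset J, pr (fun _ => τ) X * (if X ∈ U then 1 else 0) := by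
    linarith
  rw [one_div, inv_mul_le_iff₀ hM] at h3
  exact h3

/-- the capacity lemma (helper40) -/
theorem capacity (Y : V → Finset J) (D M0 : ℕ) (hM0 : 0 < M0) (hV : Fintype.card V ≤ M0)
    (hD : ∀ v, (Y v).card ≤ D)
    (τ : ℝ) (hτ : 0 ≤ τ)
    (hspread : ∀ S : Finset J, S.Nonempty →
      ((univ.filter (fun v => S ⊆ Y v)).card : ℝ) ≤ M0 * τ ^ S.card)
    (p1 P K : ℝ) (hp1 : 0 < p1) (hp1' : p1 ≤ 1) (hP : P = p1 + τ / (1 + τ) - p1 * (τ / (1 + τ)))
    (hK : 0 < K) (hKp : 1 ≤ K * p1 ^ D)
    (S : Finset (V × Finset J)) :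
    ∑ s ∈ S, lam 2 Y s.1 s.2 / M0 / 2 ≤
      ∑ R : Finset J, wP P R *
        min 1 (K * ∑ s ∈ S, (if s.2 ⊆ R then lam 2 Y s.1 s.2 / M0 else 0)) := by
  classical
  have hM : (0:ℝ) < M0 := by exact_mod_cast hM0
  have hτ1 : 0 < 1 + τ := by linarith
  set pt : ℝ := τ / (1 + τ) with hpt
  have hpt0 : 0 ≤ pt := by positivity
  have hpt1 : pt ≤ 1 := by rw [hpt, div_le_one hτ1]; linarith
  set a : V × Finset J → ℝ := fun s => lam 2 Y s.1 s.2 / M0 with ha
  have ha0 : ∀ s, 0 ≤ a s := fun s => div_nonneg (lam_nonneg 2 (by norm_num) Y s.1 s.2) hM.le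
  set d : Finset J → ℝ := fun R => ∑ s ∈ S, (if s.2 ⊆ R then a s else 0) with hd
  have hd0 : ∀ R, 0 ≤ d R := fun R => Finset.sum_nonneg fun s _ => by
    split_ifs
    · exact ha0 s
    · exact le_rfl
  have hdmono : ∀ R R', R ⊆ R' → d R ≤ d R' := by
    intro R R' h
    refine Finset.sum_le_sum fun s _ => ?_
    by_cases h1 : s.2 ⊆ R
    · rw [if_pos h1, if_pos (h1.trans h)]
    · rw [if_neg h1]
      split_ifs
      · exact ha0 s
      · exact le_rfl
  set f : Finset J → ℝ := fun R => min 1 (K * d R) with hf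
  have hf0 : ∀ R, 0 ≤ f R := fun R => le_min zero_le_one (mul_nonneg hK.le (hd0 R))
  have hf1 : ∀ R, f R ≤ 1 := fun R => min_le_left _ _
  have hfmono : ∀ R R', R ⊆ R' → f R ≤ f R' := fun R R' h =>
    min_le_min le_rfl (mul_le_mul_of_nonneg_left (hdmono R R' h) hK.le)
  have hw1 : ∀ R : Finset J, 0 ≤ wP p1 R := fun R => wP_nonneg hp1.le hp1' R
  have hwt : ∀ R : Finset J, 0 ≤ wP pt R := fun R => wP_nonneg hpt0 hpt1 R
  set U : Finset (Finset J) := univ.filter (fun R => 1 ≤ K * d R) with hU
  have hUup : ∀ A ∈ U, ∀ B, A ⊆ B → B ∈ U := by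
    intro A hA B hAB
    rw [hU, mem_filter] at hA ⊢
    exact ⟨mem_univ _, hA.2.trans (mul_le_mul_of_nonneg_left (hdmono A B hAB) hK.le)⟩
  have hgoal : ∑ R : Finset J, wP P R * f R =
      ∑ X : Finset J, ∑ R : Finset J, wP p1 X * wP pt R * f (X ∪ R) := by
    rw [union_law p1 pt f, hP]
  -- (i)
  set E1 : ℝ := ∑ X : Finset J, wP p1 X * f X with hE1
  have hi : E1 ≤ ∑ R : Finset J, wP P R * f R := by
    rw [hgoal, hE1]
    refine Finset.sum_le_sum fun X _ => ?_
    calc wP p1 X * f X = ∑ R : Finset J, wP p1 X * wP pt R * f X := by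
          rw [← Finset.sum_mul, ← Finset.mul_sum, sum_wP, mul_one]
      _ ≤ _ := Finset.sum_le_sum fun R _ =>
          mul_le_mul_of_nonneg_left (hfmono _ _ subset_union_left) (mul_nonneg (hw1 X) (hwt R))
  -- (ii)
  set g : V × Finset J → ℝ := fun s => ∑ R : Finset J, wP p1 R *
    (if s.2 ∪ R ∈ U then 1 else 0) with hg
  have hii : ∑ s ∈ S, a s * g s ≤ ∑ R : Finset J, wP P R * f R := by
    rw [hgoal]
    have h1 : ∑ s ∈ S, a s * g s =
        ∑ X : Finset J, wP p1 X * ∑ s ∈ S, a s * (if s.2 ∪ X ∈ U then 1 else 0) := by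
      simp only [hg, Finset.mul_sum]
      rw [Finset.sum_comm]
      refine Finset.sum_congr rfl fun X _ => Finset.sum_congr rfl fun s _ => by ring
    rw [h1]
    refine Finset.sum_le_sum fun X _ => ?_
    have h2 : ∑ R : Finset J, wP p1 X * wP pt R * f (X ∪ R) =
        wP p1 X * ∑ R : Finset J, wP pt R * f (X ∪ R) := by
      rw [Finset.mul_sum]
      exact Finset.sum_congr rfl fun R _ => by ring
    rw [h2]
    refine mul_le_mul_of_nonneg_left ?_ (hw1 X)
    have hdom := dom Y M0 hM0 hV τ hτ hspread (univ.filter (fun T => T ∪ X ∈ U)) (by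
      intro A hA B hAB
      rw [mem_filter] at hA ⊢
      exact ⟨mem_univ _, hUup _ hA.2 _ (union_subset_union_left hAB)⟩)
    simp only [mem_filter, mem_univ, true_and] at hdom
    calc ∑ s ∈ S, a s * (if s.2 ∪ X ∈ U then 1 else 0)
        ≤ ∑ s : V × Finset J, a s * (if s.2 ∪ X ∈ U then 1 else 0) := by
          refine Finset.sum_le_sum_of_subset_of_nonneg (subset_univ _) fun s _ _ => ?_
          exact mul_nonneg (ha0 s) (by split_ifs <;> norm_num)
      _ = (∑ v, ∑ T : Finset J, lam 2 Y v T * (if T ∪ X ∈ U then 1 else 0)) / M0 := by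
          rw [Fintype.sum_prod_type, Finset.sum_div]
          refine Finset.sum_congr rfl fun v _ => ?_
          rw [Finset.sum_div]
          refine Finset.sum_congr rfl fun T _ => ?_
          simp only [ha]
          ring
      _ ≤ ∑ R : Finset J, wP (τ / (1 + τ)) R * (if R ∪ X ∈ U then 1 else 0) := by
          rw [div_le_iff₀ hM, mul_comm]
          exact hdom
      _ ≤ ∑ R : Finset J, wP pt R * f (X ∪ R) := by
          refine Finset.sum_le_sum fun R _ => ?_
          refine mul_le_mul_of_nonneg_left ?_ (hwt R)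
          by_cases h : R ∪ X ∈ U
          · rw [if_pos h]
            rw [union_comm] at h
            rw [hU, mem_filter] at h
            exact le_min le_rfl h.2
          · rw [if_neg h]; exact hf0 _
  -- the complement
  set g' : V × Finset J → ℝ := fun s => ∑ R : Finset J, wP p1 R *
    (if s.2 ∪ R ∈ U then 0 else 1) with hg'
  have hgg : ∀ s, g s + g' s = 1 := by
    intro s
    simp only [hg, hg']
    rw [← Finset.sum_add_distrib]
    refine Eq.trans ?_ (sum_wP (α := J) p1)
    refine Finset.sum_congr rfl fun R _ => ?_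
    split_ifs <;> ring
  have hg'0 : ∀ s, 0 ≤ g' s := fun s => Finset.sum_nonneg fun R _ =>
    mul_nonneg (hw1 R) (by split_ifs <;> norm_num)
  have hiii : ∑ s ∈ S, a s * g' s ≤ E1 := by
    have h1 : ∀ s ∈ S, a s * g' s ≤
        K * ∑ R : Finset J, wP p1 R * (if s.2 ⊆ R then (if R ∈ U then 0 else a s) else 0) := by
      intro s _
      by_cases hs : s.2 ⊆ Y s.1
      · have hc : s.2.card ≤ D := (card_le_card hs).trans (hD s.1)
        have h2 := cond_law p1 s.2 (fun R => if R ∈ U then (0:ℝ) else a s)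
        rw [h2]
        have h3 : ∑ R : Finset J, wP p1 R * (if s.2 ∪ R ∈ U then 0 else a s) = a s * g' s := by
          simp only [hg', Finset.mul_sum]
          refine Finset.sum_congr rfl fun R _ => ?_
          split_ifs <;> ring
        rw [h3]
        have h4 : p1 ^ D ≤ p1 ^ s.2.card := pow_le_pow_of_le_one hp1.le hp1' hc
        have h5 : 1 ≤ K * p1 ^ s.2.card := hKp.trans (mul_le_mul_of_nonneg_left h4 hK.le)
        have h6 : 0 ≤ a s * g' s := mul_nonneg (ha0 s) (hg'0 s)
        calc a s * g' s = 1 * (a s * g' s) := (one_mul _).symm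
          _ ≤ (K * p1 ^ s.2.card) * (a s * g' s) := mul_le_mul_of_nonneg_right h5 h6
          _ = _ := by ring
      · have h0 : a s = 0 := by
          simp only [ha, lam, if_neg hs, zero_div]
        rw [h0, zero_mul]
        refine mul_nonneg hK.le (Finset.sum_nonneg fun R _ => mul_nonneg (hw1 R) ?_)
        split_ifs <;> norm_num
    calc ∑ s ∈ S, a s * g' s ≤ ∑ s ∈ S, K * ∑ R : Finset J, wP p1 R *
          (if s.2 ⊆ R then (if R ∈ U then 0 else a s) else 0) := Finset.sum_le_sum h1
      _ = ∑ R : Finset J, wP p1 R * (K * ∑ s ∈ S,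
          (if s.2 ⊆ R then (if R ∈ U then 0 else a s) else 0)) := by
          rw [← Finset.mul_sum, Finset.sum_comm, Finset.mul_sum]
          refine Finset.sum_congr rfl fun R _ => ?_
          rw [← Finset.mul_sum]
          ring
      _ ≤ E1 := by
          rw [hE1]
          refine Finset.sum_le_sum fun R _ => mul_le_mul_of_nonneg_left ?_ (hw1 R)
          by_cases h : R ∈ U
          · have : ∑ s ∈ S, (if s.2 ⊆ R then (if R ∈ U then (0:ℝ) else a s) else 0) = 0 :=
              Finset.sum_eq_zero fun s _ => by rw [if_pos h]; split_ifs <;> rfl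
            rw [this, mul_zero]
            exact hf0 R
          · have h2 : ∑ s ∈ S, (if s.2 ⊆ R then (if R ∈ U then (0:ℝ) else a s) else 0) = d R :=
              Finset.sum_congr rfl fun s _ => by rw [if_neg h]
            rw [h2]
            rw [hU, mem_filter] at h
            push Not at h
            exact le_min (h (mem_univ _)).le le_rfl
  have htot : ∑ s ∈ S, a s = ∑ s ∈ S, a s * g s + ∑ s ∈ S, a s * g' s := by
    rw [← Finset.sum_add_distrib]
    refine Finset.sum_congr rfl fun s _ => ?_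
    rw [← mul_add, hgg, mul_one]
  have hfin : ∑ s ∈ S, lam 2 Y s.1 s.2 / M0 / 2 = (∑ s ∈ S, a s) / 2 := by
    rw [Finset.sum_div]
  rw [hfin]
  show (∑ s ∈ S, a s) / 2 ≤ ∑ R : Finset J, wP P R * f R
  linarith

/-- **Depth one, abstract form.** -/
theorem gamma_abs (Y : V → Finset J) (D M0 b : ℕ) (hM0 : 0 < M0) (hV : Fintype.card V ≤ M0)
    (hb : 16 * M0 ≤ b) (hD : ∀ v, (Y v).card ≤ D)
    (q τ P : ℝ) (hq : 0 < q) (hτ : 0 ≤ τ)
    (hspread : ∀ S : Finset J, S.Nonempty →
      ((univ.filter (fun v => S ⊆ Y v)).card : ℝ) ≤ M0 * τ ^ S.card)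
    (hP : q + τ ≤ P) (hP1 : P < 1) :
    ∃ c : V → J → Fin 2, ∀ i : Fin 2,
      1 - 2 * (((Fintype.card V : ℝ) + b) * Real.exp (-((b:ℝ) * q ^ D / 16))) ≤
      ∑ ρ : Fin b → Finset J, (∏ w, wP P (ρ w)) *
        (open Classical in if (∃ g : V → Fin b, Function.Injective g ∧
          ∀ v, (Y v).filter (fun j => c v j = i) ⊆ ρ (g v)) then 1 else 0) := by
  classical
  have hM : (0:ℝ) < M0 := by exact_mod_cast hM0
  have hb0 : 0 < b := by omega
  have hτ1 : 0 < 1 + τ := by linarith
  have hP0 : 0 < P := by linarith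
  obtain ⟨p1, hp1⟩ : ∃ p1, p1 = P - τ + P * τ := ⟨_, rfl⟩
  have hp1q : q ≤ p1 := by rw [hp1]; nlinarith
  have hp10 : 0 < p1 := hq.trans_le hp1q
  have hp11 : p1 ≤ 1 := by rw [hp1]; nlinarith
  have hPeq : P = p1 + τ / (1 + τ) - p1 * (τ / (1 + τ)) := by
    rw [hp1]; field_simp; ring
  set K : ℝ := (q ^ D)⁻¹ with hK
  have hqD : 0 < q ^ D := by positivity
  have hK0 : 0 < K := by positivity
  have hKp : 1 ≤ K * p1 ^ D := by
    rw [hK, inv_mul_eq_div, le_div_iff₀ hqD, one_mul]
    exact pow_le_pow_left₀ hq.le hp1q D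
  have hmu : ∀ R : Finset J, 0 < wP P R := by
    intro R
    unfold wP
    have : 0 < 1 - P := by linarith
    positivity
  have hlam := fun v T => lam_nonneg 2 (by norm_num) Y v T
  -- flow
  obtain ⟨x, hx, hxrow, hxcol⟩ := flow (A := V × Finset J) (B := Finset J)
    (fun s => lam 2 Y s.1 s.2 / M0 / 2) (fun R => wP P R)
    (fun s R => if s.2 ⊆ R then K * (lam 2 Y s.1 s.2 / M0) * wP P R else 0)
    (fun s => by have := hlam s.1 s.2; positivity) (fun R => (hmu R).le)
    (fun s R => by
      split_ifs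
      · have := hlam s.1 s.2
        have := (hmu R).le
        positivity
      · exact le_rfl)
    (by
      intro S T
      refine (capacity Y D M0 hM0 hV hD τ hτ hspread p1 P K hp10 hp11 hPeq hK0 hKp S).trans ?_
      rw [← Finset.sum_add_sum_compl T]
      refine add_le_add ?_ ?_
      · refine Finset.sum_le_sum fun R _ => ?_
        calc _ ≤ wP P R * 1 := mul_le_mul_of_nonneg_left (min_le_left _ _) (hmu R).le
          _ = wP P R := mul_one _
      · rw [Finset.sum_comm]
        refine Finset.sum_le_sum fun R _ => ?_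
        refine (mul_le_mul_of_nonneg_left (min_le_right _ _) (hmu R).le).trans (le_of_eq ?_)
        rw [Finset.mul_sum, Finset.mul_sum]
        refine Finset.sum_congr rfl fun s _ => ?_
        split_ifs
        · ring
        · ring)
  set f : V → Finset J → Finset J → ℝ := fun v T R =>
    2 * x (v, T) R / (lam 2 Y v T / M0 * wP P R) with hf
  have hf0 : ∀ v T R, 0 ≤ f v T R := fun v T R => by
    have h1 := (hx (v, T) R).1
    have h2 := hlam v T
    have h3 := hmu R
    simp only [hf]
    positivity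
  have hxa : ∀ v T R, lam 2 Y v T = 0 → x (v, T) R = 0 := by
    intro v T R h
    have h1 := hx (v, T) R
    simp only [h, zero_div, mul_zero, zero_mul, ite_self] at h1
    exact le_antisymm h1.2 h1.1
  have hfM : ∀ v T R, f v T R ≤ 2 * K := by
    intro v T R
    have h2 := hlam v T
    have h3 := hmu R
    rcases h2.eq_or_lt with h | h
    · simp only [hf]
      rw [← h, zero_div, zero_mul, div_zero]
      positivity
    · simp only [hf]
      have h4 : 0 < lam 2 Y v T / M0 * wP P R := by positivity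
      rw [div_le_iff₀ h4]
      have h1 := (hx (v, T) R).2
      have h5 : x (v, T) R ≤ K * (lam 2 Y v T / M0) * wP P R := by
        refine h1.trans ?_
        split_ifs
        · exact le_rfl
        · positivity
      nlinarith
  have hrow : ∀ v T, lam 2 Y v T ≠ 0 → 1 ≤ ∑ R, wP P R * f v T R := by
    intro v T h
    have h2 : 0 < lam 2 Y v T := lt_of_le_of_ne (hlam v T) (Ne.symm h)
    have h3 : ∑ R, wP P R * f v T R = 2 * (∑ R, x (v, T) R) / (lam 2 Y v T / M0) := by
      rw [Finset.mul_sum, Finset.sum_div]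
      refine Finset.sum_congr rfl fun R _ => ?_
      simp only [hf]
      have h4 := (hmu R).ne'
      field_simp
    rw [h3, le_div_iff₀ (by positivity)]
    have := hxrow (v, T)
    simp only at this
    linarith
  have hcol : ∀ R, ∑ v, ∑ T, lam 2 Y v T * f v T R ≤ (Fintype.card (Fin b) : ℝ) / 8 := by
    intro R
    have h3 : ∀ v T, lam 2 Y v T * f v T R = 2 * M0 / wP P R * x (v, T) R := by
      intro v T
      by_cases h : lam 2 Y v T = 0
      · rw [h, zero_mul, hxa v T R h, mul_zero]
      · simp only [hf]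
        have h4 := (hmu R).ne'
        field_simp
    have h5 : ∑ v, ∑ T, lam 2 Y v T * f v T R = 2 * M0 / wP P R * ∑ s : V × Finset J, x s R := by
      rw [Fintype.sum_prod_type, Finset.mul_sum]
      refine Finset.sum_congr rfl fun v _ => ?_
      rw [Finset.mul_sum]
      exact Finset.sum_congr rfl fun T _ => h3 v T
    rw [h5, Fintype.card_fin]
    have h6 := hxcol R
    have h7 := hmu R
    have h8 : (16:ℝ) * M0 ≤ b := by exact_mod_cast hb
    calc 2 * M0 / wP P R * ∑ s : V × Finset J, x s R ≤ 2 * M0 / wP P R * wP P R :=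
          mul_le_mul_of_nonneg_left h6 (by positivity)
      _ = 2 * M0 := by field_simp
      _ ≤ (b:ℝ) / 8 := by linarith
  have hq2 := quenched (V := V) (W := Fin b) (T := Finset J) (R := Finset J) (2 * K)
    (by positivity) (by rw [Fintype.card_fin]; exact hb0) (fun v T => lam 2 Y v T) hlam
    (fun v => sum_lam 2 (by norm_num) Y v) (fun R => wP P R) (fun R => (hmu R).le)
    (sum_wP P) f hf0 hfM hrow hcol
    (fun A ρ => ∃ g : V → Fin b, Function.Injective g ∧ ∀ v, A v ⊆ ρ (g v))
    (by
      rintro A ρ ⟨g, hg, hpos⟩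
      refine ⟨g, hg, fun v => ?_⟩
      by_contra hcon
      have h1 := hx (v, A v) (ρ (g v))
      rw [if_neg hcon] at h1
      have h2 : x (v, A v) (ρ (g v)) = 0 := le_antisymm h1.2 h1.1
      have h3 := hpos v
      simp only [hf] at h3
      rw [h2, mul_zero, zero_div] at h3
      exact lt_irrefl _ h3)
  have he : (Fintype.card (Fin b) : ℝ) / (8 * (2 * K)) = (b:ℝ) * q ^ D / 16 := by
    rw [Fintype.card_fin, hK]
    field_simp
    ring
  rw [he, Fintype.card_fin] at hq2
  obtain ⟨c, hc⟩ := exists_labels_rows (B := Fin b) 2 (by norm_num) Y (fun R => wP P R)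
    (fun R => (hmu R).le) (sum_wP P)
    (fun A ρ => if ∃ g : V → Fin b, Function.Injective g ∧ ∀ v, A v ⊆ ρ (g v) then (1:ℝ) else 0)
    (fun A ρ => by split_ifs <;> norm_num)
    (((Fintype.card V : ℝ) + b) * Real.exp (-((b:ℝ) * q ^ D / 16))) hq2
  refine ⟨c, fun i => ?_⟩
  have := hc i
  push_cast at this
  refine this.trans (le_of_eq ?_)
  refine Finset.sum_congr rfl fun ρ _ => ?_
  congr 1

end Crest.TG33
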