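import Crest.Agent.TG73_Rows

/-! Hub glue for S0073: colourings of the (v, u) pairs to edge labellings. -/

set_option autoImplicit false

namespace Crest.TG.Rows

open Finset Crest.FinProb Crest.CombinatoricsR.RandomGraph

theorem piece_of_colour {W : Type*} (F : SimpleGraph W) (J : Finset W)
    (hJ : ∀ x y, F.Adj x y → (x ∈ J ↔ y ∉ J)) {m : ℕ} (c' : W → W → Fin m) :
    ∃ c : F.edgeSet → Fin m, ∀ i x y, x ∈ J → (pieceGraph F c i).Adj x y →
      F.Adj x y ∧ c' y x = i := by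
  classical
  have hcov : ∀ e : F.edgeSet, ∃ x y, x ∈ J ∧ y ∉ J ∧ (e : Sym2 W) = s(x, y) := by
    rintro ⟨e, he⟩
    induction e using Sym2.ind with
    | _ v w =>
      have h := hJ v w he
      by_cases hv : v ∈ J
      · exact ⟨v, w, hv, h.1 hv, rfl⟩
      · have hw : w ∈ J := by
          by_contra hw
          exact hv (h.2 hw)
        exact ⟨w, v, hw, hv, Sym2.eq_swap⟩
  choose fx fy hfx hfy hfe using hcov
  refine ⟨fun e => c' (fy e) (fx e), ?_⟩
  intro i x y hx hxy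
  rw [pieceGraph, SimpleGraph.fromEdgeSet_adj] at hxy
  obtain ⟨⟨h, hc⟩, -⟩ := hxy
  refine ⟨h, ?_⟩
  have hy : y ∉ J := (hJ x y h).1 hx
  have he := hfe ⟨s(x, y), h⟩
  have he' : s(x, y) = s(fx ⟨s(x, y), h⟩, fy ⟨s(x, y), h⟩) := he
  rw [Sym2.eq_iff] at he'
  rcases he' with ⟨h1, h2⟩ | ⟨h1, h2⟩
  · rw [← h1, ← h2] at hc
    exact hc
  · exfalso
    apply hfy ⟨s(x, y), h⟩
    rw [← h1]
    exact hx

/-- deterministic part: from a colouring with good classes to an edge labelling -/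
theorem hub_of_colouring {n b m : ℕ} {W : Type*} [Fintype W] [DecidableEq W] (F : SimpleGraph W)
    (J V : Finset W) (hJV : Disjoint J V) (hm : 1 ≤ m)
    (hF : ∀ x y, F.Adj x y → (x ∈ J ∧ y ∈ V) ∨ (x ∈ V ∧ y ∈ J))
    (hW : Fintype.card W ≤ n) (hb : J.card + b ≤ n) (P : ℝ) (hP0 : 0 ≤ P) (hP1 : P ≤ 1)
    (Y : V → Finset J) (hY : ∀ (v : V) (j : J), F.Adj j v → j ∈ Y v)
    (c' : V → J → Fin m)
    (D : ∀ (τ : V → Finset J) (ρ : Fin b → Finset J), Decidable (∃ g : V → Fin b,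
      Function.Injective g ∧ ∀ v : V, τ v ⊆ ρ (g v)))
    (hc : ∀ i : Fin m, 1 / 2 ≤ ∑ ρ : Fin b → Finset J, (∏ w, mu P (ρ w)) *
      (if ∃ g : V → Fin b, Function.Injective g ∧
        ∀ v : V, (Y v).filter (fun u => c' v u = i) ⊆ ρ (g v) then 1 else 0)) :
    ∃ c : F.edgeSet → Fin m, ∀ i : Fin m,
      1 / 2 ≤ gnpProb n P {G | (pieceGraph F c i).IsContained G} := by
  classical
  have hJ : ∀ x y, F.Adj x y → (x ∈ J ↔ y ∉ J) := by
    intro x y h
    rcases hF x y h with ⟨h1, h2⟩ | ⟨h1, h2⟩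
    · exact ⟨fun _ => fun h3 => (Finset.disjoint_left.1 hJV h3) h2, fun _ => h1⟩
    · exact ⟨fun h3 => absurd h1 (Finset.disjoint_left.1 hJV h3), fun h3 => absurd h2 h3⟩
  obtain ⟨c, hcc⟩ := piece_of_colour F J hJ (fun y x => if h : y ∈ V ∧ x ∈ J then
    c' ⟨y, h.1⟩ ⟨x, h.2⟩ else ⟨0, hm⟩)
  refine ⟨c, fun i => ?_⟩
  refine le_trans (hc i) ?_
  have hle : pieceGraph F c i ≤ F := by
    intro x y h
    rw [pieceGraph, SimpleGraph.fromEdgeSet_adj] at h
    obtain ⟨⟨h, _⟩, -⟩ := h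
    exact h
  refine le_trans ?_ (gamma_transfer (b := b) (pieceGraph F c i) J V hJV
    (fun x y h => hF x y (hle h)) hW hb P hP0 hP1)
  refine Finset.sum_le_sum fun ρ _ => ?_
  refine mul_le_mul_of_nonneg_left ?_ (Finset.prod_nonneg fun w _ => ?_)
  · by_cases h : ∃ g : V → Fin b, Function.Injective g ∧
        ∀ v : V, (Y v).filter (fun u => c' v u = i) ⊆ ρ (g v)
    · obtain ⟨g, hg, hg2⟩ := h
      have h' : ∃ g : V → Fin b, Function.Injective g ∧
        ∀ v : V, (Finset.univ.filter fun j : J => (pieceGraph F c i).Adj j v) ⊆ ρ (g v) := by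
        refine ⟨g, hg, fun v => ?_⟩
        refine Finset.Subset.trans ?_ (hg2 v)
        intro j hj
        rw [Finset.mem_filter] at hj ⊢
        have := hcc i j v j.2 hj.2
        refine ⟨hY v j this.1, ?_⟩
        have h2 := this.2
        have hvj : ((v : W) ∈ V ∧ (j : W) ∈ J) := ⟨v.2, j.2⟩
        simpa [hvj] using h2
      rw [if_pos h']
      split_ifs <;> norm_num
    · rw [if_neg h]
      split_ifs <;> norm_num
  · unfold mu
    exact mul_nonneg (pow_nonneg hP0 _) (pow_nonneg (by linarith) _)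

end Crest.TG.Rows
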