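import Crest.Agent.TG8_Gamma
import Crest.Agent.TG33_Gamma
import Crest.Agent.TG97_Glue
import Crest.Agent.TG94_Num

/-! S0073: GAMMA from the abstract depth-one theorem `TG33.gamma_abs` (helper20). -/

set_option autoImplicit false

namespace Crest.TG20

open Finset Crest.TG.Rows Crest.CombinatoricsR.RandomGraph

theorem gamma : Crest.TG8.GAMMA := by
  classical
  obtain ⟨n0, -, hn0⟩ := Crest.TG94.exists_threshold
    (Crest.TG94.ev_pow_exp_le (a := 99 / 100) (c := 1 / 64) (ε := 1 / 8) (by norm_num)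
      (by norm_num) (by norm_num) 1) 0
  refine ⟨2, by norm_num, 2561, by norm_num, max n0 64, ?_⟩
  intro n hn W _ _ F _ J q D hq hLq hW hF hJ hD hqD h64 hspread
  have hn4 : 64 ≤ n := le_trans (le_max_right _ _) hn
  have hnn0 : n0 ≤ n := le_trans (le_max_left _ _) hn
  have hnR : (64 : ℝ) ≤ n := by exact_mod_cast hn4
  have hJ2 : 2 * J.card ≤ n := by
    have h1 : (n : ℝ) ^ (1 / 10 : ℝ) ≤ (n : ℝ) ^ (1 / 2 : ℝ) :=
      Real.rpow_le_rpow_of_exponent_le (by linarith) (by norm_num)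
    have h2 : (n : ℝ) ^ (1 / 2 : ℝ) ≤ n / 2 := by
      rw [← Real.sqrt_eq_rpow]
      rw [Real.sqrt_le_left (by linarith)]
      nlinarith
    have h3 : (2 * J.card : ℝ) ≤ n := by linarith
    exact_mod_cast h3
  obtain ⟨b, hb⟩ : ∃ b, b = n / 2 := ⟨_, rfl⟩
  obtain ⟨M0, hM0⟩ : ∃ M0, M0 = n / 64 := ⟨_, rfl⟩
  have hb1 : J.card + b ≤ n := by omega
  have hM0p : 0 < M0 := by omega
  have hM0b : 16 * M0 ≤ b := by omega
  have hb4 : n ≤ 4 * b := by omega
  have hbn : b ≤ n := by omega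
  have hM0n : n ≤ 128 * M0 := by omega
  have hb4R : (n : ℝ) ≤ 4 * b := by exact_mod_cast hb4
  have hbnR : (b : ℝ) ≤ n := by exact_mod_cast hbn
  have hM0R : (n : ℝ) ≤ 128 * M0 := by exact_mod_cast hM0n
  let V : Finset W := univ.filter (fun v => v ∉ J ∧ ∃ u, F.Adj v u)
  have hV : ∀ v, v ∈ V ↔ v ∉ J ∧ ∃ u, F.Adj v u := fun v => by simp [V]
  have hJV : Disjoint J V := by
    rw [Finset.disjoint_left]
    intro x hx hxV
    exact ((hV x).1 hxV).1 hx
  have hF' : ∀ x y, F.Adj x y → (x ∈ J ∧ y ∈ V) ∨ (x ∈ V ∧ y ∈ J) := by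
    intro x y h
    rcases hF x y h with ⟨h1, h2⟩ | ⟨h1, h2⟩
    · exact Or.inl ⟨h1, (hV y).2 ⟨h2, x, h.symm⟩⟩
    · exact Or.inr ⟨(hV x).2 ⟨h1, y, h⟩, h2⟩
  let Y : V → Finset J := fun v => univ.filter (fun j : J => F.Adj j v)
  have hYD : ∀ v, (Y v).card ≤ D := by
    intro v
    refine le_trans ?_ (hD v ((hV v).1 v.2).1)
    refine Finset.card_le_card_of_injOn (fun j : J => (j : W)) ?_ ?_
    · intro j hj
      have := (Finset.mem_filter.1 hj).2
      simpa using this.symm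
    · intro a _ b _ h
      exact Subtype.ext h
  have hsp : ∀ S : Finset J, S.Nonempty →
      ((univ.filter fun v => S ⊆ Y v).card : ℝ) ≤ (M0 : ℝ) * (2560 * q) ^ S.card := by
    intro S hS
    have h1 := hspread (S.map (Function.Embedding.subtype _)) (by simpa using hS)
    rw [Finset.card_map] at h1
    have h2 : (univ.filter fun v : V => S ⊆ Y v).card ≤
        (univ.filter (fun v => v ∉ J ∧ ∀ u ∈ S.map (Function.Embedding.subtype _),
          F.Adj v u)).card := by
      refine Finset.card_le_card_of_injOn (fun v : V => (v : W)) ?_ ?_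
      · intro v hv
        have hv' := (Finset.mem_filter.1 hv).2
        refine Finset.mem_coe.2 (Finset.mem_filter.2 ⟨Finset.mem_univ _, ((hV v).1 v.2).1, ?_⟩)
        intro u hu
        obtain ⟨j, hj, rfl⟩ := Finset.mem_map.1 hu
        have := (Finset.mem_filter.1 (hv' hj)).2
        exact this.symm
      · intro a _ b _ h
        exact Subtype.ext h
    have h3 : ((univ.filter fun v : V => S ⊆ Y v).card : ℝ) ≤ 20 * n * q ^ S.card :=
      le_trans (by exact_mod_cast h2) h1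
    refine le_trans h3 ?_
    have hS1 : 1 ≤ S.card := hS.card_pos
    rw [mul_pow]
    have h4 : (2560 : ℝ) ≤ 2560 ^ S.card := by
      calc (2560 : ℝ) = 2560 ^ 1 := by norm_num
        _ ≤ 2560 ^ S.card := pow_le_pow_right₀ (by norm_num) hS1
    have h5 : 0 ≤ q ^ S.card := by positivity
    calc 20 * (n : ℝ) * q ^ S.card ≤ (M0 : ℝ) * 2560 * q ^ S.card := by
          refine mul_le_mul_of_nonneg_right ?_ h5
          linarith
      _ ≤ (M0 : ℝ) * (2560 ^ S.card * q ^ S.card) := by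
          rw [← mul_assoc]
          refine mul_le_mul_of_nonneg_right ?_ h5
          exact mul_le_mul_of_nonneg_left h4 (by positivity)
  have hVM : Fintype.card V ≤ M0 := by
    rw [Fintype.card_coe]
    have : 64 * V.card ≤ n := h64
    omega
  obtain ⟨c', hc'⟩ := Crest.TG33.gamma_abs Y D M0 b hM0p hVM hM0b hYD q (2560 * q) (2561 * q) hq
    (by positivity) hsp (by linarith) hLq
  have hVn : (Fintype.card V : ℝ) ≤ n := by
    have : Fintype.card V ≤ n := by omega
    exact_mod_cast this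
  have hnum : 2 * (((Fintype.card V : ℝ) + b) * Real.exp (-((b:ℝ) * q ^ D / 16))) ≤ 1 / 2 := by
    have h1 := hn0 n hnn0
    rw [pow_one] at h1
    have hnp : (0:ℝ) < n := by linarith
    have h2 : (1 / 64 : ℝ) * (n:ℝ) ^ (99 / 100 : ℝ) ≤ (b:ℝ) * q ^ D / 16 := by
      have e : (n:ℝ) ^ (99 / 100 : ℝ) = n * (n:ℝ) ^ (-(1 / 100) : ℝ) := by
        rw [← Real.rpow_one_add' hnp.le (by norm_num)]
        norm_num
      rw [e]
      have h0 : 0 ≤ (n:ℝ) ^ (-(1 / 100) : ℝ) := by positivity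
      have h3 : (n:ℝ) * (n:ℝ) ^ (-(1 / 100) : ℝ) ≤ 4 * b * q ^ D :=
        mul_le_mul hb4R hqD h0 (by positivity)
      linarith
    have h4 : Real.exp (-((b:ℝ) * q ^ D / 16)) ≤ Real.exp (-(1 / 64 * (n:ℝ) ^ (99 / 100 : ℝ))) :=
      Real.exp_le_exp.2 (by linarith)
    have h5 : ((Fintype.card V : ℝ) + b) ≤ 2 * n := by linarith
    calc 2 * (((Fintype.card V : ℝ) + b) * Real.exp (-((b:ℝ) * q ^ D / 16)))
        ≤ 2 * ((2 * n) * Real.exp (-(1 / 64 * (n:ℝ) ^ (99 / 100 : ℝ)))) := by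
          refine mul_le_mul_of_nonneg_left ?_ (by norm_num)
          exact mul_le_mul h5 h4 (Real.exp_pos _).le (by positivity)
      _ = 4 * (n * Real.exp (-(1 / 64 * (n:ℝ) ^ (99 / 100 : ℝ)))) := by ring
      _ ≤ 4 * (1 / 8) := mul_le_mul_of_nonneg_left h1 (by norm_num)
      _ = 1 / 2 := by norm_num
  refine hub_of_colouring (n := n) (b := b) (m := 2) F J V hJV (by norm_num) hF' hW hb1 (2561 * q)
    (by positivity) hLq.le Y (fun v j h => by simp [Y, h]) c' (fun _ _ => Classical.dec _) ?_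
  intro i
  refine le_trans ?_ (le_trans (hc' i) (le_of_eq ?_))
  · linarith
  · refine Finset.sum_congr rfl fun ρ _ => ?_
    have e : (∏ w, Crest.TG.Spr.wP (2561 * q) (ρ w)) = ∏ w, mu (2561 * q) (ρ w) := rfl
    rw [e]
    by_cases h : ∃ g : V → Fin b, Function.Injective g ∧
        ∀ v : V, (Y v).filter (fun u => c' v u = i) ⊆ ρ (g v)
    · rw [if_pos h, if_pos h]
    · rw [if_neg h, if_neg h]

end Crest.TG20
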