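import Mathlib

/-! Product measure on subsets, by recursion over the ground set. -/

set_option autoImplicit false
set_option linter.unusedSectionVars false

namespace Crest.TG5

variable {J : Type*} [DecidableEq J]

/-- `E f(X)` for a `p`-random subset `X` of `s`. -/
def M (p : ℝ) (s : Finset J) (f : Finset J → ℝ) : ℝ :=
  ∑ X ∈ s.powerset, p ^ X.card * (1 - p) ^ (s.card - X.card) * f X

theorem M_empty (p : ℝ) (f : Finset J → ℝ) : M p ∅ f = f ∅ := by
  simp [M]

theorem M_insert (p : ℝ) {s : Finset J} {e : J} (he : e ∉ s) (f : Finset J → ℝ) :
    M p (insert e s) f = (1 - p) * M p s f + p * M p s (fun X => f (insert e X)) := by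
  unfold M
  rw [Finset.sum_powerset_insert he, Finset.mul_sum, Finset.mul_sum]
  congr 1
  · refine Finset.sum_congr rfl fun X hX => ?_
    have hXs : X.card ≤ s.card := Finset.card_le_card (Finset.mem_powerset.1 hX)
    rw [Finset.card_insert_of_notMem he, Nat.succ_sub hXs, pow_succ]
    ring
  · refine Finset.sum_congr rfl fun X hX => ?_
    have hX' := Finset.mem_powerset.1 hX
    have heX : e ∉ X := fun h => he (hX' h)
    rw [Finset.card_insert_of_notMem he, Finset.card_insert_of_notMem heX, Nat.succ_sub_succ,
      pow_succ]
    ring

theorem M_congr (p : ℝ) (s : Finset J) {f g : Finset J → ℝ} (h : ∀ X, X ⊆ s → f X = g X) :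
    M p s f = M p s g := by
  unfold M
  refine Finset.sum_congr rfl fun X hX => ?_
  rw [h X (Finset.mem_powerset.1 hX)]

theorem M_mono {p : ℝ} (hp0 : 0 ≤ p) (hp1 : p ≤ 1) (s : Finset J) {f g : Finset J → ℝ}
    (h : ∀ X, X ⊆ s → f X ≤ g X) : M p s f ≤ M p s g := by
  unfold M
  refine Finset.sum_le_sum fun X hX => ?_
  have h1 : 0 ≤ (1 - p) := by linarith
  exact mul_le_mul_of_nonneg_left (h X (Finset.mem_powerset.1 hX)) (by positivity)

theorem M_nonneg {p : ℝ} (hp0 : 0 ≤ p) (hp1 : p ≤ 1) (s : Finset J) {f : Finset J → ℝ}
    (h : ∀ X, X ⊆ s → 0 ≤ f X) : 0 ≤ M p s f := by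
  unfold M
  refine Finset.sum_nonneg fun X hX => ?_
  have h1 : 0 ≤ (1 - p) := by linarith
  exact mul_nonneg (by positivity) (h X (Finset.mem_powerset.1 hX))

theorem M_add (p : ℝ) (s : Finset J) (f g : Finset J → ℝ) :
    M p s (fun X => f X + g X) = M p s f + M p s g := by
  unfold M
  rw [← Finset.sum_add_distrib]
  exact Finset.sum_congr rfl fun X _ => by ring

theorem M_smul (p : ℝ) (s : Finset J) (c : ℝ) (f : Finset J → ℝ) :
    M p s (fun X => c * f X) = c * M p s f := by
  unfold M
  rw [Finset.mul_sum]
  exact Finset.sum_congr rfl fun X _ => by ring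

theorem M_const (p : ℝ) (s : Finset J) (c : ℝ) : M p s (fun _ => c) = c := by
  induction s using Finset.induction_on with
  | empty => simp [M]
  | insert e s he ih => rw [M_insert p he, ih]; ring

/-- conditioning on `A ⊆ X`. -/
theorem M_cond (p : ℝ) (s : Finset J) :
    ∀ (A : Finset J), A ⊆ s → ∀ f : Finset J → ℝ,
      M p s (fun X => if A ⊆ X then f X else 0) = p ^ A.card * M p s (fun X => f (A ∪ X)) := by
  induction s using Finset.induction_on with
  | empty =>
    intro A hA f
    have : A = ∅ := Finset.subset_empty.1 hA
    subst this
    simp [M]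
  | insert e s he ih =>
    intro A hA f
    rw [M_insert p he, M_insert p he]
    by_cases heA : e ∈ A
    · -- A = insert e B
      have hB : A.erase e ⊆ s := by
        intro x hx
        have h1 := Finset.mem_erase.1 hx
        have h2 := Finset.mem_insert.1 (hA h1.2)
        tauto
      have h1 : M p s (fun X => if A ⊆ X then f X else 0) = 0 := by
        have : M p s (fun X => if A ⊆ X then f X else 0) = M p s (fun _ => 0) := by
          refine M_congr p s fun X hX => ?_
          rw [if_neg]
          intro h
          exact he (hX (h heA))
        rw [this, M_const]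
      have h2 : M p s (fun X => if A ⊆ insert e X then f (insert e X) else 0)
          = p ^ (A.erase e).card * M p s (fun X => f (insert e (A.erase e ∪ X))) := by
        rw [← ih (A.erase e) hB (fun X => f (insert e X))]
        refine M_congr p s fun X hX => ?_
        have : A ⊆ insert e X ↔ A.erase e ⊆ X := by
          rw [Finset.subset_insert_iff]
        by_cases h : A.erase e ⊆ X
        · rw [if_pos h, if_pos (this.2 h)]
        · rw [if_neg h, if_neg (fun h' => h (this.1 h'))]
      rw [h1, h2]
      have h3 : ∀ X : Finset J, insert e (A.erase e ∪ X) = A ∪ X := by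
        intro X
        ext x
        simp only [Finset.mem_insert, Finset.mem_union, Finset.mem_erase]
        by_cases hx : x = e
        · subst hx; simp [heA]
        · simp [hx]
      have h4 : ∀ X : Finset J, A ∪ insert e X = A ∪ X := by
        intro X
        ext x
        simp only [Finset.mem_insert, Finset.mem_union]
        by_cases hx : x = e
        · subst hx; simp [heA]
        · simp [hx]
      simp only [h3, h4]
      have h5 : A.card = (A.erase e).card + 1 := (Finset.card_erase_add_one heA).symm
      rw [h5, pow_succ]
      ring
    · have hA' : A ⊆ s := by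
        intro x hx
        rcases Finset.mem_insert.1 (hA hx) with h | h
        · exact absurd (h ▸ hx) heA
        · exact h
      have h1 := ih A hA' f
      have h2 : M p s (fun X => if A ⊆ insert e X then f (insert e X) else 0)
          = p ^ A.card * M p s (fun X => f (insert e (A ∪ X))) := by
        rw [← ih A hA' (fun X => f (insert e X))]
        refine M_congr p s fun X hX => ?_
        have : A ⊆ insert e X ↔ A ⊆ X := by
          rw [Finset.subset_insert_iff, Finset.erase_eq_of_notMem heA]
        by_cases h : A ⊆ X
        · rw [if_pos h, if_pos (this.2 h)]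
        · rw [if_neg h, if_neg (fun h' => h (this.1 h'))]
      rw [h1, h2]
      have h3 : ∀ X : Finset J, insert e (A ∪ X) = A ∪ insert e X := by
        intro X
        rw [Finset.union_insert]
      simp only [h3]
      ring

/-- union of two independent random sets. -/
theorem M_union (q r : ℝ) (s : Finset J) :
    ∀ f : Finset J → ℝ,
      M q s (fun A => M r s (fun X => f (A ∪ X))) = M (q + r - q * r) s f := by
  induction s using Finset.induction_on with
  | empty => intro f; simp [M]
  | insert e s he ih =>
    intro f
    rw [M_insert q he, M_insert (q + r - q * r) he]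
    have h0 : M q s (fun A => M r (insert e s) (fun X => f (A ∪ X)))
        = (1 - r) * M (q + r - q * r) s f
          + r * M (q + r - q * r) s (fun X => f (insert e X)) := by
      have : ∀ A : Finset J, M r (insert e s) (fun X => f (A ∪ X))
          = (1 - r) * M r s (fun X => f (A ∪ X)) + r * M r s (fun X => f (insert e (A ∪ X))) := by
        intro A
        rw [M_insert r he]
        simp only [Finset.union_insert]
      simp only [this]
      rw [M_add, M_smul, M_smul, ih f, ih (fun X => f (insert e X))]
    have h1 : M q s (fun A => M r (insert e s) (fun X => f (insert e A ∪ X)))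
        = M (q + r - q * r) s (fun X => f (insert e X)) := by
      have : ∀ A : Finset J, M r (insert e s) (fun X => f (insert e A ∪ X))
          = M r s (fun X => f (insert e (A ∪ X))) := by
        intro A
        rw [M_insert r he]
        have h3 : ∀ X : Finset J, insert e A ∪ X = insert e (A ∪ X) := fun X =>
          Finset.insert_union e A X
        simp only [h3, Finset.union_insert, Finset.insert_idem]
        ring
      simp only [this]
      exact ih (fun X => f (insert e X))
    rw [h0, h1]
    ring

/-- monotonicity in the density for increasing functions. -/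
theorem M_mono_p {q p : ℝ} (hq0 : 0 ≤ q) (hqp : q ≤ p) (hp1 : p ≤ 1) (s : Finset J) :
    ∀ f : Finset J → ℝ, (∀ X Y : Finset J, X ⊆ Y → f X ≤ f Y) → M q s f ≤ M p s f := by
  induction s using Finset.induction_on with
  | empty => intro f _; simp [M]
  | insert e s he ih =>
    intro f hf
    rw [M_insert q he, M_insert p he]
    have hf' : ∀ X Y : Finset J, X ⊆ Y → f (insert e X) ≤ f (insert e Y) := fun X Y h =>
      hf _ _ (Finset.insert_subset_insert e h)
    have h1 := ih f hf
    have h2 := ih (fun X => f (insert e X)) hf'
    have h3 : M p s f ≤ M p s (fun X => f (insert e X)) :=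
      M_mono (hq0.trans hqp) hp1 s fun X _ => hf _ _ (Finset.subset_insert e X)
    have h4 : (0:ℝ) ≤ 1 - q := by linarith
    nlinarith [mul_le_mul_of_nonneg_left h1 h4, mul_le_mul_of_nonneg_left h2 hq0,
      mul_nonneg (sub_nonneg.2 hqp) (sub_nonneg.2 h3)]

end Crest.TG5
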