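import Crest.Agent.TG_FlowD
import Crest.Agent.TG5_M
import Crest.Agent.TG73_Rows

/-! S0073, hub classes: the cut condition and the kernel (helper20). -/

set_option autoImplicit false
set_option linter.unusedSectionVars false

namespace Crest.TG20

open Finset Crest.TG5

variable {X α : Type*} [Fintype X] [DecidableEq X] [Fintype α] [DecidableEq α]

theorem M_sum {ι : Type*} (p : ℝ) (s : Finset α) (A : Finset ι) (F : ι → Finset α → ℝ) :
    M p s (fun R => ∑ x ∈ A, F x R) = ∑ x ∈ A, M p s (F x) := by
  unfold M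
  rw [Finset.sum_comm]
  refine Finset.sum_congr rfl fun R _ => ?_
  rw [Finset.mul_sum]

/-- the mass of the types inside `R` -/
def Zf (a : X → ℝ) (T : X → Finset α) (A : Finset X) (R : Finset α) : ℝ :=
  ∑ x ∈ A, if T x ⊆ R then a x else 0

theorem Zf_mono (a : X → ℝ) (ha : ∀ x, 0 ≤ a x) (T : X → Finset α) (A : Finset X)
    {R S : Finset α} (h : R ⊆ S) : Zf a T A R ≤ Zf a T A S := by
  unfold Zf
  refine Finset.sum_le_sum fun x _ => ?_
  by_cases h1 : T x ⊆ R
  · rw [if_pos h1, if_pos (h1.trans h)]
  · rw [if_neg h1]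
    split_ifs
    · exact ha x
    · exact le_rfl

theorem claim (a : X → ℝ) (ha : ∀ x, 0 ≤ a x) (T : X → Finset α) (D : ℕ)
    (hT : ∀ x, (T x).card ≤ D) (N : ℝ) (hN : 0 ≤ N) (p1 p2 P : ℝ) (h1 : 0 ≤ p1) (h2 : 0 < p2)
    (hP1 : P ≤ 1) (h12 : p1 + p2 ≤ P)
    (hdom : ∀ U : Finset (Finset α), (∀ A ∈ U, ∀ B : Finset α, A ⊆ B → B ∈ U) →
      ∑ x, (if T x ∈ U then a x else 0) ≤ N * M p1 univ (fun R => if R ∈ U then 1 else 0))
    (A : Finset X) (e : ℝ) (he : 0 ≤ e) :
    ∑ x ∈ A, a x ≤ N * M P univ (fun R => if e < Zf a T A R then 1 else 0) + (1 / p2) ^ D * e := by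
  classical
  have hp21 : p2 ≤ 1 := by linarith
  have hsplit : ∀ x ∈ A, a x = a x * M p2 univ (fun R => if e < Zf a T A (T x ∪ R) then 1 else 0)
      + a x * M p2 univ (fun R => if e < Zf a T A (T x ∪ R) then 0 else 1) := by
    intro x _
    rw [← mul_add, ← M_add]
    have : M p2 (univ : Finset α) (fun R => (if e < Zf a T A (T x ∪ R) then (1:ℝ) else 0)
        + (if e < Zf a T A (T x ∪ R) then 0 else 1)) = 1 := by
      refine Eq.trans (M_congr _ _ fun R _ => ?_) (M_const p2 (univ : Finset α) 1)
      split_ifs <;> norm_num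
    rw [this, mul_one]
  rw [Finset.sum_congr rfl hsplit, Finset.sum_add_distrib]
  refine add_le_add ?_ ?_
  · -- first part
    have e1 : ∑ x ∈ A, a x * M p2 univ (fun R => if e < Zf a T A (T x ∪ R) then 1 else 0)
        = M p2 univ (fun R => ∑ x ∈ A, (if e < Zf a T A (T x ∪ R) then a x else 0)) := by
      rw [M_sum]
      refine Finset.sum_congr rfl fun x _ => ?_
      rw [← M_smul]
      refine M_congr _ _ fun R _ => ?_
      split_ifs <;> simp
    rw [e1]
    have e2 : M p2 univ (fun R => ∑ x ∈ A, (if e < Zf a T A (T x ∪ R) then a x else 0))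
        ≤ M p2 univ (fun R => N * M p1 univ (fun S => if e < Zf a T A (R ∪ S) then 1 else 0)) := by
      refine M_mono h2.le hp21 _ fun R _ => ?_
      set U : Finset (Finset α) := univ.filter (fun S => e < Zf a T A (S ∪ R)) with hU
      have hUup : ∀ B ∈ U, ∀ B' : Finset α, B ⊆ B' → B' ∈ U := by
        intro B hB B' hBB
        rw [hU, Finset.mem_filter] at hB ⊢
        exact ⟨Finset.mem_univ _, lt_of_lt_of_le hB.2
          (Zf_mono a ha T A (Finset.union_subset_union_left hBB))⟩
      have hd := hdom U hUup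
      calc ∑ x ∈ A, (if e < Zf a T A (T x ∪ R) then a x else 0)
          ≤ ∑ x, (if e < Zf a T A (T x ∪ R) then a x else 0) :=
            Finset.sum_le_sum_of_subset_of_nonneg (Finset.subset_univ _) (fun x _ _ => by
              split_ifs
              · exact ha x
              · exact le_rfl)
        _ = ∑ x, (if T x ∈ U then a x else 0) := by
            refine Finset.sum_congr rfl fun x _ => ?_
            have : (T x ∈ U) ↔ e < Zf a T A (T x ∪ R) := by
              rw [hU, Finset.mem_filter]; simp
            by_cases h : e < Zf a T A (T x ∪ R)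
            · rw [if_pos h, if_pos (this.2 h)]
            · rw [if_neg h, if_neg (fun h' => h (this.1 h'))]
        _ ≤ _ := hd
        _ = _ := by
            congr 1
            refine M_congr _ _ fun S _ => ?_
            have : (S ∈ U) ↔ e < Zf a T A (R ∪ S) := by
              rw [hU, Finset.mem_filter, Finset.union_comm]; simp
            by_cases h : e < Zf a T A (R ∪ S)
            · rw [if_pos h, if_pos (this.2 h)]
            · rw [if_neg h, if_neg (fun h' => h (this.1 h'))]
    refine e2.trans ?_
    rw [M_smul, M_union p2 p1 univ (fun S => if e < Zf a T A S then (1:ℝ) else 0)]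
    refine mul_le_mul_of_nonneg_left ?_ hN
    refine M_mono_p ?_ ?_ hP1 _ _ ?_
    · nlinarith
    · nlinarith
    · intro B B' hB
      by_cases h : e < Zf a T A B
      · rw [if_pos h, if_pos (lt_of_lt_of_le h (Zf_mono a ha T A hB))]
      · rw [if_neg h]
        split_ifs <;> norm_num
  · -- second part
    have e1 : ∀ x ∈ A, a x * M p2 univ (fun R => if e < Zf a T A (T x ∪ R) then 0 else 1)
        ≤ (1 / p2) ^ D * M p2 univ (fun R => if T x ⊆ R then
            (a x * if e < Zf a T A R then 0 else 1) else 0) := by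
      intro x _
      rw [M_cond p2 univ (T x) (Finset.subset_univ _)
        (fun R => a x * if e < Zf a T A R then (0:ℝ) else 1), M_smul]
      set m0 := M p2 (univ : Finset α) (fun R => if e < Zf a T A (T x ∪ R) then (0:ℝ) else 1)
        with hm0
      have hm0n : 0 ≤ m0 := M_nonneg h2.le hp21 _ fun R _ => by split_ifs <;> norm_num
      have hpow : 1 ≤ (1 / p2) ^ D * p2 ^ (T x).card := by
        have : (1 / p2) ^ (T x).card ≤ (1 / p2) ^ D :=
          pow_le_pow_right₀ (by rw [le_div_iff₀ h2]; linarith) (hT x)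
        calc (1:ℝ) = (1 / p2) ^ (T x).card * p2 ^ (T x).card := by
              rw [← mul_pow, one_div, inv_mul_cancel₀ h2.ne', one_pow]
          _ ≤ _ := mul_le_mul_of_nonneg_right this (by positivity)
      calc a x * m0 = 1 * (a x * m0) := by ring
        _ ≤ ((1 / p2) ^ D * p2 ^ (T x).card) * (a x * m0) :=
            mul_le_mul_of_nonneg_right hpow (mul_nonneg (ha x) hm0n)
        _ = _ := by ring
    refine (Finset.sum_le_sum e1).trans ?_
    rw [← Finset.mul_sum, ← M_sum]
    refine mul_le_mul_of_nonneg_left ?_ (by positivity)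
    refine le_trans (M_mono h2.le hp21 _ fun R _ => ?_) (M_const p2 (univ : Finset α) e).le
    have : ∀ c : ℝ, ∑ x ∈ A, (if T x ⊆ R then (a x * c) else 0) = c * Zf a T A R := by
      intro c
      unfold Zf
      rw [Finset.mul_sum]
      refine Finset.sum_congr rfl fun x _ => ?_
      split_ifs <;> ring
    rw [this]
    split_ifs with h
    · simpa using he
    · push Not at h; linarith

theorem kernel (a : X → ℝ) (ha : ∀ x, 0 ≤ a x) (T : X → Finset α) (D : ℕ)
    (hT : ∀ x, (T x).card ≤ D) (N : ℝ) (hN : 0 ≤ N) (p1 p2 P : ℝ) (h1 : 0 ≤ p1) (h2 : 0 < p2)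
    (hP1 : P < 1) (h12 : p1 + p2 ≤ P)
    (hdom : ∀ U : Finset (Finset α), (∀ A ∈ U, ∀ B : Finset α, A ⊆ B → B ∈ U) →
      ∑ x, (if T x ∈ U then a x else 0) ≤ N * M p1 univ (fun R => if R ∈ U then 1 else 0))
    (C K : ℝ) (hC : 2 * N ≤ C) (hC0 : 0 < C) (hK : 2 * (1 / p2) ^ D * (1 / P) ^ D ≤ K) :
    ∃ f : X → Finset α → ℝ, (∀ x R, 0 ≤ f x R ∧ f x R ≤ K) ∧ (∀ x R, ¬ T x ⊆ R → f x R = 0) ∧
      (∀ x, 0 < a x → ∑ R, TG.Rows.mu P R * f x R = 1) ∧ ∀ R, ∑ x, a x * f x R ≤ C := by
  classical
  have hP0 : 0 < P := by linarith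
  have hp21 : p2 ≤ 1 := by linarith
  have h1P : 0 < 1 - P := by linarith
  have hip2 : 1 ≤ 1 / p2 := by rw [le_div_iff₀ h2]; linarith
  have hiP : 1 ≤ 1 / P := by rw [le_div_iff₀ hP0]; linarith
  set k : ℝ := 2 * (1 / p2) ^ D with hk
  have hk1 : 1 ≤ k := by
    have : 1 ≤ (1 / p2) ^ D := one_le_pow₀ hip2
    rw [hk]; linarith
  have hiPD : 1 ≤ (1 / P) ^ D := one_le_pow₀ hiP
  have hK0 : 0 < K := by nlinarith
  have hmu : ∀ R : Finset α, 0 < TG.Rows.mu P R := by
    intro R
    unfold TG.Rows.mu
    positivity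
  have hMmu : ∀ g : Finset α → ℝ, ∑ R, TG.Rows.mu P R * g R = M P univ g := by
    intro g
    unfold M TG.Rows.mu
    rw [Finset.powerset_univ, Finset.card_univ]
  have hcut : ∀ (S : Finset X) (Tt : Finset (Finset α)),
      ∑ x ∈ S, a x ≤ C * ∑ R ∈ Tt, TG.Rows.mu P R
        + K * ∑ x ∈ S, ∑ R ∈ Ttᶜ, if T x ⊆ R then a x * TG.Rows.mu P R else 0 := by
    intro S Tt
    -- the right side dominates the truncated sum
    have hR : M P univ (fun R => min C (K * Zf a T S R)) ≤ C * ∑ R ∈ Tt, TG.Rows.mu P R
        + K * ∑ x ∈ S, ∑ R ∈ Ttᶜ, if T x ⊆ R then a x * TG.Rows.mu P R else 0 := by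
      rw [← hMmu, ← Finset.sum_add_sum_compl Tt]
      refine add_le_add ?_ ?_
      · rw [Finset.mul_sum]
        refine Finset.sum_le_sum fun R _ => ?_
        rw [mul_comm C]
        exact mul_le_mul_of_nonneg_left (min_le_left _ _) (hmu R).le
      · rw [Finset.sum_comm, Finset.mul_sum]
        refine Finset.sum_le_sum fun R _ => ?_
        calc TG.Rows.mu P R * min C (K * Zf a T S R)
            ≤ TG.Rows.mu P R * (K * Zf a T S R) :=
              mul_le_mul_of_nonneg_left (min_le_right _ _) (hmu R).le
          _ = K * ∑ x ∈ S, (if T x ⊆ R then a x * TG.Rows.mu P R else 0) := by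
              unfold Zf
              rw [Finset.mul_sum, Finset.mul_sum, Finset.mul_sum]
              refine Finset.sum_congr rfl fun x _ => ?_
              split_ifs
              · ring
              · ring
    refine le_trans ?_ hR
    set aS := ∑ x ∈ S, a x with haS
    have haS0 : 0 ≤ aS := Finset.sum_nonneg fun x _ => ha x
    set e : ℝ := C / K with he
    have he0 : 0 < e := by rw [he]; positivity
    have hKe : K * e = C := by rw [he]; field_simp
    by_cases hcase : k * e ≤ aS
    · have hcl := claim a ha T D hT N hN p1 p2 P h1 h2 hP1.le h12 hdom S e he0.le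
      rw [← haS] at hcl
      have hke : (1 / p2) ^ D * e = k * e / 2 := by rw [hk]; ring
      have h3 : aS ≤ 2 * N * M P univ (fun R => if e < Zf a T S R then 1 else 0) := by
        nlinarith
      refine h3.trans ?_
      have hMn : 0 ≤ M P (univ : Finset α) (fun R => if e < Zf a T S R then (1:ℝ) else 0) :=
        M_nonneg hP0.le hP1.le _ fun R _ => by split_ifs <;> norm_num
      refine (mul_le_mul_of_nonneg_right hC hMn).trans ?_
      rw [← M_smul]
      refine M_mono hP0.le hP1.le _ fun R _ => ?_
      split_ifs with h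
      · rw [mul_one]
        refine le_min le_rfl ?_
        rw [← hKe]
        exact (mul_le_mul_of_nonneg_left h.le hK0.le)
      · rw [mul_zero]
        refine le_min hC0.le (mul_nonneg hK0.le ?_)
        exact Finset.sum_nonneg fun x _ => by
          split_ifs
          · exact ha x
          · exact le_rfl
    · push Not at hcase
      have hZ0 : ∀ R, 0 ≤ Zf a T S R := fun R => Finset.sum_nonneg fun x _ => by
        split_ifs
        · exact ha x
        · exact le_rfl
      have hZa : ∀ R, Zf a T S R ≤ aS := fun R => by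
        rw [haS]
        unfold Zf
        refine Finset.sum_le_sum fun x _ => ?_
        split_ifs
        · exact le_rfl
        · exact ha x
      have hpt : ∀ R, (K / k) * Zf a T S R ≤ min C (K * Zf a T S R) := by
        intro R
        have hk0 : 0 < k := by linarith
        refine le_min ?_ ?_
        · have : Zf a T S R ≤ k * e := (hZa R).trans hcase.le
          calc K / k * Zf a T S R ≤ K / k * (k * e) :=
                mul_le_mul_of_nonneg_left this (by positivity)
            _ = K * e := by field_simp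
            _ = C := hKe
        · refine mul_le_mul_of_nonneg_right ?_ (hZ0 R)
          rw [div_le_iff₀ hk0]
          nlinarith
      have hlow : (K / k) * M P univ (Zf a T S) ≤ M P univ (fun R => min C (K * Zf a T S R)) := by
        rw [← M_smul]
        exact M_mono hP0.le hP1.le _ fun R _ => hpt R
      refine le_trans ?_ hlow
      have hMZ : M P univ (Zf a T S) = ∑ x ∈ S, a x * P ^ (T x).card := by
        have : M P univ (Zf a T S) = M P univ (fun R => ∑ x ∈ S, if T x ⊆ R then a x else 0) := rfl
        rw [this, M_sum]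
        refine Finset.sum_congr rfl fun x _ => ?_
        rw [M_cond P univ (T x) (Finset.subset_univ _) (fun _ => a x), M_const]
        ring
      have hPD : ∀ x, P ^ D ≤ P ^ (T x).card := fun x =>
        pow_le_pow_of_le_one hP0.le hP1.le (hT x)
      have hMZ' : P ^ D * aS ≤ M P univ (Zf a T S) := by
        rw [hMZ, haS, Finset.mul_sum]
        refine Finset.sum_le_sum fun x _ => ?_
        rw [mul_comm]
        exact mul_le_mul_of_nonneg_left (hPD x) (ha x)
      have hk0 : 0 < k := by linarith
      have hKk : 1 ≤ K / k * P ^ D := by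
        rw [div_mul_eq_mul_div, le_div_iff₀ hk0, one_mul]
        have : k * (1 / P) ^ D * P ^ D = k := by
          rw [mul_assoc, ← mul_pow, one_div, inv_mul_cancel₀ hP0.ne', one_pow, mul_one]
        calc k = k * (1 / P) ^ D * P ^ D := this.symm
          _ ≤ K * P ^ D := mul_le_mul_of_nonneg_right hK (by positivity)
      calc aS = 1 * aS := by ring
        _ ≤ (K / k * P ^ D) * aS := mul_le_mul_of_nonneg_right hKk haS0
        _ = K / k * (P ^ D * aS) := by ring
        _ ≤ _ := mul_le_mul_of_nonneg_left hMZ' (by positivity)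
  obtain ⟨f, hf1, hf2, hf3, hf4⟩ := TG.FlowD.flow a (fun R : Finset α => TG.Rows.mu P R)
    (fun x R => T x ⊆ R) K C ha (fun R => (hmu R).le) hK0.le hC0.le hcut
  exact ⟨f, hf1, hf2, hf3, fun R => hf4 R (hmu R)⟩

end Crest.TG20
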