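import Mathlib

/-!
# S0073, sparse range: binomial tail lower bound and the star sum
-/

set_option autoImplicit false

namespace Crest.TG.Tail
open Finset

/-- `P(Bin(N, P) ≥ d)` -/
noncomputable def binTail (N : ℕ) (P : ℝ) (d : ℕ) : ℝ :=
  ∑ j ∈ (range (N + 1)).filter (fun j => d ≤ j), (N.choose j : ℝ) * P ^ j * (1 - P) ^ (N - j)

/-- the same for subsets of a finite set -/
theorem binTail_eq_sum {α : Type*} [DecidableEq α] (W : Finset α) (P : ℝ) (d : ℕ) :
    ∑ R ∈ W.powerset.filter (fun R => d ≤ R.card), P ^ R.card * (1 - P) ^ (W.card - R.card)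
      = binTail W.card P d := by
  classical
  unfold binTail
  rw [Finset.sum_filter, Finset.sum_powerset_apply_card
    (fun j => if d ≤ j then P ^ j * (1 - P) ^ (W.card - j) else 0), Finset.sum_filter]
  refine Finset.sum_congr rfl fun j _ => ?_
  split_ifs with h
  · rw [nsmul_eq_mul]; ring
  · simp

theorem one_sub_ge {P : ℝ} (h0 : 0 ≤ P) (h : P ≤ 1 / 2) : Real.exp (-(2 * P)) ≤ 1 - P := by
  have h1 : 1 + 2 * P ≤ Real.exp (2 * P) := by
    have := Real.add_one_le_exp (2 * P); linarith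
  rw [Real.exp_neg, inv_le_comm₀ (Real.exp_pos _) (by linarith)]
  refine le_trans ?_ h1
  rw [inv_eq_one_div, div_le_iff₀ (by linarith)]
  nlinarith

theorem sum_binom (N : ℕ) (P : ℝ) :
    ∑ j ∈ range (N + 1), (N.choose j : ℝ) * P ^ j * (1 - P) ^ (N - j) = 1 := by
  have h := add_pow P (1 - P) N
  rw [add_sub_cancel, one_pow] at h
  refine Eq.trans ?_ h.symm
  refine Finset.sum_congr rfl fun j _ => ?_
  ring

/-- case 1: `4 d ≤ N P` -/
theorem tail_half (N d : ℕ) (P : ℝ) (hP0 : 0 ≤ P) (hP : P ≤ 1) (hd : 1 ≤ d)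
    (h4 : 4 * (d : ℝ) ≤ N * P) : 1 / 2 ≤ binTail N P d := by
  have hsplit : binTail N P d
      + ∑ j ∈ (range (N + 1)).filter (fun j => ¬ d ≤ j),
          (N.choose j : ℝ) * P ^ j * (1 - P) ^ (N - j) = 1 := by
    refine Eq.trans ?_ (sum_binom N P)
    exact Finset.sum_filter_add_sum_filter_not (range (N + 1)) (fun j => d ≤ j)
      (fun j => (N.choose j : ℝ) * P ^ j * (1 - P) ^ (N - j))
  have hlow : ∑ j ∈ (range (N + 1)).filter (fun j => ¬ d ≤ j),
          (N.choose j : ℝ) * P ^ j * (1 - P) ^ (N - j) ≤ 2 ^ d * (1 - P / 2) ^ N := by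
    have h1 : (2 : ℝ) ^ d * (1 - P / 2) ^ N
        = ∑ j ∈ range (N + 1), (2 : ℝ) ^ d * ((N.choose j : ℝ) * (P / 2) ^ j * (1 - P) ^ (N - j)) := by
      rw [← Finset.mul_sum]
      congr 1
      have h := add_pow (P / 2) (1 - P) N
      have e : P / 2 + (1 - P) = 1 - P / 2 := by ring
      rw [e] at h
      rw [h]
      refine Finset.sum_congr rfl fun j _ => ?_
      ring
    rw [h1]
    refine le_trans ?_ (Finset.sum_le_sum_of_subset_of_nonneg
      (Finset.filter_subset (fun j => ¬ d ≤ j) (range (N + 1))) ?_)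
    · refine Finset.sum_le_sum fun j hj => ?_
      rw [Finset.mem_filter] at hj
      have hjd : j ≤ d := by omega
      have h2 : (1 : ℝ) ≤ 2 ^ d * (1 / 2) ^ j := by
        have : (2 : ℝ) ^ j ≤ 2 ^ d := pow_le_pow_right₀ (by norm_num) hjd
        rw [one_div, inv_pow, ← div_eq_mul_inv, le_div_iff₀ (by positivity)]
        linarith
      have h3 : 0 ≤ (N.choose j : ℝ) * P ^ j * (1 - P) ^ (N - j) := by
        have : 0 ≤ 1 - P := by linarith
        positivity
      calc (N.choose j : ℝ) * P ^ j * (1 - P) ^ (N - j)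
          ≤ (2 ^ d * (1 / 2) ^ j) * ((N.choose j : ℝ) * P ^ j * (1 - P) ^ (N - j)) := by
            nlinarith
        _ = 2 ^ d * ((N.choose j : ℝ) * (P / 2) ^ j * (1 - P) ^ (N - j)) := by
            rw [div_pow P 2 j, one_div, inv_pow]
            ring
    · intro j _ _
      have : 0 ≤ 1 - P := by linarith
      positivity
  have hexp : (2 : ℝ) ^ d * (1 - P / 2) ^ N ≤ 1 / 2 := by
    have h1 : (2 : ℝ) ^ d ≤ Real.exp d := by
      have : (2 : ℝ) ≤ Real.exp 1 := by
        have := Real.add_one_le_exp (1 : ℝ); linarith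
      calc (2 : ℝ) ^ d ≤ (Real.exp 1) ^ d := pow_le_pow_left₀ (by norm_num) this d
        _ = Real.exp d := by rw [← Real.exp_nat_mul, mul_one]
    have h2 : (1 - P / 2) ^ N ≤ Real.exp (-(N * P / 2)) := by
      have : 1 - P / 2 ≤ Real.exp (-(P / 2)) := by
        have := Real.add_one_le_exp (-(P / 2)); linarith
      calc (1 - P / 2) ^ N ≤ (Real.exp (-(P / 2))) ^ N :=
            pow_le_pow_left₀ (by linarith) this N
        _ = Real.exp (-(N * P / 2)) := by
            rw [← Real.exp_nat_mul]; congr 1; ring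
    have hd1 : (1 : ℝ) ≤ d := by exact_mod_cast hd
    have h3 : Real.exp (d : ℝ) * Real.exp (-(N * P / 2)) ≤ Real.exp (-1) := by
      rw [← Real.exp_add]
      apply Real.exp_le_exp.mpr
      linarith
    have h4' : Real.exp (-1 : ℝ) ≤ 1 / 2 := by
      rw [Real.exp_neg, inv_eq_one_div]
      apply one_div_le_one_div_of_le (by norm_num)
      have := Real.add_one_le_exp (1 : ℝ); linarith
    calc (2 : ℝ) ^ d * (1 - P / 2) ^ N ≤ Real.exp d * Real.exp (-(N * P / 2)) := by
          apply mul_le_mul h1 h2 _ (Real.exp_pos _).le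
          exact pow_nonneg (by linarith) _
      _ ≤ 1 / 2 := h3.trans h4'
  linarith

/-- case 2: `N P ≤ 4 d` -/
theorem tail_point (N d : ℕ) (P : ℝ) (hP0 : 0 ≤ P) (hP : P ≤ 1 / 2) (hdN : d ≤ N)
    (h4 : N * P ≤ 4 * (d : ℝ)) :
    (N.choose d : ℝ) * (P * Real.exp (-8)) ^ d ≤ binTail N P d := by
  have h1 : (N.choose d : ℝ) * P ^ d * (1 - P) ^ (N - d) ≤ binTail N P d := by
    unfold binTail
    have hmem : d ∈ (range (N + 1)).filter (fun j => d ≤ j) := by
      simp; omega
    refine Finset.single_le_sum (f := fun j => (N.choose j : ℝ) * P ^ j * (1 - P) ^ (N - j))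
      (fun j _ => ?_) hmem
    have : 0 ≤ 1 - P := by linarith
    positivity
  refine le_trans ?_ h1
  have h2 : Real.exp (-8) ^ d ≤ (1 - P) ^ (N - d) := by
    have h01 : 1 - P ≤ 1 := by linarith
    have h00 : 0 ≤ 1 - P := by linarith
    have h3 : (1 - P) ^ N ≤ (1 - P) ^ (N - d) :=
      pow_le_pow_of_le_one h00 h01 (Nat.sub_le _ _)
    refine le_trans ?_ h3
    calc Real.exp (-8) ^ d = Real.exp (-(8 * d)) := by
          rw [← Real.exp_nat_mul]; congr 1; ring
      _ ≤ Real.exp (-(2 * P) * N) := by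
          apply Real.exp_le_exp.mpr; nlinarith
      _ = (Real.exp (-(2 * P))) ^ N := by
          rw [← Real.exp_nat_mul]; congr 1; ring
      _ ≤ (1 - P) ^ N := pow_le_pow_left₀ (Real.exp_pos _).le (one_sub_ge hP0 hP) N
  rw [mul_pow, ← mul_assoc]
  exact mul_le_mul_of_nonneg_left h2 (by positivity)

theorem exp_eight_lt : Real.exp 8 ≤ 8192 := by
  have h : Real.exp 1 < 3 := by
    have := Real.exp_one_lt_d9; linarith
  have h2 : Real.exp 8 = (Real.exp 1) ^ 8 := by
    rw [← Real.exp_nat_mul]; norm_num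
  rw [h2]
  calc (Real.exp 1) ^ 8 ≤ 3 ^ 8 := pow_le_pow_left₀ (Real.exp_pos _).le h.le 8
    _ ≤ 8192 := by norm_num

theorem choose_ratio (n N d : ℕ) (hdN : 2 * d ≤ N) (hn : n ≤ 4 * N) :
    (n.choose d : ℝ) / 8 ^ d ≤ (N.choose d : ℝ) := by
  have h1 : (n.choose d : ℝ) ≤ (n : ℝ) ^ d / d.factorial := Nat.choose_le_pow_div d n
  have h2 : (((N + 1 - d : ℕ) : ℝ)) ^ d / d.factorial ≤ (N.choose d : ℝ) := by
    rw [div_le_iff₀ (by exact_mod_cast Nat.factorial_pos d)]
    have := Nat.pow_sub_le_descFactorial N d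
    rw [Nat.descFactorial_eq_factorial_mul_choose] at this
    rw [mul_comm]
    exact_mod_cast this
  have h3 : (n : ℝ) / 8 ≤ ((N + 1 - d : ℕ) : ℝ) := by
    rw [div_le_iff₀ (by norm_num)]
    have : n ≤ (N + 1 - d) * 8 := by omega
    exact_mod_cast this
  calc (n.choose d : ℝ) / 8 ^ d ≤ ((n : ℝ) ^ d / d.factorial) / 8 ^ d := by gcongr
    _ = ((n : ℝ) / 8) ^ d / d.factorial := by rw [div_pow]; ring
    _ ≤ (((N + 1 - d : ℕ) : ℝ)) ^ d / d.factorial := by gcongr
    _ ≤ _ := h2

/-- **the tail bound** -/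
theorem tail_lower (n N d : ℕ) (P : ℝ) (hP0 : 0 ≤ P) (hP : P ≤ 1 / 2) (hd : 1 ≤ d)
    (hdN : 2 * d ≤ N) (hn : n ≤ 4 * N) :
    min (1 / 2) ((n.choose d : ℝ) * (P / 65536) ^ d) ≤ binTail N P d := by
  by_cases h4 : 4 * (d : ℝ) ≤ N * P
  · exact (min_le_left _ _).trans (tail_half N d P hP0 (by linarith) hd h4)
  · refine (min_le_right _ _).trans (le_trans ?_
      (tail_point N d P hP0 hP (by omega) (le_of_lt (not_le.mp h4))))
    have h1 := choose_ratio n N d hdN hn
    have h2 : P / 65536 * 8 ≤ P * Real.exp (-8) := by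
      have : (1 : ℝ) / 8192 ≤ Real.exp (-8) := by
        rw [Real.exp_neg, inv_eq_one_div]
        exact one_div_le_one_div_of_le (Real.exp_pos _) exp_eight_lt
      nlinarith
    calc (n.choose d : ℝ) * (P / 65536) ^ d
        = ((n.choose d : ℝ) / 8 ^ d) * (P / 65536 * 8) ^ d := by
          rw [mul_pow]; field_simp
      _ ≤ (N.choose d : ℝ) * (P * Real.exp (-8)) ^ d := by
          apply mul_le_mul h1 (pow_le_pow_left₀ (by positivity) h2 d) (by positivity)
            (by positivity)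

/-- the number of `i` with `e ≤ d i` -/
def cge {c : ℕ} (d : Fin c → ℕ) (e : ℕ) : ℕ := (univ.filter fun i => e ≤ d i).card

theorem sum_pow_div {c : ℕ} (d : Fin c → ℕ) (hd : ∀ i, 1 ≤ d i) (x : ℝ) (hx0 : 0 ≤ x)
    (hx : x < 1) : ∑ i, x ^ (d i) / (cge d (d i) : ℝ) ≤ x / (1 - x) := by
  classical
  have hmaps : ∀ i ∈ (univ : Finset (Fin c)), d i ∈ univ.image d :=
    fun i _ => Finset.mem_image_of_mem _ (Finset.mem_univ _)
  rw [← Finset.sum_fiberwise_of_maps_to hmaps]
  have h1 : ∀ e ∈ univ.image d,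
      ∑ i ∈ univ.filter (fun i => d i = e), x ^ (d i) / (cge d (d i) : ℝ) ≤ x ^ e := by
    intro e he
    have h2 : ∑ i ∈ univ.filter (fun i => d i = e), x ^ (d i) / (cge d (d i) : ℝ)
        = ((univ.filter (fun i => d i = e)).card : ℝ) * (x ^ e / (cge d e : ℝ)) := by
      rw [← nsmul_eq_mul, ← Finset.sum_const]
      refine Finset.sum_congr rfl fun i hi => ?_
      rw [Finset.mem_filter] at hi
      rw [hi.2]
    rw [h2]
    have h3 : ((univ.filter (fun i => d i = e)).card : ℝ) ≤ (cge d e : ℝ) := by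
      unfold cge
      have : (univ.filter (fun i => d i = e)).card ≤ (univ.filter (fun i => e ≤ d i)).card := by
        apply Finset.card_le_card
        intro i hi
        rw [Finset.mem_filter] at hi ⊢
        exact ⟨hi.1, hi.2.ge⟩
      exact_mod_cast this
    have hpos : (0 : ℝ) < (cge d e : ℝ) := by
      obtain ⟨i, _, hi⟩ := Finset.mem_image.mp he
      have : 0 < cge d e := Finset.card_pos.mpr ⟨i, by simp [hi]⟩
      exact_mod_cast this
    calc ((univ.filter (fun i => d i = e)).card : ℝ) * (x ^ e / (cge d e : ℝ))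
        ≤ (cge d e : ℝ) * (x ^ e / (cge d e : ℝ)) := by gcongr
      _ = x ^ e := by field_simp
  refine (Finset.sum_le_sum h1).trans ?_
  have hsum : HasSum (fun e : ℕ => x ^ (e + 1)) (x / (1 - x)) := by
    have := (hasSum_geometric_of_lt_one hx0 hx).mul_left x
    simpa [pow_succ, mul_comm, div_eq_mul_inv] using this
  have hone : ∀ e ∈ univ.image d, 1 ≤ e := by
    intro e he
    obtain ⟨i, _, hi⟩ := Finset.mem_image.mp he
    have := hd i
    omega
  generalize univ.image d = T at hone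
  have himg : ∑ e ∈ T, x ^ e = ∑ e ∈ T.image (fun e => e - 1), x ^ (e + 1) := by
    rw [Finset.sum_image]
    · refine Finset.sum_congr rfl fun e he => ?_
      have := hone e he
      congr 1; omega
    · intro a ha b hb hab
      have := hone a ha
      have := hone b hb
      simp only at hab
      omega
  rw [himg]
  exact sum_le_hasSum _ (fun e _ => by positivity) hsum

/-- **the star sum** -/
theorem star_sum (c n : ℕ) (d : Fin c → ℕ) (hd : ∀ i, 1 ≤ d i) (p L A : ℝ) (hp : 0 < p)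
    (hL : 65536 < L) (hA : 0 ≤ A)
    (hC : ∀ e, 1 ≤ e → (cge d e : ℝ) ≤ A * n * (n.choose e * p ^ e)) :
    (∀ i, 0 < min (1 / 2 : ℝ) ((n.choose (d i) : ℝ) * (L * p / 65536) ^ (d i))) ∧
    ∑ i, 1 / min (1 / 2) ((n.choose (d i) : ℝ) * (L * p / 65536) ^ (d i))
      ≤ 2 * c + A * n * (65536 / L / (1 - 65536 / L)) := by
  have hL0 : 0 < L := by linarith
  set x : ℝ := 65536 / L with hx
  have hx0 : 0 < x := by positivity
  have hx1 : x < 1 := by rw [hx, div_lt_one hL0]; exact hL
  have hcpos : ∀ i, (0 : ℝ) < (cge d (d i) : ℝ) := by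
    intro i
    have : 0 < cge d (d i) := Finset.card_pos.mpr ⟨i, by simp⟩
    exact_mod_cast this
  have hval : ∀ i, (cge d (d i) : ℝ) / x ^ (d i)
      ≤ A * n * ((n.choose (d i) : ℝ) * (L * p / 65536) ^ (d i)) := by
    intro i
    have h := hC (d i) (hd i)
    rw [div_le_iff₀ (by positivity)]
    have e : (L * p / 65536) ^ (d i) * x ^ (d i) = p ^ (d i) := by
      rw [← mul_pow]; congr 1; rw [hx]; field_simp
    calc (cge d (d i) : ℝ) ≤ A * n * (n.choose (d i) * p ^ (d i)) := h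
      _ = A * n * ((n.choose (d i) : ℝ) * (L * p / 65536) ^ (d i)) * x ^ (d i) := by
          rw [← e]; ring
  have hpos : ∀ i, 0 < (n.choose (d i) : ℝ) * (L * p / 65536) ^ (d i) := by
    intro i
    by_contra hcon
    have hz : (n.choose (d i) : ℝ) * (L * p / 65536) ^ (d i) ≤ 0 := not_lt.mp hcon
    have h1 := hval i
    have h2 : A * n * ((n.choose (d i) : ℝ) * (L * p / 65536) ^ (d i)) ≤ 0 :=
      mul_nonpos_of_nonneg_of_nonpos (by positivity) hz
    have h3 : 0 < (cge d (d i) : ℝ) / x ^ (d i) := div_pos (hcpos i) (by positivity)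
    linarith
  have hmin : ∀ i, 0 < min (1 / 2 : ℝ) ((n.choose (d i) : ℝ) * (L * p / 65536) ^ (d i)) :=
    fun i => lt_min (by norm_num) (hpos i)
  refine ⟨hmin, ?_⟩
  have hterm : ∀ i, 1 / min (1 / 2) ((n.choose (d i) : ℝ) * (L * p / 65536) ^ (d i))
      ≤ 2 + A * n * (x ^ (d i) / (cge d (d i) : ℝ)) := by
    intro i
    have hnn : 0 ≤ A * n * (x ^ (d i) / (cge d (d i) : ℝ)) := by
      have := hcpos i
      positivity
    rcases min_cases (1 / 2 : ℝ) ((n.choose (d i) : ℝ) * (L * p / 65536) ^ (d i)) with h | h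
    · rw [h.1]; norm_num; linarith
    · rw [h.1]
      have h1 := hval i
      have h2 := hpos i
      have h3 : 1 / ((n.choose (d i) : ℝ) * (L * p / 65536) ^ (d i))
          ≤ A * n * (x ^ (d i) / (cge d (d i) : ℝ)) := by
        rw [div_le_iff₀ h2]
        have hc := hcpos i
        have hxx : 0 < x ^ (d i) := by positivity
        rw [div_le_iff₀ hxx] at h1
        calc (1 : ℝ) = (cge d (d i) : ℝ) / (cge d (d i) : ℝ) := by field_simp
          _ ≤ (A * n * ((n.choose (d i) : ℝ) * (L * p / 65536) ^ (d i)) * x ^ (d i))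
                / (cge d (d i) : ℝ) := by gcongr
          _ = _ := by ring
      linarith
  calc ∑ i, 1 / min (1 / 2) ((n.choose (d i) : ℝ) * (L * p / 65536) ^ (d i))
      ≤ ∑ i : Fin c, (2 + A * n * (x ^ (d i) / (cge d (d i) : ℝ))) :=
        Finset.sum_le_sum fun i _ => hterm i
    _ = 2 * c + A * n * ∑ i, x ^ (d i) / (cge d (d i) : ℝ) := by
        rw [Finset.sum_add_distrib, ← Finset.mul_sum]
        simp [mul_comm]
    _ ≤ 2 * c + A * n * (x / (1 - x)) := by
        have := sum_pow_div d hd x hx0.le hx1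
        have hAn : 0 ≤ A * n := by positivity
        nlinarith

end Crest.TG.Tail
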