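import Crest.Agent.TG73_Main
import Crest.Agent.TG_Degen
import Crest.Agent.TG69_FM
import Crest.Agent.TG1_Star
import Crest.Agent.TG66_Tail
import Crest.Agent.TG_Tail
import Crest.Agent.TG_Expo
import Crest.Agent.TG31_Star

/-! # S0073: sparse range, assembly (helper21) -/

set_option autoImplicit false

namespace Crest.TG21
open Finset Crest.CombinatoricsR.RandomGraph Crest.FinProb

theorem cge_bound {n : ℕ} {W : Type} [Fintype W] [DecidableEq W] (H : SimpleGraph W)
    [DecidableRel H.Adj] (ι : W ↪ Fin n) (q : ℝ) (hq : 0 ≤ q)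
    (hFM : ∀ J ⊆ KK.slots H ι, (1 / 2 : ℝ) ≤
      ((univ.image fun σ : Equiv.Perm (Fin n) => J.image (KK.act n σ)).card : ℝ) * q ^ J.card)
    (par : W → Option W) (hpar : ∀ v u, par v = some u → par u = none)
    (hadj : ∀ v u, par v = some u → H.Adj v u)
    (c : ℕ) (x : Fin c → W) (hx : Function.Injective x) (hxc : ∀ i, ∃ v, par v = some (x i))
    (e : ℕ) (he : 1 ≤ e) :
    (Crest.TG.Tail.cge (fun i => (univ.filter fun v => par v = some (x i)).card) e : ℝ)
      ≤ 2 * Real.exp 1 * n * (n.choose e * q ^ e) := by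
  classical
  set B := univ.filter (fun i : Fin c => e ≤ (univ.filter fun v => par v = some (x i)).card)
    with hB
  have hcge : Crest.TG.Tail.cge (fun i => (univ.filter fun v => par v = some (x i)).card) e
      = B.card := rfl
  rw [hcge]
  let g : Fin B.card ≃ B := B.equivFin.symm
  have hS : ∀ j : Fin B.card, ∃ S ⊆ (univ.filter fun v => par v = some (x (g j).1)),
      S.card = e := by
    intro j
    have h1 : (g j).1 ∈ univ.filter
        (fun i : Fin c => e ≤ (univ.filter fun v => par v = some (x i)).card) := (g j).2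
    exact Finset.exists_subset_card_eq (mem_filter.1 h1).2
  choose S hS1 hS2 using hS
  have key := Crest.TG1.star_count H ι q hq hFM B.card e he (fun j => x (g j).1) S hS2
    (by
      intro j y hy
      have h1 := hS1 j hy
      rw [mem_filter] at h1
      exact (hadj y _ h1.2).symm)
    (by
      intro i j hij
      have hne : x (g i).1 ≠ x (g j).1 := fun h => hij (g.injective (Subtype.ext (hx h)))
      have hcen : ∀ i j a, a ∈ S j → a ≠ x (g i).1 := by
        intro i j a ha h
        have h1 := (mem_filter.1 (hS1 j ha)).2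
        obtain ⟨v, hv⟩ := hxc (g i).1
        rw [← h] at hv
        rw [hpar v _ hv] at h1
        cases h1
      rw [Finset.disjoint_left]
      intro a ha hb
      rw [mem_insert] at ha hb
      rcases ha with ha | ha
      · rcases hb with hb | hb
        · exact hne (ha.symm.trans hb)
        · exact hcen i j a hb ha
      · rcases hb with hb | hb
        · exact hcen j i a ha hb
        · have h1 := (mem_filter.1 (hS1 i ha)).2
          have h2 := (mem_filter.1 (hS1 j hb)).2
          rw [h1] at h2
          exact hne (Option.some.inj h2))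
  calc (B.card : ℝ) ≤ 2 * Real.exp 1 * ((n : ℝ) * (n.choose e : ℝ) * q ^ e) := key
    _ = _ := by ring

theorem prob_zero {V : Type} [Fintype V] [DecidableEq V] (P : ℝ) (U : Finset V) :
    bernoulliProb P {ω : V → Bool | 0 ≤ (Finset.univ.filter
      (fun v => v ∉ U ∧ ω v = true)).card} = 1 := by
  classical
  unfold bernoulliProb
  refine (Finset.sum_congr ?_ fun _ _ => rfl).trans (Crest.TG.Expo.sum_bw (V := V) P)
  ext ω
  simp

theorem piece {n : ℕ} (hn : 1000 ≤ n) {W : Type} [Fintype W] [DecidableEq W]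
    (H : SimpleGraph W) [DecidableRel H.Adj] (hW : Fintype.card W ≤ n)
    (ι : W ↪ Fin n) (q : ℝ) (hq : 0 < q) (hq1 : 1000 * (8 * 3 ^ 16) * q ≤ 1)
    (hFM : ∀ J ⊆ KK.slots H ι, (1 / 2 : ℝ) ≤
      ((univ.image fun σ : Equiv.Perm (Fin n) => J.image (KK.act n σ)).card : ℝ) * q ^ J.card)
    (F : SimpleGraph W) (hFH : F ≤ H)
    (par : W → Option W) (hpar : ∀ v u, par v = some u → par u = none)
    (hF : ∀ v u, F.Adj v u ↔ (par v = some u ∨ par u = some v))
    (hl : (univ.filter (fun v => par v ≠ none)).card * 256 ≤ n + 256) :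
    (1 / 2 : ℝ) ≤ gnpProb n (1000 * (8 * 3 ^ 16) * q) {G | F.IsContained G} := by
  classical
  set P : ℝ := 1000 * (8 * 3 ^ 16) * q with hP
  have hP0 : 0 < P := by positivity
  set C : Finset W := univ.filter (fun u => ∃ v, par v = some u) with hC
  set cnt : W → ℕ := fun u => (univ.filter fun v => par v = some u).card with hcnt
  set M : ℕ := ∑ u ∈ C, cnt u with hM
  have hMl : M ≤ (univ.filter (fun v => par v ≠ none)).card := by
    rw [hM, hcnt]
    rw [← Finset.card_biUnion]
    · apply Finset.card_le_card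
      intro v hv
      rw [mem_biUnion] at hv
      obtain ⟨u, _, hu⟩ := hv
      rw [mem_filter] at hu ⊢
      refine ⟨mem_univ _, ?_⟩
      rw [hu.2]; simp
    · intro u _ u' _ huu
      rw [Function.onFun, Finset.disjoint_left]
      intro v hv hv'
      rw [mem_filter] at hv hv'
      rw [hv.2] at hv'
      exact huu (Option.some.inj hv'.2)
  have hcpos : ∀ u ∈ C, 1 ≤ cnt u := by
    intro u hu
    rw [hC, mem_filter] at hu
    obtain ⟨v, hv⟩ := hu.2
    exact Finset.card_pos.2 ⟨v, by simp [hv]⟩
  have hcM : ∀ u ∈ C, cnt u ≤ M := fun u hu => Finset.single_le_sum (fun _ _ => Nat.zero_le _) hu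
  have hCM : C.card ≤ M := by
    rw [hM, Finset.card_eq_sum_ones]
    exact Finset.sum_le_sum hcpos
  have hMn : M * 256 ≤ n + 256 := le_trans (Nat.mul_le_mul_right _ hMl) hl
  -- the transfer
  set m := n / 2 with hm
  set N := n - m with hN
  have htr := Crest.TG31.le_gnpProb_star F n m N hW (by omega) P hP0.le hq1 par hpar hF C.toList
    C.nodup_toList (by intro u; simp [hC])
  refine le_trans ?_ htr
  set s : ℕ → ℝ := fun d => if 1 ≤ d ∧ d ≤ M then
    min (1 / 2) ((n.choose d : ℝ) * (P / (8 * 3 ^ 16)) ^ d) else 1 / 2 with hs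
  have hs0 : ∀ d, 0 < s d := by
    intro d
    simp only [hs]
    split_ifs with h
    · have : 0 < (n.choose d : ℝ) := by
        have : 0 < n.choose d := Nat.choose_pos (by omega)
        exact_mod_cast this
      positivity
    · norm_num
  have hs1 : ∀ d, s d ≤ 1 := by
    intro d
    simp only [hs]
    split_ifs with h
    · exact (min_le_left _ _).trans (by norm_num)
    · norm_num
  have hfail := Crest.TG.Expo.fail_le (V := Fin N) P hP0.le hq1 M s hs0 hs1 (by
    intro d U hU
    simp only [hs]
    rcases Nat.eq_zero_or_pos d with hd | hd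
    · subst hd
      rw [prob_zero]
      norm_num
    · rw [if_pos ⟨hd, by omega⟩]
      apply Crest.TG66.tail P hP0.le hq1 U n d hd (by omega)
      rw [Finset.card_compl, Fintype.card_fin]
      omega) m (C.toList.map cnt) ∅ (by
        rw [Finset.card_empty, zero_add, Finset.sum_map_toList])
  have hsum : ((C.toList.map cnt).map fun d => 1 / s d).sum = ∑ u ∈ C, 1 / s (cnt u) := by
    rw [List.map_map]
    exact Finset.sum_map_toList C (fun u => 1 / s (cnt u))
  rw [hsum] at hfail
  -- star sum
  let g : Fin C.card ≃ C := C.equivFin.symm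
  set x : Fin C.card → W := fun i => (g i).1 with hx
  have hxinj : Function.Injective x := fun i j h => g.injective (Subtype.ext h)
  have hstar := (Crest.TG.Tail.star_sum C.card n (fun i => cnt (x i))
    (fun i => hcpos _ (g i).2) q (1000 * 65536) (2 * Real.exp 1) hq (by norm_num) (by positivity)
    (fun e he => cge_bound H ι q hq.le hFM par hpar
      (fun v u h => hFH ((hF v u).2 (Or.inl h))) C.card x hxinj
      (fun i => by
        have h : x i ∈ C := (g i).2
        rw [hC, mem_filter] at h
        exact h.2) e he)).2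
  have hconv : ∑ u ∈ C, 1 / s (cnt u) = ∑ i, 1 / min (1 / 2 : ℝ)
      ((n.choose (cnt (x i)) : ℝ) * (1000 * 65536 * q / 65536) ^ (cnt (x i))) := by
    rw [← Finset.sum_coe_sort C (fun u => 1 / s (cnt u)), ← Equiv.sum_comp g]
    refine Finset.sum_congr rfl fun i _ => ?_
    have h1 := hcpos _ (g i).2
    have h2 := hcM _ (g i).2
    simp only [hs]
    rw [if_pos ⟨h1, h2⟩]
    have h3 : P / (8 * 3 ^ 16) = 1000 * 65536 * q / 65536 := by
      rw [hP]; field_simp
    rw [h3]
  rw [hconv] at hfail
  have htot := hfail.trans hstar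
  have he : Real.exp 1 < 3 := by
    have := Real.exp_one_lt_d9; linarith
  have hCr : (C.card : ℝ) * 256 ≤ n + 256 := by
    have : C.card * 256 ≤ n + 256 := le_trans (Nat.mul_le_mul_right _ hCM) hMn
    exact_mod_cast this
  have hmr : (n : ℝ) ≤ 2 * m + 1 := by
    have : n ≤ 2 * m + 1 := by omega
    exact_mod_cast this
  have hnr : (1000 : ℝ) ≤ n := by exact_mod_cast hn
  have hbound : 2 * (C.card : ℝ) + 2 * Real.exp 1 * n *
      (65536 / (1000 * 65536) / (1 - 65536 / (1000 * 65536))) ≤ m / 2 := by
    have h1 : (65536 / (1000 * 65536) / (1 - 65536 / (1000 * 65536)) : ℝ) = 1 / 999 := by norm_num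
    rw [h1]
    have h2 : 2 * Real.exp 1 * n * (1 / 999) ≤ 6 * n / 999 := by
      have : Real.exp 1 * n ≤ 3 * n := by nlinarith
      linarith
    linarith
  have hmpos : (0 : ℝ) < m := by linarith
  have hfin := htot.trans hbound
  have : Crest.TG.Expo.fail (V := Fin N) P m (C.toList.map cnt) ∅ ≤ 1 / 2 := by
    by_contra hcon
    push Not at hcon
    nlinarith
  simpa [hcnt] using (by linarith : (1 : ℝ) / 2 ≤ 1 - Crest.TG.Expo.fail (V := Fin N) P m (C.toList.map cnt) ∅)

/-- **Sparse range of S0073.** -/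
theorem sparse_core (b0 : ℕ) : TG73.SparseCore b0 := by
  classical
  refine ⟨(2 * (b0 + 1)) * 2 * 256, 1000 * (8 * 3 ^ 16), by norm_num, 1000, ?_⟩
  intro n hn W _ _ H hW q hq hLq hFM hqn
  have hn1 : 1 ≤ n := by omega
  have hq2 : q < 1 / 2 := by
    by_contra h
    push Not at h
    have : (1 : ℝ) ≤ 1000 * (8 * 3 ^ 16) * (1 / 2) := by norm_num
    have h2 : 1000 * (8 * 3 ^ 16) * (1 / 2 : ℝ) ≤ 1000 * (8 * 3 ^ 16) * q := by gcongr
    linarith
  obtain ⟨ι⟩ : Nonempty (W ↪ Fin n) := by
    apply Function.Embedding.nonempty_of_card_le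
    simpa using hW
  have hFM' : Crest.TG69.FM H n q := fun ι J hJ => hFM ι J hJ
  have hl2 : 0 < Real.log 2 := Real.log_pos (by norm_num)
  have hell : Real.log 2 < Real.log (1 / q) := by
    apply Real.log_lt_log (by norm_num)
    rw [lt_div_iff₀ hq]; linarith
  have hlogn : Real.log n ≤ b0 * Real.log (1 / q) := by
    have hnR : (0 : ℝ) < n := by exact_mod_cast hn1
    have h1 := Real.log_le_log (by positivity) hqn
    rw [Real.log_pow, one_div, Real.log_inv] at h1
    rw [one_div, Real.log_inv]
    linarith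
  have hb : ∀ U : Finset W, ((H.edgeFinset.filter (fun e => ∀ x ∈ e, x ∈ U)).card : ℝ)
      ≤ ((b0 : ℝ) + 1) * U.card := by
    intro U
    have h1 := Crest.TG69.density_log H q hq hn1 ι hFM' U
    have h1' : ((H.edgeFinset.filter (fun e => ∀ x ∈ e, x ∈ U)).card : ℝ) * Real.log (1 / q)
        ≤ U.card * Real.log n + Real.log 2 := h1
    set E : ℝ := ((H.edgeFinset.filter (fun e => ∀ x ∈ e, x ∈ U)).card : ℝ) with hE
    rcases U.eq_empty_or_nonempty with hU | hU
    · have h2 : E < 1 := by
        rw [hU] at h1'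
        simp only [card_empty, Nat.cast_zero, zero_mul, zero_add] at h1'
        by_contra hcon
        push Not at hcon
        nlinarith
      have h3 : (H.edgeFinset.filter (fun e => ∀ x ∈ e, x ∈ U)).card < 1 := by
        have h2' : ((H.edgeFinset.filter (fun e => ∀ x ∈ e, x ∈ U)).card : ℝ) < 1 := h2
        exact_mod_cast h2'
      have h4 : E = 0 := by
        rw [hE]
        have : (H.edgeFinset.filter (fun e => ∀ x ∈ e, x ∈ U)).card = 0 := by omega
        exact_mod_cast this
      rw [h4]; positivity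
    · have hU1 : (1 : ℝ) ≤ U.card := by exact_mod_cast hU.card_pos
      have h5 : (U.card : ℝ) * Real.log n ≤ U.card * (b0 * Real.log (1 / q)) := by gcongr
      have h6 : E * Real.log (1 / q) ≤ ((b0 + 1) * U.card) * Real.log (1 / q) := by
        have : Real.log 2 ≤ U.card * Real.log (1 / q) := by nlinarith
        nlinarith
      exact le_of_mul_le_mul_right h6 (by linarith)
  obtain ⟨c, hc⟩ := Crest.TG.Degen.star_labels H (2 * (b0 + 1)) 256 (by norm_num) (by
    intro U hU
    obtain ⟨v, hv, hv2⟩ := Crest.TG.Degen.exists_low_degree H ((b0 : ℝ) + 1) hb U hU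
    refine ⟨v, hv, ?_⟩
    have : ((U.filter (fun u => H.Adj v u)).card : ℝ) ≤ ((2 * (b0 + 1) : ℕ) : ℝ) := by
      push_cast; exact hv2
    exact_mod_cast this)
  refine ⟨fun i => pieceGraph H c i, ?_, ?_⟩
  · intro a b hab
    refine ⟨c ⟨s(a, b), by simpa using hab⟩, ?_⟩
    rw [Crest.TG.Degen.pieceGraph_adj]
    exact ⟨by simpa using hab, rfl⟩
  · intro i
    obtain ⟨par, h1, h2, h3⟩ := hc i
    apply piece (by omega) H hW ι q hq hLq.le (fun J hJ => hFM ι J hJ) _ ?_ par h1 h2 (by omega)
    intro a b hab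
    rw [Crest.TG.Degen.pieceGraph_adj] at hab
    obtain ⟨h, _⟩ := hab
    simpa using h

end Crest.TG21
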