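import Mathlib

/-!
Numerical facts for the constants chain of S0073 (helper22).
-/

set_option autoImplicit false

namespace Crest.TG22

open Filter Topology

/-- logs are beaten by powers -/
theorem log_pow_rpow_le (C : ℝ) (j : ℕ) {a b : ℝ} (hab : a < b) :
    ∃ n0 : ℕ, ∀ n : ℕ, n0 ≤ n → C * Real.log n ^ j * (n:ℝ)^a ≤ (n:ℝ)^b := by
  have h := isLittleO_log_rpow_rpow_atTop (j : ℝ) (sub_pos.mpr hab)
  have hc : (0:ℝ) < 1 / (|C| + 1) := by positivity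
  have h1 := h.def hc
  have h2 : ∀ᶠ n : ℕ in atTop, ‖Real.log (n:ℝ) ^ (j:ℝ)‖ ≤ 1 / (|C| + 1) * ‖(n:ℝ) ^ (b - a)‖ :=
    tendsto_natCast_atTop_atTop.eventually h1
  have h3 : ∀ᶠ n : ℕ in atTop, 1 ≤ n := eventually_ge_atTop 1
  obtain ⟨n0, hn0⟩ := (h2.and h3).exists_forall_of_atTop
  refine ⟨n0, fun n hn => ?_⟩
  obtain ⟨h4, h5⟩ := hn0 n hn
  have hn1 : (1:ℝ) ≤ n := by exact_mod_cast h5
  have hnpos : (0:ℝ) < n := by linarith
  have hlog : 0 ≤ Real.log n := Real.log_nonneg hn1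
  rw [Real.rpow_natCast, Real.norm_of_nonneg (pow_nonneg hlog j),
    Real.norm_of_nonneg (Real.rpow_nonneg hnpos.le _)] at h4
  have hna : 0 < (n:ℝ)^a := Real.rpow_pos_of_pos hnpos a
  have hL : 0 ≤ Real.log n ^ j := pow_nonneg hlog j
  calc C * Real.log n ^ j * (n:ℝ)^a ≤ (|C| + 1) * Real.log n ^ j * (n:ℝ)^a := by
        apply mul_le_mul_of_nonneg_right _ hna.le
        apply mul_le_mul_of_nonneg_right _ hL
        have := le_abs_self C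
        linarith
    _ ≤ (|C| + 1) * (1 / (|C| + 1) * (n:ℝ) ^ (b - a)) * (n:ℝ)^a := by
        apply mul_le_mul_of_nonneg_right _ hna.le
        apply mul_le_mul_of_nonneg_left h4
        positivity
    _ = (n:ℝ) ^ (b - a) * (n:ℝ)^a := by
        field_simp
    _ = (n:ℝ)^b := by
        rw [← Real.rpow_add hnpos]; congr 1; ring

/-- polynomials are beaten by stretched exponentials -/
theorem pow_exp_le (C δ : ℝ) (j : ℕ) {a c : ℝ} (hc : 0 < c) (ha : 0 < a) (hδ : 0 < δ) :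
    ∃ n0 : ℕ, ∀ n : ℕ, n0 ≤ n → C * (n:ℝ)^j * Real.exp (-(a * (n:ℝ)^c)) ≤ δ := by
  have h := tendsto_rpow_mul_exp_neg_mul_atTop_nhds_zero ((j:ℝ) / c) a ha
  have h1 : Tendsto (fun n : ℕ => (n:ℝ)^c) atTop atTop :=
    (tendsto_rpow_atTop hc).comp tendsto_natCast_atTop_atTop
  have h2 := h.comp h1
  have h3 : Tendsto (fun n : ℕ => C * (((n:ℝ)^c) ^ ((j:ℝ)/c) * Real.exp (-a * (n:ℝ)^c))) atTop (𝓝 (C * 0)) :=
    h2.const_mul C
  rw [mul_zero] at h3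
  have h4 : ∀ᶠ n : ℕ in atTop, C * (((n:ℝ)^c) ^ ((j:ℝ)/c) * Real.exp (-a * (n:ℝ)^c)) < δ :=
    h3.eventually_lt_const hδ
  obtain ⟨n0, hn0⟩ := h4.exists_forall_of_atTop
  refine ⟨n0, fun n hn => ?_⟩
  have h5 := (hn0 n hn).le
  have hn : (0:ℝ) ≤ n := Nat.cast_nonneg n
  have h6 : ((n:ℝ)^c) ^ ((j:ℝ)/c) = (n:ℝ)^j := by
    rw [← Real.rpow_mul hn, mul_div_cancel₀ _ hc.ne', Real.rpow_natCast]
  rw [h6] at h5
  calc C * (n:ℝ)^j * Real.exp (-(a * (n:ℝ)^c))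
      = C * ((n:ℝ)^j * Real.exp (-a * (n:ℝ)^c)) := by rw [mul_assoc]; congr 3; ring
    _ ≤ δ := h5

/-- real power form of `pow_exp_le` -/
theorem rpow_exp_le (C δ r : ℝ) {a c : ℝ} (hc : 0 < c) (ha : 0 < a) (hδ : 0 < δ) :
    ∃ n0 : ℕ, ∀ n : ℕ, n0 ≤ n → C * (n:ℝ)^r * Real.exp (-(a * (n:ℝ)^c)) ≤ δ := by
  have h := tendsto_rpow_mul_exp_neg_mul_atTop_nhds_zero (r / c) a ha
  have h1 : Tendsto (fun n : ℕ => (n:ℝ)^c) atTop atTop :=
    (tendsto_rpow_atTop hc).comp tendsto_natCast_atTop_atTop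
  have h2 := h.comp h1
  have h3 : Tendsto (fun n : ℕ => C * (((n:ℝ)^c) ^ (r/c) * Real.exp (-a * (n:ℝ)^c))) atTop (𝓝 (C * 0)) :=
    h2.const_mul C
  rw [mul_zero] at h3
  have h4 : ∀ᶠ n : ℕ in atTop, C * (((n:ℝ)^c) ^ (r/c) * Real.exp (-a * (n:ℝ)^c)) < δ :=
    h3.eventually_lt_const hδ
  obtain ⟨n0, hn0⟩ := h4.exists_forall_of_atTop
  refine ⟨n0, fun n hn => ?_⟩
  have h5 := (hn0 n hn).le
  have hn : (0:ℝ) ≤ n := Nat.cast_nonneg n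
  have h6 : ((n:ℝ)^c) ^ (r/c) = (n:ℝ)^r := by
    rw [← Real.rpow_mul hn, mul_div_cancel₀ _ hc.ne']
  rw [h6] at h5
  calc C * (n:ℝ)^r * Real.exp (-(a * (n:ℝ)^c))
      = C * ((n:ℝ)^r * Real.exp (-a * (n:ℝ)^c)) := by rw [mul_assoc]; congr 3; ring
    _ ≤ δ := h5

theorem greedy_fail {x s : ℝ} {T : ℕ} (hx0 : 0 ≤ x) (hx1 : x ≤ 1) (hs : s ≤ x * T) :
    (1 - x)^T ≤ Real.exp (-s) := by
  have h1 : 1 - x ≤ Real.exp (-x) := by
    have := Real.add_one_le_exp (-x); linarith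
  calc (1 - x)^T ≤ Real.exp (-x) ^ T := pow_le_pow_left₀ (by linarith) h1 T
    _ = Real.exp (T * (-x)) := by rw [← Real.exp_nat_mul]
    _ ≤ Real.exp (-s) := by
        apply Real.exp_le_exp.mpr
        nlinarith

/-- `(D:ℝ) * log (1/p) ≤ c * log n` gives `n ^ (-c) ≤ p ^ D` -/
theorem pow_ge_rpow {p c : ℝ} {n D : ℕ} (hp : 0 < p) (hn : 1 ≤ n)
    (h : (D:ℝ) * Real.log (1/p) ≤ c * Real.log n) : (n:ℝ)^(-c) ≤ p^D := by
  have hnpos : (0:ℝ) < n := by exact_mod_cast hn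
  rw [← Real.rpow_natCast p D, Real.rpow_def_of_pos hnpos, Real.rpow_def_of_pos hp]
  apply Real.exp_le_exp.mpr
  rw [one_div, Real.log_inv] at h
  nlinarith

/-- the constants chain: back-degree `D ≤ (2b+1)/k + 1`, `b = log n / log (1/p) ≥ k` -/
theorem pow_ge_rpow' {p : ℝ} {n D k : ℕ} (hp : 0 < p) (hp1 : p < 1) (hn : 2 ≤ n) (hk : 1 ≤ k)
    (hb : (k:ℝ) ≤ Real.log n / Real.log (1/p))
    (hD : (D:ℝ) ≤ (2 * (Real.log n / Real.log (1/p)) + 1) / k + 1) :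
    (n:ℝ)^(-(4/(k:ℝ))) ≤ p^D := by
  have hkpos : (0:ℝ) < k := by exact_mod_cast hk
  have hk1 : (1:ℝ) ≤ k := by exact_mod_cast hk
  have hl : 0 < Real.log (1/p) := Real.log_pos (by rw [lt_div_iff₀ hp]; linarith)
  apply pow_ge_rpow hp (by omega)
  set b := Real.log n / Real.log (1/p) with hbdef
  have hbl : b * Real.log (1/p) = Real.log n := by
    rw [hbdef]; field_simp
  have h1 : (D:ℝ) ≤ 4 / k * b := by
    refine hD.trans ?_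
    have h2 : 4 / (k:ℝ) * b = (2 * b + 2 * b) / k := by ring
    have h3 : (2 * b + 1) / (k:ℝ) + 1 = (2 * b + 1 + k) / k := by field_simp
    rw [h2, h3]
    apply div_le_div_of_nonneg_right _ hkpos.le
    linarith
  calc (D:ℝ) * Real.log (1/p) ≤ 4 / k * b * Real.log (1/p) :=
        mul_le_mul_of_nonneg_right h1 hl.le
    _ = 4 / (k:ℝ) * Real.log n := by rw [mul_assoc, hbl]

/-- `b ≤ 2 log n` as soon as `p ≤ 1/2` -/
theorem b_le_two_log {p : ℝ} {n : ℕ} (hp : 0 < p) (hp2 : p ≤ 1/2) (hn : 1 ≤ n) :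
    Real.log n / Real.log (1/p) ≤ 2 * Real.log n := by
  have hl : 1/2 ≤ Real.log (1/p) := by
    have h2 : Real.log 2 ≤ Real.log (1/p) := by
      apply Real.log_le_log (by norm_num)
      rw [le_div_iff₀ hp]; linarith
    have := Real.log_two_gt_d9
    linarith
  have hln : 0 ≤ Real.log n := Real.log_nonneg (by exact_mod_cast hn)
  rw [div_le_iff₀ (by linarith)]
  nlinarith

/-- size of the hub set: `|J| n^(1-5/k) ≤ C (b n)` with `b ≤ 2 log n` gives `|J| ≤ n^(6/k)` -/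
theorem hub_card (C : ℝ) (k : ℕ) (hk : 1 ≤ k) :
    ∃ n0 : ℕ, ∀ n : ℕ, n0 ≤ n → ∀ (x b : ℝ), b ≤ 2 * Real.log n + 1 → 0 ≤ C →
      x * (n:ℝ)^(1 - 5/(k:ℝ)) ≤ C * b * n → x ≤ (n:ℝ)^(6/(k:ℝ)) := by
  have hkpos : (0:ℝ) < k := by exact_mod_cast hk
  obtain ⟨n1, h1⟩ := log_pow_rpow_le (3 * C) 1 (a := 5/(k:ℝ)) (b := 6/(k:ℝ))
    (by apply div_lt_div_of_pos_right _ hkpos; norm_num)
  refine ⟨max n1 3, fun n hn x b hb hC hx => ?_⟩
  have hn3 : 3 ≤ n := (le_max_right _ _).trans hn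
  have hn3' : (3:ℝ) ≤ n := by exact_mod_cast hn3
  have hnpos : (0:ℝ) < n := by linarith
  have hlog1 : 1 ≤ Real.log n := by
    rw [Real.le_log_iff_exp_le hnpos]
    have := Real.exp_one_lt_d9
    linarith
  have h2 := h1 n ((le_max_left _ _).trans hn)
  rw [pow_one] at h2
  have hb3 : b ≤ 3 * Real.log n := by linarith
  have hpw : 0 < (n:ℝ)^(1 - 5/(k:ℝ)) := Real.rpow_pos_of_pos hnpos _
  have h3 : x ≤ C * b * n / (n:ℝ)^(1 - 5/(k:ℝ)) := by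
    rw [le_div_iff₀ hpw]; exact hx
  have h4 : (n:ℝ) = (n:ℝ)^(5/(k:ℝ)) * (n:ℝ)^(1 - 5/(k:ℝ)) := by
    rw [← Real.rpow_add hnpos]
    have : 5/(k:ℝ) + (1 - 5/(k:ℝ)) = 1 := by ring
    rw [this, Real.rpow_one]
  have h5 : C * b * n / (n:ℝ)^(1 - 5/(k:ℝ)) = C * b * (n:ℝ)^(5/(k:ℝ)) := by
    rw [div_eq_iff hpw.ne', mul_assoc (C * b), ← h4]
  rw [h5] at h3
  refine h3.trans (le_trans ?_ h2)
  have h6 : 0 < (n:ℝ)^(5/(k:ℝ)) := Real.rpow_pos_of_pos hnpos _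
  apply mul_le_mul_of_nonneg_right _ h6.le
  nlinarith

end Crest.TG22
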