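import Crest.Agent.TG_Chern

/-! helper23's block Chernoff bounds (`Crest.TG.Chern`) are in `TG_Chern.lean`. -/
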