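import Mathlib

set_option autoImplicit false
open Finset

namespace Crest.TG26

set_option linter.unusedSectionVars false

variable {α : Type*} [DecidableEq α]

/-- enumeration of `H` by decreasing `lam` -/
theorem exists_rank (lam : α → ℝ) (H : Finset α) :
    ∃ rk : α → ℕ, Set.InjOn rk (H : Set α) ∧ (∀ x ∈ H, rk x < H.card) ∧
      ∀ x ∈ H, ∀ y ∈ H, rk x < rk y → lam y ≤ lam x := by
  induction' hn : H.card with n ih generalizing H
  · refine ⟨fun _ => 0, ?_, ?_, ?_⟩
    · rw [Finset.card_eq_zero] at hn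
      subst hn
      simp
    · rw [Finset.card_eq_zero] at hn
      subst hn
      simp
    · rw [Finset.card_eq_zero] at hn
      subst hn
      simp
  · have hne : H.Nonempty := by
      rw [← Finset.card_pos]; omega
    obtain ⟨x0, hx0, hmin⟩ := Finset.exists_min_image H lam hne
    have hc : (H.erase x0).card = n := by
      rw [Finset.card_erase_of_mem hx0]; omega
    obtain ⟨rk, hinj, hlt, hanti⟩ := ih (H.erase x0) hc
    refine ⟨fun x => if x = x0 then n else rk x, ?_, ?_, ?_⟩
    · intro x hx y hy hxy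
      have hx' : x ∈ H := hx
      have hy' : y ∈ H := hy
      by_cases h1 : x = x0 <;> by_cases h2 : y = x0
      · rw [h1, h2]
      · exfalso
        have := hlt y (Finset.mem_erase.2 ⟨h2, hy'⟩)
        simp only [h1, h2, if_true, if_false] at hxy
        omega
      · exfalso
        have := hlt x (Finset.mem_erase.2 ⟨h1, hx'⟩)
        simp only [h1, h2, if_true, if_false] at hxy
        omega
      · simp only [h1, h2, if_false] at hxy
        exact hinj (Finset.mem_coe.2 (Finset.mem_erase.2 ⟨h1, hx'⟩))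
          (Finset.mem_coe.2 (Finset.mem_erase.2 ⟨h2, hy'⟩)) hxy
    · intro x hx
      by_cases h1 : x = x0
      · simp [h1]
      · have := hlt x (Finset.mem_erase.2 ⟨h1, hx⟩)
        simp only [h1, if_false]
        omega
    · intro x hx y hy hxy
      by_cases h2 : y = x0
      · rw [h2]; exact hmin x hx
      · by_cases h1 : x = x0
        · exfalso
          have := hlt y (Finset.mem_erase.2 ⟨h2, hy⟩)
          simp only [h1, h2, if_true, if_false] at hxy
          omega
        · simp only [h1, h2, if_false] at hxy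
          exact hanti x (Finset.mem_erase.2 ⟨h1, hx⟩) y (Finset.mem_erase.2 ⟨h2, hy⟩) hxy

/-- the sum of the majorants -/
theorem sum_b_le (J : ℕ) :
    ∑ j ∈ range (J + 3), (if j < 3 then (1:ℝ) else (256/15) / 4 ^ j) ≤ 4 - (23/64) / 4 ^ J := by
  induction J with
  | zero =>
    simp [Finset.sum_range_succ]
    norm_num
  | succ J ih =>
    rw [show J + 1 + 3 = (J + 3) + 1 by ring, Finset.sum_range_succ]
    have h3 : ¬ (J + 3 < 3) := by omega
    simp only [h3, if_false]
    have h4 : (0:ℝ) < 4 ^ J := by positivity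
    have e1 : (256/15 : ℝ) / 4 ^ (J + 3) = (4/15) / 4 ^ J := by
      rw [pow_add]; field_simp; norm_num
    have e2 : (23/64 : ℝ) / 4 ^ (J + 1) = (23/256) / 4 ^ J := by
      rw [pow_add]; field_simp; norm_num
    rw [e1, e2]
    have : (4/15 : ℝ) / 4 ^ J + (23/256) / 4 ^ J ≤ (23/64) / 4 ^ J := by
      rw [← add_div]
      apply div_le_div_of_nonneg_right _ h4.le
      norm_num
    linarith


/-- the part of `H` in the ranks `[a, b)` has `b - a` elements -/
theorem card_ranks (H : Finset α) (rk : α → ℕ) (hinj : Set.InjOn rk (H : Set α))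
    (hlt : ∀ x ∈ H, rk x < H.card) (a b : ℕ) (hb : b ≤ H.card) :
    b - a ≤ (H.filter (fun x => a ≤ rk x ∧ rk x < b)).card := by
  have himg : H.image rk = range H.card := by
    apply Finset.eq_of_subset_of_card_le
    · intro y hy
      obtain ⟨x, hx, rfl⟩ := Finset.mem_image.1 hy
      exact Finset.mem_range.2 (hlt x hx)
    · rw [Finset.card_image_of_injOn hinj, Finset.card_range]
  have hsub : Finset.Ico a b ⊆ (H.filter (fun x => a ≤ rk x ∧ rk x < b)).image rk := by
    intro y hy
    rw [Finset.mem_Ico] at hy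
    have : y ∈ H.image rk := by
      rw [himg]; exact Finset.mem_range.2 (by omega)
    obtain ⟨x, hx, rfl⟩ := Finset.mem_image.1 this
    exact Finset.mem_image.2 ⟨x, Finset.mem_filter.2 ⟨hx, hy⟩, rfl⟩
  calc b - a = (Finset.Ico a b).card := by rw [Nat.card_Ico]
    _ ≤ ((H.filter (fun x => a ≤ rk x ∧ rk x < b)).image rk).card := Finset.card_le_card hsub
    _ ≤ _ := Finset.card_image_le

theorem card_low (H : Finset α) (rk : α → ℕ) (hinj : Set.InjOn rk (H : Set α)) (b : ℕ) :
    (H.filter (fun x => rk x < b)).card ≤ b := by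
  calc (H.filter (fun x => rk x < b)).card
      = ((H.filter (fun x => rk x < b)).image rk).card := by
        rw [Finset.card_image_of_injOn]
        intro x hx y hy hxy
        have hx' := (Finset.mem_filter.1 (Finset.mem_coe.1 hx)).1
        have hy' := (Finset.mem_filter.1 (Finset.mem_coe.1 hy)).1
        exact hinj (Finset.mem_coe.2 hx') (Finset.mem_coe.2 hy') hxy
    _ ≤ (range b).card := by
        apply Finset.card_le_card
        intro y hy
        obtain ⟨x, hx, rfl⟩ := Finset.mem_image.1 hy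
        exact Finset.mem_range.2 (Finset.mem_filter.1 hx).2
    _ = b := Finset.card_range b

/-- key: an element of level `i + 1` has small weight -/
theorem lam_small (lam : α → ℝ) (H : Finset α) (hlam : ∀ x, 0 ≤ lam x) (rk : α → ℕ)
    (hinj : Set.InjOn rk (H : Set α)) (hlt : ∀ x ∈ H, rk x < H.card)
    (hanti : ∀ x ∈ H, ∀ y ∈ H, rk x < rk y → lam y ≤ lam x)
    (i : ℕ) (x : α) (hx : x ∈ H) (hlev : Nat.clog 16 (rk x + 1) = i + 1) :
    (15/256) * (16:ℝ) ^ (i + 1) * lam x ≤
      ∑ y ∈ H.filter (fun y => Nat.clog 16 (rk y + 1) = i), lam y := by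
  have h16 : 16 ^ i < rk x + 1 := by
    by_contra hcon
    push Not at hcon
    have := (Nat.clog_le_iff_le_pow (b := 16) (by norm_num) (x := rk x + 1) (y := i)).2 hcon
    omega
  -- all elements of level i have rank < 16^i ≤ rk x
  set a : ℕ := if i = 0 then 0 else 16 ^ (i - 1) with ha
  have hsub : H.filter (fun y => a ≤ rk y ∧ rk y < 16 ^ i) ⊆
      H.filter (fun y => Nat.clog 16 (rk y + 1) = i) := by
    intro y hy
    rw [Finset.mem_filter] at hy ⊢
    refine ⟨hy.1, ?_⟩
    obtain ⟨_, h1, h2⟩ := hy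
    have hle : Nat.clog 16 (rk y + 1) ≤ i :=
      (Nat.clog_le_iff_le_pow (b := 16) (by norm_num)).2 (by omega)
    rcases Nat.eq_zero_or_pos i with h0 | h0
    · omega
    · have hne : i ≠ 0 := by omega
      simp only [hne, if_false] at ha
      by_contra hcon
      have hlt' : Nat.clog 16 (rk y + 1) ≤ i - 1 := by omega
      have := (Nat.clog_le_iff_le_pow (b := 16) (by norm_num)).1 hlt'
      omega
  have hb : 16 ^ i ≤ H.card := by
    have := hlt x hx
    omega
  have hcard := card_ranks H rk hinj hlt a (16 ^ i) hb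
  have h1 : ((16 ^ i - a : ℕ) : ℝ) * lam x ≤
      ∑ y ∈ H.filter (fun y => a ≤ rk y ∧ rk y < 16 ^ i), lam y := by
    have h2 := Finset.card_nsmul_le_sum (H.filter (fun y => a ≤ rk y ∧ rk y < 16 ^ i)) lam (lam x)
      (by
        intro y hy
        rw [Finset.mem_filter] at hy
        exact hanti y hy.1 x hx (by omega))
    rw [nsmul_eq_mul] at h2
    refine le_trans ?_ h2
    apply mul_le_mul_of_nonneg_right _ (hlam x)
    exact_mod_cast hcard
  have h3 : ∑ y ∈ H.filter (fun y => a ≤ rk y ∧ rk y < 16 ^ i), lam y ≤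
      ∑ y ∈ H.filter (fun y => Nat.clog 16 (rk y + 1) = i), lam y :=
    Finset.sum_le_sum_of_subset_of_nonneg hsub (fun y _ _ => hlam y)
  have h4 : (15/256) * (16:ℝ) ^ (i + 1) ≤ ((16 ^ i - a : ℕ) : ℝ) := by
    rcases Nat.eq_zero_or_pos i with h0 | h0
    · subst h0
      simp [ha]
      norm_num
    · obtain ⟨j, rfl⟩ : ∃ j, i = j + 1 := ⟨i - 1, by omega⟩
      have hne : j + 1 ≠ 0 := by omega
      simp only [hne, if_false, Nat.add_sub_cancel] at ha
      rw [ha]
      have hle : 16 ^ j ≤ 16 ^ (j + 1) := Nat.pow_le_pow_right (by norm_num) (by omega)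
      rw [Nat.cast_sub hle]
      push_cast
      rw [pow_succ, pow_succ]
      nlinarith [pow_pos (show (0:ℝ) < 16 by norm_num) j]
  calc (15/256) * (16:ℝ) ^ (i + 1) * lam x ≤ ((16 ^ i - a : ℕ) : ℝ) * lam x :=
        mul_le_mul_of_nonneg_right h4 (hlam x)
    _ ≤ _ := h1.trans h3


/-- weight of a set `A` which has at most `16^i / 4^j` elements of level `≤ i` (`j ≥ 1`) -/
theorem sum_A_le (lam : α → ℝ) (H : Finset α) (hlam : ∀ x, 0 ≤ lam x) (rk : α → ℕ)
    (hinj : Set.InjOn rk (H : Set α)) (hlt : ∀ x ∈ H, rk x < H.card)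
    (hanti : ∀ x ∈ H, ∀ y ∈ H, rk x < rk y → lam y ≤ lam x)
    (I : ℕ) (hI : ∀ x ∈ H, Nat.clog 16 (rk x + 1) ≤ I) (j : ℕ) (hj : 1 ≤ j)
    (A : Finset α) (hA : A ⊆ H)
    (hcap : ∀ i ≤ I, 4 ^ j * (A.filter (fun x => Nat.clog 16 (rk x + 1) ≤ i)).card ≤ 16 ^ i) :
    ∑ x ∈ A, lam x ≤ (256/15) / 4 ^ j * ∑ x ∈ H, lam x := by
  set ℓ : α → ℕ := fun x => Nat.clog 16 (rk x + 1) with hℓ
  have h4 : (0:ℝ) < 4 ^ j := by positivity
  have hmap : ∀ x ∈ A, ℓ x ∈ range (I + 1) := fun x hx =>
    Finset.mem_range.2 (Nat.lt_succ_of_le (hI x (hA hx)))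
  rw [← Finset.sum_fiberwise_of_maps_to hmap]
  rw [Finset.sum_range_succ']
  have h0 : ∑ x ∈ A.filter (fun x => ℓ x = 0), lam x = 0 := by
    have hc := hcap 0 (Nat.zero_le _)
    have hc0 : (A.filter (fun x => ℓ x ≤ 0)).card = 0 := by
      by_contra hne
      have h1 : 1 ≤ (A.filter (fun x => ℓ x ≤ 0)).card := Nat.one_le_iff_ne_zero.2 hne
      have h5 : 4 ^ 1 ≤ 4 ^ j := Nat.pow_le_pow_right (by norm_num) hj
      have : 4 ^ j * 1 ≤ 4 ^ j * (A.filter (fun x => ℓ x ≤ 0)).card :=
        Nat.mul_le_mul_left _ h1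
      have h6 : 4 ^ j * (A.filter (fun x => ℓ x ≤ 0)).card ≤ 16 ^ 0 := hc
      have h12 : 4 ^ j * 1 ≤ 16 ^ 0 := this.trans h6
      rw [mul_one, pow_zero] at h12
      rw [pow_one] at h5
      omega
    rw [Finset.card_eq_zero] at hc0
    have : A.filter (fun x => ℓ x = 0) = ∅ := by
      rw [← hc0]
      apply Finset.filter_congr
      intro x _
      simp
    rw [this, Finset.sum_empty]
  rw [h0, add_zero]
  have hstep : ∀ i ∈ range I, ∑ x ∈ A.filter (fun x => ℓ x = i + 1), lam x ≤
      (256/15) / 4 ^ j * ∑ y ∈ H.filter (fun y => ℓ y = i), lam y := by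
    intro i hi
    rw [Finset.mem_range] at hi
    set S := ∑ y ∈ H.filter (fun y => ℓ y = i), lam y with hS
    have h16 : (0:ℝ) < 16 ^ (i + 1) := by positivity
    have hS0 : 0 ≤ S := Finset.sum_nonneg (fun y _ => hlam y)
    have hb : ∀ x ∈ A.filter (fun x => ℓ x = i + 1), lam x ≤ (256/15) * S / 16 ^ (i + 1) := by
      intro x hx
      rw [Finset.mem_filter] at hx
      have := lam_small lam H hlam rk hinj hlt hanti i x (hA hx.1) hx.2
      rw [le_div_iff₀ h16]
      have h7 : (15/256) * (16:ℝ) ^ (i + 1) * lam x ≤ S := this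
      nlinarith
    have h8 := Finset.sum_le_card_nsmul _ _ _ hb
    rw [nsmul_eq_mul] at h8
    refine h8.trans ?_
    have hc : (4:ℝ) ^ j * ((A.filter (fun x => ℓ x = i + 1)).card : ℝ) ≤ 16 ^ (i + 1) := by
      have h9 := hcap (i + 1) (by omega)
      have h10 : (A.filter (fun x => ℓ x = i + 1)).card ≤ (A.filter (fun x => ℓ x ≤ i + 1)).card := by
        apply Finset.card_le_card
        intro x hx
        rw [Finset.mem_filter] at hx ⊢
        exact ⟨hx.1, hx.2.le⟩
      have h11 : 4 ^ j * (A.filter (fun x => ℓ x = i + 1)).card ≤ 16 ^ (i + 1) :=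
        (Nat.mul_le_mul_left _ h10).trans h9
      exact_mod_cast h11
    have hc' : ((A.filter (fun x => ℓ x = i + 1)).card : ℝ) ≤ 16 ^ (i + 1) / 4 ^ j := by
      rw [le_div_iff₀ h4]; linarith
    calc ((A.filter (fun x => ℓ x = i + 1)).card : ℝ) * ((256/15) * S / 16 ^ (i + 1))
        ≤ (16 ^ (i + 1) / 4 ^ j) * ((256/15) * S / 16 ^ (i + 1)) :=
          mul_le_mul_of_nonneg_right hc' (by positivity)
      _ = (256/15) / 4 ^ j * S := by
          field_simp
  refine (Finset.sum_le_sum hstep).trans ?_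
  rw [← Finset.mul_sum]
  apply mul_le_mul_of_nonneg_left _ (by positivity)
  have hmap2 : ∀ x ∈ H, ℓ x ∈ range (I + 1) := fun x hx =>
    Finset.mem_range.2 (Nat.lt_succ_of_le (hI x hx))
  rw [← Finset.sum_fiberwise_of_maps_to hmap2, Finset.sum_range_succ]
  have : 0 ≤ ∑ x ∈ H.filter (fun x => ℓ x = I), lam x := Finset.sum_nonneg (fun y _ => hlam y)
  linarith

/-- counting form of truncated subtraction -/
theorem sub_eq_sum (t I K : ℕ) (ht : t ≤ K) :
    ((t - I : ℕ) : ℝ) = ∑ j ∈ range (K - I), (if I + j < t then (1:ℝ) else 0) := by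
  rw [← Finset.sum_filter, Finset.sum_const, nsmul_eq_mul, mul_one]
  congr 1
  have : (range (K - I)).filter (fun j => I + j < t) = range (t - I) := by
    ext j
    simp only [Finset.mem_filter, Finset.mem_range]
    omega
  rw [this, Finset.card_range]

theorem lev_exists [Fintype α] (H : Finset α) (lam : α → ℝ) (hlam : ∀ x, 0 ≤ lam x) (I : ℕ)
    (hI : Fintype.card α ≤ 16 ^ I) :
    ∃ ℓ : α → ℕ, (∀ i, (H.filter (fun x => ℓ x ≤ i)).card ≤ 16 ^ i) ∧ (∀ x, ℓ x ≤ I) ∧
      ∀ (K : ℕ) (τ : α → ℕ), (∀ x, τ x ≤ K) →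
        (∀ i ≤ I, ∀ r < K, 4 ^ r * (H.filter (fun x => ℓ x ≤ i ∧ r < τ x)).card ≤ 16 ^ i * 4 ^ I) →
        ∑ x ∈ H, lam x * ((τ x - I : ℕ) : ℝ) ≤ 4 * ∑ x ∈ H, lam x := by
  obtain ⟨rk, hinj, hlt, hanti⟩ := exists_rank lam H
  have hHI : H.card ≤ 16 ^ I := (Finset.card_le_univ H).trans hI
  have hlevI : ∀ x ∈ H, Nat.clog 16 (rk x + 1) ≤ I := by
    intro x hx
    apply (Nat.clog_le_iff_le_pow (b := 16) (by norm_num)).2
    have := hlt x hx
    omega
  refine ⟨fun x => min I (Nat.clog 16 (rk x + 1)), ?_, fun x => min_le_left _ _, ?_⟩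
  · intro i
    by_cases hi : i < I
    · refine le_trans (Finset.card_le_card ?_) (card_low H rk hinj (16 ^ i))
      intro x hx
      rw [Finset.mem_filter] at hx ⊢
      refine ⟨hx.1, ?_⟩
      have h1 : Nat.clog 16 (rk x + 1) ≤ i := by
        rcases min_le_iff.1 hx.2 with h | h
        · omega
        · exact h
      have := (Nat.clog_le_iff_le_pow (b := 16) (by norm_num)).1 h1
      omega
    · push Not at hi
      refine (Finset.card_le_card (Finset.filter_subset _ _)).trans (hHI.trans ?_)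
      exact Nat.pow_le_pow_right (by norm_num) hi
  · intro K τ hK hcap
    have hΛ : 0 ≤ ∑ x ∈ H, lam x := Finset.sum_nonneg (fun x _ => hlam x)
    have hsw : ∑ x ∈ H, lam x * ((τ x - I : ℕ) : ℝ) =
        ∑ j ∈ range (K - I), ∑ x ∈ H.filter (fun x => I + j < τ x), lam x := by
      have : ∀ x ∈ H, lam x * ((τ x - I : ℕ) : ℝ) =
          ∑ j ∈ range (K - I), (if I + j < τ x then lam x else 0) := by
        intro x _
        rw [sub_eq_sum (τ x) I K (hK x), Finset.mul_sum]
        apply Finset.sum_congr rfl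
        intro j _
        split_ifs <;> simp
      rw [Finset.sum_congr rfl this, Finset.sum_comm]
      apply Finset.sum_congr rfl
      intro j _
      rw [Finset.sum_filter]
    rw [hsw]
    have hj : ∀ j ∈ range (K - I), ∑ x ∈ H.filter (fun x => I + j < τ x), lam x ≤
        (if j < 3 then (1:ℝ) else (256/15) / 4 ^ j) * ∑ x ∈ H, lam x := by
      intro j hjK
      rw [Finset.mem_range] at hjK
      split_ifs with h3
      · rw [one_mul]
        exact Finset.sum_le_sum_of_subset_of_nonneg (Finset.filter_subset _ _) (fun x _ _ => hlam x)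
      · apply sum_A_le lam H hlam rk hinj hlt hanti I hlevI j (by omega) _ (Finset.filter_subset _ _)
        intro i hi
        have h := hcap i hi (I + j) (by omega)
        have heq : (H.filter (fun x => I + j < τ x)).filter
            (fun x => Nat.clog 16 (rk x + 1) ≤ i) =
            H.filter (fun x => min I (Nat.clog 16 (rk x + 1)) ≤ i ∧ I + j < τ x) := by
          ext x
          simp only [Finset.mem_filter]
          constructor
          · rintro ⟨⟨a, b⟩, c⟩
            exact ⟨a, (min_le_right _ _).trans c, b⟩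
          · rintro ⟨a, b, c⟩
            refine ⟨⟨a, c⟩, ?_⟩
            have := hlevI x a
            rw [min_eq_right this] at b
            exact b
        rw [heq]
        rw [pow_add] at h
        have h4I : 0 < 4 ^ I := by positivity
        have h5 : 4 ^ I * (4 ^ j * (H.filter
            (fun x => min I (Nat.clog 16 (rk x + 1)) ≤ i ∧ I + j < τ x)).card) ≤ 4 ^ I * 16 ^ i := by
          calc _ = 4 ^ I * 4 ^ j * (H.filter
            (fun x => min I (Nat.clog 16 (rk x + 1)) ≤ i ∧ I + j < τ x)).card := by ring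
            _ ≤ _ := h
            _ = _ := by ring
        exact Nat.le_of_mul_le_mul_left h5 h4I
    refine (Finset.sum_le_sum hj).trans ?_
    rw [← Finset.sum_mul]
    apply mul_le_mul_of_nonneg_right _ hΛ
    have h7 := sum_b_le (K - I)
    have h8 : ∑ j ∈ range (K - I), (if j < 3 then (1:ℝ) else (256/15) / 4 ^ j) ≤
        ∑ j ∈ range (K - I + 3), (if j < 3 then (1:ℝ) else (256/15) / 4 ^ j) := by
      apply Finset.sum_le_sum_of_subset_of_nonneg
      · exact Finset.range_subset_range.2 (by omega)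
      · intro j _ _
        split_ifs <;> positivity
    have h9 : (0:ℝ) ≤ (23/64) / 4 ^ (K - I) := by positivity
    linarith


/-- Jensen (`exp u ≥ 1 + u`) form -/
theorem jensen_low (H : Finset α) (g : Finset α → ℝ) (hg : ∀ S, 0 ≤ g S) (I : ℕ) (τ : α → ℕ)
    (h : ∑ x ∈ H, (∑ S ∈ (H.powerset.erase ∅).filter (fun S => x ∈ S), g S) * ((τ x - I : ℕ) : ℝ) ≤
      4 * ∑ x ∈ H, ∑ S ∈ (H.powerset.erase ∅).filter (fun S => x ∈ S), g S) :
    ∑ S ∈ H.powerset.erase ∅, g S ≤
      ∑ S ∈ H.powerset.erase ∅, g S * ∏ x ∈ S, ((16:ℝ) ^ 4 * ((16:ℝ)⁻¹) ^ (τ x - I)) := by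
  set P := H.powerset.erase ∅ with hP
  set v : α → ℝ := fun x => (16:ℝ) ^ 4 * ((16:ℝ)⁻¹) ^ (τ x - I) with hv
  have hvpos : ∀ x, 0 < v x := fun x => by simp only [hv]; positivity
  have hlog : ∀ x, Real.log (v x) = Real.log 16 * (4 - ((τ x - I : ℕ) : ℝ)) := by
    intro x
    simp only [hv]
    rw [Real.log_mul (by positivity) (by positivity), Real.log_pow, Real.log_pow, Real.log_inv]
    push_cast
    ring
  have h1 : ∀ S ∈ P, g S * (1 + ∑ x ∈ S, Real.log (v x)) ≤ g S * ∏ x ∈ S, v x := by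
    intro S _
    apply mul_le_mul_of_nonneg_left _ (hg S)
    have : ∏ x ∈ S, v x = Real.exp (∑ x ∈ S, Real.log (v x)) := by
      rw [Real.exp_sum]
      apply Finset.prod_congr rfl
      intro x _
      rw [Real.exp_log (hvpos x)]
    rw [this]
    have := Real.add_one_le_exp (∑ x ∈ S, Real.log (v x))
    linarith
  refine le_trans ?_ (Finset.sum_le_sum h1)
  have h2 : ∑ S ∈ P, g S * (1 + ∑ x ∈ S, Real.log (v x)) =
      ∑ S ∈ P, g S + ∑ S ∈ P, g S * ∑ x ∈ S, Real.log (v x) := by
    rw [← Finset.sum_add_distrib]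
    apply Finset.sum_congr rfl
    intro S _
    ring
  rw [h2]
  have h3 : ∑ S ∈ P, g S * ∑ x ∈ S, Real.log (v x) =
      ∑ x ∈ H, (∑ S ∈ P.filter (fun S => x ∈ S), g S) * Real.log (v x) := by
    have e1 : ∀ S ∈ P, g S * ∑ x ∈ S, Real.log (v x) =
        ∑ x ∈ H, (if x ∈ S then g S * Real.log (v x) else 0) := by
      intro S hS
      have hSH : S ⊆ H := Finset.mem_powerset.1 (Finset.mem_of_mem_erase hS)
      rw [Finset.mul_sum, ← Finset.sum_filter]
      apply Finset.sum_congr _ (fun _ _ => rfl)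
      ext x
      simp only [Finset.mem_filter]
      exact ⟨fun hx => ⟨hSH hx, hx⟩, fun hx => hx.2⟩
    rw [Finset.sum_congr rfl e1, Finset.sum_comm]
    apply Finset.sum_congr rfl
    intro x _
    rw [← Finset.sum_filter, Finset.sum_mul]
  rw [h3]
  have h4 : ∑ x ∈ H, (∑ S ∈ P.filter (fun S => x ∈ S), g S) * Real.log (v x) =
      Real.log 16 * (4 * ∑ x ∈ H, ∑ S ∈ P.filter (fun S => x ∈ S), g S -
        ∑ x ∈ H, (∑ S ∈ P.filter (fun S => x ∈ S), g S) * ((τ x - I : ℕ) : ℝ)) := by
    rw [Finset.mul_sum, ← Finset.sum_sub_distrib, Finset.mul_sum]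
    apply Finset.sum_congr rfl
    intro x _
    rw [hlog]
    ring
  rw [h4]
  have h5 : 0 ≤ Real.log 16 := Real.log_nonneg (by norm_num)
  have h6 := mul_nonneg h5 (sub_nonneg.2 h)
  linarith

end Crest.TG26
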