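import Crest.Agent.TG29_AD
import Crest.Agent.TG55_Gamma

set_option autoImplicit false

/-- **GAMMA** (S0073, hub classes) -/
theorem Crest.TG29.gamma : Crest.TG8.GAMMA := Crest.TG55.gamma_of_AD Crest.TG29.AD_fp
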