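import Crest.Agent.TG94_Num

set_option autoImplicit false

namespace Crest.TG32
open Filter Real

theorem nums : ∀ᶠ n : ℕ in atTop, 600 ≤ n ∧
    (10 * (n : ℝ) ^ (1 / 20 : ℝ) * Real.log n ≤ (n : ℝ) ^ (1 / 10 : ℝ)) ∧
    ((5 * Real.log n + 1) + (n : ℝ) ^ (1 / 10 : ℝ) ≤ (n : ℝ) ^ (19 / 20 : ℝ)) ∧
    ((5 * Real.log n + 1) * ((n : ℝ) ^ (19 / 20 : ℝ) * (n : ℝ) ^ (1 / 100 : ℝ)) ≤ n / 8) ∧
    ((n : ℝ) ^ (1 / 100 : ℝ) ≤ n / 8) ∧
    ((n : ℝ) * Real.exp (-((n : ℝ) ^ (-(3 / ((1000 : ℕ) : ℝ) + 1 / 1000)) *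
      ((n : ℝ) ^ (1 / 100 : ℝ) - 1))) ≤ 1 / 2) ∧
    ((5 * Real.log n + 1) * Real.log n ≤ 20 * n * (n : ℝ) ^ (-(1 / 100) : ℝ)) := by
  have e1 := Crest.TG94.ev_rpow_log_le (a := 1 / 20) (b := 1 / 10) (by norm_num) 10 1
  have e2 := Crest.TG94.ev_rpow_log_le (a := 0) (b := 1 / 10) (by norm_num) 1 1
  have e3 := Crest.TG94.ev_rpow_log_le (a := 1 / 10) (b := 19 / 20) (by norm_num) 7 0
  have e4 := Crest.TG94.ev_rpow_log_le (a := 24 / 25) (b := 1) (by norm_num) 48 1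
  have e5 := Crest.TG94.ev_rpow_log_le (a := 1 / 100) (b := 1) (by norm_num) 8 0
  have e6 := Crest.TG94.ev_pow_exp_le (a := 3 / 500) (c := 1) (ε := 1 / 6) (by norm_num)
    (by norm_num) (by norm_num) 1
  have e7 := Crest.TG94.ev_rpow_log_le (a := 0) (b := 99 / 100) (by norm_num) 6 2
  filter_upwards [e1, e2, e3, e4, e5, e6, e7, eventually_ge_atTop 600] with n h1 h2 h3 h4 h5 h6 h7 hn
  have hn1 : (600 : ℝ) ≤ n := by exact_mod_cast hn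
  have hn0 : (0 : ℝ) < n := by linarith
  have hlog1 : 1 ≤ Real.log n := by
    rw [Real.le_log_iff_exp_le hn0]
    have := Real.exp_one_lt_d9
    linarith
  simp only [Real.rpow_zero, mul_one, pow_one, pow_zero, one_mul, Real.rpow_one] at h1 h2 h3 h4 h5 h6 h7
  have hp10 : 1 ≤ (n : ℝ) ^ (1 / 10 : ℝ) := Real.one_le_rpow (by linarith) (by norm_num)
  refine ⟨hn, h1, by linarith, ?_, by linarith, ?_, ?_⟩
  · rw [← Real.rpow_add hn0]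
    have h8 : (19 / 20 : ℝ) + 1 / 100 = 24 / 25 := by norm_num
    rw [h8]
    have h9 : 0 < (n : ℝ) ^ (24 / 25 : ℝ) := Real.rpow_pos_of_pos hn0 _
    nlinarith
  · have h8 : (-(3 / ((1000 : ℕ) : ℝ) + 1 / 1000) : ℝ) = -(1 / 250) := by norm_num
    rw [h8, mul_sub, ← Real.rpow_add hn0, mul_one]
    have h9 : (-(1 / 250) : ℝ) + 1 / 100 = 3 / 500 := by norm_num
    rw [h9]
    have h10 : (n : ℝ) ^ (-(1 / 250) : ℝ) ≤ 1 :=
      Real.rpow_le_one_of_one_le_of_nonpos (by linarith) (by norm_num)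
    have h11 : Real.exp (-((n : ℝ) ^ (3 / 500 : ℝ) - (n : ℝ) ^ (-(1 / 250) : ℝ)))
        ≤ Real.exp 1 * Real.exp (-(n : ℝ) ^ (3 / 500 : ℝ)) := by
      rw [← Real.exp_add]
      apply Real.exp_le_exp.mpr
      linarith
    have h12 := Real.exp_one_lt_d9
    have h13 : 0 < Real.exp (-(n : ℝ) ^ (3 / 500 : ℝ)) := Real.exp_pos _
    calc (n : ℝ) * Real.exp (-((n : ℝ) ^ (3 / 500 : ℝ) - (n : ℝ) ^ (-(1 / 250) : ℝ)))
        ≤ n * (Real.exp 1 * Real.exp (-(n : ℝ) ^ (3 / 500 : ℝ))) :=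
          mul_le_mul_of_nonneg_left h11 hn0.le
      _ = Real.exp 1 * (n * Real.exp (-(n : ℝ) ^ (3 / 500 : ℝ))) := by ring
      _ ≤ 3 * (1 / 6) := by
          apply mul_le_mul (by linarith) h6 (by positivity) (by norm_num)
      _ = 1 / 2 := by norm_num
  · have h8 : (n : ℝ) * (n : ℝ) ^ (-(1 / 100) : ℝ) = (n : ℝ) ^ (99 / 100 : ℝ) := by
      nth_rewrite 1 [← Real.rpow_one (n : ℝ)]
      rw [← Real.rpow_add hn0]
      norm_num
    rw [mul_assoc, h8]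
    have h9 : 0 < (n : ℝ) ^ (99 / 100 : ℝ) := Real.rpow_pos_of_pos hn0 _
    nlinarith

end Crest.TG32
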