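import Mathlib
import Crest.Prelude.Def_CopyThreshold

/-! Glue for S0073: it is enough to cover `H` by `k` subgraphs. -/

namespace Crest.TG.Glue

open Crest.CombinatoricsR.RandomGraph Crest.FinProb

/-- a cover of `H` by a finite family of graphs gives a labelling refining it -/
theorem exists_label {W : Type*} {ι : Type*} [Fintype ι] {k : ℕ} (H : SimpleGraph W)
    (F : ι → SimpleGraph W) (hk : Fintype.card ι ≤ k) (hne : Nonempty ι)
    (hcov : ∀ v w, H.Adj v w → ∃ j, (F j).Adj v w) :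
    ∃ c : H.edgeSet → Fin k, ∀ i : Fin k, ∃ j : ι, pieceGraph H c i ≤ F j := by
  classical
  -- an embedding of ι in Fin k
  obtain ⟨f⟩ : Nonempty (ι ↪ Fin k) := by
    apply Function.Embedding.nonempty_of_card_le
    simpa using hk
  have hcov' : ∀ e : H.edgeSet, ∃ j, (e : Sym2 W) ∈ (F j).edgeSet := by
    rintro ⟨e, he⟩
    induction e using Sym2.ind with
    | _ v w =>
      obtain ⟨j, hj⟩ := hcov v w he
      exact ⟨j, hj⟩
  choose g hg using hcov'
  refine ⟨fun e => f (g e), fun i => ?_⟩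
  by_cases hi : ∃ j, f j = i
  · obtain ⟨j, rfl⟩ := hi
    refine ⟨j, ?_⟩
    intro v w hvw
    rw [pieceGraph, SimpleGraph.fromEdgeSet_adj] at hvw
    obtain ⟨⟨h, hc⟩, -⟩ := hvw
    have := hg ⟨s(v, w), h⟩
    rw [f.injective hc] at this
    exact this
  · refine ⟨hne.some, ?_⟩
    intro v w hvw
    rw [pieceGraph, SimpleGraph.fromEdgeSet_adj] at hvw
    obtain ⟨⟨h, hc⟩, -⟩ := hvw
    exact absurd ⟨_, hc⟩ hi

theorem bernoulliWeight_nonneg {ι : Type*} [Fintype ι] {p : ℝ} (h0 : 0 ≤ p) (h1 : p ≤ 1)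
    (ω : ι → Bool) : 0 ≤ bernoulliWeight p ω := by
  unfold bernoulliWeight
  apply Finset.prod_nonneg
  intro i _
  split_ifs
  · exact h0
  · linarith

theorem bernoulliProb_mono {ι : Type*} [Fintype ι] [DecidableEq ι] {p : ℝ} (h0 : 0 ≤ p)
    (h1 : p ≤ 1) {A B : Set (ι → Bool)} (hAB : A ⊆ B) : bernoulliProb p A ≤ bernoulliProb p B := by
  classical
  unfold bernoulliProb
  apply Finset.sum_le_sum_of_subset_of_nonneg
  · intro ω hω
    simp only [Finset.mem_filter, Finset.mem_univ, true_and] at hω ⊢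
    exact hAB hω
  · intro ω _ _
    exact bernoulliWeight_nonneg h0 h1 ω

theorem gnpProb_mono {n : ℕ} {p : ℝ} (h0 : 0 ≤ p) (h1 : p ≤ 1) {A B : Set (SimpleGraph (Fin n))}
    (hAB : A ⊆ B) : gnpProb n p A ≤ gnpProb n p B :=
  bernoulliProb_mono h0 h1 (fun _ hω => hAB hω)

/-- containment is monotone in the small graph -/
theorem isContained_of_le {W : Type*} {n : ℕ} {F F' : SimpleGraph W} (h : F ≤ F')
    {G : SimpleGraph (Fin n)} (hG : F'.IsContained G) : F.IsContained G :=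
  (SimpleGraph.IsContained.of_le h).trans hG

/-- **Glue**: cover `H` by at most `k` graphs, each contained with probability at least `1/2`. -/
theorem half_piece {W : Type*} {ι : Type*} [Fintype ι] {k n : ℕ} (H : SimpleGraph W) {P : ℝ}
    (h0 : 0 ≤ P) (h1 : P ≤ 1)
    (F : ι → SimpleGraph W) (hk : Fintype.card ι ≤ k) (hne : Nonempty ι)
    (hcov : ∀ v w, H.Adj v w → ∃ j, (F j).Adj v w)
    (hF : ∀ j, 1 / 2 ≤ gnpProb n P {G | (F j).IsContained G}) :
    ∃ c : H.edgeSet → Fin k, ∀ i : Fin k,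
      1 / 2 ≤ gnpProb n P {G | (pieceGraph H c i).IsContained G} := by
  obtain ⟨c, hc⟩ := exists_label H F hk hne hcov
  refine ⟨c, fun i => ?_⟩
  obtain ⟨j, hj⟩ := hc i
  refine (hF j).trans (gnpProb_mono h0 h1 ?_)
  intro G hG
  exact isContained_of_le hj hG

/-- a family version of `Cov`: `H` is covered by at most `k` good graphs -/
def Cov {W : Type*} (good : SimpleGraph W → Prop) (H : SimpleGraph W) (k : ℕ) : Prop :=
  ∃ F : Fin k → SimpleGraph W, (∀ j, good (F j)) ∧ ∀ v w, H.Adj v w → ∃ j, (F j).Adj v w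

theorem Cov.of_le {W : Type*} {good : SimpleGraph W → Prop} {H H' : SimpleGraph W} {k : ℕ}
    (h : Cov good H' k) (hle : H ≤ H') : Cov good H k := by
  obtain ⟨F, h1, h2⟩ := h
  exact ⟨F, h1, fun v w hvw => h2 v w (hle hvw)⟩

theorem Cov.of_fintype {W : Type*} {good : SimpleGraph W → Prop} {H : SimpleGraph W}
    {ι : Type*} [Fintype ι] (F : ι → SimpleGraph W) (h1 : ∀ j, good (F j))
    (h2 : ∀ v w, H.Adj v w → ∃ j, (F j).Adj v w) : Cov good H (Fintype.card ι) := by
  classical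
  refine ⟨fun j => F ((Fintype.equivFin ι).symm j), fun j => h1 _, fun v w hvw => ?_⟩
  obtain ⟨j, hj⟩ := h2 v w hvw
  exact ⟨Fintype.equivFin ι j, by simpa using hj⟩

/-- composition: if `H` is covered by graphs `G a` (`a` in a finite type), each covered by `m`
good graphs, then `H` is covered by `card A * m` good graphs. -/
theorem Cov.comp {W : Type*} {good : SimpleGraph W → Prop} {H : SimpleGraph W} {A : Type*}
    [Fintype A] {m : ℕ} (G : A → SimpleGraph W) (hG : ∀ a, Cov good (G a) m)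
    (h2 : ∀ v w, H.Adj v w → ∃ a, (G a).Adj v w) : Cov good H (Fintype.card A * m) := by
  classical
  choose F h1 hF using hG
  have := Cov.of_fintype (good := good) (H := H) (fun x : A × Fin m => F x.1 x.2)
    (fun x => h1 x.1 x.2) (fun v w hvw => by
      obtain ⟨a, ha⟩ := h2 v w hvw
      obtain ⟨j, hj⟩ := hF a v w ha
      exact ⟨(a, j), hj⟩)
  simpa using this

/-- union: `H ≤ H₁ ⊔ H₂`. -/
theorem Cov.sup {W : Type*} {good : SimpleGraph W → Prop} {H H₁ H₂ : SimpleGraph W} {k₁ k₂ : ℕ}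
    (h₁ : Cov good H₁ k₁) (h₂ : Cov good H₂ k₂)
    (h : ∀ v w, H.Adj v w → H₁.Adj v w ∨ H₂.Adj v w) : Cov good H (k₁ + k₂) := by
  classical
  obtain ⟨F₁, a1, b1⟩ := h₁
  obtain ⟨F₂, a2, b2⟩ := h₂
  have := Cov.of_fintype (good := good) (H := H) (fun x : Fin k₁ ⊕ Fin k₂ => Sum.elim F₁ F₂ x)
    (fun x => by rcases x with x | x <;> simp [a1, a2]) (fun v w hvw => by
      rcases h v w hvw with h | h
      · obtain ⟨j, hj⟩ := b1 v w h
        exact ⟨Sum.inl j, hj⟩
      · obtain ⟨j, hj⟩ := b2 v w h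
        exact ⟨Sum.inr j, hj⟩)
  simpa using this

theorem Cov.mono_k {W : Type*} {good : SimpleGraph W → Prop} {H : SimpleGraph W} {k k' : ℕ}
    (h : Cov good H k) (hk : k ≤ k') (hk0 : 0 < k) : Cov good H k' := by
  classical
  obtain ⟨F, h1, h2⟩ := h
  refine ⟨fun j => if hj : (j : ℕ) < k then F ⟨j, hj⟩ else F ⟨0, hk0⟩, fun j => ?_,
    fun v w hvw => ?_⟩
  · by_cases hj : (j : ℕ) < k
    · simp [hj, h1]
    · simp [hj, h1]
  · obtain ⟨j, hj⟩ := h2 v w hvw
    exact ⟨⟨j, lt_of_lt_of_le j.2 hk⟩, by simpa using hj⟩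

/-- **Final form**: if `H` is covered by `k` graphs each contained with probability `≥ 1/2`. -/
theorem Cov.label {W : Type*} {k n : ℕ} {H : SimpleGraph W} {P : ℝ} (h0 : 0 ≤ P) (h1 : P ≤ 1)
    (hk : 0 < k)
    (h : Cov (fun F => 1 / 2 ≤ gnpProb n P {G | F.IsContained G}) H k) :
    ∃ c : H.edgeSet → Fin k, ∀ i : Fin k,
      1 / 2 ≤ gnpProb n P {G | (pieceGraph H c i).IsContained G} := by
  obtain ⟨F, a, b⟩ := h
  exact half_piece H h0 h1 F (by simp) ⟨⟨0, hk⟩⟩ b a

end Crest.TG.Glue
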