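import Crest.Agent.TG33_Gamma
import Crest.Agent.TG8_Gamma
import Crest.Agent.TG73_Rows
import Crest.Agent.TG73_Glue
import Crest.Agent.TG63_Num

/-! S0073, hub classes at graph level: helper8's GAMMA from `gamma_abs` (helper33). -/

set_option autoImplicit false

namespace Crest.TG33

open Finset Crest.CombinatoricsR.RandomGraph Crest.TG.Spr

theorem gamma : Crest.TG8.GAMMA := by
  classical
  obtain ⟨n1, hn1⟩ := Crest.TG63.ev_exp 8 1 (1 / 32) (99 / 100) (by norm_num) (by norm_num)
  obtain ⟨n2, hn2⟩ := Crest.TG63.ev_log 2 0 (1 / 10) 1 (by norm_num)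
  refine ⟨2, by norm_num, 2561, by norm_num, max 128 (max n1 n2), ?_⟩
  intro n hn W _ _ F _ J q D hq hLq hW hF hJ hD hqD hV hsp
  have hn128 : 128 ≤ n := (le_max_left _ _).trans hn
  have hnn1 : n1 ≤ n := (le_max_left _ _).trans ((le_max_right _ _).trans hn)
  have hnn2 : n2 ≤ n := (le_max_right _ _).trans ((le_max_right _ _).trans hn)
  have hexp := hn1 n hnn1
  have hJ2 := hn2 n hnn2
  have hnR : (128:ℝ) ≤ n := by exact_mod_cast hn128
  have hnpos : (0:ℝ) < n := by linarith
  have hJn : 2 * J.card ≤ n := by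
    have h1 : (2:ℝ) * J.card ≤ n := by
      simp only [pow_zero, mul_one, Real.rpow_one] at hJ2
      linarith
    exact_mod_cast h1
  set Vs : Finset W := univ.filter (fun v => v ∉ J ∧ ∃ u, F.Adj v u) with hVs
  have hmemVs : ∀ x, x ∈ Vs → x ∉ J ∧ ∃ u, F.Adj x u := by
    intro x hx
    rw [hVs, mem_filter] at hx
    exact hx.2
  set b : ℕ := n - J.card with hb
  set M0 : ℕ := n / 64 with hM0
  have hJb : J.card + b ≤ n := by omega
  have hbn : n ≤ 2 * b := by omega
  have hM0pos : 0 < M0 := by omega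
  have hbM : 16 * M0 ≤ b := by omega
  have hcardV : Fintype.card Vs ≤ M0 := by
    rw [Fintype.card_coe]; omega
  set Y : Vs → Finset J := fun v => univ.filter (fun j : J => F.Adj v j) with hY
  have hYD : ∀ v, (Y v).card ≤ D := by
    intro v
    have hv := hmemVs v.1 v.2
    refine le_trans ?_ (hD v hv.1)
    refine Finset.card_le_card_of_injOn (fun j : J => (j : W)) ?_ ?_
    · intro j hj
      have hj' := Finset.mem_coe.1 hj
      rw [hY] at hj'
      simp only [mem_filter, mem_univ, true_and] at hj'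
      simp only [coe_filter, mem_univ, true_and, Set.mem_setOf_eq]
      exact hj'
    · intro x _ y _ h
      exact Subtype.ext h
  have hM0R : (n:ℝ) ≤ 128 * M0 := by
    have : n ≤ 128 * M0 := by omega
    exact_mod_cast this
  have hspread : ∀ S : Finset J, S.Nonempty →
      ((univ.filter (fun v => S ⊆ Y v)).card : ℝ) ≤ M0 * (2560 * q) ^ S.card := by
    intro S hS
    have h1 := hsp (S.map (Function.Embedding.subtype _)) (hS.map)
    rw [card_map] at h1
    have h2 : (univ.filter (fun v => S ⊆ Y v)).card ≤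
        (univ.filter (fun v => v ∉ J ∧
          ∀ u ∈ S.map (Function.Embedding.subtype (· ∈ J)), F.Adj v u)).card := by
      refine Finset.card_le_card_of_injOn (fun v : Vs => (v : W)) ?_ ?_
      · intro v hv
        have hv' := Finset.mem_coe.1 hv
        simp only [mem_filter, mem_univ, true_and] at hv'
        have hv2 := hmemVs v.1 v.2
        simp only [coe_filter, mem_univ, true_and, Set.mem_setOf_eq]
        refine ⟨hv2.1, ?_⟩
        intro u hu
        rw [mem_map] at hu
        obtain ⟨j, hj, rfl⟩ := hu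
        have := hv' hj
        rw [hY] at this
        simp only [mem_filter, mem_univ, true_and] at this
        exact this
      · intro x _ y _ h
        exact Subtype.ext h
    have h3 : ((univ.filter (fun v => S ⊆ Y v)).card : ℝ) ≤ 20 * n * q ^ S.card :=
      (Nat.cast_le.2 h2).trans h1
    refine h3.trans ?_
    rw [mul_pow]
    have hqs : 0 < q ^ S.card := by positivity
    have h4 : (2560:ℝ) ≤ 2560 ^ S.card := by
      have := pow_le_pow_right₀ (show (1:ℝ) ≤ 2560 by norm_num) (Finset.card_pos.2 hS)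
      simpa using this
    have h5 : 20 * (n:ℝ) ≤ M0 * 2560 ^ S.card := by
      have h6 : (0:ℝ) ≤ M0 := Nat.cast_nonneg _
      calc 20 * (n:ℝ) ≤ M0 * 2560 := by linarith
        _ ≤ _ := mul_le_mul_of_nonneg_left h4 h6
    calc 20 * (n:ℝ) * q ^ S.card ≤ (M0 * 2560 ^ S.card) * q ^ S.card :=
          mul_le_mul_of_nonneg_right h5 hqs.le
      _ = _ := by ring
  obtain ⟨c, hc⟩ := gamma_abs Y D M0 b hM0pos hcardV hbM hYD q (2560 * q) (2561 * q) hq
    (by positivity) hspread (by linarith) hLq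
  -- the numbers
  have hfail : 2 * (((Fintype.card Vs : ℝ) + b) * Real.exp (-((b:ℝ) * q ^ D / 16))) ≤ 1 / 2 := by
    have h1 : (Fintype.card Vs : ℝ) + b ≤ 2 * n := by
      have h2 : Fintype.card Vs + b ≤ 2 * n := by
        have : Fintype.card Vs ≤ n := by omega
        omega
      exact_mod_cast h2
    have h2 : (1 / 32 : ℝ) * (n:ℝ) ^ (99 / 100 : ℝ) ≤ (b:ℝ) * q ^ D / 16 := by
      have h3 : (n:ℝ) ^ (99 / 100 : ℝ) = n * (n:ℝ) ^ (-(1 / 100) : ℝ) := by
        nth_rewrite 2 [← Real.rpow_one (n:ℝ)]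
        rw [← Real.rpow_add hnpos]
        norm_num
      have h4 : (n:ℝ) ≤ 2 * b := by exact_mod_cast hbn
      have h5 : 0 < q ^ D := by positivity
      rw [h3]
      have h6 : (n:ℝ) * (n:ℝ) ^ (-(1 / 100) : ℝ) ≤ (2 * b) * q ^ D :=
        mul_le_mul h4 hqD (Real.rpow_nonneg hnpos.le _) (by positivity)
      linarith
    have h3 : Real.exp (-((b:ℝ) * q ^ D / 16)) ≤ Real.exp (-((1 / 32 : ℝ) * (n:ℝ) ^ (99 / 100 : ℝ))) :=
      Real.exp_le_exp.2 (by linarith)
    have h4 : 0 < Real.exp (-((1 / 32 : ℝ) * (n:ℝ) ^ (99 / 100 : ℝ))) := Real.exp_pos _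
    rw [pow_one] at hexp
    calc 2 * (((Fintype.card Vs : ℝ) + b) * Real.exp (-((b:ℝ) * q ^ D / 16)))
        ≤ 2 * ((2 * n) * Real.exp (-((1 / 32 : ℝ) * (n:ℝ) ^ (99 / 100 : ℝ)))) := by
          have h5 := mul_le_mul h1 h3 (Real.exp_pos _).le (by positivity)
          linarith
      _ ≤ 1 / 2 := by linarith
  -- the graphs
  let lab : W → W → Fin 2 := fun v u =>
    if h : v ∈ Vs ∧ u ∈ J then c ⟨v, h.1⟩ ⟨u, h.2⟩ else 0
  let Fx : Fin 2 → SimpleGraph W := fun i =>
    { Adj := fun u v => F.Adj u v ∧ ((u ∈ J ∧ lab v u = i) ∨ (v ∈ J ∧ lab u v = i))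
      symm := ⟨fun u v h => ⟨h.1.symm, h.2.symm⟩⟩
      loopless := ⟨fun u h => F.loopless.irrefl u h.1⟩ }
  have hP0 : 0 ≤ 2561 * q := by positivity
  refine Crest.TG.Glue.half_piece F hP0 hLq.le Fx (by simp) ⟨0⟩ ?_ ?_
  · intro u v h
    rcases hF u v h with ⟨h1, _⟩ | ⟨_, h1⟩
    · exact ⟨lab v u, h, Or.inl ⟨h1, rfl⟩⟩
    · exact ⟨lab u v, h, Or.inr ⟨h1, rfl⟩⟩
  · intro i
    have hdis : Disjoint J Vs := by
      rw [Finset.disjoint_right]
      intro v hv
      rw [hVs, mem_filter] at hv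
      exact hv.2.1
    have htr := Crest.TG.Rows.gamma_transfer (n := n) (b := b) (Fx i) J Vs hdis (by
      intro x y h
      have h' : F.Adj x y := h.1
      rcases hF x y h' with ⟨h1, h2⟩ | ⟨h1, h2⟩
      · refine Or.inl ⟨h1, ?_⟩
        rw [hVs, mem_filter]
        exact ⟨mem_univ _, h2, x, h'.symm⟩
      · refine Or.inr ⟨?_, h2⟩
        rw [hVs, mem_filter]
        exact ⟨mem_univ _, h1, y, h'⟩) hW hJb (2561 * q) hP0 hLq.le
    refine le_trans ?_ htr
    have h1 := hc i
    refine le_trans (by linarith) (h1.trans (le_of_eq ?_))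
    refine Finset.sum_congr rfl fun ρ _ => ?_
    have hiff : (∃ g : Vs → Fin b, Function.Injective g ∧
        ∀ v, (Y v).filter (fun j => c v j = i) ⊆ ρ (g v)) ↔
        (∃ g : Vs → Fin b, Function.Injective g ∧
        ∀ v : Vs, (Finset.univ.filter fun j : J => (Fx i).Adj j v) ⊆ ρ (g v)) := by
      have hset : ∀ v : Vs, (Y v).filter (fun j => c v j = i) =
          Finset.univ.filter fun j : J => (Fx i).Adj j v := by
        intro v
        ext j
        have hvJ : (v : W) ∉ J := (hmemVs v.1 v.2).1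
        have hl : lab v j = c v j := by
          simp only [lab]
          rw [dif_pos ⟨v.2, j.2⟩]
        simp only [hY, mem_filter, mem_univ, true_and]
        constructor
        · rintro ⟨h1, h2⟩
          exact ⟨h1.symm, Or.inl ⟨j.2, by rw [hl]; exact h2⟩⟩
        · rintro ⟨h1, h2⟩
          refine ⟨h1.symm, ?_⟩
          rcases h2 with h2 | h2
          · rw [← hl]; exact h2.2
          · exact absurd h2.1 hvJ
      constructor
      · rintro ⟨g, hg, h⟩
        exact ⟨g, hg, fun v => by rw [← hset v]; exact h v⟩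
      · rintro ⟨g, hg, h⟩
        exact ⟨g, hg, fun v => by rw [hset v]; exact h v⟩
    have hmu : (∏ w, wP (2561 * q) (ρ w)) = ∏ w, Crest.TG.Rows.mu (2561 * q) (ρ w) := rfl
    rw [hmu]
    congr 1
    by_cases h : (∃ g : Vs → Fin b, Function.Injective g ∧
        ∀ v, (Y v).filter (fun j => c v j = i) ⊆ ρ (g v))
    · rw [if_pos h, if_pos (hiff.1 h)]
    · rw [if_neg h, if_neg (fun h' => h (hiff.2 h'))]

end Crest.TG33
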