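import Crest.Agent.KK_D2

/-! TG_FM: first-moment lemmas for S0073 (helper81) -/

set_option autoImplicit false

namespace Crest.TG.FM
open Finset Crest.CombinatoricsR.RandomGraph

variable {n : ℕ} {W : Type} [Fintype W] [DecidableEq W]

/-- the family of images of a slot set under all vertex permutations -/
def imgs (n : ℕ) (J : Finset (EdgeSlot n)) : Finset (Finset (EdgeSlot n)) :=
  univ.image fun σ : Equiv.Perm (Fin n) => J.image (KK.act n σ)

theorem card_image_le_of_factors {α β γ : Type*} [DecidableEq β] [DecidableEq γ] (s : Finset α)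
    (F : α → β) (r : α → γ) (h : ∀ a ∈ s, ∀ b ∈ s, r a = r b → F a = F b) :
    (s.image F).card ≤ (s.image r).card := by
  classical
  rcases isEmpty_or_nonempty α with hα | hα
  · have : s = ∅ := Finset.eq_empty_of_isEmpty s
    subst this
    simp
  have h1 : ∀ y : β, y ∈ s.image F → ∃ a, a ∈ s ∧ F a = y := fun y hy => by simpa using hy
  choose! g hg hg' using h1
  refine Finset.card_le_card_of_injOn (fun y => r (g y)) ?_ ?_
  · intro y hy
    exact Finset.mem_coe.2 (Finset.mem_image_of_mem r (hg y hy))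
  · intro y hy z hz hyz
    have := h _ (hg y hy) _ (hg z hz) hyz
    rw [hg' y hy, hg' z hz] at this
    exact this

/-- a slot set supported on `U` has at most `n^|U|` images -/
theorem card_imgs_le_pow (J : Finset (EdgeSlot n)) (U : Finset (Fin n))
    (hJ : ∀ x ∈ J, ∀ a ∈ x.1, a ∈ U) : (imgs n J).card ≤ n ^ U.card := by
  classical
  have h1 := card_image_le_of_factors (univ : Finset (Equiv.Perm (Fin n)))
    (fun σ => J.image (KK.act n σ)) (fun σ => fun u : U => σ u.1) (by
      intro σ _ τ _ hστ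
      have hst : ∀ a ∈ U, σ a = τ a := fun a ha => congrFun hστ ⟨a, ha⟩
      apply Finset.image_congr
      intro x hx
      apply Subtype.ext
      rw [KK.act_val, KK.act_val]
      exact Sym2.map_congr (fun a ha => hst a (hJ x hx a ha)))
  refine h1.trans ((Finset.card_le_univ _).trans ?_)
  rw [Fintype.card_fun, Fintype.card_fin, Fintype.card_coe]

/-- the slot between two different vertices -/
def slot (a b : Fin n) (h : a ≠ b) : EdgeSlot n := ⟨s(a, b), by rwa [Sym2.mk_isDiag_iff]⟩

/-- the slots between `A` and `B` -/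
def bip (A B : Finset (Fin n)) : Finset (EdgeSlot n) :=
  univ.filter fun x => ∃ a ∈ A, ∃ b ∈ B, x.1 = s(a, b)

theorem bip_image (A B : Finset (Fin n)) (σ : Equiv.Perm (Fin n)) :
    (bip A B).image (KK.act n σ) = bip (A.map σ.toEmbedding) (B.map σ.toEmbedding) := by
  ext y
  simp only [bip, mem_image, mem_filter, mem_univ, true_and, mem_map, Equiv.toEmbedding_apply]
  constructor
  · rintro ⟨x, ⟨a, ha, b, hb, hx⟩, rfl⟩
    exact ⟨σ a, ⟨a, ha, rfl⟩, σ b, ⟨b, hb, rfl⟩, by rw [KK.act_val, hx, Sym2.map_mk]⟩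
  · rintro ⟨_, ⟨a, ha, rfl⟩, _, ⟨b, hb, rfl⟩, hy⟩
    have hne : a ≠ b := by
      intro h0
      apply y.2
      rw [hy, h0, Sym2.mk_isDiag_iff]
    refine ⟨slot a b hne, ⟨a, ha, b, hb, rfl⟩, ?_⟩
    apply Subtype.ext
    rw [KK.act_val, hy]
    rfl

theorem card_bip (A B : Finset (Fin n)) (h : Disjoint A B) : (bip A B).card = A.card * B.card := by
  classical
  rw [← Finset.card_product]
  symm
  refine Finset.card_bij (fun p hp => slot p.1 p.2 (by
    rw [mem_product] at hp
    exact fun h0 => (Finset.disjoint_left.1 h) hp.1 (h0 ▸ hp.2))) ?_ ?_ ?_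
  · intro p hp
    rw [mem_product] at hp
    simp only [bip, mem_filter, mem_univ, true_and]
    exact ⟨p.1, hp.1, p.2, hp.2, rfl⟩
  · intro p hp p' hp' he
    rw [mem_product] at hp hp'
    have h1 : s(p.1, p.2) = s(p'.1, p'.2) := congrArg Subtype.val he
    rw [Sym2.eq_iff] at h1
    rcases h1 with ⟨h1, h2⟩ | ⟨h1, h2⟩
    · exact Prod.ext h1 h2
    · exact absurd (h1 ▸ hp.1) (fun h3 => (Finset.disjoint_left.1 h) h3 hp'.2)
  · intro x hx
    simp only [bip, mem_filter, mem_univ, true_and] at hx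
    obtain ⟨a, ha, b, hb, hx⟩ := hx
    exact ⟨(a, b), by rw [mem_product]; exact ⟨ha, hb⟩, Subtype.ext hx.symm⟩

theorem card_imgs_bip (A B : Finset (Fin n)) :
    (imgs n (bip A B)).card ≤ n ^ A.card * n.choose B.card := by
  classical
  have h1 := card_image_le_of_factors (univ : Finset (Equiv.Perm (Fin n)))
    (fun σ => (bip A B).image (KK.act n σ))
    (fun σ => (A.map σ.toEmbedding, B.map σ.toEmbedding)) (by
      intro σ _ τ _ hστ
      rw [Prod.mk.injEq] at hστ
      show (bip A B).image (KK.act n σ) = (bip A B).image (KK.act n τ)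
      rw [bip_image, bip_image, hστ.1, hστ.2])
  refine h1.trans ?_
  have h2 : (univ : Finset (Equiv.Perm (Fin n))).image
      (fun σ => (A.map σ.toEmbedding, B.map σ.toEmbedding)) ⊆
      (Finset.powersetCard A.card (univ : Finset (Fin n))) ×ˢ
      (Finset.powersetCard B.card (univ : Finset (Fin n))) := by
    intro p hp
    rw [mem_image] at hp
    obtain ⟨σ, _, rfl⟩ := hp
    rw [mem_product, mem_powersetCard, mem_powersetCard]
    exact ⟨⟨subset_univ _, by simp⟩, ⟨subset_univ _, by simp⟩⟩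
  refine (Finset.card_le_card h2).trans ?_
  rw [Finset.card_product, Finset.card_powersetCard, Finset.card_powersetCard, Finset.card_univ,
    Fintype.card_fin]
  exact Nat.mul_le_mul_right _ (Nat.choose_le_pow n A.card)

/-- the first-moment hypothesis -/
def FMom (n : ℕ) (H : SimpleGraph W) [DecidableRel H.Adj] (q : ℝ) : Prop :=
  ∀ (ι : W ↪ Fin n) (J : Finset (EdgeSlot n)), J ⊆ KK.slots H ι →
    1 / 2 ≤ ((univ.image fun σ : Equiv.Perm (Fin n) => J.image (KK.act n σ)).card : ℝ) *
      q ^ J.card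

theorem mem_slots (H : SimpleGraph W) [DecidableRel H.Adj] (ι : W ↪ Fin n) (x : EdgeSlot n)
    (a b : W) (hab : H.Adj a b) (hx : x.1 = s(ι a, ι b)) : x ∈ KK.slots H ι := by
  unfold KK.slots
  rw [Finset.mem_filter]
  refine ⟨Finset.mem_univ _, s(a, b), ?_, ?_⟩
  · rw [SimpleGraph.mem_edgeFinset, SimpleGraph.mem_edgeSet]
    exact hab
  · rw [hx, Sym2.map_mk]

/-- (a) density -/
theorem fm_density (H : SimpleGraph W) [DecidableRel H.Adj] {q : ℝ} (hq : 0 ≤ q)
    (hW : Fintype.card W ≤ n) (hFM : FMom n H q) (U : Finset W) :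
    1 / 2 ≤ (n : ℝ) ^ U.card * q ^ (H.edgeFinset.filter (fun e => ∀ a ∈ e, a ∈ U)).card := by
  classical
  obtain ⟨ι⟩ : Nonempty (W ↪ Fin n) := by
    apply Function.Embedding.nonempty_of_card_le
    rwa [Fintype.card_fin]
  set J : Finset (EdgeSlot n) := (KK.slots H ι).filter (fun x => ∀ a ∈ x.1, a ∈ U.map ι) with hJ
  have h1 := hFM ι J (Finset.filter_subset _ _)
  have hc : J.card = (H.edgeFinset.filter (fun e => ∀ a ∈ e, a ∈ U)).card := by
    symm
    have hnd : ∀ e ∈ H.edgeFinset, ¬ (e.map ι).IsDiag := by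
      intro e he h0
      rw [Sym2.isDiag_map ι.injective] at h0
      exact SimpleGraph.not_isDiag_of_mem_edgeFinset he h0
    refine Finset.card_bij (fun e he => (⟨e.map ι, hnd e (Finset.mem_filter.1 he).1⟩ : EdgeSlot n))
      ?_ ?_ ?_
    · intro e he
      rw [Finset.mem_filter] at he
      rw [hJ, Finset.mem_filter]
      refine ⟨?_, ?_⟩
      · unfold KK.slots
        rw [Finset.mem_filter]
        exact ⟨Finset.mem_univ _, e, he.1, rfl⟩
      · intro a ha
        rw [Sym2.mem_map] at ha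
        obtain ⟨b, hb, rfl⟩ := ha
        exact Finset.mem_map_of_mem ι (he.2 b hb)
    · intro e he e' he' hee
      have := congrArg Subtype.val hee
      exact Sym2.map.injective ι.injective this
    · intro x hx
      rw [hJ, Finset.mem_filter] at hx
      obtain ⟨hx1, hx2⟩ := hx
      unfold KK.slots at hx1
      rw [Finset.mem_filter] at hx1
      obtain ⟨_, e, he, hex⟩ := hx1
      refine ⟨e, ?_, Subtype.ext hex⟩
      rw [Finset.mem_filter]
      refine ⟨he, ?_⟩
      intro a ha
      have h3 : ι a ∈ x.1 := by rw [← hex, Sym2.mem_map]; exact ⟨a, ha, rfl⟩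
      have h4 := hx2 _ h3
      simpa using h4
  have h2 : ((imgs n J).card : ℝ) ≤ (n : ℝ) ^ U.card := by
    have := card_imgs_le_pow J (U.map ι) (fun x hx a ha => (Finset.mem_filter.1 hx).2 a ha)
    rw [Finset.card_map] at this
    exact_mod_cast this
  rw [hc] at h1
  refine h1.trans ?_
  exact mul_le_mul_of_nonneg_right h2 (pow_nonneg hq _)

/-- (b) complete bipartite subgraphs -/
theorem fm_bip (H : SimpleGraph W) [DecidableRel H.Adj] {q : ℝ} (hq : 0 ≤ q)
    (hW : Fintype.card W ≤ n) (hFM : FMom n H q) (T A : Finset W) (hd : Disjoint T A)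
    (hadj : ∀ t ∈ T, ∀ a ∈ A, H.Adj t a) :
    1 / 2 ≤ (n : ℝ) ^ T.card * (n.choose A.card) * q ^ (T.card * A.card) := by
  classical
  obtain ⟨ι⟩ : Nonempty (W ↪ Fin n) := by
    apply Function.Embedding.nonempty_of_card_le
    rwa [Fintype.card_fin]
  have hd' : Disjoint (T.map ι) (A.map ι) := (Finset.disjoint_map ι).2 hd
  have h1 := hFM ι (bip (T.map ι) (A.map ι)) (by
    intro x hx
    simp only [bip, mem_filter, mem_univ, true_and, mem_map] at hx
    obtain ⟨_, ⟨t, ht, rfl⟩, _, ⟨a, ha, rfl⟩, hx⟩ := hx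
    exact mem_slots H ι x t a (hadj t ht a ha) hx)
  rw [card_bip _ _ hd', Finset.card_map, Finset.card_map] at h1
  have h2 : ((imgs n (bip (T.map ι) (A.map ι))).card : ℝ) ≤
      (n : ℝ) ^ T.card * (n.choose A.card) := by
    have := card_imgs_bip (T.map ι) (A.map ι)
    rw [Finset.card_map, Finset.card_map] at this
    exact_mod_cast this
  exact h1.trans (mul_le_mul_of_nonneg_right h2 (pow_nonneg hq _))

/-- `choose n d * q^(t d) * n^t` bound gives the degree bound (helper82 (ii)) -/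
theorem deg_bound {n t d : ℕ} {q : ℝ} (hn : 2 ≤ n) (ht : 1 ≤ t) (hq : 0 ≤ q)
    (h : 1 / 2 ≤ (n : ℝ) ^ t * (n.choose d) * q ^ (t * d)) :
    (d : ℝ) ≤ 20 * n * q ^ t + t * Real.log n + 1 := by
  by_contra hcon
  push Not at hcon
  have hn0 : (0 : ℝ) < n := by positivity
  have hlog : 0 < Real.log n := Real.log_pos (by exact_mod_cast hn)
  have hqt : 0 ≤ q ^ t := pow_nonneg hq t
  have hx0 : 0 ≤ 20 * n * q ^ t := by positivity
  have htl : 0 ≤ (t : ℝ) * Real.log n := by positivity
  have hd0 : (0 : ℝ) < d := by linarith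
  have hd1 : (1 : ℕ) ≤ d := by
    by_contra h0
    have : d = 0 := by omega
    rw [this] at hd0
    simp at hd0
  -- choose bound
  have hch : ((n.choose d : ℕ) : ℝ) ≤ (Real.exp 1 * n / d) ^ d := by
    have h1 : ((n.choose d : ℕ) : ℝ) ≤ (n : ℝ) ^ d / (d.factorial : ℝ) := Nat.choose_le_pow_div d n
    have h2 : ((d : ℝ) / Real.exp 1) ^ d ≤ (d.factorial : ℝ) := by
      have h3 : (d : ℝ) ^ d / (d.factorial : ℝ) ≤ Real.exp d := by
        have := Real.pow_div_factorial_le_exp (x := (d : ℝ)) (by positivity) d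
        exact this
      rw [div_pow, div_le_iff₀ (by positivity)]
      rw [div_le_iff₀ (by positivity)] at h3
      have h4 : Real.exp 1 ^ d = Real.exp d := by
        rw [← Real.exp_nat_mul]; simp
      rw [h4, mul_comm]
      exact h3
    refine h1.trans ?_
    rw [div_le_iff₀ (by positivity)]
    calc (n : ℝ) ^ d = (Real.exp 1 * n / d) ^ d * ((d : ℝ) / Real.exp 1) ^ d := by
          rw [← mul_pow]; congr 1; field_simp
      _ ≤ (Real.exp 1 * n / d) ^ d * (d.factorial : ℝ) :=
          mul_le_mul_of_nonneg_left h2 (by positivity)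
  have h5 : (n : ℝ) ^ t * (n.choose d) * q ^ (t * d) ≤
      (n : ℝ) ^ t * (Real.exp 1 * n / d * q ^ t) ^ d := by
    rw [mul_pow, ← pow_mul, mul_assoc]
    apply mul_le_mul_of_nonneg_left _ (by positivity)
    exact mul_le_mul_of_nonneg_right hch (by positivity)
  have h6 : Real.exp 1 * n / d * q ^ t ≤ Real.exp 1 / 20 := by
    have : 20 * n * q ^ t ≤ d := by linarith
    rw [div_mul_eq_mul_div, div_le_div_iff₀ hd0 (by norm_num)]
    have he : 0 < Real.exp 1 := Real.exp_pos 1
    nlinarith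
  have h7 : Real.exp 1 / 20 ≤ Real.exp (-(19/10 : ℝ)) := by
    have h8 : Real.exp (29/10 : ℝ) ≤ 20 := by
      have h9 : Real.exp (29/10 : ℝ) = (Real.exp 1) ^ 3 / Real.exp (1/10 : ℝ) := by
        rw [← Real.exp_nat_mul, ← Real.exp_sub]; norm_num
      have h10 : Real.exp 1 < 2.7182818286 := Real.exp_one_lt_d9
      have h11 : 1 + (1/10 : ℝ) ≤ Real.exp (1/10 : ℝ) := by
        have := Real.add_one_le_exp (1/10 : ℝ); linarith
      rw [h9, div_le_iff₀ (Real.exp_pos _)]
      have h12 : (Real.exp 1) ^ 3 ≤ (2.7182818286 : ℝ) ^ 3 :=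
        pow_le_pow_left₀ (Real.exp_pos 1).le h10.le 3
      have h13 : (2.7182818286 : ℝ) ^ 3 ≤ 20 * (1 + 1/10) := by norm_num
      linarith
    rw [div_le_iff₀ (by norm_num)]
    calc Real.exp 1 = Real.exp (-(19/10 : ℝ)) * Real.exp (29/10 : ℝ) := by
          rw [← Real.exp_add]; norm_num
      _ ≤ Real.exp (-(19/10 : ℝ)) * 20 := mul_le_mul_of_nonneg_left h8 (Real.exp_pos _).le
  have h14 : (Real.exp 1 * n / d * q ^ t) ^ d ≤ Real.exp (-(19/10 : ℝ) * d) := by
    have h15 : (0 : ℝ) ≤ Real.exp 1 * n / d * q ^ t := by positivity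
    calc (Real.exp 1 * n / d * q ^ t) ^ d ≤ (Real.exp (-(19/10 : ℝ))) ^ d :=
          pow_le_pow_left₀ h15 (h6.trans h7) d
      _ = Real.exp (-(19/10 : ℝ) * d) := by
          rw [← Real.exp_nat_mul]; congr 1; ring
  have h16 : (n : ℝ) ^ t = Real.exp (t * Real.log n) := by
    rw [Real.exp_nat_mul, Real.exp_log hn0]
  have h17 : (1 : ℝ) / 2 ≤ Real.exp (t * Real.log n + -(19/10 : ℝ) * d) := by
    rw [Real.exp_add, ← h16]
    exact h.trans (h5.trans (mul_le_mul_of_nonneg_left h14 (by positivity)))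
  have h18 : Real.exp (t * Real.log n + -(19/10 : ℝ) * d) ≤ Real.exp (-1 : ℝ) := by
    apply Real.exp_le_exp.2
    linarith
  have h19 : Real.exp (-1 : ℝ) < 1 / 2 := by
    rw [Real.exp_neg, inv_eq_one_div]
    apply one_div_lt_one_div_of_lt (by norm_num)
    have := Real.exp_one_gt_d9
    linarith
  linarith

/-- (ii) number of common neighbours -/
theorem fm_codeg (H : SimpleGraph W) [DecidableRel H.Adj] {q : ℝ} (hq : 0 ≤ q) (hn : 2 ≤ n)
    (hW : Fintype.card W ≤ n) (hFM : FMom n H q) (T : Finset W) (hT : T.Nonempty) :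
    ((univ.filter (fun v : W => ∀ t ∈ T, H.Adj t v)).card : ℝ) ≤
      20 * n * q ^ T.card + T.card * Real.log n + 1 := by
  classical
  apply deg_bound hn (Finset.card_pos.2 hT) hq
  apply fm_bip H hq hW hFM
  · rw [Finset.disjoint_left]
    intro a ha ha'
    rw [Finset.mem_filter] at ha'
    exact (ha'.2 a ha).ne rfl
  · intro t ht a ha
    rw [Finset.mem_filter] at ha
    exact ha.2 t ht

end Crest.TG.FM
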