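import Crest.Agent.KK_Push
import Crest.Agent.KK_Pr
import Crest.Agent.KK_D2
import Crest.Prelude.Def_CopyThreshold

/-! Labelling calculus for S0073 (helper27). -/

set_option autoImplicit false

namespace Crest.TG.Label
open Finset Crest.CombinatoricsR.RandomGraph

/-- the piece `K` is contained in the binomial random graph with probability at least 1/2 -/
def PieceOK (n : ℕ) (p : ℝ) {W : Type} (K : SimpleGraph W) : Prop :=
  1 / 2 ≤ gnpProb n p {G | K.IsContained G}

/-- the edges of `H` with label `i` -/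
def part {W : Type} (H : SimpleGraph W) {ι : Type} (lab : Sym2 W → ι) (i : ι) : SimpleGraph W where
  Adj u v := H.Adj u v ∧ lab s(u, v) = i
  symm := ⟨fun u v h => ⟨h.1.symm, by rw [Sym2.eq_swap]; exact h.2⟩⟩
  loopless := ⟨fun u h => H.loopless.irrefl u h.1⟩

/-- `H` has a labelling with `k` labels all of whose pieces are OK -/
def LabelOK (n : ℕ) (p : ℝ) (k : ℕ) {W : Type} (H : SimpleGraph W) : Prop :=
  ∃ lab : Sym2 W → Fin k, ∀ i, PieceOK n p (part H lab i)

variable {n : ℕ} {p : ℝ} {W : Type}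

theorem piece_eq_part {k : ℕ} (H : SimpleGraph W) (lab : Sym2 W → Fin k) (i : Fin k) :
    pieceGraph H (fun e => lab e.1) i = part H lab i := by
  ext u v
  unfold pieceGraph part
  rw [SimpleGraph.fromEdgeSet_adj]
  constructor
  · rintro ⟨⟨h, hl⟩, _⟩
    exact ⟨h, hl⟩
  · rintro ⟨h, hl⟩
    exact ⟨⟨h, hl⟩, h.ne⟩

/-- the conclusion needed in `TG6.frame` -/
theorem LabelOK.to_piece {k : ℕ} {H : SimpleGraph W} (h : LabelOK n p k H) :
    ∃ c : H.edgeSet → Fin k, ∀ i : Fin k,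
      1 / 2 ≤ gnpProb n p {G | (pieceGraph H c i).IsContained G} := by
  obtain ⟨lab, hl⟩ := h
  refine ⟨fun e => lab e.1, fun i => ?_⟩
  rw [piece_eq_part]
  exact hl i

theorem LabelOK.of_piece {k : ℕ} (hk : 0 < k) {H : SimpleGraph W} (c : H.edgeSet → Fin k)
    (hc : ∀ i : Fin k, 1 / 2 ≤ gnpProb n p {G | (pieceGraph H c i).IsContained G}) :
    LabelOK n p k H := by
  classical
  refine ⟨fun e => if h : e ∈ H.edgeSet then c ⟨e, h⟩ else ⟨0, hk⟩, fun i => ?_⟩
  have : part H (fun e => if h : e ∈ H.edgeSet then c ⟨e, h⟩ else ⟨0, hk⟩) i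
      = pieceGraph H c i := by
    ext u v
    unfold pieceGraph part
    rw [SimpleGraph.fromEdgeSet_adj]
    constructor
    · rintro ⟨h, hl⟩
      have h' : s(u, v) ∈ H.edgeSet := h
      simp only [h', dif_pos] at hl
      exact ⟨⟨h', hl⟩, h.ne⟩
    · rintro ⟨⟨h, hl⟩, _⟩
      refine ⟨h, ?_⟩
      simp only [h, dif_pos]
      exact hl
  unfold PieceOK
  rw [this]
  exact hc i

/-! ### monotonicity -/

theorem bw_nonneg {X : Type} [Fintype X] (p : ℝ) (hp0 : 0 ≤ p) (hp1 : p ≤ 1) (ω : X → Bool) :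
    0 ≤ Crest.FinProb.bernoulliWeight p ω := by
  unfold Crest.FinProb.bernoulliWeight
  refine prod_nonneg fun x _ => ?_
  split_ifs
  · exact hp0
  · linarith

theorem gnp_mono_event (hp0 : 0 ≤ p) (hp1 : p ≤ 1) {E F : Set (SimpleGraph (Fin n))}
    (h : E ⊆ F) : gnpProb n p E ≤ gnpProb n p F := by
  classical
  unfold gnpProb Crest.FinProb.bernoulliProb
  apply sum_le_sum_of_subset_of_nonneg
  · intro ω hω
    rw [mem_filter] at hω ⊢
    exact ⟨hω.1, h hω.2⟩
  · intro ω _ _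
    exact bw_nonneg p hp0 hp1 ω

theorem gnp_mono_p {p' : ℝ} (hp0 : 0 ≤ p) (hpp : p ≤ p') (hp1 : p' ≤ 1)
    (K : SimpleGraph W) :
    gnpProb n p {G | K.IsContained G} ≤ gnpProb n p' {G | K.IsContained G} := by
  unfold gnpProb
  apply KK.bernoulliProb_mono p p' hp0 hpp hp1
  intro ω ω' h1 h2
  exact KK.isContained_mono K ω ω' h1 h2

theorem gnp_univ : gnpProb n p Set.univ = 1 := by
  classical
  have h1 : ∑ l : Bool, (fun b : Bool => if b then p else 1 - p) l = 1 := by
    rw [Fintype.sum_bool]; simp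
  have h := KK.sum_wt (X := EdgeSlot n) (fun b : Bool => if b then p else 1 - p) h1
  unfold gnpProb
  rw [KK.bernoulliProb_eq_Pr]
  unfold KK.Pr
  refine Eq.trans ?_ h
  refine Finset.sum_congr ?_ (fun _ _ => rfl)
  ext ω
  simp

theorem gnp_le_one (hp0 : 0 ≤ p) (hp1 : p ≤ 1) (E : Set (SimpleGraph (Fin n))) :
    gnpProb n p E ≤ 1 := by
  rw [← gnp_univ (n := n) (p := p)]
  exact gnp_mono_event hp0 hp1 (Set.subset_univ E)

theorem PieceOK.anti (hp0 : 0 ≤ p) (hp1 : p ≤ 1) {K K' : SimpleGraph W} (h : K ≤ K')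
    (hK : PieceOK n p K') : PieceOK n p K := by
  refine le_trans hK (gnp_mono_event hp0 hp1 ?_)
  intro G hG
  exact SimpleGraph.IsContained.mono_left h hG

theorem PieceOK.mono_p {p' : ℝ} (hp0 : 0 ≤ p) (hpp : p ≤ p') (hp1 : p' ≤ 1) {K : SimpleGraph W}
    (hK : PieceOK n p K) : PieceOK n p' K :=
  le_trans hK (gnp_mono_p hp0 hpp hp1 K)

theorem LabelOK.anti (hp0 : 0 ≤ p) (hp1 : p ≤ 1) {k : ℕ} {H H' : SimpleGraph W} (h : H ≤ H')
    (hK : LabelOK n p k H') : LabelOK n p k H := by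
  obtain ⟨lab, hl⟩ := hK
  refine ⟨lab, fun i => (hl i).anti hp0 hp1 ?_⟩
  intro u v huv
  exact ⟨h huv.1, huv.2⟩

theorem LabelOK.mono_p {p' : ℝ} (hp0 : 0 ≤ p) (hpp : p ≤ p') (hp1 : p' ≤ 1) {k : ℕ}
    {H : SimpleGraph W} (hK : LabelOK n p k H) : LabelOK n p' k H := by
  obtain ⟨lab, hl⟩ := hK
  exact ⟨lab, fun i => (hl i).mono_p hp0 hpp hp1⟩

theorem PieceOK.label {K : SimpleGraph W} (hK : PieceOK n p K) : LabelOK n p 1 K := by
  refine ⟨fun _ => 0, fun i => ?_⟩
  have : part K (fun _ => (0 : Fin 1)) i = K := by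
    ext u v
    unfold part
    simp [Subsingleton.elim (0 : Fin 1) i]
  rw [this]
  exact hK

/-! ### containment by a partial injection -/

/-- extension of a partial injection defined on the non-isolated vertices -/
theorem isContained_of_inj [Fintype W] [DecidableEq W] (hW : Fintype.card W ≤ n) (K : SimpleGraph W)
    (S : Finset W) (hS : ∀ u v, K.Adj u v → u ∈ S) (G : SimpleGraph (Fin n)) (φ : W → Fin n)
    (hφ : Set.InjOn φ S) (hadj : ∀ u v, K.Adj u v → G.Adj (φ u) (φ v)) : K.IsContained G := by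
  classical
  have h1 : (S.image φ).card ≤ Fintype.card W := by
    rw [card_image_of_injOn hφ]
    exact card_le_univ S
  obtain ⟨T, hT1, -, hT2⟩ := exists_subsuperset_card_eq (subset_univ (S.image φ)) h1
    (by rw [card_univ, Fintype.card_fin]; exact hW)
  obtain ⟨g, hg⟩ := Set.MapsTo.exists_equiv_extend_of_card_eq (t := T) hT2.symm
    (s := (S : Set W)) (f := φ) (by
      intro x hx
      exact hT1 (mem_image_of_mem φ hx)) hφ
  refine ⟨⟨⟨fun w => (g w : Fin n), ?_⟩, ?_⟩⟩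
  · intro u v huv
    have hu := hg u (hS u v huv)
    have hv := hg v (hS v u huv.symm)
    show G.Adj (g u : Fin n) (g v : Fin n)
    rw [hu, hv]
    exact hadj u v huv
  · intro u v huv
    have : (g u : Fin n) = (g v : Fin n) := huv
    exact g.injective (Subtype.ext this)

theorem bot_ok [Fintype W] [DecidableEq W] (hW : Fintype.card W ≤ n) :
    PieceOK n p (⊥ : SimpleGraph W) := by
  unfold PieceOK
  have h : {G : SimpleGraph (Fin n) | (⊥ : SimpleGraph W).IsContained G} = Set.univ := by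
    ext G
    simp only [Set.mem_setOf_eq, Set.mem_univ, iff_true]
    rcases Nat.eq_zero_or_pos n with h0 | h0
    · subst h0
      have : IsEmpty W := by
        rw [← Fintype.card_eq_zero_iff]; omega
      exact ⟨⟨⟨fun w => (this.false w).elim, fun {u} => (this.false u).elim⟩,
        fun u => (this.false u).elim⟩⟩
    · refine isContained_of_inj hW ⊥ ∅ (fun u v h => (by simpa using h)) G
        (fun _ => ⟨0, h0⟩) (by simp) (fun u v h => (by simpa using h))
  rw [h, gnp_univ]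
  norm_num

theorem LabelOK.pad [Fintype W] [DecidableEq W] (hW : Fintype.card W ≤ n) {k k' : ℕ} (hk : k ≤ k')
    {H : SimpleGraph W} (h : LabelOK n p k H) : LabelOK n p k' H := by
  obtain ⟨lab, hl⟩ := h
  refine ⟨fun e => Fin.castLE hk (lab e), fun i => ?_⟩
  by_cases hi : (i : ℕ) < k
  · have : part H (fun e => Fin.castLE hk (lab e)) i = part H lab ⟨i, hi⟩ := by
      ext u v
      show (_ ∧ _) ↔ (_ ∧ _)
      refine and_congr_right fun _ => ?_
      rw [Fin.ext_iff, Fin.ext_iff]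
      rfl
    rw [this]
    exact hl _
  · have : part H (fun e => Fin.castLE hk (lab e)) i = ⊥ := by
      ext u v
      simp only [SimpleGraph.bot_adj, iff_false]
      rintro ⟨_, h2⟩
      apply hi
      rw [← h2]
      exact (lab s(u, v)).isLt
    rw [this]
    exact bot_ok hW

theorem LabelOK.bot [Fintype W] [DecidableEq W] (hW : Fintype.card W ≤ n) {k : ℕ} (hk : 1 ≤ k) :
    LabelOK n p k (⊥ : SimpleGraph W) :=
  (bot_ok hW).label.pad hW hk

/-! ### refinement and unions -/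

theorem LabelOK.refine {a b : ℕ} {H : SimpleGraph W} (lab : Sym2 W → Fin a)
    (h : ∀ i, LabelOK n p b (part H lab i)) : LabelOK n p (a * b) H := by
  choose lab' hl using h
  refine ⟨fun e => finProdFinEquiv (lab e, lab' (lab e) e), fun x => ?_⟩
  obtain ⟨⟨i, j⟩, rfl⟩ := finProdFinEquiv.surjective x
  have : part H (fun e => finProdFinEquiv (lab e, lab' (lab e) e)) (finProdFinEquiv (i, j))
      = part (part H lab i) (lab' i) j := by
    ext u v
    show (_ ∧ _) ↔ ((_ ∧ _) ∧ _)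
    rw [finProdFinEquiv.injective.eq_iff, Prod.mk.injEq, and_assoc]
    refine and_congr_right fun _ => ?_
    constructor
    · rintro ⟨h1, h2⟩
      refine ⟨h1, ?_⟩
      rw [← h1]
      exact h2
    · rintro ⟨h1, h2⟩
      refine ⟨h1, ?_⟩
      rw [h1]
      exact h2
  rw [this]
  exact hl i j

/-- `H` is covered by the graphs `K j`, each with a good labelling with `b` labels. -/
theorem LabelOK.of_cover (hp0 : 0 ≤ p) (hp1 : p ≤ 1) {a b : ℕ} {H : SimpleGraph W}
    (ha : 0 < a) (K : Fin a → SimpleGraph W)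
    (hc : ∀ u v, H.Adj u v → ∃ j, (K j).Adj u v) (h : ∀ j, LabelOK n p b (K j)) :
    LabelOK n p (a * b) H := by
  classical
  let lab : Sym2 W → Fin a := fun e =>
    if h : ∃ j, e ∈ (K j).edgeSet then h.choose else ⟨0, ha⟩
  refine LabelOK.refine lab fun i => (h i).anti hp0 hp1 ?_
  intro u v huv
  obtain ⟨h1, h2⟩ := huv
  have h3 : ∃ j, s(u, v) ∈ (K j).edgeSet := hc u v h1
  have h4 : lab s(u, v) = h3.choose := dif_pos h3
  have h5 := h3.choose_spec
  rw [← h4, h2] at h5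
  exact h5

theorem LabelOK.of_cover' (hp0 : 0 ≤ p) (hp1 : p ≤ 1) {b : ℕ} {H : SimpleGraph W}
    {J : Type} [Fintype J] [Nonempty J] (K : J → SimpleGraph W)
    (hc : ∀ u v, H.Adj u v → ∃ j, (K j).Adj u v) (h : ∀ j, LabelOK n p b (K j)) :
    LabelOK n p (Fintype.card J * b) H := by
  classical
  let e := Fintype.equivFin J
  refine LabelOK.of_cover hp0 hp1 Fintype.card_pos (fun i => K (e.symm i)) ?_ (fun i => h _)
  intro u v huv
  obtain ⟨j, hj⟩ := hc u v huv
  exact ⟨e j, by simpa using hj⟩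

/-- two types -/
theorem LabelOK.sup (hp0 : 0 ≤ p) (hp1 : p ≤ 1) [Fintype W] [DecidableEq W]
    (hW : Fintype.card W ≤ n) {a b : ℕ} {H K1 K2 : SimpleGraph W}
    (hc : H ≤ K1 ⊔ K2) (h1 : LabelOK n p a K1) (h2 : LabelOK n p b K2) :
    LabelOK n p (a + b) H := by
  classical
  obtain ⟨l1, h1⟩ := h1
  obtain ⟨l2, h2⟩ := h2
  let lab : Sym2 W → Fin (a + b) := fun e =>
    if e ∈ K1.edgeSet then Fin.castAdd b (l1 e) else Fin.natAdd a (l2 e)
  refine ⟨lab, fun i => ?_⟩
  rcases Fin.addCases (motive := fun i => (∃ j, i = Fin.castAdd b j) ∨ (∃ j, i = Fin.natAdd a j))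
    (fun j => Or.inl ⟨j, rfl⟩) (fun j => Or.inr ⟨j, rfl⟩) i with ⟨j, rfl⟩ | ⟨j, rfl⟩
  · refine (h1 j).anti hp0 hp1 ?_
    intro u v huv
    obtain ⟨h3, h4⟩ := huv
    by_cases h5 : s(u, v) ∈ K1.edgeSet
    · have h6 : lab s(u, v) = Fin.castAdd b (l1 s(u, v)) := if_pos h5
      rw [h6] at h4
      exact ⟨h5, Fin.castAdd_injective _ _ h4⟩
    · have h6 : lab s(u, v) = Fin.natAdd a (l2 s(u, v)) := if_neg h5
      rw [h6] at h4
      exfalso
      have := congrArg Fin.val h4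
      simp only [Fin.val_natAdd, Fin.val_castAdd] at this
      have := j.isLt
      omega
  · refine (h2 j).anti hp0 hp1 ?_
    intro u v huv
    obtain ⟨h3, h4⟩ := huv
    by_cases h5 : s(u, v) ∈ K1.edgeSet
    · have h6 : lab s(u, v) = Fin.castAdd b (l1 s(u, v)) := if_pos h5
      rw [h6] at h4
      exfalso
      have := congrArg Fin.val h4
      simp only [Fin.val_natAdd, Fin.val_castAdd] at this
      have := (l1 s(u, v)).isLt
      omega
    · have h6 : lab s(u, v) = Fin.natAdd a (l2 s(u, v)) := if_neg h5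
      rw [h6] at h4
      have h7 : (K1 ⊔ K2).Adj u v := hc h3
      rw [SimpleGraph.sup_adj] at h7
      rcases h7 with h7 | h7
      · exact absurd h7 h5
      · exact ⟨h7, Fin.natAdd_injective _ _ h4⟩

/-! ### graphs given by parent sets -/

/-- the graph with edges `{v, u}`, `u ∈ B v` -/
def orient (B : W → Finset W) : SimpleGraph W where
  Adj u v := u ≠ v ∧ (u ∈ B v ∨ v ∈ B u)
  symm := ⟨fun _ _ h => ⟨h.1.symm, h.2.symm⟩⟩
  loopless := ⟨fun _ h => h.1 rfl⟩

theorem orient_le {B B' : W → Finset W} (h : ∀ v, B v ⊆ B' v) : orient B ≤ orient B' := by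
  intro u v huv
  exact ⟨huv.1, huv.2.imp (fun h1 => h v h1) (fun h1 => h u h1)⟩

/-- splitting the parent sets -/
theorem LabelOK.of_split (hp0 : 0 ≤ p) (hp1 : p ≤ 1) {b : ℕ} {H : SimpleGraph W}
    {J : Type} [Fintype J] [Nonempty J] (B : W → Finset W) (B' : J → W → Finset W)
    (hH : ∀ u v, H.Adj u v → u ∈ B v ∨ v ∈ B u)
    (hB : ∀ v, ∀ u ∈ B v, ∃ j, u ∈ B' j v) (h : ∀ j, LabelOK n p b (orient (B' j))) :
    LabelOK n p (Fintype.card J * b) H := by
  refine LabelOK.of_cover' hp0 hp1 (fun j => orient (B' j)) ?_ h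
  intro u v huv
  rcases hH u v huv with h1 | h1
  · obtain ⟨j, hj⟩ := hB v u h1
    exact ⟨j, huv.ne, Or.inl hj⟩
  · obtain ⟨j, hj⟩ := hB u v h1
    exact ⟨j, huv.ne, Or.inr hj⟩

/-! ### choice of a labelling by the union bound -/

theorem exists_good {Λ I : Type*} [Fintype Λ] [Fintype I] (lam : Λ → ℝ) (h0 : ∀ l, 0 ≤ lam l)
    (h1 : ∑ l, lam l = 1) (f : Λ → I → ℝ) (hf : ∀ l i, f l i ≤ 1) (ε : I → ℝ)
    (h : ∀ i, 1 - ε i ≤ ∑ l, lam l * f l i) (hε : ∑ i, ε i < 1 / 2) :
    ∃ l, ∀ i, 1 / 2 ≤ f l i := by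
  classical
  by_contra hcon
  push Not at hcon
  have h2 : ∀ l, 1 / 2 ≤ ∑ i, (1 - f l i) := by
    intro l
    obtain ⟨i, hi⟩ := hcon l
    calc (1 / 2 : ℝ) ≤ 1 - f l i := by linarith
      _ ≤ ∑ i, (1 - f l i) := single_le_sum (f := fun i => 1 - f l i)
          (fun j _ => by linarith [hf l j]) (mem_univ i)
  have h3 : (1 / 2 : ℝ) ≤ ∑ l, lam l * ∑ i, (1 - f l i) := by
    calc (1 / 2 : ℝ) = ∑ l, lam l * (1 / 2) := by rw [← sum_mul, h1, one_mul]
      _ ≤ _ := sum_le_sum fun l _ => mul_le_mul_of_nonneg_left (h2 l) (h0 l)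
  have h4 : ∑ l, lam l * ∑ i, (1 - f l i) = ∑ i, (1 - ∑ l, lam l * f l i) := by
    simp_rw [mul_sum]
    rw [sum_comm]
    refine sum_congr rfl fun i _ => ?_
    have h6 : ∀ l, lam l * (1 - f l i) = lam l - lam l * f l i := fun l => by ring
    rw [sum_congr rfl (fun l _ => h6 l), sum_sub_distrib, h1]
  rw [h4] at h3
  have h5 : ∑ i, (1 - ∑ l, lam l * f l i) ≤ ∑ i, ε i :=
    sum_le_sum fun i _ => by linarith [h i]
  linarith

end Crest.TG.Label
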