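import Crest.Agent.TG8_Gamma
import Crest.Agent.TG_Label
import Crest.Agent.TG96_Sub
import Crest.Agent.TG13_Spread
import Crest.Agent.TG73_Split
import Crest.Agent.TG_FM

/-! S0073 dense range: GREEDY and GAMMA imply DENSE (insurance copy, helper37). -/

set_option autoImplicit false

namespace Crest.TG37D
open Finset Crest.CombinatoricsR.RandomGraph Crest.TG.Label

theorem num : ∃ n0 : ℕ, ∀ n : ℕ, n0 ≤ n → ∀ (w d J : ℕ), w ≤ n →
    (d : ℝ) ≤ (n : ℝ) ^ (1 / 100 : ℝ) →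
    J * ⌊(n : ℝ) ^ (19 / 20 : ℝ)⌋₊ ≤ 2 * d * w →
    (J : ℝ) ≤ (n : ℝ) ^ (1 / 10 : ℝ) ∧ 64 * (w / 128 + 1) ≤ n ∧
    ∃ T : ℕ, 2 * (w / 128 + 1) +
      (d / 400 + 1) * max ⌊(n : ℝ) ^ (19 / 20 : ℝ)⌋₊ (J + d) * T + T ≤ n ∧
      ∀ x : ℝ, (n : ℝ) ^ (-(1 / 100) : ℝ) ≤ x → x ≤ 1 →
        ((2 * (w / 128 + 1) : ℕ) : ℝ) * (1 - x) ^ T ≤ 1 / 2 := by
  have hlim : Filter.Tendsto (fun y : ℝ => y ^ 100 * Real.exp (-y)) Filter.atTop (nhds 0) :=
    Real.tendsto_pow_mul_exp_neg_atTop_nhds_zero 100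
  have hev : ∀ᶠ y : ℝ in Filter.atTop, y ^ 100 * Real.exp (-y) < 1 / 2 :=
    hlim.eventually (gt_mem_nhds (by norm_num))
  obtain ⟨Y0, hY0⟩ := Filter.eventually_atTop.1 hev
  have hn : ∀ᶠ n : ℕ in Filter.atTop, max Y0 64 ≤ ((n : ℝ)) ^ (1 / 100 : ℝ) :=
    ((tendsto_rpow_atTop (by norm_num : (0 : ℝ) < 1 / 100)).comp
      tendsto_natCast_atTop_atTop).eventually_ge_atTop _
  obtain ⟨n0, hn0⟩ := Filter.eventually_atTop.1 hn
  refine ⟨max n0 256, fun n hn w d J hw hd hJ => ?_⟩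
  have h256 : 256 ≤ n := le_trans (le_max_right _ _) hn
  have hy := hn0 n (le_trans (le_max_left _ _) hn)
  set y : ℝ := (n : ℝ) ^ (1 / 100 : ℝ) with hydef
  have hyY : Y0 ≤ y := le_trans (le_max_left _ _) hy
  have hy64 : 64 ≤ y := le_trans (le_max_right _ _) hy
  have hn0' : (0 : ℝ) ≤ n := Nat.cast_nonneg n
  have hpow : ∀ k : ℕ, y ^ k = (n : ℝ) ^ ((k : ℝ) / 100) := by
    intro k
    rw [hydef, ← Real.rpow_natCast, ← Real.rpow_mul hn0']
    congr 1
    ring
  have e100 : y ^ 100 = n := by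
    rw [hpow 100]; norm_num
  have e95 : (n : ℝ) ^ (19 / 20 : ℝ) = y ^ 95 := by
    rw [hpow 95]; norm_num
  have e10 : (n : ℝ) ^ (1 / 10 : ℝ) = y ^ 10 := by
    rw [hpow 10]; norm_num
  have eneg : (n : ℝ) ^ (-(1 / 100) : ℝ) = y⁻¹ := by
    rw [Real.rpow_neg hn0', ← hydef]
  have hy0 : 0 < y := by linarith
  have hy1 : 1 ≤ y := by linarith
  rw [e95] at hJ ⊢
  rw [e10, eneg]
  have hfl : (⌊y ^ 95⌋₊ : ℝ) ≤ y ^ 95 := Nat.floor_le (by positivity)
  have hfl2 : y ^ 95 < (⌊y ^ 95⌋₊ : ℝ) + 1 := Nat.lt_floor_add_one _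
  have h95 : 1 ≤ y ^ 95 := one_le_pow₀ hy1
  have h95' : 64 ≤ y ^ 95 := by
    calc (64 : ℝ) ≤ y := hy64
      _ = y ^ 1 := (pow_one y).symm
      _ ≤ y ^ 95 := pow_le_pow_right₀ hy1 (by norm_num)
  have hwR : (w : ℝ) ≤ y ^ 100 := by rw [e100]; exact_mod_cast hw
  have hJR : (J : ℝ) * (⌊y ^ 95⌋₊ : ℝ) ≤ 2 * d * w := by exact_mod_cast hJ
  have hJ6 : (J : ℝ) ≤ 4 * y ^ 6 := by
    have h1 : (J : ℝ) * (y ^ 95 / 2) ≤ 2 * y * y ^ 100 := by
      calc (J : ℝ) * (y ^ 95 / 2) ≤ (J : ℝ) * (⌊y ^ 95⌋₊ : ℝ) := by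
            apply mul_le_mul_of_nonneg_left _ (Nat.cast_nonneg _)
            linarith
        _ ≤ 2 * d * w := hJR
        _ ≤ 2 * y * y ^ 100 := by
            apply mul_le_mul _ hwR (Nat.cast_nonneg _) (by positivity)
            linarith
    have h2 : 2 * y * y ^ 100 = (4 * y ^ 6) * (y ^ 95 / 2) := by ring
    rw [h2] at h1
    exact le_of_mul_le_mul_right h1 (by positivity)
  have h4 : (4 : ℝ) ≤ y ^ 4 := by
    calc (4 : ℝ) ≤ y := by linarith
      _ = y ^ 1 := (pow_one y).symm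
      _ ≤ y ^ 4 := pow_le_pow_right₀ hy1 (by norm_num)
  have hJ10 : (J : ℝ) ≤ y ^ 10 := by
    calc (J : ℝ) ≤ 4 * y ^ 6 := hJ6
      _ ≤ y ^ 4 * y ^ 6 := by
          apply mul_le_mul_of_nonneg_right h4 (by positivity)
      _ = y ^ 10 := by ring
  refine ⟨hJ10, by omega, ⌈y ^ 2⌉₊, ?_, ?_⟩
  · have hT : (⌈y ^ 2⌉₊ : ℝ) ≤ y ^ 2 + 1 := (Nat.ceil_lt_add_one (by positivity)).le
    have hT2 : (⌈y ^ 2⌉₊ : ℝ) ≤ 2 * y ^ 2 := by
      have : 1 ≤ y ^ 2 := one_le_pow₀ hy1
      linarith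
    have hD : ((d / 400 + 1 : ℕ) : ℝ) ≤ 2 * y := by
      have h1 : ((d / 400 : ℕ) : ℝ) ≤ d := by exact_mod_cast Nat.div_le_self d 400
      push_cast
      have : ((d / 400 : ℕ) : ℝ) + 1 ≤ y + y := by linarith
      linarith
    have hmax : ((max ⌊y ^ 95⌋₊ (J + d) : ℕ) : ℝ) ≤ y ^ 95 := by
      push_cast
      apply max_le hfl
      have h1 : y ^ 10 + y ≤ y ^ 95 := by
        have a1 : y ≤ y ^ 10 := by
          calc y = y ^ 1 := (pow_one y).symm
            _ ≤ y ^ 10 := pow_le_pow_right₀ hy1 (by norm_num)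
        have a2 : 2 * y ^ 10 ≤ y * y ^ 10 := mul_le_mul_of_nonneg_right (by linarith) (by positivity)
        have a3 : y * y ^ 10 = y ^ 11 := by ring
        have a4 : y ^ 11 ≤ y ^ 95 := pow_le_pow_right₀ hy1 (by norm_num)
        linarith
      linarith
    have hprod : ((d / 400 + 1 : ℕ) : ℝ) * ((max ⌊y ^ 95⌋₊ (J + d) : ℕ) : ℝ) * (⌈y ^ 2⌉₊ : ℝ)
        ≤ 4 * y ^ 98 := by
      calc ((d / 400 + 1 : ℕ) : ℝ) * ((max ⌊y ^ 95⌋₊ (J + d) : ℕ) : ℝ) * (⌈y ^ 2⌉₊ : ℝ)
          ≤ (2 * y) * y ^ 95 * (2 * y ^ 2) := by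
            apply mul_le_mul _ hT2 (Nat.cast_nonneg _) (by positivity)
            exact mul_le_mul hD hmax (Nat.cast_nonneg _) (by positivity)
        _ = 4 * y ^ 98 := by ring
    have hw128 : ((w / 128 : ℕ) : ℝ) ≤ y ^ 100 / 128 := by
      have : ((w / 128 : ℕ) : ℝ) ≤ (w : ℝ) / 128 := by
        have := Nat.cast_div_le (α := ℝ) (m := w) (n := 128)
        simpa using this
      linarith
    have b1 : y ^ 98 * 64 ≤ y ^ 100 := by
      have : y ^ 100 = y ^ 98 * (y * y) := by ring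
      rw [this]
      apply mul_le_mul_of_nonneg_left _ (by positivity)
      nlinarith
    have b2 : y ^ 2 ≤ y ^ 98 := pow_le_pow_right₀ hy1 (by norm_num)
    have b3 : (1 : ℝ) ≤ y ^ 98 := one_le_pow₀ hy1
    have : ((2 * (w / 128 + 1) + (d / 400 + 1) * max ⌊y ^ 95⌋₊ (J + d) * ⌈y ^ 2⌉₊ + ⌈y ^ 2⌉₊ : ℕ) : ℝ)
        ≤ (n : ℝ) := by
      rw [← e100]
      have hc : ((2 * (w / 128 + 1) + (d / 400 + 1) * max ⌊y ^ 95⌋₊ (J + d) * ⌈y ^ 2⌉₊ + ⌈y ^ 2⌉₊ : ℕ) : ℝ)
          = 2 * (((w / 128 : ℕ) : ℝ) + 1) + ((d / 400 + 1 : ℕ) : ℝ) *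
            ((max ⌊y ^ 95⌋₊ (J + d) : ℕ) : ℝ) * (⌈y ^ 2⌉₊ : ℝ) + (⌈y ^ 2⌉₊ : ℝ) := by
        push_cast
        ring
      rw [hc]
      linarith
    exact_mod_cast this
  · intro x hx hx1
    have hT : y ^ 2 ≤ (⌈y ^ 2⌉₊ : ℝ) := Nat.le_ceil _
    have hx0 : 0 < x := lt_of_lt_of_le (by positivity) hx
    have h1 : (1 - x) ^ ⌈y ^ 2⌉₊ ≤ Real.exp (-y) := by
      have a1 : 1 - x ≤ Real.exp (-x) := by
        have := Real.add_one_le_exp (-x)
        linarith
      calc (1 - x) ^ ⌈y ^ 2⌉₊ ≤ (Real.exp (-x)) ^ ⌈y ^ 2⌉₊ :=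
            pow_le_pow_left₀ (by linarith) a1 _
        _ = Real.exp (-(x * (⌈y ^ 2⌉₊ : ℝ))) := by
            rw [← Real.exp_nat_mul]
            congr 1
            ring
        _ ≤ Real.exp (-y) := by
            apply Real.exp_le_exp.2
            have : y ≤ x * (⌈y ^ 2⌉₊ : ℝ) := by
              calc y = y⁻¹ * y ^ 2 := by field_simp
                _ ≤ x * (⌈y ^ 2⌉₊ : ℝ) := mul_le_mul hx hT (by positivity) hx0.le
            linarith
    have h2 : ((2 * (w / 128 + 1) : ℕ) : ℝ) ≤ y ^ 100 := by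
      rw [e100]
      have : 2 * (w / 128 + 1) ≤ n := by omega
      exact_mod_cast this
    calc ((2 * (w / 128 + 1) : ℕ) : ℝ) * (1 - x) ^ ⌈y ^ 2⌉₊
        ≤ y ^ 100 * Real.exp (-y) :=
          mul_le_mul h2 h1 (pow_nonneg (by linarith) _) (by positivity)
      _ ≤ 1 / 2 := (hY0 y hyY).le

theorem dense_of (hg : Crest.TG8.GREEDY) (hgam : Crest.TG8.GAMMA) : Crest.TG8.DENSE := by
  obtain ⟨m, hm, L0, hL0, n1, hG⟩ := hgam
  obtain ⟨n2, hord⟩ := Crest.TG96.order_exists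
  obtain ⟨n3, hspr⟩ := Crest.TG13.hub_spread
  obtain ⟨n4, hnum⟩ := num
  refine ⟨(Fintype.card (Bool × Fin 400 × Fin 128 × Fin 128)) * m, ?_, L0, hL0,
    max (max n1 n2) (max n3 n4), ?_⟩
  · have : 0 < Fintype.card (Bool × Fin 400 × Fin 128 × Fin 128) := Fintype.card_pos
    exact Nat.mul_pos this hm
  intro n hn2 hn W _ _ H _ hW hH q hq hLq hqn hFM
  classical
  have hn1' : n1 ≤ n := by omega
  have hn2' : n2 ≤ n := by omega
  have hn3' : n3 ≤ n := by omega
  have hn4' : n4 ≤ n := by omega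
  have hq2 : q ≤ 1 / 2 := by nlinarith
  have hP0 : 0 ≤ L0 * q := by positivity
  have hP1 : L0 * q ≤ 1 := hLq.le
  have hqP : q ≤ L0 * q := by nlinarith
  obtain ⟨e0⟩ : Nonempty (W ↪ Fin n) :=
    Function.Embedding.nonempty_of_card_le (by simpa using hW)
  have hden := fun U => Crest.TG.FM.fm_density H hq.le hW hFM U
  obtain ⟨d, σ, hback, hqd, hd⟩ := hord n hn2' W H q hq hq2 hqn (fun U _ => hden U)
  have hinj : Function.Injective (fun v => ((σ v : Fin _) : ℕ)) := by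
    intro a b hab
    exact σ.injective (Fin.ext hab)
  have hback' : ∀ v, (univ.filter (fun u => H.Adj v u ∧
      (fun v => ((σ v : Fin _) : ℕ)) u < (fun v => ((σ v : Fin _) : ℕ)) v)).card ≤ d := hback
  set Δ := ⌊(n : ℝ) ^ (19 / 20 : ℝ)⌋₊ with hΔ
  set J := univ.filter (fun v => Δ < (univ.filter (fun u => H.Adj v u)).card) with hJ
  have hhub := Crest.TG73.hub_card H (fun v => ((σ v : Fin _) : ℕ)) hinj d Δ hback'
  obtain ⟨hJ10, h64, T, hT, hTx⟩ := hnum n hn4' (Fintype.card W) d J.card hW hd hhub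
  rw [← hΔ] at hT
  obtain ⟨lab, hlab⟩ := Crest.TG73.dense_split H (fun v => ((σ v : Fin _) : ℕ)) hinj d Δ 400 128
    (by norm_num) (by norm_num) hback' J hJ
  let E := Fintype.equivFin (Bool × Fin 400 × Fin 128 × Fin 128)
  have key : LabelOK n (L0 * q)
      ((Fintype.card (Bool × Fin 400 × Fin 128 × Fin 128)) * m) H := by
    apply LabelOK.refine (fun e => E (lab e))
    intro i
    obtain ⟨⟨t, a, b, c⟩, rfl⟩ := E.surjective i
    have hadj : ∀ u v, (part H (fun e => E (lab e)) (E (t, a, b, c))).Adj u v ↔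
        (H.Adj u v ∧ lab s(u, v) = (t, a, b, c)) := by
      intro u v
      unfold part
      simp only
      rw [E.injective.eq_iff]
    set F := part H (fun e => E (lab e)) (E (t, a, b, c)) with hF
    obtain ⟨h1, h2, h3, h4, h5, h6⟩ := hlab a b c
    cases t with
    | false =>
      have hE : ∀ u v, F.Adj u v → (u ∈ J ∧ v ∉ J) ∨ (u ∉ J ∧ v ∈ J) := by
        intro u v huv
        rw [hadj] at huv
        rcases h4 u v huv.1 huv.2 with ⟨x1, x2, _⟩ | ⟨x1, x2, _⟩
        · exact Or.inr ⟨x2, x1⟩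
        · exact Or.inl ⟨x1, x2⟩
      have hY : ∀ v, v ∉ J → (univ.filter (fun u => F.Adj v u)).card ≤ d / 400 + 1 := by
        intro v hv
        refine le_trans (Finset.card_le_card ?_) (h5 v hv)
        intro u hu
        rw [Finset.mem_filter] at hu ⊢
        exact ⟨hu.1, (hadj v u).1 hu.2⟩
      have hN : 64 * (univ.filter (fun v => v ∉ J ∧ ∃ u, F.Adj v u)).card ≤ n := by
        refine le_trans (Nat.mul_le_mul_left 64 (le_trans (Finset.card_le_card ?_) h6)) h64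
        intro v hv
        rw [Finset.mem_filter] at hv ⊢
        obtain ⟨u, hu⟩ := hv.2.2
        exact ⟨hv.1, hv.2.1, u, (hadj v u).1 hu⟩
      have hS : ∀ S : Finset W, S.Nonempty →
          ((univ.filter (fun v => v ∉ J ∧ ∀ u ∈ S, F.Adj v u)).card : ℝ) ≤
            20 * n * q ^ S.card := by
        intro S hSne
        have h7 := hspr n hn3' H e0 q hq hq2 hFM (d / 400 + 1) ?_
          (fun v => if v ∈ J then ∅ else univ.filter (fun u => F.Adj v u)) ?_ ?_ univ S hSne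
        · refine le_trans ?_ h7
          have : (univ.filter (fun v => v ∉ J ∧ ∀ u ∈ S, F.Adj v u)).card ≤
              (univ.filter (fun v => S ⊆ (if v ∈ J then ∅ else
                univ.filter (fun u => F.Adj v u)))).card := by
            apply Finset.card_le_card
            intro v hv
            rw [Finset.mem_filter] at hv ⊢
            refine ⟨hv.1, ?_⟩
            rw [if_neg hv.2.1]
            intro u hu
            rw [Finset.mem_filter]
            exact ⟨mem_univ _, hv.2.2 u hu⟩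
          exact_mod_cast this
        · refine le_trans ?_ hqd
          apply Real.rpow_le_rpow_of_exponent_le
          · have : 1 ≤ n := by omega
            exact_mod_cast this
          · norm_num
        · intro v u hu
          split_ifs at hu with hv
          · simp at hu
          · rw [Finset.mem_filter] at hu
            exact ((hadj v u).1 hu.2).1
        · intro v
          split_ifs with hv
          · simp
          · exact hY v hv
      obtain ⟨c', hc'⟩ := hG n hn1' W F J q (d / 400 + 1) hq hLq hW hE hJ10 hY hqd hN hS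
      exact LabelOK.of_piece hm c' hc'
    | true =>
      have hOK : PieceOK n (L0 * q) F := by
        set U := univ.filter (fun v => ∃ u, F.Adj v u) with hU
        have hUc : U.card ≤ 2 * (Fintype.card W / 128 + 1) := by
          refine le_trans (Finset.card_le_card ?_) h3
          intro v hv
          rw [hU, Finset.mem_filter] at hv
          rw [Finset.mem_filter]
          obtain ⟨u, hu⟩ := hv.2
          exact ⟨hv.1, u, (hadj v u).1 hu⟩
        have hgr := hg W F U (fun x z hxz => by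
            rw [hU, Finset.mem_filter]; exact ⟨mem_univ _, z, hxz⟩)
          (fun v => ((σ v : Fin _) : ℕ)) hinj n (d / 400 + 1) (max Δ (J.card + d)) T
          (fun v => by
            refine le_trans (Finset.card_le_card ?_) (h1 v)
            intro u hu
            rw [Finset.mem_filter] at hu ⊢
            exact ⟨hu.1, (hadj v u).1 hu.2.1, hu.2.2⟩)
          (fun v => by
            refine le_trans (Finset.card_le_card ?_) (h2 v)
            intro u hu
            rw [Finset.mem_filter] at hu ⊢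
            exact ⟨hu.1, (hadj v u).1 hu.2⟩)
          (L0 * q) hP0 hP1 hW (by omega)
        unfold PieceOK
        refine le_trans ?_ hgr
        have hx : (n : ℝ) ^ (-(1 / 100) : ℝ) ≤ (L0 * q) ^ (d / 400 + 1) :=
          le_trans hqd (pow_le_pow_left₀ hq.le hqP _)
        have h8 := hTx ((L0 * q) ^ (d / 400 + 1)) hx (pow_le_one₀ hP0 hP1)
        have h9 : (U.card : ℝ) * (1 - (L0 * q) ^ (d / 400 + 1)) ^ T ≤
            ((2 * (Fintype.card W / 128 + 1) : ℕ) : ℝ) * (1 - (L0 * q) ^ (d / 400 + 1)) ^ T := by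
          apply mul_le_mul_of_nonneg_right
          · exact_mod_cast hUc
          · apply pow_nonneg
            have := pow_le_one₀ hP0 hP1 (n := d / 400 + 1)
            linarith
        linarith
      exact hOK.label.pad hW hm
  exact key.to_piece

end Crest.TG37D
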