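import Mathlib

set_option autoImplicit false

/-! Depth-one step, deterministic part: skeleton lemma + Hall (helper37). -/

namespace Crest.Agent.D1

open Finset
open scoped Classical

variable {J ι κ : Type*} [Fintype J] [DecidableEq J] [Fintype ι] [DecidableEq ι]
  [Fintype κ] [DecidableEq κ]

noncomputable def wq (q : ℝ) (X : Finset J) : ℝ :=
  q ^ X.card * (1 - q) ^ (Fintype.card J - X.card)

noncomputable def mu (q : ℝ) (U : Finset J → Prop) : ℝ :=
  ∑ X : Finset J, wq q X * (if U X then 1 else 0)

def Up (S : Finset ι) (y : ι → Finset J) (R : Finset J) : Prop := ∃ v ∈ S, y v ⊆ R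

def Til (q : ℝ) (S : Finset ι) (y : ι → Finset J) (A : Finset J) : Prop :=
  1 / 2 ≤ mu q (fun R => Up S y (A ∪ R))

theorem wq_nonneg {q : ℝ} (h0 : 0 ≤ q) (h1 : q ≤ 1) (X : Finset J) : 0 ≤ wq q X :=
  mul_nonneg (pow_nonneg h0 _) (pow_nonneg (by linarith) _)

theorem wq_insert {q : ℝ} {a : J} {R : Finset J} (ha : a ∉ R) :
    (1 - q) * wq q (insert a R) = q * wq q R := by
  unfold wq
  rw [Finset.card_insert_of_notMem ha]
  have hlt : R.card < Fintype.card J := by
    have := Finset.card_lt_univ_of_notMem ha
    exact this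
  have h : Fintype.card J - R.card = (Fintype.card J - (R.card + 1)) + 1 := by omega
  rw [h]
  ring

theorem sum_split (a : J) (f : Finset J → ℝ) :
    ∑ R : Finset J, f R = ∑ R ∈ Finset.univ.filter (fun R : Finset J => a ∉ R),
      (f R + f (insert a R)) := by
  rw [Finset.sum_add_distrib]
  rw [← Finset.sum_filter_add_sum_filter_not Finset.univ (fun R : Finset J => a ∉ R)]
  congr 1
  refine Finset.sum_bij' (fun R _ => R.erase a) (fun R _ => insert a R) ?_ ?_ ?_ ?_ ?_
  · intro R hR; simp
  · intro R hR; simp
  · intro R hR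
    simp only [Finset.mem_filter, Finset.mem_univ, true_and, not_not] at hR
    exact Finset.insert_erase hR
  · intro R hR
    simp only [Finset.mem_filter, Finset.mem_univ, true_and] at hR
    exact Finset.erase_insert hR
  · intro R hR
    simp only [Finset.mem_filter, Finset.mem_univ, true_and, not_not] at hR
    rw [Finset.insert_erase hR]

theorem single (q : ℝ) (a : J) (F : Finset J → ℝ) :
    ∑ R : Finset J, wq q R * ((if a ∈ R then 1 else 0) * F R)
      = q * ∑ R : Finset J, wq q R * F (insert a R) := by
  rw [sum_split a, sum_split a (fun R => wq q R * F (insert a R)), Finset.mul_sum]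
  refine Finset.sum_congr rfl fun R hR => ?_
  simp only [Finset.mem_filter, Finset.mem_univ, true_and] at hR
  have h := wq_insert (q := q) hR
  simp only [hR, if_false, Finset.mem_insert_self, if_true, Finset.insert_idem]
  linear_combination (F (insert a R)) * h

theorem cond (q : ℝ) (A : Finset J) (F : Finset J → ℝ) :
    ∑ R : Finset J, wq q R * ((if A ⊆ R then 1 else 0) * F R)
      = q ^ A.card * ∑ R : Finset J, wq q R * F (A ∪ R) := by
  induction A using Finset.induction_on generalizing F with
  | empty => simp
  | insert a A ha ih =>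
    have h1 : ∀ R : Finset J, (if insert a A ⊆ R then (1:ℝ) else 0) * F R
        = (if A ⊆ R then 1 else 0) * ((if a ∈ R then 1 else 0) * F R) := by
      intro R
      by_cases h1 : a ∈ R <;> by_cases h2 : A ⊆ R <;>
        simp [Finset.insert_subset_iff, h1, h2]
    simp_rw [h1]
    rw [ih (fun R => (if a ∈ R then 1 else 0) * F R)]
    have h2 : ∀ R : Finset J, (if a ∈ A ∪ R then (1:ℝ) else 0) * F (A ∪ R)
        = (if a ∈ R then 1 else 0) * F (A ∪ R) := by
      intro R; simp [ha]
    simp_rw [h2]
    rw [single q a (fun R => F (A ∪ R)), Finset.card_insert_of_notMem ha]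
    have h3 : ∀ R : Finset J, A ∪ insert a R = insert a A ∪ R := by
      intro R; rw [Finset.union_insert, Finset.insert_union]
    simp_rw [h3]
    ring

theorem sum_wq (q : ℝ) : ∑ R : Finset J, wq q R = 1 := by
  have := Finset.sum_pow_mul_eq_add_pow q (1 - q) (Finset.univ : Finset J)
  simp only [Finset.powerset_univ, Finset.card_univ] at this
  unfold wq
  rw [this]; simp

theorem mu_mono {q : ℝ} (h0 : 0 ≤ q) (h1 : q ≤ 1) {U V : Finset J → Prop}
    (h : ∀ R, U R → V R) : mu q U ≤ mu q V := by
  unfold mu
  refine Finset.sum_le_sum fun R _ => mul_le_mul_of_nonneg_left ?_ (wq_nonneg h0 h1 R)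
  by_cases hU : U R
  · simp [hU, h R hU]
  · simp only [hU, if_false]; split_ifs <;> norm_num

theorem mu_nonneg {q : ℝ} (h0 : 0 ≤ q) (h1 : q ≤ 1) (U : Finset J → Prop) : 0 ≤ mu q U :=
  Finset.sum_nonneg fun R _ => mul_nonneg (wq_nonneg h0 h1 R) (by split_ifs <;> norm_num)

theorem mu_le_one {q : ℝ} (h0 : 0 ≤ q) (h1 : q ≤ 1) (U : Finset J → Prop) : mu q U ≤ 1 := by
  have h := mu_mono h0 h1 (U := U) (V := fun _ => True) (fun _ _ => trivial)
  have h2 : mu q (fun _ : Finset J => True) = 1 := by
    unfold mu; simp [sum_wq]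
  linarith

/-- skeleton lemma -/
theorem skeleton {q β : ℝ} (h0 : 0 ≤ q) (h1 : q ≤ 1) (hβ : 0 ≤ β) (y : ι → Finset J)
    (hy : ∀ v, β ≤ q ^ (y v).card) (T : Finset ι) :
    ∃ S ⊆ T, (S.card : ℝ) * β / 2 ≤ mu q (Up S y) ∧ ∀ v ∈ T, v ∈ S ∨ Til q S y (y v) := by
  induction T using Finset.induction_on with
  | empty => exact ⟨∅, Finset.Subset.refl _, by simpa using mu_nonneg h0 h1 _, by simp⟩
  | insert a T ha ih =>
    obtain ⟨S, hST, hS1, hS2⟩ := ih
    by_cases hT : Til q S y (y a)
    · refine ⟨S, hST.trans (Finset.subset_insert _ _), hS1, ?_⟩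
      intro v hv
      rcases Finset.mem_insert.mp hv with rfl | hv
      · exact Or.inr hT
      · exact hS2 v hv
    · have haS : a ∉ S := fun h => ha (hST h)
      refine ⟨insert a S, Finset.insert_subset_insert _ hST, ?_, ?_⟩
      · -- mass increases
        have hA := cond q (y a) (fun R => if Up S y R then (0:ℝ) else 1)
        have hB : ∑ R : Finset J, wq q R * (if Up S y (y a ∪ R) then (0:ℝ) else 1)
            = 1 - mu q (fun R => Up S y (y a ∪ R)) := by
          have h := sum_wq (J := J) q
          have h2 : ∑ R : Finset J, wq q R * (if Up S y (y a ∪ R) then (0:ℝ) else 1)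
              + ∑ R : Finset J, wq q R * (if Up S y (y a ∪ R) then (1:ℝ) else 0)
              = ∑ R : Finset J, wq q R := by
            rw [← Finset.sum_add_distrib]
            refine Finset.sum_congr rfl fun R _ => ?_
            split_ifs <;> ring
          unfold mu
          linarith
        have hC : 1 / 2 ≤ 1 - mu q (fun R => Up S y (y a ∪ R)) := by
          unfold Til at hT; push Not at hT; linarith
        have hD : mu q (Up S y) + ∑ R : Finset J, wq q R *
            ((if y a ⊆ R then 1 else 0) * (if Up S y R then (0:ℝ) else 1))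
            ≤ mu q (Up (insert a S) y) := by
          unfold mu
          rw [← Finset.sum_add_distrib]
          refine Finset.sum_le_sum fun R _ => ?_
          rw [← mul_add]
          refine mul_le_mul_of_nonneg_left ?_ (wq_nonneg h0 h1 R)
          by_cases hU : Up S y R
          · have : Up (insert a S) y R := by
              obtain ⟨v, hv, hv2⟩ := hU
              exact ⟨v, Finset.mem_insert_of_mem hv, hv2⟩
            simp [hU, this]
          · by_cases hsub : y a ⊆ R
            · have : Up (insert a S) y R := ⟨a, Finset.mem_insert_self _ _, hsub⟩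
              simp [hU, hsub, this]
            · simp only [hU, hsub, if_false]
              split_ifs <;> norm_num
        rw [hA, hB] at hD
        rw [Finset.card_insert_of_notMem haS]
        push_cast
        have h3 : β * (1 / 2) ≤ q ^ (y a).card * (1 - mu q (fun R => Up S y (y a ∪ R))) :=
          mul_le_mul (hy a) hC (by norm_num) (pow_nonneg h0 _)
        linarith
      · intro v hv
        rcases Finset.mem_insert.mp hv with rfl | hv
        · exact Or.inl (Finset.mem_insert_self _ _)
        · rcases hS2 v hv with h | h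
          · exact Or.inl (Finset.mem_insert_of_mem h)
          · right
            unfold Til at h ⊢
            refine h.trans (mu_mono h0 h1 fun R hR => ?_)
            obtain ⟨u, hu, hu2⟩ := hR
            exact ⟨u, Finset.mem_insert_of_mem hu, hu2⟩

/-- If there is no matching, there is a bad skeleton. -/
theorem hall_skeleton {q β : ℝ} (h0 : 0 ≤ q) (h1 : q ≤ 1) (hβ : 0 ≤ β) (y : ι → Finset J)
    (hy : ∀ v, β ≤ q ^ (y v).card) (ρ : κ → Finset J)
    (hno : ¬ ∃ g : ι → κ, Function.Injective g ∧ ∀ v, y v ⊆ ρ (g v)) :
    ∃ S : Finset ι, S.Nonempty ∧ (S.card : ℝ) * β / 2 ≤ mu q (Up S y) ∧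
      (Finset.univ.filter (fun w : κ => Up S y (ρ w))).card
        < S.card + (Finset.univ.filter (fun v : ι => Til q S y (y v))).card := by
  let t : ι → Finset κ := fun v => Finset.univ.filter (fun w => y v ⊆ ρ w)
  have hH : ¬ ∀ s : Finset ι, s.card ≤ (s.biUnion t).card := by
    intro h
    apply hno
    obtain ⟨g, hg, hg2⟩ := (Finset.all_card_le_biUnion_card_iff_exists_injective t).mp h
    exact ⟨g, hg, fun v => by simpa [t] using hg2 v⟩
  push Not at hH
  obtain ⟨T, hT⟩ := hH
  obtain ⟨S, hST, hS1, hS2⟩ := skeleton h0 h1 hβ y hy T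
  refine ⟨S, ?_, hS1, ?_⟩
  · have hTne : T.Nonempty := by
      rw [Finset.nonempty_iff_ne_empty]; rintro rfl; simp at hT
    obtain ⟨v, hv⟩ := hTne
    rcases hS2 v hv with h | h
    · exact ⟨v, h⟩
    · by_contra hS
      rw [Finset.not_nonempty_iff_eq_empty] at hS
      subst hS
      unfold Til at h
      have : mu q (fun R => Up (∅ : Finset ι) y (y v ∪ R)) = 0 := by
        unfold mu; simp [Up]
      rw [this] at h
      norm_num at h
  · have h3 : T.card ≤ S.card + (Finset.univ.filter (fun v : ι => Til q S y (y v))).card := by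
      have hsub : T ⊆ S ∪ Finset.univ.filter (fun v : ι => Til q S y (y v)) := by
        intro v hv
        rcases hS2 v hv with h | h
        · exact Finset.mem_union_left _ h
        · exact Finset.mem_union_right _ (by simpa using h)
      exact (Finset.card_le_card hsub).trans (Finset.card_union_le _ _)
    have h4 : (Finset.univ.filter (fun w : κ => Up S y (ρ w))).card ≤ (T.biUnion t).card := by
      refine Finset.card_le_card fun w hw => ?_
      simp only [Finset.mem_filter, Finset.mem_univ, true_and] at hw
      obtain ⟨v, hv, hv2⟩ := hw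
      exact Finset.mem_biUnion.mpr ⟨v, hST hv, by simpa [t] using hv2⟩
    omega

end Crest.Agent.D1
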