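import Crest.Agent.TG_Degen
import Crest.Agent.TG63_Num
import Crest.Agent.TG_FM
import Crest.Agent.TG73_Split
import Crest.Agent.TG_Label
import Crest.Agent.TG8_Gamma

/-! S0073 dense range: GREEDY → GAMMA → DENSE (helper39; set-up adapted from helper89's TG89_Set). -/

set_option autoImplicit false

namespace Crest.TG39D
open Finset

theorem setup : ∃ n0 : ℕ, ∀ n : ℕ, n0 < n → ∀ (W : Type) [Fintype W] [DecidableEq W]
    (H : SimpleGraph W) [DecidableRel H.Adj], Fintype.card W ≤ n → ∀ q : ℝ, 0 < q → 3 * q < 1 →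
    1 < (n:ℝ) * q ^ 1000 →
    (∀ U : Finset W, (1:ℝ)/2 ≤ (n:ℝ) ^ U.card *
      q ^ (H.edgeFinset.filter (fun e => ∀ x ∈ e, x ∈ U)).card) →
    ∃ d : ℕ, (∀ U : Finset W, U.Nonempty → ∃ v ∈ U, (U.filter (fun u => H.Adj v u)).card ≤ d) ∧
      (∃ σ : W ≃ Fin (Fintype.card W),
        (∀ v, (univ.filter (fun u => H.Adj v u ∧ σ u < σ v)).card ≤ d)) ∧
      (n:ℝ) ^ (-(1/100 : ℝ)) ≤ q ^ (d / 1000 + 1) ∧ (d:ℝ) ≤ 2 * Real.log n + 2 ∧
      ((univ.filter (fun v => ⌊(n:ℝ)^(19/20:ℝ)⌋₊ <
        (univ.filter (fun u => H.Adj v u)).card)).card : ℝ) ≤ (n:ℝ)^(1/10:ℝ) ∧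
      (univ.filter (fun v => ⌊(n:ℝ)^(19/20:ℝ)⌋₊ <
        (univ.filter (fun u => H.Adj v u)).card)).card + d ≤ ⌊(n:ℝ)^(19/20:ℝ)⌋₊ := by
  obtain ⟨n1, h1⟩ := Crest.TG63.ev_log 4 1 (1/20) (1/10) (by norm_num)
  obtain ⟨n2, h2⟩ := Crest.TG63.ev_log 4 0 (1/10) (19/20) (by norm_num)
  obtain ⟨n3, h3⟩ := Crest.TG63.ev_log' 5 1 (1/10) (by norm_num)
  refine ⟨max 3 (max n1 (max n2 n3)), ?_⟩
  intro n hn W _ _ H _ hW q hq0 hq3 hqn hden
  have hn3 : 3 < n := lt_of_le_of_lt (le_max_left _ _) hn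
  have hnm := lt_of_le_of_lt (le_max_right _ _) hn
  have hn1 : n1 ≤ n := (lt_of_le_of_lt (le_max_left _ _) hnm).le
  have hnm2 := lt_of_le_of_lt (le_max_right _ _) hnm
  have hn2 : n2 ≤ n := (lt_of_le_of_lt (le_max_left _ _) hnm2).le
  have hn3' : n3 ≤ n := (lt_of_le_of_lt (le_max_right _ _) hnm2).le
  replace h1 := h1 n hn1
  replace h2 := h2 n hn2
  replace h3 := h3 n hn3'
  rw [pow_one] at h1 h3
  rw [pow_zero, mul_one] at h2
  have hnR : (3:ℝ) < n := by exact_mod_cast hn3
  have hn0 : (0:ℝ) < n := by linarith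
  have he3 : Real.exp 1 < 3 := Real.exp_one_lt_three
  have hlogn : 1 < Real.log n := by
    rw [Real.lt_log_iff_exp_lt hn0]; linarith
  have hq1 : q < 1 := by linarith
  -- ℓ = log (1/q)
  have hl2 : Real.log (1 / q) = -Real.log q := by rw [one_div, Real.log_inv]
  have hl : 1 < Real.log (1 / q) := by
    rw [Real.lt_log_iff_exp_lt (by positivity), lt_div_iff₀ hq0]
    nlinarith
  set ℓ := Real.log (1 / q) with hℓ
  set b := Real.log n / ℓ with hb
  have hbℓ : b * ℓ = Real.log n := by rw [hb]; field_simp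
  have hb1 : b ≤ Real.log n := by
    rw [hb]; exact div_le_self (by linarith) hl.le
  have hb1000 : 1000 < b := by
    have h := Real.log_lt_log one_pos hqn
    rw [Real.log_one, Real.log_mul hn0.ne' (by positivity), Real.log_pow] at h
    push_cast at h
    rw [hb, lt_div_iff₀ (by linarith)]
    linarith
  have hdens : ∀ U : Finset W,
      ((H.edgeFinset.filter (fun e => ∀ x ∈ e, x ∈ U)).card : ℝ) ≤ (b + 1) * U.card := by
    intro U
    rcases U.eq_empty_or_nonempty with hU | hU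
    · have : (H.edgeFinset.filter (fun e => ∀ x ∈ e, x ∈ U)) = ∅ := by
        rw [Finset.filter_eq_empty_iff]
        intro e _ hcon
        induction e using Sym2.ind with
        | _ x y =>
          have := hcon x (by simp)
          rw [hU] at this
          exact absurd this (Finset.notMem_empty x)
      rw [this, hU]; simp
    · have h := Real.log_le_log (by norm_num) (hden U)
      rw [Real.log_mul (by positivity) (by positivity), Real.log_pow, Real.log_pow] at h
      have hhalf : Real.log (1/2) = - Real.log 2 := by rw [one_div, Real.log_inv]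
      rw [hhalf] at h
      have hlog2 : Real.log 2 < 1 := by
        rw [Real.log_lt_iff_lt_exp (by norm_num)]
        have := Real.exp_one_gt_d9; linarith
      have hUc : (1:ℝ) ≤ U.card := by exact_mod_cast hU.card_pos
      set e := ((H.edgeFinset.filter (fun e => ∀ x ∈ e, x ∈ U)).card : ℝ) with he
      have hlq : Real.log q = -ℓ := by linarith
      rw [hlq] at h
      have h' : e * ℓ ≤ U.card * Real.log n + 1 := by linarith
      rw [← hbℓ] at h'
      by_contra hcon
      push Not at hcon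
      have : (b + 1) * U.card * ℓ < e * ℓ := mul_lt_mul_of_pos_right hcon (by linarith)
      nlinarith
  have hlow := fun U (hU : U.Nonempty) =>
    Crest.TG.Degen.exists_low_degree H (b + 1) hdens U hU
  refine ⟨⌊2 * (b + 1)⌋₊, ?_, ?_, ?_, ?_, ?_, ?_⟩
  · intro U hU
    obtain ⟨v, hv, hc⟩ := hlow U hU
    exact ⟨v, hv, Nat.le_floor hc⟩
  · apply Crest.TG.Degen.exists_order
    intro U hU
    obtain ⟨v, hv, hc⟩ := hlow U hU
    exact ⟨v, hv, Nat.le_floor hc⟩
  · apply Crest.TG63.q_pow_ge (by omega) hq0 hq1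
    have hf : (⌊2 * (b + 1)⌋₊ : ℝ) ≤ 2 * (b + 1) := Nat.floor_le (by linarith)
    have hdiv : ((⌊2 * (b + 1)⌋₊ / 1000 : ℕ) : ℝ) ≤ (⌊2 * (b + 1)⌋₊ : ℝ) / 1000 := by
      exact_mod_cast Nat.cast_div_le
    push_cast
    show _ ≤ 1/100 * b
    linarith
  · have hf : (⌊2 * (b + 1)⌋₊ : ℝ) ≤ 2 * (b + 1) := Nat.floor_le (by linarith)
    linarith
  all_goals
    set J := (univ.filter (fun v => ⌊(n:ℝ)^(19/20:ℝ)⌋₊ <
        (univ.filter (fun u => H.Adj v u)).card)) with hJ
    have hJc : (J.card : ℝ) ≤ (n:ℝ)^(1/10:ℝ) := by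
      have hs : ∑ v, (univ.filter (fun u => H.Adj v u)).card = 2 * H.edgeFinset.card := by
        rw [← SimpleGraph.sum_degrees_eq_twice_card_edges]
        apply Finset.sum_congr rfl
        intro v _
        rw [← SimpleGraph.card_neighborFinset_eq_degree, SimpleGraph.neighborFinset_eq_filter]
      have hs1 : J.card * (⌊(n:ℝ)^(19/20:ℝ)⌋₊ + 1) ≤ 2 * H.edgeFinset.card := by
        rw [← hs, ← smul_eq_mul, ← Finset.sum_const]
        calc ∑ v ∈ J, (⌊(n:ℝ)^(19/20:ℝ)⌋₊ + 1) ≤ ∑ v ∈ J, (univ.filter (fun u => H.Adj v u)).card := by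
              apply Finset.sum_le_sum
              intro v hv
              rw [hJ, Finset.mem_filter] at hv
              exact hv.2
          _ ≤ _ := Finset.sum_le_sum_of_subset (Finset.subset_univ _)
      have hs2 := hdens univ
      rw [Finset.filter_true_of_mem (fun e _ x _ => Finset.mem_univ x)] at hs2
      have hWn : ((univ : Finset W).card : ℝ) ≤ n := by
        rw [Finset.card_univ]; exact_mod_cast hW
      have hfl : (n:ℝ)^(19/20:ℝ) < (⌊(n:ℝ)^(19/20:ℝ)⌋₊ : ℝ) + 1 := Nat.lt_floor_add_one _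
      have hs3 : (J.card : ℝ) * ((⌊(n:ℝ)^(19/20:ℝ)⌋₊ : ℝ) + 1) ≤ 2 * H.edgeFinset.card := by
        exact_mod_cast hs1
      have hs4 : (J.card : ℝ) * (n:ℝ)^(19/20:ℝ) ≤ 4 * Real.log n * n := by
        have e1 : (J.card : ℝ) * (n:ℝ)^(19/20:ℝ) ≤ (J.card : ℝ) * ((⌊(n:ℝ)^(19/20:ℝ)⌋₊ : ℝ) + 1) :=
          mul_le_mul_of_nonneg_left hfl.le (Nat.cast_nonneg _)
        have e2 : (b + 1) * ((univ : Finset W).card : ℝ) ≤ (2 * Real.log n) * n := by
          apply mul_le_mul (by linarith) hWn (Nat.cast_nonneg _) (by linarith)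
        linarith
      have hpow : (n:ℝ) = (n:ℝ)^(19/20:ℝ) * (n:ℝ)^(1/20:ℝ) := by
        rw [← Real.rpow_add hn0]; norm_num
      have hp9 : (0:ℝ) < (n:ℝ)^(19/20:ℝ) := Real.rpow_pos_of_pos hn0 _
      have hs5 : (J.card : ℝ) * (n:ℝ)^(19/20:ℝ) ≤ (4 * Real.log n * (n:ℝ)^(1/20:ℝ)) * (n:ℝ)^(19/20:ℝ) := by
        calc (J.card : ℝ) * (n:ℝ)^(19/20:ℝ) ≤ 4 * Real.log n * n := hs4
          _ = 4 * Real.log n * ((n:ℝ)^(19/20:ℝ) * (n:ℝ)^(1/20:ℝ)) := by rw [← hpow]
          _ = _ := by ring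
      have := le_of_mul_le_mul_right hs5 hp9
      linarith
  · exact hJc
  · apply Nat.le_floor
    push_cast
    have hf : (⌊2 * (b + 1)⌋₊ : ℝ) ≤ 2 * (b + 1) := Nat.floor_le (by linarith)
    linarith

/-- numerics of the low classes -/
theorem low_num : ∃ n0 : ℕ, ∀ n : ℕ, n0 < n → ∀ (P : ℝ) (D m : ℕ), 0 ≤ P → P ≤ 1 →
    (n:ℝ) ^ (-(1/100 : ℝ)) ≤ P ^ D → (D:ℝ) ≤ Real.log n + 2 → 2 * m ≤ n →
    ∃ T : ℕ, m + D * ⌊(n:ℝ)^(19/20:ℝ)⌋₊ * T + T ≤ n ∧
      (1:ℝ)/2 ≤ 1 - (m:ℝ) * (1 - P ^ D) ^ T := by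
  obtain ⟨n1, h1⟩ := Crest.TG63.ev_log 32 2 (96/100) 1 (by norm_num)
  refine ⟨max 3 n1, ?_⟩
  intro n hn P D m hP0 hP1 hPD hD hm
  have hn3 : 3 < n := lt_of_le_of_lt (le_max_left _ _) hn
  have hn1 : n1 ≤ n := (lt_of_le_of_lt (le_max_right _ _) hn).le
  replace h1 := h1 n hn1
  rw [Real.rpow_one] at h1
  have hnR : (3:ℝ) < n := by exact_mod_cast hn3
  have hn0 : (0:ℝ) < n := by linarith
  have he3 : Real.exp 1 < 3 := Real.exp_one_lt_three
  have hlogn : 1 < Real.log n := by
    rw [Real.lt_log_iff_exp_lt hn0]; linarith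
  have hx1 : (1:ℝ) ≤ (n:ℝ)^(1/100:ℝ) := Real.one_le_rpow (by linarith) (by norm_num)
  have hy1 : (1:ℝ) ≤ (n:ℝ)^(19/20:ℝ) := Real.one_le_rpow (by linarith) (by norm_num)
  set x := (n:ℝ)^(1/100:ℝ) with hx
  set y := (n:ℝ)^(19/20:ℝ) with hy
  have hxy : y * x = (n:ℝ)^(96/100:ℝ) := by
    rw [hx, hy, ← Real.rpow_add hn0]; norm_num
  set T := ⌈3 * x * Real.log n⌉₊ with hT
  have hxl : 1 ≤ x * Real.log n := by nlinarith
  have hTlo : 3 * x * Real.log n ≤ (T:ℝ) := Nat.le_ceil _
  have hThi : (T:ℝ) ≤ 4 * (x * Real.log n) := by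
    have := (Nat.ceil_lt_add_one (show 0 ≤ 3 * x * Real.log n by nlinarith)).le
    rw [← hT] at this
    linarith
  have hfy : (⌊y⌋₊ : ℝ) ≤ y := Nat.floor_le (by linarith)
  refine ⟨T, ?_, ?_⟩
  · have hm' : (m:ℝ) ≤ n / 2 := by
      have : (2 * m : ℝ) ≤ n := by exact_mod_cast hm
      linarith
    have hT0 : (0:ℝ) ≤ T := Nat.cast_nonneg _
    have e1 : (D:ℝ) * (⌊y⌋₊ : ℝ) * T ≤ (Real.log n + 2) * y * (4 * (x * Real.log n)) := by
      apply mul_le_mul _ hThi hT0 (by nlinarith)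
      exact mul_le_mul hD hfy (Nat.cast_nonneg _) (by linarith)
    have e2 : (T:ℝ) ≤ 1 * y * (4 * (x * Real.log n)) := by
      have : 4 * (x * Real.log n) ≤ 1 * y * (4 * (x * Real.log n)) := by
        nlinarith
      linarith
    have e3 : (Real.log n + 2) * y * (4 * (x * Real.log n)) + 1 * y * (4 * (x * Real.log n))
        ≤ 16 * Real.log n ^ 2 * (y * x) := by
      have hz : 0 ≤ y * x * Real.log n := by
        apply mul_nonneg (mul_nonneg (by linarith) (by linarith)) (by linarith)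
      have : (Real.log n + 2) * y * (4 * (x * Real.log n)) + 1 * y * (4 * (x * Real.log n))
        = (4 * (Real.log n + 3)) * (y * x * Real.log n) := by ring
      rw [this]
      have h16 : 16 * Real.log n ^ 2 * (y * x) = (16 * Real.log n) * (y * x * Real.log n) := by ring
      rw [h16]
      exact mul_le_mul_of_nonneg_right (by linarith) hz
    rw [hxy] at e3
    have : (m:ℝ) + D * (⌊y⌋₊ : ℝ) * T + T ≤ n := by linarith
    exact_mod_cast this
  · have hPD1 : P ^ D ≤ 1 := pow_le_one₀ hP0 hP1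
    have hexp : (1 - P ^ D) ^ T ≤ Real.exp (-(3 * Real.log n)) := by
      calc (1 - P ^ D) ^ T ≤ (Real.exp (-(P ^ D))) ^ T := by
            apply pow_le_pow_left₀ (by linarith)
            have := Real.add_one_le_exp (-(P ^ D))
            linarith
        _ = Real.exp (-(P ^ D * T)) := by rw [← Real.exp_nat_mul]; ring_nf
        _ ≤ _ := by
            apply Real.exp_le_exp.2
            apply neg_le_neg
            have hxi : (n:ℝ) ^ (-(1/100 : ℝ)) * x = 1 := by
              rw [hx, ← Real.rpow_add hn0]; norm_num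
            have hpos : 0 ≤ (n:ℝ) ^ (-(1/100 : ℝ)) := (Real.rpow_pos_of_pos hn0 _).le
            calc 3 * Real.log n = (n:ℝ) ^ (-(1/100 : ℝ)) * (3 * x * Real.log n) := by
                  have : (n:ℝ) ^ (-(1/100 : ℝ)) * (3 * x * Real.log n)
                    = ((n:ℝ) ^ (-(1/100 : ℝ)) * x) * (3 * Real.log n) := by ring
                  rw [this, hxi, one_mul]
              _ ≤ P ^ D * T := mul_le_mul hPD hTlo (by nlinarith) (by positivity)
    have hexp2 : Real.exp (-(3 * Real.log n)) = ((n:ℝ) ^ 3)⁻¹ := by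
      rw [Real.exp_neg]
      congr 1
      rw [show (3 * Real.log n) = ((3:ℕ):ℝ) * Real.log n by norm_num, Real.exp_nat_mul,
        Real.exp_log hn0]
    rw [hexp2] at hexp
    have hm' : (m:ℝ) ≤ n / 2 := by
      have : (2 * m : ℝ) ≤ n := by exact_mod_cast hm
      linarith
    have hn3pos : (0:ℝ) < (n:ℝ)^3 := by positivity
    have : (m:ℝ) * (1 - P ^ D) ^ T ≤ (n / 2) * ((n:ℝ) ^ 3)⁻¹ :=
      mul_le_mul hm' hexp (pow_nonneg (by linarith) _) (by positivity)
    have h4 : ((n:ℝ) / 2) * ((n:ℝ) ^ 3)⁻¹ ≤ 1/2 := by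
      rw [mul_inv_le_iff₀ hn3pos]
      have : (n:ℝ) ≤ (n:ℝ)^3 := by nlinarith [mul_pos hn0 hn0]
      linarith
    linarith

theorem dense (hGr : Crest.TG8.GREEDY) (hGa : Crest.TG8.GAMMA) : Crest.TG8.DENSE := by
  classical
  obtain ⟨m, hm, LΓ, hLΓ, nΓ, hΓ⟩ := hGa
  obtain ⟨n1, h1⟩ := setup
  obtain ⟨n2, h2⟩ := low_num
  obtain ⟨n3, h3⟩ := Crest.TG63.ev_log' 4 2 (99/100) (by norm_num)
  refine ⟨Fintype.card (Bool × Fin 1000 × Fin 128 × Fin 128) * m, ?_, 2 * LΓ, by linarith,
    max 1000 (max nΓ (max n1 (max n2 n3))), ?_⟩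
  · exact Nat.mul_pos (Fintype.card_pos) hm
  intro n hn2 hn W _ _ H _ hW _ q hq hLq hqn hFM
  have hn1000 : 1000 < n := lt_of_le_of_lt (le_max_left _ _) hn
  have hnΓ : nΓ ≤ n := (lt_of_le_of_lt ((le_max_left _ _).trans (le_max_right _ _)) hn).le
  have hnm := lt_of_le_of_lt ((le_max_right _ _).trans (le_max_right _ _)) hn
  have hn1 : n1 < n := lt_of_le_of_lt (le_max_left _ _) hnm
  have hn2' : n2 < n := lt_of_le_of_lt ((le_max_left _ _).trans (le_max_right _ _)) hnm
  have hn3 : n3 ≤ n := (lt_of_le_of_lt ((le_max_right _ _).trans (le_max_right _ _)) hnm).le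
  have h4q : 4 * q ≤ 2 * LΓ * q := by nlinarith
  have h3q : 3 * q < 1 := by linarith
  have hden := fun U : Finset W => Crest.TG.FM.fm_density H hq.le hW hFM U
  obtain ⟨d, _, ⟨σ, hσ⟩, hqD, hdlog, hJ, hJd⟩ := h1 n hn1 W H hW q hq h3q
    (by rw [mul_comm]; exact hqn) hden
  have hnR : (1000:ℝ) < n := by exact_mod_cast hn1000
  have hn0 : (0:ℝ) < n := by linarith
  have he3 : Real.exp 1 < 3 := Real.exp_one_lt_three
  have hlogn : 1 < Real.log n := by
    rw [Real.lt_log_iff_exp_lt hn0]; linarith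
  set Δ := ⌊(n:ℝ)^(19/20:ℝ)⌋₊ with hΔ
  set J := (univ.filter (fun v => Δ < (univ.filter (fun u => H.Adj v u)).card)) with hJdef
  set σ' : W → ℕ := fun v => (σ v : ℕ) with hσ'
  have hσ'inj : Function.Injective σ' := fun a b h => σ.injective (Fin.ext h)
  obtain ⟨lab, hlab⟩ := Crest.TG73.dense_split H σ' hσ'inj d Δ 1000 128 (by norm_num)
    (by norm_num) (fun v => by
      have := hσ v
      simpa [hσ'] using this) J (by rw [hJdef])
  set D := d / 1000 + 1 with hD
  have hDlog : (D:ℝ) ≤ Real.log n + 2 := by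
    have h5 : ((d / 1000 : ℕ) : ℝ) ≤ (d : ℝ) / 1000 := by exact_mod_cast Nat.cast_div_le
    rw [hD]; push_cast
    linarith
  set P := 2 * LΓ * q with hP
  have hqP : q ≤ P := by linarith
  have hP0 : 0 ≤ P := by linarith
  have hP1 : P ≤ 1 := hLq.le
  refine (Crest.TG.Label.LabelOK.of_cover' hP0 hP1 (K := fun j => Crest.TG.Label.part H lab j)
    (fun u v huv => ⟨lab s(u, v), huv, rfl⟩) ?_).to_piece
  rintro ⟨t, i, a, b⟩
  obtain ⟨g1, g2, g3, g4, g5, g6⟩ := hlab i a b
  cases t with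
  | true =>
    -- LOW class
    set F := Crest.TG.Label.part H lab (true, i, a, b) with hF
    set U : Finset W := univ.filter (fun v => ∃ u, F.Adj v u) with hU
    have hUc : U.card ≤ 2 * (Fintype.card W / 128 + 1) := by
      refine le_trans (card_le_card ?_) g3
      intro v hv
      rw [mem_filter] at hv ⊢
      exact ⟨mem_univ _, hv.2⟩
    obtain ⟨T, hT1, hT2⟩ := h2 n hn2' P D U.card hP0 hP1
      (hqD.trans (pow_le_pow_left₀ hq.le hqP _)) hDlog (by
        have : Fintype.card W / 128 ≤ n / 128 := Nat.div_le_div_right hW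
        omega)
    have hmax : max Δ (J.card + d) = Δ := max_eq_left hJd
    have hfin := hGr W F U (fun a' b' hab => by
        rw [hU, mem_filter]; exact ⟨mem_univ _, b', hab⟩) σ' hσ'inj n D Δ T (fun v => by
        refine le_trans (card_le_card ?_) (g1 v)
        intro u hu
        rw [mem_filter] at hu ⊢
        exact ⟨mem_univ _, hu.2.1, hu.2.2⟩) (fun v => by
        rw [← hmax]
        refine le_trans (card_le_card ?_) (g2 v)
        intro u hu
        rw [mem_filter] at hu ⊢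
        exact ⟨mem_univ _, hu.2⟩) P hP0 hP1 hW hT1
    have hok : Crest.TG.Label.PieceOK n P F := hT2.trans hfin
    exact hok.label.pad hW hm
  | false =>
    set F := Crest.TG.Label.part H lab (false, i, a, b) with hF
    have hG := hΓ n hnΓ W F J (2 * q) D (by linarith) (by
        have : LΓ * (2 * q) = P := by rw [hP]; ring
        rw [this]; exact hLq) hW (fun u v huv => by
        rcases g4 u v huv.1 huv.2 with h | h
        · exact Or.inr ⟨h.2.1, h.1⟩
        · exact Or.inl ⟨h.1, h.2.1⟩) hJ (fun v hv => by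
        refine le_trans (card_le_card ?_) (g5 v hv)
        intro u hu
        rw [mem_filter] at hu ⊢
        exact ⟨mem_univ _, hu.2⟩) (hqD.trans (pow_le_pow_left₀ hq.le (by linarith) _)) (by
        have h6 : (univ.filter (fun v => v ∉ J ∧ ∃ u, F.Adj v u)).card ≤
            Fintype.card W / 128 + 1 := by
          refine le_trans (card_le_card ?_) g6
          intro v hv
          rw [mem_filter] at hv ⊢
          exact ⟨mem_univ _, hv.2⟩
        have : Fintype.card W / 128 ≤ n / 128 := Nat.div_le_div_right hW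
        omega) (fun S hS => by
        rcases (univ.filter (fun v => v ∉ J ∧ ∀ u ∈ S, F.Adj v u)).eq_empty_or_nonempty with h | h
        · rw [h]; simp; positivity
        · obtain ⟨v, hv⟩ := h
          rw [mem_filter] at hv
          have hSD : S.card ≤ D := by
            refine le_trans (card_le_card ?_) (g5 v hv.2.1)
            intro u hu
            rw [mem_filter]
            exact ⟨mem_univ _, hv.2.2 u hu⟩
          have hcod := Crest.TG.FM.fm_codeg H hq.le hn2 hW hFM S hS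
          have hle : ((univ.filter (fun v => v ∉ J ∧ ∀ u ∈ S, F.Adj v u)).card : ℝ) ≤
              ((univ.filter (fun v : W => ∀ t ∈ S, H.Adj t v)).card : ℝ) := by
            exact_mod_cast card_le_card (fun v hv => by
              rw [mem_filter] at hv ⊢
              exact ⟨mem_univ _, fun t ht => (hv.2.2 t ht).1.symm⟩)
          have hq1 : q ≤ 1 := by linarith
          have hqS : (n:ℝ) ^ (-(1/100 : ℝ)) ≤ q ^ S.card :=
            hqD.trans (pow_le_pow_of_le_one hq.le hq1 hSD)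
          have hnq : (n:ℝ)^(99/100:ℝ) ≤ n * q ^ S.card := by
            have e : (n:ℝ)^(99/100:ℝ) = n * (n:ℝ) ^ (-(1/100 : ℝ)) := by
              nth_rewrite 2 [← Real.rpow_one (n:ℝ)]
              rw [← Real.rpow_add hn0]; norm_num
            rw [e]
            exact mul_le_mul_of_nonneg_left hqS hn0.le
          have hSlog : (S.card : ℝ) ≤ Real.log n + 2 := by
            have : (S.card : ℝ) ≤ D := by exact_mod_cast hSD
            linarith
          have h8 := h3 n hn3
          have h9 : (S.card : ℝ) * Real.log n + 1 ≤ 4 * Real.log n ^ 2 := by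
            have := mul_le_mul_of_nonneg_right hSlog (by linarith : (0:ℝ) ≤ Real.log n)
            nlinarith
          have h10 : 2 * q ^ S.card ≤ (2 * q) ^ S.card := by
            rw [mul_pow]
            have : (2:ℝ) ≤ 2 ^ S.card := by
              have h11 : (2:ℝ) ^ 1 ≤ 2 ^ S.card :=
                pow_le_pow_right₀ (by norm_num) (card_pos.2 hS)
              simpa using h11
            exact mul_le_mul_of_nonneg_right this (pow_nonneg hq.le _)
          have h12 : 20 * n * (2 * q ^ S.card) ≤ 20 * n * (2 * q) ^ S.card :=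
            mul_le_mul_of_nonneg_left h10 (by positivity)
          have h13 : (0:ℝ) ≤ n * q ^ S.card := by positivity
          nlinarith)
    obtain ⟨c, hc⟩ := hG
    have hPe : LΓ * (2 * q) = P := by rw [hP]; ring
    rw [hPe] at hc
    exact Crest.TG.Label.LabelOK.of_piece hm c hc

end Crest.TG39D
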