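import Crest.Agent.TG6_Merge
import Crest.Agent.KK_Push
import Crest.Prelude.Def_RandomGraph

set_option autoImplicit false

namespace Crest.TG39
open Finset KK TG6 Crest.CombinatoricsR.RandomGraph

/-- coin weights -/
noncomputable def cw (q : ℝ) : Bool → ℝ := fun b => if b then q else 1 - q

theorem cw_nonneg {q : ℝ} (h0 : 0 ≤ q) (h1 : q ≤ 1) : ∀ l, 0 ≤ cw q l := by
  intro l; unfold cw; split_ifs <;> linarith

theorem cw_sum (q : ℝ) : ∑ l, cw q l = 1 := by
  simp [cw]

/-- all coins in `S` show heads -/
theorem Pr_all {X : Type} [Fintype X] [DecidableEq X] (q : ℝ) (S : Finset X) :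
    Pr (cw q) (fun ω : X → Bool => ∀ e ∈ S, ω e = true) = q ^ S.card := by
  classical
  have h := expect_prod (X := X) (cw q) (cw_sum q) (fun b : Bool => if b then (1 : ℝ) else 0) S id
    (Set.injOn_id _)
  have h2 : (∑ l, cw q l * (if l then (1 : ℝ) else 0)) = q := by simp [cw]
  rw [h2] at h
  rw [← h, Pr_eq_sum]
  refine Finset.sum_congr rfl fun ω _ => ?_
  congr 1
  by_cases hA : ∀ e ∈ S, ω e = true
  · rw [if_pos hA]
    symm
    refine Finset.prod_eq_one fun e he => ?_
    simp [hA e he]
  · rw [if_neg hA]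
    push Not at hA
    obtain ⟨e, he, hne⟩ := hA
    symm
    refine Finset.prod_eq_zero he ?_
    simp [hne]

/-- disjoint blocks: none of the blocks is all heads -/
theorem Pr_none {X V : Type} [Fintype X] [DecidableEq X] [DecidableEq V] (q : ℝ) (h0 : 0 ≤ q)
    (h1 : q ≤ 1) (D : ℕ) (blk : V → Finset X) (A : Finset V)
    (hdis : ∀ x ∈ A, ∀ y ∈ A, x ≠ y → Disjoint (blk x) (blk y))
    (hD : ∀ x ∈ A, (blk x).card ≤ D) :
    Pr (cw q) (fun ω : X → Bool => ∀ x ∈ A, ¬ ∀ e ∈ blk x, ω e = true) ≤ (1 - q ^ D) ^ A.card := by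
  classical
  induction A using Finset.induction_on with
  | empty =>
    simp only [Finset.card_empty, pow_zero]
    exact Pr_le_one _ (cw_nonneg h0 h1) (cw_sum q) _
  | insert a A ha ih =>
    have ih' := ih (fun x hx y hy hxy => hdis x (mem_insert_of_mem hx) y (mem_insert_of_mem hy) hxy)
      (fun x hx => hD x (mem_insert_of_mem hx))
    have hsplit : Pr (cw q) (fun ω : X → Bool => ∀ x ∈ insert a A, ¬ ∀ e ∈ blk x, ω e = true) =
        Pr (cw q) (fun ω : X → Bool => (¬ ∀ e ∈ blk a, ω e = true) ∧
          ∀ x ∈ A, ¬ ∀ e ∈ blk x, ω e = true) := by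
      congr 1
      funext ω
      exact propext (Finset.forall_mem_insert a A _)
    rw [hsplit, Pr_indep (cw q) (cw_sum q) (fun e => e ∈ blk a) (fun ω : X → Bool =>
        ¬ ∀ e ∈ blk a, ω e = true) (fun ω : X → Bool => ∀ x ∈ A, ¬ ∀ e ∈ blk x, ω e = true)]
    · rw [Pr_not (cw q) (cw_sum q), Pr_all, Finset.card_insert_of_notMem ha, pow_succ, mul_comm]
      have hq : q ^ D ≤ q ^ (blk a).card :=
        pow_le_pow_of_le_one h0 h1 (hD a (mem_insert_self _ _))
      have hq1 : q ^ (blk a).card ≤ 1 := pow_le_one₀ h0 h1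
      exact mul_le_mul ih' (by linarith) (by linarith) (pow_nonneg (by
        have := pow_le_one₀ (n := D) h0 h1; linarith) _)
    · intro ω ω' h
      have : (∀ e ∈ blk a, ω e = true) ↔ (∀ e ∈ blk a, ω' e = true) := by
        constructor
        · intro hh e he; rw [← h e he]; exact hh e he
        · intro hh e he; rw [h e he]; exact hh e he
      rw [this]
    · intro ω ω' h
      have : ∀ x ∈ A, ((∀ e ∈ blk x, ω e = true) ↔ (∀ e ∈ blk x, ω' e = true)) := by
        intro x hx
        have hd := hdis x (mem_insert_of_mem hx) a (mem_insert_self _ _)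
          (fun h => ha (h ▸ hx))
        have hne : ∀ e ∈ blk x, e ∉ blk a := fun e he he' =>
          (Finset.disjoint_left.1 hd) he he'
        constructor
        · intro hh e he; rw [← h e (hne e he)]; exact hh e he
        · intro hh e he; rw [h e (hne e he)]; exact hh e he
      constructor
      · intro hh x hx; rw [← this x hx]; exact hh x hx
      · intro hh x hx; rw [this x hx]; exact hh x hx

section Greedy

variable {n m : ℕ}

/-- extension event -/
def Ext (B : Fin m → Finset (Fin m)) (j : ℕ) (φ : Fin m → Fin n) (E : Finset (EdgeSlot n))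
    (ω : EdgeSlot n → Bool) : Prop :=
  ∃ φ' : Fin m → Fin n, (∀ i : Fin m, (i : ℕ) < j → φ' i = φ i) ∧ Function.Injective φ' ∧
    ∀ j' : Fin m, j ≤ (j' : ℕ) → ∀ i ∈ B j', ∀ e : EdgeSlot n, e.1 = s(φ' j', φ' i) →
      e ∉ E ∧ ω e = true

theorem step_main (D Δ T : ℕ) (q : ℝ) (h0 : 0 ≤ q) (h1 : q ≤ 1)
    (B : Fin m → Finset (Fin m)) (hB : ∀ j, ∀ i ∈ B j, i < j) (hD : ∀ j, (B j).card ≤ D)
    (hΔ : ∀ i, (univ.filter (fun j => i ∈ B j)).card ≤ Δ) (hn : m + D * Δ * T + T ≤ n)
    (r : ℕ) : ∀ (j : ℕ), j + r = m → ∀ (φ : Fin m → Fin n) (E : Finset (EdgeSlot n)),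
    (∀ a b : Fin m, (a : ℕ) < j → (b : ℕ) < j → φ a = φ b → a = b) →
    (∀ e ∈ E, ∃ i : Fin m, (i : ℕ) < j ∧ φ i ∈ e.1) →
    (∀ i : Fin m, (i : ℕ) < j →
      (univ.filter (fun x : Fin n => (∀ a : Fin m, (a : ℕ) < j → φ a ≠ x) ∧
        ∃ e ∈ E, e.1 = s(x, φ i))).card ≤
        T * (univ.filter (fun j' : Fin m => (j' : ℕ) < j ∧ i ∈ B j')).card) →
    1 - r * (1 - q ^ D) ^ T ≤ Pr (cw q) (Ext B j φ E) := by
  classical
  induction r with
  | zero =>
    intro j hj φ E hinj hE hC
    have hj' : j = m := by omega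
    subst hj'
    have htrue : (Ext B j φ E) = fun _ => ¬ False := by
      funext ω
      refine propext ⟨fun _ h => h, fun _ => ?_⟩
      refine ⟨φ, fun _ _ => rfl, fun a b hab => hinj a b a.2 b.2 hab, fun j' hj' => ?_⟩
      exact absurd j'.2 (not_lt.2 hj')
    rw [htrue, Pr_not (cw q) (cw_sum q)]
    have : Pr (cw q) (fun _ : EdgeSlot n → Bool => False) = 0 := by
      unfold Pr; simp
    rw [this]; simp
  | succ r ih =>
    intro j hj φ E hinj hE hC
    have hjm : j < m := by omega
    set jj : Fin m := ⟨j, hjm⟩ with hjj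
    -- available candidates
    set avail : Finset (Fin n) := univ.filter (fun x => (∀ a : Fin m, (a : ℕ) < j → φ a ≠ x) ∧
      ∀ i ∈ B jj, ∀ e : EdgeSlot n, e.1 = s(x, φ i) → e ∉ E) with havail
    have hcard : T ≤ avail.card := by
      have hsub : (univ : Finset (Fin n)) ⊆ avail ∪
          ((univ.filter (fun a : Fin m => (a : ℕ) < j)).image φ ∪
            (B jj).biUnion (fun i => univ.filter (fun x : Fin n =>
              (∀ a : Fin m, (a : ℕ) < j → φ a ≠ x) ∧ ∃ e ∈ E, e.1 = s(x, φ i)))) := by
        intro x _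
        by_cases hx : ∃ a : Fin m, (a : ℕ) < j ∧ φ a = x
        · obtain ⟨a, ha, hax⟩ := hx
          refine mem_union_right _ (mem_union_left _ ?_)
          exact mem_image.2 ⟨a, mem_filter.2 ⟨mem_univ _, ha⟩, hax⟩
        · push Not at hx
          by_cases hx2 : ∀ i ∈ B jj, ∀ e : EdgeSlot n, e.1 = s(x, φ i) → e ∉ E
          · exact mem_union_left _ (mem_filter.2 ⟨mem_univ _, hx, hx2⟩)
          · push Not at hx2
            obtain ⟨i, hi, e, he, heE⟩ := hx2
            refine mem_union_right _ (mem_union_right _ ?_)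
            exact mem_biUnion.2 ⟨i, hi, mem_filter.2 ⟨mem_univ _, hx, e, heE, he⟩⟩
      have hle := card_le_card hsub
      rw [card_univ, Fintype.card_fin] at hle
      have h2 := card_union_le avail ((univ.filter (fun a : Fin m => (a : ℕ) < j)).image φ ∪
            (B jj).biUnion (fun i => univ.filter (fun x : Fin n =>
              (∀ a : Fin m, (a : ℕ) < j → φ a ≠ x) ∧ ∃ e ∈ E, e.1 = s(x, φ i))))
      have h3 := card_union_le ((univ.filter (fun a : Fin m => (a : ℕ) < j)).image φ)
            ((B jj).biUnion (fun i => univ.filter (fun x : Fin n =>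
              (∀ a : Fin m, (a : ℕ) < j → φ a ≠ x) ∧ ∃ e ∈ E, e.1 = s(x, φ i))))
      have h4 : ((univ.filter (fun a : Fin m => (a : ℕ) < j)).image φ).card ≤ m := by
        refine card_image_le.trans ?_
        refine (card_le_univ _).trans ?_
        rw [Fintype.card_fin]
      have h5 : ((B jj).biUnion (fun i => univ.filter (fun x : Fin n =>
              (∀ a : Fin m, (a : ℕ) < j → φ a ≠ x) ∧ ∃ e ∈ E, e.1 = s(x, φ i)))).card ≤
              D * Δ * T := by
        refine card_biUnion_le.trans ?_
        calc ∑ i ∈ B jj, (univ.filter (fun x : Fin n =>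
              (∀ a : Fin m, (a : ℕ) < j → φ a ≠ x) ∧ ∃ e ∈ E, e.1 = s(x, φ i))).card
            ≤ ∑ _i ∈ B jj, T * Δ := by
              refine sum_le_sum fun i hi => ?_
              refine (hC i (hB jj i hi)).trans ?_
              refine Nat.mul_le_mul_left _ ?_
              refine le_trans (card_le_card ?_) (hΔ i)
              intro j' hj'
              exact mem_filter.2 ⟨mem_univ _, (mem_filter.1 hj').2.2⟩
          _ = (B jj).card * (T * Δ) := by rw [sum_const, smul_eq_mul]
          _ ≤ D * (T * Δ) := Nat.mul_le_mul_right _ (hD jj)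
          _ = D * Δ * T := by ring
      omega
    obtain ⟨A, hAsub, hAcard⟩ := exists_subset_card_eq hcard
    have hAav : ∀ x ∈ A, (∀ a : Fin m, (a : ℕ) < j → φ a ≠ x) ∧
      ∀ i ∈ B jj, ∀ e : EdgeSlot n, e.1 = s(x, φ i) → e ∉ E := fun x hx =>
        (mem_filter.1 (hAsub hx)).2
    -- blocks
    set blk : Fin n → Finset (EdgeSlot n) := fun x =>
      univ.filter (fun e => ∃ i ∈ B jj, e.1 = s(x, φ i)) with hblk
    have hblkcard : ∀ x ∈ A, (blk x).card ≤ D := by
      intro x hx
      have hne : ∀ i ∈ B jj, x ≠ φ i := fun i hi => ((hAav x hx).1 i (hB jj i hi)).symm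
      have : blk x ⊆ (B jj).attach.image (fun i => (⟨s(x, φ i.1), by
          simpa using hne i.1 i.2⟩ : EdgeSlot n)) := by
        intro e he
        obtain ⟨i, hi, hei⟩ := (mem_filter.1 he).2
        exact mem_image.2 ⟨⟨i, hi⟩, mem_attach _ _, Subtype.ext hei.symm⟩
      refine (card_le_card this).trans (card_image_le.trans ?_)
      rw [card_attach]; exact hD jj
    have hdis : ∀ x ∈ A, ∀ y ∈ A, x ≠ y → Disjoint (blk x) (blk y) := by
      intro x hx y hy hxy
      rw [Finset.disjoint_left]
      intro e he he'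
      obtain ⟨i, hi, hei⟩ := (mem_filter.1 he).2
      obtain ⟨i', hi', hei'⟩ := (mem_filter.1 he').2
      rw [hei] at hei'
      rcases Sym2.eq_iff.1 hei' with ⟨h, _⟩ | ⟨h, _⟩
      · exact hxy h
      · exact (hAav x hx).1 i' (hB jj i' hi') h.symm
    have hnone := Pr_none q h0 h1 D blk A hdis hblkcard
    rw [hAcard] at hnone
    set δ : ℝ := (1 - q ^ D) ^ T with hδ
    set N : Finset (EdgeSlot n) := A.biUnion blk with hN
    -- conditional bound
    have hcond := le_Pr_of_cond (cw q) (cw_nonneg h0 h1) (cw_sum q) (fun e => e ∈ N)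
      (fun ω : EdgeSlot n → Bool => ¬ ∀ x ∈ A, ¬ ∀ e ∈ blk x, ω e = true) (Ext B j φ E)
      (1 - r * δ) (by
        intro ω hω
        push Not at hω
        obtain ⟨x0, hx0, hx0e⟩ := hω
        have hav := hAav x0 hx0
        set φ0 : Fin m → Fin n := fun i => if i = jj then x0 else φ i with hφ0
        have hφ0lt : ∀ i : Fin m, (i : ℕ) < j → φ0 i = φ i := by
          intro i hi
          have : i ≠ jj := by
            intro h; rw [h] at hi; exact absurd hi (lt_irrefl _)
          simp [hφ0, this]
        have hφ0j : φ0 jj = x0 := by simp [hφ0]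
        have hcases : ∀ i : Fin m, (i : ℕ) < j + 1 → (i : ℕ) < j ∨ i = jj := by
          intro i hi
          rcases Nat.lt_succ_iff_lt_or_eq.1 hi with h | h
          · exact Or.inl h
          · exact Or.inr (Fin.ext h)
        have hI := ih (j + 1) (by omega) φ0 (E ∪ N) (by
            intro a b ha hb hab
            rcases hcases a ha with ha' | ha' <;> rcases hcases b hb with hb' | hb'
            · rw [hφ0lt a ha', hφ0lt b hb'] at hab; exact hinj a b ha' hb' hab
            · rw [hb', hφ0lt a ha', hφ0j] at hab; exact absurd hab (hav.1 a ha')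
            · rw [ha', hφ0lt b hb', hφ0j] at hab; exact absurd hab.symm (hav.1 b hb')
            · rw [ha', hb']) (by
            intro e he
            rcases mem_union.1 he with he | he
            · obtain ⟨i, hi, hie⟩ := hE e he
              exact ⟨i, Nat.lt_succ_of_lt hi, by rw [hφ0lt i hi]; exact hie⟩
            · obtain ⟨x, hx, hex⟩ := mem_biUnion.1 he
              obtain ⟨i, hi, hei⟩ := (mem_filter.1 hex).2
              have hij : (i : ℕ) < j := hB jj i hi
              refine ⟨i, Nat.lt_succ_of_lt hij, ?_⟩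
              rw [hφ0lt i hij, hei]
              exact Sym2.mem_mk_right _ _) (by
            intro i hi
            rcases hcases i hi with hi' | hi'
            · -- old vertex
              rw [hφ0lt i hi']
              have hsub : (univ.filter (fun x : Fin n => (∀ a : Fin m, (a : ℕ) < j + 1 → φ0 a ≠ x) ∧
                  ∃ e ∈ E ∪ N, e.1 = s(x, φ i))) ⊆
                  (univ.filter (fun x : Fin n => (∀ a : Fin m, (a : ℕ) < j → φ a ≠ x) ∧
                    ∃ e ∈ E, e.1 = s(x, φ i))) ∪ (if i ∈ B jj then A else ∅) := by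
                intro x hx
                obtain ⟨hxu, e, he, hex⟩ := (mem_filter.1 hx).2
                have hxu' : ∀ a : Fin m, (a : ℕ) < j → φ a ≠ x := fun a ha => by
                  rw [← hφ0lt a ha]; exact hxu a (Nat.lt_succ_of_lt ha)
                rcases mem_union.1 he with he | he
                · exact mem_union_left _ (mem_filter.2 ⟨mem_univ _, hxu', e, he, hex⟩)
                · obtain ⟨y, hy, hey⟩ := mem_biUnion.1 he
                  obtain ⟨i', hi'', hei'⟩ := (mem_filter.1 hey).2
                  rw [hex] at hei'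
                  refine mem_union_right _ ?_
                  rcases Sym2.eq_iff.1 hei' with ⟨hxy, hii⟩ | ⟨hxy, hii⟩
                  · have : i = i' := hinj i i' hi' (hB jj i' hi'') hii
                    rw [this, if_pos hi'', hxy]; exact hy
                  · exact absurd hxy.symm (hxu' i' (hB jj i' hi''))
              refine (card_le_card hsub).trans ((card_union_le _ _).trans ?_)
              have hsp : (univ.filter (fun j' : Fin m => (j' : ℕ) < j + 1 ∧ i ∈ B j')) =
                  (univ.filter (fun j' : Fin m => (j' : ℕ) < j ∧ i ∈ B j')) ∪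
                    (if i ∈ B jj then {jj} else ∅) := by
                ext j'
                simp only [mem_filter, mem_univ, true_and, mem_union]
                constructor
                · rintro ⟨h1', h2'⟩
                  rcases hcases j' h1' with h | h
                  · exact Or.inl ⟨h, h2'⟩
                  · right; rw [h] at h2' ⊢; rw [if_pos h2']; exact mem_singleton_self _
                · rintro (⟨h1', h2'⟩ | h)
                  · exact ⟨Nat.lt_succ_of_lt h1', h2'⟩
                  · split_ifs at h with hh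
                    · rw [mem_singleton] at h; rw [h]; exact ⟨Nat.lt_succ_self _, hh⟩
                    · exact absurd h (notMem_empty _)
              have hdisj : Disjoint (univ.filter (fun j' : Fin m => (j' : ℕ) < j ∧ i ∈ B j'))
                  (if i ∈ B jj then {jj} else ∅) := by
                rw [Finset.disjoint_left]
                intro j' h1' h2'
                split_ifs at h2' with hh
                · rw [mem_singleton] at h2'
                  rw [h2'] at h1'
                  exact absurd (mem_filter.1 h1').2.1 (lt_irrefl _)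
                · exact absurd h2' (notMem_empty _)
              rw [hsp, card_union_of_disjoint hdisj, mul_add]
              refine add_le_add (hC i hi') ?_
              split_ifs
              · rw [hAcard, card_singleton, mul_one]
              · simp
            · -- the new vertex
              rw [hi', hφ0j]
              have hempty : (univ.filter (fun x : Fin n => (∀ a : Fin m, (a : ℕ) < j + 1 → φ0 a ≠ x) ∧
                  ∃ e ∈ E ∪ N, e.1 = s(x, x0))) = ∅ := by
                rw [filter_eq_empty_iff]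
                rintro x _ ⟨hxu, e, he, hex⟩
                have hxu' : ∀ a : Fin m, (a : ℕ) < j → φ a ≠ x := fun a ha => by
                  rw [← hφ0lt a ha]; exact hxu a (Nat.lt_succ_of_lt ha)
                have hend : ∃ i : Fin m, (i : ℕ) < j ∧ φ i ∈ e.1 := by
                  rcases mem_union.1 he with he | he
                  · exact hE e he
                  · obtain ⟨y, hy, hey⟩ := mem_biUnion.1 he
                    obtain ⟨i', hi'', hei'⟩ := (mem_filter.1 hey).2
                    exact ⟨i', hB jj i' hi'', by rw [hei']; exact Sym2.mem_mk_right _ _⟩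
                obtain ⟨i', hi'', hmem⟩ := hend
                rw [hex, Sym2.mem_iff] at hmem
                rcases hmem with h | h
                · exact hxu' i' hi'' h
                · exact hav.1 i' hi'' h
              rw [hempty, card_empty]; exact Nat.zero_le _)
        refine hI.trans (Pr_mono _ (cw_nonneg h0 h1) _ _ ?_)
        rintro ω' ⟨φ', hagree, hφ'inj, hφ'e⟩
        refine ⟨φ', fun i hi => ?_, hφ'inj, ?_⟩
        · rw [hagree i (Nat.lt_succ_of_lt hi), hφ0lt i hi]
        · intro j' hj' i hi e he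
          rcases Nat.lt_or_ge j (j' : ℕ) with hlt | hge
          · obtain ⟨h1', h2'⟩ := hφ'e j' hlt i hi e he
            rw [mem_union, not_or] at h1'
            exact ⟨h1'.1, by rw [merge_of_not h1'.2]; exact h2'⟩
          · have hj'j : j' = jj := Fin.ext (le_antisymm hge hj')
            subst hj'j
            have hij : (i : ℕ) < j := hB _ i hi
            have e1 : φ' jj = x0 := by
              rw [hagree jj (Nat.lt_succ_self _), hφ0j]
            have e2 : φ' i = φ i := by
              rw [hagree i (Nat.lt_succ_of_lt hij), hφ0lt i hij]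
            rw [e1, e2] at he
            have hb : e ∈ blk x0 := mem_filter.2 ⟨mem_univ _, i, hi, he⟩
            have hbN : e ∈ N := mem_biUnion.2 ⟨x0, hx0, hb⟩
            exact ⟨hav.2 i hi e he, by rw [merge_of (P := fun e => e ∈ N) hbN]; exact hx0e e hb⟩)
    have hPG := Pr_not (cw q) (cw_sum q) (fun ω : EdgeSlot n → Bool =>
      ∀ x ∈ A, ¬ ∀ e ∈ blk x, ω e = true)
    have hG1 : 1 - δ ≤ Pr (cw q) (fun ω : EdgeSlot n → Bool =>
        ¬ ∀ x ∈ A, ¬ ∀ e ∈ blk x, ω e = true) := by
      rw [hPG]; linarith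
    have hG2 := Pr_le_one (cw q) (cw_nonneg h0 h1) (cw_sum q) (fun ω : EdgeSlot n → Bool =>
        ¬ ∀ x ∈ A, ¬ ∀ e ∈ blk x, ω e = true)
    have hδ0 : 0 ≤ δ := pow_nonneg (by have := pow_le_one₀ (n := D) h0 h1; linarith) _
    refine le_trans ?_ hcond
    push_cast
    set PG := Pr (cw q) (fun ω : EdgeSlot n → Bool =>
        ¬ ∀ x ∈ A, ¬ ∀ e ∈ blk x, ω e = true)
    have hr : (0 : ℝ) ≤ (r : ℝ) * δ := mul_nonneg (Nat.cast_nonneg _) hδ0
    by_cases hc : 0 ≤ 1 - (r : ℝ) * δ
    · nlinarith [mul_le_mul_of_nonneg_left hG1 hc]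
    · push Not at hc
      nlinarith [mul_nonneg (sub_nonneg.2 hG2) (neg_nonneg.2 hc.le)]

/-- helper2's greedy embedding lemma -/
theorem greedy (n m D Δ T : ℕ) (q : ℝ) (h0 : 0 ≤ q) (h1 : q ≤ 1)
    (B : Fin m → Finset (Fin m)) (hB : ∀ j, ∀ i ∈ B j, i < j) (hD : ∀ j, (B j).card ≤ D)
    (hΔ : ∀ i, (univ.filter (fun j => i ∈ B j)).card ≤ Δ) (hn : m + D * Δ * T + T ≤ n) :
    1 - m * (1 - q ^ D) ^ T ≤ Crest.FinProb.bernoulliProb q
      {ω : EdgeSlot n → Bool | ∃ φ : Fin m → Fin n, Function.Injective φ ∧
        ∀ j, ∀ i ∈ B j, (graphOf ω).Adj (φ i) (φ j)} := by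
  classical
  rw [bernoulliProb_eq_Pr]
  have key : ∀ φ0 : Fin m → Fin n, 1 - m * (1 - q ^ D) ^ T ≤ Pr (cw q) (Ext B 0 φ0 ∅) := by
    intro φ0
    exact step_main D Δ T q h0 h1 B hB hD hΔ hn m 0 (by omega) φ0 ∅
      (fun a b ha => absurd ha (Nat.not_lt_zero _)) (fun e he => absurd he (notMem_empty _))
      (fun i hi => absurd hi (Nat.not_lt_zero _))
  have hφ0 : Nonempty (Fin m → Fin n) := by
    rcases Nat.eq_zero_or_pos n with h | h
    · have hm : m = 0 := by omega
      subst hm
      exact ⟨fun i => i.elim0⟩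
    · exact ⟨fun _ => ⟨0, h⟩⟩
  obtain ⟨φ0⟩ := hφ0
  refine (key φ0).trans (Pr_mono (cw q) (cw_nonneg h0 h1) _ _ ?_)
  rintro ω ⟨φ', _, hinj, he⟩
  refine ⟨φ', hinj, fun j i hi => ?_⟩
  have hne : φ' i ≠ φ' j := fun h => absurd (hinj h) (hB j i hi).ne
  have hd : ¬ (s(φ' j, φ' i) : Sym2 (Fin n)).IsDiag := by simpa using hne.symm
  have h2 := (he j (Nat.zero_le _) i hi ⟨s(φ' j, φ' i), hd⟩ rfl).2
  unfold graphOf
  rw [SimpleGraph.fromEdgeSet_adj]
  refine ⟨?_, hne⟩
  rw [Sym2.eq_swap]
  exact ⟨hd, h2⟩

end Greedy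

end Crest.TG39
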