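import Mathlib

set_option autoImplicit false

namespace Crest.TG39
open Finset

/-- union bound sum over level sizes -/
theorem sum_choose_le {ι : Type*} [Fintype ι] [DecidableEq ι] (V : ι → ℕ) (x : ι → ℝ)
    (hx : ∀ i, 0 ≤ x i) (m : ℕ) (lam : ℝ) (hlam : 1 ≤ lam) :
    ∑ n ∈ (Fintype.piFinset fun i => range (V i + 1)).filter (fun n => m ≤ ∑ i, n i),
      ∏ i, (((V i).choose (n i) : ℝ) * x i ^ n i) ≤
      (lam ^ m)⁻¹ * Real.exp (lam * ∑ i, (V i : ℝ) * x i) := by
  have hl0 : 0 < lam := lt_of_lt_of_le one_pos hlam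
  have hpos : 0 < lam ^ m := pow_pos hl0 m
  rw [← div_eq_inv_mul, le_div_iff₀ hpos, Finset.sum_mul]
  calc ∑ n ∈ (Fintype.piFinset fun i => range (V i + 1)).filter (fun n => m ≤ ∑ i, n i),
        (∏ i, (((V i).choose (n i) : ℝ) * x i ^ n i)) * lam ^ m
      ≤ ∑ n ∈ (Fintype.piFinset fun i => range (V i + 1)).filter (fun n => m ≤ ∑ i, n i),
        ∏ i, (((V i).choose (n i) : ℝ) * (lam * x i) ^ n i) := by
        refine Finset.sum_le_sum fun n hn => ?_
        have hm := (Finset.mem_filter.1 hn).2
        have h1 : ∏ i, (((V i).choose (n i) : ℝ) * (lam * x i) ^ n i) =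
            (∏ i, (((V i).choose (n i) : ℝ) * x i ^ n i)) * lam ^ (∑ i, n i) := by
          rw [← Finset.prod_pow_eq_pow_sum, ← Finset.prod_mul_distrib]
          refine Finset.prod_congr rfl fun i _ => ?_
          rw [mul_pow]; ring
        rw [h1]
        refine mul_le_mul_of_nonneg_left (pow_le_pow_right₀ hlam hm) ?_
        exact Finset.prod_nonneg fun i _ => mul_nonneg (Nat.cast_nonneg _) (pow_nonneg (hx i) _)
    _ ≤ ∑ n ∈ (Fintype.piFinset fun i => range (V i + 1)),
        ∏ i, (((V i).choose (n i) : ℝ) * (lam * x i) ^ n i) := by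
        refine Finset.sum_le_sum_of_subset_of_nonneg (Finset.filter_subset _ _) fun n _ _ => ?_
        exact Finset.prod_nonneg fun i _ => mul_nonneg (Nat.cast_nonneg _)
          (pow_nonneg (mul_nonneg hl0.le (hx i)) _)
    _ = ∏ i, ∑ j ∈ range (V i + 1), (((V i).choose j : ℝ) * (lam * x i) ^ j) := by
        rw [Finset.prod_univ_sum]
    _ ≤ ∏ i, Real.exp (lam * ((V i : ℝ) * x i)) := by
        refine Finset.prod_le_prod (fun i _ => ?_) fun i _ => ?_
        · exact Finset.sum_nonneg fun j _ => mul_nonneg (Nat.cast_nonneg _)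
            (pow_nonneg (mul_nonneg hl0.le (hx i)) _)
        · have h2 : ∑ j ∈ range (V i + 1), (((V i).choose j : ℝ) * (lam * x i) ^ j) =
              (lam * x i + 1) ^ V i := by
            rw [add_pow]
            refine Finset.sum_congr rfl fun j _ => ?_
            rw [one_pow, mul_one]; ring
          rw [h2]
          have h3 : lam * x i + 1 ≤ Real.exp (lam * x i) := Real.add_one_le_exp _
          calc (lam * x i + 1) ^ V i ≤ (Real.exp (lam * x i)) ^ V i :=
                pow_le_pow_left₀ (by have := mul_nonneg hl0.le (hx i); linarith) h3 _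
            _ = Real.exp (lam * ((V i : ℝ) * x i)) := by
                rw [← Real.exp_nat_mul]; congr 1; ring
    _ = Real.exp (lam * ∑ i, (V i : ℝ) * x i) := by
        rw [← Real.exp_sum, Finset.mul_sum]

end Crest.TG39
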