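import Mathlib

set_option autoImplicit false

namespace Crest.TG

open Finset

/-- Transport with edge capacities: the cut condition suffices. -/
theorem flow {A B : Type*} [Fintype A] [Fintype B] [DecidableEq A] [DecidableEq B]
    (P : A → ℝ) (Q : B → ℝ) (c : A → B → ℝ) (hP : ∀ a, 0 ≤ P a) (hQ : ∀ b, 0 ≤ Q b)
    (hc : ∀ a b, 0 ≤ c a b)
    (hcut : ∀ (S : Finset A) (T : Finset B),
      ∑ a ∈ S, P a ≤ ∑ b ∈ T, Q b + ∑ a ∈ S, ∑ b ∈ Tᶜ, c a b) :
    ∃ x : A → B → ℝ, (∀ a b, 0 ≤ x a b ∧ x a b ≤ c a b) ∧
      (∀ a, P a ≤ ∑ b, x a b) ∧ (∀ b, ∑ a, x a b ≤ Q b) := by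
  classical
  -- energy
  set u : (A → B → ℝ) → A → ℝ := fun x a => max (P a - ∑ b, x a b) 0 with hu
  set v : (A → B → ℝ) → B → ℝ := fun x b => max (∑ a, x a b - Q b) 0 with hv
  set E : (A → B → ℝ) → ℝ := fun x => ∑ a, (u x a) ^ 2 + ∑ b, (v x b) ^ 2 with hE
  have hcont : Continuous E := by
    simp only [hE, hu, hv]
    fun_prop
  let K : Set (A → B → ℝ) := Set.Icc (fun _ _ => 0) (fun a b => c a b)
  have hK : IsCompact K := isCompact_Icc
  have hne : K.Nonempty := ⟨fun _ _ => 0, ⟨le_refl _, fun a b => hc a b⟩⟩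
  obtain ⟨x, hxK, hmin⟩ := hK.exists_isMinOn hne hcont.continuousOn
  have hx0 : ∀ a b, 0 ≤ x a b := fun a b => hxK.1 a b
  have hx1 : ∀ a b, x a b ≤ c a b := fun a b => hxK.2 a b
  have hu0 : ∀ a, 0 ≤ u x a := fun a => le_max_right _ _
  have hv0 : ∀ b, 0 ≤ v x b := fun b => le_max_right _ _
  -- perturbation
  have key : ∀ (a : A) (b : B) (e : ℝ), 0 ≤ x a b + e → x a b + e ≤ c a b →
      (u x a) ^ 2 + (v x b) ^ 2 ≤
        (max (P a - ∑ b, x a b - e) 0) ^ 2 + (max (∑ a, x a b - Q b + e) 0) ^ 2 := by
    intro a b e h1 h2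
    let y : A → B → ℝ := fun a' b' => x a' b' + (if a' = a ∧ b' = b then e else 0)
    have hyK : y ∈ K := by
      constructor
      · intro a' b'
        simp only [y]
        by_cases h : a' = a ∧ b' = b
        · rw [if_pos h, h.1, h.2]; exact h1
        · rw [if_neg h, add_zero]; exact hx0 a' b'
      · intro a' b'
        simp only [y]
        by_cases h : a' = a ∧ b' = b
        · rw [if_pos h, h.1, h.2]; exact h2
        · rw [if_neg h, add_zero]; exact hx1 a' b'
    have hm : E x ≤ E y := hmin hyK
    have hrow : ∀ a', ∑ b', y a' b' = ∑ b', x a' b' + (if a' = a then e else 0) := by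
      intro a'
      simp only [y, sum_add_distrib]
      congr 1
      by_cases h : a' = a
      · simp [h]
      · simp [h]
    have hcol : ∀ b', ∑ a', y a' b' = ∑ a', x a' b' + (if b' = b then e else 0) := by
      intro b'
      simp only [y, sum_add_distrib]
      congr 1
      by_cases h : b' = b
      · simp [h]
      · simp [h]
    have hEu : ∑ a', (u y a') ^ 2 = ∑ a' ∈ univ.erase a, (u x a') ^ 2 +
        (max (P a - ∑ b, x a b - e) 0) ^ 2 := by
      rw [← sum_erase_add _ _ (mem_univ a)]
      congr 1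
      · apply sum_congr rfl
        intro a' ha'
        have : a' ≠ a := (mem_erase.mp ha').1
        simp only [hu, hrow, if_neg this, add_zero]
      · simp only [hu, hrow, if_true]
        congr 2
        ring
    have hEv : ∑ b', (v y b') ^ 2 = ∑ b' ∈ univ.erase b, (v x b') ^ 2 +
        (max (∑ a, x a b - Q b + e) 0) ^ 2 := by
      rw [← sum_erase_add _ _ (mem_univ b)]
      congr 1
      · apply sum_congr rfl
        intro b' hb'
        have : b' ≠ b := (mem_erase.mp hb').1
        simp only [hv, hcol, if_neg this, add_zero]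
      · simp only [hv, hcol, if_true]
        congr 2
        ring
    have hEux : ∑ a', (u x a') ^ 2 = ∑ a' ∈ univ.erase a, (u x a') ^ 2 + (u x a) ^ 2 := by
      rw [← sum_erase_add _ _ (mem_univ a)]
    have hEvx : ∑ b', (v x b') ^ 2 = ∑ b' ∈ univ.erase b, (v x b') ^ 2 + (v x b) ^ 2 := by
      rw [← sum_erase_add _ _ (mem_univ b)]
    have hm' : ∑ a', (u x a') ^ 2 + ∑ b', (v x b') ^ 2 ≤
        ∑ a', (u y a') ^ 2 + ∑ b', (v y b') ^ 2 := hm
    rw [hEu, hEv, hEux, hEvx] at hm'
    linarith
  -- first order condition 1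
  have foc1 : ∀ a b, v x b < u x a → x a b = c a b := by
    intro a b h
    by_contra hne'
    have hlt : x a b < c a b := lt_of_le_of_ne (hx1 a b) hne'
    set e := min (c a b - x a b) ((u x a - v x b) / 2) with he
    have he0 : 0 < e := lt_min (by linarith) (by linarith)
    have he1 : e ≤ c a b - x a b := min_le_left _ _
    have he2 : e ≤ (u x a - v x b) / 2 := min_le_right _ _
    have hk := key a b e (by linarith [hx0 a b]) (by linarith)
    have hua : 0 < u x a := lt_of_le_of_lt (hv0 b) h
    have hua' : u x a = P a - ∑ b, x a b := by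
      simp only [hu] at hua ⊢
      apply max_eq_left
      by_contra hh
      push_neg at hh
      rw [max_eq_right hh.le] at hua
      exact lt_irrefl _ hua
    have h1 : max (P a - ∑ b, x a b - e) 0 = u x a - e := by
      rw [← hua']
      apply max_eq_left
      linarith [hv0 b]
    have h2 : max (∑ a, x a b - Q b + e) 0 ≤ v x b + e := by
      apply max_le
      · have : ∑ a, x a b - Q b ≤ v x b := le_max_left _ _
        linarith
      · linarith [hv0 b]
    have h3 : (max (∑ a, x a b - Q b + e) 0) ^ 2 ≤ (v x b + e) ^ 2 :=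
      pow_le_pow_left₀ (le_max_right _ _) h2 2
    rw [h1] at hk
    nlinarith [hv0 b]
  have foc2 : ∀ a b, u x a < v x b → x a b = 0 := by
    intro a b h
    by_contra hne'
    have hlt : 0 < x a b := lt_of_le_of_ne (hx0 a b) (Ne.symm hne')
    set e := min (x a b) ((v x b - u x a) / 2) with he
    have he0 : 0 < e := lt_min hlt (by linarith)
    have he1 : e ≤ x a b := min_le_left _ _
    have he2 : e ≤ (v x b - u x a) / 2 := min_le_right _ _
    have hk := key a b (-e) (by linarith) (by linarith [hx1 a b])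
    have hvb : 0 < v x b := lt_of_le_of_lt (hu0 a) h
    have hvb' : v x b = ∑ a, x a b - Q b := by
      simp only [hv] at hvb ⊢
      apply max_eq_left
      by_contra hh
      push_neg at hh
      rw [max_eq_right hh.le] at hvb
      exact lt_irrefl _ hvb
    have h1 : max (∑ a, x a b - Q b + -e) 0 = v x b - e := by
      rw [← hvb']
      rw [max_eq_left]
      · ring
      · linarith [hu0 a]
    have h2 : max (P a - ∑ b, x a b - -e) 0 ≤ u x a + e := by
      apply max_le
      · have : P a - ∑ b, x a b ≤ u x a := le_max_left _ _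
        linarith
      · linarith [hu0 a]
    have h3 : (max (P a - ∑ b, x a b - -e) 0) ^ 2 ≤ (u x a + e) ^ 2 :=
      pow_le_pow_left₀ (le_max_right _ _) h2 2
    rw [h1] at hk
    nlinarith [hu0 a]
  -- the cut
  set S : Finset A := univ.filter (fun a => 0 < u x a) with hS
  set T : Finset B := univ.filter (fun b => 0 < v x b) with hT
  have hST : ∀ a ∈ S, ∀ b ∈ Tᶜ, x a b = c a b := by
    intro a ha b hb
    apply foc1
    have h1 : 0 < u x a := (mem_filter.mp ha).2
    have h2 : ¬ 0 < v x b := by
      intro h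
      exact (mem_compl.mp hb) (mem_filter.mpr ⟨mem_univ _, h⟩)
    push_neg at h2
    linarith
  have hSc : ∀ a ∉ S, ∀ b ∈ T, x a b = 0 := by
    intro a ha b hb
    apply foc2
    have h1 : 0 < v x b := (mem_filter.mp hb).2
    have h2 : ¬ 0 < u x a := by
      intro h
      exact ha (mem_filter.mpr ⟨mem_univ _, h⟩)
    push_neg at h2
    linarith
  have hrowS : ∑ a ∈ S, ∑ b, x a b = ∑ b ∈ T, ∑ a, x a b + ∑ a ∈ S, ∑ b ∈ Tᶜ, c a b := by
    have e1 : ∑ a ∈ S, ∑ b, x a b = ∑ a ∈ S, (∑ b ∈ T, x a b + ∑ b ∈ Tᶜ, c a b) := by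
      apply sum_congr rfl
      intro a ha
      rw [← sum_add_sum_compl T]
      congr 1
      exact sum_congr rfl (fun b hb => hST a ha b hb)
    rw [e1, sum_add_distrib]
    congr 1
    rw [sum_comm]
    apply sum_congr rfl
    intro b hb
    rw [← sum_add_sum_compl S]
    have : ∑ a ∈ Sᶜ, x a b = 0 := sum_eq_zero (fun a ha => hSc a (mem_compl.mp ha) b hb)
    rw [this, add_zero]
  have hcolT : ∑ b ∈ T, Q b ≤ ∑ b ∈ T, ∑ a, x a b := by
    apply sum_le_sum
    intro b hb
    have h1 : 0 < v x b := (mem_filter.mp hb).2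
    by_contra hh
    push_neg at hh
    have : v x b = 0 := by
      simp only [hv]
      apply max_eq_right
      linarith
    linarith
  have hSempty : S = ∅ := by
    by_contra hSne
    have hSne' : S.Nonempty := nonempty_iff_ne_empty.mpr hSne
    have hlt : ∑ a ∈ S, ∑ b, x a b < ∑ a ∈ S, P a := by
      apply sum_lt_sum_of_nonempty hSne'
      intro a ha
      have h1 : 0 < u x a := (mem_filter.mp ha).2
      by_contra hh
      push_neg at hh
      have : u x a = 0 := by
        simp only [hu]
        apply max_eq_right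
        linarith
      linarith
    have := hcut S T
    linarith
  refine ⟨x, fun a b => ⟨hx0 a b, hx1 a b⟩, ?_, ?_⟩
  · intro a
    by_contra hh
    push_neg at hh
    have : a ∈ S := by
      apply mem_filter.mpr
      refine ⟨mem_univ _, ?_⟩
      simp only [hu]
      apply lt_max_of_lt_left
      linarith
    rw [hSempty] at this
    exact absurd this (notMem_empty a)
  · intro b
    by_contra hh
    push_neg at hh
    have hb : b ∈ T := by
      apply mem_filter.mpr
      refine ⟨mem_univ _, ?_⟩
      simp only [hv]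
      apply lt_max_of_lt_left
      linarith
    have h0 : ∑ a, x a b = 0 := by
      apply sum_eq_zero
      intro a _
      apply hSc a _ b hb
      rw [hSempty]
      exact notMem_empty a
    linarith [hQ b]

end Crest.TG
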