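import Mathlib
import Crest.Agent.TG_Flow

set_option autoImplicit false

namespace Crest.TG40

open Finset

variable {J V : Type*} [Fintype J] [DecidableEq J] [Fintype V] [DecidableEq V]

theorem cut
    (lam : V → Finset J → ℝ) (hlam : ∀ v t, 0 ≤ lam v t)
    (D : ℕ) (hD : ∀ v t, lam v t ≠ 0 → t.card ≤ D)
    (mu1 mu2 : Finset J → ℝ) (h1 : ∀ R, 0 ≤ mu1 R) (h2 : ∀ R, 0 ≤ mu2 R)
    (hs1 : ∑ R, mu1 R = 1)
    (q1 : ℝ) (hq1 : 0 < q1) (hq1' : q1 ≤ 1)
    (hcond : ∀ (t : Finset J) (U : Finset (Finset J)),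
      q1 ^ t.card * ∑ R with R ∪ t ∈ U, mu1 R ≤ ∑ R with (t ⊆ R ∧ R ∈ U), mu1 R)
    (hmono : ∀ f : Finset J → ℝ, (∀ X Y, X ⊆ Y → f X ≤ f Y) →
      ∑ R, mu1 R * f R ≤ ∑ R, mu2 R * f R)
    (N : ℝ)
    (hdom : ∀ U : Finset (Finset J), (∀ X ∈ U, ∀ Y, X ⊆ Y → Y ∈ U) →
      ∑ v, ∑ t, lam v t * ∑ R with R ∪ t ∈ U, mu1 R ≤ N * ∑ R ∈ U, mu2 R)
    (b M : ℝ) (hb0 : 0 ≤ b) (hM0 : 0 ≤ M) (hb : 11 * N ≤ b) (hM : 4 ≤ M * q1 ^ D)
    (S : Finset (V × Finset J)) (T : Finset (Finset J)) :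
    ∑ a ∈ S, lam a.1 a.2 ≤ ∑ r ∈ T, b / 8 * mu2 r +
      ∑ a ∈ S, ∑ r ∈ Tᶜ, (if a.2 ⊆ r then M * (lam a.1 a.2 * mu2 r) else 0) := by
  classical
  set d : Finset J → ℝ := fun r => ∑ a ∈ S, if a.2 ⊆ r then lam a.1 a.2 else 0 with hd
  have hd0 : ∀ r, 0 ≤ d r := by
    intro r
    apply Finset.sum_nonneg
    intro a _
    split_ifs
    · exact hlam _ _
    · exact le_refl _
  have hdm : ∀ X Y, X ⊆ Y → d X ≤ d Y := by
    intro X Y hXY
    apply Finset.sum_le_sum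
    intro a _
    by_cases hX : a.2 ⊆ X
    · rw [if_pos hX, if_pos (hX.trans hXY)]
    · rw [if_neg hX]
      split_ifs
      · exact hlam _ _
      · exact le_refl _
  set g : Finset J → ℝ := fun r => min (b / 8) (M * d r) with hg
  have hg0 : ∀ r, 0 ≤ g r := fun r => le_min (by positivity) (mul_nonneg hM0 (hd0 r))
  have hgm : ∀ X Y, X ⊆ Y → g X ≤ g Y := fun X Y hXY =>
    min_le_min le_rfl (mul_le_mul_of_nonneg_left (hdm X Y hXY) hM0)
  -- the right-hand side dominates Φ₂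
  have hswap : ∑ a ∈ S, ∑ r ∈ Tᶜ, (if a.2 ⊆ r then M * (lam a.1 a.2 * mu2 r) else 0)
      = ∑ r ∈ Tᶜ, mu2 r * (M * d r) := by
    rw [Finset.sum_comm]
    apply Finset.sum_congr rfl
    intro r _
    simp only [hd, Finset.mul_sum]
    apply Finset.sum_congr rfl
    intro a _
    split_ifs
    · ring
    · ring
  have hR : ∑ r, mu2 r * g r ≤ ∑ r ∈ T, b / 8 * mu2 r +
      ∑ a ∈ S, ∑ r ∈ Tᶜ, (if a.2 ⊆ r then M * (lam a.1 a.2 * mu2 r) else 0) := by
    rw [hswap, ← Finset.sum_add_sum_compl T]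
    apply add_le_add
    · apply Finset.sum_le_sum
      intro r _
      rw [mul_comm]
      exact mul_le_mul_of_nonneg_right (min_le_left _ _) (h2 r)
    · apply Finset.sum_le_sum
      intro r _
      exact mul_le_mul_of_nonneg_left (min_le_right _ _) (h2 r)
  refine le_trans ?_ hR
  set s : ℝ := ∑ a ∈ S, lam a.1 a.2 with hs
  have hs0 : 0 ≤ s := Finset.sum_nonneg fun a _ => hlam _ _
  by_cases hΦ : s ≤ ∑ r, mu1 r * g r
  · exact hΦ.trans (hmono g hgm)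
  push Not at hΦ
  set U : Finset (Finset J) := univ.filter (fun r => b / 8 ≤ M * d r) with hU
  have hUup : ∀ X ∈ U, ∀ Y, X ⊆ Y → Y ∈ U := by
    intro X hX Y hXY
    rw [hU, Finset.mem_filter] at hX ⊢
    exact ⟨Finset.mem_univ _, hX.2.trans (mul_le_mul_of_nonneg_left (hdm X Y hXY) hM0)⟩
  set w : Finset J → ℝ := fun t => ∑ R with R ∪ t ∈ U, mu1 R with hw
  have hw0 : ∀ t, 0 ≤ w t := fun t => Finset.sum_nonneg fun R _ => h1 R
  have hwc : ∀ t, ∑ R with R ∪ t ∈ Uᶜ, mu1 R = 1 - w t := by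
    intro t
    have := Finset.sum_filter_add_sum_filter_not (univ : Finset (Finset J))
      (fun R => R ∪ t ∈ U) mu1
    rw [hs1] at this
    have h' : (univ.filter fun R : Finset J => R ∪ t ∈ Uᶜ)
        = (univ.filter fun R : Finset J => ¬ (R ∪ t ∈ U)) := by
      ext R; simp
    rw [h']
    simp only [hw]
    linarith
  -- key estimate
  have hkey : M * q1 ^ D * ∑ a ∈ S, lam a.1 a.2 * (1 - w a.2) ≤ ∑ r, mu1 r * g r := by
    have e1 : ∀ a ∈ S, q1 ^ D * (lam a.1 a.2 * (1 - w a.2)) ≤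
        lam a.1 a.2 * ∑ R with (a.2 ⊆ R ∧ R ∈ Uᶜ), mu1 R := by
      intro a _
      by_cases hz : lam a.1 a.2 = 0
      · simp [hz]
      have hc := hcond a.2 Uᶜ
      rw [hwc] at hc
      have hwle : 0 ≤ 1 - w a.2 := by
        rw [← hwc]; exact Finset.sum_nonneg fun R _ => h1 R
      have hpow : q1 ^ D ≤ q1 ^ a.2.card :=
        pow_le_pow_of_le_one hq1.le hq1' (hD _ _ hz)
      calc q1 ^ D * (lam a.1 a.2 * (1 - w a.2))
          = lam a.1 a.2 * (q1 ^ D * (1 - w a.2)) := by ring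
        _ ≤ lam a.1 a.2 * (q1 ^ a.2.card * (1 - w a.2)) := by
            apply mul_le_mul_of_nonneg_left _ (hlam _ _)
            exact mul_le_mul_of_nonneg_right hpow hwle
        _ ≤ _ := mul_le_mul_of_nonneg_left hc (hlam _ _)
    have e2 : ∑ a ∈ S, lam a.1 a.2 * ∑ R with (a.2 ⊆ R ∧ R ∈ Uᶜ), mu1 R
        = ∑ R ∈ Uᶜ, mu1 R * d R := by
      have : ∀ a ∈ S, lam a.1 a.2 * ∑ R with (a.2 ⊆ R ∧ R ∈ Uᶜ), mu1 R
          = ∑ R ∈ Uᶜ, (if a.2 ⊆ R then lam a.1 a.2 * mu1 R else 0) := by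
        intro a _
        rw [Finset.mul_sum, ← Finset.sum_filter]
        apply Finset.sum_congr _ (fun _ _ => rfl)
        ext R
        simp only [Finset.mem_filter, Finset.mem_univ, true_and]
        tauto
      rw [Finset.sum_congr rfl this, Finset.sum_comm]
      apply Finset.sum_congr rfl
      intro R _
      simp only [hd, Finset.mul_sum]
      apply Finset.sum_congr rfl
      intro a _
      split_ifs
      · ring
      · ring
    have e3 : M * ∑ R ∈ Uᶜ, mu1 R * d R ≤ ∑ r, mu1 r * g r := by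
      have : M * ∑ R ∈ Uᶜ, mu1 R * d R = ∑ R ∈ Uᶜ, mu1 R * g R := by
        rw [Finset.mul_sum]
        apply Finset.sum_congr rfl
        intro R hR
        have hR' : M * d R < b / 8 := by
          rw [Finset.mem_compl, hU, Finset.mem_filter] at hR
          push Not at hR
          exact hR (Finset.mem_univ _)
        have : g R = M * d R := min_eq_right hR'.le
        rw [this]; ring
      rw [this]
      apply Finset.sum_le_univ_sum_of_nonneg
      intro R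
      exact mul_nonneg (h1 R) (hg0 R)
    calc M * q1 ^ D * ∑ a ∈ S, lam a.1 a.2 * (1 - w a.2)
        = M * ∑ a ∈ S, q1 ^ D * (lam a.1 a.2 * (1 - w a.2)) := by
          rw [mul_assoc, Finset.mul_sum]
      _ ≤ M * ∑ a ∈ S, lam a.1 a.2 * ∑ R with (a.2 ⊆ R ∧ R ∈ Uᶜ), mu1 R :=
          mul_le_mul_of_nonneg_left (Finset.sum_le_sum e1) hM0
      _ = M * ∑ R ∈ Uᶜ, mu1 R * d R := by rw [e2]
      _ ≤ _ := e3
  have hpos : 0 ≤ ∑ a ∈ S, lam a.1 a.2 * (1 - w a.2) := by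
    apply Finset.sum_nonneg
    intro a _
    apply mul_nonneg (hlam _ _)
    rw [← hwc]; exact Finset.sum_nonneg fun R _ => h1 R
  have h4 : 4 * ∑ a ∈ S, lam a.1 a.2 * (1 - w a.2) ≤ s := by
    have := mul_le_mul_of_nonneg_right hM hpos
    linarith
  have hsplit : ∑ a ∈ S, lam a.1 a.2 * (1 - w a.2) = s - ∑ a ∈ S, lam a.1 a.2 * w a.2 := by
    rw [hs, ← Finset.sum_sub_distrib]
    apply Finset.sum_congr rfl
    intro a _; ring
  have hW : ∑ a ∈ S, lam a.1 a.2 * w a.2 ≤ N * ∑ R ∈ U, mu2 R := by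
    refine le_trans ?_ (hdom U hUup)
    calc ∑ a ∈ S, lam a.1 a.2 * w a.2 ≤ ∑ a : V × Finset J, lam a.1 a.2 * w a.2 := by
          apply Finset.sum_le_univ_sum_of_nonneg
          intro a
          exact mul_nonneg (hlam _ _) (hw0 _)
      _ = ∑ v, ∑ t, lam v t * ∑ R with R ∪ t ∈ U, mu1 R := by
          rw [Fintype.sum_prod_type]
  have hΦ2 : b / 8 * ∑ R ∈ U, mu2 R ≤ ∑ r, mu2 r * g r := by
    have : b / 8 * ∑ R ∈ U, mu2 R = ∑ R ∈ U, mu2 R * g R := by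
      rw [Finset.mul_sum]
      apply Finset.sum_congr rfl
      intro R hR
      rw [hU, Finset.mem_filter] at hR
      have : g R = b / 8 := min_eq_left hR.2
      rw [this]; ring
    rw [this]
    apply Finset.sum_le_univ_sum_of_nonneg
    intro R
    exact mul_nonneg (h2 R) (hg0 R)
  have hmu0 : 0 ≤ ∑ R ∈ U, mu2 R := Finset.sum_nonneg fun R _ => h2 R
  have h11 : 11 * N * ∑ R ∈ U, mu2 R ≤ b * ∑ R ∈ U, mu2 R :=
    mul_le_mul_of_nonneg_right hb hmu0
  nlinarith [h4, hsplit, hW, hΦ2, h11]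

end Crest.TG40
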