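import Mathlib
import Crest.Agent.TG_OD

set_option autoImplicit false

namespace Crest.TG

open Finset

variable {α : Type*} [Fintype α] [DecidableEq α]

theorem sum_pr_univ (t : α → ℝ) (ht : ∀ i, 0 ≤ t i) : ∑ X : Finset α, pr t X = 1 := by
  have h := sum_pr_powerset t (Finset.univ : Finset α)
  rw [Finset.powerset_univ] at h
  rw [h]
  exact div_self (prod_pos_one_add t ht _).ne'

theorem pr_const (p : ℝ) (hp1 : p < 1) (X : Finset α) :
    pr (fun _ : α => p / (1 - p)) X = p ^ X.card * (1 - p) ^ (Fintype.card α - X.card) := by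
  have h1 : (1 - p) ≠ 0 := by linarith
  have h2 : 1 + p / (1 - p) = 1 / (1 - p) := by field_simp; ring
  unfold pr
  rw [Finset.prod_const, Finset.prod_const, h2, div_pow, one_div, inv_pow, Finset.card_univ]
  have hle : X.card ≤ Fintype.card α := Finset.card_le_univ X
  rw [div_inv_eq_mul]
  have : (1 - p) ^ Fintype.card α = (1 - p) ^ X.card * (1 - p) ^ (Fintype.card α - X.card) := by
    rw [← pow_add]; congr 1; omega
  rw [this]
  field_simp

theorem pr_thin (θ : ℝ) (hθ1 : θ < 1) (Y X : Finset α) :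
    pr (fun i : α => if i ∈ Y then θ / (1 - θ) else 0) X
      = if X ⊆ Y then θ ^ X.card * (1 - θ) ^ (Y.card - X.card) else 0 := by
  have h1 : (1 - θ) ≠ 0 := by linarith
  unfold pr
  have hden : ∏ i : α, (1 + (if i ∈ Y then θ / (1 - θ) else 0)) = (1 / (1 - θ)) ^ Y.card := by
    have : ∀ i : α, (1 + (if i ∈ Y then θ / (1 - θ) else 0)) = if i ∈ Y then 1 / (1 - θ) else 1 := by
      intro i
      split_ifs
      · field_simp; ring
      · ring
    simp_rw [this]
    rw [Finset.prod_ite_mem, Finset.univ_inter, Finset.prod_const]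
  rw [hden]
  split_ifs with hXY
  · have hnum : ∏ i ∈ X, (if i ∈ Y then θ / (1 - θ) else 0) = (θ / (1 - θ)) ^ X.card := by
      rw [← Finset.prod_const]
      apply Finset.prod_congr rfl
      intro i hi
      simp [hXY hi]
    rw [hnum, div_pow, one_div, inv_pow, div_inv_eq_mul]
    have hle : X.card ≤ Y.card := Finset.card_le_card hXY
    have : (1 - θ) ^ Y.card = (1 - θ) ^ X.card * (1 - θ) ^ (Y.card - X.card) := by
      rw [← pow_add]; congr 1; omega
    rw [this]
    field_simp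
  · obtain ⟨i, hi, hiY⟩ := Finset.not_subset.mp hXY
    have : ∏ i ∈ X, (if i ∈ Y then θ / (1 - θ) else 0) = 0 :=
      Finset.prod_eq_zero hi (by simp [hiY])
    rw [this, zero_div]

/-- Thinned random sets with a spread law are stochastically dominated by the binomial set. -/
theorem thin_dom {ι : Type*} (s : Finset ι) (w : ι → ℝ) (hw : ∀ v ∈ s, 0 ≤ w v)
    (hw1 : ∑ v ∈ s, w v = 1) (Y : ι → Finset α) (θ τ0 p : ℝ) (hθ0 : 0 ≤ θ) (hθ1 : θ < 1)
    (hτ0 : 0 ≤ τ0) (hp0 : 0 ≤ p) (hp1 : p < 1) (hodds : θ / (1 - θ) * τ0 ≤ p / (1 - p))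
    (hS : ∀ S : Finset α, S.Nonempty → ∑ v ∈ s with S ⊆ Y v, w v ≤ τ0 ^ S.card)
    (U : Finset (Finset α)) (hU : ∀ A ∈ U, ∀ B : Finset α, A ⊆ B → B ∈ U) :
    ∑ v ∈ s, w v * ∑ A ∈ (Y v).powerset with A ∈ U, θ ^ A.card * (1 - θ) ^ ((Y v).card - A.card)
      ≤ ∑ R ∈ U, p ^ R.card * (1 - p) ^ (Fintype.card α - R.card) := by
  set D : Finset (Finset α) := Uᶜ with hDdef
  have hD : ∀ R ∈ D, ∀ X ⊆ R, X ∈ D := by
    intro R hR X hX
    rw [hDdef, Finset.mem_compl] at hR ⊢
    exact fun h => hR (hU X h R hX)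
  set t : ι → α → ℝ := fun v i => if i ∈ Y v then θ / (1 - θ) else 0 with ht
  set τ : α → ℝ := fun _ => p / (1 - p) with hτ
  have hθ' : 0 ≤ θ / (1 - θ) := div_nonneg hθ0 (by linarith)
  have hξ : 0 ≤ p / (1 - p) := div_nonneg hp0 (by linarith)
  have ht0 : ∀ v ∈ s, ∀ i, 0 ≤ t v i := by
    intro v _ i
    simp only [ht]
    split_ifs
    · exact hθ'
    · exact le_refl _
  have hmom : ∀ S : Finset α, ∑ v ∈ s, w v * ∏ i ∈ S, t v i ≤ ∏ i ∈ S, τ i := by
    intro S
    rcases S.eq_empty_or_nonempty with rfl | hne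
    · simp [hw1]
    · have h1 : ∀ v ∈ s, w v * ∏ i ∈ S, t v i
          = (θ / (1 - θ)) ^ S.card * (if S ⊆ Y v then w v else 0) := by
        intro v _
        simp only [ht]
        split_ifs with h
        · have : ∏ i ∈ S, (if i ∈ Y v then θ / (1 - θ) else 0) = (θ / (1 - θ)) ^ S.card := by
            rw [← Finset.prod_const]
            apply Finset.prod_congr rfl
            intro i hi
            simp [h hi]
          rw [this]; ring
        · obtain ⟨i, hi, hiY⟩ := Finset.not_subset.mp h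
          have : ∏ i ∈ S, (if i ∈ Y v then θ / (1 - θ) else 0) = 0 :=
            Finset.prod_eq_zero hi (by simp [hiY])
          rw [this]; ring
      rw [Finset.sum_congr rfl h1, ← Finset.mul_sum, ← Finset.sum_filter]
      simp only [hτ, Finset.prod_const]
      calc (θ / (1 - θ)) ^ S.card * ∑ v ∈ s with S ⊆ Y v, w v
          ≤ (θ / (1 - θ)) ^ S.card * τ0 ^ S.card :=
            mul_le_mul_of_nonneg_left (hS S hne) (pow_nonneg hθ' _)
        _ = (θ / (1 - θ) * τ0) ^ S.card := by rw [mul_pow]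
        _ ≤ (p / (1 - p)) ^ S.card := pow_le_pow_left₀ (mul_nonneg hθ' hτ0) hodds _
  have key := od_dom D hD s w hw hw1 t ht0 τ (fun _ => hξ) hmom
  -- pass to complements
  have hcompl : ∀ f : Finset α → ℝ, (∑ X : Finset α, f X = 1) →
      ∑ X ∈ D, f X = 1 - ∑ X ∈ U, f X := by
    intro f hf
    have := Finset.sum_add_sum_compl U f
    rw [hf] at this
    rw [hDdef]; linarith
  have e1 : ∑ X ∈ D, pr τ X = 1 - ∑ X ∈ U, pr τ X := hcompl _ (sum_pr_univ τ fun _ => hξ)
  have e2 : ∀ v ∈ s, ∑ X ∈ D, pr (t v) X = 1 - ∑ X ∈ U, pr (t v) X := fun v hv =>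
    hcompl _ (sum_pr_univ _ (ht0 v hv))
  have e3 : ∑ v ∈ s, w v * ∑ X ∈ D, pr (t v) X = 1 - ∑ v ∈ s, w v * ∑ X ∈ U, pr (t v) X := by
    have : ∀ v ∈ s, w v * ∑ X ∈ D, pr (t v) X = w v - w v * ∑ X ∈ U, pr (t v) X := by
      intro v hv
      rw [e2 v hv]; ring
    rw [Finset.sum_congr rfl this, Finset.sum_sub_distrib, hw1]
  rw [e1, e3] at key
  have e4 : ∑ X ∈ U, pr τ X = ∑ R ∈ U, p ^ R.card * (1 - p) ^ (Fintype.card α - R.card) :=
    Finset.sum_congr rfl fun X _ => pr_const p hp1 X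
  have e5 : ∀ v ∈ s, ∑ X ∈ U, pr (t v) X
      = ∑ A ∈ (Y v).powerset with A ∈ U, θ ^ A.card * (1 - θ) ^ ((Y v).card - A.card) := by
    intro v _
    have : ∀ X ∈ U, pr (t v) X
        = if X ⊆ Y v then θ ^ X.card * (1 - θ) ^ ((Y v).card - X.card) else 0 :=
      fun X _ => pr_thin θ hθ1 (Y v) X
    rw [Finset.sum_congr rfl this, ← Finset.sum_filter]
    apply Finset.sum_congr
    · ext X
      simp only [Finset.mem_filter, Finset.mem_powerset]
      tauto
    · intros; rfl
  have e6 : ∑ v ∈ s, w v * ∑ X ∈ U, pr (t v) X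
      = ∑ v ∈ s, w v * ∑ A ∈ (Y v).powerset with A ∈ U,
          θ ^ A.card * (1 - θ) ^ ((Y v).card - A.card) :=
    Finset.sum_congr rfl fun v hv => by rw [e5 v hv]
  rw [e4, e6] at key
  linarith

/-- Monotonicity of the binomial measure of an up-set in the density. -/
theorem bern_mono (p q : ℝ) (hp0 : 0 ≤ p) (hpq : p ≤ q) (hq1 : q < 1)
    (U : Finset (Finset α)) (hU : ∀ A ∈ U, ∀ B : Finset α, A ⊆ B → B ∈ U) :
    ∑ R ∈ U, p ^ R.card * (1 - p) ^ (Fintype.card α - R.card)
      ≤ ∑ R ∈ U, q ^ R.card * (1 - q) ^ (Fintype.card α - R.card) := by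
  have hq : 0 < 1 - q := by linarith
  have hp : 0 < 1 - p := by linarith
  have h := thin_dom (α := α) ({()} : Finset Unit) (fun _ => 1) (by simp) (by simp)
    (fun _ => Finset.univ) p 1 q hp0 (by linarith) (by norm_num) (by linarith) hq1
    (by rw [mul_one]; exact div_le_div₀ (by linarith) hpq hq (by linarith)) ?_ U hU
  · simp only [Finset.sum_singleton, one_mul, Finset.powerset_univ, Finset.card_univ] at h
    refine le_trans (le_of_eq ?_) h
    apply Finset.sum_congr
    · ext R; simp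
    · intros; rfl
  · intro S _
    simp

end Crest.TG
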