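import Mathlib
import Crest.Agent.TG_Thin

set_option autoImplicit false

/-!
# (★) Domination of thinned spread families

`Y : V → Finset α` a family with `#{v | S ⊆ Y v} ≤ N0 * τ0 ^ |S|` for `S ≠ ∅` and `|V| ≤ N0`.
If every `Y v` is thinned with density `θ`, and `θ / (1 - θ) * τ0 ≤ p / (1 - p)`, then for every
up-set `U`, `∑ v, P(A_v ∈ U) ≤ N0 * μ_p(U)`.
-/

namespace Crest.TG.Dom

open Finset

variable {V α : Type*} [Fintype V] [Fintype α] [DecidableEq α]

theorem sum_thin_powerset (θ : ℝ) (Y : Finset α) :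
    ∑ A ∈ Y.powerset, θ ^ A.card * (1 - θ) ^ (Y.card - A.card) = 1 := by
  rw [Finset.sum_pow_mul_eq_add_pow]
  simp

theorem sum_univ_card (p : ℝ) :
    ∑ R : Finset α, p ^ R.card * (1 - p) ^ (Fintype.card α - R.card) = 1 := by
  have h := sum_thin_powerset p (Finset.univ : Finset α)
  rw [Finset.powerset_univ, Finset.card_univ] at h
  exact h

theorem dom (Y : V → Finset α) (N0 τ0 θ p : ℝ) (hθ0 : 0 ≤ θ) (hθ1 : θ < 1)
    (hτ0 : 0 ≤ τ0) (hp0 : 0 ≤ p) (hp1 : p < 1) (hodds : θ / (1 - θ) * τ0 ≤ p / (1 - p))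
    (hV : (Fintype.card V : ℝ) ≤ N0)
    (hS : ∀ S : Finset α, S.Nonempty →
      ((univ.filter fun v : V => S ⊆ Y v).card : ℝ) ≤ N0 * τ0 ^ S.card)
    (U : Finset (Finset α)) (hU : ∀ A ∈ U, ∀ B : Finset α, A ⊆ B → B ∈ U) :
    ∑ v : V, ∑ A ∈ (Y v).powerset with A ∈ U, θ ^ A.card * (1 - θ) ^ ((Y v).card - A.card)
      ≤ N0 * ∑ R ∈ U, p ^ R.card * (1 - p) ^ (Fintype.card α - R.card) := by
  have hN : 0 ≤ N0 := le_trans (by positivity) hV
  by_cases hempty : (∅ : Finset α) ∈ U
  · have hall : ∀ B : Finset α, B ∈ U := fun B => hU ∅ hempty B (Finset.empty_subset B)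
    have hUu : U = Finset.univ := by
      ext B; simp [hall B]
    have h1 : ∀ v : V, ∑ A ∈ (Y v).powerset with A ∈ U,
        θ ^ A.card * (1 - θ) ^ ((Y v).card - A.card) = 1 := by
      intro v
      rw [Finset.filter_true_of_mem (fun A _ => hall A)]
      exact sum_thin_powerset θ (Y v)
    rw [Finset.sum_congr rfl (fun v _ => h1 v), hUu, sum_univ_card]
    simpa using hV
  · rcases eq_or_lt_of_le hN with h0 | hpos
    · have hcV : Fintype.card V = 0 := by
        have : (Fintype.card V : ℝ) ≤ 0 := by rw [h0]; exact hV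
        exact_mod_cast le_antisymm this (by positivity)
      haveI : IsEmpty V := Fintype.card_eq_zero_iff.mp hcV
      rw [← h0]
      simp
    · -- pad with one dummy index
      set s : Finset (Option V) := Finset.univ with hs
      set w : Option V → ℝ := fun o => match o with
        | none => 1 - (Fintype.card V : ℝ) / N0
        | some _ => 1 / N0 with hw
      set Z : Option V → Finset α := fun o => match o with
        | none => ∅
        | some v => Y v with hZ
      have hw0 : ∀ o ∈ s, 0 ≤ w o := by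
        intro o _
        cases o with
        | none =>
          simp only [hw]
          have : (Fintype.card V : ℝ) / N0 ≤ 1 := (div_le_one hpos).2 hV
          linarith
        | some v =>
          simp only [hw]
          positivity
      have hw1 : ∑ o ∈ s, w o = 1 := by
        rw [hs, Fintype.sum_option]
        simp only [hw, Finset.sum_const, Finset.card_univ, nsmul_eq_mul]
        field_simp
        ring
      have hspread : ∀ S : Finset α, S.Nonempty →
          ∑ o ∈ s with S ⊆ Z o, w o ≤ τ0 ^ S.card := by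
        intro S hne
        rw [Finset.sum_filter, hs, Fintype.sum_option]
        have hn : ¬ (S ⊆ Z none) := by
          simp only [hZ]
          intro h
          exact hne.ne_empty (Finset.subset_empty.mp h)
        rw [if_neg hn, zero_add]
        have e : ∑ v : V, (if S ⊆ Z (some v) then w (some v) else 0)
            = ((univ.filter fun v : V => S ⊆ Y v).card : ℝ) * (1 / N0) := by
          rw [← Finset.sum_filter]
          simp only [hw, hZ, Finset.sum_const, nsmul_eq_mul]
        rw [e]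
        calc ((univ.filter fun v : V => S ⊆ Y v).card : ℝ) * (1 / N0)
            ≤ (N0 * τ0 ^ S.card) * (1 / N0) :=
              mul_le_mul_of_nonneg_right (hS S hne) (by positivity)
          _ = τ0 ^ S.card := by field_simp
      have key := Crest.TG.thin_dom s w hw0 hw1 Z θ τ0 p hθ0 hθ1 hτ0 hp0 hp1 hodds hspread U hU
      rw [hs, Fintype.sum_option] at key
      have hnone : ∑ A ∈ (Z none).powerset with A ∈ U,
          θ ^ A.card * (1 - θ) ^ ((Z none).card - A.card) = 0 := by
        simp only [hZ]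
        rw [Finset.powerset_empty]
        apply Finset.sum_eq_zero
        intro A hA
        rw [Finset.mem_filter, Finset.mem_singleton] at hA
        exact absurd (hA.1 ▸ hA.2) hempty
      rw [hnone, mul_zero, zero_add] at key
      have e2 : ∑ v : V, w (some v) * ∑ A ∈ (Z (some v)).powerset with A ∈ U,
            θ ^ A.card * (1 - θ) ^ ((Z (some v)).card - A.card)
          = (1 / N0) * ∑ v : V, ∑ A ∈ (Y v).powerset with A ∈ U,
            θ ^ A.card * (1 - θ) ^ ((Y v).card - A.card) := by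
        rw [Finset.mul_sum]
      rw [e2] at key
      have := mul_le_mul_of_nonneg_left key hN
      rw [← mul_assoc] at this
      have e3 : N0 * (1 / N0) = 1 := by field_simp
      rw [e3, one_mul] at this
      exact this

/-- The same with the thinned law written as a function on all of `Finset α`. -/
theorem dom_univ (Y : V → Finset α) (N0 τ0 θ p : ℝ) (hθ0 : 0 ≤ θ) (hθ1 : θ < 1)
    (hτ0 : 0 ≤ τ0) (hp0 : 0 ≤ p) (hp1 : p < 1) (hodds : θ / (1 - θ) * τ0 ≤ p / (1 - p))
    (hV : (Fintype.card V : ℝ) ≤ N0)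
    (hS : ∀ S : Finset α, S.Nonempty →
      ((univ.filter fun v : V => S ⊆ Y v).card : ℝ) ≤ N0 * τ0 ^ S.card)
    (U : Finset (Finset α)) (hU : ∀ A ∈ U, ∀ B : Finset α, A ⊆ B → B ∈ U) :
    ∑ v : V, ∑ T ∈ U, (if T ⊆ Y v then θ ^ T.card * (1 - θ) ^ ((Y v).card - T.card) else 0)
      ≤ N0 * ∑ R ∈ U, p ^ R.card * (1 - p) ^ (Fintype.card α - R.card) := by
  refine le_trans (le_of_eq ?_) (dom Y N0 τ0 θ p hθ0 hθ1 hτ0 hp0 hp1 hodds hV hS U hU)
  refine Finset.sum_congr rfl (fun v _ => ?_)
  rw [← Finset.sum_filter]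
  refine Finset.sum_congr ?_ (fun _ _ => rfl)
  ext T
  simp only [Finset.mem_filter, Finset.mem_powerset]
  tauto

/-- With `m` labels: spread `C * n * q ^ |S|` is absorbed by the thinning. -/
theorem dom_labels (m : ℕ) (hm : 2 ≤ m) (Y : V → Finset α) (C n q N0 : ℝ)
    (hV : (Fintype.card V : ℝ) ≤ N0) (hN0 : 0 < N0) (hN : N0 ≤ C * n)
    (hC : C * n ≤ ((m : ℝ) - 1) * N0) (hq0 : 0 ≤ q) (hq1 : q < 1)
    (hS : ∀ S : Finset α, S.Nonempty →
      ((univ.filter fun v : V => S ⊆ Y v).card : ℝ) ≤ C * n * q ^ S.card)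
    (U : Finset (Finset α)) (hU : ∀ A ∈ U, ∀ B : Finset α, A ⊆ B → B ∈ U) :
    ∑ v : V, ∑ T ∈ U, (if T ⊆ Y v then
        (1 / (m : ℝ)) ^ T.card * (1 - 1 / (m : ℝ)) ^ ((Y v).card - T.card) else 0)
      ≤ N0 * ∑ R ∈ U, q ^ R.card * (1 - q) ^ (Fintype.card α - R.card) := by
  have hm' : (2 : ℝ) ≤ m := by exact_mod_cast hm
  have hr : 1 ≤ C * n / N0 := (one_le_div hN0).2 hN
  refine dom_univ Y N0 (C * n / N0 * q) (1 / (m : ℝ)) q (by positivity) ?_ ?_ hq0 hq1 ?_ hV ?_ U hU
  · rw [div_lt_one (by linarith)]; linarith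
  · exact mul_nonneg (by linarith) hq0
  · have h1 : (1 / (m : ℝ)) / (1 - 1 / (m : ℝ)) = 1 / ((m : ℝ) - 1) := by
      have : (m : ℝ) ≠ 0 := by linarith
      have : (m : ℝ) - 1 ≠ 0 := by linarith
      field_simp
    rw [h1]
    have h2 : C * n / N0 ≤ (m : ℝ) - 1 := (div_le_iff₀ hN0).2 hC
    have h3 : 1 / ((m : ℝ) - 1) * (C * n / N0 * q) ≤ q := by
      have h4 : 1 / ((m : ℝ) - 1) * (C * n / N0) ≤ 1 := by
        rw [one_div_mul_eq_div, div_le_one (by linarith)]
        exact h2
      calc 1 / ((m : ℝ) - 1) * (C * n / N0 * q) = (1 / ((m : ℝ) - 1) * (C * n / N0)) * q := by ring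
        _ ≤ 1 * q := mul_le_mul_of_nonneg_right h4 hq0
        _ = q := one_mul q
    refine le_trans h3 ?_
    rw [le_div_iff₀ (by linarith)]
    nlinarith
  · intro S hne
    refine le_trans (hS S hne) ?_
    rw [mul_pow]
    have h5 : C * n / N0 ≤ (C * n / N0) ^ S.card := by
      have hc : S.card ≠ 0 := by
        rw [Ne, Finset.card_eq_zero]; exact hne.ne_empty
      exact le_self_pow₀ hr hc
    have h6 : C * n = N0 * (C * n / N0) := by field_simp
    calc C * n * q ^ S.card = N0 * ((C * n / N0) * q ^ S.card) := by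
          rw [← mul_assoc, ← h6]
      _ ≤ N0 * ((C * n / N0) ^ S.card * q ^ S.card) := by
          apply mul_le_mul_of_nonneg_left _ hN0.le
          exact mul_le_mul_of_nonneg_right h5 (pow_nonneg hq0 _)

end Crest.TG.Dom
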