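import Mathlib

set_option autoImplicit false

namespace Crest.TG.FlowD

open Finset

section flow

variable {A B : Type*} [Fintype A] [Fintype B] [DecidableEq A] [DecidableEq B]

/-- feasible flows -/
def FlowSet (a : A → ℝ) (d : B → ℝ) (c : A → B → ℝ) : Set (A → B → ℝ) :=
  {g | (∀ x y, 0 ≤ g x y ∧ g x y ≤ c x y) ∧ (∀ x, ∑ y, g x y ≤ a x) ∧ ∀ y, ∑ x, g x y ≤ d y}

omit [DecidableEq A] [DecidableEq B] in
theorem isCompact_flowSet (a : A → ℝ) (d : B → ℝ) (c : A → B → ℝ) :
    IsCompact (FlowSet a d c) := by
  have h1 : IsCompact (Set.pi Set.univ fun x : A => Set.pi Set.univ fun y : B =>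
      Set.Icc (0 : ℝ) (c x y)) :=
    isCompact_univ_pi fun x => isCompact_univ_pi fun y => isCompact_Icc
  have h2 : IsClosed {g : A → B → ℝ | (∀ x, ∑ y, g x y ≤ a x) ∧ ∀ y, ∑ x, g x y ≤ d y} := by
    have e : {g : A → B → ℝ | (∀ x, ∑ y, g x y ≤ a x) ∧ ∀ y, ∑ x, g x y ≤ d y} =
        (⋂ x, {g : A → B → ℝ | ∑ y, g x y ≤ a x}) ∩ ⋂ y, {g : A → B → ℝ | ∑ x, g x y ≤ d y} := by
      ext g; simp
    rw [e]
    refine IsClosed.inter (isClosed_iInter fun x => ?_) (isClosed_iInter fun y => ?_)
    · exact isClosed_le (by fun_prop) continuous_const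
    · exact isClosed_le (by fun_prop) continuous_const
  have e : FlowSet a d c = (Set.pi Set.univ fun x : A => Set.pi Set.univ fun y : B =>
      Set.Icc (0 : ℝ) (c x y)) ∩ {g : A → B → ℝ | (∀ x, ∑ y, g x y ≤ a x) ∧ ∀ y, ∑ x, g x y ≤ d y} := by
    ext g
    simp only [FlowSet, Set.mem_ofPred_eq, Set.mem_inter_iff, Set.mem_pi, Set.mem_univ,
      forall_const, Set.mem_Icc]
  rw [e]
  exact h1.inter_right h2

theorem flow_core (a : A → ℝ) (d : B → ℝ) (c : A → B → ℝ) (ha : ∀ x, 0 ≤ a x)
    (hd : ∀ y, 0 ≤ d y) (hc : ∀ x y, 0 ≤ c x y)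
    (hcut : ∀ (S : Finset A) (T : Finset B),
      ∑ x ∈ S, a x ≤ ∑ y ∈ T, d y + ∑ x ∈ S, ∑ y ∈ Tᶜ, c x y) :
    ∃ g ∈ FlowSet a d c, ∀ x, ∑ y, g x y = a x := by
  classical
  have hne : (FlowSet a d c).Nonempty := by
    refine ⟨fun _ _ => 0, ⟨fun x y => ⟨le_rfl, hc x y⟩, fun x => by simpa using ha x,
      fun y => by simpa using hd y⟩⟩
  have hF : ContinuousOn (fun g : A → B → ℝ => ∑ x, ∑ y, g x y) (FlowSet a d c) :=
    Continuous.continuousOn (by fun_prop)
  obtain ⟨g0, hg0, hmax0⟩ := (isCompact_flowSet a d c).exists_isMaxOn hne hF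
  set m : ℝ := ∑ x, ∑ y, g0 x y with hm
  have hmax : ∀ g ∈ FlowSet a d c, ∑ x, ∑ y, g x y ≤ m := fun g hg => hmax0 hg
  set un : (A → B → ℝ) → Finset A := fun g => univ.filter (fun x => ∑ y, g x y < a x) with hun
  set TT : Set ℕ := {n | ∃ g ∈ FlowSet a d c, ∑ x, ∑ y, g x y = m ∧ (un g).card = n} with hTT
  have hTne : TT.Nonempty := ⟨_, g0, hg0, rfl, rfl⟩
  have hTb : BddAbove TT := ⟨Fintype.card A, by
    rintro n ⟨g, -, -, rfl⟩
    exact Finset.card_le_univ _⟩
  obtain ⟨g, hg, hgm, hgc⟩ := Nat.sSup_mem hTne hTb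
  have hcmax : ∀ g' ∈ FlowSet a d c, ∑ x, ∑ y, g' x y = m → (un g').card ≤ (un g).card := by
    intro g' hg' hm'
    rw [hgc]
    exact le_csSup hTb ⟨g', hg', hm', rfl⟩
  obtain ⟨hg1, hg2, hg3⟩ := hg
  refine ⟨g, ⟨hg1, hg2, hg3⟩, ?_⟩
  by_contra hcon
  push Not at hcon
  obtain ⟨x0, hx0⟩ := hcon
  have hx0' : x0 ∈ un g := by
    simp only [hun, mem_filter, mem_univ, true_and]
    exact lt_of_le_of_ne (hg2 x0) hx0
  set S := un g with hS
  set T : Finset B := univ.filter (fun y => ∃ x ∈ S, g x y < c x y) with hT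
  have hSlt : ∀ x ∈ S, ∑ y, g x y < a x := fun x hx => by
    simpa [hS, hun] using hx
  -- bump function
  have bump_row : ∀ (x : A) (y : B) (e : ℝ) (x1 : A),
      ∑ y1, (g x1 y1 + if x1 = x ∧ y1 = y then e else 0) =
        (∑ y1, g x1 y1) + if x1 = x then e else 0 := by
    intro x y e x1
    rw [Finset.sum_add_distrib]
    congr 1
    by_cases h : x1 = x <;> simp [h]
  have bump_col : ∀ (x : A) (y : B) (e : ℝ) (y1 : B),
      ∑ x1, (g x1 y1 + if x1 = x ∧ y1 = y then e else 0) =
        (∑ x1, g x1 y1) + if y1 = y then e else 0 := by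
    intro x y e y1
    rw [Finset.sum_add_distrib]
    congr 1
    by_cases h : y1 = y <;> simp [h]
  have h1 : ∀ y ∈ T, ∑ x, g x y = d y := by
    intro y hy
    by_contra hne'
    have hlt : ∑ x, g x y < d y := lt_of_le_of_ne (hg3 y) hne'
    simp only [hT, mem_filter, mem_univ, true_and] at hy
    obtain ⟨x, hxS, hxy⟩ := hy
    have hrow := hSlt x hxS
    set e : ℝ := min (a x - ∑ y, g x y) (min (d y - ∑ x, g x y) (c x y - g x y)) with he
    have he0 : 0 < e := lt_min (by linarith) (lt_min (by linarith) (by linarith))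
    have he1 : e ≤ a x - ∑ y, g x y := min_le_left _ _
    have he2 : e ≤ d y - ∑ x, g x y := le_trans (min_le_right _ _) (min_le_left _ _)
    have he3 : e ≤ c x y - g x y := le_trans (min_le_right _ _) (min_le_right _ _)
    have hmem : (fun x1 y1 => g x1 y1 + if x1 = x ∧ y1 = y then e else 0) ∈ FlowSet a d c := by
      refine ⟨fun x1 y1 => ?_, fun x1 => ?_, fun y1 => ?_⟩
      · dsimp only
        split_ifs with h
        · obtain ⟨rfl, rfl⟩ := h
          exact ⟨by linarith [(hg1 x1 y1).1], by linarith⟩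
        · simpa using hg1 x1 y1
      · dsimp only
        rw [bump_row]
        split_ifs with h
        · subst h; linarith
        · simpa using hg2 x1
      · dsimp only
        rw [bump_col]
        split_ifs with h
        · subst h; linarith
        · simpa using hg3 y1
    have h := hmax _ hmem
    have hsum : ∑ x1, ∑ y1, (g x1 y1 + if x1 = x ∧ y1 = y then e else 0) = m + e := by
      simp_rw [bump_row]
      rw [Finset.sum_add_distrib, hgm]
      simp
    rw [hsum] at h
    linarith
  have h2 : ∀ y ∈ T, ∀ x' : A, x' ∉ S → g x' y = 0 := by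
    intro y hy x' hx'
    by_contra hne'
    have hpos : 0 < g x' y := lt_of_le_of_ne (hg1 x' y).1 (Ne.symm hne')
    simp only [hT, mem_filter, mem_univ, true_and] at hy
    obtain ⟨x, hxS, hxy⟩ := hy
    have hrow := hSlt x hxS
    have hxx' : x' ≠ x := fun h => hx' (h ▸ hxS)
    set e : ℝ := min ((a x - ∑ y, g x y) / 2) (min (g x' y) (c x y - g x y)) with he
    have he0 : 0 < e := lt_min (by linarith) (lt_min hpos (by linarith))
    have he1 : e ≤ (a x - ∑ y, g x y) / 2 := min_le_left _ _
    have he2 : e ≤ g x' y := le_trans (min_le_right _ _) (min_le_left _ _)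
    have he3 : e ≤ c x y - g x y := le_trans (min_le_right _ _) (min_le_right _ _)
    set g' : A → B → ℝ := fun x1 y1 => g x1 y1 + (if x1 = x ∧ y1 = y then e else 0)
      - (if x1 = x' ∧ y1 = y then e else 0) with hg'
    have row' : ∀ x1, ∑ y1, g' x1 y1 = (∑ y1, g x1 y1) + (if x1 = x then e else 0)
        - (if x1 = x' then e else 0) := by
      intro x1
      simp only [hg']
      rw [Finset.sum_sub_distrib, bump_row]
      congr 1
      by_cases h : x1 = x' <;> simp [h]
    have col' : ∀ y1, ∑ x1, g' x1 y1 = ∑ x1, g x1 y1 := by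
      intro y1
      simp only [hg']
      rw [Finset.sum_sub_distrib, bump_col]
      by_cases h : y1 = y <;> simp [h]
    have hmem : g' ∈ FlowSet a d c := by
      refine ⟨fun x1 y1 => ?_, fun x1 => ?_, fun y1 => ?_⟩
      · simp only [hg']
        by_cases h : y1 = y
        · subst h
          by_cases h3 : x1 = x
          · subst h3
            have : ¬ (x1 = x') := fun h => hxx' h.symm
            simp only [true_and, if_true, this, false_and, if_false]
            exact ⟨by linarith [(hg1 x1 y1).1], by linarith⟩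
          · by_cases h4 : x1 = x'
            · subst h4
              simp only [h3, false_and, if_false, true_and, if_true]
              exact ⟨by linarith, by linarith [(hg1 x1 y1).2]⟩
            · simp only [h3, h4, false_and, if_false]
              simpa using hg1 x1 y1
        · simp only [h, and_false, if_false]
          simpa using hg1 x1 y1
      · rw [row']
        by_cases h3 : x1 = x
        · subst h3
          have : ¬ (x1 = x') := fun h => hxx' h.symm
          simp only [if_true, this, if_false]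
          linarith
        · by_cases h4 : x1 = x'
          · subst h4
            simp only [h3, if_false, if_true]
            linarith [hg2 x1]
          · simp only [h3, h4, if_false]
            simpa using hg2 x1
      · rw [col']; exact hg3 y1
    have htot : ∑ x1, ∑ y1, g' x1 y1 = m := by
      rw [Finset.sum_comm]
      simp_rw [col']
      rw [Finset.sum_comm, hgm]
    have hcard := hcmax g' hmem htot
    have hsub : insert x' S ⊆ un g' := by
      intro z hz
      simp only [hun, mem_filter, mem_univ, true_and]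
      rw [row']
      rcases Finset.mem_insert.mp hz with rfl | hz
      · simp only [hxx', if_false, if_true]
        linarith [hg2 z]
      · have hz' := hSlt z hz
        have hzx' : z ≠ x' := fun h => hx' (h ▸ hz)
        by_cases h3 : z = x
        · subst h3
          simp only [if_true, hzx', if_false]
          linarith
        · simp only [h3, hzx', if_false]
          simpa using hz'
    have := Finset.card_le_card hsub
    rw [Finset.card_insert_of_notMem hx'] at this
    omega
  have h3 : ∑ x ∈ S, ∑ y, g x y = ∑ y ∈ T, d y + ∑ x ∈ S, ∑ y ∈ Tᶜ, c x y := by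
    have e1 : ∀ x, ∑ y, g x y = ∑ y ∈ T, g x y + ∑ y ∈ Tᶜ, g x y := fun x =>
      (Finset.sum_add_sum_compl T _).symm
    simp_rw [e1]
    rw [Finset.sum_add_distrib]
    congr 1
    · rw [Finset.sum_comm]
      refine Finset.sum_congr rfl fun y hy => ?_
      rw [← h1 y hy, ← Finset.sum_add_sum_compl S (fun x => g x y)]
      have : ∑ x ∈ Sᶜ, g x y = 0 := Finset.sum_eq_zero fun x hx =>
        h2 y hy x (by simpa using hx)
      rw [this, add_zero]
    · refine Finset.sum_congr rfl fun x hx => Finset.sum_congr rfl fun y hy => ?_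
      have hy' : y ∉ T := by simpa using hy
      have : ¬ g x y < c x y := fun h => hy' (by
        simp only [hT, mem_filter, mem_univ, true_and]
        exact ⟨x, hx, h⟩)
      exact le_antisymm (hg1 x y).2 (not_lt.mp this)
  have h4 : ∑ x ∈ S, ∑ y, g x y < ∑ x ∈ S, a x :=
    Finset.sum_lt_sum_of_nonempty ⟨x0, hx0'⟩ hSlt
  have h5 := hcut S T
  linarith

theorem flow (a : A → ℝ) (b : B → ℝ) (E : A → B → Prop) [∀ x y, Decidable (E x y)] (M C : ℝ)
    (ha : ∀ x, 0 ≤ a x) (hb : ∀ y, 0 ≤ b y) (hM : 0 ≤ M) (hC : 0 ≤ C)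
    (hcut : ∀ (S : Finset A) (T : Finset B),
      ∑ x ∈ S, a x ≤ C * ∑ y ∈ T, b y + M * ∑ x ∈ S, ∑ y ∈ Tᶜ, if E x y then a x * b y else 0) :
    ∃ f : A → B → ℝ, (∀ x y, 0 ≤ f x y ∧ f x y ≤ M) ∧ (∀ x y, ¬ E x y → f x y = 0) ∧
      (∀ x, 0 < a x → ∑ y, b y * f x y = 1) ∧ ∀ y, 0 < b y → ∑ x, a x * f x y ≤ C := by
  classical
  obtain ⟨g, ⟨hg1, hg2, hg3⟩, hrow⟩ := flow_core a (fun y => C * b y)
    (fun x y => if E x y then M * (a x * b y) else 0) ha (fun y => mul_nonneg hC (hb y))
    (fun x y => by
      split_ifs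
      · exact mul_nonneg hM (mul_nonneg (ha x) (hb y))
      · exact le_rfl)
    (fun S T => by
      have h := hcut S T
      rw [Finset.mul_sum, Finset.mul_sum] at h
      refine h.trans (le_of_eq ?_)
      congr 1
      refine Finset.sum_congr rfl fun x _ => ?_
      rw [Finset.mul_sum]
      refine Finset.sum_congr rfl fun y _ => ?_
      split_ifs <;> simp)
  have hgE : ∀ x y, ¬ E x y → g x y = 0 := by
    intro x y h
    have := hg1 x y
    simp only [h, if_false] at this
    linarith
  have hgle : ∀ x y, g x y ≤ M * (a x * b y) := by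
    intro x y
    have := (hg1 x y).2
    dsimp only at this
    split_ifs at this
    · exact this
    · exact this.trans (mul_nonneg hM (mul_nonneg (ha x) (hb y)))
  refine ⟨fun x y => if a x = 0 ∨ b y = 0 then 0 else g x y / (a x * b y), ?_, ?_, ?_, ?_⟩
  · intro x y
    dsimp only
    split_ifs with h
    · exact ⟨le_rfl, hM⟩
    · push Not at h
      have hx : 0 < a x := lt_of_le_of_ne (ha x) (Ne.symm h.1)
      have hy : 0 < b y := lt_of_le_of_ne (hb y) (Ne.symm h.2)
      refine ⟨div_nonneg (hg1 x y).1 (mul_pos hx hy).le, ?_⟩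
      rw [div_le_iff₀ (mul_pos hx hy)]
      exact hgle x y
  · intro x y h
    dsimp only
    rw [hgE x y h]
    simp
  · intro x hx
    have e : ∀ y, b y * (if a x = 0 ∨ b y = 0 then 0 else g x y / (a x * b y)) = g x y / a x := by
      intro y
      by_cases hy : b y = 0
      · have h1 := hgle x y
        have h2 := (hg1 x y).1
        rw [hy] at h1
        have h3 : g x y = 0 := by
          simp only [mul_zero] at h1
          linarith
        simp [hy, h3]
      · simp only [hx.ne', hy, or_self, if_false]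
        field_simp
    simp_rw [e]
    rw [← Finset.sum_div, hrow x, div_self hx.ne']
  · intro y hy
    have e : ∀ x, a x * (if a x = 0 ∨ b y = 0 then 0 else g x y / (a x * b y)) = g x y / b y := by
      intro x
      by_cases hx : a x = 0
      · have h1 := hgle x y
        have h2 := (hg1 x y).1
        rw [hx] at h1
        have h3 : g x y = 0 := by
          simp only [zero_mul, mul_zero] at h1
          linarith
        simp [hx, h3]
      · simp only [hy.ne', hx, or_self, if_false]
        field_simp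
    simp_rw [e]
    rw [← Finset.sum_div, div_le_iff₀ hy]
    exact hg3 y

end flow

end Crest.TG.FlowD
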