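import Mathlib
import Crest.Agent.TG40_Cut
import Crest.Agent.TG_FlowD
import Crest.Agent.TG_Quench
import Crest.Agent.TG_Dom
import Crest.Agent.TG98_Spr
import Crest.Agent.TG55_AD

set_option autoImplicit false

namespace Crest.TG40

open Finset

section flow

variable {J V : Type*} [Fintype J] [DecidableEq J] [Fintype V] [DecidableEq V]

theorem gamma_flow
    (lam : V → Finset J → ℝ) (hlam : ∀ v t, 0 ≤ lam v t)
    (D : ℕ) (hD : ∀ v t, lam v t ≠ 0 → t.card ≤ D)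
    (mu1 mu2 : Finset J → ℝ) (h1 : ∀ R, 0 ≤ mu1 R) (h2 : ∀ R, 0 ≤ mu2 R)
    (hs1 : ∑ R, mu1 R = 1)
    (q1 : ℝ) (hq1 : 0 < q1) (hq1' : q1 ≤ 1)
    (hcond : ∀ (t : Finset J) (U : Finset (Finset J)),
      q1 ^ t.card * ∑ R with R ∪ t ∈ U, mu1 R ≤ ∑ R with (t ⊆ R ∧ R ∈ U), mu1 R)
    (hmono : ∀ f : Finset J → ℝ, (∀ X Y, X ⊆ Y → f X ≤ f Y) →
      ∑ R, mu1 R * f R ≤ ∑ R, mu2 R * f R)
    (N : ℝ)
    (hdom : ∀ U : Finset (Finset J), (∀ X ∈ U, ∀ Y, X ⊆ Y → Y ∈ U) →
      ∑ v, ∑ t, lam v t * ∑ R with R ∪ t ∈ U, mu1 R ≤ N * ∑ R ∈ U, mu2 R)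
    (b M : ℝ) (hb0 : 0 ≤ b) (hM0 : 0 ≤ M) (hb : 11 * N ≤ b) (hM : 4 ≤ M * q1 ^ D) :
    ∃ f : V → Finset J → Finset J → ℝ, (∀ v t r, 0 ≤ f v t r) ∧ (∀ v t r, f v t r ≤ M) ∧
      (∀ v t r, ¬ t ⊆ r → f v t r = 0) ∧ (∀ v t, lam v t ≠ 0 → 1 ≤ ∑ r, mu2 r * f v t r) ∧
      (∀ r, ∑ v, ∑ t, lam v t * f v t r ≤ b / 8) := by
  classical
  obtain ⟨f, hf1, hf2, hf3, hf4⟩ := Crest.TG.FlowD.flow (A := V × Finset J) (B := Finset J)
    (fun a => lam a.1 a.2) mu2 (fun a r => a.2 ⊆ r) M (b / 8) (fun a => hlam _ _) h2 hM0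
    (by positivity) (by
      intro S T
      have := cut lam hlam D hD mu1 mu2 h1 h2 hs1 q1 hq1 hq1' hcond hmono N hdom b M hb0 hM0 hb hM
        S T
      refine this.trans (le_of_eq ?_)
      rw [Finset.mul_sum, Finset.mul_sum]
      congr 1
      apply Finset.sum_congr rfl
      intro a _
      rw [Finset.mul_sum]
      apply Finset.sum_congr rfl
      intro r _
      split_ifs <;> ring)
  refine ⟨fun v t r => if mu2 r = 0 then 0 else f (v, t) r, ?_, ?_, ?_, ?_, ?_⟩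
  · intro v t r
    dsimp only
    split_ifs
    · exact le_rfl
    · exact (hf1 _ _).1
  · intro v t r
    dsimp only
    split_ifs
    · exact hM0
    · exact (hf1 _ _).2
  · intro v t r h
    dsimp only
    split_ifs
    · rfl
    · exact hf2 _ _ h
  · intro v t h
    have hp : 0 < lam v t := lt_of_le_of_ne (hlam v t) (Ne.symm h)
    have := hf3 (v, t) hp
    rw [← this]
    apply le_of_eq
    apply Finset.sum_congr rfl
    intro r _
    dsimp only
    split_ifs with hr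
    · rw [hr]; simp
    · rfl
  · intro r
    dsimp only
    by_cases hr : mu2 r = 0
    · simp only [hr, if_true, mul_zero, Finset.sum_const_zero]
      positivity
    · simp only [hr, if_false]
      have := hf4 r (lt_of_le_of_ne (h2 r) (Ne.symm hr))
      rw [Fintype.sum_prod_type] at this
      exact this

end flow

section laws

variable {J : Type*} [Fintype J] [DecidableEq J]

open Crest.TG.Spr

theorem hcond' (q1 : ℝ) (t : Finset J) (U : Finset (Finset J)) :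
    q1 ^ t.card * ∑ R with R ∪ t ∈ U, wP q1 R ≤ ∑ R with (t ⊆ R ∧ R ∈ U), wP q1 R := by
  have h := cond_law q1 t (fun R => if R ∈ U then (1 : ℝ) else 0)
  apply le_of_eq
  rw [Finset.sum_filter, Finset.sum_filter]
  have e1 : ∀ R : Finset J, (if R ∪ t ∈ U then wP q1 R else 0) =
      wP q1 R * (if t ∪ R ∈ U then (1 : ℝ) else 0) := by
    intro R
    rw [Finset.union_comm]
    split_ifs <;> simp
  have e2 : ∀ R : Finset J, (if t ⊆ R ∧ R ∈ U then wP q1 R else 0) =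
      wP q1 R * (if t ⊆ R then (if R ∈ U then (1 : ℝ) else 0) else 0) := by
    intro R
    by_cases h1 : t ⊆ R <;> by_cases h2 : R ∈ U <;> simp [h1, h2]
  simp_rw [e1, e2]
  exact h.symm

theorem hmono' (q q1 : ℝ) (h0 : 0 ≤ q) (h1 : q ≤ 1) (k0 : 0 ≤ q1) (k1 : q1 ≤ 1)
    (f : Finset J → ℝ) (hf : ∀ X Y, X ⊆ Y → f X ≤ f Y) :
    ∑ R, wP q1 R * f R ≤ ∑ R, wP (q + q1 - q * q1) R * f R := by
  rw [← union_law q q1 f]
  have e : ∑ R, wP q1 R * f R = ∑ X : Finset J, ∑ R : Finset J, wP q X * wP q1 R * f R := by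
    have : ∀ X : Finset J, ∑ R : Finset J, wP q X * wP q1 R * f R =
        wP q X * ∑ R : Finset J, wP q1 R * f R := by
      intro X
      rw [Finset.mul_sum]
      apply Finset.sum_congr rfl
      intro R _
      ring
    simp_rw [this]
    rw [← Finset.sum_mul, sum_wP, one_mul]
  rw [e]
  apply Finset.sum_le_sum
  intro X _
  apply Finset.sum_le_sum
  intro R _
  exact mul_le_mul_of_nonneg_left (hf _ _ subset_union_right)
    (mul_nonneg (wP_nonneg h0 h1 X) (wP_nonneg k0 k1 R))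

theorem hdom' {V : Type*} [Fintype V] (lam : V → Finset J → ℝ) (N0 q q1 : ℝ)
    (k0 : 0 ≤ q1) (k1 : q1 ≤ 1)
    (hd : ∀ U : Finset (Finset J), (∀ A ∈ U, ∀ B : Finset J, A ⊆ B → B ∈ U) →
      ∑ v : V, ∑ T ∈ U, lam v T ≤ N0 * ∑ R ∈ U, wP q R)
    (U : Finset (Finset J)) (hU : ∀ X ∈ U, ∀ Y, X ⊆ Y → Y ∈ U) :
    ∑ v, ∑ t, lam v t * ∑ R with R ∪ t ∈ U, wP q1 R ≤
      N0 * ∑ R ∈ U, wP (q + q1 - q * q1) R := by
  have e1 : ∑ v, ∑ t, lam v t * ∑ R with R ∪ t ∈ U, wP q1 R =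
      ∑ R : Finset J, wP q1 R * ∑ v, ∑ t ∈ univ.filter (fun t => R ∪ t ∈ U), lam v t := by
    calc ∑ v, ∑ t, lam v t * ∑ R with R ∪ t ∈ U, wP q1 R
        = ∑ v, ∑ t, ∑ R : Finset J, (if R ∪ t ∈ U then wP q1 R * lam v t else 0) := by
          apply Finset.sum_congr rfl; intro v _
          apply Finset.sum_congr rfl; intro t _
          rw [Finset.sum_filter, Finset.mul_sum]
          apply Finset.sum_congr rfl; intro R _
          split_ifs <;> ring
      _ = ∑ R : Finset J, ∑ v, ∑ t, (if R ∪ t ∈ U then wP q1 R * lam v t else 0) := by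
          rw [Finset.sum_comm]
          rw [Finset.sum_congr rfl (fun t _ => Finset.sum_comm)]
          rw [Finset.sum_comm]
          apply Finset.sum_congr rfl; intro R _
          exact Finset.sum_comm
      _ = _ := by
          apply Finset.sum_congr rfl; intro R _
          rw [Finset.mul_sum]
          apply Finset.sum_congr rfl; intro v _
          rw [Finset.sum_filter, Finset.mul_sum]
          apply Finset.sum_congr rfl; intro t _
          split_ifs <;> ring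
  rw [e1]
  have e2 : ∑ R ∈ U, wP (q + q1 - q * q1) R =
      ∑ R : Finset J, wP q1 R * ∑ X ∈ univ.filter (fun t => R ∪ t ∈ U), wP q X := by
    have h := union_law q q1 (fun Z : Finset J => if Z ∈ U then (1 : ℝ) else 0)
    have h3 : ∑ R ∈ U, wP (q + q1 - q * q1) R =
        ∑ Z : Finset J, wP (q + q1 - q * q1) Z * (if Z ∈ U then (1 : ℝ) else 0) := by
      simp only [mul_ite, mul_one, mul_zero]
      rw [← Finset.sum_filter, Finset.filter_univ_mem]
    rw [h3, ← h, Finset.sum_comm]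
    apply Finset.sum_congr rfl; intro R _
    rw [Finset.sum_filter, Finset.mul_sum]
    apply Finset.sum_congr rfl; intro X _
    rw [Finset.union_comm X R]
    split_ifs <;> ring
  rw [e2, Finset.mul_sum]
  apply Finset.sum_le_sum
  intro R _
  have h3 := hd (univ.filter (fun t => R ∪ t ∈ U)) (by
    intro A hA B hAB
    rw [Finset.mem_filter] at hA ⊢
    exact ⟨Finset.mem_univ _, hU _ hA.2 _ (Finset.union_subset_union_right hAB)⟩)
  have h4 := mul_le_mul_of_nonneg_left h3 (wP_nonneg k0 k1 R)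
  linarith

end laws

theorem num40 : ∃ n0 : ℕ, ∀ n : ℕ, n0 ≤ n → ∀ (x : ℝ) (v b : ℕ), 
    (n : ℝ) ^ (-((1 : ℝ) / 100)) ≤ x → v ≤ n → n ≤ 2 * b → b ≤ n →
    ((v : ℝ) + b) * Real.exp (-((b : ℝ) / (8 * (4 / x)))) ≤ 1 / (2 * (441 : ℝ)) := by
  refine ⟨2 * 882 * 24 * 64 ^ 4 + 1, fun n hn x v b hx hv hb hb' => ?_⟩
  have hn1 : (1 : ℝ) ≤ n := by
    have : 1 ≤ n := by omega
    exact_mod_cast this
  have hn0 : (0 : ℝ) < n := by linarith
  have hx0 : 0 < x := lt_of_lt_of_le (Real.rpow_pos_of_pos hn0 _) hx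
  have hx' : (n : ℝ) ^ (-((1 : ℝ) / 2)) ≤ x := by
    refine le_trans ?_ hx
    exact Real.rpow_le_rpow_of_exponent_le hn1 (by norm_num)
  have hb2 : (n : ℝ) ≤ 2 * b := by exact_mod_cast hb
  have hv2 : (v : ℝ) ≤ n := by exact_mod_cast hv
  have hb3 : (b : ℝ) ≤ n := by exact_mod_cast hb'
  have hy : (n : ℝ) ^ ((1 : ℝ) / 2) ≤ 2 * (b * x) := by
    have h1 : (n : ℝ) ^ ((1 : ℝ) / 2) = n * (n : ℝ) ^ (-((1 : ℝ) / 2)) := by
      rw [← Real.rpow_one_add' hn0.le (by norm_num)]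
      norm_num
    rw [h1]
    have h2 : (n : ℝ) * (n : ℝ) ^ (-((1 : ℝ) / 2)) ≤ (2 * b) * x :=
      mul_le_mul hb2 hx' (Real.rpow_pos_of_pos hn0 _).le (by positivity)
    linarith
  have hs : ((n : ℝ) ^ ((1 : ℝ) / 2)) ^ 4 = (n : ℝ) ^ 2 := by
    rw [← Real.rpow_natCast, ← Real.rpow_mul hn0.le, ← Real.rpow_natCast]
    norm_num
  set y : ℝ := (b : ℝ) / (8 * (4 / x)) with hyd
  have hy2 : y = b * x / 32 := by
    rw [hyd]; field_simp; ring
  have hy3 : (n : ℝ) ^ ((1 : ℝ) / 2) / 64 ≤ y := by rw [hy2]; linarith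
  have hyp : 0 ≤ (n : ℝ) ^ ((1 : ℝ) / 2) / 64 := by positivity
  have h4 : (n : ℝ) ^ 2 / (64 ^ 4 * 24) ≤ Real.exp y := by
    have h5 : y ^ 4 / (Nat.factorial 4 : ℝ) ≤ Real.exp y :=
      Real.pow_div_factorial_le_exp y (hyp.trans hy3) 4
    have h6 : ((n : ℝ) ^ ((1 : ℝ) / 2) / 64) ^ 4 ≤ y ^ 4 := pow_le_pow_left₀ hyp hy3 4
    rw [div_pow, hs] at h6
    have h7 : ((Nat.factorial 4 : ℕ) : ℝ) = 24 := by norm_num [Nat.factorial]
    rw [h7] at h5
    have : (n : ℝ) ^ 2 / (64 ^ 4 * 24) = (n : ℝ) ^ 2 / 64 ^ 4 / 24 := by field_simp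
    rw [this]
    linarith
  rw [Real.exp_neg]
  have hexp : 0 < Real.exp y := Real.exp_pos y
  rw [← div_eq_mul_inv, div_le_div_iff₀ hexp (by norm_num)]
  have hnn : (2 * 882 * 24 * 64 ^ 4 + 1 : ℝ) ≤ n := by exact_mod_cast hn
  have h8 : (n : ℝ) ^ 2 / (64 ^ 4 * 24) = n * (n / (64 ^ 4 * 24)) := by ring
  have h9 : (2 * 882 : ℝ) ≤ n / (64 ^ 4 * 24) := by
    rw [le_div_iff₀ (by norm_num)]; linarith
  have h10 : (n : ℝ) * (2 * 882) ≤ Real.exp y := by
    refine le_trans ?_ h4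
    rw [h8]
    exact mul_le_mul_of_nonneg_left h9 hn0.le
  nlinarith

theorem AD_flow : Crest.TG55.AD := by
  obtain ⟨n0, hn0⟩ := num40
  refine ⟨441, 2, max n0 1, by norm_num, le_rfl, ?_⟩
  intro n hn J V _ _ _ _ Y q D b hq hLq hJ hY hqD hV hspread hnb hbn Q _ hQ
  classical
  have hn1 : 1 ≤ n := le_trans (le_max_right _ _) hn
  have hnR : (1 : ℝ) ≤ n := by exact_mod_cast hn1
  have hq1 : q < 1 / 2 := by linarith
  have hqp : 0 < 1 - q := by linarith
  set q1 : ℝ := q / (1 - q) with hq1d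
  have hq10 : 0 < q1 := by positivity
  have hq11 : q1 ≤ 1 := by rw [hq1d, div_le_one hqp]; linarith
  have hqq1 : q ≤ q1 := by
    rw [hq1d, le_div_iff₀ hqp]; nlinarith
  have hq2 : q + q1 - q * q1 = 2 * q := by
    rw [hq1d]; field_simp; ring
  have hb0 : 0 < b := by omega
  have hbR : (n : ℝ) ≤ 2 * b := by exact_mod_cast hnb
  have hVR : 64 * (Fintype.card V : ℝ) ≤ n := by exact_mod_cast hV
  set M : ℝ := 4 / q ^ D with hMd
  have hqDp : 0 < q ^ D := by positivity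
  have hM0 : 0 < M := by positivity
  have hM : 4 ≤ M * q1 ^ D := by
    have : q ^ D ≤ q1 ^ D := pow_le_pow_left₀ hq.le hqq1 D
    rw [hMd, div_mul_eq_mul_div, le_div_iff₀ hqDp]
    linarith
  have hlam0 : ∀ v t, 0 ≤ Crest.TG55.lam 441 Y v t := by
    intro v t
    unfold Crest.TG55.lam
    split_ifs
    · apply mul_nonneg
      · positivity
      · apply pow_nonneg; norm_num
    · exact le_rfl
  have hlam1 : ∀ v, ∑ t, Crest.TG55.lam 441 Y v t = 1 := by
    intro v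
    unfold Crest.TG55.lam
    rw [← Finset.sum_filter]
    have : (univ.filter fun t : Finset J => t ⊆ Y v) = (Y v).powerset := by
      ext t; simp
    rw [this]
    exact Crest.TG.Dom.sum_thin_powerset _ _
  have hwP : ∀ (p : ℝ) (R : Finset J), Crest.TG.Spr.wP p R = Crest.TG55.mu p R := fun _ _ => rfl
  obtain ⟨f, hf1, hf2, hf3, hf4, hf5⟩ := gamma_flow (Crest.TG55.lam 441 Y) hlam0 D
    (by
      intro v t h
      unfold Crest.TG55.lam at h
      by_cases ht : t ⊆ Y v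
      · exact (Finset.card_le_card ht).trans (hY v)
      · rw [if_neg ht] at h; exact absurd rfl h)
    (Crest.TG.Spr.wP q1) (Crest.TG.Spr.wP (2 * q))
    (fun R => Crest.TG.Spr.wP_nonneg hq10.le hq11 R)
    (fun R => Crest.TG.Spr.wP_nonneg (by linarith) (by linarith) R)
    (Crest.TG.Spr.sum_wP q1) q1 hq10 hq11 (hcond' q1)
    (by
      intro g hg
      have := hmono' (J := J) q q1 hq.le (by linarith) hq10.le hq11 g hg
      rwa [hq2] at this)
    ((n : ℝ) / 22)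
    (by
      intro U hU
      have := hdom' (Crest.TG55.lam 441 Y) ((n : ℝ) / 22) q q1 hq10.le hq11 (by
        intro U hU
        have h := Crest.TG.Dom.dom_labels 441 (by norm_num) Y 20 n q ((n : ℝ) / 22)
          (by linarith) (by linarith) (by linarith) (by norm_num; linarith) hq.le (by linarith)
          hspread U hU
        exact h) U hU
      rwa [hq2] at this)
    (b : ℝ) M (by positivity) hM0.le (by linarith) hM
  have hfin := Crest.TG.quenched (V := V) (W := Fin b) (T := Finset J) (R := Finset J) M hM0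
    (by simpa using hb0) (Crest.TG55.lam 441 Y) hlam0 hlam1 (Crest.TG.Spr.wP (2 * q))
    (fun R => Crest.TG.Spr.wP_nonneg (by linarith) (by linarith) R) (Crest.TG.Spr.sum_wP (2 * q))
    f hf1 hf2 hf4 (by simpa using hf5) Q (by
      intro τ ρ ⟨g, hg, h⟩
      apply hQ τ ρ
      refine ⟨g, hg, fun v => ?_⟩
      by_contra hc
      exact absurd (hf3 _ _ _ hc) (h v).ne')
  have hnum := hn0 n (le_trans (le_max_left _ _) hn) (q ^ D) (Fintype.card V) b hqD (by omega)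
    hnb hbn
  rw [Fintype.card_fin] at hfin
  refine le_trans ?_ hfin
  have : (1 / (2 * ((441 : ℕ) : ℝ))) = 1 / (2 * (441 : ℝ)) := by norm_num
  rw [this]
  linarith

end Crest.TG40
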