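import Mathlib

set_option autoImplicit false

/-! # FINISH part of S0071 from the capture theorem (backup version of helper41) -/

namespace Crest.TG41

open Finset

/-- the weights of the labels -/
theorem weights (I : ℕ) (a : ℝ) (ha : 0 < a) (ha7 : a ≤ 7) :
    ∃ R : ℕ, ∃ w : Fin (I + R + 1) → ℝ, (∀ s, 0 ≤ w s) ∧ ∑ s, w s = 1 ∧
      (∀ s : Fin (I + R + 1), (s : ℕ) < I + R → a * 8 ^ (s : ℕ) = w s * 8 ^ I) ∧
      ∑ s : Fin (I + R + 1), w s * ((16 : ℝ)⁻¹) ^ ((s : ℕ) - I) ≤ 4 * a := by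
  classical
  have hex : ∃ R : ℕ, 7 < a * 8 ^ (R + 1) := by
    obtain ⟨R, hR⟩ := pow_unbounded_of_one_lt (7 / a) (by norm_num : (1 : ℝ) < 8)
    refine ⟨R, ?_⟩
    have h1 : 7 < 8 ^ R * a := by rwa [div_lt_iff₀ ha] at hR
    have h2 : (8 : ℝ) ^ (R + 1) = 8 ^ R * 8 := pow_succ _ _
    rw [h2]
    nlinarith [pow_pos (by norm_num : (0 : ℝ) < 8) R]
  set R := Nat.find hex with hRdef
  have hR1 : 7 < a * 8 ^ (R + 1) := Nat.find_spec hex
  have hR2 : a * 8 ^ R ≤ 7 := by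
    rcases Nat.eq_zero_or_pos R with h0 | h0
    · rw [h0]; simpa using ha7
    · have h1 := Nat.find_min hex (m := R - 1) (by omega)
      have h2 : R - 1 + 1 = R := by omega
      rw [h2] at h1
      exact not_lt.1 h1
  set N := I + R with hN
  have h8I : (0 : ℝ) < 8 ^ I := by positivity
  set T : ℝ := ∑ l ∈ range N, a * 8 ^ l / 8 ^ I with hT
  have hgeom : ∀ m : ℕ, ∑ l ∈ range m, (8 : ℝ) ^ l = (8 ^ m - 1) / 7 := by
    intro m
    rw [geom_sum_eq (by norm_num)]
    norm_num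
  have hT1 : T ≤ 1 := by
    have h1 : T = a * ((8 ^ N - 1) / 7) / 8 ^ I := by
      rw [hT, ← hgeom N, Finset.mul_sum, Finset.sum_div]
    rw [h1, div_le_one h8I]
    have h2 : (8 : ℝ) ^ N = 8 ^ I * 8 ^ R := by rw [hN, pow_add]
    rw [h2]
    have h3 : a * ((8 ^ I * 8 ^ R - 1) / 7) = (8 ^ I * (a * 8 ^ R) - a) / 7 := by ring
    rw [h3]
    have h4 : 8 ^ I * (a * 8 ^ R) ≤ 8 ^ I * 7 := mul_le_mul_of_nonneg_left hR2 h8I.le
    linarith
  set f : ℕ → ℝ := fun s => if s < N then a * 8 ^ s / 8 ^ I else 1 - T with hf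
  have hf0 : ∀ s, 0 ≤ f s := by
    intro s
    simp only [hf]
    split_ifs
    · positivity
    · linarith
  refine ⟨R, fun s => f s, fun s => hf0 _, ?_, ?_, ?_⟩
  · rw [Fin.sum_univ_eq_sum_range (fun s => f s) (N + 1), Finset.sum_range_succ]
    have h1 : ∑ s ∈ range N, f s = T := by
      rw [hT]
      refine Finset.sum_congr rfl fun s hs => ?_
      simp only [hf, Finset.mem_range.1 hs, if_true]
    have h2 : f N = 1 - T := by simp [hf]
    rw [h1, h2]; ring
  · intro s hs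
    have h1 : f s = a * 8 ^ (s : ℕ) / 8 ^ I := by simp only [hf]; rw [if_pos hs]
    show a * 8 ^ (s : ℕ) = f s * 8 ^ I
    rw [h1]
    field_simp
  · rw [Fin.sum_univ_eq_sum_range (fun s => f s * ((16 : ℝ)⁻¹) ^ (s - I)) (N + 1),
      Finset.sum_range_succ]
    have h1 : ∑ s ∈ range N, f s * ((16 : ℝ)⁻¹) ^ (s - I)
        = ∑ s ∈ range N, a * 8 ^ s / 8 ^ I * ((16 : ℝ)⁻¹) ^ (s - I) := by
      refine Finset.sum_congr rfl fun s hs => ?_
      simp only [hf, Finset.mem_range.1 hs, if_true]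
    have h2 : f N = 1 - T := by simp [hf]
    rw [h1, h2, hN, Finset.sum_range_add]
    have h3 : ∑ s ∈ range I, a * 8 ^ s / 8 ^ I * ((16 : ℝ)⁻¹) ^ (s - I) ≤ a / 7 := by
      have h4 : ∑ s ∈ range I, a * 8 ^ s / 8 ^ I * ((16 : ℝ)⁻¹) ^ (s - I)
          = a * ((8 ^ I - 1) / 7) / 8 ^ I := by
        rw [← hgeom I, Finset.mul_sum, Finset.sum_div]
        refine Finset.sum_congr rfl fun s hs => ?_
        have h5 : s - I = 0 := by have := Finset.mem_range.1 hs; omega
        rw [h5]; simp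
      rw [h4, div_le_iff₀ h8I]
      nlinarith
    have h4 : ∑ j ∈ range R, a * 8 ^ (I + j) / 8 ^ I * ((16 : ℝ)⁻¹) ^ (I + j - I) ≤ 2 * a := by
      have h5 : ∑ j ∈ range R, a * 8 ^ (I + j) / 8 ^ I * ((16 : ℝ)⁻¹) ^ (I + j - I)
          = a * ∑ j ∈ range R, ((1 : ℝ) / 2) ^ j := by
        rw [Finset.mul_sum]
        refine Finset.sum_congr rfl fun j _ => ?_
        have h6 : I + j - I = j := by omega
        rw [h6, pow_add]
        have h7 : a * (8 ^ I * 8 ^ j) / 8 ^ I = a * 8 ^ j := by field_simp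
        rw [h7, mul_assoc, ← mul_pow]
        norm_num
      rw [h5]
      have h6 : ∑ j ∈ range R, ((1 : ℝ) / 2) ^ j ≤ 2 := by
        rw [geom_sum_eq (by norm_num)]
        have h7 : (0 : ℝ) ≤ (1 / 2) ^ R := by positivity
        rw [div_le_iff_of_neg (by norm_num)]
        linarith
      nlinarith
    have h5 : (1 - T) * ((16 : ℝ)⁻¹) ^ (I + R - I) ≤ 8 * a / 7 := by
      have h6 : I + R - I = R := by omega
      rw [h6]
      have h7 : ((16 : ℝ)⁻¹) ^ R ≤ ((8 : ℝ)⁻¹) ^ R :=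
        pow_le_pow_left₀ (by norm_num) (by norm_num) R
      have h8 : ((8 : ℝ)⁻¹) ^ R ≤ 8 * a / 7 := by
        rw [inv_pow, inv_le_comm₀ (by positivity) (by positivity)]
        rw [inv_div, div_le_iff₀ (by positivity)]
        have h9 : (8 : ℝ) ^ (R + 1) = 8 ^ R * 8 := pow_succ _ _
        rw [h9] at hR1
        linarith
      have h9 : 0 ≤ T := by rw [hT]; exact Finset.sum_nonneg fun l _ => by positivity
      have h10 : (0 : ℝ) ≤ ((16 : ℝ)⁻¹) ^ R := by positivity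
      nlinarith
    linarith

/-- Abel summation inequality. -/
theorem abel (f : ℕ → ℝ) (hf : Antitone f) (hf0 : ∀ j, 0 ≤ f j) (X : ℕ → Prop) [DecidablePred X]
    (c : ℝ) (N : ℕ)
    (hX : ∀ m ≤ N, (((range m).filter X).card : ℝ) ≤ c * m) :
    ∑ j ∈ (range N).filter X, f j ≤ c * ∑ j ∈ range N, f j := by
  have key : ∀ m ≤ N, f m * (c * m - ((range m).filter X).card)
      ≤ c * ∑ j ∈ range m, f j - ∑ j ∈ (range m).filter X, f j := by
    intro m
    induction m with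
    | zero => intro _; simp
    | succ m ih =>
      intro hm
      have h1 := ih (by omega)
      have h2 := hX (m + 1) hm
      have h3 := hX m (by omega)
      rw [Finset.sum_range_succ, Finset.range_add_one, Finset.filter_insert] at *
      have h4 : f (m + 1) ≤ f m := hf (Nat.le_succ m)
      by_cases hx : X m
      · rw [if_pos hx] at h2 ⊢
        rw [Finset.card_insert_of_notMem (by simp), Finset.sum_insert (by simp)] at *
        push_cast at *
        nlinarith [mul_le_mul_of_nonneg_right h4 (sub_nonneg.2 h2)]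
      · rw [if_neg hx] at h2 ⊢
        push_cast at *
        nlinarith [mul_le_mul_of_nonneg_right h4 (sub_nonneg.2 h2)]
  have h1 := key N le_rfl
  have h2 : 0 ≤ f N * (c * N - ((range N).filter X).card) :=
    mul_nonneg (hf0 N) (sub_nonneg.2 (hX N le_rfl))
  linarith

/-- levels of a finite set with weights `lam` -/
theorem lev_exists {α : Type} [Fintype α] [DecidableEq α] (H : Finset α) (lam : α → ℝ)
    (hlam : ∀ x, 0 ≤ lam x) (I : ℕ) (hI : Fintype.card α ≤ 16 ^ I) :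
    ∃ ℓ : α → ℕ, (∀ i, (H.filter (fun x => ℓ x ≤ i)).card ≤ 16 ^ i) ∧ (∀ x, ℓ x ≤ I) ∧
      ∀ (K : ℕ) (τ : α → ℕ), (∀ x, τ x ≤ K) →
        (∀ i ≤ I, ∀ r < K, 4 ^ r * (H.filter (fun x => ℓ x ≤ i ∧ r < τ x)).card
          ≤ 16 ^ i * 4 ^ I) →
        ∑ x ∈ H, lam x * ((τ x - I : ℕ) : ℝ) ≤ 4 * ∑ x ∈ H, lam x := by
  classical
  set N := H.card with hN
  let e0 : Fin N ≃ H := H.equivFin.symm
  let g : Fin N → ℝ := fun i => - lam (e0 i)
  let e : Fin N ≃ H := (Tuple.sort g).trans e0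
  have hmono : ∀ i j : Fin N, i ≤ j → lam (e j) ≤ lam (e i) := by
    intro i j hij
    have h1 := Tuple.monotone_sort g hij
    simp only [Function.comp, g] at h1
    simp only [e, Equiv.trans_apply]
    linarith
  let f : ℕ → ℝ := fun j => if h : j < N then lam (e ⟨j, h⟩) else 0
  have hf0 : ∀ j, 0 ≤ f j := by
    intro j
    simp only [f]
    split_ifs
    · exact hlam _
    · exact le_rfl
  have hfa : Antitone f := by
    intro i j hij
    simp only [f]
    split_ifs with h1 h2 h2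
    · exact hmono _ _ hij
    · omega
    · exact hlam _
    · exact le_rfl
  let pos : α → ℕ := fun x => if h : x ∈ H then (e.symm ⟨x, h⟩ : ℕ) else 0
  have hpos_e : ∀ i : Fin N, pos (e i) = i := by
    intro i
    simp only [pos]
    rw [dif_pos (e i).2]
    simp
  have hpos_lt : ∀ x ∈ H, pos x < N := by
    intro x hx
    simp only [pos]
    rw [dif_pos hx]
    exact (e.symm ⟨x, hx⟩).2
  have hpos_inj : Set.InjOn pos H := by
    intro x hx y hy hxy
    simp only [pos] at hxy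
    rw [dif_pos (Finset.mem_coe.1 hx), dif_pos (Finset.mem_coe.1 hy)] at hxy
    have h1 := e.symm.injective (Fin.ext hxy)
    exact congrArg Subtype.val h1
  have hNI : N ≤ 16 ^ I := (Finset.card_le_univ H).trans hI
  let ℓ : α → ℕ := fun x => if x ∈ H then Nat.clog 16 (pos x + 1) else 0
  have hℓ : ∀ x ∈ H, ∀ i, ℓ x ≤ i ↔ pos x + 1 ≤ 16 ^ i := by
    intro x hx i
    simp only [ℓ, if_pos hx]
    exact Nat.clog_le_iff_le_pow (by norm_num)
  refine ⟨ℓ, ?_, ?_, ?_⟩
  · intro i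
    rw [← Finset.card_range (16 ^ i)]
    refine Finset.card_le_card_of_injOn pos ?_ ?_
    · intro x hx
      rw [Finset.mem_coe, Finset.mem_filter] at hx
      have := (hℓ x hx.1 i).1 hx.2
      rw [Finset.mem_coe, Finset.mem_range]
      omega
    · intro x hx y hy hxy
      rw [Finset.mem_coe, Finset.mem_filter] at hx hy
      exact hpos_inj hx.1 hy.1 hxy
  · intro x
    by_cases hx : x ∈ H
    · rw [hℓ x hx]
      have := hpos_lt x hx
      omega
    · simp only [ℓ, if_neg hx]; omega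
  · intro K τ hτ hcap
    set Λ := ∑ x ∈ H, lam x with hΛ
    have hΛ0 : 0 ≤ Λ := Finset.sum_nonneg fun x _ => hlam x
    have hΛf : Λ = ∑ j ∈ range N, f j := by
      rw [← Fin.sum_univ_eq_sum_range (fun j => f j) N, hΛ, ← Finset.sum_coe_sort H,
        ← e.sum_comp]
      refine Finset.sum_congr rfl fun i _ => ?_
      simp only [f]
      rw [dif_pos i.2]
    -- one level
    have hone : ∀ s ∈ range (K - I),
        ∑ x ∈ H, (if I + s < τ x then lam x else 0) ≤ min 1 (16 / 4 ^ s) * Λ := by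
      intro s hs
      have hsK : I + s < K := by have := Finset.mem_range.1 hs; omega
      have h1 : ∑ x ∈ H, (if I + s < τ x then lam x else 0) ≤ Λ := by
        refine Finset.sum_le_sum fun x _ => ?_
        split_ifs
        · exact le_rfl
        · exact hlam x
      have h2 : ∑ x ∈ H, (if I + s < τ x then lam x else 0) ≤ 16 / 4 ^ s * Λ := by
        let X : ℕ → Prop := fun j => ∃ h : j < N, I + s < τ (e ⟨j, h⟩)
        have h3 : ∑ x ∈ H, (if I + s < τ x then lam x else 0)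
            = ∑ j ∈ (range N).filter X, f j := by
          rw [Finset.sum_filter, ← Fin.sum_univ_eq_sum_range (fun j => if X j then f j else 0) N,
            ← Finset.sum_coe_sort H, ← e.sum_comp]
          refine Finset.sum_congr rfl fun i _ => ?_
          have h4 : X i ↔ I + s < τ (e i) := by
            constructor
            · rintro ⟨_, h⟩; exact h
            · intro h; exact ⟨i.2, h⟩
          by_cases h5 : I + s < τ (e i)
          · rw [if_pos h5, if_pos (h4.2 h5)]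
            simp only [f]
            rw [dif_pos i.2]
          · rw [if_neg h5, if_neg (fun h => h5 (h4.1 h))]
        rw [h3, hΛf]
        refine abel f hfa hf0 X (16 / 4 ^ s) N ?_
        intro m hm
        rcases Nat.eq_zero_or_pos m with h0 | h0
        · rw [h0]; simp
        set i := Nat.clog 16 m with hi
        have hmi : m ≤ 16 ^ i := Nat.le_pow_clog (by norm_num) m
        have hiI : i ≤ I := by
          rw [hi, Nat.clog_le_iff_le_pow (by norm_num)]
          omega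
        have hi16 : 16 ^ i ≤ 16 * m := by
          rcases Nat.eq_zero_or_pos i with h4 | h4
          · rw [h4]; omega
          · have h5 : 16 ^ (i - 1) < m := by
              by_contra h6
              have h7 : i ≤ i - 1 := by
                conv_lhs => rw [hi]
                rw [Nat.clog_le_iff_le_pow (by norm_num)]
                exact not_lt.1 h6
              omega
            have h8 : 16 ^ i = 16 * 16 ^ (i - 1) := by
              rw [← pow_succ']; congr 1; omega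
            rw [h8]; omega
        have h4 : (range m).filter X ⊆ (H.filter (fun x => ℓ x ≤ i ∧ I + s < τ x)).image pos := by
          intro j hj
          rw [Finset.mem_filter, Finset.mem_range] at hj
          obtain ⟨hjm, hjN, hjt⟩ := hj
          rw [Finset.mem_image]
          refine ⟨e ⟨j, hjN⟩, ?_, hpos_e ⟨j, hjN⟩⟩
          rw [Finset.mem_filter]
          refine ⟨(e ⟨j, hjN⟩).2, ?_, hjt⟩
          rw [hℓ _ (e ⟨j, hjN⟩).2, hpos_e]
          show j + 1 ≤ 16 ^ i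
          omega
        have h5 : ((range m).filter X).card ≤ (H.filter (fun x => ℓ x ≤ i ∧ I + s < τ x)).card :=
          (Finset.card_le_card h4).trans Finset.card_image_le
        have h6 := hcap i hiI (I + s) hsK
        set c := (H.filter (fun x => ℓ x ≤ i ∧ I + s < τ x)).card with hc
        have h7 : 4 ^ s * c ≤ 16 * m := by
          have h8 : 4 ^ I * (4 ^ s * c) ≤ 4 ^ I * (16 ^ i) := by
            calc 4 ^ I * (4 ^ s * c) = 4 ^ (I + s) * c := by rw [pow_add]; ring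
              _ ≤ 16 ^ i * 4 ^ I := h6
              _ = 4 ^ I * 16 ^ i := by ring
          exact (Nat.le_of_mul_le_mul_left h8 (by positivity)).trans hi16
        have h8 : (4 : ℝ) ^ s * c ≤ 16 * m := by exact_mod_cast h7
        have h9 : (((range m).filter X).card : ℝ) ≤ c := by exact_mod_cast h5
        refine h9.trans ?_
        rw [div_mul_eq_mul_div, le_div_iff₀ (by positivity)]
        linarith
      rcases le_total (1 : ℝ) (16 / 4 ^ s) with h3 | h3
      · rw [min_eq_left h3, one_mul]; exact h1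
      · rw [min_eq_right h3]; exact h2
    have hsum : ∑ x ∈ H, lam x * ((τ x - I : ℕ) : ℝ)
        = ∑ s ∈ range (K - I), ∑ x ∈ H, (if I + s < τ x then lam x else 0) := by
      rw [Finset.sum_comm]
      refine Finset.sum_congr rfl fun x _ => ?_
      have h1 : (range (K - I)).filter (fun s => I + s < τ x) = range (τ x - I) := by
        ext s
        rw [Finset.mem_filter, Finset.mem_range, Finset.mem_range]
        have := hτ x
        omega
      rw [← Finset.sum_filter, h1, Finset.sum_const, Finset.card_range, nsmul_eq_mul, mul_comm]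
    have hmin : ∀ M : ℕ, ∑ s ∈ range M, min (1 : ℝ) (16 / 4 ^ s) ≤ 4 := by
      intro M
      have h1 : ∑ s ∈ range M, min (1 : ℝ) (16 / 4 ^ s)
          ≤ ∑ s ∈ range (3 + M), min (1 : ℝ) (16 / 4 ^ s) := by
        refine Finset.sum_le_sum_of_subset_of_nonneg ?_ fun s _ _ => by positivity
        intro s hs
        rw [Finset.mem_range] at *
        omega
      refine h1.trans ?_
      rw [Finset.sum_range_add]
      have h2 : ∑ s ∈ range 3, min (1 : ℝ) (16 / 4 ^ s) ≤ 3 := by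
        have : ∑ s ∈ range 3, min (1 : ℝ) (16 / 4 ^ s) ≤ ∑ s ∈ range 3, (1 : ℝ) :=
          Finset.sum_le_sum fun s _ => min_le_left _ _
        simpa using this
      have h3 : ∑ s ∈ range M, min (1 : ℝ) (16 / 4 ^ (3 + s))
          ≤ ∑ s ∈ range M, (1 / 4) * (1 / 4 : ℝ) ^ s := by
        refine Finset.sum_le_sum fun s _ => (min_le_right _ _).trans (le_of_eq ?_)
        rw [pow_add, one_div_pow]
        field_simp
        norm_num
      have h4 : ∑ s ∈ range M, (1 / 4) * (1 / 4 : ℝ) ^ s ≤ 1 := by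
        rw [← Finset.mul_sum, geom_sum_eq (by norm_num)]
        have h7 : (0 : ℝ) ≤ (1 / 4) ^ M := by positivity
        have h8 : ((1 / 4 : ℝ) ^ M - 1) / (1 / 4 - 1) ≤ 4 := by
          rw [div_le_iff_of_neg (by norm_num)]
          linarith
        linarith
      linarith
    rw [hsum]
    calc ∑ s ∈ range (K - I), ∑ x ∈ H, (if I + s < τ x then lam x else 0)
        ≤ ∑ s ∈ range (K - I), min 1 (16 / 4 ^ s) * Λ := Finset.sum_le_sum hone
      _ = (∑ s ∈ range (K - I), min (1 : ℝ) (16 / 4 ^ s)) * Λ := by rw [Finset.sum_mul]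
      _ ≤ 4 * Λ := mul_le_mul_of_nonneg_right (hmin _) hΛ0

/-- convexity step -/
theorem exp_low {α : Type} [DecidableEq α] (H : Finset α) (g : Finset α → ℝ)
    (hg : ∀ S, 0 ≤ g S) (t : α → ℕ)
    (h : ∑ x ∈ H, (∑ S ∈ (H.powerset.erase ∅).filter (fun S => x ∈ S), g S) * (t x : ℝ)
      ≤ 4 * ∑ x ∈ H, (∑ S ∈ (H.powerset.erase ∅).filter (fun S => x ∈ S), g S)) :
    ∑ S ∈ H.powerset.erase ∅, g S
      ≤ ∑ S ∈ H.powerset.erase ∅, g S * ∏ x ∈ S, (16 ^ 4 * ((16 : ℝ)⁻¹) ^ (t x)) := by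
  have hlog : 0 < Real.log 16 := Real.log_pos (by norm_num)
  have h1 : ∀ S : Finset α, 1 + Real.log 16 * ∑ x ∈ S, (4 - (t x : ℝ))
      ≤ ∏ x ∈ S, (16 ^ 4 * ((16 : ℝ)⁻¹) ^ (t x)) := by
    intro S
    have h2 : ∏ x ∈ S, (16 ^ 4 * ((16 : ℝ)⁻¹) ^ (t x))
        = Real.exp (Real.log 16 * ∑ x ∈ S, (4 - (t x : ℝ))) := by
      rw [Finset.mul_sum, Real.exp_sum]
      refine Finset.prod_congr rfl fun x _ => ?_
      rw [← Real.rpow_def_of_pos (by norm_num), Real.rpow_sub (by norm_num), Real.rpow_natCast]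
      have h3 : (16 : ℝ) ^ (4 : ℝ) = 16 ^ 4 := by
        rw [show (4 : ℝ) = ((4 : ℕ) : ℝ) by norm_num, Real.rpow_natCast]
      rw [h3, inv_pow]
      rfl
    rw [h2]
    have := Real.add_one_le_exp (Real.log 16 * ∑ x ∈ S, (4 - (t x : ℝ)))
    linarith
  have h2 : ∑ S ∈ H.powerset.erase ∅, g S * (1 + Real.log 16 * ∑ x ∈ S, (4 - (t x : ℝ)))
      ≤ ∑ S ∈ H.powerset.erase ∅, g S * ∏ x ∈ S, (16 ^ 4 * ((16 : ℝ)⁻¹) ^ (t x)) :=
    Finset.sum_le_sum fun S _ => mul_le_mul_of_nonneg_left (h1 S) (hg S)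
  refine le_trans ?_ h2
  have h3 : ∑ S ∈ H.powerset.erase ∅, g S * (1 + Real.log 16 * ∑ x ∈ S, (4 - (t x : ℝ)))
      = ∑ S ∈ H.powerset.erase ∅, g S
        + Real.log 16 * ∑ S ∈ H.powerset.erase ∅, ∑ x ∈ S, g S * (4 - (t x : ℝ)) := by
    rw [Finset.mul_sum, ← Finset.sum_add_distrib]
    refine Finset.sum_congr rfl fun S _ => ?_
    rw [← Finset.mul_sum]; ring
  have h4 : ∑ S ∈ H.powerset.erase ∅, ∑ x ∈ S, g S * (4 - (t x : ℝ))
      = ∑ x ∈ H, ∑ S ∈ (H.powerset.erase ∅).filter (fun S => x ∈ S), g S * (4 - (t x : ℝ)) := by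
    refine Finset.sum_comm' ?_
    intro S x
    rw [Finset.mem_filter, Finset.mem_erase, Finset.mem_powerset]
    constructor
    · rintro ⟨⟨h1, h2⟩, h3⟩
      exact ⟨⟨⟨h1, h2⟩, h3⟩, h2 h3⟩
    · rintro ⟨⟨⟨h1, h2⟩, h3⟩, _⟩
      exact ⟨⟨h1, h2⟩, h3⟩
  have h5 : ∑ x ∈ H, ∑ S ∈ (H.powerset.erase ∅).filter (fun S => x ∈ S), g S * (4 - (t x : ℝ))
      = 4 * ∑ x ∈ H, (∑ S ∈ (H.powerset.erase ∅).filter (fun S => x ∈ S), g S)
        - ∑ x ∈ H, (∑ S ∈ (H.powerset.erase ∅).filter (fun S => x ∈ S), g S) * (t x : ℝ) := by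
    rw [Finset.mul_sum, ← Finset.sum_sub_distrib]
    refine Finset.sum_congr rfl fun x _ => ?_
    rw [← Finset.sum_mul]; ring
  rw [h3, h4, h5]
  have h6 : 0 ≤ Real.log 16 *
      (4 * ∑ x ∈ H, (∑ S ∈ (H.powerset.erase ∅).filter (fun S => x ∈ S), g S)
        - ∑ x ∈ H, (∑ S ∈ (H.powerset.erase ∅).filter (fun S => x ∈ S), g S) * (t x : ℝ)) :=
    mul_nonneg hlog.le (by linarith)
  linarith

/-- expectation of a product over a random labelling -/
theorem expect_prod {α : Type} [Fintype α] [DecidableEq α] {K : ℕ} (w : Fin (K + 1) → ℝ)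
    (hw1 : ∑ s, w s = 1) (c : Fin (K + 1) → ℝ) (S : Finset α) :
    ∑ τ : α → Fin (K + 1), (∏ x, w (τ x)) * ∏ x ∈ S, c (τ x) = (∑ s, w s * c s) ^ S.card := by
  classical
  have h1 : ∀ τ : α → Fin (K + 1), (∏ x, w (τ x)) * ∏ x ∈ S, c (τ x)
      = ∏ x, (w (τ x) * if x ∈ S then c (τ x) else 1) := by
    intro τ
    rw [Finset.prod_mul_distrib]
    congr 1
    rw [Finset.prod_ite_mem, Finset.univ_inter]
  rw [Finset.sum_congr rfl fun τ _ => h1 τ]
  have h2 := Finset.prod_univ_sum (fun _ : α => (Finset.univ : Finset (Fin (K + 1))))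
    (fun x s => w s * if x ∈ S then c s else 1)
  rw [Fintype.piFinset_univ] at h2
  rw [← h2]
  have h3 : ∀ x : α, ∑ s, (w s * if x ∈ S then c s else 1)
      = if x ∈ S then ∑ s, w s * c s else 1 := by
    intro x
    by_cases hx : x ∈ S
    · simp [hx]
    · simp [hx, hw1]
  rw [Finset.prod_congr rfl fun x _ => h3 x, Finset.prod_ite_mem, Finset.univ_inter,
    Finset.prod_const]

/-- the capture theorem, as a proposition -/
def Capture : Prop :=
  ∀ (α : Type) [Fintype α] [DecidableEq α] (F : Finset (Finset α)),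
    (∀ A ∈ F, ∀ B : Finset α, A ⊆ B → B ∈ F) → ∅ ∉ F → ∀ (p : ℝ), 0 < p →
    (¬ ∃ G : Finset (Finset α), (∀ H ∈ F, ∃ S ∈ G, S ⊆ H) ∧ ∑ S ∈ G, p ^ S.card ≤ 1 / 2) →
    ∀ (ℓ : Finset α → α → ℕ) (I K : ℕ), (∀ H ∈ F, ∀ x ∈ H, ℓ H x ≤ I) →
    (∀ H ∈ F, ∀ i ≤ I, (H.filter (fun x => ℓ H x ≤ i)).card ≤ 16 ^ i) → I ≤ K →
    ∀ (w : Fin (K + 1) → ℝ), (∀ s, 0 ≤ w s) → ∑ s, w s = 1 →
    (∀ s : Fin (K + 1), (s : ℕ) < K → 2 ^ 22 * p * 8 ^ (s : ℕ) = w s * 8 ^ I) →
    ∃ Gd : Finset (α → Fin (K + 1)),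
      (∀ tau ∈ Gd, ∃ H ∈ F, ∀ i ≤ I, ∀ r < K,
        4 ^ r * (H.filter (fun x => ℓ H x ≤ i ∧ r < (tau x : ℕ))).card ≤ 16 ^ i * 4 ^ I) ∧
      1 / 2 < ∑ tau ∈ Gd, ∏ x, w (tau x)

/-- **FINISH.** The capture theorem implies S0071. -/
theorem s71_of_capture (hcap : Capture) (α : Type) [Fintype α]
    [DecidableEq α] (F : Finset (Finset α)) (hempty : ∅ ∉ F)
    (hup : ∀ A ∈ F, ∀ B : Finset α, A ⊆ B → B ∈ F) (r : ℝ) (hr0 : 0 ≤ r) (hr1 : r ≤ 1)
    (g : Finset α → ℝ) (hg : ∀ S : Finset α, 0 ≤ g S ∧ g S ≤ 1)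
    (hcov : ∀ H ∈ F, 1 ≤ ∑ S ∈ H.powerset, g S)
    (hcost : ∑ S : Finset α, g S * r ^ S.card ≤ 1 / 2) :
    ∃ G : Finset (Finset α), (∀ H ∈ F, ∃ S ∈ G, S ⊆ H) ∧
      ∑ S ∈ G, (r / (25 * 512 ^ 4)) ^ S.card ≤ 1 / 2 := by
  classical
  rcases hr0.eq_or_lt with h0 | hrpos
  · refine ⟨F, fun H hH => ⟨H, hH, Finset.Subset.refl H⟩, ?_⟩
    have h1 : ∑ S ∈ F, (r / (25 * 512 ^ 4)) ^ S.card = 0 := by
      refine Finset.sum_eq_zero fun S hS => ?_
      rw [← h0, zero_div]
      refine zero_pow ?_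
      rw [Ne, Finset.card_eq_zero]
      rintro rfl
      exact hempty hS
    rw [h1]; norm_num
  by_contra hsmall
  set p : ℝ := r / (25 * 512 ^ 4) with hpdef
  have hp : 0 < p := by positivity
  have hrp : r = 25 * 2 ^ 36 * p := by rw [hpdef]; field_simp; norm_num
  set I : ℕ := Fintype.card α with hIdef
  have hI : Fintype.card α ≤ 16 ^ I := (Nat.lt_pow_self (by norm_num)).le
  let lam : Finset α → α → ℝ := fun H x => ∑ S ∈ (H.powerset.erase ∅).filter (fun S => x ∈ S), g S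
  have hlam : ∀ H x, 0 ≤ lam H x := fun H x => Finset.sum_nonneg fun S _ => (hg S).1
  choose ℓ hℓ1 hℓ2 hℓ3 using fun H : Finset α => lev_exists H (lam H) (hlam H) I hI
  obtain ⟨R, w, hw0, hw1, hw2, hw3⟩ := weights I (2 ^ 22 * p) (by positivity) (by
    rw [hpdef]
    have : r / (25 * 512 ^ 4) ≤ 1 / (25 * 512 ^ 4) := by gcongr
    norm_num at this ⊢
    linarith)
  obtain ⟨Gd, hGd, hhalf⟩ := hcap α F hup hempty p hp hsmall ℓ I (I + R)
    (fun H _ x _ => hℓ2 H x) (fun H _ i _ => hℓ1 H i) (by omega) w hw0 hw1 hw2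
  let Φ : (α → Fin (I + R + 1)) → ℝ := fun τ =>
    ∑ S ∈ (univ : Finset (Finset α)).erase ∅,
      g S * ∏ x ∈ S, (16 ^ 4 * ((16 : ℝ)⁻¹) ^ ((τ x : ℕ) - I))
  have hΦ0 : ∀ τ, 0 ≤ Φ τ := by
    intro τ
    exact Finset.sum_nonneg fun S _ => mul_nonneg (hg S).1
      (Finset.prod_nonneg fun x _ => by positivity)
  have hlow : ∀ τ ∈ Gd, 1 - g ∅ ≤ Φ τ := by
    intro τ hτ
    obtain ⟨H, hH, hHc⟩ := hGd τ hτ
    have h1 := hℓ3 H (I + R) (fun x => (τ x : ℕ)) (fun x => by have := (τ x).2; omega) hHc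
    have h2 := exp_low H g (fun S => (hg S).1) (fun x => (τ x : ℕ) - I) h1
    have h3 : ∑ S ∈ H.powerset.erase ∅,
        g S * ∏ x ∈ S, (16 ^ 4 * ((16 : ℝ)⁻¹) ^ ((τ x : ℕ) - I)) ≤ Φ τ := by
      refine Finset.sum_le_sum_of_subset_of_nonneg ?_ fun S _ _ => mul_nonneg (hg S).1
        (Finset.prod_nonneg fun x _ => by positivity)
      intro S hS
      rw [Finset.mem_erase] at hS ⊢
      exact ⟨hS.1, Finset.mem_univ _⟩
    have h4 : 1 ≤ ∑ S ∈ H.powerset.erase ∅, g S + g ∅ := by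
      rw [Finset.sum_erase_add _ _ (Finset.empty_mem_powerset H)]
      exact hcov H hH
    linarith
  have hE : ∑ τ : α → Fin (I + R + 1), (∏ x, w (τ x)) * Φ τ
      = ∑ S ∈ (univ : Finset (Finset α)).erase ∅,
        g S * (∑ s, w s * (16 ^ 4 * ((16 : ℝ)⁻¹) ^ ((s : ℕ) - I))) ^ S.card := by
    simp only [Φ, Finset.mul_sum]
    rw [Finset.sum_comm]
    refine Finset.sum_congr rfl fun S _ => ?_
    rw [← expect_prod w hw1 (fun s => 16 ^ 4 * ((16 : ℝ)⁻¹) ^ ((s : ℕ) - I)) S, Finset.mul_sum]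
    refine Finset.sum_congr rfl fun τ _ => ?_
    ring
  have hy : ∑ s, w s * (16 ^ 4 * ((16 : ℝ)⁻¹) ^ ((s : ℕ) - I)) ≤ r := by
    have h1 : ∑ s, w s * (16 ^ 4 * ((16 : ℝ)⁻¹) ^ ((s : ℕ) - I))
        = 16 ^ 4 * ∑ s, w s * ((16 : ℝ)⁻¹) ^ ((s : ℕ) - I) := by
      rw [Finset.mul_sum]
      refine Finset.sum_congr rfl fun s _ => ?_
      ring
    rw [h1, hrp]
    nlinarith
  have hy0 : 0 ≤ ∑ s, w s * (16 ^ 4 * ((16 : ℝ)⁻¹) ^ ((s : ℕ) - I)) :=
    Finset.sum_nonneg fun s _ => mul_nonneg (hw0 s) (by positivity)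
  have hup' : ∑ τ : α → Fin (I + R + 1), (∏ x, w (τ x)) * Φ τ ≤ 1 / 2 - g ∅ := by
    rw [hE]
    have h1 : ∑ S ∈ (univ : Finset (Finset α)).erase ∅,
        g S * (∑ s, w s * (16 ^ 4 * ((16 : ℝ)⁻¹) ^ ((s : ℕ) - I))) ^ S.card
        ≤ ∑ S ∈ (univ : Finset (Finset α)).erase ∅, g S * r ^ S.card :=
      Finset.sum_le_sum fun S _ => mul_le_mul_of_nonneg_left
        (pow_le_pow_left₀ hy0 hy _) (hg S).1
    have h2 := Finset.sum_erase_add (univ : Finset (Finset α))
      (fun S => g S * r ^ S.card) (Finset.mem_univ ∅)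
    simp only [Finset.card_empty, pow_zero, mul_one] at h2
    linarith
  have hg0 : g ∅ ≤ 1 / 2 := by
    have h1 : 0 ≤ ∑ τ : α → Fin (I + R + 1), (∏ x, w (τ x)) * Φ τ :=
      Finset.sum_nonneg fun τ _ => mul_nonneg (Finset.prod_nonneg fun x _ => hw0 _) (hΦ0 τ)
    linarith
  have hlow' : (∑ τ ∈ Gd, ∏ x, w (τ x)) * (1 - g ∅)
      ≤ ∑ τ : α → Fin (I + R + 1), (∏ x, w (τ x)) * Φ τ := by
    rw [Finset.sum_mul]
    calc ∑ τ ∈ Gd, (∏ x, w (τ x)) * (1 - g ∅)
        ≤ ∑ τ ∈ Gd, (∏ x, w (τ x)) * Φ τ :=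
          Finset.sum_le_sum fun τ hτ => mul_le_mul_of_nonneg_left (hlow τ hτ)
            (Finset.prod_nonneg fun x _ => hw0 _)
      _ ≤ _ := Finset.sum_le_sum_of_subset_of_nonneg (Finset.subset_univ _)
          fun τ _ _ => mul_nonneg (Finset.prod_nonneg fun x _ => hw0 _) (hΦ0 τ)
  have h1 : (1 / 2 : ℝ) * (1 - g ∅) < (∑ τ ∈ Gd, ∏ x, w (τ x)) * (1 - g ∅) :=
    mul_lt_mul_of_pos_right hhalf (by linarith)
  have h2 := (hg ∅).1
  linarith

end Crest.TG41
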