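import Mathlib
import Crest.Prelude.Def_CopyThreshold

/-! Glue lemmas for S0073: isolated vertices, relabelling, monotonicity. -/

set_option autoImplicit false

namespace Crest.TG43
open Finset Crest.CombinatoricsR.RandomGraph Crest.FinProb

/-- piece of `H` for labels in any type -/
def piece {W ι : Type*} (H : SimpleGraph W) (c : H.edgeSet → ι) (i : ι) : SimpleGraph W :=
  SimpleGraph.fromEdgeSet {e | ∃ h : e ∈ H.edgeSet, c ⟨e, h⟩ = i}

theorem piece_adj {W ι : Type*} (H : SimpleGraph W) (c : H.edgeSet → ι) (i : ι) (u v : W) :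
    (piece H c i).Adj u v ↔ ∃ h : s(u, v) ∈ H.edgeSet, c ⟨s(u, v), h⟩ = i := by
  unfold piece
  rw [SimpleGraph.fromEdgeSet_adj]
  constructor
  · rintro ⟨⟨h, hc⟩, _⟩
    exact ⟨h, hc⟩
  · rintro ⟨h, hc⟩
    refine ⟨⟨h, hc⟩, ?_⟩
    rw [SimpleGraph.mem_edgeSet] at h
    exact h.ne

theorem pieceGraph_adj {W : Type*} {k : ℕ} (H : SimpleGraph W) (c : H.edgeSet → Fin k) (i : Fin k)
    (u v : W) :
    (pieceGraph H c i).Adj u v ↔ ∃ h : s(u, v) ∈ H.edgeSet, c ⟨s(u, v), h⟩ = i :=
  piece_adj H c i u v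

theorem piece_le {W ι : Type*} (H : SimpleGraph W) (c : H.edgeSet → ι) (i : ι) :
    piece H c i ≤ H := by
  intro u v h
  rw [piece_adj] at h
  obtain ⟨h1, _⟩ := h
  exact h1

/-- An injection on the non-isolated vertices is enough. -/
theorem isContained_of_partial {n : ℕ} {W : Type} [Fintype W] (H : SimpleGraph W)
    (G : SimpleGraph (Fin n)) (hW : Fintype.card W ≤ n) (A : Finset W)
    (hA : ∀ u v, H.Adj u v → u ∈ A) (φ : W → Fin n) (hinj : Set.InjOn φ (A : Set W))
    (hadj : ∀ u v, H.Adj u v → G.Adj (φ u) (φ v)) : H.IsContained G := by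
  classical
  obtain ⟨ι0⟩ : Nonempty (W ↪ Fin n) := by
    apply Function.Embedding.nonempty_of_card_le
    simpa using hW
  let e1 : {x // x ∈ A} ≃ {x // x ∈ ι0 '' (A : Set W)} :=
    Equiv.Set.image ι0 (A : Set W) ι0.injective
  let e2 : {x // x ∈ A} ≃ {x // x ∈ φ '' (A : Set W)} :=
    Equiv.Set.imageOfInjOn φ (A : Set W) hinj
  let e : {x // x ∈ ι0 '' (A : Set W)} ≃ {x // x ∈ φ '' (A : Set W)} := e1.symm.trans e2
  have key : ∀ a ∈ A, e.extendSubtype (ι0 a) = φ a := by
    intro a ha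
    rw [Equiv.extendSubtype_apply_of_mem e (ι0 a) ⟨a, ha, rfl⟩]
    have h1 : e1.symm ⟨ι0 a, ⟨a, ha, rfl⟩⟩ = ⟨a, ha⟩ := by
      rw [Equiv.symm_apply_eq]
      rfl
    show (e2 (e1.symm ⟨ι0 a, _⟩)).1 = φ a
    rw [h1]
    rfl
  refine ⟨⟨⟨fun w => e.extendSubtype (ι0 w), ?_⟩, ?_⟩⟩
  · intro u v huv
    show G.Adj (e.extendSubtype (ι0 u)) (e.extendSubtype (ι0 v))
    rw [key u (hA u v huv), key v (hA v u huv.symm)]
    exact hadj u v huv
  · intro u v huv
    exact ι0.injective (e.extendSubtype.injective huv)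

theorem isContained_mono_left {n : ℕ} {W : Type} (H1 H2 : SimpleGraph W) (h : H1 ≤ H2)
    (G : SimpleGraph (Fin n)) (hc : H2.IsContained G) : H1.IsContained G := by
  obtain ⟨f⟩ := hc
  exact ⟨⟨⟨f.toHom, fun {u v} huv => f.toHom.map_adj (h huv)⟩, f.injective⟩⟩

theorem bot_isContained {n : ℕ} {W : Type} [Fintype W] (hW : Fintype.card W ≤ n)
    (G : SimpleGraph (Fin n)) : (⊥ : SimpleGraph W).IsContained G := by
  refine isContained_of_partial ⊥ G hW ∅ ?_ ?_ ?_ ?_
  · intro u v h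
    exact absurd h (by simp)
  · intro w
    exact Classical.choice (by
      have : 0 < n := lt_of_lt_of_le (Fintype.card_pos_iff.2 ⟨w⟩) hW
      exact ⟨⟨0, this⟩⟩)
  · simp
  · intro u v h
    exact absurd h (by simp)

theorem gnpProb_mono_event {n : ℕ} (p : ℝ) (hp0 : 0 ≤ p) (hp1 : p ≤ 1)
    (E F : Set (SimpleGraph (Fin n))) (h : ∀ G, G ∈ E → G ∈ F) : gnpProb n p E ≤ gnpProb n p F := by
  classical
  unfold gnpProb bernoulliProb
  apply Finset.sum_le_sum_of_subset_of_nonneg
  · intro ω hω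
    simp only [Finset.mem_filter, Finset.mem_univ, true_and, Set.mem_ofPred_eq] at hω ⊢
    exact h _ hω
  · intro ω _ _
    exact Finset.prod_nonneg fun i _ => by split_ifs <;> linarith

theorem gnpProb_univ {n : ℕ} (p : ℝ) (E : Set (SimpleGraph (Fin n))) (h : ∀ G, G ∈ E) :
    gnpProb n p E = 1 := by
  classical
  unfold gnpProb bernoulliProb
  have h1 : (Finset.univ.filter fun ω : EdgeSlot n → Bool => ω ∈ {ω : EdgeSlot n → Bool | graphOf ω ∈ E})
      = Finset.univ := by
    ext ω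
    simp [h]
  have h2 : ∑ ω : EdgeSlot n → Bool, bernoulliWeight p ω = 1 := by
    unfold bernoulliWeight
    rw [← Fintype.prod_sum (fun (_ : EdgeSlot n) (b : Bool) => if b then p else 1 - p)]
    simp
  rw [← h2]
  apply Finset.sum_congr _ (fun _ _ => rfl)
  convert h1

/-- Any finite label type of size at most `k` can be used. -/
theorem relabel {n : ℕ} {W : Type} [Fintype W] (H : SimpleGraph W) (hW : Fintype.card W ≤ n)
    {κ : Type} [Fintype κ] (k : ℕ) (hk : Fintype.card κ ≤ k) (p : ℝ)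
    (c : H.edgeSet → κ) (hc : ∀ i, 1 / 2 ≤ gnpProb n p {G | (piece H c i).IsContained G}) :
    ∃ c' : H.edgeSet → Fin k, ∀ i : Fin k,
      1 / 2 ≤ gnpProb n p {G | (pieceGraph H c' i).IsContained G} := by
  classical
  obtain ⟨e⟩ : Nonempty (κ ↪ Fin k) := by
    apply Function.Embedding.nonempty_of_card_le
    simpa using hk
  refine ⟨fun x => e (c x), fun i => ?_⟩
  by_cases hi : ∃ j, e j = i
  · obtain ⟨j, rfl⟩ := hi
    have h1 : pieceGraph H (fun x => e (c x)) (e j) = piece H c j := by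
      ext u v
      rw [pieceGraph_adj, piece_adj]
      simp only [EmbeddingLike.apply_eq_iff_eq]
    rw [h1]
    exact hc j
  · have h1 : pieceGraph H (fun x => e (c x)) i = ⊥ := by
      ext u v
      rw [pieceGraph_adj]
      simp only [SimpleGraph.bot_adj, iff_false, not_exists]
      intro h h2
      exact hi ⟨_, h2⟩
    rw [h1]
    have h2 : gnpProb n p {G : SimpleGraph (Fin n) | (⊥ : SimpleGraph W).IsContained G} = 1 :=
      gnpProb_univ p {G : SimpleGraph (Fin n) | (⊥ : SimpleGraph W).IsContained G}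
        (fun G => bot_isContained hW G)
    rw [h2]
    norm_num

end Crest.TG43
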