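import Mathlib

/-! # S0071, FINISH from the capture theorem (insurance version, helper45) -/

set_option autoImplicit false

open Finset

namespace Crest.TG45F

/-- Abel summation: nonnegative partial sums against an antitone nonnegative sequence. -/
lemma abel (f b : ℕ → ℝ) (hf : Antitone f) (hf0 : ∀ j, 0 ≤ f j) (h : ℕ)
    (hb : ∀ m ≤ h, 0 ≤ ∑ j ∈ range m, b j) : 0 ≤ ∑ j ∈ range h, b j * f j := by
  have key : ∀ m ≤ h, (∑ j ∈ range m, b j) * f m ≤ ∑ j ∈ range m, b j * f j := by
    intro m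
    induction m with
    | zero => intro _; simp
    | succ m ih =>
      intro hm
      have h1 := ih (by omega)
      rw [Finset.sum_range_succ, Finset.sum_range_succ]
      have h2 : 0 ≤ ∑ j ∈ range m, b j + b m := by
        have := hb (m + 1) hm
        rwa [Finset.sum_range_succ] at this
      have h3 : f (m + 1) ≤ f m := hf (Nat.le_succ m)
      calc (∑ j ∈ range m, b j + b m) * f (m + 1) ≤ (∑ j ∈ range m, b j + b m) * f m :=
            mul_le_mul_of_nonneg_left h3 h2
        _ = (∑ j ∈ range m, b j) * f m + b m * f m := by ring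
        _ ≤ _ := by linarith
  have := key h le_rfl
  exact le_trans (mul_nonneg (hb h le_rfl) (hf0 h)) this

/-- an enumeration of `H` with decreasing `lam` -/
lemma exists_enum {α : Type} [DecidableEq α] (H : Finset α) (lam : α → ℝ) :
    ∃ e : Fin H.card ≃ H, ∀ i j : Fin H.card, i ≤ j → lam (e j) ≤ lam (e i) := by
  classical
  let e0 : Fin H.card ≃ H := H.equivFin.symm
  let f : Fin H.card → ℝ := fun i => - lam (e0 i)
  refine ⟨(Tuple.sort f).trans e0, ?_⟩
  intro i j hij
  have := Tuple.monotone_sort f hij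
  simp only [Function.comp, f] at this
  simp only [Equiv.trans_apply]
  linarith

/-- sum of the tail bounds -/
lemma sum_u (M : ℕ) : ∑ s ∈ range M, (if s < 2 then (1:ℝ) else 16 / 4 ^ s) ≤ 4 := by
  have key : ∀ M : ℕ, ∑ s ∈ range (M + 2), (if s < 2 then (1:ℝ) else 16 / 4 ^ s) ≤
      4 - (64/3) / 4 ^ (M + 2) := by
    intro M
    induction M with
    | zero => simp [Finset.sum_range_succ]; norm_num
    | succ M ih =>
      rw [Finset.sum_range_succ, if_neg (by omega)]
      have : (64/3 : ℝ) / 4 ^ (M + 1 + 2) = (64/3) / 4 ^ (M + 2) / 4 := by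
        rw [show M + 1 + 2 = (M + 2) + 1 by ring, pow_succ]; field_simp
      rw [this]
      have h2 : (16:ℝ) / 4 ^ (M + 2) = (64/3) / 4 ^ (M + 2) * (3/4) := by
        field_simp; norm_num
      rw [h2]
      linarith
  have hmono : ∑ s ∈ range M, (if s < 2 then (1:ℝ) else 16 / 4 ^ s) ≤
      ∑ s ∈ range (M + 2), (if s < 2 then (1:ℝ) else 16 / 4 ^ s) := by
    apply Finset.sum_le_sum_of_subset_of_nonneg
    · intro x hx
      simp only [mem_range] at hx ⊢; omega
    · intro s _ _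
      split_ifs
      · exact zero_le_one
      · positivity
  have h3 : (0:ℝ) ≤ (64/3) / 4 ^ (M + 2) := by positivity
  linarith [key M]

lemma nat_eq_sum (t M : ℕ) (h : t ≤ M) : (t : ℝ) = ∑ s ∈ range M, (if s < t then (1:ℝ) else 0) := by
  rw [Finset.sum_boole]
  congr 1
  have : (range M).filter (fun s => s < t) = range t := by
    ext s; simp only [mem_filter, mem_range]; omega
  rw [this, Finset.card_range]

/-- levels of a weighted set, and the bound on the weighted sum of `t` -/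
lemma levels {α : Type} [Fintype α] [DecidableEq α] (H : Finset α) (lam : α → ℝ)
    (hlam : ∀ x, 0 ≤ lam x) (I : ℕ) (hI : Fintype.card α ≤ 16 ^ I) :
    ∃ ℓ : α → ℕ, (∀ x ∈ H, ℓ x ≤ I) ∧ (∀ i, (H.filter (fun x => ℓ x ≤ i)).card ≤ 16 ^ i) ∧
      ∀ t : α → ℕ, (∀ i ≤ I, ∀ s, 4 ^ s * (H.filter (fun x => ℓ x ≤ i ∧ s < t x)).card ≤ 16 ^ i) →
        ∑ x ∈ H, lam x * (t x : ℝ) ≤ 4 * ∑ x ∈ H, lam x := by
  classical
  obtain ⟨e, he⟩ := exists_enum H lam
  have hcardI : H.card ≤ 16 ^ I := (Finset.card_le_univ H).trans hI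
  -- rank
  let rk : α → ℕ := fun x => if hx : x ∈ H then (e.symm ⟨x, hx⟩ : Fin H.card) else 0
  have hrk : ∀ (x : α) (hx : x ∈ H), rk x = (e.symm ⟨x, hx⟩ : Fin H.card) := by
    intro x hx; simp only [rk, dif_pos hx]
  have hrk_lt : ∀ x ∈ H, rk x < H.card := by
    intro x hx; rw [hrk x hx]; exact (e.symm ⟨x, hx⟩).2
  have hrk_inj : ∀ x ∈ H, ∀ y ∈ H, rk x = rk y → x = y := by
    intro x hx y hy hxy
    rw [hrk x hx, hrk y hy] at hxy
    have h1 := e.symm.injective (Fin.ext hxy)
    exact congrArg Subtype.val h1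
  refine ⟨fun x => Nat.clog 16 (rk x + 1), ?_, ?_, ?_⟩
  · intro x hx
    rw [Nat.clog_le_iff_le_pow (by norm_num)]
    have := hrk_lt x hx
    omega
  · intro i
    have h1 : (H.filter (fun x => Nat.clog 16 (rk x + 1) ≤ i)).card ≤ (range (16 ^ i)).card := by
      apply Finset.card_le_card_of_injOn rk
      · intro x hx
        have hx := Finset.mem_coe.1 hx
        rw [mem_filter, Nat.clog_le_iff_le_pow (by norm_num)] at hx
        simp only [coe_range, Set.mem_Iio]
        omega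
      · intro x hx y hy hxy
        have hx := (mem_filter.1 (Finset.mem_coe.1 hx)).1
        have hy := (mem_filter.1 (Finset.mem_coe.1 hy)).1
        exact hrk_inj x hx y hy hxy
    rwa [Finset.card_range] at h1
  · intro t ht
    -- sequences
    let f : ℕ → ℝ := fun j => if hj : j < H.card then lam (e ⟨j, hj⟩) else 0
    let b : ℕ → ℝ := fun j => if hj : j < H.card then 4 - (t (e ⟨j, hj⟩) : ℝ) else 0
    have hf0 : ∀ j, 0 ≤ f j := by
      intro j; simp only [f]; split_ifs
      · exact hlam _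
      · exact le_rfl
    have hf : Antitone f := by
      intro i j hij
      simp only [f]
      by_cases hj : j < H.card
      · rw [dif_pos hj, dif_pos (lt_of_le_of_lt hij hj)]
        exact he _ _ (by simpa using hij)
      · rw [dif_neg hj]
        exact hf0 i
    have hb : ∀ m ≤ H.card, 0 ≤ ∑ j ∈ range m, b j := by
      intro m hm
      -- the first m elements
      rcases Nat.eq_zero_or_pos m with hm0 | hm0
      · subst hm0; simp
      let A : Finset α := H.filter (fun x => rk x < m)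
      have hsum : ∑ j ∈ range m, b j = ∑ x ∈ A, (4 - (t x : ℝ)) := by
        refine Finset.sum_bij' (i := fun j hj => ((e ⟨j, lt_of_lt_of_le (mem_range.1 hj) hm⟩ : H) : α))
          (j := fun x _ => rk x) ?_ ?_ ?_ ?_ ?_
        · intro j hj
          have hx : ((e ⟨j, lt_of_lt_of_le (mem_range.1 hj) hm⟩ : H) : α) ∈ H := Subtype.prop _
          simp only [A, mem_filter]
          refine ⟨hx, ?_⟩
          rw [hrk _ hx]
          simpa using hj
        · intro x hx
          simp only [A, mem_filter] at hx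
          exact mem_range.2 hx.2
        · intro j hj
          have hx : ((e ⟨j, lt_of_lt_of_le (mem_range.1 hj) hm⟩ : H) : α) ∈ H := Subtype.prop _
          rw [hrk _ hx]
          simp
        · intro x hx
          simp only [A, mem_filter] at hx
          have h1 : (⟨rk x, lt_of_lt_of_le hx.2 hm⟩ : Fin H.card) = e.symm ⟨x, hx.1⟩ := by
            apply Fin.ext
            simp only
            exact hrk x hx.1
          rw [h1]; simp
        · intro j hj
          simp only [b]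
          rw [dif_pos (lt_of_lt_of_le (mem_range.1 hj) hm)]
      have hAcard : A.card = m := by
        have h1 : ∑ j ∈ range m, (1:ℕ) = ∑ x ∈ A, 1 := by
          refine Finset.sum_bij' (i := fun j hj => ((e ⟨j, lt_of_lt_of_le (mem_range.1 hj) hm⟩ : H) : α))
            (j := fun x _ => rk x) ?_ ?_ ?_ ?_ ?_
          · intro j hj
            have hx : ((e ⟨j, lt_of_lt_of_le (mem_range.1 hj) hm⟩ : H) : α) ∈ H := Subtype.prop _
            simp only [A, mem_filter]
            refine ⟨hx, ?_⟩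
            rw [hrk _ hx]
            simpa using hj
          · intro x hx
            simp only [A, mem_filter] at hx
            exact mem_range.2 hx.2
          · intro j hj
            have hx : ((e ⟨j, lt_of_lt_of_le (mem_range.1 hj) hm⟩ : H) : α) ∈ H := Subtype.prop _
            rw [hrk _ hx]
            simp
          · intro x hx
            simp only [A, mem_filter] at hx
            have h1 : (⟨rk x, lt_of_lt_of_le hx.2 hm⟩ : Fin H.card) = e.symm ⟨x, hx.1⟩ := by
              apply Fin.ext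
              simp only
              exact hrk x hx.1
            rw [h1]; simp
          · intro j hj
            rfl
        simpa using h1.symm
      rw [hsum, Finset.sum_sub_distrib, Finset.sum_const, hAcard]
      -- the level of the first m elements
      set i := Nat.clog 16 m with hi
      have hiI : i ≤ I := by
        rw [hi, Nat.clog_le_iff_le_pow (by norm_num)]; exact hm.trans hcardI
      have hpow : (16:ℝ) ^ i ≤ 16 * m := by
        rcases Nat.lt_or_ge 1 m with h1m | h1m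
        · have h2 := Nat.pow_pred_clog_lt_self (b := 16) (by norm_num) h1m
          have hpos : 0 < Nat.clog 16 m := Nat.clog_pos (by norm_num) h1m
          have h3 : 16 ^ i = 16 * 16 ^ (i - 1) := by
            rw [← pow_succ']; congr 1; omega
          have h4 : 16 ^ i ≤ 16 * m := by
            rw [h3]
            apply Nat.mul_le_mul_left
            exact h2.le
          exact_mod_cast h4
        · have : m = 1 := by omega
          subst this
          simp [hi]
      obtain ⟨M, hM⟩ : ∃ M : ℕ, ∀ x, t x ≤ M := by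
        refine ⟨∑ x, t x, fun x => Finset.single_le_sum (f := t) (fun _ _ => Nat.zero_le _) (mem_univ x)⟩
      have h1 : ∑ x ∈ A, (t x : ℝ) = ∑ s ∈ range M, ((A.filter (fun x => s < t x)).card : ℝ) := by
        rw [Finset.sum_congr rfl (fun x _ => nat_eq_sum (t x) M (hM x)), Finset.sum_comm]
        apply Finset.sum_congr rfl
        intro s _
        rw [Finset.sum_boole]
      have h2 : ∀ s ∈ range M, ((A.filter (fun x => s < t x)).card : ℝ) ≤
          m * (if s < 2 then (1:ℝ) else 16 / 4 ^ s) := by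
        intro s _
        split_ifs with hs
        · rw [mul_one]
          have := Finset.card_le_card (Finset.filter_subset (fun x => s < t x) A)
          rw [hAcard] at this
          exact_mod_cast this
        · have h3 := ht i hiI s
          have h4 : (A.filter (fun x => s < t x)).card ≤
              (H.filter (fun x => Nat.clog 16 (rk x + 1) ≤ i ∧ s < t x)).card := by
            apply Finset.card_le_card
            intro x hx
            simp only [A, mem_filter] at hx ⊢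
            refine ⟨hx.1.1, ?_, hx.2⟩
            exact Nat.clog_mono_right 16 (by omega)
          have h5 : (4:ℝ) ^ s * ((A.filter (fun x => s < t x)).card : ℝ) ≤ 16 ^ i := by
            have h6 : 4 ^ s * (A.filter (fun x => s < t x)).card ≤ 16 ^ i :=
              le_trans (Nat.mul_le_mul_left _ h4) h3
            exact_mod_cast h6
          have h7 : (m:ℝ) * (16 / 4 ^ s) = (16 * m) / 4 ^ s := by ring
          rw [h7, le_div_iff₀ (by positivity)]
          linarith
      have h3 : ∑ x ∈ A, (t x : ℝ) ≤ m * 4 := by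
        rw [h1]
        calc _ ≤ ∑ s ∈ range M, (m:ℝ) * (if s < 2 then (1:ℝ) else 16 / 4 ^ s) :=
              Finset.sum_le_sum h2
          _ = m * ∑ s ∈ range M, (if s < 2 then (1:ℝ) else 16 / 4 ^ s) := by
              rw [Finset.mul_sum]
          _ ≤ m * 4 := mul_le_mul_of_nonneg_left (sum_u M) (Nat.cast_nonneg m)
      rw [nsmul_eq_mul]
      linarith
    have hmain := abel f b hf hf0 H.card hb
    -- translate back
    have hback : ∑ j ∈ range H.card, b j * f j = ∑ x ∈ H, (4 - (t x : ℝ)) * lam x := by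
      rw [← Fin.sum_univ_eq_sum_range (fun j => b j * f j) H.card,
        ← Finset.sum_coe_sort H (fun x => (4 - (t x : ℝ)) * lam x)]
      refine Fintype.sum_equiv e _ _ ?_
      intro j
      simp only [b, f, dif_pos j.2]
    rw [hback] at hmain
    have : ∑ x ∈ H, (4 - (t x : ℝ)) * lam x = 4 * ∑ x ∈ H, lam x - ∑ x ∈ H, lam x * (t x : ℝ) := by
      rw [Finset.mul_sum, ← Finset.sum_sub_distrib]
      apply Finset.sum_congr rfl
      intro x _; ring
    rw [this] at hmain
    linarith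


/-- choice of the weights -/
lemma weights (I : ℕ) (u : ℝ) (hu0 : 0 < u) (hu1 : u ≤ 1 / 4096) :
    ∃ K : ℕ, ∃ w : Fin (K + 1) → ℝ, (∀ s, 0 ≤ w s) ∧ ∑ s, w s = 1 ∧
      (∀ s : Fin (K + 1), (s : ℕ) < K → u * 8 ^ (s : ℕ) ≤ w s * 8 ^ I) ∧
      ∀ s, (0:ℝ) ≤ w s ∧ ∑ s, w s * (1 / 16) ^ ((s : ℕ) - I) ≤ 4 * u := by
  have hx1 : (1:ℝ) ≤ 1 / u := by rw [le_div_iff₀ hu0]; linarith
  obtain ⟨m, hm1, hm2⟩ := exists_nat_pow_near hx1 (by norm_num : (1:ℝ) < 8)
  have hm3 : 3 ≤ m := by
    by_contra hcon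
    push Not at hcon
    have h1 : (8:ℝ) ^ (m + 1) ≤ 8 ^ 3 := pow_le_pow_right₀ (by norm_num) (by omega)
    have h2 : (4096:ℝ) ≤ 1 / u := by rw [le_div_iff₀ hu0]; linarith
    norm_num at h1
    linarith
  rw [le_div_iff₀ hu0] at hm1
  rw [div_lt_iff₀ hu0] at hm2
  -- v s := u * 8^s / 8^I
  let v : ℕ → ℝ := fun s => u * 8 ^ s / 8 ^ I
  have hv0 : ∀ s, 0 ≤ v s := fun s => by simp only [v]; positivity
  have hgeo : ∀ k : ℕ, ∑ s ∈ range k, v s ≤ u * 8 ^ k / 8 ^ I / 7 := by
    intro k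
    induction k with
    | zero => simp; positivity
    | succ k ih =>
      rw [Finset.sum_range_succ]
      have : u * 8 ^ (k + 1) / 8 ^ I / 7 = u * 8 ^ k / 8 ^ I / 7 + v k := by
        simp only [v]; rw [pow_succ]; ring
      rw [this]; linarith
  have h8I : (0:ℝ) < 8 ^ I := by positivity
  have htot : ∑ s ∈ range (I + m), v s ≤ 1 := by
    refine (hgeo (I + m)).trans ?_
    have : u * 8 ^ (I + m) / 8 ^ I / 7 = (8 ^ m * u) / 7 := by
      rw [pow_add]; field_simp
    rw [this]; linarith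
  let w' : ℕ → ℝ := fun s => if s < I + m then v s else 1 - ∑ s ∈ range (I + m), v s
  have hw'0 : ∀ s, 0 ≤ w' s := by
    intro s; simp only [w']; split_ifs
    · exact hv0 s
    · linarith
  have hsum : ∑ s ∈ range (I + m + 1), w' s = 1 := by
    rw [Finset.sum_range_succ]
    have h1 : ∑ s ∈ range (I + m), w' s = ∑ s ∈ range (I + m), v s := by
      apply Finset.sum_congr rfl
      intro s hs
      simp only [w']; rw [if_pos (mem_range.1 hs)]
    rw [h1]; simp only [w']; rw [if_neg (lt_irrefl _)]; ring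
  have hE : ∑ s ∈ range (I + m + 1), w' s * (1 / 16) ^ (s - I) ≤ 4 * u := by
    rw [Finset.sum_range_succ, Finset.sum_range_add]
    have h1 : ∑ s ∈ range I, w' s * (1 / 16 : ℝ) ^ (s - I) ≤ u / 7 := by
      calc _ = ∑ s ∈ range I, v s := by
            apply Finset.sum_congr rfl
            intro s hs
            have hs := mem_range.1 hs
            simp only [w']; rw [if_pos (by omega), show s - I = 0 by omega]; simp
        _ ≤ u * 8 ^ I / 8 ^ I / 7 := hgeo I
        _ = u / 7 := by field_simp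
    have h2 : ∀ k ≤ m, ∑ x ∈ range k, w' (I + x) * (1 / 16 : ℝ) ^ (I + x - I) ≤ 2 * u - 2 * u / 2 ^ k := by
      intro k
      induction k with
      | zero => intro _; simp
      | succ k ih =>
        intro hk
        rw [Finset.sum_range_succ]
        have h3 := ih (by omega)
        have h4 : w' (I + k) * (1 / 16 : ℝ) ^ (I + k - I) = u / 2 ^ k := by
          simp only [w']; rw [if_pos (by omega), show I + k - I = k by omega]
          simp only [v]
          have h16 : (1 / 16 : ℝ) ^ k = 1 / (8 ^ k * 2 ^ k) := by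
            rw [← mul_pow, div_pow, one_pow]; norm_num
          rw [h16, pow_add]; field_simp
        rw [h4]
        have h5 : 2 * u / 2 ^ (k + 1) = u / 2 ^ k := by
          rw [pow_succ]; field_simp
        have h6 : 2 * u / 2 ^ k = 2 * (u / 2 ^ k) := by ring
        rw [h5]; rw [h6] at h3
        linarith
    have h3 := h2 m le_rfl
    have h4 : w' (I + m) * (1 / 16 : ℝ) ^ (I + m - I) ≤ u := by
      rw [show I + m - I = m by omega]
      have h5 : w' (I + m) ≤ 1 := by
        simp only [w']; rw [if_neg (lt_irrefl _)]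
        have : 0 ≤ ∑ s ∈ range (I + m), v s := Finset.sum_nonneg (fun s _ => hv0 s)
        linarith
      have h16 : (1 / 16 : ℝ) ^ m = 1 / (8 ^ m * 2 ^ m) := by
        rw [← mul_pow, div_pow, one_pow]; norm_num
      have h2m : (8:ℝ) ≤ 2 ^ m := by
        calc (8:ℝ) = 2 ^ 3 := by norm_num
          _ ≤ 2 ^ m := pow_le_pow_right₀ (by norm_num) hm3
      calc w' (I + m) * (1 / 16 : ℝ) ^ m ≤ 1 * (1 / 16 : ℝ) ^ m :=
            mul_le_mul_of_nonneg_right h5 (by positivity)
        _ = 1 / (8 ^ m * 2 ^ m) := by rw [one_mul, h16]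
        _ ≤ u := by
            rw [div_le_iff₀ (by positivity)]
            rw [pow_succ] at hm2
            have h8m : (0:ℝ) < 8 ^ m := by positivity
            have h9 : 8 ^ m * 8 * u ≤ 8 ^ m * 2 ^ m * u := by
              have : (8:ℝ) ^ m * 8 ≤ 8 ^ m * 2 ^ m := mul_le_mul_of_nonneg_left h2m h8m.le
              exact mul_le_mul_of_nonneg_right this hu0.le
            nlinarith
    have h5 : 0 ≤ 2 * u / 2 ^ m := by positivity
    linarith
  refine ⟨I + m, fun s => w' s, fun s => hw'0 s, ?_, ?_, ?_⟩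
  · rw [Fin.sum_univ_eq_sum_range (fun s => w' s) (I + m + 1)]; exact hsum
  · intro s hs
    simp only [w', v]
    rw [if_pos hs]
    rw [div_mul_cancel₀ _ h8I.ne']
  · intro s
    refine ⟨hw'0 s, ?_⟩
    rw [Fin.sum_univ_eq_sum_range (fun s => w' s * (1 / 16 : ℝ) ^ (s - I)) (I + m + 1)]
    exact hE

/-- expectation of a product over `S` -/
lemma expect {α : Type} [Fintype α] [DecidableEq α] {L : Type} [Fintype L] [DecidableEq L]
    (w a : L → ℝ) (hw1 : ∑ s, w s = 1) (S : Finset α) :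
    ∑ τ : α → L, (∏ x, w (τ x)) * ∏ x ∈ S, a (τ x) = (∑ s, w s * a s) ^ S.card := by
  classical
  have h1 : ∀ τ : α → L, (∏ x, w (τ x)) * ∏ x ∈ S, a (τ x) =
      ∏ x, (w (τ x) * if x ∈ S then a (τ x) else 1) := by
    intro τ
    rw [Finset.prod_mul_distrib]
    congr 1
    rw [Finset.prod_ite, Finset.prod_const_one, mul_one]
    apply Finset.prod_congr _ (fun _ _ => rfl)
    ext x; simp
  rw [Finset.sum_congr rfl (fun τ _ => h1 τ)]
  have h2 := Finset.prod_univ_sum (fun _ : α => (univ : Finset L))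
    (fun x s => w s * if x ∈ S then a s else 1)
  rw [Fintype.piFinset_univ] at h2
  rw [← h2]
  have h3 : ∀ x : α, (∑ s, w s * if x ∈ S then a s else 1) =
      if x ∈ S then ∑ s, w s * a s else 1 := by
    intro x
    split_ifs
    · rfl
    · simp [hw1]
  rw [Finset.prod_congr rfl (fun x _ => h3 x), Finset.prod_ite, Finset.prod_const_one, mul_one,
    Finset.prod_const]
  congr 2
  ext x; simp

/-- the pointwise lower bound -/
lemma pointwise {α : Type} [Fintype α] [DecidableEq α] (H : Finset α) (g : Finset α → ℝ)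
    (hg : ∀ S, 0 ≤ g S) (t : α → ℕ)
    (h : ∑ x ∈ H, (∑ S ∈ H.powerset.filter (fun S => x ∈ S), g S) * (t x : ℝ) ≤
      4 * ∑ x ∈ H, ∑ S ∈ H.powerset.filter (fun S => x ∈ S), g S) :
    ∑ S ∈ H.powerset.erase ∅, g S ≤
      ∑ S ∈ (univ : Finset (Finset α)).erase ∅, g S * ∏ x ∈ S, (16 ^ 4 * (1 / 16 : ℝ) ^ (t x)) := by
  classical
  have hlog : 0 < Real.log 16 := Real.log_pos (by norm_num)
  have h1 : ∀ S : Finset α, 1 + Real.log 16 * ∑ x ∈ S, (4 - (t x : ℝ)) ≤
      ∏ x ∈ S, (16 ^ 4 * (1 / 16 : ℝ) ^ (t x)) := by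
    intro S
    have h2 : ∀ x, (16 ^ 4 * (1 / 16 : ℝ) ^ (t x)) = Real.exp (Real.log 16 * (4 - (t x : ℝ))) := by
      intro x
      rw [mul_sub, Real.exp_sub, mul_comm (Real.log 16) 4, mul_comm (Real.log 16) (t x : ℝ),
        Real.exp_nat_mul, show (4:ℝ) = ((4:ℕ):ℝ) by norm_num, Real.exp_nat_mul,
        Real.exp_log (by norm_num)]
      rw [one_div, inv_pow]
      rfl
    rw [Finset.prod_congr rfl (fun x _ => h2 x), ← Real.exp_sum, ← Finset.mul_sum]
    have := Real.add_one_le_exp (Real.log 16 * ∑ x ∈ S, (4 - (t x : ℝ)))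
    linarith
  have hpos : ∀ S : Finset α, 0 ≤ ∏ x ∈ S, (16 ^ 4 * (1 / 16 : ℝ) ^ (t x)) := by
    intro S; apply Finset.prod_nonneg; intro x _; positivity
  have h3 : ∑ S ∈ H.powerset.erase ∅, g S * (1 + Real.log 16 * ∑ x ∈ S, (4 - (t x : ℝ))) ≤
      ∑ S ∈ (univ : Finset (Finset α)).erase ∅, g S * ∏ x ∈ S, (16 ^ 4 * (1 / 16 : ℝ) ^ (t x)) := by
    calc _ ≤ ∑ S ∈ H.powerset.erase ∅, g S * ∏ x ∈ S, (16 ^ 4 * (1 / 16 : ℝ) ^ (t x)) :=
          Finset.sum_le_sum (fun S _ => mul_le_mul_of_nonneg_left (h1 S) (hg S))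
      _ ≤ _ := by
          apply Finset.sum_le_sum_of_subset_of_nonneg
          · exact Finset.erase_subset_erase _ (Finset.subset_univ _)
          · intro S _ _; exact mul_nonneg (hg S) (hpos S)
  refine le_trans ?_ h3
  have h4 : ∑ S ∈ H.powerset.erase ∅, g S * (1 + Real.log 16 * ∑ x ∈ S, (4 - (t x : ℝ))) =
      ∑ S ∈ H.powerset.erase ∅, g S +
        Real.log 16 * ∑ S ∈ H.powerset, g S * ∑ x ∈ S, (4 - (t x : ℝ)) := by
    rw [← Finset.add_sum_erase H.powerset (fun S => g S * ∑ x ∈ S, (4 - (t x : ℝ)))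
      (Finset.empty_mem_powerset H)]
    simp only [Finset.sum_empty, mul_zero, zero_add]
    rw [Finset.mul_sum, ← Finset.sum_add_distrib]
    apply Finset.sum_congr rfl
    intro S _; ring
  rw [h4]
  have h5 : ∑ S ∈ H.powerset, g S * ∑ x ∈ S, (4 - (t x : ℝ)) =
      ∑ x ∈ H, (∑ S ∈ H.powerset.filter (fun S => x ∈ S), g S) * (4 - (t x : ℝ)) := by
    have h6 : ∀ S ∈ H.powerset, g S * ∑ x ∈ S, (4 - (t x : ℝ)) =
        ∑ x ∈ H, if x ∈ S then g S * (4 - (t x : ℝ)) else 0 := by
      intro S hS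
      rw [Finset.mul_sum, ← Finset.sum_filter]
      apply Finset.sum_congr _ (fun _ _ => rfl)
      ext x
      simp only [mem_filter]
      exact ⟨fun hx => ⟨Finset.mem_powerset.1 hS hx, hx⟩, fun hx => hx.2⟩
    rw [Finset.sum_congr rfl h6, Finset.sum_comm]
    apply Finset.sum_congr rfl
    intro x _
    rw [← Finset.sum_filter, Finset.sum_mul]
  rw [h5]
  have h7 : 0 ≤ ∑ x ∈ H, (∑ S ∈ H.powerset.filter (fun S => x ∈ S), g S) * (4 - (t x : ℝ)) := by
    have : ∑ x ∈ H, (∑ S ∈ H.powerset.filter (fun S => x ∈ S), g S) * (4 - (t x : ℝ)) =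
        4 * (∑ x ∈ H, ∑ S ∈ H.powerset.filter (fun S => x ∈ S), g S) -
        ∑ x ∈ H, (∑ S ∈ H.powerset.filter (fun S => x ∈ S), g S) * (t x : ℝ) := by
      rw [Finset.mul_sum, ← Finset.sum_sub_distrib]
      apply Finset.sum_congr rfl
      intro x _; ring
    rw [this]; linarith
  have := mul_nonneg hlog.le h7
  linarith


/-- the capture theorem, exactly in the form of note 1633 -/
def Capture : Prop :=
  ∀ {α : Type} [Fintype α] [DecidableEq α] (F : Finset (Finset α))
    (_hup : ∀ A ∈ F, ∀ B : Finset α, A ⊆ B → B ∈ F) (_hempty : ∅ ∉ F) (p : ℝ) (_hp : 0 < p)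
    (_hsmall : ¬ ∃ G : Finset (Finset α), (∀ H ∈ F, ∃ S ∈ G, S ⊆ H) ∧
      ∑ S ∈ G, p ^ S.card ≤ 1 / 2)
    (ℓ : Finset α → α → ℕ) (I K : ℕ) (_hI : ∀ H ∈ F, ∀ x ∈ H, ℓ H x ≤ I)
    (_hcard : ∀ H ∈ F, ∀ i ≤ I, (H.filter (fun x => ℓ H x ≤ i)).card ≤ 16 ^ i)
    (w : Fin (K + 1) → ℝ) (_hw0 : ∀ s, 0 ≤ w s) (_hw1 : ∑ s, w s = 1)
    (_hw : ∀ s : Fin (K + 1), (s : ℕ) < K → 2 ^ 22 * p * 8 ^ (s : ℕ) ≤ w s * 8 ^ I),
    ∃ Gd : Finset (α → Fin (K + 1)),
      (∀ tau ∈ Gd, ∃ H ∈ F, ∀ i ≤ I, ∀ r < K,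
        4 ^ r * (H.filter (fun x => ℓ H x ≤ i ∧ r < (tau x : ℕ))).card ≤ 16 ^ i * 4 ^ I) ∧
      1 / 2 < ∑ tau ∈ Gd, ∏ x, w (tau x)

/-- S0071 from the capture theorem -/
theorem s71_of_capture (hcap : Capture) (α : Type) [Fintype α]
    [DecidableEq α] [Nonempty α] (F : Finset (Finset α)) (_hne : F.Nonempty) (hempty : ∅ ∉ F)
    (hup : ∀ A ∈ F, ∀ B : Finset α, A ⊆ B → B ∈ F) (r : ℝ) (hr0 : 0 ≤ r) (hr1 : r ≤ 1)
    (g : Finset α → ℝ) (hg : ∀ S : Finset α, 0 ≤ g S ∧ g S ≤ 1)
    (hcov : ∀ H ∈ F, 1 ≤ ∑ S ∈ H.powerset, g S)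
    (hcost : ∑ S : Finset α, g S * r ^ S.card ≤ 1 / 2) :
    ∃ G : Finset (Finset α), (∀ H ∈ F, ∃ S ∈ G, S ⊆ H) ∧
      ∑ S ∈ G, (r / (25 * 512 ^ 4)) ^ S.card ≤ 1 / 2 := by
  classical
  obtain ⟨p, hpdef⟩ : ∃ p : ℝ, p = r / (25 * 512 ^ 4) := ⟨_, rfl⟩
  rw [← hpdef]
  rcases eq_or_lt_of_le hr0 with hr | hr
  · -- r = 0
    refine ⟨F, fun H hH => ⟨H, hH, Finset.Subset.refl H⟩, ?_⟩
    have h0 : ∑ S ∈ F, p ^ S.card = 0 := by
      apply Finset.sum_eq_zero
      intro S hS
      have hS0 : S.card ≠ 0 := by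
        intro hc
        rw [Finset.card_eq_zero] at hc
        exact hempty (hc ▸ hS)
      rw [hpdef, ← hr, zero_div, zero_pow hS0]
    rw [h0]; norm_num
  by_contra hsmall
  have hp0 : 0 < p := by rw [hpdef]; positivity
  obtain ⟨I, hI⟩ : ∃ I : ℕ, Fintype.card α ≤ 16 ^ I := by
    refine ⟨Fintype.card α, ?_⟩
    exact (Nat.lt_pow_self (by norm_num)).le
  obtain ⟨u, hu⟩ : ∃ u : ℝ, u = 2 ^ 22 * p := ⟨_, rfl⟩
  have hu0 : 0 < u := by rw [hu]; positivity
  have hu1 : u ≤ 1 / 4096 := by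
    rw [hu, hpdef]
    have : (2:ℝ) ^ 22 * (r / (25 * 512 ^ 4)) = r / 409600 := by norm_num; ring
    rw [this]
    rw [div_le_div_iff₀ (by norm_num) (by norm_num)]
    linarith
  obtain ⟨K, w, hw0, hw1, hw2, hw3⟩ := weights I u hu0 hu1
  -- levels
  have hlev : ∀ H : Finset α, ∃ ℓ : α → ℕ, (∀ x ∈ H, ℓ x ≤ I) ∧
      (∀ i, (H.filter (fun x => ℓ x ≤ i)).card ≤ 16 ^ i) ∧
      ∀ t : α → ℕ, (∀ i ≤ I, ∀ s, 4 ^ s * (H.filter (fun x => ℓ x ≤ i ∧ s < t x)).card ≤ 16 ^ i) →
        ∑ x ∈ H, (∑ S ∈ H.powerset.filter (fun S => x ∈ S), g S) * (t x : ℝ) ≤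
          4 * ∑ x ∈ H, ∑ S ∈ H.powerset.filter (fun S => x ∈ S), g S := fun H =>
    levels H (fun x => ∑ S ∈ H.powerset.filter (fun S => x ∈ S), g S)
      (fun x => Finset.sum_nonneg (fun S _ => (hg S).1)) I hI
  choose ℓ hℓ1 hℓ2 hℓ3 using hlev
  obtain ⟨Gd, hGd1, hGd2⟩ := hcap F hup hempty p hp0 hsmall ℓ I K (fun H _ => hℓ1 H)
    (fun H _ i _ => hℓ2 H i) w hw0 hw1 (fun s hs => by rw [← hu]; exact hw2 s hs)
  -- the functional
  let V : (α → Fin (K + 1)) → ℝ := fun τ =>
    ∑ S ∈ (univ : Finset (Finset α)).erase ∅, g S * ∏ x ∈ S, (16 ^ 4 * (1 / 16 : ℝ) ^ ((τ x : ℕ) - I))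
  have hV0 : ∀ τ, 0 ≤ V τ := by
    intro τ
    apply Finset.sum_nonneg
    intro S _
    refine mul_nonneg (hg S).1 (Finset.prod_nonneg (fun x _ => by positivity))
  have hV1 : ∀ τ ∈ Gd, 1 - g ∅ ≤ V τ := by
    intro τ hτ
    obtain ⟨H, hHF, hH⟩ := hGd1 τ hτ
    have h1 := hℓ3 H (fun x => (τ x : ℕ) - I) (by
      intro i hi s
      by_cases hs : I + s < K
      · have h2 := hH i hi (I + s) hs
        have h3 : (H.filter (fun x => ℓ H x ≤ i ∧ s < (τ x : ℕ) - I)).card =
            (H.filter (fun x => ℓ H x ≤ i ∧ I + s < (τ x : ℕ))).card := by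
          congr 1
          ext x
          simp only [mem_filter]
          constructor
          · rintro ⟨a, b, c⟩; exact ⟨a, b, by omega⟩
          · rintro ⟨a, b, c⟩; exact ⟨a, b, by omega⟩
        rw [h3]
        rw [pow_add] at h2
        have h4 : 4 ^ I * (4 ^ s * (H.filter (fun x => ℓ H x ≤ i ∧ I + s < (τ x : ℕ))).card) ≤
            4 ^ I * 16 ^ i := by
          calc _ = 4 ^ I * 4 ^ s * (H.filter (fun x => ℓ H x ≤ i ∧ I + s < (τ x : ℕ))).card := by ring
            _ ≤ 16 ^ i * 4 ^ I := h2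
            _ = _ := by ring
        exact Nat.le_of_mul_le_mul_left h4 (by positivity)
      · have h3 : (H.filter (fun x => ℓ H x ≤ i ∧ s < (τ x : ℕ) - I)) = ∅ := by
          apply Finset.filter_false_of_mem
          intro x _ hx
          have := (τ x).2
          omega
        rw [h3]; simp)
    have h2 := pointwise H g (fun S => (hg S).1) (fun x => (τ x : ℕ) - I) h1
    refine le_trans ?_ h2
    have h3 := hcov H hHF
    rw [← Finset.add_sum_erase H.powerset g (Finset.empty_mem_powerset H)] at h3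
    linarith
  -- expectation
  have hE : ∑ τ : α → Fin (K + 1), (∏ x, w (τ x)) * V τ ≤ 0.64 * (1 / 2 - g ∅) := by
    have h1 : ∀ τ : α → Fin (K + 1), (∏ x, w (τ x)) * V τ =
        ∑ S ∈ (univ : Finset (Finset α)).erase ∅, g S *
          ((∏ x, w (τ x)) * ∏ x ∈ S, (16 ^ 4 * (1 / 16 : ℝ) ^ ((τ x : ℕ) - I))) := by
      intro τ
      simp only [V]
      rw [Finset.mul_sum]
      apply Finset.sum_congr rfl
      intro S _; ring
    rw [Finset.sum_congr rfl (fun τ _ => h1 τ), Finset.sum_comm]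
    have h2 : ∀ S ∈ (univ : Finset (Finset α)).erase ∅,
        ∑ τ : α → Fin (K + 1), g S *
          ((∏ x, w (τ x)) * ∏ x ∈ S, (16 ^ 4 * (1 / 16 : ℝ) ^ ((τ x : ℕ) - I))) ≤
        0.64 * (g S * r ^ S.card) := by
      intro S hS
      rw [← Finset.mul_sum, expect w (fun s => 16 ^ 4 * (1 / 16 : ℝ) ^ ((s : ℕ) - I)) hw1 S]
      have hS1 : 1 ≤ S.card := by
        have := Finset.ne_of_mem_erase hS
        exact Finset.card_pos.2 (Finset.nonempty_iff_ne_empty.2 this)
      have h3 : ∑ s, w s * (16 ^ 4 * (1 / 16 : ℝ) ^ ((s : ℕ) - I)) ≤ 0.64 * r := by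
        have h4 := (hw3 0).2
        have h5 : ∑ s, w s * (16 ^ 4 * (1 / 16 : ℝ) ^ ((s : ℕ) - I)) =
            16 ^ 4 * ∑ s, w s * (1 / 16 : ℝ) ^ ((s : ℕ) - I) := by
          rw [Finset.mul_sum]
          apply Finset.sum_congr rfl
          intro s _; ring
        rw [h5]
        calc _ ≤ 16 ^ 4 * (4 * u) := mul_le_mul_of_nonneg_left h4 (by positivity)
          _ = 0.64 * r := by rw [hu, hpdef]; norm_num; ring
      have h30 : 0 ≤ ∑ s, w s * (16 ^ 4 * (1 / 16 : ℝ) ^ ((s : ℕ) - I)) :=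
        Finset.sum_nonneg (fun s _ => mul_nonneg (hw0 s) (by positivity))
      have h4 : (∑ s, w s * (16 ^ 4 * (1 / 16 : ℝ) ^ ((s : ℕ) - I))) ^ S.card ≤
          0.64 * r ^ S.card := by
        calc _ ≤ (0.64 * r) ^ S.card := pow_le_pow_left₀ h30 h3 _
          _ = 0.64 ^ S.card * r ^ S.card := mul_pow _ _ _
          _ ≤ 0.64 ^ 1 * r ^ S.card := by
              apply mul_le_mul_of_nonneg_right _ (pow_nonneg hr0 _)
              exact pow_le_pow_of_le_one (by norm_num) (by norm_num) hS1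
          _ = _ := by rw [pow_one]
      calc _ ≤ g S * (0.64 * r ^ S.card) := mul_le_mul_of_nonneg_left h4 (hg S).1
        _ = _ := by ring
    refine (Finset.sum_le_sum h2).trans ?_
    rw [← Finset.mul_sum]
    rw [← Finset.add_sum_erase _ _ (Finset.mem_univ ∅)] at hcost
    simp only [Finset.card_empty, pow_zero, mul_one] at hcost
    have h3 : ∑ S ∈ (univ : Finset (Finset α)).erase ∅, g S * r ^ S.card ≤ 1 / 2 - g ∅ := by
      linarith
    exact mul_le_mul_of_nonneg_left h3 (by norm_num)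
  have hg0 := (hg ∅).1
  have hg12 : g ∅ ≤ 1 / 2 := by
    have h1 : 0 ≤ ∑ S ∈ (univ : Finset (Finset α)).erase ∅, g S * r ^ S.card :=
      Finset.sum_nonneg (fun S _ => mul_nonneg (hg S).1 (pow_nonneg hr0 _))
    rw [← Finset.add_sum_erase _ _ (Finset.mem_univ ∅)] at hcost
    simp only [Finset.card_empty, pow_zero, mul_one] at hcost
    linarith
  have hL : (1 - g ∅) * (1 / 2) < ∑ τ : α → Fin (K + 1), (∏ x, w (τ x)) * V τ := by
    have hwt : ∀ τ : α → Fin (K + 1), 0 ≤ ∏ x, w (τ x) :=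
      fun τ => Finset.prod_nonneg (fun x _ => hw0 _)
    calc (1 - g ∅) * (1 / 2) < (1 - g ∅) * ∑ τ ∈ Gd, ∏ x, w (τ x) :=
          mul_lt_mul_of_pos_left hGd2 (by linarith)
      _ = ∑ τ ∈ Gd, (∏ x, w (τ x)) * (1 - g ∅) := by
          rw [Finset.mul_sum]; apply Finset.sum_congr rfl; intro τ _; ring
      _ ≤ ∑ τ ∈ Gd, (∏ x, w (τ x)) * V τ :=
          Finset.sum_le_sum (fun τ hτ => mul_le_mul_of_nonneg_left (hV1 τ hτ) (hwt τ))
      _ ≤ ∑ τ : α → Fin (K + 1), (∏ x, w (τ x)) * V τ :=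
          Finset.sum_le_sum_of_subset_of_nonneg (Finset.subset_univ _)
            (fun τ _ _ => mul_nonneg (hwt τ) (hV0 τ))
  have hfin := hL.trans_le hE
  norm_num at hfin
  linarith

end Crest.TG45F
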