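import Mathlib
import Crest.Agent.TG_Cert
import Crest.Agent.TG_Col
import Crest.Agent.HS72_Col

set_option autoImplicit false

open Finset

namespace Crest.TG45S72

/-- the statement of S0071 (universe 0), used as a hypothesis -/
def Stmt71 : Prop :=
  ∀ (α : Type) [Fintype α]
    [DecidableEq α] [Nonempty α] (F : Finset (Finset α)) (_hne : F.Nonempty) (_hempty : ∅ ∉ F)
    (_hup : ∀ A ∈ F, ∀ B : Finset α, A ⊆ B → B ∈ F) (r : ℝ) (_hr0 : 0 ≤ r) (_hr1 : r ≤ 1)
    (g : Finset α → ℝ) (_hg : ∀ S : Finset α, 0 ≤ g S ∧ g S ≤ 1)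
    (_hcov : ∀ H ∈ F, 1 ≤ ∑ S ∈ H.powerset, g S)
    (_hcost : ∑ S : Finset α, g S * r ^ S.card ≤ 1 / 2),
    ∃ G : Finset (Finset α), (∀ H ∈ F, ∃ S ∈ G, S ⊆ H) ∧
      ∑ S ∈ G, (r / (25 * 512 ^ 4)) ^ S.card ≤ 1 / 2

/-- if `1 ≤ ∑ x` with `x ≥ 0` then `1 ≤ ∑ min 1 x` -/
lemma one_le_sum_min {ι : Type*} (s : Finset ι) (x : ι → ℝ) (hx : ∀ i ∈ s, 0 ≤ x i)
    (h : 1 ≤ ∑ i ∈ s, x i) : 1 ≤ ∑ i ∈ s, min 1 (x i) := by
  classical
  by_cases hex : ∃ i ∈ s, 1 ≤ x i
  · obtain ⟨i, hi, hxi⟩ := hex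
    calc (1:ℝ) = min 1 (x i) := by rw [min_eq_left hxi]
      _ ≤ ∑ i ∈ s, min 1 (x i) :=
        Finset.single_le_sum (f := fun i => min 1 (x i))
          (fun j hj => le_min zero_le_one (hx j hj)) hi
  · push Not at hex
    have : ∑ i ∈ s, min 1 (x i) = ∑ i ∈ s, x i :=
      Finset.sum_congr rfl (fun i hi => min_eq_right (hex i hi).le)
    rw [this]; exact h

variable {N : ℕ}

/-- the down closure -/
noncomputable def dc (D : Finset (Finset (Fin N))) : Finset (Finset (Fin N)) := by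
  classical exact univ.filter (fun S => ∃ R ∈ D, S ⊆ R)

lemma mem_dc (D : Finset (Finset (Fin N))) (S : Finset (Fin N)) :
    S ∈ dc D ↔ ∃ R ∈ D, S ⊆ R := by
  classical
  simp [dc]

lemma dc_down (D : Finset (Finset (Fin N))) : ∀ R ∈ dc D, ∀ X ⊆ R, X ∈ dc D := by
  intro R hR X hX
  rw [mem_dc] at hR ⊢
  obtain ⟨T, hT, hRT⟩ := hR
  exact ⟨T, hT, hX.trans hRT⟩

lemma subset_dc (D : Finset (Finset (Fin N))) : D ⊆ dc D := by
  intro R hR
  rw [mem_dc]
  exact ⟨R, hR, Finset.Subset.refl R⟩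

/-- not covered by `k` members of `D` implies not covered by `m ≤ k` members of the down closure -/
lemma not_cover_dc (D : Finset (Finset (Fin N))) (m k : ℕ) (hm : 1 ≤ m) (hmk : m ≤ k)
    (H : Finset (Fin N))
    (hH : ∀ f : Fin k → Finset (Fin N), (∀ i, f i ∈ D) → ¬ H ⊆ univ.biUnion f) :
    ∀ f : Fin m → Finset (Fin N), (∀ i, f i ∈ dc D) → ¬ H ⊆ univ.biUnion f := by
  classical
  intro f hf hsub
  have h1 : ∀ i, ∃ R ∈ D, f i ⊆ R := fun i => (mem_dc D (f i)).1 (hf i)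
  choose g hgD hfg using h1
  let f' : Fin k → Finset (Fin N) := fun j =>
    if h : (j : ℕ) < m then g ⟨j, h⟩ else g ⟨0, hm⟩
  refine hH f' ?_ ?_
  · intro j
    by_cases h : (j : ℕ) < m
    · simp only [f', dif_pos h]; exact hgD _
    · simp only [f', dif_neg h]; exact hgD _
  · intro x hx
    obtain ⟨i, -, hi⟩ := Finset.mem_biUnion.1 (hsub hx)
    refine Finset.mem_biUnion.2 ⟨⟨i, lt_of_lt_of_le i.2 hmk⟩, mem_univ _, ?_⟩
    have : f' ⟨i, lt_of_lt_of_le i.2 hmk⟩ = g i := by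
      simp only [f', i.2, dif_pos]
    rw [this]
    exact hfg i hi

/-- product of `θ 1_H` over a set -/
lemma prod_ind (H X : Finset (Fin N)) (θ : ℝ) :
    (∏ i ∈ X, (if i ∈ H then θ else 0)) = if X ⊆ H then θ ^ X.card else 0 := by
  classical
  split_ifs with h
  · rw [Finset.prod_congr rfl (fun i hi => if_pos (h hi)), Finset.prod_const]
  · rw [Finset.not_subset] at h
    obtain ⟨i, hi, hiH⟩ := h
    exact Finset.prod_eq_zero hi (if_neg hiH)

lemma prod_one_add_ind (H : Finset (Fin N)) (θ : ℝ) :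
    (∏ i, (1 + (if i ∈ H then θ else 0))) = (1 + θ) ^ H.card := by
  classical
  have : ∀ i, (1 + (if i ∈ H then θ else 0) : ℝ) = if i ∈ H then (1 + θ) else 1 := by
    intro i; split_ifs <;> simp
  rw [Finset.prod_congr rfl (fun i _ => this i), Finset.prod_ite, Finset.prod_const,
    Finset.prod_const_one, mul_one]
  congr 2
  ext x; simp

/-- the probability of a down set under `θ 1_H` -/
lemma sum_pr_ind (D : Finset (Finset (Fin N))) (H : Finset (Fin N)) (θ : ℝ) :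
    ∑ X ∈ D, TG.pr (fun i => if i ∈ H then θ else 0) X =
      (∑ X ∈ H.powerset.filter (fun X => X ∈ D), θ ^ X.card) / (1 + θ) ^ H.card := by
  classical
  rw [Finset.sum_div]
  have h1 : ∀ X ∈ D, TG.pr (fun i => if i ∈ H then θ else 0) X =
      if X ⊆ H then θ ^ X.card / (1 + θ) ^ H.card else 0 := by
    intro X _
    rw [TG.pr, prod_ind, prod_one_add_ind]
    split_ifs <;> simp
  rw [Finset.sum_congr rfl h1, ← Finset.sum_filter]
  apply Finset.sum_congr _ (fun _ _ => rfl)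
  ext X
  simp only [mem_filter, mem_powerset]
  tauto

lemma sum_c_ind (c : Finset (Fin N) → ℝ) (H : Finset (Fin N)) (θ : ℝ) :
    ∑ S : Finset (Fin N), c S * ∏ i ∈ S, (if i ∈ H then θ else 0) =
      ∑ S ∈ H.powerset, c S * θ ^ S.card := by
  classical
  have h1 : ∀ S : Finset (Fin N), c S * ∏ i ∈ S, (if i ∈ H then θ else 0) =
      if S ⊆ H then c S * θ ^ S.card else 0 := by
    intro S
    rw [prod_ind]
    split_ifs <;> simp
  rw [Finset.sum_congr rfl (fun S _ => h1 S), ← Finset.sum_filter]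
  apply Finset.sum_congr _ (fun _ _ => rfl)
  ext X
  simp

/-- const odds `p` versus density `p/(1+p)` -/
lemma sum_pr_const (D : Finset (Finset (Fin N))) (p : ℝ) (hp : 0 ≤ p) :
    ∑ X ∈ D, TG.pr (fun _ : Fin N => p) X =
      ∑ X ∈ D, (p / (1 + p)) ^ X.card * (1 - p / (1 + p)) ^ (N - X.card) := by
  classical
  apply Finset.sum_congr rfl
  intro X _
  have hp1 : (1 + p) ≠ 0 := by positivity
  have hc : X.card ≤ N := by
    have := Finset.card_le_univ X
    simpa using this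
  rw [TG.pr, Finset.prod_const, Finset.prod_const, Finset.card_univ, Fintype.card_fin]
  have : 1 - p / (1 + p) = 1 / (1 + p) := by field_simp; ring
  rw [this, div_pow, div_pow, one_pow, div_mul_div_comm, mul_one, ← pow_add,
    Nat.add_sub_cancel' hc]


/-- the deduction of S0072 from S0071 -/
theorem s72_of_s71 (h71 : Stmt71) (hN : 1 ≤ N) (p : ℝ)
    (hp0 : 0 < p) (hp1 : p < 1) (D : Finset (Finset (Fin N)))
    (hD : 1 - 1 / 2 ^ 75 ≤ ∑ S ∈ D, p ^ S.card * (1 - p) ^ (N - S.card)) :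
    ∃ G : Finset (Finset (Fin N)),
      (∀ S : Finset (Fin N),
        (∀ f : Fin (2 ^ 75) → Finset (Fin N), (∀ i, f i ∈ D) → ¬ S ⊆ Finset.univ.biUnion f) →
          ∃ I ∈ G, I ⊆ S) ∧
      ∑ I ∈ G, p ^ I.card ≤ 1 / 2 := by
  classical
  -- D is nonempty
  have hDne : D.Nonempty := by
    rw [Finset.nonempty_iff_ne_empty]
    rintro rfl
    norm_num at hD
  have hD'ne : (dc D).Nonempty := hDne.mono (subset_dc D)
  have hdown : ∀ A ∈ dc D, ∀ B ⊆ A, B ∈ dc D := dc_down D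
  -- probability of the down closure
  have hD' : 1 - 1 / 2 ^ 75 ≤ ∑ S ∈ dc D, p ^ S.card * (1 - p) ^ (N - S.card) := by
    refine hD.trans (Finset.sum_le_sum_of_subset_of_nonneg (subset_dc D) ?_)
    intro S _ _
    have : 0 ≤ 1 - p := by linarith
    positivity
  let F : Finset (Finset (Fin N)) := univ.filter (fun H =>
    ∀ f : Fin (2 ^ 75) → Finset (Fin N), (∀ i, f i ∈ D) → ¬ H ⊆ Finset.univ.biUnion f)
  have hmemF : ∀ H, H ∈ F ↔ ∀ f : Fin (2 ^ 75) → Finset (Fin N), (∀ i, f i ∈ D) →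
      ¬ H ⊆ Finset.univ.biUnion f := by intro H; simp [F]
  have key : ∀ G : Finset (Finset (Fin N)), (∀ H ∈ F, ∃ S ∈ G, S ⊆ H) →
      ∀ S : Finset (Fin N),
        (∀ f : Fin (2 ^ 75) → Finset (Fin N), (∀ i, f i ∈ D) → ¬ S ⊆ Finset.univ.biUnion f) →
          ∃ I ∈ G, I ⊆ S := fun G hG S hS => hG S ((hmemF S).2 hS)
  by_cases hFne : F.Nonempty
  swap
  · refine ⟨∅, key ∅ ?_, by simp⟩
    intro H hH
    exact absurd ⟨H, hH⟩ hFne
  have hempty : ∅ ∉ F := by
    intro h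
    obtain ⟨R, hR⟩ := hDne
    exact (hmemF ∅).1 h (fun _ => R) (fun _ => hR) (Finset.empty_subset _)
  have hup : ∀ A ∈ F, ∀ B : Finset (Fin N), A ⊆ B → B ∈ F := by
    intro A hA B hAB
    rw [hmemF] at hA ⊢
    intro f hf hB
    exact hA f hf (hAB.trans hB)
  have hnc : ∀ H ∈ F, ∀ m : ℕ, 1 ≤ m → m ≤ 2 ^ 75 →
      ∀ f : Fin m → Finset (Fin N), (∀ i, f i ∈ dc D) → ¬ H ⊆ univ.biUnion f := by
    intro H hH m hm1 hm2
    exact not_cover_dc D m (2 ^ 75) hm1 hm2 H ((hmemF H).1 hH)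
  -- the number of colours
  obtain ⟨m, hm⟩ : ∃ m : ℕ, m = 25 * 2 ^ 36 + 1 := ⟨_, rfl⟩
  have hm1 : 1 ≤ m := by rw [hm]; norm_num
  have hm2 : 2 ≤ m := by rw [hm]; norm_num
  have hmk : m ≤ 2 ^ 75 := by rw [hm]; norm_num
  have hmr : (m : ℝ) = 25 * 2 ^ 36 + 1 := by rw [hm]; push_cast; ring
  have hmr1 : (m : ℝ) - 1 = 25 * 2 ^ 36 := by rw [hmr]; ring
  by_cases hr : 25 * 2 ^ 36 * p ≤ 1
  swap
  · -- `p > 1/m`, `F` is empty
    exfalso
    push Not at hr
    obtain ⟨H, hH⟩ := hFne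
    have huniv : (univ : Finset (Fin N)) ∈ F := hup H hH _ (Finset.subset_univ H)
    have h1 := Crest.HS72.color_bound N m hm1 (dc D) univ (hnc _ huniv m hm1 hmk)
    have h2 := Crest.HS72.mono_density N (dc D) hdown p (1 / m) (by positivity)
      (by rw [hmr, div_le_iff₀ (by norm_num)]; nlinarith) hp1.le
    have h3 : ∑ S ∈ (dc D).filter (fun S => S ⊆ (univ : Finset (Fin N))),
        (1 / (m : ℝ)) ^ S.card * (1 - 1 / (m : ℝ)) ^ ((univ : Finset (Fin N)).card - S.card) =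
        ∑ S ∈ dc D, (1 / (m : ℝ)) ^ S.card * (1 - 1 / (m : ℝ)) ^ (N - S.card) := by
      rw [Finset.filter_true_of_mem (fun S _ => Finset.subset_univ S)]
      simp
    rw [h3] at h1
    have h4 : (1 : ℝ) - 1 / 2 ^ 75 ≤ 1 - 1 / (m : ℝ) := hD'.trans (h2.trans h1)
    have h5 : (1 : ℝ) / (m : ℝ) ≤ 1 / 2 ^ 75 := by linarith
    rw [hmr] at h5
    norm_num at h5
  -- the certificate
  obtain ⟨hPpos, c, hc0, hcE, hcP, hct⟩ :=
    Crest.TG.od_cert (dc D) hdown hD'ne (fun _ : Fin N => p) (fun _ => hp0.le)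
  set P : ℝ := ∑ X ∈ dc D, TG.pr (fun _ : Fin N => p) X with hPdef
  have hPge : 1 - 1 / 2 ^ 75 ≤ P := by
    rw [hPdef, sum_pr_const _ p hp0.le]
    refine hD'.trans ?_
    have h0 : 0 ≤ p / (1 + p) := by positivity
    have h1 : p / (1 + p) ≤ p := by
      rw [div_le_iff₀ (by positivity)]; nlinarith
    exact Crest.HS72.mono_density N (dc D) hdown p (p / (1 + p)) h0 h1 hp1.le
  obtain ⟨θ, hθ⟩ : ∃ θ : ℝ, θ = 1 / ((m : ℝ) - 1) := ⟨_, rfl⟩
  have hθ0 : 0 < θ := by rw [hθ, hmr1]; norm_num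
  obtain ⟨r, hrdef⟩ : ∃ r : ℝ, r = 25 * 2 ^ 36 * p := ⟨_, rfl⟩
  have hr0 : 0 ≤ r := by rw [hrdef]; positivity
  have hr1 : r ≤ 1 := by rw [hrdef]; exact hr
  have hθr : θ * r = p := by
    rw [hθ, hmr1, hrdef]; field_simp
  let x : Finset (Fin N) → ℝ := fun S => (m : ℝ) * (c S * θ ^ S.card)
  have hx0 : ∀ S, 0 ≤ x S := fun S => by
    have := hc0 S
    simp only [x]; positivity
  let g : Finset (Fin N) → ℝ := fun S => if S = ∅ then 0 else min 1 (x S)
  have hg : ∀ S : Finset (Fin N), 0 ≤ g S ∧ g S ≤ 1 := by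
    intro S
    simp only [g]
    split_ifs
    · exact ⟨le_refl _, zero_le_one⟩
    · exact ⟨le_min zero_le_one (hx0 S), min_le_left _ _⟩
  have hcov : ∀ H ∈ F, 1 ≤ ∑ S ∈ H.powerset, g S := by
    intro H hH
    have h1 := hct (fun i => if i ∈ H then θ else 0)
      (fun i => by split_ifs <;> [exact hθ0.le; exact le_refl _])
    rw [sum_pr_ind, sum_c_ind] at h1
    have h2 := Crest.Agent.TG.colour_real (dc D) m hm2 H (hnc H hH m hm1 hmk)
    rw [← hθ] at h2
    have h3 : (∑ X ∈ H.powerset.filter (fun X => X ∈ dc D), θ ^ X.card) / (1 + θ) ^ H.card ≤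
        1 - 1 / (m : ℝ) := by
      rw [div_le_iff₀ (by positivity)]; exact h2
    set Q : ℝ := ∑ S ∈ H.powerset, c S * θ ^ S.card with hQdef
    have hQ0 : 0 ≤ Q := Finset.sum_nonneg (fun S _ => by have := hc0 S; positivity)
    have h4 : 1 ≤ (1 - 1 / (m : ℝ)) * Q := h1.trans (mul_le_mul_of_nonneg_right h3 hQ0)
    have h5 : 1 + 1 / (m : ℝ) ≤ Q := by
      have hmpos : (0:ℝ) < (m:ℝ) := by rw [hmr]; norm_num
      by_contra hcon
      push Not at hcon
      have h6 : (0:ℝ) < 1 - 1 / (m : ℝ) := by rw [hmr]; norm_num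
      have h7 : (1 - 1 / (m : ℝ)) * Q < (1 - 1 / (m : ℝ)) * (1 + 1 / (m : ℝ)) :=
        mul_lt_mul_of_pos_left hcon h6
      have h8 : (1 - 1 / (m : ℝ)) * (1 + 1 / (m : ℝ)) ≤ 1 := by
        have : (0:ℝ) ≤ (1 / (m : ℝ)) ^ 2 := by positivity
        nlinarith
      linarith
    -- split off the empty set
    have h6 : Q = 1 + ∑ S ∈ H.powerset.erase ∅, c S * θ ^ S.card := by
      rw [hQdef, ← Finset.add_sum_erase _ _ (Finset.empty_mem_powerset H), hcE]
      simp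
    have h7 : 1 / (m : ℝ) ≤ ∑ S ∈ H.powerset.erase ∅, c S * θ ^ S.card := by linarith
    have h8 : 1 ≤ ∑ S ∈ H.powerset.erase ∅, x S := by
      simp only [x]
      rw [← Finset.mul_sum]
      have hmpos : (0:ℝ) < (m:ℝ) := by rw [hmr]; norm_num
      calc (1:ℝ) = (m:ℝ) * (1 / (m:ℝ)) := by field_simp
        _ ≤ _ := mul_le_mul_of_nonneg_left h7 hmpos.le
    have h9 := one_le_sum_min (H.powerset.erase ∅) x (fun S _ => hx0 S) h8
    rw [← Finset.add_sum_erase _ _ (Finset.empty_mem_powerset H)]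
    have h10 : g ∅ = 0 := by simp [g]
    rw [h10, zero_add]
    refine h9.trans (le_of_eq ?_)
    apply Finset.sum_congr rfl
    intro S hS
    simp only [g]
    rw [if_neg (Finset.ne_of_mem_erase hS)]
  have hcost : ∑ S : Finset (Fin N), g S * r ^ S.card ≤ 1 / 2 := by
    have h1 : ∑ S : Finset (Fin N), g S * r ^ S.card ≤
        ∑ S ∈ (univ : Finset (Finset (Fin N))).erase ∅, (m : ℝ) * (c S * p ^ S.card) := by
      rw [← Finset.add_sum_erase _ _ (Finset.mem_univ ∅)]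
      have h10 : g ∅ = 0 := by simp [g]
      rw [h10, zero_mul, zero_add]
      apply Finset.sum_le_sum
      intro S hS
      simp only [g]
      rw [if_neg (Finset.ne_of_mem_erase hS)]
      calc min 1 (x S) * r ^ S.card ≤ x S * r ^ S.card :=
            mul_le_mul_of_nonneg_right (min_le_right _ _) (pow_nonneg hr0 _)
        _ = (m : ℝ) * (c S * p ^ S.card) := by
            simp only [x]; rw [← hθr, mul_pow]; ring
    have h2 : ∑ S ∈ (univ : Finset (Finset (Fin N))).erase ∅, (m : ℝ) * (c S * p ^ S.card) =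
        (m : ℝ) * (1 / P - 1) := by
      rw [← Finset.mul_sum]
      congr 1
      have h3 : (∑ S : Finset (Fin N), c S * p ^ S.card) * P = 1 := by
        have := hcP
        simp only [Finset.prod_const] at this
        exact this
      have h4 : ∑ S : Finset (Fin N), c S * p ^ S.card = 1 / P := by
        rw [eq_div_iff hPpos.ne']; exact h3
      rw [← h4, ← Finset.add_sum_erase _ _ (Finset.mem_univ ∅), hcE]
      simp
    have h3 : (1:ℝ) / P - 1 ≤ 2 / 2 ^ 75 := by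
      rw [sub_le_iff_le_add, div_le_iff₀ hPpos]
      nlinarith
    calc _ ≤ _ := h1
      _ = _ := h2
      _ ≤ (m:ℝ) * (2 / 2 ^ 75) := by
        apply mul_le_mul_of_nonneg_left h3; positivity
      _ ≤ 1 / 2 := by rw [hmr]; norm_num
  haveI : Nonempty (Fin N) := ⟨⟨0, hN⟩⟩
  obtain ⟨G, hG1, hG2⟩ := h71 (Fin N) F hFne hempty hup r hr0 hr1 g hg hcov hcost
  refine ⟨G, key G hG1, ?_⟩
  have h512 : r / (25 * 512 ^ 4) = p := by
    rw [hrdef]; norm_num
  rw [h512] at hG2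
  exact hG2

end Crest.TG45S72
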