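import Crest.Agent.TG94_Num

/-! S0073 dense top level: numerics (helper8). -/

set_option autoImplicit false

namespace Crest.TG8
open Filter

theorem num_n : ∃ n0 : ℕ, ∀ n : ℕ, n0 ≤ n →
    256 ≤ n ∧ 1 ≤ Real.log n ∧
    4 * (4 * Real.log n + 2) * (n : ℝ) ^ (1 / 20 : ℝ) ≤ (n : ℝ) ^ (1 / 10 : ℝ) ∧
    (n : ℝ) ^ (1 / 10 : ℝ) + (4 * Real.log n + 2) ≤ (n : ℝ) ^ (19 / 20 : ℝ) - 1 ∧
    (4 * Real.log n + 3) * (n : ℝ) ^ (19 / 20 : ℝ) * ((n : ℝ) ^ (1 / 100 : ℝ) + 1) +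
      (n : ℝ) ^ (1 / 100 : ℝ) + 3 ≤ n / 2 ∧
    (n : ℝ) * Real.exp (-(n : ℝ) ^ (1 / 150 : ℝ)) ≤ 1 / 2 ∧
    (4 * Real.log n + 3) * Real.log n + 1 ≤ (n : ℝ) ^ (299 / 300 : ℝ) ∧
    2 ≤ (n : ℝ) ^ (19 / 20 : ℝ) := by
  have g1 := TG94.ev_rpow_log_le (a := 1 / 20) (b := 1 / 10) (by norm_num) 24 1
  have g2 := TG94.ev_rpow_log_le (a := 1 / 10) (b := 19 / 20) (by norm_num) 8 1
  have g3 := TG94.ev_rpow_log_le (a := 24 / 25) (b := 1) (by norm_num) 36 1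
  have g4 := TG94.ev_pow_exp_le (a := 1 / 150) (c := 1) (ε := 1 / 2) (by norm_num) (by norm_num)
    (by norm_num) 1
  have g5 := TG94.ev_rpow_log_le (a := 0) (b := 299 / 300) (by norm_num) 8 2
  have g6 := TG94.ev_const_le (a := 19 / 20) (by norm_num) 2
  have g7 : ∀ᶠ n : ℕ in atTop, 256 ≤ n := eventually_ge_atTop 256
  obtain ⟨n0, -, h⟩ := TG94.exists_threshold (((((((g1.and g2).and g3).and g4).and g5).and g6).and g7)) 0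
  refine ⟨n0, fun n hn => ?_⟩
  obtain ⟨⟨⟨⟨⟨⟨h1, h2⟩, h3⟩, h4⟩, h5⟩, h6⟩, h7⟩ := h n hn
  have hn1 : (1 : ℝ) ≤ n := by exact_mod_cast (by omega : 1 ≤ n)
  have hn0 : (0 : ℝ) < n := by linarith
  have hl : 1 ≤ Real.log n := by
    rw [Real.le_log_iff_exp_le hn0]
    have := Real.exp_one_lt_d9
    have h8 : (256 : ℝ) ≤ n := by exact_mod_cast h7
    linarith
  have p1 : 1 ≤ (n : ℝ) ^ (1 / 20 : ℝ) := Real.one_le_rpow hn1 (by norm_num)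
  have p2 : 1 ≤ (n : ℝ) ^ (1 / 10 : ℝ) := Real.one_le_rpow hn1 (by norm_num)
  have p3 : 1 ≤ (n : ℝ) ^ (1 / 100 : ℝ) := Real.one_le_rpow hn1 (by norm_num)
  have p4 : 1 ≤ (n : ℝ) ^ (19 / 20 : ℝ) := Real.one_le_rpow hn1 (by norm_num)
  have e1 : (n : ℝ) ^ (19 / 20 : ℝ) * (n : ℝ) ^ (1 / 100 : ℝ) = (n : ℝ) ^ (24 / 25 : ℝ) := by
    rw [← Real.rpow_add hn0]; norm_num
  rw [pow_one] at h1 h2 h3
  rw [Real.rpow_one] at h3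
  refine ⟨h7, hl, ?_, ?_, ?_, ?_, ?_, h6⟩
  · nlinarith
  · nlinarith [mul_nonneg (sub_nonneg.2 p2) (sub_nonneg.2 hl)]
  · have q1 : (n : ℝ) ^ (19 / 20 : ℝ) ≤ (n : ℝ) ^ (24 / 25 : ℝ) := by
      rw [← e1]; nlinarith
    have q2 : (n : ℝ) ^ (1 / 100 : ℝ) ≤ (n : ℝ) ^ (24 / 25 : ℝ) := by
      rw [← e1]; nlinarith
    have q3 : (4 * Real.log n + 3) * (n : ℝ) ^ (19 / 20 : ℝ) * ((n : ℝ) ^ (1 / 100 : ℝ) + 1) =
        (4 * Real.log n + 3) * ((n : ℝ) ^ (24 / 25 : ℝ) + (n : ℝ) ^ (19 / 20 : ℝ)) := by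
      rw [← e1]; ring
    rw [q3]
    have q4 : (4 * Real.log n + 3) * ((n : ℝ) ^ (24 / 25 : ℝ) + (n : ℝ) ^ (19 / 20 : ℝ)) ≤
        (7 * Real.log n) * (2 * (n : ℝ) ^ (24 / 25 : ℝ)) := by
      apply mul_le_mul <;> nlinarith
    nlinarith [mul_nonneg (sub_nonneg.2 (p3.trans q2)) (sub_nonneg.2 hl)]
  · rw [pow_one, one_mul] at h4
    exact h4
  · rw [Real.rpow_zero] at h5
    nlinarith
  
end Crest.TG8
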