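import Crest.Agent.TG8_Gamma
import Crest.Agent.TG8_Num
import Crest.Agent.TG6_Ext
import Crest.Agent.TG_Degen
import Crest.Agent.TG73_Split
import Crest.Agent.TG_FM
import Crest.Agent.TG94_Num
import Crest.Agent.TG48_Glue

/-! S0073 dense top level (helper8): `GREEDY → GAMMA → DENSE`. -/

set_option autoImplicit false

namespace Crest.TG8
open Finset Crest.CombinatoricsR.RandomGraph

/-- codegree bound -/
theorem codeg {n t d : ℕ} {q : ℝ} (hn : 2 ≤ n) (hq : 0 ≤ q)
    (h : 1 / 2 ≤ (n : ℝ) ^ t * (n.choose d) * q ^ (t * d))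
    (hnum : t * Real.log n + 1 ≤ n * q ^ t) : (d : ℝ) ≤ 20 * n * q ^ t := by
  by_contra hcon
  push Not at hcon
  have hn0 : (0 : ℝ) < n := by exact_mod_cast (by omega : 0 < n)
  have hlog : 0 ≤ Real.log n := Real.log_natCast_nonneg n
  have htl : 0 ≤ (t : ℝ) * Real.log n := by positivity
  have hd0 : (0 : ℝ) < d := by nlinarith
  have hch : ((n.choose d : ℕ) : ℝ) ≤ (Real.exp 1 * n / d) ^ d := by
    have h1 : ((n.choose d : ℕ) : ℝ) ≤ (n : ℝ) ^ d / (d.factorial : ℝ) := Nat.choose_le_pow_div d n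
    have h2 : ((d : ℝ) / Real.exp 1) ^ d ≤ (d.factorial : ℝ) := by
      have h3 : (d : ℝ) ^ d / (d.factorial : ℝ) ≤ Real.exp d := by
        have := Real.pow_div_factorial_le_exp (x := (d : ℝ)) (by positivity) d
        exact this
      rw [div_pow, div_le_iff₀ (by positivity)]
      rw [div_le_iff₀ (by positivity)] at h3
      have h4 : Real.exp 1 ^ d = Real.exp d := by
        rw [← Real.exp_nat_mul]; simp
      rw [h4, mul_comm]
      exact h3
    refine h1.trans ?_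
    rw [div_le_iff₀ (by positivity)]
    calc (n : ℝ) ^ d = (Real.exp 1 * n / d) ^ d * ((d : ℝ) / Real.exp 1) ^ d := by
          rw [← mul_pow]; congr 1; field_simp
      _ ≤ (Real.exp 1 * n / d) ^ d * (d.factorial : ℝ) :=
          mul_le_mul_of_nonneg_left h2 (by positivity)
  have h5 : (n : ℝ) ^ t * (n.choose d) * q ^ (t * d) ≤
      (n : ℝ) ^ t * (Real.exp 1 * n / d * q ^ t) ^ d := by
    rw [mul_pow, ← pow_mul, mul_assoc]
    apply mul_le_mul_of_nonneg_left _ (by positivity)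
    exact mul_le_mul_of_nonneg_right hch (by positivity)
  have h6 : Real.exp 1 * n / d * q ^ t ≤ Real.exp 1 / 20 := by
    have : 20 * n * q ^ t ≤ d := by linarith
    rw [div_mul_eq_mul_div, div_le_div_iff₀ hd0 (by norm_num)]
    have he : 0 < Real.exp 1 := Real.exp_pos 1
    nlinarith
  have h7 : Real.exp 1 / 20 ≤ Real.exp (-(1 : ℝ)) := by
    rw [div_le_iff₀ (by norm_num)]
    have h8 : Real.exp 1 * Real.exp 1 ≤ 20 := by
      have h10 : Real.exp 1 < 2.7182818286 := Real.exp_one_lt_d9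
      have := Real.exp_pos 1
      nlinarith
    have h9 : Real.exp (-(1 : ℝ)) * Real.exp 1 = 1 := by
      rw [← Real.exp_add]; simp
    have h11 : 0 < Real.exp (-(1 : ℝ)) := Real.exp_pos _
    calc Real.exp 1 = Real.exp (-(1 : ℝ)) * (Real.exp 1 * Real.exp 1) := by
          rw [← mul_assoc, h9, one_mul]
      _ ≤ Real.exp (-(1 : ℝ)) * 20 := mul_le_mul_of_nonneg_left h8 h11.le
  have h14 : (Real.exp 1 * n / d * q ^ t) ^ d ≤ Real.exp (-(d : ℝ)) := by
    have h15 : (0 : ℝ) ≤ Real.exp 1 * n / d * q ^ t := by positivity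
    calc (Real.exp 1 * n / d * q ^ t) ^ d ≤ (Real.exp (-(1 : ℝ))) ^ d :=
          pow_le_pow_left₀ h15 (h6.trans h7) d
      _ = Real.exp (-(d : ℝ)) := by
          rw [← Real.exp_nat_mul]; congr 1; ring
  have h16 : (n : ℝ) ^ t = Real.exp (t * Real.log n) := by
    rw [Real.exp_nat_mul, Real.exp_log hn0]
  have h17 : (1 : ℝ) / 2 ≤ Real.exp (t * Real.log n + -(d : ℝ)) := by
    rw [Real.exp_add, ← h16]
    exact h.trans (h5.trans (mul_le_mul_of_nonneg_left h14 (by positivity)))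
  have h18 : Real.exp (t * Real.log n + -(d : ℝ)) ≤ Real.exp (-1 : ℝ) := by
    apply Real.exp_le_exp.2
    nlinarith
  have h19 : Real.exp (-1 : ℝ) < 1 / 2 := by
    rw [Real.exp_neg, inv_eq_one_div]
    apply one_div_lt_one_div_of_lt (by norm_num)
    have := Real.exp_one_gt_d9
    linarith
  linarith

/-- numerical consequences of `q ≤ 1/2`, `1 < q^1000 * n` -/
theorem num_q {n : ℕ} {q : ℝ} (hn : 256 ≤ n) (hq0 : 0 < q) (hq2 : q ≤ 1 / 2)
    (hd : 1 < q ^ 1000 * n) (b : ℝ) (hb : b = Real.log n / Real.log (1 / q)) (d : ℕ)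
    (hdd : d = ⌊2 * b + 2⌋₊) :
    1000 ≤ b ∧ (d : ℝ) ≤ 4 * Real.log n + 2 ∧ ((d / 1000 + 1 : ℕ) : ℝ) ≤ 4 * Real.log n + 3 ∧
      (n : ℝ) ^ (-(1 / 300) : ℝ) ≤ q ^ (d / 1000 + 1) := by
  have hn1 : (1 : ℝ) ≤ n := by exact_mod_cast (by omega : 1 ≤ n)
  have hn0 : (0 : ℝ) < n := by linarith
  have hl2 : 1 / 2 < Real.log 2 := by have := Real.log_two_gt_d9; linarith
  have hlq : Real.log 2 ≤ Real.log (1 / q) := by
    apply Real.log_le_log (by norm_num)
    rw [le_div_iff₀ hq0]; linarith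
  have hlq0 : 0 < Real.log (1 / q) := by linarith
  have hln : 0 ≤ Real.log n := Real.log_nonneg hn1
  have hb1 : 1000 ≤ b := by
    rw [hb, le_div_iff₀ hlq0]
    have h1 : 0 < Real.log (q ^ 1000 * n) := Real.log_pos hd
    rw [Real.log_mul (by positivity) (by positivity), Real.log_pow] at h1
    have h2 : Real.log (1 / q) = -Real.log q := by rw [one_div, Real.log_inv]
    rw [h2]
    push_cast at h1
    linarith
  have hb2 : b ≤ 2 * Real.log n := by
    rw [hb, div_le_iff₀ hlq0]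
    nlinarith
  have hd1 : (d : ℝ) ≤ 2 * b + 2 := by
    rw [hdd]; exact Nat.floor_le (by linarith)
  have hD1 : ((d / 1000 + 1 : ℕ) : ℝ) ≤ (d : ℝ) / 1000 + 1 := by
    push_cast
    have := @Nat.cast_div_le ℝ _ _ _ d 1000
    push_cast at this
    linarith
  have hd0 : (0 : ℝ) ≤ d := Nat.cast_nonneg d
  refine ⟨hb1, by linarith, by linarith, ?_⟩
  apply TG94.pow_ge_of_le (by omega) hq0 (by linarith)
  rw [← hb]
  linarith

/-- monotonicity of the good property -/
theorem good_mono {n : ℕ} {P : ℝ} (h0 : 0 ≤ P) (h1 : P ≤ 1) {W : Type} {F F' : SimpleGraph W}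
    (h : F ≤ F') (h' : 1 / 2 ≤ gnpProb n P {G | F'.IsContained G}) :
    1 / 2 ≤ gnpProb n P {G | F.IsContained G} :=
  h'.trans (TG48.gnpProb_contained_mono h0 h1 h)

/-- degeneracy order -/
theorem order_exists {n : ℕ} {W : Type} [Fintype W] [DecidableEq W] (H : SimpleGraph W)
    [DecidableRel H.Adj] {q : ℝ} (hn : 1 ≤ n) (hq0 : 0 < q) (hq2 : q ≤ 1 / 2)
    (hW : Fintype.card W ≤ n) (hFM : FM n H q) (b : ℝ)
    (hb : b = Real.log n / Real.log (1 / q)) (hb0 : 0 ≤ b) :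
    ∃ σ : W ≃ Fin (Fintype.card W),
      ∀ v, (univ.filter (fun u => H.Adj v u ∧ σ u < σ v)).card ≤ ⌊2 * b + 2⌋₊ := by
  have hn0 : (0 : ℝ) < n := by exact_mod_cast hn
  have hlq : Real.log 2 ≤ Real.log (1 / q) := by
    apply Real.log_le_log (by norm_num)
    rw [le_div_iff₀ hq0]; linarith
  have hl2 : 0 < Real.log 2 := Real.log_pos (by norm_num)
  have hlq0 : 0 < Real.log (1 / q) := by linarith
  have hlogn : Real.log n = b * Real.log (1 / q) := by
    rw [hb]; field_simp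
  have hbound : ∀ U : Finset W,
      ((H.edgeFinset.filter (fun e => ∀ x ∈ e, x ∈ U)).card : ℝ) ≤ (b + 1) * U.card := by
    intro U
    rcases U.eq_empty_or_nonempty with rfl | hU
    · have : H.edgeFinset.filter (fun e => ∀ x ∈ e, x ∈ (∅ : Finset W)) = ∅ := by
        rw [Finset.filter_eq_empty_iff]
        intro e _ he
        induction e using Sym2.ind with
        | _ x y => exact absurd (he x (Sym2.mem_mk_left x y)) (Finset.notMem_empty x)
      rw [this]
      simp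
    · have hd := TG.FM.fm_density H hq0.le hW hFM U
      set E := (H.edgeFinset.filter (fun e => ∀ x ∈ e, x ∈ U)).card with hE
      have h1 := Real.log_le_log (by norm_num) hd
      rw [Real.log_mul (by positivity) (by positivity), Real.log_pow, Real.log_pow] at h1
      have h2 : Real.log (1 / q) = -Real.log q := by rw [one_div, Real.log_inv]
      have h3 : Real.log (1 / 2) = -Real.log 2 := by rw [one_div, Real.log_inv]
      rw [h3] at h1
      have h4 : (E : ℝ) * Real.log (1 / q) ≤ (U.card * b + 1) * Real.log (1 / q) := by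
        rw [hlogn] at h1
        rw [h2] at h1 hlq ⊢
        nlinarith
      have h5 := le_of_mul_le_mul_right h4 hlq0
      have h6 : (1 : ℝ) ≤ U.card := by exact_mod_cast hU.card_pos
      nlinarith
  apply TG.Degen.exists_order
  intro U hU
  obtain ⟨v, hv, h⟩ := TG.Degen.exists_low_degree H (b + 1) hbound U hU
  exact ⟨v, hv, Nat.le_floor (by linarith)⟩

/-- **dense range** from the two black boxes. -/
theorem dense_of (hG : GREEDY) (hΓ : GAMMA) : DENSE := by
  classical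
  obtain ⟨m, hm, L0, hL0, n1, hΓ⟩ := hΓ
  obtain ⟨n2, hnum⟩ := num_n
  let K := Fintype.card (Bool × Fin 1000 × Fin 256 × Fin 256)
  let e : (Bool × Fin 1000 × Fin 256 × Fin 256) ≃ Fin K := Fintype.equivFin _
  refine ⟨K * m, Nat.mul_pos Fintype.card_pos hm, L0, hL0, max n1 n2, ?_⟩
  intro n hn2 hnn W _ _ H _ hW hH q hq0 hLq hdense hFM
  obtain ⟨h256, hl1, f1, f2, f3, f4, f5, f6⟩ := hnum n (by omega)
  have hn1 : (1 : ℝ) ≤ n := by exact_mod_cast (by omega : 1 ≤ n)
  have hn0 : (0 : ℝ) < n := by linarith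
  have hq2 : q ≤ 1 / 2 := by nlinarith
  have hWn : (Fintype.card W : ℝ) ≤ n := by exact_mod_cast hW
  obtain ⟨b, hb⟩ : ∃ b : ℝ, b = Real.log n / Real.log (1 / q) := ⟨_, rfl⟩
  obtain ⟨d, hd⟩ : ∃ d : ℕ, d = ⌊2 * b + 2⌋₊ := ⟨_, rfl⟩
  obtain ⟨hb1000, hd1, hD1, hqD⟩ := num_q h256 hq0 hq2 hdense b hb d hd
  obtain ⟨σ, hσ⟩ := order_exists H (by omega) hq0 hq2 hW hFM b hb (by linarith)
  rw [← hd] at hσ
  obtain ⟨σ', hσ'⟩ : ∃ σ' : W → ℕ, σ' = fun w => (σ w : ℕ) := ⟨_, rfl⟩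
  have hσinj : Function.Injective σ' := by
    intro x y h
    rw [hσ'] at h
    exact σ.injective (Fin.ext h)
  have hσd : ∀ v, (univ.filter (fun u => H.Adj v u ∧ σ' u < σ' v)).card ≤ d := by
    intro v
    refine le_trans (Finset.card_le_card ?_) (hσ v)
    intro u hu
    rw [mem_filter] at hu ⊢
    refine ⟨hu.1, hu.2.1, ?_⟩
    have := hu.2.2
    rw [hσ'] at this
    exact this
  obtain ⟨Δ, hΔ⟩ : ∃ Δ : ℕ, Δ = ⌊(n : ℝ) ^ (19 / 20 : ℝ)⌋₊ := ⟨_, rfl⟩
  obtain ⟨J, hJ⟩ : ∃ J : Finset W,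
    J = univ.filter (fun v => Δ < (univ.filter (fun u => H.Adj v u)).card) := ⟨_, rfl⟩
  have hhub := TG73.hub_card H σ' hσinj d Δ hσd
  rw [← hJ] at hhub
  obtain ⟨lab, hlab⟩ := TG73.dense_split H σ' hσinj d Δ 1000 256 (by norm_num) (by norm_num) hσd J hJ
  have hx0 : 0 < (n : ℝ) ^ (19 / 20 : ℝ) := Real.rpow_pos_of_pos hn0 _
  have hxy : (n : ℝ) ^ (19 / 20 : ℝ) * (n : ℝ) ^ (1 / 20 : ℝ) = n := by
    rw [← Real.rpow_add hn0]; norm_num
  have hΔ1 : (Δ : ℝ) ≤ (n : ℝ) ^ (19 / 20 : ℝ) := by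
    rw [hΔ]; exact Nat.floor_le hx0.le
  have hΔ2 : (n : ℝ) ^ (19 / 20 : ℝ) / 2 ≤ Δ := by
    have := Nat.lt_floor_add_one ((n : ℝ) ^ (19 / 20 : ℝ))
    rw [← hΔ] at this
    linarith
  have hJc : (J.card : ℝ) ≤ (n : ℝ) ^ (1 / 10 : ℝ) := by
    refine le_trans ?_ f1
    have h1 : (J.card : ℝ) * Δ ≤ 2 * d * Fintype.card W := by exact_mod_cast hhub
    have h2 : (J.card : ℝ) * ((n : ℝ) ^ (19 / 20 : ℝ) / 2) ≤ (J.card : ℝ) * Δ :=
      mul_le_mul_of_nonneg_left hΔ2 (Nat.cast_nonneg _)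
    have h3 : (2 : ℝ) * d * Fintype.card W ≤ 2 * (4 * Real.log n + 2) * n := by
      apply mul_le_mul _ hWn (Nat.cast_nonneg _) (by positivity)
      linarith
    have h4 : (J.card : ℝ) * (n : ℝ) ^ (19 / 20 : ℝ) ≤
        (4 * (4 * Real.log n + 2) * (n : ℝ) ^ (1 / 20 : ℝ)) * (n : ℝ) ^ (19 / 20 : ℝ) := by
      have h5 : (4 * (4 * Real.log n + 2) * (n : ℝ) ^ (1 / 20 : ℝ)) * (n : ℝ) ^ (19 / 20 : ℝ) =
          4 * (4 * Real.log n + 2) * ((n : ℝ) ^ (19 / 20 : ℝ) * (n : ℝ) ^ (1 / 20 : ℝ)) := by ring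
      rw [h5, hxy]
      linarith
    exact le_of_mul_le_mul_right h4 hx0
  obtain ⟨D, hD⟩ : ∃ D : ℕ, D = d / 1000 + 1 := ⟨_, rfl⟩
  rw [← hD] at hqD hD1
  have hP0 : 0 < L0 * q := by positivity
  have hPq : q ≤ L0 * q := by nlinarith
  refine TG6.refine_labels H (k1 := K) (k2 := m) (fun x => e (lab x.1))
    (fun F => 1 / 2 ≤ gnpProb n (L0 * q) {G | F.IsContained G}) ?_
  intro i
  obtain ⟨⟨t, i1, a, b'⟩, rfl⟩ := e.surjective i
  obtain ⟨s1, s2, s3, s4, s5, s6⟩ := hlab i1 a b'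
  obtain ⟨F, hF⟩ : ∃ F : SimpleGraph W,
    F = pieceGraph H (fun x => e (lab x.1)) (e (t, i1, a, b')) := ⟨_, rfl⟩
  rw [← hF]
  have hadj : ∀ u v, F.Adj u v ↔ (H.Adj u v ∧ lab s(u, v) = (t, i1, a, b')) := by
    intro u v
    rw [hF, TG6.pieceGraph_sym2 H (fun z => e (lab z)), e.injective.eq_iff]
  cases t with
  | false =>
    refine hΓ n (by omega) W F J q D hq0 hLq hW ?_ hJc ?_ ?_ ?_ ?_
    · intro u v huv
      rw [hadj] at huv
      rcases s4 u v huv.1 huv.2 with h | h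
      · exact Or.inr ⟨h.2.1, h.1⟩
      · exact Or.inl ⟨h.1, h.2.1⟩
    · intro v hv
      rw [hD]
      refine le_trans (Finset.card_le_card ?_) (s5 v hv)
      intro u hu
      rw [mem_filter] at hu ⊢
      exact ⟨hu.1, (hadj v u).1 hu.2⟩
    · refine le_trans ?_ hqD
      exact Real.rpow_le_rpow_of_exponent_le hn1 (by norm_num)
    · have h1 : (univ.filter (fun v => v ∉ J ∧ ∃ u, F.Adj v u)).card ≤
          Fintype.card W / 256 + 1 := by
        refine le_trans (Finset.card_le_card ?_) s6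
        intro v hv
        rw [mem_filter] at hv ⊢
        obtain ⟨h1, h2, u, hu⟩ := hv
        exact ⟨h1, h2, u, (hadj v u).1 hu⟩
      omega
    · intro S hS
      by_cases hSD : S.card ≤ D
      · have h1 : ((univ.filter (fun v => v ∉ J ∧ ∀ u ∈ S, F.Adj v u)).card : ℝ) ≤
            ((univ.filter (fun v : W => ∀ t ∈ S, H.Adj t v)).card : ℝ) := by
          have : (univ.filter (fun v => v ∉ J ∧ ∀ u ∈ S, F.Adj v u)).card ≤
              (univ.filter (fun v : W => ∀ t ∈ S, H.Adj t v)).card := by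
            refine Finset.card_le_card ?_
            intro v hv
            rw [mem_filter] at hv ⊢
            exact ⟨hv.1, fun t ht => ((hadj v t).1 (hv.2.2 t ht)).1.symm⟩
          exact_mod_cast this
        refine h1.trans ?_
        have h2 : 1 / 2 ≤ (n : ℝ) ^ S.card *
            (n.choose (univ.filter (fun v : W => ∀ t ∈ S, H.Adj t v)).card) *
            q ^ (S.card * (univ.filter (fun v : W => ∀ t ∈ S, H.Adj t v)).card) := by
          apply TG.FM.fm_bip H hq0.le hW hFM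
          · rw [Finset.disjoint_left]
            intro x hx hx'
            rw [Finset.mem_filter] at hx'
            exact (hx'.2 x hx).ne rfl
          · intro t ht x hx
            rw [Finset.mem_filter] at hx
            exact hx.2 t ht
        refine codeg hn2 hq0.le h2 ?_
        have h3 : (S.card : ℝ) ≤ 4 * Real.log n + 3 := by
          refine le_trans ?_ hD1
          exact_mod_cast hSD
        have h4 : (S.card : ℝ) * Real.log n + 1 ≤ (n : ℝ) ^ (299 / 300 : ℝ) := by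
          refine le_trans ?_ f5
          have := mul_le_mul_of_nonneg_right h3 (by linarith : (0 : ℝ) ≤ Real.log n)
          linarith
        refine h4.trans ?_
        have h5 : q ^ D ≤ q ^ S.card := pow_le_pow_of_le_one hq0.le (by linarith) hSD
        have h6 : (n : ℝ) ^ (299 / 300 : ℝ) = n * (n : ℝ) ^ (-(1 / 300) : ℝ) := by
          have : (n : ℝ) * (n : ℝ) ^ (-(1 / 300) : ℝ) =
              (n : ℝ) ^ (1 : ℝ) * (n : ℝ) ^ (-(1 / 300) : ℝ) := by rw [Real.rpow_one]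
          rw [this, ← Real.rpow_add hn0]; norm_num
        rw [h6]
        exact mul_le_mul_of_nonneg_left (hqD.trans h5) hn0.le
      · have h1 : univ.filter (fun v => v ∉ J ∧ ∀ u ∈ S, F.Adj v u) = ∅ := by
          rw [Finset.filter_eq_empty_iff]
          rintro v - ⟨hv, hvS⟩
          apply hSD
          rw [hD]
          refine le_trans (Finset.card_le_card ?_) (s5 v hv)
          intro u hu
          rw [mem_filter]
          exact ⟨mem_univ _, (hadj v u).1 (hvS u hu)⟩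
        rw [h1]
        simp only [card_empty, Nat.cast_zero]
        positivity
  | true =>
    refine ⟨fun _ => ⟨0, hm⟩, fun j => good_mono hP0.le hLq.le (TG6.pieceGraph_le F _ j) ?_⟩
    obtain ⟨U, hU⟩ : ∃ U : Finset W,
      U = univ.filter (fun v => ∃ u, H.Adj v u ∧ lab s(v, u) = (true, i1, a, b')) := ⟨_, rfl⟩
    rw [← hU] at s3
    obtain ⟨T, hT⟩ : ∃ T : ℕ, T = ⌈(n : ℝ) ^ (1 / 100 : ℝ)⌉₊ := ⟨_, rfl⟩
    have hz0 : 0 < (n : ℝ) ^ (1 / 100 : ℝ) := Real.rpow_pos_of_pos hn0 _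
    have hT1 : (T : ℝ) ≤ (n : ℝ) ^ (1 / 100 : ℝ) + 1 := by
      rw [hT]; exact (Nat.ceil_lt_add_one hz0.le).le
    have hT2 : (n : ℝ) ^ (1 / 100 : ℝ) ≤ T := by
      rw [hT]; exact Nat.le_ceil _
    have hUc : (U.card : ℝ) ≤ n / 128 + 2 := by
      have h1 : (U.card : ℝ) ≤ ((2 * (Fintype.card W / 256 + 1) : ℕ) : ℝ) := by exact_mod_cast s3
      have h2 : ((Fintype.card W / 256 : ℕ) : ℝ) ≤ (Fintype.card W : ℝ) / 256 := by
        have := @Nat.cast_div_le ℝ _ _ _ (Fintype.card W) 256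
        push_cast at this
        exact this
      push_cast at h1
      linarith
    have hΔ' : ((max Δ (J.card + d) : ℕ) : ℝ) ≤ (n : ℝ) ^ (19 / 20 : ℝ) := by
      rw [Nat.cast_max]
      apply max_le hΔ1
      push_cast
      linarith
    have hsum : U.card + D * (max Δ (J.card + d)) * T + T ≤ n := by
      have h1 : (D : ℝ) * ((max Δ (J.card + d) : ℕ) : ℝ) * T ≤
          (4 * Real.log n + 3) * (n : ℝ) ^ (19 / 20 : ℝ) * ((n : ℝ) ^ (1 / 100 : ℝ) + 1) := by
        apply mul_le_mul _ hT1 (Nat.cast_nonneg _) (by positivity)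
        apply mul_le_mul hD1 hΔ' (Nat.cast_nonneg _) (by positivity)
      have h2 : ((U.card + D * (max Δ (J.card + d)) * T + T : ℕ) : ℝ) ≤ n := by
        rw [Nat.cast_add, Nat.cast_add, Nat.cast_mul, Nat.cast_mul]
        linarith
      exact_mod_cast h2
    have hgr := hG W F U (by
        intro x y hxy
        rw [hU, mem_filter]
        exact ⟨mem_univ _, y, (hadj x y).1 hxy⟩) σ' hσinj n D (max Δ (J.card + d)) T (by
        intro v
        rw [hD]
        refine le_trans (Finset.card_le_card ?_) (s1 v)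
        intro u hu
        rw [mem_filter] at hu ⊢
        exact ⟨hu.1, (hadj v u).1 hu.2.1, hu.2.2⟩) (by
        intro v
        refine le_trans (Finset.card_le_card ?_) (s2 v)
        intro u hu
        rw [mem_filter] at hu ⊢
        exact ⟨hu.1, (hadj v u).1 hu.2⟩) (L0 * q) hP0.le hLq.le hW hsum
    refine le_trans ?_ hgr
    have hPD : q ^ D ≤ (L0 * q) ^ D := pow_le_pow_left₀ hq0.le hPq D
    have hPD1 : (L0 * q) ^ D ≤ 1 := pow_le_one₀ hP0.le hLq.le
    have h1 : (1 - (L0 * q) ^ D) ^ T ≤ Real.exp (-((L0 * q) ^ D * T)) :=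
      TG94.one_sub_pow_le hPD1 T
    have h2 : (n : ℝ) ^ (1 / 150 : ℝ) ≤ (L0 * q) ^ D * T := by
      have h3 : (n : ℝ) ^ (1 / 150 : ℝ) = (n : ℝ) ^ (-(1 / 300) : ℝ) * (n : ℝ) ^ (1 / 100 : ℝ) := by
        rw [← Real.rpow_add hn0]; norm_num
      rw [h3]
      exact mul_le_mul (hqD.trans hPD) hT2 hz0.le (by positivity)
    have h4 : Real.exp (-((L0 * q) ^ D * T)) ≤ Real.exp (-(n : ℝ) ^ (1 / 150 : ℝ)) :=
      Real.exp_le_exp.2 (by linarith)
    have h5 : (U.card : ℝ) * (1 - (L0 * q) ^ D) ^ T ≤ n * Real.exp (-(n : ℝ) ^ (1 / 150 : ℝ)) := by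
      apply mul_le_mul _ (h1.trans h4) (pow_nonneg (by linarith) _) hn0.le
      have : (256 : ℝ) ≤ n := by exact_mod_cast h256
      linarith
    linarith

end Crest.TG8
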