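import Crest.Agent.TG46_T73
import Crest.Agent.TG8_Dense
import Crest.Agent.TG30_G8

set_option autoImplicit false

namespace TG46
open Finset Crest.CombinatoricsR.RandomGraph

/-- S0073 from GAMMA -/
theorem s73_of_gamma (hG : Crest.TG8.GAMMA) :
    ∃ k : ℕ, 2 ≤ k ∧ ∃ L : ℝ, 1 ≤ L ∧ ∀ n : ℕ, 2 ≤ n →
      ∀ (W : Type) [Fintype W] [DecidableEq W] (H : SimpleGraph W),
        Fintype.card W ≤ n → H ≠ ⊥ →
        ∃ c : H.edgeSet → Fin k, ∀ i : Fin k, ∃ p : ℝ, 0 ≤ p ∧ p ≤ 1 ∧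
          (∃ C : Finset (Finset (EdgeSlot n)),
            (∀ A : Finset (EdgeSlot n),
              H.IsContained (edgeGraph A) → ∃ S ∈ C, S ⊆ A) ∧
            ∑ S ∈ C, p ^ S.card ≤ 1 / 2) ∧
          1 / 2 ≤ gnpProb n (min 1 (L * p))
            {G | (pieceGraph H c i).IsContained G} :=
  s73_of_DENSE (Crest.TG8.dense_of Crest.TG.greedy8 hG)

end TG46
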