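import Mathlib
import Crest.Prelude.Def_CopyThreshold

/-! Graph-level transfer lemmas for S0073: isolated vertices, greedy pieces, hub pieces. -/

set_option autoImplicit false

namespace TG4
open Finset Crest.CombinatoricsR.RandomGraph

theorem exists_extension {n : ℕ} {W : Type} [Fintype W] [DecidableEq W]
    (hW : Fintype.card W ≤ n) (V : Finset W) (φ : W → Fin n) (hφ : Set.InjOn φ V) :
    ∃ f : W ↪ Fin n, ∀ w ∈ V, f w = φ w := by
  classical
  have h1 : (V.image φ).card ≤ Fintype.card W :=
    le_trans Finset.card_image_le (Finset.card_le_univ V)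
  have h2 : Fintype.card W ≤ (univ : Finset (Fin n)).card := by simpa using hW
  obtain ⟨t, ht1, _, ht3⟩ := Finset.exists_subsuperset_card_eq (subset_univ (V.image φ)) h1 h2
  obtain ⟨g, hg⟩ := Finset.exists_equiv_extend_of_card_eq (α := W) (β := Fin n) (t := t)
    ht3.symm (s := V) (f := φ) ht1 hφ
  exact ⟨⟨fun w => (g w : Fin n), fun a b hab => g.injective (Subtype.ext hab)⟩, hg⟩

theorem contained_of_partial {n : ℕ} {W : Type} [Fintype W] [DecidableEq W]
    (hW : Fintype.card W ≤ n) (P : SimpleGraph W) (G : SimpleGraph (Fin n)) (V : Finset W)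
    (hV : ∀ u v, P.Adj u v → u ∈ V) (φ : W → Fin n) (hφ : Set.InjOn φ V)
    (hadj : ∀ u v, P.Adj u v → G.Adj (φ u) (φ v)) : P.IsContained G := by
  obtain ⟨f, hf⟩ := exists_extension hW V φ hφ
  refine ⟨⟨⟨f, ?_⟩, f.injective⟩⟩
  intro a b hab
  show G.Adj (f a) (f b)
  rw [hf a (hV a b hab), hf b (hV b a hab.symm)]
  exact hadj a b hab

theorem bernoulliProb_le {X : Type} [Fintype X] [DecidableEq X] (p : ℝ) (hp0 : 0 ≤ p)
    (hp1 : p ≤ 1) (E F : Set (X → Bool)) (h : E ⊆ F) :
    Crest.FinProb.bernoulliProb p E ≤ Crest.FinProb.bernoulliProb p F := by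
  classical
  unfold Crest.FinProb.bernoulliProb
  apply Finset.sum_le_sum_of_subset_of_nonneg
  · intro ω hω
    rw [mem_filter] at hω ⊢
    exact ⟨hω.1, h hω.2⟩
  · intro ω _ _
    unfold Crest.FinProb.bernoulliWeight
    refine Finset.prod_nonneg fun i _ => ?_
    split_ifs
    · exact hp0
    · linarith

/-- order-free wrapper of the greedy lemma -/
theorem greedy_piece {n : ℕ} {W : Type} [Fintype W] [DecidableEq W]
    (hW : Fintype.card W ≤ n) (P : SimpleGraph W) [DecidableRel P.Adj] (V : Finset W)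
    (hV : ∀ u v, P.Adj u v → u ∈ V) (r : W → ℕ) (hr : Set.InjOn r V) (D Δ : ℕ)
    (hD : ∀ v ∈ V, (V.filter (fun u => P.Adj v u ∧ r u < r v)).card ≤ D)
    (hΔ : ∀ v ∈ V, (V.filter (fun u => P.Adj v u)).card ≤ Δ)
    (q : ℝ) (hq0 : 0 ≤ q) (hq1 : q ≤ 1) (δ : ℝ)
    (greedy : ∀ B : Fin V.card → Finset (Fin V.card), (∀ j, ∀ i ∈ B j, i < j) →
      (∀ j, (B j).card ≤ D) → (∀ i, (univ.filter (fun j => i ∈ B j)).card ≤ Δ) →
      1 - δ ≤ Crest.FinProb.bernoulliProb q {ω : EdgeSlot n → Bool |
        ∃ φ : Fin V.card → Fin n, Function.Injective φ ∧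
          ∀ j, ∀ i ∈ B j, (graphOf ω).Adj (φ i) (φ j)}) :
    1 - δ ≤ gnpProb n q {G | P.IsContained G} := by
  classical
  have hcard : (V.image r).card = V.card := Finset.card_image_of_injOn hr
  let e := (V.image r).orderIsoOfFin hcard
  have hx : ∀ j : Fin V.card, ∃ w ∈ V, r w = (e j : ℕ) := by
    intro j
    have := (e j).2
    rw [mem_image] at this
    obtain ⟨w, hw, hw2⟩ := this
    exact ⟨w, hw, hw2⟩
  choose x hxV hxr using hx
  have hxinj : Function.Injective x := by
    intro i j hij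
    have : (e i : ℕ) = (e j : ℕ) := by rw [← hxr i, ← hxr j, hij]
    exact e.injective (Subtype.ext this)
  have hlt : ∀ i j, i < j ↔ r (x i) < r (x j) := by
    intro i j
    rw [hxr, hxr]
    have : (e i < e j) ↔ i < j := e.lt_iff_lt
    rw [← this]
    rfl
  have hsurj : ∀ v ∈ V, ∃ j, x j = v := by
    intro v hv
    refine ⟨e.symm ⟨r v, mem_image_of_mem r hv⟩, ?_⟩
    apply hr (hxV _) hv
    rw [hxr, OrderIso.apply_symm_apply]
  let B : Fin V.card → Finset (Fin V.card) := fun j => univ.filter (fun i => P.Adj (x j) (x i) ∧ i < j)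
  have h := greedy B ?_ ?_ ?_
  · refine le_trans h ?_
    unfold gnpProb
    apply bernoulliProb_le q hq0 hq1
    rintro ω ⟨φ, hφ, hφB⟩
    show P.IsContained (graphOf ω)
    choose y hy using hsurj
    let ψ : W → Fin n := fun w => if hw : w ∈ V then φ (y w hw) else ⟨0, by
      by_contra hn
      have hn0 : n = 0 := by omega
      have hc : Fintype.card W = 0 := by omega
      rw [Fintype.card_eq_zero_iff] at hc
      exact hc.elim w⟩
    have hψ : ∀ w (hw : w ∈ V), ψ w = φ (y w hw) := fun w hw => by simp [ψ, hw]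
    refine contained_of_partial hW P (graphOf ω) V hV ψ ?_ ?_
    · intro a ha b hb hab
      rw [mem_coe] at ha hb
      rw [hψ a ha, hψ b hb] at hab
      have := hφ hab
      rw [← hy a ha, ← hy b hb, this]
    · intro u v huv
      have hu := hV u v huv
      have hv := hV v u huv.symm
      rw [hψ u hu, hψ v hv]
      have hne : y u hu ≠ y v hv := by
        intro h0
        apply huv.ne
        rw [← hy u hu, ← hy v hv, h0]
      rcases lt_or_gt_of_ne hne with hl | hl
      · refine hφB (y v hv) (y u hu) ?_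
        simp only [B, mem_filter, mem_univ, true_and]
        rw [hy, hy]
        exact ⟨huv.symm, hl⟩
      · refine (hφB (y u hu) (y v hv) ?_).symm
        simp only [B, mem_filter, mem_univ, true_and]
        rw [hy, hy]
        exact ⟨huv, hl⟩
  · intro j i hi
    simp only [B, mem_filter, mem_univ, true_and] at hi
    exact hi.2
  · intro j
    refine le_trans ?_ (hD (x j) (hxV j))
    rw [← Finset.card_image_of_injective _ hxinj]
    apply Finset.card_le_card
    intro w hw
    rw [mem_image] at hw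
    obtain ⟨i, hi, rfl⟩ := hw
    simp only [B, mem_filter, mem_univ, true_and] at hi
    rw [mem_filter]
    exact ⟨hxV i, hi.1, (hlt i j).1 hi.2⟩
  · intro i
    refine le_trans ?_ (hΔ (x i) (hxV i))
    rw [← Finset.card_image_of_injective _ hxinj]
    apply Finset.card_le_card
    intro w hw
    rw [mem_image] at hw
    obtain ⟨j, hj, rfl⟩ := hw
    simp only [B, mem_filter, mem_univ, true_and] at hj
    rw [mem_filter]
    exact ⟨hxV j, hj.1.symm⟩

/-- hub pieces: all edges between `J` and `V`; hub positions `ψ`, outside positions `g` -/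
theorem hub_piece {n : ℕ} {W : Type} [Fintype W] [DecidableEq W]
    (hW : Fintype.card W ≤ n) (P : SimpleGraph W) (J V : Finset W) (hJV : Disjoint J V)
    (hP : ∀ u v, P.Adj u v → (u ∈ J ∧ v ∈ V) ∨ (u ∈ V ∧ v ∈ J)) (G : SimpleGraph (Fin n))
    (ψ : W → Fin n) (hψ : Set.InjOn ψ J) (g : W → Fin n) (hg : Set.InjOn g V)
    (hdis : ∀ u ∈ J, ∀ v ∈ V, ψ u ≠ g v)
    (hadj : ∀ u ∈ J, ∀ v ∈ V, P.Adj u v → G.Adj (ψ u) (g v)) : P.IsContained G := by
  classical
  have hd : ∀ v ∈ V, v ∉ J := fun v hv hJ => (Finset.disjoint_left.1 hJV) hJ hv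
  refine contained_of_partial hW P G (J ∪ V) ?_ (fun w => if w ∈ J then ψ w else g w) ?_ ?_
  · intro u v huv
    rcases hP u v huv with h | h
    · exact mem_union_left _ h.1
    · exact mem_union_right _ h.1
  · intro a ha b hb hab
    simp only [coe_union, Set.mem_union, mem_coe] at ha hb
    dsimp only at hab
    by_cases haJ : a ∈ J <;> by_cases hbJ : b ∈ J
    · rw [if_pos haJ, if_pos hbJ] at hab
      exact hψ haJ hbJ hab
    · rw [if_pos haJ, if_neg hbJ] at hab
      exact absurd hab (hdis a haJ b (hb.resolve_left hbJ))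
    · rw [if_neg haJ, if_pos hbJ] at hab
      exact absurd hab.symm (hdis b hbJ a (ha.resolve_left haJ))
    · rw [if_neg haJ, if_neg hbJ] at hab
      exact hg (ha.resolve_left haJ) (hb.resolve_left hbJ) hab
  · intro u v huv
    rcases hP u v huv with h | h
    · rw [if_pos h.1, if_neg (hd v h.2)]
      exact hadj u h.1 v h.2 huv
    · rw [if_neg (hd u h.1), if_pos h.2]
      exact (hadj v h.2 u h.1 huv.symm).symm

end TG4
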