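import Mathlib
import Crest.Agent.TG94_Num

set_option autoImplicit false

namespace Crest.TG94

open Filter Topology

/-- (D) -/
theorem D_le {n D : ℕ} {q a : ℝ} (hn : 1 ≤ n) (hq0 : 0 < q) (hq : q ≤ 1 / 2)
    (h : (n : ℝ) ^ (-a) ≤ q ^ D) : (D : ℝ) ≤ (n : ℝ) ^ a := by
  have hn0 : (0 : ℝ) < n := by exact_mod_cast hn
  have h1 : (n : ℝ) ^ (-a) ≤ (1 / 2 : ℝ) ^ D := h.trans (pow_le_pow_left₀ hq0.le hq D)
  have h2 : (2 : ℝ) ^ D ≤ (n : ℝ) ^ a := by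
    rw [Real.rpow_neg hn0.le, one_div, inv_pow] at h1
    exact (inv_le_inv₀ (by positivity) (by positivity)).1 h1
  have h3 : (D : ℝ) ≤ (2 : ℝ) ^ D := by
    have : D < 2 ^ D := Nat.lt_two_pow_self
    exact_mod_cast this.le
  exact h3.trans h2

/-- (F) -/
theorem fam_num (m : ℝ) : ∃ n0 : ℕ, ∀ n : ℕ, n0 ≤ n → ∀ (a D K b : ℕ) (η : ℝ), (a : ℝ) ≤ n →
    (D : ℝ) ≤ (n : ℝ) ^ (1 / 10 : ℝ) → (K : ℝ) ≤ 2 * (n : ℝ) ^ (1 / 50 : ℝ) + 2 →
    (n : ℝ) ^ (-(1 / 50 : ℝ)) ≤ η → (n : ℝ) ≤ 4 * b →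
    m * (2 * ((a : ℝ) + 1) ^ (D * K) * Real.exp (-(b * η / 8))) ≤ 1 / 2 := by
  have hev := ev_exp_le (a := (12 / 100 : ℝ)) (b := (98 / 100 : ℝ)) (by norm_num) (by norm_num)
    8 (c := 1 / 32) (ε := 1 / (4 * (|m| + 1))) (by norm_num) (by positivity)
  obtain ⟨N, hN⟩ := eventually_atTop.1 hev
  refine ⟨max N 2, fun n hn a D K b η ha hD hK hη hb => ?_⟩
  have hnN : N ≤ n := (le_max_left _ _).trans hn
  have hn2 : 2 ≤ n := (le_max_right _ _).trans hn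
  have hn0 : (0 : ℝ) < n := by positivity
  have hn2' : (2 : ℝ) ≤ n := by exact_mod_cast hn2
  have hlog : 0 ≤ Real.log n := Real.log_natCast_nonneg n
  have key := hN n hnN
  -- (a+1)^(D*K) ≤ exp (8 n^0.12 log n)
  have hDK : ((D * K : ℕ) : ℝ) ≤ 4 * (n : ℝ) ^ (12 / 100 : ℝ) := by
    push_cast
    have h1 : (1 : ℝ) ≤ (n : ℝ) ^ (1 / 50 : ℝ) :=
      Real.one_le_rpow (by linarith) (by norm_num)
    have h2 : (K : ℝ) ≤ 4 * (n : ℝ) ^ (1 / 50 : ℝ) := by linarith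
    calc (D : ℝ) * K ≤ (n : ℝ) ^ (1 / 10 : ℝ) * (4 * (n : ℝ) ^ (1 / 50 : ℝ)) :=
          mul_le_mul hD h2 (by positivity) (by positivity)
      _ = 4 * ((n : ℝ) ^ (1 / 10 : ℝ) * (n : ℝ) ^ (1 / 50 : ℝ)) := by ring
      _ = 4 * (n : ℝ) ^ (12 / 100 : ℝ) := by
          rw [← Real.rpow_add hn0]; norm_num
  have h1 : ((a : ℝ) + 1) ^ (D * K) ≤ Real.exp (8 * (n : ℝ) ^ (12 / 100 : ℝ) * Real.log n) := by
    have e1 : (a : ℝ) + 1 ≤ (n : ℝ) ^ 2 := by nlinarith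
    have e2 : (n : ℝ) ^ 2 = Real.exp (2 * Real.log n) := by
      rw [mul_comm, Real.exp_mul, Real.exp_log hn0]
      norm_num
    calc ((a : ℝ) + 1) ^ (D * K) ≤ ((n : ℝ) ^ 2) ^ (D * K) :=
          pow_le_pow_left₀ (by positivity) e1 _
      _ = Real.exp (((D * K : ℕ) : ℝ) * (2 * Real.log n)) := by rw [e2, Real.exp_nat_mul]
      _ ≤ _ := by
          apply Real.exp_le_exp.2
          have := mul_le_mul_of_nonneg_right hDK (show 0 ≤ 2 * Real.log n by positivity)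
          linarith
  have h2 : Real.exp (-(b * η / 8)) ≤ Real.exp (-(1 / 32 * (n : ℝ) ^ (98 / 100 : ℝ))) := by
    apply Real.exp_le_exp.2
    have e1 : (n : ℝ) ^ (98 / 100 : ℝ) = n * (n : ℝ) ^ (-(1 / 50 : ℝ)) := by
      conv_rhs => rw [← Real.rpow_one (n : ℝ), ← Real.rpow_mul hn0.le, ← Real.rpow_add hn0]
      norm_num
    have e2 : (n : ℝ) * (n : ℝ) ^ (-(1 / 50 : ℝ)) ≤ 4 * b * η := by
      have h0 : (0 : ℝ) ≤ (n : ℝ) ^ (-(1 / 50 : ℝ)) := by positivity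
      exact mul_le_mul hb hη h0 (by positivity)
    rw [e1]
    linarith
  have h3 : ((a : ℝ) + 1) ^ (D * K) * Real.exp (-(b * η / 8)) ≤ 1 / (4 * (|m| + 1)) := by
    refine le_trans ?_ key
    rw [sub_eq_add_neg, Real.exp_add]
    exact mul_le_mul h1 h2 (Real.exp_pos _).le (Real.exp_pos _).le
  have h4 : 0 ≤ ((a : ℝ) + 1) ^ (D * K) * Real.exp (-(b * η / 8)) := by positivity
  have h5 : m ≤ |m| + 1 := by linarith [le_abs_self m]
  calc m * (2 * ((a : ℝ) + 1) ^ (D * K) * Real.exp (-(b * η / 8)))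
      = m * (2 * (((a : ℝ) + 1) ^ (D * K) * Real.exp (-(b * η / 8)))) := by ring
    _ ≤ (|m| + 1) * (2 * (((a : ℝ) + 1) ^ (D * K) * Real.exp (-(b * η / 8)))) :=
        mul_le_mul_of_nonneg_right h5 (by positivity)
    _ ≤ (|m| + 1) * (2 * (1 / (4 * (|m| + 1)))) := by
        apply mul_le_mul_of_nonneg_left _ (by positivity)
        linarith
    _ = 1 / 2 := by
        have : (|m| + 1) ≠ 0 := by positivity
        field_simp
        norm_num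

end Crest.TG94
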