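import Mathlib
import Crest.Agent.TG94_Num2

set_option autoImplicit false

namespace Crest.TG94

open Filter Topology

/-- numerics of the fingerprint union bound in helper50's shape -/
theorem fam_num50 (m : ℝ) : ∃ n0 : ℕ, ∀ n : ℕ, n0 ≤ n → ∀ (a D K b : ℕ) (q : ℝ), 0 < q →
    q ≤ 1 / 4 → (a : ℝ) ≤ (n : ℝ) ^ (1 / 10 : ℝ) → (n : ℝ) ^ (-(1 / 100 : ℝ)) ≤ q ^ D →
    (K : ℝ) ≤ 2 / q ^ D + 1 → (n : ℝ) ≤ 2 * b →
    m * (2 * ((((a : ℝ) + 1) ^ D + 1) ^ K) * Real.exp (-(b * q ^ D / 8))) ≤ 1 / 2 := by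
  obtain ⟨N, hN⟩ := fam_num |m|
  obtain ⟨N1, hN1⟩ := eventually_atTop.1 (ev_rpow_log_le (a := 1 / 100) (b := 1 / 10)
    (by norm_num) 2 0)
  obtain ⟨N2, hN2⟩ := eventually_atTop.1 (ev_rpow_log_le (a := 1 / 10) (b := 1)
    (by norm_num) 2 0)
  refine ⟨max (max N N1) (max N2 2), fun n hn a D K b q hq0 hq ha hqD hK hb => ?_⟩
  have hnN : N ≤ n := le_trans (le_trans (le_max_left _ _) (le_max_left _ _)) hn
  have hnN1 : N1 ≤ n := le_trans (le_trans (le_max_right _ _) (le_max_left _ _)) hn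
  have hnN2 : N2 ≤ n := le_trans (le_trans (le_max_left _ _) (le_max_right _ _)) hn
  have hn2 : 2 ≤ n := le_trans (le_trans (le_max_right _ _) (le_max_right _ _)) hn
  have hn0 : (0 : ℝ) < n := by positivity
  have hn1' : (1 : ℝ) ≤ n := by exact_mod_cast (by omega : 1 ≤ n)
  have hD1 : (D : ℝ) ≤ (n : ℝ) ^ (1 / 100 : ℝ) := D_le (by omega) hq0 (by linarith) hqD
  have h1 : (1 : ℝ) ≤ (n : ℝ) ^ (1 / 100 : ℝ) := Real.one_le_rpow hn1' (by norm_num)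
  have h1' : (1 : ℝ) ≤ (n : ℝ) ^ (1 / 10 : ℝ) := Real.one_le_rpow hn1' (by norm_num)
  have hx1 := hN1 n hnN1
  have hx2 := hN2 n hnN2
  rw [pow_zero, mul_one] at hx1 hx2
  rw [Real.rpow_one] at hx2
  have hDD : ((D + 1 : ℕ) : ℝ) ≤ (n : ℝ) ^ (1 / 10 : ℝ) := by push_cast; linarith
  have haa : ((a + 1 : ℕ) : ℝ) ≤ n := by push_cast; linarith
  have hmono : (n : ℝ) ^ (1 / 100 : ℝ) ≤ (n : ℝ) ^ (1 / 50 : ℝ) :=
    Real.rpow_le_rpow_of_exponent_le hn1' (by norm_num)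
  have hqDpos : 0 < q ^ D := by positivity
  have hpos : (0 : ℝ) < (n : ℝ) ^ (1 / 100 : ℝ) := by positivity
  have hinv : 1 / q ^ D ≤ (n : ℝ) ^ (1 / 100 : ℝ) := by
    rw [Real.rpow_neg hn0.le] at hqD
    rw [one_div]
    exact inv_le_of_inv_le₀ hpos hqD
  have hKK : (K : ℝ) ≤ 2 * (n : ℝ) ^ (1 / 50 : ℝ) + 2 := by
    have : 2 / q ^ D = 2 * (1 / q ^ D) := by ring
    rw [this] at hK
    linarith
  have hη : (n : ℝ) ^ (-(1 / 50 : ℝ)) ≤ q ^ D :=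
    le_trans (Real.rpow_le_rpow_of_exponent_le hn1' (by norm_num)) hqD
  have hb4 : (n : ℝ) ≤ 4 * b := by
    have : (0 : ℝ) ≤ b := by positivity
    linarith
  have key := hN n hnN (a + 1) (D + 1) K b (q ^ D) haa hDD hKK hη hb4
  have hbase : ((a : ℝ) + 1) ^ D + 1 ≤ (((a + 1 : ℕ) : ℝ) + 1) ^ (D + 1) := by
    push_cast
    have e1 : ((a : ℝ) + 1) ^ D ≤ ((a : ℝ) + 1 + 1) ^ D :=
      pow_le_pow_left₀ (by positivity) (by linarith) D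
    have e2 : (1 : ℝ) ≤ ((a : ℝ) + 1 + 1) ^ D := one_le_pow₀ (by
      have : (0 : ℝ) ≤ a := by positivity
      linarith)
    rw [pow_succ]
    have : (0 : ℝ) ≤ a := by positivity
    nlinarith
  have hfam : (((a : ℝ) + 1) ^ D + 1) ^ K ≤ (((a + 1 : ℕ) : ℝ) + 1) ^ ((D + 1) * K) := by
    rw [pow_mul]
    exact pow_le_pow_left₀ (by positivity) hbase K
  calc m * (2 * ((((a : ℝ) + 1) ^ D + 1) ^ K) * Real.exp (-(b * q ^ D / 8)))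
      ≤ |m| * (2 * ((((a : ℝ) + 1) ^ D + 1) ^ K) * Real.exp (-(b * q ^ D / 8))) :=
        mul_le_mul_of_nonneg_right (le_abs_self m) (by positivity)
    _ ≤ |m| * (2 * (((a + 1 : ℕ) : ℝ) + 1) ^ ((D + 1) * K) *
          Real.exp (-(b * q ^ D / 8))) := by
        apply mul_le_mul_of_nonneg_left _ (abs_nonneg m)
        apply mul_le_mul_of_nonneg_right _ (Real.exp_pos _).le
        linarith
    _ ≤ 1 / 2 := key

/-- the same with `K = ⌈2 / q^D⌉₊` -/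
theorem fam_num50' (m : ℝ) : ∃ n0 : ℕ, ∀ n : ℕ, n0 ≤ n → ∀ (a D b : ℕ) (q : ℝ), 0 < q →
    q ≤ 1 / 4 → (a : ℝ) ≤ (n : ℝ) ^ (1 / 10 : ℝ) → (n : ℝ) ^ (-(1 / 100 : ℝ)) ≤ q ^ D →
    (n : ℝ) ≤ 2 * b →
    m * (2 * ((((a : ℝ) + 1) ^ D + 1) ^ ⌈2 / q ^ D⌉₊) * Real.exp (-(b * q ^ D / 8))) ≤ 1 / 2 := by
  obtain ⟨N, hN⟩ := fam_num50 m
  refine ⟨N, fun n hn a D b q hq0 hq ha hqD hb => hN n hn a D _ b q hq0 hq ha hqD ?_ hb⟩
  exact (Nat.ceil_lt_add_one (by positivity)).le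

end Crest.TG94
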