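import Mathlib
import Crest.Agent.TG_Fp
import Crest.Agent.TG_Dom
import Crest.Agent.TG98_Spr
import Crest.Agent.TG55_AD
import Crest.Agent.TG94_Num3

/-! S0073, hub classes: `AD` (abstract depth one) from the fingerprint theorem. -/

set_option autoImplicit false

namespace Crest.TG50
open Finset Crest.TG.Spr

variable {J : Type} [Fintype J] [DecidableEq J]

/-- number of small sets -/
theorem card_adm (D : ℕ) :
    ((univ : Finset (Finset J)).filter (fun A => A.card ≤ D)).card ≤ (Fintype.card J + 1) ^ D := by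
  classical
  have h : ((univ : Finset (Finset J)).filter (fun A => A.card ≤ D)) ⊆
      (univ : Finset (Fin D → Option J)).image
        (fun f => (univ : Finset J).filter (fun x => ∃ i, f i = some x)) := by
    intro A hA
    rw [mem_filter] at hA
    rw [mem_image]
    obtain ⟨e⟩ : Nonempty ({x // x ∈ A} ≃ Fin A.card) := ⟨A.equivFin⟩
    refine ⟨fun i => if h : (i : ℕ) < A.card then some (e.symm ⟨i, h⟩ : J) else none,
      mem_univ _, ?_⟩
    ext x
    simp only [mem_filter, mem_univ, true_and]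
    constructor
    · rintro ⟨i, hi⟩
      by_cases h : (i : ℕ) < A.card
      · rw [dif_pos h] at hi
        have := Option.some.inj hi
        rw [← this]
        exact (e.symm ⟨i, h⟩).2
      · rw [dif_neg h] at hi
        cases hi
    · intro hx
      have hlt : ((e ⟨x, hx⟩ : Fin A.card) : ℕ) < D := lt_of_lt_of_le (e ⟨x, hx⟩).2 hA.2
      refine ⟨⟨(e ⟨x, hx⟩ : ℕ), hlt⟩, ?_⟩
      rw [dif_pos (e ⟨x, hx⟩).2]
      simp
  refine (card_le_card h).trans (card_image_le.trans ?_)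
  rw [card_univ, Fintype.card_fun, Fintype.card_option, Fintype.card_fin]

/-- the up-set of a family -/
noncomputable def upf (S : Finset (Finset J)) : Finset (Finset J) := by
  classical
  exact univ.filter fun R => Crest.TG.Fp.Up S R

theorem mem_upf (S : Finset (Finset J)) (R : Finset J) : R ∈ upf S ↔ Crest.TG.Fp.Up S R := by
  classical
  unfold upf
  simp

theorem upf_up (S : Finset (Finset J)) : ∀ A ∈ upf S, ∀ B, A ⊆ B → B ∈ upf S := by
  intro A hA B hAB
  rw [mem_upf] at hA ⊢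
  obtain ⟨C, hC, h⟩ := hA
  exact ⟨C, hC, h.trans hAB⟩

theorem M_eq (p : ℝ) (S : Finset (Finset J)) : Crest.TG.Fp.M (wP p) S = muP p (upf S) := by
  classical
  rw [muP_eq_sum_ite]
  unfold Crest.TG.Fp.M
  refine sum_congr rfl fun R _ => ?_
  by_cases h : Crest.TG.Fp.Up S R
  · rw [if_pos h, if_pos ((mem_upf S R).2 h)]
  · rw [if_neg h, if_neg (fun h' => h ((mem_upf S R).1 h'))]

theorem G_eq (p : ℝ) (S : Finset (Finset J)) (A : Finset J) :
    Crest.TG.Fp.G (wP p) S A = ∑ R : Finset J, wP p R * (if A ∪ R ∈ upf S then 1 else 0) := by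
  classical
  unfold Crest.TG.Fp.G
  refine sum_congr rfl fun R _ => ?_
  by_cases h : Crest.TG.Fp.Up S (A ∪ R)
  · rw [if_pos h, if_pos ((mem_upf S _).2 h)]
  · rw [if_neg h, if_neg (fun h' => h ((mem_upf S _).1 h'))]

theorem lam_nonneg {V : Type} (m : ℕ) (hm : 1 ≤ m) (Y : V → Finset J) (v : V) (T : Finset J) :
    0 ≤ Crest.TG55.lam m Y v T := by
  unfold Crest.TG55.lam
  have hm' : (1 : ℝ) ≤ m := by exact_mod_cast hm
  have h1 : 0 ≤ 1 - 1 / (m : ℝ) := by
    rw [sub_nonneg, div_le_one (by linarith)]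
    exact hm'
  split_ifs
  · positivity
  · exact le_rfl

theorem sum_lam {V : Type} (m : ℕ) (Y : V → Finset J) (v : V) :
    ∑ T : Finset J, Crest.TG55.lam m Y v T = 1 := by
  unfold Crest.TG55.lam
  have h := Finset.sum_pow_mul_eq_add_pow (1 / (m : ℝ)) (1 - 1 / (m : ℝ)) (Y v)
  have h2 : (1 / (m : ℝ)) + (1 - 1 / (m : ℝ)) = 1 := by ring
  rw [h2, one_pow] at h
  refine Eq.trans ?_ h
  rw [← Finset.sum_filter]
  refine Finset.sum_congr ?_ fun _ _ => rfl
  ext T
  simp

/-- **(H)** -/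
theorem H_bound {a b : ℕ} (m : ℕ) (hm : 1281 ≤ m) (Y : Fin a → Finset J) (n : ℕ) (q : ℝ)
    (hn : 0 < n) (hq0 : 0 < q) (hq : 4 * q < 1) (ha : 64 * a ≤ n) (hb : n ≤ 2 * b) (hbn : b ≤ n)
    (hS : ∀ S : Finset J, S.Nonempty →
      ((univ.filter (fun v => S ⊆ Y v)).card : ℝ) ≤ 20 * n * q ^ S.card)
    (F : Finset (Finset J)) (hF : F.Nonempty) :
    ∑ v, ∑ t, Crest.TG55.lam m Y v t *
      (if 1 / 2 ≤ Crest.TG.Fp.G (wP q) F (t ∩ Y v) then 1 else 0) ≤
      (b : ℝ) / 16 * Crest.TG.Fp.M (wP (4 * q)) F := by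
  classical
  have hn' : (0 : ℝ) < n := by exact_mod_cast hn
  have hb' : (n : ℝ) ≤ 2 * b := by exact_mod_cast hb
  have hbn' : (b : ℝ) ≤ n := by exact_mod_cast hbn
  have ha' : 64 * (a : ℝ) ≤ n := by exact_mod_cast ha
  have hm' : (1281 : ℝ) ≤ m := by exact_mod_cast hm
  have hb0 : (0 : ℝ) < b := by linarith
  set U := upf F with hU
  have hUup : ∀ A ∈ U, ∀ B, A ⊆ B → B ∈ U := upf_up F
  have hNup := noisy_up (p := q) hq0.le (by linarith) U hUup
  rw [M_eq]
  have hVN : (Fintype.card (Fin a) : ℝ) ≤ (b : ℝ) / 32 := by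
    rw [Fintype.card_fin]; linarith
  have e1 : ∑ v, ∑ t, Crest.TG55.lam m Y v t *
      (if 1 / 2 ≤ Crest.TG.Fp.G (wP q) F (t ∩ Y v) then (1 : ℝ) else 0) =
      ∑ v : Fin a, ∑ T ∈ noisy q U, (if T ⊆ Y v then
        (1 / (m : ℝ)) ^ T.card * (1 - 1 / (m : ℝ)) ^ ((Y v).card - T.card) else 0) := by
    refine sum_congr rfl fun v _ => ?_
    rw [← Finset.univ_inter (noisy q U), ← Finset.sum_ite_mem]
    refine sum_congr rfl fun T _ => ?_
    unfold Crest.TG55.lam
    by_cases hT : T ⊆ Y v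
    · have hTi : T ∩ Y v = T := inter_eq_left.2 hT
      rw [if_pos hT, hTi]
      by_cases hN : T ∈ noisy q U
      · rw [if_pos hN, if_pos, mul_one]
        rw [G_eq]
        exact (mem_noisy q U T).1 hN
      · rw [if_neg hN, if_neg, mul_zero]
        rw [G_eq]
        exact fun h => hN ((mem_noisy q U T).2 h)
    · rw [if_neg hT, zero_mul]
      split_ifs <;> rfl
  have e2 := Crest.TG.Dom.dom_labels m (by omega) Y 20 n q ((b : ℝ) / 32) hVN (by linarith)
    (by linarith) (by nlinarith) hq0.le (by linarith) hS (noisy q U) hNup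
  have e3 : ∑ R ∈ noisy q U, q ^ R.card * (1 - q) ^ (Fintype.card J - R.card) ≤
      2 * muP (2 * q) U := by
    have h := muP_noisy (p := q) (q := q) hq0.le (by linarith) hq0.le (by linarith) U
    have h2 : muP (q + q - q * q) U ≤ muP (2 * q) U :=
      muP_mono (by nlinarith) (by nlinarith) (by linarith) U hUup
    have h3 : ∑ R ∈ noisy q U, q ^ R.card * (1 - q) ^ (Fintype.card J - R.card) =
      muP q (noisy q U) := rfl
    rw [h3]
    linarith
  have e4 := sprinkle_min (p := 2 * q) (P := 4 * q) (by linarith) (by linarith) 2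
    (by push_cast; linarith) (by linarith) U hUup
  have e5 : ∑ v : Fin a, ∑ T ∈ noisy q U, (if T ⊆ Y v then
        (1 / (m : ℝ)) ^ T.card * (1 - 1 / (m : ℝ)) ^ ((Y v).card - T.card) else 0) ≤
        (b : ℝ) / 32 := by
    have h1 : ∀ v : Fin a, ∑ T ∈ noisy q U, (if T ⊆ Y v then
        (1 / (m : ℝ)) ^ T.card * (1 - 1 / (m : ℝ)) ^ ((Y v).card - T.card) else 0) ≤ 1 := by
      intro v
      refine le_trans ?_ (le_of_eq (sum_lam m Y v))
      refine sum_le_sum_of_subset_of_nonneg (subset_univ _) fun T _ _ => ?_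
      exact lam_nonneg m (by omega) Y v T
    calc _ ≤ ∑ v : Fin a, (1 : ℝ) := sum_le_sum fun v _ => h1 v
      _ = (Fintype.card (Fin a) : ℝ) := by simp
      _ ≤ _ := hVN
  rw [e1]
  push_cast at e4
  rcases le_total (1 / 2) (muP (4 * q) U) with h | h
  · nlinarith
  · have h6 : muP (2 * q) U ≤ muP (4 * q) U := by
      rcases le_total (1 / 2) (muP (2 * q) U) with h7 | h7
      · rw [min_eq_left (by linarith)] at e4
        exact muP_mono (by linarith) (by linarith) (by linarith) U hUup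
      · rw [min_eq_right (by linarith)] at e4
        linarith
    refine e2.trans ?_
    have h8 : ∑ R ∈ noisy q U, q ^ R.card * (1 - q) ^ (Fintype.card J - R.card) ≤
      2 * muP (4 * q) U := by linarith
    have h7 := mul_le_mul_of_nonneg_left h8 (show (0 : ℝ) ≤ (b : ℝ) / 32 by linarith)
    linarith

open Classical in
theorem wP_sum_inter (q : ℝ) (A : Finset J) (F : Finset (Finset J)) (hq0 : 0 ≤ q) (hq1 : q ≤ 1)
    (D : ℕ) (hA : A.card ≤ D) :
    q ^ D * (1 - Crest.TG.Fp.G (wP q) F A) ≤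
      ∑ R, wP q R * (if A ⊆ R ∧ ¬ Crest.TG.Fp.Up F R then 1 else 0) := by
  classical
  have h1 : ∑ R, wP q R * (if A ⊆ R ∧ ¬ Crest.TG.Fp.Up F R then (1 : ℝ) else 0) =
      ∑ R, wP q R * (if A ⊆ R then (if Crest.TG.Fp.Up F R then 0 else 1) else 0) := by
    refine sum_congr rfl fun R _ => ?_
    congr 1
    by_cases h : A ⊆ R <;> by_cases h2 : Crest.TG.Fp.Up F R <;> simp [h, h2]
  have h2 : 1 - Crest.TG.Fp.G (wP q) F A =
      ∑ R, wP q R * (if Crest.TG.Fp.Up F (A ∪ R) then 0 else 1) := by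
    have h3 : Crest.TG.Fp.G (wP q) F A +
      ∑ R, wP q R * (if Crest.TG.Fp.Up F (A ∪ R) then 0 else 1) = 1 := by
      unfold Crest.TG.Fp.G
      rw [← Finset.sum_add_distrib]
      refine Eq.trans ?_ (sum_wP (α := J) q)
      refine sum_congr rfl fun R _ => ?_
      split_ifs <;> ring
    linarith
  rw [h1, cond_law q A (fun R => if Crest.TG.Fp.Up F R then 0 else 1), h2]
  refine mul_le_mul_of_nonneg_right (pow_le_pow_of_le_one hq0 hq1 hA) ?_
  refine sum_nonneg fun R _ => mul_nonneg (wP_nonneg hq0 hq1 R) ?_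
  split_ifs <;> norm_num

theorem M_lower (P : ℝ) (q : ℝ) (F : Finset (Finset J)) (hq0 : 0 ≤ q) (hqP : q ≤ P) (hP1 : P ≤ 1)
    (D : ℕ) (A : Finset J) (hAF : A ∈ F) (hA : A.card ≤ D) :
    q ^ D ≤ Crest.TG.Fp.M (wP P) F := by
  classical
  have h1 : P ^ A.card ≤ Crest.TG.Fp.M (wP P) F := by
    rw [← prob_superset P A]
    refine sum_le_sum fun R _ => ?_
    have h := wP_nonneg (α := J) (hq0.trans hqP) hP1 R
    by_cases h2 : A ⊆ R
    · rw [if_pos h2, if_pos ⟨A, hAF, h2⟩]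
    · rw [if_neg h2]
      split_ifs <;> nlinarith
  refine le_trans ?_ h1
  calc q ^ D ≤ q ^ A.card := pow_le_pow_of_le_one hq0 (hqP.trans hP1) hA
    _ ≤ P ^ A.card := pow_le_pow_left₀ hq0 hqP _

/-- fingerprint theorem with thinned labels, `Fin` indices -/
theorem gamma_fin {a b : ℕ} (m : ℕ) (hm : 1281 ≤ m) (Y : Fin a → Finset J) (n D K : ℕ) (q : ℝ)
    (hn : 0 < n) (hq0 : 0 < q) (hq : 4 * q < 1) (ha : 64 * a ≤ n) (hb : n ≤ 2 * b) (hbn : b ≤ n)
    (hD : ∀ v, (Y v).card ≤ D)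
    (hS : ∀ S : Finset J, S.Nonempty →
      ((univ.filter (fun v => S ⊆ Y v)).card : ℝ) ≤ 20 * n * q ^ S.card)
    (hK : 2 / q ^ D ≤ K) :
    1 - 2 * ((((Fintype.card J + 1) ^ D + 1) ^ K : ℕ) : ℝ) * Real.exp (-((b : ℝ) * q ^ D / 8)) ≤
      ∑ τ : Fin a → Finset J, ∑ ρ : Fin b → Finset J,
        (∏ v, Crest.TG55.lam m Y v (τ v)) * (∏ w, wP (4 * q) (ρ w)) *
        (@ite _ (∃ g : Fin a → Fin b, Function.Injective g ∧ ∀ v, τ v ∩ Y v ⊆ ρ (g v))
          (Classical.dec _) (1 : ℝ) 0) := by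
  classical
  set Adm : Finset (Finset J) := (univ : Finset (Finset J)).filter (fun A => A.card ≤ D) with hAdm
  have hN : ((Adm.powerset.filter (fun S => S.card ≤ K)).card : ℝ) ≤
      ((((Fintype.card J + 1) ^ D + 1) ^ K : ℕ) : ℝ) := by
    have h1 := Crest.TG.Fp.card_small Adm K
    have h2 := card_adm (J := J) D
    have h3 : (Adm.powerset.filter (fun S => S.card ≤ K)).card ≤
        ((Fintype.card J + 1) ^ D + 1) ^ K := by
      refine le_trans ?_ (h1.trans (Nat.pow_le_pow_left (Nat.add_le_add_right h2 1) K))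
      exact le_of_eq (by congr)
    exact_mod_cast h3
  have h := Crest.TG.Fp.quenched (a := a) (b := b) (T := Finset J) (Crest.TG55.lam m Y)
    (fun v t => lam_nonneg m (by omega) Y v t) (fun v => sum_lam m Y v)
    (fun v t => t ∩ Y v) Adm
    (fun v t => by
      rw [hAdm, mem_filter]
      exact ⟨mem_univ _, (card_le_card inter_subset_right).trans (hD v)⟩)
    (wP q) (wP (4 * q)) (fun R => wP_nonneg hq0.le (by linarith) R) (sum_wP q)
    (fun R => wP_nonneg (by linarith) (by linarith) R) (sum_wP (4 * q))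
    (q ^ D) (by positivity) K hK
    (fun A hA S => wP_sum_inter q A S hq0.le (by linarith) D (by
      rw [hAdm, mem_filter] at hA; exact hA.2))
    (fun S hS' hne => by
      obtain ⟨A, hA⟩ := hne
      have := hS' hA
      rw [hAdm, mem_filter] at this
      exact M_lower (4 * q) q S hq0.le (by linarith) (by linarith) D A hA this.2)
    (fun S _ hne _ => by
      have := H_bound m hm Y n q hn hq0 hq ha hb hbn hS S hne
      convert this)
    _ (by convert hN)
  refine h.trans (le_of_eq ?_)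
  refine sum_congr rfl fun τ _ => sum_congr rfl fun ρ _ => ?_
  congr 1
  by_cases hh : ∃ g : Fin a → Fin b, Function.Injective g ∧ ∀ v, τ v ∩ Y v ⊆ ρ (g v)
  · rw [if_pos hh, if_pos hh]
  · rw [if_neg hh, if_neg hh]

/-- **abstract depth one** -/
theorem AD_fp : Crest.TG55.AD := by
  obtain ⟨n0, hn0⟩ := Crest.TG94.fam_num50' 1281
  refine ⟨1281, 4, max n0 1, by norm_num, by norm_num, ?_⟩
  intro n hn J V _ _ _ _ Y q D b hq0 hq hJ hD hqD hV hS hb hbn Q _ hQ
  classical
  have hn1 : n0 ≤ n := (le_max_left _ _).trans hn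
  have hn2 : 1 ≤ n := (le_max_right _ _).trans hn
  let e : V ≃ Fin (Fintype.card V) := Fintype.equivFin V
  have hS' : ∀ S : Finset J, S.Nonempty →
      ((univ.filter (fun i => S ⊆ Y (e.symm i))).card : ℝ) ≤ 20 * n * q ^ S.card := by
    intro S hSn
    have hc : (univ.filter (fun i => S ⊆ Y (e.symm i))).card =
        (univ.filter (fun v => S ⊆ Y v)).card :=
      Finset.card_equiv e.symm (fun i => by simp)
    rw [hc]
    exact hS S hSn
  have h := gamma_fin (a := Fintype.card V) (b := b) 1281 le_rfl (fun i => Y (e.symm i)) n D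
    ⌈2 / q ^ D⌉₊ q (by omega) hq0 hq hV hb hbn (fun i => hD _) hS' (Nat.le_ceil _)
  have hb' : (n : ℝ) ≤ 2 * b := by exact_mod_cast hb
  have hnum := hn0 n hn1 (Fintype.card J) D b q hq0 (by linarith) hJ hqD hb'
  have hpush : ((((Fintype.card J + 1) ^ D + 1) ^ ⌈2 / q ^ D⌉₊ : ℕ) : ℝ) =
      (((Fintype.card J : ℝ) + 1) ^ D + 1) ^ ⌈2 / q ^ D⌉₊ := by push_cast; ring
  rw [hpush] at h
  have h1 : 1 - 1 / (2 * ((1281 : ℕ) : ℝ)) ≤
      1 - 2 * (((Fintype.card J : ℝ) + 1) ^ D + 1) ^ ⌈2 / q ^ D⌉₊ *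
        Real.exp (-((b : ℝ) * q ^ D / 8)) := by
    have h2 : ((1281 : ℕ) : ℝ) = 1281 := by norm_num
    rw [h2]
    generalize (((Fintype.card J : ℝ) + 1) ^ D + 1) ^ ⌈2 / q ^ D⌉₊ = X at hnum ⊢
    have h3 : 2 * X * Real.exp (-((b : ℝ) * q ^ D / 8)) ≤ 1 / (2 * 1281) := by
      rw [le_div_iff₀ (by norm_num)]
      linarith
    linarith
  refine h1.trans (h.trans ?_)
  rw [← Equiv.sum_comp (e.arrowCongr (Equiv.refl (Finset J)))]
  refine sum_le_sum fun τ _ => sum_le_sum fun ρ _ => ?_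
  have hprod : (∏ i, Crest.TG55.lam 1281 (fun i => Y (e.symm i)) i
      ((e.arrowCongr (Equiv.refl (Finset J))) τ i)) =
      ∏ v, Crest.TG55.lam 1281 Y v (τ v) := by
    rw [← Equiv.prod_comp e.symm (fun v => Crest.TG55.lam 1281 Y v (τ v))]
    rfl
  rw [hprod]
  have hP0 : 0 ≤ ∏ v, Crest.TG55.lam 1281 Y v (τ v) :=
    prod_nonneg fun v _ => lam_nonneg 1281 (by norm_num) Y v (τ v)
  have hR0 : 0 ≤ ∏ w, wP (4 * q) (ρ w) :=
    prod_nonneg fun w _ => wP_nonneg (by linarith) (by linarith) _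
  change _ ≤ (∏ v, Crest.TG55.lam 1281 Y v (τ v)) * (∏ w, wP (4 * q) (ρ w)) *
    (if Q τ ρ then 1 else 0)
  by_cases hsub : ∀ v, τ v ⊆ Y v
  · refine mul_le_mul_of_nonneg_left ?_ (mul_nonneg hP0 hR0)
    by_cases hg : ∃ g : Fin (Fintype.card V) → Fin b, Function.Injective g ∧
        ∀ i, (e.arrowCongr (Equiv.refl (Finset J))) τ i ∩ Y (e.symm i) ⊆ ρ (g i)
    · rw [if_pos hg, if_pos]
      obtain ⟨g, hgi, hgs⟩ := hg
      refine hQ τ ρ ⟨fun v => g (e v), fun x y hxy => e.injective (hgi hxy), fun v => ?_⟩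
      have h5 := hgs (e v)
      have h6 : (e.arrowCongr (Equiv.refl (Finset J))) τ (e v) = τ v := by
        simp [Equiv.arrowCongr]
      rw [h6, e.symm_apply_apply, inter_eq_left.2 (hsub v)] at h5
      exact h5
    · rw [if_neg hg]
      split_ifs <;> norm_num
  · push Not at hsub
    obtain ⟨v, hv⟩ := hsub
    have hz : ∏ v, Crest.TG55.lam 1281 Y v (τ v) = 0 := by
      refine prod_eq_zero (mem_univ v) ?_
      unfold Crest.TG55.lam
      rw [if_neg hv]
    rw [hz]
    simp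

end Crest.TG50
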