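import Crest.Agent.TG_FrB
import Crest.Agent.TG_Expo

set_option autoImplicit false

/-! Transfer of the row exposure model of `TG_Expo` to the binomial random graph. -/

namespace Crest.TG51

open Finset Crest.CombinatoricsR.RandomGraph Crest.TG.Expo

variable {V : Type} [Fintype V] [DecidableEq V]

/-- the slot between two vertices of disjoint families -/
def rslot {n : ℕ} {A B : Type} (a : A → Fin n) (b : B → Fin n) (hab : ∀ i v, a i ≠ b v)
    (x : A × B) : EdgeSlot n :=
  ⟨s(a x.1, b x.2), by simpa using hab x.1 x.2⟩

theorem rslot_injective {n : ℕ} {A B : Type} (a : A → Fin n) (b : B → Fin n)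
    (ha : Function.Injective a) (hb : Function.Injective b) (hab : ∀ i v, a i ≠ b v) :
    Function.Injective (rslot a b hab) := by
  rintro ⟨i, j⟩ ⟨i', j'⟩ h
  unfold rslot at h
  rw [Subtype.mk.injEq, Sym2.eq_iff] at h
  rcases h with ⟨h1, h2⟩ | ⟨h1, h2⟩
  · rw [Prod.mk.injEq]; exact ⟨ha h1, hb h2⟩
  · exact absurd h1 (hab _ _)

open Classical in
/-- the rows of the random bipartite graph between two disjoint families of vertices -/
theorem rows_transfer {n m : ℕ} (p : ℝ) (a : Fin m → Fin n) (b : V → Fin n)
    (ha : Function.Injective a) (hb : Function.Injective b) (hab : ∀ i v, a i ≠ b v)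
    (E : (Fin m → V → Bool) → Prop) :
    gnpProb n p {G | E (fun i v => decide (G.Adj (a i) (b v)))}
      = ∑ ω : Fin m → V → Bool, wt p ω * (if E ω then 1 else 0) := by
  have h2 : {ω : EdgeSlot n → Bool | graphOf ω ∈
      {G : SimpleGraph (Fin n) | E (fun i v => decide (G.Adj (a i) (b v)))}}
      = {ω : EdgeSlot n → Bool | ω ∘ rslot a b hab ∈
          {η : Fin m × V → Bool | E (fun i v => η (i, v))}} := by
    ext ω
    rw [Set.mem_ofPred_eq, Set.mem_ofPred_eq, Set.mem_ofPred_eq, Set.mem_ofPred_eq]
    have h3 : (fun i v => decide ((graphOf ω).Adj (a i) (b v)))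
        = fun i v => (ω ∘ rslot a b hab) (i, v) := by
      funext i v
      rw [Bool.eq_iff_iff, decide_eq_true_iff, Crest.TG.graphOf_adj_iff ω _ _ (hab i v)]
      rfl
    rw [h3]
  unfold gnpProb
  rw [h2, Crest.TG.bernoulliProb_comp_inj p _ (rslot_injective a b ha hb hab),
    Crest.TG.bernoulliProb_eq_ite, ← (Equiv.curry (Fin m) V Bool).symm.sum_comp]
  refine Finset.sum_congr rfl fun ω _ => ?_
  have hw : Crest.FinProb.bernoulliWeight p ((Equiv.curry (Fin m) V Bool).symm ω) = wt p ω := by
    unfold wt Crest.FinProb.bernoulliWeight
    rw [Fintype.prod_prod_type]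
    rfl
  have hm : ((Equiv.curry (Fin m) V Bool).symm ω ∈
      {η : Fin m × V → Bool | E (fun i v => η (i, v))}) ↔ E ω := Iff.rfl
  rw [hw]
  by_cases h : E ω
  · rw [if_pos (hm.2 h), if_pos h, mul_one]
  · rw [if_neg (fun h' => h (hm.1 h')), if_neg h, mul_zero]

open Classical in
/-- the success probability of the greedy star assignment in the random graph -/
theorem one_sub_fail {n m : ℕ} (p : ℝ) (a : Fin m → Fin n) (b : V → Fin n)
    (ha : Function.Injective a) (hb : Function.Injective b) (hab : ∀ i v, a i ≠ b v)
    (ds : List ℕ) (U : Finset V) :
    gnpProb n p {G | Good m (fun i v => decide (G.Adj (a i) (b v))) ds U}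
      = 1 - fail p m ds U := by
  rw [rows_transfer p a b ha hb hab (fun ω => Good m ω ds U), eq_sub_iff_add_eq]
  unfold fail
  rw [← Finset.sum_add_distrib]
  refine Eq.trans ?_ (sum_wt (V := V) p m)
  refine Finset.sum_congr rfl fun ω _ => ?_
  by_cases h : Good m ω ds U
  · simp [h]
  · simp [h]

omit [Fintype V] in
/-- extraction of the stars from a successful greedy assignment -/
theorem good_extract : ∀ (m : ℕ) (ω : Fin m → V → Bool) (ds : List ℕ) (U : Finset V),
    Good m ω ds U →
    ∃ (c : Fin ds.length → Fin m) (S : Fin ds.length → Finset V),
      StrictMono c ∧ (∀ i, (S i).card = ds.get i) ∧ (∀ i, Disjoint (S i) U) ∧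
      (∀ i j, i ≠ j → Disjoint (S i) (S j)) ∧ ∀ i, ∀ v ∈ S i, ω (c i) v = true := by
  intro m
  induction m with
  | zero =>
    intro ω ds U h
    cases ds with
    | nil =>
      exact ⟨fun i => i.elim0, fun i => i.elim0, fun i => i.elim0, fun i => i.elim0,
        fun i => i.elim0, fun i => i.elim0, fun i => i.elim0⟩
    | cons d ds => exact absurd h (by simp [Good])
  | succ m ih =>
    intro ω ds U h
    cases ds with
    | nil =>
      exact ⟨fun i => i.elim0, fun i => i.elim0, fun i => i.elim0, fun i => i.elim0,
        fun i => i.elim0, fun i => i.elim0, fun i => i.elim0⟩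
    | cons d ds =>
      rw [Good] at h
      rcases h with ⟨S0, hS1, hS2, hS3, hS4⟩ | h
      · obtain ⟨c, S, h1, h2, h3, h4, h5⟩ := ih _ _ _ hS4
        refine ⟨Fin.cons 0 (fun i => (c i).succ), Fin.cons S0 S, ?_, ?_, ?_, ?_, ?_⟩
        · intro i j hij
          induction i using Fin.cases with
          | zero =>
            induction j using Fin.cases with
            | zero => exact absurd hij (lt_irrefl _)
            | succ j => simp
          | succ i =>
            induction j using Fin.cases with
            | zero => exact absurd hij (by simp)
            | succ j =>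
              simp only [Fin.cons_succ, Fin.succ_lt_succ_iff]
              exact h1 (by simpa using hij)
        · intro i
          induction i using Fin.cases with
          | zero => simpa using hS1
          | succ i => simpa using h2 i
        · intro i
          induction i using Fin.cases with
          | zero => simpa using hS2
          | succ i =>
            simp only [Fin.cons_succ]
            exact (h3 i).mono_right subset_union_left
        · intro i j hij
          induction i using Fin.cases with
          | zero =>
            induction j using Fin.cases with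
            | zero => exact absurd rfl hij
            | succ j =>
              simp only [Fin.cons_zero, Fin.cons_succ]
              exact ((h3 j).mono_right subset_union_right).symm
          | succ i =>
            induction j using Fin.cases with
            | zero =>
              simp only [Fin.cons_zero, Fin.cons_succ]
              exact (h3 i).mono_right subset_union_right
            | succ j =>
              simp only [Fin.cons_succ]
              exact h4 i j (fun h => hij (by rw [h]))
        · intro i
          induction i using Fin.cases with
          | zero => simpa using hS3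
          | succ i =>
            simp only [Fin.cons_succ]
            exact h5 i
      · obtain ⟨c, S, h1, h2, h3, h4, h5⟩ := ih _ _ _ h
        refine ⟨fun i => (c i).succ, S, ?_, h2, h3, h4, ?_⟩
        · intro i j hij
          exact Fin.succ_lt_succ_iff.2 (h1 hij)
        · intro i v hv
          exact h5 i v hv

end Crest.TG51
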