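import Crest.Agent.TG53_W
import Crest.Agent.TG26_Lev
import Crest.Agent.KK_Pr

/-! S0071, FINISH from CAPTURE' (backup version, helper53). -/

set_option autoImplicit false

namespace Crest.TG53
open Finset

theorem finish {α : Type} [Fintype α] [DecidableEq α] (F : Finset (Finset α))
    (p : ℝ) (hp : 0 < p) (hp2 : 4194304 * p ≤ 1 / 2)
    (r : ℝ) (hr : 2 ^ 40 * p ≤ r) (g : Finset α → ℝ) (hg : ∀ S : Finset α, 0 ≤ g S)
    (hcov : ∀ H ∈ F, 1 ≤ ∑ S ∈ H.powerset, g S)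
    (hcost : ∑ S : Finset α, g S * r ^ S.card ≤ 1 / 2)
    (cap : ∀ (ℓ : Finset α → α → ℕ) (I R : ℕ), (∀ H ∈ F, ∀ x ∈ H, ℓ H x ≤ I) →
      (∀ H ∈ F, ∀ i, (H.filter (fun x => ℓ H x ≤ i)).card ≤ 16 ^ i) →
      ∀ (w : Fin (I + R + 1) → ℝ), (∀ s, 0 ≤ w s) → ∑ s, w s = 1 →
        (∀ s : Fin (I + R + 1), (s : ℕ) < I + R → 2 ^ 22 * p * 8 ^ (s : ℕ) ≤ w s * 8 ^ I) →
        ∃ Gd : Finset (α → Fin (I + R + 1)),
          (∀ τ ∈ Gd, ∃ H ∈ F, ∀ i ≤ I, ∀ s < I + R,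
            4 ^ s * (H.filter (fun x => ℓ H x ≤ i ∧ s < (τ x : ℕ))).card ≤ 16 ^ i * 4 ^ I) ∧
          1 / 2 < ∑ τ ∈ Gd, ∏ x, w (τ x)) : False := by
  classical
  set I : ℕ := Fintype.card α with hIdef
  have hI16 : Fintype.card α ≤ 16 ^ I := (Nat.lt_pow_self (by norm_num)).le
  set lam : Finset α → α → ℝ := fun H x =>
    ∑ S ∈ (H.powerset.erase ∅).filter (fun S => x ∈ S), g S with hlam
  have hlam0 : ∀ H x, 0 ≤ lam H x := fun H x => Finset.sum_nonneg fun S _ => hg S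
  choose ℓ hℓ1 hℓ2 hℓ3 using fun H : Finset α =>
    TG26.lev_exists H (lam H) (hlam0 H) I hI16
  obtain ⟨R, w, hw0, hw1, hw2, hw3⟩ := exists_weights I p hp hp2
  obtain ⟨Gd, hGd, hGs⟩ := cap ℓ I R (fun H _ x _ => hℓ2 H x) (fun H _ i => hℓ1 H i) w hw0 hw1
    (by
      intro s hs
      rw [hw2 s hs]
      have e : (8 : ℝ) ^ (((s : ℕ) : ℤ) - (I : ℤ)) * 8 ^ I = 8 ^ (s : ℕ) := by
        rw [← zpow_natCast (8 : ℝ) I, ← zpow_add₀ (by norm_num), ← zpow_natCast]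
        congr 1
        ring
      rw [mul_assoc _ _ ((8 : ℝ) ^ I), e]
      norm_num)
  set v : Fin (I + R + 1) → ℝ := fun l => (16 : ℝ) ^ 4 * ((16 : ℝ)⁻¹) ^ ((l : ℕ) - I) with hv
  have hv0 : ∀ l, 0 ≤ v l := fun l => by simp only [hv]; positivity
  -- the lower bound for captured labellings
  have hlow : ∀ τ ∈ Gd, 1 - g ∅ ≤ ∑ S ∈ (univ : Finset (Finset α)).erase ∅, g S * ∏ x ∈ S, v (τ x) := by
    intro τ hτ
    obtain ⟨H, hH, hcapt⟩ := hGd τ hτ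
    have h1 := hℓ3 H (I + R) (fun x => (τ x : ℕ)) (fun x => Nat.lt_succ_iff.1 (τ x).2) hcapt
    have h2 := TG26.jensen_low H g hg I (fun x => (τ x : ℕ)) (by simpa only [hlam] using h1)
    have h3 := hcov H hH
    rw [← Finset.add_sum_erase _ _ (Finset.empty_mem_powerset H)] at h3
    have h4 : ∑ S ∈ H.powerset.erase ∅, g S * ∏ x ∈ S, v (τ x) ≤
        ∑ S ∈ (univ : Finset (Finset α)).erase ∅, g S * ∏ x ∈ S, v (τ x) := by
      apply Finset.sum_le_sum_of_subset_of_nonneg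
      · exact Finset.erase_subset_erase _ (Finset.subset_univ _)
      · intro S _ _
        exact mul_nonneg (hg S) (Finset.prod_nonneg fun x _ => hv0 _)
    have h5 : ∑ S ∈ H.powerset.erase ∅, g S ≤
        ∑ S ∈ H.powerset.erase ∅, g S * ∏ x ∈ S, v (τ x) := h2
    linarith
  -- expectation
  have hEv : ∑ l, w l * v l ≤ r := by
    have e : ∑ l, w l * v l = 16 ^ 4 * ∑ l, w l * ((16 : ℝ) ^ ((l : ℕ) - I))⁻¹ := by
      rw [Finset.mul_sum]
      refine Finset.sum_congr rfl fun l _ => ?_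
      simp only [hv, inv_pow]
      ring
    rw [e]
    have h6 := mul_le_mul_of_nonneg_left hw3 (show (0 : ℝ) ≤ 16 ^ 4 by norm_num)
    refine h6.trans (le_trans (le_of_eq ?_) hr)
    norm_num
    ring
  have hEv0 : 0 ≤ ∑ l, w l * v l := Finset.sum_nonneg fun l _ => mul_nonneg (hw0 l) (hv0 l)
  have hexp : ∑ τ : α → Fin (I + R + 1), (∏ x, w (τ x)) *
      ∑ S ∈ (univ : Finset (Finset α)).erase ∅, g S * ∏ x ∈ S, v (τ x) =
      ∑ S ∈ (univ : Finset (Finset α)).erase ∅, g S * (∑ l, w l * v l) ^ S.card := by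
    simp_rw [Finset.mul_sum]
    rw [Finset.sum_comm]
    refine Finset.sum_congr rfl fun S _ => ?_
    have h7 := KK.expect_prod w hw1 v S (fun x : α => x) (fun a _ b _ h => h)
    rw [← h7, Finset.mul_sum]
    refine Finset.sum_congr rfl fun τ _ => ?_
    unfold KK.wt
    ring
  have hnn : ∀ τ : α → Fin (I + R + 1), 0 ≤ (∏ x, w (τ x)) *
      ∑ S ∈ (univ : Finset (Finset α)).erase ∅, g S * ∏ x ∈ S, v (τ x) := fun τ =>
    mul_nonneg (Finset.prod_nonneg fun x _ => hw0 _)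
      (Finset.sum_nonneg fun S _ => mul_nonneg (hg S) (Finset.prod_nonneg fun x _ => hv0 _))
  have h8 : (∑ τ ∈ Gd, ∏ x, w (τ x)) * (1 - g ∅) ≤
      ∑ τ : α → Fin (I + R + 1), (∏ x, w (τ x)) *
      ∑ S ∈ (univ : Finset (Finset α)).erase ∅, g S * ∏ x ∈ S, v (τ x) := by
    rw [Finset.sum_mul]
    refine le_trans (Finset.sum_le_sum fun τ hτ => ?_)
      (Finset.sum_le_sum_of_subset_of_nonneg (Finset.subset_univ Gd) fun τ _ _ => hnn τ)
    exact mul_le_mul_of_nonneg_left (hlow τ hτ) (Finset.prod_nonneg fun x _ => hw0 _)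
  have h9 : ∑ S ∈ (univ : Finset (Finset α)).erase ∅, g S * (∑ l, w l * v l) ^ S.card ≤
      ∑ S ∈ (univ : Finset (Finset α)).erase ∅, g S * r ^ S.card :=
    Finset.sum_le_sum fun S _ => mul_le_mul_of_nonneg_left (pow_le_pow_left₀ hEv0 hEv _) (hg S)
  have h10 := Finset.add_sum_erase (univ : Finset (Finset α)) (fun S => g S * r ^ S.card)
    (Finset.mem_univ ∅)
  simp only [Finset.card_empty, pow_zero, mul_one] at h10
  have h11 : 0 ≤ g ∅ := hg ∅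
  rw [hexp] at h8
  have h12 : g ∅ ≤ 1 / 2 := by
    have h13 : 0 ≤ ∑ S ∈ (univ : Finset (Finset α)).erase ∅, g S * (∑ l, w l * v l) ^ S.card :=
      Finset.sum_nonneg fun S _ => mul_nonneg (hg S) (pow_nonneg hEv0 _)
    linarith
  nlinarith

end Crest.TG53
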