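import Crest.Agent.TG69_FM
import Crest.Agent.TG_Degen

/-! S0073 sparse range: bounded degeneracy from the first moment conditions. -/

set_option autoImplicit false

namespace Crest.TG54
open Finset Crest.CombinatoricsR.RandomGraph

theorem low_degree {n : ℕ} {W : Type} [Fintype W] [DecidableEq W] (H : SimpleGraph W)
    [DecidableRel H.Adj] (q : ℝ) (hq : 0 < q) (ι : W ↪ Fin n) (hFM : TG69.FM H n q)
    (b0 : ℕ) (hb : 1 ≤ b0) (hn : 2 ≤ n) (hqb : q ^ b0 * n ≤ 1) (U : Finset W)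
    (hU : U.Nonempty) :
    ∃ v ∈ U, (U.filter (fun u => H.Adj v u)).card ≤ 4 * b0 := by
  have hnR : (2 : ℝ) ≤ n := by exact_mod_cast hn
  have hcard : ∀ U : Finset W,
      ((H.edgeFinset.filter (fun e => ∀ x ∈ e, x ∈ U)).card : ℝ) ≤ (2 * b0 : ℝ) * U.card := by
    intro U
    rcases U.eq_empty_or_nonempty with hU | hU
    · subst hU
      have h0 : (H.edgeFinset.filter (fun e => ∀ x ∈ e, x ∈ (∅ : Finset W))) = ∅ := by
        rw [Finset.filter_eq_empty_iff]
        intro e _ h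
        induction e using Sym2.ind with
        | _ x y => exact absurd (h x (Sym2.mem_mk_left _ _)) (by simp)
      rw [h0]; simp
    have hd := TG69.density H q hq.le ι hFM U
    have hee : (TG69.edgesIn H U).card
        = (H.edgeFinset.filter (fun e => ∀ x ∈ e, x ∈ U)).card := by
      unfold TG69.edgesIn
      congr 1
    rw [hee] at hd
    set e := (H.edgeFinset.filter (fun e => ∀ x ∈ e, x ∈ U)).card with he
    have key : e ≤ 2 * b0 * U.card := by
      by_contra hlt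
      push Not at hlt
      have hU1 : 1 ≤ U.card := Finset.card_pos.mpr hU
      have hge : U.card * b0 + (b0 + 1) ≤ e := by nlinarith
      have h1 : ((1 : ℝ) / 2) ^ b0 ≤ ((n : ℝ) ^ U.card * q ^ e) ^ b0 :=
        pow_le_pow_left₀ (by norm_num) hd b0
      have h2 : ((n : ℝ) ^ U.card * q ^ e) ^ b0 * (n : ℝ) ^ e ≤ (n : ℝ) ^ (U.card * b0) := by
        have e1 : ((n : ℝ) ^ U.card * q ^ e) ^ b0 * (n : ℝ) ^ e
            = (n : ℝ) ^ (U.card * b0) * (q ^ b0 * n) ^ e := by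
          rw [mul_pow, mul_pow, ← pow_mul, ← pow_mul, ← pow_mul, mul_comm e b0]; ring
        rw [e1]
        have h3 : (q ^ b0 * (n : ℝ)) ^ e ≤ 1 := pow_le_one₀ (by positivity) hqb
        exact mul_le_of_le_one_right (by positivity) h3
      have h4 : ((1 : ℝ) / 2) ^ b0 * (n : ℝ) ^ e ≤ (n : ℝ) ^ (U.card * b0) :=
        le_trans (mul_le_mul_of_nonneg_right h1 (by positivity)) h2
      have h5 : (n : ℝ) ^ (U.card * b0 + (b0 + 1)) ≤ (n : ℝ) ^ e :=
        pow_le_pow_right₀ (by linarith) hge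
      have h6 : ((1 : ℝ) / 2) ^ b0 * (n : ℝ) ^ (U.card * b0 + (b0 + 1))
          = (n : ℝ) ^ (U.card * b0) * (((n : ℝ) / 2) ^ b0 * n) := by
        rw [pow_add, pow_succ, div_pow, div_pow]; ring
      have h7 : (1 : ℝ) ≤ ((n : ℝ) / 2) ^ b0 := one_le_pow₀ (by linarith)
      have h8 : (2 : ℝ) ≤ ((n : ℝ) / 2) ^ b0 * n := by nlinarith
      have h9 : (0 : ℝ) < (n : ℝ) ^ (U.card * b0) := by positivity
      have h10 : (n : ℝ) ^ (U.card * b0) * 2 ≤ (n : ℝ) ^ (U.card * b0) := by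
        calc (n : ℝ) ^ (U.card * b0) * 2 ≤ (n : ℝ) ^ (U.card * b0) * (((n : ℝ) / 2) ^ b0 * n) :=
              mul_le_mul_of_nonneg_left h8 h9.le
          _ = ((1 : ℝ) / 2) ^ b0 * (n : ℝ) ^ (U.card * b0 + (b0 + 1)) := h6.symm
          _ ≤ ((1 : ℝ) / 2) ^ b0 * (n : ℝ) ^ e :=
              mul_le_mul_of_nonneg_left h5 (by positivity)
          _ ≤ _ := h4
      linarith
    exact_mod_cast key
  obtain ⟨v, hv, h⟩ := Crest.TG.Degen.exists_low_degree H (2 * b0 : ℝ) hcard U hU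
  refine ⟨v, hv, ?_⟩
  have h' : (((U.filter (fun u => H.Adj v u)).card : ℕ) : ℝ) ≤ ((4 * b0 : ℕ) : ℝ) := by
    push_cast; linarith
  exact_mod_cast h'

end Crest.TG54
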