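import Crest.Agent.TG76_Sparse
import Crest.Agent.TG66_Rows
import Crest.Agent.TG31_Star

/-! S0073 sparse range: closed form. -/

set_option autoImplicit false

namespace Crest.TG54
open Finset Crest.CombinatoricsR.RandomGraph

theorem rows : Crest.TG76.RowsBB 6 (1000 * (8 * 3 ^ 16)) 1 := by
  intro n m N hn hm hN q hq hLq ds hds hsum hst
  refine Crest.TG66.star_rows (V := Fin N) n m q (1000 * (8 * 3 ^ 16)) ds (by simpa using hN) hm
    (by omega) hds hsum ?_ hq le_rfl hLq.le
  intro d hd
  exact hst d (hds d hd)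

theorem piece : Crest.TG76.PieceBB := by
  intro n m hm P h0 h1 W _ _ F hW par hpar hadj cs hnd hcs
  exact Crest.TG.Expo.piece_prob n m hm P h0 h1 F hW par hpar hadj cs hnd hcs

theorem sparse (b0 : ℕ) (hb0 : 1 ≤ b0) : TG73.SparseCore b0 :=
  Crest.TG76.sparse_core b0 hb0 (1000 * (8 * 3 ^ 16)) (by norm_num) 1 rows piece

end Crest.TG54
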