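import Crest.Agent.TG1_Star

/-! Degree list of a star forest from the first moment for disjoint stars (S0073, sparse range). -/

set_option autoImplicit false

namespace Crest.TG58
open Finset Crest.CombinatoricsR.RandomGraph

theorem card_centres_le {n : ℕ} {W : Type} [Fintype W] [DecidableEq W] (H : SimpleGraph W)
    [DecidableRel H.Adj] (ι : W ↪ Fin n) (q : ℝ) (hq : 0 ≤ q)
    (hFM : ∀ J ⊆ KK.slots H ι, (1 / 2 : ℝ) ≤
      ((univ.image fun σ : Equiv.Perm (Fin n) => J.image (KK.act n σ)).card : ℝ) * q ^ J.card)
    (par : W → Option W) (hpar : ∀ v u, par v = some u → par u = none)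
    (hadj : ∀ v u, par v = some u → H.Adj u v) (A : Finset W) (d : ℕ) (hd : 1 ≤ d)
    (hA : ∀ u ∈ A, d ≤ (univ.filter fun v => par v = some u).card) :
    (A.card : ℝ) ≤ 2 * Real.exp 1 * ((n : ℝ) * (n.choose d : ℝ) * q ^ d) := by
  classical
  have hch : ∀ u : W, ∃ T : Finset W, u ∈ A → (T ⊆ (univ.filter fun v => par v = some u) ∧
      T.card = d) := by
    intro u
    by_cases hu : u ∈ A
    · obtain ⟨T, hT, hTc⟩ := Finset.exists_subset_card_eq (hA u hu)
      exact ⟨T, fun _ => ⟨hT, hTc⟩⟩
    · exact ⟨∅, fun h => absurd h hu⟩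
  choose T hT using hch
  set x : Fin A.card → W := fun j => (A.equivFin.symm j : W) with hx
  have hxA : ∀ j, x j ∈ A := fun j => (A.equivFin.symm j).2
  have hxinj : Function.Injective x := by
    intro i j h
    exact A.equivFin.symm.injective (Subtype.ext h)
  have hmem : ∀ j, ∀ y ∈ T (x j), par y = some (x j) := by
    intro j y hy
    exact (mem_filter.1 ((hT _ (hxA j)).1 hy)).2
  have hnone : ∀ j, par (x j) = none := by
    intro j
    have hpos : 0 < (T (x j)).card := by rw [(hT _ (hxA j)).2]; omega
    obtain ⟨y, hy⟩ := card_pos.1 hpos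
    exact hpar y _ (hmem j y hy)
  refine TG1.star_count H ι q hq hFM A.card d hd x (fun j => T (x j))
    (fun j => (hT _ (hxA j)).2) (fun j y hy => hadj y _ (hmem j y hy)) ?_
  intro i j hij
  rw [Finset.disjoint_left]
  intro z hz hz'
  rw [mem_insert] at hz hz'
  rcases hz with rfl | hz <;> rcases hz' with h | hz'
  · exact hij (hxinj h)
  · have := hmem j _ hz'
    rw [hnone i] at this
    cases this
  · rw [h] at hz
    have := hmem i _ hz
    rw [hnone j] at this
    cases this
  · have h1 := hmem i z hz
    have h2 := hmem j z hz'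
    rw [h1] at h2
    exact hij (hxinj (Option.some.inj h2))

theorem countP_le {n : ℕ} {W : Type} [Fintype W] [DecidableEq W] (H : SimpleGraph W)
    [DecidableRel H.Adj] (ι : W ↪ Fin n) (q : ℝ) (hq : 0 ≤ q)
    (hFM : ∀ J ⊆ KK.slots H ι, (1 / 2 : ℝ) ≤
      ((univ.image fun σ : Equiv.Perm (Fin n) => J.image (KK.act n σ)).card : ℝ) * q ^ J.card)
    (par : W → Option W) (hpar : ∀ v u, par v = some u → par u = none)
    (hadj : ∀ v u, par v = some u → H.Adj u v) (cs : List W) (hnd : cs.Nodup)
    (d : ℕ) (hd : 1 ≤ d) :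
    (((cs.map fun u => (univ.filter fun v => par v = some u).card).countP
      (fun e => decide (d ≤ e)) : ℕ) : ℝ) ≤
      2 * Real.exp 1 * ((n : ℝ) * (n.choose d : ℝ) * q ^ d) := by
  classical
  set A : Finset W := cs.toFinset.filter
    (fun u => d ≤ (univ.filter fun v => par v = some u).card) with hA
  have h1 : (cs.map fun u => (univ.filter fun v => par v = some u).card).countP
      (fun e => decide (d ≤ e)) = A.card := by
    rw [List.countP_map, List.countP_eq_length_filter]
    have h2 : A = (cs.filter (fun u => decide (d ≤ (univ.filter fun v => par v = some u).card))).toFinset := by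
      rw [hA]
      ext u
      simp [List.mem_toFinset]
    rw [h2, List.toFinset_card_of_nodup (hnd.filter _)]
    rfl
  rw [h1]
  exact card_centres_le H ι q hq hFM par hpar hadj A d hd (fun u hu => (mem_filter.1 hu).2)

theorem sum_le {W : Type} [Fintype W] [DecidableEq W]
    (par : W → Option W) (cs : List W) (hnd : cs.Nodup) :
    (cs.map fun u => (univ.filter fun v => par v = some u).card).sum ≤
      (univ.filter fun v => par v ≠ none).card := by
  classical
  rw [← List.sum_toFinset _ hnd, ← card_biUnion]
  · refine card_le_card (fun v hv => ?_)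
    obtain ⟨u, _, hu⟩ := mem_biUnion.1 hv
    rw [mem_filter] at hu ⊢
    exact ⟨mem_univ _, by rw [hu.2]; simp⟩
  · intro a _ b _ hab
    rw [Function.onFun, Finset.disjoint_left]
    intro z hz hz'
    rw [mem_filter] at hz hz'
    rw [hz.2] at hz'
    exact hab (Option.some.inj hz'.2)

end Crest.TG58
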