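import Mathlib
import Crest.Agent.TG_OD

set_option autoImplicit false

namespace Crest.TG5H

open Finset

variable {J : Type*} [Fintype J] [DecidableEq J]

/-- weight of a set under the product measure with density `q`. -/
noncomputable def w (q : ℝ) (A : Finset J) : ℝ := q ^ A.card * (1 - q) ^ (Fintype.card J - A.card)

/-- product measure of a family. -/
noncomputable def mu (q : ℝ) (U : Finset (Finset J)) : ℝ := ∑ A ∈ U, w q A

theorem sum_prod_ite (x y : J → ℝ) :
    ∑ A : Finset J, ∏ e, (if e ∈ A then x e else y e) = ∏ e, (x e + y e) := by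
  rw [Finset.prod_add]
  rw [Finset.powerset_univ]
  refine Finset.sum_congr rfl fun A _ => ?_
  rw [Finset.prod_ite]
  congr 1
  · refine Finset.prod_congr ?_ fun _ _ => rfl
    ext e; simp
  · refine Finset.prod_congr ?_ fun _ _ => rfl
    ext e; simp

theorem w_eq (q : ℝ) (A : Finset J) : w q A = ∏ e, (if e ∈ A then q else 1 - q) := by
  rw [Finset.prod_ite, Finset.prod_const, Finset.prod_const]
  unfold w
  congr 2
  · congr 1; ext e; simp
  · have : (univ.filter fun e => e ∉ A) = Aᶜ := by ext e; simp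
    rw [this, Finset.card_compl]

theorem w_nonneg (q : ℝ) (h0 : 0 ≤ q) (h1 : q ≤ 1) (A : Finset J) : 0 ≤ w q A := by
  unfold w
  have : 0 ≤ 1 - q := by linarith
  positivity

theorem sum_w (q : ℝ) : ∑ A : Finset J, w q A = 1 := by
  simp_rw [w_eq]
  rw [sum_prod_ite]
  simp

theorem union_ind (a b : ℝ) (S : Finset J) :
    ∑ A : Finset J, ∑ R : Finset J, w a A * w b R * (if A ∪ R = S then 1 else 0)
      = w (a + b - a * b) S := by
  have hind : ∀ A R : Finset J, (if A ∪ R = S then (1:ℝ) else 0)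
      = ∏ e, (if e ∈ A ∨ e ∈ R then (if e ∈ S then 1 else 0) else (if e ∈ S then 0 else 1)) := by
    intro A R
    split_ifs with h
    · symm
      apply Finset.prod_eq_one
      intro e _
      have : (e ∈ A ∨ e ∈ R) ↔ e ∈ S := by rw [← h, Finset.mem_union]
      by_cases he : e ∈ S
      · simp [this.2 he, he]
      · have : ¬ (e ∈ A ∨ e ∈ R) := fun hh => he (this.1 hh)
        rw [if_neg this, if_neg he]
    · symm
      have : ∃ e, ¬ ((e ∈ A ∨ e ∈ R) ↔ e ∈ S) := by
        by_contra hcon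
        push Not at hcon
        apply h
        ext e
        rw [Finset.mem_union]
        exact hcon e
      obtain ⟨e, he⟩ := this
      apply Finset.prod_eq_zero (Finset.mem_univ e)
      by_cases h1 : e ∈ A ∨ e ∈ R
      · have h2 : e ∉ S := fun h2 => he ⟨fun _ => h2, fun _ => h1⟩
        rw [if_pos h1, if_neg h2]
      · have h2 : e ∈ S := by
          by_contra h2
          exact he ⟨fun h => absurd h h1, fun h => absurd h h2⟩
        rw [if_neg h1, if_pos h2]
  have h1 : ∀ A : Finset J, ∑ R : Finset J, w a A * w b R * (if A ∪ R = S then 1 else 0)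
      = ∏ e, (if e ∈ A then a * (if e ∈ S then 1 else 0)
          else (1 - a) * (b * (if e ∈ S then 1 else 0) + (1 - b) * (if e ∈ S then 0 else 1))) := by
    intro A
    have h2 : ∀ R : Finset J, w a A * w b R * (if A ∪ R = S then 1 else 0)
        = ∏ e, (if e ∈ R then
            ((if e ∈ A then a else 1 - a) * b * (if e ∈ S then 1 else 0))
            else ((if e ∈ A then a else 1 - a) * (1 - b) *
              (if e ∈ A then (if e ∈ S then 1 else 0) else (if e ∈ S then 0 else 1)))) := by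
      intro R
      rw [w_eq, w_eq, hind, ← Finset.prod_mul_distrib, ← Finset.prod_mul_distrib]
      refine Finset.prod_congr rfl fun e _ => ?_
      by_cases hR : e ∈ R <;> by_cases hA : e ∈ A <;> simp [hR, hA]
    rw [Finset.sum_congr rfl fun R _ => h2 R, sum_prod_ite]
    refine Finset.prod_congr rfl fun e _ => ?_
    by_cases hA : e ∈ A <;> by_cases hS : e ∈ S <;> simp [hA, hS] <;> ring
  rw [Finset.sum_congr rfl fun A _ => h1 A, sum_prod_ite, w_eq]
  refine Finset.prod_congr rfl fun e _ => ?_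
  by_cases hS : e ∈ S <;> simp [hS] <;> ring

theorem union_id (a b : ℝ) (f : Finset J → ℝ) :
    ∑ A : Finset J, ∑ R : Finset J, w a A * w b R * f (A ∪ R)
      = ∑ S : Finset J, w (a + b - a * b) S * f S := by
  have : ∀ S : Finset J, w (a + b - a * b) S * f S
      = ∑ A : Finset J, ∑ R : Finset J, w a A * w b R * (if A ∪ R = S then 1 else 0) * f S := by
    intro S
    rw [← union_ind, Finset.sum_mul]
    refine Finset.sum_congr rfl fun A _ => ?_
    rw [Finset.sum_mul]
  calc ∑ A : Finset J, ∑ R : Finset J, w a A * w b R * f (A ∪ R)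
      = ∑ A : Finset J, ∑ R : Finset J, ∑ S : Finset J,
          w a A * w b R * (if A ∪ R = S then 1 else 0) * f S := by
        refine Finset.sum_congr rfl fun A _ => Finset.sum_congr rfl fun R _ => ?_
        rw [Finset.sum_eq_single (A ∪ R)]
        · simp
        · intro S _ hS
          rw [if_neg (fun h => hS h.symm)]; ring
        · intro h; exact absurd (Finset.mem_univ _) h
    _ = ∑ A : Finset J, ∑ S : Finset J, ∑ R : Finset J,
          w a A * w b R * (if A ∪ R = S then 1 else 0) * f S :=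
        Finset.sum_congr rfl fun A _ => Finset.sum_comm
    _ = ∑ S : Finset J, ∑ A : Finset J, ∑ R : Finset J,
          w a A * w b R * (if A ∪ R = S then 1 else 0) * f S := Finset.sum_comm
    _ = ∑ S : Finset J, w (a + b - a * b) S * f S :=
        Finset.sum_congr rfl fun S _ => (this S).symm

theorem mu_eq_ite (q : ℝ) (U : Finset (Finset J)) :
    mu q U = ∑ A : Finset J, w q A * (if A ∈ U then 1 else 0) := by
  unfold mu
  rw [← Finset.sum_filter_add_sum_filter_not univ (fun A => A ∈ U)]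
  have h1 : ∑ A ∈ univ.filter (fun A => A ∈ U), w q A * (if A ∈ U then 1 else 0)
      = ∑ A ∈ U, w q A := by
    have : (univ.filter fun A => A ∈ U) = U := by ext; simp
    rw [this]
    refine Finset.sum_congr rfl fun A hA => ?_
    rw [if_pos hA, mul_one]
  have h2 : ∑ A ∈ univ.filter (fun A => ¬ A ∈ U), w q A * (if A ∈ U then (1:ℝ) else 0) = 0 := by
    refine Finset.sum_eq_zero fun A hA => ?_
    rw [if_neg (Finset.mem_filter.1 hA).2, mul_zero]
  rw [h1, h2, add_zero]

theorem mu_nonneg (q : ℝ) (h0 : 0 ≤ q) (h1 : q ≤ 1) (U : Finset (Finset J)) : 0 ≤ mu q U :=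
  Finset.sum_nonneg fun A _ => w_nonneg q h0 h1 A

theorem mu_le_one (q : ℝ) (h0 : 0 ≤ q) (h1 : q ≤ 1) (U : Finset (Finset J)) : mu q U ≤ 1 := by
  rw [← sum_w (J := J) q]
  exact Finset.sum_le_sum_of_subset_of_nonneg (Finset.subset_univ _)
    fun A _ _ => w_nonneg q h0 h1 A

theorem mu_union (a b : ℝ) (U : Finset (Finset J)) :
    mu (a + b - a * b) U =
      ∑ A : Finset J, w a A * mu b (univ.filter fun R => A ∪ R ∈ U) := by
  rw [mu_eq_ite, ← union_id a b (fun S => if S ∈ U then 1 else 0)]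
  refine Finset.sum_congr rfl fun A _ => ?_
  rw [mu_eq_ite, Finset.mul_sum]
  refine Finset.sum_congr rfl fun R _ => ?_
  simp only [Finset.mem_filter, Finset.mem_univ, true_and]
  ring

theorem sprinkle (U : Finset (Finset J)) (a b : ℝ) (ha0 : 0 ≤ a) (ha1 : a ≤ 1) (hb0 : 0 ≤ b)
    (hb1 : b ≤ 1) :
    mu a (univ.filter fun A => 1 / 2 ≤ mu b (univ.filter fun R => A ∪ R ∈ U))
      ≤ 2 * mu (a + b - a * b) U := by
  rw [mu_union a b U, Finset.mul_sum]
  unfold mu
  rw [Finset.sum_filter]
  refine Finset.sum_le_sum fun A _ => ?_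
  have h0 := w_nonneg a ha0 ha1 A
  have h1 : 0 ≤ ∑ R ∈ univ.filter (fun R => A ∪ R ∈ U), w b R :=
    Finset.sum_nonneg fun R _ => w_nonneg b hb0 hb1 R
  split_ifs with h
  · nlinarith
  · positivity

theorem sprinkle_up (U : Finset (Finset J)) (hU : ∀ A ∈ U, ∀ B, A ⊆ B → B ∈ U) (b : ℝ)
    (hb0 : 0 ≤ b) (hb1 : b ≤ 1) (A : Finset J)
    (hA : 1 / 2 ≤ mu b (univ.filter fun R => A ∪ R ∈ U)) (B : Finset J) (hAB : A ⊆ B) :
    1 / 2 ≤ mu b (univ.filter fun R => B ∪ R ∈ U) := by
  refine le_trans hA ?_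
  refine Finset.sum_le_sum_of_subset_of_nonneg ?_ fun R _ _ => w_nonneg b hb0 hb1 R
  intro R hR
  simp only [Finset.mem_filter, Finset.mem_univ, true_and] at hR ⊢
  exact hU _ hR _ (Finset.union_subset_union hAB (Finset.Subset.refl _))

theorem mu_mono (U : Finset (Finset J)) (hU : ∀ A ∈ U, ∀ B, A ⊆ B → B ∈ U) (q p : ℝ)
    (hq : 0 ≤ q) (hqp : q ≤ p) (hp : p ≤ 1) : mu q U ≤ mu p U := by
  rcases eq_or_lt_of_le (hqp.trans hp) with h1 | h1
  · have : p = q := le_antisymm (by rw [h1]; exact hp) hqp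
    rw [this]
  set b : ℝ := (p - q) / (1 - q) with hb
  have h1q : 0 < 1 - q := by linarith
  have hb0 : 0 ≤ b := div_nonneg (by linarith) h1q.le
  have hb1 : b ≤ 1 := (div_le_one h1q).2 (by linarith)
  have hpe : p = q + b - q * b := by
    have : b * (1 - q) = p - q := by rw [hb]; field_simp
    linarith
  rw [hpe, mu_union q b U]
  have : mu q U = ∑ A ∈ U, w q A * mu b (univ.filter fun R => A ∪ R ∈ U) := by
    unfold mu
    refine Finset.sum_congr rfl fun A hA => ?_
    have h2 : (univ.filter fun R => A ∪ R ∈ U) = univ := by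
      ext R
      simp only [Finset.mem_filter, Finset.mem_univ, true_and, iff_true]
      exact hU A hA _ Finset.subset_union_left
    rw [h2, sum_w, mul_one]
  rw [this]
  exact Finset.sum_le_sum_of_subset_of_nonneg (Finset.subset_univ _)
    fun A _ _ => mul_nonneg (w_nonneg q hq (hqp.trans hp) A) (mu_nonneg b hb0 hb1 _)

theorem one_sub_mu_union (U : Finset (Finset J)) (hU : ∀ A ∈ U, ∀ B, A ⊆ B → B ∈ U) (a b : ℝ)
    (ha0 : 0 ≤ a) (ha1 : a ≤ 1) (hb0 : 0 ≤ b) (hb1 : b ≤ 1) :
    1 - mu (a + b - a * b) U ≤ (1 - mu a U) * (1 - mu b U) := by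
  -- complement sums
  have hc : ∀ q : ℝ, 1 - mu q U = ∑ A : Finset J, w q A * (if A ∈ U then 0 else 1) := by
    intro q
    have hs : ∑ A : Finset J, w q A * (if A ∈ U then 0 else 1)
        + ∑ A : Finset J, w q A * (if A ∈ U then 1 else 0) = ∑ A : Finset J, w q A := by
      rw [← Finset.sum_add_distrib]
      refine Finset.sum_congr rfl fun A _ => ?_
      split_ifs <;> simp
    rw [sum_w] at hs
    rw [mu_eq_ite]
    linarith
  rw [hc a, hc b, hc (a + b - a * b), ← union_id a b (fun S => if S ∈ U then 0 else 1),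
    Finset.sum_mul_sum]
  refine Finset.sum_le_sum fun A _ => Finset.sum_le_sum fun R _ => ?_
  have h1 := w_nonneg a ha0 ha1 A
  have h2 := w_nonneg b hb0 hb1 R
  by_cases hA : A ∈ U
  · have : A ∪ R ∈ U := hU A hA _ Finset.subset_union_left
    simp [hA, this]
  · by_cases hR : R ∈ U
    · have : A ∪ R ∈ U := hU R hR _ Finset.subset_union_right
      simp [hR, this]
    · by_cases hAR : A ∪ R ∈ U
      · simp only [hAR, if_true, mul_zero, hA, hR, if_false, mul_one]
        exact mul_nonneg h1 h2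
      · simp [hA, hR, hAR]

theorem amplify (U : Finset (Finset J)) (hU : ∀ A ∈ U, ∀ B, A ⊆ B → B ∈ U) (x : ℝ)
    (hx0 : 0 ≤ x) (hx1 : x ≤ 1) (M : ℕ) :
    1 - mu (1 - (1 - x) ^ M) U ≤ (1 - mu x U) ^ M := by
  induction M with
  | zero => simpa using mu_nonneg (J := J) 0 le_rfl zero_le_one U
  | succ M ih =>
    have h1 : 0 ≤ 1 - x := by linarith
    have h2 : (1 - x) ^ M ≤ 1 := pow_le_one₀ h1 (by linarith)
    have h3 : 0 ≤ (1 - x) ^ M := pow_nonneg h1 M
    have h := one_sub_mu_union U hU (1 - (1 - x) ^ M) x (by linarith) (by linarith) hx0 hx1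
    have he : (1 - (1 - x) ^ M) + x - (1 - (1 - x) ^ M) * x = 1 - (1 - x) ^ (M + 1) := by ring
    rw [he] at h
    refine h.trans ?_
    rw [pow_succ]
    exact mul_le_mul_of_nonneg_right ih (by linarith [mu_le_one x hx0 hx1 U])

theorem amplify_min (U : Finset (Finset J)) (hU : ∀ A ∈ U, ∀ B, A ⊆ B → B ∈ U) (x : ℝ)
    (hx0 : 0 ≤ x) (M : ℕ) (hM : (M : ℝ) * x ≤ 1) (hM1 : 1 ≤ M) :
    min (1 / 2) (M * mu x U / 2) ≤ mu (M * x) U := by
  have hM1' : (1:ℝ) ≤ M := by exact_mod_cast hM1
  have hx1 : x ≤ 1 := by nlinarith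
  have h1 : 0 ≤ 1 - x := by linarith
  have h2 : (1 - x) ^ M ≤ 1 := pow_le_one₀ h1 (by linarith)
  have hbern : 1 - (1 - x) ^ M ≤ M * x := by
    have := one_add_mul_le_pow (show (-2:ℝ) ≤ -x by linarith) M
    have h3 : (1 + -x) ^ M = (1 - x) ^ M := by rw [← sub_eq_add_neg]
    rw [h3] at this
    linarith
  have hmono := mu_mono U hU (1 - (1 - x) ^ M) (M * x) (by linarith) hbern hM
  refine le_trans ?_ hmono
  have ha := amplify U hU x hx0 hx1 M
  set y := mu x U with hy
  have hy0 : 0 ≤ y := mu_nonneg x hx0 hx1 U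
  have hy1 : y ≤ 1 := mu_le_one x hx0 hx1 U
  have hexp : (1 - y) ^ M ≤ Real.exp (-(M * y)) := by
    have h4 : 1 - y ≤ Real.exp (-y) := by linarith [Real.add_one_le_exp (-y)]
    calc (1 - y) ^ M ≤ (Real.exp (-y)) ^ M := pow_le_pow_left₀ (by linarith) h4 M
      _ = Real.exp (-(M * y)) := by rw [← Real.exp_nat_mul]; ring_nf
  have hkey : Real.exp (-(M * y)) ≤ 1 - min (1 / 2) (M * y / 2) := by
    set z := (M:ℝ) * y with hz
    have hz0 : 0 ≤ z := by positivity
    have hinv : Real.exp (-z) = 1 / Real.exp z := by rw [Real.exp_neg, one_div]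
    have he : 1 + z ≤ Real.exp z := by linarith [Real.add_one_le_exp z]
    have hle : Real.exp (-z) ≤ 1 / (1 + z) := by
      rw [hinv]
      exact one_div_le_one_div_of_le (by linarith) he
    rcases le_total z 1 with hz1 | hz1
    · have : min (1 / 2) (z / 2) = z / 2 := min_eq_right (by linarith)
      rw [this]
      refine hle.trans ?_
      rw [div_le_iff₀ (by linarith)]
      nlinarith
    · have : min (1 / 2) (z / 2) = 1 / 2 := min_eq_left (by linarith)
      rw [this]
      refine hle.trans ?_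
      rw [div_le_iff₀ (by linarith)]
      linarith
  linarith

end Crest.TG5H
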