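import Mathlib
import Crest.Agent.TG_OD
import Crest.Agent.TG5H_Dom

set_option autoImplicit false

namespace Crest.TG5H

open Finset

variable {J : Type*} [Fintype J] [DecidableEq J]

theorem pr_const (q : ℝ) (hq0 : 0 ≤ q) (X : Finset J) :
    Crest.TG.pr (fun _ => q) X = w (q / (1 + q)) X := by
  unfold Crest.TG.pr w
  rw [Finset.prod_const, Finset.prod_const, Finset.card_univ]
  have h1 : 0 < 1 + q := by linarith
  have h2 : 1 - q / (1 + q) = 1 / (1 + q) := by field_simp; ring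
  rw [h2, div_pow, div_pow, one_pow]
  have hc : X.card ≤ Fintype.card J := Finset.card_le_univ X
  have h3 : (1 + q) ^ Fintype.card J = (1 + q) ^ X.card * (1 + q) ^ (Fintype.card J - X.card) := by
    rw [← pow_add]; congr 1; omega
  rw [h3]
  have h4 : (1 + q) ^ X.card ≠ 0 := pow_ne_zero _ h1.ne'
  have h5 : (1 + q) ^ (Fintype.card J - X.card) ≠ 0 := pow_ne_zero _ h1.ne'
  field_simp

/-- odds vector of the thinning of `Y` with density `1/m`. -/
noncomputable def tv (m : ℕ) (Y : Finset J) : J → ℝ := fun i => if i ∈ Y then 1 / ((m:ℝ) - 1) else 0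

theorem tv_prod (m : ℕ) (Y S : Finset J) :
    ∏ i ∈ S, tv m Y i = if S ⊆ Y then (1 / ((m:ℝ) - 1)) ^ S.card else 0 := by
  split_ifs with h
  · rw [Finset.prod_congr rfl (g := fun _ => 1 / ((m:ℝ) - 1)) (fun i hi => by
      unfold tv; rw [if_pos (h hi)]), Finset.prod_const]
  · obtain ⟨i, hi, hiY⟩ := Finset.not_subset.1 h
    exact Finset.prod_eq_zero hi (by unfold tv; rw [if_neg hiY])

theorem pr_tv (m : ℕ) (hm : 2 ≤ m) (Y X : Finset J) :
    Crest.TG.pr (tv m Y) X =
      if X ⊆ Y then (1 / (m:ℝ)) ^ X.card * (1 - 1 / (m:ℝ)) ^ (Y.card - X.card) else 0 := by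
  unfold Crest.TG.pr
  rw [tv_prod]
  have hm' : (2:ℝ) ≤ m := by exact_mod_cast hm
  have hm1 : (0:ℝ) < m - 1 := by linarith
  have hm0 : (0:ℝ) < m := by linarith
  have hden : ∏ i, (1 + tv m Y i) = ((m:ℝ) / (m - 1)) ^ Y.card := by
    have : ∏ i, (1 + tv m Y i) = ∏ i, (if i ∈ Y then (m:ℝ) / (m - 1) else 1) := by
      refine Finset.prod_congr rfl fun i _ => ?_
      unfold tv
      split_ifs
      · field_simp; ring
      · ring
    rw [this, Finset.prod_ite, Finset.prod_const, Finset.prod_const_one, mul_one]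
    congr 2
    ext i; simp
  rw [hden]
  split_ifs with h
  · have hc : X.card ≤ Y.card := Finset.card_le_card h
    have h3 : ((m:ℝ) / (m - 1)) ^ Y.card
        = ((m:ℝ) / (m - 1)) ^ X.card * ((m:ℝ) / (m - 1)) ^ (Y.card - X.card) := by
      rw [← pow_add]; congr 1; omega
    rw [h3]
    have h4 : (1 - 1 / (m:ℝ)) = ((m:ℝ) / (m - 1))⁻¹ := by field_simp
    have h5 : (1 / (m:ℝ)) = (1 / ((m:ℝ) - 1)) * ((m:ℝ) / (m - 1))⁻¹ := by field_simp
    rw [h4, h5, inv_pow, mul_pow, inv_pow]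
    have h6 : ((m:ℝ) / (m - 1)) ^ X.card ≠ 0 := pow_ne_zero _ (by positivity)
    have h7 : ((m:ℝ) / (m - 1)) ^ (Y.card - X.card) ≠ 0 := pow_ne_zero _ (by positivity)
    field_simp
  · simp

theorem sum_pr_univ (t : J → ℝ) (ht : ∀ i, 0 ≤ t i) : ∑ X : Finset J, Crest.TG.pr t X = 1 := by
  have h := Crest.TG.sum_pr_powerset t (univ : Finset J)
  rw [Finset.powerset_univ] at h
  rw [h]
  exact div_self (Crest.TG.prod_pos_one_add t ht univ).ne'

theorem thin_dom {ι : Type*} (V : Finset ι) (Y : ι → Finset J) (n : ℕ) (hn : 0 < n)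
    (hV : V.card ≤ n) (m : ℕ) (hm : 2 ≤ m) (q : ℝ) (hq0 : 0 ≤ q) (hq1 : q ≤ 1)
    (hspread : ∀ S : Finset J, S.Nonempty →
      ((V.filter (fun v => S ⊆ Y v)).card : ℝ) * (1 / ((m:ℝ) - 1)) ^ S.card ≤ n * q ^ S.card)
    (U : Finset (Finset J)) (hU : ∀ A ∈ U, ∀ B, A ⊆ B → B ∈ U) :
    ∑ v ∈ V, ∑ A ∈ (Y v).powerset.filter (fun A => A ∈ U),
      (1 / (m:ℝ)) ^ A.card * (1 - 1 / (m:ℝ)) ^ ((Y v).card - A.card) ≤ n * mu q U := by
  classical
  have hn' : (0:ℝ) < n := by exact_mod_cast hn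
  have hm' : (2:ℝ) ≤ m := by exact_mod_cast hm
  have hm1 : (0:ℝ) < m - 1 := by linarith
  set D : Finset (Finset J) := univ.filter (fun A => A ∉ U) with hD
  have hDdown : ∀ R ∈ D, ∀ X ⊆ R, X ∈ D := by
    intro R hR X hX
    simp only [hD, Finset.mem_filter, Finset.mem_univ, true_and] at hR ⊢
    exact fun h => hR (hU X h R hX)
  set s : Finset (Option ι) := Finset.insertNone V with hs
  set wt : Option ι → ℝ := fun o => o.elim (1 - (V.card : ℝ) / n) (fun _ => 1 / n) with hwt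
  set t : Option ι → J → ℝ := fun o => o.elim (fun _ => 0) (fun v => tv m (Y v)) with ht
  have hsum : ∀ f : Option ι → ℝ, ∑ j ∈ s, f j = f none + ∑ v ∈ V, f (some v) := by
    intro f
    rw [hs, Finset.sum_insertNone]
  have hwt0 : ∀ j ∈ s, 0 ≤ wt j := by
    intro j _
    cases j with
    | none =>
      simp only [hwt, Option.elim_none]
      rw [sub_nonneg, div_le_one hn']
      exact_mod_cast hV
    | some v => simp only [hwt, Option.elim_some]; positivity
  have hwt1 : ∑ j ∈ s, wt j = 1 := by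
    rw [hsum]
    simp only [hwt, Option.elim_none, Option.elim_some, Finset.sum_const, nsmul_eq_mul]
    field_simp
    ring
  have ht0 : ∀ j ∈ s, ∀ i, 0 ≤ t j i := by
    intro j _ i
    cases j with
    | none => simp [ht]
    | some v =>
      simp only [ht, Option.elim_some, tv]
      split_ifs
      · positivity
      · exact le_rfl
  have hS : ∀ S : Finset J, ∑ j ∈ s, wt j * ∏ i ∈ S, t j i ≤ ∏ i ∈ S, (fun _ : J => q) i := by
    intro S
    rcases S.eq_empty_or_nonempty with hSe | hSn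
    · subst hSe
      simp only [Finset.prod_empty, mul_one]
      exact hwt1.le
    · rw [hsum]
      have h1 : ∏ i ∈ S, t none i = 0 := by
        obtain ⟨i, hi⟩ := hSn
        exact Finset.prod_eq_zero hi (by simp [ht])
      rw [h1, mul_zero, zero_add, Finset.prod_const]
      have h2 : ∑ v ∈ V, wt (some v) * ∏ i ∈ S, t (some v) i
          = (1 / n) * (((V.filter (fun v => S ⊆ Y v)).card : ℝ) * (1 / ((m:ℝ) - 1)) ^ S.card) := by
        have h3 : ∀ v ∈ V, wt (some v) * ∏ i ∈ S, t (some v) i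
            = (1 / n) * (if S ⊆ Y v then (1 / ((m:ℝ) - 1)) ^ S.card else 0) := by
          intro v _
          simp only [hwt, ht, Option.elim_some]
          rw [tv_prod]
        rw [Finset.sum_congr rfl h3, ← Finset.mul_sum, ← Finset.sum_filter, Finset.sum_const,
          nsmul_eq_mul]
      rw [h2]
      have h4 := hspread S hSn
      calc (1 / (n:ℝ)) * (((V.filter (fun v => S ⊆ Y v)).card : ℝ) * (1 / ((m:ℝ) - 1)) ^ S.card)
          ≤ (1 / (n:ℝ)) * (n * q ^ S.card) := mul_le_mul_of_nonneg_left h4 (by positivity)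
        _ = q ^ S.card := by field_simp
  have hmain := Crest.TG.od_dom D hDdown s wt hwt0 hwt1 t ht0 (fun _ => q) (fun _ => hq0) hS
  rw [hsum] at hmain
  -- complements
  have hcomp : ∀ u : J → ℝ, (∀ i, 0 ≤ u i) →
      ∑ X ∈ D, Crest.TG.pr u X = 1 - ∑ X ∈ U, Crest.TG.pr u X := by
    intro u hu
    have h5 : ∑ X ∈ U, Crest.TG.pr u X + ∑ X ∈ D, Crest.TG.pr u X = 1 := by
      rw [← sum_pr_univ u hu, ← Finset.sum_filter_add_sum_filter_not univ (fun A => A ∈ U)]
      congr 1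
      refine Finset.sum_congr ?_ fun _ _ => rfl
      ext A; simp
    linarith
  rw [hcomp _ (fun _ => hq0), hcomp (t none) (ht0 none (by simp [hs]))] at hmain
  have h6 : ∀ v ∈ V, wt (some v) * ∑ X ∈ D, Crest.TG.pr (t (some v)) X
      = 1 / n - (1 / n) * ∑ A ∈ (Y v).powerset.filter (fun A => A ∈ U),
        (1 / (m:ℝ)) ^ A.card * (1 - 1 / (m:ℝ)) ^ ((Y v).card - A.card) := by
    intro v hv
    rw [hcomp (t (some v)) (ht0 (some v) (by simp [hs, hv]))]
    simp only [hwt, Option.elim_some]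
    have h7 : ∑ X ∈ U, Crest.TG.pr (t (some v)) X
        = ∑ A ∈ (Y v).powerset.filter (fun A => A ∈ U),
        (1 / (m:ℝ)) ^ A.card * (1 - 1 / (m:ℝ)) ^ ((Y v).card - A.card) := by
      have h8 : ∀ X ∈ U, Crest.TG.pr (t (some v)) X =
          if X ⊆ Y v then (1 / (m:ℝ)) ^ X.card * (1 - 1 / (m:ℝ)) ^ ((Y v).card - X.card) else 0 := by
        intro X _
        simp only [ht, Option.elim_some]
        exact pr_tv m hm (Y v) X
      rw [Finset.sum_congr rfl h8, ← Finset.sum_filter]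
      refine Finset.sum_congr ?_ fun _ _ => rfl
      ext A
      simp only [Finset.mem_filter, Finset.mem_powerset]
      tauto
    rw [h7]
    ring
  rw [Finset.sum_congr rfl h6, Finset.sum_sub_distrib, ← Finset.mul_sum, Finset.sum_const,
    nsmul_eq_mul] at hmain
  have h9 : 0 ≤ ∑ X ∈ U, Crest.TG.pr (t none) X :=
    Finset.sum_nonneg fun X _ => Crest.TG.pr_nonneg _ (ht0 none (by simp [hs])) X
  have h10 : 0 ≤ wt none := hwt0 none (by simp [hs])
  have h11 : wt none = 1 - (V.card : ℝ) / n := by simp [hwt]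
  have h12 : ∑ X ∈ U, Crest.TG.pr (fun _ => q) X = mu (q / (1 + q)) U := by
    unfold mu
    exact Finset.sum_congr rfl fun X _ => pr_const q hq0 X
  have h13 : mu (q / (1 + q)) U ≤ mu q U := by
    apply mu_mono U hU _ _ (by positivity) _ hq1
    rw [div_le_iff₀ (by linarith)]
    nlinarith
  rw [h12] at hmain
  set Z := ∑ v ∈ V, ∑ A ∈ (Y v).powerset.filter (fun A => A ∈ U),
      (1 / (m:ℝ)) ^ A.card * (1 - 1 / (m:ℝ)) ^ ((Y v).card - A.card) with hZ
  have h14 : wt none * (1 - ∑ X ∈ U, Crest.TG.pr (t none) X) ≤ wt none := by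
    nlinarith
  have h15 : (1 / (n:ℝ)) * Z ≤ mu q U := by
    have : (V.card : ℝ) * (1 / n) = (V.card : ℝ) / n := by ring
    rw [this] at hmain
    rw [h11] at h14 hmain
    linarith
  calc Z = n * ((1 / (n:ℝ)) * Z) := by field_simp
    _ ≤ n * mu q U := mul_le_mul_of_nonneg_left h15 hn'.le

end Crest.TG5H
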