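import Mathlib
import Crest.Agent.TG5H_Dom
import Crest.Agent.TG5H_Thin

set_option autoImplicit false

namespace Crest.TG5H

open Finset

variable {J : Type*} [Fintype J] [DecidableEq J]

/-- T5e: expected number of thinned types whose conditional probability of `U` is `≥ 1/2`. -/
theorem half_dom {ι : Type*} (V : Finset ι) (Y : ι → Finset J) (n : ℕ) (hn : 0 < n)
    (hV : V.card ≤ n) (m : ℕ) (hm : 2 ≤ m) (q : ℝ) (hq0 : 0 ≤ q) (hq1 : q ≤ 1)
    (hspread : ∀ S : Finset J, S.Nonempty →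
      ((V.filter (fun v => S ⊆ Y v)).card : ℝ) * (1 / ((m:ℝ) - 1)) ^ S.card ≤ n * q ^ S.card)
    (b : ℝ) (hb0 : 0 ≤ b) (hb1 : b ≤ 1)
    (U : Finset (Finset J)) (hU : ∀ A ∈ U, ∀ B, A ⊆ B → B ∈ U) :
    ∑ v ∈ V, ∑ A ∈ (Y v).powerset.filter
        (fun A => 1 / 2 ≤ mu b (univ.filter fun R => A ∪ R ∈ U)),
      (1 / (m:ℝ)) ^ A.card * (1 - 1 / (m:ℝ)) ^ ((Y v).card - A.card)
      ≤ 2 * n * mu (q + b - q * b) U := by
  classical
  set U' : Finset (Finset J) :=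
    univ.filter (fun A => 1 / 2 ≤ mu b (univ.filter fun R => A ∪ R ∈ U)) with hU'
  have hup : ∀ A ∈ U', ∀ B, A ⊆ B → B ∈ U' := by
    intro A hA B hAB
    simp only [hU', Finset.mem_filter, Finset.mem_univ, true_and] at hA ⊢
    exact sprinkle_up U hU b hb0 hb1 A hA B hAB
  have h1 := thin_dom V Y n hn hV m hm q hq0 hq1 hspread U' hup
  have h2 := sprinkle U q b hq0 hq1 hb0 hb1
  have h3 : ∑ v ∈ V, ∑ A ∈ (Y v).powerset.filter
        (fun A => 1 / 2 ≤ mu b (univ.filter fun R => A ∪ R ∈ U)),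
      (1 / (m:ℝ)) ^ A.card * (1 - 1 / (m:ℝ)) ^ ((Y v).card - A.card)
      = ∑ v ∈ V, ∑ A ∈ (Y v).powerset.filter (fun A => A ∈ U'),
      (1 / (m:ℝ)) ^ A.card * (1 - 1 / (m:ℝ)) ^ ((Y v).card - A.card) := by
    refine Finset.sum_congr rfl fun v _ => Finset.sum_congr ?_ fun _ _ => rfl
    ext A
    simp [hU']
  rw [h3]
  have hn' : (0:ℝ) ≤ n := Nat.cast_nonneg n
  calc _ ≤ n * mu q U' := h1
    _ ≤ n * (2 * mu (q + b - q * b) U) := mul_le_mul_of_nonneg_left h2 hn'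
    _ = 2 * n * mu (q + b - q * b) U := by ring

end Crest.TG5H
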