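import Crest.Agent.TG6c_Cut
import Crest.Agent.TG55_AD

set_option autoImplicit false

namespace Crest.TG61
open Finset

theorem num (n : ℕ) (hn : 10 ^ 18 ≤ n) (a b : ℕ) (q : ℝ) (D : ℕ) (hq : 0 < q)
    (hqD : (n : ℝ) ^ (-((1 : ℝ) / 100)) ≤ q ^ D) (ha : 64 * a ≤ n) (hb : n ≤ 2 * b) (hbn : b ≤ n) :
    ((a : ℝ) + b) * Real.exp (-((b : ℝ) / (8 * (2 / q ^ (2 * D))))) ≤ 1 / (2 * ((641 : ℕ) : ℝ)) := by
  have hnR : (10 : ℝ) ^ 18 ≤ n := by exact_mod_cast hn
  have hn1 : (1 : ℝ) ≤ n := le_trans (by norm_num) hnR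
  have hn0 : (0 : ℝ) < n := by linarith
  set s : ℝ := Real.sqrt n with hs
  have hs2 : s ^ 2 = n := Real.sq_sqrt hn0.le
  have hs9 : (10 : ℝ) ^ 9 ≤ s := by
    rw [hs]
    apply Real.le_sqrt_of_sq_le
    norm_num at hnR ⊢
    exact hnR
  have hs0 : 0 < s := lt_of_lt_of_le (by norm_num) hs9
  have hx0 : 0 < (n : ℝ) ^ (-((1 : ℝ) / 100)) := Real.rpow_pos_of_pos hn0 _
  have h1 : (n : ℝ) ^ (-((1 : ℝ) / 50)) ≤ q ^ (2 * D) := by
    have e : (n : ℝ) ^ (-((1 : ℝ) / 50)) = ((n : ℝ) ^ (-((1 : ℝ) / 100))) ^ 2 := by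
      rw [← Real.rpow_natCast, ← Real.rpow_mul hn0.le]
      norm_num
    have e2 : q ^ (2 * D) = (q ^ D) ^ 2 := by rw [← pow_mul, mul_comm]
    rw [e, e2]
    exact pow_le_pow_left₀ hx0.le hqD 2
  have h2 : s ≤ (n : ℝ) * (n : ℝ) ^ (-((1 : ℝ) / 50)) := by
    have e : (n : ℝ) * (n : ℝ) ^ (-((1 : ℝ) / 50)) = (n : ℝ) ^ ((49 : ℝ) / 50) := by
      nth_rewrite 1 [← Real.rpow_one (n : ℝ)]
      rw [← Real.rpow_add hn0]
      norm_num
    rw [e, hs, Real.sqrt_eq_rpow]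
    exact Real.rpow_le_rpow_of_exponent_le hn1 (by norm_num)
  have hbR : (n : ℝ) ≤ 2 * b := by exact_mod_cast hb
  have hbnR : (b : ℝ) ≤ n := by exact_mod_cast hbn
  have haR : 64 * (a : ℝ) ≤ n := by exact_mod_cast ha
  have hqq : 0 < q ^ (2 * D) := pow_pos hq _
  have h3 : s / 32 ≤ (b : ℝ) / (8 * (2 / q ^ (2 * D))) := by
    have e : (b : ℝ) / (8 * (2 / q ^ (2 * D))) = b * q ^ (2 * D) / 16 := by
      field_simp
      ring
    rw [e]
    have h4 : (n : ℝ) * (n : ℝ) ^ (-((1 : ℝ) / 50)) ≤ 2 * b * q ^ (2 * D) :=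
      mul_le_mul hbR h1 (Real.rpow_pos_of_pos hn0 _).le (by positivity)
    linarith
  have h5 : Real.exp (-((b : ℝ) / (8 * (2 / q ^ (2 * D))))) ≤ Real.exp (-(s / 32)) :=
    Real.exp_le_exp.mpr (by linarith)
  have h6 : (s / 32) ^ 3 / 6 ≤ Real.exp (s / 32) := by
    have := Real.pow_div_factorial_le_exp (s / 32) (by positivity) 3
    norm_num [Nat.factorial] at this
    linarith
  have h7 : Real.exp (-(s / 32)) ≤ 196608 / s ^ 3 := by
    rw [Real.exp_neg, inv_le_comm₀ (Real.exp_pos _) (by positivity)]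
    refine le_trans (le_of_eq ?_) h6
    field_simp
    norm_num
  have h8 : (a : ℝ) + b ≤ 2 * s ^ 2 := by rw [hs2]; linarith
  have h9 : ((a : ℝ) + b) * Real.exp (-((b : ℝ) / (8 * (2 / q ^ (2 * D))))) ≤
      2 * s ^ 2 * (196608 / s ^ 3) :=
    mul_le_mul h8 (h5.trans h7) (Real.exp_pos _).le (by positivity)
  refine h9.trans ?_
  have e : 2 * s ^ 2 * (196608 / s ^ 3) = 393216 / s := by
    field_simp
    norm_num
  rw [e, div_le_div_iff₀ hs0 (by norm_num)]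
  norm_num at hs9 ⊢
  linarith

theorem ad : Crest.TG55.AD := by
  refine ⟨641, 4, 10 ^ 18, by norm_num, by norm_num, ?_⟩
  intro n hn J V _ _ _ _ Y q D b hq hq4 hJ hD hqD hV hS hnb hbn Q _ hQ
  have hq4' : 4 * q < 1 := hq4
  have hnpos : 0 < n := lt_of_lt_of_le (by norm_num) hn
  have hbpos : 0 < b := by omega
  have hbR : (0 : ℝ) < b := by exact_mod_cast hbpos
  have hnbR : (n : ℝ) ≤ 2 * b := by exact_mod_cast hnb
  have h1q : 0 < 1 - q := by linarith
  set p : ℝ := 3 * q / (1 - q) with hp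
  have hp0 : 0 ≤ p := by positivity
  have hp1 : p < 1 := by
    rw [hp, div_lt_one h1q]; linarith
  have hpq : p + q - p * q = 4 * q := by
    rw [hp]; field_simp; ring
  have hVR : (Fintype.card V : ℝ) ≤ (b : ℝ) / 16 := by
    have : 64 * (Fintype.card V : ℝ) ≤ n := by exact_mod_cast hV
    linarith
  have hodds : (1 / ((641 : ℕ) : ℝ)) / (1 - 1 / ((641 : ℕ) : ℝ)) * (640 * q) ≤ p / (1 - p) := by
    have e1 : (1 / ((641 : ℕ) : ℝ)) / (1 - 1 / ((641 : ℕ) : ℝ)) * (640 * q) = q := by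
      push_cast
      ring
    rw [e1, le_div_iff₀ (by linarith)]
    have : q ≤ p := by
      rw [hp, le_div_iff₀ h1q]
      nlinarith
    nlinarith
  have hSS : ∀ S : Finset J, S.Nonempty →
      ((univ.filter (fun v => S ⊆ Y v)).card : ℝ) ≤ (b : ℝ) / 16 * (640 * q) ^ S.card := by
    intro S hSne
    refine (hS S hSne).trans ?_
    have hc : 1 ≤ S.card := hSne.card_pos
    rw [mul_pow]
    have h640 : (640 : ℝ) ≤ 640 ^ S.card := by
      calc (640 : ℝ) = 640 ^ 1 := (pow_one _).symm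
        _ ≤ 640 ^ S.card := pow_le_pow_right₀ (by norm_num) hc
    have hqS : 0 < q ^ S.card := pow_pos hq _
    calc 20 * (n : ℝ) * q ^ S.card ≤ 20 * (2 * b) * q ^ S.card := by
          apply mul_le_mul_of_nonneg_right _ hqS.le
          linarith
      _ = (b : ℝ) / 16 * (640 * q ^ S.card) := by ring
      _ ≤ (b : ℝ) / 16 * (640 ^ S.card * q ^ S.card) := by
          apply mul_le_mul_of_nonneg_left _ (by positivity)
          exact mul_le_mul_of_nonneg_right h640 hqS.le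
  have key := Crest.TG6c.gamma_core (J := J) (V := V) (W := Fin b) Y (1 / ((641 : ℕ) : ℝ)) (640 * q)
    p q ((b : ℝ) / 16) (2 / q ^ (2 * D)) D
    (by positivity) (by norm_num) (by positivity) hp0 hp1 (by positivity) hq (by linarith)
    hodds hVR hD hSS (by rw [Fintype.card_fin]; linarith) (by positivity)
    (by rw [div_mul_cancel₀ _ (pow_pos hq _).ne']) Q hQ
  rw [hpq, Fintype.card_fin] at key
  have hnum := num n hn (Fintype.card V) b q D hq hqD hV hnb hbn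
  have h1 : 1 - 1 / (2 * ((641 : ℕ) : ℝ)) ≤
      ∑ τ : V → Finset J, ∑ ρ : Fin b → Finset J,
        (∏ v, Crest.TG6c.lam (1 / ((641 : ℕ) : ℝ)) Y v (τ v)) * (∏ w, Crest.TG6c.mu (4 * q) (ρ w)) *
        (if Q τ ρ then 1 else 0) := by linarith
  exact h1

end Crest.TG61
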