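import Crest.Agent.TG_Chern
import Crest.Agent.KK_Push
import Crest.Prelude.Def_RandomGraph

/-! T5h: the G event of the depth-one step of S0073. -/

set_option autoImplicit false

namespace Crest.TG62
open Finset Crest.CombinatoricsR.RandomGraph

variable {X L J : Type} [Fintype X] [DecidableEq X] [Fintype L] [DecidableEq L]
  [Fintype J] [DecidableEq J]

/-- marginal law of the coordinates `s j` -/
theorem marg (w : L → ℝ) (hw1 : ∑ l, w l = 1) (s : J → X) (hs : Function.Injective s)
    (f : (J → L) → ℝ) :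
    ∑ ω : X → L, KK.wt w ω * f (fun j => ω (s j)) = ∑ r : J → L, KK.wt w r * f r := by
  classical
  have key : ∀ r : J → L, ∑ ω : X → L, KK.wt w ω * (if (fun j => ω (s j)) = r then (1:ℝ) else 0) =
      KK.wt w r := by
    intro r
    have h1 : ∀ ω : X → L, KK.wt w ω * (if (fun j => ω (s j)) = r then (1:ℝ) else 0) =
        ∏ x, (w (ω x) * ∏ j ∈ univ.filter (fun j => s j = x), (if ω x = r j then (1:ℝ) else 0)) := by
      intro ω
      rw [prod_mul_distrib]
      unfold KK.wt
      congr 1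
      have h2 : (∏ x, ∏ j ∈ univ.filter (fun j => s j = x), (if ω x = r j then (1:ℝ) else 0)) =
          ∏ j : J, (if ω (s j) = r j then (1:ℝ) else 0) := by
        rw [← Finset.prod_fiberwise_of_maps_to (s := (univ : Finset J)) (t := (univ : Finset X))
          (g := s) (fun j _ => mem_univ _)]
        refine prod_congr rfl fun x _ => prod_congr rfl fun j hj => ?_
        rw [(mem_filter.1 hj).2]
      rw [h2]
      by_cases h : (fun j => ω (s j)) = r
      · rw [if_pos h, prod_congr rfl fun j _ => if_pos (congrFun h j), prod_const_one]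
      · rw [if_neg h]
        obtain ⟨j, hj⟩ := Function.ne_iff.1 h
        exact (prod_eq_zero (mem_univ j) (if_neg hj)).symm
    rw [sum_congr rfl fun ω _ => h1 ω]
    have h3 : ∑ ω : X → L, ∏ x, (w (ω x) * ∏ j ∈ univ.filter (fun j => s j = x),
        (if ω x = r j then (1:ℝ) else 0)) =
        ∏ x, ∑ l, (w l * ∏ j ∈ univ.filter (fun j => s j = x), (if l = r j then (1:ℝ) else 0)) := by
      rw [Finset.prod_univ_sum, Fintype.piFinset_univ]
    rw [h3]
    unfold KK.wt
    have h4 : ∀ x, (∑ l, (w l * ∏ j ∈ univ.filter (fun j => s j = x), (if l = r j then (1:ℝ) else 0)))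
        = ∏ j ∈ univ.filter (fun j => s j = x), w (r j) := by
      intro x
      by_cases hx : ∃ j, s j = x
      · obtain ⟨j, rfl⟩ := hx
        have h5 : univ.filter (fun j' => s j' = s j) = {j} := by
          ext j'
          simp only [mem_filter, mem_univ, true_and, mem_singleton]
          exact hs.eq_iff
        simp only [h5, prod_singleton]
        simp
      · have h5 : univ.filter (fun j' => s j' = x) = ∅ := by
          rw [filter_eq_empty_iff]
          intro j _ h
          exact hx ⟨j, h⟩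
        simp only [h5, prod_empty, mul_one]
        exact hw1
    rw [prod_congr rfl fun x _ => h4 x]
    rw [Finset.prod_fiberwise_of_maps_to (s := (univ : Finset J)) (t := (univ : Finset X))
          (g := s) (fun j _ => mem_univ _)]
  calc ∑ ω : X → L, KK.wt w ω * f (fun j => ω (s j))
      = ∑ ω : X → L, ∑ r : J → L, KK.wt w ω * (if (fun j => ω (s j)) = r then (1:ℝ) else 0) * f r := by
        refine sum_congr rfl fun ω _ => ?_
        rw [sum_eq_single (fun j => ω (s j))]
        · rw [if_pos rfl, mul_one]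
        · intro r _ hr
          rw [if_neg (Ne.symm hr), mul_zero, zero_mul]
        · intro h; exact absurd (mem_univ _) h
    _ = ∑ r : J → L, ∑ ω : X → L, KK.wt w ω * (if (fun j => ω (s j)) = r then (1:ℝ) else 0) * f r :=
        sum_comm
    _ = _ := by
        refine sum_congr rfl fun r _ => ?_
        rw [← sum_mul, key r]

/-- subsets as Boolean functions -/
def boolEquiv (J : Type) [Fintype J] [DecidableEq J] : Finset J ≃ (J → Bool) where
  toFun R := fun j => decide (j ∈ R)
  invFun r := univ.filter (fun j => r j = true)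
  left_inv R := by ext j; simp
  right_inv r := by funext j; simp

theorem wt_bool (P : ℝ) (R : Finset J) :
    KK.wt (fun b : Bool => if b then P else 1 - P) (boolEquiv J R) =
      P ^ R.card * (1 - P) ^ (Fintype.card J - R.card) := by
  unfold KK.wt boolEquiv
  simp only [Equiv.coe_fn_mk, decide_eq_true_eq]
  rw [prod_ite, prod_const, prod_const]
  congr 2
  · congr 1; ext j; simp
  · rw [← card_compl]; congr 1; ext j; simp

theorem sum_bool (P : ℝ) (f : Finset J → ℝ) :
    ∑ r : J → Bool, KK.wt (fun b : Bool => if b then P else 1 - P) r *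
        f (univ.filter (fun j => r j = true)) =
      ∑ R : Finset J, P ^ R.card * (1 - P) ^ (Fintype.card J - R.card) * f R := by
  rw [← Equiv.sum_comp (boolEquiv J)]
  refine sum_congr rfl fun R _ => ?_
  rw [wt_bool]
  congr 2
  exact (boolEquiv J).left_inv R

theorem cone_mass (P : ℝ) (A : Finset J) :
    ∑ R : Finset J, P ^ R.card * (1 - P) ^ (Fintype.card J - R.card) * (if A ⊆ R then (1:ℝ) else 0)
      = P ^ A.card := by
  classical
  have h := Finset.prod_add (fun _ : J => P) (fun j => if j ∈ A then (0:ℝ) else 1 - P) univ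
  have h1 : ∏ j : J, (P + (if j ∈ A then (0:ℝ) else 1 - P)) = P ^ A.card := by
    have h2 : ∀ j : J, (P + (if j ∈ A then (0:ℝ) else 1 - P)) = if j ∈ A then P else 1 := by
      intro j; split_ifs <;> ring
    rw [prod_congr rfl fun j _ => h2 j, prod_ite, prod_const, prod_const_one, mul_one]
    congr 2; ext j; simp
  rw [h1] at h
  rw [h, Finset.powerset_univ]
  refine sum_congr rfl fun R _ => ?_
  rw [prod_const, mul_assoc]
  congr 1
  by_cases hA : A ⊆ R
  · rw [if_pos hA, mul_one]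
    have h3 : ∀ j ∈ univ \ R, (if j ∈ A then (0:ℝ) else 1 - P) = 1 - P := by
      intro j hj
      rw [if_neg]
      intro hjA
      exact (mem_sdiff.1 hj).2 (hA hjA)
    rw [prod_congr rfl h3, prod_const, ← Finset.compl_eq_univ_sdiff, card_compl]
  · rw [if_neg hA, mul_zero]
    obtain ⟨j, hjA, hjR⟩ := not_subset.1 hA
    rw [eq_comm]
    refine Finset.prod_eq_zero (M₀ := ℝ) (mem_sdiff.2 ⟨mem_univ j, hjR⟩) ?_
    rw [if_pos hjA]

/-- the mass of the up-set generated by `GG` -/
noncomputable def upmass (P : ℝ) (GG : Finset (Finset J)) : ℝ :=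
  ∑ R : Finset J, P ^ R.card * (1 - P) ^ (Fintype.card J - R.card) *
    (if ∃ A ∈ GG, A ⊆ R then (1:ℝ) else 0)

theorem le_upmass (P : ℝ) (h0 : 0 ≤ P) (h1 : P ≤ 1) (GG : Finset (Finset J)) (A : Finset J)
    (hA : A ∈ GG) : P ^ A.card ≤ upmass P GG := by
  rw [← cone_mass P A]
  unfold upmass
  refine sum_le_sum fun R _ => ?_
  apply mul_le_mul_of_nonneg_left _
    (mul_nonneg (pow_nonneg h0 _) (pow_nonneg (by linarith) _))
  split_ifs with h2 h3
  · exact le_rfl
  · exact absurd ⟨A, hA, h2⟩ h3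
  · exact zero_le_one
  · exact le_rfl

/-- number of codes -/
theorem card_families (D M : ℕ) :
    ((univ : Finset (Finset (Finset J))).filter (fun GG => GG.Nonempty ∧ GG.card ≤ M ∧
      ∀ A ∈ GG, A.card ≤ D)).card ≤ (Fintype.card J + 1) ^ (D * M) := by
  classical
  have hcode : ∀ A : Finset J, A.card ≤ D → ∃ c : Fin D → Option J,
      univ.filter (fun j : J => ∃ d, c d = some j) = A := by
    intro A hA
    let e := A.equivFin.symm
    refine ⟨fun d => if h : (d : ℕ) < A.card then some (e ⟨d, h⟩).1 else none, ?_⟩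
    ext j
    simp only [mem_filter, mem_univ, true_and]
    constructor
    · rintro ⟨d, hd⟩
      split_ifs at hd with h
      rw [Option.some.injEq] at hd
      rw [← hd]
      exact (e ⟨d, h⟩).2
    · intro hj
      refine ⟨⟨(A.equivFin ⟨j, hj⟩ : Fin A.card), lt_of_lt_of_le (A.equivFin ⟨j, hj⟩).2 hA⟩, ?_⟩
      rw [dif_pos (A.equivFin ⟨j, hj⟩).2]
      simp [e]
  have hsub : ((univ : Finset (Finset (Finset J))).filter (fun GG => GG.Nonempty ∧ GG.card ≤ M ∧
      ∀ A ∈ GG, A.card ≤ D)) ⊆ (univ : Finset (Fin M → Fin D → Option J)).image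
        (fun g => univ.image (fun i : Fin M => univ.filter (fun j : J => ∃ d, g i d = some j))) := by
    intro GG hGG
    rw [mem_filter] at hGG
    obtain ⟨-, ⟨A0, hA0⟩, hM, hD⟩ := hGG
    let e := GG.equivFin.symm
    let a : Fin M → Finset J := fun i => if h : (i : ℕ) < GG.card then (e ⟨i, h⟩).1 else A0
    have haG : ∀ i, a i ∈ GG := by
      intro i
      show (if h : (i : ℕ) < GG.card then (e ⟨i, h⟩).1 else A0) ∈ GG
      split_ifs with h
      · exact (e ⟨i, h⟩).2
      · exact hA0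
    have hsurj : ∀ A ∈ GG, ∃ i, a i = A := by
      intro A hA
      refine ⟨⟨(GG.equivFin ⟨A, hA⟩ : Fin GG.card), lt_of_lt_of_le (GG.equivFin ⟨A, hA⟩).2 hM⟩, ?_⟩
      show (if h : ((GG.equivFin ⟨A, hA⟩ : Fin GG.card) : ℕ) < GG.card then (e ⟨_, h⟩).1 else A0) = A
      rw [dif_pos (GG.equivFin ⟨A, hA⟩).2]
      simp [e]
    choose c hc using fun i => hcode (a i) (hD _ (haG i))
    rw [mem_image]
    refine ⟨c, mem_univ _, ?_⟩
    ext A
    rw [mem_image]
    constructor
    · rintro ⟨i, -, hi⟩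
      rw [hc i] at hi
      rw [← hi]; exact haG i
    · intro hA
      obtain ⟨i, hi⟩ := hsurj A hA
      exact ⟨i, mem_univ _, by rw [hc i, hi]⟩
  refine (card_le_card hsub).trans (card_image_le.trans ?_)
  rw [card_univ, Fintype.card_fun, Fintype.card_fun, Fintype.card_option, Fintype.card_fin,
    Fintype.card_fin, ← pow_mul]

theorem graphOf_adj {n : ℕ} (ω : EdgeSlot n → Bool) (a b : Fin n) (h : ¬ (s(a, b)).IsDiag) :
    (graphOf ω).Adj a b ↔ ω ⟨s(a, b), h⟩ = true := by
  unfold graphOf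
  rw [SimpleGraph.fromEdgeSet_adj]
  constructor
  · rintro ⟨⟨h1, h2⟩, -⟩
    exact h2
  · intro h2
    exact ⟨⟨h, h2⟩, fun hab => h (by rw [hab]; exact rfl)⟩

open Classical in
/-- **G event** (T5h) -/
theorem g_event (n : ℕ) (ψ : J → Fin n) (hψ : Function.Injective ψ)
    (hJ : 4 * Fintype.card J ≤ n) (P : ℝ) (hP : 0 < P) (hP1 : P ≤ 1) (D M : ℕ)
    (hnum : ((Fintype.card J : ℝ) + 1) ^ (D * M) * Real.exp (-(3 / 32 * n * P ^ D)) ≤ 1 / 2) :
    1 / 2 ≤ gnpProb n P {G | ∀ GG : Finset (Finset J), GG.Nonempty → GG.card ≤ M →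
      (∀ A ∈ GG, A.card ≤ D) →
      3 / 8 * (n : ℝ) * upmass P GG ≤
        ((univ : Finset (Fin n)).filter (fun w => (∀ j, w ≠ ψ j) ∧
          ∃ A ∈ GG, ∀ j ∈ A, G.Adj w (ψ j))).card} := by
  classical
  set wb : Bool → ℝ := fun b : Bool => if b then P else 1 - P with hwb
  have hw : ∀ l, 0 ≤ wb l := by
    intro l; cases l
    · simp only [hwb]; norm_num; exact hP1
    · simp only [hwb]; norm_num; exact hP.le
  have hw1 : ∑ l, wb l = 1 := by
    rw [Fintype.sum_bool]; simp [hwb]
  set 𝒢 := (univ : Finset (Finset (Finset J))).filter (fun GG => GG.Nonempty ∧ GG.card ≤ M ∧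
      ∀ A ∈ GG, A.card ≤ D) with h𝒢
  set S : Finset (Fin n) := univ.filter (fun w => ∀ j, w ≠ ψ j) with hS
  have hScard : (3 / 4 : ℝ) * n ≤ (S.card : ℝ) := by
    have h1 : S = univ \ univ.image ψ := by
      ext w
      simp only [hS, mem_filter, mem_univ, true_and, mem_sdiff, mem_image, not_exists]
      exact ⟨fun h j hj => h j hj.symm, fun h j hj => h j hj.symm⟩
    have h2 : S.card = n - Fintype.card J := by
      rw [h1, card_sdiff_of_subset (subset_univ _), card_univ, Fintype.card_fin,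
        card_image_of_injective _ hψ, card_univ]
    have h3 : S.card + Fintype.card J = n := by omega
    have h4 : (S.card : ℝ) + Fintype.card J = n := by exact_mod_cast h3
    have h5 : (4 : ℝ) * Fintype.card J ≤ n := by exact_mod_cast hJ
    linarith
  -- the events
  let Ev : Finset (Finset J) → Fin n → (EdgeSlot n → Bool) → Prop := fun GG w ω =>
    ∃ A ∈ GG, ∀ j ∈ A, (graphOf ω).Adj w (ψ j)
  let B : Fin n → Finset (EdgeSlot n) := fun w => univ.filter (fun x => ∃ j, x.1 = s(w, ψ j))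
  have hBd : ∀ i ∈ S, ∀ j ∈ S, i ≠ j → Disjoint (B i) (B j) := by
    intro i hi j hj hij
    rw [Finset.disjoint_left]
    intro x hx hx'
    obtain ⟨a, ha⟩ := (mem_filter.1 hx).2
    obtain ⟨b, hb⟩ := (mem_filter.1 hx').2
    rw [ha, Sym2.eq_iff] at hb
    rcases hb with ⟨h1, _⟩ | ⟨h1, _⟩
    · exact hij h1
    · exact (mem_filter.1 hi).2 b h1
  have hnd : ∀ w ∈ S, ∀ j, ¬ (s(w, ψ j)).IsDiag := by
    intro w hw' j h
    exact (mem_filter.1 hw').2 j h
  have hdep : ∀ GG, ∀ w ∈ S, Crest.TG.Chern.DepOn (B w) (Ev GG w) := by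
    intro GG w hwS ω ω' h
    have h2 : ∀ j, (graphOf ω).Adj w (ψ j) ↔ (graphOf ω').Adj w (ψ j) := by
      intro j
      rw [graphOf_adj ω w (ψ j) (hnd w hwS j), graphOf_adj ω' w (ψ j) (hnd w hwS j)]
      rw [h ⟨s(w, ψ j), hnd w hwS j⟩ (mem_filter.2 ⟨mem_univ _, j, rfl⟩)]
    apply propext
    simp only [Ev, h2]
  have hmass : ∀ GG, ∀ w ∈ S, KK.Pr wb (Ev GG w) = upmass P GG := by
    intro GG w hwS
    have hinj : Function.Injective (fun j => (⟨s(w, ψ j), hnd w hwS j⟩ : EdgeSlot n)) := by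
      intro a b hab
      have h1 : s(w, ψ a) = s(w, ψ b) := congrArg Subtype.val hab
      rw [Sym2.eq_iff] at h1
      rcases h1 with ⟨_, h2⟩ | ⟨h2, h3⟩
      · exact hψ h2
      · exact absurd h2 ((mem_filter.1 hwS).2 b)
    have h1 : KK.Pr wb (Ev GG w) = ∑ ω : EdgeSlot n → Bool, KK.wt wb ω *
        (if ∃ A ∈ GG, A ⊆ univ.filter (fun j => ω ⟨s(w, ψ j), hnd w hwS j⟩ = true)
          then (1:ℝ) else 0) := by
      unfold KK.Pr
      rw [sum_filter]
      refine sum_congr rfl fun ω _ => ?_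
      have h2 : Ev GG w ω ↔
          ∃ A ∈ GG, A ⊆ univ.filter (fun j => ω ⟨s(w, ψ j), hnd w hwS j⟩ = true) := by
        constructor
        · rintro ⟨A, hA, h3⟩
          refine ⟨A, hA, fun j hj => mem_filter.2 ⟨mem_univ _, ?_⟩⟩
          exact (graphOf_adj ω w (ψ j) (hnd w hwS j)).1 (h3 j hj)
        · rintro ⟨A, hA, h3⟩
          refine ⟨A, hA, fun j hj => ?_⟩
          exact (graphOf_adj ω w (ψ j) (hnd w hwS j)).2 (mem_filter.1 (h3 hj)).2
      by_cases h3 : Ev GG w ω
      · rw [if_pos h3, if_pos (h2.1 h3), mul_one]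
      · rw [if_neg h3, if_neg (fun h => h3 (h2.2 h)), mul_zero]
    rw [h1, marg wb hw1 (fun j => (⟨s(w, ψ j), hnd w hwS j⟩ : EdgeSlot n)) hinj
      (fun r => if ∃ A ∈ GG, A ⊆ univ.filter (fun j => r j = true) then (1:ℝ) else 0)]
    rw [hwb]
    rw [sum_bool P (fun R => if ∃ A ∈ GG, A ⊆ R then (1:ℝ) else 0)]
    rfl
  -- one family
  have hone : ∀ GG ∈ 𝒢, KK.Pr wb (fun ω : EdgeSlot n → Bool =>
      ((S.filter (fun w => Ev GG w ω)).card : ℝ) ≤ (3 / 4 * n * upmass P GG) / 2) ≤
      Real.exp (-(3 / 32 * n * P ^ D)) := by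
    intro GG hGG
    obtain ⟨-, ⟨A0, hA0⟩, hM, hD⟩ := mem_filter.1 hGG
    have hup : P ^ D ≤ upmass P GG :=
      (pow_le_pow_of_le_one hP.le hP1 (hD A0 hA0)).trans (le_upmass P hP.le hP1 GG A0 hA0)
    have hup0 : 0 ≤ upmass P GG := (pow_nonneg hP.le D).trans hup
    have hn0 : (0:ℝ) ≤ n := Nat.cast_nonneg n
    refine (Crest.TG.Chern.chernoff_lower wb hw hw1 S B hBd (Ev GG) (hdep GG)
      (3 / 4 * n * upmass P GG) (by positivity) ?_).trans ?_
    · rw [sum_congr rfl fun w hwS => hmass GG w hwS, sum_const, nsmul_eq_mul]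
      exact mul_le_mul_of_nonneg_right hScard hup0
    · apply Real.exp_le_exp.mpr
      have h6 : (n:ℝ) * P ^ D ≤ n * upmass P GG := mul_le_mul_of_nonneg_left hup hn0
      nlinarith
  -- union bound
  have hbad : KK.Pr wb (fun ω : EdgeSlot n → Bool => ∃ GG ∈ 𝒢,
      ((S.filter (fun w => Ev GG w ω)).card : ℝ) ≤ (3 / 4 * n * upmass P GG) / 2) ≤ 1 / 2 := by
    refine (KK.Pr_union wb hw 𝒢 _).trans ((sum_le_sum hone).trans ?_)
    rw [sum_const, nsmul_eq_mul]
    refine le_trans ?_ hnum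
    apply mul_le_mul_of_nonneg_right _ (Real.exp_pos _).le
    exact_mod_cast card_families (J := J) D M
  have hgood : 1 / 2 ≤ KK.Pr wb (fun ω : EdgeSlot n → Bool => ¬ ∃ GG ∈ 𝒢,
      ((S.filter (fun w => Ev GG w ω)).card : ℝ) ≤ (3 / 4 * n * upmass P GG) / 2) := by
    rw [KK.Pr_not wb hw1]; linarith
  refine hgood.trans ?_
  unfold gnpProb
  rw [KK.bernoulliProb_eq_Pr]
  refine KK.Pr_mono wb hw _ _ fun ω hω => ?_
  intro GG hne hM hD
  have h1 : GG ∈ 𝒢 := mem_filter.2 ⟨mem_univ _, hne, hM, hD⟩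
  have h2 : ¬ ((S.filter (fun w => Ev GG w ω)).card : ℝ) ≤ (3 / 4 * n * upmass P GG) / 2 :=
    fun h => hω ⟨GG, h1, h⟩
  rw [hS, filter_filter] at h2
  rw [not_le] at h2
  have h3 : (3 / 4 * (n:ℝ) * upmass P GG) / 2 = 3 / 8 * n * upmass P GG := by ring
  rw [h3] at h2
  exact h2.le

end Crest.TG62
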