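import Crest.Agent.TG77_Net

/-! T5i: Hall assembly on top of helper77's net lemma. -/

set_option autoImplicit false

namespace Crest.TG62
open Finset

theorem hall_net {J ι W : Type} [Fintype J] [DecidableEq J] [Fintype ι] [DecidableEq ι]
    [Fintype W] [DecidableEq W] (p β : ℝ) (hp : 0 < p) (hp1 : p ≤ 1) (hβ : 0 < β)
    (D : ℕ) (hD : 2 * β ≤ p ^ D) (A : ι → Finset J) (hA : ∀ v, (A v).card ≤ D)
    (R : W → Finset J)
    (h : ∀ T' : Finset ι, T'.Nonempty → (T'.card : ℝ) * β ≤ 1 →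
      (univ.filter (fun v => (1:ℝ) / 2 ≤ ∑ R : Finset J,
        Crest.TG77.wt p R * (if ∃ w ∈ T', A w ⊆ R ∪ A v then (1:ℝ) else 0))).card ≤
      (univ.filter (fun w => ∃ v ∈ T', A v ⊆ R w)).card) :
    ∃ g : ι → W, Function.Injective g ∧ ∀ v, A v ⊆ R (g v) := by
  classical
  have hall : ∀ T : Finset ι, T.card ≤
      (T.biUnion (fun v => univ.filter (fun w => A v ⊆ R w))).card := by
    intro T
    rcases T.eq_empty_or_nonempty with rfl | hT
    · simp
    obtain ⟨T', hsub, hcard, hne, hf⟩ := Crest.TG77.net p β hp hp1 hβ D hD T A (fun v _ => hA v)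
    have h1 : T ⊆ univ.filter (fun v => (1:ℝ) / 2 ≤ ∑ R : Finset J,
        Crest.TG77.wt p R * (if ∃ w ∈ T', A w ⊆ R ∪ A v then (1:ℝ) else 0)) := by
      intro v hv
      rw [mem_filter]
      exact ⟨mem_univ _, hf v hv⟩
    refine (card_le_card h1).trans ((h T' (hne hT) hcard).trans (card_le_card ?_))
    intro w hw
    obtain ⟨-, v, hv, hvw⟩ := mem_filter.1 hw
    exact mem_biUnion.2 ⟨v, hsub hv, mem_filter.2 ⟨mem_univ _, hvw⟩⟩
  obtain ⟨g, hg, hg'⟩ := (Finset.all_card_le_biUnion_card_iff_exists_injective _).1 hall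
  exact ⟨g, hg, fun v => (mem_filter.1 (hg' v)).2⟩

end Crest.TG62
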