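import Mathlib

/-!
# S0073 (helper63): random labels -> thinning -> one labelling
-/

set_option autoImplicit false

namespace Crest.TG63

open Finset

variable {V J : Type*} [Fintype V] [DecidableEq V] [Fintype J] [DecidableEq J]

/-- number of labellings `l : J → Fin m` whose class `i` inside `Y` is exactly `X`. -/
theorem count_class (m : ℕ) (hm : 1 ≤ m) (i : Fin m) (Y X : Finset J) (hX : X ⊆ Y) :
    ((univ : Finset (J → Fin m)).filter (fun l => Y.filter (fun j => l j = i) = X)).card =
      (m - 1) ^ (Y.card - X.card) * m ^ (Fintype.card J - Y.card) := by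
  classical
  have h1 : (univ : Finset (J → Fin m)).filter (fun l => Y.filter (fun j => l j = i) = X) =
      Fintype.piFinset (fun j : J => if j ∈ X then {i} else if j ∈ Y then {i}ᶜ else univ) := by
    ext l
    simp only [mem_filter, mem_univ, true_and, Fintype.mem_piFinset]
    constructor
    · intro h j
      by_cases hjX : j ∈ X
      · rw [if_pos hjX, mem_singleton]
        rw [← h, mem_filter] at hjX
        exact hjX.2
      · rw [if_neg hjX]
        by_cases hjY : j ∈ Y
        · rw [if_pos hjY, mem_compl, mem_singleton]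
          intro hc
          apply hjX
          rw [← h, mem_filter]
          exact ⟨hjY, hc⟩
        · rw [if_neg hjY]; exact mem_univ _
    · intro h
      ext j
      rw [mem_filter]
      have hj := h j
      constructor
      · rintro ⟨hjY, hji⟩
        by_contra hjX
        rw [if_neg hjX, if_pos hjY, mem_compl, mem_singleton] at hj
        exact hj hji
      · intro hjX
        rw [if_pos hjX, mem_singleton] at hj
        exact ⟨hX hjX, hj⟩
  rw [h1, Fintype.card_piFinset]
  have h2 : ∀ j : J, (if j ∈ X then ({i} : Finset (Fin m)) else if j ∈ Y then {i}ᶜ else univ).card =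
      if j ∈ X then 1 else if j ∈ Y then (m - 1) else m := by
    intro j
    split_ifs
    · simp
    · rw [card_compl, card_singleton, Fintype.card_fin]
    · simp
  rw [Finset.prod_congr rfl (fun j _ => h2 j)]
  rw [Finset.prod_ite, Finset.prod_const_one, one_mul, Finset.prod_ite, Finset.prod_const,
    Finset.prod_const]
  congr 2
  · rw [← Finset.card_sdiff_of_subset hX]
    congr 1
    ext j; simp [and_comm]
  · rw [← Finset.card_univ, ← Finset.card_sdiff_of_subset (subset_univ Y)]
    congr 1
    ext j
    simp only [mem_filter, mem_univ, true_and, mem_sdiff]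
    constructor
    · rintro ⟨_, h⟩; exact h
    · intro h; exact ⟨fun hx => h (hX hx), h⟩

/-- thinning weight -/
noncomputable def lam1 (Y : Finset J) (m : ℕ) (X : Finset J) : ℝ :=
  if X ⊆ Y then (1 / (m : ℝ)) ^ X.card * (1 - 1 / (m : ℝ)) ^ (Y.card - X.card) else 0

theorem lam1_nonneg (Y : Finset J) (m : ℕ) (hm : 1 ≤ m) (X : Finset J) : 0 ≤ lam1 Y m X := by
  unfold lam1
  have hm0 : (1 : ℝ) ≤ m := by exact_mod_cast hm
  split_ifs
  · apply mul_nonneg (by positivity)
    apply pow_nonneg
    rw [sub_nonneg, div_le_one (by linarith)]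
    exact hm0
  · exact le_rfl

/-- one vertex: uniform labels give a thinned set. -/
theorem push1 (m : ℕ) (hm : 1 ≤ m) (i : Fin m) (Y : Finset J) (F : Finset J → ℝ) :
    (∑ l : J → Fin m, F (Y.filter (fun j => l j = i))) =
      (m : ℝ) ^ Fintype.card J * ∑ X : Finset J, lam1 Y m X * F X := by
  classical
  have hm0 : (m : ℝ) ≠ 0 := by positivity
  rw [← Finset.sum_fiberwise_of_maps_to (s := (univ : Finset (J → Fin m))) (t := Y.powerset)
    (g := fun l => Y.filter (fun j => l j = i)) (fun l _ => mem_powerset.2 (filter_subset _ _))]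
  have h1 : ∀ X ∈ Y.powerset, (∑ l ∈ (univ : Finset (J → Fin m)).filter
      (fun l => Y.filter (fun j => l j = i) = X), F (Y.filter (fun j => l j = i))) =
      (m : ℝ) ^ Fintype.card J * (lam1 Y m X * F X) := by
    intro X hX
    have hX' := mem_powerset.1 hX
    have h2 : ∀ l ∈ (univ : Finset (J → Fin m)).filter
      (fun l => Y.filter (fun j => l j = i) = X), F (Y.filter (fun j => l j = i)) = F X := by
      intro l hl
      rw [(mem_filter.1 hl).2]
    rw [Finset.sum_congr rfl h2, Finset.sum_const, count_class m hm i Y X hX', nsmul_eq_mul]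
    unfold lam1
    rw [if_pos hX']
    have hc1 : X.card ≤ Y.card := card_le_card hX'
    have hc2 : Y.card ≤ Fintype.card J := card_le_univ Y
    have e1 : (m : ℝ) ^ Fintype.card J =
        (m : ℝ) ^ X.card * (m : ℝ) ^ (Y.card - X.card) * (m : ℝ) ^ (Fintype.card J - Y.card) := by
      rw [← pow_add, ← pow_add]; congr 1; omega
    have e2 : ((m - 1 : ℕ) : ℝ) = (m : ℝ) * (1 - 1 / (m : ℝ)) := by
      rw [Nat.cast_sub hm]; field_simp; simp
    have e3 : (1 / (m : ℝ)) ^ X.card * (m : ℝ) ^ X.card = 1 := by
      rw [← mul_pow, one_div, inv_mul_cancel₀ hm0, one_pow]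
    push_cast
    rw [e1, e2, mul_pow]
    calc (m : ℝ) ^ (Y.card - X.card) * (1 - 1 / (m : ℝ)) ^ (Y.card - X.card) *
          (m : ℝ) ^ (Fintype.card J - Y.card) * F X
        = ((1 / (m : ℝ)) ^ X.card * (m : ℝ) ^ X.card) * ((m : ℝ) ^ (Y.card - X.card) *
          (1 - 1 / (m : ℝ)) ^ (Y.card - X.card) * (m : ℝ) ^ (Fintype.card J - Y.card) * F X) := by
          rw [e3, one_mul]
      _ = _ := by ring
  rw [Finset.sum_congr rfl h1, ← Finset.mul_sum]
  congr 1
  apply Finset.sum_subset (subset_univ _)
  intro X _ hX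
  unfold lam1
  rw [if_neg (fun h => hX (mem_powerset.2 h)), zero_mul]

/-- all vertices: uniform labels give independent thinned sets. -/
theorem push (m : ℕ) (hm : 1 ≤ m) (i : Fin m) (Y : V → Finset J) (F : (V → Finset J) → ℝ) :
    (∑ c : V → J → Fin m, F (fun v => (Y v).filter (fun j => c v j = i))) =
      ((m : ℝ) ^ Fintype.card J) ^ Fintype.card V *
        ∑ A : V → Finset J, (∏ v, lam1 (Y v) m (A v)) * F A := by
  classical
  have hm0 : (m : ℝ) ≠ 0 := by positivity
  -- indicator decomposition
  have h1 : ∀ c : V → J → Fin m, F (fun v => (Y v).filter (fun j => c v j = i)) =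
      ∑ A : V → Finset J, (∏ v, (if (Y v).filter (fun j => c v j = i) = A v then (1 : ℝ) else 0)) *
        F A := by
    intro c
    rw [Finset.sum_eq_single (fun v => (Y v).filter (fun j => c v j = i))]
    · simp
    · intro A _ hA
      obtain ⟨v, hv⟩ := Function.ne_iff.1 hA
      rw [Finset.prod_eq_zero (mem_univ v), zero_mul]
      rw [if_neg (fun h => hv h.symm)]
    · intro h; exact absurd (mem_univ _) h
  rw [Finset.sum_congr rfl (fun c _ => h1 c), Finset.sum_comm, Finset.mul_sum]
  apply Finset.sum_congr rfl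
  intro A _
  rw [← Finset.sum_mul, ← mul_assoc]
  congr 1
  have h2 : (∑ c : V → J → Fin m, ∏ v, (if (Y v).filter (fun j => c v j = i) = A v then (1 : ℝ)
      else 0)) = ∏ v, ∑ l : J → Fin m, (if (Y v).filter (fun j => l j = i) = A v then (1 : ℝ)
      else 0) := by
    rw [Finset.prod_univ_sum]
    simp
  rw [h2]
  have h3 : ∀ v, (∑ l : J → Fin m, (if (Y v).filter (fun j => l j = i) = A v then (1 : ℝ)
      else 0)) = (m : ℝ) ^ Fintype.card J * lam1 (Y v) m (A v) := by
    intro v
    rw [push1 m hm i (Y v) (fun X => if X = A v then (1 : ℝ) else 0)]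
    congr 1
    simp
  rw [Finset.prod_congr rfl (fun v _ => h3 v), Finset.prod_mul_distrib, Finset.prod_const,
    card_univ]

/-- one labelling good for all classes. -/
theorem exists_colour (m : ℕ) (hm : 1 ≤ m) (Y : V → Finset J) (g : Fin m → (V → Finset J) → ℝ)
    (hg : ∀ i A, g i A ≤ 1) (δ : ℝ)
    (h : ∀ i, 1 - δ ≤ ∑ A : V → Finset J, (∏ v, lam1 (Y v) m (A v)) * g i A) :
    ∃ c : V → J → Fin m, ∀ i, 1 - m * δ ≤ g i (fun v => (Y v).filter (fun j => c v j = i)) := by
  classical
  have hm0 : (0 : ℝ) < m := by exact_mod_cast hm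
  by_contra hcon
  push Not at hcon
  set N : ℝ := ((m : ℝ) ^ Fintype.card J) ^ Fintype.card V with hN
  have hN0 : 0 < N := by positivity
  have hcard : ((Fintype.card (V → J → Fin m) : ℕ) : ℝ) = N := by
    rw [Fintype.card_fun, Fintype.card_fun, Fintype.card_fin]
    push_cast; rfl
  -- every colouring has total defect > m δ
  have h1 : ∀ c : V → J → Fin m, (m : ℝ) * δ < ∑ i : Fin m,
      (1 - g i (fun v => (Y v).filter (fun j => c v j = i))) := by
    intro c
    obtain ⟨i, hi⟩ := hcon c
    calc (m : ℝ) * δ < 1 - g i (fun v => (Y v).filter (fun j => c v j = i)) := by linarith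
      _ ≤ ∑ i : Fin m, (1 - g i (fun v => (Y v).filter (fun j => c v j = i))) :=
          Finset.single_le_sum (f := fun i : Fin m =>
            (1 - g i (fun v => (Y v).filter (fun j => c v j = i))))
            (fun j _ => sub_nonneg.2 (hg j _)) (mem_univ i)
  haveI : Nonempty (Fin m) := ⟨⟨0, hm⟩⟩
  have h2 : (∑ _c : V → J → Fin m, (m : ℝ) * δ) < ∑ c : V → J → Fin m, ∑ i : Fin m,
      (1 - g i (fun v => (Y v).filter (fun j => c v j = i))) :=
    Finset.sum_lt_sum_of_nonempty univ_nonempty (fun c _ => h1 c)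
  rw [Finset.sum_const, card_univ, nsmul_eq_mul, hcard, Finset.sum_comm] at h2
  have h3 : ∀ i : Fin m, (∑ c : V → J → Fin m,
      (1 - g i (fun v => (Y v).filter (fun j => c v j = i)))) ≤ N * δ := by
    intro i
    rw [Finset.sum_sub_distrib, Finset.sum_const, card_univ, nsmul_eq_mul, hcard, mul_one,
      push m hm i Y (g i)]
    have := mul_le_mul_of_nonneg_left (h i) hN0.le
    linarith
  have h4 : (∑ i : Fin m, ∑ c : V → J → Fin m,
      (1 - g i (fun v => (Y v).filter (fun j => c v j = i)))) ≤ ∑ _i : Fin m, N * δ :=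
    Finset.sum_le_sum (fun i _ => h3 i)
  rw [Finset.sum_const, card_univ, Fintype.card_fin, nsmul_eq_mul] at h4
  linarith

end Crest.TG63
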