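import Crest.Agent.TG6_Frame
import Crest.Agent.TG6_Ext

/-! S0073 from a sparse core and a dense core (helper68). -/

set_option autoImplicit false

namespace TG68
open Finset Crest.CombinatoricsR.RandomGraph

/-- monotonicity of the containment probability in the edge probability -/
theorem gnpProb_mono {n : ℕ} {W : Type} (F : SimpleGraph W) {p p' : ℝ} (hp : 0 ≤ p) (hpp : p ≤ p')
    (hp' : p' ≤ 1) :
    gnpProb n p {G | F.IsContained G} ≤ gnpProb n p' {G | F.IsContained G} := by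
  unfold gnpProb
  apply KK.bernoulliProb_mono p p' hp hpp hp'
  intro ω ω' h hle
  have h' : F.IsContained (graphOf ω) := h
  show F.IsContained (graphOf ω')
  refine h'.mono_right ?_
  unfold graphOf
  apply SimpleGraph.fromEdgeSet_mono
  rintro z ⟨hz, hz'⟩
  exact ⟨hz, hle _ hz'⟩

/-- S0073 from the two cores; `b0` any natural number; the sparse range is `n * q ^ b0 ≤ 1`. -/
theorem final (b0 : ℕ) (k1 k2 n1 n2 : ℕ) (L1 L2 : ℝ) (hL1 : 1 ≤ L1) (hL2 : 1 ≤ L2)
    (sparse : ∀ n : ℕ, 2 ≤ n → n1 < n → ∀ (W : Type) [Fintype W] [DecidableEq W]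
      (H : SimpleGraph W) [DecidableRel H.Adj], Fintype.card W ≤ n → H ≠ ⊥ →
      ∀ q : ℝ, 0 < q → L1 * q < 1 → (n : ℝ) * q ^ b0 ≤ 1 →
      (∀ (κ : W ↪ Fin n) (J : Finset (EdgeSlot n)), J ⊆ KK.slots H κ →
        (1 : ℝ) / 2 ≤ ((univ.image fun σ : Equiv.Perm (Fin n) => J.image (KK.act n σ)).card : ℝ) *
          q ^ J.card) →
      ∃ c : H.edgeSet → Fin k1, ∀ i : Fin k1,
        1 / 2 ≤ gnpProb n (L1 * q) {G | (pieceGraph H c i).IsContained G})
    (dense : ∀ n : ℕ, 2 ≤ n → n2 < n → ∀ (W : Type) [Fintype W] [DecidableEq W]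
      (H : SimpleGraph W) [DecidableRel H.Adj], Fintype.card W ≤ n → H ≠ ⊥ →
      ∀ q : ℝ, 0 < q → L2 * q < 1 → 1 < (n : ℝ) * q ^ b0 →
      (∀ (κ : W ↪ Fin n) (J : Finset (EdgeSlot n)), J ⊆ KK.slots H κ →
        (1 : ℝ) / 2 ≤ ((univ.image fun σ : Equiv.Perm (Fin n) => J.image (KK.act n σ)).card : ℝ) *
          q ^ J.card) →
      ∃ c : H.edgeSet → Fin k2, ∀ i : Fin k2,
        1 / 2 ≤ gnpProb n (L2 * q) {G | (pieceGraph H c i).IsContained G}) :
    ∃ k : ℕ, 2 ≤ k ∧ ∃ L : ℝ, 1 ≤ L ∧ ∀ n : ℕ, 2 ≤ n →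
      ∀ (W : Type) [Fintype W] [DecidableEq W] (H : SimpleGraph W),
        Fintype.card W ≤ n → H ≠ ⊥ →
        ∃ c : H.edgeSet → Fin k, ∀ i : Fin k, ∃ p : ℝ, 0 ≤ p ∧ p ≤ 1 ∧
          (∃ C : Finset (Finset (EdgeSlot n)),
            (∀ A : Finset (EdgeSlot n),
              H.IsContained (edgeGraph A) → ∃ S ∈ C, S ⊆ A) ∧
            ∑ S ∈ C, p ^ S.card ≤ 1 / 2) ∧
          1 / 2 ≤ gnpProb n (min 1 (L * p))
            {G | (pieceGraph H c i).IsContained G} := by
  classical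
  set n0 : ℕ := max n1 n2 with hn0
  set L : ℝ := max (max L1 L2) ((n0 : ℝ) ^ 2) with hL
  have hLL1 : L1 ≤ L := (le_max_left _ _).trans (le_max_left _ _)
  have hLL2 : L2 ≤ L := (le_max_right _ _).trans (le_max_left _ _)
  have hL1' : 1 ≤ L := hL1.trans hLL1
  have hnL : (n0 : ℝ) ^ 2 ≤ L := le_max_right _ _
  refine TG6.frame (max 2 (max k1 k2)) (le_max_left _ _) L hL1' n0 hnL ?_
  intro n hn2 hn W _ _ H _ hW hH q hq hLq _ hFM
  have key : ∀ (Lj : ℝ) (kj : ℕ), 1 ≤ Lj → Lj ≤ L → kj ≤ max 2 (max k1 k2) →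
      (∃ c : H.edgeSet → Fin kj, ∀ i : Fin kj,
        1 / 2 ≤ gnpProb n (Lj * q) {G | (pieceGraph H c i).IsContained G}) →
      ∃ c : H.edgeSet → Fin (max 2 (max k1 k2)), ∀ i : Fin (max 2 (max k1 k2)),
        1 / 2 ≤ gnpProb n (L * q) {G | (pieceGraph H c i).IsContained G} := by
    intro Lj kj h1 h2 h3 h4
    have hLj0 : 0 ≤ Lj * q := mul_nonneg (by linarith) hq.le
    have hLjL : Lj * q ≤ L * q := mul_le_mul_of_nonneg_right h2 hq.le
    refine TG6.enlarge_labels H h3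
      (fun F => 1 / 2 ≤ gnpProb n (L * q) {G | F.IsContained G}) ?_ ?_
    · show 1 / 2 ≤ gnpProb n (L * q) {G | (⊥ : SimpleGraph W).IsContained G}
      obtain ⟨c, hc⟩ := h4
      by_cases hk : kj = 0
      · subst hk
        exfalso
        have : ∃ a b, H.Adj a b := by
          by_contra hcon
          push Not at hcon
          apply hH
          ext a b
          simp [hcon a b]
        obtain ⟨a, b, hab⟩ := this
        exact (c ⟨s(a, b), hab⟩).elim0
      · have i0 : Fin kj := ⟨0, Nat.pos_of_ne_zero hk⟩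
        have h5 := (hc i0).trans (gnpProb_mono (pieceGraph H c i0) hLj0 hLjL hLq.le)
        refine h5.trans ?_
        unfold gnpProb Crest.FinProb.bernoulliProb
        refine Finset.sum_le_sum_of_subset_of_nonneg ?_ ?_
        · intro ω _
          rw [Finset.mem_filter]
          refine ⟨mem_univ _, ?_⟩
          show (⊥ : SimpleGraph W).IsContained (graphOf ω)
          exact TG6.bot_isContained _ hW
        · intro ω _ _
          unfold Crest.FinProb.bernoulliWeight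
          refine Finset.prod_nonneg fun x _ => ?_
          split_ifs
          · exact hLj0.trans hLjL
          · linarith
    · obtain ⟨c, hc⟩ := h4
      exact ⟨c, fun i => (hc i).trans (gnpProb_mono (pieceGraph H c i) hLj0 hLjL hLq.le)⟩
  rcases le_or_gt ((n : ℝ) * q ^ b0) 1 with hcase | hcase
  · refine key L1 k1 hL1 hLL1 ((le_max_left _ _).trans (le_max_right _ _)) ?_
    refine sparse n hn2 (lt_of_le_of_lt (le_max_left _ _) hn) W H hW hH q hq
      (lt_of_le_of_lt (mul_le_mul_of_nonneg_right hLL1 hq.le) hLq) hcase hFM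
  · refine key L2 k2 hL2 hLL2 ((le_max_right _ _).trans (le_max_right _ _)) ?_
    refine dense n hn2 (lt_of_le_of_lt (le_max_right _ _) hn) W H hW hH q hq
      (lt_of_le_of_lt (mul_le_mul_of_nonneg_right hLL2 hq.le) hLq) hcase hFM

end TG68
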