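import Crest.Agent.TG68_Final
import Crest.Agent.TG73_Main

/-! S0073 from a sparse core and a dense core, each in label form or in cover form (helper68). -/

set_option autoImplicit false

namespace TG68
open Finset Crest.CombinatoricsR.RandomGraph

/-- sparse range, label form -/
def SparseRaw (b0 : ℕ) : Prop :=
  ∃ (k n0 : ℕ) (L : ℝ), 0 ≤ L ∧ ∀ n : ℕ, 2 ≤ n → n0 < n → ∀ (W : Type) [Fintype W] [DecidableEq W]
      (H : SimpleGraph W) [DecidableRel H.Adj], Fintype.card W ≤ n → H ≠ ⊥ →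
      ∀ q : ℝ, 0 < q → L * q < 1 → q ^ b0 * (n : ℝ) ≤ 1 →
      (∀ (κ : W ↪ Fin n) (J : Finset (EdgeSlot n)), J ⊆ KK.slots H κ →
        (1 : ℝ) / 2 ≤ ((univ.image fun σ : Equiv.Perm (Fin n) => J.image (KK.act n σ)).card : ℝ) *
          q ^ J.card) →
      ∃ c : H.edgeSet → Fin k, ∀ i : Fin k,
        1 / 2 ≤ gnpProb n (L * q) {G | (pieceGraph H c i).IsContained G}

/-- dense range, label form -/
def DenseRaw (b0 : ℕ) : Prop :=
  ∃ (k n0 : ℕ) (L : ℝ), 0 ≤ L ∧ ∀ n : ℕ, 2 ≤ n → n0 < n → ∀ (W : Type) [Fintype W] [DecidableEq W]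
      (H : SimpleGraph W) [DecidableRel H.Adj], Fintype.card W ≤ n → H ≠ ⊥ →
      ∀ q : ℝ, 0 < q → L * q < 1 → 1 < q ^ b0 * (n : ℝ) →
      (∀ (κ : W ↪ Fin n) (J : Finset (EdgeSlot n)), J ⊆ KK.slots H κ →
        (1 : ℝ) / 2 ≤ ((univ.image fun σ : Equiv.Perm (Fin n) => J.image (KK.act n σ)).card : ℝ) *
          q ^ J.card) →
      ∃ c : H.edgeSet → Fin k, ∀ i : Fin k,
        1 / 2 ≤ gnpProb n (L * q) {G | (pieceGraph H c i).IsContained G}

theorem sparseRaw_of_cov (b0 : ℕ) (h : TG73.SparseCore b0) : SparseRaw b0 := by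
  classical
  obtain ⟨k, L, hL, n0, h⟩ := h
  refine ⟨k, n0, L, by linarith, ?_⟩
  intro n hn2 hn W _ _ H _ hW hH q hq hLq hcase hFM
  have hn0 : (0 : ℝ) < n := by
    have : 0 < n := by omega
    exact_mod_cast this
  refine TG73.Cov.labelling (mul_nonneg (by linarith) hq.le) hLq.le ?_
  refine h n hn W H hW q hq hLq ?_ ?_
  · intro ι J hJ
    refine hFM ι J ?_
    convert hJ
  · rw [le_div_iff₀ hn0]
    exact hcase

theorem denseRaw_of_cov (b0 : ℕ) (h : TG73.DenseCore b0) : DenseRaw b0 := by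
  classical
  obtain ⟨k, L, hL, n0, h⟩ := h
  refine ⟨k, n0, L, by linarith, ?_⟩
  intro n hn2 hn W _ _ H _ hW hH q hq hLq hcase hFM
  have hn0 : (0 : ℝ) < n := by
    have : 0 < n := by omega
    exact_mod_cast this
  refine TG73.Cov.labelling (mul_nonneg (by linarith) hq.le) hLq.le ?_
  refine h n hn W H hW q hq hLq ?_ ?_
  · intro ι J hJ
    refine hFM ι J ?_
    convert hJ
  · rw [div_le_iff₀ hn0]
    exact hcase.le

/-- cover form from label form -/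
theorem cov_of_label {k n : ℕ} {L : ℝ} {W : Type} {H : SimpleGraph W} {q : ℝ}
    (h : ∃ c : H.edgeSet → Fin k, ∀ i : Fin k,
      1 / 2 ≤ gnpProb n (L * q) {G | (pieceGraph H c i).IsContained G}) :
    TG73.Cov k L n H q := by
  obtain ⟨c, hc⟩ := h
  refine ⟨fun i => pieceGraph H c i, ?_, hc⟩
  intro a b hab
  exact ⟨c ⟨s(a, b), hab⟩, (TG6.pieceGraph_adj H c _ a b).2 ⟨hab, rfl⟩⟩

/-- label form with `0 ≤ L` to label form with `1 ≤ L` -/
private theorem raise {n k : ℕ} {L : ℝ} (hL : 0 ≤ L) {W : Type} {H : SimpleGraph W} {q : ℝ}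
    (hq : 0 < q) (hLq : max 1 L * q < 1)
    (h : ∃ c : H.edgeSet → Fin k, ∀ i : Fin k,
      1 / 2 ≤ gnpProb n (L * q) {G | (pieceGraph H c i).IsContained G}) :
    ∃ c : H.edgeSet → Fin k, ∀ i : Fin k,
      1 / 2 ≤ gnpProb n (max 1 L * q) {G | (pieceGraph H c i).IsContained G} := by
  obtain ⟨c, hc⟩ := h
  exact ⟨c, fun i => (hc i).trans (gnpProb_mono (pieceGraph H c i) (mul_nonneg hL hq.le)
    (mul_le_mul_of_nonneg_right (le_max_right _ _) hq.le) hLq.le)⟩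

/-- S0073 from label forms -/
theorem final_mix (b0 : ℕ) (sparse : SparseRaw b0) (dense : DenseRaw b0) :
    ∃ k : ℕ, 2 ≤ k ∧ ∃ L : ℝ, 1 ≤ L ∧ ∀ n : ℕ, 2 ≤ n →
      ∀ (W : Type) [Fintype W] [DecidableEq W] (H : SimpleGraph W),
        Fintype.card W ≤ n → H ≠ ⊥ →
        ∃ c : H.edgeSet → Fin k, ∀ i : Fin k, ∃ p : ℝ, 0 ≤ p ∧ p ≤ 1 ∧
          (∃ C : Finset (Finset (EdgeSlot n)),
            (∀ A : Finset (EdgeSlot n),
              H.IsContained (edgeGraph A) → ∃ S ∈ C, S ⊆ A) ∧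
            ∑ S ∈ C, p ^ S.card ≤ 1 / 2) ∧
          1 / 2 ≤ gnpProb n (min 1 (L * p))
            {G | (pieceGraph H c i).IsContained G} := by
  obtain ⟨k1, n1, L1, hL1, h1⟩ := sparse
  obtain ⟨k2, n2, L2, hL2, h2⟩ := dense
  refine final b0 k1 k2 n1 n2 (max 1 L1) (max 1 L2) (le_max_left _ _) (le_max_left _ _) ?_ ?_
  · intro n hn2 hn W _ _ H _ hW hH q hq hLq hcase hFM
    exact raise hL1 hq hLq (h1 n hn2 hn W H hW hH q hq
      (lt_of_le_of_lt (mul_le_mul_of_nonneg_right (le_max_right _ _) hq.le) hLq)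
      (by rw [mul_comm]; exact hcase) hFM)
  · intro n hn2 hn W _ _ H _ hW hH q hq hLq hcase hFM
    exact raise hL2 hq hLq (h2 n hn2 hn W H hW hH q hq
      (lt_of_le_of_lt (mul_le_mul_of_nonneg_right (le_max_right _ _) hq.le) hLq)
      (by rw [mul_comm]; exact hcase) hFM)

/-- S0073 from a sparse core and a dense core, any combination of forms -/
theorem final_any (b0 : ℕ) (sparse : SparseRaw b0 ∨ TG73.SparseCore b0)
    (dense : DenseRaw b0 ∨ TG73.DenseCore b0) :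
    ∃ k : ℕ, 2 ≤ k ∧ ∃ L : ℝ, 1 ≤ L ∧ ∀ n : ℕ, 2 ≤ n →
      ∀ (W : Type) [Fintype W] [DecidableEq W] (H : SimpleGraph W),
        Fintype.card W ≤ n → H ≠ ⊥ →
        ∃ c : H.edgeSet → Fin k, ∀ i : Fin k, ∃ p : ℝ, 0 ≤ p ∧ p ≤ 1 ∧
          (∃ C : Finset (Finset (EdgeSlot n)),
            (∀ A : Finset (EdgeSlot n),
              H.IsContained (edgeGraph A) → ∃ S ∈ C, S ⊆ A) ∧
            ∑ S ∈ C, p ^ S.card ≤ 1 / 2) ∧
          1 / 2 ≤ gnpProb n (min 1 (L * p))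
            {G | (pieceGraph H c i).IsContained G} :=
  final_mix b0 (sparse.elim id (sparseRaw_of_cov b0)) (dense.elim id (denseRaw_of_cov b0))

end TG68
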