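import Mathlib

/-! S0071: the finish (fractional cover + capture imply a contradiction), helper52. -/

set_option autoImplicit false

namespace TG6S
open Finset

/-- Abel summation: antitone nonneg weights, nonpositive partial sums -/
theorem abel (a b : ℕ → ℝ) (h : ℕ) (ha : ∀ k, a (k + 1) ≤ a k) (ha0 : ∀ k, 0 ≤ a k)
    (hb : ∀ m, m ≤ h → ∑ k ∈ range m, b k ≤ 0) : ∑ k ∈ range h, a k * b k ≤ 0 := by
  have key : ∀ m, m ≤ h → ∑ k ∈ range m, a k * b k ≤ a m * ∑ k ∈ range m, b k := by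
    intro m
    induction m with
    | zero => intro _; simp
    | succ m ih =>
      intro hm
      have h1 := ih (by omega)
      have h2 := hb (m + 1) hm
      have h3 := ha m
      rw [sum_range_succ] at h2
      rw [sum_range_succ, sum_range_succ]
      nlinarith [mul_nonneg (sub_nonneg.2 h3) (neg_nonneg.2 h2)]
  exact (key h le_rfl).trans (mul_nonpos_of_nonneg_of_nonpos (ha0 h) (hb h le_rfl))

theorem usum (R : ℕ) : ∑ s ∈ range (R + 3), (if s < 3 then (1 : ℝ) else 16 / 4 ^ s)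
    = 3 + (1 / 3) * (1 - (1 / 4) ^ R) := by
  induction R with
  | zero => norm_num [sum_range_succ]
  | succ R ih =>
    rw [show R + 1 + 3 = (R + 3) + 1 by ring, sum_range_succ, ih, if_neg (by omega)]
    have h4 : ((4 : ℝ) ^ R) ≠ 0 := by positivity
    have h5 : (16 : ℝ) / 4 ^ (R + 3) = (1 / 4) * (1 / 4) ^ R := by
      rw [pow_add, one_div_pow]
      field_simp
      norm_num
    rw [h5, pow_succ]
    ring

theorem csum (R m : ℕ) (c : ℕ → ℕ) (h1 : ∀ s, c s ≤ m)
    (h2 : ∀ s, s < R → 4 ^ s * c s ≤ 16 * m) :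
    (∑ s ∈ range R, (c s : ℝ)) ≤ 4 * m := by
  have hu : ∀ s ∈ range R, (c s : ℝ) ≤ m * (if s < 3 then (1 : ℝ) else 16 / 4 ^ s) := by
    intro s hs
    split_ifs with h
    · rw [mul_one]; exact_mod_cast h1 s
    · have := h2 s (mem_range.1 hs)
      have h3 : (4 : ℝ) ^ s * c s ≤ 16 * m := by exact_mod_cast this
      rw [mul_div_assoc', le_div_iff₀ (by positivity)]
      linarith
  calc (∑ s ∈ range R, (c s : ℝ))
      ≤ ∑ s ∈ range R, (m : ℝ) * (if s < 3 then (1 : ℝ) else 16 / 4 ^ s) := sum_le_sum hu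
    _ = m * ∑ s ∈ range R, (if s < 3 then (1 : ℝ) else 16 / 4 ^ s) := by rw [mul_sum]
    _ ≤ m * ∑ s ∈ range (R + 3), (if s < 3 then (1 : ℝ) else 16 / 4 ^ s) := by
        apply mul_le_mul_of_nonneg_left _ (Nat.cast_nonneg m)
        apply sum_le_sum_of_subset_of_nonneg
        · exact range_mono (by omega)
        · intro i _ _
          split_ifs <;> positivity
    _ ≤ 4 * m := by
        rw [usum]
        have h3 : (0 : ℝ) ≤ (1 / 4 : ℝ) ^ R := by positivity
        have hm : (0 : ℝ) ≤ m := Nat.cast_nonneg m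
        nlinarith [mul_nonneg hm h3]

theorem exists_enum {α : Type} (H : Finset α) (lam : α → ℝ) :
    ∃ e : Fin H.card ≃ H, ∀ i j, i ≤ j → lam (e j) ≤ lam (e i) := by
  let e0 : Fin H.card ≃ H := H.equivFin.symm
  let f : Fin H.card → ℝ := fun i => - lam (e0 i)
  refine ⟨(Tuple.sort f).trans e0, ?_⟩
  intro i j hij
  have h := Tuple.monotone_sort f hij
  simp only [Function.comp, f] at h
  simp only [Equiv.trans_apply]
  linarith

/-- position of `x` in the enumeration -/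
noncomputable def pos {α : Type} [DecidableEq α] (H : Finset α) (e : Fin H.card ≃ H) (x : α) : ℕ :=
  if hx : x ∈ H then (e.symm ⟨x, hx⟩ : ℕ) else 0

/-- level of `x` -/
noncomputable def lev {α : Type} [DecidableEq α] (H : Finset α) (e : Fin H.card ≃ H) (x : α) : ℕ :=
  Nat.clog 16 (pos H e x + 1)

theorem pos_enum {α : Type} [DecidableEq α] (H : Finset α) (e : Fin H.card ≃ H)
    (k : Fin H.card) : pos H e (e k) = k := by
  unfold pos
  rw [dif_pos (e k).2]
  simp

theorem pos_lt {α : Type} [DecidableEq α] (H : Finset α) (e : Fin H.card ≃ H) (x : α)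
    (hx : x ∈ H) : pos H e x < H.card := by
  unfold pos
  rw [dif_pos hx]
  exact (e.symm ⟨x, hx⟩).2

theorem pos_inj {α : Type} [DecidableEq α] (H : Finset α) (e : Fin H.card ≃ H) (x y : α)
    (hx : x ∈ H) (hy : y ∈ H) (h : pos H e x = pos H e y) : x = y := by
  unfold pos at h
  rw [dif_pos hx, dif_pos hy] at h
  have h1 := e.symm.injective (Fin.ext h)
  exact congrArg Subtype.val h1

theorem lev_card {α : Type} [DecidableEq α] (H : Finset α) (e : Fin H.card ≃ H) (i : ℕ) :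
    (H.filter (fun x => lev H e x ≤ i)).card ≤ 16 ^ i := by
  rw [← card_range (16 ^ i)]
  apply card_le_card_of_injOn (pos H e)
  · intro x hx
    have hx' := (mem_filter.1 hx).2
    have h1 : pos H e x + 1 ≤ 16 ^ i := (Nat.clog_le_iff_le_pow (by norm_num)).1 hx'
    simp only [coe_range, Set.mem_Iio]
    omega
  · intro x hx y hy h
    exact pos_inj H e x y (mem_filter.1 hx).1 (mem_filter.1 hy).1 h

theorem lev_le {α : Type} [Fintype α] [DecidableEq α] (H : Finset α) (e : Fin H.card ≃ H) (I : ℕ)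
    (hI : Fintype.card α ≤ 16 ^ I) (x : α) (hx : x ∈ H) : lev H e x ≤ I := by
  apply (Nat.clog_le_iff_le_pow (by norm_num)).2
  have h1 := pos_lt H e x hx
  have h2 : H.card ≤ Fintype.card α := card_le_univ H
  omega

theorem clog_bound (m : ℕ) (hm : 1 ≤ m) : 16 ^ Nat.clog 16 m ≤ 16 * m := by
  rcases Nat.lt_or_ge 1 m with h | h
  · have h1 := Nat.pow_pred_clog_lt_self (b := 16) (by norm_num) h
    have h2 : 0 < Nat.clog 16 m := Nat.clog_pos (by norm_num) h
    have h3 : (Nat.clog 16 m) = (Nat.clog 16 m).pred + 1 := (Nat.succ_pred_eq_of_pos h2).symm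
    rw [h3, pow_succ]
    omega
  · have : m = 1 := by omega
    subst this
    simp

theorem sum_levels {α : Type} [Fintype α] [DecidableEq α] (H : Finset α) (lam : α → ℝ)
    (hlam : ∀ x, 0 ≤ lam x)
    (e : Fin H.card ≃ H) (he : ∀ i j, i ≤ j → lam (e j) ≤ lam (e i)) (I R : ℕ)
    (hI : Fintype.card α ≤ 16 ^ I) (τ : α → ℕ) (hτ : ∀ x, τ x ≤ I + R)
    (hgood : ∀ i ≤ I, ∀ r < I + R,
      4 ^ r * (H.filter (fun x => lev H e x ≤ i ∧ r < τ x)).card ≤ 16 ^ i * 4 ^ I) :
    ∑ x ∈ H, lam x * ((τ x - I : ℕ) : ℝ) ≤ 4 * ∑ x ∈ H, lam x := by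
  classical
  set a : ℕ → ℝ := fun k => if hk : k < H.card then lam (e ⟨k, hk⟩) else 0 with ha
  set T : ℕ → ℕ := fun k => if hk : k < H.card then τ (e ⟨k, hk⟩) - I else 0 with hT
  have hTR : ∀ k, T k ≤ R := by
    intro k
    simp only [hT]
    split_ifs with hk
    · have := hτ (e ⟨k, hk⟩)
      omega
    · omega
  have hconv : ∀ f : α → ℝ, ∀ f' : ℕ → ℝ, (∀ k (hk : k < H.card), f' k = f (e ⟨k, hk⟩)) →
      ∑ x ∈ H, f x = ∑ k ∈ range H.card, f' k := by
    intro f f' hff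
    rw [← sum_coe_sort H f, ← Equiv.sum_comp e (fun y : H => f y), sum_range]
    apply sum_congr rfl
    intro i _
    exact (hff i i.2).symm
  have key : ∑ k ∈ range H.card, a k * ((T k : ℝ) - 4) ≤ 0 := by
    apply abel
    · intro k
      simp only [ha]
      by_cases h1 : k + 1 < H.card
      · rw [dif_pos h1, dif_pos (by omega)]
        exact he _ _ (by rw [Fin.mk_le_mk]; omega)
      · rw [dif_neg h1]
        split_ifs
        · exact hlam _
        · exact le_rfl
    · intro k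
      simp only [ha]
      split_ifs
      · exact hlam _
      · exact le_rfl
    · intro m hm
      rw [sum_sub_distrib, sum_const, card_range, nsmul_eq_mul, sub_nonpos]
      have h1 : ∀ k ∈ range m, (T k : ℝ) = ∑ s ∈ range R, (if s < T k then (1 : ℝ) else 0) := by
        intro k _
        rw [sum_boole]
        congr 1
        have h2 : (range R).filter (fun s => s < T k) = range (T k) := by
          ext s
          simp only [mem_filter, mem_range]
          have := hTR k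
          omega
        rw [h2, card_range]
      rw [sum_congr rfl h1, sum_comm]
      have h2 : ∀ s ∈ range R, ∑ k ∈ range m, (if s < T k then (1 : ℝ) else 0)
          = (((range m).filter (fun k => s < T k)).card : ℝ) := by
        intro s _
        rw [sum_boole]
      rw [sum_congr rfl h2, mul_comm]
      apply csum R m (fun s => ((range m).filter (fun k => s < T k)).card)
      · intro s
        calc _ ≤ (range m).card := card_filter_le _ _
          _ = m := card_range m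
      · intro s hs
        rcases Nat.eq_zero_or_pos m with hm0 | hm0
        · subst hm0; simp
        have h3 : ((range m).filter (fun k => s < T k)).card
            ≤ (H.filter (fun x => lev H e x ≤ Nat.clog 16 m ∧ I + s < τ x)).card := by
          apply card_le_card_of_surjOn (pos H e)
          intro k hk
          have hk' := mem_filter.1 hk
          have hkm := mem_range.1 hk'.1
          have hkh : k < H.card := by omega
          have hk2 : s < τ (e ⟨k, hkh⟩) - I := by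
            have := hk'.2
            simp only [hT] at this
            rw [dif_pos hkh] at this
            exact this
          refine ⟨e ⟨k, hkh⟩, ?_, ?_⟩
          · rw [mem_coe, mem_filter]
            refine ⟨(e ⟨k, hkh⟩).2, ?_, by omega⟩
            unfold lev
            rw [pos_enum]
            apply Nat.clog_mono_right
            simp only
            omega
          · rw [pos_enum]
        have hclI : Nat.clog 16 m ≤ I := by
          apply (Nat.clog_le_iff_le_pow (by norm_num)).2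
          have h2 : H.card ≤ Fintype.card α := card_le_univ H
          omega
        have h4 := hgood (Nat.clog 16 m) hclI (I + s) (by omega)
        have h5 := clog_bound m hm0
        have h6 : 4 ^ I * (4 ^ s * ((range m).filter (fun k => s < T k)).card)
            ≤ 4 ^ I * (16 * m) := by
          calc 4 ^ I * (4 ^ s * ((range m).filter (fun k => s < T k)).card)
              = 4 ^ (I + s) * ((range m).filter (fun k => s < T k)).card := by
                rw [pow_add, mul_assoc]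
            _ ≤ 4 ^ (I + s) * (H.filter (fun x => lev H e x ≤ Nat.clog 16 m ∧ I + s < τ x)).card :=
                Nat.mul_le_mul_left _ h3
            _ ≤ 16 ^ (Nat.clog 16 m) * 4 ^ I := h4
            _ ≤ (16 * m) * 4 ^ I := Nat.mul_le_mul_right _ h5
            _ = 4 ^ I * (16 * m) := by rw [mul_comm]
        exact Nat.le_of_mul_le_mul_left h6 (by positivity)
  have h1 : ∑ x ∈ H, lam x * (((τ x - I : ℕ) : ℝ) - 4) = ∑ k ∈ range H.card, a k * ((T k : ℝ) - 4) := by
    apply hconv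
    intro k hk
    simp only [ha, hT]
    rw [dif_pos hk, dif_pos hk]
  have h2 : ∑ x ∈ H, lam x * (((τ x - I : ℕ) : ℝ) - 4)
      = ∑ x ∈ H, lam x * ((τ x - I : ℕ) : ℝ) - 4 * ∑ x ∈ H, lam x := by
    rw [mul_sum, ← sum_sub_distrib]
    apply sum_congr rfl
    intro x _
    ring
  linarith

/-- no Jensen needed -/
theorem low {α : Type} [DecidableEq α] (H : Finset α) (g : Finset α → ℝ) (hg : ∀ S, 0 ≤ g S)
    (t : α → ℕ) (lam : α → ℝ)
    (hl : ∀ x, lam x = ∑ S ∈ H.powerset, if x ∈ S then g S else 0)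
    (h : ∑ x ∈ H, lam x * (t x : ℝ) ≤ 4 * ∑ x ∈ H, lam x)
    (hcov : 1 ≤ ∑ S ∈ H.powerset, g S) :
    1 ≤ ∑ S ∈ H.powerset, g S * ∏ x ∈ S, ((16 : ℝ) ^ 4 / 16 ^ (t x)) := by
  set L := Real.log 16 with hL
  have hL0 : 0 ≤ L := Real.log_nonneg (by norm_num)
  have h16 : Real.exp L = 16 := Real.exp_log (by norm_num)
  have hf : ∀ k : ℕ, (16 : ℝ) ^ 4 / 16 ^ k = Real.exp (L * (4 - k)) := by
    intro k
    rw [mul_sub, Real.exp_sub, mul_comm L 4, mul_comm L (k : ℝ)]
    have h4 : Real.exp (4 * L) = 16 ^ 4 := by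
      rw [show (4 : ℝ) * L = ((4 : ℕ) : ℝ) * L by norm_num, Real.exp_nat_mul, h16]
    rw [h4, Real.exp_nat_mul, h16]
  have h1 : ∀ S ∈ H.powerset, g S * (1 + L * ∑ x ∈ S, (4 - (t x : ℝ)))
      ≤ g S * ∏ x ∈ S, ((16 : ℝ) ^ 4 / 16 ^ (t x)) := by
    intro S _
    apply mul_le_mul_of_nonneg_left _ (hg S)
    have h2 : ∏ x ∈ S, ((16 : ℝ) ^ 4 / 16 ^ (t x)) = Real.exp (L * ∑ x ∈ S, (4 - (t x : ℝ))) := by
      rw [mul_sum, Real.exp_sum]
      exact prod_congr rfl (fun x _ => hf (t x))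
    rw [h2]
    have := Real.add_one_le_exp (L * ∑ x ∈ S, (4 - (t x : ℝ)))
    linarith
  refine le_trans ?_ (sum_le_sum h1)
  have h2 : ∑ S ∈ H.powerset, g S * (1 + L * ∑ x ∈ S, (4 - (t x : ℝ)))
      = ∑ S ∈ H.powerset, g S + L * ∑ S ∈ H.powerset, g S * ∑ x ∈ S, (4 - (t x : ℝ)) := by
    rw [mul_sum, ← sum_add_distrib]
    apply sum_congr rfl
    intro S _
    ring
  have h3 : ∑ S ∈ H.powerset, g S * ∑ x ∈ S, (4 - (t x : ℝ))
      = ∑ x ∈ H, lam x * (4 - (t x : ℝ)) := by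
    have h4 : ∀ S ∈ H.powerset, g S * ∑ x ∈ S, (4 - (t x : ℝ))
        = ∑ x ∈ H, (if x ∈ S then g S else 0) * (4 - (t x : ℝ)) := by
      intro S hS
      rw [mem_powerset] at hS
      rw [mul_sum, ← sum_subset hS]
      · apply sum_congr rfl
        intro x hx
        rw [if_pos hx]
      · intro x _ hx
        rw [if_neg hx, zero_mul]
    rw [sum_congr rfl h4, sum_comm]
    apply sum_congr rfl
    intro x _
    rw [hl x, sum_mul]
  have h5 : 0 ≤ ∑ x ∈ H, lam x * (4 - (t x : ℝ)) := by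
    have h6 : ∑ x ∈ H, lam x * (4 - (t x : ℝ)) = 4 * ∑ x ∈ H, lam x - ∑ x ∈ H, lam x * (t x : ℝ) := by
      rw [mul_sum, ← sum_sub_distrib]
      apply sum_congr rfl
      intro x _
      ring
    linarith
  rw [h2, h3]
  have := mul_nonneg hL0 h5
  linarith

theorem expect {α : Type} [Fintype α] [DecidableEq α] {K : ℕ} (w f : Fin (K + 1) → ℝ)
    (hw1 : ∑ s, w s = 1) (g : Finset α → ℝ) :
    ∑ τ : α → Fin (K + 1), (∏ x, w (τ x)) * ∑ S : Finset α, g S * ∏ x ∈ S, f (τ x)
      = ∑ S : Finset α, g S * (∑ s, w s * f s) ^ S.card := by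
  simp_rw [mul_sum]
  rw [sum_comm]
  apply sum_congr rfl
  intro S _
  have h1 : ∀ τ : α → Fin (K + 1), (∏ x, w (τ x)) * (g S * ∏ x ∈ S, f (τ x))
      = g S * ∏ x, (w (τ x) * if x ∈ S then f (τ x) else 1) := by
    intro τ
    rw [prod_mul_distrib, prod_ite_mem, univ_inter]
    ring
  rw [sum_congr rfl (fun τ _ => h1 τ), ← mul_sum]
  congr 1
  have h2 : ∏ x : α, ∑ s ∈ (univ : Finset (Fin (K + 1))), (w s * if x ∈ S then f s else 1)
      = ∑ τ : α → Fin (K + 1), ∏ x, (w (τ x) * if x ∈ S then f (τ x) else 1) := by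
    rw [prod_univ_sum, Fintype.piFinset_univ]
  rw [← h2]
  have h3 : ∀ x : α, ∑ s ∈ (univ : Finset (Fin (K + 1))), (w s * if x ∈ S then f s else 1)
      = if x ∈ S then ∑ s, w s * f s else 1 := by
    intro x
    split_ifs
    · rfl
    · simpa using hw1
  rw [prod_congr rfl (fun x _ => h3 x), prod_ite_mem, univ_inter, prod_const]

theorem geo8 (n : ℕ) : ∑ k ∈ range n, (8 : ℝ) ^ k = (8 ^ n - 1) / 7 := by
  rw [geom_sum_eq (by norm_num)]
  norm_num

theorem weights (X : ℝ) (hX0 : 0 < X) (hX1 : X ≤ 1 / 409600) (I : ℕ) :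
    ∃ R : ℕ, ∃ w : Fin (I + R + 1) → ℝ, (∀ s, 0 ≤ w s) ∧ ∑ s, w s = 1 ∧
      (∀ s : Fin (I + R + 1), (s : ℕ) < I + R → X * 8 ^ (s : ℕ) ≤ w s * 8 ^ I) ∧
      ∑ s : Fin (I + R + 1), w s * (1 / 16 ^ ((s : ℕ) - I)) ≤ 4 * X := by
  have hX' : (1 : ℝ) ≤ 1 / X := by
    rw [le_div_iff₀ hX0]; linarith
  obtain ⟨R, hR1, hR2⟩ := exists_nat_pow_near hX' (show (1 : ℝ) < 8 by norm_num)
  have hR1' : (8 : ℝ) ^ R * X ≤ 1 := by
    rw [le_div_iff₀ hX0] at hR1; exact hR1
  have hR2' : 1 < (8 : ℝ) ^ (R + 1) * X := by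
    rw [div_lt_iff₀ hX0] at hR2; exact hR2
  have hR6 : 6 ≤ R := by
    by_contra hcon
    push Not at hcon
    have h1 : (8 : ℝ) ^ (R + 1) ≤ 8 ^ 6 := pow_le_pow_right₀ (by norm_num) (by omega)
    have h2 : (8 : ℝ) ^ (R + 1) * X ≤ 8 ^ 6 * (1 / 409600) :=
      mul_le_mul h1 hX1 hX0.le (by positivity)
    norm_num at h2
    linarith
  have h8I : (0 : ℝ) < 8 ^ I := by positivity
  have hsum : ∑ k ∈ range (I + R), X * 8 ^ k / (8 : ℝ) ^ I ≤ 1 := by
    have h1 : ∑ k ∈ range (I + R), X * 8 ^ k / (8 : ℝ) ^ I = X * ((8 ^ (I + R) - 1) / 7) / 8 ^ I := by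
      rw [← geo8, mul_sum, sum_div]
    rw [h1, div_le_one h8I, pow_add]
    nlinarith
  set wN : ℕ → ℝ := fun s => if s < I + R then X * 8 ^ s / 8 ^ I else
    1 - ∑ k ∈ range (I + R), X * 8 ^ k / (8 : ℝ) ^ I with hwN
  have hwN0 : ∀ s, 0 ≤ wN s := by
    intro s
    simp only [hwN]
    split_ifs
    · positivity
    · linarith
  have hlt : ∀ s, s < I + R → wN s = X * 8 ^ s / 8 ^ I := by
    intro s hs
    simp only [hwN]
    rw [if_pos hs]
  have hlast : wN (I + R) = 1 - ∑ k ∈ range (I + R), X * 8 ^ k / (8 : ℝ) ^ I := by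
    simp only [hwN]
    rw [if_neg (by omega)]
  refine ⟨R, fun s => wN s, fun s => hwN0 s, ?_, ?_, ?_⟩
  · rw [Fin.sum_univ_eq_sum_range wN, sum_range_succ, hlast,
      sum_congr rfl (fun k hk => hlt k (mem_range.1 hk))]
    ring
  · intro s hs
    simp only
    rw [hlt s hs, div_mul_cancel₀ _ h8I.ne']
  · rw [Fin.sum_univ_eq_sum_range (fun s => wN s * (1 / (16 : ℝ) ^ (s - I))), sum_range_succ,
      sum_range_add]
    have h1 : ∑ k ∈ range I, wN k * (1 / (16 : ℝ) ^ (k - I)) ≤ X / 7 := by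
      have h2 : ∀ k ∈ range I, wN k * (1 / (16 : ℝ) ^ (k - I)) = X * 8 ^ k / 8 ^ I := by
        intro k hk
        rw [mem_range] at hk
        rw [hlt k (by omega), show k - I = 0 by omega]
        simp
      rw [sum_congr rfl h2, ← sum_div, ← mul_sum, geo8, div_le_iff₀ h8I]
      nlinarith
    have h2 : ∑ j ∈ range R, wN (I + j) * (1 / (16 : ℝ) ^ (I + j - I)) ≤ 2 * X := by
      have h3 : ∀ j ∈ range R, wN (I + j) * (1 / (16 : ℝ) ^ (I + j - I)) = X * (1 / 2) ^ j := by
        intro j hj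
        rw [mem_range] at hj
        rw [hlt (I + j) (by omega), show I + j - I = j by omega, pow_add,
          show (16 : ℝ) = 8 * 2 by norm_num, mul_pow, one_div_pow]
        have h8j : ((8 : ℝ) ^ j) ≠ 0 := by positivity
        have h2j : ((2 : ℝ) ^ j) ≠ 0 := by positivity
        field_simp
      rw [sum_congr rfl h3, ← mul_sum]
      have h4 : ∑ j ∈ range R, (1 / 2 : ℝ) ^ j ≤ 2 := by
        rw [geom_sum_eq (by norm_num), div_le_iff_of_neg (by norm_num)]
        have : (0 : ℝ) ≤ (1 / 2) ^ R := by positivity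
        linarith
      nlinarith
    have h3 : wN (I + R) * (1 / (16 : ℝ) ^ (I + R - I)) ≤ X / 8 := by
      rw [show I + R - I = R by omega]
      have h4 : wN (I + R) ≤ 1 := by
        rw [hlast]
        have : 0 ≤ ∑ k ∈ range (I + R), X * 8 ^ k / (8 : ℝ) ^ I :=
          sum_nonneg (fun k _ => by positivity)
        linarith
      have h5 : (1 : ℝ) / 16 ^ R ≤ X / 8 := by
        rw [div_le_div_iff₀ (by positivity) (by norm_num)]
        have h6 : (16 : ℝ) ^ R = 8 ^ R * 2 ^ R := by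
          rw [← mul_pow]; norm_num
        have h7 : (64 : ℝ) ≤ 2 ^ R := by
          calc (64 : ℝ) = 2 ^ 6 := by norm_num
            _ ≤ 2 ^ R := pow_le_pow_right₀ (by norm_num) hR6
        rw [h6]
        rw [pow_succ] at hR2'
        have h8 : (0 : ℝ) < 8 ^ R := by positivity
        nlinarith [mul_pos h8 hX0]
      calc wN (I + R) * (1 / (16 : ℝ) ^ R) ≤ 1 * (1 / (16 : ℝ) ^ R) :=
            mul_le_mul_of_nonneg_right h4 (by positivity)
        _ ≤ X / 8 := by rw [one_mul]; exact h5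
    linarith

/-- **S0071 from the capture theorem** -/
theorem s71_of_capture
    (hcap : ∀ {α : Type} [Fintype α] [DecidableEq α] (F : Finset (Finset α))
      (_ : ∀ A ∈ F, ∀ B : Finset α, A ⊆ B → B ∈ F) (_ : ∅ ∉ F) (p : ℝ) (_ : 0 < p)
      (_ : ¬ ∃ G : Finset (Finset α), (∀ H ∈ F, ∃ S ∈ G, S ⊆ H) ∧ ∑ S ∈ G, p ^ S.card ≤ 1 / 2)
      (ℓ : Finset α → α → ℕ) (I K : ℕ) (_ : ∀ H ∈ F, ∀ x ∈ H, ℓ H x ≤ I)
      (_ : ∀ H ∈ F, ∀ i ≤ I, (H.filter (fun x => ℓ H x ≤ i)).card ≤ 16 ^ i)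
      (w : Fin (K + 1) → ℝ) (_ : ∀ s, 0 ≤ w s) (_ : ∑ s, w s = 1)
      (_ : ∀ s : Fin (K + 1), (s : ℕ) < K → 2 ^ 22 * p * 8 ^ (s : ℕ) ≤ w s * 8 ^ I),
      ∃ Gd : Finset (α → Fin (K + 1)), (∀ tau ∈ Gd, ∃ H ∈ F, ∀ i ≤ I, ∀ r < K,
        4 ^ r * (H.filter (fun x => ℓ H x ≤ i ∧ r < (tau x : ℕ))).card ≤ 16 ^ i * 4 ^ I) ∧
        1 / 2 < ∑ tau ∈ Gd, ∏ x, w (tau x))
    (α : Type) [Fintype α] [DecidableEq α] [Nonempty α]
    (F : Finset (Finset α)) (_hne : F.Nonempty) (hempty : ∅ ∉ F)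
    (hup : ∀ A ∈ F, ∀ B : Finset α, A ⊆ B → B ∈ F) (r : ℝ) (hr0 : 0 ≤ r) (hr1 : r ≤ 1)
    (g : Finset α → ℝ) (hg : ∀ S : Finset α, 0 ≤ g S ∧ g S ≤ 1)
    (hcov : ∀ H ∈ F, 1 ≤ ∑ S ∈ H.powerset, g S)
    (hcost : ∑ S : Finset α, g S * r ^ S.card ≤ 1 / 2) :
    ∃ G : Finset (Finset α), (∀ H ∈ F, ∃ S ∈ G, S ⊆ H) ∧
      ∑ S ∈ G, (r / (25 * 512 ^ 4)) ^ S.card ≤ 1 / 2 := by
  classical
  by_contra hno
  -- the case `r = 0`
  rcases hr0.eq_or_lt with h0 | hrpos
  · apply hno
    refine ⟨univ.erase ∅, ?_, ?_⟩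
    · intro H hH
      exact ⟨H, mem_erase.2 ⟨fun h => hempty (h ▸ hH), mem_univ _⟩, subset_rfl⟩
    · rw [← h0]
      have : ∀ S ∈ (univ : Finset (Finset α)).erase ∅, ((0 : ℝ) / (25 * 512 ^ 4)) ^ S.card = 0 := by
        intro S hS
        rw [zero_div]
        apply zero_pow
        have := (mem_erase.1 hS).1
        rwa [Ne, card_eq_zero]
      rw [sum_congr rfl this]
      simp
  set p : ℝ := r / (25 * 512 ^ 4) with hp
  have hp0 : 0 < p := by positivity
  set X : ℝ := 2 ^ 22 * p with hX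
  have hX0 : 0 < X := by positivity
  have hX1 : X ≤ 1 / 409600 := by
    rw [hX, hp]
    rw [mul_div_assoc', div_le_div_iff₀ (by positivity) (by positivity)]
    nlinarith
  have hXr : 16 ^ 4 * (4 * X) ≤ r := by
    rw [hX, hp]
    rw [mul_div_assoc', mul_div_assoc', mul_div_assoc', div_le_iff₀ (by positivity)]
    nlinarith
  -- enumerations and levels
  set lam : Finset α → α → ℝ := fun H x => ∑ S ∈ H.powerset, if x ∈ S then g S else 0 with hlam
  have hlam0 : ∀ H x, 0 ≤ lam H x := by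
    intro H x
    apply sum_nonneg
    intro S _
    split_ifs
    · exact (hg S).1
    · exact le_rfl
  have hen : ∀ H : Finset α, ∃ e : Fin H.card ≃ H, ∀ i j, i ≤ j → lam H (e j) ≤ lam H (e i) :=
    fun H => exists_enum H (lam H)
  choose e he using hen
  set I : ℕ := Fintype.card α with hI
  have hI16 : Fintype.card α ≤ 16 ^ I := by
    rw [← hI]
    exact (Nat.lt_pow_self (by norm_num)).le
  obtain ⟨R, w, hw0, hw1, hwX, hwy⟩ := weights X hX0 hX1 I
  obtain ⟨Gd, hGd, hPr⟩ := hcap F hup hempty p hp0 hno (fun H x => lev H (e H) x) I (I + R)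
    (fun H _ x hx => lev_le H (e H) I hI16 x hx) (fun H _ i _ => lev_card H (e H) i) w hw0 hw1 hwX
  -- expectation
  set f : Fin (I + R + 1) → ℝ := fun s => (16 : ℝ) ^ 4 / 16 ^ ((s : ℕ) - I) with hf
  have hf0 : ∀ s, 0 ≤ f s := fun s => by simp only [hf]; positivity
  have hwf : ∑ s, w s * f s ≤ r := by
    have h1 : ∑ s, w s * f s = 16 ^ 4 * ∑ s : Fin (I + R + 1), w s * (1 / 16 ^ ((s : ℕ) - I)) := by
      rw [mul_sum]
      apply sum_congr rfl
      intro s _
      simp only [hf]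
      ring
    rw [h1]
    refine le_trans ?_ hXr
    exact mul_le_mul_of_nonneg_left hwy (by positivity)
  have hwf0 : 0 ≤ ∑ s, w s * f s := sum_nonneg fun s _ => mul_nonneg (hw0 s) (hf0 s)
  have hE := expect w f hw1 g
  have hEle : ∑ τ : α → Fin (I + R + 1), (∏ x, w (τ x)) * ∑ S : Finset α, g S * ∏ x ∈ S, f (τ x)
      ≤ 1 / 2 := by
    rw [hE]
    refine le_trans (sum_le_sum fun S _ => ?_) hcost
    exact mul_le_mul_of_nonneg_left (pow_le_pow_left₀ hwf0 hwf _) (hg S).1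
  have hwt0 : ∀ τ : α → Fin (I + R + 1), 0 ≤ ∏ x, w (τ x) :=
    fun τ => prod_nonneg fun x _ => hw0 _
  have hPhi0 : ∀ τ : α → Fin (I + R + 1), 0 ≤ ∑ S : Finset α, g S * ∏ x ∈ S, f (τ x) :=
    fun τ => sum_nonneg fun S _ => mul_nonneg (hg S).1 (prod_nonneg fun x _ => hf0 _)
  have hPhi1 : ∀ τ ∈ Gd, 1 ≤ ∑ S : Finset α, g S * ∏ x ∈ S, f (τ x) := by
    intro τ hτ
    obtain ⟨H, hH, hgood⟩ := hGd τ hτ
    have h1 := sum_levels H (lam H) (hlam0 H) (e H) (he H) I R hI16 (fun x => (τ x : ℕ))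
      (fun x => by have := (τ x).2; omega) hgood
    have h2 := low H g (fun S => (hg S).1) (fun x => (τ x : ℕ) - I) (lam H) (fun x => rfl) h1
      (hcov H hH)
    refine h2.trans ?_
    apply sum_le_sum_of_subset_of_nonneg (subset_univ _)
    intro S _ _
    exact mul_nonneg (hg S).1 (prod_nonneg fun x _ => hf0 _)
  have hlow : ∑ τ ∈ Gd, ∏ x, w (τ x)
      ≤ ∑ τ : α → Fin (I + R + 1), (∏ x, w (τ x)) * ∑ S : Finset α, g S * ∏ x ∈ S, f (τ x) := by
    calc ∑ τ ∈ Gd, ∏ x, w (τ x)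
        ≤ ∑ τ ∈ Gd, (∏ x, w (τ x)) * ∑ S : Finset α, g S * ∏ x ∈ S, f (τ x) := by
          apply sum_le_sum
          intro τ hτ
          have := mul_le_mul_of_nonneg_left (hPhi1 τ hτ) (hwt0 τ)
          rwa [mul_one] at this
      _ ≤ _ := by
          apply sum_le_sum_of_subset_of_nonneg (subset_univ _)
          intro τ _ _
          exact mul_nonneg (hwt0 τ) (hPhi0 τ)
  linarith

end TG6S
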