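import Crest.Agent.KK_Pr

/-! Exposure and independence tools on finite product spaces (`KK.Pr`). -/

set_option autoImplicit false

namespace TG6
open Finset KK

variable {X L : Type}

/-- take the coordinates in `P` from `ω`, the others from `ω'` -/
noncomputable def merge (P : X → Prop) (ω ω' : X → L) : X → L := by
  classical
  exact fun x => if P x then ω x else ω' x

theorem merge_of {P : X → Prop} {ω ω' : X → L} {x : X} (h : P x) : merge P ω ω' x = ω x := by
  classical
  simp [merge, h]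

theorem merge_of_not {P : X → Prop} {ω ω' : X → L} {x : X} (h : ¬ P x) :
    merge P ω ω' x = ω' x := by
  classical
  simp [merge, h]

theorem merge_merge_left (P : X → Prop) (ω ω' : X → L) :
    merge P (merge P ω ω') (merge P ω' ω) = ω := by
  funext x
  by_cases h : P x
  · rw [merge_of h, merge_of h]
  · rw [merge_of_not h, merge_of_not h]

variable [Fintype X] [DecidableEq X] [Fintype L]

theorem wt_merge (w : L → ℝ) (P : X → Prop) (ω ω' : X → L) :
    wt w (merge P ω ω') * wt w (merge P ω' ω) = wt w ω * wt w ω' := by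
  unfold wt
  rw [← prod_mul_distrib, ← prod_mul_distrib]
  refine prod_congr rfl fun x _ => ?_
  by_cases h : P x
  · rw [merge_of h, merge_of h]
  · rw [merge_of_not h, merge_of_not h, mul_comm]

/-- the exchange map -/
noncomputable def exch (P : X → Prop) : (X → L) × (X → L) ≃ (X → L) × (X → L) where
  toFun a := (merge P a.1 a.2, merge P a.2 a.1)
  invFun a := (merge P a.1 a.2, merge P a.2 a.1)
  left_inv a := by
    ext1
    · exact merge_merge_left P a.1 a.2
    · exact merge_merge_left P a.2 a.1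
  right_inv a := by
    ext1
    · exact merge_merge_left P a.1 a.2
    · exact merge_merge_left P a.2 a.1

theorem sum_merge (w : L → ℝ) (hw1 : ∑ l, w l = 1) (P : X → Prop) (f : (X → L) → ℝ) :
    ∑ ω : X → L, ∑ ω' : X → L, wt w ω * wt w ω' * f (merge P ω ω') = ∑ ω : X → L, wt w ω * f ω := by
  classical
  rw [← Fintype.sum_prod_type' (f := fun ω ω' : X → L => wt w ω * wt w ω' * f (merge P ω ω'))]
  have h1 : ∑ a : (X → L) × (X → L), wt w a.1 * wt w a.2 * f (merge P a.1 a.2)
      = ∑ a : (X → L) × (X → L), wt w a.1 * wt w a.2 * f a.1 := by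
    rw [← Equiv.sum_comp (exch (L := L) P) (fun a => wt w a.1 * wt w a.2 * f a.1)]
    refine sum_congr rfl fun a _ => ?_
    show wt w a.1 * wt w a.2 * f (merge P a.1 a.2)
      = wt w (merge P a.1 a.2) * wt w (merge P a.2 a.1) * f (merge P a.1 a.2)
    rw [wt_merge]
  rw [h1, Fintype.sum_prod_type' (f := fun ω ω' : X → L => wt w ω * wt w ω' * f ω)]
  refine sum_congr rfl fun ω _ => ?_
  have : ∀ ω' : X → L, wt w ω * wt w ω' * f ω = wt w ω' * (wt w ω * f ω) := fun ω' => by ring
  simp_rw [this]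
  rw [← sum_mul, sum_wt w hw1, one_mul]

theorem Pr_eq_sum (w : L → ℝ) (E : (X → L) → Prop) [DecidablePred E] :
    Pr w E = ∑ ω : X → L, wt w ω * (if E ω then 1 else 0) := by
  unfold Pr
  rw [sum_filter]
  refine sum_congr rfl fun ω _ => ?_
  by_cases h : E ω
  · rw [if_pos h, if_pos h, mul_one]
  · rw [if_neg h, if_neg h, mul_zero]

theorem Pr_le_one (w : L → ℝ) (hw : ∀ l, 0 ≤ w l) (hw1 : ∑ l, w l = 1) (E : (X → L) → Prop) :
    Pr w E ≤ 1 := by
  have h1 := Pr_not w hw1 E
  have h2 := Pr_nonneg w hw (fun ω => ¬ E ω)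
  linarith

/-- resampling: the probability is the average of the conditional probabilities -/
theorem Pr_eq_cond (w : L → ℝ) (hw1 : ∑ l, w l = 1) (P : X → Prop) (E : (X → L) → Prop) :
    Pr w E = ∑ ω : X → L, wt w ω * Pr w (fun ω' => E (merge P ω ω')) := by
  classical
  rw [Pr_eq_sum w E, ← sum_merge w hw1 P]
  refine sum_congr rfl fun ω _ => ?_
  rw [Pr_eq_sum w (fun ω' => E (merge P ω ω')), mul_sum]
  refine sum_congr rfl fun ω' _ => ?_
  ring

/-- conditional union bound -/
theorem Pr_le_of_cond (w : L → ℝ) (hw : ∀ l, 0 ≤ w l) (hw1 : ∑ l, w l = 1) (P : X → Prop)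
    (G E : (X → L) → Prop) (δ : ℝ) (hδ : 0 ≤ δ)
    (h : ∀ ω, G ω → Pr w (fun ω' => E (merge P ω ω')) ≤ δ) :
    Pr w E ≤ Pr w (fun ω => ¬ G ω) + δ := by
  classical
  rw [Pr_eq_cond w hw1 P E, Pr_eq_sum w (fun ω => ¬ G ω)]
  have h2 : δ = ∑ ω : X → L, wt w ω * δ := by
    rw [← sum_mul, sum_wt w hw1, one_mul]
  rw [h2, ← sum_add_distrib]
  refine sum_le_sum fun ω _ => ?_
  rw [← mul_add]
  refine mul_le_mul_of_nonneg_left ?_ (wt_nonneg w hw ω)
  by_cases hG : G ω
  · have := h ω hG
    simp [hG]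
    exact this
  · have := Pr_le_one w hw hw1 (fun ω' => E (merge P ω ω'))
    simp [hG]
    linarith

/-- conditional lower bound -/
theorem le_Pr_of_cond (w : L → ℝ) (hw : ∀ l, 0 ≤ w l) (hw1 : ∑ l, w l = 1) (P : X → Prop)
    (G E : (X → L) → Prop) (c : ℝ)
    (h : ∀ ω, G ω → c ≤ Pr w (fun ω' => E (merge P ω ω'))) :
    c * Pr w G ≤ Pr w E := by
  classical
  rw [Pr_eq_cond w hw1 P E, Pr_eq_sum w G, mul_sum]
  refine sum_le_sum fun ω _ => ?_
  rw [mul_left_comm]
  refine mul_le_mul_of_nonneg_left ?_ (wt_nonneg w hw ω)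
  by_cases hG : G ω
  · simp only [hG, if_true, mul_one]
    exact h ω hG
  · simp only [hG, if_false, mul_zero]
    exact Pr_nonneg w hw _

/-- independence of events which read disjoint sets of coordinates -/
theorem Pr_indep (w : L → ℝ) (hw1 : ∑ l, w l = 1) (P : X → Prop)
    (E F : (X → L) → Prop)
    (hE : ∀ ω ω' : X → L, (∀ x, P x → ω x = ω' x) → (E ω ↔ E ω'))
    (hF : ∀ ω ω' : X → L, (∀ x, ¬ P x → ω x = ω' x) → (F ω ↔ F ω')) :
    Pr w (fun ω => E ω ∧ F ω) = Pr w E * Pr w F := by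
  classical
  rw [Pr_eq_cond w hw1 P (fun ω => E ω ∧ F ω), Pr_eq_sum w E, sum_mul]
  refine sum_congr rfl fun ω _ => ?_
  rw [mul_assoc]
  congr 1
  have h1 : ∀ ω' : X → L, (E (merge P ω ω') ∧ F (merge P ω ω')) ↔ (E ω ∧ F ω') := by
    intro ω'
    rw [hE (merge P ω ω') ω (fun x hx => merge_of hx),
      hF (merge P ω ω') ω' (fun x hx => merge_of_not hx)]
  by_cases hEω : E ω
  · simp only [hEω, if_true, one_mul]
    congr 1
    funext ω'
    exact propext ((h1 ω').trans (by simp [hEω]))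
  · simp only [hEω, if_false, zero_mul]
    have : (fun ω' => E (merge P ω ω') ∧ F (merge P ω ω')) = fun _ : X → L => False := by
      funext ω'
      exact propext ((h1 ω').trans (by simp [hEω]))
    rw [this]
    unfold Pr
    simp

/-- sequential exposure -/
theorem seq_exposure (w : L → ℝ) (hw : ∀ l, 0 ≤ w l) (hw1 : ∑ l, w l = 1) (r : X → ℕ)
    (Good : ℕ → (X → L) → Prop) (δ : ℕ → ℝ) (hδ : ∀ j, 0 ≤ δ j) (m : ℕ)
    (h0 : ∀ ω, Good 0 ω)
    (hstep : ∀ j < m, ∀ ω, Good j ω →
      Pr w (fun ω' => ¬ Good (j + 1) (merge (fun x => r x < j) ω ω')) ≤ δ j) :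
    Pr w (fun ω => ¬ Good m ω) ≤ ∑ j ∈ range m, δ j := by
  induction m with
  | zero =>
    have : (fun ω : X → L => ¬ Good 0 ω) = fun _ => False := by
      funext ω
      exact propext ⟨fun h => h (h0 ω), False.elim⟩
    rw [this]
    unfold Pr
    simp
  | succ m ih =>
    rw [sum_range_succ]
    have h1 := Pr_le_of_cond w hw hw1 (fun x => r x < m) (Good m) (fun ω => ¬ Good (m + 1) ω) (δ m)
      (hδ m) (fun ω hω => hstep m (Nat.lt_succ_self m) ω hω)
    have h2 := ih (fun j hj => hstep j (Nat.lt_succ_of_lt hj))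
    linarith

end TG6
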