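import Mathlib
import Crest.Agent.TG5_M
import Crest.Agent.TG_Thin
import Crest.Agent.TG_FlowD
import Crest.Agent.TG_Quench

set_option autoImplicit false
set_option linter.unusedSectionVars false

/-! The cut condition for the depth-one flow, and the quenched depth-one matching. -/

namespace Crest.TG6c

open Finset Crest.TG5

variable {J : Type*} [Fintype J] [DecidableEq J]

/-- the binomial weight -/
noncomputable def mu (q : ℝ) (R : Finset J) : ℝ :=
  q ^ R.card * (1 - q) ^ (Fintype.card J - R.card)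

theorem mu_nonneg {q : ℝ} (h0 : 0 ≤ q) (h1 : q ≤ 1) (R : Finset J) : 0 ≤ mu q R :=
  mul_nonneg (pow_nonneg h0 _) (pow_nonneg (by linarith) _)

theorem M_univ (q : ℝ) (f : Finset J → ℝ) : M q univ f = ∑ R, mu q R * f R := by
  unfold M mu
  rw [Finset.powerset_univ, Finset.card_univ]

theorem M_sum {ι : Type*} (q : ℝ) (s : Finset J) (S : Finset ι) (f : ι → Finset J → ℝ) :
    M q s (fun X => ∑ x ∈ S, f x X) = ∑ x ∈ S, M q s (f x) := by
  unfold M
  rw [Finset.sum_comm]
  exact Finset.sum_congr rfl fun X _ => Finset.mul_sum _ _ _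

theorem cut {ι : Type*} (lam : ι → ℝ) (t : ι → Finset J) (hlam : ∀ x, 0 ≤ lam x)
    (p2 q : ℝ) (hp2 : 0 < p2) (hp2q : p2 ≤ q) (hq : q ≤ 1) (D : ℕ)
    (hD : ∀ x, lam x ≠ 0 → (t x).card ≤ D) (N C M₀ : ℝ) (hC : 0 < C) (hM0 : 0 < M₀)
    (hNC : 2 * N ≤ C) (hM : 2 ≤ M₀ * p2 ^ (2 * D)) (S : Finset ι)
    (hdom : ∀ (P : Finset J → Prop) [DecidablePred P], (∀ A B : Finset J, A ⊆ B → P A → P B) →
      ∑ x ∈ S, lam x * M p2 univ (fun R => if P (t x ∪ R) then (1:ℝ) else 0)
        ≤ N * M q univ (fun R => if P R then (1:ℝ) else 0))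
    (T : Finset (Finset J)) :
    ∑ x ∈ S, lam x ≤ C * ∑ R ∈ T, mu q R
      + M₀ * ∑ x ∈ S, ∑ R ∈ Tᶜ, (if t x ⊆ R then lam x * mu q R else 0) := by
  classical
  have hq0 : 0 < q := hp2.trans_le hp2q
  have hp1 : p2 ≤ 1 := hp2q.trans hq
  set a : ℝ := ∑ x ∈ S, lam x with ha
  have ha0 : 0 ≤ a := Finset.sum_nonneg fun x _ => hlam x
  set Z : Finset J → ℝ := fun R => ∑ x ∈ S, if t x ⊆ R then lam x else 0 with hZ
  have hZ0 : ∀ R, 0 ≤ Z R := fun R => Finset.sum_nonneg fun x _ => by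
    split_ifs
    · exact hlam x
    · exact le_rfl
  have hZa : ∀ R, Z R ≤ a := fun R => Finset.sum_le_sum fun x _ => by
    split_ifs
    · exact le_rfl
    · exact hlam x
  have hZmono : ∀ A B : Finset J, A ⊆ B → Z A ≤ Z B := fun A B hAB =>
    Finset.sum_le_sum fun x _ => by
      by_cases h : t x ⊆ A
      · rw [if_pos h, if_pos (h.trans hAB)]
      · rw [if_neg h]
        split_ifs
        · exact hlam x
        · exact le_rfl
  -- the right side is at least `E min (C, M₀ Z)`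
  have hR : M q univ (fun R => min C (M₀ * Z R)) ≤ C * ∑ R ∈ T, mu q R
      + M₀ * ∑ x ∈ S, ∑ R ∈ Tᶜ, (if t x ⊆ R then lam x * mu q R else 0) := by
    rw [M_univ, ← Finset.sum_add_sum_compl T]
    refine add_le_add ?_ ?_
    · rw [Finset.mul_sum]
      refine Finset.sum_le_sum fun R _ => ?_
      rw [mul_comm]
      exact mul_le_mul_of_nonneg_right (min_le_left _ _) (mu_nonneg hq0.le hq R)
    · rw [Finset.sum_comm, Finset.mul_sum]
      refine Finset.sum_le_sum fun R _ => ?_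
      have h1 : ∑ x ∈ S, (if t x ⊆ R then lam x * mu q R else 0) = Z R * mu q R := by
        rw [hZ, Finset.sum_mul]
        refine Finset.sum_congr rfl fun x _ => ?_
        split_ifs
        · rfl
        · rw [zero_mul]
      rw [h1]
      calc mu q R * min C (M₀ * Z R) ≤ mu q R * (M₀ * Z R) :=
            mul_le_mul_of_nonneg_left (min_le_right _ _) (mu_nonneg hq0.le hq R)
        _ = M₀ * (Z R * mu q R) := by ring
  refine le_trans ?_ hR
  have hpD : 0 < p2 ^ D := pow_pos hp2 D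
  have hpD1 : p2 ^ D ≤ 1 := pow_le_one₀ hp2.le hp1
  -- step 1
  have step1 : ∀ ε : ℝ, 0 ≤ ε →
      p2 ^ D * a ≤ p2 ^ D * (N * M q univ (fun R => if ε < Z R then (1:ℝ) else 0)) + ε := by
    intro ε hε
    have hd := hdom (fun R => ε < Z R) (fun A B hAB h => lt_of_lt_of_le h (hZmono A B hAB))
    have h2 : p2 ^ D * ∑ x ∈ S, lam x * M p2 univ (fun R => if Z (t x ∪ R) ≤ ε then (1:ℝ) else 0)
        ≤ ε := by
      have h3 : ∀ x ∈ S, p2 ^ D * (lam x * M p2 univ
          (fun R => if Z (t x ∪ R) ≤ ε then (1:ℝ) else 0)) ≤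
          M p2 univ (fun X => lam x * (if t x ⊆ X then (if Z X ≤ ε then (1:ℝ) else 0) else 0)) := by
        intro x _
        rw [M_smul]
        by_cases hx : lam x = 0
        · rw [hx]; simp
        · have hc := M_cond p2 univ (t x) (Finset.subset_univ _)
            (fun X => if Z X ≤ ε then (1:ℝ) else 0)
          rw [hc]
          have hM1 : 0 ≤ M p2 univ (fun R => if Z (t x ∪ R) ≤ ε then (1:ℝ) else 0) :=
            M_nonneg hp2.le hp1 _ fun X _ => by split_ifs <;> norm_num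
          have hpt : p2 ^ D ≤ p2 ^ (t x).card := pow_le_pow_of_le_one hp2.le hp1 (hD x hx)
          calc p2 ^ D * (lam x * M p2 univ (fun R => if Z (t x ∪ R) ≤ ε then (1:ℝ) else 0))
              = lam x * (p2 ^ D * M p2 univ (fun R => if Z (t x ∪ R) ≤ ε then (1:ℝ) else 0)) := by
                ring
            _ ≤ _ := mul_le_mul_of_nonneg_left
                (mul_le_mul_of_nonneg_right hpt hM1) (hlam x)
      rw [Finset.mul_sum]
      refine (Finset.sum_le_sum h3).trans ?_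
      rw [← M_sum]
      calc M p2 univ (fun X => ∑ x ∈ S,
            lam x * (if t x ⊆ X then (if Z X ≤ ε then (1:ℝ) else 0) else 0))
          ≤ M p2 univ (fun _ => ε) := by
            refine M_mono hp2.le hp1 _ fun X _ => ?_
            by_cases hX : Z X ≤ ε
            · have : ∑ x ∈ S, lam x * (if t x ⊆ X then (if Z X ≤ ε then (1:ℝ) else 0) else 0)
                  = Z X := by
                rw [hZ]
                refine Finset.sum_congr rfl fun x _ => ?_
                rw [if_pos hX]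
                split_ifs <;> simp
              rw [this]; exact hX
            · have : ∑ x ∈ S, lam x * (if t x ⊆ X then (if Z X ≤ ε then (1:ℝ) else 0) else 0)
                  = 0 := by
                refine Finset.sum_eq_zero fun x _ => ?_
                rw [if_neg hX]
                split_ifs <;> simp
              rw [this]; exact hε
        _ = ε := M_const _ _ _
    have h4 : a = ∑ x ∈ S, lam x * M p2 univ (fun R => if ε < Z (t x ∪ R) then (1:ℝ) else 0)
        + ∑ x ∈ S, lam x * M p2 univ (fun R => if Z (t x ∪ R) ≤ ε then (1:ℝ) else 0) := by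
      rw [← Finset.sum_add_distrib, ha]
      refine Finset.sum_congr rfl fun x _ => ?_
      rw [← mul_add, ← M_add]
      have : M p2 (univ : Finset J) (fun X => (if ε < Z (t x ∪ X) then (1:ℝ) else 0)
          + (if Z (t x ∪ X) ≤ ε then (1:ℝ) else 0)) = M p2 (univ : Finset J) (fun _ => (1:ℝ)) := by
        refine M_congr _ _ fun X _ => ?_
        by_cases h : ε < Z (t x ∪ X)
        · rw [if_pos h, if_neg (not_le.2 h)]; norm_num
        · rw [if_neg h, if_pos (not_lt.1 h)]; norm_num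
      rw [this, M_const, mul_one]
    calc p2 ^ D * a = p2 ^ D * ∑ x ∈ S, lam x *
          M p2 univ (fun R => if ε < Z (t x ∪ R) then (1:ℝ) else 0)
          + p2 ^ D * ∑ x ∈ S, lam x *
            M p2 univ (fun R => if Z (t x ∪ R) ≤ ε then (1:ℝ) else 0) := by
            conv_lhs => rw [h4]
            rw [mul_add]
      _ ≤ _ := add_le_add (mul_le_mul_of_nonneg_left hd hpD.le) h2
  have hMq0 : ∀ ε : ℝ, 0 ≤ M q univ (fun R => if ε < Z R then (1:ℝ) else 0) := fun ε =>
    M_nonneg hq0.le hq _ fun X _ => by split_ifs <;> norm_num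
  rcases le_or_gt (2 * C) (p2 ^ D * a * M₀) with hbig | hsmall
  · -- big case
    have hs := step1 (C / M₀) (by positivity)
    have h5 : C / M₀ ≤ p2 ^ D * a / 2 := by
      rw [div_le_iff₀ hM0]; linarith
    have h6 : p2 ^ D * a ≤ p2 ^ D *
        (2 * N * M q univ (fun R => if C / M₀ < Z R then (1:ℝ) else 0)) := by
      nlinarith
    have h7 : a ≤ 2 * N * M q univ (fun R => if C / M₀ < Z R then (1:ℝ) else 0) :=
      le_of_mul_le_mul_left h6 hpD
    refine h7.trans ?_
    calc 2 * N * M q univ (fun R => if C / M₀ < Z R then (1:ℝ) else 0)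
        ≤ C * M q univ (fun R => if C / M₀ < Z R then (1:ℝ) else 0) :=
          mul_le_mul_of_nonneg_right hNC (hMq0 _)
      _ = M q univ (fun R => C * (if C / M₀ < Z R then (1:ℝ) else 0)) := (M_smul _ _ _ _).symm
      _ ≤ M q univ (fun R => min C (M₀ * Z R)) := by
          refine M_mono hq0.le hq _ fun X _ => ?_
          by_cases h : C / M₀ < Z X
          · rw [if_pos h, mul_one]
            refine le_min le_rfl ?_
            rw [div_lt_iff₀ hM0] at h
            linarith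
          · rw [if_neg h, mul_zero]
            exact le_min hC.le (mul_nonneg hM0.le (hZ0 X))
  · -- small case
    have h8 : ∀ X : Finset J, p2 ^ D / 2 * (M₀ * Z X) ≤ min C (M₀ * Z X) := by
      intro X
      have h9 : 0 ≤ M₀ * Z X := mul_nonneg hM0.le (hZ0 X)
      refine le_min ?_ ?_
      · have h10 : p2 ^ D * (M₀ * Z X) ≤ p2 ^ D * (M₀ * a) :=
          mul_le_mul_of_nonneg_left (mul_le_mul_of_nonneg_left (hZa X) hM0.le) hpD.le
        nlinarith
      · nlinarith
    have h11 : p2 ^ D * a ≤ M q univ Z := by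
      have h12 : M q univ Z = ∑ x ∈ S, M q univ (fun X => if t x ⊆ X then lam x else 0) := by
        rw [← M_sum]
      rw [h12, ha, Finset.mul_sum]
      refine Finset.sum_le_sum fun x _ => ?_
      have h13 := M_cond q univ (t x) (Finset.subset_univ _) (fun _ => lam x)
      rw [h13, M_const]
      by_cases hx : lam x = 0
      · rw [hx]; simp
      · refine mul_le_mul_of_nonneg_right ?_ (hlam x)
        calc p2 ^ D ≤ p2 ^ (t x).card := pow_le_pow_of_le_one hp2.le hp1 (hD x hx)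
          _ ≤ q ^ (t x).card := pow_le_pow_left₀ hp2.le hp2q _
    calc a ≤ (M₀ * p2 ^ (2 * D)) / 2 * a := by nlinarith
      _ = p2 ^ D / 2 * M₀ * (p2 ^ D * a) := by rw [two_mul, pow_add]; ring
      _ ≤ p2 ^ D / 2 * M₀ * M q univ Z := mul_le_mul_of_nonneg_left h11 (by positivity)
      _ = M q univ (fun X => p2 ^ D / 2 * M₀ * Z X) := (M_smul _ _ _ _).symm
      _ ≤ M q univ (fun R => min C (M₀ * Z R)) := by
          refine M_mono hq0.le hq _ fun X _ => ?_
          have := h8 X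
          linarith [this, (by ring : p2 ^ D / 2 * M₀ * Z X = p2 ^ D / 2 * (M₀ * Z X))]

/-- law of the `θ`-thinning of `Y v` -/
noncomputable def lam {V : Type*} (θ : ℝ) (Y : V → Finset J) (v : V) (t : Finset J) : ℝ :=
  if t ⊆ Y v then θ ^ t.card * (1 - θ) ^ ((Y v).card - t.card) else 0

theorem lam_nonneg {V : Type*} {θ : ℝ} (h0 : 0 ≤ θ) (h1 : θ ≤ 1) (Y : V → Finset J) (v : V)
    (t : Finset J) : 0 ≤ lam θ Y v t := by
  unfold lam
  split_ifs
  · exact mul_nonneg (pow_nonneg h0 _) (pow_nonneg (by linarith) _)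
  · exact le_rfl

theorem lam_sum {V : Type*} (θ : ℝ) (Y : V → Finset J) (v : V) (f : Finset J → ℝ) :
    ∑ t, lam θ Y v t * f t = M θ (Y v) f := by
  unfold lam M
  have : ∀ t : Finset J, (if t ⊆ Y v then θ ^ t.card * (1 - θ) ^ ((Y v).card - t.card) else 0)
      * f t = if t ∈ (Y v).powerset then θ ^ t.card * (1 - θ) ^ ((Y v).card - t.card) * f t
        else 0 := by
    intro t
    simp only [Finset.mem_powerset]
    split_ifs
    · rfl
    · rw [zero_mul]
  rw [Finset.sum_congr rfl fun t _ => this t]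
  rw [Finset.sum_ite_mem, Finset.univ_inter]

theorem lam_total {V : Type*} (θ : ℝ) (Y : V → Finset J) (v : V) : ∑ t, lam θ Y v t = 1 := by
  have := lam_sum θ Y v (fun _ => 1)
  rw [M_const] at this
  simpa using this

/-- domination, unnormalised form. -/
theorem dom0 {V : Type*} [Fintype V] [DecidableEq V] (Y : V → Finset J) (θ τ0 p N : ℝ)
    (hθ0 : 0 ≤ θ) (hθ1 : θ < 1) (hτ0 : 0 ≤ τ0) (hp0 : 0 ≤ p) (hp1 : p < 1) (hN : 0 < N)
    (hodds : θ / (1 - θ) * τ0 ≤ p / (1 - p)) (hV : (Fintype.card V : ℝ) ≤ N)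
    (hS : ∀ S : Finset J, S.Nonempty →
      ((univ.filter (fun v => S ⊆ Y v)).card : ℝ) ≤ N * τ0 ^ S.card)
    (P : Finset J → Prop) [DecidablePred P] (hP : ∀ A B : Finset J, A ⊆ B → P A → P B) :
    ∑ v, ∑ t, lam θ Y v t * (if P t then (1:ℝ) else 0)
      ≤ N * M p univ (fun R => if P R then (1:ℝ) else 0) := by
  classical
  set w : Option V → ℝ := fun o => o.elim (1 - Fintype.card V / N) (fun _ => 1 / N) with hw
  set Y' : Option V → Finset J := fun o => o.elim ∅ Y with hY'
  have hw0 : ∀ o ∈ (univ : Finset (Option V)), 0 ≤ w o := by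
    intro o _
    rcases o with _ | v
    · simp only [hw, Option.elim]
      rw [sub_nonneg, div_le_one hN]; exact hV
    · simp only [hw, Option.elim]; positivity
  have hw1 : ∑ o ∈ (univ : Finset (Option V)), w o = 1 := by
    rw [Fintype.sum_option]
    simp only [hw, Option.elim]
    rw [Finset.sum_const, Finset.card_univ, nsmul_eq_mul]
    field_simp
    ring
  have hsp : ∀ S : Finset J, S.Nonempty →
      ∑ o ∈ (univ : Finset (Option V)) with S ⊆ Y' o, w o ≤ τ0 ^ S.card := by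
    intro S hne
    rw [Finset.sum_filter, Fintype.sum_option]
    have h0 : ¬ S ⊆ Y' none := by
      simp only [hY', Option.elim]
      intro h
      exact hne.ne_empty (Finset.subset_empty.1 h)
    rw [if_neg h0, zero_add]
    simp only [hY', hw, Option.elim]
    rw [← Finset.sum_filter, Finset.sum_const, nsmul_eq_mul, mul_one_div, div_le_iff₀ hN]
    have := hS S hne
    linarith
  have key := Crest.TG.thin_dom (univ : Finset (Option V)) w hw0 hw1 Y' θ τ0 p hθ0 hθ1 hτ0 hp0 hp1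
    hodds hsp (univ.filter P) (by
      intro A hA B hAB
      simp only [Finset.mem_filter, Finset.mem_univ, true_and] at hA ⊢
      exact hP A B hAB hA)
  rw [Fintype.sum_option] at key
  have h0 : 0 ≤ w none * ∑ A ∈ (Y' none).powerset with A ∈ univ.filter P,
      θ ^ A.card * (1 - θ) ^ ((Y' none).card - A.card) := by
    refine mul_nonneg (hw0 none (Finset.mem_univ _)) (Finset.sum_nonneg fun A _ => ?_)
    exact mul_nonneg (pow_nonneg hθ0 _) (pow_nonneg (by linarith) _)
  have h1 : ∀ v, w (some v) * ∑ A ∈ (Y' (some v)).powerset with A ∈ univ.filter P,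
      θ ^ A.card * (1 - θ) ^ ((Y' (some v)).card - A.card)
      = 1 / N * ∑ t, lam θ Y v t * (if P t then (1:ℝ) else 0) := by
    intro v
    rw [lam_sum]
    simp only [hw, hY', Option.elim, M]
    congr 1
    rw [Finset.sum_filter]
    refine Finset.sum_congr rfl fun A _ => ?_
    simp only [Finset.mem_filter, Finset.mem_univ, true_and]
    split_ifs <;> simp
  rw [Finset.sum_congr rfl fun v _ => h1 v, ← Finset.mul_sum] at key
  have h2 : M p univ (fun R => if P R then (1:ℝ) else 0)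
      = ∑ R ∈ univ.filter P, p ^ R.card * (1 - p) ^ (Fintype.card J - R.card) := by
    rw [M_univ, Finset.sum_filter]
    refine Finset.sum_congr rfl fun R _ => ?_
    unfold mu
    split_ifs <;> simp
  rw [h2]
  have h3 : 1 / N * ∑ v, ∑ t, lam θ Y v t * (if P t then (1:ℝ) else 0)
      ≤ ∑ R ∈ univ.filter P, p ^ R.card * (1 - p) ^ (Fintype.card J - R.card) := by linarith
  rw [one_div, inv_mul_le_iff₀ hN] at h3
  exact h3

/-- domination with noise. -/
theorem dom_noise {V : Type*} [Fintype V] [DecidableEq V] (Y : V → Finset J) (θ τ0 p p2 N : ℝ)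
    (hθ0 : 0 ≤ θ) (hθ1 : θ < 1) (hτ0 : 0 ≤ τ0) (hp0 : 0 ≤ p) (hp1 : p < 1) (hN : 0 < N)
    (hp20 : 0 ≤ p2) (hp21 : p2 ≤ 1)
    (hodds : θ / (1 - θ) * τ0 ≤ p / (1 - p)) (hV : (Fintype.card V : ℝ) ≤ N)
    (hS : ∀ S : Finset J, S.Nonempty →
      ((univ.filter (fun v => S ⊆ Y v)).card : ℝ) ≤ N * τ0 ^ S.card)
    (P : Finset J → Prop) [DecidablePred P] (hP : ∀ A B : Finset J, A ⊆ B → P A → P B) :
    ∑ v, ∑ t, lam θ Y v t * M p2 univ (fun R => if P (t ∪ R) then (1:ℝ) else 0)
      ≤ N * M (p + p2 - p * p2) univ (fun R => if P R then (1:ℝ) else 0) := by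
  classical
  have h1 : ∑ v, ∑ t, lam θ Y v t * M p2 univ (fun R => if P (t ∪ R) then (1:ℝ) else 0)
      = ∑ R : Finset J, mu p2 R * ∑ v, ∑ t, lam θ Y v t * (if P (t ∪ R) then (1:ℝ) else 0) := by
    simp only [M_univ, Finset.mul_sum]
    rw [Finset.sum_congr rfl fun v _ => Finset.sum_comm]
    rw [Finset.sum_comm]
    refine Finset.sum_congr rfl fun R _ => Finset.sum_congr rfl fun v _ =>
      Finset.sum_congr rfl fun t _ => by ring
  rw [h1]
  have h2 : ∀ R : Finset J, ∑ v, ∑ t, lam θ Y v t * (if P (t ∪ R) then (1:ℝ) else 0)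
      ≤ N * M p univ (fun A => if P (A ∪ R) then (1:ℝ) else 0) := fun R =>
    dom0 Y θ τ0 p N hθ0 hθ1 hτ0 hp0 hp1 hN hodds hV hS (fun t => P (t ∪ R))
      (fun A B hAB h => hP _ _ (Finset.union_subset_union_left hAB) h)
  have hmu : ∀ R : Finset J, 0 ≤ mu p2 R := mu_nonneg hp20 hp21
  refine (Finset.sum_le_sum fun R _ => mul_le_mul_of_nonneg_left (h2 R) (hmu R)).trans
    (le_of_eq ?_)
  rw [← M_union p p2 univ]
  simp only [M_univ, Finset.mul_sum]
  rw [Finset.sum_comm]
  refine Finset.sum_congr rfl fun R _ => Finset.sum_congr rfl fun v _ => by ring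

/-- The depth-one flow (functions `f v t r` in the form of `quenched`). -/
theorem gamma_flow {V : Type*} [Fintype V] [DecidableEq V] (Y : V → Finset J)
    (θ τ0 p p2 N C M₀ : ℝ) (D : ℕ)
    (hθ0 : 0 ≤ θ) (hθ1 : θ < 1) (hτ0 : 0 ≤ τ0) (hp0 : 0 ≤ p) (hp1 : p < 1) (hN : 0 < N)
    (hp20 : 0 < p2) (hp21 : p2 ≤ 1)
    (hodds : θ / (1 - θ) * τ0 ≤ p / (1 - p)) (hV : (Fintype.card V : ℝ) ≤ N)
    (hD : ∀ v, (Y v).card ≤ D)
    (hS : ∀ S : Finset J, S.Nonempty →
      ((univ.filter (fun v => S ⊆ Y v)).card : ℝ) ≤ N * τ0 ^ S.card)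
    (hNC : 2 * N ≤ C) (hM0 : 0 < M₀) (hM : 2 ≤ M₀ * p2 ^ (2 * D)) :
    ∃ f : V → Finset J → Finset J → ℝ, (∀ v t r, 0 ≤ f v t r) ∧ (∀ v t r, f v t r ≤ M₀) ∧
      (∀ v t r, f v t r ≠ 0 → t ⊆ r) ∧
      (∀ v t, lam θ Y v t ≠ 0 → 1 ≤ ∑ r, mu (p + p2 - p * p2) r * f v t r) ∧
      ∀ r, ∑ v, ∑ t, lam θ Y v t * f v t r ≤ C := by
  classical
  set q : ℝ := p + p2 - p * p2 with hq
  have hp2q : p2 ≤ q := by rw [hq]; nlinarith
  have hq1 : q ≤ 1 := by rw [hq]; nlinarith
  have hq0 : 0 ≤ q := hp20.le.trans hp2q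
  have hC : 0 < C := by linarith
  set a : V × Finset J → ℝ := fun x => lam θ Y x.1 x.2 with ha
  have ha0 : ∀ x, 0 ≤ a x := fun x => lam_nonneg hθ0 hθ1.le Y x.1 x.2
  have haD : ∀ x, a x ≠ 0 → (x.2 : Finset J).card ≤ D := by
    intro x hx
    have : x.2 ⊆ Y x.1 := by
      by_contra h
      exact hx (by simp only [ha, lam]; rw [if_neg h])
    exact (Finset.card_le_card this).trans (hD _)
  have hcut : ∀ (S : Finset (V × Finset J)) (T : Finset (Finset J)),
      ∑ x ∈ S, a x ≤ C * ∑ R ∈ T, mu q R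
        + M₀ * ∑ x ∈ S, ∑ R ∈ Tᶜ, (if x.2 ⊆ R then a x * mu q R else 0) := by
    intro S T
    refine cut a (fun x => x.2) ha0 p2 q hp20 hp2q hq1 D haD N C M₀ hC hM0 hNC hM S ?_ T
    intro P _ hP
    have h1 := dom_noise Y θ τ0 p p2 N hθ0 hθ1 hτ0 hp0 hp1 hN hp20.le hp21 hodds hV hS P hP
    refine le_trans ?_ h1
    have h2 : ∑ v, ∑ t, lam θ Y v t * M p2 univ (fun R => if P (t ∪ R) then (1:ℝ) else 0)
        = ∑ x : V × Finset J, a x * M p2 univ (fun R => if P (x.2 ∪ R) then (1:ℝ) else 0) := by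
      rw [Fintype.sum_prod_type]
    rw [h2]
    refine Finset.sum_le_sum_of_subset_of_nonneg (Finset.subset_univ _) fun x _ _ => ?_
    refine mul_nonneg (ha0 x) (M_nonneg hp20.le hp21 _ fun X _ => ?_)
    split_ifs <;> norm_num
  obtain ⟨f, hf1, hf2, hf3, hf4⟩ := Crest.TG.FlowD.flow a (fun R => mu q R)
    (fun x R => x.2 ⊆ R) M₀ C ha0 (mu_nonneg hq0 hq1) hM0.le hC.le hcut
  refine ⟨fun v t r => if 0 < mu q r then f (v, t) r else 0, ?_, ?_, ?_, ?_, ?_⟩
  · intro v t r
    dsimp only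
    split_ifs
    · exact (hf1 _ _).1
    · exact le_rfl
  · intro v t r
    dsimp only
    split_ifs
    · exact (hf1 _ _).2
    · exact hM0.le
  · intro v t r h
    by_contra hn
    apply h
    dsimp only
    rw [hf2 (v, t) r hn]
    simp
  · intro v t h
    have h1 := hf3 (v, t) (lt_of_le_of_ne (ha0 (v, t)) (Ne.symm h))
    rw [← h1]
    refine le_of_eq (Finset.sum_congr rfl fun r _ => ?_)
    dsimp only
    split_ifs with h2
    · rfl
    · have : mu q r = 0 := le_antisymm (not_lt.1 h2) (mu_nonneg hq0 hq1 r)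
      rw [this]; ring
  · intro r
    by_cases h2 : 0 < mu q r
    · simp only [if_pos h2]
      have h3 := hf4 r h2
      rw [Fintype.sum_prod_type] at h3
      exact h3
    · simp only [if_neg h2, mul_zero, Finset.sum_const_zero]
      exact hC.le

/-- Depth one, quenched matching: random thinned types `τ v` of law `lam θ Y v`, rows `ρ w` of
law `mu q`, `q = p + p2 - p p2`; with high probability all types embed injectively in rows. -/
theorem gamma_core {V W : Type*} [Fintype V] [Fintype W] [DecidableEq V] [DecidableEq W]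
    (Y : V → Finset J) (θ τ0 p p2 N M₀ : ℝ) (D : ℕ)
    (hθ0 : 0 ≤ θ) (hθ1 : θ < 1) (hτ0 : 0 ≤ τ0) (hp0 : 0 ≤ p) (hp1 : p < 1) (hN : 0 < N)
    (hp20 : 0 < p2) (hp21 : p2 ≤ 1)
    (hodds : θ / (1 - θ) * τ0 ≤ p / (1 - p)) (hV : (Fintype.card V : ℝ) ≤ N)
    (hD : ∀ v, (Y v).card ≤ D)
    (hS : ∀ S : Finset J, S.Nonempty →
      ((univ.filter (fun v => S ⊆ Y v)).card : ℝ) ≤ N * τ0 ^ S.card)
    (hW : 16 * N ≤ Fintype.card W) (hM0 : 0 < M₀) (hM : 2 ≤ M₀ * p2 ^ (2 * D))
    (Q : (V → Finset J) → (W → Finset J) → Prop) [∀ τ ρ, Decidable (Q τ ρ)]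
    (hQ : ∀ τ ρ, (∃ g : V → W, Function.Injective g ∧ ∀ v, τ v ⊆ ρ (g v)) → Q τ ρ) :
    1 - ((Fintype.card V : ℝ) + Fintype.card W) *
        Real.exp (-((Fintype.card W : ℝ) / (8 * M₀))) ≤
      ∑ τ : V → Finset J, ∑ ρ : W → Finset J,
        (∏ v, lam θ Y v (τ v)) * (∏ w, mu (p + p2 - p * p2) (ρ w)) *
        (if Q τ ρ then 1 else 0) := by
  classical
  have hp2q : p2 ≤ p + p2 - p * p2 := by nlinarith
  have hq1 : p + p2 - p * p2 ≤ 1 := by nlinarith
  have hq0 : 0 ≤ p + p2 - p * p2 := hp20.le.trans hp2q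
  obtain ⟨f, hf0, hfM, hfs, hrow, hcol⟩ := gamma_flow Y θ τ0 p p2 N ((Fintype.card W : ℝ) / 8) M₀ D
    hθ0 hθ1 hτ0 hp0 hp1 hN hp20 hp21 hodds hV hD hS (by linarith) hM0 hM
  have hWpos : 0 < Fintype.card W := by
    have : (0:ℝ) < Fintype.card W := by linarith
    exact_mod_cast this
  have hmu1 : ∑ r : Finset J, mu (p + p2 - p * p2) r = 1 := by
    have := M_const (p + p2 - p * p2) (univ : Finset J) 1
    rw [M_univ] at this
    simpa using this
  exact Crest.TG.quenched M₀ hM0 hWpos (lam θ Y) (fun v t => lam_nonneg hθ0 hθ1.le Y v t)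
    (lam_total θ Y) (mu (p + p2 - p * p2)) (mu_nonneg hq0 hq1) hmu1 f hf0 hfM hrow hcol Q
    (fun τ ρ ⟨g, hg, h⟩ => hQ τ ρ ⟨g, hg, fun v => hfs _ _ _ (h v).ne'⟩)

end Crest.TG6c
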