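import Mathlib
import Crest.Agent.TG6c_Cut
import Crest.Agent.TG55_AD
import Crest.Agent.TG94_Num

set_option autoImplicit false
set_option linter.unusedSectionVars false

/-! `AD` (abstract depth-one statement of S0073) by the flow route. -/

namespace Crest.TG6c

open Finset Crest.TG5

theorem AD_flow : Crest.TG55.AD := by
  classical
  have hev : ∀ᶠ n : ℕ in Filter.atTop,
      (n : ℝ) ^ 1 * Real.exp (-((1 / 32 : ℝ) * (n : ℝ) ^ (49 / 50 : ℝ))) ≤ 1 / 2564 :=
    Crest.TG94.ev_pow_exp_le (by norm_num) (by norm_num) (by norm_num) 1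
  obtain ⟨n1, hn1⟩ := Filter.eventually_atTop.1 hev
  refine ⟨641, 2, max n1 4, by norm_num, le_rfl, ?_⟩
  intro n hn J V _ _ _ _ Y q D b hq hLq _hJ hD hqD hV hS hnb hbn Q _ hQ
  have hnn1 : n1 ≤ n := (le_max_left _ _).trans hn
  have hn4 : 4 ≤ n := (le_max_right _ _).trans hn
  have hnR : (4 : ℝ) ≤ n := by exact_mod_cast hn4
  have hn0 : (0 : ℝ) < n := by linarith
  have hnbR : (n : ℝ) ≤ 2 * b := by exact_mod_cast hnb
  have hbnR : (b : ℝ) ≤ n := by exact_mod_cast hbn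
  have hb0 : (0 : ℝ) < b := by linarith
  have hVR : 64 * (Fintype.card V : ℝ) ≤ n := by exact_mod_cast hV
  have hq2 : q < 1 / 2 := by linarith
  have h1q : 0 < 1 - q := by linarith
  set p2 : ℝ := q / (1 - q) with hp2
  have hp20 : 0 < p2 := by positivity
  have hp2q : q ≤ p2 := by
    rw [hp2, le_div_iff₀ h1q]; nlinarith
  have hp21 : p2 ≤ 1 := by
    rw [hp2, div_le_one h1q]; linarith
  have hsum : q + p2 - q * p2 = 2 * q := by
    rw [hp2]; field_simp; ring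
  set x : ℝ := (n : ℝ) ^ (-((1 : ℝ) / 100)) with hx
  have hx0 : 0 < x := Real.rpow_pos_of_pos hn0 _
  set M₀ : ℝ := 2 / x ^ 2 with hM₀
  have hM0 : 0 < M₀ := by positivity
  have hp2D : x ≤ p2 ^ D := hqD.trans (pow_le_pow_left₀ hq.le hp2q _)
  have hM : 2 ≤ M₀ * p2 ^ (2 * D) := by
    have h1 : x ^ 2 ≤ p2 ^ (2 * D) := by
      rw [mul_comm 2 D, pow_mul]
      exact pow_le_pow_left₀ hx0.le hp2D 2
    rw [hM₀, div_mul_eq_mul_div, le_div_iff₀ (by positivity)]
    linarith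
  have hspread : ∀ S : Finset J, S.Nonempty →
      ((univ.filter (fun v => S ⊆ Y v)).card : ℝ) ≤ ((b : ℝ) / 16) * (640 * q) ^ S.card := by
    intro S hne
    refine (hS S hne).trans ?_
    obtain ⟨k, hk⟩ : ∃ k, S.card = k + 1 := ⟨S.card - 1, by
      have := hne.card_pos; omega⟩
    rw [hk, mul_pow, pow_succ (640 : ℝ) k]
    have h1 : (1 : ℝ) ≤ 640 ^ k := one_le_pow₀ (by norm_num)
    have h2 : 0 < q ^ (k + 1) := by positivity
    have h3 : 20 * (n : ℝ) ≤ (b : ℝ) / 16 * (640 ^ k * 640) := by nlinarith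
    calc 20 * (n : ℝ) * q ^ (k + 1) ≤ ((b : ℝ) / 16 * (640 ^ k * 640)) * q ^ (k + 1) :=
          mul_le_mul_of_nonneg_right h3 h2.le
      _ = (b : ℝ) / 16 * (640 ^ k * 640 * q ^ (k + 1)) := by ring
  have key := gamma_core (J := J) (V := V) (W := Fin b) Y (1 / ((641 : ℕ) : ℝ)) (640 * q) q p2
    ((b : ℝ) / 16) M₀ D (by norm_num) (by norm_num) (by positivity) hq.le (by linarith)
    (by positivity) hp20 hp21
    (by
      have h1 : (1 / ((641 : ℕ) : ℝ)) / (1 - 1 / ((641 : ℕ) : ℝ)) * (640 * q) = q := by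
        norm_num
        ring
      rw [h1, le_div_iff₀ h1q]; nlinarith)
    (by linarith) hD hspread
    (by rw [Fintype.card_fin]; linarith) hM0 hM Q hQ
  rw [hsum] at key
  have hbound : ((Fintype.card V : ℝ) + Fintype.card (Fin b)) *
      Real.exp (-((Fintype.card (Fin b) : ℝ) / (8 * M₀))) ≤ 1 / (2 * ((641 : ℕ) : ℝ)) := by
    rw [Fintype.card_fin]
    have h1 : (Fintype.card V : ℝ) + b ≤ 2 * n := by linarith
    have h2 : (1 / 32 : ℝ) * (n : ℝ) ^ (49 / 50 : ℝ) ≤ (b : ℝ) / (8 * M₀) := by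
      have h3 : x ^ 2 = (n : ℝ) ^ (-(1 / 50 : ℝ)) := by
        rw [hx, ← Real.rpow_natCast, ← Real.rpow_mul hn0.le]
        norm_num
      have h4 : (n : ℝ) ^ (49 / 50 : ℝ) = n * x ^ 2 := by
        rw [h3]
        have : (n : ℝ) ^ (49 / 50 : ℝ) = (n : ℝ) ^ ((1 : ℝ) + (-(1 / 50 : ℝ))) := by norm_num
        rw [this, Real.rpow_add hn0, Real.rpow_one]
      rw [h4, hM₀]
      have h5 : (b : ℝ) / (8 * (2 / x ^ 2)) = b * x ^ 2 / 16 := by
        field_simp
        ring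
      rw [h5]
      have : 0 < x ^ 2 := by positivity
      nlinarith
    have h6 := hn1 n hnn1
    rw [pow_one] at h6
    calc ((Fintype.card V : ℝ) + b) * Real.exp (-((b : ℝ) / (8 * M₀)))
        ≤ (2 * n) * Real.exp (-((1 / 32 : ℝ) * (n : ℝ) ^ (49 / 50 : ℝ))) := by
          refine mul_le_mul h1 (Real.exp_le_exp.2 (by linarith)) (Real.exp_pos _).le (by linarith)
      _ = 2 * ((n : ℝ) * Real.exp (-((1 / 32 : ℝ) * (n : ℝ) ^ (49 / 50 : ℝ)))) := by ring
      _ ≤ 2 * (1 / 2564) := by linarith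
      _ = 1 / (2 * ((641 : ℕ) : ℝ)) := by norm_num
  have h7 : 1 - 1 / (2 * ((641 : ℕ) : ℝ)) ≤ 1 - ((Fintype.card V : ℝ) + Fintype.card (Fin b)) *
      Real.exp (-((Fintype.card (Fin b) : ℝ) / (8 * M₀))) := by linarith
  exact h7.trans key

end Crest.TG6c
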