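import Mathlib
import Crest.Agent.TG6c_AD
import Crest.Agent.TG55_Gamma

set_option autoImplicit false

namespace Crest.TG6c

theorem gamma : Crest.TG8.GAMMA := Crest.TG55.gamma_of_AD AD_flow

end Crest.TG6c
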