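import Crest.Agent.TG_Quench
import Crest.Agent.TG_Flow
import Crest.Agent.TG40_Cut
import Crest.Agent.TG29_Dom
import Crest.Agent.TG77_Net
import Crest.Agent.TG94_Num
import Crest.Agent.TG55_AD

/-! S0073, hub classes: the abstract depth-one statement `AD` by the bounded density flow. -/

set_option autoImplicit false

namespace Crest.TG71A
open Finset

variable {J V : Type} [Fintype J] [DecidableEq J] [Fintype V] [DecidableEq V]

theorem lam_nonneg (Y : V → Finset J) (v : V) (T : Finset J) : 0 ≤ Crest.TG55.lam 2 Y v T := by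
  unfold Crest.TG55.lam
  split_ifs
  · norm_num
  · exact le_rfl

theorem lam_eq (Y : V → Finset J) (v : V) (T : Finset J) :
    Crest.TG55.lam 2 Y v T = if T ∈ (Y v).powerset then
      (1 / 2 : ℝ) ^ T.card * (1 - 1 / 2) ^ ((Y v).card - T.card) else 0 := by
  unfold Crest.TG55.lam
  simp only [Finset.mem_powerset]
  norm_num

theorem sum_lam_mul (Y : V → Finset J) (v : V) (g : Finset J → ℝ) :
    ∑ T, Crest.TG55.lam 2 Y v T * g T =
      ∑ A ∈ (Y v).powerset, (1 / 2 : ℝ) ^ A.card * (1 - 1 / 2) ^ ((Y v).card - A.card) * g A := by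
  simp_rw [lam_eq, ite_mul, zero_mul]
  rw [← Finset.sum_filter]
  apply Finset.sum_congr
  · ext; simp
  · intros; rfl

theorem sum_lam (Y : V → Finset J) (v : V) : ∑ T, Crest.TG55.lam 2 Y v T = 1 := by
  have h := sum_lam_mul Y v (fun _ => 1)
  simp only [mul_one] at h
  rw [h]
  have := Finset.sum_pow_mul_eq_add_pow (1 / 2 : ℝ) (1 - 1 / 2) (Y v)
  rw [this]
  norm_num

/-- domination of the half thinning, for every up-set -/
theorem thin' (n : ℕ) (hn : 0 < n) (hV : Fintype.card V ≤ n)
    (Y : V → Finset J) (C q P : ℝ) (hC : 1 ≤ C) (hq0 : 0 ≤ q)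
    (hsp : ∀ S : Finset J, S.Nonempty →
      ((univ.filter fun v => S ⊆ Y v).card : ℝ) ≤ C * n * q ^ S.card)
    (hP : C * q ≤ P) (hP0 : 0 ≤ P) (hP1 : P < 1)
    (U : Finset J → Prop) [DecidablePred U] (hU : ∀ X Z : Finset J, X ⊆ Z → U X → U Z) :
    ∑ v, ∑ A, Crest.TG55.lam 2 Y v A * (if U A then (1 : ℝ) else 0) ≤ n * Crest.TG29.mu P U := by
  classical
  by_cases hU0 : U ∅
  · have h1 : ∀ X, U X := fun X => hU ∅ X (Finset.empty_subset _) hU0
    have h2 : Crest.TG29.mu P U = 1 := by
      unfold Crest.TG29.mu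
      refine Eq.trans ?_ (Crest.TG29.sum_wt (α := J) P)
      apply Finset.sum_congr rfl
      intro X _
      rw [if_pos (h1 X), mul_one]
    rw [h2, mul_one]
    have h3 : ∑ v : V, ∑ A, Crest.TG55.lam 2 Y v A * (if U A then (1 : ℝ) else 0)
        = ∑ v : V, (1 : ℝ) := by
      apply Finset.sum_congr rfl
      intro v _
      refine Eq.trans ?_ (sum_lam Y v)
      apply Finset.sum_congr rfl
      intro A _
      rw [if_pos (h1 A), mul_one]
    rw [h3, Finset.sum_const, Finset.card_univ, nsmul_eq_mul, mul_one]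
    exact_mod_cast hV
  · have h := Crest.TG29.thin n hn hV Y C q (1 / 2) P hC hq0 (by norm_num) (by norm_num) hsp
      (by norm_num; exact hP) hP1 U hU hU0
    refine le_trans (le_of_eq ?_) h
    apply Finset.sum_congr rfl
    intro v _
    exact sum_lam_mul Y v _

theorem flow_quench (n' : ℕ) (hn' : 0 < n') (hV : Fintype.card V ≤ n') (b : ℕ) (hb0 : 0 < b)
    (hb : 11 * n' ≤ b)
    (Y : V → Finset J) (D : ℕ) (hD : ∀ v, (Y v).card ≤ D) (C q : ℝ) (hC : 1 ≤ C) (hq0 : 0 < q)
    (hsp : ∀ S : Finset J, S.Nonempty →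
      ((univ.filter fun v => S ⊆ Y v).card : ℝ) ≤ C * n' * q ^ S.card)
    (P : ℝ) (hP : (C + 1) * q ≤ P) (hP1 : P < 1)
    (Q : (V → Finset J) → (Fin b → Finset J) → Prop) [∀ τ ρ, Decidable (Q τ ρ)]
    (hQ : ∀ τ ρ, (∃ g : V → Fin b, Function.Injective g ∧ ∀ v, τ v ⊆ ρ (g v)) → Q τ ρ) :
    1 - ((Fintype.card V : ℝ) + b) * Real.exp (-((b : ℝ) / (8 * (4 / q ^ D)))) ≤
      ∑ τ : V → Finset J, ∑ ρ : Fin b → Finset J,
          (∏ v, Crest.TG55.lam 2 Y v (τ v)) * (∏ w, Crest.TG55.mu P (ρ w)) *
            (if Q τ ρ then 1 else 0) := by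
  classical
  have hP0 : 0 < P := lt_of_lt_of_le (by positivity) hP
  have hq1 : q < 1 := by nlinarith
  have hCq1 : C * q < 1 := by nlinarith
  have hCq0 : 0 ≤ C * q := by positivity
  set M : ℝ := 4 / q ^ D with hM
  have hqD : 0 < q ^ D := by positivity
  have hM0 : 0 < M := by positivity
  set lam := Crest.TG55.lam 2 Y with hlam
  set mu1 : Finset J → ℝ := Crest.TG29.wt q with hmu1
  set mu2 : Finset J → ℝ := Crest.TG29.wt P with hmu2
  have h1 : ∀ R, 0 ≤ mu1 R := fun R => Crest.TG29.wt_nonneg hq0.le hq1.le R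
  have h2pos : ∀ R, 0 < mu2 R := by
    intro R
    simp only [hmu2, Crest.TG29.wt]
    have : 0 < 1 - P := by linarith
    positivity
  have hlam0 : ∀ v t, 0 ≤ lam v t := fun v t => lam_nonneg Y v t
  have hcut := Crest.TG40.cut lam hlam0 D (by
      intro v t ht
      have : t ⊆ Y v := by
        by_contra hc
        apply ht
        simp only [hlam, Crest.TG55.lam]
        rw [if_neg hc]
      exact (Finset.card_le_card this).trans (hD v)) mu1 mu2 h1 (fun R => (h2pos R).le)
    (Crest.TG29.sum_wt q) q hq0 hq1.le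
    (by
      intro t U
      have h := Crest.TG77.cone q t (fun R => if R ∈ U then (1 : ℝ) else 0)
      rw [Finset.sum_filter, Finset.sum_filter]
      have e1 : ∑ R : Finset J, (if R ∪ t ∈ U then mu1 R else 0)
          = ∑ R : Finset J, Crest.TG77.wt q R * (if R ∪ t ∈ U then (1 : ℝ) else 0) := by
        apply Finset.sum_congr rfl
        intro R _
        split_ifs
        · rw [mul_one]; rfl
        · rw [mul_zero]
      have e2 : ∑ R : Finset J, (if t ⊆ R ∧ R ∈ U then mu1 R else 0)
          = ∑ R : Finset J, Crest.TG77.wt q R * (if t ⊆ R then (if R ∈ U then (1 : ℝ) else 0) else 0) := by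
        apply Finset.sum_congr rfl
        intro R _
        by_cases ha : t ⊆ R
        · by_cases hb : R ∈ U
          · rw [if_pos ⟨ha, hb⟩, if_pos ha, if_pos hb, mul_one]; rfl
          · rw [if_neg (fun h => hb h.2), if_pos ha, if_neg hb, mul_zero]
        · rw [if_neg (fun h => ha h.1), if_neg ha, mul_zero]
      rw [e1, e2, h])
    (by
      -- monotone domination
      intro f hf
      set β : ℝ := (P - q) / (1 - q) with hβ
      have h1q : 0 < 1 - q := by linarith
      have hqP : q ≤ P := by nlinarith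
      have hβ0 : 0 ≤ β := div_nonneg (by linarith) h1q.le
      have hβ1 : β ≤ 1 := by rw [hβ, div_le_one h1q]; linarith
      have hPe : q + β - q * β = P := by
        rw [hβ]; field_simp; ring
      have hconv := Crest.TG29.conv q β f
      rw [hPe] at hconv
      show ∑ R, Crest.TG29.wt q R * f R ≤ ∑ R, Crest.TG29.wt P R * f R
      rw [← hconv]
      apply Finset.sum_le_sum
      intro R _
      calc Crest.TG29.wt q R * f R
          = ∑ B : Finset J, Crest.TG29.wt q R * Crest.TG29.wt β B * f R := by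
            rw [← Finset.sum_mul, ← Finset.mul_sum, Crest.TG29.sum_wt, mul_one]
        _ ≤ _ := by
            apply Finset.sum_le_sum
            intro B _
            apply mul_le_mul_of_nonneg_left (hf _ _ Finset.subset_union_left)
            exact mul_nonneg (Crest.TG29.wt_nonneg hq0.le hq1.le R)
              (Crest.TG29.wt_nonneg hβ0 hβ1 B))
    (n' : ℝ)
    (by
      intro U hU
      have hswap : ∑ v, ∑ t, lam v t * ∑ R with R ∪ t ∈ U, mu1 R
          = ∑ R, mu1 R * ∑ v, ∑ t, lam v t * (if R ∪ t ∈ U then (1 : ℝ) else 0) := by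
        calc ∑ v, ∑ t, lam v t * ∑ R with R ∪ t ∈ U, mu1 R
            = ∑ v, ∑ t, ∑ R, mu1 R * (lam v t * (if R ∪ t ∈ U then (1 : ℝ) else 0)) := by
              apply Finset.sum_congr rfl; intro v _
              apply Finset.sum_congr rfl; intro t _
              rw [Finset.sum_filter, Finset.mul_sum]
              apply Finset.sum_congr rfl; intro R _
              split_ifs
              · ring
              · ring
          _ = ∑ v, ∑ R, ∑ t, mu1 R * (lam v t * (if R ∪ t ∈ U then (1 : ℝ) else 0)) := by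
              apply Finset.sum_congr rfl; intro v _
              rw [Finset.sum_comm]
          _ = ∑ R, ∑ v, ∑ t, mu1 R * (lam v t * (if R ∪ t ∈ U then (1 : ℝ) else 0)) :=
              Finset.sum_comm
          _ = _ := by
              apply Finset.sum_congr rfl; intro R _
              rw [Finset.mul_sum]
              apply Finset.sum_congr rfl; intro v _
              rw [Finset.mul_sum]
      rw [hswap]
      have hR : ∀ R : Finset J, ∑ v, ∑ t, lam v t * (if R ∪ t ∈ U then (1 : ℝ) else 0)
          ≤ n' * Crest.TG29.mu (C * q) (fun A => R ∪ A ∈ U) := by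
        intro R
        exact thin' n' hn' hV Y C q (C * q) hC hq0.le hsp le_rfl hCq0 hCq1
          (fun A => R ∪ A ∈ U) (fun X Z hXZ hX => hU _ hX _ (Finset.union_subset_union_right hXZ))
      calc ∑ R, mu1 R * ∑ v, ∑ t, lam v t * (if R ∪ t ∈ U then (1 : ℝ) else 0)
          ≤ ∑ R, mu1 R * (n' * Crest.TG29.mu (C * q) (fun A => R ∪ A ∈ U)) :=
            Finset.sum_le_sum fun R _ => mul_le_mul_of_nonneg_left (hR R) (h1 R)
        _ = n' * ∑ R, mu1 R * Crest.TG29.mu (C * q) (fun A => R ∪ A ∈ U) := by
            rw [Finset.mul_sum]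
            apply Finset.sum_congr rfl; intro R _
            ring
        _ = n' * Crest.TG29.mu (q + C * q - q * (C * q)) (fun A => A ∈ U) := by
            rw [← Crest.TG29.mu_conv q (C * q) (fun A => A ∈ U)]
        _ ≤ n' * Crest.TG29.mu P (fun A => A ∈ U) := by
            apply mul_le_mul_of_nonneg_left _ (Nat.cast_nonneg _)
            apply Crest.TG29.mu_mono _ _ _ _ hP1.le _ (fun X Z hXZ hX => hU _ hX _ hXZ)
            · nlinarith
            · nlinarith
        _ = n' * ∑ R ∈ U, mu2 R := by
            congr 1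
            unfold Crest.TG29.mu
            simp only [mul_ite, mul_one, mul_zero]
            rw [← Finset.sum_filter]
            apply Finset.sum_congr
            · ext; simp
            · intros; rfl)
    (b : ℝ) M (Nat.cast_nonneg _) hM0.le (by exact_mod_cast hb)
    (by rw [hM]; exact le_of_eq (by field_simp))
  obtain ⟨x, hx, hrow, hcol⟩ := Crest.TG.flow (A := V × Finset J) (B := Finset J)
    (fun a => lam a.1 a.2) (fun r => (b : ℝ) / 8 * mu2 r)
    (fun a r => if a.2 ⊆ r then M * (lam a.1 a.2 * mu2 r) else 0)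
    (fun a => hlam0 _ _) (fun r => mul_nonneg (by positivity) (h2pos r).le)
    (fun a r => by
      split_ifs
      · exact mul_nonneg hM0.le (mul_nonneg (hlam0 _ _) (h2pos r).le)
      · exact le_rfl)
    hcut
  set f : V → Finset J → Finset J → ℝ := fun v t r =>
    if lam v t = 0 then 0 else x (v, t) r / (lam v t * mu2 r) with hf
  have hpos : ∀ v t, lam v t ≠ 0 → 0 < lam v t := fun v t h => lt_of_le_of_ne (hlam0 v t) (Ne.symm h)
  have hq := Crest.TG.quenched (V := V) (W := Fin b) (T := Finset J) (R := Finset J) M hM0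
    (by rw [Fintype.card_fin]; exact hb0) lam hlam0 (fun v => sum_lam Y v) mu2
    (fun R => (h2pos R).le) (Crest.TG29.sum_wt P) f
    (by
      intro v t r
      simp only [hf]
      split_ifs with h
      · exact le_rfl
      · exact div_nonneg (hx _ _).1 (mul_nonneg (hlam0 _ _) (h2pos r).le))
    (by
      intro v t r
      simp only [hf]
      split_ifs with h
      · exact hM0.le
      · rw [div_le_iff₀ (mul_pos (hpos v t h) (h2pos r))]
        refine (hx (v, t) r).2.trans ?_
        dsimp only
        split_ifs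
        · exact le_rfl
        · exact mul_nonneg hM0.le (mul_nonneg (hlam0 _ _) (h2pos r).le))
    (by
      intro v t ht
      have hl := hpos v t ht
      have : ∑ r, mu2 r * f v t r = (∑ r, x (v, t) r) / lam v t := by
        rw [Finset.sum_div]
        apply Finset.sum_congr rfl
        intro r _
        simp only [hf]
        rw [if_neg ht]
        have := (h2pos r).ne'
        field_simp
      rw [this, le_div_iff₀ hl, one_mul]
      exact hrow (v, t))
    (by
      intro r
      rw [Fintype.card_fin]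
      have h3 : ∑ v, ∑ t, lam v t * f v t r ≤ (∑ a : V × Finset J, x a r) / mu2 r := by
        rw [Fintype.sum_prod_type, Finset.sum_div]
        apply Finset.sum_le_sum
        intro v _
        rw [Finset.sum_div]
        apply Finset.sum_le_sum
        intro t _
        simp only [hf]
        split_ifs with h
        · rw [mul_zero]
          exact div_nonneg (hx _ _).1 (h2pos r).le
        · have h4 := (h2pos r).ne'
          apply le_of_eq
          field_simp
      refine h3.trans ?_
      rw [div_le_iff₀ (h2pos r)]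
      exact hcol r)
    Q
    (by
      rintro τ ρ ⟨g, hg, hg'⟩
      apply hQ τ ρ
      refine ⟨g, hg, fun v => ?_⟩
      have h5 := hg' v
      simp only [hf] at h5
      by_contra hc
      split_ifs at h5 with h
      · exact lt_irrefl _ h5
      · have h6 := (hx (v, τ v) (ρ (g v))).2
        dsimp only at h6
        rw [if_neg hc] at h6
        have h7 : x (v, τ v) (ρ (g v)) = 0 := le_antisymm h6 (hx _ _).1
        rw [h7, zero_div] at h5
        exact lt_irrefl _ h5)
  rw [Fintype.card_fin] at hq
  exact hq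

theorem AD_flow : Crest.TG55.AD := by
  obtain ⟨n0, hn0, hnum⟩ := Crest.TG94.exists_threshold
    (Crest.TG94.ev_pow_exp_le (a := (99 : ℝ) / 100) (c := 1 / 64) (ε := 1 / 8) (by norm_num)
      (by norm_num) (by norm_num) 1) 64
  refine ⟨2, 2000, n0, le_rfl, by norm_num, ?_⟩
  intro n hn J V _ _ _ _ Y q D b hq0 hLq _ hD hqD hV hsp hb1 hb2 Q _ hQ
  have hn64 : 64 ≤ n := hn0.trans hn
  have h := flow_quench (n / 32) (by omega) (by omega) b (by omega) (by omega) Y D hD 1280 q
    (by norm_num) hq0
    (by
      intro S hS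
      refine (hsp S hS).trans ?_
      apply mul_le_mul_of_nonneg_right _ (by positivity)
      have h1 : n ≤ 64 * (n / 32) := by omega
      have h2 : (n : ℝ) ≤ 64 * ((n / 32 : ℕ) : ℝ) := by exact_mod_cast h1
      linarith)
    (2000 * q) (by nlinarith) hLq Q hQ
  refine le_trans ?_ h
  have hnR : (0 : ℝ) < n := by
    have : 0 < n := by omega
    exact_mod_cast this
  have hVb : (Fintype.card V : ℝ) + b ≤ 2 * n := by
    have : Fintype.card V + b ≤ 2 * n := by omega
    exact_mod_cast this
  have hbn : (n : ℝ) / 2 ≤ b := by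
    have : (n : ℝ) ≤ 2 * b := by exact_mod_cast hb1
    linarith
  have hexp : (1 / 64) * (n : ℝ) ^ ((99 : ℝ) / 100) ≤ (b : ℝ) / (8 * (4 / q ^ D)) := by
    have hqDpos : 0 < q ^ D := by positivity
    have e1 : (b : ℝ) / (8 * (4 / q ^ D)) = b * q ^ D / 32 := by
      field_simp; ring
    rw [e1]
    have e2 : (n : ℝ) ^ ((99 : ℝ) / 100) = n * (n : ℝ) ^ (-((1 : ℝ) / 100)) := by
      rw [show ((99 : ℝ) / 100) = 1 + -((1 : ℝ) / 100) by norm_num, Real.rpow_add hnR,
        Real.rpow_one]
    rw [e2]
    have e3 : (n : ℝ) / 2 * (n : ℝ) ^ (-((1 : ℝ) / 100)) ≤ b * q ^ D :=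
      mul_le_mul hbn hqD (Real.rpow_nonneg hnR.le _) (Nat.cast_nonneg _)
    linarith
  have h3 := hnum n hn
  rw [pow_one] at h3
  have h4 : ((Fintype.card V : ℝ) + b) * Real.exp (-((b : ℝ) / (8 * (4 / q ^ D)))) ≤ 1 / 4 := by
    calc ((Fintype.card V : ℝ) + b) * Real.exp (-((b : ℝ) / (8 * (4 / q ^ D))))
        ≤ (2 * n) * Real.exp (-(1 / 64 * (n : ℝ) ^ ((99 : ℝ) / 100))) := by
          apply mul_le_mul hVb _ (Real.exp_pos _).le (by positivity)
          apply Real.exp_le_exp.2
          linarith
      _ = 2 * (n * Real.exp (-(1 / 64 * (n : ℝ) ^ ((99 : ℝ) / 100)))) := by ring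
      _ ≤ 1 / 4 := by linarith
  push_cast
  linarith

end Crest.TG71A
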