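import Crest.Agent.TG_Quench
import Crest.Agent.TG6_Ext

/-! Hub classes of the dense range of S0073: two random halves of a bipartite piece. -/

set_option autoImplicit false

namespace Crest.TG71H
open Finset Crest.CombinatoricsR.RandomGraph

/-- choosing one good labelling from the average -/
theorem exists_good {V J : Type*} [Fintype V] [DecidableEq V] [Fintype J] [DecidableEq J]
    (Y : V → Finset J) (g : (V → Finset J) → ℝ) (hg1 : ∀ τ, g τ ≤ 1)
    (h : 3 / 4 ≤ ∑ τ : V → Finset J,
      (∏ v, if τ v ⊆ Y v then (1 / 2 : ℝ) ^ (Y v).card else 0) * g τ) :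
    ∃ τ : V → Finset J, (∀ v, τ v ⊆ Y v) ∧ 1 / 2 ≤ g τ ∧ 1 / 2 ≤ g (fun v => Y v \ τ v) := by
  classical
  set lam : V → Finset J → ℝ := fun v T => if T ⊆ Y v then (1 / 2 : ℝ) ^ (Y v).card else 0 with hlam
  set Lam : (V → Finset J) → ℝ := fun τ => ∏ v, lam v (τ v) with hLam
  have hlam0 : ∀ v T, 0 ≤ lam v T := by
    intro v T
    simp only [hlam]
    split_ifs <;> positivity
  have hLam0 : ∀ τ, 0 ≤ Lam τ := fun τ => Finset.prod_nonneg fun v _ => hlam0 v _
  have hlam1 : ∀ v, ∑ T, lam v T = 1 := by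
    intro v
    simp only [hlam]
    rw [← Finset.sum_filter]
    have : (univ.filter fun T : Finset J => T ⊆ Y v) = (Y v).powerset := by
      ext T; simp
    rw [this, Finset.sum_const, Finset.card_powerset, nsmul_eq_mul]
    push_cast
    rw [← mul_pow]
    norm_num
  have hLam1 : ∑ τ, Lam τ = 1 := by
    simp only [hLam]
    rw [← Fintype.piFinset_univ, ← Finset.prod_univ_sum]
    exact Finset.prod_eq_one fun v _ => hlam1 v
  -- the involution
  set inv : (V → Finset J) → (V → Finset J) := fun τ v => symmDiff (τ v) (Y v) with hinv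
  have hinv2 : Function.Involutive inv := by
    intro τ
    funext v
    simp only [hinv]
    rw [symmDiff_symmDiff_cancel_right]
  have hLaminv : ∀ τ, Lam (inv τ) = Lam τ := by
    intro τ
    simp only [hLam]
    apply Finset.prod_congr rfl
    intro v _
    simp only [hlam, hinv]
    have : symmDiff (τ v) (Y v) ⊆ Y v ↔ τ v ⊆ Y v := by
      constructor
      · intro hh x hx
        by_contra hxY
        exact hxY (hh (by rw [Finset.mem_symmDiff]; exact Or.inl ⟨hx, hxY⟩))
      · intro hh x hx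
        rw [Finset.mem_symmDiff] at hx
        rcases hx with hx | hx
        · exact hh hx.1
        · exact hx.1
    by_cases hc : τ v ⊆ Y v
    · rw [if_pos hc, if_pos (this.2 hc)]
    · rw [if_neg hc, if_neg (fun h' => hc (this.1 h'))]
  have h2 : ∑ τ, Lam τ * g (inv τ) = ∑ τ, Lam τ * g τ := by
    have := Equiv.sum_comp hinv2.toPerm (fun τ => Lam τ * g τ)
    rw [← this]
    apply Finset.sum_congr rfl
    intro τ _
    show Lam τ * g (inv τ) = Lam (inv τ) * g (inv τ)
    rw [hLaminv]
  by_contra hcon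
  push Not at hcon
  have h3 : ∀ τ, Lam τ * (g τ + g (inv τ)) ≤ Lam τ * (3 / 2) := by
    intro τ
    by_cases hsub : ∀ v, τ v ⊆ Y v
    · apply mul_le_mul_of_nonneg_left _ (hLam0 τ)
      have he : inv τ = fun v => Y v \ τ v := by
        funext v
        simp only [hinv]
        ext x
        rw [Finset.mem_symmDiff, Finset.mem_sdiff]
        constructor
        · rintro (⟨h1, h2⟩ | h1)
          · exact absurd (hsub v h1) h2
          · exact h1
        · intro h1
          exact Or.inr h1
      rw [he]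
      by_cases hg : 1 / 2 ≤ g τ
      · have := hcon τ hsub hg
        have := hg1 τ
        linarith
      · push Not at hg
        have := hg1 (fun v => Y v \ τ v)
        linarith
    · push Not at hsub
      obtain ⟨v, hv⟩ := hsub
      have : Lam τ = 0 := by
        simp only [hLam]
        apply Finset.prod_eq_zero (mem_univ v)
        simp only [hlam]
        rw [if_neg hv]
      rw [this]; simp
  have h3' : ∃ τ, Lam τ * (g τ + g (inv τ)) < Lam τ * (3 / 2) := by
    by_contra hno
    push Not at hno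
    -- some τ with positive weight
    have hpos : 0 < Lam (fun v => (∅ : Finset J)) := by
      simp only [hLam]
      apply Finset.prod_pos
      intro v _
      simp only [hlam]
      rw [if_pos (Finset.empty_subset _)]
      positivity
    have h5 := hno (fun v => (∅ : Finset J))
    have h6 : (3 / 2 : ℝ) ≤ g (fun v => ∅) + g (inv (fun v => ∅)) := le_of_mul_le_mul_left h5 hpos
    have he : inv (fun _ => (∅ : Finset J)) = fun v => Y v \ (∅ : Finset J) := by
      funext v
      simp only [hinv]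
      rw [Finset.sdiff_empty]
      exact bot_symmDiff _
    rw [he] at h6
    have h7 := hg1 (fun _ => (∅ : Finset J))
    have h8 := hg1 (fun v => Y v \ (∅ : Finset J))
    have h9 := hcon (fun _ => (∅ : Finset J)) (fun v => Finset.empty_subset _) (by linarith)
    linarith
  obtain ⟨τ0, hτ0⟩ := h3'
  have h4 : ∑ τ, Lam τ * (g τ + g (inv τ)) < ∑ τ, Lam τ * (3 / 2) :=
    Finset.sum_lt_sum (fun τ _ => h3 τ) ⟨τ0, mem_univ _, hτ0⟩
  rw [← Finset.sum_mul, hLam1] at h4
  simp only [mul_add] at h4
  rw [Finset.sum_add_distrib, h2] at h4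
  have h' : 3 / 4 ≤ ∑ τ, Lam τ * g τ := h
  linarith

/-- the two halves of a bipartite piece, from a bounded density kernel -/
theorem hub_core {W : Type} [Fintype W] [DecidableEq W] (n b : ℕ) (hb : 0 < b)
    (F : SimpleGraph W) [DecidableRel F.Adj] (J V : Finset W) (hdisj : Disjoint J V)
    (hF : ∀ u v, F.Adj u v → (u ∈ J ∧ v ∈ V) ∨ (v ∈ J ∧ u ∈ V))
    (P : ℝ) (hP0 : 0 ≤ P) (hP1 : P ≤ 1) (M : ℝ) (hM : 0 < M)
    (f : V → Finset J → Finset J → ℝ) (hf : ∀ v T R, 0 ≤ f v T R) (hfM : ∀ v T R, f v T R ≤ M)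
    (hsupp : ∀ v T R, 0 < f v T R → T ⊆ R)
    (hrow : ∀ (v : V) (T : Finset J), T ⊆ (univ.filter fun j : J => F.Adj j v) →
      1 ≤ ∑ R : Finset J, (P ^ R.card * (1 - P) ^ (Fintype.card J - R.card)) * f v T R)
    (hcol : ∀ R : Finset J, ∑ v : V, ∑ T : Finset J,
      (if T ⊆ (univ.filter fun j : J => F.Adj j v) then
        (1 / 2 : ℝ) ^ (univ.filter fun j : J => F.Adj j v).card else 0) * f v T R ≤ (b : ℝ) / 8)
    (hfail : ((Fintype.card V : ℝ) + b) * Real.exp (-((b : ℝ) / (8 * M))) ≤ 1 / 4)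
    (transfer : ∀ (F' : SimpleGraph W) (A : V → Finset J),
      (∀ u v, F'.Adj u v → (u ∈ J ∧ v ∈ V) ∨ (v ∈ J ∧ u ∈ V)) →
      (∀ (v : V) (j : J), F'.Adj j v → j ∈ A v) →
      ∑ ρ : Fin b → Finset J, (∏ w, (P ^ (ρ w).card * (1 - P) ^ (Fintype.card J - (ρ w).card))) *
        (by classical exact (if ∃ g : V → Fin b, Function.Injective g ∧ ∀ v, A v ⊆ ρ (g v) then (1 : ℝ) else 0))
        ≤ gnpProb n P {G | F'.IsContained G}) :
    ∃ c : F.edgeSet → Fin 2, ∀ i, 1 / 2 ≤ gnpProb n P {G | (pieceGraph F c i).IsContained G} := by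
  classical
  set Y : V → Finset J := fun v => univ.filter fun j : J => F.Adj j v with hY
  set mu : Finset J → ℝ := fun R => P ^ R.card * (1 - P) ^ (Fintype.card J - R.card) with hmu
  have hmu0 : ∀ R, 0 ≤ mu R := fun R =>
    mul_nonneg (pow_nonneg hP0 _) (pow_nonneg (by linarith) _)
  have hmu1 : ∑ R, mu R = 1 := by
    simp only [hmu]
    have := Fintype.sum_pow_mul_eq_add_pow J P (1 - P)
    rw [this]
    simp
  set g : (V → Finset J) → ℝ := fun A => ∑ ρ : Fin b → Finset J, (∏ w, mu (ρ w)) *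
        (if ∃ g : V → Fin b, Function.Injective g ∧ ∀ v, A v ⊆ ρ (g v) then (1 : ℝ) else 0) with hg
  have hmuprod : ∑ ρ : Fin b → Finset J, (∏ w, mu (ρ w)) = 1 := by
    rw [← Fintype.piFinset_univ, ← Finset.prod_univ_sum (fun _ => Finset.univ) (fun _ r => mu r)]
    exact Finset.prod_eq_one fun v _ => hmu1
  have hg1 : ∀ A, g A ≤ 1 := by
    intro A
    rw [← hmuprod]
    simp only [hg]
    apply Finset.sum_le_sum
    intro ρ _
    have h0 : 0 ≤ ∏ w, mu (ρ w) := Finset.prod_nonneg fun w _ => hmu0 _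
    split_ifs
    · simp
    · simpa using h0
  set lam : V → Finset J → ℝ := fun v T => if T ⊆ Y v then (1 / 2 : ℝ) ^ (Y v).card else 0 with hlam
  have hlam0 : ∀ v T, 0 ≤ lam v T := by
    intro v T
    simp only [hlam]
    split_ifs <;> positivity
  have hlam1 : ∀ v, ∑ T, lam v T = 1 := by
    intro v
    simp only [hlam]
    rw [← Finset.sum_filter]
    have : (univ.filter fun T : Finset J => T ⊆ Y v) = (Y v).powerset := by
      ext T; simp
    rw [this, Finset.sum_const, Finset.card_powerset, nsmul_eq_mul]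
    push_cast
    rw [← mul_pow]
    norm_num
  have hq := Crest.TG.quenched (V := V) (W := Fin b) (T := Finset J) (R := Finset J) M hM
    (by rw [Fintype.card_fin]; exact hb) lam hlam0 hlam1 mu hmu0 hmu1 f hf hfM
    (by
      intro v t ht
      apply hrow v t
      by_contra hc
      apply ht
      simp only [hlam]
      rw [if_neg hc])
    (by
      intro r
      rw [Fintype.card_fin]
      exact hcol r)
    (fun τ ρ => ∃ g : V → Fin b, Function.Injective g ∧ ∀ v, τ v ⊆ ρ (g v))
    (by
      rintro τ ρ ⟨g, hg, hg'⟩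
      exact ⟨g, hg, fun v => hsupp _ _ _ (hg' v)⟩)
  rw [Fintype.card_fin] at hq
  have h34 : 3 / 4 ≤ ∑ τ : V → Finset J,
      (∏ v, if τ v ⊆ Y v then (1 / 2 : ℝ) ^ (Y v).card else 0) * g τ := by
    refine le_trans (by linarith) (hq.trans (le_of_eq ?_))
    apply Finset.sum_congr rfl
    intro τ _
    simp only [hg, hlam]
    rw [Finset.mul_sum]
    apply Finset.sum_congr rfl
    intro ρ _
    ring_nf
  obtain ⟨τ, hτ, hg0, hg1'⟩ := exists_good Y g hg1 h34
  -- labelling
  refine ⟨fun e => if ∃ (v : V) (j : J), e.1 = s((j : W), (v : W)) ∧ j ∈ τ v then 0 else 1, ?_⟩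
  have hadj : ∀ (v : V) (j : J) (i : Fin 2),
      (pieceGraph F (fun e => if ∃ (v : V) (j : J), e.1 = s((j : W), (v : W)) ∧ j ∈ τ v
        then (0 : Fin 2) else 1) i).Adj j v →
      (i = 0 ∧ j ∈ τ v) ∨ (i = 1 ∧ j ∈ Y v \ τ v) := by
    intro v j i h
    rw [TG6.pieceGraph_adj] at h
    obtain ⟨hA, hc⟩ := h
    dsimp only at hc
    by_cases hj : j ∈ τ v
    · left
      rw [if_pos ⟨v, j, rfl, hj⟩] at hc
      exact ⟨hc.symm, hj⟩
    · right
      have hno : ¬ ∃ (v' : V) (j' : J), s((j : W), (v : W)) = s((j' : W), (v' : W)) ∧ j' ∈ τ v' := by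
        rintro ⟨v', j', he, hj'⟩
        rw [Sym2.eq_iff] at he
        rcases he with ⟨h1, h2⟩ | ⟨h1, h2⟩
        · have e1 : j = j' := Subtype.ext h1
          have e2 : v = v' := Subtype.ext h2
          subst e1 e2
          exact hj hj'
        · have hjJ : (j : W) ∈ J := j.2
          have hvV : (v' : W) ∈ V := v'.2
          rw [h1] at hjJ
          exact Finset.disjoint_left.1 hdisj hjJ hvV
      rw [if_neg hno] at hc
      refine ⟨hc.symm, ?_⟩
      rw [mem_sdiff]
      refine ⟨?_, hj⟩
      simp only [hY, mem_filter, mem_univ, true_and]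
      exact hA
  intro i
  have hF' : ∀ u v, (pieceGraph F (fun e => if ∃ (v : V) (j : J), e.1 = s((j : W), (v : W)) ∧ j ∈ τ v
        then (0 : Fin 2) else 1) i).Adj u v → (u ∈ J ∧ v ∈ V) ∨ (v ∈ J ∧ u ∈ V) := fun u v h =>
    hF u v (TG6.pieceGraph_le F _ i h)
  fin_cases i
  · have := transfer _ τ hF' (by
      intro v j h
      rcases hadj v j _ h with h | h
      · exact h.2
      · exact absurd h.1 (by decide))
    exact hg0.trans (le_trans (le_of_eq (by simp only [hg, hmu])) this)
  · have := transfer _ (fun v => Y v \ τ v) hF' (by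
      intro v j h
      rcases hadj v j _ h with h | h
      · exact absurd h.1 (by decide)
      · exact h.2)
    exact hg1'.trans (le_trans (le_of_eq (by simp only [hg, hmu])) this)

end Crest.TG71H
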