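import Mathlib

set_option autoImplicit false
open Finset

namespace Crest.TG71

section order
variable {α : Type} [DecidableEq α]

theorem order_aux (lam : α → ℝ) (H : Finset α) :
    ∃ ρ : α → ℕ, (∀ e ∈ H, ρ e < H.card) ∧ (∀ m : ℕ, (H.filter (fun e => ρ e < m)).card ≤ m) ∧
      ∀ B ⊆ H, ∀ c : ℝ, (∀ m ≤ H.card, ((B.filter (fun e => ρ e < m)).card : ℝ) ≤ c * m) →
        ∀ μ : ℝ, (∀ e ∈ H, μ ≤ lam e) →
          μ * (c * H.card - B.card) ≤ c * ∑ e ∈ H, lam e - ∑ e ∈ B, lam e := by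
  induction H using Finset.induction_on_min_value lam with
  | empty =>
    refine ⟨fun _ => 0, by simp, by simp, ?_⟩
    intro B hB c _ μ _
    have : B = ∅ := Finset.subset_empty.1 hB
    subst this
    simp
  | insert a s ha hmin ih =>
    obtain ⟨ρ', h1, h2, h3⟩ := ih
    have hne : ∀ e ∈ s, Function.update ρ' a s.card e = ρ' e := by
      intro e he
      rw [Function.update_of_ne]
      rintro rfl
      exact ha he
    refine ⟨Function.update ρ' a s.card, ?_, ?_, ?_⟩
    · intro e he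
      rw [Finset.card_insert_of_notMem ha]
      rcases Finset.mem_insert.1 he with rfl | he
      · simp
      · rw [hne e he]
        exact (h1 e he).trans (Nat.lt_succ_self _)
    · intro m
      by_cases hm : s.card < m
      · calc ((insert a s).filter _).card ≤ (insert a s).card := Finset.card_filter_le _ _
          _ = s.card + 1 := Finset.card_insert_of_notMem ha
          _ ≤ m := hm
      · have : (insert a s).filter (fun e => Function.update ρ' a s.card e < m)
            = s.filter (fun e => ρ' e < m) := by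
          ext e
          simp only [Finset.mem_filter, Finset.mem_insert]
          constructor
          · rintro ⟨rfl | he, h⟩
            · rw [Function.update_self] at h; exact absurd h hm
            · exact ⟨he, by rwa [hne e he] at h⟩
          · rintro ⟨he, h⟩
            exact ⟨Or.inr he, by rwa [hne e he]⟩
        rw [this]
        exact h2 m
    · intro B hB c hc μ hμ
      have hB' : B.erase a ⊆ s := by
        intro e he
        rw [Finset.mem_erase] at he
        rcases Finset.mem_insert.1 (hB he.2) with h | h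
        · exact absurd h he.1
        · exact h
      have hcard : (insert a s).card = s.card + 1 := Finset.card_insert_of_notMem ha
      have key := h3 (B.erase a) hB' c (by
        intro m hm
        refine le_trans ?_ (hc m (by rw [hcard]; omega))
        exact_mod_cast Finset.card_le_card (by
          intro e he
          rw [Finset.mem_filter] at he ⊢
          refine ⟨Finset.mem_of_mem_erase he.1, ?_⟩
          rw [hne e (hB' he.1)]
          exact he.2)) (lam a) hmin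
      have hfull : (B.card : ℝ) ≤ c * (s.card + 1) := by
        have := hc (insert a s).card le_rfl
        rw [Finset.filter_true_of_mem] at this
        · rw [hcard] at this; push_cast at this; exact this
        · intro e he
          rw [hcard]
          rcases Finset.mem_insert.1 (hB he) with rfl | h
          · simp
          · rw [hne e h]; exact (h1 e h).trans (Nat.lt_succ_self _)
      have hμa : μ ≤ lam a := hμ a (Finset.mem_insert_self _ _)
      rw [Finset.sum_insert ha, hcard]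
      push_cast
      have hmain : lam a * (c * (s.card + 1) - B.card) ≤
          c * (lam a + ∑ e ∈ s, lam e) - ∑ e ∈ B, lam e := by
        by_cases haB : a ∈ B
        · have e1 : ∑ e ∈ B, lam e = lam a + ∑ e ∈ B.erase a, lam e :=
            (Finset.add_sum_erase B lam haB).symm
          have e2 : (B.card : ℝ) = (B.erase a).card + 1 := by
            rw [← Finset.card_erase_add_one haB]; push_cast; ring
          rw [e1, e2]
          nlinarith [key]
        · rw [Finset.erase_eq_of_notMem haB] at key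
          nlinarith [key]
      refine le_trans ?_ hmain
      exact mul_le_mul_of_nonneg_right hμa (by linarith)

/-- levels: the first `16^i` elements in the order of decreasing `lam` -/
theorem exists_level (lam : α → ℝ) (H : Finset α) (hlam : ∀ e ∈ H, 0 ≤ lam e) (I : ℕ)
    (hI : H.card ≤ 16 ^ I) :
    ∃ l : α → ℕ, (∀ e ∈ H, l e ≤ I) ∧ (∀ i : ℕ, (H.filter (fun e => l e ≤ i)).card ≤ 16 ^ i) ∧
      ∀ B ⊆ H, ∀ s : ℕ, (∀ i ≤ I, 4 ^ s * (B.filter (fun e => l e ≤ i)).card ≤ 16 ^ i) →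
        ∑ e ∈ B, lam e ≤ 16 / 4 ^ s * ∑ e ∈ H, lam e := by
  obtain ⟨ρ, h1, h2, h3⟩ := order_aux lam H
  have hl : ∀ e i, Nat.clog 16 (ρ e + 1) ≤ i ↔ ρ e < 16 ^ i := by
    intro e i
    rw [← Nat.succ_le_iff]
    exact Nat.clog_le_iff_le_pow (by norm_num)
  have hlI : ∀ e ∈ H, Nat.clog 16 (ρ e + 1) ≤ I := fun e he =>
    (hl e I).2 (lt_of_lt_of_le (h1 e he) hI)
  refine ⟨fun e => Nat.clog 16 (ρ e + 1), hlI, ?_, ?_⟩
  · intro i
    simp only [hl]
    exact h2 _
  · intro B hB s hs0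
    have hs : ∀ i : ℕ, 4 ^ s * (B.filter (fun e => Nat.clog 16 (ρ e + 1) ≤ i)).card ≤ 16 ^ i := by
      intro i
      rcases le_or_gt i I with h | h
      · exact hs0 i h
      · refine le_trans ?_ ((hs0 I le_rfl).trans (Nat.pow_le_pow_right (by norm_num) h.le))
        refine Nat.mul_le_mul_left _ (Finset.card_le_card ?_)
        intro e he
        rw [Finset.mem_filter] at he ⊢
        exact ⟨he.1, hlI e (hB he.1)⟩
    have := h3 B hB (16 / 4 ^ s) (by
      intro m _
      rcases Nat.eq_zero_or_pos m with rfl | hm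
      · simp
      · have hm1 : m ≤ 16 ^ (Nat.clog 16 m) := Nat.le_pow_clog (by norm_num) m
        have hm2 : 16 ^ (Nat.clog 16 m) ≤ 16 * m := by
          rcases Nat.lt_or_ge 1 m with h | h
          · have hpos : 0 < Nat.clog 16 m := Nat.clog_pos (by norm_num) h
            have := Nat.pow_pred_clog_lt_self (b := 16) (by norm_num) h
            have h4 : 16 ^ (Nat.clog 16 m) = 16 * 16 ^ (Nat.clog 16 m).pred := by
              rw [← pow_succ']
              congr 1
              exact (Nat.succ_pred_eq_of_pos hpos).symm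
            rw [h4]
            omega
          · have : m = 1 := by omega
            subst this
            simp
        have hsub : B.filter (fun e => ρ e < m) ⊆
            B.filter (fun e => Nat.clog 16 (ρ e + 1) ≤ Nat.clog 16 m) := by
          intro e he
          rw [Finset.mem_filter] at he ⊢
          exact ⟨he.1, (hl e _).2 (lt_of_lt_of_le he.2 hm1)⟩
        have h5 : 4 ^ s * (B.filter (fun e => ρ e < m)).card ≤ 16 * m :=
          le_trans (Nat.mul_le_mul_left _ (Finset.card_le_card hsub)) ((hs _).trans hm2)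
        have h6 : (4 : ℝ) ^ s * ((B.filter (fun e => ρ e < m)).card : ℝ) ≤ 16 * m := by
          exact_mod_cast h5
        rw [div_mul_eq_mul_div, le_div_iff₀ (by positivity)]
        linarith) 0 hlam
    linarith

end order

section finish
variable {α : Type} [Fintype α] [DecidableEq α]

theorem sum_min (n : ℕ) : ∑ s ∈ Finset.range n, min (1 : ℝ) (16 / 4 ^ s) ≤ 4 := by
  have h3 : ∀ n : ℕ, ∑ s ∈ Finset.range (n + 3), min (1 : ℝ) (16 / 4 ^ s) ≤
      10 / 3 - (64 / 3) / 4 ^ (n + 3) := by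
    intro n
    induction n with
    | zero =>
      rw [Finset.sum_range_succ, Finset.sum_range_succ, Finset.sum_range_succ, Finset.sum_range_zero]
      have a0 := min_le_left (1 : ℝ) (16 / 4 ^ 0)
      have a1 := min_le_left (1 : ℝ) (16 / 4 ^ 1)
      have a2 := min_le_left (1 : ℝ) (16 / 4 ^ 2)
      norm_num at a0 a1 a2 ⊢
    | succ n ih =>
      have e : n + 1 + 3 = (n + 3) + 1 := by ring
      rw [e, Finset.sum_range_succ]
      have a := min_le_right (1 : ℝ) (16 / 4 ^ (n + 3))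
      have b : (64 / 3 : ℝ) / 4 ^ (n + 3 + 1) = (16 / 3) / 4 ^ (n + 3) := by
        rw [pow_succ]; field_simp; norm_num
      rw [b]
      have c : (64 / 3 : ℝ) / 4 ^ (n + 3) = (16 / 3) / 4 ^ (n + 3) + 16 / 4 ^ (n + 3) := by
        field_simp; norm_num
      rw [c] at ih
      linarith
  rcases Nat.lt_or_ge n 3 with h | h
  · calc ∑ s ∈ Finset.range n, min (1 : ℝ) (16 / 4 ^ s) ≤ ∑ s ∈ Finset.range n, (1 : ℝ) :=
          Finset.sum_le_sum fun s _ => min_le_left _ _
      _ = n := by simp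
      _ ≤ 4 := by
        have : (n : ℝ) < 3 := by exact_mod_cast h
        linarith
  · obtain ⟨m, rfl⟩ : ∃ m, n = m + 3 := ⟨n - 3, by omega⟩
    have h1 := h3 m
    have h2 : (0 : ℝ) ≤ (64 / 3) / 4 ^ (m + 3) := by positivity
    linarith

/-- Lower bound of the thinned cover at a good labelling. -/
theorem phi_lower (H : Finset α) (g : Finset α → ℝ) (hg : ∀ S, 0 ≤ g S) (I R : ℕ)
    (tau : α → Fin (I + R + 1))
    (lam : α → ℝ) (hlam : ∀ e, lam e = ∑ S ∈ H.powerset.filter (fun S => e ∈ S), g S)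
    (hB : ∀ s < R,
      ∑ e ∈ H.filter (fun e => I + s < (tau e : ℕ)), lam e ≤ 16 / 4 ^ s * ∑ e ∈ H, lam e) :
    ∑ S ∈ H.powerset.erase ∅, g S ≤
      ∑ S ∈ H.powerset.erase ∅, g S * ∏ e ∈ S, ((16 : ℝ) ^ 4 / 16 ^ ((tau e : ℕ) - I)) := by
  have hlam0 : ∀ e, 0 ≤ lam e := fun e => by
    rw [hlam e]; exact Finset.sum_nonneg fun S _ => hg S
  have hL8 : 0 < Real.log 16 := Real.log_pos (by norm_num)
  have hfac : ∀ n : ℕ, (16 : ℝ) ^ 4 / 16 ^ n = Real.exp (Real.log 16 * (4 - n)) := by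
    intro n
    have h8 : ∀ k : ℕ, (16 : ℝ) ^ k = Real.exp (Real.log 16 * k) := by
      intro k
      rw [mul_comm, Real.exp_nat_mul, Real.exp_log (by norm_num)]
    rw [h8 4, h8 n, ← Real.exp_sub]
    congr 1
    push_cast
    ring
  have hterm : ∀ S : Finset α, 1 + Real.log 16 * ∑ e ∈ S, (4 - (((tau e : ℕ) - I : ℕ) : ℝ)) ≤
      ∏ e ∈ S, ((16 : ℝ) ^ 4 / 16 ^ ((tau e : ℕ) - I)) := by
    intro S
    have : ∏ e ∈ S, ((16 : ℝ) ^ 4 / 16 ^ ((tau e : ℕ) - I)) =
        Real.exp (Real.log 16 * ∑ e ∈ S, (4 - (((tau e : ℕ) - I : ℕ) : ℝ))) := by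
      rw [Finset.mul_sum, Real.exp_sum]
      exact Finset.prod_congr rfl fun e _ => hfac _
    rw [this, add_comm]
    exact Real.add_one_le_exp _
  -- sum of tau against lam
  have hK : 0 ≤ ∑ e ∈ H, lam e := Finset.sum_nonneg fun e _ => hlam0 e
  have htau : ∑ e ∈ H, lam e * (((tau e : ℕ) - I : ℕ) : ℝ) ≤ 4 * ∑ e ∈ H, lam e := by
    have h1 : ∀ e, (((tau e : ℕ) - I : ℕ) : ℝ) =
        ∑ s ∈ Finset.range R, if I + s < (tau e : ℕ) then (1 : ℝ) else 0 := by
      intro e
      rw [← Finset.sum_filter]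
      have : (Finset.range R).filter (fun s => I + s < (tau e : ℕ)) =
          Finset.range ((tau e : ℕ) - I) := by
        ext s
        simp only [Finset.mem_filter, Finset.mem_range]
        have := (tau e).2
        omega
      rw [this]
      simp
    have h2 : ∑ e ∈ H, lam e * (((tau e : ℕ) - I : ℕ) : ℝ) =
        ∑ s ∈ Finset.range R, ∑ e ∈ H.filter (fun e => I + s < (tau e : ℕ)), lam e := by
      simp_rw [Finset.sum_filter]
      rw [Finset.sum_comm]
      refine Finset.sum_congr rfl fun e _ => ?_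
      rw [h1 e, Finset.mul_sum]
      refine Finset.sum_congr rfl fun s _ => ?_
      split_ifs with h
      · rw [mul_one]
      · rw [mul_zero]
    rw [h2]
    calc ∑ s ∈ Finset.range R, ∑ e ∈ H.filter (fun e => I + s < (tau e : ℕ)), lam e
        ≤ ∑ s ∈ Finset.range R, min (1 : ℝ) (16 / 4 ^ s) * ∑ e ∈ H, lam e := by
          refine Finset.sum_le_sum fun s hs => ?_
          rcases le_total (1 : ℝ) (16 / 4 ^ s) with h | h
          · rw [min_eq_left h, one_mul]
            exact Finset.sum_le_sum_of_subset_of_nonneg (Finset.filter_subset _ _)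
              fun e _ _ => hlam0 e
          · rw [min_eq_right h]
            exact hB s (Finset.mem_range.1 hs)
      _ = (∑ s ∈ Finset.range R, min (1 : ℝ) (16 / 4 ^ s)) * ∑ e ∈ H, lam e := by
          rw [Finset.sum_mul]
      _ ≤ 4 * ∑ e ∈ H, lam e := mul_le_mul_of_nonneg_right (sum_min R) hK
  have hswap : ∑ S ∈ H.powerset, g S * ∑ e ∈ S, (4 - (((tau e : ℕ) - I : ℕ) : ℝ)) =
      ∑ e ∈ H, lam e * (4 - (((tau e : ℕ) - I : ℕ) : ℝ)) := by
    have h1 : ∀ S ∈ H.powerset, g S * ∑ e ∈ S, (4 - (((tau e : ℕ) - I : ℕ) : ℝ)) =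
        ∑ e ∈ H, if e ∈ S then g S * (4 - (((tau e : ℕ) - I : ℕ) : ℝ)) else 0 := by
      intro S hS
      rw [Finset.mul_sum, ← Finset.sum_filter]
      refine Finset.sum_congr ?_ fun _ _ => rfl
      ext e
      simp only [Finset.mem_filter]
      exact ⟨fun h => ⟨Finset.mem_powerset.1 hS h, h⟩, fun h => h.2⟩
    rw [Finset.sum_congr rfl h1, Finset.sum_comm]
    refine Finset.sum_congr rfl fun e _ => ?_
    rw [hlam e, Finset.sum_mul, Finset.sum_filter]
  have hpos : 0 ≤ ∑ S ∈ H.powerset.erase ∅, g S * ∑ e ∈ S, (4 - (((tau e : ℕ) - I : ℕ) : ℝ)) := by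
    have : ∑ S ∈ H.powerset.erase ∅, g S * ∑ e ∈ S, (4 - (((tau e : ℕ) - I : ℕ) : ℝ)) =
        ∑ S ∈ H.powerset, g S * ∑ e ∈ S, (4 - (((tau e : ℕ) - I : ℕ) : ℝ)) := by
      refine Finset.sum_erase _ ?_
      simp
    rw [this, hswap]
    have : ∑ e ∈ H, lam e * (4 - (((tau e : ℕ) - I : ℕ) : ℝ)) =
        4 * ∑ e ∈ H, lam e - ∑ e ∈ H, lam e * (((tau e : ℕ) - I : ℕ) : ℝ) := by
      rw [Finset.mul_sum, ← Finset.sum_sub_distrib]
      exact Finset.sum_congr rfl fun e _ => by ring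
    rw [this]
    linarith
  calc ∑ S ∈ H.powerset.erase ∅, g S
      ≤ ∑ S ∈ H.powerset.erase ∅, g S +
          Real.log 16 * ∑ S ∈ H.powerset.erase ∅, g S * ∑ e ∈ S, (4 - (((tau e : ℕ) - I : ℕ) : ℝ)) := by
        have := mul_nonneg hL8.le hpos
        linarith
    _ = ∑ S ∈ H.powerset.erase ∅, g S *
          (1 + Real.log 16 * ∑ e ∈ S, (4 - (((tau e : ℕ) - I : ℕ) : ℝ))) := by
        rw [Finset.mul_sum, ← Finset.sum_add_distrib]
        exact Finset.sum_congr rfl fun S _ => by ring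
    _ ≤ _ := Finset.sum_le_sum fun S _ => mul_le_mul_of_nonneg_left (hterm S) (hg S)

/-- expectation of a product over a set of independent labels -/
theorem expect (R : ℕ) (w y : Fin R → ℝ) (hw1 : ∑ t, w t = 1) (S : Finset α) :
    ∑ tau : α → Fin R, (∏ e, w (tau e)) * ∏ e ∈ S, y (tau e) = (∑ t, w t * y t) ^ S.card := by
  have h1 : ∀ tau : α → Fin R, (∏ e, w (tau e)) * ∏ e ∈ S, y (tau e) =
      ∏ e, (w (tau e) * if e ∈ S then y (tau e) else 1) := by
    intro tau
    rw [Finset.prod_mul_distrib]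
    congr 1
    rw [Finset.prod_ite_mem, Finset.univ_inter]
  simp_rw [h1]
  have h2 := Finset.prod_univ_sum (fun _ : α => (Finset.univ : Finset (Fin R)))
    (fun e t => w t * if e ∈ S then y t else 1)
  rw [Fintype.piFinset_univ] at h2
  rw [← h2]
  have h3 : ∀ e : α, ∑ t, (w t * if e ∈ S then y t else 1) =
      if e ∈ S then ∑ t, w t * y t else 1 := by
    intro e
    split_ifs with h
    · rfl
    · simp [hw1]
  simp_rw [h3]
  rw [Finset.prod_ite_mem, Finset.univ_inter, Finset.prod_const]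

/-- label weights -/
noncomputable def wt (q : ℝ) (I K : ℕ) (s : ℕ) : ℝ :=
  if s < K then q * 8 ^ s / 8 ^ I else 1 - ∑ j ∈ Finset.range K, q * 8 ^ j / 8 ^ I

theorem geo8 (n : ℕ) : ∑ j ∈ Finset.range n, (8 : ℝ) ^ j = (8 ^ n - 1) / 7 := by
  induction n with
  | zero => simp
  | succ n ih => rw [Finset.sum_range_succ, ih]; ring

theorem sum_wt (q : ℝ) (I K : ℕ) : ∑ s : Fin (K + 1), wt q I K s = 1 := by
  rw [Fin.sum_univ_castSucc]
  have h1 : ∀ i : Fin K, wt q I K ((Fin.castSucc i : Fin (K + 1)) : ℕ) = q * 8 ^ (i : ℕ) / 8 ^ I := by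
    intro i
    unfold wt
    rw [if_pos (by simp)]
    simp
  have h2 : wt q I K ((Fin.last K : Fin (K + 1)) : ℕ) =
      1 - ∑ j ∈ Finset.range K, q * 8 ^ j / 8 ^ I := by
    unfold wt
    rw [if_neg (by simp)]
  rw [h2, Finset.sum_congr rfl fun i _ => h1 i,
    Fin.sum_univ_eq_sum_range (fun j => q * 8 ^ j / 8 ^ I) K]
  ring

theorem tail_nonneg (q : ℝ) (hq : 0 < q) (I R : ℕ) (hR : q * 8 ^ R ≤ 7) :
    ∑ j ∈ Finset.range (I + R), q * 8 ^ j / 8 ^ I ≤ 1 := by
  have : ∑ j ∈ Finset.range (I + R), q * 8 ^ j / 8 ^ I = q / 8 ^ I * ((8 ^ (I + R) - 1) / 7) := by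
    rw [← geo8, Finset.mul_sum]
    exact Finset.sum_congr rfl fun j _ => by ring
  rw [this, pow_add]
  have h8 : (0 : ℝ) < 8 ^ I := by positivity
  have e : q / 8 ^ I * ((8 ^ I * 8 ^ R - 1) / 7) = (q * 8 ^ R) / 7 - q / (8 ^ I * 7) := by
    field_simp
  rw [e]
  have : 0 ≤ q / (8 ^ I * 7) := by positivity
  linarith

theorem wt_nonneg (q : ℝ) (hq : 0 < q) (I R : ℕ) (hR : q * 8 ^ R ≤ 7) (s : ℕ) :
    0 ≤ wt q I (I + R) s := by
  unfold wt
  split_ifs
  · positivity
  · linarith [tail_nonneg q hq I R hR]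

theorem sum_wt_y (q : ℝ) (hq : 0 < q) (I R : ℕ) (hR' : 7 < q * 8 ^ (R + 1)) :
    ∑ s : Fin (I + R + 1), wt q I (I + R) s * ((16 : ℝ) ^ 4 / 16 ^ ((s : ℕ) - I)) ≤
      16 ^ 4 * (4 * q) := by
  rw [Fin.sum_univ_castSucc]
  have h1 : ∀ i : Fin (I + R), wt q I (I + R) ((Fin.castSucc i : Fin (I + R + 1)) : ℕ) *
      ((16 : ℝ) ^ 4 / 16 ^ (((Fin.castSucc i : Fin (I + R + 1)) : ℕ) - I)) =
      q * 8 ^ (i : ℕ) / 8 ^ I * ((16 : ℝ) ^ 4 / 16 ^ ((i : ℕ) - I)) := by
    intro i
    unfold wt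
    rw [if_pos (by simp)]
    simp
  rw [Finset.sum_congr rfl fun i _ => h1 i,
    Fin.sum_univ_eq_sum_range (fun j => q * 8 ^ j / 8 ^ I * ((16 : ℝ) ^ 4 / 16 ^ (j - I))) (I + R)]
  have h2 : wt q I (I + R) ((Fin.last (I + R) : Fin (I + R + 1)) : ℕ) *
      ((16 : ℝ) ^ 4 / 16 ^ (((Fin.last (I + R) : Fin (I + R + 1)) : ℕ) - I)) ≤
      16 ^ 4 * (8 / 7 * q) := by
    have hw : wt q I (I + R) ((Fin.last (I + R) : Fin (I + R + 1)) : ℕ) ≤ 1 := by
      unfold wt
      rw [if_neg (by simp)]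
      have : 0 ≤ ∑ j ∈ Finset.range (I + R), q * 8 ^ j / 8 ^ I :=
        Finset.sum_nonneg fun j _ => by positivity
      linarith
    have he : ((Fin.last (I + R) : Fin (I + R + 1)) : ℕ) - I = R := by simp
    rw [he]
    have h16 : (1 : ℝ) / 16 ^ R ≤ 8 / 7 * q := by
      have h8 : (8 : ℝ) ^ R ≤ 16 ^ R := pow_le_pow_left₀ (by norm_num) (by norm_num) R
      rw [div_le_iff₀ (by positivity)]
      rw [pow_succ] at hR'
      have : q * 8 ^ R ≤ q * 16 ^ R := mul_le_mul_of_nonneg_left h8 hq.le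
      nlinarith
    calc _ ≤ 1 * ((16 : ℝ) ^ 4 / 16 ^ R) := mul_le_mul_of_nonneg_right hw (by positivity)
      _ = 16 ^ 4 * (1 / 16 ^ R) := by ring
      _ ≤ _ := mul_le_mul_of_nonneg_left h16 (by positivity)
  have h3 : ∑ j ∈ Finset.range (I + R), q * 8 ^ j / 8 ^ I * ((16 : ℝ) ^ 4 / 16 ^ (j - I)) ≤
      16 ^ 4 * (1 / 7 * q) + 16 ^ 4 * (2 * q) := by
    rw [Finset.sum_range_add]
    refine add_le_add ?_ ?_
    · calc ∑ j ∈ Finset.range I, q * 8 ^ j / 8 ^ I * ((16 : ℝ) ^ 4 / 16 ^ (j - I))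
          = ∑ j ∈ Finset.range I, (16 ^ 4 * q / 8 ^ I) * 8 ^ j := by
            refine Finset.sum_congr rfl fun j hj => ?_
            have : j - I = 0 := by have := Finset.mem_range.1 hj; omega
            rw [this]; ring
        _ = (16 ^ 4 * q / 8 ^ I) * ((8 ^ I - 1) / 7) := by rw [← Finset.mul_sum, geo8]
        _ = 16 ^ 4 * (1 / 7 * q) - 16 ^ 4 * q / (8 ^ I * 7) := by field_simp
        _ ≤ _ := by
          have : 0 ≤ 16 ^ 4 * q / (8 ^ I * 7) := by positivity
          linarith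
    · have hg : ∀ n : ℕ, ∑ j ∈ Finset.range n, (1 / 2 : ℝ) ^ j = 2 - 2 * (1 / 2) ^ n := by
        intro n
        induction n with
        | zero => simp
        | succ n ih => rw [Finset.sum_range_succ, ih]; ring
      calc ∑ j ∈ Finset.range R, q * 8 ^ (I + j) / 8 ^ I * ((16 : ℝ) ^ 4 / 16 ^ (I + j - I))
          = ∑ j ∈ Finset.range R, (16 ^ 4 * q) * (1 / 2) ^ j := by
            refine Finset.sum_congr rfl fun j _ => ?_
            have e1 : I + j - I = j := by omega
            have e2 : (1 / 2 : ℝ) ^ j = 8 ^ j / 16 ^ j := by rw [← div_pow]; norm_num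
            rw [e1, e2, pow_add]
            field_simp
        _ = (16 ^ 4 * q) * (2 - 2 * (1 / 2) ^ R) := by rw [← Finset.mul_sum, hg]
        _ ≤ (16 ^ 4 * q) * 2 := by
          refine mul_le_mul_of_nonneg_left ?_ (by positivity)
          have : (0 : ℝ) ≤ 2 * (1 / 2) ^ R := by positivity
          linarith
        _ = _ := by ring
  calc _ ≤ (16 ^ 4 * (1 / 7 * q) + 16 ^ 4 * (2 * q)) + 16 ^ 4 * (8 / 7 * q) := add_le_add h3 h2
    _ ≤ 16 ^ 4 * (4 * q) := by nlinarith

/-- the capture statement (black box for this file) -/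
def CaptureStmt (α : Type) [Fintype α] [DecidableEq α] : Prop :=
  ∀ (F : Finset (Finset α)) (_ : ∀ A ∈ F, ∀ B : Finset α, A ⊆ B → B ∈ F) (_ : ∅ ∉ F)
    (p : ℝ) (_ : 0 < p)
    (_ : ¬ ∃ G : Finset (Finset α), (∀ H ∈ F, ∃ S ∈ G, S ⊆ H) ∧ ∑ S ∈ G, p ^ S.card ≤ 1 / 2)
    (ℓ : Finset α → α → ℕ) (I K : ℕ) (_ : ∀ H ∈ F, ∀ x ∈ H, ℓ H x ≤ I)
    (_ : ∀ H ∈ F, ∀ i ≤ I, (H.filter (fun x => ℓ H x ≤ i)).card ≤ 16 ^ i)
    (w : Fin (K + 1) → ℝ) (_ : ∀ s, 0 ≤ w s) (_ : ∑ s, w s = 1)
    (_ : ∀ s : Fin (K + 1), (s : ℕ) < K → 2 ^ 22 * p * 8 ^ (s : ℕ) ≤ w s * 8 ^ I),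
    ∃ Gd : Finset (α → Fin (K + 1)),
      (∀ tau ∈ Gd, ∃ H ∈ F, ∀ i ≤ I, ∀ r < K,
        4 ^ r * (H.filter (fun x => ℓ H x ≤ i ∧ r < (tau x : ℕ))).card ≤ 16 ^ i * 4 ^ I) ∧
      1 / 2 < ∑ tau ∈ Gd, ∏ x, w (tau x)

theorem finish (hcap : CaptureStmt α) (F : Finset (Finset α)) (hempty : ∅ ∉ F)
    (hup : ∀ A ∈ F, ∀ B : Finset α, A ⊆ B → B ∈ F) (r : ℝ) (hr0 : 0 ≤ r) (hr1 : r ≤ 1)
    (g : Finset α → ℝ) (hg : ∀ S : Finset α, 0 ≤ g S ∧ g S ≤ 1)
    (hcov : ∀ H ∈ F, 1 ≤ ∑ S ∈ H.powerset, g S)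
    (hcost : ∑ S : Finset α, g S * r ^ S.card ≤ 1 / 2) :
    ∃ G : Finset (Finset α), (∀ H ∈ F, ∃ S ∈ G, S ⊆ H) ∧
      ∑ S ∈ G, (r / (25 * 512 ^ 4)) ^ S.card ≤ 1 / 2 := by
  rcases hr0.eq_or_lt with h | hr
  · subst h
    refine ⟨Finset.univ.erase ∅, ?_, ?_⟩
    · intro H hH
      refine ⟨H, ?_, subset_rfl⟩
      rw [Finset.mem_erase]
      exact ⟨fun h => hempty (h ▸ hH), Finset.mem_univ _⟩
    · rw [Finset.sum_eq_zero]
      · norm_num
      · intro S hS
        rw [Finset.mem_erase] at hS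
        rw [zero_div]
        exact zero_pow (Finset.card_ne_zero.2 (Finset.nonempty_iff_ne_empty.2 hS.1))
  by_contra hG
  set p : ℝ := r / (25 * 512 ^ 4) with hp
  have hp0 : 0 < p := by positivity
  set q : ℝ := 2 ^ 22 * p with hq
  have hq0 : 0 < q := by positivity
  have hq1 : q ≤ 1 := by
    rw [hq, hp, mul_div_assoc', div_le_one (by positivity)]
    nlinarith
  have hrq : 16 ^ 4 * (4 * q) ≤ r := by
    have : (16 : ℝ) ^ 4 * (4 * q) = (16 / 25) * r := by
      rw [hq, hp]; field_simp; norm_num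
    rw [this]; linarith
  -- choice of R
  obtain ⟨R, hR1, hR2⟩ : ∃ R : ℕ, q * 8 ^ R ≤ 7 ∧ 7 < q * 8 ^ (R + 1) := by
    have hex : ∃ n : ℕ, 7 < q * 8 ^ (n + 1) := by
      obtain ⟨n, hn⟩ := pow_unbounded_of_one_lt (7 / q) (by norm_num : (1 : ℝ) < 8)
      refine ⟨n, ?_⟩
      rw [div_lt_iff₀ hq0] at hn
      have : (8 : ℝ) ^ n ≤ 8 ^ (n + 1) := pow_le_pow_right₀ (by norm_num) (by omega)
      nlinarith
    classical
    refine ⟨Nat.find hex, ?_, Nat.find_spec hex⟩
    rcases Nat.eq_zero_or_pos (Nat.find hex) with h | h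
    · rw [h, pow_zero]; linarith
    · have := Nat.find_min hex (m := Nat.find hex - 1) (by omega)
      rw [Nat.sub_add_cancel h] at this
      exact not_lt.1 this
  set I := Fintype.card α with hI
  have hlev : ∀ H : Finset α, ∃ l : α → ℕ, (∀ e ∈ H, l e ≤ I) ∧
      (∀ i : ℕ, (H.filter (fun e => l e ≤ i)).card ≤ 16 ^ i) ∧
      ∀ B ⊆ H, ∀ s : ℕ, (∀ i ≤ I, 4 ^ s * (B.filter (fun e => l e ≤ i)).card ≤ 16 ^ i) →
        ∑ e ∈ B, (∑ S ∈ H.powerset.filter (fun S => e ∈ S), g S) ≤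
          16 / 4 ^ s * ∑ e ∈ H, (∑ S ∈ H.powerset.filter (fun S => e ∈ S), g S) := by
    intro H
    refine exists_level _ H (fun e _ => Finset.sum_nonneg fun S _ => (hg S).1) I ?_
    calc H.card ≤ Fintype.card α := Finset.card_le_univ H
      _ ≤ 16 ^ I := (Nat.lt_pow_self (by norm_num)).le
  choose ℓ hℓ1 hℓ2 hℓ3 using hlev
  obtain ⟨Gd, hGd, hP⟩ := hcap F hup hempty p hp0 hG ℓ I (I + R) (fun H _ => hℓ1 H)
    (fun H _ i _ => hℓ2 H i) (fun s => wt q I (I + R) s) (fun s => wt_nonneg q hq0 I R hR1 s)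
    (sum_wt q I (I + R)) (by
      intro s hs
      simp only [wt]
      rw [if_pos hs, div_mul_cancel₀ _ (by positivity)])
  have hP0 : ∀ tau : α → Fin (I + R + 1), 0 ≤ ∏ x, wt q I (I + R) (tau x) := fun tau =>
    Finset.prod_nonneg fun x _ => wt_nonneg q hq0 I R hR1 _
  have hy0 : ∀ s : Fin (I + R + 1), 0 ≤ (16 : ℝ) ^ 4 / 16 ^ ((s : ℕ) - I) := fun s => by positivity
  set E : ℝ := ∑ tau : α → Fin (I + R + 1), (∏ x, wt q I (I + R) (tau x)) *
    ∑ S ∈ (Finset.univ : Finset (Finset α)).erase ∅,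
      g S * ∏ e ∈ S, ((16 : ℝ) ^ 4 / 16 ^ ((tau e : ℕ) - I)) with hE
  -- upper bound
  have hm := sum_wt_y q hq0 I R hR2
  set m : ℝ := ∑ s : Fin (I + R + 1), wt q I (I + R) s * ((16 : ℝ) ^ 4 / 16 ^ ((s : ℕ) - I)) with hmdef
  have hm0 : 0 ≤ m := Finset.sum_nonneg fun s _ => mul_nonneg (wt_nonneg q hq0 I R hR1 _) (hy0 s)
  have hmr : m ≤ r := hm.trans hrq
  have hupper : E ≤ 1 / 2 - g ∅ := by
    have h1 : E = ∑ S ∈ (Finset.univ : Finset (Finset α)).erase ∅, g S * m ^ S.card := by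
      rw [hE]
      simp_rw [Finset.mul_sum]
      rw [Finset.sum_comm]
      refine Finset.sum_congr rfl fun S _ => ?_
      have := expect (α := α) (I + R + 1) (fun s => wt q I (I + R) s)
        (fun s => (16 : ℝ) ^ 4 / 16 ^ ((s : ℕ) - I)) (sum_wt q I (I + R)) S
      rw [hmdef, ← this, Finset.mul_sum]
      exact Finset.sum_congr rfl fun tau _ => by ring
    have h2 : ∑ S ∈ (Finset.univ : Finset (Finset α)).erase ∅, g S * m ^ S.card ≤
        ∑ S ∈ (Finset.univ : Finset (Finset α)).erase ∅, g S * r ^ S.card :=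
      Finset.sum_le_sum fun S _ =>
        mul_le_mul_of_nonneg_left (pow_le_pow_left₀ hm0 hmr _) (hg S).1
    have h3 : ∑ S ∈ (Finset.univ : Finset (Finset α)).erase ∅, g S * r ^ S.card + g ∅ ≤ 1 / 2 := by
      have := Finset.sum_erase_add (Finset.univ : Finset (Finset α)) (fun S => g S * r ^ S.card)
        (Finset.mem_univ ∅)
      simp only [Finset.card_empty, pow_zero, mul_one] at this
      rw [this]
      exact hcost
    rw [h1]
    linarith
  -- g ∅ ≤ 1/2
  have hg0 : g ∅ ≤ 1 / 2 := by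
    have h := Finset.single_le_sum (f := fun S : Finset α => g S * r ^ S.card)
      (fun S _ => mul_nonneg (hg S).1 (pow_nonneg hr0 _)) (Finset.mem_univ (∅ : Finset α))
    simp only [Finset.card_empty, pow_zero, mul_one] at h
    exact h.trans hcost
  -- lower bound
  have hlow : ∀ tau ∈ Gd, 1 - g ∅ ≤ ∑ S ∈ (Finset.univ : Finset (Finset α)).erase ∅,
      g S * ∏ e ∈ S, ((16 : ℝ) ^ 4 / 16 ^ ((tau e : ℕ) - I)) := by
    intro tau ht
    obtain ⟨H, hH, hcond⟩ := hGd tau ht
    have h1 := phi_lower H g (fun S => (hg S).1) I R tau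
      (fun e => ∑ S ∈ H.powerset.filter (fun S => e ∈ S), g S) (fun e => rfl) (by
        intro s hs
        refine hℓ3 H _ (Finset.filter_subset _ _) s ?_
        intro i hi
        have hc := hcond i hi (I + s) (by omega)
        have e1 : (H.filter (fun e => I + s < (tau e : ℕ))).filter (fun e => ℓ H e ≤ i) =
            H.filter (fun x => ℓ H x ≤ i ∧ I + s < (tau x : ℕ)) := by
          rw [Finset.filter_filter]
          exact Finset.filter_congr fun x _ => and_comm
        rw [e1]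
        rw [pow_add] at hc
        have h4 : 0 < 4 ^ I := by positivity
        refine Nat.le_of_mul_le_mul_left ?_ h4
        calc 4 ^ I * (4 ^ s * _) = 4 ^ I * 4 ^ s * _ := by ring
          _ ≤ 16 ^ i * 4 ^ I := hc
          _ = 4 ^ I * 16 ^ i := by ring)
    have h2 : 1 - g ∅ ≤ ∑ S ∈ H.powerset.erase ∅, g S := by
      have := Finset.sum_erase_add H.powerset g (Finset.empty_mem_powerset H)
      have := hcov H hH
      linarith
    refine h2.trans (h1.trans ?_)
    refine Finset.sum_le_sum_of_subset_of_nonneg ?_ ?_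
    · exact Finset.erase_subset_erase _ (Finset.subset_univ _)
    · intro S _ _
      exact mul_nonneg (hg S).1 (Finset.prod_nonneg fun e _ => hy0 _)
  have hlower : (∑ tau ∈ Gd, ∏ x, wt q I (I + R) (tau x)) * (1 - g ∅) ≤ E := by
    rw [Finset.sum_mul, hE]
    refine le_trans (Finset.sum_le_sum fun tau ht =>
      mul_le_mul_of_nonneg_left (hlow tau ht) (hP0 tau)) ?_
    refine Finset.sum_le_sum_of_subset_of_nonneg (Finset.subset_univ _) ?_
    intro tau _ _
    exact mul_nonneg (hP0 tau) (Finset.sum_nonneg fun S _ =>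
      mul_nonneg (hg S).1 (Finset.prod_nonneg fun e _ => hy0 _))
  have hgz := (hg ∅).1
  nlinarith [hP]

end finish

end Crest.TG71
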