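import Crest.Agent.TG_CapP1
import Crest.Agent.TG_CapP3a
import Crest.Agent.TG_CapP4
import Crest.Agent.TG_S71Fin

/-!
# S0071, P5: the capture statement (insurance copy, helper73)
-/

set_option autoImplicit false

namespace Crest.TG71.Cap
open Finset

theorem sum_biUnion_le_73 {ι β : Type} [DecidableEq ι] [DecidableEq β] (s : Finset ι)
    (t : ι → Finset β) (f : β → ℝ) (hf : ∀ b, 0 ≤ f b) :
    ∑ x ∈ s.biUnion t, f x ≤ ∑ i ∈ s, ∑ x ∈ t i, f x := by
  induction s using Finset.induction_on with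
  | empty => simp
  | insert a s ha ih =>
    rw [biUnion_insert, sum_insert ha]
    have h1 := sum_union_inter (s₁ := t a) (s₂ := s.biUnion t) (f := f)
    have h2 : 0 ≤ ∑ x ∈ t a ∩ s.biUnion t, f x := sum_nonneg fun x _ => hf x
    linarith

namespace Sys
variable {α : Type} [Fintype α] [DecidableEq α] (S : Sys α)

theorem prCapt73 (p : ℝ) (hp : 0 < p) (hns : S.NotSmall p) (w : Fin (S.K + 1) → ℝ)
    (hw : S.WOK p w) [DecidablePred S.Capt] :
    1 / 2 < ∑ τ ∈ univ.filter (fun τ : α → Fin (S.K + 1) => S.Capt τ), KK.wt w τ := by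
  classical
  have hwt : ∀ τ : α → Fin (S.K + 1), 0 ≤ KK.wt w τ := fun τ => KK.wt_nonneg w hw.1 τ
  have hpos : ∀ T : Finset α, 0 ≤ p ^ T.card := fun T => by positivity
  -- the cover of a non-captured labelling
  have hcov : ∀ τ : α → Fin (S.K + 1), ¬ S.Capt τ →
      1 / 2 ≤ ∑ k ∈ range S.K, ∑ n ∈ S.Nset k, ∑ T ∈ univ.filter (S.IsFrag k n τ), p ^ T.card := by
    intro τ hτ
    set G : Finset (Finset α) := (range S.K).biUnion fun k => (S.Nset k).biUnion fun n =>
      univ.filter (S.IsFrag k n τ) with hG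
    have h1 := hns G (by
      intro H hH
      obtain ⟨k, hk, n, hn, T, hT, hTH⟩ := S.exists_bad τ hτ H hH
      refine ⟨T, ?_, hTH⟩
      rw [hG, mem_biUnion]
      refine ⟨k, hk, ?_⟩
      rw [mem_biUnion]
      exact ⟨n, hn, by rw [mem_filter]; exact ⟨mem_univ _, hT⟩⟩)
    have h2 : ∑ T ∈ G, p ^ T.card ≤ ∑ k ∈ range S.K, ∑ n ∈ S.Nset k,
        ∑ T ∈ univ.filter (S.IsFrag k n τ), p ^ T.card := by
      refine le_trans (sum_biUnion_le_73 _ _ _ hpos) ?_
      refine sum_le_sum fun k _ => ?_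
      exact sum_biUnion_le_73 _ _ _ hpos
    linarith
  -- total
  have htot : ∑ τ : α → Fin (S.K + 1), KK.wt w τ * ∑ k ∈ range S.K, ∑ n ∈ S.Nset k,
      ∑ T ∈ univ.filter (S.IsFrag k n τ), p ^ T.card ≤ 1 / 8 := by
    have h1 : ∑ τ : α → Fin (S.K + 1), KK.wt w τ * ∑ k ∈ range S.K, ∑ n ∈ S.Nset k,
        ∑ T ∈ univ.filter (S.IsFrag k n τ), p ^ T.card =
        ∑ k ∈ range S.K, ∑ n ∈ S.Nset k, ∑ τ : α → Fin (S.K + 1), KK.wt w τ *
          ∑ T ∈ univ.filter (S.IsFrag k n τ), p ^ T.card := by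
      simp only [mul_sum]
      rw [sum_comm]
      refine sum_congr rfl fun k _ => ?_
      rw [sum_comm]
    rw [h1]
    refine le_trans ?_ S.num_sum
    refine sum_le_sum fun k _ => sum_le_sum fun n hn => ?_
    exact S.pr_frag p hp w hw k n hn
  -- the non-captured labellings have weight at most 1/4
  have hbad : ∑ τ ∈ univ.filter (fun τ : α → Fin (S.K + 1) => ¬ S.Capt τ), KK.wt w τ ≤ 1 / 4 := by
    have h1 : ∑ τ ∈ univ.filter (fun τ : α → Fin (S.K + 1) => ¬ S.Capt τ), KK.wt w τ * (1 / 2) ≤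
        ∑ τ : α → Fin (S.K + 1), KK.wt w τ * ∑ k ∈ range S.K, ∑ n ∈ S.Nset k,
          ∑ T ∈ univ.filter (S.IsFrag k n τ), p ^ T.card := by
      refine le_trans (sum_le_sum (f := fun τ => KK.wt w τ * (1 / 2))
        (g := fun τ => KK.wt w τ * ∑ k ∈ range S.K, ∑ n ∈ S.Nset k,
          ∑ T ∈ univ.filter (S.IsFrag k n τ), p ^ T.card) fun τ hτ => ?_) ?_
      · exact mul_le_mul_of_nonneg_left (hcov τ (mem_filter.1 hτ).2) (hwt τ)
      · refine sum_le_sum_of_subset_of_nonneg (filter_subset _ _) fun τ _ _ => ?_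
        refine mul_nonneg (hwt τ) (sum_nonneg fun k _ => sum_nonneg fun n _ =>
          sum_nonneg fun T _ => hpos T)
    rw [← sum_mul] at h1
    linarith
  have hone : ∑ τ : α → Fin (S.K + 1), KK.wt w τ = 1 := KK.sum_wt w hw.2.1
  have hsplit := sum_filter_add_sum_filter_not (univ : Finset (α → Fin (S.K + 1)))
    (fun τ => S.Capt τ) (fun τ => KK.wt w τ)
  rw [hone] at hsplit
  linarith

end Sys
end Crest.TG71.Cap

namespace Crest.TG71
open Finset

theorem captureStmt73 (α : Type) [Fintype α] [DecidableEq α] : CaptureStmt α := by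
  classical
  intro F hup hempty p hp hns ℓ I K hI hL w hw0 hw1 hwOK
  rcases lt_or_ge K I with hKI | hKI
  · -- every member is captured
    have hF : F.Nonempty := by
      by_contra h
      rw [Finset.not_nonempty_iff_eq_empty] at h
      apply hns
      refine ⟨∅, ?_, ?_⟩
      · intro H hH
        rw [h] at hH
        exact absurd hH (Finset.notMem_empty _)
      · simp
    obtain ⟨H, hH⟩ := hF
    refine ⟨univ, ?_, ?_⟩
    · intro τ _
      refine ⟨H, hH, ?_⟩
      intro i hi r hr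
      have h1 : (H.filter (fun x => ℓ H x ≤ i ∧ r < (τ x : ℕ))).card ≤ 16 ^ i := by
        refine le_trans (card_le_card ?_) (hL H hH i hi)
        intro x hx
        simp only [mem_filter] at hx ⊢
        exact ⟨hx.1, hx.2.1⟩
      have h2 : 4 ^ r ≤ 4 ^ I := Nat.pow_le_pow_right (by norm_num) (by omega)
      calc _ ≤ 4 ^ I * 16 ^ i := Nat.mul_le_mul h2 h1
        _ = 16 ^ i * 4 ^ I := Nat.mul_comm _ _
    · have h1 := KK.sum_wt (X := α) w hw1
      unfold KK.wt at h1
      rw [h1]
      norm_num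
  · obtain ⟨R, hR⟩ := Nat.exists_eq_add_of_le hKI
    subst hR
    let S : Cap.Sys α :=
      { F := F, ℓ := ℓ, I := I, hI := hI, R := R
        hL := by
          intro H hH i
          rcases le_or_gt i I with h | h
          · exact hL H hH i h
          · refine le_trans (card_le_card (t := H.filter (fun x => ℓ H x ≤ I)) ?_)
              (le_trans (hL H hH I le_rfl) (Nat.pow_le_pow_right (by norm_num) h.le))
            intro x hx
            simp only [mem_filter] at hx ⊢
            exact ⟨hx.1, hI H hH x hx.1⟩ }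
    have hns' : S.NotSmall p := by
      intro G hG
      by_contra h
      push Not at h
      exact hns ⟨G, hG, h⟩
    have hW : S.WOK p w := ⟨hw0, hw1, hwOK⟩
    have h := S.prCapt73 p hp hns' w hW
    refine ⟨univ.filter (fun τ : α → Fin (S.K + 1) => S.Capt τ), ?_, ?_⟩
    · intro τ hτ
      exact (mem_filter.1 hτ).2
    · exact h

end Crest.TG71
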