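import Crest.Agent.TG74_Num
import Crest.Agent.TG8_Gamma
import Crest.Agent.TG73_Split
import Crest.Agent.TG1_Deg
import Crest.Agent.TG69_Spread
import Crest.Agent.TG6_Ext
import Crest.Agent.TG_Degen
import Crest.Agent.KK_Push
import Crest.Agent.KK_Pr

/-! Dense assembly of S0073 from GAMMA and GREEDY (helper74, insurance). -/

set_option autoImplicit false

namespace Crest.TG74
open Finset Crest.CombinatoricsR.RandomGraph

/-- antitone in the graph -/
theorem gnpProb_anti {n : ℕ} {W : Type} (F F' : SimpleGraph W) (p : ℝ) (hp : 0 ≤ p) (hp1 : p ≤ 1)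
    (h : F ≤ F') :
    gnpProb n p {G | F'.IsContained G} ≤ gnpProb n p {G | F.IsContained G} := by
  classical
  unfold gnpProb
  rw [KK.bernoulliProb_eq_Pr, KK.bernoulliProb_eq_Pr]
  refine KK.Pr_mono _ ?_ _ _ ?_
  · intro b
    cases b
    · simpa using hp1
    · simpa using hp
  · intro ω hω
    have h1 : F'.IsContained (graphOf ω) := hω
    exact h1.mono_left h

theorem qb_of (n : ℕ) (q : ℝ) (hn : 200 ≤ n) (hq0 : 0 < q) (h : 1 < q ^ 1000 * (n : ℝ)) :
    (n : ℝ) ^ (-(1 / (1000 : ℝ))) ≤ q := by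
  have hnR : (200 : ℝ) ≤ n := by exact_mod_cast hn
  have hnpos : (0 : ℝ) < n := lt_of_lt_of_le (by norm_num) hnR
  generalize hN : (1000 : ℕ) = N at h
  have hNr : (1000 : ℝ) = (N : ℝ) := by rw [← hN]; norm_num
  rw [hNr]
  have hN0 : N ≠ 0 := by omega
  have hN0' : (N : ℝ) ≠ 0 := by exact_mod_cast hN0
  by_contra hcon
  push Not at hcon
  have h3 : q ^ N < ((n : ℝ) ^ (-(1 / (N : ℝ)))) ^ N := pow_lt_pow_left₀ hcon hq0.le hN0
  have h2 : ((n : ℝ) ^ (-(1 / (N : ℝ)))) ^ N = (n : ℝ)⁻¹ := by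
    rw [← Real.rpow_natCast, ← Real.rpow_mul hnpos.le]
    have : -(1 / (N : ℝ)) * (N : ℝ) = -1 := by field_simp
    rw [this, Real.rpow_neg_one]
  rw [h2] at h3
  have h4 : q ^ N * (n : ℝ) < (n : ℝ)⁻¹ * n := mul_lt_mul_of_pos_right h3 hnpos
  rw [inv_mul_cancel₀ hnpos.ne'] at h4
  exact absurd (h.trans h4) (lt_irrefl _)

theorem dense_of (hG : Crest.TG8.GAMMA) (hGr : Crest.TG8.GREEDY) : Crest.TG8.DENSE := by
  obtain ⟨m, hm, L0, hL0, n1, hΓ⟩ := hG
  obtain ⟨n2, hn2, hN⟩ := numerics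
  obtain ⟨K, ⟨e⟩⟩ : ∃ K : ℕ, Nonempty ((Bool × Fin 400 × Fin 128 × Fin 128) ≃ Fin K) :=
    ⟨_, ⟨Fintype.equivFin _⟩⟩
  have hKpos : 1 ≤ K := by
    have h := (e (true, 0, 0, 0)).2
    omega
  refine ⟨K * m, Nat.mul_pos hKpos hm, L0, hL0, max n1 n2, ?_⟩
  intro n _ hn W _ _ H _ hW hH q hq0 hLq hqn hFM
  classical
  have hn1 : n1 ≤ n := ((le_max_left _ _).trans_lt hn).le
  have hn2' : n2 ≤ n := ((le_max_right _ _).trans_lt hn).le
  have hn200 : 200 ≤ n := hn2.trans hn2'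
  have hnR : (200 : ℝ) ≤ n := by exact_mod_cast hn200
  have hnpos : (0 : ℝ) < n := by linarith
  have hqb : (n : ℝ) ^ (-(1 / (1000 : ℝ))) ≤ q := qb_of n q hn200 hq0 hqn
  clear hqn
  have hq2 : q ≤ 1 / 2 := by nlinarith
  have hq1 : q < 1 := by linarith
  obtain ⟨κ⟩ : Nonempty (W ↪ Fin n) :=
    Function.Embedding.nonempty_of_card_le (by rwa [Fintype.card_fin])
  obtain ⟨D0, hD0, hD0'⟩ := Crest.TG1.exists_D0 n (by omega) q hq0 hq1
  have hden : ∀ U : Finset W, (1 : ℝ) / 2 ≤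
      (n : ℝ) ^ U.card * q ^ (H.edgeFinset.filter (fun e => ∀ x ∈ e, x ∈ U)).card :=
    fun U => Crest.TG69.density H q hq0.le κ hFM U
  have hlow := Crest.TG1.low_degree H n (by omega) q hq0 hq1 D0 hD0' hden
  obtain ⟨σ, hσ⟩ := Crest.TG.Degen.exists_order H D0 hlow
  have hback := Crest.TG1.pow_back n (by omega) q hq0 hq1 1000 hqb D0 400 (D0 / 400 + 1)
    (by norm_num) hD0 le_rfl
  have hqD : (n : ℝ) ^ (-(1 / 100) : ℝ) ≤ q ^ (D0 / 400 + 1) := by
    refine le_trans ?_ hback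
    apply Real.rpow_le_rpow_of_exponent_le (by linarith)
    norm_num
  obtain ⟨N1, N2, N3, N4, N5⟩ := hN n hn2' q hq0 hq2 D0 hD0 hqD
  set Δ := ⌈(n : ℝ) ^ (92 / 100 : ℝ)⌉₊ with hΔ
  set T := ⌈(n : ℝ) ^ (1 / 50 : ℝ)⌉₊ with hT
  set D := D0 / 400 + 1 with hDdef
  set τ : W → ℕ := fun v => (σ v : ℕ) with hτ
  have hτi : Function.Injective τ := fun a b hab => σ.injective (Fin.ext hab)
  have hd : ∀ v, (univ.filter (fun u => H.Adj v u ∧ τ u < τ v)).card ≤ D0 := fun v => hσ v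
  set J : Finset W := univ.filter (fun v => Δ < (univ.filter (fun u => H.Adj v u)).card) with hJ
  have hJc : (J.card : ℝ) ≤ (n : ℝ) ^ (1 / 10 : ℝ) := by
    apply N1
    have h1 := Crest.TG73.hub_card H τ hτi D0 Δ hd
    calc J.card * Δ ≤ 2 * D0 * Fintype.card W := h1
      _ ≤ 2 * D0 * n := Nat.mul_le_mul_left _ hW
  obtain ⟨lab, hlab⟩ := Crest.TG73.dense_split H τ hτi D0 Δ 400 128 (by norm_num) (by norm_num)
    hd J hJ
  have hWM : Fintype.card W / 128 + 1 ≤ n / 128 + 1 :=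
    Nat.add_le_add_right (Nat.div_le_div_right hW) _
  obtain ⟨f, hf⟩ : ∃ f : Sym2 W → Fin K, ∀ s, f s = e (lab s) := ⟨fun s => e (lab s), fun s => rfl⟩
  have hLq0 : 0 ≤ L0 * q := by positivity
  apply TG6.refine_labels H (k1 := K) (k2 := m) (fun x => f x.1)
    (fun F => 1 / 2 ≤ gnpProb n (L0 * q) {G | F.IsContained G})
  intro i
  obtain ⟨⟨b, i1, a, b'⟩, rfl⟩ := e.surjective i
  obtain ⟨A1, A2, A3, A4, A5, A6⟩ := hlab i1 a b'
  set F := pieceGraph H (fun x => f x.1) (e (b, i1, a, b')) with hF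
  have hadj : ∀ u v, F.Adj u v ↔ H.Adj u v ∧ lab s(u, v) = (b, i1, a, b') := by
    intro u v
    rw [hF, TG6.pieceGraph_sym2]
    rw [hf, e.apply_eq_iff_eq]
  cases b
  · -- hub class
    have hsymm : ∀ u v : W, s(u, v) = s(v, u) := fun u v => Sym2.eq_swap
    have hends : ∀ u v, F.Adj u v → (u ∈ J ∧ v ∉ J) ∨ (u ∉ J ∧ v ∈ J) := by
      intro u v h
      have h1 := (hadj u v).1 h
      rcases A4 u v h1.1 h1.2 with h2 | h2
      · exact Or.inr ⟨h2.2.1, h2.1⟩
      · exact Or.inl ⟨h2.1, h2.2.1⟩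
    have hdeg : ∀ v, v ∉ J → (univ.filter (fun u => F.Adj v u)).card ≤ D := by
      intro v hv
      refine le_trans (le_of_eq ?_) (A5 v hv)
      congr 1
      ext u
      simp [hadj]
    apply hΓ n hn1 W F J q D hq0 hLq hW hends hJc hdeg hqD
    · have h1 : (univ.filter (fun v => v ∉ J ∧ ∃ u, F.Adj v u)).card ≤ n / 128 + 1 := by
        refine le_trans (le_trans (le_of_eq ?_) A6) hWM
        congr 1
        ext v
        simp [hadj]
      calc 64 * (univ.filter (fun v => v ∉ J ∧ ∃ u, F.Adj v u)).card ≤ 64 * (n / 128 + 1) :=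
            Nat.mul_le_mul_left _ h1
        _ ≤ n := N5
    · intro S hS
      have h1 := Crest.TG69.spread_hub H q hq0 hq1.le (by omega) κ hFM J D N4
        (fun v => univ.filter (fun u => F.Adj v u))
        (fun v hv u hu => by
          rcases hends v u (mem_filter.1 hu).2 with h | h
          · exact absurd h.1 hv
          · exact h.2)
        (fun v _ u hu => ((hadj v u).1 (mem_filter.1 hu).2).1) hdeg S hS
      refine le_trans (le_of_eq ?_) h1
      congr 2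
      ext v
      simp only [mem_filter, mem_univ, true_and, Finset.subset_iff]
  · -- low class
    refine ⟨fun _ => ⟨0, hm⟩, fun j => ?_⟩
    refine le_trans ?_ (gnpProb_anti _ F (L0 * q) hLq0 hLq.le (TG6.pieceGraph_le F _ j))
    set U : Finset W := univ.filter (fun v => ∃ u, F.Adj v u) with hU
    have hUc : U.card ≤ 2 * (n / 128 + 1) := by
      refine le_trans (le_trans (le_of_eq ?_) A3) (Nat.mul_le_mul_left _ hWM)
      congr 1
      ext v
      simp [hU, hadj]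
    have g1 := hGr W F U (fun x y hxy => by simp only [hU, mem_filter, mem_univ, true_and]; exact ⟨y, hxy⟩)
      τ hτi n D (max Δ (J.card + D0)) T
      (fun v => by
        refine le_trans (le_of_eq ?_) (A1 v)
        congr 1
        ext u
        simp [hadj])
      (fun v => by
        refine le_trans (le_of_eq ?_) (A2 v)
        congr 1
        ext u
        simp [hadj])
      (L0 * q) hLq0 hLq.le hW
      (by
        have := N2 J.card hJc
        omega)
    refine le_trans ?_ g1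
    have hx1 : (L0 * q) ^ D ≤ 1 := pow_le_one₀ hLq0 hLq.le
    have hx : (n : ℝ) ^ (-(1 / 100) : ℝ) ≤ (L0 * q) ^ D := by
      refine hqD.trans (pow_le_pow_left₀ hq0.le ?_ D)
      nlinarith
    have g2 := N3 _ hx hx1
    have hUn : (U.card : ℝ) ≤ n := by
      have h1 : U.card ≤ n := (card_le_univ U).trans hW
      exact_mod_cast h1
    have g3 : (U.card : ℝ) * (1 - (L0 * q) ^ D) ^ T ≤ n * (1 - (L0 * q) ^ D) ^ T :=
      mul_le_mul_of_nonneg_right hUn (pow_nonneg (by linarith) _)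
    linarith

end Crest.TG74
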