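import Crest.Agent.TG94_Num

/-! Numerics of the dense assembly of S0073 (helper74). -/

set_option autoImplicit false

namespace Crest.TG74
open Finset Filter Crest.TG94

theorem D0_le (n : ℕ) (hn : 1 ≤ n) (q : ℝ) (hq0 : 0 < q) (hq : q ≤ 1 / 2) (D0 : ℕ)
    (h : 1 ≤ (n : ℝ) ^ 3 * q ^ D0) : (D0 : ℝ) ≤ 5 * Real.log n := by
  have hn' : (0 : ℝ) < n := by exact_mod_cast hn
  have h1 : q ^ D0 ≤ (1 / 2) ^ D0 := pow_le_pow_left₀ hq0.le hq D0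
  have h2 : (2 : ℝ) ^ D0 ≤ (n : ℝ) ^ 3 := by
    have h3 : 1 ≤ (n : ℝ) ^ 3 * (1 / 2) ^ D0 :=
      h.trans (mul_le_mul_of_nonneg_left h1 (by positivity))
    rw [one_div, inv_pow] at h3
    have h4 : (0 : ℝ) < 2 ^ D0 := by positivity
    rw [← div_eq_mul_inv, le_div_iff₀ h4] at h3
    linarith
  have h5 : Real.log ((2 : ℝ) ^ D0) ≤ Real.log ((n : ℝ) ^ 3) := Real.log_le_log (by positivity) h2
  rw [Real.log_pow, Real.log_pow] at h5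
  have h6 : (0.6931471803 : ℝ) < Real.log 2 := Real.log_two_gt_d9
  have h7 : 0 ≤ Real.log n := Real.log_nonneg (by exact_mod_cast hn)
  have h8 : (D0 : ℝ) * 0.6931471803 ≤ 3 * Real.log n := by
    have : (D0 : ℝ) * 0.6931471803 ≤ D0 * Real.log 2 :=
      mul_le_mul_of_nonneg_left h6.le (Nat.cast_nonneg _)
    push_cast at h5
    linarith
  nlinarith

theorem numerics : ∃ n0 : ℕ, 200 ≤ n0 ∧ ∀ n : ℕ, n0 ≤ n →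
    ∀ q : ℝ, 0 < q → q ≤ 1 / 2 → ∀ D0 : ℕ, 1 ≤ (n : ℝ) ^ 3 * q ^ D0 →
    (n : ℝ) ^ (-(1 / 100) : ℝ) ≤ q ^ (D0 / 400 + 1) →
    (∀ j : ℕ, j * ⌈(n : ℝ) ^ (92 / 100 : ℝ)⌉₊ ≤ 2 * D0 * n → (j : ℝ) ≤ (n : ℝ) ^ (1 / 10 : ℝ)) ∧
    (∀ j : ℕ, (j : ℝ) ≤ (n : ℝ) ^ (1 / 10 : ℝ) →
      2 * (n / 128 + 1) + (D0 / 400 + 1) * max ⌈(n : ℝ) ^ (92 / 100 : ℝ)⌉₊ (j + D0) *
        ⌈(n : ℝ) ^ (1 / 50 : ℝ)⌉₊ + ⌈(n : ℝ) ^ (1 / 50 : ℝ)⌉₊ ≤ n) ∧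
    (∀ x : ℝ, (n : ℝ) ^ (-(1 / 100) : ℝ) ≤ x → x ≤ 1 →
      (n : ℝ) * (1 - x) ^ ⌈(n : ℝ) ^ (1 / 50 : ℝ)⌉₊ ≤ 1 / 2) ∧
    (((D0 / 400 + 1 : ℕ) : ℝ) * Real.log n ≤ 20 * n * q ^ (D0 / 400 + 1)) ∧
    64 * (n / 128 + 1) ≤ n := by
  have e1 := ev_rpow_log_le (a := 98 / 100) (b := 1) (by norm_num) 1000 1
  have e2 := ev_pow_exp_le (a := 1 / 100) (c := 1) (ε := 1 / 2) (by norm_num) (by norm_num)
    (by norm_num) 1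
  have e3 := ev_rpow_log_le (a := 8 / 100) (b := 1 / 10) (by norm_num) 10 1
  have e4 := ev_rpow_log_le (a := 0) (b := 98 / 100) (by norm_num) 10 2
  have e5 := ev_rpow_log_le (a := 94 / 100) (b := 98 / 100) (by norm_num) 84 2
  obtain ⟨n0, hn0, H⟩ := exists_threshold (((e1.and e2).and (e3.and e4)).and e5) 200
  refine ⟨n0, hn0, fun n hn q hq0 hq D0 hD0 hqD => ?_⟩
  obtain ⟨⟨⟨h1, h2⟩, ⟨h3, h4⟩⟩, h5⟩ := H n hn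
  have hn200 : 200 ≤ n := hn0.trans hn
  have hnR : (200 : ℝ) ≤ n := by exact_mod_cast hn200
  have hn1 : (1 : ℝ) ≤ n := by linarith
  have hnpos : (0 : ℝ) < n := by linarith
  have hlog1 : 1 ≤ Real.log n := by
    rw [Real.le_log_iff_exp_le hnpos]
    have := Real.exp_one_lt_d9
    linarith
  have hD := D0_le n (by omega) q hq0 hq D0 hD0
  rw [pow_one] at h1 h2 h3
  rw [Real.rpow_one] at h1
  rw [Real.rpow_zero] at h4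
  have hdiv : ((D0 / 400 + 1 : ℕ) : ℝ) ≤ 6 * Real.log n := by
    have : ((D0 / 400 : ℕ) : ℝ) ≤ D0 := by exact_mod_cast Nat.div_le_self _ _
    push_cast
    linarith
  have hpos92 : (0 : ℝ) < (n : ℝ) ^ (92 / 100 : ℝ) := Real.rpow_pos_of_pos hnpos _
  refine ⟨?_, ?_, ?_, ?_, ?_⟩
  · intro j hj
    have hj' : (j : ℝ) * (n : ℝ) ^ (92 / 100 : ℝ) ≤ 2 * D0 * n := by
      have a1 : (j : ℝ) * (n : ℝ) ^ (92 / 100 : ℝ) ≤ (j : ℝ) * ⌈(n : ℝ) ^ (92 / 100 : ℝ)⌉₊ :=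
        mul_le_mul_of_nonneg_left (Nat.le_ceil _) (Nat.cast_nonneg _)
      have a2 : (j : ℝ) * ⌈(n : ℝ) ^ (92 / 100 : ℝ)⌉₊ ≤ 2 * D0 * n := by exact_mod_cast hj
      linarith
    have a3 : (n : ℝ) = (n : ℝ) ^ (8 / 100 : ℝ) * (n : ℝ) ^ (92 / 100 : ℝ) := by
      rw [← Real.rpow_add hnpos]; norm_num
    have a4 : (j : ℝ) * (n : ℝ) ^ (92 / 100 : ℝ) ≤
        (2 * D0 * (n : ℝ) ^ (8 / 100 : ℝ)) * (n : ℝ) ^ (92 / 100 : ℝ) := by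
      calc _ ≤ 2 * D0 * (n : ℝ) := hj'
        _ = 2 * D0 * ((n : ℝ) ^ (8 / 100 : ℝ) * (n : ℝ) ^ (92 / 100 : ℝ)) := by rw [← a3]
        _ = _ := by ring
    have a5 := le_of_mul_le_mul_right a4 hpos92
    refine a5.trans (le_trans ?_ h3)
    have : (0 : ℝ) ≤ (n : ℝ) ^ (8 / 100 : ℝ) := by positivity
    nlinarith
  · intro j hj
    have hm1 : (1 : ℝ) ≤ (n : ℝ) ^ (92 / 100 : ℝ) := Real.one_le_rpow hn1 (by norm_num)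
    have hj92 : (n : ℝ) ^ (1 / 10 : ℝ) ≤ (n : ℝ) ^ (92 / 100 : ℝ) :=
      Real.rpow_le_rpow_of_exponent_le hn1 (by norm_num)
    have hΔ : ((max ⌈(n : ℝ) ^ (92 / 100 : ℝ)⌉₊ (j + D0) : ℕ) : ℝ) ≤
        7 * (n : ℝ) ^ (92 / 100 : ℝ) * Real.log n := by
      rw [Nat.cast_max]
      apply max_le
      · have := (Nat.ceil_lt_add_one hpos92.le).le
        nlinarith
      · push_cast
        nlinarith
    have hT : ((⌈(n : ℝ) ^ (1 / 50 : ℝ)⌉₊ : ℕ) : ℝ) ≤ 2 * (n : ℝ) ^ (1 / 50 : ℝ) := by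
      have h50 : (1 : ℝ) ≤ (n : ℝ) ^ (1 / 50 : ℝ) := Real.one_le_rpow hn1 (by norm_num)
      have := (Nat.ceil_lt_add_one (show (0:ℝ) ≤ (n : ℝ) ^ (1 / 50 : ℝ) by positivity)).le
      linarith
    have hd1 : (((D0 / 400 + 1) * max ⌈(n : ℝ) ^ (92 / 100 : ℝ)⌉₊ (j + D0) *
        ⌈(n : ℝ) ^ (1 / 50 : ℝ)⌉₊ : ℕ) : ℝ) ≤
        (6 * Real.log n) * (7 * (n : ℝ) ^ (92 / 100 : ℝ) * Real.log n) *
          (2 * (n : ℝ) ^ (1 / 50 : ℝ)) := by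
      rw [Nat.cast_mul, Nat.cast_mul]
      apply mul_le_mul _ hT (Nat.cast_nonneg _) (by positivity)
      exact mul_le_mul hdiv hΔ (Nat.cast_nonneg _) (by positivity)
    have hd2 : (6 * Real.log n) * (7 * (n : ℝ) ^ (92 / 100 : ℝ) * Real.log n) *
          (2 * (n : ℝ) ^ (1 / 50 : ℝ)) = 84 * (n : ℝ) ^ (94 / 100 : ℝ) * Real.log n ^ 2 := by
      have : (n : ℝ) ^ (94 / 100 : ℝ) = (n : ℝ) ^ (92 / 100 : ℝ) * (n : ℝ) ^ (1 / 50 : ℝ) := by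
        rw [← Real.rpow_add hnpos]; norm_num
      rw [this]; ring
    have h98 : (0 : ℝ) < (n : ℝ) ^ (98 / 100 : ℝ) := Real.rpow_pos_of_pos hnpos _
    have hd3 : 1000 * (n : ℝ) ^ (98 / 100 : ℝ) ≤ n := by nlinarith
    have hd4 : (n : ℝ) ^ (1 / 50 : ℝ) ≤ (n : ℝ) ^ (98 / 100 : ℝ) :=
      Real.rpow_le_rpow_of_exponent_le hn1 (by norm_num)
    have hd5 : ((n / 128 : ℕ) : ℝ) ≤ (n : ℝ) / 128 := Nat.cast_div_le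
    have hfin : ((2 * (n / 128 + 1) + (D0 / 400 + 1) * max ⌈(n : ℝ) ^ (92 / 100 : ℝ)⌉₊ (j + D0) *
        ⌈(n : ℝ) ^ (1 / 50 : ℝ)⌉₊ + ⌈(n : ℝ) ^ (1 / 50 : ℝ)⌉₊ : ℕ) : ℝ) ≤ n := by
      rw [Nat.cast_add, Nat.cast_add]
      have hd6 : ((2 * (n / 128 + 1) : ℕ) : ℝ) ≤ (n : ℝ) / 64 + 2 := by
        push_cast
        linarith
      linarith
    exact_mod_cast hfin
  · intro x hx hx1
    have hT : (n : ℝ) ^ (1 / 50 : ℝ) ≤ (⌈(n : ℝ) ^ (1 / 50 : ℝ)⌉₊ : ℝ) := Nat.le_ceil _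
    have b1 := one_sub_pow_le hx1 ⌈(n : ℝ) ^ (1 / 50 : ℝ)⌉₊
    have b2 : (n : ℝ) ^ (1 / 100 : ℝ) ≤ x * (⌈(n : ℝ) ^ (1 / 50 : ℝ)⌉₊ : ℝ) := by
      calc (n : ℝ) ^ (1 / 100 : ℝ) = (n : ℝ) ^ (-(1 / 100) : ℝ) * (n : ℝ) ^ (1 / 50 : ℝ) := by
            rw [← Real.rpow_add hnpos]; norm_num
        _ ≤ x * (⌈(n : ℝ) ^ (1 / 50 : ℝ)⌉₊ : ℝ) := by
            apply mul_le_mul hx hT (by positivity)
            exact le_trans (by positivity) hx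
    calc (n : ℝ) * (1 - x) ^ ⌈(n : ℝ) ^ (1 / 50 : ℝ)⌉₊
        ≤ n * Real.exp (-(x * (⌈(n : ℝ) ^ (1 / 50 : ℝ)⌉₊ : ℝ))) :=
          mul_le_mul_of_nonneg_left b1 hnpos.le
      _ ≤ n * Real.exp (-(1 * (n : ℝ) ^ (1 / 100 : ℝ))) := by
          apply mul_le_mul_of_nonneg_left _ hnpos.le
          apply Real.exp_le_exp.2
          linarith
      _ ≤ 1 / 2 := h2
  · have c1 : (n : ℝ) ^ (99 / 100 : ℝ) ≤ n * q ^ (D0 / 400 + 1) := by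
      calc (n : ℝ) ^ (99 / 100 : ℝ) = n * (n : ℝ) ^ (-(1 / 100) : ℝ) := by
            conv_rhs => rw [← Real.rpow_one (n : ℝ), ← Real.rpow_mul hnpos.le]
            rw [← Real.rpow_add hnpos]; norm_num
        _ ≤ _ := mul_le_mul_of_nonneg_left hqD hnpos.le
    have c2 : (n : ℝ) ^ (98 / 100 : ℝ) ≤ (n : ℝ) ^ (99 / 100 : ℝ) :=
      Real.rpow_le_rpow_of_exponent_le hn1 (by norm_num)
    have c3 : ((D0 / 400 + 1 : ℕ) : ℝ) * Real.log n ≤ 6 * Real.log n * Real.log n :=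
      mul_le_mul_of_nonneg_right hdiv (by linarith)
    nlinarith
  · omega

end Crest.TG74
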