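import Mathlib
import Crest.Agent.TG73_Main
import Crest.Agent.TG_Degen
import Crest.Agent.TG69_FM
import Crest.Agent.TG1_Star
import Crest.Agent.TG6_Ext
import Crest.Agent.TG_Expo

/-! S0073 sparse range: assembly (backup). -/

set_option autoImplicit false

namespace Crest.TG76
open Finset Crest.CombinatoricsR.RandomGraph

/-- black box: rows lemma -/
def RowsBB (K L0 : ℝ) (n0 : ℕ) : Prop :=
  ∀ (n m N : ℕ), n0 ≤ n → n ≤ 3 * m → n ≤ 3 * N → ∀ (q : ℝ), 0 < q → L0 * q < 1 →
    ∀ ds : List ℕ, (∀ d ∈ ds, 1 ≤ d) → 64 * ds.sum ≤ n →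
      (∀ d, 1 ≤ d → ((ds.countP (fun e => decide (d ≤ e)) : ℕ) : ℝ) ≤ K * n * (n.choose d) * q ^ d) →
      Crest.TG.Expo.fail (V := Fin N) (L0 * q) m ds ∅ ≤ 1 / 2

/-- black box: graph transfer -/
def PieceBB : Prop :=
  ∀ (n m : ℕ), m ≤ n → ∀ (P : ℝ), 0 ≤ P → P ≤ 1 →
    ∀ {W : Type} [Fintype W] [DecidableEq W] (F : SimpleGraph W), Fintype.card W ≤ n →
    ∀ (par : W → Option W), (∀ v u, par v = some u → par u = none) →
    (∀ v u, F.Adj v u ↔ (par v = some u ∨ par u = some v)) →
    ∀ (cs : List W), cs.Nodup → (∀ v u, par v = some u → u ∈ cs) →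
    1 - Crest.TG.Expo.fail P m (cs.map fun u => (univ.filter fun v => par v = some u).card)
        (∅ : Finset (Fin (n - m))) ≤ gnpProb n P {G | F.IsContained G}

section
variable {n : ℕ} {W : Type} [Fintype W] [DecidableEq W]

theorem low_degree (H : SimpleGraph W) [DecidableRel H.Adj] (q : ℝ) (b0 : ℕ) (hb0 : 1 ≤ b0)
    (hq : 0 < q) (hn : 2 ≤ n)
    (hqb : q ^ b0 ≤ 1 / (n : ℝ)) (ι : W ↪ Fin n) (hFM : Crest.TG69.FM H n q)
    (U : Finset W) (hU : U.Nonempty) :
    ∃ v ∈ U, (U.filter (fun u => H.Adj v u)).card ≤ 4 * b0 := by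
  have hnR : (2 : ℝ) ≤ n := by exact_mod_cast hn
  have hlogn : Real.log 2 ≤ Real.log n := Real.log_le_log (by norm_num) hnR
  have hlog2 : 0 < Real.log 2 := Real.log_pos (by norm_num)
  have hlogq : Real.log n ≤ b0 * Real.log (1 / q) := by
    have h1 := Real.log_le_log (by positivity) hqb
    rw [Real.log_pow, one_div, Real.log_inv] at h1
    rw [one_div, Real.log_inv]
    linarith
  have hb : ∀ U : Finset W,
      ((H.edgeFinset.filter (fun e => ∀ x ∈ e, x ∈ U)).card : ℝ) ≤ (2 * b0 : ℝ) * U.card := by
    intro U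
    by_cases hUe : U = ∅
    · subst hUe
      have : (H.edgeFinset.filter (fun e => ∀ x ∈ e, x ∈ (∅ : Finset W))) = ∅ := by
        apply Finset.filter_eq_empty_iff.2
        intro e _ he
        induction e using Sym2.ind with
        | _ x y => exact absurd (he x (Sym2.mem_mk_left x y)) (Finset.notMem_empty x)
      rw [this]
      simp
    · have h1 := Crest.TG69.density_log H q hq (by omega) ι hFM U
      have hUc : (1 : ℝ) ≤ U.card := by
        exact_mod_cast Finset.card_pos.2 (Finset.nonempty_iff_ne_empty.2 hUe)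
      have h2 : ((Crest.TG69.edgesIn H U).card : ℝ) * Real.log n ≤
          (2 * b0 : ℝ) * U.card * Real.log n := by
        have hb0R : (1 : ℝ) ≤ b0 := by exact_mod_cast hb0
        have h3 : ((Crest.TG69.edgesIn H U).card : ℝ) * Real.log n ≤
            b0 * (((Crest.TG69.edgesIn H U).card : ℝ) * Real.log (1 / q)) := by
          have := mul_le_mul_of_nonneg_left hlogq
            (Nat.cast_nonneg (α := ℝ) (Crest.TG69.edgesIn H U).card)
          linarith
        have h4 : b0 * (((Crest.TG69.edgesIn H U).card : ℝ) * Real.log (1 / q)) ≤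
            b0 * ((U.card : ℝ) * Real.log n + Real.log 2) :=
          mul_le_mul_of_nonneg_left h1 (by positivity)
        have h5 : Real.log 2 ≤ (U.card : ℝ) * Real.log n := by
          nlinarith
        nlinarith
      exact le_of_mul_le_mul_right h2 (lt_of_lt_of_le hlog2 hlogn)
  obtain ⟨v, hv, hvd⟩ := Crest.TG.Degen.exists_low_degree H (2 * b0 : ℝ) hb U hU
  refine ⟨v, hv, ?_⟩
  have : ((U.filter (fun u => H.Adj v u)).card : ℝ) ≤ ((4 * b0 : ℕ) : ℝ) := by
    push_cast
    linarith
  exact_mod_cast this

/-- the number of centres with at least `d` children -/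
theorem count_bound (H : SimpleGraph W) [DecidableRel H.Adj] (F : SimpleGraph W) (hFH : F ≤ H)
    (q : ℝ) (hq : 0 < q) (ι : W ↪ Fin n) (hFM : Crest.TG69.FM H n q)
    (par : W → Option W) (hpar : ∀ v u, par v = some u → par u = none)
    (hadj : ∀ v u, F.Adj v u ↔ (par v = some u ∨ par u = some v))
    (cs : List W) (hnd : cs.Nodup) (d : ℕ) (hd : 1 ≤ d) :
    (((cs.map fun u => (univ.filter fun v => par v = some u).card).countP
      (fun e => decide (d ≤ e)) : ℕ) : ℝ) ≤ 6 * n * (n.choose d) * q ^ d := by
  classical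
  set ch : W → Finset W := fun u => univ.filter fun v => par v = some u with hch
  set A : Finset W := cs.toFinset.filter (fun u => d ≤ (ch u).card) with hA
  have hcount : (cs.map fun u => (univ.filter fun v => par v = some u).card).countP
      (fun e => decide (d ≤ e)) = A.card := by
    rw [List.countP_map, List.countP_eq_length_filter]
    have h1 : A = (cs.filter ((fun e => decide (d ≤ e)) ∘ fun u => (ch u).card)).toFinset := by
      ext u
      simp [hA, hch]
    rw [h1, List.toFinset_card_of_nodup (hnd.filter _)]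
  rw [hcount]
  -- choose subsets
  have hex : ∀ u : A, ∃ S : Finset W, S ⊆ ch u ∧ S.card = d := by
    intro u
    exact Finset.exists_subset_card_eq (Finset.mem_filter.1 u.2).2
  choose S hS hSc using hex
  let e : Fin A.card ≃ A := A.equivFin.symm
  have hmemch : ∀ u v, v ∈ ch u → par v = some u := by
    intro u v hv
    simpa [hch] using hv
  have h := Crest.TG1.star_count (n := n) H ι q hq.le (fun J hJ => hFM ι J hJ) A.card d hd
    (fun j => (e j : W)) (fun j => S (e j)) (fun j => hSc _)
    (by
      intro j y hy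
      have h1 := hmemch _ _ (hS _ hy)
      exact hFH ((hadj _ _).2 (Or.inr h1)))
    (by
      intro i j hij
      have hne : (e i : W) ≠ (e j : W) := by
        intro h
        exact hij (e.injective (Subtype.ext h))
      rw [Finset.disjoint_left]
      intro x hx hx'
      rw [Finset.mem_insert] at hx hx'
      have hSi : ∀ k, ∀ x ∈ S (e k), par x = some (e k : W) := fun k x hx => hmemch _ _ (hS _ hx)
      -- centres have a child, hence no parent
      have hcen : ∀ k, par (e k : W) = none := by
        intro k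
        have hpos : 0 < (S (e k)).card := by rw [hSc]; omega
        obtain ⟨y, hy⟩ := Finset.card_pos.1 hpos
        exact hpar _ _ (hSi k y hy)
      rcases hx with hx | hx <;> rcases hx' with hx' | hx'
      · exact hne (hx.symm.trans hx')
      · have h1 := hSi j x hx'
        rw [hx, hcen i] at h1
        exact absurd h1 (by simp)
      · have h1 := hSi i x hx
        rw [hx', hcen j] at h1
        exact absurd h1 (by simp)
      · have h1 := hSi i x hx
        have h2 := hSi j x hx'
        rw [h1] at h2
        exact hne (Option.some.inj h2))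
  have he : 2 * Real.exp 1 ≤ 6 := by
    have := Real.exp_one_lt_d9
    linarith
  have hnn : (0 : ℝ) ≤ (n : ℝ) * (n.choose d : ℝ) * q ^ d := by positivity
  calc (A.card : ℝ) ≤ 2 * Real.exp 1 * ((n : ℝ) * (n.choose d : ℝ) * q ^ d) := h
    _ ≤ 6 * ((n : ℝ) * (n.choose d : ℝ) * q ^ d) := mul_le_mul_of_nonneg_right he hnn
    _ = 6 * n * (n.choose d) * q ^ d := by ring

end

theorem sparse_core (b0 : ℕ) (hb0 : 1 ≤ b0) (L0 : ℝ) (hL0 : 1 ≤ L0) (nr : ℕ)
    (hrows : RowsBB 6 L0 nr) (hpiece : PieceBB) : TG73.SparseCore b0 := by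
  classical
  refine ⟨4 * b0 * 2 * 128, L0, hL0, nr + 200, ?_⟩
  intro n hn W _ _ H hW q hq hLq hFM hqb
  obtain ⟨ι⟩ : Nonempty (W ↪ Fin n) := by
    apply Function.Embedding.nonempty_of_card_le
    simpa using hW
  have hFM' : Crest.TG69.FM H n q := by
    intro ι J hJ
    convert hFM ι J hJ
  obtain ⟨c, hc⟩ := Crest.TG.Degen.star_labels H (4 * b0) 128 (by norm_num)
    (fun U hU => low_degree H q b0 hb0 hq (by omega) hqb ι hFM' U hU)
  refine ⟨fun i => Crest.CombinatoricsR.RandomGraph.pieceGraph H c i, ?_, ?_⟩
  · intro a b hab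
    exact ⟨c ⟨s(a, b), hab⟩, (TG6.pieceGraph_adj H c _ a b).2 ⟨hab, rfl⟩⟩
  · intro i
    obtain ⟨par, hpar, hadj, hcard⟩ := hc i
    set cs : List W := (univ.filter (fun u => ∃ v, par v = some u)).toList with hcs
    have hnd : cs.Nodup := Finset.nodup_toList _
    have hmem : ∀ u, u ∈ cs ↔ ∃ v, par v = some u := by
      intro u
      rw [hcs, Finset.mem_toList]
      simp
    set m : ℕ := n / 2 with hm
    have hp := hpiece n m (by omega) (L0 * q) (by positivity) hLq.le
      (Crest.CombinatoricsR.RandomGraph.pieceGraph H c i) hW par hpar hadj cs hnd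
      (fun v u h => (hmem u).2 ⟨v, h⟩)
    have hsum : (cs.map fun u => (univ.filter fun v => par v = some u).card).sum =
        (univ.filter (fun v => par v ≠ none)).card := by
      rw [hcs, Finset.sum_map_toList]
      rw [Finset.card_eq_sum_card_fiberwise (f := fun v => (par v).getD v)
        (s := univ.filter (fun v => par v ≠ none)) (t := univ.filter (fun u => ∃ v, par v = some u))]
      · refine Finset.sum_congr rfl fun u _ => ?_
        congr 1
        ext v
        simp only [Finset.mem_filter, Finset.mem_univ, true_and]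
        constructor
        · intro h
          rw [h]
          simp
        · rintro ⟨h1, h2⟩
          obtain ⟨w, hw⟩ := Option.ne_none_iff_exists'.1 h1
          rw [hw] at h2 ⊢
          simpa using h2
      · intro v hv
        simp only [Finset.coe_filter, Finset.mem_univ, true_and, Set.mem_setOf_eq] at hv ⊢
        obtain ⟨w, hw⟩ := Option.ne_none_iff_exists'.1 hv
        refine ⟨v, ?_⟩
        rw [hw]
        simp
    have hf := hrows n m (n - m) (by omega) (by omega) (by omega) q hq hLq
      (cs.map fun u => (univ.filter fun v => par v = some u).card)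
      (by
        intro d hd
        rw [List.mem_map] at hd
        obtain ⟨u, hu, rfl⟩ := hd
        obtain ⟨v, hv⟩ := (hmem u).1 hu
        exact Finset.card_pos.2 ⟨v, by simp [hv]⟩)
      (by
        rw [hsum]
        omega)
      (by
        intro d hd
        exact count_bound H _ (TG6.pieceGraph_le H c i) q hq ι hFM' par hpar hadj cs hnd d hd)
    linarith

end Crest.TG76
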