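import Mathlib
import Crest.Agent.TG76_Sparse
import Crest.Agent.TG31_Star
import Crest.Agent.TG66_Rows

/-! S0073 sparse range: closed statements. -/

set_option autoImplicit false

namespace Crest.TG76
open Finset Crest.CombinatoricsR.RandomGraph

theorem pieceBB : PieceBB := by
  intro n m hm P h0 h1 W _ _ F hW par hpar hadj cs hnd hcs
  exact Crest.TG.Expo.piece_prob n m hm P h0 h1 F hW par hpar hadj cs hnd hcs

theorem rowsBB : RowsBB 6 (1000 * (8 * 3 ^ 16)) 1 := by
  intro n m N hn hm hN q hq hLq ds hd hsum hstar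
  refine Crest.TG66.star_rows n m q (1000 * (8 * 3 ^ 16)) ds (by simpa using hN) hm hn hd hsum
    (fun d hdd => ?_) hq le_rfl hLq.le
  exact hstar d (hd d hdd)

/-- **Sparse range** in the form of `TG73_Main`. -/
theorem sparse73 : TG73.SparseCore 1000 :=
  sparse_core 1000 (by norm_num) (1000 * (8 * 3 ^ 16)) (by norm_num) 1 rowsBB pieceBB

/-- **Sparse range** in the form of `TG68.final`. -/
theorem sparse68 (b0 : ℕ) (hb0 : 1 ≤ b0) :
    ∀ n : ℕ, 2 ≤ n → 201 < n → ∀ (W : Type) [Fintype W] [DecidableEq W]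
      (H : SimpleGraph W) [DecidableRel H.Adj], Fintype.card W ≤ n → H ≠ ⊥ →
      ∀ q : ℝ, 0 < q → (1000 * (8 * 3 ^ 16) : ℝ) * q < 1 → (n : ℝ) * q ^ b0 ≤ 1 →
      (∀ (κ : W ↪ Fin n) (J : Finset (EdgeSlot n)), J ⊆ KK.slots H κ →
        (1 : ℝ) / 2 ≤ ((univ.image fun σ : Equiv.Perm (Fin n) => J.image (KK.act n σ)).card : ℝ) *
          q ^ J.card) →
      ∃ c : H.edgeSet → Fin (4 * b0 * 2 * 128), ∀ i : Fin (4 * b0 * 2 * 128),
        1 / 2 ≤ gnpProb n ((1000 * (8 * 3 ^ 16) : ℝ) * q)
          {G | (pieceGraph H c i).IsContained G} := by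
  classical
  intro n hn2 hn W _ _ H _ hW hH q hq hLq hqb hFM
  obtain ⟨ι⟩ : Nonempty (W ↪ Fin n) := by
    apply Function.Embedding.nonempty_of_card_le
    simpa using hW
  have hnpos : (0 : ℝ) < n := by
    have : 0 < n := by omega
    exact_mod_cast this
  have hqb' : q ^ b0 ≤ 1 / (n : ℝ) := by
    rw [le_div_iff₀ hnpos]
    linarith
  have hFM' : Crest.TG69.FM H n q := by
    intro ι J hJ
    exact hFM ι J hJ
  obtain ⟨c, hc⟩ := Crest.TG.Degen.star_labels H (4 * b0) 128 (by norm_num)
    (fun U hU => low_degree H q b0 hb0 hq (by omega) hqb' ι hFM' U hU)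
  refine ⟨c, ?_⟩
  intro i
  obtain ⟨par, hpar, hadj, hcard⟩ := hc i
  set cs : List W := (univ.filter (fun u => ∃ v, par v = some u)).toList with hcs
  have hnd : cs.Nodup := Finset.nodup_toList _
  have hmem : ∀ u, u ∈ cs ↔ ∃ v, par v = some u := by
    intro u
    rw [hcs, Finset.mem_toList]
    simp
  set m : ℕ := n / 2 with hm
  have hp := pieceBB n m (by omega) ((1000 * (8 * 3 ^ 16) : ℝ) * q) (by positivity) hLq.le
    (Crest.CombinatoricsR.RandomGraph.pieceGraph H c i) hW par hpar hadj cs hnd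
    (fun v u h => (hmem u).2 ⟨v, h⟩)
  have hsum : (cs.map fun u => (univ.filter fun v => par v = some u).card).sum =
      (univ.filter (fun v => par v ≠ none)).card := by
    rw [hcs, Finset.sum_map_toList]
    rw [Finset.card_eq_sum_card_fiberwise (f := fun v => (par v).getD v)
      (s := univ.filter (fun v => par v ≠ none)) (t := univ.filter (fun u => ∃ v, par v = some u))]
    · refine Finset.sum_congr rfl fun u _ => ?_
      congr 1
      ext v
      simp only [Finset.mem_filter, Finset.mem_univ, true_and]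
      constructor
      · intro h
        rw [h]
        simp
      · rintro ⟨h1, h2⟩
        obtain ⟨w, hw⟩ := Option.ne_none_iff_exists'.1 h1
        rw [hw] at h2 ⊢
        simpa using h2
    · intro v hv
      simp only [Finset.coe_filter, Finset.mem_univ, true_and, Set.mem_setOf_eq] at hv ⊢
      obtain ⟨w, hw⟩ := Option.ne_none_iff_exists'.1 hv
      refine ⟨v, ?_⟩
      rw [hw]
      simp
  have hf := rowsBB n m (n - m) (by omega) (by omega) (by omega) q hq hLq
    (cs.map fun u => (univ.filter fun v => par v = some u).card)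
    (by
      intro d hd
      rw [List.mem_map] at hd
      obtain ⟨u, hu, rfl⟩ := hd
      obtain ⟨v, hv⟩ := (hmem u).1 hu
      exact Finset.card_pos.2 ⟨v, by simp [hv]⟩)
    (by
      rw [hsum]
      omega)
    (by
      intro d hd
      exact count_bound H _ (TG6.pieceGraph_le H c i) q hq ι hFM' par hpar hadj cs hnd d hd)
  have h5 := sub_le_sub_left hf 1
  have h6 : (1 : ℝ) / 2 ≤ 1 - 1 / 2 := by norm_num
  exact (h6.trans h5).trans hp

end Crest.TG76
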