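import Mathlib
import Crest.Agent.TG76_SparseFin
import Crest.Agent.TG68_Final
import Crest.Agent.TG8_Gamma

/-! S0073 from the dense range. -/

set_option autoImplicit false

namespace Crest.TG76
open Finset Crest.CombinatoricsR.RandomGraph

theorem s73_of_dense (h : Crest.TG8.DENSE) :
    ∃ k : ℕ, 2 ≤ k ∧ ∃ L : ℝ, 1 ≤ L ∧ ∀ n : ℕ, 2 ≤ n →
      ∀ (W : Type) [Fintype W] [DecidableEq W] (H : SimpleGraph W),
        Fintype.card W ≤ n → H ≠ ⊥ →
        ∃ c : H.edgeSet → Fin k, ∀ i : Fin k, ∃ p : ℝ, 0 ≤ p ∧ p ≤ 1 ∧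
          (∃ C : Finset (Finset (EdgeSlot n)),
            (∀ A : Finset (EdgeSlot n),
              H.IsContained (edgeGraph A) → ∃ S ∈ C, S ⊆ A) ∧
            ∑ S ∈ C, p ^ S.card ≤ 1 / 2) ∧
          1 / 2 ≤ gnpProb n (min 1 (L * p))
            {G | (pieceGraph H c i).IsContained G} := by
  obtain ⟨k, hk, L0, hL0, n0, hd⟩ := h
  refine TG68.final 1000 (4 * 1000 * 2 * 128) k 201 n0 (1000 * (8 * 3 ^ 16)) L0 (by norm_num)
    (by linarith) (sparse68 1000 (by norm_num)) ?_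
  intro n hn2 hn W _ _ H _ hW hH q hq hLq hqn hFM
  exact hd n hn2 hn W H hW hH q hq hLq (by linarith) hFM

end Crest.TG76
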