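import Crest.Agent.TG5_M
import Crest.Agent.TG_Fp
import Crest.Agent.TG_Thin

/-! Instantiation of the fingerprint theorem for product laws. -/

set_option autoImplicit false
set_option linter.unusedSectionVars false

namespace Crest.TG80

open Finset Classical

variable {J : Type*} [Fintype J] [DecidableEq J]

/-- binomial law on subsets. -/
noncomputable def mu (P : ℝ) (R : Finset J) : ℝ :=
  P ^ R.card * (1 - P) ^ (Fintype.card J - R.card)

/-- `1/m`-thinning of `Y`. -/
noncomputable def lam (m : ℕ) (Y T : Finset J) : ℝ :=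
  if T ⊆ Y then (1 / (m:ℝ)) ^ T.card * (1 - 1 / (m:ℝ)) ^ (Y.card - T.card) else 0

theorem sum_mu (P : ℝ) (f : Finset J → ℝ) : ∑ R, mu P R * f R = TG5.M P univ f := by
  unfold mu TG5.M
  rw [Finset.powerset_univ, Finset.card_univ]

theorem mu_nonneg {P : ℝ} (h0 : 0 ≤ P) (h1 : P ≤ 1) (R : Finset J) : 0 ≤ mu P R := by
  unfold mu
  have : 0 ≤ 1 - P := by linarith
  positivity

theorem mu_one (P : ℝ) : ∑ R : Finset J, mu P R = 1 := by
  have := sum_mu P (fun _ : Finset J => (1:ℝ))
  simp only [mul_one] at this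
  rw [this, TG5.M_const]

theorem lam_nonneg (m : ℕ) (hm : 1 ≤ m) (Y T : Finset J) : 0 ≤ lam m Y T := by
  unfold lam
  split_ifs
  · have hm' : (1:ℝ) ≤ m := by exact_mod_cast hm
    have h1 : 0 ≤ 1 - 1 / (m:ℝ) := by
      rw [sub_nonneg, div_le_one (by linarith)]; exact hm'
    positivity
  · exact le_refl _

theorem sum_lam_mul (m : ℕ) (Y : Finset J) (f : Finset J → ℝ) :
    ∑ T, lam m Y T * f T = TG5.M (1 / (m:ℝ)) Y f := by
  unfold lam TG5.M
  rw [← Finset.sum_subset (Finset.subset_univ Y.powerset)]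
  · refine Finset.sum_congr rfl fun T hT => ?_
    rw [if_pos (Finset.mem_powerset.1 hT)]
  · intro T _ hT
    rw [if_neg (fun h => hT (Finset.mem_powerset.2 h)), zero_mul]

theorem lam_one (m : ℕ) (Y : Finset J) : ∑ T, lam m Y T = 1 := by
  have := sum_lam_mul m Y (fun _ : Finset J => (1:ℝ))
  simp only [mul_one] at this
  rw [this, TG5.M_const]

theorem G_eq (q : ℝ) (S : Finset (Finset J)) (A : Finset J) :
    TG.Fp.G (mu q) S A = TG5.M q univ (fun R => if TG.Fp.Up S (A ∪ R) then 1 else 0) := by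
  unfold TG.Fp.G
  exact sum_mu q _

theorem hc (q : ℝ) (hq0 : 0 ≤ q) (hq1 : q ≤ 1) (D : ℕ) (η : ℝ) (hη : η ≤ q ^ D)
    (A : Finset J) (hA : A.card ≤ D) (S : Finset (Finset J)) :
    η * (1 - TG.Fp.G (mu q) S A) ≤
      ∑ R, mu q R * (if A ⊆ R ∧ ¬ TG.Fp.Up S R then 1 else 0) := by
  have h1 : ∑ R, mu q R * (if A ⊆ R ∧ ¬ TG.Fp.Up S R then (1:ℝ) else 0)
      = q ^ A.card * (1 - TG.Fp.G (mu q) S A) := by
    rw [sum_mu q]
    have e1 : TG5.M q (univ : Finset J) (fun R => if A ⊆ R ∧ ¬ TG.Fp.Up S R then (1:ℝ) else 0)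
        = TG5.M q univ (fun R => if A ⊆ R then (fun R => if TG.Fp.Up S R then (0:ℝ) else 1) R
            else 0) := by
      refine TG5.M_congr q _ fun R _ => ?_
      by_cases h : A ⊆ R
      · by_cases h' : TG.Fp.Up S R
        · simp [h, h']
        · simp [h, h']
      · simp [h]
    rw [e1, TG5.M_cond q univ A (Finset.subset_univ _), G_eq]
    congr 1
    have e2 : (1:ℝ) = TG5.M q (univ : Finset J) (fun _ => 1) := (TG5.M_const q _ 1).symm
    have e3 : TG5.M q (univ : Finset J) (fun X => if TG.Fp.Up S (A ∪ X) then (0:ℝ) else 1)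
        + TG5.M q univ (fun R => if TG.Fp.Up S (A ∪ R) then (1:ℝ) else 0) = 1 := by
      rw [← TG5.M_add]
      refine (TG5.M_congr (g := fun _ => (1:ℝ)) q _ fun R _ => ?_).trans
        (TG5.M_const q (univ : Finset J) 1)
      by_cases h : TG.Fp.Up S (A ∪ R) <;> simp [h]
    linarith
  rw [h1]
  have hG : TG.Fp.G (mu q) S A ≤ 1 := by
    rw [G_eq]
    refine (TG5.M_mono (g := fun _ => (1:ℝ)) hq0 hq1 _ fun R _ => ?_).trans_eq
      (TG5.M_const q (univ : Finset J) 1)
    split_ifs <;> norm_num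
  have h2 : η ≤ q ^ A.card := hη.trans (pow_le_pow_of_le_one hq0 hq1 hA)
  exact mul_le_mul_of_nonneg_right h2 (by linarith)

theorem M_ge (P : ℝ) (hP0 : 0 ≤ P) (hP1 : P ≤ 1) (D : ℕ) (η : ℝ) (hη : η ≤ P ^ D)
    (S : Finset (Finset J)) (A : Finset J) (hAS : A ∈ S) (hA : A.card ≤ D) :
    η ≤ TG.Fp.M (mu P) S := by
  unfold TG.Fp.M
  rw [sum_mu P]
  have h1 : TG5.M P (univ : Finset J) (fun R => if A ⊆ R then (fun _ => (1:ℝ)) R else 0)
      = P ^ A.card := by
    rw [TG5.M_cond P univ A (Finset.subset_univ _), TG5.M_const, mul_one]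
  calc η ≤ P ^ D := hη
    _ ≤ P ^ A.card := pow_le_pow_of_le_one hP0 hP1 hA
    _ = _ := h1.symm
    _ ≤ _ := TG5.M_mono hP0 hP1 _ fun R _ => by
        by_cases h : A ⊆ R
        · have : TG.Fp.Up S R := ⟨A, hAS, h⟩
          simp [h, this]
        · simp only [h, if_false]
          split_ifs <;> norm_num

/-- domination for `V` indexed by any finite type. -/
theorem dom {V : Type*} [Fintype V] (Y : V → Finset J) (m : ℕ) (hm : 2 ≤ m) (N0 C q P : ℝ)
    (hq0 : 0 ≤ q) (hq1 : q < 1) (hP : 2 * q ≤ P) (hP1 : P ≤ 1) (hN0 : 0 < N0)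
    (hV : (Fintype.card V : ℝ) ≤ N0) (hC0 : 0 ≤ C) (hC : C ≤ (m:ℝ) - 1)
    (hspread : ∀ S : Finset J, S.Nonempty →
      ((univ.filter fun v => S ⊆ Y v).card : ℝ) ≤ N0 * (C * q) ^ S.card)
    (S : Finset (Finset J)) :
    ∑ v, ∑ T, lam m (Y v) T * (if 1 / 2 ≤ TG.Fp.G (mu q) S T then 1 else 0)
      ≤ 2 * N0 * TG.Fp.M (mu P) S := by
  set U : Finset (Finset J) := univ.filter (fun A => 1 / 2 ≤ TG.Fp.G (mu q) S A) with hU
  have hup : ∀ A ∈ U, ∀ B : Finset J, A ⊆ B → B ∈ U := by
    intro A hA B hAB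
    rw [hU, mem_filter] at hA ⊢
    refine ⟨mem_univ _, hA.2.trans ?_⟩
    rw [G_eq, G_eq]
    refine TG5.M_mono hq0 hq1.le _ fun R _ => ?_
    by_cases h : TG.Fp.Up S (A ∪ R)
    · have : TG.Fp.Up S (B ∪ R) := by
        obtain ⟨E, hE, hER⟩ := h
        exact ⟨E, hE, hER.trans (Finset.union_subset_union hAB (Finset.Subset.refl _))⟩
      simp [h, this]
    · simp only [h, if_false]
      split_ifs <;> norm_num
  have hm1 : (0:ℝ) < (m:ℝ) - 1 := by
    have : (2:ℝ) ≤ m := by exact_mod_cast hm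
    linarith
  have hmpos : (0:ℝ) < m := by linarith
  -- the law
  have key := TG.thin_dom (ι := Option V) (univ : Finset (Option V))
    (fun o => match o with | none => 1 - (Fintype.card V : ℝ) / N0 | some _ => 1 / N0)
    (by
      intro o _
      cases o with
      | none =>
        simp only
        rw [sub_nonneg, div_le_one hN0]
        exact hV
      | some v => simp only; positivity)
    (by
      rw [Fintype.sum_option]
      simp only [Finset.sum_const, Finset.card_univ, nsmul_eq_mul]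
      ring)
    (fun o => match o with | none => ∅ | some v => Y v)
    (1 / (m:ℝ)) (C * q) q (by positivity)
    (by
      rw [div_lt_one hmpos]
      linarith)
    (by positivity) hq0 hq1
    (by
      have e : 1 / (m:ℝ) / (1 - 1 / (m:ℝ)) = 1 / ((m:ℝ) - 1) := by
        have : (m:ℝ) ≠ 0 := hmpos.ne'
        field_simp
      rw [e]
      have h1 : 1 / ((m:ℝ) - 1) * (C * q) ≤ q := by
        rw [div_mul_eq_mul_div, one_mul, div_le_iff₀ hm1]
        nlinarith
      have h2 : q ≤ q / (1 - q) := by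
        rw [le_div_iff₀ (by linarith)]
        nlinarith
      exact h1.trans h2)
    (by
      intro S' hS'
      rw [Finset.sum_filter, Fintype.sum_option]
      simp only [Finset.subset_empty]
      rw [if_neg hS'.ne_empty, zero_add, ← Finset.sum_filter, Finset.sum_const, nsmul_eq_mul]
      have := hspread S' hS'
      rw [mul_one_div, div_le_iff₀ hN0]
      linarith)
    U hup
  rw [Fintype.sum_option] at key
  simp only at key
  have hnn : 0 ≤ (1 - (Fintype.card V : ℝ) / N0) *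
      ∑ A ∈ (∅ : Finset J).powerset with A ∈ U,
        (1 / (m:ℝ)) ^ A.card * (1 - 1 / (m:ℝ)) ^ ((∅ : Finset J).card - A.card) := by
    refine mul_nonneg ?_ (Finset.sum_nonneg fun A _ => ?_)
    · rw [sub_nonneg, div_le_one hN0]; exact hV
    · have h1 : 0 ≤ 1 - 1 / (m:ℝ) := by
        rw [sub_nonneg, div_le_one hmpos]; linarith
      positivity
  -- left side
  have hleft : ∑ v, ∑ T, lam m (Y v) T * (if 1 / 2 ≤ TG.Fp.G (mu q) S T then (1:ℝ) else 0)
      = N0 * ∑ v, 1 / N0 * ∑ A ∈ (Y v).powerset with A ∈ U,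
        (1 / (m:ℝ)) ^ A.card * (1 - 1 / (m:ℝ)) ^ ((Y v).card - A.card) := by
    rw [← Finset.mul_sum, ← mul_assoc, mul_one_div_cancel hN0.ne', one_mul]
    refine Finset.sum_congr rfl fun v _ => ?_
    rw [sum_lam_mul]
    unfold TG5.M
    rw [Finset.sum_filter]
    refine Finset.sum_congr rfl fun A _ => ?_
    by_cases h : 1 / 2 ≤ TG.Fp.G (mu q) S A
    · have : A ∈ U := by rw [hU, mem_filter]; exact ⟨mem_univ _, h⟩
      beta_reduce
      rw [if_pos h, if_pos this, mul_one]
    · have : A ∉ U := by rw [hU, mem_filter]; exact fun h' => h h'.2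
      beta_reduce
      rw [if_neg h, if_neg this, mul_zero]
  -- right side
  have hright : ∑ R ∈ U, q ^ R.card * (1 - q) ^ (Fintype.card J - R.card)
      ≤ 2 * TG.Fp.M (mu P) S := by
    have e1 : ∑ R ∈ U, q ^ R.card * (1 - q) ^ (Fintype.card J - R.card)
        = ∑ R, mu q R * (if 1 / 2 ≤ TG.Fp.G (mu q) S R then 1 else 0) := by
      rw [hU, Finset.sum_filter]
      refine Finset.sum_congr rfl fun R _ => ?_
      show (if 1 / 2 ≤ TG.Fp.G (mu q) S R then mu q R else 0) = mu q R * _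
      by_cases h : 1 / 2 ≤ TG.Fp.G (mu q) S R
      · rw [if_pos h, if_pos h, mul_one]
      · rw [if_neg h, if_neg h, mul_zero]
    have e2 : ∑ R, mu q R * (if 1 / 2 ≤ TG.Fp.G (mu q) S R then (1:ℝ) else 0)
        ≤ ∑ R, mu q R * (2 * TG.Fp.G (mu q) S R) := by
      refine Finset.sum_le_sum fun R _ => mul_le_mul_of_nonneg_left ?_ (mu_nonneg hq0 hq1.le R)
      split_ifs with h
      · linarith
      · have : 0 ≤ TG.Fp.G (mu q) S R := by
          rw [G_eq]
          refine TG5.M_nonneg hq0 hq1.le _ fun X _ => ?_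
          split_ifs <;> norm_num
        linarith
    have e3 : ∑ R, mu q R * (2 * TG.Fp.G (mu q) S R)
        = 2 * TG5.M (q + q - q * q) univ (fun R : Finset J => if TG.Fp.Up S R then (1:ℝ) else 0) := by
      rw [sum_mu q, TG5.M_smul, ← TG5.M_union]
      congr 1
    have e4 : TG5.M (q + q - q * q) univ (fun R : Finset J => if TG.Fp.Up S R then (1:ℝ) else 0)
        ≤ TG.Fp.M (mu P) S := by
      unfold TG.Fp.M
      rw [sum_mu P]
      refine TG5.M_mono_p ?_ ?_ hP1 _ _ ?_
      · nlinarith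
      · nlinarith
      · intro X Y' hXY
        by_cases h : TG.Fp.Up S X
        · have : TG.Fp.Up S Y' := by
            obtain ⟨E, hE, hEX⟩ := h
            exact ⟨E, hE, hEX.trans hXY⟩
          simp [h, this]
        · simp only [h, if_false]
          split_ifs <;> norm_num
    rw [e1]
    linarith
  rw [hleft]
  have h5 := key.trans hright
  have h6 : ∑ v, 1 / N0 * ∑ A ∈ (Y v).powerset with A ∈ U,
        (1 / (m:ℝ)) ^ A.card * (1 - 1 / (m:ℝ)) ^ ((Y v).card - A.card)
      ≤ 2 * TG.Fp.M (mu P) S := by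
    linarith
  calc N0 * _ ≤ N0 * (2 * TG.Fp.M (mu P) S) := mul_le_mul_of_nonneg_left h6 hN0.le
    _ = 2 * N0 * TG.Fp.M (mu P) S := by ring

end Crest.TG80
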