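import Crest.Agent.TG80_Fp

/-! `gamma_abs`: the quenched embedding theorem for product laws (S0073, dense range). -/

set_option autoImplicit false
set_option linter.unusedSectionVars false

namespace Crest.TG80

open Finset Classical

variable {J : Type*} [Fintype J] [DecidableEq J]

theorem lam_inter (m : ℕ) (Y T : Finset J) (f : Finset J → ℝ) :
    lam m Y T * f (T ∩ Y) = lam m Y T * f T := by
  by_cases h : T ⊆ Y
  · rw [Finset.inter_eq_left.2 h]
  · unfold lam
    rw [if_neg h, zero_mul, zero_mul]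

theorem gamma_abs {V : Type*} [Fintype V] (b : ℕ) (Y : V → Finset J) (m : ℕ) (hm : 2 ≤ m)
    (N0 C q P η : ℝ) (D K : ℕ)
    (hq0 : 0 ≤ q) (hq1 : q < 1) (hP : 2 * q ≤ P) (hP1 : P ≤ 1) (hN0 : 0 < N0)
    (hV : (Fintype.card V : ℝ) ≤ N0) (hC0 : 0 ≤ C) (hC : C ≤ (m:ℝ) - 1)
    (hb : 32 * N0 ≤ b)
    (hY : ∀ v, (Y v).card ≤ D)
    (hη0 : 0 < η) (hη : η ≤ q ^ D) (hK : 2 / η ≤ K)
    (hspread : ∀ S : Finset J, S.Nonempty →
      ((univ.filter fun v => S ⊆ Y v).card : ℝ) ≤ N0 * (C * q) ^ S.card) :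
    1 - 2 * (((univ.filter (fun A : Finset J => A.card ≤ D)).card : ℝ) + 1) ^ K *
        Real.exp (-((b:ℝ) * η / 8)) ≤
      ∑ τ : V → Finset J, ∑ ρ : Fin b → Finset J,
        (∏ v, lam m (Y v) (τ v)) * (∏ w, mu P (ρ w)) *
        (if ∃ g : V → Fin b, Function.Injective g ∧ ∀ v, τ v ⊆ ρ (g v) then 1 else 0) := by
  have hP0 : 0 ≤ P := by linarith
  let e : V ≃ Fin (Fintype.card V) := Fintype.equivFin V
  set Adm : Finset (Finset J) := univ.filter (fun A : Finset J => A.card ≤ D) with hAdm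
  have hηP : η ≤ P ^ D := hη.trans (pow_le_pow_left₀ hq0 (by linarith) D)
  have key := TG.Fp.quenched (b := b) (fun i => lam m (Y (e.symm i)))
    (fun i t => lam_nonneg m (by omega) _ t) (fun i => lam_one m _)
    (fun i t => t ∩ Y (e.symm i)) Adm
    (fun i t => by
      rw [hAdm, mem_filter]
      exact ⟨mem_univ _, (Finset.card_le_card Finset.inter_subset_right).trans (hY _)⟩)
    (mu q) (mu P) (mu_nonneg hq0 hq1.le) (mu_one q) (mu_nonneg hP0 hP1) (mu_one P)
    η hη0 K hK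
    (fun A hA S => hc q hq0 hq1.le D η hη A (by rw [hAdm, mem_filter] at hA; exact hA.2) S)
    (fun S hS hSne => by
      obtain ⟨A, hA⟩ := hSne
      have hA' := hS hA
      rw [hAdm, mem_filter] at hA'
      exact M_ge P hP0 hP1 D η hηP S A hA hA'.2)
    (fun S _ _ _ => by
      have h1 : ∑ i, ∑ t, lam m (Y (e.symm i)) t *
          (if 1 / 2 ≤ TG.Fp.G (mu q) S (t ∩ Y (e.symm i)) then (1:ℝ) else 0)
          = ∑ v, ∑ T, lam m (Y v) T * (if 1 / 2 ≤ TG.Fp.G (mu q) S T then 1 else 0) := by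
        rw [← Equiv.sum_comp e.symm]
        refine Finset.sum_congr rfl fun i _ => Finset.sum_congr rfl fun t _ => ?_
        exact lam_inter m _ t (fun t => if 1 / 2 ≤ TG.Fp.G (mu q) S t then (1:ℝ) else 0)
      rw [h1]
      refine (dom Y m hm N0 C q P hq0 hq1 hP hP1 hN0 hV hC0 hC hspread S).trans ?_
      refine mul_le_mul_of_nonneg_right (by linarith) ?_
      unfold TG.Fp.M
      refine Finset.sum_nonneg fun R _ => mul_nonneg (mu_nonneg hP0 hP1 R) ?_
      split_ifs <;> norm_num)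
    (((Adm.card : ℝ) + 1) ^ K)
    (by
      have := TG.Fp.card_small Adm K
      exact_mod_cast this)
  refine key.trans (le_of_eq ?_)
  rw [← Equiv.sum_comp (e.arrowCongr (Equiv.refl (Finset J)))]
  refine Finset.sum_congr rfl fun τ _ => Finset.sum_congr rfl fun ρ _ => ?_
  have hτ : ∀ i, (e.arrowCongr (Equiv.refl (Finset J))) τ i = τ (e.symm i) := fun i => rfl
  simp only [hτ]
  rw [Equiv.prod_comp e.symm (fun v => lam m (Y v) (τ v))]
  by_cases hall : ∀ v, τ v ⊆ Y v
  · congr 1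
    have hiff : (∃ g : Fin (Fintype.card V) → Fin b, Function.Injective g ∧
        ∀ i, τ (e.symm i) ∩ Y (e.symm i) ⊆ ρ (g i)) ↔
        (∃ g : V → Fin b, Function.Injective g ∧ ∀ v, τ v ⊆ ρ (g v)) := by
      constructor
      · rintro ⟨g, hg, hg2⟩
        refine ⟨g ∘ e, hg.comp e.injective, fun v => ?_⟩
        have := hg2 (e v)
        rw [Equiv.symm_apply_apply, Finset.inter_eq_left.2 (hall v)] at this
        exact this
      · rintro ⟨g, hg, hg2⟩
        refine ⟨g ∘ e.symm, hg.comp e.symm.injective, fun i => ?_⟩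
        exact Finset.inter_subset_left.trans (hg2 (e.symm i))
    by_cases h : ∃ g : V → Fin b, Function.Injective g ∧ ∀ v, τ v ⊆ ρ (g v)
    · rw [if_pos h, if_pos (hiff.2 h)]
    · rw [if_neg h, if_neg (fun h' => h (hiff.1 h'))]
  · push Not at hall
    obtain ⟨v, hv⟩ := hall
    have : ∏ v, lam m (Y v) (τ v) = 0 := by
      refine Finset.prod_eq_zero (Finset.mem_univ v) ?_
      unfold lam
      rw [if_neg hv]
    rw [this]
    ring

end Crest.TG80
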