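import Crest.Agent.TG82_Main
import Crest.Agent.TG66_Rows
import Crest.Agent.TG31_Star
import Crest.Agent.TG1_Star
import Crest.Agent.TG69_FM
import Crest.Agent.TG_Degen

/-! S0073: the sparse range -/

set_option autoImplicit false

namespace TG82
open Finset Crest.CombinatoricsR.RandomGraph

/-- degeneracy in the sparse range -/
theorem sparse_density {n : ℕ} {W : Type} [Fintype W] [DecidableEq W] (H : SimpleGraph W)
    [DecidableRel H.Adj] (hn : 1 ≤ n) (b0 : ℕ) (q : ℝ) (hq : 0 < q) (hq2 : q < 1 / 2)
    (hb : q ^ b0 ≤ 1 / (n : ℝ)) (ι : W ↪ Fin n)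
    (hFM : Crest.TG69.FM H n q) (U : Finset W) :
    ((H.edgeFinset.filter (fun e => ∀ x ∈ e, x ∈ U)).card : ℝ) ≤ (b0 : ℝ) * U.card := by
  have h := Crest.TG69.density H q hq.le ι hFM U
  by_contra hcon
  push Not at hcon
  have hcon' : b0 * U.card < (H.edgeFinset.filter (fun e => ∀ x ∈ e, x ∈ U)).card := by
    exact_mod_cast hcon
  have hn0 : (0 : ℝ) < n := by exact_mod_cast hn
  have h1 : q ^ (Crest.TG69.edgesIn H U).card ≤ q ^ (b0 * U.card + 1) := by
    apply pow_le_pow_of_le_one hq.le (by linarith)
    exact hcon'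
  have h2 : (n : ℝ) ^ U.card * q ^ (b0 * U.card) ≤ 1 := by
    rw [pow_mul, ← mul_pow]
    apply pow_le_one₀ (by positivity)
    calc (n : ℝ) * q ^ b0 ≤ n * (1 / n) := mul_le_mul_of_nonneg_left hb hn0.le
      _ = 1 := by field_simp
  have h3 : (n : ℝ) ^ U.card * q ^ (Crest.TG69.edgesIn H U).card ≤ q := by
    calc (n : ℝ) ^ U.card * q ^ (Crest.TG69.edgesIn H U).card
        ≤ (n : ℝ) ^ U.card * q ^ (b0 * U.card + 1) := mul_le_mul_of_nonneg_left h1 (by positivity)
      _ = ((n : ℝ) ^ U.card * q ^ (b0 * U.card)) * q := by ring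
      _ ≤ 1 * q := mul_le_mul_of_nonneg_right h2 hq.le
      _ = q := one_mul q
  linarith

/-- one star forest -/
theorem sparse_piece {n : ℕ} {W : Type} [Fintype W] [DecidableEq W] (H F : SimpleGraph W)
    [DecidableRel H.Adj] (hn : 2 ≤ n) (hW : Fintype.card W ≤ n) (L q : ℝ) (hq : 0 < q)
    (hL : 1000 * (8 * 3 ^ 16) ≤ L) (hLq : L * q ≤ 1) (ι : W ↪ Fin n)
    (hFM : ∀ J ⊆ KK.slots H ι, (1 / 2 : ℝ) ≤
      ((univ.image fun σ : Equiv.Perm (Fin n) => J.image (KK.act n σ)).card : ℝ) * q ^ J.card)
    (hFH : F ≤ H) (par : W → Option W) (hpar : ∀ v u, par v = some u → par u = none)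
    (hadj : ∀ v u, F.Adj v u ↔ (par v = some u ∨ par u = some v))
    (hcard : 64 * (univ.filter (fun v => par v ≠ none)).card ≤ n) :
    (1 / 2 : ℝ) ≤ gnpProb n (L * q) {G | F.IsContained G} := by
  classical
  have hL0 : 0 ≤ L := le_trans (by positivity) hL
  set ch : W → Finset W := fun u => univ.filter fun v => par v = some u with hch
  set C : Finset W := univ.filter fun u => (ch u).Nonempty with hC
  have h1 := Crest.TG.Expo.piece_prob n (n / 2) (Nat.div_le_self n 2) (L * q)
    (mul_nonneg hL0 hq.le) hLq F hW par hpar hadj C.toList C.nodup_toList (by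
      intro v u hvu
      rw [Finset.mem_toList, hC, mem_filter]
      exact ⟨mem_univ _, v, by rw [hch]; simpa using hvu⟩)
  have h2 := Crest.TG66.star_rows (V := Fin (n - n / 2)) n (n / 2) q L
    (C.toList.map fun u => (univ.filter fun v => par v = some u).card)
    (by rw [Fintype.card_fin]; omega) (by omega) (by omega) ?_ ?_ ?_ hq hL hLq
  · linarith
  · intro d hd
    rw [List.mem_map] at hd
    obtain ⟨u, hu, rfl⟩ := hd
    rw [Finset.mem_toList, hC, mem_filter] at hu
    exact Finset.card_pos.2 hu.2
  · have h3 : (C.toList.map fun u => (univ.filter fun v => par v = some u).card).sum =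
        ∑ u ∈ C, (ch u).card := by
      rw [Finset.sum_map_toList]
    rw [h3]
    refine le_trans (Nat.mul_le_mul_left 64 ?_) hcard
    rw [← Finset.card_biUnion]
    · apply Finset.card_le_card
      intro v hv
      rw [mem_biUnion] at hv
      obtain ⟨u, _, hv⟩ := hv
      rw [hch, mem_filter] at hv
      rw [mem_filter]
      refine ⟨mem_univ _, ?_⟩
      rw [hv.2]
      simp
    · intro u _ u' _ huu
      show Disjoint (ch u) (ch u')
      rw [Finset.disjoint_left]
      intro v hv hv'
      rw [hch, mem_filter] at hv hv'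
      exact huu (Option.some.inj (hv.2.symm.trans hv'.2))
  · intro d hd
    have hd1 : 1 ≤ d := by
      rw [List.mem_map] at hd
      obtain ⟨u, hu, rfl⟩ := hd
      rw [Finset.mem_toList, hC, mem_filter] at hu
      exact Finset.card_pos.2 hu.2
    set Cd : Finset W := C.filter fun u => d ≤ (ch u).card with hCd
    have h3 : (C.toList.map fun u => (univ.filter fun v => par v = some u).card).countP
        (fun e => decide (d ≤ e)) = Cd.card := by
      rw [List.countP_map, List.countP_eq_length_filter, hCd]
      have h4 : C.toList.filter ((fun e => decide (d ≤ e)) ∘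
          fun u => (univ.filter fun v => par v = some u).card) =
          C.toList.filter (fun u => decide (d ≤ (ch u).card)) := rfl
      rw [h4, ← List.toFinset_card_of_nodup (C.nodup_toList.filter _)]
      congr 1
      ext u
      simp
    rw [h3]
    let e := Cd.equivFin
    have hmem : ∀ j : Fin Cd.card, d ≤ (ch (e.symm j).1).card := by
      intro j
      exact (mem_filter.1 (show (e.symm j).1 ∈ C.filter fun u => d ≤ (ch u).card from
        (e.symm j).2)).2
    have hmemC : ∀ j : Fin Cd.card, (e.symm j).1 ∈ C := by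
      intro j
      exact (mem_filter.1 (show (e.symm j).1 ∈ C.filter fun u => d ≤ (ch u).card from
        (e.symm j).2)).1
    have hS : ∀ j : Fin Cd.card, ∃ S ⊆ ch (e.symm j).1, S.card = d := fun j =>
      Finset.exists_subset_card_eq (hmem j)
    choose S hSsub hScard using hS
    have h5 := Crest.TG1.star_count H ι q hq.le hFM Cd.card d hd1 (fun j => (e.symm j).1) S hScard
      (by
        intro j y hy
        have := hSsub j hy
        rw [hch, mem_filter] at this
        exact hFH ((hadj _ _).2 (Or.inr this.2)))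
      (by
        intro i j hij
        have hne : (e.symm i).1 ≠ (e.symm j).1 := fun h =>
          hij (e.symm.injective (Subtype.ext h))
        have hnone : ∀ j : Fin Cd.card, par (e.symm j).1 = none := by
          intro j
          have := hmemC j
          rw [hC, mem_filter] at this
          obtain ⟨_, v, hv⟩ := this
          rw [hch, mem_filter] at hv
          exact hpar _ _ hv.2
        have hsome : ∀ j : Fin Cd.card, ∀ y ∈ S j, par y = some (e.symm j).1 := by
          intro j y hy
          have := hSsub j hy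
          rw [hch, mem_filter] at this
          exact this.2
        rw [Finset.disjoint_left]
        intro y hy hy'
        rw [mem_insert] at hy hy'
        rcases hy with rfl | hy
        · rcases hy' with h | hy'
          · exact hne h
          · have := hsome j _ hy'
            rw [hnone i] at this
            exact absurd this (by simp)
        · rcases hy' with rfl | hy'
          · have := hsome i _ hy
            rw [hnone j] at this
            exact absurd this (by simp)
          · exact hne (Option.some.inj ((hsome i y hy).symm.trans (hsome j y hy'))))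
    have he : Real.exp 1 < 3 := by
      have := Real.exp_one_lt_d9
      linarith
    refine h5.trans ?_
    have hnn : (0 : ℝ) ≤ (n : ℝ) * (n.choose d : ℝ) * q ^ d := by positivity
    nlinarith

/-- the sparse range -/
theorem sparse (b0 : ℕ) : SparseCore b0 := by
  classical
  refine ⟨2 * b0 * 2 * 128, 1000 * (8 * 3 ^ 16), by norm_num, 128, ?_⟩
  intro n hn W _ _ H hW q hq hLq hFM hb
  obtain ⟨ι⟩ : Nonempty (W ↪ Fin n) := by
    apply Function.Embedding.nonempty_of_card_le
    simpa using hW
  have hFM' : Crest.TG69.FM H n q := by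
    intro κ J hJ
    exact hFM κ J hJ
  have hq2 : q < 1 / 2 := by
    nlinarith
  have hdeg : ∀ U : Finset W, U.Nonempty →
      ∃ v ∈ U, (U.filter (fun u => H.Adj v u)).card ≤ 2 * b0 := by
    intro U hU
    obtain ⟨v, hv, hv2⟩ := Crest.TG.Degen.exists_low_degree H (b0 : ℝ)
      (fun U => sparse_density H (by omega) b0 q hq hq2 hb ι hFM' U) U hU
    refine ⟨v, hv, ?_⟩
    exact_mod_cast hv2
  obtain ⟨c, hc⟩ := Crest.TG.Degen.star_labels H (2 * b0) 128 (by norm_num) hdeg
  refine ⟨fun i => pieceGraph H c i, ?_, ?_⟩
  · intro a b hab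
    refine ⟨c ⟨s(a, b), hab⟩, ?_⟩
    exact (Crest.TG.Degen.pieceGraph_adj H c _ a b).2 ⟨hab, rfl⟩
  · intro i
    obtain ⟨par, hpar, hadj, hcard⟩ := hc i
    refine sparse_piece H (pieceGraph H c i) (by omega) hW _ q hq le_rfl hLq.le ι
      (fun J hJ => hFM ι J hJ) ?_ par hpar hadj ?_
    · intro a b hab
      obtain ⟨h, _⟩ := (Crest.TG.Degen.pieceGraph_adj H c _ a b).1 hab
      exact h
    · omega

end TG82
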