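import Crest.Agent.TG94_Num

set_option autoImplicit false

namespace Crest.TG83

open Finset Filter

theorem num (m : ℕ) (hm : 1 ≤ m) : ∃ n0 : ℕ, ∀ n : ℕ, n0 ≤ n →
    ∀ (Jc D b K A : ℕ) (q : ℝ), 0 < q → 2 * q ≤ 1 →
      (Jc : ℝ) ≤ (n : ℝ) ^ ((1 : ℝ) / 10) → (n : ℝ) ^ (-((1 : ℝ) / 100)) ≤ q ^ D →
      n ≤ 2 * b → (K : ℝ) ≤ 2 / q ^ D + 1 → A ≤ (Jc + 1) ^ D →
      2 * ((A : ℝ) + 1) ^ K * Real.exp (-((b : ℝ) * q ^ D / 8)) ≤ 1 / (2 * (m : ℝ)) := by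
  have hm' : (0 : ℝ) < m := by exact_mod_cast hm
  have e1 := Crest.TG94.ev_rpow_log_le (a := 1 / 100) (b := 99 / 100) (by norm_num) 192 2
  have e2 := Crest.TG94.ev_pow_exp_le (a := 99 / 100) (c := 1 / 32) (ε := 1 / (4 * (m : ℝ)))
    (by norm_num) (by norm_num) (by positivity) 0
  obtain ⟨n0, hn3, hn0⟩ := Crest.TG94.exists_threshold (e1.and e2) 3
  refine ⟨n0, fun n hn Jc D b K A q hq hq2 hJ hD hb hK hA => ?_⟩
  obtain ⟨h1, h2⟩ := hn0 n hn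
  have hn3' : (3 : ℝ) ≤ n := by exact_mod_cast hn3.trans hn
  have hnpos : (0 : ℝ) < n := by linarith
  have hn1 : (1 : ℝ) ≤ n := by linarith
  set l := Real.log n with hl
  have hl1 : 1 ≤ l := by
    rw [hl, Real.le_log_iff_exp_le hnpos]
    have := Real.exp_one_lt_d9
    linarith
  have hqD : 0 < q ^ D := pow_pos hq D
  -- D ≤ log n
  have hDl : (D : ℝ) ≤ l := by
    have h3 : (n : ℝ) ^ (-((1 : ℝ) / 100)) ≤ (1 / 2) ^ D :=
      hD.trans (pow_le_pow_left₀ hq.le (by linarith) D)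
    have h4 := Real.log_le_log (by positivity) h3
    have hlog : Real.log (1 / 2 : ℝ) = -Real.log 2 := by rw [one_div, Real.log_inv]
    rw [Real.log_rpow hnpos, Real.log_pow, hlog] at h4
    have h5 := Real.log_two_gt_d9
    have h6 : (0:ℝ) ≤ D := Nat.cast_nonneg D
    rw [← hl] at h4
    nlinarith
  -- card
  have hJ1 : ((Jc : ℝ) + 1) ≤ n := by
    have h3 : (n : ℝ) ^ ((1 : ℝ) / 10) ≤ (n : ℝ) ^ ((1 : ℝ) / 2) :=
      Real.rpow_le_rpow_of_exponent_le hn1 (by norm_num)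
    have h4 : (n : ℝ) ^ ((1 : ℝ) / 2) = Real.sqrt n := by rw [Real.sqrt_eq_rpow]
    have h5 : Real.sqrt n + 1 ≤ n := by
      have hs := Real.sq_sqrt hnpos.le
      have hs0 := Real.sqrt_nonneg (n : ℝ)
      have hs1 : (1.7 : ℝ) ≤ Real.sqrt n := by
        apply Real.le_sqrt_of_sq_le
        norm_num
        linarith
      nlinarith
    linarith
  have hA1 : (A : ℝ) ≤ Real.exp (l ^ 2) := by
    calc (A : ℝ) ≤ ((Jc : ℝ) + 1) ^ D := by exact_mod_cast hA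
      _ ≤ (n : ℝ) ^ D := pow_le_pow_left₀ (by positivity) hJ1 D
      _ = Real.exp (l * D) := by
          rw [hl, ← Real.rpow_natCast, Real.rpow_def_of_pos hnpos]
      _ ≤ _ := by
          apply Real.exp_le_exp.2
          rw [sq]
          exact mul_le_mul_of_nonneg_left hDl (by linarith)
  have hA2 : (A : ℝ) + 1 ≤ Real.exp (2 * l ^ 2) := by
    have h3 : Real.exp (2 * l ^ 2) = Real.exp (l ^ 2) * Real.exp (l ^ 2) := by
      rw [← Real.exp_add]; congr 1; ring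
    have h4 : (1 : ℝ) + 1 ≤ Real.exp (l ^ 2) := by
      have := Real.add_one_le_exp (l ^ 2)
      have : (1 : ℝ) ≤ l ^ 2 := by nlinarith
      linarith
    rw [h3]
    nlinarith
  have hNpow : ((A : ℝ) + 1) ^ K ≤ Real.exp (2 * l ^ 2 * K) := by
    calc ((A : ℝ) + 1) ^ K ≤ (Real.exp (2 * l ^ 2)) ^ K :=
          pow_le_pow_left₀ (by positivity) hA2 K
      _ = _ := by rw [← Real.exp_nat_mul]; congr 1; ring
  have hinv : 1 / q ^ D ≤ (n : ℝ) ^ ((1 : ℝ) / 100) := by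
    rw [div_le_iff₀ hqD]
    calc (1 : ℝ) = (n : ℝ) ^ ((1 : ℝ) / 100) * (n : ℝ) ^ (-((1 : ℝ) / 100)) := by
          rw [← Real.rpow_add hnpos]; norm_num
      _ ≤ _ := mul_le_mul_of_nonneg_left hD (by positivity)
  have hone : (1 : ℝ) ≤ (n : ℝ) ^ ((1 : ℝ) / 100) := Real.one_le_rpow hn1 (by norm_num)
  have hK3 : (K : ℝ) ≤ 3 * (n : ℝ) ^ ((1 : ℝ) / 100) := by
    have : 2 / q ^ D = 2 * (1 / q ^ D) := by ring
    linarith
  have hbq : (n : ℝ) ^ ((99 : ℝ) / 100) / 16 ≤ (b : ℝ) * q ^ D / 8 := by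
    have h3 : (n : ℝ) / 2 ≤ b := by
      have : (n : ℝ) ≤ 2 * b := by exact_mod_cast hb
      linarith
    have h4 : (n : ℝ) ^ ((99 : ℝ) / 100) = n * (n : ℝ) ^ (-((1 : ℝ) / 100)) := by
      nth_rewrite 2 [← Real.rpow_one (n : ℝ)]
      rw [← Real.rpow_add hnpos]; norm_num
    have h5 : (n : ℝ) / 2 * (n : ℝ) ^ (-((1 : ℝ) / 100)) ≤ b * q ^ D :=
      mul_le_mul h3 hD (by positivity) (by positivity)
    rw [h4]
    linarith
  have hexp : 2 * l ^ 2 * K + -((b : ℝ) * q ^ D / 8) ≤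
      -((1 / 32 : ℝ) * (n : ℝ) ^ ((99 : ℝ) / 100)) := by
    have h3 : 2 * l ^ 2 * K ≤ 2 * l ^ 2 * (3 * (n : ℝ) ^ ((1 : ℝ) / 100)) :=
      mul_le_mul_of_nonneg_left hK3 (by positivity)
    have h4 : 2 * l ^ 2 * (3 * (n : ℝ) ^ ((1 : ℝ) / 100)) =
        (192 * (n : ℝ) ^ ((1 : ℝ) / 100) * l ^ 2) / 32 := by ring
    linarith
  calc 2 * ((A : ℝ) + 1) ^ K * Real.exp (-((b : ℝ) * q ^ D / 8))
      ≤ 2 * Real.exp (2 * l ^ 2 * K) * Real.exp (-((b : ℝ) * q ^ D / 8)) := by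
        refine mul_le_mul_of_nonneg_right ?_ (Real.exp_pos _).le
        linarith
    _ = 2 * Real.exp (2 * l ^ 2 * K + -((b : ℝ) * q ^ D / 8)) := by
        rw [Real.exp_add]; ring
    _ ≤ 2 * Real.exp (-((1 / 32 : ℝ) * (n : ℝ) ^ ((99 : ℝ) / 100))) := by
        refine mul_le_mul_of_nonneg_left (Real.exp_le_exp.2 hexp) (by norm_num)
    _ ≤ 2 * (1 / (4 * (m : ℝ))) := by
        refine mul_le_mul_of_nonneg_left ?_ (by norm_num)
        simpa using h2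
    _ = 1 / (2 * (m : ℝ)) := by field_simp; norm_num

end Crest.TG83
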