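import Crest.Agent.TG83_Fp
import Crest.Agent.TG83_Num
import Crest.Agent.TG55_AD

set_option autoImplicit false

namespace Crest.TG83

open Finset Crest.TG.Spr

/-- the double sum for `V = Fin a` -/
theorem double_fin {J : Type} [Fintype J] [DecidableEq J] {a b : ℕ}
    (Y : Fin a → Finset J) (n D : ℕ) (q P : ℝ) (hn : 0 < n) (hV : 64 * a ≤ n)
    (hb : n ≤ 2 * b) (hq : 0 < q) (hP : 4 * q ≤ P) (hP1 : P ≤ 1)
    (hY : ∀ v, (Y v).card ≤ D)
    (hS : ∀ S : Finset J, S.Nonempty →
      ((univ.filter fun v => S ⊆ Y v).card : ℝ) ≤ 20 * n * q ^ S.card)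
    (K : ℕ) (hK : 2 / q ^ D ≤ K) (A : ℕ)
    (hA : (Finset.univ.filter (fun X : Finset J => X.card ≤ D)).card ≤ A) :
    1 - 2 * ((A : ℝ) + 1) ^ K * Real.exp (-((b : ℝ) * q ^ D / 8)) ≤
      ∑ τ : Fin a → Finset J, ∑ ρ : Fin b → Finset J,
        (∏ v, Crest.TG65.lam 2048 Y v (τ v)) * (∏ w, wP P (ρ w)) *
        (open Classical in if ∃ g : Fin a → Fin b, Function.Injective g ∧ ∀ v, τ v ⊆ ρ (g v)
          then 1 else 0) := by
  classical
  have hq1 : q ≤ 1 := by linarith
  have hqP : q ≤ P := by linarith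
  set Adm : Finset (Finset J) := Finset.univ.filter (fun X : Finset J => X.card ≤ D) with hAdm
  -- modify the labels: outside `Adm` the label has weight zero
  let Af : Fin a → Finset J → Finset J := fun v t => if t ⊆ Y v then t else ∅
  have hAf : ∀ v t, Af v t ∈ Adm := by
    intro v t
    rw [hAdm, mem_filter]
    refine ⟨mem_univ _, ?_⟩
    simp only [Af]
    split_ifs with h
    · exact (card_le_card h).trans (hY v)
    · simp
  have key := Crest.TG.Fp.quenched (b := b) (Crest.TG65.lam 2048 Y)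
    (fun v t => Crest.TG65.lam_nonneg 2048 (by norm_num) Y v t)
    (fun v => Crest.TG65.sum_lam 2048 (by norm_num) Y v) Af Adm hAf
    (wP q) (wP P) (fun R => wP_nonneg hq.le hq1 R) (sum_wP q)
    (fun R => wP_nonneg (hq.le.trans hqP) hP1 R) (sum_wP P) (q ^ D) (pow_pos hq D) K hK
    (fun A hA S => hypc q D hq hq1 A (by rw [hAdm, mem_filter] at hA; exact hA.2) S)
    (fun S hS hne => hypM q P D hq hqP hP1 S
      (fun A hA => by have := hS hA; rw [hAdm, mem_filter] at this; exact this.2) hne)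
    (fun S _ _ _ => by
      refine le_trans (le_of_eq ?_) (hypH Y n q P b hn (by simpa using hV) hb hq hP hP1 hS S)
      refine Finset.sum_congr rfl fun v _ => Finset.sum_congr rfl fun t _ => ?_
      by_cases ht : t ⊆ Y v
      · have e : Af v t = t := by simp only [Af]; rw [if_pos ht]
        rw [e]
      · have e : Crest.TG65.lam 2048 Y v t = 0 := by
          unfold Crest.TG65.lam; rw [if_neg ht]
        rw [e, zero_mul, zero_mul])
    (((A : ℝ) + 1) ^ K) (by
      have h1 := Crest.TG.Fp.card_small Adm K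
      calc ((Adm.powerset.filter (fun S => S.card ≤ K)).card : ℝ) ≤ (((Adm.card + 1) ^ K : ℕ) : ℝ) := by
            exact_mod_cast h1
        _ ≤ _ := by
          push_cast
          refine pow_le_pow_left₀ (by positivity) ?_ K
          have : (Adm.card : ℝ) ≤ A := by exact_mod_cast hA
          linarith)
  refine key.trans (le_of_eq ?_)
  refine Finset.sum_congr rfl fun τ _ => Finset.sum_congr rfl fun ρ _ => ?_
  by_cases hτ : ∀ v, τ v ⊆ Y v
  · have e : ∀ v, Af v (τ v) = τ v := fun v => by simp only [Af]; rw [if_pos (hτ v)]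
    simp only [e]
  · push Not at hτ
    obtain ⟨v, hv⟩ := hτ
    have e : ∏ v, Crest.TG65.lam 2048 Y v (τ v) = 0 := by
      apply Finset.prod_eq_zero (mem_univ v)
      unfold Crest.TG65.lam; rw [if_neg hv]
    rw [e, zero_mul, zero_mul, zero_mul]

/-- the double sum for general `V` -/
theorem double_gen {J V : Type} [Fintype J] [DecidableEq J] [Fintype V] [DecidableEq V] {b : ℕ}
    (Y : V → Finset J) (n D : ℕ) (q P : ℝ) (hn : 0 < n) (hV : 64 * Fintype.card V ≤ n)
    (hb : n ≤ 2 * b) (hq : 0 < q) (hP : 4 * q ≤ P) (hP1 : P ≤ 1)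
    (hY : ∀ v, (Y v).card ≤ D)
    (hS : ∀ S : Finset J, S.Nonempty →
      ((univ.filter fun v => S ⊆ Y v).card : ℝ) ≤ 20 * n * q ^ S.card)
    (K : ℕ) (hK : 2 / q ^ D ≤ K) (A : ℕ)
    (hA : (Finset.univ.filter (fun X : Finset J => X.card ≤ D)).card ≤ A) :
    1 - 2 * ((A : ℝ) + 1) ^ K * Real.exp (-((b : ℝ) * q ^ D / 8)) ≤
      ∑ τ : V → Finset J, ∑ ρ : Fin b → Finset J,
        (∏ v, Crest.TG65.lam 2048 Y v (τ v)) * (∏ w, wP P (ρ w)) *
        (open Classical in if ∃ g : V → Fin b, Function.Injective g ∧ ∀ v, τ v ⊆ ρ (g v)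
          then 1 else 0) := by
  classical
  let e : V ≃ Fin (Fintype.card V) := Fintype.equivFin V
  have h := double_fin (b := b) (fun v => Y (e.symm v)) n D q P hn hV hb hq hP hP1
    (fun v => hY _) (by
      intro S hSne
      have e1 : (univ.filter fun v : Fin (Fintype.card V) => S ⊆ Y (e.symm v)).card =
          (univ.filter fun v => S ⊆ Y v).card := by
        refine Finset.card_bij' (fun v _ => e.symm v) (fun v _ => e v) ?_ ?_ ?_ ?_
        · intro v hv; simpa using hv
        · intro v hv; simpa using hv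
        · intro v _; simp
        · intro v _; simp
      rw [e1]
      exact hS S hSne) K hK A hA
  refine h.trans (le_of_eq ?_)
  refine Fintype.sum_equiv (Equiv.arrowCongr e.symm (Equiv.refl (Finset J))) _ _ ?_
  intro τ
  refine Finset.sum_congr rfl fun ρ _ => ?_
  have e2 : ∏ v, Crest.TG65.lam 2048 (fun v => Y (e.symm v)) v (τ v) =
      ∏ v, Crest.TG65.lam 2048 Y v ((Equiv.arrowCongr e.symm (Equiv.refl (Finset J))) τ v) := by
    refine Fintype.prod_equiv e.symm _ _ ?_
    intro v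
    simp only [Equiv.arrowCongr_apply, Equiv.symm_symm, Equiv.coe_refl, Function.comp_apply,
      Equiv.apply_symm_apply, id_eq]
    rfl
  rw [e2]
  congr 1
  refine if_congr ?_ rfl rfl
  constructor
  · rintro ⟨g, hg, hτ⟩
    refine ⟨fun v => g (e v), hg.comp e.injective, fun v => ?_⟩
    simpa using hτ (e v)
  · rintro ⟨g, hg, hτ⟩
    refine ⟨fun v => g (e.symm v), hg.comp e.symm.injective, fun v => ?_⟩
    have := hτ (e.symm v)
    simpa using this

theorem card_le_small (J : Type) [Fintype J] [DecidableEq J] (D : ℕ) :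
    (Finset.univ.filter (fun X : Finset J => X.card ≤ D)).card ≤ (Fintype.card J + 1) ^ D := by
  classical
  have h : (Finset.univ.filter (fun X : Finset J => X.card ≤ D)) ⊆
      (univ : Finset (Fin D → Option J)).image
        (fun f => univ.filter (fun x => ∃ i, f i = some x)) := by
    intro S hS
    rw [mem_filter] at hS
    rw [mem_image]
    have hSK := hS.2
    let e := S.equivFin
    refine ⟨fun i => if h : (i : ℕ) < S.card then
      some (e.symm ⟨i, h⟩ : {x // x ∈ S}).1 else none, mem_univ _, ?_⟩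
    ext x
    rw [mem_filter]
    constructor
    · rintro ⟨_, i, hi⟩
      dsimp only at hi
      split_ifs at hi with h
      simp only [Option.some.injEq] at hi
      rw [← hi]
      exact (e.symm ⟨i, h⟩).2
    · intro hx
      refine ⟨mem_univ _, ⟨(e ⟨x, hx⟩ : Fin S.card), lt_of_lt_of_le (e ⟨x, hx⟩).2 hSK⟩, ?_⟩
      simp
  refine (card_le_card h).trans (card_image_le.trans ?_)
  rw [card_univ, Fintype.card_fun, Fintype.card_option, Fintype.card_fin]

theorem AD_fp : Crest.TG55.AD := by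
  classical
  obtain ⟨n0, hn0⟩ := num 2048 (by norm_num)
  refine ⟨2048, 4, max n0 1, by norm_num, by norm_num, ?_⟩
  intro n hn J V _ _ _ _ Y q D b hq hLq hJ hYD hqD hV hS hb _ Q _ hQ
  have hn1 : n0 ≤ n := (le_max_left _ _).trans hn
  have hn2 : 0 < n := lt_of_lt_of_le (by norm_num) ((le_max_right _ _).trans hn)
  have hqDpos : 0 < q ^ D := pow_pos hq D
  have hK := Nat.le_ceil (2 / q ^ D)
  have hK2 : ((⌈2 / q ^ D⌉₊ : ℕ) : ℝ) ≤ 2 / q ^ D + 1 :=
    (Nat.ceil_lt_add_one (by positivity)).le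
  have hAcard : (Finset.univ.filter (fun X : Finset J => X.card ≤ D)).card ≤
      (Fintype.card J + 1) ^ D := card_le_small J D
  have h1 := double_gen (b := b) Y n D q (4 * q) hn2 hV hb hq le_rfl (by linarith) hYD hS
    ⌈2 / q ^ D⌉₊ hK _ hAcard
  have h2 := hn0 n hn1 (Fintype.card J) D b ⌈2 / q ^ D⌉₊ _ q hq (by linarith) hJ hqD hb hK2
    (le_refl ((Fintype.card J + 1) ^ D))
  have h3 : 1 - 1 / (2 * ((2048 : ℕ) : ℝ)) ≤ ∑ τ : V → Finset J, ∑ ρ : Fin b → Finset J,
        (∏ v, Crest.TG65.lam 2048 Y v (τ v)) * (∏ w, wP (4 * q) (ρ w)) *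
        (if ∃ g : V → Fin b, Function.Injective g ∧ ∀ v, τ v ⊆ ρ (g v)
          then 1 else 0) := by
    linarith
  refine h3.trans ?_
  refine Finset.sum_le_sum fun τ _ => Finset.sum_le_sum fun ρ _ => ?_
  have hw : 0 ≤ (∏ v, Crest.TG65.lam 2048 Y v (τ v)) * (∏ w, wP (4 * q) (ρ w)) := by
    refine mul_nonneg (Finset.prod_nonneg fun v _ =>
      Crest.TG65.lam_nonneg 2048 (by norm_num) Y v _) (Finset.prod_nonneg fun w _ =>
      wP_nonneg (by linarith) (by linarith) _)
  have e1 : (∏ v, Crest.TG55.lam 2048 Y v (τ v)) * (∏ w, Crest.TG55.mu (4 * q) (ρ w)) =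
      (∏ v, Crest.TG65.lam 2048 Y v (τ v)) * (∏ w, wP (4 * q) (ρ w)) := rfl
  rw [e1]
  refine mul_le_mul_of_nonneg_left ?_ hw
  by_cases h : ∃ g : V → Fin b, Function.Injective g ∧ ∀ v, τ v ⊆ ρ (g v)
  · rw [if_pos h, if_pos (hQ τ ρ h)]
  · rw [if_neg h]
    split_ifs <;> norm_num

end Crest.TG83
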