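import Crest.Agent.TG_Fp
import Crest.Agent.TG_Thin
import Crest.Agent.TG98_Spr
import Crest.Agent.TG65_Labels
import Crest.Agent.TG94_Num

set_option autoImplicit false

namespace Crest.TG83

open Finset Crest.TG.Spr

/-- the up-set generated by `S` -/
noncomputable def upF {J : Type*} [Fintype J] [DecidableEq J] (S : Finset (Finset J)) :
    Finset (Finset J) := by
  classical
  exact univ.filter fun R => Crest.TG.Fp.Up S R

theorem mem_upF {J : Type*} [Fintype J] [DecidableEq J] (S : Finset (Finset J)) (R : Finset J) :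
    R ∈ upF S ↔ Crest.TG.Fp.Up S R := by
  classical
  unfold upF
  simp

theorem upF_up {J : Type*} [Fintype J] [DecidableEq J] (S : Finset (Finset J)) :
    ∀ A ∈ upF S, ∀ B, A ⊆ B → B ∈ upF S := by
  intro A hA B hAB
  rw [mem_upF] at hA ⊢
  obtain ⟨C, hC, hCA⟩ := hA
  exact ⟨C, hC, hCA.trans hAB⟩

theorem M_eq {J : Type*} [Fintype J] [DecidableEq J] (p : ℝ) (S : Finset (Finset J)) :
    Crest.TG.Fp.M (wP p) S = muP p (upF S) := by
  classical
  rw [muP_eq_sum_ite]
  unfold Crest.TG.Fp.M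
  refine Finset.sum_congr rfl fun R _ => ?_
  by_cases h : Crest.TG.Fp.Up S R
  · rw [if_pos h, if_pos ((mem_upF S R).2 h)]
  · rw [if_neg h, if_neg (fun h' => h ((mem_upF S R).1 h'))]

theorem G_eq {J : Type*} [Fintype J] [DecidableEq J] (p : ℝ) (S : Finset (Finset J))
    (A : Finset J) :
    Crest.TG.Fp.G (wP p) S A = ∑ R : Finset J, wP p R * (if A ∪ R ∈ upF S then 1 else 0) := by
  classical
  unfold Crest.TG.Fp.G
  refine Finset.sum_congr rfl fun R _ => ?_
  by_cases h : Crest.TG.Fp.Up S (A ∪ R)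
  · rw [if_pos h, if_pos ((mem_upF S _).2 h)]
  · rw [if_neg h, if_neg (fun h' => h ((mem_upF S _).1 h'))]

/-- domination of the thinned types -/
theorem dom {V J : Type*} [Fintype V] [DecidableEq V] [Fintype J] [DecidableEq J]
    (Y : V → Finset J) (n q : ℝ) (hn : 0 < n) (hV : 64 * (Fintype.card V : ℝ) ≤ n)
    (hq : 0 < q) (hq1 : q < 1)
    (hS : ∀ S : Finset J, S.Nonempty →
      ((univ.filter fun v => S ⊆ Y v).card : ℝ) ≤ 20 * n * q ^ S.card)
    (U : Finset (Finset J)) (hU : ∀ A ∈ U, ∀ B : Finset J, A ⊆ B → B ∈ U) :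
    ∑ v, ∑ t : Finset J, Crest.TG65.lam 2048 Y v t * (if t ∈ U then 1 else 0) ≤
      n / 64 * muP q U := by
  classical
  let w : Option V → ℝ := fun o => o.elim (1 - 64 * (Fintype.card V : ℝ) / n) (fun _ => 64 / n)
  let Y' : Option V → Finset J := fun o => o.elim ∅ Y
  have h := Crest.TG.thin_dom (α := J) (univ : Finset (Option V)) w ?_ ?_ Y' (1 / ((2048 : ℕ) : ℝ))
    (1280 * q) q (by norm_num) (by norm_num) (by positivity) hq.le hq1 ?_ ?_ U hU
  · have h1 : ∑ v ∈ (univ : Finset (Option V)), w v * ∑ A ∈ (Y' v).powerset with A ∈ U,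
        (1 / ((2048 : ℕ) : ℝ)) ^ A.card * (1 - 1 / ((2048 : ℕ) : ℝ)) ^ ((Y' v).card - A.card) =
        w none * (∑ A ∈ (Y' none).powerset with A ∈ U,
        (1 / ((2048 : ℕ) : ℝ)) ^ A.card * (1 - 1 / ((2048 : ℕ) : ℝ)) ^ ((Y' none).card - A.card)) +
        64 / n * ∑ v, ∑ t : Finset J, Crest.TG65.lam 2048 Y v t * (if t ∈ U then 1 else 0) := by
      rw [Fintype.sum_option]
      refine congrArg₂ (· + ·) rfl ?_
      rw [Finset.mul_sum]
      refine Finset.sum_congr rfl fun v _ => ?_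
      have e1 : w (some v) = 64 / n := rfl
      rw [e1]
      congr 1
      have e2 : Y' (some v) = Y v := rfl
      rw [e2, Finset.sum_filter]
      rw [← Finset.sum_subset (Finset.subset_univ (Y v).powerset)]
      · refine Finset.sum_congr rfl fun t ht => ?_
        rw [Finset.mem_powerset] at ht
        unfold Crest.TG65.lam
        rw [if_pos ht]
        split_ifs <;> simp
      · intro t _ ht
        rw [Finset.mem_powerset] at ht
        unfold Crest.TG65.lam
        rw [if_neg ht, zero_mul]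
    rw [h1] at h
    have h2 : 0 ≤ w none * (∑ A ∈ (Y' none).powerset with A ∈ U,
        (1 / ((2048 : ℕ) : ℝ)) ^ A.card * (1 - 1 / ((2048 : ℕ) : ℝ)) ^ ((Y' none).card - A.card)) := by
      apply mul_nonneg
      · show 0 ≤ 1 - 64 * (Fintype.card V : ℝ) / n
        rw [sub_nonneg, div_le_one hn]
        exact hV
      · refine Finset.sum_nonneg fun A _ => ?_
        have : (0 : ℝ) ≤ 1 - 1 / ((2048 : ℕ) : ℝ) := by norm_num
        positivity
    have h3 : 64 / n * ∑ v, ∑ t : Finset J, Crest.TG65.lam 2048 Y v t * (if t ∈ U then 1 else 0)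
        ≤ muP q U := by
      have : ∑ R ∈ U, q ^ R.card * (1 - q) ^ (Fintype.card J - R.card) = muP q U := rfl
      rw [this] at h
      linarith
    have h4 := mul_le_mul_of_nonneg_left h3 (show (0:ℝ) ≤ n / 64 by positivity)
    calc _ = n / 64 * (64 / n * ∑ v, ∑ t : Finset J,
          Crest.TG65.lam 2048 Y v t * (if t ∈ U then 1 else 0)) := by
          rw [← mul_assoc]
          have : n / 64 * (64 / n) = 1 := by field_simp
          rw [this, one_mul]
      _ ≤ _ := h4
  · intro v _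
    cases v with
    | none =>
      show 0 ≤ 1 - 64 * (Fintype.card V : ℝ) / n
      rw [sub_nonneg, div_le_one hn]
      exact hV
    | some v =>
      show 0 ≤ 64 / n
      positivity
  · rw [Fintype.sum_option]
    show 1 - 64 * (Fintype.card V : ℝ) / n + ∑ _v : V, 64 / n = 1
    rw [Finset.sum_const, Finset.card_univ, nsmul_eq_mul]
    ring
  · have h1 : (1 / ((2048 : ℕ) : ℝ)) / (1 - 1 / ((2048 : ℕ) : ℝ)) * (1280 * q) ≤ q := by
      norm_num
      linarith
    refine h1.trans ?_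
    rw [le_div_iff₀ (by linarith)]
    nlinarith
  · intro S hSne
    have h1 : ∑ v ∈ (univ : Finset (Option V)) with S ⊆ Y' v, w v =
        64 / n * ((univ.filter fun v => S ⊆ Y v).card : ℝ) := by
      rw [Finset.sum_filter, Fintype.sum_option]
      have e0 : ¬ (S ⊆ Y' none) := by
        show ¬ (S ⊆ ∅)
        rw [Finset.subset_empty]
        exact hSne.ne_empty
      rw [if_neg e0, zero_add]
      have e1 : ∀ v : V, (if S ⊆ Y' (some v) then w (some v) else 0) =
          64 / n * (if S ⊆ Y v then 1 else 0) := by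
        intro v
        show (if S ⊆ Y v then 64 / n else 0) = _
        split_ifs <;> simp
      rw [Finset.sum_congr rfl fun v _ => e1 v, ← Finset.mul_sum, Finset.sum_boole]
    rw [h1]
    have h2 := hS S hSne
    have hc : 1 ≤ S.card := Finset.card_pos.2 hSne
    calc 64 / n * ((univ.filter fun v => S ⊆ Y v).card : ℝ) ≤ 64 / n * (20 * n * q ^ S.card) :=
          mul_le_mul_of_nonneg_left h2 (by positivity)
      _ = 1280 * q ^ S.card := by field_simp; ring
      _ ≤ 1280 ^ S.card * q ^ S.card := by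
          refine mul_le_mul_of_nonneg_right ?_ (by positivity)
          calc (1280 : ℝ) = 1280 ^ 1 := by norm_num
            _ ≤ 1280 ^ S.card := pow_le_pow_right₀ (by norm_num) hc
      _ = (1280 * q) ^ S.card := by rw [mul_pow]

/-- hypothesis `H` of `quenched` -/
theorem hypH {V J : Type*} [Fintype V] [DecidableEq V] [Fintype J] [DecidableEq J]
    (Y : V → Finset J) (n : ℕ) (q P : ℝ) (b : ℕ) (hn : 0 < n) (hV : 64 * Fintype.card V ≤ n)
    (hb : n ≤ 2 * b) (hq : 0 < q) (hP : 4 * q ≤ P) (hP1 : P ≤ 1)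
    (hS : ∀ S : Finset J, S.Nonempty →
      ((univ.filter fun v => S ⊆ Y v).card : ℝ) ≤ 20 * n * q ^ S.card)
    (S : Finset (Finset J)) :
    ∑ v, ∑ t : Finset J, Crest.TG65.lam 2048 Y v t *
      (if 1 / 2 ≤ Crest.TG.Fp.G (wP q) S t then 1 else 0) ≤
      (b : ℝ) / 16 * Crest.TG.Fp.M (wP P) S := by
  classical
  have hq1 : q < 1 := by linarith
  have hn' : (0 : ℝ) < n := by exact_mod_cast hn
  have hV' : 64 * (Fintype.card V : ℝ) ≤ n := by exact_mod_cast hV
  have hb' : (n : ℝ) ≤ 2 * b := by exact_mod_cast hb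
  set U := upF S with hUdef
  have hU := upF_up S
  rw [← hUdef] at hU
  have hnois := noisy_up hq.le hq1.le U hU
  have h1 := dom Y n q hn' hV' hq hq1 hS (noisy q U) hnois
  have e1 : ∑ v, ∑ t : Finset J, Crest.TG65.lam 2048 Y v t *
      (if 1 / 2 ≤ Crest.TG.Fp.G (wP q) S t then (1:ℝ) else 0) =
      ∑ v, ∑ t : Finset J, Crest.TG65.lam 2048 Y v t * (if t ∈ noisy q U then 1 else 0) := by
    refine Finset.sum_congr rfl fun v _ => Finset.sum_congr rfl fun t _ => ?_
    rw [G_eq, ← hUdef]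
    by_cases h : t ∈ noisy q U
    · rw [if_pos h, if_pos ((mem_noisy q U t).1 h)]
    · rw [if_neg h, if_neg (fun h' => h ((mem_noisy q U t).2 h'))]
  rw [e1, M_eq, ← hUdef]
  set X := ∑ v, ∑ t : Finset J, Crest.TG65.lam 2048 Y v t * (if t ∈ noisy q U then (1:ℝ) else 0)
    with hX
  have h2 := muP_noisy (α := J) hq.le hq1.le hq.le hq1.le U
  set x := muP (q + q - q * q) U with hx
  have hx0 : 0 ≤ x := muP_nonneg (by nlinarith) (by nlinarith) U
  have h3 := sprinkle_min (α := J) (p := q + q - q * q) (P := P) (by nlinarith) (by nlinarith) 2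
    (by push_cast; nlinarith) hP1 U hU
  rw [← hx] at h3
  push_cast at h3
  set y := muP P U with hy
  have hXle1 : X ≤ (Fintype.card V : ℝ) := by
    rw [hX]
    calc _ ≤ ∑ _v : V, (1:ℝ) := by
          refine Finset.sum_le_sum fun v _ => ?_
          refine le_trans (Finset.sum_le_sum (g := fun t => Crest.TG65.lam 2048 Y v t)
            fun t _ => ?_) (Crest.TG65.sum_lam 2048 (by norm_num) Y v).le
          have := Crest.TG65.lam_nonneg 2048 (by norm_num) Y v t
          split_ifs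
          · rw [mul_one]
          · rw [mul_zero]; exact this
      _ = _ := by simp
  have hXle2 : X ≤ n / 64 * (2 * x) := by
    refine h1.trans (mul_le_mul_of_nonneg_left ?_ (by positivity))
    exact h2
  have hb2 : (n : ℝ) / 32 ≤ b / 16 := by linarith
  rcases le_total (1 / 2 : ℝ) (2 * x / 2) with h | h
  · rw [min_eq_left h] at h3
    have : (b : ℝ) / 16 * (1 / 2) ≤ b / 16 * y := mul_le_mul_of_nonneg_left h3 (by positivity)
    linarith
  · rw [min_eq_right h] at h3
    have h5 : (n : ℝ) / 64 * (2 * x) = n / 32 * x := by ring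
    have h6 : (n : ℝ) / 32 * x ≤ b / 16 * x := mul_le_mul_of_nonneg_right hb2 hx0
    have h7 : (b : ℝ) / 16 * x ≤ b / 16 * y := mul_le_mul_of_nonneg_left (by linarith) (by positivity)
    linarith

open Classical in
/-- hypothesis `hc` of `quenched` -/
theorem hypc {J : Type*} [Fintype J] [DecidableEq J] (q : ℝ) (D : ℕ) (hq : 0 < q) (hq1 : q ≤ 1)
    (A : Finset J) (hA : A.card ≤ D) (S : Finset (Finset J)) :
    q ^ D * (1 - Crest.TG.Fp.G (wP q) S A) ≤
      ∑ R : Finset J, wP q R * (if A ⊆ R ∧ ¬ Crest.TG.Fp.Up S R then 1 else 0) := by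
  classical
  have h1 : ∑ R : Finset J, wP q R * (if A ⊆ R ∧ ¬ Crest.TG.Fp.Up S R then (1:ℝ) else 0) =
      ∑ R : Finset J, wP q R * (if A ⊆ R then (if ¬ Crest.TG.Fp.Up S R then 1 else 0) else 0) := by
    refine Finset.sum_congr rfl fun R _ => ?_
    by_cases h : A ⊆ R <;> by_cases h' : Crest.TG.Fp.Up S R <;> simp [h, h']
  rw [h1, cond_law q A (fun R => if ¬ Crest.TG.Fp.Up S R then 1 else 0)]
  have h2 : ∑ R : Finset J, wP q R * (if ¬ Crest.TG.Fp.Up S (A ∪ R) then (1:ℝ) else 0) =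
      1 - Crest.TG.Fp.G (wP q) S A := by
    unfold Crest.TG.Fp.G
    rw [eq_sub_iff_add_eq, ← Finset.sum_add_distrib]
    refine Eq.trans ?_ (sum_wP (α := J) q)
    refine Finset.sum_congr rfl fun R _ => ?_
    by_cases h' : Crest.TG.Fp.Up S (A ∪ R) <;> simp [h']
  have h3 : 0 ≤ 1 - Crest.TG.Fp.G (wP q) S A := by
    rw [← h2]
    refine Finset.sum_nonneg fun R _ => ?_
    have := wP_nonneg (α := J) hq.le hq1 R
    split_ifs <;> simp [this]
  show q ^ D * (1 - Crest.TG.Fp.G (wP q) S A) ≤ q ^ A.card *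
    ∑ R : Finset J, wP q R * (if ¬ Crest.TG.Fp.Up S (A ∪ R) then (1:ℝ) else 0)
  rw [h2]
  exact mul_le_mul_of_nonneg_right (pow_le_pow_of_le_one hq.le hq1 hA) h3

/-- hypothesis `hM` of `quenched` -/
theorem hypM {J : Type*} [Fintype J] [DecidableEq J] (q P : ℝ) (D : ℕ) (hq : 0 < q) (hqP : q ≤ P)
    (hP1 : P ≤ 1) (S : Finset (Finset J)) (hS : ∀ A ∈ S, A.card ≤ D) (hne : S.Nonempty) :
    q ^ D ≤ Crest.TG.Fp.M (wP P) S := by
  classical
  obtain ⟨A, hA⟩ := hne
  have h1 : q ^ D ≤ P ^ A.card := by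
    calc q ^ D ≤ q ^ A.card := pow_le_pow_of_le_one hq.le (hqP.trans hP1) (hS A hA)
      _ ≤ P ^ A.card := pow_le_pow_left₀ hq.le hqP _
  refine h1.trans ?_
  rw [← prob_superset (α := J) P A]
  unfold Crest.TG.Fp.M
  refine Finset.sum_le_sum fun R _ => ?_
  have := wP_nonneg (α := J) (hq.le.trans hqP) hP1 R
  by_cases h : A ⊆ R
  · rw [if_pos h, if_pos ⟨A, hA, h⟩]
  · rw [if_neg h, mul_zero]
    split_ifs <;> simp [this]

end Crest.TG83
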