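import Mathlib
import Crest.Agent.TG94_Num

/-! Numerics for the GAMMA class of S0073 (helper50's shape). -/

set_option autoImplicit false

namespace Crest.TG84

open Filter

theorem num50 (m : ℝ) (hm : 0 ≤ m) : ∃ n0 : ℕ, ∀ n : ℕ, n0 ≤ n → ∀ (cJ D b K : ℕ) (q : ℝ),
    (n : ℝ) ≤ 2 * b → (cJ : ℝ) ≤ (n : ℝ) ^ (1 / 10 : ℝ) → 0 < q → q ≤ 1 / 4 →
    (n : ℝ) ^ (-(1 / 100) : ℝ) ≤ q ^ D → (K : ℝ) ≤ 2 / q ^ D + 1 →
    m * (2 * (((cJ : ℝ) + 1) ^ D + 1) ^ K * Real.exp (-((b : ℝ) * q ^ D / 8))) ≤ 1 / 2 := by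
  have e1 := TG94.ev_rpow_log_le (a := 1 / 100) (b := 1 / 2) (by norm_num) 3 2
  have e2 := TG94.ev_rpow_log_le (a := 1 / 100) (b := 1 / 2) (by norm_num) 3 0
  have hε : (0 : ℝ) < 1 / (4 * (m + 1)) := by positivity
  have e3 := TG94.ev_exp_le (a := 1 / 2) (b := 99 / 100) (by norm_num) (by norm_num) 2
    (c := 1 / 16) (by norm_num) hε
  have e4 := TG94.ev_rpow_log_le (a := 1 / 10) (b := 1) (by norm_num) 2 0
  obtain ⟨n0, hn0⟩ := (e1.and (e2.and (e3.and (e4.and (eventually_ge_atTop 3))))).exists_forall_of_atTop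
  refine ⟨n0, fun n hn cJ D b K q hb hcJ hq hq4 hqD hK => ?_⟩
  obtain ⟨h1, h2, h3, h4, hn3⟩ := hn0 n hn
  have hnR : (3 : ℝ) ≤ n := by exact_mod_cast hn3
  have hn1 : (1 : ℝ) ≤ n := by linarith
  have hnpos : (0 : ℝ) < n := by linarith
  have hlog1 : 1 ≤ Real.log n := by
    rw [Real.le_log_iff_exp_le hnpos]
    have := Real.exp_one_lt_d9
    linarith
  set x : ℝ := (n : ℝ) ^ (1 / 100 : ℝ) with hx
  have hx1 : 1 ≤ x := Real.one_le_rpow hn1 (by norm_num)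
  have hxinv : (n : ℝ) ^ (-(1 / 100) : ℝ) = x⁻¹ := by
    rw [Real.rpow_neg hnpos.le]
  have hqDpos : 0 < q ^ D := by positivity
  -- D ≤ log n
  have hD : (D : ℝ) ≤ Real.log n := by
    have h5 : q ^ D ≤ (1 / 4 : ℝ) ^ D := pow_le_pow_left₀ hq.le hq4 D
    have h6 : x⁻¹ ≤ (1 / 4 : ℝ) ^ D := by rw [← hxinv]; exact hqD.trans h5
    have h7 : (4 : ℝ) ^ D ≤ x := by
      have h8 : ((1 / 4 : ℝ) ^ D) = ((4 : ℝ) ^ D)⁻¹ := by
        rw [one_div, inv_pow]
      rw [h8] at h6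
      exact (inv_le_inv₀ (by linarith) (by positivity)).1 h6
    have h9 : (D : ℝ) * Real.log 4 ≤ Real.log x := by
      rw [← Real.log_pow]
      exact Real.log_le_log (by positivity) h7
    have h10 : Real.log x = 1 / 100 * Real.log n := by
      rw [hx, Real.log_rpow hnpos]
    have h11 : 1 ≤ Real.log 4 := by
      rw [Real.le_log_iff_exp_le (by norm_num)]
      have := Real.exp_one_lt_d9
      linarith
    have h12 : (D : ℝ) ≤ D * Real.log 4 := by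
      have : (0 : ℝ) ≤ D := Nat.cast_nonneg D
      nlinarith
    linarith
  have hD0 : (0 : ℝ) ≤ D := Nat.cast_nonneg D
  -- cJ + 1 ≤ n
  have hc1 : (cJ : ℝ) + 1 ≤ n := by
    have h5 : (1 : ℝ) ≤ (n : ℝ) ^ (1 / 10 : ℝ) := Real.one_le_rpow hn1 (by norm_num)
    rw [pow_zero, mul_one, Real.rpow_one] at h4
    linarith
  have hcpos : (0 : ℝ) < (cJ : ℝ) + 1 := by positivity
  -- base bound
  have hbase : ((cJ : ℝ) + 1) ^ D + 1 ≤ Real.exp (1 + Real.log n ^ 2) := by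
    have h5 : ((cJ : ℝ) + 1) ^ D ≤ (n : ℝ) ^ D := pow_le_pow_left₀ hcpos.le hc1 D
    have h6 : (n : ℝ) ^ D = Real.exp (D * Real.log n) := by
      rw [mul_comm, Real.exp_mul, Real.exp_log hnpos, Real.rpow_natCast]
    have h7 : Real.exp (D * Real.log n) ≤ Real.exp (Real.log n ^ 2) := by
      apply Real.exp_le_exp.2
      rw [pow_two]
      exact mul_le_mul_of_nonneg_right hD (by linarith)
    have h8 : 1 ≤ Real.exp (Real.log n ^ 2) := Real.one_le_exp (by positivity)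
    have h9 : (2 : ℝ) ≤ Real.exp 1 := by
      have := Real.add_one_le_exp (1 : ℝ)
      linarith
    rw [Real.exp_add]
    have : 2 * Real.exp (Real.log n ^ 2) ≤ Real.exp 1 * Real.exp (Real.log n ^ 2) :=
      mul_le_mul_of_nonneg_right h9 (Real.exp_pos _).le
    linarith
  have hK3 : (K : ℝ) ≤ 3 * x := by
    have h5 : 2 / q ^ D ≤ 2 * x := by
      rw [div_le_iff₀ hqDpos]
      have h6 : x⁻¹ ≤ q ^ D := by rw [← hxinv]; exact hqD
      have h7 : 1 ≤ x * q ^ D := by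
        have := mul_le_mul_of_nonneg_left h6 (by linarith : (0 : ℝ) ≤ x)
        rwa [mul_inv_cancel₀ (by linarith : x ≠ 0)] at this
      nlinarith
    linarith
  have hpowK : (((cJ : ℝ) + 1) ^ D + 1) ^ K ≤ Real.exp (3 * x * (1 + Real.log n ^ 2)) := by
    have h5 : (((cJ : ℝ) + 1) ^ D + 1) ^ K ≤ (Real.exp (1 + Real.log n ^ 2)) ^ K :=
      pow_le_pow_left₀ (by positivity) hbase K
    rw [← Real.exp_nat_mul] at h5
    refine h5.trans (Real.exp_le_exp.2 ?_)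
    exact mul_le_mul_of_nonneg_right hK3 (by positivity)
  have hbq : (1 / 16 : ℝ) * (n : ℝ) ^ (99 / 100 : ℝ) ≤ (b : ℝ) * q ^ D / 8 := by
    have h5 : (n : ℝ) ^ (99 / 100 : ℝ) = n * x⁻¹ := by
      rw [← hxinv, ← Real.rpow_one_add' hnpos.le (by norm_num)]
      norm_num
    have h6 : x⁻¹ ≤ q ^ D := by rw [← hxinv]; exact hqD
    have h7 : (n : ℝ) / 2 ≤ b := by linarith
    have h8 : (n : ℝ) / 2 * x⁻¹ ≤ b * q ^ D :=
      mul_le_mul h7 h6 (by positivity) (by positivity)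
    rw [h5]
    linarith
  have hmain : 2 * (((cJ : ℝ) + 1) ^ D + 1) ^ K * Real.exp (-((b : ℝ) * q ^ D / 8)) ≤
      2 * (1 / (4 * (m + 1))) := by
    have h5 : (((cJ : ℝ) + 1) ^ D + 1) ^ K * Real.exp (-((b : ℝ) * q ^ D / 8)) ≤
        1 / (4 * (m + 1)) := by
      refine (mul_le_mul_of_nonneg_right hpowK (Real.exp_pos _).le).trans ?_
      rw [← Real.exp_add]
      refine le_trans (Real.exp_le_exp.2 ?_) h3
      have h6 : 3 * x * (1 + Real.log n ^ 2) ≤ 2 * (n : ℝ) ^ (1 / 2 : ℝ) := by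
        have h7 : 3 * x * Real.log n ^ 2 ≤ (n : ℝ) ^ (1 / 2 : ℝ) := h1
        have h8 : 3 * x ≤ (n : ℝ) ^ (1 / 2 : ℝ) := by simpa using h2
        linarith
      have h9 : 2 * (n : ℝ) ^ (1 / 2 : ℝ) ≤ 2 * (n : ℝ) ^ (1 / 2 : ℝ) * Real.log n := by
        have h10 : (0 : ℝ) ≤ 2 * (n : ℝ) ^ (1 / 2 : ℝ) := by positivity
        nlinarith
      linarith
    linarith
  refine (mul_le_mul_of_nonneg_left hmain hm).trans ?_
  have : m * (2 * (1 / (4 * (m + 1)))) = (1 / 2) * (m / (m + 1)) := by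
    field_simp
    ring
  rw [this]
  have h5 : m / (m + 1) ≤ 1 := by
    rw [div_le_one (by linarith)]
    linarith
  linarith

end Crest.TG84
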