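import Crest.Agent.TG97_Gamma
import Crest.Agent.TG84_Num

/-! helper97's `GNum` from `num50`. -/

set_option autoImplicit false

namespace Crest.TG84

theorem gnum : Crest.TG97.GNum := by
  obtain ⟨n0, hn0⟩ := num50 1281 (by norm_num)
  refine ⟨n0, fun n hn cJ D b q hb hcJ hqD hq hq4 => ?_⟩
  refine hn0 n hn cJ D b _ q (by exact_mod_cast hb) hcJ hq hq4 hqD ?_
  exact (Nat.ceil_lt_add_one (by positivity)).le

end Crest.TG84
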