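import Crest.Agent.TG63_Num

/-!
# S0073: numerics of the last step of the depth-one lemma (helper86)
-/

set_option autoImplicit false

namespace Crest.TG86

open Real

theorem depth_num (m : ℕ) : ∃ n0 : ℕ, ∀ n ≥ n0, ∀ (V b : ℕ) (p : ℝ), V ≤ n →
    (n : ℝ) ≤ 2 * b → (n : ℝ) ^ (-(1 / 50 : ℝ)) ≤ p → p ≤ 1 →
    64 < (b : ℝ) * p ^ 2 ∧
    (m : ℝ) * (((V : ℝ) + 1) ^ (⌊8 / p⌋₊ + 2) * 4 * Real.exp (-((b : ℝ) * p / 32))) ≤ 1 / 2 := by
  obtain ⟨n1, h1⟩ := TG63.ev_log 3072 1 (1 / 50) (49 / 50) (by norm_num)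
  obtain ⟨n2, h2⟩ := TG63.ev_log' 768 1 (49 / 50) (by norm_num)
  obtain ⟨n3, h3⟩ := TG63.ev_log' (192 * Real.log (8 * (m + 1))) 0 (49 / 50) (by norm_num)
  obtain ⟨n4, h4⟩ := TG63.ev_log' 129 0 (48 / 50) (by norm_num)
  refine ⟨max 2 (max (max n1 n2) (max n3 n4)), fun n hn V b p hV hb hp hp1 => ?_⟩
  have hn2 : 2 ≤ n := le_trans (le_max_left _ _) hn
  have hn' := le_trans (le_max_right _ _) hn
  have hA := h1 n (le_trans (le_trans (le_max_left _ _) (le_max_left _ _)) hn')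
  have hB := h2 n (le_trans (le_trans (le_max_right _ _) (le_max_left _ _)) hn')
  have hC := h3 n (le_trans (le_trans (le_max_left _ _) (le_max_right _ _)) hn')
  have hD := h4 n (le_trans (le_trans (le_max_right _ _) (le_max_right _ _)) hn')
  rw [pow_one] at hA hB
  rw [pow_zero, mul_one] at hC hD
  have hn0 : (0 : ℝ) < n := by exact_mod_cast (by omega : 0 < n)
  have hn2r : (2 : ℝ) ≤ n := by exact_mod_cast hn2
  have hp0 : 0 < p := lt_of_lt_of_le (Real.rpow_pos_of_pos hn0 _) hp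
  set x : ℝ := (n : ℝ) ^ (1 / 50 : ℝ) with hx
  have hx0 : 0 < x := Real.rpow_pos_of_pos hn0 _
  have hxinv : (n : ℝ) ^ (-(1 / 50 : ℝ)) = x⁻¹ := by rw [hx, Real.rpow_neg hn0.le]
  rw [hxinv] at hp
  have hpx : 1 ≤ p * x := by
    have := mul_le_mul_of_nonneg_right hp hx0.le
    rwa [inv_mul_cancel₀ hx0.ne'] at this
  have h1p : 8 / p ≤ 8 * x := by
    rw [div_le_iff₀ hp0]; nlinarith
  constructor
  · -- `b p^2 ≥ n / (2 x^2) = n^(48/50) / 2`
    have e1 : (n : ℝ) ^ (48 / 50 : ℝ) * (x * x) = n := by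
      rw [hx, ← Real.rpow_add hn0, ← Real.rpow_add hn0]
      norm_num
    have hy : (129 : ℝ) * (x * x) ≤ n := by
      calc (129 : ℝ) * (x * x) ≤ (n : ℝ) ^ (48 / 50 : ℝ) * (x * x) :=
            mul_le_mul_of_nonneg_right hD (by positivity)
        _ = n := e1
    have hxx : 0 < x * x := by positivity
    have h5 : (129 : ℝ) * (x * x) ≤ 2 * b := le_trans hy hb
    have h6 : 1 ≤ (p * x) * (p * x) := by nlinarith
    have h7 : (129 : ℝ) * ((p * x) * (p * x)) ≤ 2 * (b * p ^ 2) := by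
      have := mul_le_mul_of_nonneg_right h5 (sq_nonneg p)
      nlinarith
    nlinarith
  · have hfl : ((⌊8 / p⌋₊ : ℕ) : ℝ) ≤ 8 * x :=
      le_trans (Nat.floor_le (by positivity)) h1p
    have hlog0 : 0 < Real.log n := Real.log_pos (by linarith)
    have hV1 : (V : ℝ) + 1 ≤ (n : ℝ) ^ 2 := by
      have : (V : ℝ) ≤ n := by exact_mod_cast hV
      nlinarith
    have hVpos : (0 : ℝ) < (V : ℝ) + 1 := by positivity
    have hpow : ((V : ℝ) + 1) ^ (⌊8 / p⌋₊ + 2) ≤ Real.exp ((8 * x + 2) * (2 * Real.log n)) := by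
      calc ((V : ℝ) + 1) ^ (⌊8 / p⌋₊ + 2) ≤ ((n : ℝ) ^ 2) ^ (⌊8 / p⌋₊ + 2) :=
            pow_le_pow_left₀ hVpos.le hV1 _
        _ = Real.exp (((⌊8 / p⌋₊ + 2 : ℕ) : ℝ) * (2 * Real.log n)) := by
            rw [← pow_mul, mul_comm (((⌊8 / p⌋₊ + 2 : ℕ) : ℝ)) _, mul_assoc, mul_comm (2 : ℝ) _,
              mul_assoc, Real.exp_mul, Real.exp_log hn0]
            rw [show ((⌊8 / p⌋₊ + 2 : ℕ) : ℝ) * 2 = ((2 * (⌊8 / p⌋₊ + 2) : ℕ) : ℝ) by
              push_cast; ring, Real.rpow_natCast]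
        _ ≤ Real.exp ((8 * x + 2) * (2 * Real.log n)) := by
            apply Real.exp_le_exp.2
            apply mul_le_mul_of_nonneg_right _ (by positivity)
            push_cast
            linarith
    have hexp : Real.exp (-((b : ℝ) * p / 32)) ≤ Real.exp (-((n : ℝ) ^ (49 / 50 : ℝ) / 64)) := by
      apply Real.exp_le_exp.2
      have e2 : (n : ℝ) ^ (49 / 50 : ℝ) * x = n := by
        rw [hx, ← Real.rpow_add hn0]; norm_num
      have h8 : (n : ℝ) ^ (49 / 50 : ℝ) ≤ 2 * (b * p) := by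
        have hz : 0 ≤ (n : ℝ) ^ (49 / 50 : ℝ) := Real.rpow_nonneg hn0.le _
        calc (n : ℝ) ^ (49 / 50 : ℝ) ≤ (n : ℝ) ^ (49 / 50 : ℝ) * (p * x) := by nlinarith
          _ = ((n : ℝ) ^ (49 / 50 : ℝ) * x) * p := by ring
          _ = n * p := by rw [e2]
          _ ≤ (2 * b) * p := mul_le_mul_of_nonneg_right hb hp0.le
          _ = 2 * (b * p) := by ring
      linarith
    have hm1 : (0 : ℝ) < 8 * ((m : ℝ) + 1) := by positivity
    have hkey : Real.log (8 * (m + 1)) + (8 * x + 2) * (2 * Real.log n) -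
        (n : ℝ) ^ (49 / 50 : ℝ) / 64 ≤ 0 := by
      have ea : 3072 * Real.log n * x ≤ (n : ℝ) ^ (49 / 50 : ℝ) := hA
      nlinarith
    calc (m : ℝ) * (((V : ℝ) + 1) ^ (⌊8 / p⌋₊ + 2) * 4 * Real.exp (-((b : ℝ) * p / 32)))
        ≤ (m + 1) * (Real.exp ((8 * x + 2) * (2 * Real.log n)) * 4 *
            Real.exp (-((n : ℝ) ^ (49 / 50 : ℝ) / 64))) := by
          apply mul_le_mul (by linarith) _ (by positivity) (by positivity)
          apply mul_le_mul _ hexp (Real.exp_pos _).le (by positivity)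
          exact mul_le_mul_of_nonneg_right hpow (by norm_num)
      _ = 1 / 2 * (Real.exp (Real.log (8 * (m + 1))) * Real.exp ((8 * x + 2) * (2 * Real.log n)) *
            Real.exp (-((n : ℝ) ^ (49 / 50 : ℝ) / 64))) := by
          rw [Real.exp_log hm1]; ring
      _ = 1 / 2 * Real.exp (Real.log (8 * (m + 1)) + (8 * x + 2) * (2 * Real.log n) -
            (n : ℝ) ^ (49 / 50 : ℝ) / 64) := by
          rw [← Real.exp_add, ← Real.exp_add]; congr 2
      _ ≤ 1 / 2 * 1 := by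
          apply mul_le_mul_of_nonneg_left _ (by norm_num)
          rw [Real.exp_le_one_iff]; exact hkey
      _ = 1 / 2 := by ring

end Crest.TG86
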