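import Crest.Agent.TG_CapP1
import Crest.Agent.TG_CapP3a
import Crest.Agent.TG_CapP4

set_option autoImplicit false

namespace Crest.TG87
open Finset

theorem sum_biUnion_le {ι β : Type*} [DecidableEq β] (s : Finset ι) (t : ι → Finset β)
    (f : β → ℝ) (hf : ∀ b, 0 ≤ f b) : ∑ x ∈ s.biUnion t, f x ≤ ∑ i ∈ s, ∑ x ∈ t i, f x := by
  classical
  induction s using Finset.induction_on with
  | empty => simp
  | insert a s ha ih =>
    rw [biUnion_insert, sum_insert ha]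
    have h1 := sum_union_inter (s₁ := t a) (s₂ := s.biUnion t) (f := f)
    have h2 : 0 ≤ ∑ x ∈ t a ∩ s.biUnion t, f x := sum_nonneg fun x _ => hf x
    linarith

end Crest.TG87

namespace Crest.TG71.Cap
open Finset

namespace Sys
variable {α : Type} [Fintype α] [DecidableEq α] (S : Sys α)

/-- The capture theorem (complement form). -/
theorem not_capt_le (p : ℝ) (hp : 0 < p) (hs : S.NotSmall p) (w : Fin (S.K + 1) → ℝ)
    (hw : S.WOK p w) : KK.Pr w (fun τ : α → Fin (S.K + 1) => ¬ S.Capt τ) ≤ 1 / 4 := by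
  classical
  have hpn : ∀ T : Finset α, (0 : ℝ) ≤ p ^ T.card := fun T => pow_nonneg hp.le _
  have h1 : ∀ τ, ¬ S.Capt τ → 1 / 2 <
      ∑ k ∈ range S.K, ∑ n ∈ S.Nset k, ∑ T ∈ univ.filter (S.IsFrag k n τ), p ^ T.card := by
    intro τ hc
    have h2 := hs ((range S.K).biUnion fun k => (S.Nset k).biUnion fun n =>
        univ.filter (S.IsFrag k n τ)) (by
      intro H hH
      obtain ⟨k, hk, n, hn, T, hT, hTH⟩ := S.exists_bad τ hc H hH
      refine ⟨T, ?_, hTH⟩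
      simp only [mem_biUnion, mem_filter, mem_univ, true_and]
      exact ⟨k, hk, n, hn, hT⟩)
    refine lt_of_lt_of_le h2 ?_
    refine (Crest.TG87.sum_biUnion_le _ _ _ hpn).trans ?_
    exact sum_le_sum fun k _ => Crest.TG87.sum_biUnion_le _ _ _ hpn
  have hwt : ∀ τ : α → Fin (S.K + 1), 0 ≤ KK.wt w τ := fun τ => KK.wt_nonneg w hw.1 τ
  have h3 : KK.Pr w (fun τ : α → Fin (S.K + 1) => ¬ S.Capt τ) * (1 / 2) ≤
      ∑ τ : α → Fin (S.K + 1), KK.wt w τ *
        ∑ k ∈ range S.K, ∑ n ∈ S.Nset k, ∑ T ∈ univ.filter (S.IsFrag k n τ), p ^ T.card := by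
    unfold KK.Pr
    rw [sum_filter, sum_mul]
    refine sum_le_sum fun τ _ => ?_
    by_cases h : S.Capt τ
    · rw [if_neg (not_not.2 h), zero_mul]
      refine mul_nonneg (hwt τ) ?_
      exact sum_nonneg fun k _ => sum_nonneg fun n _ => sum_nonneg fun T _ => hpn T
    · rw [if_pos h]
      exact mul_le_mul_of_nonneg_left (h1 τ h).le (hwt τ)
  have h4 : ∑ τ : α → Fin (S.K + 1), KK.wt w τ *
        ∑ k ∈ range S.K, ∑ n ∈ S.Nset k, ∑ T ∈ univ.filter (S.IsFrag k n τ), p ^ T.card =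
      ∑ k ∈ range S.K, ∑ n ∈ S.Nset k, ∑ τ : α → Fin (S.K + 1), KK.wt w τ *
        ∑ T ∈ univ.filter (S.IsFrag k n τ), p ^ T.card := by
    simp only [mul_sum]
    rw [sum_comm]
    refine sum_congr rfl fun k _ => ?_
    rw [sum_comm]
  have h5 : ∑ k ∈ range S.K, ∑ n ∈ S.Nset k, ∑ τ : α → Fin (S.K + 1), KK.wt w τ *
        ∑ T ∈ univ.filter (S.IsFrag k n τ), p ^ T.card ≤ 1 / 8 := by
    refine le_trans ?_ S.num_sum
    refine sum_le_sum fun k _ => sum_le_sum fun n hn => ?_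
    exact S.pr_frag p hp w hw k n hn
  rw [h4] at h3
  linarith

end Sys

/-- CAPTURE in the interface of note 1633. -/
theorem capture87 {α : Type} [Fintype α] [DecidableEq α] (F : Finset (Finset α))
    (p : ℝ) (hp : 0 < p)
    (hsmall : ¬ ∃ G : Finset (Finset α), (∀ H ∈ F, ∃ S ∈ G, S ⊆ H) ∧ ∑ S ∈ G, p ^ S.card ≤ 1 / 2)
    (ℓ : Finset α → α → ℕ) (I K : ℕ) (hIK : I ≤ K) (hI : ∀ H ∈ F, ∀ x ∈ H, ℓ H x ≤ I)
    (hcard : ∀ H ∈ F, ∀ i ≤ I, (H.filter (fun x => ℓ H x ≤ i)).card ≤ 16 ^ i)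
    (w : Fin (K + 1) → ℝ) (hw0 : ∀ s, 0 ≤ w s) (hw1 : ∑ s, w s = 1)
    (hw : ∀ s : Fin (K + 1), (s : ℕ) < K → 2 ^ 22 * p * 8 ^ (s : ℕ) ≤ w s * 8 ^ I) :
    ∃ Gd : Finset (α → Fin (K + 1)), (∀ tau ∈ Gd, ∃ H ∈ F, ∀ i ≤ I, ∀ r < K,
      4 ^ r * (H.filter (fun x => ℓ H x ≤ i ∧ r < (tau x : ℕ))).card ≤ 16 ^ i * 4 ^ I) ∧
      1 / 2 < ∑ tau ∈ Gd, ∏ x, w (tau x) := by
  classical
  obtain ⟨R, rfl⟩ := Nat.exists_eq_add_of_le hIK
  let S : Sys α :=
    { F := F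
      ℓ := ℓ
      I := I
      hI := hI
      hL := by
        intro H hH i
        by_cases hi : i ≤ I
        · exact hcard H hH i hi
        · refine le_trans (card_le_card ?_) ((hcard H hH I le_rfl).trans
            (Nat.pow_le_pow_right (by norm_num) (not_le.1 hi).le))
          intro x hx
          rw [mem_filter] at hx ⊢
          exact ⟨hx.1, hI H hH x hx.1⟩
      R := R }
  have hs : S.NotSmall p := by
    intro G hG
    by_contra hc
    exact hsmall ⟨G, hG, not_lt.1 hc⟩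
  have hW : S.WOK p w := ⟨hw0, hw1, hw⟩
  have h1 := S.not_capt_le p hp hs w hW
  refine ⟨@Finset.filter (α → Fin (S.K + 1)) (fun τ => S.Capt τ)
    (fun τ => Classical.propDecidable (S.Capt τ)) univ, ?_, ?_⟩
  · intro τ hτ
    exact ((@mem_filter (α → Fin (S.K + 1)) (fun τ => S.Capt τ)
      (fun τ => Classical.propDecidable (S.Capt τ)) univ τ).1 hτ).2
  · have h2 : KK.Pr w (fun τ : α → Fin (S.K + 1) => ¬ S.Capt τ) = 1 - KK.Pr w (fun τ : α → Fin (S.K + 1) => S.Capt τ) :=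
      KK.Pr_not w hw1 _
    have h1' : 1 - KK.Pr w (fun τ : α → Fin (S.K + 1) => S.Capt τ) ≤ 1 / 4 := by
      rw [← h2]
      exact h1
    have h3 : (3 : ℝ) / 4 ≤ KK.Pr w (fun τ : α → Fin (S.K + 1) => S.Capt τ) := by linarith
    have h4 : (3 : ℝ) / 4 ≤ ∑ tau ∈ @Finset.filter (α → Fin (S.K + 1)) (fun τ => S.Capt τ)
        (fun τ => Classical.propDecidable (S.Capt τ)) univ, ∏ x, w (tau x) := h3
    refine lt_of_lt_of_le (by norm_num) h4

end Crest.TG71.Cap
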