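import Crest.Agent.TG_Degen
import Crest.Agent.TG63_Num

/-! Dense range of S0073 (constants of helper8): set-up (degeneracy order, hubs) and the numerics of the low classes. -/

set_option autoImplicit false

namespace Crest.TG89.C
open Finset

theorem setup : ∃ n0 : ℕ, ∀ n : ℕ, n0 < n → ∀ (W : Type) [Fintype W] [DecidableEq W]
    (H : SimpleGraph W) [DecidableRel H.Adj], Fintype.card W ≤ n → ∀ q : ℝ, 0 < q → 3 * q < 1 →
    1 ≤ (n:ℝ) * q ^ 1000 →
    (∀ U : Finset W, (1:ℝ)/2 ≤ (n:ℝ) ^ U.card *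
      q ^ (H.edgeFinset.filter (fun e => ∀ x ∈ e, x ∈ U)).card) →
    ∃ d : ℕ, (∀ U : Finset W, U.Nonempty → ∃ v ∈ U, (U.filter (fun u => H.Adj v u)).card ≤ d) ∧
      (∃ σ : W ≃ Fin (Fintype.card W),
        (∀ v, (univ.filter (fun u => H.Adj v u ∧ σ u < σ v)).card ≤ d)) ∧
      (n:ℝ) ^ (-(1/100 : ℝ)) ≤ q ^ (d / 1000 + 1) ∧ (d:ℝ) ≤ 2 * Real.log n + 2 ∧
      ((univ.filter (fun v => ⌊(n:ℝ)^(19/20:ℝ)⌋₊ <
        (univ.filter (fun u => H.Adj v u)).card)).card : ℝ) ≤ (n:ℝ)^(1/10:ℝ) ∧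
      (univ.filter (fun v => ⌊(n:ℝ)^(19/20:ℝ)⌋₊ <
        (univ.filter (fun u => H.Adj v u)).card)).card + d ≤ ⌊(n:ℝ)^(19/20:ℝ)⌋₊ := by
  obtain ⟨n1, h1⟩ := Crest.TG63.ev_log 4 1 (1/20) (1/10) (by norm_num)
  obtain ⟨n2, h2⟩ := Crest.TG63.ev_log 4 0 (1/10) (19/20) (by norm_num)
  obtain ⟨n3, h3⟩ := Crest.TG63.ev_log' 5 1 (1/10) (by norm_num)
  refine ⟨max 3 (max n1 (max n2 n3)), ?_⟩
  intro n hn W _ _ H _ hW q hq0 hq3 hqn hden
  have hn3 : 3 < n := lt_of_le_of_lt (le_max_left _ _) hn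
  have hnm := lt_of_le_of_lt (le_max_right _ _) hn
  have hn1 : n1 ≤ n := (lt_of_le_of_lt (le_max_left _ _) hnm).le
  have hnm2 := lt_of_le_of_lt (le_max_right _ _) hnm
  have hn2 : n2 ≤ n := (lt_of_le_of_lt (le_max_left _ _) hnm2).le
  have hn3' : n3 ≤ n := (lt_of_le_of_lt (le_max_right _ _) hnm2).le
  replace h1 := h1 n hn1
  replace h2 := h2 n hn2
  replace h3 := h3 n hn3'
  rw [pow_one] at h1 h3
  rw [pow_zero, mul_one] at h2
  have hnR : (3:ℝ) < n := by exact_mod_cast hn3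
  have hn0 : (0:ℝ) < n := by linarith
  have he3 : Real.exp 1 < 3 := Real.exp_one_lt_three
  have hlogn : 1 < Real.log n := by
    rw [Real.lt_log_iff_exp_lt hn0]; linarith
  have hq1 : q < 1 := by linarith
  -- ℓ = log (1/q)
  have hl2 : Real.log (1 / q) = -Real.log q := by rw [one_div, Real.log_inv]
  have hl : 1 < Real.log (1 / q) := by
    rw [Real.lt_log_iff_exp_lt (by positivity), lt_div_iff₀ hq0]
    nlinarith
  set ℓ := Real.log (1 / q) with hℓ
  set b := Real.log n / ℓ with hb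
  have hbℓ : b * ℓ = Real.log n := by rw [hb]; field_simp
  have hb1 : b ≤ Real.log n := by
    rw [hb]; exact div_le_self (by linarith) hl.le
  have hb1000 : 1000 ≤ b := by
    have h := Real.log_le_log one_pos hqn
    rw [Real.log_one, Real.log_mul hn0.ne' (by positivity), Real.log_pow] at h
    push_cast at h
    rw [hb, le_div_iff₀ (by linarith)]
    linarith
  have hdens : ∀ U : Finset W,
      ((H.edgeFinset.filter (fun e => ∀ x ∈ e, x ∈ U)).card : ℝ) ≤ (b + 1) * U.card := by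
    intro U
    rcases U.eq_empty_or_nonempty with hU | hU
    · have : (H.edgeFinset.filter (fun e => ∀ x ∈ e, x ∈ U)) = ∅ := by
        rw [Finset.filter_eq_empty_iff]
        intro e _ hcon
        induction e using Sym2.ind with
        | _ x y =>
          have := hcon x (by simp)
          rw [hU] at this
          exact absurd this (Finset.notMem_empty x)
      rw [this, hU]; simp
    · have h := Real.log_le_log (by norm_num) (hden U)
      rw [Real.log_mul (by positivity) (by positivity), Real.log_pow, Real.log_pow] at h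
      have hhalf : Real.log (1/2) = - Real.log 2 := by rw [one_div, Real.log_inv]
      rw [hhalf] at h
      have hlog2 : Real.log 2 < 1 := by
        rw [Real.log_lt_iff_lt_exp (by norm_num)]
        have := Real.exp_one_gt_d9; linarith
      have hUc : (1:ℝ) ≤ U.card := by exact_mod_cast hU.card_pos
      set e := ((H.edgeFinset.filter (fun e => ∀ x ∈ e, x ∈ U)).card : ℝ) with he
      have hlq : Real.log q = -ℓ := by linarith
      rw [hlq] at h
      have h' : e * ℓ ≤ U.card * Real.log n + 1 := by linarith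
      rw [← hbℓ] at h'
      by_contra hcon
      push Not at hcon
      have : (b + 1) * U.card * ℓ < e * ℓ := mul_lt_mul_of_pos_right hcon (by linarith)
      nlinarith
  have hlow := fun U (hU : U.Nonempty) =>
    Crest.TG.Degen.exists_low_degree H (b + 1) hdens U hU
  refine ⟨⌊2 * (b + 1)⌋₊, ?_, ?_, ?_, ?_, ?_, ?_⟩
  · intro U hU
    obtain ⟨v, hv, hc⟩ := hlow U hU
    exact ⟨v, hv, Nat.le_floor hc⟩
  · apply Crest.TG.Degen.exists_order
    intro U hU
    obtain ⟨v, hv, hc⟩ := hlow U hU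
    exact ⟨v, hv, Nat.le_floor hc⟩
  · apply Crest.TG63.q_pow_ge (by omega) hq0 hq1
    have hf : (⌊2 * (b + 1)⌋₊ : ℝ) ≤ 2 * (b + 1) := Nat.floor_le (by linarith)
    have hdiv : ((⌊2 * (b + 1)⌋₊ / 1000 : ℕ) : ℝ) ≤ (⌊2 * (b + 1)⌋₊ : ℝ) / 1000 := by
      exact_mod_cast Nat.cast_div_le
    push_cast
    show _ ≤ 1/100 * b
    linarith
  · have hf : (⌊2 * (b + 1)⌋₊ : ℝ) ≤ 2 * (b + 1) := Nat.floor_le (by linarith)
    linarith
  all_goals
    set J := (univ.filter (fun v => ⌊(n:ℝ)^(19/20:ℝ)⌋₊ <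
        (univ.filter (fun u => H.Adj v u)).card)) with hJ
    have hJc : (J.card : ℝ) ≤ (n:ℝ)^(1/10:ℝ) := by
      have hs : ∑ v, (univ.filter (fun u => H.Adj v u)).card = 2 * H.edgeFinset.card := by
        rw [← SimpleGraph.sum_degrees_eq_twice_card_edges]
        apply Finset.sum_congr rfl
        intro v _
        rw [← SimpleGraph.card_neighborFinset_eq_degree, SimpleGraph.neighborFinset_eq_filter]
      have hs1 : J.card * (⌊(n:ℝ)^(19/20:ℝ)⌋₊ + 1) ≤ 2 * H.edgeFinset.card := by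
        rw [← hs, ← smul_eq_mul, ← Finset.sum_const]
        calc ∑ v ∈ J, (⌊(n:ℝ)^(19/20:ℝ)⌋₊ + 1) ≤ ∑ v ∈ J, (univ.filter (fun u => H.Adj v u)).card := by
              apply Finset.sum_le_sum
              intro v hv
              rw [hJ, Finset.mem_filter] at hv
              exact hv.2
          _ ≤ _ := Finset.sum_le_sum_of_subset (Finset.subset_univ _)
      have hs2 := hdens univ
      rw [Finset.filter_true_of_mem (fun e _ x _ => Finset.mem_univ x)] at hs2
      have hWn : ((univ : Finset W).card : ℝ) ≤ n := by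
        rw [Finset.card_univ]; exact_mod_cast hW
      have hfl : (n:ℝ)^(19/20:ℝ) < (⌊(n:ℝ)^(19/20:ℝ)⌋₊ : ℝ) + 1 := Nat.lt_floor_add_one _
      have hs3 : (J.card : ℝ) * ((⌊(n:ℝ)^(19/20:ℝ)⌋₊ : ℝ) + 1) ≤ 2 * H.edgeFinset.card := by
        exact_mod_cast hs1
      have hs4 : (J.card : ℝ) * (n:ℝ)^(19/20:ℝ) ≤ 4 * Real.log n * n := by
        have e1 : (J.card : ℝ) * (n:ℝ)^(19/20:ℝ) ≤ (J.card : ℝ) * ((⌊(n:ℝ)^(19/20:ℝ)⌋₊ : ℝ) + 1) :=
          mul_le_mul_of_nonneg_left hfl.le (Nat.cast_nonneg _)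
        have e2 : (b + 1) * ((univ : Finset W).card : ℝ) ≤ (2 * Real.log n) * n := by
          apply mul_le_mul (by linarith) hWn (Nat.cast_nonneg _) (by linarith)
        linarith
      have hpow : (n:ℝ) = (n:ℝ)^(19/20:ℝ) * (n:ℝ)^(1/20:ℝ) := by
        rw [← Real.rpow_add hn0]; norm_num
      have hp9 : (0:ℝ) < (n:ℝ)^(19/20:ℝ) := Real.rpow_pos_of_pos hn0 _
      have hs5 : (J.card : ℝ) * (n:ℝ)^(19/20:ℝ) ≤ (4 * Real.log n * (n:ℝ)^(1/20:ℝ)) * (n:ℝ)^(19/20:ℝ) := by
        calc (J.card : ℝ) * (n:ℝ)^(19/20:ℝ) ≤ 4 * Real.log n * n := hs4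
          _ = 4 * Real.log n * ((n:ℝ)^(19/20:ℝ) * (n:ℝ)^(1/20:ℝ)) := by rw [← hpow]
          _ = _ := by ring
      have := le_of_mul_le_mul_right hs5 hp9
      linarith
  · exact hJc
  · apply Nat.le_floor
    push_cast
    have hf : (⌊2 * (b + 1)⌋₊ : ℝ) ≤ 2 * (b + 1) := Nat.floor_le (by linarith)
    linarith

end Crest.TG89.C
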