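import Crest.Agent.TG89_SetB
import Crest.Agent.TG89_SetC
import Crest.Agent.TG46_Main
import Crest.Agent.TG73_Main
import Crest.Agent.TG8_Gamma
import Crest.Agent.TG73_Split
import Crest.Agent.TG13_Spread
import Crest.Agent.TG_Label
import Crest.Agent.TG_FM

/-! Dense range of S0073 from GREEDY and GAMMA (definitions of `TG8_Gamma`). -/

set_option autoImplicit false

namespace Crest.TG89.D
open Finset Crest.CombinatoricsR.RandomGraph Crest.TG.Label

/-- the dense range with the non-strict boundary -/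
def DENSE' : Prop :=
  ∃ k : ℕ, 1 ≤ k ∧ ∃ L0 : ℝ, 2 ≤ L0 ∧ ∃ n0 : ℕ, ∀ n : ℕ, n0 < n →
    ∀ (W : Type) [Fintype W] [DecidableEq W] (H : SimpleGraph W) [DecidableRel H.Adj],
      Fintype.card W ≤ n → ∀ q : ℝ, 0 < q → L0 * q < 1 → 1 ≤ q ^ 1000 * n → Crest.TG8.FM n H q →
      ∃ c : H.edgeSet → Fin k, ∀ i : Fin k,
        1 / 2 ≤ gnpProb n (L0 * q) {G | (pieceGraph H c i).IsContained G}

theorem dense' (hG : Crest.TG8.GREEDY) (hΓ : Crest.TG8.GAMMA) : DENSE' := by
  classical
  obtain ⟨m, hm, L0, hL0, n0, hΓ⟩ := hΓ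
  obtain ⟨n1, hset⟩ := Crest.TG89.C.setup
  obtain ⟨n2, hlow⟩ := Crest.TG89.B.low_num
  obtain ⟨n3, hspr⟩ := Crest.TG13.hub_spread
  refine ⟨Fintype.card (Bool × Fin 1000 × Fin 256 × Fin 256) * m, ?_, max L0 3,
    le_trans hL0 (le_max_left _ _), max (max n0 n1) (max n2 (max n3 1000)), ?_⟩
  · exact Nat.mul_pos Fintype.card_pos hm
  intro n hn W _ _ H _ hW q hq hLq hqn hFM
  have hnn0 : n0 ≤ n := by
    have := le_max_left n0 n1; have := le_max_left (max n0 n1) (max n2 (max n3 1000)); omega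
  have hnn1 : n1 < n := by
    have := le_max_right n0 n1; have := le_max_left (max n0 n1) (max n2 (max n3 1000)); omega
  have hnn2 : n2 < n := by
    have := le_max_left n2 (max n3 1000)
    have := le_max_right (max n0 n1) (max n2 (max n3 1000)); omega
  have hnn3 : n3 ≤ n := by
    have := le_max_left n3 1000
    have := le_max_right n2 (max n3 1000)
    have := le_max_right (max n0 n1) (max n2 (max n3 1000)); omega
  have hn1000 : 1000 < n := by
    have := le_max_right n3 1000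
    have := le_max_right n2 (max n3 1000)
    have := le_max_right (max n0 n1) (max n2 (max n3 1000)); omega
  have hL0q : L0 * q < 1 :=
    lt_of_le_of_lt (mul_le_mul_of_nonneg_right (le_max_left _ _) hq.le) hLq
  have h3q : 3 * q < 1 :=
    lt_of_le_of_lt (mul_le_mul_of_nonneg_right (le_max_right _ _) hq.le) hLq
  have hqle : q ≤ 1/2 := by linarith
  have hP0 : 0 ≤ max L0 3 * q := mul_nonneg (le_trans (by norm_num) (le_max_right _ _)) hq.le
  have hqP : q ≤ max L0 3 * q := by
    have h3 : (3:ℝ) ≤ max L0 3 := le_max_right _ _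
    nlinarith
  obtain ⟨ι⟩ : Nonempty (W ↪ Fin n) := by
    apply Function.Embedding.nonempty_of_card_le
    rwa [Fintype.card_fin]
  obtain ⟨d, _, ⟨σ, hσ⟩, hqD, hdlog, hJc, hJd⟩ := hset n hnn1 W H hW q hq h3q
    (by rw [mul_comm]; exact hqn)
    (fun U => Crest.TG.FM.fm_density H hq.le hW hFM U)
  set J := (univ.filter (fun v => ⌊(n:ℝ)^(19/20:ℝ)⌋₊ <
        (univ.filter (fun u => H.Adj v u)).card)) with hJ
  obtain ⟨lab, hlab⟩ := Crest.TG73.dense_split H (fun v => ((σ v : Fin _) : ℕ))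
    (fun x y hxy => σ.injective (Fin.ext hxy)) d ⌊(n:ℝ)^(19/20:ℝ)⌋₊ 1000 256 (by norm_num)
    (by norm_num) (fun v => by
      refine le_trans (card_le_card ?_) (hσ v)
      intro u hu
      rw [mem_filter] at hu ⊢
      exact ⟨hu.1, hu.2.1, Fin.lt_def.2 hu.2.2⟩) J hJ
  have hmaxΔ : max ⌊(n:ℝ)^(19/20:ℝ)⌋₊ (J.card + d) = ⌊(n:ℝ)^(19/20:ℝ)⌋₊ := max_eq_left hJd
  have hWM : Fintype.card W / 256 ≤ n / 256 := Nat.div_le_div_right hW
  apply LabelOK.to_piece
  refine LabelOK.of_cover' hP0 hLq.le (fun t => part H lab t) ?_ ?_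
  · intro u v huv
    exact ⟨lab s(u, v), huv, rfl⟩
  rintro ⟨t, i, a, b⟩
  obtain ⟨hl1, hl2, hl3, hh1, hh2, hh3⟩ := hlab i a b
  rw [hmaxΔ] at hl2
  cases t with
  | true =>
    refine LabelOK.pad hW hm (PieceOK.label ?_)
    set F := part H lab (true, i, a, b) with hF
    have hPD : (n:ℝ) ^ (-(1/100 : ℝ)) ≤ (max L0 3 * q) ^ (d / 1000 + 1) :=
      hqD.trans (pow_le_pow_left₀ hq.le hqP _)
    set U := univ.filter (fun v => ∃ u, H.Adj v u ∧ lab s(v, u) = (true, i, a, b)) with hU
    have hUc : 2 * U.card ≤ n := by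
      have := hl3
      omega
    have hDlog : ((d / 1000 + 1 : ℕ) : ℝ) ≤ Real.log n + 2 := by
      have h1 : ((d / 1000 : ℕ) : ℝ) ≤ (d:ℝ) / 1000 := Nat.cast_div_le
      have h2 : (0:ℝ) ≤ Real.log n := Real.log_natCast_nonneg n
      push_cast
      linarith
    obtain ⟨T, hT1, hT2⟩ := hlow n hnn2 (max L0 3 * q) (d / 1000 + 1) U.card hP0 hLq.le hPD
      hDlog hUc
    refine le_trans hT2 ?_
    refine hG W F U ?_ (fun v => ((σ v : Fin _) : ℕ)) (fun x y hxy => σ.injective (Fin.ext hxy))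
      n (d / 1000 + 1) ⌊(n:ℝ)^(19/20:ℝ)⌋₊ T ?_ ?_ (max L0 3 * q) hP0 hLq.le hW hT1
    · intro x y hxy
      rw [hU, mem_filter]
      exact ⟨mem_univ _, y, hxy⟩
    · intro v
      refine le_trans (card_le_card ?_) (hl1 v)
      intro u hu
      rw [mem_filter] at hu ⊢
      exact hu
    · intro v
      refine le_trans (card_le_card ?_) (hl2 v)
      intro u hu
      rw [mem_filter] at hu ⊢
      exact hu
  | false =>
    set F := part H lab (false, i, a, b) with hF
    refine LabelOK.mono_p (p := L0 * q) (mul_nonneg (by linarith) hq.le)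
      (mul_le_mul_of_nonneg_right (le_max_left _ _) hq.le) hLq.le ?_
    have hdeg : ∀ v, v ∉ J → (univ.filter (fun u => F.Adj v u)).card ≤ d / 1000 + 1 := by
      intro v hv
      refine le_trans (card_le_card ?_) (hh2 v hv)
      intro u hu
      rw [mem_filter] at hu ⊢
      exact hu
    have hbip : ∀ u v, F.Adj u v → (u ∈ J ∧ v ∉ J) ∨ (u ∉ J ∧ v ∈ J) := by
      intro u v huv
      rcases hh1 u v huv.1 huv.2 with h | h
      · exact Or.inr ⟨h.2.1, h.1⟩
      · exact Or.inl ⟨h.1, h.2.1⟩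
    have h64 : 64 * (univ.filter (fun v => v ∉ J ∧ ∃ u, F.Adj v u)).card ≤ n := by
      have h1 : (univ.filter (fun v => v ∉ J ∧ ∃ u, F.Adj v u)).card ≤
          Fintype.card W / 256 + 1 := by
        refine le_trans (card_le_card ?_) hh3
        intro u hu
        rw [mem_filter] at hu ⊢
        exact hu
      omega
    have hsp : ∀ S : Finset W, S.Nonempty →
        ((univ.filter (fun v => v ∉ J ∧ ∀ u ∈ S, F.Adj v u)).card : ℝ) ≤ 20 * n * q ^ S.card := by
      intro S hS
      have h4 : (n : ℝ) ^ (-(1 / 4 : ℝ)) ≤ q ^ (d / 1000 + 1) := by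
        refine le_trans ?_ hqD
        apply Real.rpow_le_rpow_of_exponent_le
        · exact_mod_cast (by omega : 1 ≤ n)
        · norm_num
      have h5 := hspr n hnn3 H ι q hq hqle hFM (d / 1000 + 1) h4
        (fun v => if v ∈ J then ∅ else univ.filter (fun u => F.Adj v u))
        (by
          intro v u hu
          by_cases hv : v ∈ J
          · simp [hv] at hu
          · simp only [hv, if_false, mem_filter] at hu
            exact hu.2.1)
        (by
          intro v
          by_cases hv : v ∈ J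
          · simp [hv]
          · simp only [hv, if_false]
            exact hdeg v hv)
        (univ.filter (fun v => v ∉ J)) S hS
      refine le_trans ?_ h5
      norm_cast
      apply card_le_card
      intro v hv
      simp only [mem_filter, mem_univ, true_and] at hv ⊢
      refine ⟨hv.1, ?_⟩
      intro u hu
      simp only [hv.1, if_false, mem_filter, mem_univ, true_and]
      exact hv.2 u hu
    obtain ⟨c, hc⟩ := hΓ n hnn0 W F J q (d / 1000 + 1) hq hL0q hW hbip hJc hdeg hqD h64 hsp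
    exact LabelOK.of_piece hm c hc


theorem core46 (h : DENSE') : TG46.DenseCore 1000 := by
  obtain ⟨k, hk, L0, hL0, n0, h⟩ := h
  refine ⟨k, n0, L0, by linarith, ?_⟩
  intro n _ hn W _ _ H _ hW _ q hq hLq hqn hFM
  exact h n hn W H hW q hq hLq hqn hFM

theorem core73 (h : DENSE') : TG73.DenseCore 1000 := by
  classical
  obtain ⟨k, hk, L0, hL0, n0, h⟩ := h
  refine ⟨k, L0, by linarith, max n0 1, ?_⟩
  intro n hn W _ _ H hW q hq hLq hFM hqn
  have hn0 : n0 < n := lt_of_le_of_lt (le_max_left _ _) hn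
  have hn1 : 1 < n := lt_of_le_of_lt (le_max_right _ _) hn
  have hnR : (0:ℝ) < n := by exact_mod_cast (by omega : 0 < n)
  obtain ⟨c, hc⟩ := h n hn0 W H hW q hq hLq (by rwa [div_le_iff₀ hnR] at hqn) (by
    intro κ J hJ
    exact hFM κ J hJ)
  refine ⟨fun i => pieceGraph H c i, ?_, hc⟩
  intro a b hab
  refine ⟨c ⟨s(a, b), hab⟩, ?_⟩
  rw [TG6.pieceGraph_adj]
  exact ⟨hab, rfl⟩

end Crest.TG89.D
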