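import Mathlib

set_option autoImplicit false

namespace Crest.TG94

open Finset

/-- push forward of a product weight under coordinatewise maps -/
theorem push {V A B : Type*} [Fintype V] [DecidableEq V] [Fintype A] [DecidableEq A]
    [Fintype B] [DecidableEq B] (w : V → A → ℝ) (F : V → A → B) (Φ : (V → B) → ℝ) :
    ∑ c : V → A, (∏ v, w v (c v)) * Φ (fun v => F v (c v)) =
      ∑ τ : V → B, (∏ v, ∑ a ∈ univ.filter (fun a => F v a = τ v), w v a) * Φ τ := by
  have h1 : ∀ τ : V → B, (∏ v, ∑ a ∈ univ.filter (fun a => F v a = τ v), w v a) * Φ τ =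
      ∑ c : V → A, if (fun v => F v (c v)) = τ then (∏ v, w v (c v)) * Φ τ else 0 := by
    intro τ
    rw [Finset.prod_univ_sum, Finset.sum_mul, ← Finset.sum_filter]
    refine Finset.sum_congr ?_ (fun _ _ => rfl)
    ext c
    simp only [Fintype.mem_piFinset, mem_filter, mem_univ, true_and, funext_iff]
  rw [Finset.sum_congr rfl (fun τ _ => h1 τ), Finset.sum_comm]
  refine Finset.sum_congr rfl (fun c _ => ?_)
  rw [Finset.sum_ite_eq]
  simp

/-- the law of the colour class `j` inside `Y` for a uniformly random `m`-colouring -/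
noncomputable def lamT {J : Type*} [DecidableEq J] (m : ℕ) (Y X : Finset J) : ℝ :=
  if X ⊆ Y then (1 / (m : ℝ)) ^ X.card * (1 - 1 / (m : ℝ)) ^ (Y.card - X.card) else 0

theorem lamT_nonneg {J : Type*} [DecidableEq J] {m : ℕ} (hm : 1 ≤ m) (Y X : Finset J) :
    0 ≤ lamT m Y X := by
  unfold lamT
  have hm' : (1 : ℝ) ≤ m := by exact_mod_cast hm
  have : 0 ≤ 1 - 1 / (m : ℝ) := by
    rw [sub_nonneg, div_le_one (by linarith)]; exact hm'
  split_ifs <;> positivity

theorem card_class {J : Type*} [Fintype J] [DecidableEq J] (m : ℕ) (j : Fin m) (Y X : Finset J) :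
    ((univ.filter (fun c : J → Fin m => Y.filter (fun u => c u = j) = X)).card : ℝ) =
      if X ⊆ Y then ((m : ℝ) - 1) ^ (Y.card - X.card) * (m : ℝ) ^ (Fintype.card J - Y.card)
        else 0 := by
  have hm : 1 ≤ m := Nat.one_le_of_lt j.2
  split_ifs with hXY
  · have hset : univ.filter (fun c : J → Fin m => Y.filter (fun u => c u = j) = X) =
        Fintype.piFinset (fun u : J => if u ∈ Y then (if u ∈ X then {j} else univ.erase j)
          else univ) := by
      ext c
      simp only [mem_filter, mem_univ, true_and, Fintype.mem_piFinset]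
      constructor
      · intro h u
        by_cases hu : u ∈ Y
        · rw [if_pos hu]
          by_cases hx : u ∈ X
          · rw [if_pos hx]
            rw [← h] at hx
            simpa using (mem_filter.1 hx).2
          · rw [if_neg hx]
            simp only [mem_erase, mem_univ, and_true]
            intro hc
            apply hx
            rw [← h]
            exact mem_filter.2 ⟨hu, hc⟩
        · rw [if_neg hu]; exact mem_univ _
      · intro h
        ext u
        simp only [mem_filter]
        constructor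
        · rintro ⟨hu, hc⟩
          by_contra hx
          have := h u
          rw [if_pos hu, if_neg hx] at this
          simp only [mem_erase, mem_univ, and_true] at this
          exact this hc
        · intro hx
          have hu := hXY hx
          have := h u
          rw [if_pos hu, if_pos hx] at this
          exact ⟨hu, by simpa using this⟩
    rw [hset, Fintype.card_piFinset]
    have hcard : ∀ u : J, (if u ∈ Y then (if u ∈ X then ({j} : Finset (Fin m)) else univ.erase j)
        else univ).card = (if u ∈ Y \ X then (m - 1) else 1) * (if u ∈ Yᶜ then m else 1) := by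
      intro u
      by_cases hu : u ∈ Y
      · by_cases hx : u ∈ X
        · simp [hu, hx]
        · simp [hu, hx, Finset.card_erase_of_mem]
      · simp [hu]
    rw [Finset.prod_congr rfl (fun u _ => hcard u), Finset.prod_mul_distrib]
    rw [Finset.prod_ite_mem, Finset.prod_ite_mem, univ_inter, univ_inter, Finset.prod_const,
      Finset.prod_const, Finset.card_sdiff_of_subset hXY, Finset.card_compl]
    push_cast [Nat.cast_sub hm]
    ring
  · have : univ.filter (fun c : J → Fin m => Y.filter (fun u => c u = j) = X) = ∅ := by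
      ext c
      simp only [mem_filter, mem_univ, true_and, notMem_empty, iff_false]
      intro h
      exact hXY (h ▸ filter_subset _ _)
    rw [this]; simp

theorem lam_class {J : Type*} [Fintype J] [DecidableEq J] (m : ℕ) (j : Fin m) (Y X : Finset J) :
    ∑ _c ∈ univ.filter (fun c : J → Fin m => Y.filter (fun u => c u = j) = X),
      (1 / (m : ℝ)) ^ Fintype.card J = lamT m Y X := by
  have hm : 1 ≤ m := Nat.one_le_of_lt j.2
  have hm0 : (m : ℝ) ≠ 0 := by positivity
  rw [Finset.sum_const, nsmul_eq_mul, card_class, lamT]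
  split_ifs with h
  · have h1 : X.card ≤ Y.card := card_le_card h
    have h2 : Y.card ≤ Fintype.card J := card_le_univ Y
    have e : (1 / (m : ℝ)) ^ Fintype.card J =
        (1 / (m : ℝ)) ^ X.card * (1 / (m : ℝ)) ^ (Y.card - X.card) *
          (1 / (m : ℝ)) ^ (Fintype.card J - Y.card) := by
      rw [← pow_add, ← pow_add]; congr 1; omega
    have e2 : (m : ℝ) ^ (Fintype.card J - Y.card) * (1 / (m : ℝ)) ^ (Fintype.card J - Y.card)
        = 1 := by
      rw [← mul_pow, mul_one_div_cancel hm0, one_pow]
    have e3 : ((m : ℝ) - 1) ^ (Y.card - X.card) * (1 / (m : ℝ)) ^ (Y.card - X.card) =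
        (1 - 1 / (m : ℝ)) ^ (Y.card - X.card) := by
      rw [← mul_pow]; congr 1; field_simp
    rw [e]
    calc _ = (1 / (m : ℝ)) ^ X.card * (((m : ℝ) - 1) ^ (Y.card - X.card) *
          (1 / (m : ℝ)) ^ (Y.card - X.card)) * ((m : ℝ) ^ (Fintype.card J - Y.card) *
          (1 / (m : ℝ)) ^ (Fintype.card J - Y.card)) := by ring
      _ = _ := by rw [e2, e3, mul_one]
  · simp

/-- (M) the law of the classes of colour `j` -/
theorem marginal {V J : Type*} [Fintype V] [DecidableEq V] [Fintype J] [DecidableEq J]
    (m : ℕ) (Y : V → Finset J) (j : Fin m) (Φ : (V → Finset J) → ℝ) :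
    ∑ c : V → J → Fin m, (∏ _v : V, (1 / (m : ℝ)) ^ Fintype.card J) *
        Φ (fun v => (Y v).filter (fun u => c v u = j)) =
      ∑ τ : V → Finset J, (∏ v, lamT m (Y v) (τ v)) * Φ τ := by
  have h := push (V := V) (A := J → Fin m) (B := Finset J)
    (fun _ _ => (1 / (m : ℝ)) ^ Fintype.card J)
    (fun v c => (Y v).filter (fun u => c u = j)) Φ
  rw [h]
  refine Finset.sum_congr rfl (fun τ _ => ?_)
  congr 1
  refine Finset.prod_congr rfl (fun v _ => ?_)
  exact lam_class m j (Y v) (τ v)

/-- (E) one colouring which is good for all colour classes -/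
theorem exists_colouring {V J : Type*} [Fintype V] [DecidableEq V] [Fintype J] [DecidableEq J]
    (m : ℕ) (hm : 1 ≤ m) (Y : V → Finset J) (Φ : (V → Finset J) → ℝ) (hΦ : ∀ τ, 0 ≤ Φ τ)
    (δ : ℝ) (h : m * ∑ τ : V → Finset J, (∏ v, lamT m (Y v) (τ v)) * Φ τ ≤ δ) :
    ∃ c : V → J → Fin m, ∀ j, Φ (fun v => (Y v).filter (fun u => c v u = j)) ≤ δ := by
  classical
  have hm0 : (m : ℝ) ≠ 0 := by positivity
  set W : ℝ := ∏ _v : V, (1 / (m : ℝ)) ^ Fintype.card J with hW
  have hWpos : 0 < W := by rw [hW]; positivity
  have htot : ∑ _c : V → J → Fin m, W = 1 := by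
    have h1 : (Fintype.card (V → J → Fin m) : ℝ) = ((m : ℝ) ^ Fintype.card J) ^ Fintype.card V := by
      simp [Fintype.card_fun]
    rw [Finset.sum_const, nsmul_eq_mul, card_univ, h1, hW, Finset.prod_const, card_univ,
      ← mul_pow, ← mul_pow, mul_one_div_cancel hm0, one_pow, one_pow]
  have hsum : ∑ c : V → J → Fin m, W *
      ∑ j : Fin m, Φ (fun v => (Y v).filter (fun u => c v u = j)) ≤ δ := by
    have : ∑ c : V → J → Fin m, W *
        ∑ j : Fin m, Φ (fun v => (Y v).filter (fun u => c v u = j)) =
        ∑ j : Fin m, ∑ c : V → J → Fin m, W *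
          Φ (fun v => (Y v).filter (fun u => c v u = j)) := by
      rw [Finset.sum_comm]
      exact Finset.sum_congr rfl (fun c _ => Finset.mul_sum _ _ _)
    rw [this, Finset.sum_congr rfl (fun j _ => marginal m Y j Φ), Finset.sum_const, card_univ,
      Fintype.card_fin, nsmul_eq_mul]
    exact h
  by_contra hcon
  push Not at hcon
  have hlt : ∀ c : V → J → Fin m,
      δ < ∑ j : Fin m, Φ (fun v => (Y v).filter (fun u => c v u = j)) := by
    intro c
    obtain ⟨j, hj⟩ := hcon c
    refine lt_of_lt_of_le hj ?_
    exact Finset.single_le_sum (f := fun j => Φ (fun v => (Y v).filter (fun u => c v u = j)))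
      (fun j _ => hΦ _) (mem_univ j)
  have hne : (univ : Finset (V → J → Fin m)).Nonempty := by
    by_contra hemp
    rw [Finset.not_nonempty_iff_eq_empty] at hemp
    rw [hemp] at htot
    simp at htot
  have hgt : δ < ∑ c : V → J → Fin m, W *
      ∑ j : Fin m, Φ (fun v => (Y v).filter (fun u => c v u = j)) := by
    calc δ = ∑ _c : V → J → Fin m, W * δ := by rw [← Finset.sum_mul, htot, one_mul]
      _ < _ := Finset.sum_lt_sum_of_nonempty hne
          (fun c _ => mul_lt_mul_of_pos_left (hlt c) hWpos)
  linarith

end Crest.TG94
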