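import Crest.Agent.TG97_Hub
import Crest.Agent.TG8_Gamma

/-! GAMMA (S0073) from the abstract depth-one theorem. -/

set_option autoImplicit false

namespace Crest.TG97

open Finset Crest.FinProb Crest.CombinatoricsR.RandomGraph Crest.TG.Rows

/-- the abstract quenched depth-one theorem (helper50) -/
def GAbs : Prop :=
  ∀ (V J : Type) [Fintype V] [DecidableEq V] [Fintype J] [DecidableEq J] (b D K : ℕ) (q P : ℝ)
    (Y : V → Finset J), 0 < q → 4 * q ≤ P → P ≤ 1 → (∀ v, (Y v).card ≤ D) →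
    (∀ S : Finset J, S.Nonempty →
      ((univ.filter fun v => S ⊆ Y v).card : ℝ) ≤ (b : ℝ) / 32 * (1280 * q) ^ S.card) →
    (Fintype.card V : ℝ) ≤ (b : ℝ) / 32 → 2 / q ^ D ≤ K →
    ∀ (_ : ∀ (τ : V → Finset J) (ρ : Fin b → Finset J), Decidable (∃ g : V → Fin b,
      Function.Injective g ∧ ∀ v : V, τ v ⊆ ρ (g v))),
    1 - 2 * (((Fintype.card J : ℝ) + 1) ^ D + 1) ^ K * Real.exp (-(b * q ^ D / 8)) ≤
      ∑ τ : V → Finset J, ∑ ρ : Fin b → Finset J,
        (∏ v, Crest.TG94.lamT 1281 (Y v) (τ v)) * (∏ w, mu P (ρ w)) *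
        (if ∃ g : V → Fin b, Function.Injective g ∧ ∀ v : V, τ v ⊆ ρ (g v) then 1 else 0)

/-- the numerical fact -/
def GNum : Prop :=
  ∃ n0 : ℕ, ∀ n : ℕ, n0 ≤ n → ∀ (cJ D b : ℕ) (q : ℝ), n ≤ 2 * b → (cJ : ℝ) ≤ (n : ℝ) ^ (1 / 10 : ℝ) →
    (n : ℝ) ^ (-(1 / 100) : ℝ) ≤ q ^ D → 0 < q → q ≤ 1 / 4 →
    (1281 : ℝ) * (2 * (((cJ : ℝ) + 1) ^ D + 1) ^ ⌈2 / q ^ D⌉₊ *
      Real.exp (-(b * q ^ D / 8))) ≤ 1 / 2

theorem gamma_of_abs (habs : GAbs) (hnum : GNum) : Crest.TG8.GAMMA := by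
  classical
  obtain ⟨n0, hn0⟩ := hnum
  refine ⟨1281, by norm_num, 4, by norm_num, max n0 4, ?_⟩
  intro n hn W _ _ F _ J q D hq hLq hW hF hJ hD hqD h64 hspread
  have hn4 : 4 ≤ n := le_trans (le_max_right _ _) hn
  have hnn0 : n0 ≤ n := le_trans (le_max_left _ _) hn
  have hnR : (4 : ℝ) ≤ n := by exact_mod_cast hn4
  -- card J ≤ n / 2
  have hJ2 : 2 * J.card ≤ n := by
    have h1 : (n : ℝ) ^ (1 / 10 : ℝ) ≤ (n : ℝ) ^ (1 / 2 : ℝ) :=
      Real.rpow_le_rpow_of_exponent_le (by linarith) (by norm_num)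
    have h2 : (n : ℝ) ^ (1 / 2 : ℝ) ≤ n / 2 := by
      rw [← Real.sqrt_eq_rpow]
      rw [Real.sqrt_le_left (by linarith)]
      nlinarith
    have h3 : (2 * J.card : ℝ) ≤ n := by linarith
    exact_mod_cast h3
  obtain ⟨b, hb⟩ : ∃ b, b = n - J.card := ⟨_, rfl⟩
  have hb1 : J.card + b = n := by omega
  have hb2 : n ≤ 2 * b := by omega
  have hb2R : (n : ℝ) ≤ 2 * b := by exact_mod_cast hb2
  let V : Finset W := univ.filter (fun v => v ∉ J ∧ ∃ u, F.Adj v u)
  have hV : ∀ v, v ∈ V ↔ v ∉ J ∧ ∃ u, F.Adj v u := fun v => by simp [V]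
  have hJV : Disjoint J V := by
    rw [Finset.disjoint_left]
    intro x hx hxV
    exact ((hV x).1 hxV).1 hx
  have hF' : ∀ x y, F.Adj x y → (x ∈ J ∧ y ∈ V) ∨ (x ∈ V ∧ y ∈ J) := by
    intro x y h
    rcases hF x y h with ⟨h1, h2⟩ | ⟨h1, h2⟩
    · exact Or.inl ⟨h1, (hV y).2 ⟨h2, x, h.symm⟩⟩
    · exact Or.inr ⟨(hV x).2 ⟨h1, y, h⟩, h2⟩
  let Y : V → Finset J := fun v => univ.filter (fun j : J => F.Adj j v)
  have hq1 : q ≤ 1 / 4 := by linarith
  have hP1 : 4 * q ≤ 1 := hLq.le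
  have hYD : ∀ v, (Y v).card ≤ D := by
    intro v
    refine le_trans ?_ (hD v ((hV v).1 v.2).1)
    refine Finset.card_le_card_of_injOn (fun j : J => (j : W)) ?_ ?_
    · intro j hj
      have := (Finset.mem_filter.1 hj).2
      simpa using this.symm
    · intro a _ b _ h
      exact Subtype.ext h
  have hsp : ∀ S : Finset J, S.Nonempty →
      ((univ.filter fun v => S ⊆ Y v).card : ℝ) ≤ (b : ℝ) / 32 * (1280 * q) ^ S.card := by
    intro S hS
    have h1 := hspread (S.map (Function.Embedding.subtype _)) (by simpa using hS)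
    rw [Finset.card_map] at h1
    have h2 : (univ.filter fun v : V => S ⊆ Y v).card ≤
        (univ.filter (fun v => v ∉ J ∧ ∀ u ∈ S.map (Function.Embedding.subtype _),
          F.Adj v u)).card := by
      refine Finset.card_le_card_of_injOn (fun v : V => (v : W)) ?_ ?_
      · intro v hv
        have hv' := (Finset.mem_filter.1 hv).2
        refine Finset.mem_coe.2 (Finset.mem_filter.2 ⟨Finset.mem_univ _, ((hV v).1 v.2).1, ?_⟩)
        intro u hu
        obtain ⟨j, hj, rfl⟩ := Finset.mem_map.1 hu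
        have := (Finset.mem_filter.1 (hv' hj)).2
        exact this.symm
      · intro a _ b _ h
        exact Subtype.ext h
    have h3 : ((univ.filter fun v : V => S ⊆ Y v).card : ℝ) ≤ 20 * n * q ^ S.card :=
      le_trans (by exact_mod_cast h2) h1
    refine le_trans h3 ?_
    have hS1 : 1 ≤ S.card := hS.card_pos
    rw [mul_pow]
    have h4 : (1280 : ℝ) ≤ 1280 ^ S.card := by
      calc (1280 : ℝ) = 1280 ^ 1 := by norm_num
        _ ≤ 1280 ^ S.card := pow_le_pow_right₀ (by norm_num) hS1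
    have h5 : 0 ≤ q ^ S.card := by positivity
    have hb0 : (0 : ℝ) ≤ b := by positivity
    calc 20 * (n : ℝ) * q ^ S.card ≤ (b : ℝ) / 32 * 1280 * q ^ S.card := by
          refine mul_le_mul_of_nonneg_right ?_ h5
          linarith
      _ ≤ (b : ℝ) / 32 * (1280 ^ S.card * q ^ S.card) := by
          rw [← mul_assoc]
          refine mul_le_mul_of_nonneg_right ?_ h5
          exact mul_le_mul_of_nonneg_left h4 (by positivity)
  have hVb : (Fintype.card V : ℝ) ≤ (b : ℝ) / 32 := by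
    rw [Fintype.card_coe]
    have h6 : (64 * (V.card : ℝ)) ≤ n := by exact_mod_cast h64
    linarith
  have h7 := habs V J b D ⌈2 / q ^ D⌉₊ q (4 * q) Y hq le_rfl hP1 hYD hsp hVb (Nat.le_ceil _)
    (fun τ ρ => Classical.dec _)
  have h8 := hn0 n hnn0 J.card D b q hb2 hJ hqD hq hq1
  refine hub_glue' (n := n) (b := b) (m := 1281) F J V hJV (by norm_num) hF' hW hb1.le (4 * q)
    (by positivity) hP1 Y (fun v j h => by simpa [Y] using h) (fun τ ρ => Classical.dec _) ?_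
  refine le_trans ?_ h7
  rw [Fintype.card_coe]
  have h9 : 2 * (((J.card : ℝ) + 1) ^ D + 1) ^ ⌈2 / q ^ D⌉₊ * Real.exp (-(b * q ^ D / 8))
      ≤ 1 / (2 * ((1281 : ℕ) : ℝ)) := by
    rw [le_div_iff₀ (by norm_num)]
    push_cast
    linarith
  linarith

end Crest.TG97
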