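import Crest.Agent.TG97_Gamma
import Crest.Agent.TG94_Num3

set_option autoImplicit false

namespace Crest.TG97

theorem gnum : GNum := by
  obtain ⟨n0, h⟩ := Crest.TG94.fam_num50' 1281
  refine ⟨n0, fun n hn cJ D b q hb hJ hD hq hq1 => ?_⟩
  exact h n hn cJ D b q hq hq1 hJ hD (by exact_mod_cast hb)

theorem gamma_of_abs' (habs : GAbs) : Crest.TG8.GAMMA := gamma_of_abs habs gnum

end Crest.TG97
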