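import Crest.Agent.TG97_Glue
import Crest.Agent.TG94_Avg

/-! Hub glue for S0073: averaged double sum to edge labelling. -/

set_option autoImplicit false

namespace Crest.TG.Rows

open Finset Crest.FinProb Crest.CombinatoricsR.RandomGraph

theorem sum_mu {J : Type*} [Fintype J] [DecidableEq J] (P : ℝ) :
    ∑ R : Finset J, mu P R = 1 := by
  have h := Fintype.sum_pow_mul_eq_add_pow J P (1 - P)
  unfold mu
  rw [h]
  have : P + (1 - P) = 1 := by ring
  rw [this, one_pow]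

theorem mu_nonneg {J : Type*} [Fintype J] {P : ℝ} (hP0 : 0 ≤ P) (hP1 : P ≤ 1) (R : Finset J) :
    0 ≤ mu P R := by
  unfold mu
  exact mul_nonneg (pow_nonneg hP0 _) (pow_nonneg (by linarith) _)

theorem sum_prod_mu {J : Type*} [Fintype J] [DecidableEq J] (P : ℝ) (b : ℕ) :
    ∑ ρ : Fin b → Finset J, ∏ w, mu P (ρ w) = 1 := by
  have h := (Finset.prod_univ_sum (fun _ : Fin b => (Finset.univ : Finset (Finset J)))
    (fun _ R => mu P R)).symm
  rw [Fintype.piFinset_univ] at h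
  rw [h]
  apply Finset.prod_eq_one
  intro i _
  exact sum_mu P

theorem hub_glue {n b m : ℕ} {W : Type*} [Fintype W] [DecidableEq W] (F : SimpleGraph W)
    (J V : Finset W) (hJV : Disjoint J V) (hm : 1 ≤ m)
    (hF : ∀ x y, F.Adj x y → (x ∈ J ∧ y ∈ V) ∨ (x ∈ V ∧ y ∈ J))
    (hW : Fintype.card W ≤ n) (hb : J.card + b ≤ n) (P : ℝ) (hP0 : 0 ≤ P) (hP1 : P ≤ 1)
    (Y : V → Finset J) (hY : ∀ (v : V) (j : J), F.Adj j v → j ∈ Y v)
    (D : ∀ (τ : V → Finset J) (ρ : Fin b → Finset J), Decidable (∃ g : V → Fin b,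
      Function.Injective g ∧ ∀ v : V, τ v ⊆ ρ (g v)))
    (havg : (m : ℝ) * ∑ τ : V → Finset J, (∏ v, Crest.TG94.lamT m (Y v) (τ v)) *
      (1 - ∑ ρ : Fin b → Finset J, (∏ w, mu P (ρ w)) *
      (if ∃ g : V → Fin b, Function.Injective g ∧ ∀ v : V, τ v ⊆ ρ (g v) then 1 else 0)) ≤ 1 / 2) :
    ∃ c : F.edgeSet → Fin m, ∀ i : Fin m,
      1 / 2 ≤ gnpProb n P {G | (pieceGraph F c i).IsContained G} := by
  classical
  obtain ⟨c', hc'⟩ := Crest.TG94.exists_colouring m hm Y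
    (fun τ => 1 - ∑ ρ : Fin b → Finset J, (∏ w, mu P (ρ w)) *
      (if ∃ g : V → Fin b, Function.Injective g ∧ ∀ v : V, τ v ⊆ ρ (g v) then 1 else 0))
    (by
      intro τ
      rw [sub_nonneg]
      refine le_of_le_of_eq ?_ (sum_prod_mu (J := J) P b)
      refine Finset.sum_le_sum fun ρ _ => ?_
      have h0 : 0 ≤ ∏ w, mu P (ρ w) := Finset.prod_nonneg fun w _ => mu_nonneg hP0 hP1 _
      split_ifs
      · rw [mul_one]
      · rw [mul_zero]; exact h0) (1 / 2) havg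
  refine hub_of_colouring (b := b) F J V hJV hm hF hW hb P hP0 hP1 Y hY c' D ?_
  intro i
  have := hc' i
  linarith

/-- version with the double sum bounded below (the form of `Fp.quenched`) -/
theorem hub_glue' {n b m : ℕ} {W : Type*} [Fintype W] [DecidableEq W] (F : SimpleGraph W)
    (J V : Finset W) (hJV : Disjoint J V) (hm : 1 ≤ m)
    (hF : ∀ x y, F.Adj x y → (x ∈ J ∧ y ∈ V) ∨ (x ∈ V ∧ y ∈ J))
    (hW : Fintype.card W ≤ n) (hb : J.card + b ≤ n) (P : ℝ) (hP0 : 0 ≤ P) (hP1 : P ≤ 1)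
    (Y : V → Finset J) (hY : ∀ (v : V) (j : J), F.Adj j v → j ∈ Y v)
    (D : ∀ (τ : V → Finset J) (ρ : Fin b → Finset J), Decidable (∃ g : V → Fin b,
      Function.Injective g ∧ ∀ v : V, τ v ⊆ ρ (g v)))
    (havg : 1 - 1 / (2 * (m : ℝ)) ≤ ∑ τ : V → Finset J, ∑ ρ : Fin b → Finset J,
      (∏ v, Crest.TG94.lamT m (Y v) (τ v)) * (∏ w, mu P (ρ w)) *
      (if ∃ g : V → Fin b, Function.Injective g ∧ ∀ v : V, τ v ⊆ ρ (g v) then 1 else 0)) :
    ∃ c : F.edgeSet → Fin m, ∀ i : Fin m,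
      1 / 2 ≤ gnpProb n P {G | (pieceGraph F c i).IsContained G} := by
  classical
  refine hub_glue (b := b) F J V hJV hm hF hW hb P hP0 hP1 Y hY D ?_
  have hm0 : (0 : ℝ) < m := by exact_mod_cast hm
  -- total mass of the labels
  have h1 : ∀ v : V, ∑ X : Finset J, Crest.TG94.lamT m (Y v) X = 1 := by
    intro v
    unfold Crest.TG94.lamT
    rw [← Finset.sum_filter]
    have hf : (Finset.univ.filter fun X : Finset J => X ⊆ Y v) = (Y v).powerset := by
      ext X; simp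
    rw [hf]
    have h := Finset.sum_pow_mul_eq_add_pow (1 / (m : ℝ)) (1 - 1 / (m : ℝ)) (Y v)
    rw [h]
    have : 1 / (m : ℝ) + (1 - 1 / (m : ℝ)) = 1 := by ring
    rw [this, one_pow]
  have h2 : ∑ τ : V → Finset J, ∏ v, Crest.TG94.lamT m (Y v) (τ v) = 1 := by
    have h := (Finset.prod_univ_sum (fun _ : V => (Finset.univ : Finset (Finset J)))
      (fun v R => Crest.TG94.lamT m (Y v) R)).symm
    rw [Fintype.piFinset_univ] at h
    rw [h]
    exact Finset.prod_eq_one fun v _ => h1 v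
  have h3 : ∑ τ : V → Finset J, (∏ v, Crest.TG94.lamT m (Y v) (τ v)) *
      (1 - ∑ ρ : Fin b → Finset J, (∏ w, mu P (ρ w)) *
      (if ∃ g : V → Fin b, Function.Injective g ∧ ∀ v : V, τ v ⊆ ρ (g v) then 1 else 0))
      = 1 - ∑ τ : V → Finset J, ∑ ρ : Fin b → Finset J,
      (∏ v, Crest.TG94.lamT m (Y v) (τ v)) * (∏ w, mu P (ρ w)) *
      (if ∃ g : V → Fin b, Function.Injective g ∧ ∀ v : V, τ v ⊆ ρ (g v) then 1 else 0) := by
    refine Eq.trans ?_ (congrArg (fun x : ℝ => x - ∑ τ : V → Finset J, ∑ ρ : Fin b → Finset J,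
      (∏ v, Crest.TG94.lamT m (Y v) (τ v)) * (∏ w, mu P (ρ w)) *
      (if ∃ g : V → Fin b, Function.Injective g ∧ ∀ v : V, τ v ⊆ ρ (g v) then 1 else 0)) h2)
    show _ = _ - _
    rw [← Finset.sum_sub_distrib]
    refine Finset.sum_congr rfl fun τ _ => ?_
    rw [mul_sub, mul_one, Finset.mul_sum]
    congr 1
    refine Finset.sum_congr rfl fun ρ _ => ?_
    ring
  rw [h3]
  calc (m : ℝ) * _ ≤ (m : ℝ) * (1 / (2 * (m : ℝ))) := by
        refine mul_le_mul_of_nonneg_left ?_ hm0.le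
        linarith
    _ = 1 / 2 := by field_simp

end Crest.TG.Rows
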