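import Crest.Agent.KK_Pr

/-! Chernoff bounds for independent block events on a finite product space (`KK.Pr`). -/

set_option autoImplicit false

namespace Crest.TG.Chern
open Finset KK

variable {X L : Type} [Fintype X] [DecidableEq X] [Fintype L]

/-- `f` depends only on the coordinates in `B`. -/
def DepOn (B : Finset X) {β : Type*} (f : (X → L) → β) : Prop :=
  ∀ ω ω' : X → L, (∀ x ∈ B, ω x = ω' x) → f ω = f ω'

/-- take `a` on `B` and `b` off `B` -/
def mrg (B : Finset X) (a b : X → L) : X → L := fun x => if x ∈ B then a x else b x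

theorem mrg_mrg (B : Finset X) (a b : X → L) : mrg B (mrg B a b) (mrg B b a) = a := by
  funext x; unfold mrg; split_ifs <;> rfl

def swp (B : Finset X) : ((X → L) × (X → L)) ≃ ((X → L) × (X → L)) where
  toFun p := (mrg B p.1 p.2, mrg B p.2 p.1)
  invFun p := (mrg B p.1 p.2, mrg B p.2 p.1)
  left_inv p := by simp [mrg_mrg]
  right_inv p := by simp [mrg_mrg]

theorem wt_mrg (w : L → ℝ) (B : Finset X) (a b : X → L) :
    wt w (mrg B a b) * wt w (mrg B b a) = wt w a * wt w b := by
  unfold wt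
  rw [← prod_mul_distrib, ← prod_mul_distrib]
  refine prod_congr rfl fun x _ => ?_
  unfold mrg
  split_ifs
  · rfl
  · exact mul_comm _ _

theorem expect_mul (w : L → ℝ) (hw1 : ∑ l, w l = 1) (B : Finset X) (f g : (X → L) → ℝ)
    (hf : DepOn B f) (hg : DepOn Bᶜ g) :
    ∑ ω, wt w ω * (f ω * g ω) = (∑ ω, wt w ω * f ω) * (∑ ω, wt w ω * g ω) := by
  calc ∑ ω, wt w ω * (f ω * g ω)
      = ∑ p : (X → L) × (X → L), (wt w p.1 * wt w p.2) * (f p.1 * g p.1) := by
        rw [Fintype.sum_prod_type]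
        refine sum_congr rfl fun a _ => ?_
        have h1 := sum_wt (X := X) w hw1
        calc wt w a * (f a * g a) = (wt w a * (f a * g a)) * ∑ b : X → L, wt w b := by
              rw [h1, mul_one]
          _ = _ := by
              rw [mul_sum]
              refine sum_congr rfl fun b _ => ?_
              ring
    _ = ∑ p : (X → L) × (X → L), (wt w (swp B p).1 * wt w (swp B p).2) *
          (f (swp B p).1 * g (swp B p).1) :=
        (Equiv.sum_comp (swp B) (fun p : (X → L) × (X → L) =>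
          (wt w p.1 * wt w p.2) * (f p.1 * g p.1))).symm
    _ = ∑ p : (X → L) × (X → L), (wt w p.1 * f p.1) * (wt w p.2 * g p.2) := by
        refine sum_congr rfl fun p _ => ?_
        have h1 : wt w (swp B p).1 * wt w (swp B p).2 = wt w p.1 * wt w p.2 :=
          wt_mrg w B p.1 p.2
        have h2 : f (swp B p).1 = f p.1 := hf _ _ fun x hx => by
          change mrg B p.1 p.2 x = p.1 x
          unfold mrg; rw [if_pos hx]
        have h3 : g (swp B p).1 = g p.2 := hg _ _ fun x hx => by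
          change mrg B p.1 p.2 x = p.2 x
          rw [mem_compl] at hx
          unfold mrg; rw [if_neg hx]
        rw [h1, h2, h3]; ring
    _ = _ := by
        rw [Fintype.sum_prod_type, Finset.sum_mul_sum]

theorem expect_prod_blocks (w : L → ℝ) (hw1 : ∑ l, w l = 1) {ι : Type*} (s : Finset ι)
    (B : ι → Finset X) (hB : ∀ i ∈ s, ∀ j ∈ s, i ≠ j → Disjoint (B i) (B j))
    (f : ι → (X → L) → ℝ) (hf : ∀ i ∈ s, DepOn (B i) (f i)) :
    ∑ ω, wt w ω * ∏ i ∈ s, f i ω = ∏ i ∈ s, ∑ ω, wt w ω * f i ω := by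
  classical
  induction s using Finset.induction_on with
  | empty => simp [sum_wt (X := X) w hw1]
  | insert a s ha ih =>
    rw [prod_insert ha]
    simp_rw [prod_insert ha]
    rw [expect_mul w hw1 (B a) (f a) (fun ω => ∏ i ∈ s, f i ω) (hf a (mem_insert_self a s)),
      ih (fun i hi j hj => hB i (mem_insert_of_mem hi) j (mem_insert_of_mem hj))
        (fun i hi => hf i (mem_insert_of_mem hi))]
    intro ω ω' h
    refine prod_congr rfl fun i hi => hf i (mem_insert_of_mem hi) ω ω' fun x hx => h x ?_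
    rw [mem_compl]
    intro hxa
    have hne : i ≠ a := fun h => ha (h ▸ hi)
    exact (Finset.disjoint_left.mp (hB i (mem_insert_of_mem hi) a (mem_insert_self a s) hne)) hx hxa

theorem expect_ite (w : L → ℝ) (hw1 : ∑ l, w l = 1) (A : (X → L) → Prop) [DecidablePred A] (c : ℝ) :
    ∑ ω, wt w ω * (if A ω then c else 1) = 1 + (c - 1) * Pr w A := by
  have h1 : ∀ ω : X → L, wt w ω * (if A ω then c else 1) =
      wt w ω + (c - 1) * (if A ω then wt w ω else 0) := by
    intro ω; split_ifs <;> ring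
  rw [sum_congr rfl fun ω _ => h1 ω, sum_add_distrib, sum_wt w hw1, ← mul_sum]
  congr 2
  unfold Pr
  rw [sum_filter]
  refine sum_congr rfl fun ω _ => ?_
  by_cases h : A ω <;> simp [h]

/-- moment generating bound: `E c^{#A} ≤ exp((c-1) Σ P(A_i))`, `c > 0`. -/
theorem mgf (w : L → ℝ) (hw : ∀ l, 0 ≤ w l) (hw1 : ∑ l, w l = 1) {ι : Type*} (s : Finset ι)
    (B : ι → Finset X) (hB : ∀ i ∈ s, ∀ j ∈ s, i ≠ j → Disjoint (B i) (B j))
    (A : ι → (X → L) → Prop) (hA : ∀ i ∈ s, DepOn (B i) (A i)) (c : ℝ) (hc : 0 < c)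
    [∀ ω : X → L, DecidablePred fun i => A i ω] :
    ∑ ω, wt w ω * c ^ (s.filter (fun i => A i ω)).card ≤
      Real.exp ((c - 1) * ∑ i ∈ s, Pr w (A i)) := by
  classical
  have h1 : ∀ ω : X → L, c ^ (s.filter (fun i => A i ω)).card =
      ∏ i ∈ s, (if A i ω then c else 1) := by
    intro ω
    rw [prod_ite, prod_const, prod_const_one, mul_one]
  rw [sum_congr rfl fun ω _ => by rw [h1 ω],
    expect_prod_blocks w hw1 s B hB (fun i ω => if A i ω then c else 1)
      (fun i hi ω ω' h => by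
        change (if A i ω then c else 1) = (if A i ω' then c else 1)
        have := hA i hi ω ω' h
        simp only [this]),
    mul_sum, Real.exp_sum]
  refine prod_le_prod (fun i _ => ?_) fun i _ => ?_
  · refine sum_nonneg fun ω _ => mul_nonneg (wt_nonneg w hw ω) ?_
    split_ifs
    · exact hc.le
    · exact zero_le_one
  · rw [expect_ite w hw1]
    have := Real.add_one_le_exp ((c - 1) * Pr w (A i))
    linarith

/-- general upper tail -/
theorem chernoff_upper_gen (w : L → ℝ) (hw : ∀ l, 0 ≤ w l) (hw1 : ∑ l, w l = 1) {ι : Type*}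
    (s : Finset ι)
    (B : ι → Finset X) (hB : ∀ i ∈ s, ∀ j ∈ s, i ≠ j → Disjoint (B i) (B j))
    (A : ι → (X → L) → Prop) (hA : ∀ i ∈ s, DepOn (B i) (A i))
    [∀ ω : X → L, DecidablePred fun i => A i ω]
    (M T : ℝ) (hM : ∑ i ∈ s, Pr w (A i) ≤ M) :
    Pr w (fun ω => T ≤ ((s.filter (fun i => A i ω)).card : ℝ)) ≤
      Real.exp (M - T * Real.log 2) := by
  have h1 := markov w hw (fun ω => (2 : ℝ) ^ (s.filter (fun i => A i ω)).card)
    (fun ω => by positivity) (fun ω => T ≤ ((s.filter (fun i => A i ω)).card : ℝ))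
    (Real.exp (T * Real.log 2)) (fun ω hω => by
      have h2 : (2 : ℝ) ^ (s.filter (fun i => A i ω)).card =
          Real.exp (((s.filter (fun i => A i ω)).card : ℝ) * Real.log 2) := by
        rw [mul_comm, Real.exp_mul, Real.exp_log two_pos, Real.rpow_natCast]
      rw [h2]
      exact Real.exp_le_exp.mpr (mul_le_mul_of_nonneg_right hω (Real.log_nonneg one_le_two)))
  have h3 := mgf w hw hw1 s B hB A hA 2 two_pos
  have h4 : Real.exp ((2 - 1) * ∑ i ∈ s, Pr w (A i)) ≤ Real.exp M :=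
    Real.exp_le_exp.mpr (by linarith)
  have h5 : Real.exp (M - T * Real.log 2) = Real.exp M / Real.exp (T * Real.log 2) :=
    Real.exp_sub _ _
  rw [h5, le_div_iff₀ (Real.exp_pos _), mul_comm]
  linarith

/-- upper tail at twice the mean -/
theorem chernoff_upper (w : L → ℝ) (hw : ∀ l, 0 ≤ w l) (hw1 : ∑ l, w l = 1) {ι : Type*}
    (s : Finset ι)
    (B : ι → Finset X) (hB : ∀ i ∈ s, ∀ j ∈ s, i ≠ j → Disjoint (B i) (B j))
    (A : ι → (X → L) → Prop) (hA : ∀ i ∈ s, DepOn (B i) (A i))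
    [∀ ω : X → L, DecidablePred fun i => A i ω]
    (M : ℝ) (hM0 : 0 ≤ M) (hM : ∑ i ∈ s, Pr w (A i) ≤ M) :
    Pr w (fun ω => 2 * M ≤ ((s.filter (fun i => A i ω)).card : ℝ)) ≤ Real.exp (-M / 3) := by
  refine (chernoff_upper_gen w hw hw1 s B hB A hA M (2 * M) hM).trans ?_
  apply Real.exp_le_exp.mpr
  have := Real.log_two_gt_d9
  nlinarith

/-- lower tail at half the mean -/
theorem chernoff_lower (w : L → ℝ) (hw : ∀ l, 0 ≤ w l) (hw1 : ∑ l, w l = 1) {ι : Type*}
    (s : Finset ι)
    (B : ι → Finset X) (hB : ∀ i ∈ s, ∀ j ∈ s, i ≠ j → Disjoint (B i) (B j))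
    (A : ι → (X → L) → Prop) (hA : ∀ i ∈ s, DepOn (B i) (A i))
    [∀ ω : X → L, DecidablePred fun i => A i ω]
    (M : ℝ) (hM0 : 0 ≤ M) (hM : M ≤ ∑ i ∈ s, Pr w (A i)) :
    Pr w (fun ω => ((s.filter (fun i => A i ω)).card : ℝ) ≤ M / 2) ≤ Real.exp (-M / 8) := by
  have h1 := markov w hw (fun ω => (1 / 2 : ℝ) ^ (s.filter (fun i => A i ω)).card)
    (fun ω => by positivity) (fun ω => ((s.filter (fun i => A i ω)).card : ℝ) ≤ M / 2)
    (Real.exp (-(M / 2 * Real.log 2))) (fun ω hω => by
      have h2 : (1 / 2 : ℝ) ^ (s.filter (fun i => A i ω)).card =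
          Real.exp (-(((s.filter (fun i => A i ω)).card : ℝ) * Real.log 2)) := by
        rw [Real.exp_neg, mul_comm, Real.exp_mul, Real.exp_log two_pos, Real.rpow_natCast,
          one_div, inv_pow]
      rw [h2]
      apply Real.exp_le_exp.mpr
      have := mul_le_mul_of_nonneg_right hω (Real.log_nonneg one_le_two)
      linarith)
  have h3 := mgf w hw hw1 s B hB A hA (1 / 2) (by norm_num)
  have h4 : Real.exp ((1 / 2 - 1) * ∑ i ∈ s, Pr w (A i)) ≤ Real.exp (-M / 2) :=
    Real.exp_le_exp.mpr (by linarith)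
  have h5 : Real.exp (-(M / 2 * Real.log 2)) *
      Pr w (fun ω => ((s.filter (fun i => A i ω)).card : ℝ) ≤ M / 2) ≤ Real.exp (-M / 2) := by
    linarith
  have h6 : Pr w (fun ω => ((s.filter (fun i => A i ω)).card : ℝ) ≤ M / 2) ≤
      Real.exp (-M / 2 + M / 2 * Real.log 2) := by
    have h7 : Real.exp (-M / 2 + M / 2 * Real.log 2) =
        Real.exp (-M / 2) / Real.exp (-(M / 2 * Real.log 2)) := by
      rw [← Real.exp_sub]; congr 1; ring
    rw [h7, le_div_iff₀ (Real.exp_pos _), mul_comm]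
    exact h5
  refine h6.trans (Real.exp_le_exp.mpr ?_)
  have := Real.log_two_lt_d9
  nlinarith

end Crest.TG.Chern
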