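import Mathlib

set_option autoImplicit false
set_option linter.unusedSectionVars false

namespace Crest.TG.CutD

open Finset

variable {α : Type*} [DecidableEq α]

/-- expectation of `f` over a `p`-random subset of `s` -/
noncomputable def E (s : Finset α) (p : ℝ) (f : Finset α → ℝ) : ℝ :=
  ∑ R ∈ s.powerset, (p ^ R.card * (1 - p) ^ (s.card - R.card)) * f R

theorem E_empty (p : ℝ) (f : Finset α → ℝ) : E ∅ p f = f ∅ := by
  simp [E]

theorem E_congr {s : Finset α} {p : ℝ} {f g : Finset α → ℝ} (h : ∀ R ⊆ s, f R = g R) :
    E s p f = E s p g := by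
  unfold E
  exact Finset.sum_congr rfl fun R hR => by rw [h R (Finset.mem_powerset.mp hR)]

theorem E_add (s : Finset α) (p : ℝ) (f g : Finset α → ℝ) :
    E s p (fun R => f R + g R) = E s p f + E s p g := by
  unfold E
  rw [← Finset.sum_add_distrib]
  exact Finset.sum_congr rfl fun R _ => by ring

theorem E_smul (s : Finset α) (p c : ℝ) (f : Finset α → ℝ) :
    E s p (fun R => c * f R) = c * E s p f := by
  unfold E
  rw [Finset.mul_sum]
  exact Finset.sum_congr rfl fun R _ => by ring

theorem E_sum {ι : Type*} (t : Finset ι) (s : Finset α) (p : ℝ) (f : ι → Finset α → ℝ) :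
    E s p (fun R => ∑ i ∈ t, f i R) = ∑ i ∈ t, E s p (f i) := by
  unfold E
  simp_rw [Finset.mul_sum]
  exact Finset.sum_comm

theorem E_mono {s : Finset α} {p : ℝ} (h0 : 0 ≤ p) (h1 : p ≤ 1) {f g : Finset α → ℝ}
    (h : ∀ R ⊆ s, f R ≤ g R) : E s p f ≤ E s p g := by
  unfold E
  refine Finset.sum_le_sum fun R hR => ?_
  exact mul_le_mul_of_nonneg_left (h R (Finset.mem_powerset.mp hR))
    (mul_nonneg (pow_nonneg h0 _) (pow_nonneg (by linarith) _))

theorem E_nonneg {s : Finset α} {p : ℝ} (h0 : 0 ≤ p) (h1 : p ≤ 1) {f : Finset α → ℝ}
    (h : ∀ R, 0 ≤ f R) : 0 ≤ E s p f := by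
  unfold E
  exact Finset.sum_nonneg fun R hR => mul_nonneg
    (mul_nonneg (pow_nonneg h0 _) (pow_nonneg (by linarith) _)) (h R)

theorem E_insert {a : α} {s : Finset α} (ha : a ∉ s) (p : ℝ) (f : Finset α → ℝ) :
    E (insert a s) p f = p * E s p (fun R => f (insert a R)) + (1 - p) * E s p f := by
  unfold E
  rw [Finset.sum_powerset_insert ha, Finset.mul_sum, Finset.mul_sum, add_comm]
  congr 1
  · refine Finset.sum_congr rfl fun R hR => ?_
    have hR' := Finset.mem_powerset.mp hR
    have haR : a ∉ R := fun h => ha (hR' h)
    rw [Finset.card_insert_of_notMem ha, Finset.card_insert_of_notMem haR]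
    have : s.card + 1 - (R.card + 1) = s.card - R.card := by omega
    rw [this, pow_succ]
    ring
  · refine Finset.sum_congr rfl fun R hR => ?_
    have hR' := Finset.card_le_card (Finset.mem_powerset.mp hR)
    rw [Finset.card_insert_of_notMem ha]
    have : s.card + 1 - R.card = (s.card - R.card) + 1 := by omega
    rw [this, pow_succ]
    ring

theorem E_const (s : Finset α) (p c : ℝ) : E s p (fun _ => c) = c := by
  induction s using Finset.induction_on with
  | empty => exact E_empty p _
  | insert a s ha ih => rw [E_insert ha, ih]; ring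

theorem E_union (s : Finset α) (p q : ℝ) (f : Finset α → ℝ) :
    E s p (fun X => E s q (fun R => f (X ∪ R))) = E s (p + q - p * q) f := by
  induction s using Finset.induction_on generalizing f with
  | empty => simp [E_empty]
  | insert a s ha ih =>
    rw [E_insert ha, E_insert ha]
    have e1 : ∀ X : Finset α, E (insert a s) q (fun R => f (insert a X ∪ R)) =
        E s q (fun R => f (insert a (X ∪ R))) := by
      intro X
      rw [E_insert ha]
      have h1 : ∀ R : Finset α, f (insert a X ∪ insert a R) = f (insert a (X ∪ R)) := by
        intro R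
        congr 1
        ext z; simp
      have h2 : ∀ R : Finset α, f (insert a X ∪ R) = f (insert a (X ∪ R)) := by
        intro R
        congr 1
        ext z; simp
      simp_rw [h1, h2]
      ring
    have e2 : ∀ X : Finset α, E (insert a s) q (fun R => f (X ∪ R)) =
        q * E s q (fun R => f (insert a (X ∪ R))) + (1 - q) * E s q (fun R => f (X ∪ R)) := by
      intro X
      rw [E_insert ha]
      have h1 : ∀ R : Finset α, f (X ∪ insert a R) = f (insert a (X ∪ R)) := by
        intro R
        congr 1
        ext z; simp
      simp_rw [h1]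
    simp_rw [e1, e2]
    rw [E_add, E_smul, E_smul, ih f, ih (fun R => f (insert a R))]
    ring

theorem E_superset (s : Finset α) (p : ℝ) : ∀ (T : Finset α), T ⊆ s → ∀ f : Finset α → ℝ,
    E s p (fun R => if T ⊆ R then f R else 0) = p ^ T.card * E s p (fun R => f (T ∪ R)) := by
  induction s using Finset.induction_on with
  | empty =>
    intro T hT f
    have : T = ∅ := Finset.subset_empty.mp hT
    subst this
    simp [E_empty]
  | insert a s ha ih =>
    intro T hT f
    rw [E_insert ha, E_insert ha]
    by_cases haT : a ∈ T
    · have hT' : T.erase a ⊆ s := Finset.subset_insert_iff.mp hT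
      have h1 : E s p (fun R => if T ⊆ insert a R then f (insert a R) else 0) =
          E s p (fun R => if T.erase a ⊆ R then f (insert a R) else 0) :=
        E_congr fun R _ => by simp only [Finset.subset_insert_iff]
      have h2 : E s p (fun R => if T ⊆ R then f R else 0) = 0 := by
        refine (E_congr (g := fun _ => (0 : ℝ)) fun R hR => ?_).trans (E_const s p 0)
        rw [if_neg]
        intro h
        exact ha (hR (h haT))
      rw [h1, h2, ih _ hT' (fun R => f (insert a R))]
      have h3 : ∀ R : Finset α, insert a (T.erase a ∪ R) = T ∪ R := by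
        intro R
        rw [← Finset.insert_union, Finset.insert_erase haT]
      have h4 : ∀ R : Finset α, T ∪ insert a R = T ∪ R := by
        intro R
        ext z; simp only [Finset.mem_union, Finset.mem_insert]
        constructor
        · rintro (h | rfl | h)
          · exact Or.inl h
          · exact Or.inl haT
          · exact Or.inr h
        · rintro (h | h)
          · exact Or.inl h
          · exact Or.inr (Or.inr h)
      simp_rw [h3, h4]
      have h5 : T.card = (T.erase a).card + 1 := by
        rw [Finset.card_erase_of_mem haT]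
        have := Finset.card_pos.mpr ⟨a, haT⟩
        omega
      rw [h5, pow_succ]
      ring
    · have hT' : T ⊆ s := (Finset.subset_insert_iff_of_notMem haT).mp hT
      have h1 : E s p (fun R => if T ⊆ insert a R then f (insert a R) else 0) =
          E s p (fun R => if T ⊆ R then f (insert a R) else 0) :=
        E_congr fun R _ => by simp only [Finset.subset_insert_iff_of_notMem haT]
      rw [h1, ih _ hT' (fun R => f (insert a R)), ih _ hT' f]
      have h4 : ∀ R : Finset α, T ∪ insert a R = insert a (T ∪ R) := fun R =>
        Finset.union_insert a T R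
      simp_rw [h4]
      ring

end Crest.TG.CutD
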