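import Mathlib
import Crest.Prelude.Def_CopyThreshold
import Crest.Agent.TG_Degen

set_option autoImplicit false
set_option linter.unusedSectionVars false
set_option linter.unusedVariables false

namespace Crest.TG.Degen
open Finset Crest.CombinatoricsR.RandomGraph

variable {W : Type*} [Fintype W] [DecidableEq W]

/-- Arc `v → u` (child `v`, parent `u`) of type I. -/
def TypeI {N k1 k2 : ℕ} (H : SimpleGraph W) (σ : W ≃ Fin N) (J : Finset W)
    (grp : W → W → Fin k1) (part : W → Fin k2) (a : Fin k1) (g g' : Fin k2) (v u : W) : Prop :=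
  H.Adj v u ∧ σ u < σ v ∧ ¬ (v ∉ J ∧ u ∈ J) ∧ grp v u = a ∧ part v = g ∧ part u = g'

/-- Arc `v → u` (child `v`, parent `u`) of type II, with label `x`. -/
def TypeII {N k1 k2 m : ℕ} (H : SimpleGraph W) (σ : W ≃ Fin N) (J : Finset W)
    (grp : W → W → Fin k1) (part : W → Fin k2) (ρ : W → W → Fin m)
    (a : Fin k1) (g : Fin k2) (x : Fin m) (v u : W) : Prop :=
  H.Adj v u ∧ σ u < σ v ∧ (v ∉ J ∧ u ∈ J) ∧ grp v u = a ∧ part v = g ∧ ρ v u = x

theorem dense_labels {N : ℕ} (H : SimpleGraph W) [DecidableRel H.Adj] (σ : W ≃ Fin N)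
    (d k1 k2 m : ℕ) (hk1 : 1 ≤ k1) (hk2 : 1 ≤ k2) (J : Finset W)
    (hσ : ∀ v, (univ.filter (fun u => H.Adj v u ∧ σ u < σ v)).card ≤ d) :
    ∃ grp : W → W → Fin k1, ∃ part : W → Fin k2,
      (∀ g, (univ.filter (fun v => part v = g)).card * k2 ≤ N + k2) ∧
      (∀ v a, (univ.filter (fun u => H.Adj v u ∧ σ u < σ v ∧ grp v u = a)).card ≤ d / k1 + 1) ∧
      ∀ ρ : W → W → Fin m, ∃ c : H.edgeSet → Fin (k1 * k2 * k2 * (m + 1)), ∀ i,
        (∃ a g g', ∀ v u, (pieceGraph H c i).Adj v u ↔
          (TypeI H σ J grp part a g g' v u ∨ TypeI H σ J grp part a g g' u v)) ∨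
        (∃ a g x, ∀ v u, (pieceGraph H c i).Adj v u →
          (TypeII H σ J grp part ρ a g x v u ∨ TypeII H σ J grp part ρ a g x u v)) := by
  classical
  set B : W → Finset W := fun v => univ.filter (fun u => H.Adj v u ∧ σ u < σ v) with hBdef
  obtain ⟨r, hr1, hr2⟩ := exists_rank σ d B hσ
  obtain ⟨ch, pa, hcp⟩ := exists_child H σ
  have hmemB : ∀ v u, u ∈ B v ↔ (H.Adj v u ∧ σ u < σ v) := by
    intro v u; simp [B]
  refine ⟨fun v u => ⟨r v u % k1, Nat.mod_lt _ (by omega)⟩,
    fun v => ⟨(σ v : ℕ) % k2, Nat.mod_lt _ (by omega)⟩, ?_, ?_, ?_⟩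
  · intro g
    have h := card_mod_le σ k2 hk2 g
    have h2 : (univ.filter (fun v : W => (⟨(σ v : ℕ) % k2, Nat.mod_lt _ (by omega)⟩ : Fin k2) = g))
        = univ.filter (fun v : W => (σ v : ℕ) % k2 = g) := by
      ext v
      simp only [Finset.mem_filter, Finset.mem_univ, true_and, Fin.ext_iff]
    rw [h2]
    exact h
  · intro v a
    have : (univ.filter (fun u => H.Adj v u ∧ σ u < σ v ∧
        (⟨r v u % k1, Nat.mod_lt _ (by omega)⟩ : Fin k1) = a)).card
        ≤ (Finset.range (d / k1 + 1)).card := by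
      apply Finset.card_le_card_of_injOn (fun u => r v u / k1)
      · intro u hu
        simp only [Finset.coe_filter, Finset.mem_univ, true_and, Set.mem_ofPred_eq] at hu
        simp only [Finset.coe_range, Set.mem_Iio]
        have h1 := hr1 v u ((hmemB v u).mpr ⟨hu.1, hu.2.1⟩)
        have : r v u / k1 ≤ d / k1 := Nat.div_le_div_right h1.le
        omega
      · intro u hu u' hu' huu
        simp only [Finset.coe_filter, Finset.mem_univ, true_and, Set.mem_ofPred_eq, Fin.ext_iff] at hu hu'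
        simp only at huu
        have h1 := Nat.div_add_mod (r v u) k1
        have h2 := Nat.div_add_mod (r v u') k1
        rw [hu.2.2, huu] at h1
        rw [hu'.2.2] at h2
        exact hr2 v u ((hmemB v u).mpr ⟨hu.1, hu.2.1⟩) u' ((hmemB v u').mpr ⟨hu'.1, hu'.2.1⟩)
          (by omega)
    simpa using this
  · intro ρ
    let enc : Fin k1 × Fin k2 × Fin k2 × Option (Fin m) ≃ Fin (k1 * k2 * k2 * (m + 1)) :=
      Fintype.equivFinOfCardEq (by simp [mul_assoc])
    let lab : W → W → Fin (k1 * k2 * k2 * (m + 1)) := fun v u =>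
      enc (⟨r v u % k1, Nat.mod_lt _ (by omega)⟩, ⟨(σ v : ℕ) % k2, Nat.mod_lt _ (by omega)⟩,
        (if (v ∉ J ∧ u ∈ J) then ⟨0, by omega⟩ else ⟨(σ u : ℕ) % k2, Nat.mod_lt _ (by omega)⟩),
        if (v ∉ J ∧ u ∈ J) then some (ρ v u) else none)
    refine ⟨fun e => lab (ch e) (pa e), ?_⟩
    intro i
    obtain ⟨⟨a, g, g', x⟩, hi⟩ := enc.surjective i
    cases x with
    | none =>
      left
      refine ⟨a, g, g', ?_⟩
      have hlab : ∀ v u, (lab v u = i ↔ (¬ (v ∉ J ∧ u ∈ J) ∧
          (⟨r v u % k1, Nat.mod_lt _ (by omega)⟩ : Fin k1) = a ∧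
          (⟨(σ v : ℕ) % k2, Nat.mod_lt _ (by omega)⟩ : Fin k2) = g ∧
          (⟨(σ u : ℕ) % k2, Nat.mod_lt _ (by omega)⟩ : Fin k2) = g')) := by
        intro v u
        simp only [lab, ← hi, Equiv.apply_eq_iff_eq, Prod.mk.injEq]
        by_cases hJ : (v ∉ J ∧ u ∈ J)
        · simp [hJ]
        · rw [if_neg hJ, if_neg hJ]
          constructor
          · rintro ⟨h1, h2, h3, _⟩
            exact ⟨hJ, h1, h2, h3⟩
          · rintro ⟨_, h1, h2, h3⟩
            exact ⟨h1, h2, h3, rfl⟩
      intro v u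
      rw [class_adj H σ ch pa hcp lab i v u]
      unfold TypeI
      constructor
      · rintro ⟨h1, ⟨h2, h3⟩ | ⟨h2, h3⟩⟩
        · left
          exact ⟨h1, h2, (hlab v u).mp h3⟩
        · right
          exact ⟨h1.symm, h2, (hlab u v).mp h3⟩
      · rintro (⟨h1, h2, h3⟩ | ⟨h1, h2, h3⟩)
        · exact ⟨h1, Or.inl ⟨h2, (hlab v u).mpr h3⟩⟩
        · exact ⟨h1.symm, Or.inr ⟨h2, (hlab u v).mpr h3⟩⟩
    | some x =>
      right
      refine ⟨a, g, x, ?_⟩
      have hlab : ∀ v u, (lab v u = i → ((v ∉ J ∧ u ∈ J) ∧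
          (⟨r v u % k1, Nat.mod_lt _ (by omega)⟩ : Fin k1) = a ∧
          (⟨(σ v : ℕ) % k2, Nat.mod_lt _ (by omega)⟩ : Fin k2) = g ∧ ρ v u = x)) := by
        intro v u
        simp only [lab, ← hi, Equiv.apply_eq_iff_eq, Prod.mk.injEq]
        by_cases hJ : (v ∉ J ∧ u ∈ J)
        · rw [if_pos hJ, if_pos hJ]
          rintro ⟨h1, h2, h3, h4⟩
          exact ⟨hJ, h1, h2, by simpa using h4⟩
        · rw [if_neg hJ, if_neg hJ]
          rintro ⟨h1, h2, h3, h4⟩
          simp at h4
      intro v u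
      rw [class_adj H σ ch pa hcp lab i v u]
      unfold TypeII
      rintro ⟨h1, ⟨h2, h3⟩ | ⟨h2, h3⟩⟩
      · left
        exact ⟨h1, h2, hlab v u h3⟩
      · right
        exact ⟨h1.symm, h2, hlab u v h3⟩

open Classical in
/-- Degrees in a type I class. -/
theorem typeI_degree {N k1 k2 : ℕ} (H : SimpleGraph W) (σ : W ≃ Fin N) (J : Finset W)
    (grp : W → W → Fin k1) (part : W → Fin k2) (a : Fin k1) (g g' : Fin k2) (Δ D : ℕ)
    (hJ : ∀ v, v ∉ J → (univ.filter (fun u => H.Adj v u)).card ≤ Δ)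
    (hD : ∀ v, (univ.filter (fun u => H.Adj v u ∧ σ u < σ v ∧ grp v u = a)).card ≤ D) (w : W) :
    (univ.filter (fun u => TypeI H σ J grp part a g g' w u ∨ TypeI H σ J grp part a g g' u w)).card
      ≤ max Δ (D + J.card) := by
  by_cases hw : w ∈ J
  · refine le_trans ?_ (le_max_right _ _)
    refine le_trans (Finset.card_le_card (t := (univ.filter (fun u => H.Adj w u ∧ σ u < σ w ∧
      grp w u = a)) ∪ J) ?_) ?_
    · intro u hu
      simp only [Finset.mem_filter, Finset.mem_univ, true_and, Finset.mem_union] at hu ⊢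
      rcases hu with h | h
      · left
        exact ⟨h.1, h.2.1, h.2.2.2.1⟩
      · right
        by_contra hcon
        exact h.2.2.1 ⟨hcon, hw⟩
    · exact le_trans (Finset.card_union_le _ _) (Nat.add_le_add_right (hD w) _)
  · refine le_trans ?_ (le_max_left _ _)
    refine le_trans (Finset.card_le_card ?_) (hJ w hw)
    intro u hu
    simp only [Finset.mem_filter, Finset.mem_univ, true_and] at hu ⊢
    rcases hu with h | h
    · exact h.1
    · exact h.1.symm

open Classical in
/-- Number of vertices of degree `> Δ` in a graph with back-degrees `≤ d`. -/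
theorem card_high_degree {N : ℕ} (H : SimpleGraph W) (σ : W ≃ Fin N) (d Δ : ℕ)
    (hσ : ∀ v, (univ.filter (fun u => H.Adj v u ∧ σ u < σ v)).card ≤ d) :
    (univ.filter (fun v => Δ < (univ.filter (fun u => H.Adj v u)).card)).card * (Δ + 1)
      ≤ 2 * d * N := by
  have hN : Fintype.card W = N := by simpa using Fintype.card_congr σ
  have h1 : (univ.filter (fun v => Δ < (univ.filter (fun u => H.Adj v u)).card)).card * (Δ + 1)
      ≤ ∑ v : W, (univ.filter (fun u => H.Adj v u)).card := by
    calc (univ.filter (fun v => Δ < (univ.filter (fun u => H.Adj v u)).card)).card * (Δ + 1)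
        = ∑ v ∈ univ.filter (fun v => Δ < (univ.filter (fun u => H.Adj v u)).card), (Δ + 1) := by
          rw [Finset.sum_const, smul_eq_mul]
      _ ≤ ∑ v ∈ univ.filter (fun v => Δ < (univ.filter (fun u => H.Adj v u)).card),
          (univ.filter (fun u => H.Adj v u)).card := by
          apply Finset.sum_le_sum
          intro v hv
          simp only [Finset.mem_filter, Finset.mem_univ, true_and] at hv
          exact hv
      _ ≤ _ := Finset.sum_le_sum_of_subset (Finset.filter_subset _ _)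
  have h2 : ∑ v : W, (univ.filter (fun u => H.Adj v u)).card
      = ∑ v : W, (univ.filter (fun u => H.Adj v u ∧ σ u < σ v)).card
        + ∑ v : W, (univ.filter (fun u => H.Adj v u ∧ σ v < σ u)).card := by
    rw [← Finset.sum_add_distrib]
    apply Finset.sum_congr rfl
    intro v _
    rw [← Finset.card_union_of_disjoint]
    · congr 1
      ext u
      simp only [Finset.mem_filter, Finset.mem_univ, true_and, Finset.mem_union]
      constructor
      · intro h
        rcases lt_trichotomy (σ u) (σ v) with h1 | h1 | h1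
        · exact Or.inl ⟨h, h1⟩
        · exact absurd (σ.injective h1).symm h.ne
        · exact Or.inr ⟨h, h1⟩
      · rintro (h | h) <;> exact h.1
    · rw [Finset.disjoint_left]
      intro u hu hu'
      simp only [Finset.mem_filter, Finset.mem_univ, true_and] at hu hu'
      exact absurd hu.2 (not_lt.mpr hu'.2.le)
  have h3 : ∑ v : W, (univ.filter (fun u => H.Adj v u ∧ σ v < σ u)).card
      = ∑ v : W, (univ.filter (fun u => H.Adj v u ∧ σ u < σ v)).card := by
    simp_rw [Finset.card_filter]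
    rw [Finset.sum_comm]
    apply Finset.sum_congr rfl
    intro u _
    apply Finset.sum_congr rfl
    intro v _
    simp only [SimpleGraph.adj_comm]
  have h4 : ∑ v : W, (univ.filter (fun u => H.Adj v u ∧ σ u < σ v)).card ≤ N * d := by
    calc _ ≤ ∑ v : W, d := Finset.sum_le_sum (fun v _ => by convert hσ v)
      _ = N * d := by rw [Finset.sum_const, smul_eq_mul, Finset.card_univ, hN]
  rw [h2, h3] at h1
  calc _ ≤ _ := h1
    _ ≤ N * d + N * d := Nat.add_le_add h4 h4
    _ = 2 * d * N := by ring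

end Crest.TG.Degen
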