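import Mathlib

set_option autoImplicit false

namespace Crest.TG.Depth
open Finset

/-- fingerprint + Hall: if there is no system of distinct representatives, there are a violating
set `S` and a small fingerprint `A ⊆ S`. -/
theorem finger {V β : Type} [Fintype V] [DecidableEq V] [Fintype β] [DecidableEq β]
    (N1 N : V → Finset β) (m : ℝ) (hm : 0 < m) (hN1 : ∀ v, m ≤ ((N1 v).card : ℝ))
    (hno : ¬ ∃ φ : V → β, Function.Injective φ ∧ ∀ v, φ v ∈ N v) :
    ∃ S A : Finset V, A ⊆ S ∧ A.Nonempty ∧ (S.biUnion N).card < S.card ∧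
      (A.card : ℝ) * m ≤ 4 * Fintype.card β ∧
      ∀ v ∈ S, 4 * (N1 v \ A.biUnion N1).card ≤ (N1 v).card := by
  classical
  rw [← Finset.all_card_le_biUnion_card_iff_exists_injective] at hno
  push Not at hno
  obtain ⟨S, hS⟩ := hno
  have hSne : S.Nonempty := by
    rw [← Finset.card_pos]; omega
  -- maximal fingerprint
  let P : Finset (Finset V) := S.powerset.filter
    (fun A => (A.card : ℝ) * m ≤ 4 * ((A.biUnion N1).card : ℝ))
  have hPne : P.Nonempty := by
    refine ⟨∅, ?_⟩
    simp only [P, Finset.mem_filter, Finset.mem_powerset]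
    refine ⟨Finset.empty_subset _, ?_⟩
    simp
  obtain ⟨A, hAP, hmax⟩ := Finset.exists_max_image P (fun A => A.card) hPne
  have hAP' : A ⊆ S ∧ (A.card : ℝ) * m ≤ 4 * ((A.biUnion N1).card : ℝ) := by
    simpa only [P, Finset.mem_filter, Finset.mem_powerset] using hAP
  obtain ⟨hAS, hAm⟩ := hAP'
  have hcov : ∀ v ∈ S, 4 * (N1 v \ A.biUnion N1).card ≤ (N1 v).card := by
    intro v hv
    by_contra hcon
    push Not at hcon
    have hvA : v ∉ A := by
      intro hvA
      have : N1 v \ A.biUnion N1 = ∅ := by
        rw [Finset.sdiff_eq_empty_iff_subset]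
        exact Finset.subset_biUnion_of_mem N1 hvA
      rw [this] at hcon
      simp at hcon
    have hins : insert v A ∈ P := by
      simp only [P, Finset.mem_filter, Finset.mem_powerset]
      refine ⟨Finset.insert_subset hv hAS, ?_⟩
      rw [Finset.card_insert_of_notMem hvA, Finset.biUnion_insert]
      have e1 : ((N1 v ∪ A.biUnion N1).card : ℝ) =
          ((N1 v \ A.biUnion N1).card : ℝ) + ((A.biUnion N1).card : ℝ) := by
        have := Finset.card_sdiff_add_card (N1 v) (A.biUnion N1)
        rw [← this]; push_cast; ring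
      rw [e1]
      have h3 : (m : ℝ) ≤ 4 * ((N1 v \ A.biUnion N1).card : ℝ) := by
        have h4 : ((N1 v).card : ℝ) ≤ 4 * ((N1 v \ A.biUnion N1).card : ℝ) := by
          exact_mod_cast hcon.le
        exact (hN1 v).trans h4
      push_cast
      nlinarith
    have h5 := hmax _ hins
    rw [Finset.card_insert_of_notMem hvA] at h5
    omega
  refine ⟨S, A, hAS, ?_, hS, ?_, hcov⟩
  · rw [Finset.nonempty_iff_ne_empty]
    intro hA
    obtain ⟨v, hv⟩ := hSne
    have h1 := hcov v hv
    rw [hA] at h1
    simp at h1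
    have h2 := hN1 v
    have h3 : (N1 v).card = 0 := by
      omega
    rw [h3] at h2
    simp at h2
    linarith
  · refine hAm.trans ?_
    have : ((A.biUnion N1).card : ℝ) ≤ (Fintype.card β : ℝ) := by
      exact_mod_cast Finset.card_le_univ _
    linarith

end Crest.TG.Depth
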