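import Crest.Agent.TG_DepthTail

set_option autoImplicit false

namespace Crest.TG.Depth
open Finset

variable {V Λ β Ω : Type} [Fintype V] [Fintype Λ] [Fintype β] [Fintype Ω]

theorem mass_nonneg' (ρ : Ω → ℝ) (h0 : ∀ ω, 0 ≤ ρ ω) (P : Ω → Prop) : 0 ≤ mass ρ P := by
  unfold mass
  exact Finset.sum_nonneg fun ω _ => by split_ifs <;> [exact h0 ω; exact le_rfl]

/-- ratio tail -/
theorem ratio_tail' [DecidableEq β] (ρ : Ω → ℝ) (h0 : ∀ ω, 0 ≤ ρ ω) (h1 : ∑ ω, ρ ω = 1)
    (P Q : Ω → Prop) [DecidablePred P] [DecidablePred Q] (hQP : ∀ ω, Q ω → P ω)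
    (hQ : mass ρ P / 2 ≤ mass ρ Q) (p : ℝ) (hp0 : 0 ≤ p) (hp : p ≤ mass ρ P) :
    prb (fun _ : β => ρ) (fun x => 4 * (univ.filter fun w => Q (x w)).card ≤
      (univ.filter fun w => P (x w)).card) ≤ Real.exp (-(Fintype.card β * p / 16)) := by
  classical
  let f : Ω → ℝ := fun ω => if Q ω then 27 / 64 else if P ω then 4 / 3 else 1
  have hf : ∀ ω, 0 ≤ f ω := by
    intro ω; simp only [f]; split_ifs <;> norm_num
  have hprod : ∀ x : β → Ω, 4 * (univ.filter fun w => Q (x w)).card ≤
      (univ.filter fun w => P (x w)).card → 1 ≤ (1 : ℝ) * ∏ v, f (x v) := by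
    intro x hx
    rw [one_mul]
    have e1 : ∏ v, f (x v) = (27 / 64 : ℝ) ^ (univ.filter fun w => Q (x w)).card
        * (4 / 3 : ℝ) ^ (univ.filter fun w => ¬ Q (x w) ∧ P (x w)).card := by
      rw [← Finset.prod_const, ← Finset.prod_const, Finset.prod_filter, Finset.prod_filter,
        ← Finset.prod_mul_distrib]
      refine Finset.prod_congr rfl fun v _ => ?_
      simp only [f]
      by_cases hq : Q (x v)
      · simp [hq]
      · by_cases hpp : P (x v)
        · simp [hq, hpp]
        · simp [hq, hpp]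
    have e2 : (univ.filter fun w => P (x w)).card = (univ.filter fun w => Q (x w)).card
        + (univ.filter fun w => ¬ Q (x w) ∧ P (x w)).card := by
      rw [← Finset.card_union_of_disjoint]
      · congr 1
        ext w
        simp only [mem_filter, mem_univ, true_and, mem_union]
        constructor
        · intro h
          by_cases hq : Q (x w)
          · exact Or.inl hq
          · exact Or.inr ⟨hq, h⟩
        · rintro (h | h)
          · exact hQP _ h
          · exact h.2
      · rw [Finset.disjoint_left]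
        intro w hw hw'
        simp only [mem_filter, mem_univ, true_and] at hw hw'
        exact hw'.1 hw
    set a := (univ.filter fun w => Q (x w)).card with ha
    set b := (univ.filter fun w => ¬ Q (x w) ∧ P (x w)).card with hb
    have hab : 3 * a ≤ b := by omega
    rw [e1]
    have e3 : (27 / 64 : ℝ) ^ a * (4 / 3 : ℝ) ^ (3 * a) = 1 := by
      rw [pow_mul, ← mul_pow]; norm_num
    calc (1 : ℝ) = (27 / 64 : ℝ) ^ a * (4 / 3 : ℝ) ^ (3 * a) := e3.symm
      _ ≤ (27 / 64 : ℝ) ^ a * (4 / 3 : ℝ) ^ b := by
        apply mul_le_mul_of_nonneg_left (pow_le_pow_right₀ (by norm_num) hab) (by positivity)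
  have hmain := prb_le_prod (fun _ : β => ρ) (fun _ => h0) (fun x =>
    4 * (univ.filter fun w => Q (x w)).card ≤ (univ.filter fun w => P (x w)).card)
    (fun _ => f) (fun _ => hf) 1 zero_le_one hprod
  refine hmain.trans ?_
  rw [one_mul]
  have hmean : ∑ l, ρ l * f l ≤ Real.exp (-(p / 16)) := by
    have e : ∑ l, ρ l * f l = 1 + 1 / 3 * mass ρ P - 175 / 192 * mass ρ Q := by
      have : ∀ l, ρ l * f l = ρ l + 1 / 3 * (if P l then ρ l else 0)
          - 175 / 192 * (if Q l then ρ l else 0) := by
        intro l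
        simp only [f]
        by_cases hq : Q l
        · simp only [hq, hQP l hq, if_true]; ring
        · by_cases hpp : P l
          · simp only [hq, hpp, if_true, if_false]; ring
          · simp only [hq, hpp, if_false]; ring
      calc ∑ l, ρ l * f l = ∑ l, (ρ l + 1 / 3 * (if P l then ρ l else 0)
          - 175 / 192 * (if Q l then ρ l else 0)) := Finset.sum_congr rfl fun l _ => this l
        _ = 1 + 1 / 3 * mass ρ P - 175 / 192 * mass ρ Q := by
          rw [Finset.sum_sub_distrib, Finset.sum_add_distrib, ← Finset.mul_sum,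
            ← Finset.mul_sum, h1]
          unfold mass
          congr!
    rw [e]
    have h2 := Real.add_one_le_exp (-(p / 16))
    have h3 : 0 ≤ mass ρ P := mass_nonneg' ρ h0 P
    linarith
  have hmean0 : 0 ≤ ∑ l, ρ l * f l := Finset.sum_nonneg fun l _ => mul_nonneg (h0 l) (hf l)
  calc ∏ _v : β, ∑ l, ρ l * f l ≤ ∏ _v : β, Real.exp (-(p / 16)) :=
        Finset.prod_le_prod (fun _ _ => hmean0) (fun _ _ => hmean)
    _ = Real.exp (-(Fintype.card β * p / 16)) := by
        rw [Finset.prod_const, Finset.card_univ, ← Real.exp_nat_mul]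
        congr 1; ring

/-- upper tail, non identical -/
theorem upper_tail' [DecidableEq V] (lam : V → Λ → ℝ) (h0 : ∀ v l, 0 ≤ lam v l)
    (h1 : ∀ v, ∑ l, lam v l = 1) (T : Finset V)
    (Q : V → Λ → Prop) [∀ v, DecidablePred (Q v)] (M : ℝ) (hM : ∑ v ∈ T, mass (lam v) (Q v) ≤ M) :
    prb lam (fun y => 4 * M ≤ ((T.filter fun v => Q v (y v)).card : ℝ)) ≤ Real.exp (-(2 * M)) := by
  classical
  have hM0 : 0 ≤ M := le_trans (Finset.sum_nonneg fun v _ => mass_nonneg' _ (h0 v) _) hM
  let f : V → Λ → ℝ := fun v l => if v ∈ T ∧ Q v l then Real.exp 1 else 1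
  have hf : ∀ v l, 0 ≤ f v l := by
    intro v l; simp only [f]; split_ifs
    · exact (Real.exp_pos _).le
    · norm_num
  have hprod : ∀ y : V → Λ, 4 * M ≤ ((T.filter fun v => Q v (y v)).card : ℝ) →
      1 ≤ Real.exp (-(4 * M)) * ∏ v, f v (y v) := by
    intro y hy
    have e1 : ∏ v, f v (y v) = Real.exp 1 ^ (T.filter fun v => Q v (y v)).card := by
      rw [← Finset.prod_const, Finset.prod_filter]
      rw [← Finset.prod_subset (Finset.subset_univ T)]
      · refine Finset.prod_congr rfl fun v hv => ?_
        simp only [f, hv, true_and]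
      · intro v _ hv
        simp only [f, hv, false_and, if_false]
    rw [e1, ← Real.exp_nat_mul, ← Real.exp_add]
    apply Real.one_le_exp
    linarith
  have hmain := prb_le_prod lam h0 (fun y =>
    4 * M ≤ ((T.filter fun v => Q v (y v)).card : ℝ)) f hf (Real.exp (-(4 * M)))
    (Real.exp_pos _).le hprod
  refine hmain.trans ?_
  have hmean : ∀ v, ∑ l, lam v l * f v l
      ≤ Real.exp (if v ∈ T then (Real.exp 1 - 1) * mass (lam v) (Q v) else 0) := by
    intro v
    by_cases hv : v ∈ T
    · rw [if_pos hv]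
      have e : ∑ l, lam v l * f v l = 1 + (Real.exp 1 - 1) * mass (lam v) (Q v) := by
        have : ∀ l, lam v l * f v l = lam v l
            + (Real.exp 1 - 1) * (if Q v l then lam v l else 0) := by
          intro l
          simp only [f, hv, true_and]
          by_cases hq : Q v l
          · simp only [hq, if_true]; ring
          · simp only [hq, if_false]; ring
        calc ∑ l, lam v l * f v l = ∑ l, (lam v l
            + (Real.exp 1 - 1) * (if Q v l then lam v l else 0)) :=
              Finset.sum_congr rfl fun l _ => this l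
          _ = 1 + (Real.exp 1 - 1) * mass (lam v) (Q v) := by
            rw [Finset.sum_add_distrib, ← Finset.mul_sum, h1 v]
            unfold mass
            congr!
      rw [e]
      have := Real.add_one_le_exp ((Real.exp 1 - 1) * mass (lam v) (Q v))
      linarith
    · rw [if_neg hv, Real.exp_zero]
      apply le_of_eq
      rw [← h1 v]
      refine Finset.sum_congr rfl fun l _ => ?_
      simp only [f, hv, false_and, if_false, mul_one]
  have hmean0 : ∀ v, 0 ≤ ∑ l, lam v l * f v l :=
    fun v => Finset.sum_nonneg fun l _ => mul_nonneg (h0 v l) (hf v l)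
  have hP : ∏ v, ∑ l, lam v l * f v l ≤ Real.exp (2 * M) := by
    calc ∏ v, ∑ l, lam v l * f v l
        ≤ ∏ v, Real.exp (if v ∈ T then (Real.exp 1 - 1) * mass (lam v) (Q v) else 0) :=
          Finset.prod_le_prod (fun v _ => hmean0 v) (fun v _ => hmean v)
      _ = Real.exp ((Real.exp 1 - 1) * ∑ v ∈ T, mass (lam v) (Q v)) := by
          rw [← Real.exp_sum, Finset.sum_ite_mem, Finset.univ_inter, ← Finset.mul_sum]
      _ ≤ Real.exp (2 * M) := by
          apply Real.exp_le_exp.mpr
          have h3 : Real.exp 1 - 1 ≤ 2 := by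
            have := Real.exp_one_lt_d9; linarith
          have h4 : 0 ≤ Real.exp 1 - 1 := by
            have := Real.add_one_le_exp (1 : ℝ); linarith
          calc (Real.exp 1 - 1) * ∑ v ∈ T, mass (lam v) (Q v) ≤ (Real.exp 1 - 1) * M :=
                mul_le_mul_of_nonneg_left hM h4
            _ ≤ 2 * M := mul_le_mul_of_nonneg_right h3 hM0
  calc Real.exp (-(4 * M)) * ∏ v, ∑ l, lam v l * f v l
      ≤ Real.exp (-(4 * M)) * Real.exp (2 * M) :=
        mul_le_mul_of_nonneg_left hP (Real.exp_pos _).le
    _ = Real.exp (-(2 * M)) := by rw [← Real.exp_add]; congr 1; ring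

end Crest.TG.Depth
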