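import Crest.Agent.TG_DepthBase
import Crest.Agent.TG_DepthTail2
import Crest.Agent.TG_DepthHall

set_option autoImplicit false
set_option linter.all false

namespace Crest.TG.Depth
open Finset

section
variable {V β J Ω Λ : Type} [Fintype V] [DecidableEq V] [Fintype β] [DecidableEq β]
    [Fintype J] [DecidableEq J] [Fintype Ω] [Fintype Λ]

/-- the up-closed family generated by the types of `A0` -/
def gen (A : V → Λ → Finset J) (y : V → Λ) (A0 : Finset V) (b : Finset J) : Prop :=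
  ∃ v ∈ A0, A v (y v) ⊆ b

/-- the type `a` is captured by the up-closed `U` -/
def Cap (ρ : Ω → ℝ) (R1 : Ω → Finset J) (U : Finset J → Prop) (a : Finset J) : Prop :=
  mass ρ (fun ω => a ⊆ R1 ω ∧ ¬ U (R1 ω)) < mass ρ (fun ω => a ⊆ R1 ω) / 2

open Classical in
def B1 (p : ℝ) (R1 : Ω → Finset J) (A : V → Λ → Finset J) (y : V → Λ) (v : V) (x : β → Ω) : Prop :=
  ((univ.filter fun w => A v (y v) ⊆ R1 (x w)).card : ℝ) ≤ Fintype.card β * p / 2

open Classical in
def B2 (ρ : Ω → ℝ) (R1 : Ω → Finset J) (A : V → Λ → Finset J) (y : V → Λ) (A0 : Finset V) (v : V)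
    (x : β → Ω) : Prop :=
  ¬ Cap ρ R1 (gen A y A0) (A v (y v)) ∧
  4 * (univ.filter fun w => A v (y v) ⊆ R1 (x w) ∧ ¬ gen A y A0 (R1 (x w))).card ≤
    (univ.filter fun w => A v (y v) ⊆ R1 (x w)).card

open Classical in
def B3 (ρ : Ω → ℝ) (R : Ω → Finset J) (A : V → Λ → Finset J) (y : V → Λ) (A0 : Finset V)
    (x : β → Ω) : Prop :=
  ((univ.filter fun w => gen A y A0 (R (x w))).card : ℝ) ≤
    Fintype.card β * mass ρ (fun ω => gen A y A0 (R ω)) / 2

open Classical in
def B4 (ρ : Ω → ℝ) (B : ℝ) (R1 R : Ω → Finset J) (A : V → Λ → Finset J) (A0 : Finset V)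
    (y : V → Λ) : Prop :=
  4 * (B / 64 * mass ρ (fun ω => gen A y A0 (R ω))) ≤
    (((univ \ A0).filter fun v => Cap ρ R1 (gen A y A0) (A v (y v))).card : ℝ)

/-- deterministic step -/
theorem det_step (ρ : Ω → ℝ) (h0 : ∀ ω, 0 ≤ ρ ω)
    (R1 R : Ω → Finset J) (hR : ∀ ω, R1 ω ⊆ R ω)
    (A : V → Λ → Finset J)
    (p : ℝ) (hp : 0 < p) (hA : ∀ v l, p ≤ mass ρ (fun ω => A v l ⊆ R1 ω))
    (hβ : 64 < (Fintype.card β : ℝ) * p ^ 2) (y : V → Λ) (x : β → Ω)
    (hno : ¬ ∃ φ : V → β, Function.Injective φ ∧ ∀ v, A v (y v) ⊆ R (x (φ v))) :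
    (∃ v ∈ (univ : Finset V), B1 p R1 A y v x) ∨
    ∃ A0 ∈ (univ : Finset (Finset V)).filter (fun S => S.card ≤ ⌊8 / p⌋₊),
      A0.Nonempty ∧ ((∃ v ∈ (univ : Finset V), B2 ρ R1 A y A0 v x) ∨ B3 ρ R A y A0 x ∨
        B4 ρ (Fintype.card β) R1 R A A0 y) := by
  classical
  by_contra hcon
  push Not at hcon
  obtain ⟨hB1, hrest⟩ := hcon
  have hBpos : (0:ℝ) < Fintype.card β := by
    by_contra h
    have : (Fintype.card β : ℝ) * p ^ 2 ≤ 0 := mul_nonpos_of_nonpos_of_nonneg (not_lt.mp h) (by positivity)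
    linarith
  let N1 : V → Finset β := fun v => univ.filter fun w => A v (y v) ⊆ R1 (x w)
  let N : V → Finset β := fun v => univ.filter fun w => A v (y v) ⊆ R (x w)
  have hN1 : ∀ v, (Fintype.card β : ℝ) * p / 2 ≤ ((N1 v).card : ℝ) := by
    intro v
    have h := hB1 v (mem_univ v)
    unfold B1 at h
    exact (not_le.mp h).le
  have hno' : ¬ ∃ φ : V → β, Function.Injective φ ∧ ∀ v, φ v ∈ N v := by
    rintro ⟨φ, hφ, h⟩
    refine hno ⟨φ, hφ, fun v => ?_⟩
    have := h v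
    simp only [N, mem_filter, mem_univ, true_and] at this
    exact this
  obtain ⟨S, A0, hAS, hAne, hSN, hcard, hS⟩ :=
    finger N1 N ((Fintype.card β : ℝ) * p / 2) (by positivity) hN1 hno'
  have hA0 : (A0.card : ℝ) ≤ 8 / p := by
    rw [le_div_iff₀ hp]
    have : (A0.card : ℝ) * p * Fintype.card β ≤ 8 * Fintype.card β := by nlinarith
    exact le_of_mul_le_mul_right this hBpos
  have hA0' : A0 ∈ (univ : Finset (Finset V)).filter (fun S => S.card ≤ ⌊8 / p⌋₊) := by
    rw [mem_filter]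
    exact ⟨mem_univ _, Nat.le_floor hA0⟩
  have hr := hrest A0 hA0' hAne
  obtain ⟨hB2, hB3, hB4⟩ := hr
  -- every v in S is captured
  have hcap : ∀ v ∈ S, Cap ρ R1 (gen A y A0) (A v (y v)) := by
    intro v hv
    by_contra hc
    apply hB2 v (mem_univ v)
    refine ⟨hc, ?_⟩
    have h := hS v hv
    have e : N1 v \ A0.biUnion N1 =
        univ.filter fun w => A v (y v) ⊆ R1 (x w) ∧ ¬ gen A y A0 (R1 (x w)) := by
      ext w
      simp only [N1, gen, mem_sdiff, mem_filter, mem_univ, true_and, mem_biUnion, not_exists, not_and]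
    rw [e] at h
    convert h
  set u := mass ρ (fun ω => gen A y A0 (R ω)) with hu
  have hup : p ≤ u := by
    obtain ⟨v, hv⟩ := hAne
    refine (hA v (y v)).trans ?_
    exact mass_mono ρ h0 _ _ fun ω h => ⟨v, hv, h.trans (hR ω)⟩
  have hNA : (Fintype.card β : ℝ) * u / 2 < ((S.biUnion N).card : ℝ) := by
    unfold B3 at hB3
    push Not at hB3
    refine lt_of_lt_of_le hB3 ?_
    norm_cast
    apply card_le_card
    intro w hw
    rw [mem_filter] at hw
    obtain ⟨v, hv, h⟩ := hw.2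
    rw [mem_biUnion]
    exact ⟨v, hAS hv, by simp only [N, mem_filter, mem_univ, true_and]; exact h⟩
  have hScard : (S.card : ℝ) ≤ A0.card + 4 * ((Fintype.card β : ℝ) / 64 * u) := by
    unfold B4 at hB4
    push Not at hB4
    have h1 : S ⊆ A0 ∪ ((univ \ A0).filter fun v => Cap ρ R1 (gen A y A0) (A v (y v))) := by
      intro v hv
      by_cases h : v ∈ A0
      · exact mem_union_left _ h
      · apply mem_union_right
        rw [mem_filter, mem_sdiff]
        exact ⟨⟨mem_univ _, h⟩, hcap v hv⟩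
    have h2 := card_le_card h1
    have h3 := card_union_le A0 ((univ \ A0).filter fun v => Cap ρ R1 (gen A y A0) (A v (y v)))
    have h4 : (S.card : ℝ) ≤ A0.card +
      (((univ \ A0).filter fun v => Cap ρ R1 (gen A y A0) (A v (y v))).card : ℝ) := by
      exact_mod_cast h2.trans h3
    linarith
  have hSN' : ((S.biUnion N).card : ℝ) < S.card := by exact_mod_cast hSN
  have h7 : (Fintype.card β : ℝ) * u * 7 / 16 < 8 / p := by nlinarith
  rw [lt_div_iff₀ hp] at h7
  have h8 : (Fintype.card β : ℝ) * p ^ 2 ≤ (Fintype.card β : ℝ) * u * p := by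
    have : (Fintype.card β : ℝ) * p * p ≤ (Fintype.card β : ℝ) * u * p := by gcongr
    nlinarith
  nlinarith

/-- the label part -/
theorem B4_prob (ρ : Ω → ℝ) (h0 : ∀ ω, 0 ≤ ρ ω)
    (R1 R : Ω → Finset J) (hR : ∀ ω, R1 ω ⊆ R ω)
    (lam : V → Λ → ℝ) (hl0 : ∀ v l, 0 ≤ lam v l) (hl1 : ∀ v, ∑ l, lam v l = 1)
    (A : V → Λ → Finset J)
    (p : ℝ) (hp : 0 < p) (hA : ∀ v l, p ≤ mass ρ (fun ω => A v l ⊆ R1 ω))
    (B : ℝ) (hB : 0 ≤ B)
    (h2 : ∀ U : Finset J → Prop, (∀ a b, U a → a ⊆ b → U b) →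
      ∑ v, mass (lam v) (fun l => mass ρ (fun ω => A v l ⊆ R1 ω ∧ ¬ U (R1 ω)) <
        mass ρ (fun ω => A v l ⊆ R1 ω) / 2) ≤ B / 64 * mass ρ (fun ω => U (R ω)))
    (A0 : Finset V) (hne : A0.Nonempty) :
    prb lam (B4 ρ B R1 R A A0) ≤ Real.exp (-(B * p / 32)) := by
  classical
  rw [prb_mrg lam hl1 A0]
  have key : ∀ y : V → Λ, prb lam (fun y' => B4 ρ B R1 R A A0 (mrg A0 y y')) ≤
      Real.exp (-(B * p / 32)) := by
    intro y
    have hgen : ∀ y' : V → Λ, gen A (mrg A0 y y') A0 = gen A y A0 := by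
      intro y'
      funext b
      unfold gen mrg
      apply propext
      constructor
      · rintro ⟨v, hv, h⟩
        rw [if_pos hv] at h
        exact ⟨v, hv, h⟩
      · rintro ⟨v, hv, h⟩
        exact ⟨v, hv, by rw [if_pos hv]; exact h⟩
    set U := gen A y A0 with hU
    have hUup : ∀ a b, U a → a ⊆ b → U b := by
      rintro a b ⟨v, hv, h⟩ hab
      exact ⟨v, hv, h.trans hab⟩
    set M := B / 64 * mass ρ (fun ω => U (R ω)) with hM
    have hup : p ≤ mass ρ (fun ω => U (R ω)) := by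
      obtain ⟨v, hv⟩ := hne
      refine (hA v (y v)).trans ?_
      exact mass_mono ρ h0 _ _ fun ω h => ⟨v, hv, h.trans (hR ω)⟩
    have hsum : ∑ v ∈ univ \ A0, mass (lam v) (fun l => Cap ρ R1 U (A v l)) ≤ M := by
      refine le_trans (sum_le_sum_of_subset_of_nonneg (subset_univ _) ?_) (h2 U hUup)
      intro v _ _
      exact mass_nonneg _ (hl0 v) _
    have ht := upper_tail' lam hl0 hl1 (univ \ A0) (fun v l => Cap ρ R1 U (A v l)) M hsum
    refine (prb_mono lam hl0 _ _ ?_).trans (ht.trans ?_)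
    · intro y' hy'
      unfold B4 at hy'
      rw [hgen y'] at hy'
      have e : ((univ \ A0).filter fun v => Cap ρ R1 U (A v (mrg A0 y y' v))) =
          ((univ \ A0).filter fun v => Cap ρ R1 U (A v (y' v))) := by
        apply filter_congr
        intro v hv
        rw [mem_sdiff] at hv
        unfold mrg
        rw [if_neg hv.2]
      rw [e] at hy'
      convert hy'
    · apply Real.exp_le_exp.mpr
      have : B * p / 32 ≤ 2 * M := by
        rw [hM]
        have : B * p ≤ B * mass ρ (fun ω => U (R ω)) := by gcongr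
        linarith
      linarith
  calc ∑ y, pw lam y * prb lam (fun y' => B4 ρ B R1 R A A0 (mrg A0 y y'))
      ≤ ∑ y, pw lam y * Real.exp (-(B * p / 32)) :=
        sum_le_sum fun y _ => mul_le_mul_of_nonneg_left (key y) (pw_nonneg lam hl0 y)
    _ = Real.exp (-(B * p / 32)) := by
        rw [← sum_mul, sum_pw lam hl1, one_mul]

end

/-- QUENCHED DEPTH-ONE MATCHING. `ρ` = law of one row `ω` (with `R1 ω ⊆ R ω`, rows indexed by `β`),
`lam v` = law of the label of `v`, `A v l` = type of `v`. Hypothesis `h2` is the domination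
(one application of `od_dom`). -/
theorem depth_one {V β J Ω Λ : Type} [Fintype V] [DecidableEq V] [Fintype β] [DecidableEq β]
    [Fintype J] [DecidableEq J] [Fintype Ω] [Fintype Λ]
    (ρ : Ω → ℝ) (h0 : ∀ ω, 0 ≤ ρ ω) (h1 : ∑ ω, ρ ω = 1)
    (R1 R : Ω → Finset J) (hR : ∀ ω, R1 ω ⊆ R ω)
    (lam : V → Λ → ℝ) (hl0 : ∀ v l, 0 ≤ lam v l) (hl1 : ∀ v, ∑ l, lam v l = 1)
    (A : V → Λ → Finset J)
    (p : ℝ) (hp : 0 < p) (hA : ∀ v l, p ≤ mass ρ (fun ω => A v l ⊆ R1 ω))
    (h2 : ∀ U : Finset J → Prop, (∀ a b, U a → a ⊆ b → U b) →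
      ∑ v, mass (lam v) (fun l => mass ρ (fun ω => A v l ⊆ R1 ω ∧ ¬ U (R1 ω)) <
        mass ρ (fun ω => A v l ⊆ R1 ω) / 2) ≤ (Fintype.card β : ℝ) / 64 * mass ρ (fun ω => U (R ω)))
    (hβ : 64 < (Fintype.card β : ℝ) * p ^ 2) :
    ∑ y : V → Λ, pw lam y * prb (fun _ : β => ρ) (fun x =>
        ¬ ∃ φ : V → β, Function.Injective φ ∧ ∀ v, A v (y v) ⊆ R (x (φ v))) ≤
      ((Fintype.card V : ℝ) + 1) ^ (⌊8 / p⌋₊ + 2) * 4 *
        Real.exp (-(Fintype.card β * p / 32)) := by
  classical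
  set B : ℝ := (Fintype.card β : ℝ) with hB
  set q : ℕ := ⌊8 / p⌋₊ with hq
  set NN : ℝ := (Fintype.card V : ℝ) with hNN
  set E : ℝ := Real.exp (-(B * p / 32)) with hE
  have hB0 : 0 ≤ B := by rw [hB]; positivity
  have hNN0 : 0 ≤ NN := by rw [hNN]; positivity
  have hE0 : 0 < E := Real.exp_pos _
  have hBp : 0 ≤ B * p := mul_nonneg hB0 hp.le
  have hr0 : ∀ (w : β) (ω : Ω), 0 ≤ (fun _ : β => ρ) w ω := fun _ ω => h0 ω
  have hr1 : ∀ w : β, ∑ ω, (fun _ : β => ρ) w ω = 1 := fun _ => h1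
  let F := (univ : Finset (Finset V)).filter (fun S => S.card ≤ q)
  have hF : (F.card : ℝ) ≤ (NN + 1) ^ q := by
    have := card_small (V := V) q
    rw [hNN]
    exact_mod_cast this
  -- pointwise in y
  have hy : ∀ y : V → Λ, prb (fun _ : β => ρ) (fun x =>
        ¬ ∃ φ : V → β, Function.Injective φ ∧ ∀ v, A v (y v) ⊆ R (x (φ v))) ≤
      NN * E + ∑ A0 ∈ F, ((NN * E + E) + if (A0.Nonempty ∧ B4 ρ B R1 R A A0 y) then 1 else 0) := by
    intro y
    have hb1 : ∀ v, prb (fun _ : β => ρ) (B1 p R1 A y v) ≤ E := by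
      intro v
      refine (lower_tail (β := β) ρ h0 h1 (fun ω => A v (y v) ⊆ R1 ω) p hp.le (hA v (y v))).trans' ?_ |>.trans ?_
      · refine prb_mono _ hr0 _ _ fun x hx => ?_
        unfold B1 at hx
        convert hx
      · apply Real.exp_le_exp.mpr
        linarith
    have hb2 : ∀ A0 v, prb (fun _ : β => ρ) (B2 ρ R1 A y A0 v) ≤ E := by
      intro A0 v
      by_cases hc : Cap ρ R1 (gen A y A0) (A v (y v))
      · refine le_trans (le_of_eq ?_) hE0.le
        unfold prb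
        apply sum_eq_zero
        intro x _
        rw [if_neg]
        rintro ⟨h, _⟩
        exact h hc
      · have hc' := hc
        unfold Cap at hc'
        rw [not_lt] at hc'
        refine (ratio_tail' (β := β) ρ h0 h1 (fun ω => A v (y v) ⊆ R1 ω)
          (fun ω => A v (y v) ⊆ R1 ω ∧ ¬ gen A y A0 (R1 ω)) (fun ω h => h.1) hc' p hp.le
          (hA v (y v))).trans' ?_ |>.trans ?_
        · refine prb_mono _ hr0 _ _ fun x hx => ?_
          unfold B2 at hx
          convert hx.2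
        · apply Real.exp_le_exp.mpr
          linarith
    have hb3 : ∀ A0 : Finset V, A0.Nonempty → prb (fun _ : β => ρ) (B3 ρ R A y A0) ≤ E := by
      intro A0 hne
      have hup : p ≤ mass ρ (fun ω => gen A y A0 (R ω)) := by
        obtain ⟨v, hv⟩ := hne
        refine (hA v (y v)).trans ?_
        exact mass_mono ρ h0 _ _ fun ω h => ⟨v, hv, h.trans (hR ω)⟩
      refine (lower_tail (β := β) ρ h0 h1 (fun ω => gen A y A0 (R ω))
        (mass ρ (fun ω => gen A y A0 (R ω))) (hp.le.trans hup) le_rfl).trans' ?_ |>.trans ?_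
      · refine prb_mono _ hr0 _ _ fun x hx => ?_
        unfold B3 at hx
        convert hx
      · apply Real.exp_le_exp.mpr
        have : B * p ≤ B * mass ρ (fun ω => gen A y A0 (R ω)) := by gcongr
        linarith
    refine (prb_mono (fun _ : β => ρ) hr0 _ (fun x => (∃ v ∈ (univ : Finset V), B1 p R1 A y v x) ∨
        ∃ A0 ∈ F, (A0.Nonempty ∧ ((∃ v ∈ (univ : Finset V), B2 ρ R1 A y A0 v x) ∨ B3 ρ R A y A0 x ∨
        B4 ρ B R1 R A A0 y))) fun x hx => ?_).trans ?_
    · exact det_step ρ h0 R1 R hR A p hp hA hβ y x hx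
    refine (prb_or _ hr0 _ _).trans (add_le_add ?_ ?_)
    · refine (prb_exists _ hr0 _ _).trans ?_
      refine (sum_le_sum fun v _ => hb1 v).trans ?_
      rw [sum_const, nsmul_eq_mul, card_univ]
    · refine (prb_exists _ hr0 _ _).trans (sum_le_sum fun A0 _ => ?_)
      by_cases hne : A0.Nonempty
      · refine (prb_mono (fun _ : β => ρ) hr0 _ (fun x => (∃ v ∈ (univ : Finset V), B2 ρ R1 A y A0 v x) ∨
          (B3 ρ R A y A0 x ∨ B4 ρ B R1 R A A0 y)) fun x hx => hx.2).trans ?_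
        refine (prb_or _ hr0 _ _).trans ?_
        rw [add_assoc]
        refine add_le_add ?_ ((prb_or _ hr0 _ _).trans (add_le_add (hb3 A0 hne) ?_))
        · refine (prb_exists _ hr0 _ _).trans ?_
          refine (sum_le_sum fun v _ => hb2 A0 v).trans ?_
          rw [sum_const, nsmul_eq_mul, card_univ]
        · rw [prb_const _ hr1]
          simp [hne]
      · have h0' : prb (fun _ : β => ρ) (fun x => A0.Nonempty ∧
            ((∃ v ∈ (univ : Finset V), B2 ρ R1 A y A0 v x) ∨ B3 ρ R A y A0 x ∨ B4 ρ B R1 R A A0 y)) = 0 := by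
          unfold prb
          apply sum_eq_zero
          intro x _
          rw [if_neg]
          rintro ⟨h, _⟩
          exact hne h
        rw [h0']
        have : 0 ≤ NN * E + E := by positivity
        split_ifs <;> linarith
  have hsum : ∑ y : V → Λ, pw lam y * prb (fun _ : β => ρ) (fun x =>
        ¬ ∃ φ : V → β, Function.Injective φ ∧ ∀ v, A v (y v) ⊆ R (x (φ v))) ≤
      NN * E + ∑ A0 ∈ F, ((NN * E + E) + E) := by
    refine (sum_le_sum fun y _ => mul_le_mul_of_nonneg_left (hy y) (pw_nonneg lam hl0 y)).trans ?_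
    simp only [mul_add, mul_sum]
    rw [sum_add_distrib, sum_comm]
    refine add_le_add ?_ (sum_le_sum fun A0 _ => ?_)
    · rw [← sum_mul, sum_pw lam hl1, one_mul]
    · rw [sum_add_distrib, sum_add_distrib, ← sum_mul, ← sum_mul, sum_pw lam hl1, one_mul, one_mul]
      gcongr
      by_cases hne : A0.Nonempty
      · refine le_trans (le_of_eq ?_) (B4_prob ρ h0 R1 R hR lam hl0 hl1 A p hp hA B hB0 h2 A0 hne)
        unfold prb
        refine sum_congr rfl fun y _ => ?_
        by_cases h : B4 ρ B R1 R A A0 y <;> simp [h, hne]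
      · refine le_trans (le_of_eq ?_) hE0.le
        apply sum_eq_zero
        intro y _
        simp [hne]
  refine hsum.trans ?_
  rw [sum_const, nsmul_eq_mul]
  have hpow : (1:ℝ) ≤ (NN + 1) ^ q := one_le_pow₀ (by linarith)
  have h3 : (F.card : ℝ) * (NN * E + E + E) ≤ (NN + 1) ^ q * (NN * E + E + E) := by
    gcongr
  have h4 : NN * E ≤ (NN + 1) ^ q * (NN * E) := by
    nlinarith [mul_nonneg hNN0 hE0.le]
  have h5 : (NN + 1) ^ (q + 2) = (NN + 1) ^ q * ((NN + 1) * (NN + 1)) := by ring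
  rw [h5]
  have h6 : NN * E + (NN * E + E + E) ≤ (NN + 1) * (NN + 1) * 4 * E := by
    nlinarith [mul_nonneg hNN0 hE0.le, mul_nonneg (mul_nonneg hNN0 hNN0) hE0.le]
  calc NN * E + (F.card : ℝ) * (NN * E + E + E)
      ≤ (NN + 1) ^ q * (NN * E + (NN * E + E + E)) := by linarith
    _ ≤ (NN + 1) ^ q * ((NN + 1) * (NN + 1) * 4 * E) := by gcongr
    _ = (NN + 1) ^ q * ((NN + 1) * (NN + 1)) * 4 * E := by ring

end Crest.TG.Depth
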