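import Crest.Agent.TG_DepthDefs

set_option autoImplicit false
set_option linter.all false

namespace Crest.TG.Depth
open Finset

variable {V Λ : Type} [Fintype V] [Fintype Λ]

theorem pw_nonneg (lam : V → Λ → ℝ) (h0 : ∀ v l, 0 ≤ lam v l) (y : V → Λ) : 0 ≤ pw lam y :=
  prod_nonneg fun v _ => h0 v (y v)

theorem sum_pw [DecidableEq V] (lam : V → Λ → ℝ) (h1 : ∀ v, ∑ l, lam v l = 1) :
    ∑ y : V → Λ, pw lam y = 1 := by
  unfold pw
  have h := Finset.prod_univ_sum (fun _ : V => (univ : Finset Λ)) (fun v l => lam v l)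
  rw [Fintype.piFinset_univ] at h
  rw [← h]
  simp [h1]

theorem prb_nonneg [DecidableEq V] (lam : V → Λ → ℝ) (h0 : ∀ v l, 0 ≤ lam v l) (E : (V → Λ) → Prop) :
    0 ≤ prb lam E := by
  classical
  unfold prb
  refine sum_nonneg fun y _ => ?_
  split_ifs
  · exact pw_nonneg lam h0 y
  · exact le_rfl

theorem prb_mono [DecidableEq V] (lam : V → Λ → ℝ) (h0 : ∀ v l, 0 ≤ lam v l) (E F : (V → Λ) → Prop)
    (h : ∀ y, E y → F y) : prb lam E ≤ prb lam F := by
  classical
  unfold prb
  refine sum_le_sum fun y _ => ?_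
  by_cases hE : E y
  · simp [hE, h y hE]
  · simp only [hE, if_false]
    split_ifs
    · exact pw_nonneg lam h0 y
    · exact le_rfl

theorem prb_or [DecidableEq V] (lam : V → Λ → ℝ) (h0 : ∀ v l, 0 ≤ lam v l) (E F : (V → Λ) → Prop) :
    prb lam (fun y => E y ∨ F y) ≤ prb lam E + prb lam F := by
  classical
  unfold prb
  rw [← sum_add_distrib]
  refine sum_le_sum fun y _ => ?_
  have := pw_nonneg lam h0 y
  by_cases hE : E y <;> by_cases hF : F y <;> simp [hE, hF, this]

theorem prb_exists [DecidableEq V] (lam : V → Λ → ℝ) (h0 : ∀ v l, 0 ≤ lam v l) {ι : Type} (s : Finset ι)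
    (E : ι → (V → Λ) → Prop) :
    prb lam (fun y => ∃ i ∈ s, E i y) ≤ ∑ i ∈ s, prb lam (E i) := by
  classical
  unfold prb
  rw [sum_comm]
  refine sum_le_sum fun y _ => ?_
  have hp := pw_nonneg lam h0 y
  have h0' : ∀ i ∈ s, (0 : ℝ) ≤ (if E i y then pw lam y else 0) := by
    intro i _
    split_ifs
    · exact hp
    · exact le_rfl
  split_ifs with h
  · obtain ⟨i, hi, hE⟩ := h
    have h2 := single_le_sum (f := fun i => (if E i y then pw lam y else 0)) h0' hi
    simpa [hE] using h2
  · exact sum_nonneg h0'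

theorem prb_const [DecidableEq V] (lam : V → Λ → ℝ) (h1 : ∀ v, ∑ l, lam v l = 1) (C : Prop) [Decidable C] :
    prb lam (fun _ => C) = if C then 1 else 0 := by
  classical
  unfold prb
  by_cases hC : C
  · simp [hC, sum_pw lam h1]
  · simp [hC]

theorem mass_nonneg {Ω : Type} [Fintype Ω] (ρ : Ω → ℝ) (h0 : ∀ ω, 0 ≤ ρ ω) (P : Ω → Prop) :
    0 ≤ mass ρ P := by
  classical
  unfold mass
  refine sum_nonneg fun ω _ => ?_
  split_ifs
  · exact h0 ω
  · exact le_rfl

theorem mass_mono {Ω : Type} [Fintype Ω] (ρ : Ω → ℝ) (h0 : ∀ ω, 0 ≤ ρ ω) (P Q : Ω → Prop)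
    (h : ∀ ω, P ω → Q ω) : mass ρ P ≤ mass ρ Q := by
  classical
  unfold mass
  refine sum_le_sum fun ω _ => ?_
  by_cases hP : P ω
  · simp [hP, h ω hP]
  · simp only [hP, if_false]
    split_ifs
    · exact h0 ω
    · exact le_rfl

/-- merge of two configurations: `y` on `A`, `y'` off `A` -/
def mrg [DecidableEq V] (A : Finset V) (y y' : V → Λ) : V → Λ := fun v => if v ∈ A then y v else y' v

theorem mrg_mrg [DecidableEq V] (A : Finset V) (y y' : V → Λ) :
    mrg A (mrg A y y') (mrg A y' y) = y := by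
  funext v
  unfold mrg
  by_cases h : v ∈ A <;> simp [h]

theorem pw_mrg [DecidableEq V] (lam : V → Λ → ℝ) (A : Finset V) (y y' : V → Λ) :
    pw lam (mrg A y y') * pw lam (mrg A y' y) = pw lam y * pw lam y' := by
  unfold pw mrg
  rw [← prod_mul_distrib, ← prod_mul_distrib]
  refine prod_congr rfl fun v _ => ?_
  by_cases h : v ∈ A
  · simp [h]
  · simp [h, mul_comm]

theorem prb_mrg [DecidableEq V] (lam : V → Λ → ℝ) (h1 : ∀ v, ∑ l, lam v l = 1) (A : Finset V)
    (E : (V → Λ) → Prop) :
    prb lam E = ∑ y, pw lam y * prb lam (fun y' => E (mrg A y y')) := by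
  classical
  let e : (V → Λ) × (V → Λ) ≃ (V → Λ) × (V → Λ) :=
    { toFun := fun z => (mrg A z.1 z.2, mrg A z.2 z.1)
      invFun := fun z => (mrg A z.1 z.2, mrg A z.2 z.1)
      left_inv := fun z => Prod.ext (mrg_mrg A z.1 z.2) (mrg_mrg A z.2 z.1)
      right_inv := fun z => Prod.ext (mrg_mrg A z.1 z.2) (mrg_mrg A z.2 z.1) }
  have hR : ∑ y, pw lam y * prb lam (fun y' => E (mrg A y y')) =
      ∑ z : (V → Λ) × (V → Λ), pw lam z.1 * pw lam z.2 * (if E (mrg A z.1 z.2) then (1:ℝ) else 0) := by
    rw [Fintype.sum_prod_type]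
    refine sum_congr rfl fun y _ => ?_
    unfold prb
    rw [mul_sum]
    refine sum_congr rfl fun y' _ => ?_
    by_cases h : E (mrg A y y') <;> simp [h]
  have hL : prb lam E =
      ∑ z : (V → Λ) × (V → Λ), pw lam z.1 * pw lam z.2 * (if E z.1 then (1:ℝ) else 0) := by
    rw [Fintype.sum_prod_type]
    unfold prb
    refine sum_congr rfl fun y _ => ?_
    have : ∀ y' : V → Λ, pw lam y * pw lam y' * (if E y then (1:ℝ) else 0) =
        (pw lam y * (if E y then (1:ℝ) else 0)) * pw lam y' := fun y' => by ring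
    simp only [this]
    rw [← mul_sum, sum_pw lam h1]
    by_cases h : E y <;> simp [h]
  rw [hR, hL]
  refine (Fintype.sum_equiv e _ _ fun z => ?_).symm
  simp only [e, Equiv.coe_fn_mk]
  rw [pw_mrg]

theorem card_small [DecidableEq V] (q : ℕ) :
    ((univ : Finset (Finset V)).filter (fun S => S.card ≤ q)).card ≤ (Fintype.card V + 1) ^ q := by
  classical
  induction q with
  | zero =>
    rw [pow_zero]
    refine le_trans (card_le_card (t := {∅}) ?_) (by simp)
    intro S hS
    rw [mem_filter] at hS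
    simpa using hS.2
  | succ q ih =>
    let F := (univ : Finset (Finset V)).filter (fun S => S.card ≤ q)
    let g : Option V × Finset V → Finset V := fun z => match z.1 with
      | none => z.2
      | some a => insert a z.2
    have hsub : (univ : Finset (Finset V)).filter (fun S => S.card ≤ q + 1) ⊆
        ((univ : Finset (Option V)) ×ˢ F).image g := by
      intro S hS
      rw [mem_filter] at hS
      rw [mem_image]
      by_cases h : S.card ≤ q
      · exact ⟨(none, S), by simp [F, h], rfl⟩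
      · have hne : S.Nonempty := by
          rw [← card_pos]; omega
        obtain ⟨a, ha⟩ := hne
        refine ⟨(some a, S.erase a), ?_, ?_⟩
        · simp only [mem_product, mem_univ, true_and, F, mem_filter]
          rw [card_erase_of_mem ha]; omega
        · exact insert_erase ha
    calc _ ≤ (((univ : Finset (Option V)) ×ˢ F).image g).card := card_le_card hsub
      _ ≤ ((univ : Finset (Option V)) ×ˢ F).card := card_image_le
      _ = (Fintype.card V + 1) * F.card := by
          rw [card_product, card_univ, Fintype.card_option]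
      _ ≤ (Fintype.card V + 1) * (Fintype.card V + 1) ^ q := Nat.mul_le_mul_left _ ih
      _ = (Fintype.card V + 1) ^ (q + 1) := by ring

end Crest.TG.Depth
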