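import Mathlib

set_option autoImplicit false

/-! Depth-one step of S0073: finite product weights. -/
namespace Crest.TG.Depth
open Finset

/-- product weight of a configuration -/
noncomputable def pw {V Λ : Type} [Fintype V] (lam : V → Λ → ℝ) (y : V → Λ) : ℝ :=
  ∏ v, lam v (y v)

open Classical in
/-- weight of an event -/
noncomputable def prb {V Λ : Type} [Fintype V] [DecidableEq V] [Fintype Λ]
    (lam : V → Λ → ℝ) (E : (V → Λ) → Prop) : ℝ :=
  ∑ y : V → Λ, if E y then pw lam y else 0

open Classical in
/-- weight of a one-coordinate event -/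
noncomputable def mass {Ω : Type} [Fintype Ω] (ρ : Ω → ℝ) (P : Ω → Prop) : ℝ :=
  ∑ ω, if P ω then ρ ω else 0

end Crest.TG.Depth
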