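import Mathlib
import Crest.Agent.TG_Thin
import Crest.Agent.TG5_M
import Crest.Agent.TG_DepthDefs

set_option autoImplicit false

namespace Crest.TG.Depth
open Finset

/-- binomial weight on subsets -/
noncomputable def bern {J : Type} [Fintype J] (p : ℝ) (X : Finset J) : ℝ :=
  p ^ X.card * (1 - p) ^ (Fintype.card J - X.card)

variable {J : Type} [Fintype J] [DecidableEq J]

theorem bern_nonneg (p : ℝ) (h0 : 0 ≤ p) (h1 : p ≤ 1) (X : Finset J) : 0 ≤ bern p X := by
  unfold bern
  have : 0 ≤ 1 - p := by linarith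
  positivity

theorem M_univ (p : ℝ) (f : Finset J → ℝ) :
    TG5.M p (Finset.univ : Finset J) f = ∑ X : Finset J, bern p X * f X := by
  unfold TG5.M bern
  rw [Finset.powerset_univ, Finset.card_univ]

theorem sum_bern (p : ℝ) : ∑ X : Finset J, bern p X = 1 := by
  have h := M_univ (J := J) p (fun _ => 1)
  rw [TG5.M_const] at h
  simpa using h.symm

/-- restriction of a binomial set to `Y`. -/
theorem M_inter (p : ℝ) (Y : Finset J) (s : Finset J) :
    ∀ f : Finset J → ℝ, TG5.M p s (fun X => f (Y ∩ X)) = TG5.M p (Y ∩ s) f := by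
  induction s using Finset.induction_on with
  | empty => intro f; simp [TG5.M]
  | insert e s he ih =>
    intro f
    rw [TG5.M_insert p he]
    by_cases heY : e ∈ Y
    · have h1 : Y ∩ insert e s = insert e (Y ∩ s) := by
        rw [Finset.inter_insert_of_mem heY]
      have h2 : e ∉ Y ∩ s := fun h => he (Finset.mem_inter.mp h).2
      rw [h1, TG5.M_insert p h2, ih f]
      congr 2
      rw [← ih (fun X => f (insert e X))]
      congr 1
      funext X
      rw [Finset.inter_insert_of_mem heY]
    · have h1 : Y ∩ insert e s = Y ∩ s := by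
        rw [Finset.inter_insert_of_notMem heY]
      rw [h1]
      have h3 : (fun X => f (Y ∩ insert e X)) = fun X => f (Y ∩ X) := by
        funext X
        rw [Finset.inter_insert_of_notMem heY]
      rw [h3, ih f]
      ring

/-- the law of one row: independent `P1`-random and `P'`-random subsets. -/
noncomputable def rowlaw (P1 P' : ℝ) (ω : Finset J × Finset J) : ℝ := bern P1 ω.1 * bern P' ω.2

theorem rowlaw_nonneg (P1 P' : ℝ) (h0 : 0 ≤ P1) (h1 : P1 ≤ 1) (h0' : 0 ≤ P') (h1' : P' ≤ 1)
    (ω : Finset J × Finset J) : 0 ≤ rowlaw P1 P' ω :=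
  mul_nonneg (bern_nonneg _ h0 h1 _) (bern_nonneg _ h0' h1' _)

theorem sum_rowlaw (P1 P' : ℝ) : ∑ ω : Finset J × Finset J, rowlaw P1 P' ω = 1 := by
  unfold rowlaw
  rw [Fintype.sum_prod_type]
  simp_rw [← Finset.mul_sum, sum_bern, mul_one]
  exact sum_bern P1

open Classical in
theorem mass_row_fst (P1 P' : ℝ) (Q : Finset J → Prop) :
    mass (rowlaw P1 P') (fun ω : Finset J × Finset J => Q ω.1)
      = ∑ X : Finset J, bern P1 X * (if Q X then 1 else 0) := by
  unfold mass rowlaw
  rw [Fintype.sum_prod_type]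
  apply Finset.sum_congr rfl
  intro X _
  by_cases h : Q X
  · simp only [h, if_true, mul_one]
    rw [← Finset.mul_sum, sum_bern, mul_one]
  · simp [h]

open Classical in
theorem mass_row_sub (P1 P' : ℝ) (a : Finset J) :
    mass (rowlaw P1 P') (fun ω : Finset J × Finset J => a ⊆ ω.1) = P1 ^ a.card := by
  rw [mass_row_fst P1 P' (fun X => a ⊆ X), ← M_univ]
  have h := TG5.M_cond P1 (Finset.univ : Finset J) a (Finset.subset_univ _) (fun _ => (1 : ℝ))
  rw [TG5.M_const, mul_one] at h
  refine Eq.trans (congrArg (TG5.M P1 Finset.univ) (funext fun X => ?_)) h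
  by_cases hX : a ⊆ X <;> simp [hX]

open Classical in
theorem mass_row_sub_not (P1 P' : ℝ) (a : Finset J) (U : Finset J → Prop) :
    mass (rowlaw P1 P') (fun ω : Finset J × Finset J => a ⊆ ω.1 ∧ ¬ U ω.1)
      = P1 ^ a.card * (1 - TG5.M P1 (Finset.univ : Finset J)
          (fun X => if U (a ∪ X) then (1 : ℝ) else 0)) := by
  rw [mass_row_fst P1 P' (fun X => a ⊆ X ∧ ¬ U X), ← M_univ]
  have h := TG5.M_cond P1 (Finset.univ : Finset J) a (Finset.subset_univ _)
    (fun X => if U X then (0 : ℝ) else 1)
  refine Eq.trans (congrArg (TG5.M P1 Finset.univ) (funext fun X => ?_)) (Eq.trans h ?_)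
  · by_cases h1 : a ⊆ X <;> by_cases h2 : U X <;> simp [h1, h2]
  congr 1
  have e2 : TG5.M P1 (Finset.univ : Finset J) (fun X => if U (a ∪ X) then (0 : ℝ) else 1)
      + TG5.M P1 (Finset.univ : Finset J) (fun X => if U (a ∪ X) then (1 : ℝ) else 0) = 1 := by
    rw [← TG5.M_add]
    refine Eq.trans (congrArg (TG5.M P1 Finset.univ) (funext fun X => ?_))
      (TG5.M_const P1 (Finset.univ : Finset J) 1)
    by_cases h2 : U (a ∪ X) <;> simp [h2]
  linarith

open Classical in
/-- Hypothesis `h2` of `depth_one` from exact domination. -/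
theorem h2_glue {V : Type} [Fintype V] [DecidableEq V] (N : ℝ)
    (P1 P' θ τ0 : ℝ) (hP1 : 0 < P1) (hP1' : P1 ≤ 1) (hP'0 : 0 ≤ P') (hP'1 : P' < 1)
    (hθ0 : 0 ≤ θ) (hθ1 : θ < 1) (hτ0 : 0 ≤ τ0) (hodds : θ / (1 - θ) * τ0 ≤ P' / (1 - P'))
    (Y : V → Finset J) (hcard : (Fintype.card V : ℝ) ≤ N / 128) (hN : 0 ≤ N)
    (hS : ∀ S : Finset J, S.Nonempty →
      ((Finset.univ.filter fun v => S ⊆ Y v).card : ℝ) ≤ N / 128 * τ0 ^ S.card)
    (U : Finset J → Prop) (hU : ∀ a b, U a → a ⊆ b → U b) :
    ∑ v : V, mass (fun l : Finset J => bern θ l) (fun l =>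
        mass (rowlaw P1 P') (fun ω => Y v ∩ l ⊆ ω.1 ∧ ¬ U ω.1) <
        mass (rowlaw P1 P') (fun ω => Y v ∩ l ⊆ ω.1) / 2)
      ≤ N / 64 * mass (rowlaw P1 P') (fun ω : Finset J × Finset J => U (ω.1 ∪ ω.2)) := by
  set h : Finset J → ℝ := fun a => TG5.M P1 (Finset.univ : Finset J)
    (fun X => if U (a ∪ X) then (1 : ℝ) else 0) with hh
  have hmono : ∀ a b : Finset J, a ⊆ b → h a ≤ h b := by
    intro a b hab
    apply TG5.M_mono hP1.le hP1'
    intro X _
    by_cases h1 : U (a ∪ X)
    · have h2 : U (b ∪ X) := hU _ _ h1 (Finset.union_subset_union hab (Finset.Subset.refl _))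
      simp [h1, h2]
    · simp only [h1, if_false]
      split_ifs <;> norm_num
  set U' : Finset (Finset J) := Finset.univ.filter fun a => 1 / 2 < h a with hU'
  have hU'up : ∀ A ∈ U', ∀ B : Finset J, A ⊆ B → B ∈ U' := by
    intro A hA B hAB
    rw [hU', Finset.mem_filter] at hA ⊢
    exact ⟨Finset.mem_univ _, lt_of_lt_of_le hA.2 (hmono A B hAB)⟩
  have hcond : ∀ a : Finset J,
      (mass (rowlaw P1 P') (fun ω : Finset J × Finset J => a ⊆ ω.1 ∧ ¬ U ω.1) <
        mass (rowlaw P1 P') (fun ω : Finset J × Finset J => a ⊆ ω.1) / 2) ↔ a ∈ U' := by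
    intro a
    rw [mass_row_sub_not, mass_row_sub, hU', Finset.mem_filter]
    have hp : 0 < P1 ^ a.card := pow_pos hP1 _
    constructor
    · intro h1
      refine ⟨Finset.mem_univ _, ?_⟩
      by_contra h2
      push Not at h2
      have h3 : (1 : ℝ) / 2 ≤ 1 - h a := by linarith
      have h4 : P1 ^ a.card * (1 / 2) ≤ P1 ^ a.card * (1 - h a) :=
        mul_le_mul_of_nonneg_left h3 hp.le
      simp only [hh] at h4
      linarith
    · rintro ⟨_, h1⟩
      have h3 : 1 - h a < (1 : ℝ) / 2 := by linarith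
      have h4 : P1 ^ a.card * (1 - h a) < P1 ^ a.card * (1 / 2) :=
        mul_lt_mul_of_pos_left h3 hp
      simp only [hh] at h4
      linarith
  -- the mass of one vertex
  have hmass : ∀ v : V, mass (fun l : Finset J => bern θ l) (fun l =>
        mass (rowlaw P1 P') (fun ω => Y v ∩ l ⊆ ω.1 ∧ ¬ U ω.1) <
        mass (rowlaw P1 P') (fun ω => Y v ∩ l ⊆ ω.1) / 2)
      = ∑ A ∈ (Y v).powerset with A ∈ U', θ ^ A.card * (1 - θ) ^ ((Y v).card - A.card) := by
    intro v
    have e1 : mass (fun l : Finset J => bern θ l) (fun l =>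
        mass (rowlaw P1 P') (fun ω => Y v ∩ l ⊆ ω.1 ∧ ¬ U ω.1) <
        mass (rowlaw P1 P') (fun ω => Y v ∩ l ⊆ ω.1) / 2)
        = ∑ l : Finset J, bern θ l * (if Y v ∩ l ∈ U' then (1 : ℝ) else 0) := by
      unfold mass
      apply Finset.sum_congr rfl
      intro l _
      have := hcond (Y v ∩ l)
      unfold mass at this
      by_cases h1 : Y v ∩ l ∈ U'
      · rw [if_pos (this.mpr h1), if_pos h1, mul_one]
      · rw [if_neg (fun h2 => h1 (this.mp h2)), if_neg h1, mul_zero]
    rw [e1, ← M_univ θ (fun l => if Y v ∩ l ∈ U' then (1 : ℝ) else 0),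
      M_inter θ (Y v) Finset.univ (fun X => if X ∈ U' then (1 : ℝ) else 0), Finset.inter_univ]
    unfold TG5.M
    rw [Finset.sum_filter]
    apply Finset.sum_congr rfl
    intro A _
    by_cases hAU : A ∈ U' <;> simp [hAU]
  simp_rw [hmass]
  -- lower bound of the right-hand side
  have hRHS : 1 / 2 * ∑ R ∈ U', P' ^ R.card * (1 - P') ^ (Fintype.card J - R.card)
      ≤ mass (rowlaw P1 P') (fun ω : Finset J × Finset J => U (ω.1 ∪ ω.2)) := by
    have e1 : mass (rowlaw P1 P') (fun ω : Finset J × Finset J => U (ω.1 ∪ ω.2))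
        = ∑ R : Finset J, bern P' R * h R := by
      unfold mass rowlaw
      rw [Fintype.sum_prod_type_right]
      apply Finset.sum_congr rfl
      intro R _
      rw [hh]
      simp only
      rw [M_univ, Finset.mul_sum]
      apply Finset.sum_congr rfl
      intro X _
      rw [Finset.union_comm R X]
      split_ifs <;> ring
    rw [e1, Finset.mul_sum]
    calc ∑ R ∈ U', 1 / 2 * (P' ^ R.card * (1 - P') ^ (Fintype.card J - R.card))
        ≤ ∑ R ∈ U', bern P' R * h R := by
          apply Finset.sum_le_sum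
          intro R hR
          have h1 : 1 / 2 < h R := (Finset.mem_filter.mp hR).2
          have h2 := bern_nonneg (J := J) P' hP'0 hP'1.le R
          have : 1 / 2 * bern P' R ≤ bern P' R * h R := by nlinarith
          exact this
      _ ≤ ∑ R : Finset J, bern P' R * h R := by
          apply Finset.sum_le_sum_of_subset_of_nonneg (Finset.subset_univ _)
          intro R _ _
          apply mul_nonneg (bern_nonneg P' hP'0 hP'1.le R)
          exact TG5.M_nonneg hP1.le hP1' _ (fun X _ => by split_ifs <;> norm_num)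
  have hm0 : 0 ≤ mass (rowlaw P1 P') (fun ω : Finset J × Finset J => U (ω.1 ∪ ω.2)) := by
    unfold mass
    apply Finset.sum_nonneg
    intro ω _
    split_ifs
    · exact rowlaw_nonneg P1 P' hP1.le hP1' hP'0 hP'1.le ω
    · exact le_refl _
  by_cases hV : IsEmpty V
  · simp only [Finset.univ_eq_empty, Finset.sum_empty]
    positivity
  · have hVpos : 0 < Fintype.card V := by
      rw [Fintype.card_pos_iff]
      exact not_isEmpty_iff.mp hV
    have hn0 : 0 < N / 128 := lt_of_lt_of_le (by exact_mod_cast hVpos) hcard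
    set n0 := N / 128 with hn0def
    have key := thin_dom (α := J) (Finset.univ : Finset (Option V))
      (fun o => match o with
        | none => 1 - (Fintype.card V : ℝ) / n0
        | some _ => 1 / n0)
      (by
        intro o _
        cases o with
        | none =>
          simp only
          have : (Fintype.card V : ℝ) / n0 ≤ 1 := by
            rw [div_le_one hn0]; exact hcard
          linarith
        | some v =>
          simp only
          positivity)
      (by
        rw [Fintype.sum_option]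
        simp only [Finset.sum_const, Finset.card_univ, nsmul_eq_mul]
        field_simp
        ring)
      (fun o => match o with
        | none => ∅
        | some v => Y v)
      θ τ0 P' hθ0 hθ1 hτ0 hP'0 hP'1 hodds
      (by
        intro S hSne
        rw [Finset.sum_filter, Fintype.sum_option]
        have h1 : ¬ S ⊆ (∅ : Finset J) := by
          rw [Finset.subset_empty]; exact hSne.ne_empty
        simp only [h1, if_false, zero_add]
        rw [← Finset.sum_filter, Finset.sum_const, nsmul_eq_mul]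
        have := hS S hSne
        rw [mul_one_div, div_le_iff₀ hn0]
        linarith)
      U' hU'up
    rw [Fintype.sum_option] at key
    have hnone : 0 ≤ (1 - (Fintype.card V : ℝ) / n0) *
        ∑ A ∈ (∅ : Finset J).powerset with A ∈ U', θ ^ A.card * (1 - θ) ^ ((∅ : Finset J).card - A.card) := by
      apply mul_nonneg
      · have : (Fintype.card V : ℝ) / n0 ≤ 1 := by
          rw [div_le_one hn0]; exact hcard
        linarith
      · apply Finset.sum_nonneg
        intro A _
        have : 0 ≤ 1 - θ := by linarith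
        positivity
    simp only at key
    rw [← Finset.mul_sum] at key
    have key2 : 1 / n0 * ∑ v : V, ∑ A ∈ (Y v).powerset with A ∈ U',
        θ ^ A.card * (1 - θ) ^ ((Y v).card - A.card)
        ≤ ∑ R ∈ U', P' ^ R.card * (1 - P') ^ (Fintype.card J - R.card) := by linarith
    rw [one_div, inv_mul_le_iff₀ hn0] at key2
    calc ∑ v : V, ∑ A ∈ (Y v).powerset with A ∈ U', θ ^ A.card * (1 - θ) ^ ((Y v).card - A.card)
        ≤ n0 * ∑ R ∈ U', P' ^ R.card * (1 - P') ^ (Fintype.card J - R.card) := key2
      _ ≤ n0 * (2 * mass (rowlaw P1 P') (fun ω : Finset J × Finset J => U (ω.1 ∪ ω.2))) := by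
          apply mul_le_mul_of_nonneg_left _ hn0.le
          linarith
      _ = N / 64 * mass (rowlaw P1 P') (fun ω : Finset J × Finset J => U (ω.1 ∪ ω.2)) := by
          rw [hn0def]; ring

end Crest.TG.Depth
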