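import Crest.Agent.TG_DepthDefs

set_option autoImplicit false

namespace Crest.TG.Depth
open Finset

variable {V Λ β Ω : Type} [Fintype V] [Fintype Λ] [Fintype β] [Fintype Ω]

/-- exponential Markov -/
theorem prb_le_prod [DecidableEq V] (lam : V → Λ → ℝ) (h0 : ∀ v l, 0 ≤ lam v l)
    (E : (V → Λ) → Prop) (f : V → Λ → ℝ) (hf : ∀ v l, 0 ≤ f v l) (c : ℝ) (hc : 0 ≤ c)
    (hE : ∀ y, E y → 1 ≤ c * ∏ v, f v (y v)) :
    prb lam E ≤ c * ∏ v, ∑ l, lam v l * f v l := by
  classical
  have key : c * ∏ v, ∑ l, lam v l * f v l = ∑ y : V → Λ, c * ∏ v, (lam v (y v) * f v (y v)) := by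
    rw [Finset.prod_univ_sum, Fintype.piFinset_univ, Finset.mul_sum]
  have hprb : prb lam E = ∑ y : V → Λ, (if E y then ∏ v, lam v (y v) else 0) := by
    unfold prb pw
    refine Finset.sum_congr ?_ (fun y _ => ?_)
    · ext y; simp only [Finset.mem_univ]
    · split_ifs <;> rfl
  rw [key, hprb]
  apply Finset.sum_le_sum
  intro y _
  have hpw : 0 ≤ ∏ v, lam v (y v) := Finset.prod_nonneg fun v _ => h0 v _
  have hpf : 0 ≤ ∏ v, f v (y v) := Finset.prod_nonneg fun v _ => hf v _
  rw [Finset.prod_mul_distrib]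
  split_ifs with h
  · have := hE y h
    nlinarith [mul_le_mul_of_nonneg_left this hpw]
  · positivity

/-- lower tail -/
theorem lower_tail [DecidableEq β] (ρ : Ω → ℝ) (h0 : ∀ ω, 0 ≤ ρ ω) (h1 : ∑ ω, ρ ω = 1)
    (P : Ω → Prop) [DecidablePred P] (p : ℝ) (hp0 : 0 ≤ p) (hp : p ≤ mass ρ P) :
    prb (fun _ : β => ρ) (fun x => ((univ.filter fun w => P (x w)).card : ℝ) ≤
      Fintype.card β * p / 2) ≤ Real.exp (-(Fintype.card β * p / 8)) := by
  classical
  have hmass : ∑ ω, ρ ω * (if P ω then (1/2 : ℝ) else 1) = 1 - mass ρ P / 2 := by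
    have : ∀ ω, ρ ω * (if P ω then (1/2 : ℝ) else 1) = ρ ω - (if P ω then ρ ω else 0) / 2 := by
      intro ω; split_ifs <;> ring
    simp_rw [this]
    rw [Finset.sum_sub_distrib, h1, ← Finset.sum_div]
    unfold mass
    congr 2
    refine Finset.sum_congr rfl fun ω _ => ?_
    split_ifs <;> rfl
  refine (prb_le_prod (fun _ : β => ρ) (fun _ => h0) _ (fun _ ω => if P ω then (1/2 : ℝ) else 1)
    (fun _ ω => by split_ifs <;> norm_num) (Real.exp (Real.log 2 * (Fintype.card β * p / 2)))
    (Real.exp_pos _).le ?_).trans ?_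
  · intro y hy
    have hprod : ∏ w, (if P (y w) then (1/2 : ℝ) else 1)
        = Real.exp (-(Real.log 2 * ((univ.filter fun w => P (y w)).card : ℝ))) := by
      rw [Finset.prod_ite, Finset.prod_const, Finset.prod_const_one, mul_one]
      rw [Real.exp_neg, mul_comm (Real.log 2), Real.exp_nat_mul, Real.exp_log (by norm_num)]
      rw [one_div, inv_pow]
    rw [hprod, ← Real.exp_add]
    apply Real.one_le_exp
    have hl : 0 ≤ Real.log 2 := Real.log_nonneg (by norm_num)
    nlinarith [mul_le_mul_of_nonneg_left hy hl]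
  · simp only [hmass, Finset.prod_const, Finset.card_univ]
    have hm1 : mass ρ P ≤ 1 := by
      rw [← h1]
      unfold mass
      refine Finset.sum_le_sum fun ω _ => ?_
      split_ifs
      · exact le_rfl
      · exact h0 ω
    have h2 : (1 - mass ρ P / 2) ^ Fintype.card β ≤ Real.exp (-(p / 2) * Fintype.card β) := by
      rw [mul_comm (-(p / 2)), Real.exp_nat_mul]
      refine pow_le_pow_left₀ (by linarith) ?_ _
      have := Real.add_one_le_exp (-(p / 2))
      linarith
    refine (mul_le_mul_of_nonneg_left h2 (Real.exp_pos _).le).trans ?_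
    rw [← Real.exp_add]
    apply Real.exp_le_exp.mpr
    have hl : Real.log 2 < 0.75 := by
      have := Real.log_two_lt_d9
      linarith
    have hn : 0 ≤ (Fintype.card β : ℝ) * p := by positivity
    nlinarith [mul_le_mul_of_nonneg_right hl.le hn]

end Crest.TG.Depth
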