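import Mathlib

set_option autoImplicit false

namespace Crest.TG

open Finset

/-- A fractional matching with row sums `≥ 1` and column sums `≤ 1` gives an injection supported
on the positive entries. -/
theorem frac_hall {V W : Type*} [Fintype V] [Fintype W] [DecidableEq V] [DecidableEq W]
    (m : V → W → ℝ) (hm : ∀ v w, 0 ≤ m v w) (hrow : ∀ v, 1 ≤ ∑ w, m v w)
    (hcol : ∀ w, ∑ v, m v w ≤ 1) :
    ∃ φ : V → W, Function.Injective φ ∧ ∀ v, 0 < m v (φ v) := by
  classical
  let N : V → Finset W := fun v => univ.filter (fun w => 0 < m v w)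
  have hall : ∀ s : Finset V, s.card ≤ (s.biUnion N).card := by
    intro s
    have h1 : (s.card : ℝ) ≤ ∑ v ∈ s, ∑ w, m v w := by
      have : ∑ v ∈ s, (1 : ℝ) ≤ ∑ v ∈ s, ∑ w, m v w := sum_le_sum (fun v _ => hrow v)
      simpa using this
    have h2 : ∑ v ∈ s, ∑ w, m v w = ∑ v ∈ s, ∑ w ∈ s.biUnion N, m v w := by
      apply sum_congr rfl
      intro v hv
      symm
      apply sum_subset (subset_univ _)
      intro w _ hw
      by_contra hne
      have hpos : 0 < m v w := lt_of_le_of_ne (hm v w) (Ne.symm hne)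
      exact hw (mem_biUnion.mpr ⟨v, hv, mem_filter.mpr ⟨mem_univ _, hpos⟩⟩)
    have h3 : ∑ v ∈ s, ∑ w ∈ s.biUnion N, m v w ≤ ∑ w ∈ s.biUnion N, (1 : ℝ) := by
      rw [sum_comm]
      apply sum_le_sum
      intro w _
      calc ∑ v ∈ s, m v w ≤ ∑ v, m v w :=
            sum_le_sum_of_subset_of_nonneg (subset_univ _) (fun v _ _ => hm v w)
        _ ≤ 1 := hcol w
    have h4 : (s.card : ℝ) ≤ ((s.biUnion N).card : ℝ) := by
      have : ∑ w ∈ s.biUnion N, (1 : ℝ) = ((s.biUnion N).card : ℝ) := by simp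
      linarith
    exact_mod_cast h4
  obtain ⟨φ, hφ, hφ'⟩ := (all_card_le_biUnion_card_iff_exists_injective N).mp hall
  exact ⟨φ, hφ, fun v => (mem_filter.mp (hφ' v)).2⟩

end Crest.TG
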