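import Crest.Agent.TG_S71Def
set_option autoImplicit false
namespace Crest.TG71
open Finset
variable {α : Type} [Fintype α] [DecidableEq α]

/-- sum over all labelings agreeing with tau' off T (Finset.prod_univ_sum with piFinset (fun e => if e ∈ T then univ else {tau' e})) -/
theorem agree {R : ℕ} (w : Fin R → ℝ) (hw1 : ∑ t, w t = 1) (tau' : α → Fin R) (T : Finset α) :
    ∑ tau ∈ (univ : Finset (α → Fin R)).filter (fun tau => ∀ e, e ∉ T → tau' e = tau e), ∏ e, w (tau e)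
      = ∏ e ∈ univ \ T, w (tau' e) := by
  sorry

/-- CNT: double counting. `Gd tau T tau' m` = encoding relation. -/
theorem cnt {R : ℕ} (w : Fin R → ℝ) (hw : ∀ t, 0 ≤ w t) (hw1 : ∑ t, w t = 1) (p : ℝ) (hp : 0 ≤ p)
    (q : Fin R → ℝ) (hq : ∀ t, 0 ≤ q t) (hqp : ∀ t : Fin R, (t : ℕ) + 1 < R → p ≤ q t * w t)
    (A : (α → Fin R) → Finset (Finset α))
    (V : (α → Fin R) → (Fin R → ℕ) → Finset α)
    (hV : ∀ tau' m e, e ∈ V tau' m → (tau' e : ℕ) + 1 < R)
    (C : Finset α → Prop) [DecidablePred C]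
    (henc : ∀ tau, ∀ T ∈ A tau, ∃ (tau' : α → Fin R) (m : Fin R → ℕ), (∀ e, e ∉ T → tau' e = tau e) ∧
      T ⊆ V tau' m ∧ (∀ t, (T.filter (fun e => tau' e = t)).card = m t) ∧ C T) :
    ∑ tau : α → Fin R, (∏ e, w (tau e)) * ∑ T ∈ A tau, p ^ T.card ≤
      ∑ m ∈ Fintype.piFinset (fun _ : Fin R => range (Fintype.card α + 1)),
        ∑ tau' : α → Fin R, (∏ e, w (tau' e)) *
          ∑ T ∈ (V tau' m).powerset.filter (fun T => (∀ t, (T.filter (fun e => tau' e = t)).card = m t) ∧ C T),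
            ∏ e ∈ T, q (tau' e) := by
  sorry

end Crest.TG71
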