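import Crest.Agent.TG_S71Def
set_option autoImplicit false
namespace Crest.TG71
open Finset
variable {α : Type} [Fintype α] [DecidableEq α]

/-- sum over all labelings agreeing with tau' off T (Finset.prod_univ_sum with piFinset (fun e => if e ∈ T then univ else {tau' e})) -/
theorem agree' {R : ℕ} (w : Fin R → ℝ) (hw1 : ∑ t, w t = 1) (tau' : α → Fin R) (T : Finset α) :
    ∑ tau ∈ (univ : Finset (α → Fin R)).filter (fun tau => ∀ e, e ∉ T → tau' e = tau e), ∏ e, w (tau e)
      = ∏ e ∈ univ \ T, w (tau' e) := by
  classical
  have h1 : (univ : Finset (α → Fin R)).filter (fun tau => ∀ e, e ∉ T → tau' e = tau e) =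
      Fintype.piFinset (fun e => if e ∈ T then (univ : Finset (Fin R)) else {tau' e}) := by
    ext tau
    rw [Finset.mem_filter, Fintype.mem_piFinset]
    constructor
    · rintro ⟨_, h⟩ e
      by_cases he : e ∈ T
      · rw [if_pos he]; exact Finset.mem_univ _
      · rw [if_neg he, Finset.mem_singleton]; exact (h e he).symm
    · intro h
      refine ⟨Finset.mem_univ _, fun e he => ?_⟩
      have := h e
      rw [if_neg he, Finset.mem_singleton] at this
      exact this.symm
  rw [h1, ← Finset.prod_univ_sum (fun e => if e ∈ T then (univ : Finset (Fin R)) else {tau' e})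
    (fun _ t => w t)]
  have h2 : ∀ e : α, ∑ t ∈ (if e ∈ T then (univ : Finset (Fin R)) else {tau' e}), w t =
      if e ∈ T then 1 else w (tau' e) := by
    intro e
    by_cases he : e ∈ T
    · rw [if_pos he, if_pos he, hw1]
    · rw [if_neg he, if_neg he, Finset.sum_singleton]
  rw [Finset.prod_congr rfl fun e _ => h2 e]
  rw [← Finset.prod_subset (Finset.subset_univ (univ \ T)) (fun e _ he => ?_)]
  · refine Finset.prod_congr rfl fun e he => ?_
    rw [Finset.mem_sdiff] at he
    rw [if_neg he.2]
  · have : e ∈ T := by
      by_contra hcon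
      exact he (Finset.mem_sdiff.2 ⟨Finset.mem_univ _, hcon⟩)
    rw [if_pos this]

end Crest.TG71
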