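import Crest.Agent.TG_S71Def
set_option autoImplicit false
namespace Crest.TG71
open Finset
variable {α : Type} [Fintype α] [DecidableEq α]

/-- BND. y = 2^(10+a). For T in the filter, T ⊆ V, so rho>0 on its labels and
∏_T q = (∏_t rho_t^(m t)) * ∏_T (q/rho) = ... * y^(-|T|) ∏_T (y q/rho), |T| ≥ 4^i/2^a+1 (Nat div).
∑_{T ⊆ V} ∏_T x = ∏_V (1+x) ≤ exp(∑_V x) = exp(∑_t |V_t| x_t) with x_t = y * q_t / rho_t for t+1 ≥ a,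
∑_t |V_t| x_t ≤ ∑_{k≥0} ... = 64 * 4^i * y / (LL * 8^a) = 4^i/(800 * 4^a) ≤ (4^i/2^a+1) (nat div, real) * log 2. -/
theorem bnd {R : ℕ} (i a : ℕ) (ha : 1 ≤ a) (V : Finset α) (tau' : α → Fin R) (m : Fin R → ℕ)
    (hlow : ∀ e ∈ V, a ≤ (tau' e : ℕ) + 1)
    (hsz : ∀ t : Fin R, 4 ^ a * (V.filter (fun e => tau' e = t)).card ≤ 2 ^ (2 * i + (t : ℕ) + 2)) :
    ∑ T ∈ V.powerset.filter (fun T => (∀ t, (T.filter (fun e => tau' e = t)).card = m t) ∧ 4 ^ i < 2 ^ a * T.card),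
      ∏ e ∈ T, qq R (tau' e) ≤ (∏ t, rho R a t ^ m t) * BB i a := by
  sorry

/-- ∑_m ∏ rho^m = ∏_t ∑_k rho_t^k ≤ ∏ 1/(1-rho_t) ≤ 2 (∑ rho_t ≤ 1/2; 1/(1-x) ≤ 1 + (8/7) x ≤ exp(8x/7); exp(4/7) ≤ 2). -/
theorem msum (R a N : ℕ) : ∑ m ∈ Fintype.piFinset (fun _ : Fin R => range (N + 1)), ∏ t, rho R a t ^ m t ≤ 2 := by
  sorry

/-- numeric total over the chain -/
theorem total (I R : ℕ) : (∑ i ∈ range (I + 1), 2 * BB i 1) + (∑ a ∈ Finset.Ico 2 R, (2 * BB 0 a + 2 * BB 1 a)) < 1 / 4 := by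
  sorry

end Crest.TG71
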