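import Crest.Agent.TG_S71Def
set_option autoImplicit false
namespace Crest.TG71
open Finset
variable {α : Type} [Fintype α] [DecidableEq α]

private lemma geo (a : ℕ) (R : ℕ) :
    ∑ t ∈ range R, (if t + 1 < a then (0:ℝ) else (2/3 : ℝ) ^ (t + 1 - a))
      ≤ 3 * (1 - (2/3 : ℝ) ^ (R + 1 - a)) := by
  induction R with
  | zero =>
    rw [Finset.sum_range_zero]
    have : (2/3 : ℝ) ^ (0 + 1 - a) ≤ 1 := pow_le_one₀ (by norm_num) (by norm_num)
    linarith
  | succ R ih =>
    rw [Finset.sum_range_succ]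
    by_cases h : R + 1 < a
    · rw [if_pos h]
      have e1 : R + 1 - a = 0 := by omega
      have e2 : R + 1 + 1 - a = 0 := by omega
      rw [e1] at ih
      rw [e2]
      linarith
    · rw [if_neg h]
      have e2 : R + 1 + 1 - a = (R + 1 - a) + 1 := by omega
      rw [e2, pow_succ]
      linarith

private lemma rho_pos {R a : ℕ} {t : Fin R} (h : a ≤ (t : ℕ) + 1) : 0 < rho R a t := by
  unfold rho
  rw [if_neg (by omega)]
  positivity

private lemma qq_pos {R : ℕ} (t : Fin R) : 0 < qq R t := by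
  unfold qq LL
  positivity

private lemma prod_fib {R : ℕ} (f : Fin R → ℝ) (tau' : α → Fin R) (m : Fin R → ℕ) (T : Finset α)
    (hm : ∀ t, (T.filter (fun e => tau' e = t)).card = m t) :
    ∏ e ∈ T, f (tau' e) = ∏ t, f t ^ m t := by
  classical
  rw [← Finset.prod_fiberwise T tau' (fun e => f (tau' e))]
  refine Finset.prod_congr rfl fun t _ => ?_
  rw [← hm t, ← Finset.prod_const]
  refine Finset.prod_congr rfl fun e he => ?_
  rw [(Finset.mem_filter.1 he).2]

theorem bnd' {R : ℕ} (i a : ℕ) (ha : 1 ≤ a) (V : Finset α) (tau' : α → Fin R) (m : Fin R → ℕ)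
    (hlow : ∀ e ∈ V, a ≤ (tau' e : ℕ) + 1)
    (hsz : ∀ t : Fin R, 4 ^ a * (V.filter (fun e => tau' e = t)).card ≤ 2 ^ (2 * i + (t : ℕ) + 2)) :
    ∑ T ∈ V.powerset.filter (fun T => (∀ t, (T.filter (fun e => tau' e = t)).card = m t) ∧ 4 ^ i < 2 ^ a * T.card),
      ∏ e ∈ T, qq R (tau' e) ≤ (∏ t, rho R a t ^ m t) * BB i a := by
  classical
  set n : ℕ := 4 ^ i / 2 ^ a + 1 with hn
  set y : ℝ := 2 ^ (10 + a) with hy
  have hy1 : 1 ≤ y := one_le_pow₀ (by norm_num)
  have hy0 : 0 < y := by linarith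
  set x : α → ℝ := fun e => y * qq R (tau' e) / rho R a (tau' e) with hx
  set C : ℝ := ∏ t, rho R a t ^ m t with hC
  have hrho0 : ∀ t : Fin R, 0 ≤ rho R a t := by
    intro t
    unfold rho
    split_ifs
    · exact le_refl _
    · positivity
  have hC0 : 0 ≤ C := Finset.prod_nonneg fun t _ => pow_nonneg (hrho0 t) _
  have hx0 : ∀ e ∈ V, 0 ≤ x e := by
    intro e he
    have h1 := rho_pos (hlow e he)
    have h2 := qq_pos (tau' e)
    simp only [hx]
    positivity
  -- termwise
  have hterm : ∀ T ∈ V.powerset.filter (fun T => (∀ t, (T.filter (fun e => tau' e = t)).card = m t) ∧ 4 ^ i < 2 ^ a * T.card),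
      ∏ e ∈ T, qq R (tau' e) ≤ C * (1 / y) ^ n * ∏ e ∈ T, x e := by
    intro T hT
    obtain ⟨hTV, hTm, hTc⟩ : T ⊆ V ∧ _ ∧ _ := by
      simpa only [Finset.mem_filter, Finset.mem_powerset] using hT
    have hTn : n ≤ T.card := by
      have : 4 ^ i / 2 ^ a < T.card := Nat.div_lt_of_lt_mul hTc
      omega
    have e1 : ∏ e ∈ T, qq R (tau' e) = ∏ e ∈ T, (rho R a (tau' e) * (1 / y) * x e) := by
      refine Finset.prod_congr rfl fun e he => ?_
      have h1 := rho_pos (hlow e (hTV he))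
      simp only [hx]
      field_simp
    rw [e1, Finset.prod_mul_distrib, Finset.prod_mul_distrib, Finset.prod_const,
      prod_fib (rho R a) tau' m T hTm]
    have hxT : 0 ≤ ∏ e ∈ T, x e := Finset.prod_nonneg fun e he => hx0 e (hTV he)
    have hpow : (1 / y) ^ T.card ≤ (1 / y) ^ n :=
      pow_le_pow_of_le_one (by positivity) (by rw [div_le_one hy0]; exact hy1) hTn
    exact mul_le_mul_of_nonneg_right (mul_le_mul_of_nonneg_left hpow hC0) hxT
  have hD0 : 0 ≤ C * (1 / y) ^ n := mul_nonneg hC0 (by positivity)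
  have hsum : ∑ e ∈ V, x e ≤ (n : ℝ) * Real.log 2 := by
    -- fiberwise
    rw [← Finset.sum_fiberwise V tau' x]
    have hfib : ∀ t : Fin R, ∑ e ∈ V.filter (fun e => tau' e = t), x e
        ≤ (4 ^ i / (2400 * 4 ^ a) : ℝ) * (if (t : ℕ) + 1 < a then (0:ℝ) else (2/3 : ℝ) ^ ((t : ℕ) + 1 - a)) := by
      intro t
      by_cases ht : (t : ℕ) + 1 < a
      · rw [if_pos ht]
        have : V.filter (fun e => tau' e = t) = ∅ := by
          rw [Finset.filter_eq_empty_iff]
          intro e he h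
          have := hlow e he
          rw [h] at this
          omega
        rw [this, Finset.sum_empty, mul_zero]
      · rw [if_neg ht]
        obtain ⟨k, hk⟩ : ∃ k, (t : ℕ) + 1 = a + k := ⟨(t : ℕ) + 1 - a, by omega⟩
        have hk' : (t : ℕ) + 1 - a = k := by omega
        have hc : ∑ e ∈ V.filter (fun e => tau' e = t), x e
            = ((V.filter (fun e => tau' e = t)).card : ℝ) * (y * qq R t / rho R a t) := by
          rw [← nsmul_eq_mul, ← Finset.sum_const]
          refine Finset.sum_congr rfl fun e he => ?_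
          simp only [hx]
          rw [(Finset.mem_filter.1 he).2]
        rw [hc]
        have hs : (4:ℝ) ^ a * ((V.filter (fun e => tau' e = t)).card : ℝ) ≤ 2 ^ (2 * i + (t : ℕ) + 2) := by
          exact_mod_cast hsz t
        have hs' : ((V.filter (fun e => tau' e = t)).card : ℝ) ≤ 2 ^ (2 * i + (t : ℕ) + 2) / 4 ^ a := by
          rw [le_div_iff₀ (by positivity)]
          linarith
        have hnn : 0 ≤ y * qq R t / rho R a t := by
          have h1 : 0 < rho R a t := rho_pos (by omega)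
          have h2 := qq_pos t
          positivity
        refine (mul_le_mul_of_nonneg_right hs' hnn).trans (le_of_eq ?_)
        unfold qq rho LL
        rw [if_neg ht, hk', hy]
        have e2 : (2:ℝ) ^ (2 * i + (t : ℕ) + 2) = 4 ^ i * 2 ^ (t : ℕ) * 4 := by
          rw [pow_add, pow_add, pow_mul]; norm_num
        have e3 : (2:ℝ) ^ (t : ℕ) * 2 = 2 ^ a * 2 ^ k := by
          rw [← pow_succ, hk, pow_add]
        have e4 : (4:ℝ) ^ (t : ℕ) = 2 ^ (t : ℕ) * 2 ^ (t : ℕ) := by
          rw [← mul_pow]; norm_num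
        have e5 : (2:ℝ) ^ (t : ℕ) = 2 ^ a * 2 ^ k / 2 := by linarith
        have e6 : (2/3 : ℝ) ^ k = 2 ^ k / 3 ^ k := by rw [div_pow]
        have e7 : (3/4 : ℝ) ^ k = 3 ^ k / (2 ^ k * 2 ^ k) := by
          rw [div_pow, ← mul_pow]; norm_num
        rw [e2, e4, e5, e6, e7, pow_add]
        have hA : (2:ℝ) ^ a ≠ 0 := by positivity
        have hK : (2:ℝ) ^ k ≠ 0 := by positivity
        have h3 : (3:ℝ) ^ k ≠ 0 := by positivity
        have h4 : (4:ℝ) ^ a ≠ 0 := by positivity
        field_simp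
        ring
    calc ∑ t : Fin R, ∑ e ∈ V.filter (fun e => tau' e = t), x e
        ≤ ∑ t : Fin R, (4 ^ i / (2400 * 4 ^ a) : ℝ) * (if (t : ℕ) + 1 < a then (0:ℝ) else (2/3 : ℝ) ^ ((t : ℕ) + 1 - a)) :=
          Finset.sum_le_sum fun t _ => hfib t
      _ = (4 ^ i / (2400 * 4 ^ a) : ℝ) * ∑ t ∈ range R, (if t + 1 < a then (0:ℝ) else (2/3 : ℝ) ^ (t + 1 - a)) := by
          rw [← Finset.mul_sum, Finset.sum_range]
      _ ≤ (4 ^ i / (2400 * 4 ^ a) : ℝ) * 3 := by
          refine mul_le_mul_of_nonneg_left ((geo a R).trans ?_) (by positivity)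
          have : (0:ℝ) ≤ (2/3 : ℝ) ^ (R + 1 - a) := by positivity
          linarith
      _ ≤ (n : ℝ) * Real.log 2 := by
          have h1 : (4:ℝ) ^ i / 2 ^ a ≤ n := by
            rw [div_le_iff₀ (by positivity)]
            have : 4 ^ i < 2 ^ a * (4 ^ i / 2 ^ a + 1) := Nat.lt_mul_div_succ _ (by positivity)
            have h : (4 ^ i : ℕ) ≤ n * 2 ^ a := by rw [hn, mul_comm]; exact this.le
            exact_mod_cast h
          have h2 : (1/2 : ℝ) ≤ Real.log 2 := by
            have := Real.log_two_gt_d9; linarith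
          have h3 : (4 ^ i / (2400 * 4 ^ a) : ℝ) * 3 ≤ (4:ℝ) ^ i / 2 ^ a * (1/2) := by
            have h24 : (2:ℝ) ^ a ≤ 4 ^ a := pow_le_pow_left₀ (by norm_num) (by norm_num) a
            have h5 : (4:ℝ) ^ i / 4 ^ a ≤ 4 ^ i / 2 ^ a :=
              div_le_div_of_nonneg_left (by positivity) (by positivity) h24
            have h6 : (4 ^ i / (2400 * 4 ^ a) : ℝ) * 3 = (4:ℝ) ^ i / 4 ^ a * (1/800) := by
              field_simp; norm_num
            have h7 : (0:ℝ) ≤ 4 ^ i / 4 ^ a := by positivity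
            rw [h6]
            linarith
          have h4 : (0:ℝ) ≤ (4:ℝ) ^ i / 2 ^ a := by positivity
          calc (4 ^ i / (2400 * 4 ^ a) : ℝ) * 3 ≤ (4:ℝ) ^ i / 2 ^ a * (1/2) := h3
            _ ≤ (n : ℝ) * (1/2) := mul_le_mul_of_nonneg_right h1 (by norm_num)
            _ ≤ (n : ℝ) * Real.log 2 := mul_le_mul_of_nonneg_left h2 (by positivity)
  have hprod : ∏ e ∈ V, (1 + x e) ≤ 2 ^ n := by
    calc ∏ e ∈ V, (1 + x e) ≤ ∏ e ∈ V, Real.exp (x e) := by
          refine Finset.prod_le_prod (fun e he => by have := hx0 e he; linarith) fun e _ => ?_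
          have := Real.add_one_le_exp (x e)
          linarith
      _ = Real.exp (∑ e ∈ V, x e) := (Real.exp_sum V x).symm
      _ ≤ Real.exp ((n : ℝ) * Real.log 2) := Real.exp_le_exp.2 hsum
      _ = 2 ^ n := by
          rw [mul_comm, Real.exp_mul, Real.exp_log (by norm_num), Real.rpow_natCast]
  calc ∑ T ∈ V.powerset.filter (fun T => (∀ t, (T.filter (fun e => tau' e = t)).card = m t) ∧ 4 ^ i < 2 ^ a * T.card),
      ∏ e ∈ T, qq R (tau' e)
      ≤ ∑ T ∈ V.powerset.filter (fun T => (∀ t, (T.filter (fun e => tau' e = t)).card = m t) ∧ 4 ^ i < 2 ^ a * T.card),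
        C * (1 / y) ^ n * ∏ e ∈ T, x e := Finset.sum_le_sum hterm
    _ ≤ ∑ T ∈ V.powerset, C * (1 / y) ^ n * ∏ e ∈ T, x e := by
        refine Finset.sum_le_sum_of_subset_of_nonneg (Finset.filter_subset _ _) fun T hT _ => ?_
        exact mul_nonneg hD0 (Finset.prod_nonneg fun e he => hx0 e (Finset.mem_powerset.1 hT he))
    _ = C * (1 / y) ^ n * ∏ e ∈ V, (1 + x e) := by
        rw [← Finset.mul_sum, Finset.prod_one_add]
    _ ≤ C * (1 / y) ^ n * 2 ^ n := mul_le_mul_of_nonneg_left hprod hD0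
    _ = C * BB i a := by
        unfold BB
        rw [mul_assoc, ← mul_pow, ← hn]
        congr 2
        rw [hy, show 10 + a = (9 + a) + 1 by ring, pow_succ]
        field_simp

end Crest.TG71
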