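import Crest.Agent.TG_S71Def
set_option autoImplicit false
namespace Crest.TG71
open Finset

theorem bb_one_le (i : ℕ) : BB i 1 ≤ (1 / 1024 : ℝ) ^ (i + 1) := by
  have h1 : i ≤ 4 ^ i / 2 ^ 1 := by
    rw [pow_one, Nat.le_div_iff_mul_le (by norm_num)]
    have : i < 2 ^ i := Nat.lt_two_pow_self
    have h4 : (4 : ℕ) ^ i = 2 ^ i * 2 ^ i := by rw [← mul_pow]; norm_num
    rcases Nat.eq_zero_or_pos i with h0 | hp
    · subst h0; simp
    · have h2 : 2 ≤ 2 ^ i := by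
        calc 2 = 2 ^ 1 := rfl
          _ ≤ 2 ^ i := Nat.pow_le_pow_right (by norm_num) hp
      rw [h4]
      nlinarith
  have e : BB i 1 = (1 / 1024 : ℝ) ^ (4 ^ i / 2 ^ 1 + 1) := by
    unfold BB; norm_num
  rw [e]
  exact pow_le_pow_of_le_one (by norm_num) (by norm_num) (by omega)

theorem bb_le (i a : ℕ) : BB i a ≤ 1 / 512 * (1 / 2 : ℝ) ^ a := by
  have h0 : (0 : ℝ) ≤ 1 / 2 ^ (9 + a) := by positivity
  have h1 : (1 : ℝ) / 2 ^ (9 + a) ≤ 1 := by
    rw [div_le_one (by positivity)]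
    exact one_le_pow₀ (by norm_num)
  have h2 : BB i a ≤ (1 / 2 ^ (9 + a) : ℝ) := by
    unfold BB
    exact pow_le_of_le_one h0 h1 (Nat.succ_ne_zero _)
  refine le_trans h2 (le_of_eq ?_)
  rw [pow_add, one_div_pow]
  norm_num
  ring

theorem total' (I R : ℕ) : (∑ i ∈ range (I + 1), 2 * BB i 1) + (∑ a ∈ Finset.Ico 2 R, (2 * BB 0 a + 2 * BB 1 a)) < 1 / 4 := by
  have hA : ∀ k : ℕ, ∑ i ∈ range k, 2 * BB i 1 ≤ 1 / 256 - 1 / 256 * (1 / 1024 : ℝ) ^ k := by
    intro k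
    induction k with
    | zero => simp
    | succ k ih =>
      rw [Finset.sum_range_succ]
      have h := bb_one_le k
      have hp : (0 : ℝ) ≤ (1 / 1024 : ℝ) ^ k := by positivity
      rw [pow_succ] at h ⊢
      nlinarith
  have hB : ∀ k : ℕ, ∑ a ∈ range k, (1 / 128 * (1 / 2 : ℝ) ^ a) ≤ 1 / 64 - 1 / 64 * (1 / 2 : ℝ) ^ k := by
    intro k
    induction k with
    | zero => simp
    | succ k ih =>
      rw [Finset.sum_range_succ, pow_succ]
      have hp : (0 : ℝ) ≤ (1 / 2 : ℝ) ^ k := by positivity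
      nlinarith
  have hC : (∑ a ∈ Finset.Ico 2 R, (2 * BB 0 a + 2 * BB 1 a)) ≤ ∑ a ∈ range R, (1 / 128 * (1 / 2 : ℝ) ^ a) := by
    calc (∑ a ∈ Finset.Ico 2 R, (2 * BB 0 a + 2 * BB 1 a))
        ≤ ∑ a ∈ Finset.Ico 2 R, (1 / 128 * (1 / 2 : ℝ) ^ a) := by
          apply Finset.sum_le_sum
          intro a _
          have h0 := bb_le 0 a
          have h1 := bb_le 1 a
          linarith
      _ ≤ ∑ a ∈ range R, (1 / 128 * (1 / 2 : ℝ) ^ a) := by
          apply Finset.sum_le_sum_of_subset_of_nonneg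
          · intro a ha
            rw [Finset.mem_Ico] at ha
            rw [Finset.mem_range]
            exact ha.2
          · intro a _ _
            positivity
  have h1 := hA (I + 1)
  have h2 := hB R
  have h3 : (0 : ℝ) ≤ (1 / 1024 : ℝ) ^ (I + 1) := by positivity
  have h4 : (0 : ℝ) ≤ (1 / 2 : ℝ) ^ R := by positivity
  linarith

end Crest.TG71
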