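import Crest.Agent.TG_S71Chain

set_option autoImplicit false
namespace Crest.TG71
open Finset
variable {α : Type} [Fintype α] [DecidableEq α]

private theorem c2_sg_le (R i a j : ℕ) : sg R (i + 1) a j ≤ sg R i a j := by
  unfold sg
  omega

omit [Fintype α] [DecidableEq α] in
private theorem c2_TT (ℓ : Finset α → α → ℕ) (R i a : ℕ) (tau : α → Fin R) (H : Finset α) :
    TT ℓ R i a tau H ⊆ TT ℓ R (i + 1) a tau H := by
  intro e he
  unfold TT at he ⊢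
  rw [mem_filter] at he ⊢
  exact ⟨he.1, (c2_sg_le R i a _).trans he.2⟩

/-- C2 -/
theorem step1' (F : Finset (Finset α)) (ℓ : Finset α → α → ℕ) (R i a : ℕ) (tau : α → Fin R)
    (ha : 1 ≤ a) (haR : a < R) (H : Finset α) (hok : OK F ℓ R (i + 1) a tau H) :
    (∃ T ⊆ H, InU F ℓ R (i + 1) a tau T) ∨ OK F ℓ R i a tau H := by
  classical
  by_cases hc : OK F ℓ R i a tau H
  · exact Or.inr hc
  left
  obtain ⟨H0, hH0, hA0, hT0⟩ := hok
  have hne : (F.filter fun H' => Adm ℓ R (i + 1) a tau H' ∧ TT ℓ R (i + 1) a tau H' ⊆ H).Nonempty :=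
    ⟨H0, mem_filter.2 ⟨hH0, hA0, hT0⟩⟩
  obtain ⟨H', hH', hmin⟩ := exists_min_image _ (fun H' => cst ℓ R (i + 1) a tau H') hne
  rw [mem_filter] at hH'
  obtain ⟨hF, hA, hT⟩ := hH'
  have hnA : ¬ Adm ℓ R i a tau H' := fun h => hc ⟨H', hF, h, (c2_TT ℓ R i a tau H').trans hT⟩
  unfold Adm at hnA
  push Not at hnA
  obtain ⟨j, r, hr1, hr2, hr3⟩ := hnA
  have hsub : (H'.filter fun e => ℓ H' e ≤ j ∧ (e ∈ TT ℓ R i a tau H' ∨ r ≤ (tau e : ℕ))) ⊆
      (H'.filter fun e => ℓ H' e ≤ j ∧ (e ∈ TT ℓ R (i + 1) a tau H' ∨ r ≤ (tau e : ℕ))) := by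
    intro e he
    rw [mem_filter] at he ⊢
    refine ⟨he.1, he.2.1, ?_⟩
    rcases he.2.2 with h | h
    · exact Or.inl (c2_TT ℓ R i a tau H' h)
    · exact Or.inr h
  have hrge : sg R (i + 1) a j ≤ r := by
    by_contra hlt
    push Not at hlt
    have h1 := hA j r hr1 hlt
    have h2 := Nat.mul_le_mul_left (2 ^ r) (card_le_card hsub)
    omega
  have hj : i + 1 ≤ j ∧ r = a + (j - (i + 1)) ∧ r < R := by
    unfold sg at hr2 hrge
    omega
  obtain ⟨hj1, hreq, hrR⟩ := hj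
  have hsub2 : (H'.filter fun e => ℓ H' e ≤ j ∧ (e ∈ TT ℓ R i a tau H' ∨ r ≤ (tau e : ℕ))) ⊆
      TT ℓ R (i + 1) a tau H' := by
    intro e he
    rw [mem_filter] at he
    rcases he.2.2 with h | h
    · exact c2_TT ℓ R i a tau H' h
    · unfold TT
      rw [mem_filter]
      refine ⟨he.1, ?_⟩
      have h1 := he.2.1
      unfold sg
      omega
  have hcard := card_le_card hsub2
  have hbig : 4 ^ (i + 1) < 2 ^ a * (TT ℓ R (i + 1) a tau H').card := by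
    obtain ⟨k, hk⟩ : ∃ k, j = (i + 1) + k := ⟨j - (i + 1), by omega⟩
    have hrk : r = a + k := by omega
    rw [hrk, hk] at hr3
    have h4 : (4 : ℕ) ^ (i + 1 + k) = 4 ^ (i + 1) * (2 ^ k * 2 ^ k) := by
      rw [pow_add, ← mul_pow]
      norm_num
    have h5 : (2 : ℕ) ^ (a + k) = 2 ^ a * 2 ^ k := pow_add _ _ _
    rw [h4, h5] at hr3
    set X := (TT ℓ R (i + 1) a tau H').card with hX
    have h6 : 4 ^ (i + 1) * (2 ^ k * 2 ^ k) < 2 ^ a * 2 ^ k * X := by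
      refine lt_of_lt_of_le hr3 (Nat.mul_le_mul_left _ ?_)
      rw [← hk]
      rw [← hrk]
      exact hcard
    have hk0 : 0 < 2 ^ k := by positivity
    have h7 : (4 ^ (i + 1) * 2 ^ k) * 2 ^ k < (2 ^ a * X) * 2 ^ k := by
      calc (4 ^ (i + 1) * 2 ^ k) * 2 ^ k = 4 ^ (i + 1) * (2 ^ k * 2 ^ k) := by ring
        _ < 2 ^ a * 2 ^ k * X := h6
        _ = (2 ^ a * X) * 2 ^ k := by ring
    have h8 : 4 ^ (i + 1) * 2 ^ k < 2 ^ a * X := lt_of_mul_lt_mul_right h7 (Nat.zero_le _)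
    calc 4 ^ (i + 1) ≤ 4 ^ (i + 1) * 2 ^ k := Nat.le_mul_of_pos_right _ hk0
      _ < 2 ^ a * X := h8
  refine ⟨TT ℓ R (i + 1) a tau H', hT, H', hF, hA, rfl, hbig, ?_⟩
  intro H'' hF'' hA'' hT''
  exact hmin H'' (mem_filter.2 ⟨hF'', hA'', hT''.trans hT⟩)

end Crest.TG71
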