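import Crest.Agent.TG_S71Chain

set_option autoImplicit false
namespace Crest.TG71
open Finset
variable {α : Type} [Fintype α] [DecidableEq α]

/-- C5 (assembly from C1-C4) -/
theorem chain' (F : Finset (Finset α)) (ℓ : Finset α → α → ℕ) (R I : ℕ) (tau : α → Fin R)
    (hfull : ∀ H ∈ F, OK F ℓ R I 1 tau H)
    (hstep1 : ∀ (i a : ℕ), 1 ≤ a → a < R → ∀ H : Finset α, OK F ℓ R (i + 1) a tau H →
      (∃ T ⊆ H, InU F ℓ R (i + 1) a tau T) ∨ OK F ℓ R i a tau H)
    (hstep2 : ∀ (a : ℕ), 1 ≤ a → a < R → ∀ H : Finset α, OK F ℓ R 0 a tau H →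
      (∃ T ⊆ H, InU F ℓ R 0 a tau T) ∨ OK F ℓ R 1 (a + 1) tau H)
    (hgood : ∀ H : Finset α, OK F ℓ R 1 R tau H → ∃ H' ∈ F, Good ℓ R tau H')
    (hno : ¬ ∃ H ∈ F, Good ℓ R tau H) (H : Finset α) (hH : H ∈ F) :
    ∃ i a T, ((a = 1 ∧ i ≤ I) ∨ (i ≤ 1 ∧ 2 ≤ a)) ∧ 1 ≤ a ∧ a < R ∧ T ⊆ H ∧ InU F ℓ R i a tau T := by
  by_cases hR : R ≤ 1
  · exfalso
    apply hno
    refine ⟨H, hH, ?_⟩
    intro i s h1 h2
    omega
  have hR : 1 < R := not_le.mp hR
  by_contra hcon
  have hcon : ∀ i a T, ((a = 1 ∧ i ≤ I) ∨ (i ≤ 1 ∧ 2 ≤ a)) → 1 ≤ a → a < R → T ⊆ H →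
      ¬ InU F ℓ R i a tau T := fun i a T h1 h2 h3 h4 h5 => hcon ⟨i, a, T, h1, h2, h3, h4, h5⟩
  -- descend to level 0
  have h0 : ∀ j, j ≤ I → OK F ℓ R (I - j) 1 tau H := by
    intro j
    induction j with
    | zero => intro _; exact hfull H hH
    | succ j ih =>
      intro hj
      have h := ih (by omega)
      have e : I - j = (I - (j + 1)) + 1 := by omega
      rw [e] at h
      rcases hstep1 (I - (j + 1)) 1 le_rfl hR H h with ⟨T, hT, hU⟩ | h'
      · exact absurd hU (hcon _ _ T (Or.inl ⟨rfl, by omega⟩) le_rfl hR hT)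
      · exact h'
  have h01 : OK F ℓ R 0 1 tau H := by
    have := h0 I le_rfl
    rwa [Nat.sub_self] at this
  have h0a : ∀ a, 1 ≤ a → a < R → OK F ℓ R 0 a tau H := by
    intro a
    induction a with
    | zero => intro h; omega
    | succ a ih =>
      intro _ haR
      rcases Nat.eq_zero_or_pos a with h | h
      · subst h; exact h01
      · have hok := ih h (by omega)
        rcases hstep2 a h (by omega) H hok with ⟨T, hT, hU⟩ | h'
        · refine absurd hU (hcon _ _ T ?_ h (by omega) hT)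
          rcases Nat.lt_or_ge a 2 with h2 | h2
          · exact Or.inl ⟨by omega, Nat.zero_le _⟩
          · exact Or.inr ⟨by omega, h2⟩
        · rcases hstep1 0 (a + 1) (by omega) haR H h' with ⟨T, hT, hU⟩ | h''
          · exact absurd hU (hcon _ _ T (Or.inr ⟨by omega, by omega⟩) (by omega) haR hT)
          · exact h''
  have hlast := h0a (R - 1) (by omega) (by omega)
  rcases hstep2 (R - 1) (by omega) (by omega) H hlast with ⟨T, hT, hU⟩ | h'
  · refine absurd hU (hcon _ _ T ?_ (by omega) (by omega) hT)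
    rcases Nat.lt_or_ge (R - 1) 2 with h2 | h2
    · exact Or.inl ⟨by omega, Nat.zero_le _⟩
    · exact Or.inr ⟨by omega, h2⟩
  · have e : R - 1 + 1 = R := by omega
    rw [e] at h'
    exact hno (hgood H h')

end Crest.TG71
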