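import Crest.Agent.TG_S71Def
set_option autoImplicit false
namespace Crest.TG71
open Finset
variable {α : Type} [Fintype α] [DecidableEq α]

/-- OK(i,a): some admissible H' in F has its missing set inside H -/
def OK (F : Finset (Finset α)) (ℓ : Finset α → α → ℕ) (R i a : ℕ) (tau : α → Fin R) (H : Finset α) : Prop :=
  ∃ H' ∈ F, Adm ℓ R i a tau H' ∧ TT ℓ R i a tau H' ⊆ H

/-- C1: full staircase. H' = H: for j ≤ I, sg = min R 1 ≤ 1 so vacuous; for j > I use card ≤ 4^I, r < 1+(j-I). -/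
theorem ok_full (F : Finset (Finset α)) (ℓ : Finset α → α → ℕ) (R I : ℕ) (tau : α → Fin R)
    (hI : Fintype.card α ≤ 4 ^ I) (H : Finset α) (hH : H ∈ F) : OK F ℓ R I 1 tau H := by
  sorry

/-- C2: step (i+1,a) → (i,a).  Take H' minimising cst among {H' ∈ F, Adm (i+1,a), TT ⊆ H}; T = TT H'.
If OK(i,a) fails then H' is not (i,a)-admissible (TT(i,a) ⊆ TT(i+1,a) since sg is larger): get (j,r) with
1 ≤ r < sg i a j, 2^r * card(...) > 4^j; if r < sg (i+1) a j contradiction with Adm (i+1) a; so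
r ≥ sg (i+1) a j, so j ≥ i+1 and r = a + (j-(i+1)) < R; then {e ∈ H', ℓ e ≤ j, r ≤ tau e} ⊆ TT(i+1,a), so
2^r * T.card > 4^j, hence 2^a * T.card > 4^(i+1)  (4^j = 4^(i+1) * 4^(j-i-1) ≥ 4^(i+1)*2^(j-i-1)). -/
theorem step1 (F : Finset (Finset α)) (ℓ : Finset α → α → ℕ) (R i a : ℕ) (tau : α → Fin R)
    (ha : 1 ≤ a) (haR : a < R) (H : Finset α) (hok : OK F ℓ R (i + 1) a tau H) :
    (∃ T ⊆ H, InU F ℓ R (i + 1) a tau T) ∨ OK F ℓ R i a tau H := by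
  sorry

/-- C3: step (0,a) → (1,a+1): sg differs only in row j = 0 (a versus a+1). -/
theorem step2 (F : Finset (Finset α)) (ℓ : Finset α → α → ℕ) (R a : ℕ) (tau : α → Fin R)
    (ha : 1 ≤ a) (haR : a < R) (H : Finset α) (hok : OK F ℓ R 0 a tau H) :
    (∃ T ⊆ H, InU F ℓ R 0 a tau T) ∨ OK F ℓ R 1 (a + 1) tau H := by
  sorry

/-- C4: the empty staircase gives Good. sg R 1 R j = R. -/
theorem ok_good (F : Finset (Finset α)) (ℓ : Finset α → α → ℕ) (R : ℕ) (tau : α → Fin R)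
    (H : Finset α) (hok : OK F ℓ R 1 R tau H) : ∃ H' ∈ F, Good ℓ R tau H' := by
  sorry

/-- C5 (assembly from C1-C4) -/
theorem chain (F : Finset (Finset α)) (ℓ : Finset α → α → ℕ) (R I : ℕ) (tau : α → Fin R)
    (hI : Fintype.card α ≤ 4 ^ I) (hno : ¬ ∃ H ∈ F, Good ℓ R tau H) (H : Finset α) (hH : H ∈ F) :
    ∃ i a T, ((a = 1 ∧ i ≤ I) ∨ (i ≤ 1 ∧ 2 ≤ a)) ∧ 1 ≤ a ∧ a < R ∧ T ⊆ H ∧ InU F ℓ R i a tau T := by
  sorry

end Crest.TG71
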