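import Crest.Agent.TG_S71Enc1
set_option autoImplicit false
namespace Crest.TG71
open Finset
variable {α : Type} [Fintype α] [DecidableEq α]

theorem enc (F : Finset (Finset α)) (ℓ : Finset α → α → ℕ) (R i a : ℕ) (ha : 1 ≤ a) (haR : a < R)
    (tau : α → Fin R) (T : Finset α) (h : InU F ℓ R i a tau T) :
    ∃ (tau' : α → Fin R) (m : Fin R → ℕ), (∀ e, e ∉ T → tau' e = tau e) ∧ T ⊆ VV F ℓ R i a tau' m ∧
      (∀ t, (T.filter (fun e => tau' e = t)).card = m t) ∧ 4 ^ i < 2 ^ a * T.card :=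
  enc' F ℓ R i a ha haR tau T h

end Crest.TG71
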