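import Crest.Agent.TG_S71Def
set_option autoImplicit false
namespace Crest.TG71
open Finset
variable {α : Type} [Fintype α] [DecidableEq α]

/-- members of VV in column t: tau'+1 = sg = a + (ℓ - i) < R, so t+1 ≥ a and ℓ ≤ i + (t+1-a) =: j (if t+1 = a: ℓ ≤ i).
If t ≥ 1: (j, r = t) has r < sg j, so 2^t * card ≤ 4^j = 4^(i+(t+1-a)). If t = 0: card ≤ 4^j by hℓ.
Then 4^a * card ≤ 2^(2i+t+2). -/
theorem vsize (F : Finset (Finset α)) (ℓ : Finset α → α → ℕ)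
    (hℓ : ∀ H ∈ F, ∀ i, (H.filter (fun e => ℓ H e ≤ i)).card ≤ 4 ^ i) (R i a : ℕ) (ha : 1 ≤ a)
    (tau' : α → Fin R) (m : Fin R → ℕ) (t : Fin R) :
    4 ^ a * ((VV F ℓ R i a tau' m).filter (fun e => tau' e = t)).card ≤ 2 ^ (2 * i + (t : ℕ) + 2) := by
  sorry

theorem vlow (F : Finset (Finset α)) (ℓ : Finset α → α → ℕ) (R i a : ℕ)
    (tau' : α → Fin R) (m : Fin R → ℕ) (e : α) (he : e ∈ VV F ℓ R i a tau' m) :
    a ≤ (tau' e : ℕ) + 1 ∧ (tau' e : ℕ) + 1 < R := by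
  sorry

end Crest.TG71
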