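import Crest.Agent.TG_S71Def
import Crest.Agent.TG_S71Chain
import Crest.Agent.TG_S71Enc
import Crest.Agent.TG_S71Vs
import Crest.Agent.TG_S71Agr
import Crest.Agent.TG_S71Bnd
set_option autoImplicit false
namespace Crest.TG71
open Finset
variable {α : Type} [Fintype α] [DecidableEq α]

open Classical in
theorem capture (F : Finset (Finset α)) (p : ℝ) (hp : 0 < p)
    (hns : ¬ ∃ G : Finset (Finset α), (∀ H ∈ F, ∃ S ∈ G, S ⊆ H) ∧ ∑ S ∈ G, p ^ S.card ≤ 1 / 2)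
    (ℓ : Finset α → α → ℕ) (hℓ : ∀ H ∈ F, ∀ i, (H.filter (fun e => ℓ H e ≤ i)).card ≤ 4 ^ i)
    (R : ℕ) (w : Fin R → ℝ) (hw : ∀ t, 0 ≤ w t) (hw1 : ∑ t, w t = 1)
    (hcum : ∀ s : ℕ, 1 ≤ s → s < R → ∑ t ∈ univ.filter (fun t : Fin R => (t : ℕ) < s), w t = LL * 4 ^ s * p) :
    1 / 2 < ∑ tau ∈ (univ : Finset (α → Fin R)).filter (fun tau => ∃ H ∈ F, Good ℓ R tau H), ∏ e, w (tau e) := by
  sorry

end Crest.TG71
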