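import Mathlib
set_option autoImplicit false
namespace Crest.TG71
open Finset
variable {α : Type} [Fintype α] [DecidableEq α]

/-- all rows i and columns s are captured -/
def Good (ℓ : Finset α → α → ℕ) (R : ℕ) (tau : α → Fin R) (H : Finset α) : Prop :=
  ∀ i s : ℕ, 1 ≤ s → s < R → 2 ^ s * (H.filter (fun e => ℓ H e ≤ i ∧ s ≤ (tau e : ℕ))).card ≤ 4 ^ i

/-- threshold of the staircase `(i,a)` in row `j` -/
def sg (R i a j : ℕ) : ℕ := min R (a + (j - i))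

/-- the missing set of H at the staircase (i,a) -/
def TT (ℓ : Finset α → α → ℕ) (R i a : ℕ) (tau : α → Fin R) (H : Finset α) : Finset α :=
  H.filter (fun e => sg R i a (ℓ H e) ≤ (tau e : ℕ))

def Adm (ℓ : Finset α → α → ℕ) (R i a : ℕ) (tau : α → Fin R) (H : Finset α) : Prop :=
  ∀ j r : ℕ, 1 ≤ r → r < sg R i a j →
    2 ^ r * (H.filter (fun e => ℓ H e ≤ j ∧ (e ∈ TT ℓ R i a tau H ∨ r ≤ (tau e : ℕ)))).card ≤ 4 ^ j

def cst (ℓ : Finset α → α → ℕ) (R i a : ℕ) (tau : α → Fin R) (H : Finset α) : ℕ :=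
  ∑ e ∈ TT ℓ R i a tau H, (R + 1 - sg R i a (ℓ H e))

def InU (F : Finset (Finset α)) (ℓ : Finset α → α → ℕ) (R i a : ℕ) (tau : α → Fin R)
    (T : Finset α) : Prop :=
  ∃ H ∈ F, Adm ℓ R i a tau H ∧ TT ℓ R i a tau H = T ∧ 4 ^ i < 2 ^ a * T.card ∧
    ∀ H' ∈ F, Adm ℓ R i a tau H' → TT ℓ R i a tau H' ⊆ T →
      cst ℓ R i a tau H ≤ cst ℓ R i a tau H'

def Nr {R : ℕ} (m : Fin R → ℕ) (r : ℕ) : ℕ := ∑ t ∈ univ.filter (fun t : Fin R => (t : ℕ) < r), m t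

def Cnd (F : Finset (Finset α)) (ℓ : Finset α → α → ℕ) (R i a : ℕ) (tau' : α → Fin R)
    (m : Fin R → ℕ) (H : Finset α) : Prop :=
  H ∈ F ∧ (∀ e ∈ H, (tau' e : ℕ) + 1 ≤ sg R i a (ℓ H e)) ∧
    ∀ j r : ℕ, 1 ≤ r → r < sg R i a j →
      2 ^ r * ((H.filter (fun e => ℓ H e ≤ j ∧ r ≤ (tau' e : ℕ))).card + Nr m r) ≤ 4 ^ j

open Classical in
noncomputable def VV (F : Finset (Finset α)) (ℓ : Finset α → α → ℕ) (R i a : ℕ) (tau' : α → Fin R)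
    (m : Fin R → ℕ) : Finset α :=
  if h : ∃ H, Cnd F ℓ R i a tau' m H then
    (h.choose).filter (fun e => (tau' e : ℕ) + 1 = sg R i a (ℓ h.choose e) ∧ (tau' e : ℕ) + 1 < R)
  else ∅

/-- decoding weights -/
noncomputable def rho (R a : ℕ) (t : Fin R) : ℝ :=
  if (t : ℕ) + 1 < a then 0 else (1 / 8) * (3 / 4) ^ ((t : ℕ) + 1 - a)

noncomputable def LL : ℝ := 25 * 2 ^ 21

noncomputable def qq (R : ℕ) (t : Fin R) : ℝ := 1 / (3 * LL * 4 ^ (t : ℕ))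

noncomputable def BB (i a : ℕ) : ℝ := (1 / 2 ^ (9 + a)) ^ (4 ^ i / 2 ^ a + 1)

end Crest.TG71
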