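import Crest.Agent.TG_S71Def
set_option autoImplicit false
namespace Crest.TG71
open Finset
variable {α : Type} [Fintype α] [DecidableEq α]

lemma sg_mono (R i a : ℕ) {j k : ℕ} (h : j ≤ k) : sg R i a j ≤ sg R i a k := by
  unfold sg; omega

lemma sg_pos (R i a j : ℕ) (ha : 1 ≤ a) (hR : 1 ≤ R) : 1 ≤ sg R i a j := by
  unfold sg; omega

lemma sg_leR (R i a j : ℕ) : sg R i a j ≤ R := by
  unfold sg; omega

theorem enc' (F : Finset (Finset α)) (ℓ : Finset α → α → ℕ) (R i a : ℕ) (ha : 1 ≤ a) (haR : a < R)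
    (tau : α → Fin R) (T : Finset α) (h : InU F ℓ R i a tau T) :
    ∃ (tau' : α → Fin R) (m : Fin R → ℕ), (∀ e, e ∉ T → tau' e = tau e) ∧ T ⊆ VV F ℓ R i a tau' m ∧
      (∀ t, (T.filter (fun e => tau' e = t)).card = m t) ∧ 4 ^ i < 2 ^ a * T.card := by
  classical
  obtain ⟨H, hHF, hadm, hTT, hcard, hmin⟩ := h
  have hR : 1 ≤ R := by omega
  have hmemT : ∀ e, e ∈ T ↔ e ∈ H ∧ sg R i a (ℓ H e) ≤ (tau e : ℕ) := by
    intro e; rw [← hTT]; simp [TT]
  let tau' : α → Fin R := fun e => if e ∈ T then ⟨sg R i a (ℓ H e) - 1, by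
    have := sg_leR R i a (ℓ H e); omega⟩ else tau e
  have htT : ∀ e ∈ T, (tau' e : ℕ) + 1 = sg R i a (ℓ H e) := by
    intro e he
    have h1 := sg_pos R i a (ℓ H e) ha hR
    simp only [tau', if_pos he]; omega
  have htN : ∀ e, e ∉ T → tau' e = tau e := by
    intro e he; simp only [tau', if_neg he]
  let m : Fin R → ℕ := fun t => (T.filter (fun e => tau' e = t)).card
  have hNr : ∀ r, Nr m r = (T.filter (fun e => (tau' e : ℕ) < r)).card := by
    intro r
    unfold Nr
    rw [Finset.card_eq_sum_card_fiberwise (f := tau') (t := univ.filter (fun t : Fin R => (t : ℕ) < r))]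
    · apply Finset.sum_congr rfl
      intro t ht
      simp only [m]
      congr 1
      ext e
      simp only [mem_filter, mem_univ, true_and] at ht ⊢
      constructor
      · rintro ⟨h1, h2⟩; exact ⟨⟨h1, by rw [h2]; exact ht⟩, h2⟩
      · rintro ⟨⟨h1, _⟩, h2⟩; exact ⟨h1, h2⟩
    · intro e he
      simp only [coe_filter, Set.mem_setOf_eq, mem_univ, true_and] at he ⊢
      exact he.2
  have hCnd : Cnd F ℓ R i a tau' m H := by
    refine ⟨hHF, ?_, ?_⟩
    · intro e he
      by_cases heT : e ∈ T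
      · exact (htT e heT).le
      · rw [htN e heT]
        have := (hmemT e).not.1 heT
        push Not at this
        have := this he
        omega
    · intro j r hr1 hr2
      have := hadm j r hr1 hr2
      rw [hTT] at this
      have hEq : (H.filter (fun e => ℓ H e ≤ j ∧ (e ∈ T ∨ r ≤ (tau e : ℕ)))).card
          = (H.filter (fun e => ℓ H e ≤ j ∧ r ≤ (tau' e : ℕ))).card + Nr m r := by
        rw [hNr, ← Finset.card_union_of_disjoint]
        · congr 1
          ext e
          simp only [mem_filter, mem_union]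
          constructor
          · rintro ⟨h1, h2, h3⟩
            by_cases heT : e ∈ T
            · by_cases hh : r ≤ (tau' e : ℕ)
              · exact Or.inl ⟨h1, h2, hh⟩
              · exact Or.inr ⟨heT, by omega⟩
            · left
              refine ⟨h1, h2, ?_⟩
              rw [htN e heT]
              rcases h3 with h3 | h3
              · exact absurd h3 heT
              · exact h3
          · rintro (⟨h1, h2, h3⟩ | ⟨h1, h2⟩)
            · refine ⟨h1, h2, ?_⟩
              by_cases heT : e ∈ T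
              · exact Or.inl heT
              · right; rw [htN e heT] at h3; exact h3
            · refine ⟨((hmemT e).1 h1).1, ?_, Or.inl h1⟩
              by_contra hlt
              push Not at hlt
              have h4 := sg_mono R i a hlt.le
              have h5 := htT e h1
              omega
        · rw [Finset.disjoint_left]
          intro e h1 h2
          simp only [mem_filter] at h1 h2
          omega
      rw [hEq] at this
      exact this
  have hex : ∃ H, Cnd F ℓ R i a tau' m H := ⟨H, hCnd⟩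
  refine ⟨tau', m, htN, ?_, fun t => rfl, hcard⟩
  -- decoder
  have hĤ := hex.choose_spec
  set Ĥ := hex.choose with hĤdef
  obtain ⟨hĤF, hĤ1, hĤ2⟩ := hĤ
  have hsub : TT ℓ R i a tau Ĥ ⊆ T := by
    intro e he
    simp only [TT, mem_filter] at he
    by_contra heT
    have h1 := hĤ1 e he.1
    rw [htN e heT] at h1
    omega
  have hĤadm : Adm ℓ R i a tau Ĥ := by
    intro j r hr1 hr2
    refine le_trans (Nat.mul_le_mul_left _ ?_) (hĤ2 j r hr1 hr2)
    rw [hNr]
    refine le_trans (Finset.card_le_card ?_) (Finset.card_union_le _ _)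
    intro e he
    simp only [mem_filter, mem_union] at he ⊢
    obtain ⟨h1, h2, h3⟩ := he
    by_cases heT : e ∈ T
    · by_cases hh : r ≤ (tau' e : ℕ)
      · exact Or.inl ⟨h1, h2, hh⟩
      · exact Or.inr ⟨heT, by omega⟩
    · left
      refine ⟨h1, h2, ?_⟩
      rw [htN e heT]
      rcases h3 with h3 | h3
      · exact absurd (hsub h3) heT
      · exact h3
  have hc := hmin Ĥ hĤF hĤadm hsub
  have hcH : cst ℓ R i a tau H = ∑ e ∈ T, (R - (tau' e : ℕ)) := by
    unfold cst
    rw [hTT]
    apply Finset.sum_congr rfl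
    intro e he
    have := htT e he
    omega
  rw [hcH] at hc
  have hle1 : ∀ e ∈ TT ℓ R i a tau Ĥ, R + 1 - sg R i a (ℓ Ĥ e) ≤ R - (tau' e : ℕ) := by
    intro e he
    have h1 : e ∈ Ĥ := (by simp only [TT, mem_filter] at he; exact he.1)
    have h2 := hĤ1 e h1
    omega
  have hpos : ∀ e, 0 < R - (tau' e : ℕ) := by
    intro e; have := (tau' e).2; omega
  have hTTeq : TT ℓ R i a tau Ĥ = T := by
    by_contra hne
    have hss : TT ℓ R i a tau Ĥ ⊂ T := lt_of_le_of_ne hsub hne
    obtain ⟨e0, he0, he0'⟩ := Finset.exists_of_ssubset hss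
    have h1 : cst ℓ R i a tau Ĥ ≤ ∑ e ∈ TT ℓ R i a tau Ĥ, (R - (tau' e : ℕ)) := Finset.sum_le_sum hle1
    have h2 : ∑ e ∈ TT ℓ R i a tau Ĥ, (R - (tau' e : ℕ)) < ∑ e ∈ T, (R - (tau' e : ℕ)) :=
      Finset.sum_lt_sum_of_subset hsub he0 he0' (hpos e0) (fun _ _ _ => Nat.zero_le _)
    omega
  have hsgeq : ∀ e ∈ T, (tau' e : ℕ) + 1 = sg R i a (ℓ Ĥ e) := by
    by_contra hcon
    push Not at hcon
    obtain ⟨e0, he0, hne0⟩ := hcon
    have he0' : e0 ∈ TT ℓ R i a tau Ĥ := by rw [hTTeq]; exact he0
    have h3 : (tau' e0 : ℕ) + 1 ≤ sg R i a (ℓ Ĥ e0) := hĤ1 e0 (by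
      simp only [TT, mem_filter] at he0'; exact he0'.1)
    have h4 := sg_leR R i a (ℓ Ĥ e0)
    have h5 : cst ℓ R i a tau Ĥ < ∑ e ∈ T, (R - (tau' e : ℕ)) := by
      unfold cst
      rw [hTTeq] at hle1 ⊢
      apply Finset.sum_lt_sum hle1
      exact ⟨e0, he0, by omega⟩
    omega
  intro e he
  unfold VV
  rw [dif_pos hex]
  simp only [mem_filter]
  have he' : e ∈ TT ℓ R i a tau Ĥ := by rw [hTTeq]; exact he
  refine ⟨(by simp only [TT, mem_filter] at he'; exact he'.1), hsgeq e he, ?_⟩
  have h1 := htT e he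
  have h2 := ((hmemT e).1 he).2
  have h3 := (tau e).2
  omega

end Crest.TG71
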