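import Crest.Agent.TG_S71Def
set_option autoImplicit false
namespace Crest.TG71
open Finset
variable {α : Type} [Fintype α] [DecidableEq α]

theorem vsize' (F : Finset (Finset α)) (ℓ : Finset α → α → ℕ)
    (hℓ : ∀ H ∈ F, ∀ i, (H.filter (fun e => ℓ H e ≤ i)).card ≤ 4 ^ i) (R i a : ℕ) (ha : 1 ≤ a)
    (tau' : α → Fin R) (m : Fin R → ℕ) (t : Fin R) :
    4 ^ a * ((VV F ℓ R i a tau' m).filter (fun e => tau' e = t)).card ≤ 2 ^ (2 * i + (t : ℕ) + 2) := by
  classical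
  unfold VV
  split_ifs with hex
  swap
  · simp
  have hĤ := hex.choose_spec
  set Ĥ := hex.choose with hĤdef
  obtain ⟨hF, h1, h2⟩ := hĤ
  by_cases hlow : (t : ℕ) + 1 < a ∨ R ≤ (t : ℕ) + 1
  · have hz : ((Ĥ.filter (fun e => (tau' e : ℕ) + 1 = sg R i a (ℓ Ĥ e) ∧ (tau' e : ℕ) + 1 < R)).filter
        (fun e => tau' e = t)).card = 0 := by
      rw [Finset.card_eq_zero, Finset.filter_eq_empty_iff]
      intro e he het
      simp only [mem_filter] at he
      obtain ⟨_, h3, h4⟩ := he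
      rw [het] at h3 h4
      unfold sg at h3
      omega
    rw [hz]; simp
  push Not at hlow
  obtain ⟨hl1, hl2⟩ := hlow
  set j := i + ((t : ℕ) + 1 - a) with hj
  have hcard : 2 ^ (t : ℕ) * ((Ĥ.filter (fun e => (tau' e : ℕ) + 1 = sg R i a (ℓ Ĥ e) ∧ (tau' e : ℕ) + 1 < R)).filter
        (fun e => tau' e = t)).card ≤ 4 ^ j := by
    rcases Nat.eq_zero_or_pos (t : ℕ) with h0 | h0
    · rw [h0, pow_zero, one_mul]
      refine le_trans (Finset.card_le_card ?_) (hℓ Ĥ hF j)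
      intro e he
      simp only [mem_filter] at he ⊢
      obtain ⟨⟨h3, h4, h5⟩, h6⟩ := he
      refine ⟨h3, ?_⟩
      rw [h6] at h4 h5
      unfold sg at h4
      omega
    · have hlt : (t : ℕ) < sg R i a j := by unfold sg; omega
      refine le_trans (Nat.mul_le_mul_left _ ?_) (h2 j t h0 hlt)
      refine le_trans (Finset.card_le_card ?_) (Nat.le_add_right _ _)
      intro e he
      simp only [mem_filter] at he ⊢
      obtain ⟨⟨h3, h4, h5⟩, h6⟩ := he
      refine ⟨h3, ?_, by rw [h6]⟩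
      rw [h6] at h4 h5
      unfold sg at h4
      omega
  set c := ((Ĥ.filter (fun e => (tau' e : ℕ) + 1 = sg R i a (ℓ Ĥ e) ∧ (tau' e : ℕ) + 1 < R)).filter
        (fun e => tau' e = t)).card with hc
  have e1 : 4 ^ a * 4 ^ j = 2 ^ (t : ℕ) * 2 ^ (2 * i + (t : ℕ) + 2) := by
    rw [← pow_add, ← pow_add, show (4 : ℕ) = 2 ^ 2 by norm_num, ← pow_mul]
    congr 1
    omega
  have : 2 ^ (t : ℕ) * (4 ^ a * c) ≤ 2 ^ (t : ℕ) * 2 ^ (2 * i + (t : ℕ) + 2) := by
    calc 2 ^ (t : ℕ) * (4 ^ a * c) = 4 ^ a * (2 ^ (t : ℕ) * c) := by ring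
      _ ≤ 4 ^ a * 4 ^ j := Nat.mul_le_mul_left _ hcard
      _ = _ := e1
  exact Nat.le_of_mul_le_mul_left this (by positivity)

theorem vlow' (F : Finset (Finset α)) (ℓ : Finset α → α → ℕ) (R i a : ℕ)
    (tau' : α → Fin R) (m : Fin R → ℕ) (e : α) (he : e ∈ VV F ℓ R i a tau' m) :
    a ≤ (tau' e : ℕ) + 1 ∧ (tau' e : ℕ) + 1 < R := by
  classical
  unfold VV at he
  split_ifs at he with hex
  · simp only [mem_filter] at he
    obtain ⟨_, h3, h4⟩ := he
    refine ⟨?_, h4⟩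
    unfold sg at h3
    omega
  · simp at he

end Crest.TG71
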