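import Crest.Agent.VW_Defs

/-! # Task VW-Cell: cells, refinement, close visits -/

set_option autoImplicit false

namespace Crest.Agent.VW

variable {D : ℕ} {N : Fin D → ℕ}

/-- Two points of a progression in the same cell give a return. -/
theorem ret_of_cell {k M mu T a d j j' : ℕ} (hN : ∀ i, 0 < N i) (hjj' : j < j')
    (h : cell k M mu T N (a + j * d) = cell k M mu T N (a + j' * d)) : Ret N T (mu * d) (j' - j) := by
  intro i
  have h1 := congrArg Prod.snd (congrFun h i)
  simp only [cell] at h1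
  have hNi := hN i
  set Z : ℕ := (mu * (a + j * d)) % N i with hZ
  set Z' : ℕ := (mu * (a + j' * d)) % N i with hZ'
  have e1 := Nat.div_add_mod (T * Z) (N i)
  have e2 := Nat.div_add_mod (T * Z') (N i)
  have l1 := Nat.mod_lt (T * Z) hNi
  have l2 := Nat.mod_lt (T * Z') hNi
  have e3 := Nat.div_add_mod (mu * (a + j * d)) (N i)
  have e4 := Nat.div_add_mod (mu * (a + j' * d)) (N i)
  rw [← hZ] at e3
  rw [← hZ'] at e4
  refine ⟨((mu * (a + j' * d) / N i : ℕ) : ℤ) - ((mu * (a + j * d) / N i : ℕ) : ℤ), ?_⟩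
  have hd : (((j' - j : ℕ) : ℤ)) * ((mu * d : ℕ) : ℤ) -
      (((mu * (a + j' * d) / N i : ℕ) : ℤ) - ((mu * (a + j * d) / N i : ℕ) : ℤ)) * (N i : ℤ) =
      (Z' : ℤ) - Z := by
    rw [Nat.cast_sub hjj'.le]
    have e3' : ((N i : ℕ) : ℤ) * ((mu * (a + j * d) / N i : ℕ) : ℤ) + (Z : ℤ) =
        (mu : ℤ) * (a + j * d) := by exact_mod_cast e3
    have e4' : ((N i : ℕ) : ℤ) * ((mu * (a + j' * d) / N i : ℕ) : ℤ) + (Z' : ℤ) =
        (mu : ℤ) * (a + j' * d) := by exact_mod_cast e4
    push_cast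
    push_cast at e3' e4'
    linear_combination e3' - e4'
  rw [hd]
  have e1' : ((N i : ℕ) : ℤ) * ((T * Z / N i : ℕ) : ℤ) + ((T * Z % N i : ℕ) : ℤ) = (T : ℤ) * Z := by
    exact_mod_cast e1
  have e2' : ((N i : ℕ) : ℤ) * ((T * Z' / N i : ℕ) : ℤ) + ((T * Z' % N i : ℕ) : ℤ) = (T : ℤ) * Z' := by
    exact_mod_cast e2
  rw [← h1] at e2'
  have l1' : ((T * Z % N i : ℕ) : ℤ) < N i := by exact_mod_cast l1
  have l2' : ((T * Z' % N i : ℕ) : ℤ) < N i := by exact_mod_cast l2
  have p1' : (0 : ℤ) ≤ ((T * Z % N i : ℕ) : ℤ) := Int.natCast_nonneg _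
  have p2' : (0 : ℤ) ≤ ((T * Z' % N i : ℕ) : ℤ) := Int.natCast_nonneg _
  have hT : (0 : ℤ) ≤ (T : ℤ) := Int.natCast_nonneg _
  have habs : |(Z' : ℤ) - Z| * T = |((Z' : ℤ) - Z) * T| := by
    rw [abs_mul, abs_of_nonneg hT]
  rw [habs]
  have he : ((Z' : ℤ) - Z) * T = ((T * Z' % N i : ℕ) : ℤ) - ((T * Z % N i : ℕ) : ℤ) := by
    linear_combination e1' - e2'
  rw [he, abs_lt]
  constructor <;> linarith

/-- The cells of the fine level (multiplier `mu`, grid `T * m`) refine those of the coarse level (multiplier `m * mu`, grid `T`):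
`T * ((m * mu * n) % N) / N = (T * m * ((mu * n) % N) / N) % T`. -/
theorem cell_refine {k M m mu T : ℕ} (hN : ∀ i, 0 < N i) (hT : 0 < T) (n : ℕ) :
    cell k M (m * mu) T N n =
      fun i => ((cell k M mu (T * m) N n i).1, (cell k M mu (T * m) N n i).2 % T) := by
  funext i
  simp only [cell, Prod.mk.injEq, true_and]
  have hNi := hN i
  set Z : ℕ := (mu * n) % N i with hZ
  have e1 : (m * mu * n) % N i = (m * Z) % N i := by
    rw [hZ, Nat.mul_mod_mod, Nat.mul_assoc]
  rw [e1]
  have e2 := Nat.div_add_mod (m * Z) (N i)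
  set w : ℕ := (m * Z) % N i with hw
  have hwN : w < N i := Nat.mod_lt _ hNi
  have e3 : T * m * Z = T * w + N i * (T * (m * Z / N i)) := by
    calc T * m * Z = T * (m * Z) := Nat.mul_assoc _ _ _
      _ = T * (N i * (m * Z / N i) + w) := by rw [e2]
      _ = T * w + N i * (T * (m * Z / N i)) := by ring
  rw [e3, Nat.add_mul_div_left _ _ hNi, Nat.add_mul_mod_self_left]
  have h5 : T * w / N i < T := by
    rw [Nat.div_lt_iff_lt_mul hNi]
    exact Nat.mul_lt_mul_of_pos_left hwN hT
  rw [Nat.mod_eq_of_lt h5]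

/-- The coarsest level determines the grid part of the class. -/
theorem cls_of_cell {k K M : ℕ} (n : ℕ) :
    (cls K M N n).1 = fun i => (cell k M M K N n i).2 := rfl

/-- If some value is taken more than `k / H` times, it is taken at two close times (pigeonhole on blocks of length `2 H`). -/
theorem exists_close {α : Type*} [DecidableEq α] {k H : ℕ} (hH : 0 < H) (hk : 2 * H ≤ k) (c : Fin k → α)
    (h : ¬ Gen H c) : ∃ j j' : Fin k, j < j' ∧ (j' : ℕ) - j ≤ 2 * H ∧ c j = c j' := by
  by_contra hcon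
  push Not at hcon
  apply h
  intro x
  set S := Finset.univ.filter (fun j => c j = x) with hS
  have hcard : S.card ≤ (k + 2 * H) / (2 * H + 1) := by
    rw [← Finset.card_range ((k + 2 * H) / (2 * H + 1))]
    refine Finset.card_le_card_of_injOn (fun j : Fin k => (j : ℕ) / (2 * H + 1)) ?_ ?_
    · intro j _
      simp only [Finset.coe_range, Set.mem_Iio]
      have hj : (j : ℕ) + (2 * H + 1) ≤ k + 2 * H := by have := j.2; omega
      have h1 := Nat.div_le_div_right (c := 2 * H + 1) hj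
      rw [Nat.add_div_right _ (by omega)] at h1
      omega
    · intro j hj j' hj' he
      simp only [hS, Finset.coe_filter, Finset.mem_univ, true_and, Set.mem_ofPred_eq] at hj hj'
      simp only at he
      by_contra hne
      have key : ∀ a b : Fin k, c a = x → c b = x → (a : ℕ) / (2 * H + 1) = (b : ℕ) / (2 * H + 1) →
          a < b → False := by
        intro a b ha hb hab hlt
        have h2 : ¬ ((b : ℕ) - a ≤ 2 * H) := by
          intro h3
          exact hcon a b hlt h3 (ha.trans hb.symm)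
        have e1 := Nat.div_add_mod (a : ℕ) (2 * H + 1)
        have e2 := Nat.div_add_mod (b : ℕ) (2 * H + 1)
        have l2 := Nat.mod_lt (b : ℕ) (show 0 < 2 * H + 1 by omega)
        rw [hab] at e1
        omega
      rcases lt_or_gt_of_ne hne with h3 | h3
      · exact key j j' hj hj' he h3
      · exact key j' j hj' hj he.symm h3
  have h4 : S.card * (2 * H + 1) ≤ k + 2 * H :=
    (Nat.mul_le_mul_right _ hcard).trans (Nat.div_mul_le_self _ _)
  nlinarith

end Crest.Agent.VW
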