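import Crest.Agent.VW_Defs

/-! # Task VW-Cls: each class is visited at most twice -/

set_option autoImplicit false

namespace Crest.Agent.VW

variable {D : ℕ} {N : Fin D → ℕ}

lemma cls_T0 {K T Ni k n n' r1 r2 r3 : ℤ} (hNi : 0 < Ni) (hn : 0 < n) (hn' : 0 < n')
    (hnn : n + n' ≤ k) (h1 : 0 ≤ r1) (h2 : 0 ≤ r2) (h3 : 0 ≤ r3)
    (l1 : r1 < Ni) (l2 : r2 < Ni) (l3 : r3 < Ni)
    (hK : 2 * k ≤ K) (key : K * T * Ni = n * (r3 - r2) - n' * (r2 - r1)) : T = 0 := by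
  have hk : 0 < k := by linarith
  have up : K * T * Ni < k * Ni := by
    have a1 : n * (r3 - r2) < n * Ni := mul_lt_mul_of_pos_left (by linarith) hn
    have a2 : n' * (r1 - r2) < n' * Ni := mul_lt_mul_of_pos_left (by linarith) hn'
    have a3 : (n + n') * Ni ≤ k * Ni := mul_le_mul_of_nonneg_right hnn hNi.le
    rw [key]
    calc n * (r3 - r2) - n' * (r2 - r1) = n * (r3 - r2) + n' * (r1 - r2) := by ring
      _ < n * Ni + n' * Ni := add_lt_add a1 a2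
      _ = (n + n') * Ni := by ring
      _ ≤ k * Ni := a3
  have lo : -k * Ni < K * T * Ni := by
    have a1 : n * (r2 - r3) < n * Ni := mul_lt_mul_of_pos_left (by linarith) hn
    have a2 : n' * (r2 - r1) < n' * Ni := mul_lt_mul_of_pos_left (by linarith) hn'
    have a3 : (n + n') * Ni ≤ k * Ni := mul_le_mul_of_nonneg_right hnn hNi.le
    rw [key]
    have : n * (r2 - r3) + n' * (r2 - r1) < k * Ni :=
      calc n * (r2 - r3) + n' * (r2 - r1) < n * Ni + n' * Ni := add_lt_add a1 a2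
      _ = (n + n') * Ni := by ring
      _ ≤ k * Ni := a3
    have e : n * (r3 - r2) - n' * (r2 - r1) = -(n * (r2 - r3) + n' * (r2 - r1)) := by ring
    rw [e, neg_mul]
    exact neg_lt_neg this
  have up' : K * T < k := lt_of_mul_lt_mul_right up hNi.le
  have lo' : -k < K * T := lt_of_mul_lt_mul_right lo hNi.le
  rcases lt_trichotomy T 0 with h | h | h
  · have h' : T ≤ -1 := by omega
    exfalso
    nlinarith
  · exact h
  · have h' : 1 ≤ T := by omega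
    exfalso
    nlinarith

/-- three equally classified visits give a proportionality of the coordinate differences -/
lemma cls_prop {k K M a d Ni j₁ j₂ j₃ : ℕ} (hNi : 0 < Ni) (hK : 2 * k ≤ K)
    (h12 : j₁ < j₂) (h23 : j₂ < j₃) (h3 : j₃ < k)
    (e12 : K * ((M * (a + j₁ * d)) % Ni) / Ni = K * ((M * (a + j₂ * d)) % Ni) / Ni)
    (e23 : K * ((M * (a + j₂ * d)) % Ni) / Ni = K * ((M * (a + j₃ * d)) % Ni) / Ni) :
    ((j₂ : ℤ) - j₁) * (((M * (a + j₃ * d)) % Ni : ℕ) - ((M * (a + j₂ * d)) % Ni : ℕ) : ℤ)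
      = ((j₃ : ℤ) - j₂) * (((M * (a + j₂ * d)) % Ni : ℕ) - ((M * (a + j₁ * d)) % Ni : ℕ) : ℤ) := by
  have d1 := Nat.div_add_mod (M * (a + j₁ * d)) Ni
  have d2 := Nat.div_add_mod (M * (a + j₂ * d)) Ni
  have d3 := Nat.div_add_mod (M * (a + j₃ * d)) Ni
  set Z1 := (M * (a + j₁ * d)) % Ni with hZ1
  set Z2 := (M * (a + j₂ * d)) % Ni with hZ2
  set Z3 := (M * (a + j₃ * d)) % Ni with hZ3
  set t1 := (M * (a + j₁ * d)) / Ni with ht1
  set t2 := (M * (a + j₂ * d)) / Ni with ht2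
  set t3 := (M * (a + j₃ * d)) / Ni with ht3
  clear_value Z1 Z2 Z3 t1 t2 t3
  -- bounds
  have b1 := Nat.div_add_mod (K * Z1) Ni
  have b2 := Nat.div_add_mod (K * Z2) Ni
  have b3 := Nat.div_add_mod (K * Z3) Ni
  have l1 := Nat.mod_lt (K * Z1) hNi
  have l2 := Nat.mod_lt (K * Z2) hNi
  have l3 := Nat.mod_lt (K * Z3) hNi
  rw [e12] at b1
  rw [← e23] at b3
  set q := K * Z2 / Ni with hq
  set r1 := K * Z1 % Ni
  set r2 := K * Z2 % Ni
  set r3 := K * Z3 % Ni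
  clear_value q r1 r2 r3
  zify at *
  set T : ℤ := ((j₃ : ℤ) - j₂) * (t2 - t1) - ((j₂ : ℤ) - j₁) * (t3 - t2) with hT
  have e1 : (Z1 : ℤ) = M * (a + j₁ * d) - Ni * t1 := by rw [← d1]; ring
  have e2 : (Z2 : ℤ) = M * (a + j₂ * d) - Ni * t2 := by rw [← d2]; ring
  have e3 : (Z3 : ℤ) = M * (a + j₃ * d) - Ni * t3 := by rw [← d3]; ring
  have key : ((j₂ : ℤ) - j₁) * ((Z3 : ℤ) - Z2) - ((j₃ : ℤ) - j₂) * ((Z2 : ℤ) - Z1) = T * Ni := by
    rw [e1, e2, e3, hT]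
    ring
  have f1 : (r1 : ℤ) = K * Z1 - Ni * q := by rw [← b1]; ring
  have f2 : (r2 : ℤ) = K * Z2 - Ni * q := by rw [← b2]; ring
  have f3 : (r3 : ℤ) = K * Z3 - Ni * q := by rw [← b3]; ring
  have key2 : (K : ℤ) * T * Ni = ((j₂ : ℤ) - j₁) * ((r3 : ℤ) - r2) - ((j₃ : ℤ) - j₂) * ((r2 : ℤ) - r1) := by
    rw [f1, f2, f3, mul_assoc, ← key]
    ring
  have hT0 : T = 0 := cls_T0 (Ni := (Ni : ℤ)) (k := (k : ℤ)) hNi (sub_pos.2 h12) (sub_pos.2 h23)
    (by omega) (Int.natCast_nonneg r1) (Int.natCast_nonneg r2) (Int.natCast_nonneg r3) l1 l2 l3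
    hK key2
  rw [hT0, zero_mul] at key
  exact sub_eq_zero.1 key

lemma cls_three {k K M a d j₁ j₂ j₃ : ℕ} (hN : ∀ i, (N i).Prime) (hK : 2 * k ≤ K)
    (i₀ : Fin D) (hi₀ : ¬ N i₀ ∣ M * d) (hk : k ≤ N i₀)
    (h12 : j₁ < j₂) (h23 : j₂ < j₃) (h3 : j₃ < k)
    (e12 : cls K M N (a + j₁ * d) = cls K M N (a + j₂ * d))
    (e23 : cls K M N (a + j₂ * d) = cls K M N (a + j₃ * d)) : False := by
  have f12 : ∀ i, K * ((M * (a + j₁ * d)) % N i) / N i = K * ((M * (a + j₂ * d)) % N i) / N i :=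
    fun i => congrFun (congrArg Prod.fst e12) i
  have f23 : ∀ i, K * ((M * (a + j₂ * d)) % N i) / N i = K * ((M * (a + j₃ * d)) % N i) / N i :=
    fun i => congrFun (congrArg Prod.fst e23) i
  have p12 : PP M N (a + j₁ * d) = PP M N (a + j₂ * d) := congrArg Prod.snd e12
  have p23 : PP M N (a + j₂ * d) = PP M N (a + j₃ * d) := congrArg Prod.snd e23
  have hp := fun i => cls_prop (hN i).pos hK h12 h23 h3 (f12 i) (f23 i)
  unfold PP at p12 p23
  zify at p12 p23 h12 h23 h3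
  set n : ℤ := (j₂ : ℤ) - j₁ with hn
  set n' : ℤ := (j₃ : ℤ) - j₂ with hn'
  have hnpos : 0 < n := by linarith
  have hn'pos : 0 < n' := by linarith
  -- the sum of squares
  have hsum : ∑ i, (n' * ((((M * (a + j₂ * d)) % N i : ℕ) : ℤ) - ((M * (a + j₁ * d)) % N i : ℕ)) ^ 2
      + n * ((((M * (a + j₃ * d)) % N i : ℕ) : ℤ) - ((M * (a + j₂ * d)) % N i : ℕ)) ^ 2) = 0 := by
    have : ∀ i, (n' * ((((M * (a + j₂ * d)) % N i : ℕ) : ℤ) - ((M * (a + j₁ * d)) % N i : ℕ)) ^ 2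
      + n * ((((M * (a + j₃ * d)) % N i : ℕ) : ℤ) - ((M * (a + j₂ * d)) % N i : ℕ)) ^ 2)
      = n' * (((M * (a + j₁ * d)) % N i : ℕ) : ℤ) ^ 2 + n * (((M * (a + j₃ * d)) % N i : ℕ) : ℤ) ^ 2
        - (n + n') * (((M * (a + j₂ * d)) % N i : ℕ) : ℤ) ^ 2 := by
      intro i
      have := hp i
      linear_combination (-2 * (((M * (a + j₂ * d)) % N i : ℕ) : ℤ)) * this
    rw [Finset.sum_congr rfl (fun i _ => this i), Finset.sum_sub_distrib, Finset.sum_add_distrib,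
      ← Finset.mul_sum, ← Finset.mul_sum, ← Finset.mul_sum]
    push_cast
    rw [p12, ← p23]
    ring
  have hz := (Finset.sum_eq_zero_iff_of_nonneg (fun i _ => by positivity)).1 hsum i₀ (Finset.mem_univ _)
  have hx : ((((M * (a + j₂ * d)) % N i₀ : ℕ) : ℤ) - ((M * (a + j₁ * d)) % N i₀ : ℕ)) = 0 := by
    by_contra hne
    have h1 : 0 < ((((M * (a + j₂ * d)) % N i₀ : ℕ) : ℤ) - ((M * (a + j₁ * d)) % N i₀ : ℕ)) ^ 2 := by
      positivity
    have h2 : 0 ≤ n * ((((M * (a + j₃ * d)) % N i₀ : ℕ) : ℤ) - ((M * (a + j₂ * d)) % N i₀ : ℕ)) ^ 2 := by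
      positivity
    nlinarith [mul_pos hn'pos h1]
  have hmod : (M * (a + j₁ * d)) % N i₀ = (M * (a + j₂ * d)) % N i₀ := by
    have := sub_eq_zero.1 hx
    exact_mod_cast this.symm
  have h12' : j₁ < j₂ := by exact_mod_cast h12
  have h23' : j₂ < j₃ := by exact_mod_cast h23
  have h3' : j₃ < k := by exact_mod_cast h3
  have hdvd : N i₀ ∣ M * (a + j₂ * d) - M * (a + j₁ * d) :=
    (Nat.modEq_iff_dvd' (Nat.mul_le_mul_left _ (Nat.add_le_add_left
      (Nat.mul_le_mul_right _ h12'.le) _))).1 hmod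
  have heq : M * (a + j₂ * d) - M * (a + j₁ * d) = (j₂ - j₁) * (M * d) := by
    obtain ⟨c, rfl⟩ := Nat.exists_eq_add_of_lt h12'
    have h1 : j₁ + c + 1 - j₁ = c + 1 := by omega
    rw [h1]
    apply Nat.sub_eq_of_eq_add
    ring
  rw [heq] at hdvd
  rcases (hN i₀).dvd_mul.1 hdvd with h | h
  · have := Nat.le_of_dvd (by omega) h
    omega
  · exact hi₀ h

/-- Suppose `N i` prime, `k ≤ N i₀`, `N i₀ ∤ M d`. Then every class is visited at most twice.
Proof: let `j₁ < j₂ < j₃` be visits, `n = j₂ - j₁`, `n' = j₃ - j₂`. Let `Z_r = (M (a + j_r d)) % N i`; the three lie in an interval of length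
`N i / K`. `Z₂ - Z₁ = n B - t N`, `Z₃ - Z₂ = n' B - t' N` (`B = M d`); `(n' t - n t') N = n (Z₃ - Z₂) - n' (Z₂ - Z₁)` has absolute value
`< 2 k N / K ≤ N`, so `n (Z₃ - Z₂) = n' (Z₂ - Z₁)` for every `i`. Hence
`n' Z₁² + n Z₃² - (n + n') Z₂² ≥ 0` with equality iff `Z₁ = Z₂` (strict convexity: with `x = Z₂ - Z₁`,
`n' Z₁² + n Z₃² - (n+n') Z₂² = n' x² + n (Z₃-Z₂)²`), and summing over `i`, as `PP` is the same for all three, all `Z₁ = Z₂`; but
`Z₂ - Z₁ ≡ n B` and `N i₀` does not divide `n B`. -/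
theorem cls_two {k K M a d : ℕ} (hN : ∀ i, (N i).Prime) (hK : 2 * k ≤ K)
    (i₀ : Fin D) (hi₀ : ¬ N i₀ ∣ M * d) (hk : k ≤ N i₀) : Two (along k (cls K M N) a d) := by
  intro x
  by_contra hcon
  rw [not_le, Finset.two_lt_card_iff] at hcon
  obtain ⟨u, v, w, hu, hv, hw, huv, huw, hvw⟩ := hcon
  replace hu := (Finset.mem_filter.1 hu).2
  replace hv := (Finset.mem_filter.1 hv).2
  replace hw := (Finset.mem_filter.1 hw).2
  simp only [along] at hu hv hw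
  have huv' : (u : ℕ) ≠ v := fun h => huv (Fin.ext h)
  have huw' : (u : ℕ) ≠ w := fun h => huw (Fin.ext h)
  have hvw' : (v : ℕ) ≠ w := fun h => hvw (Fin.ext h)
  have main : ∀ p q r : Fin k, (p : ℕ) < q → (q : ℕ) < r → cls K M N (a + p * d) = x →
      cls K M N (a + q * d) = x → cls K M N (a + r * d) = x → False := by
    intro p q r hpq hqr hp hq hr
    exact cls_three hN hK i₀ hi₀ hk hpq hqr r.2 (hp.trans hq.symm) (hq.trans hr.symm)
  rcases lt_or_gt_of_ne huv' with h1 | h1 <;> rcases lt_or_gt_of_ne huw' with h2 | h2 <;>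
    rcases lt_or_gt_of_ne hvw' with h3 | h3
  · exact main u v w h1 h3 hu hv hw
  · exact main u w v h2 h3 hu hw hv
  · omega
  · exact main w u v h2 h1 hw hu hv
  · exact main v u w h1 h2 hv hu hw
  · omega
  · exact main v w u h3 h2 hv hw hu
  · exact main w v u h3 h1 hw hv hu

end Crest.Agent.VW
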