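import Crest.Agent.VW_Defs

/-! # Task VW-Om: the Whitney index -/

set_option autoImplicit false

namespace Crest.Agent.VW

private theorem om_aux {k u : ℕ} (hu : 1 ≤ u) :
    k ≤ k * u / 2 ^ Nat.log 2 u ∧ k * u / 2 ^ Nat.log 2 u ≤ 2 * k ∧
      (0 < k → k * u / 2 ^ Nat.log 2 u < 2 * k) := by
  have h1 : 2 ^ Nat.log 2 u ≤ u := Nat.pow_log_le_self 2 (by omega)
  have h2 : u < 2 ^ (Nat.log 2 u + 1) := Nat.lt_pow_succ_log_self (by norm_num) u
  have hpos : 0 < 2 ^ Nat.log 2 u := by positivity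
  generalize Nat.log 2 u = b at *
  refine ⟨?_, ?_, ?_⟩
  · rw [Nat.le_div_iff_mul_le hpos]
    exact Nat.mul_le_mul_left k h1
  · apply Nat.div_le_of_le_mul
    calc k * u ≤ k * 2 ^ (b + 1) := Nat.mul_le_mul_left k h2.le
      _ = 2 ^ b * (2 * k) := by ring
  · intro hk
    rw [Nat.div_lt_iff_lt_mul hpos]
    calc k * u < k * 2 ^ (b + 1) := (Nat.mul_lt_mul_left hk).2 h2
      _ = 2 * k * 2 ^ b := by ring

theorem om_lt {k u : ℕ} (hk : 0 < k) (hu : 1 ≤ u) : om k u < k * (Nat.log 2 u + 1) := by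
  obtain ⟨h1, h2, h3⟩ := om_aux (k := k) hu
  have h3 := h3 hk
  unfold om
  rw [Nat.mul_add, Nat.mul_one]
  omega

/-- `om` is monotone (in the octave `b = log u` it runs through `k b, …, k b + k - 1`) -/
theorem om_mono {k u u' : ℕ} (hu : 1 ≤ u) (h : u ≤ u') : om k u ≤ om k u' := by
  rcases Nat.eq_zero_or_pos k with hk | hk
  · subst hk; simp [om]
  have hlog : Nat.log 2 u ≤ Nat.log 2 u' := Nat.log_mono_right h
  rcases hlog.lt_or_eq with hlt | heq
  · have h1 := om_lt hk hu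
    have h2 : k * (Nat.log 2 u + 1) ≤ k * Nat.log 2 u' := Nat.mul_le_mul_left k hlt
    have h3 : k * Nat.log 2 u' ≤ om k u' := by unfold om; omega
    omega
  · unfold om
    rw [← heq]
    have : k * u / 2 ^ Nat.log 2 u ≤ k * u' / 2 ^ Nat.log 2 u :=
      Nat.div_le_div_right (Nat.mul_le_mul_left k h)
    omega

/-- two points with the same Whitney index are close -/
theorem om_close {k u u' : ℕ} (hk : 0 < k) (hu : 1 ≤ u) (h : u ≤ u') (ho : om k u = om k u') :
    k * (u' - u) < u := by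
  have hlog : Nat.log 2 u ≤ Nat.log 2 u' := Nat.log_mono_right h
  rcases hlog.lt_or_eq with hlt | heq
  · exfalso
    have h1 := om_lt hk hu
    have h2 : k * (Nat.log 2 u + 1) ≤ k * Nat.log 2 u' := Nat.mul_le_mul_left k hlt
    have h3 : k * Nat.log 2 u' ≤ om k u' := by unfold om; omega
    omega
  · obtain ⟨h1, h2, h3⟩ := om_aux (k := k) hu
    obtain ⟨h1', h2', h3'⟩ := om_aux (k := k) (hu.trans h)
    unfold om at ho
    rw [← heq] at ho h1' h2' h3'
    have hle : 2 ^ Nat.log 2 u ≤ u := Nat.pow_log_le_self 2 (by omega)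
    have hpos : 0 < 2 ^ Nat.log 2 u := by positivity
    generalize Nat.log 2 u = b at *
    have hq : k * u / 2 ^ b = k * u' / 2 ^ b := by omega
    have e1 := Nat.div_mul_le_self (k * u) (2 ^ b)
    have e2 : k * u' < (k * u / 2 ^ b + 1) * 2 ^ b := by
      rw [hq, mul_comm (_ + 1)]
      exact Nat.lt_mul_div_succ _ hpos
    rw [Nat.add_mul, Nat.one_mul] at e2
    rw [Nat.mul_sub]
    omega

end Crest.Agent.VW
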