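import Crest.Agent.VW_Pat1
import Crest.Agent.VW_Om

/-! # Task VW-Pat2: number of cell patterns -/

set_option autoImplicit false

namespace Crest.Agent.VW

/-- a function monotone on `[0, N)` with values `< R` is determined by comparisons with at most `R` points -/
theorem pat2_mono_break (N R : ℕ) (f : ℕ → ℕ) (hf : ∀ y y', y ≤ y' → y' < N → f y ≤ f y')
    (hR : ∀ y, y < N → f y < R) :
    ∃ 𝔅 : Finset ℕ, 𝔅.card ≤ R ∧
      ∀ y y', y < N → y' < N → (∀ β ∈ 𝔅, β ≤ y ↔ β ≤ y') → f y = f y' := by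
  classical
  have hex : ∀ r, ∃ y, N ≤ y ∨ r ≤ f y := fun r => ⟨N, Or.inl le_rfl⟩
  have key : ∀ r y, y < N → (Nat.find (hex r) ≤ y ↔ r ≤ f y) := by
    intro r y hy
    constructor
    · intro h
      have h1 := Nat.find_spec (hex r)
      rcases h1 with h1 | h1
      · omega
      · exact h1.trans (hf _ _ h hy)
    · intro h
      exact Nat.find_min' (hex r) (Or.inr h)
  refine ⟨(Finset.range R).image (fun r => Nat.find (hex r)), ?_, ?_⟩
  · exact (Finset.card_image_le).trans (by simp)
  · have half : ∀ y y', y < N → y' < N →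
        (∀ β ∈ (Finset.range R).image (fun r => Nat.find (hex r)), β ≤ y ↔ β ≤ y') → f y ≤ f y' := by
      intro y y' hy hy' h
      have hm : Nat.find (hex (f y)) ∈ (Finset.range R).image (fun r => Nat.find (hex r)) :=
        Finset.mem_image.2 ⟨f y, Finset.mem_range.2 (hR y hy), rfl⟩
      have h1 := h _ hm
      exact (key _ _ hy').1 (h1.1 ((key _ _ hy).2 le_rfl))
    intro y y' hy hy' h
    exact le_antisymm (half y y' hy hy' h) (half y' y hy' hy (fun β hβ => (h β hβ).symm))

/-- breakpoints of the Whitney index: `wh k N` is determined on `[0, N)` by comparisons with `2 R + 1` breakpoints if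
`om k u < R` for `1 ≤ u ≤ N` (a monotone or antitone function with values `< R` is determined by comparisons with `≤ R` points). -/
theorem wh_break (k N R : ℕ) (hk : 0 < k) (hN : 0 < N) (hR : ∀ u, 1 ≤ u → u ≤ N → om k u < R) :
    ∃ 𝔅 : Finset ℕ, 𝔅.card ≤ 2 * R + 1 ∧
      ∀ y y', y < N → y' < N → (∀ β ∈ 𝔅, β ≤ y ↔ β ≤ y') → wh k N y = wh k N y' := by
  classical
  obtain ⟨B1, hc1, h1⟩ := pat2_mono_break N R (fun Z => om k (Z + 1))
    (fun y y' h _ => om_mono (by omega) (by omega)) (fun y hy => hR _ (by omega) (by omega))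
  have hR1 : 0 < R := lt_of_le_of_lt (Nat.zero_le _) (hR 1 le_rfl hN)
  obtain ⟨B2, hc2, h2⟩ := pat2_mono_break N R (fun Z => R - 1 - om k (N - Z))
    (fun y y' h hy' => by
      have : om k (N - y') ≤ om k (N - y) := om_mono (by omega) (by omega)
      show R - 1 - om k (N - y) ≤ R - 1 - om k (N - y')
      omega) (fun y hy => by
      show R - 1 - om k (N - y) < R
      omega)
  refine ⟨B1 ∪ B2 ∪ {(N + 1) / 2}, ?_, ?_⟩
  · have := Finset.card_union_le (B1 ∪ B2) {(N + 1) / 2}
    have h3 := Finset.card_union_le B1 B2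
    simp only [Finset.card_singleton] at this
    omega
  · intro y y' hy hy' h
    have e1 : om k (y + 1) = om k (y' + 1) :=
      h1 y y' hy hy' (fun β hβ => h β (by simp [hβ]))
    have e2 : R - 1 - om k (N - y) = R - 1 - om k (N - y') :=
      h2 y y' hy hy' (fun β hβ => h β (by simp [hβ]))
    have e3 : om k (N - y) = om k (N - y') := by
      have a1 := hR (N - y) (by omega) (by omega)
      have a2 := hR (N - y') (by omega) (by omega)
      omega
    have e4 : 2 * y < N ↔ 2 * y' < N := by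
      have := h ((N + 1) / 2) (by simp)
      omega
    unfold wh
    by_cases hc : 2 * y < N
    · rw [if_pos hc, if_pos (e4.1 hc), e1]
    · rw [if_neg hc, if_neg (fun h' => hc (e4.2 h')), e3]

/-- breakpoints of `y ↦ (wh k N ((m * y) % N), T * y / N)` on `[0, N)`: `⌈c N / T⌉` for `c < T`, and `⌈(h N + β)/m⌉` for
`h < m`, `β ∈ 𝔅 ∪ {0}`. -/
theorem cell_break (k N R m T : ℕ) (hk : 0 < k) (hN : 0 < N) (hm : 0 < m) (hT : 0 < T)
    (hR : ∀ u, 1 ≤ u → u ≤ N → om k u < R) :
    ∃ 𝔅 : Finset ℕ, 𝔅.card ≤ T + m * (2 * R + 2) ∧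
      ∀ y y', y < N → y' < N → (∀ β ∈ 𝔅, β ≤ y ↔ β ≤ y') →
        (wh k N ((m * y) % N), T * y / N) = (wh k N ((m * y') % N), T * y' / N) := by
  classical
  obtain ⟨B, hc, hB⟩ := wh_break k N R hk hN hR
  obtain ⟨B1, hc1, h1⟩ := pat2_mono_break N T (fun y => T * y / N)
    (fun y y' h _ => Nat.div_le_div_right (Nat.mul_le_mul_left _ h))
    (fun y hy => by
      show T * y / N < T
      exact (Nat.div_lt_iff_lt_mul hN).2 (Nat.mul_lt_mul_of_pos_left hy hT))
  set B2 : Finset ℕ := ((Finset.range m) ×ˢ (insert 0 B)).image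
    (fun p => (p.1 * N + p.2 + (m - 1)) / m) with hB2
  have key : ∀ h β y, (h * N + β + (m - 1)) / m ≤ y ↔ h * N + β ≤ m * y := by
    intro h β y
    rw [Nat.div_le_iff_le_mul_add_pred hm]
    omega
  refine ⟨B1 ∪ B2, ?_, ?_⟩
  · have h3 := Finset.card_union_le B1 B2
    have h4 : B2.card ≤ m * (2 * R + 2) := by
      refine (Finset.card_image_le).trans ?_
      rw [Finset.card_product, Finset.card_range]
      refine Nat.mul_le_mul_left _ ?_
      have := Finset.card_insert_le 0 B
      omega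
    omega
  · intro y y' hy hy' h
    have e1 : T * y / N = T * y' / N := h1 y y' hy hy' (fun β hβ => h β (by simp [hβ]))
    have e2 : ∀ q < m, ∀ β ∈ insert 0 B, (q * N + β ≤ m * y ↔ q * N + β ≤ m * y') := by
      intro q hq β hβ
      have := h ((q * N + β + (m - 1)) / m) (by
        refine Finset.mem_union_right _ ?_
        exact Finset.mem_image.2 ⟨(q, β), Finset.mem_product.2 ⟨Finset.mem_range.2 hq, hβ⟩, rfl⟩)
      rw [key, key] at this
      exact this
    have hlt : ∀ z, z < N → m * z / N < m := fun z hz =>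
      (Nat.div_lt_iff_lt_mul hN).2 (Nat.mul_lt_mul_of_pos_left hz hm)
    have hq : m * y / N = m * y' / N := by
      have half : ∀ z z', z < N → z' < N →
          (∀ q < m, ∀ β ∈ insert 0 B, (q * N + β ≤ m * z ↔ q * N + β ≤ m * z')) →
          m * z / N ≤ m * z' / N := by
        intro z z' hz hz' hh
        have := hh (m * z / N) (hlt z hz) 0 (Finset.mem_insert_self _ _)
        rw [add_zero] at this
        rw [Nat.le_div_iff_mul_le hN]
        exact this.1 (Nat.div_mul_le_self _ _)
      exact le_antisymm (half y y' hy hy' e2)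
        (half y' y hy' hy (fun q hq β hβ => (e2 q hq β hβ).symm))
    have e3 : wh k N ((m * y) % N) = wh k N ((m * y') % N) := by
      refine hB _ _ (Nat.mod_lt _ hN) (Nat.mod_lt _ hN) (fun β hβ => ?_)
      have h5 := e2 (m * y / N) (hlt y hy) β (Finset.mem_insert_of_mem hβ)
      have h6 := Nat.div_add_mod (m * y) N
      have h7 := Nat.div_add_mod (m * y') N
      rw [← hq] at h7
      have h8 : N * (m * y / N) = m * y / N * N := Nat.mul_comm _ _
      rw [h8] at h6 h7
      omega
    rw [e1, e3]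

/-- Number of patterns of the level with multiplier `mu` and grid `T`, `M = m * mu`. -/
theorem pat_cell {D : ℕ} (N : Fin D → ℕ) (k R m mu T : ℕ) (hk : 0 < k) (hN : ∀ i, 0 < N i) (hm : 0 < m)
    (hT : 0 < T) (hR : ∀ i u, 1 ≤ u → u ≤ N i → om k u < R) :
    ∃ P : Finset (Fin k → (Fin D → (Bool × ℕ) × ℕ)),
      P.card ≤ ((k * (k + 1) * (T + m * (2 * R + 2) + 1) + 1) ^ 3) ^ D ∧
      ∀ a d, along k (cell k (m * mu) mu T N) a d ∈ P := by
  classical
  have hQ : ∀ i : Fin D, ∃ Q : Finset (Fin k → (Bool × ℕ) × ℕ),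
      Q.card ≤ (k * (k + 1) * (T + m * (2 * R + 2) + 1) + 1) ^ 3 ∧
      ∀ a d : ℕ, (fun j : Fin k => cell k (m * mu) mu T N (a + j * d) i) ∈ Q := by
    intro i
    obtain ⟨B, hc, hB⟩ := cell_break k (N i) R m T hk (hN i) hm hT (hR i)
    obtain ⟨Q, hQc, hQ⟩ := pat1 (N i) k (hN i) B
      (fun y => (wh k (N i) ((m * y) % N i), T * y / N i)) hB
    refine ⟨Q, hQc.trans ?_, ?_⟩
    · gcongr
    · intro a d
      have := hQ (mu * a) (mu * d)
      convert this using 1
      funext j
      have e1 : (mu * (a + j * d)) % N i = (mu * a + j * (mu * d)) % N i := by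
        congr 1; ring
      have e2 : (m * mu * (a + j * d)) % N i = (m * ((mu * a + j * (mu * d)) % N i)) % N i := by
        rw [Nat.mul_mod m ((mu * a + j * (mu * d)) % N i) (N i), Nat.mod_mod, ← Nat.mul_mod]
        congr 1; ring
      show (wh k (N i) ((m * mu * (a + j * d)) % N i), T * ((mu * (a + j * d)) % N i) / N i) = _
      rw [e1, e2]
  choose Q hQc hQ' using hQ
  refine ⟨(Fintype.piFinset Q).image (fun F => fun j i => F i j), ?_, ?_⟩
  · refine (Finset.card_image_le).trans ?_
    rw [Fintype.card_piFinset]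
    calc ∏ i, (Q i).card ≤ ∏ _i : Fin D, (k * (k + 1) * (T + m * (2 * R + 2) + 1) + 1) ^ 3 :=
          Finset.prod_le_prod' (fun i _ => hQc i)
      _ = _ := by simp
  · intro a d
    refine Finset.mem_image.2 ⟨fun i j => cell k (m * mu) mu T N (a + j * d) i, ?_, rfl⟩
    exact Fintype.mem_piFinset.2 (fun i => hQ' i a d)

end Crest.Agent.VW
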