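import Crest.Agent.VW_Defs

/-! # Task VW-Primes: the moduli (Bertrand) -/

set_option autoImplicit false

namespace Crest.Agent.VW

/-- `Nat.exists_prime_lt_and_le_two_mul` with `2 ^ (L + i)` gives a prime `N i ∈ (2^(L+i), 2^(L+i+1)]`, `< 2^(L+i+1)` as it is odd (`1 ≤ L`). -/
theorem exists_primes (D L : ℕ) (hL : 1 ≤ L) :
    ∃ N : Fin D → ℕ, (∀ i, (N i).Prime) ∧ Function.Injective N ∧ (∀ i, 2 ^ L ≤ N i) ∧
      ∀ i, N i < 2 ^ (L + D + 1) := by
  have h : ∀ i : Fin D, ∃ p : ℕ, p.Prime ∧ 2 ^ (L + i) < p ∧ p ≤ 2 ^ (L + i + 1) := by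
    intro i
    obtain ⟨p, hp, h1, h2⟩ := Nat.exists_prime_lt_and_le_two_mul (2 ^ (L + (i : ℕ))) (by positivity)
    exact ⟨p, hp, h1, by rw [pow_succ, mul_comm]; exact h2⟩
  choose N hN using h
  have hlt : ∀ i j : Fin D, i < j → N i < N j := by
    intro i j hij
    have h1 : (i : ℕ) + 1 ≤ j := hij
    calc N i ≤ 2 ^ (L + i + 1) := (hN i).2.2
      _ ≤ 2 ^ (L + j) := Nat.pow_le_pow_right (by norm_num) (by omega)
      _ < N j := (hN j).2.1
  refine ⟨N, fun i => (hN i).1, ?_, ?_, ?_⟩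
  · intro i j hij
    rcases lt_trichotomy i j with h1 | h1 | h1
    · exact absurd hij (hlt i j h1).ne
    · exact h1
    · exact absurd hij.symm (hlt j i h1).ne
  · intro i
    exact (Nat.pow_le_pow_right (by norm_num) (by omega)).trans (hN i).2.1.le
  · intro i
    refine lt_of_le_of_lt (hN i).2.2 (Nat.pow_lt_pow_right (by norm_num) ?_)
    have := i.2
    omega

theorem prod_dvd {D : ℕ} (N : Fin D → ℕ) (hN : ∀ i, (N i).Prime) (hinj : Function.Injective N) (d : ℕ)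
    (h : ∀ i, N i ∣ d) : (∏ i, N i) ∣ d := by
  classical
  have h1 : ∏ i, N i = ∏ p ∈ Finset.univ.image N, p := by
    rw [Finset.prod_image fun i _ j _ hij => hinj hij]
  rw [h1]
  refine Finset.prod_primes_dvd d ?_ ?_
  · intro p hp
    obtain ⟨i, _, rfl⟩ := Finset.mem_image.1 hp
    exact (hN i).prime
  · intro p hp
    obtain ⟨i, _, rfl⟩ := Finset.mem_image.1 hp
    exact h i

/-- prime powers in the multipliers -/
theorem pow_dvd_factorial_pow {k q e p : ℕ} (hp : p.Prime) (hpq : p ≤ q) (hk : k ≤ 2 ^ e) :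
    k ≤ p ^ e ∧ p ^ e ∣ (Nat.factorial q) ^ e :=
  ⟨hk.trans (Nat.pow_le_pow_left hp.two_le e), pow_dvd_pow_of_dvd (hp.dvd_factorial.2 hpq) e⟩

theorem not_dvd_factorial_pow {q e p : ℕ} (hp : p.Prime) (hpq : q < p) : ¬ p ∣ (Nat.factorial q) ^ e := by
  intro h
  have := hp.dvd_factorial.1 (hp.dvd_of_dvd_pow h)
  omega

end Crest.Agent.VW
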