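import Crest.Agent.VW_Defs

/-! # Task VW-Quad: on progressions without wrap-around `PP` is a quadratic polynomial -/

set_option autoImplicit false

namespace Crest.Agent.VW

variable {D : ℕ} {N : Fin D → ℕ}

/-- the set of coefficient triples -/
noncomputable def quadBox (Q : ℕ) : Finset (ℤ × ℤ × ℤ) :=
  Finset.Icc (-(Q : ℤ)) Q ×ˢ Finset.Icc (-(Q : ℤ)) Q ×ˢ Finset.Icc (-(Q : ℤ)) Q

theorem card_quadBox (Q : ℕ) : (quadBox Q).card = (2 * Q + 1) ^ 3 := by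
  unfold quadBox
  have h : ((Q : ℤ) + 1 - -(Q : ℤ)).toNat = 2 * Q + 1 := by omega
  rw [Finset.card_product, Finset.card_product, Int.card_Icc, h]
  ring

/-- `PP (a + t d) = A + B t + C t²`, `A = Σ Z_i²`, `B = 2 Σ Z_i b_i`, `C = Σ b_i²` -/
theorem pp_quad {k M a d P : ℕ} (b : Fin D → ℤ) (hP : ∀ i, N i ≤ P) (hN : ∀ i, 0 < N i)
    (hb : ∀ i, |b i| < N i)
    (h : ∀ i, ∀ t < k, (((M * (a + t * d)) % N i : ℕ) : ℤ) = ((M * a) % N i : ℕ) + t * b i) :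
    ∃ A ∈ quadBox (2 * D * P ^ 2), ∀ t < k, (PP M N (a + t * d) : ℤ) = A.1 + A.2.1 * t + A.2.2 * t ^ 2 := by
  set Z : Fin D → ℤ := fun i => (((M * a) % N i : ℕ) : ℤ) with hZ
  have hZ0 : ∀ i, 0 ≤ Z i := fun i => Int.natCast_nonneg _
  have hZP : ∀ i, Z i ≤ P := fun i => by
    have h1 : (M * a) % N i < N i := Nat.mod_lt _ (hN i)
    have h2 := hP i
    show (((M * a) % N i : ℕ) : ℤ) ≤ P
    exact_mod_cast (h1.le.trans h2)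
  have hbP : ∀ i, |b i| ≤ P := fun i => by
    have h1 := hb i
    have h2 : (N i : ℤ) ≤ P := by exact_mod_cast hP i
    exact (h1.trans_le h2).le
  have hP0 : (0 : ℤ) ≤ P := Int.natCast_nonneg _
  have hD0 : (0 : ℤ) ≤ (D : ℤ) * (P : ℤ) ^ 2 := by positivity
  have b1 : ∀ i, 0 ≤ Z i ^ 2 ∧ Z i ^ 2 ≤ (P : ℤ) ^ 2 := fun i =>
    ⟨sq_nonneg _, pow_le_pow_left₀ (hZ0 i) (hZP i) 2⟩
  have b2 : ∀ i, |2 * (Z i * b i)| ≤ 2 * (P : ℤ) ^ 2 := fun i => by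
    rw [abs_mul, abs_mul, abs_of_nonneg (hZ0 i), abs_of_nonneg (by norm_num : (0:ℤ) ≤ 2), sq]
    have := mul_le_mul (hZP i) (hbP i) (abs_nonneg _) hP0
    linarith
  have b3 : ∀ i, 0 ≤ b i ^ 2 ∧ b i ^ 2 ≤ (P : ℤ) ^ 2 := fun i => by
    refine ⟨sq_nonneg _, ?_⟩
    rw [← sq_abs]
    exact pow_le_pow_left₀ (abs_nonneg _) (hbP i) 2
  have s1 : ∑ i, Z i ^ 2 ≤ D * (P : ℤ) ^ 2 := by
    calc ∑ i, Z i ^ 2 ≤ ∑ _i : Fin D, (P : ℤ) ^ 2 := Finset.sum_le_sum fun i _ => (b1 i).2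
      _ = D * (P : ℤ) ^ 2 := by simp
  have s1' : 0 ≤ ∑ i, Z i ^ 2 := Finset.sum_nonneg fun i _ => (b1 i).1
  have s3 : ∑ i, b i ^ 2 ≤ D * (P : ℤ) ^ 2 := by
    calc ∑ i, b i ^ 2 ≤ ∑ _i : Fin D, (P : ℤ) ^ 2 := Finset.sum_le_sum fun i _ => (b3 i).2
      _ = D * (P : ℤ) ^ 2 := by simp
  have s3' : 0 ≤ ∑ i, b i ^ 2 := Finset.sum_nonneg fun i _ => (b3 i).1
  have s2 : |∑ i, 2 * (Z i * b i)| ≤ 2 * (D * (P : ℤ) ^ 2) := by
    calc |∑ i, 2 * (Z i * b i)| ≤ ∑ i, |2 * (Z i * b i)| := Finset.abs_sum_le_sum_abs _ _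
      _ ≤ ∑ _i : Fin D, 2 * (P : ℤ) ^ 2 := Finset.sum_le_sum fun i _ => b2 i
      _ = 2 * (D * (P : ℤ) ^ 2) := by simp; ring
  have s2' := abs_le.1 s2
  refine ⟨(∑ i, Z i ^ 2, ∑ i, 2 * (Z i * b i), ∑ i, b i ^ 2), ?_, ?_⟩
  · simp only [quadBox, Finset.mem_product, Finset.mem_Icc]
    push_cast
    refine ⟨⟨?_, ?_⟩, ⟨?_, ?_⟩, ⟨?_, ?_⟩⟩ <;> nlinarith [s2'.1, s2'.2]
  · intro t ht
    simp only [PP]
    push_cast
    rw [Finset.sum_mul, Finset.sum_mul, ← Finset.sum_add_distrib, ← Finset.sum_add_distrib]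
    refine Finset.sum_congr rfl fun i _ => ?_
    have := h i t ht
    push_cast at this
    rw [this]
    simp only [hZ]
    push_cast
    ring

end Crest.Agent.VW
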