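import Crest.Agent.VW_Defs

/-! # Task VW-RandS: random dense colouring of cells -/

set_option autoImplicit false

namespace Crest.Agent.VW

theorem randS_key (t : ℝ) (h0 : 0 ≤ t) (h1 : t ≤ 1) :
    1 + Real.exp (-t) ≤ 2 * Real.exp (-(t / 4)) := by
  have h2 : t + 1 ≤ Real.exp t := Real.add_one_le_exp t
  have h3 : Real.exp (-t) ≤ 1 - t / 2 := by
    rw [Real.exp_neg]
    have h4 : (1 - t / 2) * Real.exp t ≥ 1 := by
      have : (1 - t / 2) * Real.exp t ≥ (1 - t / 2) * (t + 1) :=
        mul_le_mul_of_nonneg_left h2 (by linarith)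
      nlinarith
    rw [inv_le_iff_one_le_mul₀ (Real.exp_pos t)]
    exact h4
  have h5 : -(t / 4) + 1 ≤ Real.exp (-(t / 4)) := Real.add_one_le_exp _
  linarith

theorem randS_sum_fiber {α : Type*} [DecidableEq α] {k : ℕ} (c : Fin k → α) (J : Finset (Fin k))
    (A : Finset α) :
    ((J.filter (fun j => c j ∈ A)).card : ℝ) =
      ∑ x ∈ A, ((J.filter (fun j => c j = x)).card : ℝ) := by
  rw [Finset.card_eq_sum_card_fiberwise (s := J.filter (fun j => c j ∈ A)) (f := c) (t := A)
    (by intro j hj; simpa using (Finset.mem_filter.mp hj).2)]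
  push_cast
  apply Finset.sum_congr rfl
  intro x hx
  congr 2
  ext j
  simp only [Finset.mem_filter]
  constructor
  · rintro ⟨⟨h1, h2⟩, h3⟩; exact ⟨h1, h3⟩
  · rintro ⟨h1, h3⟩; exact ⟨⟨h1, h3 ▸ hx⟩, h3⟩

theorem randS_bad {α : Type*} [DecidableEq α] (k h : ℕ) (hk : 0 < k) (hh : 0 < h)
    (c : Fin k → α) (J : Finset (Fin k)) (Y : Finset α) (hY : ∀ j, c j ∈ Y)
    (hgen : Gen (64 * h) c) (hJ : k ≤ 8 * J.card) (b : Bool) :
    ((Y.powerset.filter (fun A =>
      8 * (J.filter (fun j => decide (c j ∈ A) = b)).card < J.card)).card : ℝ)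
      ≤ 2 ^ Y.card * Real.exp (-(h : ℝ)) := by
  classical
  have hk' : (0 : ℝ) < k := by exact_mod_cast hk
  have hh' : (0 : ℝ) < h := by exact_mod_cast hh
  obtain ⟨w, hw⟩ : ∃ w : ℝ, w = k / (64 * h) := ⟨_, rfl⟩
  have hwpos : 0 < w := by rw [hw]; positivity
  set V : α → ℝ := fun x => ((J.filter (fun j => c j = x)).card : ℝ) with hV
  have hV0 : ∀ x, 0 ≤ V x := fun x => by positivity
  have hV1 : ∀ x, V x / w ≤ 1 := by
    intro x
    rw [div_le_one hwpos, hw, le_div_iff₀ (by positivity)]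
    have h1 : (J.filter (fun j => c j = x)).card ≤
        (Finset.univ.filter (fun j => c j = x)).card :=
      Finset.card_le_card (Finset.filter_subset_filter _ (Finset.subset_univ _))
    have h2 := hgen x
    have h3 : (J.filter (fun j => c j = x)).card * (64 * h) ≤ k :=
      le_trans (Nat.mul_le_mul_right _ h1) h2
    have h4 : (((J.filter (fun j => c j = x)).card * (64 * h) : ℕ) : ℝ) ≤ (k : ℝ) := by
      exact_mod_cast h3
    push_cast at h4
    exact h4
  -- weights
  set f : α → ℝ := fun x => if b then Real.exp (-(V x / w)) else 1 with hf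
  set g : α → ℝ := fun x => if b then 1 else Real.exp (-(V x / w)) with hg
  have hfg : ∀ x, f x + g x = 1 + Real.exp (-(V x / w)) := by
    intro x
    cases b <;> simp [hf, hg, add_comm]
  have hcount : ∀ A ∈ Y.powerset, (∏ x ∈ A, f x) * ∏ x ∈ Y \ A, g x =
      Real.exp (-(((J.filter (fun j => decide (c j ∈ A) = b)).card : ℝ) / w)) := by
    intro A hA
    rw [Finset.mem_powerset] at hA
    cases b
    · simp only [hf, hg, Bool.false_eq_true, if_false, Finset.prod_const_one, one_mul]
      rw [← Real.exp_sum]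
      congr 1
      have h1 : (J.filter (fun j => decide (c j ∈ A) = false)) = J.filter (fun j => c j ∈ Y \ A) := by
        ext j
        simp only [Finset.mem_filter, decide_eq_false_iff_not, Finset.mem_sdiff]
        constructor
        · rintro ⟨h1, h2⟩; exact ⟨h1, hY j, h2⟩
        · rintro ⟨h1, _, h2⟩; exact ⟨h1, h2⟩
      rw [h1, randS_sum_fiber, Finset.sum_neg_distrib, Finset.sum_div]
    · simp only [hf, hg, if_true, Finset.prod_const_one, mul_one]
      rw [← Real.exp_sum]
      congr 1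
      have h1 : (J.filter (fun j => decide (c j ∈ A) = true)) = J.filter (fun j => c j ∈ A) := by
        ext j
        simp only [Finset.mem_filter, decide_eq_true_eq]
      rw [h1, randS_sum_fiber, Finset.sum_neg_distrib, Finset.sum_div]
  have hsum : ∑ A ∈ Y.powerset,
      Real.exp (-(((J.filter (fun j => decide (c j ∈ A) = b)).card : ℝ) / w)) =
      ∏ x ∈ Y, (1 + Real.exp (-(V x / w))) := by
    rw [← Finset.prod_congr rfl (fun x _ => hfg x), Finset.prod_add]
    exact (Finset.sum_congr rfl hcount).symm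
  have hVsum : ∑ x ∈ Y, V x = J.card := by
    rw [hV, ← randS_sum_fiber c J Y]
    congr 2
    ext j
    simp [hY j]
  have hprod : ∏ x ∈ Y, (1 + Real.exp (-(V x / w))) ≤
      2 ^ Y.card * Real.exp (-((J.card : ℝ) / (4 * w))) := by
    calc ∏ x ∈ Y, (1 + Real.exp (-(V x / w)))
        ≤ ∏ x ∈ Y, (2 * Real.exp (-((V x / w) / 4))) := by
          apply Finset.prod_le_prod
          · intro x _; positivity
          · intro x _
            exact randS_key _ (div_nonneg (hV0 x) hwpos.le) (hV1 x)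
      _ = 2 ^ Y.card * Real.exp (-((J.card : ℝ) / (4 * w))) := by
          rw [Finset.prod_mul_distrib, Finset.prod_const, ← Real.exp_sum]
          congr 2
          rw [Finset.sum_neg_distrib, ← hVsum, Finset.sum_div]
          congr 1
          apply Finset.sum_congr rfl
          intro x _
          field_simp
  -- exponential Markov
  have hmark : ((Y.powerset.filter (fun A =>
      8 * (J.filter (fun j => decide (c j ∈ A) = b)).card < J.card)).card : ℝ)
      ≤ ∑ A ∈ Y.powerset, Real.exp ((J.card : ℝ) / (8 * w)) *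
        Real.exp (-(((J.filter (fun j => decide (c j ∈ A) = b)).card : ℝ) / w)) := by
    calc ((Y.powerset.filter (fun A =>
      8 * (J.filter (fun j => decide (c j ∈ A) = b)).card < J.card)).card : ℝ)
        = ∑ A ∈ Y.powerset.filter (fun A =>
          8 * (J.filter (fun j => decide (c j ∈ A) = b)).card < J.card), (1 : ℝ) := by simp
      _ ≤ ∑ A ∈ Y.powerset.filter (fun A =>
          8 * (J.filter (fun j => decide (c j ∈ A) = b)).card < J.card),
          Real.exp ((J.card : ℝ) / (8 * w)) *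
        Real.exp (-(((J.filter (fun j => decide (c j ∈ A) = b)).card : ℝ) / w)) := by
          apply Finset.sum_le_sum
          intro A hA
          have hA2 := (Finset.mem_filter.mp hA).2
          rw [← Real.exp_add]
          apply Real.one_le_exp
          have h8 : (8 : ℝ) * ((J.filter (fun j => decide (c j ∈ A) = b)).card : ℝ) ≤ J.card := by
            exact_mod_cast hA2.le
          have h9 : (J.card : ℝ) / (8 * w) +
              -(((J.filter (fun j => decide (c j ∈ A) = b)).card : ℝ) / w) =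
              ((J.card : ℝ) - 8 * ((J.filter (fun j => decide (c j ∈ A) = b)).card : ℝ)) /
                (8 * w) := by
            field_simp
            ring
          rw [h9]
          apply div_nonneg (by linarith) (by positivity)
      _ ≤ _ := by
          apply Finset.sum_le_sum_of_subset_of_nonneg (Finset.filter_subset _ _)
          intro A _ _
          positivity
  have hexp : Real.exp ((J.card : ℝ) / (8 * w)) * Real.exp (-((J.card : ℝ) / (4 * w))) ≤
      Real.exp (-(h : ℝ)) := by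
    rw [← Real.exp_add]
    apply Real.exp_le_exp.mpr
    have h1 : (J.card : ℝ) / (8 * w) + -((J.card : ℝ) / (4 * w)) = -((J.card : ℝ) / (8 * w)) := by
      rw [show (4 : ℝ) * w = (8 * w) / 2 by ring, div_div_eq_mul_div]
      ring
    rw [h1]
    apply neg_le_neg
    rw [hw, le_div_iff₀ (by positivity)]
    have hJ' : (k : ℝ) ≤ 8 * J.card := by exact_mod_cast hJ
    have : (h : ℝ) * (8 * (k / (64 * h))) = k / 8 := by
      have e1 : (h : ℝ) * (8 * (k / (64 * h))) = (8 * h * k) / (64 * h) := by ring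
      rw [e1, div_eq_div_iff (by positivity) (by norm_num)]
      ring
    rw [this]
    linarith
  calc _ ≤ _ := hmark
    _ = Real.exp ((J.card : ℝ) / (8 * w)) * ∏ x ∈ Y, (1 + Real.exp (-(V x / w))) := by
        rw [← Finset.mul_sum, hsum]
    _ ≤ Real.exp ((J.card : ℝ) / (8 * w)) *
        (2 ^ Y.card * Real.exp (-((J.card : ℝ) / (4 * w)))) :=
        mul_le_mul_of_nonneg_left hprod (Real.exp_pos _).le
    _ = 2 ^ Y.card * (Real.exp ((J.card : ℝ) / (8 * w)) *
        Real.exp (-((J.card : ℝ) / (4 * w)))) := by ring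
    _ ≤ _ := mul_le_mul_of_nonneg_left hexp (by positivity)

/-- Union bound. Let `Y` be the (finite) set of all values of the sequences. For `S : Y → Bool` uniformly random and fixed `(c, J) ∈ ℱ`, `b`, with
`V x = #{j ∈ J : c j = x} ≤ k/H =: w`: `#{S : Σ_{x : S x = b} V x < |J|/8} ≤ Σ_S exp ((|J|/8 - Σ_{S x = b} V x)/w)
= exp (|J|/(8w)) Π_x (1 + exp (-V x/w)) ≤ 2^|Y| exp (|J|/(8w) - |J|/(4w)) ≤ 2^|Y| exp (-H/64)`, using `(1 + exp (-t))/2 ≤ 1 - t/4 ≤ exp (-t/4)` for
`0 ≤ t ≤ 1` (`exp (-t) ≤ 1/(1+t) ≤ 1 - t/2`), `|J| ≥ k/8`. Here `H = 64 h` and `exp (-h) < 2^(-h)`. -/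
theorem exists_S {α : Type*} [DecidableEq α] (k h : ℕ) (hk : 0 < k) (hh : 0 < h)
    (ℱ : Finset ((Fin k → α) × Finset (Fin k)))
    (hgen : ∀ p ∈ ℱ, Gen (64 * h) p.1) (hJ : ∀ p ∈ ℱ, k ≤ 8 * p.2.card)
    (hcard : 2 * ℱ.card ≤ 2 ^ h) :
    ∃ S : α → Bool, ∀ p ∈ ℱ, ∀ b : Bool,
      p.2.card ≤ 8 * (p.2.filter (fun j => S (p.1 j) = b)).card := by
  classical
  set Y : Finset α := ℱ.biUnion (fun p => Finset.univ.image p.1) with hYdef
  have hY : ∀ p ∈ ℱ, ∀ j, p.1 j ∈ Y := by
    intro p hp j
    rw [hYdef, Finset.mem_biUnion]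
    exact ⟨p, hp, Finset.mem_image_of_mem _ (Finset.mem_univ _)⟩
  set bad : ((Fin k → α) × Finset (Fin k)) × Bool → Finset (Finset α) := fun q =>
    Y.powerset.filter (fun A =>
      8 * (q.1.2.filter (fun j => decide (q.1.1 j ∈ A) = q.2)).card < q.1.2.card) with hbad
  set U : Finset (Finset α) := (ℱ ×ˢ (Finset.univ : Finset Bool)).biUnion bad with hU
  have hUcard : (U.card : ℝ) < 2 ^ Y.card := by
    have h1 : (U.card : ℝ) ≤ ∑ q ∈ ℱ ×ˢ (Finset.univ : Finset Bool), ((bad q).card : ℝ) := by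
      exact_mod_cast Finset.card_biUnion_le
    have h2 : ∑ q ∈ ℱ ×ˢ (Finset.univ : Finset Bool), ((bad q).card : ℝ) ≤
        ∑ q ∈ ℱ ×ˢ (Finset.univ : Finset Bool), (2 ^ Y.card * Real.exp (-(h : ℝ))) := by
      apply Finset.sum_le_sum
      intro q hq
      have hq1 : q.1 ∈ ℱ := (Finset.mem_product.mp hq).1
      exact randS_bad k h hk hh q.1.1 q.1.2 Y (hY q.1 hq1) (hgen q.1 hq1) (hJ q.1 hq1) q.2
    rw [Finset.sum_const, Finset.card_product, nsmul_eq_mul] at h2
    have h3 : (((ℱ.card * (Finset.univ : Finset Bool).card : ℕ)) : ℝ) ≤ 2 ^ h := by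
      have : ℱ.card * (Finset.univ : Finset Bool).card ≤ 2 ^ h := by
        simpa [mul_comm] using hcard
      exact_mod_cast this
    have h4 : (2 : ℝ) ^ h * Real.exp (-(h : ℝ)) < 1 := by
      have h5 : (2 : ℝ) ^ h < Real.exp 1 ^ h := by
        apply pow_lt_pow_left₀ _ (by norm_num) hh.ne'
        have := Real.exp_one_gt_d9
        linarith
      have h6 : Real.exp (h : ℝ) = Real.exp 1 ^ h := by
        rw [← Real.exp_nat_mul, mul_one]
      rw [Real.exp_neg, h6, ← div_eq_mul_inv, div_lt_one (by positivity)]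
      exact h5
    calc (U.card : ℝ) ≤ _ := h1
      _ ≤ _ := h2
      _ ≤ 2 ^ h * (2 ^ Y.card * Real.exp (-(h : ℝ))) :=
          mul_le_mul_of_nonneg_right h3 (by positivity)
      _ = 2 ^ Y.card * (2 ^ h * Real.exp (-(h : ℝ))) := by ring
      _ < 2 ^ Y.card * 1 := mul_lt_mul_of_pos_left h4 (by positivity)
      _ = 2 ^ Y.card := mul_one _
  have hex : ∃ A ∈ Y.powerset, A ∉ U := by
    by_contra hcon
    push Not at hcon
    have h1 : Y.powerset ⊆ U := fun A hA => hcon A hA
    have h2 := Finset.card_le_card h1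
    rw [Finset.card_powerset] at h2
    have h3 : ((2 ^ Y.card : ℕ) : ℝ) ≤ U.card := by exact_mod_cast h2
    push_cast at h3
    linarith
  obtain ⟨A, hA, hAU⟩ := hex
  refine ⟨fun x => decide (x ∈ A), fun p hp b => ?_⟩
  by_contra hlt
  push Not at hlt
  apply hAU
  rw [hU, Finset.mem_biUnion]
  refine ⟨(p, b), Finset.mem_product.mpr ⟨hp, Finset.mem_univ _⟩, ?_⟩
  rw [hbad]
  exact Finset.mem_filter.mpr ⟨hA, hlt⟩

end Crest.Agent.VW
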