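import Crest.Agent.VW_Defs

/-! # Task VW-RandT: random sparse modification -/

set_option autoImplicit false

namespace Crest.Agent.VW

private theorem rt_cnt {β : Type*} [Fintype β] [DecidableEq β] (q : ℕ) (W : Finset β)
    (P : β → Finset (Fin q)) (b : ℕ) (hP : ∀ x ∈ W, (P x).card ≤ b) :
    (Finset.univ.filter (fun S : β → Fin q => ∀ x ∈ W, S x ∈ P x)).card * q ^ W.card
      ≤ b ^ W.card * q ^ (Fintype.card β) := by
  have h1 : (Finset.univ.filter (fun S : β → Fin q => ∀ x ∈ W, S x ∈ P x))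
      = Fintype.piFinset (fun x => if x ∈ W then P x else Finset.univ) := by
    ext S
    simp only [Finset.mem_filter, Finset.mem_univ, true_and, Fintype.mem_piFinset]
    constructor
    · intro h x
      by_cases hx : x ∈ W
      · rw [if_pos hx]; exact h x hx
      · rw [if_neg hx]; exact Finset.mem_univ _
    · intro h x hx
      have := h x
      rwa [if_pos hx] at this
  rw [h1, Fintype.card_piFinset]
  have h2 : ∏ x : β, (if x ∈ W then P x else Finset.univ : Finset (Fin q)).card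
      = (∏ x ∈ W, (P x).card) * q ^ (Finset.univ \ W).card := by
    rw [← Finset.prod_sdiff (Finset.subset_univ W), mul_comm]
    congr 1
    · refine Finset.prod_congr rfl fun x hx => ?_
      rw [if_pos hx]
    · rw [← Finset.prod_const]
      refine Finset.prod_congr rfl fun x hx => ?_
      rw [if_neg (Finset.mem_sdiff.mp hx).2, Finset.card_univ, Fintype.card_fin]
  have h3 : (Finset.univ \ W).card + W.card = Fintype.card β := by
    rw [Finset.card_sdiff_add_card_eq_card (Finset.subset_univ W), Finset.card_univ]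
  rw [h2, mul_assoc, ← pow_add, h3]
  refine Nat.mul_le_mul_right _ ?_
  exact Finset.prod_le_pow_card _ _ _ hP

private theorem rt_image {β : Type*} [DecidableEq β] {k : ℕ} (c : Fin k → β) (hc : Two c)
    (J : Finset (Fin k)) : J.card ≤ 2 * (J.image c).card := by
  refine Finset.card_le_mul_card_image J 2 fun a _ => ?_
  refine le_trans (Finset.card_le_card ?_) (hc a)
  intro j hj
  rw [Finset.mem_filter] at hj ⊢
  exact ⟨Finset.mem_univ _, hj.2⟩

private theorem rt_bern (q m w : ℕ) (hq : 2 ≤ q) (hw : q * m ≤ w) :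
    2 ^ m * (q - 1) ^ w ≤ q ^ w := by
  have h0 : 2 * (q - 1) ^ q ≤ q ^ q := by
    obtain ⟨r, rfl⟩ : ∃ r, q = r + 2 := ⟨q - 2, by omega⟩
    have h1 : r + 2 - 1 = r + 1 := by omega
    rw [h1]
    have h2 : ((r + 1 : ℕ) : ℤ) ^ (r + 2) + (r + 2) * ((r + 1 : ℕ) : ℤ) ^ (r + 1) ≤
        ((r + 2 : ℕ) : ℤ) ^ (r + 2) := by
      have h3 := add_pow ((r + 1 : ℕ) : ℤ) 1 (r + 2)
      have h4 : ((r + 2 : ℕ) : ℤ) = ((r + 1 : ℕ) : ℤ) + 1 := by push_cast; ring
      rw [h4, h3]
      rw [Finset.sum_range_succ, Finset.sum_range_succ]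
      have h5 : 0 ≤ ∑ x ∈ Finset.range (r + 1), ((r + 1 : ℕ) : ℤ) ^ x * 1 ^ (r + 2 - x) *
          (((r + 2).choose x : ℕ) : ℤ) := by
        refine Finset.sum_nonneg fun x _ => ?_
        positivity
      have h6 : (r + 2).choose (r + 1) = r + 2 := by
        rw [Nat.choose_succ_self_right]
      rw [h6, Nat.choose_self]
      simp only [one_pow, mul_one, Nat.cast_one]
      push_cast at h5 ⊢
      simp only [one_pow, mul_one] at h5
      linarith
    have h7 : ((2 * (r + 1) ^ (r + 2) : ℕ) : ℤ) ≤ (((r + 2) ^ (r + 2) : ℕ) : ℤ) := by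
      push_cast at h2 ⊢
      have h8 : ((r : ℤ) + 1) ^ (r + 2) = (r + 1) * ((r : ℤ) + 1) ^ (r + 1) := by ring
      have h9 : (0 : ℤ) ≤ ((r : ℤ) + 1) ^ (r + 1) := by positivity
      nlinarith
    exact_mod_cast h7
  have h1 : 2 ^ m * (q - 1) ^ (q * m) ≤ q ^ (q * m) := by
    rw [pow_mul, pow_mul, ← mul_pow]
    exact Nat.pow_le_pow_left h0 m
  obtain ⟨t, rfl⟩ := Nat.exists_eq_add_of_le hw
  rw [pow_add, pow_add, ← mul_assoc]
  exact Nat.mul_le_mul h1 (Nat.pow_le_pow_left (by omega) t)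

private theorem rt_badA {β : Type*} [Fintype β] [DecidableEq β] (k q : ℕ) [NeZero q]
    (hq : 2 ≤ q) (c : Fin k → β) (hc : Two c) :
    (Finset.univ.filter (fun S : β → Fin q =>
      k ≤ 100 * (Finset.univ.filter (fun j => S (c j) = 0)).card)).card * q ^ (k / 200)
      ≤ 2 ^ k * q ^ (Fintype.card β) := by
  classical
  set JJ : Finset (Finset (Fin k)) := Finset.univ.filter (fun J => k ≤ 100 * J.card) with hJJ
  have hsub : (Finset.univ.filter (fun S : β → Fin q =>
      k ≤ 100 * (Finset.univ.filter (fun j => S (c j) = 0)).card))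
      ⊆ JJ.biUnion (fun J => Finset.univ.filter
        (fun S : β → Fin q => ∀ x ∈ J.image c, S x ∈ ({0} : Finset (Fin q)))) := by
    intro S hS
    rw [Finset.mem_filter] at hS
    rw [Finset.mem_biUnion]
    refine ⟨Finset.univ.filter (fun j => S (c j) = 0), ?_, ?_⟩
    · rw [hJJ, Finset.mem_filter]
      exact ⟨Finset.mem_univ _, hS.2⟩
    · rw [Finset.mem_filter]
      refine ⟨Finset.mem_univ _, fun x hx => ?_⟩
      rw [Finset.mem_image] at hx
      obtain ⟨j, hj, rfl⟩ := hx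
      rw [Finset.mem_filter] at hj
      rw [Finset.mem_singleton]
      exact hj.2
  have h1 := (Finset.card_le_card hsub).trans Finset.card_biUnion_le
  have h2 : ∀ J ∈ JJ, (Finset.univ.filter
        (fun S : β → Fin q => ∀ x ∈ J.image c, S x ∈ ({0} : Finset (Fin q)))).card
        * q ^ (k / 200) ≤ q ^ (Fintype.card β) := by
    intro J hJ
    rw [hJJ, Finset.mem_filter] at hJ
    have h3 := rt_cnt q (J.image c) (fun _ => ({0} : Finset (Fin q))) 1 (fun _ _ => by simp)
    rw [one_pow, one_mul] at h3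
    refine le_trans (Nat.mul_le_mul_left _ ?_) h3
    have h4 := rt_image c hc J
    exact Nat.pow_le_pow_right (by omega) (by omega)
  calc _ ≤ (∑ J ∈ JJ, (Finset.univ.filter
        (fun S : β → Fin q => ∀ x ∈ J.image c, S x ∈ ({0} : Finset (Fin q)))).card)
          * q ^ (k / 200) := Nat.mul_le_mul_right _ h1
    _ = ∑ J ∈ JJ, (Finset.univ.filter
        (fun S : β → Fin q => ∀ x ∈ J.image c, S x ∈ ({0} : Finset (Fin q)))).card
          * q ^ (k / 200) := Finset.sum_mul _ _ _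
    _ ≤ ∑ J ∈ JJ, q ^ (Fintype.card β) := Finset.sum_le_sum h2
    _ = JJ.card * q ^ (Fintype.card β) := by rw [Finset.sum_const, smul_eq_mul]
    _ ≤ 2 ^ k * q ^ (Fintype.card β) := by
        refine Nat.mul_le_mul_right _ ?_
        refine (Finset.card_le_univ JJ).trans ?_
        rw [Fintype.card_finset, Fintype.card_fin]

private theorem rt_badB {β : Type*} [Fintype β] [DecidableEq β] (k q : ℕ) [NeZero q]
    (hq : 2 ≤ q) (c : Fin k → β) (τ : Fin k → Bool) (hc : Two c) :
    2 ^ (k / (2 * q)) * (Finset.univ.filter (fun S : β → Fin q =>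
      ∀ j, decide (S (c j) = 0) = τ j)).card ≤ q ^ (Fintype.card β) := by
  classical
  set W : Finset β := Finset.univ.image c with hW
  have hWc : k ≤ 2 * W.card := by
    have := rt_image c hc Finset.univ
    rwa [Finset.card_univ, Fintype.card_fin] at this
  have hex : ∀ x ∈ W, ∃ j, c j = x := by
    intro x hx
    rw [hW, Finset.mem_image] at hx
    obtain ⟨j, _, hj⟩ := hx
    exact ⟨j, hj⟩
  set P : β → Finset (Fin q) := fun x =>
    if h : x ∈ W then (if τ (hex x h).choose = true then {0} else Finset.univ.erase 0)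
    else Finset.univ with hP
  have hPc : ∀ x ∈ W, (P x).card ≤ q - 1 := by
    intro x hx
    rw [hP]
    simp only [dif_pos hx]
    split_ifs
    · rw [Finset.card_singleton]; omega
    · rw [Finset.card_erase_of_mem (Finset.mem_univ _), Finset.card_univ, Fintype.card_fin]
  have h1 := rt_cnt q W P (q - 1) hPc
  have hsub : (Finset.univ.filter (fun S : β → Fin q => ∀ j, decide (S (c j) = 0) = τ j))
      ⊆ Finset.univ.filter (fun S : β → Fin q => ∀ x ∈ W, S x ∈ P x) := by
    intro S hS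
    rw [Finset.mem_filter] at hS ⊢
    refine ⟨Finset.mem_univ _, fun x hx => ?_⟩
    have h2 := hS.2 (hex x hx).choose
    rw [(hex x hx).choose_spec] at h2
    rw [hP]
    simp only [dif_pos hx]
    split_ifs with h3
    · rw [h3] at h2
      rw [Finset.mem_singleton]
      exact of_decide_eq_true h2
    · rw [Finset.mem_erase]
      refine ⟨fun h4 => h3 ?_, Finset.mem_univ _⟩
      rw [← h2]
      exact decide_eq_true h4
  have h2 := Finset.card_le_card hsub
  set X := (Finset.univ.filter (fun S : β → Fin q => ∀ j, decide (S (c j) = 0) = τ j)).card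
  have h3 : X * q ^ W.card ≤ (q - 1) ^ W.card * q ^ (Fintype.card β) :=
    le_trans (Nat.mul_le_mul_right _ h2) h1
  have hqm : q * (k / (2 * q)) ≤ W.card := by
    have h4 : (2 * q) * (k / (2 * q)) ≤ k := Nat.mul_div_le k (2 * q)
    nlinarith
  have h4 := rt_bern q (k / (2 * q)) W.card hq hqm
  have hqpos : 0 < q ^ W.card := pow_pos (by omega) _
  refine Nat.le_of_mul_le_mul_right ?_ hqpos
  calc 2 ^ (k / (2 * q)) * X * q ^ W.card = 2 ^ (k / (2 * q)) * (X * q ^ W.card) := by ring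
    _ ≤ 2 ^ (k / (2 * q)) * ((q - 1) ^ W.card * q ^ (Fintype.card β)) := Nat.mul_le_mul_left _ h3
    _ = (2 ^ (k / (2 * q)) * (q - 1) ^ W.card) * q ^ (Fintype.card β) := by ring
    _ ≤ q ^ W.card * q ^ (Fintype.card β) := Nat.mul_le_mul_right _ h4
    _ = q ^ (Fintype.card β) * q ^ W.card := by ring

private theorem rt_fin {β : Type*} [Fintype β] [DecidableEq β] (k q : ℕ) (hq : 2 ≤ q)
    (𝒜 : Finset (Fin k → β)) (ℬ : Finset ((Fin k → β) × (Fin k → Bool)))
    (hA : ∀ c ∈ 𝒜, Two c) (hB : ∀ p ∈ ℬ, Two p.1)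
    (hA' : 2 * 𝒜.card * 2 ^ k < q ^ (k / 200)) (hB' : 2 * ℬ.card ≤ 2 ^ (k / (2 * q))) :
    ∃ T : β → Bool, (∀ c ∈ 𝒜, 100 * (Finset.univ.filter (fun j => T (c j) = true)).card < k) ∧
      ∀ p ∈ ℬ, ∃ j, T (p.1 j) ≠ p.2 j := by
  classical
  have : NeZero q := ⟨by omega⟩
  set n := Fintype.card β with hn
  set bA : (Fin k → β) → Finset (β → Fin q) := fun c => Finset.univ.filter (fun S : β → Fin q =>
      k ≤ 100 * (Finset.univ.filter (fun j => S (c j) = 0)).card) with hbA
  set bB : ((Fin k → β) × (Fin k → Bool)) → Finset (β → Fin q) := fun p =>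
    Finset.univ.filter (fun S : β → Fin q => ∀ j, decide (S (p.1 j) = 0) = p.2 j) with hbB
  have hqn : 0 < q ^ n := pow_pos (by omega) _
  have sA : 2 * ∑ c ∈ 𝒜, (bA c).card < q ^ n := by
    have h1 : (∑ c ∈ 𝒜, (bA c).card) * q ^ (k / 200) ≤ 𝒜.card * (2 ^ k * q ^ n) := by
      rw [Finset.sum_mul, ← smul_eq_mul (𝒜.card), ← Finset.sum_const]
      exact Finset.sum_le_sum fun c hc => rt_badA k q hq c (hA c hc)
    have h2 : (2 * ∑ c ∈ 𝒜, (bA c).card) * q ^ (k / 200) < q ^ n * q ^ (k / 200) := by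
      calc (2 * ∑ c ∈ 𝒜, (bA c).card) * q ^ (k / 200)
          = 2 * ((∑ c ∈ 𝒜, (bA c).card) * q ^ (k / 200)) := by ring
        _ ≤ 2 * (𝒜.card * (2 ^ k * q ^ n)) := Nat.mul_le_mul_left _ h1
        _ = (2 * 𝒜.card * 2 ^ k) * q ^ n := by ring
        _ < q ^ (k / 200) * q ^ n := Nat.mul_lt_mul_of_pos_right hA' hqn
        _ = _ := by ring
    exact lt_of_mul_lt_mul_right h2 (Nat.zero_le _)
  have sB : 2 * ∑ p ∈ ℬ, (bB p).card ≤ q ^ n := by
    have h1 : 2 ^ (k / (2 * q)) * (∑ p ∈ ℬ, (bB p).card) ≤ ℬ.card * q ^ n := by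
      rw [Finset.mul_sum, ← smul_eq_mul (ℬ.card), ← Finset.sum_const]
      exact Finset.sum_le_sum fun p hp => rt_badB k q hq p.1 p.2 (hB p hp)
    have h2 : 2 ^ (k / (2 * q)) * (2 * ∑ p ∈ ℬ, (bB p).card) ≤ 2 ^ (k / (2 * q)) * q ^ n := by
      calc 2 ^ (k / (2 * q)) * (2 * ∑ p ∈ ℬ, (bB p).card)
          = 2 * (2 ^ (k / (2 * q)) * ∑ p ∈ ℬ, (bB p).card) := by ring
        _ ≤ 2 * (ℬ.card * q ^ n) := Nat.mul_le_mul_left _ h1
        _ = (2 * ℬ.card) * q ^ n := by ring
        _ ≤ _ := Nat.mul_le_mul_right _ hB'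
    exact Nat.le_of_mul_le_mul_left h2 (by positivity)
  have hcard : ((𝒜.biUnion bA) ∪ (ℬ.biUnion bB)).card < (Finset.univ : Finset (β → Fin q)).card := by
    rw [Finset.card_univ, Fintype.card_fun, Fintype.card_fin, ← hn]
    have h1 := Finset.card_union_le (𝒜.biUnion bA) (ℬ.biUnion bB)
    have h2 : (𝒜.biUnion bA).card ≤ ∑ c ∈ 𝒜, (bA c).card := Finset.card_biUnion_le
    have h3 : (ℬ.biUnion bB).card ≤ ∑ p ∈ ℬ, (bB p).card := Finset.card_biUnion_le
    omega
  obtain ⟨S, _, hS⟩ := Finset.exists_mem_notMem_of_card_lt_card hcard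
  rw [Finset.mem_union, not_or, Finset.mem_biUnion, Finset.mem_biUnion] at hS
  refine ⟨fun x => decide (S x = 0), ?_, ?_⟩
  · intro c hc
    by_contra hcon
    rw [not_lt] at hcon
    apply hS.1
    refine ⟨c, hc, ?_⟩
    rw [hbA, Finset.mem_filter]
    refine ⟨Finset.mem_univ _, ?_⟩
    simpa using hcon
  · intro p hp
    by_contra hcon
    push Not at hcon
    apply hS.2
    refine ⟨p, hp, ?_⟩
    rw [hbB, Finset.mem_filter]
    exact ⟨Finset.mem_univ _, hcon⟩

/-- Union bound. Let `Y` be the finite set of all values of the sequences, `S' : Y → Fin q` uniformly random, `T x = [S' x = 0]`.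
For `c ∈ 𝒜`: if `k ≤ 100 #{j : T (c j)}` then at least `k/200` different values have `S' = 0`: at most `2^k q^(|Y| - k/200)` functions `S'`.
For `(c, τ) ∈ ℬ`: `c` takes at least `k/2` different values, each of which has a prescribed value of `T`: at most
`q^|Y| (1 - 1/q)^(k/2)` functions, and `(1 - 1/q)^(k/2) ≤ exp (-(k/2)/q) < 2^(-(k/(2q)))` (natural division; if `k/(2q) = 0` the hypothesis
`hB'` forces `ℬ = ∅`). -/
theorem exists_T {α : Type*} [DecidableEq α] (k q : ℕ) (hq : 2 ≤ q)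
    (𝒜 : Finset (Fin k → α)) (ℬ : Finset ((Fin k → α) × (Fin k → Bool)))
    (hA : ∀ c ∈ 𝒜, Two c) (hB : ∀ p ∈ ℬ, Two p.1)
    (hA' : 2 * 𝒜.card * 2 ^ k < q ^ (k / 200)) (hB' : 2 * ℬ.card ≤ 2 ^ (k / (2 * q))) :
    ∃ T : α → Bool, (∀ c ∈ 𝒜, 100 * (Finset.univ.filter (fun j => T (c j) = true)).card < k) ∧
      ∀ p ∈ ℬ, ∃ j, T (p.1 j) ≠ p.2 j := by
  classical
  set Y : Finset α := (𝒜.biUnion (fun c => Finset.univ.image c)) ∪
    (ℬ.biUnion (fun p => Finset.univ.image p.1)) with hY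
  have hYA : ∀ c ∈ 𝒜, ∀ j, c j ∈ Y := by
    intro c hc j
    rw [hY, Finset.mem_union]
    left
    rw [Finset.mem_biUnion]
    exact ⟨c, hc, Finset.mem_image_of_mem _ (Finset.mem_univ j)⟩
  have hYB : ∀ p ∈ ℬ, ∀ j, p.1 j ∈ Y := by
    intro p hp j
    rw [hY, Finset.mem_union]
    right
    rw [Finset.mem_biUnion]
    exact ⟨p, hp, Finset.mem_image_of_mem _ (Finset.mem_univ j)⟩
  -- encode the values
  set f : α → Option {x // x ∈ Y} := fun x => if h : x ∈ Y then some ⟨x, h⟩ else none with hf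
  have hfinj : ∀ x ∈ Y, ∀ y ∈ Y, f x = f y → x = y := by
    intro x hx y hy hxy
    simp only [hf, dif_pos hx, dif_pos hy, Option.some.injEq, Subtype.mk.injEq] at hxy
    exact hxy
  have hTwo : ∀ c : Fin k → α, (∀ j, c j ∈ Y) → Two c → Two (fun j => f (c j)) := by
    intro c hcY hc x
    by_cases hx : ∃ j, f (c j) = x
    · obtain ⟨j0, hj0⟩ := hx
      refine le_trans (Finset.card_le_card ?_) (hc (c j0))
      intro j hj
      rw [Finset.mem_filter] at hj ⊢
      refine ⟨Finset.mem_univ _, ?_⟩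
      exact hfinj _ (hcY j) _ (hcY j0) (hj.2.trans hj0.symm)
    · have : (Finset.univ.filter (fun j => f (c j) = x)) = ∅ := by
        rw [Finset.filter_eq_empty_iff]
        intro j _ hj
        exact hx ⟨j, hj⟩
      rw [this, Finset.card_empty]
      exact Nat.zero_le _
  obtain ⟨T, hT1, hT2⟩ := rt_fin k q hq (𝒜.image (fun c j => f (c j)))
    (ℬ.image (fun p => ((fun j => f (p.1 j)), p.2)))
    (by
      intro c hc
      rw [Finset.mem_image] at hc
      obtain ⟨c', hc', rfl⟩ := hc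
      exact hTwo c' (hYA c' hc') (hA c' hc'))
    (by
      intro p hp
      rw [Finset.mem_image] at hp
      obtain ⟨p', hp', rfl⟩ := hp
      exact hTwo p'.1 (hYB p' hp') (hB p' hp'))
    (by
      refine lt_of_le_of_lt ?_ hA'
      have : (𝒜.image (fun (c : Fin k → α) j => f (c j))).card ≤ 𝒜.card := Finset.card_image_le
      exact Nat.mul_le_mul_right _ (Nat.mul_le_mul_left _ this))
    (by
      refine le_trans ?_ hB'
      exact Nat.mul_le_mul_left _ Finset.card_image_le)
  refine ⟨fun x => T (f x), ?_, ?_⟩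
  · intro c hc
    exact hT1 _ (Finset.mem_image_of_mem _ hc)
  · intro p hp
    exact hT2 _ (Finset.mem_image_of_mem _ hp)

end Crest.Agent.VW
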