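import Crest.Agent.VW_Om

/-! # Task VW-Wrap: a slow progression which visits a Whitney cell twice does not wrap around -/

set_option autoImplicit false

namespace Crest.Agent.VW

/-- position of a point near the kink `κ` (`0` or `N`), at distance less than a quarter of `N` -/
theorem nowrap_side (k N z : ℕ) (κ w L : ℤ) (hκ : κ = 0 ∨ κ = N) (hL : 4 * L < N)
    (h1 : κ - L ≤ w) (h2 : w < κ + L) (hz : (z : ℤ) = w % N) :
    ∃ u : ℕ, 1 ≤ u ∧ (u : ℤ) ≤ L ∧
      ((wh k N z = (false, om k u) ∧ (u : ℤ) = κ - w) ∨ (wh k N z = (true, om k u) ∧ (u : ℤ) = w - κ + 1)) := by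
  have hL0 : 0 < L := by omega
  rcases lt_or_ge w κ with hw | hw
  · -- left of the kink
    have hzz : (z : ℤ) = w - κ + N := by
      rw [hz]
      have h3 : w % (N : ℤ) = (w - κ + N) % (N : ℤ) := by
        rcases hκ with h | h
        · rw [h]; simp
        · rw [h]; congr 1; ring
      rw [h3]
      apply Int.emod_eq_of_lt <;> omega
    refine ⟨N - z, by omega, by omega, Or.inl ⟨?_, by omega⟩⟩
    unfold wh
    rw [if_neg (by omega)]
  · have hzz : (z : ℤ) = w - κ := by
      rw [hz]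
      have h3 : w % (N : ℤ) = (w - κ) % (N : ℤ) := by
        rcases hκ with h | h
        · rw [h]; simp
        · rw [h]; simp
      rw [h3]
      apply Int.emod_eq_of_lt <;> omega
    refine ⟨z + 1, by omega, by omega, Or.inr ⟨?_, by push_cast; omega⟩⟩
    unfold wh
    rw [if_pos (by omega)]

/-- One coordinate. `z j = (Z₀ + j b) mod N`, `|b| 4 k < N`. If `Z₀ + i b ∉ [0, N)` for some `i < k`, then
all `Z₀ + j b` (`j < k`) are within `(k-1)|b|` of the kink (`0` or `N`), hence `u ≤ (k-1)|b|` (`u = z + 1` on the right side, `N - z` on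
the left side), and two indices `j < j'` with the same `wh` would be on the same side with
`k |u - u'| = k (j' - j) |b| < min u u' ≤ (k-1)|b|` by `om_close`, impossible. -/
theorem nowrap_coord (k N Z₀ : ℕ) (b : ℤ) (hZ : Z₀ < N) (hb : |b| * (4 * k) < N) (z : ℕ → ℕ)
    (hz : ∀ j, (z j : ℤ) = (Z₀ + j * b) % N) (j j' : ℕ) (hjj' : j < j') (hj' : j' < k)
    (hw : wh k N (z j) = wh k N (z j')) : ∀ i < k, (z i : ℤ) = Z₀ + i * b := by
  intro i hi
  by_contra hne
  have hk : 0 < k := by omega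
  set L : ℤ := ((k : ℤ) - 1) * |b| with hLdef
  have hbound : ∀ t : ℕ, t < k → (t : ℤ) * |b| ≤ L := by
    intro t ht
    apply mul_le_mul_of_nonneg_right _ (abs_nonneg b)
    omega
  have hnn : ∀ t : ℕ, 0 ≤ (t : ℤ) * |b| := fun t => mul_nonneg (by positivity) (abs_nonneg b)
  have hL4 : 4 * L < N := by
    have : 4 * L ≤ |b| * (4 * k) := by
      rw [hLdef]; nlinarith [abs_nonneg b]
    linarith
  have hout : (Z₀ : ℤ) + i * b < 0 ∨ (N : ℤ) ≤ Z₀ + i * b := by
    by_contra hcon
    push Not at hcon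
    exact hne (by rw [hz i]; exact Int.emod_eq_of_lt hcon.1 hcon.2)
  have hb0 : b ≠ 0 := by
    rintro rfl
    simp at hout
    omega
  -- the kink
  obtain ⟨κ, hκ, hκw⟩ : ∃ κ : ℤ, (κ = 0 ∨ κ = N) ∧
      ∀ t : ℕ, t < k → κ - L ≤ (Z₀ : ℤ) + t * b ∧ (Z₀ : ℤ) + t * b < κ + L := by
    rcases lt_or_gt_of_ne hb0 with hneg | hpos
    · have habs : |b| = -b := abs_of_neg hneg
      refine ⟨0, Or.inl rfl, fun t ht => ?_⟩
      have h1 := hbound t ht
      have h2 := hbound i hi
      have h3 := hnn t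
      have h4 := hnn i
      rw [habs] at h1 h2 h3 h4
      rcases hout with h | h
      · constructor <;> nlinarith
      · exfalso; nlinarith
    · have habs : |b| = b := abs_of_pos hpos
      refine ⟨N, Or.inr rfl, fun t ht => ?_⟩
      have h1 := hbound t ht
      have h2 := hbound i hi
      have h3 := hnn t
      have h4 := hnn i
      rw [habs] at h1 h2 h3 h4
      rcases hout with h | h
      · exfalso; nlinarith
      · constructor <;> nlinarith
  obtain ⟨u, hu1, huL, hu⟩ := nowrap_side k N (z j) κ _ L hκ hL4 (hκw j (by omega)).1 (hκw j (by omega)).2 (hz j)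
  obtain ⟨u', hu1', huL', hu'⟩ := nowrap_side k N (z j') κ _ L hκ hL4 (hκw j' hj').1 (hκw j' hj').2 (hz j')
  have hbpos : 0 < |b| := abs_pos.mpr hb0
  -- same side, same index
  have hkey : om k u = om k u' ∧ |(u : ℤ) - u'| = ((j' : ℤ) - j) * |b| := by
    have hpos' : (0 : ℤ) < (j' : ℤ) - j := by omega
    rcases hu with ⟨hwu, hu⟩ | ⟨hwu, hu⟩ <;> rcases hu' with ⟨hwu', hu'⟩ | ⟨hwu', hu'⟩
    · rw [hwu, hwu'] at hw
      refine ⟨(Prod.mk.inj hw).2, ?_⟩
      have : (u : ℤ) - u' = ((j' : ℤ) - j) * b := by rw [hu, hu']; ring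
      rw [this, abs_mul, abs_of_pos hpos']
    · rw [hwu, hwu'] at hw; simp at hw
    · rw [hwu, hwu'] at hw; simp at hw
    · rw [hwu, hwu'] at hw
      refine ⟨(Prod.mk.inj hw).2, ?_⟩
      have : (u : ℤ) - u' = -(((j' : ℤ) - j) * b) := by rw [hu, hu']; ring
      rw [this, abs_neg, abs_mul, abs_of_pos hpos']
  obtain ⟨ho, hd⟩ := hkey
  have hd1 : |b| ≤ |(u : ℤ) - u'| := by
    rw [hd]
    have : (1 : ℤ) ≤ (j' : ℤ) - j := by omega
    nlinarith
  have hkL : L < (k : ℤ) * |b| := by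
    rw [hLdef]; nlinarith
  have hkd : (k : ℤ) * |b| ≤ k * |(u : ℤ) - u'| := mul_le_mul_of_nonneg_left hd1 (by positivity)
  rcases le_total u u' with hle | hle
  · have h1 := om_close hk hu1 hle ho
    have h2 : (k : ℤ) * ((u' : ℤ) - u) < u := by
      have : ((k * (u' - u) : ℕ) : ℤ) < (u : ℕ) := by exact_mod_cast h1
      push_cast [Nat.cast_sub hle] at this
      exact this
    have h3 : |(u : ℤ) - u'| = (u' : ℤ) - u := by
      rw [abs_sub_comm]; exact abs_of_nonneg (by omega)
    rw [h3] at hkd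
    linarith
  · have h1 := om_close hk hu1' hle ho.symm
    have h2 : (k : ℤ) * ((u : ℤ) - u') < u' := by
      have : ((k * (u - u') : ℕ) : ℤ) < (u' : ℕ) := by exact_mod_cast h1
      push_cast [Nat.cast_sub hle] at this
      exact this
    have h3 : |(u : ℤ) - u'| = (u : ℤ) - u' := abs_of_nonneg (by omega)
    rw [h3] at hkd
    linarith

theorem nowrap {D : ℕ} (N : Fin D → ℕ) (k M a d : ℕ) (hN : ∀ i, 0 < N i) (hret : Ret N (4 * k) (M * d) 1)
    (j j' : ℕ) (hjj' : j < j') (hj' : j' < k)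
    (hw : ∀ i, wh k (N i) ((M * (a + j * d)) % N i) = wh k (N i) ((M * (a + j' * d)) % N i)) :
    ∃ b : Fin D → ℤ, (∀ i, |b i| * (4 * k) < N i) ∧ (∀ i, (N i : ℤ) ∣ (M * d : ℕ) - b i) ∧
      ∀ i, ∀ t < k, (((M * (a + t * d)) % N i : ℕ) : ℤ) = ((M * a) % N i : ℕ) + t * b i := by
  choose c hc using hret
  refine ⟨fun i => (M * d : ℕ) - c i * N i, fun i => ?_, fun i => ?_, fun i => ?_⟩
  · have := hc i
    push_cast at this ⊢
    rw [one_mul] at this
    exact this
  · refine ⟨c i, ?_⟩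
    ring
  · have hb : |((M * d : ℕ) : ℤ) - c i * N i| * (4 * k) < N i := by
      have := hc i
      push_cast at this ⊢
      rw [one_mul] at this
      exact this
    refine nowrap_coord k (N i) ((M * a) % N i) _ (Nat.mod_lt _ (hN i)) hb
      (fun t => (M * (a + t * d)) % N i) ?_ j j' hjj' hj' (hw i)
    intro t
    push_cast
    have h1 : ((M : ℤ) * a % N i + t * (M * d - c i * N i)) % N i
        = (M * a + t * (M * d - c i * N i)) % N i := by
      rw [Int.add_emod, Int.emod_emod_of_dvd _ (dvd_refl _), ← Int.add_emod]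
    rw [h1]
    have h2 : (M : ℤ) * a + t * (M * d - c i * N i) = M * (a + t * d) + (N i : ℤ) * (-(t * c i)) := by ring
    rw [h2, Int.add_mul_emod_self_left]

end Crest.Agent.VW
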