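import Crest.Agent.VW_Ret
import Crest.Agent.VW_Wrap
import Crest.Agent.VW_Cell
import Crest.Agent.VW_Cls
import Crest.Agent.VW_Quad
import Crest.Agent.VW_Pat2
import Crest.Agent.VW_RandS
import Crest.Agent.VW_RandT
import Crest.Agent.VW_Primes

/-! # Task VW-Core: the cyclic colouring from the numerical hypotheses (assembly; helper12) -/

set_option autoImplicit false

namespace Crest.Agent.VW

/-- number of patterns at a level with refinement factor `m` and grid `4 k m` (`R` bounds the Whitney index) -/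
def Wn (k R m : ℕ) : ℕ := (k * (k + 1) * (4 * k * m + m * (2 * R + 2) + 1) + 1) ^ 3

/-- the numerical hypotheses -/
structure Num (k D L e h₀ h₁ h₂ q : ℕ) : Prop where
  hD : 0 < D
  hq : 2 ≤ q
  h0 : 0 < h₀
  h1 : 0 < h₁
  h2 : 0 < h₂
  he : k ≤ 2 ^ e
  hH0 : 2 * (64 * h₀) < k
  hH1 : 2 * (64 * h₁) < k
  hH2 : 2 * (64 * h₂) < k
  hLk : k ≤ 2 ^ L
  w0 : 10 * (Wn k (k * (L + D + 2)) 1) ^ D ≤ 2 ^ h₀
  w1 : 10 * (Wn k (k * (L + D + 2)) ((2 * (64 * h₀)).factorial ^ e)) ^ D ≤ 2 ^ h₁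
  w2 : 10 * (Wn k (k * (L + D + 2))
    ((2 * (64 * h₀)).factorial ^ e * (2 * (64 * h₁)).factorial ^ e)) ^ D ≤ 2 ^ h₂
  c1 : 2 * (2 ^ (L + D + 1)) ^ (2 * D) * 2 ^ k < q ^ (k / 200)
  c2 : 4 * ((Wn k (k * (L + D + 2))
    ((2 * (64 * h₀)).factorial ^ e * (2 * (64 * h₁)).factorial ^ e)) ^ D *
      (2 * (2 * D * (2 ^ (L + D + 1)) ^ 2) + 1) ^ 3) ≤ 2 ^ (k / (2 * q))

/-- reduction of the grid index to a coarser level -/
def red {D : ℕ} (T : ℕ) (x : Fin D → (Bool × ℕ) × ℕ) : Fin D → (Bool × ℕ) × ℕ :=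
  fun i => ((x i).1, (x i).2 % T)

/-- majority -/
def maj (a b c : Bool) : Bool := (a && b) || (b && c) || (a && c)

theorem maj_01 {a b c v : Bool} (h1 : a = v) (h2 : b = v) : maj a b c = v := by
  rw [h1, h2]; cases c <;> cases v <;> rfl

theorem maj_02 {a b c v : Bool} (h1 : a = v) (h2 : c = v) : maj a b c = v := by
  rw [h1, h2]; cases b <;> cases v <;> rfl

theorem maj_12 {a b c v : Bool} (h1 : b = v) (h2 : c = v) : maj a b c = v := by
  rw [h1, h2]; cases a <;> cases v <;> rfl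

theorem gen_irrel {α : Type*} {k H : ℕ} (i1 i2 : DecidableEq α) (c : Fin k → α) (h : @Gen α i1 k H c) :
    @Gen α i2 k H c := by
  have : i1 = i2 := Subsingleton.elim _ _
  subst this
  exact h

/-- two generic levels are enough -/
theorem two_generic {k : ℕ} {J J' Tt : Finset (Fin k)} (h1 : k ≤ 8 * J.card) (h2 : J.card ≤ 8 * J'.card)
    (h3 : 100 * Tt.card < k) : ∃ j ∈ J', j ∉ Tt := by
  by_contra hcon
  push Not at hcon
  have h4 : J'.card ≤ Tt.card := Finset.card_le_card fun j hj => hcon j hj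
  omega

section

variable {D : ℕ}

/-- the selection of the three dense colourings -/
theorem exists_S3 {X : Type*} [DecidableEq X] (k h₀ h₁ h₂ : ℕ) (hk : 0 < k) (h0 : 0 < h₀) (h1 : 0 < h₁)
    (h2 : 0 < h₂) (P₀ P₁ P₂ : Finset (Fin k → X)) (r₁ r₂ : X → X)
    (c0 : 10 * P₀.card ≤ 2 ^ h₀) (c1 : 10 * P₁.card ≤ 2 ^ h₁) (c2 : 10 * P₂.card ≤ 2 ^ h₂) :
    ∃ S₀ S₁ S₂ : X → Bool,
      (∀ c ∈ P₀, Gen (64 * h₀) c → ∀ b, k ≤ 8 * (Finset.univ.filter fun j => S₀ (c j) = b).card) ∧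
      (∀ c ∈ P₁, Gen (64 * h₁) c → ∀ b, k ≤ 8 * (Finset.univ.filter fun j => S₁ (c j) = b).card) ∧
      (∀ c ∈ P₁, Gen (64 * h₁) c → ∀ b,
        k ≤ 8 * (Finset.univ.filter fun j => S₀ (r₁ (c j)) = b).card → ∀ b',
        (Finset.univ.filter fun j => S₀ (r₁ (c j)) = b).card ≤
          8 * ((Finset.univ.filter fun j => S₀ (r₁ (c j)) = b).filter fun j => S₁ (c j) = b').card) ∧
      (∀ c ∈ P₂, Gen (64 * h₂) c → ∀ b,
        k ≤ 8 * (Finset.univ.filter fun j => S₀ (r₁ (r₂ (c j))) = b).card → ∀ b',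
        (Finset.univ.filter fun j => S₀ (r₁ (r₂ (c j))) = b).card ≤
          8 * ((Finset.univ.filter fun j => S₀ (r₁ (r₂ (c j))) = b).filter fun j => S₂ (c j) = b').card) ∧
      (∀ c ∈ P₂, Gen (64 * h₂) c → ∀ b,
        k ≤ 8 * (Finset.univ.filter fun j => S₁ (r₂ (c j)) = b).card → ∀ b',
        (Finset.univ.filter fun j => S₁ (r₂ (c j)) = b).card ≤
          8 * ((Finset.univ.filter fun j => S₁ (r₂ (c j)) = b).filter fun j => S₂ (c j) = b').card) := by
  classical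
  -- level 0
  obtain ⟨S₀, hS₀⟩ := exists_S k h₀ hk h0
    ((P₀.filter fun c => Gen (64 * h₀) c).image fun c => (c, (Finset.univ : Finset (Fin k))))
    (by
      intro p hp
      obtain ⟨c, hc, rfl⟩ := Finset.mem_image.1 hp
      exact (Finset.mem_filter.1 hc).2)
    (by
      intro p hp
      obtain ⟨c, hc, rfl⟩ := Finset.mem_image.1 hp
      simp only [Finset.card_univ, Fintype.card_fin]
      omega)
    (by
      have h3 : ((P₀.filter fun c => Gen (64 * h₀) c).image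
          fun c => (c, (Finset.univ : Finset (Fin k)))).card ≤ P₀.card :=
        Finset.card_image_le.trans (Finset.card_filter_le _ _)
      omega)
  -- level 1
  let J₁ : (Fin k → X) → Option Bool → Finset (Fin k) := fun c o =>
    match o with
    | none => Finset.univ
    | some b => Finset.univ.filter fun j => S₀ (r₁ (c j)) = b
  obtain ⟨S₁, hS₁⟩ := exists_S k h₁ hk h1
    (((P₁ ×ˢ (Finset.univ : Finset (Option Bool))).filter
      fun p => Gen (64 * h₁) p.1 ∧ k ≤ 8 * (J₁ p.1 p.2).card).image fun p => (p.1, J₁ p.1 p.2))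
    (by
      intro p hp
      obtain ⟨c, hc, rfl⟩ := Finset.mem_image.1 hp
      exact (Finset.mem_filter.1 hc).2.1)
    (by
      intro p hp
      obtain ⟨c, hc, rfl⟩ := Finset.mem_image.1 hp
      exact (Finset.mem_filter.1 hc).2.2)
    (by
      have h3 : (((P₁ ×ˢ (Finset.univ : Finset (Option Bool))).filter
          fun p => Gen (64 * h₁) p.1 ∧ k ≤ 8 * (J₁ p.1 p.2).card).image
            fun p => (p.1, J₁ p.1 p.2)).card ≤ P₁.card * 3 := by
        refine Finset.card_image_le.trans ((Finset.card_filter_le _ _).trans ?_)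
        rw [Finset.card_product]
        simp
      omega)
  -- level 2
  let J₂ : (Fin k → X) → Bool × Bool → Finset (Fin k) := fun c o =>
    match o with
    | (true, b) => Finset.univ.filter fun j => S₁ (r₂ (c j)) = b
    | (false, b) => Finset.univ.filter fun j => S₀ (r₁ (r₂ (c j))) = b
  obtain ⟨S₂, hS₂⟩ := exists_S k h₂ hk h2
    (((P₂ ×ˢ (Finset.univ : Finset (Bool × Bool))).filter
      fun p => Gen (64 * h₂) p.1 ∧ k ≤ 8 * (J₂ p.1 p.2).card).image fun p => (p.1, J₂ p.1 p.2))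
    (by
      intro p hp
      obtain ⟨c, hc, rfl⟩ := Finset.mem_image.1 hp
      exact (Finset.mem_filter.1 hc).2.1)
    (by
      intro p hp
      obtain ⟨c, hc, rfl⟩ := Finset.mem_image.1 hp
      exact (Finset.mem_filter.1 hc).2.2)
    (by
      have h3 : (((P₂ ×ˢ (Finset.univ : Finset (Bool × Bool))).filter
          fun p => Gen (64 * h₂) p.1 ∧ k ≤ 8 * (J₂ p.1 p.2).card).image
            fun p => (p.1, J₂ p.1 p.2)).card ≤ P₂.card * 4 := by
        refine Finset.card_image_le.trans ((Finset.card_filter_le _ _).trans ?_)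
        rw [Finset.card_product]
        simp
      omega)
  refine ⟨S₀, S₁, S₂, ?_, ?_, ?_, ?_, ?_⟩
  · intro c hc hg b
    have h3 := hS₀ (c, Finset.univ)
      (Finset.mem_image.2 ⟨c, Finset.mem_filter.2 ⟨hc, hg⟩, rfl⟩) b
    simpa using h3
  · intro c hc hg b
    have h3 := hS₁ (c, Finset.univ)
      (Finset.mem_image.2 ⟨(c, none), Finset.mem_filter.2
        ⟨Finset.mem_product.2 ⟨hc, Finset.mem_univ _⟩, hg, by simp [J₁]; omega⟩, rfl⟩) b
    simpa using h3
  · intro c hc hg b hb b'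
    exact hS₁ (c, J₁ c (some b))
      (Finset.mem_image.2 ⟨(c, some b), Finset.mem_filter.2
        ⟨Finset.mem_product.2 ⟨hc, Finset.mem_univ _⟩, hg, hb⟩, rfl⟩) b'
  · intro c hc hg b hb b'
    exact hS₂ (c, J₂ c (false, b))
      (Finset.mem_image.2 ⟨(c, (false, b)), Finset.mem_filter.2
        ⟨Finset.mem_product.2 ⟨hc, Finset.mem_univ _⟩, hg, hb⟩, rfl⟩) b'
  · intro c hc hg b hb b'
    exact hS₂ (c, J₂ c (true, b))
      (Finset.mem_image.2 ⟨(c, (true, b)), Finset.mem_filter.2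
        ⟨Finset.mem_product.2 ⟨hc, Finset.mem_univ _⟩, hg, hb⟩, rfl⟩) b'

end


section

variable {D : ℕ} {N : Fin D → ℕ}

/-- classes depend only on the residues modulo `∏ N i` -/
theorem cls_mod (K M a d j : ℕ) :
    cls K M N (a + j * d) = cls K M N (a % (∏ i, N i) + j * (d % (∏ i, N i))) := by
  have h : ∀ i, (M * (a + j * d)) % N i =
      (M * (a % (∏ i, N i) + j * (d % (∏ i, N i)))) % N i := by
    intro i
    have hd : N i ∣ ∏ i, N i := Finset.dvd_prod_of_mem _ (Finset.mem_univ i)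
    have h1 : a ≡ a % (∏ i, N i) [MOD N i] := ((Nat.mod_modEq a _).of_dvd hd).symm
    have h2 : d ≡ d % (∏ i, N i) [MOD N i] := ((Nat.mod_modEq d _).of_dvd hd).symm
    exact Nat.ModEq.mul_left _ (h1.add (Nat.ModEq.mul_left _ h2))
  unfold cls PP
  simp only [h]

/-- the slow case: a line with two non-generic levels is covered by the quadratic patterns -/
theorem slow_line {k M m mu T m' mu' T' H a d : ℕ} (hN : ∀ i, 0 < N i) (hm : 0 < m)
    (hH : 0 < H) (hHk : 2 * H < k) {H' : ℕ} (hH' : 0 < H') (hH'k : 2 * H' ≤ k)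
    (hT : 2 * k ≤ T) (hmu : mu = m * mu') (hT' : T' = m * T)
    (hpr : ∀ p, p.Prime → p ≤ 2 * H → ∃ e, k ≤ p ^ e ∧ p ^ e ∣ m)
    (hM : M = m' * mu) (hTm : T = m' * (4 * k)) (hm' : 0 < m')
    [i1 : DecidableEq (Fin D → (Bool × ℕ) × ℕ)]
    (hg : ¬ Gen H (along k (cell k M mu T N) a d))
    (hg' : ¬ Gen H' (along k (cell k M mu' T' N) a d)) :
    ∃ b : Fin D → ℤ, (∀ i, |b i| * (4 * k) < N i) ∧ (∀ i, (N i : ℤ) ∣ (M * d : ℕ) - b i) ∧
      ∀ i, ∀ t < k, (((M * (a + t * d)) % N i : ℕ) : ℤ) = ((M * a) % N i : ℕ) + t * b i := by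
  obtain ⟨j, j', hjj', hclose, heq⟩ := exists_close hH hHk.le _ hg
  obtain ⟨l, l', hll', hclose', heq'⟩ := exists_close hH' hH'k _ hg'
  have hjj : (j : ℕ) < j' := hjj'
  have hll : (l : ℕ) < l' := hll'
  have r1 : Ret N T (mu * d) ((j' : ℕ) - j) := ret_of_cell hN hjj heq
  have r2 : Ret N T' (mu' * d) ((l' : ℕ) - l) := ret_of_cell hN hll heq'
  have hd := ret_dichotomy (N := N) (k := k) (T := T) (m := m) (B' := mu' * d) (q := 2 * H) hT hm hHk hpr
    ⟨(j' : ℕ) - j, by omega, hclose, by rw [← mul_assoc, ← hmu]; exact r1⟩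
  have hslow : Ret N T (m * (mu' * d)) 1 := by
    rcases hd with h | h
    · exact h
    · exfalso
      refine h ((l' : ℕ) - l) (by omega) (by have := l'.2; omega) ?_
      rw [← hT']
      exact r2
  rw [← mul_assoc, ← hmu, hTm] at hslow
  have hslow0 := ret_mul hm' hslow
  rw [← mul_assoc, ← hM] at hslow0
  refine nowrap N k M a d hN hslow0 j j' hjj j'.2 ?_
  intro i
  have h1 := congrFun heq i
  exact congrArg Prod.fst h1

end

set_option maxHeartbeats 1000000 in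
/-- main combinatorial theorem -/
theorem core {k D L e h₀ h₁ h₂ q : ℕ} (hn : Num k D L e h₀ h₁ h₂ q) :
    ∃ (N₀ : ℕ) (F : ℕ → Bool), 2 ^ (L * D) ≤ N₀ ∧
      ∀ a d, ¬ N₀ ∣ d → ∃ i < k, F (a + i * d) ≠ F a := by
  classical
  have hk128 : 128 < k := by have := hn.hH0; have := hn.h0; omega
  have hk : 0 < k := by omega
  have hL : 1 ≤ L := by
    by_contra h
    have h1 : L = 0 := by omega
    have := hn.hLk
    rw [h1] at this
    omega
  obtain ⟨N, hNp, hNinj, hNlow, hNup⟩ := exists_primes D L hL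
  have hN : ∀ i, 0 < N i := fun i => (hNp i).pos
  set m1 := (2 * (64 * h₀)).factorial ^ e with hm1
  set m2 := (2 * (64 * h₁)).factorial ^ e with hm2
  have hm1p : 0 < m1 := pow_pos (Nat.factorial_pos _) _
  have hm2p : 0 < m2 := pow_pos (Nat.factorial_pos _) _
  set R := k * (L + D + 2) with hR
  have hRom : ∀ i u, 1 ≤ u → u ≤ N i → om k u < R := by
    intro i u hu hui
    refine (om_lt hk hu).trans_le ?_
    rw [hR]
    refine Nat.mul_le_mul_left _ ?_
    have h1 : u < 2 ^ (L + D + 1) := hui.trans_lt (hNup i)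
    have h2 : Nat.log 2 u < L + D + 1 := Nat.log_lt_of_lt_pow (by omega) h1
    omega
  -- patterns
  obtain ⟨P₀, hP₀c, hP₀⟩ := pat_cell N k R 1 (m1 * m2) (4 * k * 1) hk hN one_pos (by omega) hRom
  obtain ⟨P₁, hP₁c, hP₁⟩ := pat_cell N k R m1 m2 (4 * k * m1) hk hN hm1p (by positivity) hRom
  obtain ⟨P₂, hP₂c, hP₂⟩ := pat_cell N k R (m1 * m2) 1 (4 * k * (m1 * m2)) hk hN (by positivity)
    (by positivity) hRom
  rw [one_mul, mul_one (4 * k)] at hP₀
  rw [mul_one (m1 * m2)] at hP₂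
  have c0 : 10 * P₀.card ≤ 2 ^ h₀ := by
    refine le_trans ?_ hn.w0
    refine Nat.mul_le_mul_left _ ?_
    exact hP₀c
  have c1 : 10 * P₁.card ≤ 2 ^ h₁ := by
    refine le_trans ?_ hn.w1
    refine Nat.mul_le_mul_left _ ?_
    exact hP₁c
  have c2 : 10 * P₂.card ≤ 2 ^ h₂ := by
    refine le_trans ?_ hn.w2
    refine Nat.mul_le_mul_left _ ?_
    exact hP₂c
  set M := m1 * m2 with hM
  -- refinement
  have hC1 : ∀ n, cell k M m2 (4 * k * m1) N n = red (4 * k * m1) (cell k M 1 (4 * k * M) N n) := by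
    intro n
    have h1 := cell_refine (N := N) (k := k) (M := M) (m := m2) (mu := 1) (T := 4 * k * m1) hN
      (by positivity) n
    rw [mul_one, mul_assoc (4 * k) m1 m2] at h1
    exact h1
  have hC0 : ∀ n, cell k M M (4 * k) N n = red (4 * k) (cell k M m2 (4 * k * m1) N n) := by
    intro n
    exact cell_refine (N := N) (k := k) (M := M) (m := m1) (mu := m2) (T := 4 * k) hN
      (by positivity) n
  obtain ⟨S₀, S₁, S₂, hA0, hA1, hB1, hB20, hB21⟩ := exists_S3 k h₀ h₁ h₂ hk hn.h0 hn.h1 hn.h2 P₀ P₁ P₂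
    (red (4 * k)) (red (4 * k * m1)) c0 c1 c2
  -- the class sequences of all progressions
  set NN := ∏ i, N i with hNN
  have hNNpos : 0 < NN := Finset.prod_pos fun i _ => hN i
  let 𝒜 : Finset (Fin k → (Fin D → ℕ) × ℕ) :=
    ((Finset.range NN ×ˢ Finset.range NN).image fun p => along k (cls (4 * k) M N) p.1 p.2).filter
      fun c => Two c
  have h𝒜 : ∀ a d, Two (along k (cls (4 * k) M N) a d) → along k (cls (4 * k) M N) a d ∈ 𝒜 := by
    intro a d h
    have h1 : along k (cls (4 * k) M N) a d = along k (cls (4 * k) M N) (a % NN) (d % NN) := by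
      funext j
      exact cls_mod _ _ _ _ _
    refine Finset.mem_filter.2 ⟨Finset.mem_image.2 ⟨(a % NN, d % NN), ?_, h1.symm⟩, h⟩
    exact Finset.mem_product.2 ⟨Finset.mem_range.2 (Nat.mod_lt _ hNNpos),
      Finset.mem_range.2 (Nat.mod_lt _ hNNpos)⟩
  have hNNle : NN ≤ (2 ^ (L + D + 1)) ^ D := by
    calc NN ≤ ∏ _i : Fin D, 2 ^ (L + D + 1) := Finset.prod_le_prod' fun i _ => (hNup i).le
      _ = _ := by rw [Finset.prod_const, Finset.card_univ, Fintype.card_fin]
  have h𝒜c : 2 * 𝒜.card * 2 ^ k < q ^ (k / 200) := by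
    refine lt_of_le_of_lt ?_ hn.c1
    refine Nat.mul_le_mul_right _ (Nat.mul_le_mul_left _ ?_)
    calc 𝒜.card ≤ _ := Finset.card_filter_le _ _
      _ ≤ _ := Finset.card_image_le
      _ = NN * NN := by rw [Finset.card_product, Finset.card_range]
      _ ≤ (2 ^ (L + D + 1)) ^ D * (2 ^ (L + D + 1)) ^ D := Nat.mul_le_mul hNNle hNNle
      _ = _ := by rw [← pow_add, two_mul]
  -- the quadratic patterns
  let gv : (Fin D → (Bool × ℕ) × ℕ) → Bool := fun x =>
    maj (S₀ (red (4 * k) (red (4 * k * m1) x))) (S₁ (red (4 * k * m1) x)) (S₂ x)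
  let Q := 2 * D * (2 ^ (L + D + 1)) ^ 2
  let mk : (Fin k → (Fin D → (Bool × ℕ) × ℕ)) × (ℤ × ℤ × ℤ) × Bool →
      (Fin k → (Fin D → ℕ) × ℕ) × (Fin k → Bool) := fun p =>
    (fun j => (fun i => (red (4 * k) (red (4 * k * m1) (p.1 j)) i).2,
      (p.2.1.1 + p.2.1.2.1 * (j : ℕ) + p.2.1.2.2 * (j : ℕ) ^ 2).toNat),
      fun j => xor (gv (p.1 j)) p.2.2)
  let ℬ : Finset ((Fin k → (Fin D → ℕ) × ℕ) × (Fin k → Bool)) :=
    ((P₂ ×ˢ (quadBox Q ×ˢ (Finset.univ : Finset Bool))).image mk).filter fun p => Two p.1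
  have hℬc : 2 * ℬ.card ≤ 2 ^ (k / (2 * q)) := by
    refine le_trans ?_ hn.c2
    have h1 : ℬ.card ≤ P₂.card * ((2 * Q + 1) ^ 3 * 2) := by
      refine (Finset.card_filter_le _ _).trans (Finset.card_image_le.trans ?_)
      rw [Finset.card_product, Finset.card_product, card_quadBox]
      simp
    calc 2 * ℬ.card ≤ 2 * (P₂.card * ((2 * Q + 1) ^ 3 * 2)) := Nat.mul_le_mul_left _ h1
      _ = 4 * (P₂.card * (2 * Q + 1) ^ 3) := by ring
      _ ≤ _ := by
        refine Nat.mul_le_mul_left _ (Nat.mul_le_mul ?_ le_rfl)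
        exact hP₂c
  obtain ⟨Tm, hT1, hT2⟩ := exists_T k q hn.hq 𝒜 ℬ (fun c hc => (Finset.mem_filter.1 hc).2)
    (fun p hp => (Finset.mem_filter.1 hp).2) h𝒜c hℬc
  -- the colouring
  refine ⟨NN, fun n => xor (gv (cell k M 1 (4 * k * M) N n)) (Tm (cls (4 * k) M N n)), ?_, ?_⟩
  · rw [pow_mul]
    calc (2 ^ L) ^ D = ∏ _i : Fin D, 2 ^ L := by
          rw [Finset.prod_const, Finset.card_univ, Fintype.card_fin]
      _ ≤ NN := Finset.prod_le_prod' fun i _ => hNlow i
  intro a d hd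
  by_contra hcon
  push Not at hcon
  -- a coordinate which moves
  obtain ⟨i₀, hi₀⟩ : ∃ i, ¬ N i ∣ d := by
    by_contra h
    push Not at h
    exact hd (prod_dvd N hNp hNinj d h)
  have hkN : ∀ i, k ≤ N i := fun i => hn.hLk.trans (hNlow i)
  have hi₀M : ¬ N i₀ ∣ M * d := by
    intro h
    rcases (hNp i₀).dvd_mul.1 h with h | h
    · rcases (hNp i₀).dvd_mul.1 h with h | h
      · exact not_dvd_factorial_pow (hNp i₀) (hn.hH0.trans_le (hkN i₀)) h
      · exact not_dvd_factorial_pow (hNp i₀) (hn.hH1.trans_le (hkN i₀)) h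
    · exact hi₀ h
  have htwo : Two (along k (cls (4 * k) M N) a d) := cls_two hNp (by omega) i₀ hi₀M (hkN i₀)
  have hmod := hT1 _ (h𝒜 a d htwo)
  set v := xor (gv (cell k M 1 (4 * k * M) N a)) (Tm (cls (4 * k) M N a)) with hv
  have hconst : ∀ j : Fin k, xor (gv (cell k M 1 (4 * k * M) N (a + j * d)))
      (Tm (cls (4 * k) M N (a + j * d))) = v := fun j => hcon j j.2
  set J₂ := along k (cell k M 1 (4 * k * M) N) a d with hJ₂
  set J₁ := along k (cell k M m2 (4 * k * m1) N) a d with hJ₁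
  set J₀ := along k (cell k M M (4 * k) N) a d with hJ₀
  have e1 : ∀ j, J₁ j = red (4 * k * m1) (J₂ j) := fun j => hC1 _
  have e0 : ∀ j, J₀ j = red (4 * k) (J₁ j) := fun j => hC0 _
  have hgv : ∀ j : Fin k, gv (cell k M 1 (4 * k * M) N (a + j * d)) =
      maj (S₀ (J₀ j)) (S₁ (J₁ j)) (S₂ (J₂ j)) := by
    intro j
    rw [e0 j, e1 j]
    rfl
  -- at unmodified points `G = v`
  have hG : ∀ j : Fin k, Tm (cls (4 * k) M N (a + j * d)) ≠ true →
      maj (S₀ (J₀ j)) (S₁ (J₁ j)) (S₂ (J₂ j)) = v := by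
    intro j hj
    have h1 := hconst j
    rw [hgv j] at h1
    have h2 : Tm (cls (4 * k) M N (a + j * d)) = false := by
      cases h : Tm (cls (4 * k) M N (a + j * d))
      · rfl
      · exact absurd h hj
    rw [h2, Bool.xor_false] at h1
    exact h1
  have hnotv : ∀ j : Fin k, j ∉ (Finset.univ.filter fun j : Fin k =>
      Tm (along k (cls (4 * k) M N) a d j) = true) → Tm (cls (4 * k) M N (a + j * d)) ≠ true := by
    intro j hj h
    exact hj (Finset.mem_filter.2 ⟨Finset.mem_univ _, h⟩)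
  -- two generic levels are impossible
  have g01 : ¬ (Gen (64 * h₀) J₀ ∧ Gen (64 * h₁) J₁) := by
    rintro ⟨g0, g1⟩
    have h1 := hA0 J₀ (hP₀ a d) g0 (!v)
    have h1' : k ≤ 8 * (Finset.univ.filter fun j => S₀ (red (4 * k) (J₁ j)) = !v).card := by
      simp only [← e0]
      exact h1
    have h2 := hB1 J₁ (hP₁ a d) g1 (!v) h1' (!v)
    obtain ⟨j, hj, hjT⟩ := two_generic h1' h2 hmod
    rw [Finset.mem_filter, Finset.mem_filter, ← e0 j] at hj
    have h3 := hG j (hnotv j hjT)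
    rw [maj_01 hj.1.2 hj.2] at h3
    revert h3; cases v <;> decide
  have g02 : ¬ (Gen (64 * h₀) J₀ ∧ Gen (64 * h₂) J₂) := by
    rintro ⟨g0, g2⟩
    have h1 := hA0 J₀ (hP₀ a d) g0 (!v)
    have h1' : k ≤ 8 * (Finset.univ.filter fun j =>
        S₀ (red (4 * k) (red (4 * k * m1) (J₂ j))) = !v).card := by
      simp only [← e0, ← e1]
      exact h1
    have h2 := hB20 J₂ (hP₂ a d) g2 (!v) h1' (!v)
    obtain ⟨j, hj, hjT⟩ := two_generic h1' h2 hmod
    rw [Finset.mem_filter, Finset.mem_filter, ← e1 j, ← e0 j] at hj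
    have h3 := hG j (hnotv j hjT)
    rw [maj_02 hj.1.2 hj.2] at h3
    revert h3; cases v <;> decide
  have g12 : ¬ (Gen (64 * h₁) J₁ ∧ Gen (64 * h₂) J₂) := by
    rintro ⟨g1, g2⟩
    have h1 := hA1 J₁ (hP₁ a d) g1 (!v)
    have h1' : k ≤ 8 * (Finset.univ.filter fun j => S₁ (red (4 * k * m1) (J₂ j)) = !v).card := by
      simp only [← e1]
      exact h1
    have h2 := hB21 J₂ (hP₂ a d) g2 (!v) h1' (!v)
    obtain ⟨j, hj, hjT⟩ := two_generic h1' h2 hmod
    rw [Finset.mem_filter, Finset.mem_filter, ← e1 j] at hj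
    have h3 := hG j (hnotv j hjT)
    rw [maj_12 hj.1.2 hj.2] at h3
    revert h3; cases v <;> decide
  -- so two levels are not generic, and the line is slow without wrap-around
  have hb : ∃ b : Fin D → ℤ, (∀ i, |b i| * (4 * k) < N i) ∧ (∀ i, (N i : ℤ) ∣ (M * d : ℕ) - b i) ∧
      ∀ i, ∀ t < k, (((M * (a + t * d)) % N i : ℕ) : ℤ) = ((M * a) % N i : ℕ) + t * b i := by
    have hp1 : ∀ p, p.Prime → p ≤ 2 * (64 * h₀) → ∃ e, k ≤ p ^ e ∧ p ^ e ∣ m1 := fun p hp hpq =>
      ⟨e, pow_dvd_factorial_pow hp hpq hn.he⟩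
    have hp2 : ∀ p, p.Prime → p ≤ 2 * (64 * h₁) → ∃ e, k ≤ p ^ e ∧ p ^ e ∣ m2 := fun p hp hpq =>
      ⟨e, pow_dvd_factorial_pow hp hpq hn.he⟩
    have hh0 := hn.h0
    have hh1 := hn.h1
    have hh2 := hn.h2
    have hH0 := hn.hH0
    have hH1 := hn.hH1
    have hH2 := hn.hH2
    by_cases g0 : Gen (64 * h₀) J₀
    · -- levels 1 and 2 are not generic
      have n1 : ¬ Gen (64 * h₁) J₁ := fun h => g01 ⟨g0, h⟩
      have n2 : ¬ Gen (64 * h₂) J₂ := fun h => g02 ⟨g0, h⟩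
      exact slow_line (M := M) (m := m2) (mu := m2) (T := 4 * k * m1) (m' := m1) (mu' := 1)
        (T' := 4 * k * M) (H := 64 * h₁) (H' := 64 * h₂) hN hm2p (by omega) hH1 (by omega) (by omega)
        (by nlinarith) (by ring) (by rw [hM]; ring) hp2 hM (by ring) hm1p n1 n2
    · by_cases g1 : Gen (64 * h₁) J₁
      · have n2 : ¬ Gen (64 * h₂) J₂ := fun h => g12 ⟨g1, h⟩
        exact slow_line (M := M) (m := M) (mu := M) (T := 4 * k) (m' := 1) (mu' := 1)
          (T' := 4 * k * M) (H := 64 * h₀) (H' := 64 * h₂) hN (by positivity) (by omega) hH0 (by omega)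
          (by omega) (by omega) (by ring) (by ring)
          (fun p hp hpq => by
            obtain ⟨e, h1, h2⟩ := hp1 p hp hpq
            exact ⟨e, h1, h2.trans (Dvd.intro _ rfl)⟩) (by ring) (by ring) one_pos g0 n2
      · exact slow_line (M := M) (m := m1) (mu := M) (T := 4 * k) (m' := 1) (mu' := m2)
          (T' := 4 * k * m1) (H := 64 * h₀) (H' := 64 * h₁) hN hm1p (by omega) hH0 (by omega)
          (by omega) (by omega) hM (by ring) hp1 (by ring) (by ring) one_pos g0 g1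
  obtain ⟨b, hb1, _, hb3⟩ := hb
  obtain ⟨A, hA, hquad⟩ := pp_quad (N := N) (k := k) (M := M) (a := a) (d := d)
    (P := 2 ^ (L + D + 1)) b (fun i => (hNup i).le) hN
    (fun i => by
      have h1 := hb1 i
      have h2 := abs_nonneg (b i)
      have h3 : (1 : ℤ) ≤ 4 * k := by exact_mod_cast (by omega : 1 ≤ 4 * k)
      nlinarith) hb3
  have hmem : mk (J₂, A, v) ∈ (P₂ ×ˢ (quadBox Q ×ˢ (Finset.univ : Finset Bool))).image mk :=
    Finset.mem_image_of_mem _ (Finset.mem_product.2 ⟨hP₂ a d, Finset.mem_product.2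
      ⟨hA, Finset.mem_univ _⟩⟩)
  have hseq : (mk (J₂, A, v)).1 = along k (cls (4 * k) M N) a d := by
    funext j
    have h1 : (cls (4 * k) M N (a + j * d)).1 =
        fun i => (red (4 * k) (red (4 * k * m1) (J₂ j)) i).2 := by
      rw [cls_of_cell (k := k)]
      funext i
      rw [← e1 j, ← e0 j]
      rfl
    have h2 : (cls (4 * k) M N (a + j * d)).2 =
        (A.1 + A.2.1 * (j : ℕ) + A.2.2 * (j : ℕ) ^ 2).toNat := by
      rw [← hquad j j.2]
      rfl
    exact (Prod.ext h1 h2).symm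
  have hmemB : mk (J₂, A, v) ∈ ℬ := by
    refine Finset.mem_filter.2 ⟨hmem, ?_⟩
    rw [hseq]
    exact htwo
  obtain ⟨j, hj⟩ := hT2 _ hmemB
  rw [hseq] at hj
  apply hj
  have h1 := hconst j
  show Tm (cls (4 * k) M N (a + j * d)) = xor (gv (J₂ j)) v
  have h2 : gv (J₂ j) = gv (cell k M 1 (4 * k * M) N (a + j * d)) := rfl
  rw [h2]
  generalize gv (cell k M 1 (4 * k * M) N (a + j * d)) = x at h1 ⊢
  generalize Tm (cls (4 * k) M N (a + j * d)) = y at h1 ⊢
  rw [← h1]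
  cases x <;> cases y <;> rfl

end Crest.Agent.VW
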