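import Mathlib

/-!
# S0086: super-exponential lower bound for van der Waerden numbers, definitions

The paper proof is in the team notes (rid S0086, helper12, 08:xxZ).
`n` is represented by its residues modulo the primes `N i`, `i < D`.
-/

set_option autoImplicit false

namespace Crest.Agent.VW

/-- the sequence of `f` along the progression `a + j d`, `j < k` -/
def along {α : Type*} (k : ℕ) (f : ℕ → α) (a d : ℕ) : Fin k → α := fun j => f (a + j * d)

/-- `n` is a return: the displacement `n * B` is within `N i / T` of a multiple of `N i`, for all `i` -/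
def Ret {D : ℕ} (N : Fin D → ℕ) (T B n : ℕ) : Prop :=
  ∀ i, ∃ t : ℤ, |(n : ℤ) * B - t * N i| * T < N i

/-- Whitney index: octave, and `k` subdivisions of each octave -/
def om (k u : ℕ) : ℕ := k * Nat.log 2 u + (k * u / 2 ^ Nat.log 2 u - k)

/-- Whitney index of `Z ∈ [0, N)` with respect to the kink `0 ~ N` -/
def wh (k N Z : ℕ) : Bool × ℕ :=
  if 2 * Z < N then (true, om k (Z + 1)) else (false, om k (N - Z))

/-- Cell of `n` at the level with multiplier `mu` and grid `T`; `M` is the total multiplier. -/
def cell {D : ℕ} (k M mu T : ℕ) (N : Fin D → ℕ) (n : ℕ) : Fin D → (Bool × ℕ) × ℕ :=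
  fun i => (wh k (N i) ((M * n) % N i), T * ((mu * n) % N i) / N i)

/-- sum of squares of the coordinates -/
def PP {D : ℕ} (M : ℕ) (N : Fin D → ℕ) (n : ℕ) : ℕ := ∑ i, ((M * n) % N i) ^ 2

/-- class of `n` for the sparse modification -/
def cls {D : ℕ} (K M : ℕ) (N : Fin D → ℕ) (n : ℕ) : (Fin D → ℕ) × ℕ :=
  (fun i => K * ((M * n) % N i) / N i, PP M N n)

/-- every value of `c` is taken at most `k / H` times -/
def Gen {α : Type*} [DecidableEq α] {k : ℕ} (H : ℕ) (c : Fin k → α) : Prop :=
  ∀ x, (Finset.univ.filter (fun j => c j = x)).card * H ≤ k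

/-- every value of `c` is taken at most twice -/
def Two {α : Type*} [DecidableEq α] {k : ℕ} (c : Fin k → α) : Prop :=
  ∀ x, (Finset.univ.filter (fun j => c j = x)).card ≤ 2

end Crest.Agent.VW
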