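import Crest.Agent.VW_Core

/-! # Task VW-Num: the numerical hypotheses hold for large `k`

Choose `t` maximal with `t^20 ≤ k` (so `k < (t+1)^20 ≤ (2t)^20`), `ℓ = Nat.log 2 k + 1` (`k < 2^ℓ`, `ℓ ≤ t` for large `k`), `D = t^2`,
`L = k * ℓ / (100000 * t^2) + 1`, `e = ℓ`, `h₀ = t^4`, `h₁ = t^11`, `h₂ = t^18`, `q = t`.

* `R = k (L + D + 2) ≤ k^2`, so `Wn k R m ≤ (m (k+1)^5)^3 ≤ 2^(3 log m + 15 (ℓ + 1))` roughly;
* `(128 t^4)! ^ e ≤ ((128 t^4)^(128 t^4))^ℓ ≤ 2^(ℓ * 128 t^4 * ℓ) ≤ 2^(128 t^6)`, `(128 t^11)! ^ e ≤ 2^(128 t^13)` (as `128 t^11 ≤ k < 2^ℓ`);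
* `c1`: exponents `1 + 2 t^2 (L + t^2 + 1) + k < λ (k/200)` with `λ = Nat.log 2 t ≥ 1000`, `ℓ ≤ 20 (λ + 2)`, `t^2 L ≤ k ℓ / 10^5 + t^2`;
* `c2`: `2 + t^18 + 3 (…2(L+D+1)…) ≤ k / (2t)`, `k / (2 t) ≥ t^19 / 2 - 1`, `L ≤ k / (10^5 t) + 1`. -/

set_option autoImplicit false

namespace Crest.Agent.VW

theorem Num_exists_root (k : ℕ) : ∃ t : ℕ, t ^ 20 ≤ k ∧ k < (t + 1) ^ 20 := by
  classical
  have hex : ∃ s : ℕ, k < (s + 1) ^ 20 := by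
    refine ⟨k, ?_⟩
    calc k < k + 1 := Nat.lt_succ_self k
      _ = (k + 1) ^ 1 := (pow_one _).symm
      _ ≤ (k + 1) ^ 20 := Nat.pow_le_pow_right (by omega) (by norm_num)
  refine ⟨Nat.find hex, ?_, Nat.find_spec hex⟩
  by_cases h0 : Nat.find hex = 0
  · rw [h0]; simp
  · have h1 := Nat.find_min hex (m := Nat.find hex - 1) (by omega)
    rw [not_lt] at h1
    have h2 : Nat.find hex - 1 + 1 = Nat.find hex := by omega
    rwa [h2] at h1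

theorem Num_Wn_le {k R m : ℕ} (hk : 2 ≤ k) (hR : R ≤ k ^ 2) (hm : 1 ≤ m) :
    Wn k R m ≤ (m * (k + 1) ^ 5) ^ 3 := by
  unfold Wn
  apply Nat.pow_le_pow_left
  have h1 : 4 * k * m + m * (2 * R + 2) + 1 ≤ m * (k + 1) ^ 3 := by
    have h2 : 4 * k + (2 * R + 2) + 1 ≤ (k + 1) ^ 3 := by nlinarith [sq_nonneg k]
    calc 4 * k * m + m * (2 * R + 2) + 1 ≤ 4 * k * m + m * (2 * R + 2) + m := by omega
      _ = m * (4 * k + (2 * R + 2) + 1) := by ring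
      _ ≤ m * (k + 1) ^ 3 := Nat.mul_le_mul_left _ h2
  have hp : 1 ≤ m * (k + 1) ^ 4 := Nat.one_le_iff_ne_zero.2 (by positivity)
  calc k * (k + 1) * (4 * k * m + m * (2 * R + 2) + 1) + 1
      ≤ k * (k + 1) * (m * (k + 1) ^ 3) + 1 := by
        gcongr
    _ = k * (m * (k + 1) ^ 4) + 1 := by ring
    _ ≤ k * (m * (k + 1) ^ 4) + m * (k + 1) ^ 4 := by omega
    _ = m * (k + 1) ^ 5 := by ring

theorem Num_Wn_pow {k R m D ℓ M : ℕ} (hk : 2 ≤ k) (hR : R ≤ k ^ 2) (hm : 1 ≤ m)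
    (hℓ : k + 1 ≤ 2 ^ ℓ) (hM : m ≤ 2 ^ M) :
    (Wn k R m) ^ D ≤ 2 ^ (D * (3 * M + 15 * ℓ)) := by
  have h1 : Wn k R m ≤ 2 ^ (3 * M + 15 * ℓ) := by
    refine (Num_Wn_le hk hR hm).trans ?_
    calc (m * (k + 1) ^ 5) ^ 3 ≤ (2 ^ M * (2 ^ ℓ) ^ 5) ^ 3 := by gcongr
      _ = 2 ^ (3 * M + 15 * ℓ) := by
        rw [← pow_mul, ← pow_add, ← pow_mul]; congr 1; ring
  calc (Wn k R m) ^ D ≤ (2 ^ (3 * M + 15 * ℓ)) ^ D := Nat.pow_le_pow_left h1 _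
    _ = 2 ^ (D * (3 * M + 15 * ℓ)) := by rw [← pow_mul]; congr 1; ring

theorem Num_ten_Wn {k R m D ℓ M h : ℕ} (hk : 2 ≤ k) (hR : R ≤ k ^ 2) (hm : 1 ≤ m)
    (hℓ : k + 1 ≤ 2 ^ ℓ) (hM : m ≤ 2 ^ M) (hh : 4 + D * (3 * M + 15 * ℓ) ≤ h) :
    10 * (Wn k R m) ^ D ≤ 2 ^ h := by
  calc 10 * (Wn k R m) ^ D ≤ 2 ^ 4 * 2 ^ (D * (3 * M + 15 * ℓ)) :=
        Nat.mul_le_mul (by norm_num) (Num_Wn_pow hk hR hm hℓ hM)
    _ = 2 ^ (4 + D * (3 * M + 15 * ℓ)) := by rw [← pow_add]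
    _ ≤ 2 ^ h := Nat.pow_le_pow_right (by norm_num) hh

/-- `(128 t^a)!^ℓ ≤ 2^(128 t^(a+2))` -/
theorem Num_fact {k ℓ t x y : ℕ} (hx : x ≤ k) (hℓ : k ≤ 2 ^ ℓ) (hℓt : ℓ ≤ t) (hxy : x * t ^ 2 ≤ y) :
    x.factorial ^ ℓ ≤ 2 ^ y := by
  calc x.factorial ^ ℓ ≤ (x ^ x) ^ ℓ := Nat.pow_le_pow_left (Nat.factorial_le_pow x) _
    _ ≤ ((2 ^ ℓ) ^ x) ^ ℓ := by
        apply Nat.pow_le_pow_left
        exact Nat.pow_le_pow_left (hx.trans hℓ) _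
    _ = 2 ^ (x * (ℓ * ℓ)) := by rw [← pow_mul, ← pow_mul]; congr 1; ring
    _ ≤ 2 ^ y := by
        apply Nat.pow_le_pow_right (by norm_num)
        refine le_trans ?_ hxy
        rw [sq]
        exact Nat.mul_le_mul_left _ (Nat.mul_le_mul hℓt hℓt)

theorem Num_lin_le_two_pow (n : ℕ) : 20 * (n + 10 + 1) ≤ 2 ^ (n + 10) := by
  induction n with
  | zero => norm_num
  | succ n ih =>
    have : 2 ^ (n + 1 + 10) = 2 * 2 ^ (n + 10) := by ring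
    omega

theorem Num_sq_le_two_pow (n : ℕ) : 4 * (n + 10) ^ 2 + 1 ≤ 2 ^ (n + 10) := by
  induction n with
  | zero => norm_num
  | succ n ih =>
    have h1 : 2 ^ (n + 1 + 10) = 2 * 2 ^ (n + 10) := by ring
    rw [h1]
    generalize 2 ^ (n + 10) = X at ih
    have h2 : 0 ≤ n ^ 2 := Nat.zero_le _
    have h3 : 4 * (n + 10) ^ 2 + 1 = 4 * n ^ 2 + 80 * n + 401 := by ring
    have h4 : 4 * (n + 1 + 10) ^ 2 + 1 = 4 * n ^ 2 + 88 * n + 485 := by ring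
    rw [h4]
    rw [h3] at ih
    omega

/-- the parameters -/
structure Num_Par (k t l L lam : ℕ) : Prop where
  hlam : 1000 ≤ lam
  ht : 1000 ≤ t
  hlt : lam ≤ t
  htk : t ^ 20 ≤ k
  hl1 : k + 1 ≤ 2 ^ l
  hl2 : l ≤ 20 * (lam + 1)
  hl3 : l ≤ t
  hpow : 2 ^ lam ≤ t
  hL1 : 100000 * t ^ 2 * L ≤ k * l + 100000 * t ^ 2
  hL2 : k * l < 100000 * t ^ 2 * L

theorem Num_par_exists : ∃ K₀ : ℕ, ∀ k : ℕ, K₀ ≤ k → ∃ t l L lam : ℕ, Num_Par k t l L lam := by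
  obtain ⟨c, hc⟩ : ∃ c : ℕ, c = 1000 := ⟨_, rfl⟩
  refine ⟨(2 ^ c + 1) ^ 20, fun k hk => ?_⟩
  obtain ⟨t, ht1, ht2⟩ := Num_exists_root k
  have ht : 2 ^ c ≤ t := by
    have h1 : (2 ^ c + 1) ^ 20 < (t + 1) ^ 20 := lt_of_le_of_lt hk ht2
    have h2 := lt_of_pow_lt_pow_left₀ 20 (by omega) h1
    omega
  have htpos : t ≠ 0 := by
    intro h
    rw [h] at ht
    have : 0 < 2 ^ c := by positivity
    omega
  set lam := Nat.log 2 t with hlamdef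
  have hlam : 1000 ≤ lam := by
    rw [← hc]
    exact (Nat.le_log_iff_pow_le (by norm_num) htpos).2 ht
  have hpow : 2 ^ lam ≤ t := Nat.pow_log_le_self 2 htpos
  have hpow2 : t < 2 ^ (lam + 1) := Nat.lt_pow_succ_log_self (by norm_num) t
  have h1000 : 1000 ≤ t := by
    have h3 : 2 ^ 10 ≤ 2 ^ lam := Nat.pow_le_pow_right (by norm_num) (by omega)
    have h4 : 2 ^ 10 = 1024 := by norm_num
    omega
  have hkpos : k ≠ 0 := by
    have h9 : 0 < t ^ 20 := pow_pos (Nat.pos_of_ne_zero htpos) 20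
    exact (lt_of_lt_of_le h9 ht1).ne'
  have hlk : k < 2 ^ (Nat.log 2 k + 1) := Nat.lt_pow_succ_log_self (by norm_num) k
  have hlk2 : 2 ^ Nat.log 2 k ≤ k := Nat.pow_log_le_self 2 hkpos
  have hll : Nat.log 2 k < 20 * (lam + 1) := by
    have h5 : 2 ^ Nat.log 2 k < 2 ^ (20 * (lam + 1)) := by
      calc 2 ^ Nat.log 2 k ≤ k := hlk2
        _ < (t + 1) ^ 20 := ht2
        _ ≤ (2 ^ (lam + 1)) ^ 20 := Nat.pow_le_pow_left (by omega) _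
        _ = 2 ^ (20 * (lam + 1)) := by rw [← pow_mul]; congr 1; ring
    exact (Nat.pow_lt_pow_iff_right (by norm_num)).1 h5
  have hlin : 20 * (lam + 1) ≤ 2 ^ lam := by
    have h6 := Num_lin_le_two_pow (lam - 10)
    have h7 : lam - 10 + 10 = lam := by omega
    rwa [h7] at h6
  have hT : 0 < 100000 * t ^ 2 :=
    Nat.mul_pos (by norm_num) (pow_pos (Nat.pos_of_ne_zero htpos) 2)
  refine ⟨t, Nat.log 2 k + 1, k * (Nat.log 2 k + 1) / (100000 * t ^ 2) + 1, lam, ?_⟩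
  clear ht2 hk ht hpow2 hlk2
  refine ⟨hlam, h1000, ?_, ht1, hlk, hll, ?_, hpow, ?_, ?_⟩
  · omega
  · omega
  · have h8 := Nat.mul_div_le (k * (Nat.log 2 k + 1)) (100000 * t ^ 2)
    rw [mul_add, mul_one]
    omega
  · exact Nat.lt_mul_div_succ _ hT

theorem Num_tpow {t : ℕ} (ht : 1000 ≤ t) (j : ℕ) : 1000 * t ^ j ≤ t ^ (j + 1) := by
  rw [pow_succ, mul_comm]
  exact Nat.mul_le_mul_left _ ht

theorem Num_real {k t l L : ℕ} (hl1 : k + 1 ≤ 2 ^ l) (hL2 : k * l < 100000 * t ^ 2 * L) :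
    (k : ℝ) ^ ((k : ℝ) / 100000) ≤ (2 : ℝ) ^ (L * t ^ 2) := by
  have h1 : (k : ℝ) ≤ (2 : ℝ) ^ (l : ℝ) := by
    rw [Real.rpow_natCast]
    have : k ≤ 2 ^ l := by omega
    exact_mod_cast this
  calc (k : ℝ) ^ ((k : ℝ) / 100000) ≤ ((2 : ℝ) ^ (l : ℝ)) ^ ((k : ℝ) / 100000) := by
        apply Real.rpow_le_rpow (by positivity) h1 (by positivity)
    _ = (2 : ℝ) ^ ((l : ℝ) * ((k : ℝ) / 100000)) := by
        rw [← Real.rpow_mul (by norm_num)]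
    _ ≤ (2 : ℝ) ^ ((L * t ^ 2 : ℕ) : ℝ) := by
        apply Real.rpow_le_rpow_of_exponent_le (by norm_num)
        have h2 : ((k * l : ℕ) : ℝ) < ((100000 * t ^ 2 * L : ℕ) : ℝ) := by exact_mod_cast hL2
        push_cast at h2 ⊢
        have h3 : (l : ℝ) * ((k : ℝ) / 100000) = (k * l : ℝ) / 100000 := by ring
        rw [h3, div_le_iff₀ (by norm_num)]
        linarith
    _ = (2 : ℝ) ^ (L * t ^ 2) := by rw [Real.rpow_natCast]

theorem Num_c2 {A B W X n : ℕ} (hA : A ≤ 2 ^ W) (hB : B ≤ 2 ^ X) (hn : 2 + W + 3 * X ≤ n) :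
    4 * (A * B ^ 3) ≤ 2 ^ n := by
  calc 4 * (A * B ^ 3) ≤ 2 ^ 2 * (2 ^ W * (2 ^ X) ^ 3) := by
        apply Nat.mul_le_mul (by norm_num)
        exact Nat.mul_le_mul hA (Nat.pow_le_pow_left hB 3)
    _ = 2 ^ (2 + W + 3 * X) := by
        rw [← pow_mul, ← pow_add, ← pow_add]; congr 1; ring
    _ ≤ 2 ^ n := Nat.pow_le_pow_right (by norm_num) hn

theorem Num_main {k t l L lam : ℕ} (h : Num_Par k t l L lam) :
    Num k (t ^ 2) L l (t ^ 4) (t ^ 11) (t ^ 18) t := by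
  obtain ⟨hlam, ht, hlt, htk, hl1, hl2, hl3, hpow, hL1, hL2⟩ := h
  have p := Num_tpow ht
  have p0 := p 0
  have p1 := p 1
  have p2 := p 2
  have p3 := p 3
  have p4 := p 4
  have p5 := p 5
  have p6 := p 6
  have p7 := p 7
  have p8 := p 8
  have p9 := p 9
  have p10 := p 10
  have p11 := p 11
  have p12 := p 12
  have p13 := p 13
  have p14 := p 14
  have p15 := p 15
  have p16 := p 16
  have p17 := p 17
  have p18 := p 18
  have p19 := p 19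
  simp only [zero_add, Nat.reduceAdd, pow_zero, pow_one] at p0 p1 p2 p3 p4 p5 p6 p7 p8 p9 p10 p11 p12 p13 p14 p15 p16 p17 p18 p19
  have ht0 : 0 < t := by omega
  -- bound for `t L`
  have hL3 : 100000 * (t * L) ≤ k + 100000 * t := by
    have h1 : t * (100000 * (t * L)) ≤ t * (k + 100000 * t) := by
      calc t * (100000 * (t * L)) = 100000 * t ^ 2 * L := by ring
        _ ≤ k * l + 100000 * t ^ 2 := hL1
        _ ≤ k * t + 100000 * t ^ 2 := by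
            have := Nat.mul_le_mul_left k hl3
            omega
        _ = t * (k + 100000 * t) := by ring
    exact Nat.le_of_mul_le_mul_left h1 ht0
  have hLL : L ≤ t * L := Nat.le_mul_of_pos_left L ht0
  have hk2 : 2 ≤ k := by omega
  have hR : k * (L + t ^ 2 + 2) ≤ k ^ 2 := by
    rw [show k ^ 2 = k * k from sq k]
    apply Nat.mul_le_mul_left
    omega
  have hlk : k ≤ 2 ^ l := by omega
  have hlL : l ≤ L := by
    have h1 : 100000 * t ^ 2 * l < 100000 * t ^ 2 * L := by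
      refine lt_of_le_of_lt ?_ hL2
      apply Nat.mul_le_mul_right
      omega
    exact (Nat.lt_of_mul_lt_mul_left h1).le
  have f0 : (2 * (64 * t ^ 4)).factorial ^ l ≤ 2 ^ (128 * t ^ 6) :=
    Num_fact (t := t) (by omega) hlk hl3 (le_of_eq (by ring))
  have f1 : (2 * (64 * t ^ 11)).factorial ^ l ≤ 2 ^ (128 * t ^ 13) :=
    Num_fact (t := t) (by omega) hlk hl3 (le_of_eq (by ring))
  have f01 : (2 * (64 * t ^ 4)).factorial ^ l * (2 * (64 * t ^ 11)).factorial ^ l ≤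
      2 ^ (128 * t ^ 6 + 128 * t ^ 13) := by
    rw [pow_add]
    exact Nat.mul_le_mul f0 f1
  have g0 : 1 ≤ (2 * (64 * t ^ 4)).factorial ^ l := Nat.one_le_pow _ _ (Nat.factorial_pos _)
  have g1 : 1 ≤ (2 * (64 * t ^ 11)).factorial ^ l := Nat.one_le_pow _ _ (Nat.factorial_pos _)
  have g01 : 1 ≤ (2 * (64 * t ^ 4)).factorial ^ l * (2 * (64 * t ^ 11)).factorial ^ l :=
    Nat.mul_pos g0 g1
  have htl : t ^ 2 * (15 * l) ≤ 15 * t ^ 3 := by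
    calc t ^ 2 * (15 * l) ≤ t ^ 2 * (15 * t) := by gcongr
      _ = 15 * t ^ 3 := by ring
  have eW : t ^ 2 * (3 * (128 * t ^ 6 + 128 * t ^ 13) + 15 * l) ≤
      384 * t ^ 8 + 384 * t ^ 15 + 15 * t ^ 3 := by
    have : t ^ 2 * (3 * (128 * t ^ 6 + 128 * t ^ 13) + 15 * l) =
      384 * t ^ 8 + 384 * t ^ 15 + t ^ 2 * (15 * l) := by ring
    omega
  refine ⟨by positivity, by omega, by positivity, by positivity, by positivity, hlk,
    by omega, by omega, by omega, hlk.trans (Nat.pow_le_pow_right (by norm_num) hlL),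
    ?_, ?_, ?_, ?_, ?_⟩
  · refine Num_ten_Wn (M := 0) hk2 hR le_rfl hl1 (by norm_num) ?_
    have : t ^ 2 * (3 * 0 + 15 * l) = t ^ 2 * (15 * l) := by ring
    omega
  · refine Num_ten_Wn hk2 hR g0 hl1 f0 ?_
    have : t ^ 2 * (3 * (128 * t ^ 6) + 15 * l) = 384 * t ^ 8 + t ^ 2 * (15 * l) := by ring
    omega
  · refine Num_ten_Wn hk2 hR g01 hl1 f01 ?_
    omega
  · -- c1
    have h1 : 2 * (2 ^ (L + t ^ 2 + 1)) ^ (2 * t ^ 2) * 2 ^ k =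
        2 ^ (1 + (L + t ^ 2 + 1) * (2 * t ^ 2) + k) := by
      rw [← pow_mul, pow_add 2 (1 + (L + t ^ 2 + 1) * (2 * t ^ 2)) k,
        pow_add 2 1 ((L + t ^ 2 + 1) * (2 * t ^ 2)), pow_one]
    rw [h1]
    refine lt_of_lt_of_le ?_ (Nat.pow_le_pow_left hpow (k / 200))
    rw [← pow_mul]
    apply Nat.pow_lt_pow_right (by norm_num)
    have h2 : k ≤ 200 * (k / 200) + 199 := by omega
    have h3 : lam * k ≤ lam * (200 * (k / 200) + 199) := Nat.mul_le_mul_left _ h2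
    have h4 : lam * (200 * (k / 200) + 199) = 200 * (lam * (k / 200)) + 199 * lam := by ring
    have h5 : k * l ≤ k * (20 * (lam + 1)) := Nat.mul_le_mul_left _ hl2
    have h6 : k * (20 * (lam + 1)) = 20 * (lam * k) + 20 * k := by ring
    have h7 : 1000 * k ≤ lam * k := Nat.mul_le_mul_right _ hlam
    have h8 : (L + t ^ 2 + 1) * (2 * t ^ 2) = 2 * (t ^ 2 * L) + 2 * t ^ 4 + 2 * t ^ 2 := by ring
    have h9 : 100000 * t ^ 2 * L = 100000 * (t ^ 2 * L) := by ring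
    rw [h8]
    rw [h9] at hL1
    generalize lam * (k / 200) = u at h4 ⊢
    generalize lam * k = v at h3 h6 h7
    generalize t ^ 2 * L = w at hL1 ⊢
    omega
  · -- c2
    have hM := Num_Wn_pow (D := t ^ 2) hk2 hR g01 hl1 f01
    have hM2 := hM.trans (Nat.pow_le_pow_right (by norm_num) eW)
    have h1 : 2 * (2 * t ^ 2 * (2 ^ (L + t ^ 2 + 1)) ^ 2) + 1 ≤ 2 ^ (t + 2 * (L + t ^ 2 + 1)) := by
      have h2 : 4 * t ^ 2 + 1 ≤ 2 ^ t := by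
        have := Num_sq_le_two_pow (t - 10)
        rwa [show t - 10 + 10 = t by omega] at this
      have h3 : 1 ≤ (2 ^ (L + t ^ 2 + 1)) ^ 2 := Nat.one_le_pow _ _ (by positivity)
      calc 2 * (2 * t ^ 2 * (2 ^ (L + t ^ 2 + 1)) ^ 2) + 1
          ≤ 2 * (2 * t ^ 2 * (2 ^ (L + t ^ 2 + 1)) ^ 2) + (2 ^ (L + t ^ 2 + 1)) ^ 2 := by omega
        _ = (4 * t ^ 2 + 1) * (2 ^ (L + t ^ 2 + 1)) ^ 2 := by ring
        _ ≤ 2 ^ t * (2 ^ (L + t ^ 2 + 1)) ^ 2 := Nat.mul_le_mul_right _ h2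
        _ = 2 ^ (t + 2 * (L + t ^ 2 + 1)) := by
            rw [← pow_mul, ← pow_add]; congr 1; ring
    refine Num_c2 hM2 h1 ?_
    rw [Nat.le_div_iff_mul_le (by omega)]
    have h4 : (2 + (384 * t ^ 8 + 384 * t ^ 15 + 15 * t ^ 3) + 3 * (t + 2 * (L + t ^ 2 + 1))) *
        (2 * t) = 16 * t + 768 * t ^ 9 + 768 * t ^ 16 + 30 * t ^ 4 + 6 * t ^ 2 + 12 * (t * L)
          + 12 * t ^ 3 := by ring
    rw [h4]
    clear hM hM2 f0 f1 f01 g0 g1 g01 h1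
    generalize t * L = w at hL3 ⊢
    omega

theorem exists_num : ∃ K₀ : ℕ, ∀ k : ℕ, K₀ ≤ k → ∃ D L e h₀ h₁ h₂ q : ℕ,
    Num k D L e h₀ h₁ h₂ q ∧ (k : ℝ) ^ ((k : ℝ) / 100000) ≤ (2 : ℝ) ^ (L * D) := by
  obtain ⟨K₀, hK⟩ := Num_par_exists
  refine ⟨K₀, fun k hk => ?_⟩
  obtain ⟨t, l, L, lam, h⟩ := hK k hk
  exact ⟨t ^ 2, L, l, t ^ 4, t ^ 11, t ^ 18, t, Num_main h, Num_real h.hl1 h.hL2⟩

end Crest.Agent.VW
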