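import Crest.Agent.VW_Defs

/-! # Task VW-Pat1: number of codings of rotations (Sauer-Shelah) -/

set_option autoImplicit false

namespace Crest.Agent.VW

theorem shatter_card_le (U : Finset (ℕ × ℕ)) (𝒲 : Finset (ℕ × ℕ)) (s : Finset (ℕ × ℕ))
    (hs : (𝒲.image (fun w => U.filter (fun p => p.2 ≤ w.1 + p.1 * w.2))).Shatters s) :
    s ⊆ U ∧ s.card ≤ 3 := by
  classical
  have hsU : s ⊆ U := by
    obtain ⟨t, ht, hst⟩ := hs.exists_superset
    rw [Finset.mem_image] at ht
    obtain ⟨w, _, rfl⟩ := ht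
    exact hst.trans (Finset.filter_subset _ _)
  refine ⟨hsU, ?_⟩
  by_contra hcard
  push Not at hcard
  set e : ℕ × ℕ → (Fin 3 → ℚ) := fun p => ![1, (p.1 : ℚ), (p.2 : ℚ)] with he
  have hinj : Function.Injective e := by
    intro p q hpq
    have h1 := congrFun hpq 1
    have h2 := congrFun hpq 2
    simp [he] at h1 h2
    exact Prod.ext h1 h2
  have hc : Module.finrank ℚ (Fin 3 → ℚ) < (s.image e).card := by
    rw [Finset.card_image_of_injective _ hinj]
    simpa using hcard
  obtain ⟨f, hf, x, hx, hfx⟩ := Module.exists_nontrivial_relation_of_finrank_lt_card hc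
  rw [Finset.sum_image (fun p _ q _ h => hinj h)] at hf
  rw [Finset.mem_image] at hx
  obtain ⟨x0, hx0, rfl⟩ := hx
  set lam : ℕ × ℕ → ℚ := fun p => f (e p) with hlam
  have h0 : ∑ p ∈ s, lam p = 0 := by
    have := congrFun hf 0
    simpa [he, Finset.sum_apply] using this
  have h1 : ∑ p ∈ s, lam p * (p.1 : ℚ) = 0 := by
    have := congrFun hf 1
    simpa [he, Finset.sum_apply] using this
  have h2 : ∑ p ∈ s, lam p * (p.2 : ℚ) = 0 := by
    have := congrFun hf 2
    simpa [he, Finset.sum_apply] using this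
  obtain ⟨u, hu, hsu⟩ := hs (Finset.filter_subset (fun p => 0 < lam p) s)
  rw [Finset.mem_image] at hu
  obtain ⟨w, _, rfl⟩ := hu
  have hiff : ∀ p ∈ s, (p.2 ≤ w.1 + p.1 * w.2 ↔ 0 < lam p) := by
    intro p hp
    have h3 : p ∈ s ∩ U.filter (fun p => p.2 ≤ w.1 + p.1 * w.2) ↔
        p ∈ s.filter (fun p => 0 < lam p) := by rw [hsu]
    simp only [Finset.mem_inter, Finset.mem_filter, hp, hsU hp, true_and] at h3
    exact h3
  have hsum : ∑ p ∈ s, lam p * ((w.1 : ℚ) + p.1 * w.2 - p.2) = 0 := by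
    have : ∀ p ∈ s, lam p * ((w.1 : ℚ) + p.1 * w.2 - p.2) =
        w.1 * lam p + w.2 * (lam p * p.1) - lam p * p.2 := by
      intro p _; ring
    rw [Finset.sum_congr rfl this, Finset.sum_sub_distrib, Finset.sum_add_distrib,
      ← Finset.mul_sum, ← Finset.mul_sum, h0, h1, h2]
    ring
  have hnn : ∀ p ∈ s, 0 ≤ lam p * ((w.1 : ℚ) + p.1 * w.2 - p.2) := by
    intro p hp
    rcases lt_or_ge 0 (lam p) with hl | hl
    · have h4 := (hiff p hp).2 hl
      have h5 : (p.2 : ℚ) ≤ w.1 + p.1 * w.2 := by exact_mod_cast h4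
      exact mul_nonneg hl.le (by linarith)
    · have h4 : ¬ (p.2 ≤ w.1 + p.1 * w.2) := fun h => absurd ((hiff p hp).1 h) (not_lt.2 hl)
      push Not at h4
      have h5 : (w.1 : ℚ) + p.1 * w.2 < p.2 := by exact_mod_cast h4
      exact mul_nonneg_of_nonpos_of_nonpos hl (by linarith)
  have hzero := (Finset.sum_eq_zero_iff_of_nonneg hnn).1 hsum
  -- a negative coefficient
  have hneg : ∃ p ∈ s, lam p < 0 := by
    by_contra hcon
    push Not at hcon
    have := (Finset.sum_eq_zero_iff_of_nonneg hcon).1 h0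
    exact hfx (this x0 hx0)
  obtain ⟨p, hp, hlp⟩ := hneg
  have h4 : ¬ (p.2 ≤ w.1 + p.1 * w.2) := fun h => absurd ((hiff p hp).1 h) (not_lt.2 hlp.le)
  push Not at h4
  have h5 : (w.1 : ℚ) + p.1 * w.2 < p.2 := by exact_mod_cast h4
  have h6 : 0 < lam p * ((w.1 : ℚ) + p.1 * w.2 - p.2) := mul_pos_of_neg_of_neg hlp (by linarith)
  exact h6.ne' (hzero p hp)

/-- For a finite set `U` of pairs `(j, u)` the sets `{(j,u) ∈ U : u ≤ x + j θ}` (`x, θ : ℕ`) are at most `(|U| + 1)^3` many.
Proof: VC dimension `≤ 3` (four vectors `(1, j, -u)` of `ℚ³` are linearly dependent, `Σ λ_s (1, j_s, -u_s) = 0`, WLOG some `λ_s < 0`; the subset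
`{s : λ_s ≥ 0}` is not cut out: `0 = Σ λ_s (x + j_s θ - u_s) > 0`), then `Finset.card_le_card_shatterer`,
`Finset.card_shatterer_le_sum_vcDim` and `Σ_{i ≤ 3} C(n,i) ≤ (n+1)^3`. -/
theorem card_halfplanes (U : Finset (ℕ × ℕ)) (𝒲 : Finset (ℕ × ℕ)) :
    (𝒲.image (fun w => U.filter (fun p => p.2 ≤ w.1 + p.1 * w.2))).card ≤ (U.card + 1) ^ 3 := by
  classical
  refine (Finset.card_le_card_shatterer _).trans ?_
  have hsub : (𝒲.image (fun w => U.filter (fun p => p.2 ≤ w.1 + p.1 * w.2))).shatterer ⊆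
      (Finset.range 4).biUnion (fun i => Finset.powersetCard i U) := by
    intro s hs
    rw [Finset.mem_shatterer] at hs
    obtain ⟨h1, h2⟩ := shatter_card_le U 𝒲 s hs
    rw [Finset.mem_biUnion]
    exact ⟨s.card, Finset.mem_range.2 (by omega), Finset.mem_powersetCard.2 ⟨h1, rfl⟩⟩
  refine (Finset.card_le_card hsub).trans (Finset.card_biUnion_le.trans ?_)
  simp only [Finset.card_powersetCard, Finset.sum_range_succ, Finset.sum_range_zero, zero_add]
  have h0 := Nat.choose_le_pow U.card 0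
  have h1 := Nat.choose_le_pow U.card 1
  have h2 := Nat.choose_le_pow U.card 2
  have h3 := Nat.choose_le_pow U.card 3
  nlinarith [Nat.zero_le U.card, Nat.zero_le (U.card ^ 2)]

/-- Codings of rotations: `φ : [0, N) → ι` is determined by comparisons with the breakpoints `𝔅`.
Proof: WLOG `x, θ < N`; use `U = {(j, h N + β) : j < k, h ≤ k, β ∈ 𝔅 ∪ {0}}`: the set `{(j,u) ∈ U : u ≤ x + j θ}` determines, for each `j < k`, the
quotient `h = (x + j θ) / N < k` and then the comparisons of `(x + j θ) % N` with `𝔅`. -/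
theorem pat1 {ι : Type*} (N k : ℕ) (hN : 0 < N) (𝔅 : Finset ℕ) (φ : ℕ → ι)
    (hφ : ∀ y y', y < N → y' < N → (∀ β ∈ 𝔅, β ≤ y ↔ β ≤ y') → φ y = φ y') :
    ∃ P : Finset (Fin k → ι), P.card ≤ (k * (k + 1) * (𝔅.card + 1) + 1) ^ 3 ∧
      ∀ x θ : ℕ, (fun j : Fin k => φ ((x + j * θ) % N)) ∈ P := by
  classical
  set U : Finset (ℕ × ℕ) := (Finset.range k ×ˢ (Finset.range (k + 1) ×ˢ insert 0 𝔅)).image
    (fun t => (t.1, t.2.1 * N + t.2.2)) with hU
  have hUcard : U.card ≤ k * (k + 1) * (𝔅.card + 1) := by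
    refine Finset.card_image_le.trans ?_
    rw [Finset.card_product, Finset.card_product, Finset.card_range, Finset.card_range, mul_assoc]
    have := Finset.card_insert_le 0 𝔅
    gcongr
  set 𝒲 : Finset (ℕ × ℕ) := Finset.range N ×ˢ Finset.range N with h𝒲
  set A : ℕ × ℕ → Finset (ℕ × ℕ) := fun w => U.filter (fun p => p.2 ≤ w.1 % N + p.1 * (w.2 % N))
    with hA
  set g : ℕ × ℕ → (Fin k → ι) := fun w => fun j => φ ((w.1 + j * w.2) % N) with hg
  have hmod : ∀ x θ j : ℕ, (x + j * θ) % N = (x % N + j * (θ % N)) % N := by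
    intro x θ j
    have h1 : (x % N + j * (θ % N)) ≡ (x + j * θ) [MOD N] :=
      Nat.ModEq.add (Nat.mod_modEq x N) (Nat.ModEq.mul_left j (Nat.mod_modEq θ N))
    exact h1.symm
  have hfac : Function.FactorsThrough g A := by
    intro w w' hww
    funext j
    simp only [hg]
    rw [hmod, hmod w'.1]
    set x := w.1 % N with hx
    set θ := w.2 % N with hθ
    set x' := w'.1 % N with hx'
    set θ' := w'.2 % N with hθ'
    have hxN : x < N := Nat.mod_lt _ hN
    have hθN : θ < N := Nat.mod_lt _ hN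
    have hxN' : x' < N := Nat.mod_lt _ hN
    have hθN' : θ' < N := Nat.mod_lt _ hN
    have hkey : ∀ h ≤ k, ∀ β ∈ insert 0 𝔅, (h * N + β ≤ x + j * θ ↔ h * N + β ≤ x' + j * θ') := by
      intro h hh β hβ
      have hmem : ((j : ℕ), h * N + β) ∈ U := by
        rw [hU, Finset.mem_image]
        exact ⟨((j : ℕ), h, β), by
          simp only [Finset.mem_product, Finset.mem_range]
          exact ⟨j.2, by omega, hβ⟩, rfl⟩
      have h1 : ((j : ℕ), h * N + β) ∈ A w ↔ ((j : ℕ), h * N + β) ∈ A w' := by rw [hww]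
      simp only [hA, Finset.mem_filter, hmem, true_and] at h1
      exact h1
    have hb1 : x + j * θ < k * N := by
      have : (j : ℕ) + 1 ≤ k := j.2
      nlinarith
    have hb2 : x' + j * θ' < k * N := by
      have : (j : ℕ) + 1 ≤ k := j.2
      nlinarith
    have hq1 : (x + j * θ) / N < k := Nat.div_lt_of_lt_mul (by rw [mul_comm N k]; assumption)
    have hq2 : (x' + j * θ') / N < k := Nat.div_lt_of_lt_mul (by rw [mul_comm N k]; assumption)
    have hqq : (x + j * θ) / N = (x' + j * θ') / N := by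
      apply le_antisymm
      · have h1 := (hkey ((x + j * θ) / N) hq1.le 0 (Finset.mem_insert_self _ _)).1
          (by simpa using Nat.div_mul_le_self _ _)
        rw [Nat.le_div_iff_mul_le hN]
        simpa using h1
      · have h1 := (hkey ((x' + j * θ') / N) hq2.le 0 (Finset.mem_insert_self _ _)).2
          (by simpa using Nat.div_mul_le_self _ _)
        rw [Nat.le_div_iff_mul_le hN]
        simpa using h1
    refine hφ _ _ (Nat.mod_lt _ hN) (Nat.mod_lt _ hN) fun β hβ => ?_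
    have h1 := hkey ((x + j * θ) / N) hq1.le β (Finset.mem_insert_of_mem hβ)
    have h2 := Nat.div_add_mod' (x + j * θ) N
    have h3 := Nat.div_add_mod' (x' + j * θ') N
    rw [← hqq] at h3
    constructor
    · intro h
      have := h1.1 (by omega)
      omega
    · intro h
      have := h1.2 (by omega)
      omega
  refine ⟨(𝒲.image (fun w => U.filter (fun p => p.2 ≤ w.1 + p.1 * w.2))).image
    (Function.extend A g (fun _ _ => φ 0)), ?_, ?_⟩
  · refine Finset.card_image_le.trans ((card_halfplanes U 𝒲).trans ?_)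
    gcongr
  · intro x θ
    rw [Finset.mem_image]
    refine ⟨A (x, θ), ?_, ?_⟩
    · rw [Finset.mem_image]
      refine ⟨(x % N, θ % N), ?_, rfl⟩
      rw [h𝒲, Finset.mem_product]
      exact ⟨Finset.mem_range.2 (Nat.mod_lt _ hN), Finset.mem_range.2 (Nat.mod_lt _ hN)⟩
    · rw [hfac.extend_apply]

end Crest.Agent.VW
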