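import Crest.Agent.VW_Defs

/-! # Task VW-Ret: returns (elementary number theory) -/

set_option autoImplicit false

namespace Crest.Agent.VW

variable {D : ℕ} {N : Fin D → ℕ}

/-- The gcd of two returns is a return.
Proof. For each `i`: `n B = t N + v`, `n' B = t' N + v'`, `|v| T < N`, `|v'| T < N`. Then
`(n' t - n t') N = n v' - n' v` has absolute value `< 2 k N / T ≤ N`, so `n' t = n t'` and `n v' = n' v`. With
`g = gcd n n'`, `n = g α`, `n' = g β`, `β t = α t'`, so `t = α s`; `α (g B - s N) = v`, so `|g B - s N| ≤ |v|`. -/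
theorem ret_gcd {k T B n n' : ℕ} (hT : 2 * k ≤ T) (hn0 : 0 < n) (hn : n < k) (hn0' : 0 < n')
    (hn' : n' < k) (h : Ret N T B n) (h' : Ret N T B n') : Ret N T B (Nat.gcd n n') := by
  intro i
  obtain ⟨t, ht⟩ := h i
  obtain ⟨t', ht'⟩ := h' i
  have hTpos : (0 : ℤ) < T := by
    have : 0 < T := by omega
    exact_mod_cast this
  have hNpos : (0 : ℤ) < N i := lt_of_le_of_lt (by positivity) ht
  set v : ℤ := (n : ℤ) * B - t * N i with hv
  set v' : ℤ := (n' : ℤ) * B - t' * N i with hv'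
  have hkey : (n' : ℤ) * v - n * v' = (n * t' - n' * t) * N i := by rw [hv, hv']; ring
  have hbound : |((n : ℤ) * t' - n' * t)| * N i * T < 1 * N i * T := by
    have h1 : |((n : ℤ) * t' - n' * t)| * N i = |(n' : ℤ) * v - n * v'| := by
      rw [hkey, abs_mul, abs_of_pos hNpos]
    have h2 : |(n' : ℤ) * v - n * v'| ≤ n' * |v| + n * |v'| := by
      calc |(n' : ℤ) * v - n * v'| ≤ |(n' : ℤ) * v| + |(n : ℤ) * v'| := abs_sub _ _
        _ = n' * |v| + n * |v'| := by
          rw [abs_mul, abs_mul, abs_of_nonneg (by positivity : (0 : ℤ) ≤ (n' : ℤ)),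
            abs_of_nonneg (by positivity : (0 : ℤ) ≤ (n : ℤ))]
    rw [h1]
    have h3 : (n' : ℤ) * (|v| * T) ≤ n' * N i := by
      apply mul_le_mul_of_nonneg_left ht.le (by positivity)
    have h4 : (n : ℤ) * (|v'| * T) ≤ n * N i := by
      apply mul_le_mul_of_nonneg_left ht'.le (by positivity)
    have h5 : ((n : ℤ) + n') * N i < T * N i := by
      apply mul_lt_mul_of_pos_right _ hNpos
      have : n + n' < T := by omega
      exact_mod_cast this
    calc |(n' : ℤ) * v - n * v'| * T ≤ (n' * |v| + n * |v'|) * T :=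
          mul_le_mul_of_nonneg_right h2 hTpos.le
      _ = (n' : ℤ) * (|v| * T) + (n : ℤ) * (|v'| * T) := by ring
      _ ≤ n' * N i + n * N i := add_le_add h3 h4
      _ = ((n : ℤ) + n') * N i := by ring
      _ < T * N i := h5
      _ = 1 * N i * T := by ring
  have hzero : (n : ℤ) * t' - n' * t = 0 := by
    have h1 := lt_of_mul_lt_mul_right hbound hTpos.le
    have h2 := lt_of_mul_lt_mul_right h1 hNpos.le
    exact Int.abs_lt_one_iff.1 h2
  -- write n = g α, n' = g β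
  obtain ⟨g, α, β, hg, hcop, hα, hβ⟩ := Nat.exists_coprime' (Nat.gcd_pos_of_pos_left n' hn0)
  have hgg : Nat.gcd n n' = g := by
    rw [hα, hβ, Nat.gcd_mul_right, hcop.gcd_eq_one, one_mul]
  rw [hgg]
  have hαpos : 0 < α := by
    rcases Nat.eq_zero_or_pos α with h0 | h0
    · rw [h0, zero_mul] at hα; omega
    · exact h0
  have hgpos : (0 : ℤ) < g := by exact_mod_cast hg
  have h6 : (α : ℤ) * t' = β * t := by
    have : ((α : ℤ) * t' - β * t) * g = 0 := by
      rw [hα, hβ] at hzero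
      push_cast at hzero
      linarith
    rcases mul_eq_zero.1 this with h7 | h7
    · linarith
    · exact absurd h7 hgpos.ne'
  have h8 : (α : ℤ) ∣ t := by
    have h9 : (α : ℤ) ∣ β * t := ⟨t', h6.symm⟩
    exact (Int.isCoprime_iff_gcd_eq_one.2 (by simpa using hcop)).dvd_of_dvd_mul_left h9
  obtain ⟨s, hs⟩ := h8
  refine ⟨s, ?_⟩
  have h10 : v = α * ((g : ℤ) * B - s * N i) := by
    rw [hv, hs, hα]; push_cast; ring
  have h11 : |(g : ℤ) * B - s * N i| ≤ |v| := by
    rw [h10, abs_mul]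
    have : (1 : ℤ) ≤ |(α : ℤ)| := by
      rw [abs_of_pos (by exact_mod_cast hαpos)]
      exact_mod_cast hαpos
    nlinarith [abs_nonneg ((g : ℤ) * B - s * N i)]
  calc |(g : ℤ) * B - s * N i| * T ≤ |v| * T := mul_le_mul_of_nonneg_right h11 hTpos.le
    _ < N i := ht

/-- a return with step `B` at grid `m * T` is a return with step `m * B` at grid `T` -/
theorem ret_mul {T m B n : ℕ} (hm : 0 < m) (h : Ret N (m * T) B n) : Ret N T (m * B) n := by
  intro i
  obtain ⟨t, ht⟩ := h i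
  refine ⟨m * t, ?_⟩
  have h1 : (n : ℤ) * ((m * B : ℕ) : ℤ) - m * t * N i = m * ((n : ℤ) * B - t * N i) := by
    push_cast; ring
  rw [h1, abs_mul, abs_of_pos (by exact_mod_cast hm : (0 : ℤ) < m)]
  push_cast at ht
  calc (m : ℤ) * |(n : ℤ) * B - t * N i| * T = |(n : ℤ) * B - t * N i| * (m * T) := by ring
    _ < N i := ht

/-- If the least return `n₀` at the coarse level (grid `T`, step `m * B'`) is divisible by a prime `p` with
`k ≤ p ^ e`, `p ^ e ∣ m`, then there is no return `< k` at the fine level (grid `m * T`, step `B'`).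
Proof. If `n < k` is one write `n = p ^ a * n'`, `p ∤ n'`, `a < e`, `m = p ^ a * m'`. Then `n' * (m * B') = m' * (n * B')`, so `n'`
is a return at the coarse level. So is `gcd n₀ n'`, hence `n₀ ∣ n'` by minimality, `p ∣ n'`, contradiction. -/
theorem ret_level {k T m B' e p n₀ : ℕ} (hT : 2 * k ≤ T) (hm : 0 < m) (hp : p.Prime) (hpe : k ≤ p ^ e)
    (hpm : p ^ e ∣ m) (hn0 : 0 < n₀) (hn : n₀ < k) (hpn : p ∣ n₀) (h : Ret N T (m * B') n₀)
    (hmin : ∀ n, 0 < n → n < n₀ → ¬ Ret N T (m * B') n) :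
    ∀ n, 0 < n → n < k → ¬ Ret N (m * T) B' n := by
  intro n hnpos hnk hret
  obtain ⟨a, n', hpn', hnn⟩ := Nat.exists_eq_pow_mul_and_not_dvd hnpos.ne' p hp.ne_one
  have hn'pos : 0 < n' := by
    rcases Nat.eq_zero_or_pos n' with h0 | h0
    · rw [h0, mul_zero] at hnn; omega
    · exact h0
  have hpa : p ^ a ≤ n := by
    rw [hnn]; exact Nat.le_mul_of_pos_right _ hn'pos
  have hae : a < e := by
    by_contra hcon
    have : p ^ e ≤ p ^ a := Nat.pow_le_pow_right hp.pos (not_lt.1 hcon)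
    omega
  obtain ⟨m', hm'⟩ : p ^ a ∣ m := (pow_dvd_pow p hae.le).trans hpm
  have hn'n : n' ≤ n := by
    rw [hnn]; exact Nat.le_mul_of_pos_left _ (pow_pos hp.pos a)
  have hret' : Ret N T (m * B') n' := by
    intro i
    obtain ⟨t, ht⟩ := hret i
    refine ⟨m' * t, ?_⟩
    have h1 : (n' : ℤ) * ((m * B' : ℕ) : ℤ) - m' * t * N i = m' * ((n : ℤ) * B' - t * N i) := by
      rw [hnn, hm']; push_cast; ring
    rw [h1, abs_mul, abs_of_nonneg (by positivity : (0 : ℤ) ≤ (m' : ℤ))]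
    have hm'm : (m' : ℤ) ≤ m := by
      have : m' ≤ m := by
        rw [hm']; exact Nat.le_mul_of_pos_left _ (pow_pos hp.pos a)
      exact_mod_cast this
    push_cast at ht
    calc (m' : ℤ) * |(n : ℤ) * B' - t * N i| * T ≤ m * |(n : ℤ) * B' - t * N i| * T := by
          gcongr
      _ = |(n : ℤ) * B' - t * N i| * (m * T) := by ring
      _ < N i := ht
  have hg := ret_gcd hT hn0 hn hn'pos (lt_of_le_of_lt hn'n hnk) h hret'
  have hgpos : 0 < Nat.gcd n₀ n' := Nat.gcd_pos_of_pos_left _ hn0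
  have hgle : Nat.gcd n₀ n' ≤ n₀ := Nat.gcd_le_left _ hn0
  have hgeq : Nat.gcd n₀ n' = n₀ := by
    by_contra hne
    exact hmin _ hgpos (lt_of_le_of_ne hgle hne) hg
  exact hpn' (hpn.trans (hgeq ▸ Nat.gcd_dvd_right n₀ n'))

/-- dichotomy -/
theorem ret_dichotomy {k T m B' q : ℕ} (hT : 2 * k ≤ T) (hm : 0 < m) (hqk : q < k)
    (hpr : ∀ p, p.Prime → p ≤ q → ∃ e, k ≤ p ^ e ∧ p ^ e ∣ m)
    (h : ∃ n, 0 < n ∧ n ≤ q ∧ Ret N T (m * B') n) :
    Ret N T (m * B') 1 ∨ ∀ n, 0 < n → n < k → ¬ Ret N (m * T) B' n := by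
  classical
  obtain ⟨n₁, h1, h2, h3⟩ := h
  have hex : ∃ n, 0 < n ∧ Ret N T (m * B') n := ⟨n₁, h1, h3⟩
  set n₀ := Nat.find hex with hn₀
  obtain ⟨hpos, hret⟩ := Nat.find_spec hex
  have hle : n₀ ≤ q := (Nat.find_min' hex ⟨h1, h3⟩).trans h2
  by_cases h11 : n₀ = 1
  · left
    rw [← h11]; exact hret
  · right
    obtain ⟨p, hp, hpn⟩ := Nat.exists_prime_and_dvd h11
    obtain ⟨e, he1, he2⟩ := hpr p hp ((Nat.le_of_dvd hpos hpn).trans hle)
    exact ret_level hT hm hp he1 he2 hpos (lt_of_le_of_lt hle hqk) hpn hret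
      fun n hn hnlt hr => Nat.find_min hex hnlt ⟨hn, hr⟩

end Crest.Agent.VW
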